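import Vale.Agent.Lib.P154.PChain.BQ.L

set_option linter.all false

namespace Vale.Agent.Lib.P154.PChain.BQ.S0

open Vale.Agent.Lib.P154.Chain

noncomputable def pc0 : PT := (PT.nd (nat_lit 3551808) (PT.nd (nat_lit 3448692) (PT.nd (nat_lit 3380052) (PT.nd (nat_lit 3345732) (PT.nd (nat_lit 3345654) (PT.nd (nat_lit 3311334) PT.nil (PT.lf (nat_lit 76) (nat_lit 3) (nat_lit 1) (nat_lit 1) (nat_lit 117) (nat_lit 96) (nat_lit 117))) (PT.lf (nat_lit 152) (nat_lit 6) (nat_lit 2) (nat_lit 3) (nat_lit 116) (nat_lit 97) (nat_lit 117))) (PT.nd (nat_lit 34242) (PT.lf (nat_lit 152) (nat_lit 6) (nat_lit 2) (nat_lit 1) (nat_lit 117) (nat_lit 97) (nat_lit 116)) (PT.lf (nat_lit 228) (nat_lit 6) (nat_lit 3) (nat_lit 3) (nat_lit 115) (nat_lit 98) (nat_lit 117)))) (PT.nd (nat_lit 34320) (PT.nd (nat_lit 78) (PT.lf (nat_lit 304) (nat_lit 3) (nat_lit 4) (nat_lit 1) (nat_lit 116) (nat_lit 98) (nat_lit 116))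 (PT.lf (nat_lit 228) (nat_lit 6) (nat_lit 3) (nat_lit 1) (nat_lit 117) (nat_lit 98) (nat_lit 115))) (PT.nd (nat_lit 78) (PT.lf (nat_lit 380) (nat_lit 6) (nat_lit 5) (nat_lit 3) (nat_lit 115) (nat_lit 99) (nat_lit 116)) (PT.lf (nat_lit 380) (nat_lit 6) (nat_lit 5) (nat_lit 1) (nat_lit 116) (nat_lit 99) (nat_lit 115))))) (PT.nd (nat_lit 34476) (PT.nd (nat_lit 156) (PT.nd (nat_lit 78) (PT.lf (nat_lit 456) (nat_lit 6) (nat_lit 6) (nat_lit 3) (nat_lit 114) (nat_lit 100) (nat_lit 116)) (PT.lf (nat_lit 532) (nat_lit 3) (nat_lit 7) (nat_lit 1) (nat_lit 115) (nat_lit 100) (nat_lit 115))) (PT.nd (nat_lit 34242) (PT.lf (nat_lit 456) (nat_lit 6) (nat_lit 6) (nat_lit 1) (nat_lit 116) (nat_lit 100) (nat_lit 114)) (PT.lf (nat_lit 608) (nat_lit 6) (nat_lit 8) (nat_lit 3) (nat_lit 114) (nat_lit 101) (nat_lit 115)))) (PT.nd (nat_lit 34320) (PT.nd (nat_lit 34242) (PT.lf (nat_lit 608) (nat_lit 6) (nat_lit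 8) (nat_lit 1) (nat_lit 115) (nat_lit 101) (nat_lit 114)) (PT.lf (nat_lit 684) (nat_lit 6) (nat_lit 9) (nat_lit 3) (nat_lit 113) (nat_lit 102) (nat_lit 115))) (PT.nd (nat_lit 78) (PT.lf (nat_lit 760) (nat_lit 3) (nat_lit 10) (nat_lit 1) (nat_lit 114) (nat_lit 102) (nat_lit 114)) (PT.nd (nat_lit 34164) (PT.lf (nat_lit 684) (nat_lit 6) (nat_lit 9) (nat_lit 1) (nat_lit 115) (nat_lit 102) (nat_lit 113)) (PT.lf (nat_lit 836) (nat_lit 6) (nat_lit 11) (nat_lit 3) (nat_lit 112) (nat_lit 103) (nat_lit 115))))))) (PT.nd (nat_lit 68874) (PT.nd (nat_lit 34398) (PT.nd (nat_lit 156) (PT.nd (nat_lit 78) (PT.lf (nat_lit 912) (nat_lit 6) (nat_lit 12) (nat_lit 3) (nat_lit 113) (nat_lit 103) (nat_lit 114)) (PT.lf (nat_lit 912) (nat_lit 6) (nat_lit 12) (nat_lit 1) (nat_lit 114) (nat_lit 103) (nat_lit 113))) (PT.nd (nat_lit 34164) (PT.lf (nat_lit 836) (nat_lit 6) (nat_lit 11) (nat_lit 1) (nat_lit 115) (nat_lit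 103) (nat_lit 112)) (PT.lf (nat_lit 988) (nat_lit 6) (nat_lit 13) (nat_lit 3) (nat_lit 112) (nat_lit 104) (nat_lit 114)))) (PT.nd (nat_lit 34242) (PT.nd (nat_lit 78) (PT.lf (nat_lit 1064) (nat_lit 3) (nat_lit 14) (nat_lit 1) (nat_lit 113) (nat_lit 104) (nat_lit 113)) (PT.lf (nat_lit 988) (nat_lit 6) (nat_lit 13) (nat_lit 1) (nat_lit 114) (nat_lit 104) (nat_lit 112))) (PT.nd (nat_lit 78) (PT.lf (nat_lit 1140) (nat_lit 6) (nat_lit 15) (nat_lit 3) (nat_lit 111) (nat_lit 105) (nat_lit 114)) (PT.nd (nat_lit 78) (PT.lf (nat_lit 1216) (nat_lit 6) (nat_lit 16) (nat_lit 3) (nat_lit 112) (nat_lit 105) (nat_lit 113)) (PT.lf (nat_lit 1216) (nat_lit 6) (nat_lit 16) (nat_lit 1) (nat_lit 113) (nat_lit 105) (nat_lit 112)))))) (PT.nd (nat_lit 34320) (PT.nd (nat_lit 34164) (PT.nd (nat_lit 34086) (PT.lf (nat_lit 1140) (nat_lit 6) (nat_lit 15) (nat_lit 1) (nat_lit 114) (nat_lit 105) (nat_lit 111)) (PT.lf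 (nat_lit 1444) (nat_lit 6) (nat_lit 19) (nat_lit 3) (nat_lit 110) (nat_lit 106) (nat_lit 114))) (PT.nd (nat_lit 78) (PT.lf (nat_lit 1520) (nat_lit 6) (nat_lit 20) (nat_lit 3) (nat_lit 111) (nat_lit 106) (nat_lit 113)) (PT.lf (nat_lit 1596) (nat_lit 3) (nat_lit 21) (nat_lit 1) (nat_lit 112) (nat_lit 106) (nat_lit 112)))) (PT.nd (nat_lit 34086) (PT.nd (nat_lit 78) (PT.lf (nat_lit 1520) (nat_lit 6) (nat_lit 20) (nat_lit 1) (nat_lit 113) (nat_lit 106) (nat_lit 111)) (PT.lf (nat_lit 1444) (nat_lit 6) (nat_lit 19) (nat_lit 1) (nat_lit 114) (nat_lit 106) (nat_lit 110))) (PT.nd (nat_lit 78) (PT.lf (nat_lit 1368) (nat_lit 6) (nat_lit 18) (nat_lit 3) (nat_lit 109) (nat_lit 107) (nat_lit 114)) (PT.nd (nat_lit 78) (PT.lf (nat_lit 1748) (nat_lit 6) (nat_lit 23) (nat_lit 3) (nat_lit 110) (nat_lit 107) (nat_lit 113)) (PT.lf (nat_lit 1824) (nat_lit 6) (nat_lit 24) (nat_lit 3) (nat_lit 111) (nat_lit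 107) (nat_lit 112))))))))
noncomputable def pc1 : PT := (PT.nd (nat_lit 102726) (PT.nd (nat_lit 34554) (PT.nd (nat_lit 34164) (PT.nd (nat_lit 156) (PT.nd (nat_lit 78) (PT.lf (nat_lit 1824) (nat_lit 6) (nat_lit 24) (nat_lit 1) (nat_lit 112) (nat_lit 107) (nat_lit 111)) (PT.lf (nat_lit 1748) (nat_lit 6) (nat_lit 23) (nat_lit 1) (nat_lit 113) (nat_lit 107) (nat_lit 110))) (PT.nd (nat_lit 33930) (PT.lf (nat_lit 1368) (nat_lit 6) (nat_lit 18) (nat_lit 1) (nat_lit 114) (nat_lit 107) (nat_lit 109)) (PT.lf (nat_lit 1292) (nat_lit 3) (nat_lit 17) (nat_lit 3) (nat_lit 108) (nat_lit 108) (nat_lit 114)))) (PT.nd (nat_lit 156) (PT.nd (nat_lit 78) (PT.lf (nat_lit 1672) (nat_lit 6) (nat_lit 22) (nat_lit 3) (nat_lit 109) (nat_lit 108) (nat_lit 113)) (PT.lf (nat_lit 1976) (nat_lit 6) (nat_lit 26) (nat_lit 3) (nat_lit 110) (nat_lit 108) (nat_lit 112))) (PT.nd (nat_lit 78) (PT.lf (nat_lit 2052) (nat_lit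 3) (nat_lit 27) (nat_lit 1) (nat_lit 111) (nat_lit 108) (nat_lit 111)) (PT.nd (nat_lit 78) (PT.lf (nat_lit 1976) (nat_lit 6) (nat_lit 26) (nat_lit 1) (nat_lit 112) (nat_lit 108) (nat_lit 110)) (PT.lf (nat_lit 1672) (nat_lit 6) (nat_lit 22) (nat_lit 1) (nat_lit 113) (nat_lit 108) (nat_lit 109)))))) (PT.nd (nat_lit 34086) (PT.nd (nat_lit 33930) (PT.nd (nat_lit 33852) (PT.lf (nat_lit 1292) (nat_lit 3) (nat_lit 17) (nat_lit 0) (nat_lit 114) (nat_lit 108) (nat_lit 108)) (PT.lf (nat_lit 1368) (nat_lit 6) (nat_lit 18) (nat_lit 5) (nat_lit 107) (nat_lit 109) (nat_lit 114))) (PT.nd (nat_lit 78) (PT.lf (nat_lit 1672) (nat_lit 6) (nat_lit 22) (nat_lit 5) (nat_lit 108) (nat_lit 109) (nat_lit 113)) (PT.lf (nat_lit 1900) (nat_lit 3) (nat_lit 25) (nat_lit 3) (nat_lit 109) (nat_lit 109) (nat_lit 112)))) (PT.nd (nat_lit 156) (PT.nd (nat_lit 78) (PT.lf (nat_lit 2128) (nat_lit 6) (nat_lit 28) (nat_lit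 3) (nat_lit 110) (nat_lit 109) (nat_lit 111)) (PT.lf (nat_lit 2128) (nat_lit 6) (nat_lit 28) (nat_lit 1) (nat_lit 111) (nat_lit 109) (nat_lit 110))) (PT.nd (nat_lit 78) (PT.lf (nat_lit 1900) (nat_lit 3) (nat_lit 25) (nat_lit 0) (nat_lit 112) (nat_lit 109) (nat_lit 109)) (PT.nd (nat_lit 78) (PT.lf (nat_lit 1672) (nat_lit 6) (nat_lit 22) (nat_lit 0) (nat_lit 113) (nat_lit 109) (nat_lit 108)) (PT.lf (nat_lit 1368) (nat_lit 6) (nat_lit 18) (nat_lit 0) (nat_lit 114) (nat_lit 109) (nat_lit 107))))))) (PT.nd (nat_lit 34320) (PT.nd (nat_lit 312) (PT.nd (nat_lit 156) (PT.nd (nat_lit 78) (PT.lf (nat_lit 1444) (nat_lit 6) (nat_lit 19) (nat_lit 5) (nat_lit 106) (nat_lit 110) (nat_lit 114)) (PT.lf (nat_lit 1748) (nat_lit 6) (nat_lit 23) (nat_lit 5) (nat_lit 107) (nat_lit 110) (nat_lit 113))) (PT.nd (nat_lit 78) (PT.lf (nat_lit 1976) (nat_lit 6) (nat_lit 26) (nat_lit 5) (nat_lit 108) (nat_lit 110)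 (nat_lit 112)) (PT.lf (nat_lit 2128) (nat_lit 6) (nat_lit 28) (nat_lit 5) (nat_lit 109) (nat_lit 110) (nat_lit 111)))) (PT.nd (nat_lit 156) (PT.nd (nat_lit 78) (PT.lf (nat_lit 2204) (nat_lit 1) (nat_lit 29) (nat_lit 0) (nat_lit 110) (nat_lit 110) (nat_lit 110)) (PT.lf (nat_lit 2128) (nat_lit 6) (nat_lit 28) (nat_lit 0) (nat_lit 111) (nat_lit 110) (nat_lit 109))) (PT.nd (nat_lit 78) (PT.lf (nat_lit 1976) (nat_lit 6) (nat_lit 26) (nat_lit 0) (nat_lit 112) (nat_lit 110) (nat_lit 108)) (PT.nd (nat_lit 78) (PT.lf (nat_lit 1748) (nat_lit 6) (nat_lit 23) (nat_lit 0) (nat_lit 113) (nat_lit 110) (nat_lit 107)) (PT.lf (nat_lit 1444) (nat_lit 6) (nat_lit 19) (nat_lit 0) (nat_lit 114) (nat_lit 110) (nat_lit 106)))))) (PT.nd (nat_lit 312) (PT.nd (nat_lit 156) (PT.nd (nat_lit 78) (PT.lf (nat_lit 1140) (nat_lit 6) (nat_lit 15) (nat_lit 5) (nat_lit 105) (nat_lit 111) (nat_lit 114)) (PT.lf (nat_lit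 1520) (nat_lit 6) (nat_lit 20) (nat_lit 5) (nat_lit 106) (nat_lit 111) (nat_lit 113))) (PT.nd (nat_lit 78) (PT.lf (nat_lit 1824) (nat_lit 6) (nat_lit 24) (nat_lit 5) (nat_lit 107) (nat_lit 111) (nat_lit 112)) (PT.lf (nat_lit 2052) (nat_lit 3) (nat_lit 27) (nat_lit 4) (nat_lit 108) (nat_lit 111) (nat_lit 111)))) (PT.nd (nat_lit 156) (PT.nd (nat_lit 78) (PT.lf (nat_lit 2128) (nat_lit 6) (nat_lit 28) (nat_lit 4) (nat_lit 109) (nat_lit 111) (nat_lit 110)) (PT.lf (nat_lit 2128) (nat_lit 6) (nat_lit 28) (nat_lit 2) (nat_lit 110) (nat_lit 111) (nat_lit 109))) (PT.nd (nat_lit 78) (PT.lf (nat_lit 2052) (nat_lit 3) (nat_lit 27) (nat_lit 0) (nat_lit 111) (nat_lit 111) (nat_lit 108)) (PT.nd (nat_lit 78) (PT.lf (nat_lit 1824) (nat_lit 6) (nat_lit 24) (nat_lit 0) (nat_lit 112) (nat_lit 111) (nat_lit 107)) (PT.lf (nat_lit 1520) (nat_lit 6) (nat_lit 20) (nat_lit 0) (nat_lit 113) (nat_lit 111) (nat_lit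 106))))))))
noncomputable def pc2 : PT := (PT.nd (nat_lit 68094) (PT.nd (nat_lit 34086) (PT.nd (nat_lit 33774) (PT.nd (nat_lit 33618) (PT.nd (nat_lit 33540) (PT.lf (nat_lit 1140) (nat_lit 6) (nat_lit 15) (nat_lit 0) (nat_lit 114) (nat_lit 111) (nat_lit 105)) (PT.lf (nat_lit 836) (nat_lit 6) (nat_lit 11) (nat_lit 5) (nat_lit 103) (nat_lit 112) (nat_lit 115))) (PT.nd (nat_lit 78) (PT.lf (nat_lit 988) (nat_lit 6) (nat_lit 13) (nat_lit 5) (nat_lit 104) (nat_lit 112) (nat_lit 114)) (PT.lf (nat_lit 1216) (nat_lit 6) (nat_lit 16) (nat_lit 5) (nat_lit 105) (nat_lit 112) (nat_lit 113)))) (PT.nd (nat_lit 156) (PT.nd (nat_lit 78) (PT.lf (nat_lit 1596) (nat_lit 3) (nat_lit 21) (nat_lit 4) (nat_lit 106) (nat_lit 112) (nat_lit 112)) (PT.lf (nat_lit 1824) (nat_lit 6) (nat_lit 24) (nat_lit 4) (nat_lit 107) (nat_lit 112) (nat_lit 111))) (PT.nd (nat_lit 78) (PT.lf (nat_lit 1976) (nat_lit 6) (nat_lit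 26) (nat_lit 4) (nat_lit 108) (nat_lit 112) (nat_lit 110)) (PT.lf (nat_lit 1900) (nat_lit 3) (nat_lit 25) (nat_lit 2) (nat_lit 109) (nat_lit 112) (nat_lit 109))))) (PT.nd (nat_lit 312) (PT.nd (nat_lit 156) (PT.nd (nat_lit 78) (PT.lf (nat_lit 1976) (nat_lit 6) (nat_lit 26) (nat_lit 2) (nat_lit 110) (nat_lit 112) (nat_lit 108)) (PT.lf (nat_lit 1824) (nat_lit 6) (nat_lit 24) (nat_lit 2) (nat_lit 111) (nat_lit 112) (nat_lit 107))) (PT.nd (nat_lit 78) (PT.lf (nat_lit 1596) (nat_lit 3) (nat_lit 21) (nat_lit 0) (nat_lit 112) (nat_lit 112) (nat_lit 106)) (PT.lf (nat_lit 1216) (nat_lit 6) (nat_lit 16) (nat_lit 0) (nat_lit 113) (nat_lit 112) (nat_lit 105)))) (PT.nd (nat_lit 33462) (PT.nd (nat_lit 78) (PT.lf (nat_lit 988) (nat_lit 6) (nat_lit 13) (nat_lit 0) (nat_lit 114) (nat_lit 112) (nat_lit 104)) (PT.lf (nat_lit 836) (nat_lit 6) (nat_lit 11) (nat_lit 0) (nat_lit 115) (nat_lit 112) (nat_lit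 103))) (PT.nd (nat_lit 78) (PT.lf (nat_lit 684) (nat_lit 6) (nat_lit 9) (nat_lit 5) (nat_lit 102) (nat_lit 113) (nat_lit 115)) (PT.nd (nat_lit 78) (PT.lf (nat_lit 912) (nat_lit 6) (nat_lit 12) (nat_lit 5) (nat_lit 103) (nat_lit 113) (nat_lit 114)) (PT.lf (nat_lit 1064) (nat_lit 3) (nat_lit 14) (nat_lit 4) (nat_lit 104) (nat_lit 113) (nat_lit 113))))))) (PT.nd (nat_lit 702) (PT.nd (nat_lit 312) (PT.nd (nat_lit 156) (PT.nd (nat_lit 78) (PT.lf (nat_lit 1216) (nat_lit 6) (nat_lit 16) (nat_lit 4) (nat_lit 105) (nat_lit 113) (nat_lit 112)) (PT.lf (nat_lit 1520) (nat_lit 6) (nat_lit 20) (nat_lit 4) (nat_lit 106) (nat_lit 113) (nat_lit 111))) (PT.nd (nat_lit 78) (PT.lf (nat_lit 1748) (nat_lit 6) (nat_lit 23) (nat_lit 4) (nat_lit 107) (nat_lit 113) (nat_lit 110)) (PT.lf (nat_lit 1672) (nat_lit 6) (nat_lit 22) (nat_lit 4) (nat_lit 108) (nat_lit 113) (nat_lit 109)))) (PT.nd (nat_lit 156) (PT.nd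 (nat_lit 78) (PT.lf (nat_lit 1672) (nat_lit 6) (nat_lit 22) (nat_lit 2) (nat_lit 109) (nat_lit 113) (nat_lit 108)) (PT.lf (nat_lit 1748) (nat_lit 6) (nat_lit 23) (nat_lit 2) (nat_lit 110) (nat_lit 113) (nat_lit 107))) (PT.nd (nat_lit 78) (PT.lf (nat_lit 1520) (nat_lit 6) (nat_lit 20) (nat_lit 2) (nat_lit 111) (nat_lit 113) (nat_lit 106)) (PT.nd (nat_lit 78) (PT.lf (nat_lit 1216) (nat_lit 6) (nat_lit 16) (nat_lit 2) (nat_lit 112) (nat_lit 113) (nat_lit 105)) (PT.lf (nat_lit 1064) (nat_lit 3) (nat_lit 14) (nat_lit 0) (nat_lit 113) (nat_lit 113) (nat_lit 104)))))) (PT.nd (nat_lit 33462) (PT.nd (nat_lit 33306) (PT.nd (nat_lit 78) (PT.lf (nat_lit 912) (nat_lit 6) (nat_lit 12) (nat_lit 0) (nat_lit 114) (nat_lit 113) (nat_lit 103)) (PT.lf (nat_lit 684) (nat_lit 6) (nat_lit 9) (nat_lit 0) (nat_lit 115) (nat_lit 113) (nat_lit 102))) (PT.nd (nat_lit 78) (PT.lf (nat_lit 456) (nat_lit 6) (nat_lit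 6) (nat_lit 5) (nat_lit 100) (nat_lit 114) (nat_lit 116)) (PT.lf (nat_lit 608) (nat_lit 6) (nat_lit 8) (nat_lit 5) (nat_lit 101) (nat_lit 114) (nat_lit 115)))) (PT.nd (nat_lit 156) (PT.nd (nat_lit 78) (PT.lf (nat_lit 760) (nat_lit 3) (nat_lit 10) (nat_lit 4) (nat_lit 102) (nat_lit 114) (nat_lit 114)) (PT.lf (nat_lit 912) (nat_lit 6) (nat_lit 12) (nat_lit 4) (nat_lit 103) (nat_lit 114) (nat_lit 113))) (PT.nd (nat_lit 78) (PT.lf (nat_lit 988) (nat_lit 6) (nat_lit 13) (nat_lit 4) (nat_lit 104) (nat_lit 114) (nat_lit 112)) (PT.nd (nat_lit 78) (PT.lf (nat_lit 1140) (nat_lit 6) (nat_lit 15) (nat_lit 4) (nat_lit 105) (nat_lit 114) (nat_lit 111)) (PT.lf (nat_lit 1444) (nat_lit 6) (nat_lit 19) (nat_lit 4) (nat_lit 106) (nat_lit 114) (nat_lit 110))))))))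
noncomputable def pc3 : PT := (PT.nd (nat_lit 34944) (PT.nd (nat_lit 702) (PT.nd (nat_lit 312) (PT.nd (nat_lit 156) (PT.nd (nat_lit 78) (PT.lf (nat_lit 1368) (nat_lit 6) (nat_lit 18) (nat_lit 4) (nat_lit 107) (nat_lit 114) (nat_lit 109)) (PT.lf (nat_lit 1292) (nat_lit 3) (nat_lit 17) (nat_lit 2) (nat_lit 108) (nat_lit 114) (nat_lit 108))) (PT.nd (nat_lit 78) (PT.lf (nat_lit 1368) (nat_lit 6) (nat_lit 18) (nat_lit 2) (nat_lit 109) (nat_lit 114) (nat_lit 107)) (PT.lf (nat_lit 1444) (nat_lit 6) (nat_lit 19) (nat_lit 2) (nat_lit 110) (nat_lit 114) (nat_lit 106)))) (PT.nd (nat_lit 156) (PT.nd (nat_lit 78) (PT.lf (nat_lit 1140) (nat_lit 6) (nat_lit 15) (nat_lit 2) (nat_lit 111) (nat_lit 114) (nat_lit 105)) (PT.lf (nat_lit 988) (nat_lit 6) (nat_lit 13) (nat_lit 2) (nat_lit 112) (nat_lit 114) (nat_lit 104))) (PT.nd (nat_lit 78) (PT.lf (nat_lit 912) (nat_lit 6) (nat_lit 12) (nat_lit 2) (nat_lit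 113) (nat_lit 114) (nat_lit 103)) (PT.nd (nat_lit 78) (PT.lf (nat_lit 760) (nat_lit 3) (nat_lit 10) (nat_lit 0) (nat_lit 114) (nat_lit 114) (nat_lit 102)) (PT.lf (nat_lit 608) (nat_lit 6) (nat_lit 8) (nat_lit 0) (nat_lit 115) (nat_lit 114) (nat_lit 101)))))) (PT.nd (nat_lit 33228) (PT.nd (nat_lit 33072) (PT.nd (nat_lit 32994) (PT.lf (nat_lit 456) (nat_lit 6) (nat_lit 6) (nat_lit 0) (nat_lit 116) (nat_lit 114) (nat_lit 100)) (PT.lf (nat_lit 228) (nat_lit 6) (nat_lit 3) (nat_lit 5) (nat_lit 98) (nat_lit 115) (nat_lit 117))) (PT.nd (nat_lit 78) (PT.lf (nat_lit 380) (nat_lit 6) (nat_lit 5) (nat_lit 5) (nat_lit 99) (nat_lit 115) (nat_lit 116)) (PT.lf (nat_lit 532) (nat_lit 3) (nat_lit 7) (nat_lit 4) (nat_lit 100) (nat_lit 115) (nat_lit 115)))) (PT.nd (nat_lit 156) (PT.nd (nat_lit 78) (PT.lf (nat_lit 608) (nat_lit 6) (nat_lit 8) (nat_lit 4) (nat_lit 101) (nat_lit 115) (nat_lit 114)) (PT.lf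 (nat_lit 684) (nat_lit 6) (nat_lit 9) (nat_lit 4) (nat_lit 102) (nat_lit 115) (nat_lit 113))) (PT.nd (nat_lit 702) (PT.lf (nat_lit 836) (nat_lit 6) (nat_lit 11) (nat_lit 4) (nat_lit 103) (nat_lit 115) (nat_lit 112)) (PT.nd (nat_lit 78) (PT.lf (nat_lit 836) (nat_lit 6) (nat_lit 11) (nat_lit 2) (nat_lit 112) (nat_lit 115) (nat_lit 103)) (PT.lf (nat_lit 684) (nat_lit 6) (nat_lit 9) (nat_lit 2) (nat_lit 113) (nat_lit 115) (nat_lit 102))))))) (PT.nd (nat_lit 34476) (PT.nd (nat_lit 33072) (PT.nd (nat_lit 156) (PT.nd (nat_lit 78) (PT.lf (nat_lit 608) (nat_lit 6) (nat_lit 8) (nat_lit 2) (nat_lit 114) (nat_lit 115) (nat_lit 101)) (PT.lf (nat_lit 532) (nat_lit 3) (nat_lit 7) (nat_lit 0) (nat_lit 115) (nat_lit 115) (nat_lit 100))) (PT.nd (nat_lit 78) (PT.lf (nat_lit 380) (nat_lit 6) (nat_lit 5) (nat_lit 0) (nat_lit 116) (nat_lit 115) (nat_lit 99)) (PT.lf (nat_lit 228) (nat_lit 6) (nat_lit 3) (nat_lit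 0) (nat_lit 117) (nat_lit 115) (nat_lit 98)))) (PT.nd (nat_lit 156) (PT.nd (nat_lit 78) (PT.lf (nat_lit 152) (nat_lit 6) (nat_lit 2) (nat_lit 5) (nat_lit 97) (nat_lit 116) (nat_lit 117)) (PT.lf (nat_lit 304) (nat_lit 3) (nat_lit 4) (nat_lit 4) (nat_lit 98) (nat_lit 116) (nat_lit 116))) (PT.nd (nat_lit 78) (PT.lf (nat_lit 380) (nat_lit 6) (nat_lit 5) (nat_lit 4) (nat_lit 99) (nat_lit 116) (nat_lit 115)) (PT.nd (nat_lit 1092) (PT.lf (nat_lit 456) (nat_lit 6) (nat_lit 6) (nat_lit 4) (nat_lit 100) (nat_lit 116) (nat_lit 114)) (PT.lf (nat_lit 456) (nat_lit 6) (nat_lit 6) (nat_lit 2) (nat_lit 114) (nat_lit 116) (nat_lit 100)))))) (PT.nd (nat_lit 32994) (PT.nd (nat_lit 156) (PT.nd (nat_lit 78) (PT.lf (nat_lit 380) (nat_lit 6) (nat_lit 5) (nat_lit 2) (nat_lit 115) (nat_lit 116) (nat_lit 99)) (PT.lf (nat_lit 304) (nat_lit 3) (nat_lit 4) (nat_lit 0) (nat_lit 116) (nat_lit 116) (nat_lit 98)))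 (PT.nd (nat_lit 32760) (PT.lf (nat_lit 152) (nat_lit 6) (nat_lit 2) (nat_lit 0) (nat_lit 117) (nat_lit 116) (nat_lit 97)) (PT.lf (nat_lit 76) (nat_lit 3) (nat_lit 1) (nat_lit 4) (nat_lit 96) (nat_lit 117) (nat_lit 117)))) (PT.nd (nat_lit 1404) (PT.nd (nat_lit 78) (PT.lf (nat_lit 152) (nat_lit 6) (nat_lit 2) (nat_lit 4) (nat_lit 97) (nat_lit 117) (nat_lit 116)) (PT.lf (nat_lit 228) (nat_lit 6) (nat_lit 3) (nat_lit 4) (nat_lit 98) (nat_lit 117) (nat_lit 115))) (PT.nd (nat_lit 78) (PT.lf (nat_lit 228) (nat_lit 6) (nat_lit 3) (nat_lit 2) (nat_lit 115) (nat_lit 117) (nat_lit 98)) (PT.nd (nat_lit 78) (PT.lf (nat_lit 152) (nat_lit 6) (nat_lit 2) (nat_lit 2) (nat_lit 116) (nat_lit 117) (nat_lit 97)) (PT.lf (nat_lit 76) (nat_lit 3) (nat_lit 1) (nat_lit 0) (nat_lit 117) (nat_lit 117) (nat_lit 96))))))))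
noncomputable def xc0 : XT := (XT.nd (nat_lit 274248) (nat_lit 0) (nat_lit 0) (XT.nd (nat_lit 239694) (nat_lit 0) (nat_lit 0) (XT.nd (nat_lit 171210) (nat_lit 0) (nat_lit 0) (XT.nd (nat_lit 34320) (nat_lit 0) (nat_lit 0) (XT.nd (nat_lit 34242) (nat_lit 0) (nat_lit 0) (XT.lf (nat_lit 0) (nat_lit 85496802209963) (nat_lit 76) (nat_lit 113759481965835) (nat_lit 76) (nat_lit 113759481965835) (nat_lit 1) (nat_lit 4) (nat_lit 2) (nat_lit 5) (nat_lit 2) (nat_lit 4) (nat_lit 314) (nat_lit 173) (nat_lit 173)) (XT.lf (nat_lit 0) (nat_lit 64647814326721) (nat_lit 76) (nat_lit 86018539474444) (nat_lit 76) (nat_lit 86018539474444) (nat_lit 1) (nat_lit 4) (nat_lit 2) (nat_lit 5) (nat_lit 2) (nat_lit 4) (nat_lit 312) (nat_lit 174) (nat_lit 174))) (XT.nd (nat_lit 78) (nat_lit 0) (nat_lit 0) (XT.lf (nat_lit 0) (nat_lit 148690037348143) (nat_lit 76) (nat_lit 197842607004037) (nat_lit 76) (nat_lit 197842605225442)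 (nat_lit 1) (nat_lit 4) (nat_lit 2) (nat_lit 5) (nat_lit 2) (nat_lit 4) (nat_lit 313) (nat_lit 174) (nat_lit 173)) (XT.lf (nat_lit 0) (nat_lit 170993601874604) (nat_lit 76) (nat_lit 227518966964883) (nat_lit 76) (nat_lit 227518963639684) (nat_lit 1) (nat_lit 4) (nat_lit 2) (nat_lit 5) (nat_lit 2) (nat_lit 4) (nat_lit 314) (nat_lit 174) (nat_lit 172)))) (XT.nd (nat_lit 34320) (nat_lit 0) (nat_lit 0) (XT.nd (nat_lit 34242) (nat_lit 0) (nat_lit 0) (XT.lf (nat_lit 0) (nat_lit 21133272419824) (nat_lit 76) (nat_lit 28119727704758) (nat_lit 76) (nat_lit 28119727704758) (nat_lit 1) (nat_lit 4) (nat_lit 2) (nat_lit 5) (nat_lit 2) (nat_lit 4) (nat_lit 304) (nat_lit 178) (nat_lit 178)) (XT.lf (nat_lit 0) (nat_lit 15979687050646) (nat_lit 76) (nat_lit 21262609525448) (nat_lit 76) (nat_lit 21262609525448) (nat_lit 1) (nat_lit 4) (nat_lit 2) (nat_lit 5) (nat_lit 2) (nat_lit 4) (nat_lit 302) (nat_lit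 179) (nat_lit 179))) (XT.nd (nat_lit 78) (nat_lit 0) (nat_lit 0) (XT.lf (nat_lit 0) (nat_lit 36753409741220) (nat_lit 76) (nat_lit 48903933950433) (nat_lit 76) (nat_lit 48903930373044) (nat_lit 1) (nat_lit 4) (nat_lit 2) (nat_lit 5) (nat_lit 2) (nat_lit 4) (nat_lit 303) (nat_lit 179) (nat_lit 178)) (XT.lf (nat_lit 0) (nat_lit 42266539720094) (nat_lit 76) (nat_lit 56239461510387) (nat_lit 76) (nat_lit 56239454822225) (nat_lit 1) (nat_lit 4) (nat_lit 2) (nat_lit 5) (nat_lit 2) (nat_lit 4) (nat_lit 304) (nat_lit 179) (nat_lit 177))))) (XT.nd (nat_lit 34242) (nat_lit 0) (nat_lit 0) (XT.nd (nat_lit 156) (nat_lit 0) (nat_lit 0) (XT.nd (nat_lit 78) (nat_lit 0) (nat_lit 0) (XT.lf (nat_lit 0) (nat_lit 12082820651039) (nat_lit 76) (nat_lit 16077651362565) (nat_lit 76) (nat_lit 16077651362565) (nat_lit 1) (nat_lit 4) (nat_lit 2) (nat_lit 5) (nat_lit 2) (nat_lit 4) (nat_lit 300) (nat_lit 180) (nat_lit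 180)) (XT.lf (nat_lit 0) (nat_lit 27790636450835) (nat_lit 76) (nat_lit 36978519982088) (nat_lit 76) (nat_lit 36978515868091) (nat_lit 1) (nat_lit 4) (nat_lit 2) (nat_lit 5) (nat_lit 2) (nat_lit 4) (nat_lit 301) (nat_lit 180) (nat_lit 179))) (XT.nd (nat_lit 78) (nat_lit 0) (nat_lit 0) (XT.lf (nat_lit 0) (nat_lit 31959368213805) (nat_lit 76) (nat_lit 42525226066899) (nat_lit 76) (nat_lit 42525218375512) (nat_lit 1) (nat_lit 4) (nat_lit 2) (nat_lit 5) (nat_lit 2) (nat_lit 4) (nat_lit 302) (nat_lit 180) (nat_lit 178)) (XT.lf (nat_lit 0) (nat_lit 36753398734178) (nat_lit 76) (nat_lit 48903943489918) (nat_lit 76) (nat_lit 48903932687758) (nat_lit 1) (nat_lit 4) (nat_lit 2) (nat_lit 5) (nat_lit 2) (nat_lit 4) (nat_lit 303) (nat_lit 180) (nat_lit 177)))) (XT.nd (nat_lit 156) (nat_lit 0) (nat_lit 0) (XT.nd (nat_lit 78) (nat_lit 0) (nat_lit 0) (XT.lf (nat_lit 0) (nat_lit 9136212023021) (nat_lit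 76) (nat_lit 12157087655457) (nat_lit 76) (nat_lit 12157087655457) (nat_lit 1) (nat_lit 4) (nat_lit 2) (nat_lit 5) (nat_lit 2) (nat_lit 4) (nat_lit 298) (nat_lit 181) (nat_lit 181)) (XT.lf (nat_lit 0) (nat_lit 21013458949410) (nat_lit 76) (nat_lit 27961211732967) (nat_lit 76) (nat_lit 27961207001870) (nat_lit 1) (nat_lit 4) (nat_lit 2) (nat_lit 5) (nat_lit 2) (nat_lit 4) (nat_lit 299) (nat_lit 181) (nat_lit 180))) (XT.nd (nat_lit 78) (nat_lit 0) (nat_lit 0) (XT.lf (nat_lit 0) (nat_lit 24165634531468) (nat_lit 76) (nat_lit 32155310793534) (nat_lit 76) (nat_lit 32155301948439) (nat_lit 1) (nat_lit 4) (nat_lit 2) (nat_lit 5) (nat_lit 2) (nat_lit 4) (nat_lit 300) (nat_lit 181) (nat_lit 179)) (XT.lf (nat_lit 0) (nat_lit 27790623792736) (nat_lit 76) (nat_lit 36978530952495) (nat_lit 76) (nat_lit 36978518530012) (nat_lit 1) (nat_lit 4) (nat_lit 2) (nat_lit 5) (nat_lit 2) (nat_lit 4) (nat_lit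 301) (nat_lit 181) (nat_lit 178)))))) (XT.nd (nat_lit 34398) (nat_lit 0) (nat_lit 0) (XT.nd (nat_lit 34086) (nat_lit 0) (nat_lit 0) (XT.nd (nat_lit 33930) (nat_lit 0) (nat_lit 0) (XT.nd (nat_lit 78) (nat_lit 0) (nat_lit 0) (XT.lf (nat_lit 0) (nat_lit 31959350436151) (nat_lit 76) (nat_lit 42525239560788) (nat_lit 76) (nat_lit 42525224027531) (nat_lit 1) (nat_lit 4) (nat_lit 2) (nat_lit 5) (nat_lit 2) (nat_lit 4) (nat_lit 302) (nat_lit 181) (nat_lit 177)) (XT.lf (nat_lit 0) (nat_lit 36753376504737) (nat_lit 76) (nat_lit 48903959178139) (nat_lit 76) (nat_lit 48903940939862) (nat_lit 1) (nat_lit 4) (nat_lit 2) (nat_lit 5) (nat_lit 2) (nat_lit 4) (nat_lit 303) (nat_lit 181) (nat_lit 176))) (XT.nd (nat_lit 78) (nat_lit 0) (nat_lit 0) (XT.lf (nat_lit 0) (nat_lit 6908132124642) (nat_lit 76) (nat_lit 9192589244990) (nat_lit 76) (nat_lit 9192589244990) (nat_lit 1) (nat_lit 4) (nat_lit 2) (nat_lit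 5) (nat_lit 2) (nat_lit 4) (nat_lit 296) (nat_lit 182) (nat_lit 182)) (XT.lf (nat_lit 0) (nat_lit 15888900877606) (nat_lit 76) (nat_lit 21142851907706) (nat_lit 76) (nat_lit 21142846466945) (nat_lit 1) (nat_lit 4) (nat_lit 2) (nat_lit 5) (nat_lit 2) (nat_lit 4) (nat_lit 297) (nat_lit 182) (nat_lit 181)))) (XT.nd (nat_lit 156) (nat_lit 0) (nat_lit 0) (XT.nd (nat_lit 78) (nat_lit 0) (nat_lit 0) (XT.lf (nat_lit 0) (nat_lit 18272416259841) (nat_lit 76) (nat_lit 24314184589577) (nat_lit 76) (nat_lit 24314174417718) (nat_lit 1) (nat_lit 4) (nat_lit 2) (nat_lit 5) (nat_lit 2) (nat_lit 4) (nat_lit 298) (nat_lit 182) (nat_lit 180)) (XT.lf (nat_lit 0) (nat_lit 21013444392596) (nat_lit 76) (nat_lit 27961224348935) (nat_lit 76) (nat_lit 27961210063079) (nat_lit 1) (nat_lit 4) (nat_lit 2) (nat_lit 5) (nat_lit 2) (nat_lit 4) (nat_lit 299) (nat_lit 182) (nat_lit 179))) (XT.nd (nat_lit 78) (nat_lit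 0) (nat_lit 0) (XT.lf (nat_lit 0) (nat_lit 24165614087166) (nat_lit 76) (nat_lit 32155326311506) (nat_lit 76) (nat_lit 32155308448261) (nat_lit 1) (nat_lit 4) (nat_lit 2) (nat_lit 5) (nat_lit 2) (nat_lit 4) (nat_lit 300) (nat_lit 182) (nat_lit 178)) (XT.lf (nat_lit 0) (nat_lit 27790598228879) (nat_lit 76) (nat_lit 36978548993950) (nat_lit 76) (nat_lit 36978528019932) (nat_lit 1) (nat_lit 4) (nat_lit 2) (nat_lit 5) (nat_lit 2) (nat_lit 4) (nat_lit 301) (nat_lit 182) (nat_lit 177))))) (XT.nd (nat_lit 33930) (nat_lit 0) (nat_lit 0) (XT.nd (nat_lit 33774) (nat_lit 0) (nat_lit 0) (XT.nd (nat_lit 78) (nat_lit 0) (nat_lit 0) (XT.lf (nat_lit 0) (nat_lit 31959320420508) (nat_lit 76) (nat_lit 42525259796575) (nat_lit 76) (nat_lit 42525236117537) (nat_lit 1) (nat_lit 4) (nat_lit 2) (nat_lit 5) (nat_lit 2) (nat_lit 4) (nat_lit 302) (nat_lit 182) (nat_lit 176)) (XT.lf (nat_lit 0) (nat_lit 36753342617975)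 (nat_lit 76) (nat_lit 48903981322041) (nat_lit 76) (nat_lit 48903955290812) (nat_lit 1) (nat_lit 4) (nat_lit 2) (nat_lit 5) (nat_lit 2) (nat_lit 4) (nat_lit 303) (nat_lit 182) (nat_lit 175))) (XT.nd (nat_lit 78) (nat_lit 0) (nat_lit 0) (XT.lf (nat_lit 0) (nat_lit 5223360108304) (nat_lit 76) (nat_lit 6951015205436) (nat_lit 76) (nat_lit 6951015205436) (nat_lit 1) (nat_lit 4) (nat_lit 2) (nat_lit 5) (nat_lit 2) (nat_lit 4) (nat_lit 294) (nat_lit 183) (nat_lit 183)) (XT.lf (nat_lit 0) (nat_lit 12013954788668) (nat_lit 76) (nat_lit 15987216113366) (nat_lit 76) (nat_lit 15987209856490) (nat_lit 1) (nat_lit 4) (nat_lit 2) (nat_lit 5) (nat_lit 2) (nat_lit 4) (nat_lit 295) (nat_lit 183) (nat_lit 182)))) (XT.nd (nat_lit 156) (nat_lit 0) (nat_lit 0) (XT.nd (nat_lit 78) (nat_lit 0) (nat_lit 0) (XT.lf (nat_lit 0) (nat_lit 13816255295151) (nat_lit 76) (nat_lit 18385189160443) (nat_lit 76) (nat_lit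 18385177462806) (nat_lit 1) (nat_lit 4) (nat_lit 2) (nat_lit 5) (nat_lit 2) (nat_lit 4) (nat_lit 296) (nat_lit 183) (nat_lit 181)) (XT.lf (nat_lit 0) (nat_lit 15888884137270) (nat_lit 76) (nat_lit 21142866416069) (nat_lit 76) (nat_lit 21142849987335) (nat_lit 1) (nat_lit 4) (nat_lit 2) (nat_lit 5) (nat_lit 2) (nat_lit 4) (nat_lit 297) (nat_lit 183) (nat_lit 180))) (XT.nd (nat_lit 78) (nat_lit 0) (nat_lit 0) (XT.lf (nat_lit 0) (nat_lit 18272392748893) (nat_lit 76) (nat_lit 24314202435246) (nat_lit 76) (nat_lit 24314181892513) (nat_lit 1) (nat_lit 4) (nat_lit 2) (nat_lit 5) (nat_lit 2) (nat_lit 4) (nat_lit 298) (nat_lit 183) (nat_lit 179)) (XT.nd (nat_lit 78) (nat_lit 0) (nat_lit 0) (XT.lf (nat_lit 0) (nat_lit 21013414994161) (nat_lit 76) (nat_lit 27961245096608) (nat_lit 76) (nat_lit 27961220976487) (nat_lit 1) (nat_lit 4) (nat_lit 2) (nat_lit 5) (nat_lit 2) (nat_lit 4) (nat_lit 299)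 (nat_lit 183) (nat_lit 178)) (XT.lf (nat_lit 0) (nat_lit 24165579569177) (nat_lit 76) (nat_lit 32155349582662) (nat_lit 76) (nat_lit 32155322351767) (nat_lit 1) (nat_lit 4) (nat_lit 2) (nat_lit 5) (nat_lit 2) (nat_lit 4) (nat_lit 300) (nat_lit 183) (nat_lit 177))))))))
noncomputable def xc1 : XT := (XT.nd (nat_lit 67938) (nat_lit 0) (nat_lit 0) (XT.nd (nat_lit 34008) (nat_lit 0) (nat_lit 0) (XT.nd (nat_lit 33696) (nat_lit 0) (nat_lit 0) (XT.nd (nat_lit 546) (nat_lit 0) (nat_lit 0) (XT.nd (nat_lit 78) (nat_lit 0) (nat_lit 0) (XT.lf (nat_lit 0) (nat_lit 27790559259103) (nat_lit 76) (nat_lit 36978574459438) (nat_lit 76) (nat_lit 36978544523523) (nat_lit 1) (nat_lit 4) (nat_lit 2) (nat_lit 5) (nat_lit 2) (nat_lit 4) (nat_lit 301) (nat_lit 183) (nat_lit 176)) (XT.lf (nat_lit 0) (nat_lit 31959277579613) (nat_lit 76) (nat_lit 42525287170178) (nat_lit 76) (nat_lit 42525254882072) (nat_lit 1)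 (nat_lit 4) (nat_lit 2) (nat_lit 5) (nat_lit 2) (nat_lit 4) (nat_lit 302) (nat_lit 183) (nat_lit 175))) (XT.nd (nat_lit 78) (nat_lit 0) (nat_lit 0) (XT.lf (nat_lit 0) (nat_lit 73924765715947) (nat_lit 76) (nat_lit 98363010182508) (nat_lit 76) (nat_lit 98362968992574) (nat_lit 1) (nat_lit 4) (nat_lit 2) (nat_lit 5) (nat_lit 2) (nat_lit 4) (nat_lit 308) (nat_lit 183) (nat_lit 169)) (XT.lf (nat_lit 0) (nat_lit 85013580378203) (nat_lit 76) (nat_lit 113117405319612) (nat_lit 76) (nat_lit 113117363245402) (nat_lit 1) (nat_lit 4) (nat_lit 2) (nat_lit 5) (nat_lit 2) (nat_lit 4) (nat_lit 309) (nat_lit 183) (nat_lit 168)))) (XT.nd (nat_lit 156) (nat_lit 0) (nat_lit 0) (XT.nd (nat_lit 78) (nat_lit 0) (nat_lit 0) (XT.lf (nat_lit 0) (nat_lit 3949403379722) (nat_lit 76) (nat_lit 5256077749917) (nat_lit 76) (nat_lit 5256077749917) (nat_lit 1) (nat_lit 4) (nat_lit 2) (nat_lit 5) (nat_lit 2) (nat_lit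 4) (nat_lit 292) (nat_lit 184) (nat_lit 184)) (XT.lf (nat_lit 0) (nat_lit 9083888293865) (nat_lit 76) (nat_lit 12088842136801) (nat_lit 76) (nat_lit 12088834941394) (nat_lit 1) (nat_lit 4) (nat_lit 2) (nat_lit 5) (nat_lit 2) (nat_lit 4) (nat_lit 293) (nat_lit 184) (nat_lit 183))) (XT.nd (nat_lit 78) (nat_lit 0) (nat_lit 0) (XT.lf (nat_lit 0) (nat_lit 10446709919355) (nat_lit 76) (nat_lit 13902042681905) (nat_lit 76) (nat_lit 13902029229622) (nat_lit 1) (nat_lit 4) (nat_lit 2) (nat_lit 5) (nat_lit 2) (nat_lit 4) (nat_lit 294) (nat_lit 184) (nat_lit 182)) (XT.lf (nat_lit 0) (nat_lit 12013935537282) (nat_lit 76) (nat_lit 15987232797984) (nat_lit 76) (nat_lit 15987213904939) (nat_lit 1) (nat_lit 4) (nat_lit 2) (nat_lit 5) (nat_lit 2) (nat_lit 4) (nat_lit 295) (nat_lit 184) (nat_lit 181))))) (XT.nd (nat_lit 312) (nat_lit 0) (nat_lit 0) (XT.nd (nat_lit 156) (nat_lit 0) (nat_lit 0) (XT.nd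 (nat_lit 78) (nat_lit 0) (nat_lit 0) (XT.lf (nat_lit 0) (nat_lit 13816228257562) (nat_lit 76) (nat_lit 18385209682962) (nat_lit 76) (nat_lit 18385186058820) (nat_lit 1) (nat_lit 4) (nat_lit 2) (nat_lit 5) (nat_lit 2) (nat_lit 4) (nat_lit 296) (nat_lit 184) (nat_lit 180)) (XT.lf (nat_lit 0) (nat_lit 15888850329070) (nat_lit 76) (nat_lit 21142890275893) (nat_lit 76) (nat_lit 21142862537754) (nat_lit 1) (nat_lit 4) (nat_lit 2) (nat_lit 5) (nat_lit 2) (nat_lit 4) (nat_lit 297) (nat_lit 184) (nat_lit 179))) (XT.nd (nat_lit 78) (nat_lit 0) (nat_lit 0) (XT.lf (nat_lit 0) (nat_lit 18272353053206) (nat_lit 76) (nat_lit 24314229197074) (nat_lit 76) (nat_lit 24314197881545) (nat_lit 1) (nat_lit 4) (nat_lit 2) (nat_lit 5) (nat_lit 2) (nat_lit 4) (nat_lit 298) (nat_lit 184) (nat_lit 178)) (XT.lf (nat_lit 0) (nat_lit 21013370178919) (nat_lit 76) (nat_lit 27961274381919) (nat_lit 76) (nat_lit 27961239955617)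 (nat_lit 1) (nat_lit 4) (nat_lit 2) (nat_lit 5) (nat_lit 2) (nat_lit 4) (nat_lit 299) (nat_lit 184) (nat_lit 177)))) (XT.nd (nat_lit 546) (nat_lit 0) (nat_lit 0) (XT.nd (nat_lit 468) (nat_lit 0) (nat_lit 0) (XT.lf (nat_lit 0) (nat_lit 24165530302147) (nat_lit 76) (nat_lit 32155381062305) (nat_lit 76) (nat_lit 32155343930983) (nat_lit 1) (nat_lit 4) (nat_lit 2) (nat_lit 5) (nat_lit 2) (nat_lit 4) (nat_lit 300) (nat_lit 184) (nat_lit 176)) (XT.lf (nat_lit 0) (nat_lit 55897506868569) (nat_lit 76) (nat_lit 74376702753506) (nat_lit 76) (nat_lit 74376655385082) (nat_lit 1) (nat_lit 4) (nat_lit 2) (nat_lit 5) (nat_lit 2) (nat_lit 4) (nat_lit 306) (nat_lit 184) (nat_lit 170))) (XT.nd (nat_lit 78) (nat_lit 0) (nat_lit 0) (XT.lf (nat_lit 0) (nat_lit 64282247674448) (nat_lit 76) (nat_lit 85533143317719) (nat_lit 76) (nat_lit 85533094932378) (nat_lit 1) (nat_lit 4) (nat_lit 2) (nat_lit 5) (nat_lit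 2) (nat_lit 4) (nat_lit 307) (nat_lit 184) (nat_lit 169)) (XT.nd (nat_lit 78) (nat_lit 0) (nat_lit 0) (XT.lf (nat_lit 0) (nat_lit 73924696472320) (nat_lit 76) (nat_lit 98363051508825) (nat_lit 76) (nat_lit 98363002239209) (nat_lit 1) (nat_lit 4) (nat_lit 2) (nat_lit 5) (nat_lit 2) (nat_lit 4) (nat_lit 308) (nat_lit 184) (nat_lit 168)) (XT.lf (nat_lit 0) (nat_lit 85013509869100) (nat_lit 76) (nat_lit 113117447269696) (nat_lit 76) (nat_lit 113117397231144) (nat_lit 1) (nat_lit 4) (nat_lit 2) (nat_lit 5) (nat_lit 2) (nat_lit 4) (nat_lit 309) (nat_lit 184) (nat_lit 167))))))) (XT.nd (nat_lit 1248) (nat_lit 0) (nat_lit 0) (XT.nd (nat_lit 312) (nat_lit 0) (nat_lit 0) (XT.nd (nat_lit 156) (nat_lit 0) (nat_lit 0) (XT.nd (nat_lit 78) (nat_lit 0) (nat_lit 0) (XT.lf (nat_lit 0) (nat_lit 2986077973768) (nat_lit 76) (nat_lit 3974478269619) (nat_lit 76) (nat_lit 3974478269619) (nat_lit 1) (nat_lit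 4) (nat_lit 2) (nat_lit 5) (nat_lit 2) (nat_lit 4) (nat_lit 290) (nat_lit 185) (nat_lit 185)) (XT.lf (nat_lit 0) (nat_lit 6868278938246) (nat_lit 76) (nat_lit 9141142828914) (nat_lit 76) (nat_lit 9141134554195) (nat_lit 1) (nat_lit 4) (nat_lit 2) (nat_lit 5) (nat_lit 2) (nat_lit 4) (nat_lit 291) (nat_lit 185) (nat_lit 184))) (XT.nd (nat_lit 78) (nat_lit 0) (nat_lit 0) (XT.lf (nat_lit 0) (nat_lit 7898794917604) (nat_lit 76) (nat_lit 10512169611521) (nat_lit 76) (nat_lit 10512154141395) (nat_lit 1) (nat_lit 4) (nat_lit 2) (nat_lit 5) (nat_lit 2) (nat_lit 4) (nat_lit 292) (nat_lit 185) (nat_lit 183)) (XT.lf (nat_lit 0) (nat_lit 9083866154771) (nat_lit 76) (nat_lit 12088861324112) (nat_lit 76) (nat_lit 12088839597110) (nat_lit 1) (nat_lit 4) (nat_lit 2) (nat_lit 5) (nat_lit 2) (nat_lit 4) (nat_lit 293) (nat_lit 185) (nat_lit 182)))) (XT.nd (nat_lit 156) (nat_lit 0) (nat_lit 0) (XT.nd (nat_lit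 78) (nat_lit 0) (nat_lit 0) (XT.lf (nat_lit 0) (nat_lit 10446678826128) (nat_lit 76) (nat_lit 13902066282801) (nat_lit 76) (nat_lit 13902039115038) (nat_lit 1) (nat_lit 4) (nat_lit 2) (nat_lit 5) (nat_lit 2) (nat_lit 4) (nat_lit 294) (nat_lit 185) (nat_lit 181)) (XT.lf (nat_lit 0) (nat_lit 12013896657852) (nat_lit 76) (nat_lit 15987260236781) (nat_lit 76) (nat_lit 15987228337921) (nat_lit 1) (nat_lit 4) (nat_lit 2) (nat_lit 5) (nat_lit 2) (nat_lit 4) (nat_lit 295) (nat_lit 185) (nat_lit 180))) (XT.nd (nat_lit 702) (nat_lit 0) (nat_lit 0) (XT.lf (nat_lit 0) (nat_lit 13816182607521) (nat_lit 76) (nat_lit 18385240459065) (nat_lit 76) (nat_lit 18385204446207) (nat_lit 1) (nat_lit 4) (nat_lit 2) (nat_lit 5) (nat_lit 2) (nat_lit 4) (nat_lit 296) (nat_lit 185) (nat_lit 179)) (XT.lf (nat_lit 0) (nat_lit 48606346821467) (nat_lit 76) (nat_lit 64675498331569) (nat_lit 76) (nat_lit 64675442688427)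 (nat_lit 1) (nat_lit 4) (nat_lit 2) (nat_lit 5) (nat_lit 2) (nat_lit 4) (nat_lit 305) (nat_lit 185) (nat_lit 170))))) (XT.nd (nat_lit 32994) (nat_lit 0) (nat_lit 0) (XT.nd (nat_lit 156) (nat_lit 0) (nat_lit 0) (XT.nd (nat_lit 78) (nat_lit 0) (nat_lit 0) (XT.lf (nat_lit 0) (nat_lit 55897427238397) (nat_lit 76) (nat_lit 74376750278771) (nat_lit 76) (nat_lit 74376693618712) (nat_lit 1) (nat_lit 4) (nat_lit 2) (nat_lit 5) (nat_lit 2) (nat_lit 4) (nat_lit 306) (nat_lit 185) (nat_lit 169)) (XT.lf (nat_lit 0) (nat_lit 64282166588979) (nat_lit 76) (nat_lit 85533191560315) (nat_lit 76) (nat_lit 85533134015980) (nat_lit 1) (nat_lit 4) (nat_lit 2) (nat_lit 5) (nat_lit 2) (nat_lit 4) (nat_lit 307) (nat_lit 185) (nat_lit 168))) (XT.nd (nat_lit 78) (nat_lit 0) (nat_lit 0) (XT.lf (nat_lit 0) (nat_lit 73924614121375) (nat_lit 76) (nat_lit 98363100375188) (nat_lit 76) (nat_lit 98363042061918) (nat_lit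 1) (nat_lit 4) (nat_lit 2) (nat_lit 5) (nat_lit 2) (nat_lit 4) (nat_lit 308) (nat_lit 185) (nat_lit 167)) (XT.lf (nat_lit 0) (nat_lit 85013426417742) (nat_lit 76) (nat_lit 113117496678464) (nat_lit 76) (nat_lit 113117437696554) (nat_lit 1) (nat_lit 4) (nat_lit 2) (nat_lit 5) (nat_lit 2) (nat_lit 4) (nat_lit 309) (nat_lit 185) (nat_lit 166)))) (XT.nd (nat_lit 156) (nat_lit 0) (nat_lit 0) (XT.nd (nat_lit 78) (nat_lit 0) (nat_lit 0) (XT.lf (nat_lit 0) (nat_lit 2257629811297) (nat_lit 76) (nat_lit 3005424193210) (nat_lit 76) (nat_lit 3005424193210) (nat_lit 1) (nat_lit 4) (nat_lit 2) (nat_lit 5) (nat_lit 2) (nat_lit 4) (nat_lit 288) (nat_lit 186) (nat_lit 186)) (XT.lf (nat_lit 0) (nat_lit 5192893104351) (nat_lit 76) (nat_lit 6912294874492) (nat_lit 76) (nat_lit 6912285358566) (nat_lit 1) (nat_lit 4) (nat_lit 2) (nat_lit 5) (nat_lit 2) (nat_lit 4) (nat_lit 289) (nat_lit 186) (nat_lit 185)))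 (XT.nd (nat_lit 78) (nat_lit 0) (nat_lit 0) (XT.lf (nat_lit 0) (nat_lit 5972142329418) (nat_lit 76) (nat_lit 7948972767677) (nat_lit 76) (nat_lit 7948954977033) (nat_lit 1) (nat_lit 4) (nat_lit 2) (nat_lit 5) (nat_lit 2) (nat_lit 4) (nat_lit 290) (nat_lit 186) (nat_lit 184)) (XT.nd (nat_lit 78) (nat_lit 0) (nat_lit 0) (XT.lf (nat_lit 0) (nat_lit 6868253478287) (nat_lit 76) (nat_lit 9141164894320) (nat_lit 76) (nat_lit 9141139908269) (nat_lit 1) (nat_lit 4) (nat_lit 2) (nat_lit 5) (nat_lit 2) (nat_lit 4) (nat_lit 291) (nat_lit 186) (nat_lit 183)) (XT.lf (nat_lit 0) (nat_lit 7898759160392) (nat_lit 76) (nat_lit 10512196752552) (nat_lit 76) (nat_lit 10512165509624) (nat_lit 1) (nat_lit 4) (nat_lit 2) (nat_lit 5) (nat_lit 2) (nat_lit 4) (nat_lit 292) (nat_lit 186) (nat_lit 182))))))))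
noncomputable def xc2 : XT := (XT.nd (nat_lit 34398) (nat_lit 0) (nat_lit 0) (XT.nd (nat_lit 1170) (nat_lit 0) (nat_lit 0) (XT.nd (nat_lit 858) (nat_lit 0) (nat_lit 0) (XT.nd (nat_lit 156) (nat_lit 0) (nat_lit 0) (XT.nd (nat_lit 78) (nat_lit 0) (nat_lit 0) (XT.lf (nat_lit 0) (nat_lit 9083821443427) (nat_lit 76) (nat_lit 12088892878729) (nat_lit 76) (nat_lit 12088856195040) (nat_lit 1) (nat_lit 4) (nat_lit 2) (nat_lit 5) (nat_lit 2) (nat_lit 4) (nat_lit 293) (nat_lit 186) (nat_lit 181)) (XT.lf (nat_lit 0) (nat_lit 10446626328580) (nat_lit 76) (nat_lit 13902101675319) (nat_lit 76) (nat_lit 13902060260533) (nat_lit 1) (nat_lit 4) (nat_lit 2) (nat_lit 5) (nat_lit 2) (nat_lit 4) (nat_lit 294) (nat_lit 186) (nat_lit 180))) (XT.nd (nat_lit 78) (nat_lit 0) (nat_lit 0) (XT.lf (nat_lit 0) (nat_lit 12013837389693) (nat_lit 76) (nat_lit 15987298966605) (nat_lit 76) (nat_lit 15987253437821) (nat_lit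 1) (nat_lit 4) (nat_lit 2) (nat_lit 5) (nat_lit 2) (nat_lit 4) (nat_lit 295) (nat_lit 186) (nat_lit 179)) (XT.lf (nat_lit 0) (nat_lit 13816117451874) (nat_lit 76) (nat_lit 18385282090893) (nat_lit 76) (nat_lit 18385232984720) (nat_lit 1) (nat_lit 4) (nat_lit 2) (nat_lit 5) (nat_lit 2) (nat_lit 4) (nat_lit 296) (nat_lit 186) (nat_lit 178)))) (XT.nd (nat_lit 156) (nat_lit 0) (nat_lit 0) (XT.nd (nat_lit 78) (nat_lit 0) (nat_lit 0) (XT.lf (nat_lit 0) (nat_lit 42266182190115) (nat_lit 76) (nat_lit 56239683269450) (nat_lit 76) (nat_lit 56239618110382) (nat_lit 1) (nat_lit 4) (nat_lit 2) (nat_lit 5) (nat_lit 2) (nat_lit 4) (nat_lit 304) (nat_lit 186) (nat_lit 170)) (XT.lf (nat_lit 0) (nat_lit 48606253573178) (nat_lit 76) (nat_lit 64675553810556) (nat_lit 76) (nat_lit 64675487634570) (nat_lit 1) (nat_lit 4) (nat_lit 2) (nat_lit 5) (nat_lit 2) (nat_lit 4) (nat_lit 305) (nat_lit 186) (nat_lit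 169))) (XT.nd (nat_lit 78) (nat_lit 0) (nat_lit 0) (XT.lf (nat_lit 0) (nat_lit 55897332534811) (nat_lit 76) (nat_lit 74376806475089) (nat_lit 76) (nat_lit 74376739414827) (nat_lit 1) (nat_lit 4) (nat_lit 2) (nat_lit 5) (nat_lit 2) (nat_lit 4) (nat_lit 306) (nat_lit 186) (nat_lit 168)) (XT.lf (nat_lit 0) (nat_lit 64282070619918) (nat_lit 76) (nat_lit 85533248380399) (nat_lit 76) (nat_lit 85533180551202) (nat_lit 1) (nat_lit 4) (nat_lit 2) (nat_lit 5) (nat_lit 2) (nat_lit 4) (nat_lit 307) (nat_lit 186) (nat_lit 167))))) (XT.nd (nat_lit 32838) (nat_lit 0) (nat_lit 0) (XT.nd (nat_lit 32682) (nat_lit 0) (nat_lit 0) (XT.nd (nat_lit 78) (nat_lit 0) (nat_lit 0) (XT.lf (nat_lit 0) (nat_lit 73924517051900) (nat_lit 76) (nat_lit 98363157737678) (nat_lit 76) (nat_lit 98363089239841) (nat_lit 1) (nat_lit 4) (nat_lit 2) (nat_lit 5) (nat_lit 2) (nat_lit 4) (nat_lit 308) (nat_lit 186) (nat_lit 166))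 (XT.lf (nat_lit 0) (nat_lit 85013328391386) (nat_lit 76) (nat_lit 113117554512610) (nat_lit 76) (nat_lit 113117485433348) (nat_lit 1) (nat_lit 4) (nat_lit 2) (nat_lit 5) (nat_lit 2) (nat_lit 4) (nat_lit 309) (nat_lit 186) (nat_lit 165))) (XT.nd (nat_lit 78) (nat_lit 0) (nat_lit 0) (XT.lf (nat_lit 0) (nat_lit 1706777225498) (nat_lit 76) (nat_lit 2272702232890) (nat_lit 76) (nat_lit 2272702232890) (nat_lit 1) (nat_lit 4) (nat_lit 2) (nat_lit 5) (nat_lit 2) (nat_lit 4) (nat_lit 286) (nat_lit 187) (nat_lit 187)) (XT.lf (nat_lit 0) (nat_lit 3925983837769) (nat_lit 76) (nat_lit 5227007250272) (nat_lit 76) (nat_lit 5226996306957) (nat_lit 1) (nat_lit 4) (nat_lit 2) (nat_lit 5) (nat_lit 2) (nat_lit 4) (nat_lit 287) (nat_lit 187) (nat_lit 186)))) (XT.nd (nat_lit 156) (nat_lit 0) (nat_lit 0) (XT.nd (nat_lit 78) (nat_lit 0) (nat_lit 0) (XT.lf (nat_lit 0) (nat_lit 4515243961760) (nat_lit 76) (nat_lit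 6010867049126) (nat_lit 76) (nat_lit 6010846589885) (nat_lit 1) (nat_lit 4) (nat_lit 2) (nat_lit 5) (nat_lit 2) (nat_lit 4) (nat_lit 288) (nat_lit 187) (nat_lit 185)) (XT.lf (nat_lit 0) (nat_lit 5192863825399) (nat_lit 76) (nat_lit 6912320249710) (nat_lit 76) (nat_lit 6912291515750) (nat_lit 1) (nat_lit 4) (nat_lit 2) (nat_lit 5) (nat_lit 2) (nat_lit 4) (nat_lit 289) (nat_lit 187) (nat_lit 184))) (XT.nd (nat_lit 78) (nat_lit 0) (nat_lit 0) (XT.lf (nat_lit 0) (nat_lit 5972101208625) (nat_lit 76) (nat_lit 7949003979863) (nat_lit 76) (nat_lit 7948968050496) (nat_lit 1) (nat_lit 4) (nat_lit 2) (nat_lit 5) (nat_lit 2) (nat_lit 4) (nat_lit 290) (nat_lit 187) (nat_lit 183)) (XT.nd (nat_lit 78) (nat_lit 0) (nat_lit 0) (XT.lf (nat_lit 0) (nat_lit 6868202060241) (nat_lit 76) (nat_lit 9141201182130) (nat_lit 76) (nat_lit 9141158995887) (nat_lit 1) (nat_lit 4) (nat_lit 2) (nat_lit 5) (nat_lit 2)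 (nat_lit 4) (nat_lit 291) (nat_lit 187) (nat_lit 182)) (XT.lf (nat_lit 0) (nat_lit 7898698788213) (nat_lit 76) (nat_lit 10512237453948) (nat_lit 76) (nat_lit 10512189826944) (nat_lit 1) (nat_lit 4) (nat_lit 2) (nat_lit 5) (nat_lit 2) (nat_lit 4) (nat_lit 292) (nat_lit 187) (nat_lit 181))))))) (XT.nd (nat_lit 1092) (nat_lit 0) (nat_lit 0) (XT.nd (nat_lit 780) (nat_lit 0) (nat_lit 0) (XT.nd (nat_lit 156) (nat_lit 0) (nat_lit 0) (XT.nd (nat_lit 78) (nat_lit 0) (nat_lit 0) (XT.lf (nat_lit 0) (nat_lit 9083753285044) (nat_lit 76) (nat_lit 12088937418026) (nat_lit 76) (nat_lit 12088885059924) (nat_lit 1) (nat_lit 4) (nat_lit 2) (nat_lit 5) (nat_lit 2) (nat_lit 4) (nat_lit 293) (nat_lit 187) (nat_lit 180)) (XT.lf (nat_lit 0) (nat_lit 10446551399587) (nat_lit 76) (nat_lit 13902149551922) (nat_lit 76) (nat_lit 13902093079823) (nat_lit 1) (nat_lit 4) (nat_lit 2) (nat_lit 5) (nat_lit 2) (nat_lit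 4) (nat_lit 294) (nat_lit 187) (nat_lit 179))) (XT.nd (nat_lit 78) (nat_lit 0) (nat_lit 0) (XT.lf (nat_lit 0) (nat_lit 12013756573212) (nat_lit 76) (nat_lit 15987349745212) (nat_lit 76) (nat_lit 15987289695723) (nat_lit 1) (nat_lit 4) (nat_lit 2) (nat_lit 5) (nat_lit 2) (nat_lit 4) (nat_lit 295) (nat_lit 187) (nat_lit 178)) (XT.lf (nat_lit 0) (nat_lit 13816031515839) (nat_lit 76) (nat_lit 18385335392982) (nat_lit 76) (nat_lit 18385272232721) (nat_lit 1) (nat_lit 4) (nat_lit 2) (nat_lit 5) (nat_lit 2) (nat_lit 4) (nat_lit 296) (nat_lit 187) (nat_lit 177)))) (XT.nd (nat_lit 156) (nat_lit 0) (nat_lit 0) (XT.nd (nat_lit 78) (nat_lit 0) (nat_lit 0) (XT.lf (nat_lit 0) (nat_lit 36752966275205) (nat_lit 76) (nat_lit 48904209011585) (nat_lit 76) (nat_lit 48904132909202) (nat_lit 1) (nat_lit 4) (nat_lit 2) (nat_lit 5) (nat_lit 2) (nat_lit 4) (nat_lit 303) (nat_lit 187) (nat_lit 170)) (XT.lf (nat_lit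 0) (nat_lit 42266073280991) (nat_lit 76) (nat_lit 56239747895215) (nat_lit 76) (nat_lit 56239670775915) (nat_lit 1) (nat_lit 4) (nat_lit 2) (nat_lit 5) (nat_lit 2) (nat_lit 4) (nat_lit 304) (nat_lit 187) (nat_lit 169))) (XT.nd (nat_lit 78) (nat_lit 0) (nat_lit 0) (XT.lf (nat_lit 0) (nat_lit 48606143208757) (nat_lit 76) (nat_lit 64675619153652) (nat_lit 76) (nat_lit 64675541150076) (nat_lit 1) (nat_lit 4) (nat_lit 2) (nat_lit 5) (nat_lit 2) (nat_lit 4) (nat_lit 305) (nat_lit 187) (nat_lit 168)) (XT.lf (nat_lit 0) (nat_lit 55897220904915) (nat_lit 76) (nat_lit 74376872441951) (nat_lit 76) (nat_lit 74376793669439) (nat_lit 1) (nat_lit 4) (nat_lit 2) (nat_lit 5) (nat_lit 2) (nat_lit 4) (nat_lit 306) (nat_lit 187) (nat_lit 167))))) (XT.nd (nat_lit 32682) (nat_lit 0) (nat_lit 0) (XT.nd (nat_lit 156) (nat_lit 0) (nat_lit 0) (XT.nd (nat_lit 78) (nat_lit 0) (nat_lit 0) (XT.lf (nat_lit 0) (nat_lit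 64281957889608) (nat_lit 76) (nat_lit 85533314889667) (nat_lit 76) (nat_lit 85533235448516) (nat_lit 1) (nat_lit 4) (nat_lit 2) (nat_lit 5) (nat_lit 2) (nat_lit 4) (nat_lit 307) (nat_lit 187) (nat_lit 166)) (XT.lf (nat_lit 0) (nat_lit 73924403364709) (nat_lit 76) (nat_lit 98363224718602) (nat_lit 76) (nat_lit 98363144696025) (nat_lit 1) (nat_lit 4) (nat_lit 2) (nat_lit 5) (nat_lit 2) (nat_lit 4) (nat_lit 308) (nat_lit 187) (nat_lit 165))) (XT.nd (nat_lit 32448) (nat_lit 0) (nat_lit 0) (XT.lf (nat_lit 0) (nat_lit 85013213872124) (nat_lit 76) (nat_lit 113117621903672) (nat_lit 76) (nat_lit 113117541375507) (nat_lit 1) (nat_lit 4) (nat_lit 2) (nat_lit 5) (nat_lit 2) (nat_lit 4) (nat_lit 309) (nat_lit 187) (nat_lit 164)) (XT.lf (nat_lit 0) (nat_lit 1290206242220) (nat_lit 76) (nat_lit 1718684626953) (nat_lit 76) (nat_lit 1718684626953) (nat_lit 1) (nat_lit 4) (nat_lit 2) (nat_lit 5) (nat_lit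 2) (nat_lit 4) (nat_lit 284) (nat_lit 188) (nat_lit 188)))) (XT.nd (nat_lit 156) (nat_lit 0) (nat_lit 0) (XT.nd (nat_lit 78) (nat_lit 0) (nat_lit 0) (XT.lf (nat_lit 0) (nat_lit 2967930009097) (nat_lit 76) (nat_lit 3952735573810) (nat_lit 76) (nat_lit 3952722988998) (nat_lit 1) (nat_lit 4) (nat_lit 2) (nat_lit 5) (nat_lit 2) (nat_lit 4) (nat_lit 285) (nat_lit 188) (nat_lit 187)) (XT.lf (nat_lit 0) (nat_lit 3413536441037) (nat_lit 76) (nat_lit 4545425927891) (nat_lit 76) (nat_lit 4545402399764) (nat_lit 1) (nat_lit 4) (nat_lit 2) (nat_lit 5) (nat_lit 2) (nat_lit 4) (nat_lit 286) (nat_lit 188) (nat_lit 186))) (XT.nd (nat_lit 78) (nat_lit 0) (nat_lit 0) (XT.lf (nat_lit 0) (nat_lit 3925950166974) (nat_lit 76) (nat_lit 5227036431773) (nat_lit 76) (nat_lit 5227003387719) (nat_lit 1) (nat_lit 4) (nat_lit 2) (nat_lit 5) (nat_lit 2) (nat_lit 4) (nat_lit 287) (nat_lit 188) (nat_lit 185)) (XT.nd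 (nat_lit 78) (nat_lit 0) (nat_lit 0) (XT.lf (nat_lit 0) (nat_lit 4515196672848) (nat_lit 76) (nat_lit 6010902943139) (nat_lit 76) (nat_lit 6010861624367) (nat_lit 1) (nat_lit 4) (nat_lit 2) (nat_lit 5) (nat_lit 2) (nat_lit 4) (nat_lit 288) (nat_lit 188) (nat_lit 184)) (XT.lf (nat_lit 0) (nat_lit 5192804694646) (nat_lit 76) (nat_lit 6912361980691) (nat_lit 76) (nat_lit 6912313466512) (nat_lit 1) (nat_lit 4) (nat_lit 2) (nat_lit 5) (nat_lit 2) (nat_lit 4) (nat_lit 289) (nat_lit 188) (nat_lit 183))))))))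
noncomputable def xc3 : XT := (XT.nd (nat_lit 34008) (nat_lit 0) (nat_lit 0) (XT.nd (nat_lit 1014) (nat_lit 0) (nat_lit 0) (XT.nd (nat_lit 312) (nat_lit 0) (nat_lit 0) (XT.nd (nat_lit 156) (nat_lit 0) (nat_lit 0) (XT.nd (nat_lit 78) (nat_lit 0) (nat_lit 0) (XT.lf (nat_lit 0) (nat_lit 5972031780619) (nat_lit 76) (nat_lit 7949050786468) (nat_lit 76) (nat_lit 7948996015413) (nat_lit 1) (nat_lit 4) (nat_lit 2) (nat_lit 5) (nat_lit 2) (nat_lit 4) (nat_lit 290) (nat_lit 188) (nat_lit 182)) (XT.lf (nat_lit 0) (nat_lit 6868123678101) (nat_lit 76) (nat_lit 9141252402322) (nat_lit 76) (nat_lit 9141192190505) (nat_lit 1) (nat_lit 4) (nat_lit 2) (nat_lit 5) (nat_lit 2) (nat_lit 4) (nat_lit 291) (nat_lit 188) (nat_lit 181))) (XT.nd (nat_lit 78) (nat_lit 0) (nat_lit 0) (XT.lf (nat_lit 0) (nat_lit 7898612619870) (nat_lit 76) (nat_lit 10512292512041) (nat_lit 76) (nat_lit 10512227569127) (nat_lit 1)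 (nat_lit 4) (nat_lit 2) (nat_lit 5) (nat_lit 2) (nat_lit 4) (nat_lit 292) (nat_lit 188) (nat_lit 180)) (XT.lf (nat_lit 0) (nat_lit 9083660346091) (nat_lit 76) (nat_lit 12088995813424) (nat_lit 76) (nat_lit 12088926756512) (nat_lit 1) (nat_lit 4) (nat_lit 2) (nat_lit 5) (nat_lit 2) (nat_lit 4) (nat_lit 293) (nat_lit 188) (nat_lit 179)))) (XT.nd (nat_lit 156) (nat_lit 0) (nat_lit 0) (XT.nd (nat_lit 78) (nat_lit 0) (nat_lit 0) (XT.lf (nat_lit 0) (nat_lit 10446452573146) (nat_lit 76) (nat_lit 13902210849324) (nat_lit 76) (nat_lit 13902138215024) (nat_lit 1) (nat_lit 4) (nat_lit 2) (nat_lit 5) (nat_lit 2) (nat_lit 4) (nat_lit 294) (nat_lit 188) (nat_lit 178)) (XT.lf (nat_lit 0) (nat_lit 12013652627216) (nat_lit 76) (nat_lit 15987413566096) (nat_lit 76) (nat_lit 15987337821023) (nat_lit 1) (nat_lit 4) (nat_lit 2) (nat_lit 5) (nat_lit 2) (nat_lit 4) (nat_lit 295) (nat_lit 188) (nat_lit 177)))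 (XT.nd (nat_lit 78) (nat_lit 0) (nat_lit 0) (XT.lf (nat_lit 0) (nat_lit 13815923118056) (nat_lit 76) (nat_lit 18385401408199) (nat_lit 76) (nat_lit 18385322958105) (nat_lit 1) (nat_lit 4) (nat_lit 2) (nat_lit 5) (nat_lit 2) (nat_lit 4) (nat_lit 296) (nat_lit 188) (nat_lit 176)) (XT.lf (nat_lit 0) (nat_lit 15888525859616) (nat_lit 76) (nat_lit 21143091529064) (nat_lit 76) (nat_lit 21143010726779) (nat_lit 1) (nat_lit 4) (nat_lit 2) (nat_lit 5) (nat_lit 2) (nat_lit 4) (nat_lit 297) (nat_lit 188) (nat_lit 175))))) (XT.nd (nat_lit 312) (nat_lit 0) (nat_lit 0) (XT.nd (nat_lit 156) (nat_lit 0) (nat_lit 0) (XT.nd (nat_lit 78) (nat_lit 0) (nat_lit 0) (XT.lf (nat_lit 0) (nat_lit 36752839356121) (nat_lit 76) (nat_lit 48904284156146) (nat_lit 76) (nat_lit 48904194452034) (nat_lit 1) (nat_lit 4) (nat_lit 2) (nat_lit 5) (nat_lit 2) (nat_lit 4) (nat_lit 303) (nat_lit 188) (nat_lit 169)) (XT.lf (nat_lit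 0) (nat_lit 42265944906610) (nat_lit 76) (nat_lit 56239823757107) (nat_lit 76) (nat_lit 56239733168719) (nat_lit 1) (nat_lit 4) (nat_lit 2) (nat_lit 5) (nat_lit 2) (nat_lit 4) (nat_lit 304) (nat_lit 188) (nat_lit 168))) (XT.nd (nat_lit 78) (nat_lit 0) (nat_lit 0) (XT.lf (nat_lit 0) (nat_lit 48606013568901) (nat_lit 76) (nat_lit 64675695639310) (nat_lit 76) (nat_lit 64675604281986) (nat_lit 1) (nat_lit 4) (nat_lit 2) (nat_lit 5) (nat_lit 2) (nat_lit 4) (nat_lit 305) (nat_lit 188) (nat_lit 167)) (XT.lf (nat_lit 0) (nat_lit 55897090164645) (nat_lit 76) (nat_lit 74376949470015) (nat_lit 76) (nat_lit 74376857444051) (nat_lit 1) (nat_lit 4) (nat_lit 2) (nat_lit 5) (nat_lit 2) (nat_lit 4) (nat_lit 306) (nat_lit 188) (nat_lit 166)))) (XT.nd (nat_lit 32448) (nat_lit 0) (nat_lit 0) (XT.nd (nat_lit 78) (nat_lit 0) (nat_lit 0) (XT.lf (nat_lit 0) (nat_lit 64281826192456) (nat_lit 76) (nat_lit 85533392389387)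 (nat_lit 76) (nat_lit 85533299781998) (nat_lit 1) (nat_lit 4) (nat_lit 2) (nat_lit 5) (nat_lit 2) (nat_lit 4) (nat_lit 307) (nat_lit 188) (nat_lit 165)) (XT.lf (nat_lit 0) (nat_lit 73924270835487) (nat_lit 76) (nat_lit 98363302628459) (nat_lit 76) (nat_lit 98363209515482) (nat_lit 1) (nat_lit 4) (nat_lit 2) (nat_lit 5) (nat_lit 2) (nat_lit 4) (nat_lit 308) (nat_lit 188) (nat_lit 164))) (XT.nd (nat_lit 78) (nat_lit 0) (nat_lit 0) (XT.lf (nat_lit 0) (nat_lit 975164348986) (nat_lit 76) (nat_lit 1299797006538) (nat_lit 76) (nat_lit 1299797006538) (nat_lit 1) (nat_lit 4) (nat_lit 2) (nat_lit 5) (nat_lit 2) (nat_lit 4) (nat_lit 282) (nat_lit 189) (nat_lit 189)) (XT.nd (nat_lit 78) (nat_lit 0) (nat_lit 0) (XT.lf (nat_lit 0) (nat_lit 2243402002457) (nat_lit 76) (nat_lit 2989258186628) (nat_lit 76) (nat_lit 2989243714094) (nat_lit 1) (nat_lit 4) (nat_lit 2) (nat_lit 5) (nat_lit 2) (nat_lit 4)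 (nat_lit 283) (nat_lit 189) (nat_lit 188)) (XT.lf (nat_lit 0) (nat_lit 2580391772987) (nat_lit 76) (nat_lit 3437393935333) (nat_lit 76) (nat_lit 3437366877987) (nat_lit 1) (nat_lit 4) (nat_lit 2) (nat_lit 5) (nat_lit 2) (nat_lit 4) (nat_lit 284) (nat_lit 189) (nat_lit 187))))))) (XT.nd (nat_lit 624) (nat_lit 0) (nat_lit 0) (XT.nd (nat_lit 312) (nat_lit 0) (nat_lit 0) (XT.nd (nat_lit 156) (nat_lit 0) (nat_lit 0) (XT.nd (nat_lit 78) (nat_lit 0) (nat_lit 0) (XT.lf (nat_lit 0) (nat_lit 2967891287683) (nat_lit 76) (nat_lit 3952769132536) (nat_lit 76) (nat_lit 3952731131874) (nat_lit 1) (nat_lit 4) (nat_lit 2) (nat_lit 5) (nat_lit 2) (nat_lit 4) (nat_lit 285) (nat_lit 189) (nat_lit 186)) (XT.lf (nat_lit 0) (nat_lit 3413482058788) (nat_lit 76) (nat_lit 4545467206007) (nat_lit 76) (nat_lit 4545419689419) (nat_lit 1) (nat_lit 4) (nat_lit 2) (nat_lit 5) (nat_lit 2) (nat_lit 4) (nat_lit 286) (nat_lit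 189) (nat_lit 185))) (XT.nd (nat_lit 78) (nat_lit 0) (nat_lit 0) (XT.lf (nat_lit 0) (nat_lit 3925882166607) (nat_lit 76) (nat_lit 5227084422401) (nat_lit 76) (nat_lit 5227028631095) (nat_lit 1) (nat_lit 4) (nat_lit 2) (nat_lit 5) (nat_lit 2) (nat_lit 4) (nat_lit 287) (nat_lit 189) (nat_lit 184)) (XT.lf (nat_lit 0) (nat_lit 4515116830641) (nat_lit 76) (nat_lit 6010956770735) (nat_lit 76) (nat_lit 6010893784022) (nat_lit 1) (nat_lit 4) (nat_lit 2) (nat_lit 5) (nat_lit 2) (nat_lit 4) (nat_lit 288) (nat_lit 189) (nat_lit 183)))) (XT.nd (nat_lit 156) (nat_lit 0) (nat_lit 0) (XT.nd (nat_lit 78) (nat_lit 0) (nat_lit 0) (XT.lf (nat_lit 0) (nat_lit 5192714555185) (nat_lit 76) (nat_lit 6912420883911) (nat_lit 76) (nat_lit 6912351640322) (nat_lit 1) (nat_lit 4) (nat_lit 2) (nat_lit 5) (nat_lit 2) (nat_lit 4) (nat_lit 289) (nat_lit 189) (nat_lit 182)) (XT.lf (nat_lit 0) (nat_lit 5971932687025)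 (nat_lit 76) (nat_lit 7949114103274) (nat_lit 76) (nat_lit 7949039418924) (nat_lit 1) (nat_lit 4) (nat_lit 2) (nat_lit 5) (nat_lit 2) (nat_lit 4) (nat_lit 290) (nat_lit 189) (nat_lit 181))) (XT.nd (nat_lit 78) (nat_lit 0) (nat_lit 0) (XT.lf (nat_lit 0) (nat_lit 6868016798305) (nat_lit 76) (nat_lit 9141319557029) (nat_lit 76) (nat_lit 9141240141581) (nat_lit 1) (nat_lit 4) (nat_lit 2) (nat_lit 5) (nat_lit 2) (nat_lit 4) (nat_lit 291) (nat_lit 189) (nat_lit 180)) (XT.lf (nat_lit 0) (nat_lit 7898498969463) (nat_lit 76) (nat_lit 10512363004053) (nat_lit 76) (nat_lit 10512279474608) (nat_lit 1) (nat_lit 4) (nat_lit 2) (nat_lit 5) (nat_lit 2) (nat_lit 4) (nat_lit 292) (nat_lit 189) (nat_lit 179))))) (XT.nd (nat_lit 312) (nat_lit 0) (nat_lit 0) (XT.nd (nat_lit 156) (nat_lit 0) (nat_lit 0) (XT.nd (nat_lit 78) (nat_lit 0) (nat_lit 0) (XT.lf (nat_lit 0) (nat_lit 9083540808196) (nat_lit 76) (nat_lit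 12089069207441) (nat_lit 76) (nat_lit 12088982100606) (nat_lit 1) (nat_lit 4) (nat_lit 2) (nat_lit 5) (nat_lit 2) (nat_lit 4) (nat_lit 293) (nat_lit 189) (nat_lit 178)) (XT.lf (nat_lit 0) (nat_lit 10446327915696) (nat_lit 76) (nat_lit 13902286766824) (nat_lit 76) (nat_lit 13902196549216) (nat_lit 1) (nat_lit 4) (nat_lit 2) (nat_lit 5) (nat_lit 2) (nat_lit 4) (nat_lit 294) (nat_lit 189) (nat_lit 177))) (XT.nd (nat_lit 78) (nat_lit 0) (nat_lit 0) (XT.lf (nat_lit 0) (nat_lit 12013523517980) (nat_lit 76) (nat_lit 15987491677928) (nat_lit 76) (nat_lit 15987398755300) (nat_lit 1) (nat_lit 4) (nat_lit 2) (nat_lit 5) (nat_lit 2) (nat_lit 4) (nat_lit 295) (nat_lit 189) (nat_lit 176)) (XT.lf (nat_lit 0) (nat_lit 13815790137700) (nat_lit 76) (nat_lit 18385481428146) (nat_lit 76) (nat_lit 18385386153327) (nat_lit 1) (nat_lit 4) (nat_lit 2) (nat_lit 5) (nat_lit 2) (nat_lit 4) (nat_lit 296) (nat_lit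 189) (nat_lit 175)))) (XT.nd (nat_lit 546) (nat_lit 0) (nat_lit 0) (XT.nd (nat_lit 468) (nat_lit 0) (nat_lit 0) (XT.lf (nat_lit 0) (nat_lit 15888389513070) (nat_lit 76) (nat_lit 21143173208242) (nat_lit 76) (nat_lit 21143075888039) (nat_lit 1) (nat_lit 4) (nat_lit 2) (nat_lit 5) (nat_lit 2) (nat_lit 4) (nat_lit 297) (nat_lit 189) (nat_lit 174)) (XT.lf (nat_lit 0) (nat_lit 36752690270286) (nat_lit 76) (nat_lit 48904372114653) (nat_lit 76) (nat_lit 48904267053730) (nat_lit 1) (nat_lit 4) (nat_lit 2) (nat_lit 5) (nat_lit 2) (nat_lit 4) (nat_lit 303) (nat_lit 189) (nat_lit 168))) (XT.nd (nat_lit 78) (nat_lit 0) (nat_lit 0) (XT.lf (nat_lit 0) (nat_lit 42265794555300) (nat_lit 76) (nat_lit 56239912339380) (nat_lit 76) (nat_lit 56239806509522) (nat_lit 1) (nat_lit 4) (nat_lit 2) (nat_lit 5) (nat_lit 2) (nat_lit 4) (nat_lit 304) (nat_lit 189) (nat_lit 167)) (XT.nd (nat_lit 78) (nat_lit 0) (nat_lit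 0) (XT.lf (nat_lit 0) (nat_lit 48605862117177) (nat_lit 76) (nat_lit 64675784763988) (nat_lit 76) (nat_lit 64675678265490) (nat_lit 1) (nat_lit 4) (nat_lit 2) (nat_lit 5) (nat_lit 2) (nat_lit 4) (nat_lit 305) (nat_lit 189) (nat_lit 166)) (XT.lf (nat_lit 0) (nat_lit 55896937756040) (nat_lit 76) (nat_lit 74377039066350) (nat_lit 76) (nat_lit 74376931986426) (nat_lit 1) (nat_lit 4) (nat_lit 2) (nat_lit 5) (nat_lit 2) (nat_lit 4) (nat_lit 306) (nat_lit 189) (nat_lit 165))))))))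
noncomputable def xc4 : XT := (XT.nd (nat_lit 33462) (nat_lit 0) (nat_lit 0) (XT.nd (nat_lit 32760) (nat_lit 0) (nat_lit 0) (XT.nd (nat_lit 32448) (nat_lit 0) (nat_lit 0) (XT.nd (nat_lit 32292) (nat_lit 0) (nat_lit 0) (XT.nd (nat_lit 78) (nat_lit 0) (nat_lit 0) (XT.lf (nat_lit 0) (nat_lit 64281672951780) (nat_lit 76) (nat_lit 85533482395859) (nat_lit 76) (nat_lit 85533374810348) (nat_lit 1) (nat_lit 4) (nat_lit 2) (nat_lit 5) (nat_lit 2) (nat_lit 4) (nat_lit 307) (nat_lit 189) (nat_lit 164)) (XT.lf (nat_lit 0) (nat_lit 73924116871271) (nat_lit 76) (nat_lit 98363392991571) (nat_lit 76) (nat_lit 98363284966418) (nat_lit 1) (nat_lit 4) (nat_lit 2) (nat_lit 5) (nat_lit 2) (nat_lit 4) (nat_lit 308) (nat_lit 189) (nat_lit 163))) (XT.nd (nat_lit 78) (nat_lit 0) (nat_lit 0) (XT.lf (nat_lit 0) (nat_lit 736884876897) (nat_lit 76) (nat_lit 983091461520) (nat_lit 76) (nat_lit 983091461520) (nat_lit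 1) (nat_lit 4) (nat_lit 2) (nat_lit 5) (nat_lit 2) (nat_lit 4) (nat_lit 280) (nat_lit 190) (nat_lit 190)) (XT.lf (nat_lit 0) (nat_lit 1695437816621) (nat_lit 76) (nat_lit 2260794193826) (nat_lit 76) (nat_lit 2260777550411) (nat_lit 1) (nat_lit 4) (nat_lit 2) (nat_lit 5) (nat_lit 2) (nat_lit 4) (nat_lit 281) (nat_lit 190) (nat_lit 189)))) (XT.nd (nat_lit 156) (nat_lit 0) (nat_lit 0) (XT.nd (nat_lit 78) (nat_lit 0) (nat_lit 0) (XT.lf (nat_lit 0) (nat_lit 1950304879800) (nat_lit 76) (nat_lit 2599622396717) (nat_lit 76) (nat_lit 2599591280769) (nat_lit 1) (nat_lit 4) (nat_lit 2) (nat_lit 5) (nat_lit 2) (nat_lit 4) (nat_lit 282) (nat_lit 190) (nat_lit 188)) (XT.lf (nat_lit 0) (nat_lit 2243357472830) (nat_lit 76) (nat_lit 2989296779162) (nat_lit 76) (nat_lit 2989253078402) (nat_lit 1) (nat_lit 4) (nat_lit 2) (nat_lit 5) (nat_lit 2) (nat_lit 4) (nat_lit 283) (nat_lit 190) (nat_lit 187))) (XT.nd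 (nat_lit 78) (nat_lit 0) (nat_lit 0) (XT.lf (nat_lit 0) (nat_lit 2580329233401) (nat_lit 76) (nat_lit 3437441405166) (nat_lit 76) (nat_lit 3437386761090) (nat_lit 1) (nat_lit 4) (nat_lit 2) (nat_lit 5) (nat_lit 2) (nat_lit 4) (nat_lit 284) (nat_lit 190) (nat_lit 186)) (XT.lf (nat_lit 0) (nat_lit 2967813087262) (nat_lit 76) (nat_lit 3952824321758) (nat_lit 76) (nat_lit 3952760161756) (nat_lit 1) (nat_lit 4) (nat_lit 2) (nat_lit 5) (nat_lit 2) (nat_lit 4) (nat_lit 285) (nat_lit 190) (nat_lit 185))))) (XT.nd (nat_lit 312) (nat_lit 0) (nat_lit 0) (XT.nd (nat_lit 156) (nat_lit 0) (nat_lit 0) (XT.nd (nat_lit 78) (nat_lit 0) (nat_lit 0) (XT.lf (nat_lit 0) (nat_lit 3413390240250) (nat_lit 76) (nat_lit 4545529107742) (nat_lit 76) (nat_lit 4545456673022) (nat_lit 1) (nat_lit 4) (nat_lit 2) (nat_lit 5) (nat_lit 2) (nat_lit 4) (nat_lit 286) (nat_lit 190) (nat_lit 184)) (XT.lf (nat_lit 0) (nat_lit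 3925778506228) (nat_lit 76) (nat_lit 5227152161104) (nat_lit 76) (nat_lit 5227072530977) (nat_lit 1) (nat_lit 4) (nat_lit 2) (nat_lit 5) (nat_lit 2) (nat_lit 4) (nat_lit 287) (nat_lit 190) (nat_lit 183))) (XT.nd (nat_lit 78) (nat_lit 0) (nat_lit 0) (XT.lf (nat_lit 0) (nat_lit 4515002873008) (nat_lit 76) (nat_lit 6011029585063) (nat_lit 76) (nat_lit 6010943698059) (nat_lit 1) (nat_lit 4) (nat_lit 2) (nat_lit 5) (nat_lit 2) (nat_lit 4) (nat_lit 288) (nat_lit 190) (nat_lit 182)) (XT.lf (nat_lit 0) (nat_lit 5192591643420) (nat_lit 76) (nat_lit 6912498111825) (nat_lit 76) (nat_lit 6912406784060) (nat_lit 1) (nat_lit 4) (nat_lit 2) (nat_lit 5) (nat_lit 2) (nat_lit 4) (nat_lit 289) (nat_lit 190) (nat_lit 181)))) (XT.nd (nat_lit 156) (nat_lit 0) (nat_lit 0) (XT.nd (nat_lit 78) (nat_lit 0) (nat_lit 0) (XT.lf (nat_lit 0) (nat_lit 5971801989057) (nat_lit 76) (nat_lit 7949195169089) (nat_lit 76)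 (nat_lit 7949099110227) (nat_lit 1) (nat_lit 4) (nat_lit 2) (nat_lit 5) (nat_lit 2) (nat_lit 4) (nat_lit 290) (nat_lit 190) (nat_lit 180)) (XT.lf (nat_lit 0) (nat_lit 6867879329725) (nat_lit 76) (nat_lit 9141403960149) (nat_lit 76) (nat_lit 9141303787289) (nat_lit 1) (nat_lit 4) (nat_lit 2) (nat_lit 5) (nat_lit 2) (nat_lit 4) (nat_lit 291) (nat_lit 190) (nat_lit 179))) (XT.nd (nat_lit 78) (nat_lit 0) (nat_lit 0) (XT.lf (nat_lit 0) (nat_lit 7898355613396) (nat_lit 76) (nat_lit 10512450309178) (nat_lit 76) (nat_lit 10512346558929) (nat_lit 1) (nat_lit 4) (nat_lit 2) (nat_lit 5) (nat_lit 2) (nat_lit 4) (nat_lit 292) (nat_lit 190) (nat_lit 178)) (XT.nd (nat_lit 78) (nat_lit 0) (nat_lit 0) (XT.lf (nat_lit 0) (nat_lit 9083392332574) (nat_lit 76) (nat_lit 12089159036048) (nat_lit 76) (nat_lit 12089052175026) (nat_lit 1) (nat_lit 4) (nat_lit 2) (nat_lit 5) (nat_lit 2) (nat_lit 4) (nat_lit 293)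 (nat_lit 190) (nat_lit 177)) (XT.lf (nat_lit 0) (nat_lit 10446174988287) (nat_lit 76) (nat_lit 13902378789763) (nat_lit 76) (nat_lit 13902269223720) (nat_lit 1) (nat_lit 4) (nat_lit 2) (nat_lit 5) (nat_lit 2) (nat_lit 4) (nat_lit 294) (nat_lit 190) (nat_lit 176))))))) (XT.nd (nat_lit 33150) (nat_lit 0) (nat_lit 0) (XT.nd (nat_lit 702) (nat_lit 0) (nat_lit 0) (XT.nd (nat_lit 156) (nat_lit 0) (nat_lit 0) (XT.nd (nat_lit 78) (nat_lit 0) (nat_lit 0) (XT.lf (nat_lit 0) (nat_lit 12013366719452) (nat_lit 76) (nat_lit 15987585608982) (nat_lit 76) (nat_lit 15987473690749) (nat_lit 1) (nat_lit 4) (nat_lit 2) (nat_lit 5) (nat_lit 2) (nat_lit 4) (nat_lit 295) (nat_lit 190) (nat_lit 175)) (XT.lf (nat_lit 0) (nat_lit 13815629972982) (nat_lit 76) (nat_lit 18385577018431) (nat_lit 76) (nat_lit 18385463054813) (nat_lit 1) (nat_lit 4) (nat_lit 2) (nat_lit 5) (nat_lit 2) (nat_lit 4) (nat_lit 296) (nat_lit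 190) (nat_lit 174))) (XT.nd (nat_lit 468) (nat_lit 0) (nat_lit 0) (XT.lf (nat_lit 0) (nat_lit 15888226421230) (nat_lit 76) (nat_lit 21143270241336) (nat_lit 76) (nat_lit 21143154499124) (nat_lit 1) (nat_lit 4) (nat_lit 2) (nat_lit 5) (nat_lit 2) (nat_lit 4) (nat_lit 297) (nat_lit 190) (nat_lit 173)) (XT.lf (nat_lit 0) (nat_lit 36752516100804) (nat_lit 76) (nat_lit 48904474608033) (nat_lit 76) (nat_lit 48904352134761) (nat_lit 1) (nat_lit 4) (nat_lit 2) (nat_lit 5) (nat_lit 2) (nat_lit 4) (nat_lit 303) (nat_lit 190) (nat_lit 167)))) (XT.nd (nat_lit 156) (nat_lit 0) (nat_lit 0) (XT.nd (nat_lit 78) (nat_lit 0) (nat_lit 0) (XT.lf (nat_lit 0) (nat_lit 42265619285404) (nat_lit 76) (nat_lit 56240015375166) (nat_lit 76) (nat_lit 56239892233254) (nat_lit 1) (nat_lit 4) (nat_lit 2) (nat_lit 5) (nat_lit 2) (nat_lit 4) (nat_lit 304) (nat_lit 190) (nat_lit 166)) (XT.lf (nat_lit 0) (nat_lit 48605685890399)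 (nat_lit 76) (nat_lit 64675888271431) (nat_lit 76) (nat_lit 64675764548093) (nat_lit 1) (nat_lit 4) (nat_lit 2) (nat_lit 5) (nat_lit 2) (nat_lit 4) (nat_lit 305) (nat_lit 190) (nat_lit 165))) (XT.nd (nat_lit 32214) (nat_lit 0) (nat_lit 0) (XT.lf (nat_lit 0) (nat_lit 55896760697191) (nat_lit 76) (nat_lit 74377142983929) (nat_lit 76) (nat_lit 74377018755003) (nat_lit 1) (nat_lit 4) (nat_lit 2) (nat_lit 5) (nat_lit 2) (nat_lit 4) (nat_lit 306) (nat_lit 190) (nat_lit 164)) (XT.lf (nat_lit 0) (nat_lit 556639442506) (nat_lit 76) (nat_lit 743655297195) (nat_lit 76) (nat_lit 743655297195) (nat_lit 1) (nat_lit 4) (nat_lit 2) (nat_lit 5) (nat_lit 2) (nat_lit 4) (nat_lit 278) (nat_lit 191) (nat_lit 191))))) (XT.nd (nat_lit 312) (nat_lit 0) (nat_lit 0) (XT.nd (nat_lit 156) (nat_lit 0) (nat_lit 0) (XT.nd (nat_lit 78) (nat_lit 0) (nat_lit 0) (XT.lf (nat_lit 0) (nat_lit 1280963707485) (nat_lit 76)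 (nat_lit 1710043590728) (nat_lit 76) (nat_lit 1710024450802) (nat_lit 1) (nat_lit 4) (nat_lit 2) (nat_lit 5) (nat_lit 2) (nat_lit 4) (nat_lit 279) (nat_lit 191) (nat_lit 190)) (XT.lf (nat_lit 0) (nat_lit 1473742362897) (nat_lit 76) (nat_lit 1966215564228) (nat_lit 76) (nat_lit 1966179780887) (nat_lit 1) (nat_lit 4) (nat_lit 2) (nat_lit 5) (nat_lit 2) (nat_lit 4) (nat_lit 280) (nat_lit 191) (nat_lit 189))) (XT.nd (nat_lit 78) (nat_lit 0) (nat_lit 0) (XT.lf (nat_lit 0) (nat_lit 1695386607551) (nat_lit 76) (nat_lit 2260838575240) (nat_lit 76) (nat_lit 2260788319365) (nat_lit 1) (nat_lit 4) (nat_lit 2) (nat_lit 5) (nat_lit 2) (nat_lit 4) (nat_lit 281) (nat_lit 191) (nat_lit 188)) (XT.lf (nat_lit 0) (nat_lit 1950232959276) (nat_lit 76) (nat_lit 2599676987025) (nat_lit 76) (nat_lit 2599614146338) (nat_lit 1) (nat_lit 4) (nat_lit 2) (nat_lit 5) (nat_lit 2) (nat_lit 4) (nat_lit 282) (nat_lit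 191) (nat_lit 187)))) (XT.nd (nat_lit 156) (nat_lit 0) (nat_lit 0) (XT.nd (nat_lit 78) (nat_lit 0) (nat_lit 0) (XT.lf (nat_lit 0) (nat_lit 2243267542346) (nat_lit 76) (nat_lit 2989360246768) (nat_lit 76) (nat_lit 2989286462766) (nat_lit 1) (nat_lit 4) (nat_lit 2) (nat_lit 5) (nat_lit 2) (nat_lit 4) (nat_lit 283) (nat_lit 191) (nat_lit 186)) (XT.lf (nat_lit 0) (nat_lit 2580223642082) (nat_lit 76) (nat_lit 3437512592162) (nat_lit 76) (nat_lit 3437429292233) (nat_lit 1) (nat_lit 4) (nat_lit 2) (nat_lit 5) (nat_lit 2) (nat_lit 4) (nat_lit 284) (nat_lit 191) (nat_lit 185))) (XT.nd (nat_lit 78) (nat_lit 0) (nat_lit 0) (XT.lf (nat_lit 0) (nat_lit 2967693877825) (nat_lit 76) (nat_lit 3952902221267) (nat_lit 76) (nat_lit 3952810646620) (nat_lit 1) (nat_lit 4) (nat_lit 2) (nat_lit 5) (nat_lit 2) (nat_lit 4) (nat_lit 285) (nat_lit 191) (nat_lit 184)) (XT.nd (nat_lit 78) (nat_lit 0) (nat_lit 0)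 (XT.lf (nat_lit 0) (nat_lit 3413259188972) (nat_lit 76) (nat_lit 4545612844219) (nat_lit 76) (nat_lit 4545514074165) (nat_lit 1) (nat_lit 4) (nat_lit 2) (nat_lit 5) (nat_lit 2) (nat_lit 4) (nat_lit 286) (nat_lit 191) (nat_lit 183)) (XT.lf (nat_lit 0) (nat_lit 3925637157697) (nat_lit 76) (nat_lit 5227240973205) (nat_lit 76) (nat_lit 5227135946275) (nat_lit 1) (nat_lit 4) (nat_lit 2) (nat_lit 5) (nat_lit 2) (nat_lit 4) (nat_lit 287) (nat_lit 191) (nat_lit 182))))))))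
noncomputable def xc5 : XT := (XT.nd (nat_lit 34008) (nat_lit 0) (nat_lit 0) (XT.nd (nat_lit 624) (nat_lit 0) (nat_lit 0) (XT.nd (nat_lit 312) (nat_lit 0) (nat_lit 0) (XT.nd (nat_lit 156) (nat_lit 0) (nat_lit 0) (XT.nd (nat_lit 78) (nat_lit 0) (nat_lit 0) (XT.lf (nat_lit 0) (nat_lit 4514852570345) (nat_lit 76) (nat_lit 6011122810749) (nat_lit 76) (nat_lit 6011012343058) (nat_lit 1) (nat_lit 4) (nat_lit 2) (nat_lit 5) (nat_lit 2) (nat_lit 4) (nat_lit 288) (nat_lit 191) (nat_lit 181)) (XT.lf (nat_lit 0) (nat_lit 5192433554553) (nat_lit 76) (nat_lit 6912595175413) (nat_lit 76) (nat_lit 6912479976624) (nat_lit 1) (nat_lit 4) (nat_lit 2) (nat_lit 5) (nat_lit 2) (nat_lit 4) (nat_lit 289) (nat_lit 191) (nat_lit 180))) (XT.nd (nat_lit 78) (nat_lit 0) (nat_lit 0) (XT.lf (nat_lit 0) (nat_lit 5971637129579) (nat_lit 76) (nat_lit 7949295569982) (nat_lit 76) (nat_lit 7949176257196) (nat_lit 1) (nat_lit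 4) (nat_lit 2) (nat_lit 5) (nat_lit 2) (nat_lit 4) (nat_lit 290) (nat_lit 191) (nat_lit 179)) (XT.lf (nat_lit 0) (nat_lit 6867708582760) (nat_lit 76) (nat_lit 9141507263047) (nat_lit 76) (nat_lit 9141384372871) (nat_lit 1) (nat_lit 4) (nat_lit 2) (nat_lit 5) (nat_lit 2) (nat_lit 4) (nat_lit 291) (nat_lit 191) (nat_lit 178)))) (XT.nd (nat_lit 156) (nat_lit 0) (nat_lit 0) (XT.nd (nat_lit 78) (nat_lit 0) (nat_lit 0) (XT.lf (nat_lit 0) (nat_lit 7898179746875) (nat_lit 76) (nat_lit 10512556135558) (nat_lit 76) (nat_lit 10512430134609) (nat_lit 1) (nat_lit 4) (nat_lit 2) (nat_lit 5) (nat_lit 2) (nat_lit 4) (nat_lit 292) (nat_lit 191) (nat_lit 177)) (XT.lf (nat_lit 0) (nat_lit 9083212014267) (nat_lit 76) (nat_lit 12089267056760) (nat_lit 76) (nat_lit 12089138350791) (nat_lit 1) (nat_lit 4) (nat_lit 2) (nat_lit 5) (nat_lit 2) (nat_lit 4) (nat_lit 293) (nat_lit 191) (nat_lit 176))) (XT.nd (nat_lit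 78) (nat_lit 0) (nat_lit 0) (XT.lf (nat_lit 0) (nat_lit 10445990798861) (nat_lit 76) (nat_lit 13902488718590) (nat_lit 76) (nat_lit 13902357660430) (nat_lit 1) (nat_lit 4) (nat_lit 2) (nat_lit 5) (nat_lit 2) (nat_lit 4) (nat_lit 294) (nat_lit 191) (nat_lit 175)) (XT.lf (nat_lit 0) (nat_lit 12013179163836) (nat_lit 76) (nat_lit 15987697197040) (nat_lit 76) (nat_lit 15987564093496) (nat_lit 1) (nat_lit 4) (nat_lit 2) (nat_lit 5) (nat_lit 2) (nat_lit 4) (nat_lit 295) (nat_lit 191) (nat_lit 174))))) (XT.nd (nat_lit 32994) (nat_lit 0) (nat_lit 0) (XT.nd (nat_lit 32838) (nat_lit 0) (nat_lit 0) (XT.nd (nat_lit 78) (nat_lit 0) (nat_lit 0) (XT.lf (nat_lit 0) (nat_lit 13815439490244) (nat_lit 76) (nat_lit 18385690049298) (nat_lit 76) (nat_lit 18385555167159) (nat_lit 1) (nat_lit 4) (nat_lit 2) (nat_lit 5) (nat_lit 2) (nat_lit 4) (nat_lit 296) (nat_lit 191) (nat_lit 173)) (XT.lf (nat_lit 0) (nat_lit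 15888033393169) (nat_lit 76) (nat_lit 21143384526819) (nat_lit 76) (nat_lit 21143248098077) (nat_lit 1) (nat_lit 4) (nat_lit 2) (nat_lit 5) (nat_lit 2) (nat_lit 4) (nat_lit 297) (nat_lit 191) (nat_lit 172))) (XT.nd (nat_lit 78) (nat_lit 0) (nat_lit 0) (XT.lf (nat_lit 0) (nat_lit 420265290130) (nat_lit 76) (nat_lit 562651694948) (nat_lit 76) (nat_lit 562651694948) (nat_lit 1) (nat_lit 4) (nat_lit 2) (nat_lit 5) (nat_lit 2) (nat_lit 4) (nat_lit 276) (nat_lit 192) (nat_lit 192)) (XT.lf (nat_lit 0) (nat_lit 967407105477) (nat_lit 76) (nat_lit 1293680766637) (nat_lit 76) (nat_lit 1293658755721) (nat_lit 1) (nat_lit 4) (nat_lit 2) (nat_lit 5) (nat_lit 2) (nat_lit 4) (nat_lit 277) (nat_lit 192) (nat_lit 191)))) (XT.nd (nat_lit 156) (nat_lit 0) (nat_lit 0) (XT.nd (nat_lit 78) (nat_lit 0) (nat_lit 0) (XT.lf (nat_lit 0) (nat_lit 1113247385481) (nat_lit 76) (nat_lit 1487348131756) (nat_lit 76)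 (nat_lit 1487306980914) (nat_lit 1) (nat_lit 4) (nat_lit 2) (nat_lit 5) (nat_lit 2) (nat_lit 4) (nat_lit 278) (nat_lit 192) (nat_lit 190)) (XT.lf (nat_lit 0) (nat_lit 1280904817054) (nat_lit 76) (nat_lit 1710094629355) (nat_lit 76) (nat_lit 1710036835099) (nat_lit 1) (nat_lit 4) (nat_lit 2) (nat_lit 5) (nat_lit 2) (nat_lit 4) (nat_lit 279) (nat_lit 192) (nat_lit 189))) (XT.nd (nat_lit 78) (nat_lit 0) (nat_lit 0) (XT.lf (nat_lit 0) (nat_lit 1473659654294) (nat_lit 76) (nat_lit 1966278343081) (nat_lit 76) (nat_lit 1966206076291) (nat_lit 1) (nat_lit 4) (nat_lit 2) (nat_lit 5) (nat_lit 2) (nat_lit 4) (nat_lit 280) (nat_lit 192) (nat_lit 188)) (XT.nd (nat_lit 78) (nat_lit 0) (nat_lit 0) (XT.lf (nat_lit 0) (nat_lit 1695283187494) (nat_lit 76) (nat_lit 2260911562987) (nat_lit 76) (nat_lit 2260826711384) (nat_lit 1) (nat_lit 4) (nat_lit 2) (nat_lit 5) (nat_lit 2) (nat_lit 4) (nat_lit 281)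 (nat_lit 192) (nat_lit 187)) (XT.lf (nat_lit 0) (nat_lit 1950111529259) (nat_lit 76) (nat_lit 2599758852070) (nat_lit 76) (nat_lit 2599663057152) (nat_lit 1) (nat_lit 4) (nat_lit 2) (nat_lit 5) (nat_lit 2) (nat_lit 4) (nat_lit 282) (nat_lit 192) (nat_lit 186))))))) (XT.nd (nat_lit 624) (nat_lit 0) (nat_lit 0) (XT.nd (nat_lit 312) (nat_lit 0) (nat_lit 0) (XT.nd (nat_lit 156) (nat_lit 0) (nat_lit 0) (XT.nd (nat_lit 78) (nat_lit 0) (nat_lit 0) (XT.lf (nat_lit 0) (nat_lit 2243130451494) (nat_lit 76) (nat_lit 2989449831203) (nat_lit 76) (nat_lit 2989344520360) (nat_lit 1) (nat_lit 4) (nat_lit 2) (nat_lit 5) (nat_lit 2) (nat_lit 4) (nat_lit 283) (nat_lit 192) (nat_lit 185)) (XT.lf (nat_lit 0) (nat_lit 2580072933112) (nat_lit 76) (nat_lit 3437608889110) (nat_lit 76) (nat_lit 3437495303548) (nat_lit 1) (nat_lit 4) (nat_lit 2) (nat_lit 5) (nat_lit 2) (nat_lit 4) (nat_lit 284) (nat_lit 192) (nat_lit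 184))) (XT.nd (nat_lit 78) (nat_lit 0) (nat_lit 0) (XT.lf (nat_lit 0) (nat_lit 2967531327015) (nat_lit 76) (nat_lit 3953004355183) (nat_lit 76) (nat_lit 3952883574213) (nat_lit 1) (nat_lit 4) (nat_lit 2) (nat_lit 5) (nat_lit 2) (nat_lit 4) (nat_lit 285) (nat_lit 192) (nat_lit 183)) (XT.lf (nat_lit 0) (nat_lit 3413086340909) (nat_lit 76) (nat_lit 4545720053759) (nat_lit 76) (nat_lit 4545593015913) (nat_lit 1) (nat_lit 4) (nat_lit 2) (nat_lit 5) (nat_lit 2) (nat_lit 4) (nat_lit 286) (nat_lit 192) (nat_lit 182)))) (XT.nd (nat_lit 156) (nat_lit 0) (nat_lit 0) (XT.nd (nat_lit 78) (nat_lit 0) (nat_lit 0) (XT.lf (nat_lit 0) (nat_lit 3925455355501) (nat_lit 76) (nat_lit 5227352596331) (nat_lit 76) (nat_lit 5227220117724) (nat_lit 1) (nat_lit 4) (nat_lit 2) (nat_lit 5) (nat_lit 2) (nat_lit 4) (nat_lit 287) (nat_lit 192) (nat_lit 181)) (XT.lf (nat_lit 0) (nat_lit 4514662981945) (nat_lit 76) (nat_lit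 6011238271777) (nat_lit 76) (nat_lit 6011101062072) (nat_lit 1) (nat_lit 4) (nat_lit 2) (nat_lit 5) (nat_lit 2) (nat_lit 4) (nat_lit 288) (nat_lit 192) (nat_lit 180))) (XT.nd (nat_lit 78) (nat_lit 0) (nat_lit 0) (XT.lf (nat_lit 0) (nat_lit 5192237195543) (nat_lit 76) (nat_lit 6912713973745) (nat_lit 76) (nat_lit 6912572650044) (nat_lit 1) (nat_lit 4) (nat_lit 2) (nat_lit 5) (nat_lit 2) (nat_lit 4) (nat_lit 289) (nat_lit 192) (nat_lit 179)) (XT.lf (nat_lit 0) (nat_lit 5971434883081) (nat_lit 76) (nat_lit 7949417270319) (nat_lit 76) (nat_lit 7949272369228) (nat_lit 1) (nat_lit 4) (nat_lit 2) (nat_lit 5) (nat_lit 2) (nat_lit 4) (nat_lit 290) (nat_lit 192) (nat_lit 178))))) (XT.nd (nat_lit 312) (nat_lit 0) (nat_lit 0) (XT.nd (nat_lit 156) (nat_lit 0) (nat_lit 0) (XT.nd (nat_lit 78) (nat_lit 0) (nat_lit 0) (XT.lf (nat_lit 0) (nat_lit 6867501216707) (nat_lit 76) (nat_lit 9141631486866) (nat_lit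 76) (nat_lit 9141483475002) (nat_lit 1) (nat_lit 4) (nat_lit 2) (nat_lit 5) (nat_lit 2) (nat_lit 4) (nat_lit 291) (nat_lit 192) (nat_lit 177)) (XT.lf (nat_lit 0) (nat_lit 7897967929036) (nat_lit 76) (nat_lit 10512682553709) (nat_lit 76) (nat_lit 10512531836825) (nat_lit 1) (nat_lit 4) (nat_lit 2) (nat_lit 5) (nat_lit 2) (nat_lit 4) (nat_lit 292) (nat_lit 192) (nat_lit 176))) (XT.nd (nat_lit 78) (nat_lit 0) (nat_lit 0) (XT.lf (nat_lit 0) (nat_lit 9082996325308) (nat_lit 76) (nat_lit 12089395383027) (nat_lit 76) (nat_lit 12089242313951) (nat_lit 1) (nat_lit 4) (nat_lit 2) (nat_lit 5) (nat_lit 2) (nat_lit 4) (nat_lit 293) (nat_lit 192) (nat_lit 175)) (XT.lf (nat_lit 0) (nat_lit 10445771743713) (nat_lit 76) (nat_lit 13902618704087) (nat_lit 76) (nat_lit 13902463589628) (nat_lit 1) (nat_lit 4) (nat_lit 2) (nat_lit 5) (nat_lit 2) (nat_lit 4) (nat_lit 294) (nat_lit 192) (nat_lit 174)))) (XT.nd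 (nat_lit 156) (nat_lit 0) (nat_lit 0) (XT.nd (nat_lit 78) (nat_lit 0) (nat_lit 0) (XT.lf (nat_lit 0) (nat_lit 12012957181565) (nat_lit 76) (nat_lit 15987828625347) (nat_lit 76) (nat_lit 15987671732293) (nat_lit 1) (nat_lit 4) (nat_lit 2) (nat_lit 5) (nat_lit 2) (nat_lit 4) (nat_lit 295) (nat_lit 192) (nat_lit 173)) (XT.lf (nat_lit 0) (nat_lit 13815214962650) (nat_lit 76) (nat_lit 18385822732221) (nat_lit 76) (nat_lit 18385664292563) (nat_lit 1) (nat_lit 4) (nat_lit 2) (nat_lit 5) (nat_lit 2) (nat_lit 4) (nat_lit 296) (nat_lit 192) (nat_lit 172))) (XT.nd (nat_lit 32604) (nat_lit 0) (nat_lit 0) (XT.lf (nat_lit 0) (nat_lit 15887806652249) (nat_lit 76) (nat_lit 21143518300714) (nat_lit 76) (nat_lit 21143358516183) (nat_lit 1) (nat_lit 4) (nat_lit 2) (nat_lit 5) (nat_lit 2) (nat_lit 4) (nat_lit 297) (nat_lit 192) (nat_lit 171)) (XT.nd (nat_lit 78) (nat_lit 0) (nat_lit 0) (XT.lf (nat_lit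 0) (nat_lit 317051723534) (nat_lit 76) (nat_lit 425838185049) (nat_lit 76) (nat_lit 425838185049) (nat_lit 1) (nat_lit 4) (nat_lit 2) (nat_lit 5) (nat_lit 2) (nat_lit 4) (nat_lit 274) (nat_lit 193) (nat_lit 193)) (XT.lf (nat_lit 0) (nat_lit 730135443032) (nat_lit 76) (nat_lit 978946974108) (nat_lit 76) (nat_lit 978921661556) (nat_lit 1) (nat_lit 4) (nat_lit 2) (nat_lit 5) (nat_lit 2) (nat_lit 4) (nat_lit 275) (nat_lit 193) (nat_lit 192))))))))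
noncomputable def xc6 : XT := (XT.nd (nat_lit 1326) (nat_lit 0) (nat_lit 0) (XT.nd (nat_lit 624) (nat_lit 0) (nat_lit 0) (XT.nd (nat_lit 312) (nat_lit 0) (nat_lit 0) (XT.nd (nat_lit 156) (nat_lit 0) (nat_lit 0) (XT.nd (nat_lit 78) (nat_lit 0) (nat_lit 0) (XT.lf (nat_lit 0) (nat_lit 840494355797) (nat_lit 76) (nat_lit 1125346557867) (nat_lit 76) (nat_lit 1125299234399) (nat_lit 1) (nat_lit 4) (nat_lit 2) (nat_lit 5) (nat_lit 2) (nat_lit 4) (nat_lit 276) (nat_lit 193) (nat_lit 191)) (XT.lf (nat_lit 0) (nat_lit 967339381481) (nat_lit 76) (nat_lit 1293739461058) (nat_lit 76) (nat_lit 1293672997663) (nat_lit 1) (nat_lit 4) (nat_lit 2) (nat_lit 5) (nat_lit 2) (nat_lit 4) (nat_lit 277) (nat_lit 193) (nat_lit 190))) (XT.nd (nat_lit 78) (nat_lit 0) (nat_lit 0) (XT.lf (nat_lit 0) (nat_lit 1113152270587) (nat_lit 76) (nat_lit 1487420327438) (nat_lit 76) (nat_lit 1487337220629) (nat_lit 1) (nat_lit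 4) (nat_lit 2) (nat_lit 5) (nat_lit 2) (nat_lit 4) (nat_lit 278) (nat_lit 193) (nat_lit 189)) (XT.lf (nat_lit 0) (nat_lit 1280785883989) (nat_lit 76) (nat_lit 1710178565264) (nat_lit 76) (nat_lit 1710080985921) (nat_lit 1) (nat_lit 4) (nat_lit 2) (nat_lit 5) (nat_lit 2) (nat_lit 4) (nat_lit 279) (nat_lit 193) (nat_lit 188)))) (XT.nd (nat_lit 156) (nat_lit 0) (nat_lit 0) (XT.nd (nat_lit 78) (nat_lit 0) (nat_lit 0) (XT.lf (nat_lit 0) (nat_lit 1473520009775) (nat_lit 76) (nat_lit 1966372487883) (nat_lit 76) (nat_lit 1966262323728) (nat_lit 1) (nat_lit 4) (nat_lit 2) (nat_lit 5) (nat_lit 2) (nat_lit 4) (nat_lit 280) (nat_lit 193) (nat_lit 187)) (XT.lf (nat_lit 0) (nat_lit 1695125533014) (nat_lit 76) (nat_lit 2261014585087) (nat_lit 76) (nat_lit 2260893477617) (nat_lit 1) (nat_lit 4) (nat_lit 2) (nat_lit 5) (nat_lit 2) (nat_lit 4) (nat_lit 281) (nat_lit 193) (nat_lit 186))) (XT.nd (nat_lit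 78) (nat_lit 0) (nat_lit 0) (XT.lf (nat_lit 0) (nat_lit 1949938213944) (nat_lit 76) (nat_lit 2599869593560) (nat_lit 76) (nat_lit 2599738970164) (nat_lit 1) (nat_lit 4) (nat_lit 2) (nat_lit 5) (nat_lit 2) (nat_lit 4) (nat_lit 282) (nat_lit 193) (nat_lit 185)) (XT.lf (nat_lit 0) (nat_lit 2242943518062) (nat_lit 76) (nat_lit 2989567285207) (nat_lit 76) (nat_lit 2989428387092) (nat_lit 1) (nat_lit 4) (nat_lit 2) (nat_lit 5) (nat_lit 2) (nat_lit 4) (nat_lit 283) (nat_lit 193) (nat_lit 184))))) (XT.nd (nat_lit 312) (nat_lit 0) (nat_lit 0) (XT.nd (nat_lit 156) (nat_lit 0) (nat_lit 0) (XT.nd (nat_lit 78) (nat_lit 0) (nat_lit 0) (XT.lf (nat_lit 0) (nat_lit 2579874157840) (nat_lit 76) (nat_lit 3437732180081) (nat_lit 76) (nat_lit 3437586086558) (nat_lit 1) (nat_lit 4) (nat_lit 2) (nat_lit 5) (nat_lit 2) (nat_lit 4) (nat_lit 284) (nat_lit 193) (nat_lit 183)) (XT.lf (nat_lit 0) (nat_lit 2967322254489)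 (nat_lit 76) (nat_lit 3953132721778) (nat_lit 76) (nat_lit 3952980371380) (nat_lit 1) (nat_lit 4) (nat_lit 2) (nat_lit 5) (nat_lit 2) (nat_lit 4) (nat_lit 285) (nat_lit 193) (nat_lit 182))) (XT.nd (nat_lit 78) (nat_lit 0) (nat_lit 0) (XT.lf (nat_lit 0) (nat_lit 3412868314250) (nat_lit 76) (nat_lit 4545852833940) (nat_lit 76) (nat_lit 4545695042780) (nat_lit 1) (nat_lit 4) (nat_lit 2) (nat_lit 5) (nat_lit 2) (nat_lit 4) (nat_lit 286) (nat_lit 193) (nat_lit 181)) (XT.lf (nat_lit 0) (nat_lit 3925229542639) (nat_lit 76) (nat_lit 5227489214413) (nat_lit 76) (nat_lit 5227326692156) (nat_lit 1) (nat_lit 4) (nat_lit 2) (nat_lit 5) (nat_lit 2) (nat_lit 4) (nat_lit 287) (nat_lit 193) (nat_lit 180)))) (XT.nd (nat_lit 156) (nat_lit 0) (nat_lit 0) (XT.nd (nat_lit 78) (nat_lit 0) (nat_lit 0) (XT.lf (nat_lit 0) (nat_lit 4514430398472) (nat_lit 76) (nat_lit 6011378227164) (nat_lit 76) (nat_lit 6011211590910)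 (nat_lit 1) (nat_lit 4) (nat_lit 2) (nat_lit 5) (nat_lit 2) (nat_lit 4) (nat_lit 288) (nat_lit 193) (nat_lit 179)) (XT.lf (nat_lit 0) (nat_lit 5191998724582) (nat_lit 76) (nat_lit 6912856831137) (nat_lit 76) (nat_lit 6912686617494) (nat_lit 1) (nat_lit 4) (nat_lit 2) (nat_lit 5) (nat_lit 2) (nat_lit 4) (nat_lit 289) (nat_lit 193) (nat_lit 178))) (XT.nd (nat_lit 78) (nat_lit 0) (nat_lit 0) (XT.lf (nat_lit 0) (nat_lit 5971191292565) (nat_lit 76) (nat_lit 7949562651193) (nat_lit 76) (nat_lit 7949389326777) (nat_lit 1) (nat_lit 4) (nat_lit 2) (nat_lit 5) (nat_lit 2) (nat_lit 4) (nat_lit 290) (nat_lit 193) (nat_lit 177)) (XT.nd (nat_lit 78) (nat_lit 0) (nat_lit 0) (XT.lf (nat_lit 0) (nat_lit 6867253174405) (nat_lit 76) (nat_lit 9141779062072) (nat_lit 76) (nat_lit 9141603032636) (nat_lit 1) (nat_lit 4) (nat_lit 2) (nat_lit 5) (nat_lit 2) (nat_lit 4) (nat_lit 291) (nat_lit 193) (nat_lit 176))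 (XT.lf (nat_lit 0) (nat_lit 7897716015615) (nat_lit 76) (nat_lit 10512832037031) (nat_lit 76) (nat_lit 10512653655403) (nat_lit 1) (nat_lit 4) (nat_lit 2) (nat_lit 5) (nat_lit 2) (nat_lit 4) (nat_lit 292) (nat_lit 193) (nat_lit 175))))))) (XT.nd (nat_lit 32838) (nat_lit 0) (nat_lit 0) (XT.nd (nat_lit 312) (nat_lit 0) (nat_lit 0) (XT.nd (nat_lit 156) (nat_lit 0) (nat_lit 0) (XT.nd (nat_lit 78) (nat_lit 0) (nat_lit 0) (XT.lf (nat_lit 0) (nat_lit 9082741045697) (nat_lit 76) (nat_lit 12089546525579) (nat_lit 76) (nat_lit 12089366098567) (nat_lit 1) (nat_lit 4) (nat_lit 2) (nat_lit 5) (nat_lit 2) (nat_lit 4) (nat_lit 293) (nat_lit 193) (nat_lit 174)) (XT.lf (nat_lit 0) (nat_lit 10445513536979) (nat_lit 76) (nat_lit 13902771289449) (nat_lit 76) (nat_lit 13902589083842) (nat_lit 1) (nat_lit 4) (nat_lit 2) (nat_lit 5) (nat_lit 2) (nat_lit 4) (nat_lit 294) (nat_lit 193) (nat_lit 173))) (XT.nd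 (nat_lit 78) (nat_lit 0) (nat_lit 0) (XT.lf (nat_lit 0) (nat_lit 12012696429508) (nat_lit 76) (nat_lit 15987982465325) (nat_lit 76) (nat_lit 15987798713114) (nat_lit 1) (nat_lit 4) (nat_lit 2) (nat_lit 5) (nat_lit 2) (nat_lit 4) (nat_lit 295) (nat_lit 193) (nat_lit 172)) (XT.lf (nat_lit 0) (nat_lit 13814951997268) (nat_lit 76) (nat_lit 18385977663170) (nat_lit 76) (nat_lit 18385792566086) (nat_lit 1) (nat_lit 4) (nat_lit 2) (nat_lit 5) (nat_lit 2) (nat_lit 4) (nat_lit 296) (nat_lit 193) (nat_lit 171)))) (XT.nd (nat_lit 1326) (nat_lit 0) (nat_lit 0) (XT.nd (nat_lit 1248) (nat_lit 0) (nat_lit 0) (XT.lf (nat_lit 0) (nat_lit 15887541762238) (nat_lit 76) (nat_lit 21143674180333) (nat_lit 76) (nat_lit 21143487913795) (nat_lit 1) (nat_lit 4) (nat_lit 2) (nat_lit 5) (nat_lit 2) (nat_lit 4) (nat_lit 297) (nat_lit 193) (nat_lit 170)) (XT.lf (nat_lit 0) (nat_lit 148688178716380) (nat_lit 76) (nat_lit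 197843703570151) (nat_lit 76) (nat_lit 197843510340404) (nat_lit 1) (nat_lit 4) (nat_lit 2) (nat_lit 5) (nat_lit 2) (nat_lit 4) (nat_lit 313) (nat_lit 193) (nat_lit 154))) (XT.nd (nat_lit 31122) (nat_lit 0) (nat_lit 0) (XT.lf (nat_lit 0) (nat_lit 170991727466337) (nat_lit 76) (nat_lit 227520071307401) (nat_lit 76) (nat_lit 227519877968981) (nat_lit 1) (nat_lit 4) (nat_lit 2) (nat_lit 5) (nat_lit 2) (nat_lit 4) (nat_lit 314) (nat_lit 193) (nat_lit 153)) (XT.lf (nat_lit 0) (nat_lit 238898056645) (nat_lit 76) (nat_lit 322446416292) (nat_lit 76) (nat_lit 322446416292) (nat_lit 1) (nat_lit 4) (nat_lit 2) (nat_lit 5) (nat_lit 2) (nat_lit 4) (nat_lit 272) (nat_lit 194) (nat_lit 194))))) (XT.nd (nat_lit 312) (nat_lit 0) (nat_lit 0) (XT.nd (nat_lit 156) (nat_lit 0) (nat_lit 0) (XT.nd (nat_lit 78) (nat_lit 0) (nat_lit 0) (XT.lf (nat_lit 0) (nat_lit 550519481025) (nat_lit 76) (nat_lit 741073778241)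 (nat_lit 76) (nat_lit 741044668805) (nat_lit 1) (nat_lit 4) (nat_lit 2) (nat_lit 5) (nat_lit 2) (nat_lit 4) (nat_lit 273) (nat_lit 194) (nat_lit 193)) (XT.lf (nat_lit 0) (nat_lit 634061788936) (nat_lit 76) (nat_lit 851726013265) (nat_lit 76) (nat_lit 851671591277) (nat_lit 1) (nat_lit 4) (nat_lit 2) (nat_lit 5) (nat_lit 2) (nat_lit 4) (nat_lit 274) (nat_lit 194) (nat_lit 192))) (XT.nd (nat_lit 78) (nat_lit 0) (nat_lit 0) (XT.lf (nat_lit 0) (nat_lit 730057560438) (nat_lit 76) (nat_lit 979014472692) (nat_lit 76) (nat_lit 978938039789) (nat_lit 1) (nat_lit 4) (nat_lit 2) (nat_lit 5) (nat_lit 2) (nat_lit 4) (nat_lit 275) (nat_lit 194) (nat_lit 191)) (XT.lf (nat_lit 0) (nat_lit 840384973670) (nat_lit 76) (nat_lit 1125429582901) (nat_lit 76) (nat_lit 1125334010071) (nat_lit 1) (nat_lit 4) (nat_lit 2) (nat_lit 5) (nat_lit 2) (nat_lit 4) (nat_lit 276) (nat_lit 194) (nat_lit 190)))) (XT.nd (nat_lit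 156) (nat_lit 0) (nat_lit 0) (XT.nd (nat_lit 78) (nat_lit 0) (nat_lit 0) (XT.lf (nat_lit 0) (nat_lit 967202608456) (nat_lit 76) (nat_lit 1293835987353) (nat_lit 76) (nat_lit 1293723771108) (nat_lit 1) (nat_lit 4) (nat_lit 2) (nat_lit 5) (nat_lit 2) (nat_lit 4) (nat_lit 277) (nat_lit 194) (nat_lit 189)) (XT.lf (nat_lit 0) (nat_lit 1112991679390) (nat_lit 76) (nat_lit 1487528593960) (nat_lit 76) (nat_lit 1487401905182) (nat_lit 1) (nat_lit 4) (nat_lit 2) (nat_lit 5) (nat_lit 2) (nat_lit 4) (nat_lit 278) (nat_lit 194) (nat_lit 188))) (XT.nd (nat_lit 78) (nat_lit 0) (nat_lit 0) (XT.lf (nat_lit 0) (nat_lit 1280604581337) (nat_lit 76) (nat_lit 1710297040679) (nat_lit 76) (nat_lit 1710157767088) (nat_lit 1) (nat_lit 4) (nat_lit 2) (nat_lit 5) (nat_lit 2) (nat_lit 4) (nat_lit 279) (nat_lit 194) (nat_lit 187)) (XT.nd (nat_lit 78) (nat_lit 0) (nat_lit 0) (XT.lf (nat_lit 0) (nat_lit 1473320697163)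 (nat_lit 76) (nat_lit 1966499840597) (nat_lit 76) (nat_lit 1966349623691) (nat_lit 1) (nat_lit 4) (nat_lit 2) (nat_lit 5) (nat_lit 2) (nat_lit 4) (nat_lit 280) (nat_lit 194) (nat_lit 186)) (XT.lf (nat_lit 0) (nat_lit 1694910559567) (nat_lit 76) (nat_lit 2261149657191) (nat_lit 76) (nat_lit 2260989924359) (nat_lit 1) (nat_lit 4) (nat_lit 2) (nat_lit 5) (nat_lit 2) (nat_lit 4) (nat_lit 281) (nat_lit 194) (nat_lit 185))))))))
noncomputable def xc7 : XT := (XT.nd (nat_lit 2418) (nat_lit 0) (nat_lit 0) (XT.nd (nat_lit 624) (nat_lit 0) (nat_lit 0) (XT.nd (nat_lit 312) (nat_lit 0) (nat_lit 0) (XT.nd (nat_lit 156) (nat_lit 0) (nat_lit 0) (XT.nd (nat_lit 78) (nat_lit 0) (nat_lit 0) (XT.lf (nat_lit 0) (nat_lit 1949709622381) (nat_lit 76) (nat_lit 2600011378177) (nat_lit 76) (nat_lit 2599843370626) (nat_lit 1) (nat_lit 4) (nat_lit 2) (nat_lit 5) (nat_lit 2) (nat_lit 4) (nat_lit 282) (nat_lit 194)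 (nat_lit 184)) (XT.lf (nat_lit 0) (nat_lit 2242703084657) (nat_lit 76) (nat_lit 2989714906791) (nat_lit 76) (nat_lit 2989539703833) (nat_lit 1) (nat_lit 4) (nat_lit 2) (nat_lit 5) (nat_lit 2) (nat_lit 4) (nat_lit 283) (nat_lit 194) (nat_lit 183))) (XT.nd (nat_lit 78) (nat_lit 0) (nat_lit 0) (XT.lf (nat_lit 0) (nat_lit 2579623427181) (nat_lit 76) (nat_lit 3437884877289) (nat_lit 76) (nat_lit 3437703417455) (nat_lit 1) (nat_lit 4) (nat_lit 2) (nat_lit 5) (nat_lit 2) (nat_lit 4) (nat_lit 284) (nat_lit 194) (nat_lit 182)) (XT.lf (nat_lit 0) (nat_lit 2967062569698) (nat_lit 76) (nat_lit 3953289832572) (nat_lit 76) (nat_lit 3953102931977) (nat_lit 1) (nat_lit 4) (nat_lit 2) (nat_lit 5) (nat_lit 2) (nat_lit 4) (nat_lit 285) (nat_lit 194) (nat_lit 181)))) (XT.nd (nat_lit 156) (nat_lit 0) (nat_lit 0) (XT.nd (nat_lit 78) (nat_lit 0) (nat_lit 0) (XT.lf (nat_lit 0) (nat_lit 3412600843256) (nat_lit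 76) (nat_lit 4546013782635) (nat_lit 76) (nat_lit 4545822150943) (nat_lit 1) (nat_lit 4) (nat_lit 2) (nat_lit 5) (nat_lit 2) (nat_lit 4) (nat_lit 286) (nat_lit 194) (nat_lit 180)) (XT.lf (nat_lit 0) (nat_lit 3924955301034) (nat_lit 76) (nat_lit 5227653500414) (nat_lit 76) (nat_lit 5227457754724) (nat_lit 1) (nat_lit 4) (nat_lit 2) (nat_lit 5) (nat_lit 2) (nat_lit 4) (nat_lit 287) (nat_lit 194) (nat_lit 179))) (XT.nd (nat_lit 78) (nat_lit 0) (nat_lit 0) (XT.lf (nat_lit 0) (nat_lit 4514150269379) (nat_lit 76) (nat_lit 6011545415169) (nat_lit 76) (nat_lit 6011346092090) (nat_lit 1) (nat_lit 4) (nat_lit 2) (nat_lit 5) (nat_lit 2) (nat_lit 4) (nat_lit 288) (nat_lit 194) (nat_lit 178)) (XT.lf (nat_lit 0) (nat_lit 5191713475934) (nat_lit 76) (nat_lit 6913026542625) (nat_lit 76) (nat_lit 6912824108773) (nat_lit 1) (nat_lit 4) (nat_lit 2) (nat_lit 5) (nat_lit 2) (nat_lit 4) (nat_lit 289) (nat_lit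 194) (nat_lit 177))))) (XT.nd (nat_lit 312) (nat_lit 0) (nat_lit 0) (XT.nd (nat_lit 156) (nat_lit 0) (nat_lit 0) (XT.nd (nat_lit 78) (nat_lit 0) (nat_lit 0) (XT.lf (nat_lit 0) (nat_lit 5970901592131) (nat_lit 76) (nat_lit 7949734557013) (nat_lit 76) (nat_lit 7949529418141) (nat_lit 1) (nat_lit 4) (nat_lit 2) (nat_lit 5) (nat_lit 2) (nat_lit 4) (nat_lit 290) (nat_lit 194) (nat_lit 176)) (XT.lf (nat_lit 0) (nat_lit 6866959602852) (nat_lit 76) (nat_lit 9141952876008) (nat_lit 76) (nat_lit 9141745384944) (nat_lit 1) (nat_lit 4) (nat_lit 2) (nat_lit 5) (nat_lit 2) (nat_lit 4) (nat_lit 291) (nat_lit 194) (nat_lit 175))) (XT.nd (nat_lit 78) (nat_lit 0) (nat_lit 0) (XT.lf (nat_lit 0) (nat_lit 7897419077871) (nat_lit 76) (nat_lit 10513007510197) (nat_lit 76) (nat_lit 10512797973749) (nat_lit 1) (nat_lit 4) (nat_lit 2) (nat_lit 5) (nat_lit 2) (nat_lit 4) (nat_lit 292) (nat_lit 194) (nat_lit 174))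 (XT.lf (nat_lit 0) (nat_lit 9082441180831) (nat_lit 76) (nat_lit 12089723441554) (nat_lit 76) (nat_lit 12089512126512) (nat_lit 1) (nat_lit 4) (nat_lit 2) (nat_lit 5) (nat_lit 2) (nat_lit 4) (nat_lit 293) (nat_lit 194) (nat_lit 173)))) (XT.nd (nat_lit 156) (nat_lit 0) (nat_lit 0) (XT.nd (nat_lit 78) (nat_lit 0) (nat_lit 0) (XT.lf (nat_lit 0) (nat_lit 10445211126790) (nat_lit 76) (nat_lit 13902949460040) (nat_lit 76) (nat_lit 13902736598394) (nat_lit 1) (nat_lit 4) (nat_lit 2) (nat_lit 5) (nat_lit 2) (nat_lit 4) (nat_lit 294) (nat_lit 194) (nat_lit 172)) (XT.lf (nat_lit 0) (nat_lit 12012391805995) (nat_lit 76) (nat_lit 15988161726887) (nat_lit 76) (nat_lit 15987947520368) (nat_lit 1) (nat_lit 4) (nat_lit 2) (nat_lit 5) (nat_lit 2) (nat_lit 4) (nat_lit 295) (nat_lit 194) (nat_lit 171))) (XT.nd (nat_lit 78) (nat_lit 0) (nat_lit 0) (XT.lf (nat_lit 0) (nat_lit 13814645449124) (nat_lit 76)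 (nat_lit 18386157873403) (nat_lit 76) (nat_lit 18385942497429) (nat_lit 1) (nat_lit 4) (nat_lit 2) (nat_lit 5) (nat_lit 2) (nat_lit 4) (nat_lit 296) (nat_lit 194) (nat_lit 170)) (XT.nd (nat_lit 1170) (nat_lit 0) (nat_lit 0) (XT.lf (nat_lit 0) (nat_lit 15887233540502) (nat_lit 76) (nat_lit 21143855215497) (nat_lit 76) (nat_lit 21143638822605) (nat_lit 1) (nat_lit 4) (nat_lit 2) (nat_lit 5) (nat_lit 2) (nat_lit 4) (nat_lit 297) (nat_lit 194) (nat_lit 169)) (XT.lf (nat_lit 0) (nat_lit 129293470156814) (nat_lit 76) (nat_lit 172038352430978) (nat_lit 76) (nat_lit 172038130091795) (nat_lit 1) (nat_lit 4) (nat_lit 2) (nat_lit 5) (nat_lit 2) (nat_lit 4) (nat_lit 312) (nat_lit 194) (nat_lit 154))))))) (XT.nd (nat_lit 31590) (nat_lit 0) (nat_lit 0) (XT.nd (nat_lit 31278) (nat_lit 0) (nat_lit 0) (XT.nd (nat_lit 31122) (nat_lit 0) (nat_lit 0) (XT.nd (nat_lit 31044) (nat_lit 0) (nat_lit 0) (XT.lf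 (nat_lit 0) (nat_lit 148687860529688) (nat_lit 76) (nat_lit 197843889517146) (nat_lit 76) (nat_lit 197843667069291) (nat_lit 1) (nat_lit 4) (nat_lit 2) (nat_lit 5) (nat_lit 2) (nat_lit 4) (nat_lit 313) (nat_lit 194) (nat_lit 153)) (XT.lf (nat_lit 0) (nat_lit 179676866906) (nat_lit 76) (nat_lit 244335120502) (nat_lit 76) (nat_lit 244335120502) (nat_lit 1) (nat_lit 4) (nat_lit 2) (nat_lit 5) (nat_lit 2) (nat_lit 4) (nat_lit 270) (nat_lit 195) (nat_lit 195))) (XT.nd (nat_lit 78) (nat_lit 0) (nat_lit 0) (XT.lf (nat_lit 0) (nat_lit 414468837235) (nat_lit 76) (nat_lit 561334851038) (nat_lit 76) (nat_lit 561301375187) (nat_lit 1) (nat_lit 4) (nat_lit 2) (nat_lit 5) (nat_lit 2) (nat_lit 4) (nat_lit 271) (nat_lit 195) (nat_lit 194)) (XT.lf (nat_lit 0) (nat_lit 477748206440) (nat_lit 76) (nat_lit 644949922226) (nat_lit 76) (nat_lit 644887336939) (nat_lit 1) (nat_lit 4) (nat_lit 2) (nat_lit 5)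 (nat_lit 2) (nat_lit 4) (nat_lit 272) (nat_lit 195) (nat_lit 193)))) (XT.nd (nat_lit 156) (nat_lit 0) (nat_lit 0) (XT.nd (nat_lit 78) (nat_lit 0) (nat_lit 0) (XT.lf (nat_lit 0) (nat_lit 550429916042) (nat_lit 76) (nat_lit 741151401612) (nat_lit 76) (nat_lit 741063503773) (nat_lit 1) (nat_lit 4) (nat_lit 2) (nat_lit 5) (nat_lit 2) (nat_lit 4) (nat_lit 273) (nat_lit 195) (nat_lit 192)) (XT.lf (nat_lit 0) (nat_lit 633935999489) (nat_lit 76) (nat_lit 851821492055) (nat_lit 76) (nat_lit 851711583300) (nat_lit 1) (nat_lit 4) (nat_lit 2) (nat_lit 5) (nat_lit 2) (nat_lit 4) (nat_lit 274) (nat_lit 195) (nat_lit 191))) (XT.nd (nat_lit 78) (nat_lit 0) (nat_lit 0) (XT.lf (nat_lit 0) (nat_lit 729900271459) (nat_lit 76) (nat_lit 979125477932) (nat_lit 76) (nat_lit 978996429251) (nat_lit 1) (nat_lit 4) (nat_lit 2) (nat_lit 5) (nat_lit 2) (nat_lit 4) (nat_lit 275) (nat_lit 195) (nat_lit 190)) (XT.lf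 (nat_lit 0) (nat_lit 840200293793) (nat_lit 76) (nat_lit 1125554089402) (nat_lit 76) (nat_lit 1125408397306) (nat_lit 1) (nat_lit 4) (nat_lit 2) (nat_lit 5) (nat_lit 2) (nat_lit 4) (nat_lit 276) (nat_lit 195) (nat_lit 189))))) (XT.nd (nat_lit 312) (nat_lit 0) (nat_lit 0) (XT.nd (nat_lit 156) (nat_lit 0) (nat_lit 0) (XT.nd (nat_lit 78) (nat_lit 0) (nat_lit 0) (XT.lf (nat_lit 0) (nat_lit 966994110406) (nat_lit 76) (nat_lit 1293972234080) (nat_lit 76) (nat_lit 1293812069451) (nat_lit 1) (nat_lit 4) (nat_lit 2) (nat_lit 5) (nat_lit 2) (nat_lit 4) (nat_lit 277) (nat_lit 195) (nat_lit 188)) (XT.lf (nat_lit 0) (nat_lit 1112762469886) (nat_lit 76) (nat_lit 1487675049581) (nat_lit 76) (nat_lit 1487502300139) (nat_lit 1) (nat_lit 4) (nat_lit 2) (nat_lit 5) (nat_lit 2) (nat_lit 4) (nat_lit 278) (nat_lit 195) (nat_lit 187))) (XT.nd (nat_lit 78) (nat_lit 0) (nat_lit 0) (XT.lf (nat_lit 0) (nat_lit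 1280357361874) (nat_lit 76) (nat_lit 1710452373598) (nat_lit 76) (nat_lit 1710268680841) (nat_lit 1) (nat_lit 4) (nat_lit 2) (nat_lit 5) (nat_lit 2) (nat_lit 4) (nat_lit 279) (nat_lit 195) (nat_lit 186)) (XT.lf (nat_lit 0) (nat_lit 1473057816865) (nat_lit 76) (nat_lit 1966662892906) (nat_lit 76) (nat_lit 1966469684223) (nat_lit 1) (nat_lit 4) (nat_lit 2) (nat_lit 5) (nat_lit 2) (nat_lit 4) (nat_lit 280) (nat_lit 195) (nat_lit 185)))) (XT.nd (nat_lit 156) (nat_lit 0) (nat_lit 0) (XT.nd (nat_lit 78) (nat_lit 0) (nat_lit 0) (XT.lf (nat_lit 0) (nat_lit 1694634061152) (nat_lit 76) (nat_lit 2261319422013) (nat_lit 76) (nat_lit 2261117938611) (nat_lit 1) (nat_lit 4) (nat_lit 2) (nat_lit 5) (nat_lit 2) (nat_lit 4) (nat_lit 281) (nat_lit 195) (nat_lit 184)) (XT.lf (nat_lit 0) (nat_lit 1949421282124) (nat_lit 76) (nat_lit 2600186979966) (nat_lit 76) (nat_lit 2599978301157) (nat_lit 1) (nat_lit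 4) (nat_lit 2) (nat_lit 5) (nat_lit 2) (nat_lit 4) (nat_lit 282) (nat_lit 195) (nat_lit 183))) (XT.nd (nat_lit 78) (nat_lit 0) (nat_lit 0) (XT.lf (nat_lit 0) (nat_lit 2242404447148) (nat_lit 76) (nat_lit 2989895584204) (nat_lit 76) (nat_lit 2989680648520) (nat_lit 1) (nat_lit 4) (nat_lit 2) (nat_lit 5) (nat_lit 2) (nat_lit 4) (nat_lit 283) (nat_lit 195) (nat_lit 182)) (XT.nd (nat_lit 78) (nat_lit 0) (nat_lit 0) (XT.lf (nat_lit 0) (nat_lit 2579315835538) (nat_lit 76) (nat_lit 3438069968289) (nat_lit 76) (nat_lit 3437849591843) (nat_lit 1) (nat_lit 4) (nat_lit 2) (nat_lit 5) (nat_lit 2) (nat_lit 4) (nat_lit 284) (nat_lit 195) (nat_lit 181)) (XT.lf (nat_lit 0) (nat_lit 2966747191852) (nat_lit 76) (nat_lit 3953478761473) (nat_lit 76) (nat_lit 3953253653930) (nat_lit 1) (nat_lit 4) (nat_lit 2) (nat_lit 5) (nat_lit 2) (nat_lit 4) (nat_lit 285) (nat_lit 195) (nat_lit 180))))))))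
noncomputable def xc8 : XT := (XT.nd (nat_lit 33228) (nat_lit 0) (nat_lit 0) (XT.nd (nat_lit 624) (nat_lit 0) (nat_lit 0) (XT.nd (nat_lit 312) (nat_lit 0) (nat_lit 0) (XT.nd (nat_lit 156) (nat_lit 0) (nat_lit 0) (XT.nd (nat_lit 78) (nat_lit 0) (nat_lit 0) (XT.lf (nat_lit 0) (nat_lit 3412278694799) (nat_lit 76) (nat_lit 4546206048841) (nat_lit 76) (nat_lit 4545976827301) (nat_lit 1) (nat_lit 4) (nat_lit 2) (nat_lit 5) (nat_lit 2) (nat_lit 4) (nat_lit 286) (nat_lit 195) (nat_lit 179)) (XT.lf (nat_lit 0) (nat_lit 3924627265089) (nat_lit 76) (nat_lit 5227848668625) (nat_lit 76) (nat_lit 5227615869695) (nat_lit 1) (nat_lit 4) (nat_lit 2) (nat_lit 5) (nat_lit 2) (nat_lit 4) (nat_lit 287) (nat_lit 195) (nat_lit 178))) (XT.nd (nat_lit 78) (nat_lit 0) (nat_lit 0) (XT.lf (nat_lit 0) (nat_lit 4513817113880) (nat_lit 76) (nat_lit 6011743106862) (nat_lit 76) (nat_lit 6011507197159) (nat_lit 1) (nat_lit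 4) (nat_lit 2) (nat_lit 5) (nat_lit 2) (nat_lit 4) (nat_lit 288) (nat_lit 195) (nat_lit 177)) (XT.lf (nat_lit 0) (nat_lit 5191375868648) (nat_lit 76) (nat_lit 6913226428650) (nat_lit 76) (nat_lit 6912987813927) (nat_lit 1) (nat_lit 4) (nat_lit 2) (nat_lit 5) (nat_lit 2) (nat_lit 4) (nat_lit 289) (nat_lit 195) (nat_lit 176)))) (XT.nd (nat_lit 156) (nat_lit 0) (nat_lit 0) (XT.nd (nat_lit 78) (nat_lit 0) (nat_lit 0) (XT.lf (nat_lit 0) (nat_lit 5970560113726) (nat_lit 76) (nat_lit 7949936351154) (nat_lit 76) (nat_lit 7949695384239) (nat_lit 1) (nat_lit 4) (nat_lit 2) (nat_lit 5) (nat_lit 2) (nat_lit 4) (nat_lit 290) (nat_lit 195) (nat_lit 175)) (XT.lf (nat_lit 0) (nat_lit 6866614758256) (nat_lit 76) (nat_lit 9142156329379) (nat_lit 76) (nat_lit 9141913317080) (nat_lit 1) (nat_lit 4) (nat_lit 2) (nat_lit 5) (nat_lit 2) (nat_lit 4) (nat_lit 291) (nat_lit 195) (nat_lit 174))) (XT.nd (nat_lit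 78) (nat_lit 0) (nat_lit 0) (XT.lf (nat_lit 0) (nat_lit 7897071306154) (nat_lit 76) (nat_lit 10513212406377) (nat_lit 76) (nat_lit 10512967615484) (nat_lit 1) (nat_lit 4) (nat_lit 2) (nat_lit 5) (nat_lit 2) (nat_lit 4) (nat_lit 292) (nat_lit 195) (nat_lit 173)) (XT.lf (nat_lit 0) (nat_lit 9082090863791) (nat_lit 76) (nat_lit 12089929592351) (nat_lit 76) (nat_lit 12089683254853) (nat_lit 1) (nat_lit 4) (nat_lit 2) (nat_lit 5) (nat_lit 2) (nat_lit 4) (nat_lit 293) (nat_lit 195) (nat_lit 172))))) (XT.nd (nat_lit 624) (nat_lit 0) (nat_lit 0) (XT.nd (nat_lit 156) (nat_lit 0) (nat_lit 0) (XT.nd (nat_lit 78) (nat_lit 0) (nat_lit 0) (XT.lf (nat_lit 0) (nat_lit 10444858596425) (nat_lit 76) (nat_lit 13903156701808) (nat_lit 76) (nat_lit 13902909019438) (nat_lit 1) (nat_lit 4) (nat_lit 2) (nat_lit 5) (nat_lit 2) (nat_lit 4) (nat_lit 294) (nat_lit 195) (nat_lit 171)) (XT.lf (nat_lit 0) (nat_lit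 12012037350999) (nat_lit 76) (nat_lit 15988369917325) (nat_lit 76) (nat_lit 15988121065500) (nat_lit 1) (nat_lit 4) (nat_lit 2) (nat_lit 5) (nat_lit 2) (nat_lit 4) (nat_lit 295) (nat_lit 195) (nat_lit 170))) (XT.nd (nat_lit 78) (nat_lit 0) (nat_lit 0) (XT.lf (nat_lit 0) (nat_lit 13814289320537) (nat_lit 76) (nat_lit 18386366888772) (nat_lit 76) (nat_lit 18386117020029) (nat_lit 1) (nat_lit 4) (nat_lit 2) (nat_lit 5) (nat_lit 2) (nat_lit 4) (nat_lit 296) (nat_lit 195) (nat_lit 169)) (XT.lf (nat_lit 0) (nat_lit 15886875956618) (nat_lit 76) (nat_lit 21144064948197) (nat_lit 76) (nat_lit 21143814195179) (nat_lit 1) (nat_lit 4) (nat_lit 2) (nat_lit 5) (nat_lit 2) (nat_lit 4) (nat_lit 297) (nat_lit 195) (nat_lit 168)))) (XT.nd (nat_lit 31746) (nat_lit 0) (nat_lit 0) (XT.nd (nat_lit 78) (nat_lit 0) (nat_lit 0) (XT.lf (nat_lit 0) (nat_lit 31957127917774) (nat_lit 76) (nat_lit 42526555439868)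 (nat_lit 76) (nat_lit 42526301722619) (nat_lit 1) (nat_lit 4) (nat_lit 2) (nat_lit 5) (nat_lit 2) (nat_lit 4) (nat_lit 302) (nat_lit 195) (nat_lit 163)) (XT.lf (nat_lit 0) (nat_lit 36751128502216) (nat_lit 76) (nat_lit 48905287618621) (nat_lit 76) (nat_lit 48905033519076) (nat_lit 1) (nat_lit 4) (nat_lit 2) (nat_lit 5) (nat_lit 2) (nat_lit 4) (nat_lit 303) (nat_lit 195) (nat_lit 162))) (XT.nd (nat_lit 78) (nat_lit 0) (nat_lit 0) (XT.lf (nat_lit 0) (nat_lit 134752481451) (nat_lit 76) (nat_lit 185349654562) (nat_lit 76) (nat_lit 185349654562) (nat_lit 1) (nat_lit 4) (nat_lit 2) (nat_lit 5) (nat_lit 2) (nat_lit 4) (nat_lit 268) (nat_lit 196) (nat_lit 196)) (XT.nd (nat_lit 78) (nat_lit 0) (nat_lit 0) (XT.lf (nat_lit 0) (nat_lit 311324557191) (nat_lit 76) (nat_lit 425572890460) (nat_lit 76) (nat_lit 425534393231) (nat_lit 1) (nat_lit 4) (nat_lit 2) (nat_lit 5) (nat_lit 2) (nat_lit 4) (nat_lit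 269) (nat_lit 196) (nat_lit 195)) (XT.lf (nat_lit 0) (nat_lit 359298640932) (nat_lit 76) (nat_lit 488735894091) (nat_lit 76) (nat_lit 488663921011) (nat_lit 1) (nat_lit 4) (nat_lit 2) (nat_lit 5) (nat_lit 2) (nat_lit 4) (nat_lit 270) (nat_lit 196) (nat_lit 194))))))) (XT.nd (nat_lit 624) (nat_lit 0) (nat_lit 0) (XT.nd (nat_lit 312) (nat_lit 0) (nat_lit 0) (XT.nd (nat_lit 156) (nat_lit 0) (nat_lit 0) (XT.nd (nat_lit 78) (nat_lit 0) (nat_lit 0) (XT.lf (nat_lit 0) (nat_lit 414365837503) (nat_lit 76) (nat_lit 561424117915) (nat_lit 76) (nat_lit 561323035400) (nat_lit 1) (nat_lit 4) (nat_lit 2) (nat_lit 5) (nat_lit 2) (nat_lit 4) (nat_lit 271) (nat_lit 196) (nat_lit 193)) (XT.lf (nat_lit 0) (nat_lit 477603548576) (nat_lit 76) (nat_lit 645059722833) (nat_lit 76) (nat_lit 644933327765) (nat_lit 1) (nat_lit 4) (nat_lit 2) (nat_lit 5) (nat_lit 2) (nat_lit 4) (nat_lit 272) (nat_lit 196) (nat_lit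 192))) (XT.nd (nat_lit 78) (nat_lit 0) (nat_lit 0) (XT.lf (nat_lit 0) (nat_lit 550249033716) (nat_lit 76) (nat_lit 741279057637) (nat_lit 76) (nat_lit 741130651654) (nat_lit 1) (nat_lit 4) (nat_lit 2) (nat_lit 5) (nat_lit 2) (nat_lit 4) (nat_lit 273) (nat_lit 196) (nat_lit 191)) (XT.lf (nat_lit 0) (nat_lit 633723617630) (nat_lit 76) (nat_lit 851964674530) (nat_lit 76) (nat_lit 851797128621) (nat_lit 1) (nat_lit 4) (nat_lit 2) (nat_lit 5) (nat_lit 2) (nat_lit 4) (nat_lit 274) (nat_lit 196) (nat_lit 190)))) (XT.nd (nat_lit 156) (nat_lit 0) (nat_lit 0) (XT.nd (nat_lit 78) (nat_lit 0) (nat_lit 0) (XT.lf (nat_lit 0) (nat_lit 729660498702) (nat_lit 76) (nat_lit 979282161669) (nat_lit 76) (nat_lit 979097972345) (nat_lit 1) (nat_lit 4) (nat_lit 2) (nat_lit 5) (nat_lit 2) (nat_lit 4) (nat_lit 275) (nat_lit 196) (nat_lit 189)) (XT.lf (nat_lit 0) (nat_lit 839936702864) (nat_lit 76) (nat_lit 1125722513366)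 (nat_lit 76) (nat_lit 1125523851507) (nat_lit 1) (nat_lit 4) (nat_lit 2) (nat_lit 5) (nat_lit 2) (nat_lit 4) (nat_lit 276) (nat_lit 196) (nat_lit 188))) (XT.nd (nat_lit 78) (nat_lit 0) (nat_lit 0) (XT.lf (nat_lit 0) (nat_lit 966709808023) (nat_lit 76) (nat_lit 1294150866937) (nat_lit 76) (nat_lit 1293939620267) (nat_lit 1) (nat_lit 4) (nat_lit 2) (nat_lit 5) (nat_lit 2) (nat_lit 4) (nat_lit 277) (nat_lit 196) (nat_lit 187)) (XT.lf (nat_lit 0) (nat_lit 1112460157543) (nat_lit 76) (nat_lit 1487862559736) (nat_lit 76) (nat_lit 1487640369751) (nat_lit 1) (nat_lit 4) (nat_lit 2) (nat_lit 5) (nat_lit 2) (nat_lit 4) (nat_lit 278) (nat_lit 196) (nat_lit 186))))) (XT.nd (nat_lit 312) (nat_lit 0) (nat_lit 0) (XT.nd (nat_lit 156) (nat_lit 0) (nat_lit 0) (XT.nd (nat_lit 78) (nat_lit 0) (nat_lit 0) (XT.lf (nat_lit 0) (nat_lit 1280039388696) (nat_lit 76) (nat_lit 1710647603143) (nat_lit 76) (nat_lit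 1710415897232) (nat_lit 1) (nat_lit 4) (nat_lit 2) (nat_lit 5) (nat_lit 2) (nat_lit 4) (nat_lit 279) (nat_lit 196) (nat_lit 185)) (XT.lf (nat_lit 0) (nat_lit 1472726225569) (nat_lit 76) (nat_lit 1966864834964) (nat_lit 76) (nat_lit 1966624854334) (nat_lit 1) (nat_lit 4) (nat_lit 2) (nat_lit 5) (nat_lit 2) (nat_lit 4) (nat_lit 280) (nat_lit 196) (nat_lit 184))) (XT.nd (nat_lit 78) (nat_lit 0) (nat_lit 0) (XT.lf (nat_lit 0) (nat_lit 1694290628016) (nat_lit 76) (nat_lit 2261527201038) (nat_lit 76) (nat_lit 2261280025001) (nat_lit 1) (nat_lit 4) (nat_lit 2) (nat_lit 5) (nat_lit 2) (nat_lit 4) (nat_lit 281) (nat_lit 196) (nat_lit 183)) (XT.lf (nat_lit 0) (nat_lit 1949067551734) (nat_lit 76) (nat_lit 2600399834616) (nat_lit 76) (nat_lit 2600146401703) (nat_lit 1) (nat_lit 4) (nat_lit 2) (nat_lit 5) (nat_lit 2) (nat_lit 4) (nat_lit 282) (nat_lit 196) (nat_lit 182)))) (XT.nd (nat_lit 156) (nat_lit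 0) (nat_lit 0) (XT.nd (nat_lit 78) (nat_lit 0) (nat_lit 0) (XT.lf (nat_lit 0) (nat_lit 2242041762625) (nat_lit 76) (nat_lit 2990112852441) (nat_lit 76) (nat_lit 2989853978766) (nat_lit 1) (nat_lit 4) (nat_lit 2) (nat_lit 5) (nat_lit 2) (nat_lit 4) (nat_lit 283) (nat_lit 196) (nat_lit 181)) (XT.lf (nat_lit 0) (nat_lit 2578945364813) (nat_lit 76) (nat_lit 3438291074426) (nat_lit 76) (nat_lit 3438027469654) (nat_lit 1) (nat_lit 4) (nat_lit 2) (nat_lit 5) (nat_lit 2) (nat_lit 4) (nat_lit 284) (nat_lit 196) (nat_lit 180))) (XT.nd (nat_lit 78) (nat_lit 0) (nat_lit 0) (XT.lf (nat_lit 0) (nat_lit 2966369950516) (nat_lit 76) (nat_lit 3953703204916) (nat_lit 76) (nat_lit 3953435486146) (nat_lit 1) (nat_lit 4) (nat_lit 2) (nat_lit 5) (nat_lit 2) (nat_lit 4) (nat_lit 285) (nat_lit 196) (nat_lit 179)) (XT.nd (nat_lit 78) (nat_lit 0) (nat_lit 0) (XT.lf (nat_lit 0) (nat_lit 3411895565975) (nat_lit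 76) (nat_lit 4546433394288) (nat_lit 76) (nat_lit 4546162098130) (nat_lit 1) (nat_lit 4) (nat_lit 2) (nat_lit 5) (nat_lit 2) (nat_lit 4) (nat_lit 286) (nat_lit 196) (nat_lit 178)) (XT.lf (nat_lit 0) (nat_lit 3924239016710) (nat_lit 76) (nat_lit 5228078537554) (nat_lit 76) (nat_lit 5227804130622) (nat_lit 1) (nat_lit 4) (nat_lit 2) (nat_lit 5) (nat_lit 2) (nat_lit 4) (nat_lit 287) (nat_lit 196) (nat_lit 177))))))))
noncomputable def xc9 : XT := (XT.nd (nat_lit 32994) (nat_lit 0) (nat_lit 0) (XT.nd (nat_lit 624) (nat_lit 0) (nat_lit 0) (XT.nd (nat_lit 312) (nat_lit 0) (nat_lit 0) (XT.nd (nat_lit 156) (nat_lit 0) (nat_lit 0) (XT.nd (nat_lit 78) (nat_lit 0) (nat_lit 0) (XT.lf (nat_lit 0) (nat_lit 4513424413714) (nat_lit 76) (nat_lit 6011975170124) (nat_lit 76) (nat_lit 6011698058172) (nat_lit 1) (nat_lit 4) (nat_lit 2) (nat_lit 5) (nat_lit 2) (nat_lit 4) (nat_lit 288) (nat_lit 196) (nat_lit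 176)) (XT.lf (nat_lit 0) (nat_lit 5190979297364) (nat_lit 76) (nat_lit 6913460400027) (nat_lit 76) (nat_lit 6913180935884) (nat_lit 1) (nat_lit 4) (nat_lit 2) (nat_lit 5) (nat_lit 2) (nat_lit 4) (nat_lit 289) (nat_lit 196) (nat_lit 175))) (XT.nd (nat_lit 78) (nat_lit 0) (nat_lit 0) (XT.lf (nat_lit 0) (nat_lit 5970160176251) (nat_lit 76) (nat_lit 7950171981761) (nat_lit 76) (nat_lit 7949890472234) (nat_lit 1) (nat_lit 4) (nat_lit 2) (nat_lit 5) (nat_lit 2) (nat_lit 4) (nat_lit 290) (nat_lit 196) (nat_lit 174)) (XT.lf (nat_lit 0) (nat_lit 6866211893660) (nat_lit 76) (nat_lit 9142393402795) (nat_lit 76) (nat_lit 9142110114673) (nat_lit 1) (nat_lit 4) (nat_lit 2) (nat_lit 5) (nat_lit 2) (nat_lit 4) (nat_lit 291) (nat_lit 196) (nat_lit 173)))) (XT.nd (nat_lit 156) (nat_lit 0) (nat_lit 0) (XT.nd (nat_lit 78) (nat_lit 0) (nat_lit 0) (XT.lf (nat_lit 0) (nat_lit 7896665896234) (nat_lit 76) (nat_lit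 10513450734410) (nat_lit 76) (nat_lit 10513165899684) (nat_lit 1) (nat_lit 4) (nat_lit 2) (nat_lit 5) (nat_lit 2) (nat_lit 4) (nat_lit 292) (nat_lit 196) (nat_lit 172)) (XT.lf (nat_lit 0) (nat_lit 9081683240546) (nat_lit 76) (nat_lit 12090169011355) (nat_lit 76) (nat_lit 12089882831756) (nat_lit 1) (nat_lit 4) (nat_lit 2) (nat_lit 5) (nat_lit 2) (nat_lit 4) (nat_lit 293) (nat_lit 196) (nat_lit 171))) (XT.nd (nat_lit 78) (nat_lit 0) (nat_lit 0) (XT.lf (nat_lit 0) (nat_lit 10444449048549) (nat_lit 76) (nat_lit 13903397069482) (nat_lit 76) (nat_lit 13903109720429) (nat_lit 1) (nat_lit 4) (nat_lit 2) (nat_lit 5) (nat_lit 2) (nat_lit 4) (nat_lit 294) (nat_lit 196) (nat_lit 170)) (XT.lf (nat_lit 0) (nat_lit 12011626129532) (nat_lit 76) (nat_lit 15988611109931) (nat_lit 76) (nat_lit 15988322743960) (nat_lit 1) (nat_lit 4) (nat_lit 2) (nat_lit 5) (nat_lit 2) (nat_lit 4) (nat_lit 295) (nat_lit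 196) (nat_lit 169))))) (XT.nd (nat_lit 546) (nat_lit 0) (nat_lit 0) (XT.nd (nat_lit 390) (nat_lit 0) (nat_lit 0) (XT.nd (nat_lit 312) (nat_lit 0) (nat_lit 0) (XT.lf (nat_lit 0) (nat_lit 13813876643773) (nat_lit 76) (nat_lit 18386608798708) (nat_lit 76) (nat_lit 18386319548461) (nat_lit 1) (nat_lit 4) (nat_lit 2) (nat_lit 5) (nat_lit 2) (nat_lit 4) (nat_lit 296) (nat_lit 196) (nat_lit 168)) (XT.lf (nat_lit 0) (nat_lit 24163058191032) (nat_lit 76) (nat_lit 32156839572448) (nat_lit 76) (nat_lit 32156547797612) (nat_lit 1) (nat_lit 4) (nat_lit 2) (nat_lit 5) (nat_lit 2) (nat_lit 4) (nat_lit 300) (nat_lit 196) (nat_lit 164))) (XT.nd (nat_lit 78) (nat_lit 0) (nat_lit 0) (XT.lf (nat_lit 0) (nat_lit 27788013025979) (nat_lit 76) (nat_lit 36980076700504) (nat_lit 76) (nat_lit 36979784486028) (nat_lit 1) (nat_lit 4) (nat_lit 2) (nat_lit 5) (nat_lit 2) (nat_lit 4) (nat_lit 301) (nat_lit 196) (nat_lit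 163)) (XT.lf (nat_lit 0) (nat_lit 31956709733464) (nat_lit 76) (nat_lit 42526800064531) (nat_lit 76) (nat_lit 42526507467758) (nat_lit 1) (nat_lit 4) (nat_lit 2) (nat_lit 5) (nat_lit 2) (nat_lit 4) (nat_lit 302) (nat_lit 196) (nat_lit 162)))) (XT.nd (nat_lit 31590) (nat_lit 0) (nat_lit 0) (XT.nd (nat_lit 31512) (nat_lit 0) (nat_lit 0) (XT.lf (nat_lit 0) (nat_lit 36750709770805) (nat_lit 76) (nat_lit 48905532512956) (nat_lit 76) (nat_lit 48905239583751) (nat_lit 1) (nat_lit 4) (nat_lit 2) (nat_lit 5) (nat_lit 2) (nat_lit 4) (nat_lit 303) (nat_lit 196) (nat_lit 161)) (XT.lf (nat_lit 0) (nat_lit 100616835338) (nat_lit 76) (nat_lit 140837748104) (nat_lit 76) (nat_lit 140837748104) (nat_lit 1) (nat_lit 4) (nat_lit 2) (nat_lit 5) (nat_lit 2) (nat_lit 4) (nat_lit 266) (nat_lit 197) (nat_lit 197))) (XT.nd (nat_lit 78) (nat_lit 0) (nat_lit 0) (XT.lf (nat_lit 0) (nat_lit 233021648611) (nat_lit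 76) (nat_lit 323085808352) (nat_lit 76) (nat_lit 323041536539) (nat_lit 1) (nat_lit 4) (nat_lit 2) (nat_lit 5) (nat_lit 2) (nat_lit 4) (nat_lit 267) (nat_lit 197) (nat_lit 196)) (XT.nd (nat_lit 78) (nat_lit 0) (nat_lit 0) (XT.lf (nat_lit 0) (nat_lit 269441606090) (nat_lit 76) (nat_lit 370774810176) (nat_lit 76) (nat_lit 370692041134) (nat_lit 1) (nat_lit 4) (nat_lit 2) (nat_lit 5) (nat_lit 2) (nat_lit 4) (nat_lit 268) (nat_lit 197) (nat_lit 195)) (XT.lf (nat_lit 0) (nat_lit 311206107500) (nat_lit 76) (nat_lit 425675547369) (nat_lit 76) (nat_lit 425559302476) (nat_lit 1) (nat_lit 4) (nat_lit 2) (nat_lit 5) (nat_lit 2) (nat_lit 4) (nat_lit 269) (nat_lit 197) (nat_lit 194))))))) (XT.nd (nat_lit 624) (nat_lit 0) (nat_lit 0) (XT.nd (nat_lit 312) (nat_lit 0) (nat_lit 0) (XT.nd (nat_lit 156) (nat_lit 0) (nat_lit 0) (XT.nd (nat_lit 78) (nat_lit 0) (nat_lit 0) (XT.lf (nat_lit 0) (nat_lit 359132284389)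 (nat_lit 76) (nat_lit 488862164790) (nat_lit 76) (nat_lit 488716810462) (nat_lit 1) (nat_lit 4) (nat_lit 2) (nat_lit 5) (nat_lit 2) (nat_lit 4) (nat_lit 270) (nat_lit 197) (nat_lit 193)) (XT.lf (nat_lit 0) (nat_lit 414157822828) (nat_lit 76) (nat_lit 561570922344) (nat_lit 76) (nat_lit 561400255464) (nat_lit 1) (nat_lit 4) (nat_lit 2) (nat_lit 5) (nat_lit 2) (nat_lit 4) (nat_lit 271) (nat_lit 197) (nat_lit 192))) (XT.nd (nat_lit 78) (nat_lit 0) (nat_lit 0) (XT.lf (nat_lit 0) (nat_lit 477359309439) (nat_lit 76) (nat_lit 645224382680) (nat_lit 76) (nat_lit 645031704884) (nat_lit 1) (nat_lit 4) (nat_lit 2) (nat_lit 5) (nat_lit 2) (nat_lit 4) (nat_lit 272) (nat_lit 197) (nat_lit 191)) (XT.lf (nat_lit 0) (nat_lit 549973295045) (nat_lit 76) (nat_lit 741459243935) (nat_lit 76) (nat_lit 741247426212) (nat_lit 1) (nat_lit 4) (nat_lit 2) (nat_lit 5) (nat_lit 2) (nat_lit 4) (nat_lit 273) (nat_lit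 197) (nat_lit 190)))) (XT.nd (nat_lit 156) (nat_lit 0) (nat_lit 0) (XT.nd (nat_lit 78) (nat_lit 0) (nat_lit 0) (XT.lf (nat_lit 0) (nat_lit 633420488062) (nat_lit 76) (nat_lit 852158362089) (nat_lit 76) (nat_lit 851929900952) (nat_lit 1) (nat_lit 4) (nat_lit 2) (nat_lit 5) (nat_lit 2) (nat_lit 4) (nat_lit 274) (nat_lit 197) (nat_lit 189)) (XT.lf (nat_lit 0) (nat_lit 729333550961) (nat_lit 76) (nat_lit 979487589454) (nat_lit 76) (nat_lit 979244655783) (nat_lit 1) (nat_lit 4) (nat_lit 2) (nat_lit 5) (nat_lit 2) (nat_lit 4) (nat_lit 275) (nat_lit 197) (nat_lit 188))) (XT.nd (nat_lit 78) (nat_lit 0) (nat_lit 0) (XT.lf (nat_lit 0) (nat_lit 839589043669) (nat_lit 76) (nat_lit 1125938150044) (nat_lit 76) (nat_lit 1125682631561) (nat_lit 1) (nat_lit 4) (nat_lit 2) (nat_lit 5) (nat_lit 2) (nat_lit 4) (nat_lit 276) (nat_lit 197) (nat_lit 187)) (XT.lf (nat_lit 0) (nat_lit 966344138869) (nat_lit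 76) (nat_lit 1294375380914) (nat_lit 76) (nat_lit 1294108919116) (nat_lit 1) (nat_lit 4) (nat_lit 2) (nat_lit 5) (nat_lit 2) (nat_lit 4) (nat_lit 277) (nat_lit 197) (nat_lit 186))))) (XT.nd (nat_lit 312) (nat_lit 0) (nat_lit 0) (XT.nd (nat_lit 156) (nat_lit 0) (nat_lit 0) (XT.nd (nat_lit 78) (nat_lit 0) (nat_lit 0) (XT.lf (nat_lit 0) (nat_lit 1112078827554) (nat_lit 76) (nat_lit 1488094793103) (nat_lit 76) (nat_lit 1487818815378) (nat_lit 1) (nat_lit 4) (nat_lit 2) (nat_lit 5) (nat_lit 2) (nat_lit 4) (nat_lit 278) (nat_lit 197) (nat_lit 185)) (XT.lf (nat_lit 0) (nat_lit 1279644440589) (nat_lit 76) (nat_lit 1710886549023) (nat_lit 76) (nat_lit 1710602296580) (nat_lit 1) (nat_lit 4) (nat_lit 2) (nat_lit 5) (nat_lit 2) (nat_lit 4) (nat_lit 279) (nat_lit 197) (nat_lit 184))) (XT.nd (nat_lit 78) (nat_lit 0) (nat_lit 0) (XT.lf (nat_lit 0) (nat_lit 1472319435621) (nat_lit 76) (nat_lit 1967109617811)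 (nat_lit 76) (nat_lit 1966818169961) (nat_lit 1) (nat_lit 4) (nat_lit 2) (nat_lit 5) (nat_lit 2) (nat_lit 4) (nat_lit 280) (nat_lit 197) (nat_lit 183)) (XT.lf (nat_lit 0) (nat_lit 1693873540815) (nat_lit 76) (nat_lit 2261777059510) (nat_lit 76) (nat_lit 2261479354784) (nat_lit 1) (nat_lit 4) (nat_lit 2) (nat_lit 5) (nat_lit 2) (nat_lit 4) (nat_lit 281) (nat_lit 197) (nat_lit 182)))) (XT.nd (nat_lit 156) (nat_lit 0) (nat_lit 0) (XT.nd (nat_lit 78) (nat_lit 0) (nat_lit 0) (XT.lf (nat_lit 0) (nat_lit 1948641510400) (nat_lit 76) (nat_lit 2600654106674) (nat_lit 76) (nat_lit 2600350961186) (nat_lit 1) (nat_lit 4) (nat_lit 2) (nat_lit 5) (nat_lit 2) (nat_lit 4) (nat_lit 282) (nat_lit 197) (nat_lit 181)) (XT.lf (nat_lit 0) (nat_lit 2241607935088) (nat_lit 76) (nat_lit 2990370962399) (nat_lit 76) (nat_lit 2990063085814) (nat_lit 1) (nat_lit 4) (nat_lit 2) (nat_lit 5) (nat_lit 2) (nat_lit 4)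 (nat_lit 283) (nat_lit 197) (nat_lit 180))) (XT.nd (nat_lit 78) (nat_lit 0) (nat_lit 0) (XT.lf (nat_lit 0) (nat_lit 2578504766665) (nat_lit 76) (nat_lit 3438552521690) (nat_lit 76) (nat_lit 3438240531108) (nat_lit 1) (nat_lit 4) (nat_lit 2) (nat_lit 5) (nat_lit 2) (nat_lit 4) (nat_lit 284) (nat_lit 197) (nat_lit 179)) (XT.nd (nat_lit 78) (nat_lit 0) (nat_lit 0) (XT.lf (nat_lit 0) (nat_lit 2965923464880) (nat_lit 76) (nat_lit 3953967554184) (nat_lit 76) (nat_lit 3953651986213) (nat_lit 1) (nat_lit 4) (nat_lit 2) (nat_lit 5) (nat_lit 2) (nat_lit 4) (nat_lit 285) (nat_lit 197) (nat_lit 178)) (XT.lf (nat_lit 0) (nat_lit 3411443960784) (nat_lit 76) (nat_lit 4546700267039) (nat_lit 76) (nat_lit 4546381588295) (nat_lit 1) (nat_lit 4) (nat_lit 2) (nat_lit 5) (nat_lit 2) (nat_lit 4) (nat_lit 286) (nat_lit 197) (nat_lit 177))))))))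
noncomputable def xc10 : XT := (XT.nd (nat_lit 32682) (nat_lit 0) (nat_lit 0) (XT.nd (nat_lit 624) (nat_lit 0) (nat_lit 0) (XT.nd (nat_lit 312) (nat_lit 0) (nat_lit 0) (XT.nd (nat_lit 156) (nat_lit 0) (nat_lit 0) (XT.nd (nat_lit 78) (nat_lit 0) (nat_lit 0) (XT.lf (nat_lit 0) (nat_lit 3923782959733) (nat_lit 76) (nat_lit 5228347604637) (nat_lit 76) (nat_lit 5228026220872) (nat_lit 1) (nat_lit 4) (nat_lit 2) (nat_lit 5) (nat_lit 2) (nat_lit 4) (nat_lit 287) (nat_lit 197) (nat_lit 176)) (XT.lf (nat_lit 0) (nat_lit 4512964485618) (nat_lit 76) (nat_lit 6012246145322) (nat_lit 76) (nat_lit 6011922409366) (nat_lit 1) (nat_lit 4) (nat_lit 2) (nat_lit 5) (nat_lit 2) (nat_lit 4) (nat_lit 288) (nat_lit 197) (nat_lit 175))) (XT.nd (nat_lit 78) (nat_lit 0) (nat_lit 0) (XT.lf (nat_lit 0) (nat_lit 5190516003077) (nat_lit 76) (nat_lit 6913733034456) (nat_lit 76) (nat_lit 6913407253116) (nat_lit 1)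 (nat_lit 4) (nat_lit 2) (nat_lit 5) (nat_lit 2) (nat_lit 4) (nat_lit 289) (nat_lit 197) (nat_lit 174)) (XT.lf (nat_lit 0) (nat_lit 5969693954843) (nat_lit 76) (nat_lit 7950446058999) (nat_lit 76) (nat_lit 7950118499065) (nat_lit 1) (nat_lit 4) (nat_lit 2) (nat_lit 5) (nat_lit 2) (nat_lit 4) (nat_lit 290) (nat_lit 197) (nat_lit 173)))) (XT.nd (nat_lit 156) (nat_lit 0) (nat_lit 0) (XT.nd (nat_lit 78) (nat_lit 0) (nat_lit 0) (XT.lf (nat_lit 0) (nat_lit 6865743126928) (nat_lit 76) (nat_lit 9142668734650) (nat_lit 76) (nat_lit 9142339628111) (nat_lit 1) (nat_lit 4) (nat_lit 2) (nat_lit 5) (nat_lit 2) (nat_lit 4) (nat_lit 291) (nat_lit 197) (nat_lit 172)) (XT.lf (nat_lit 0) (nat_lit 7896194916177) (nat_lit 76) (nat_lit 10513727157236) (nat_lit 76) (nat_lit 10513396705824) (nat_lit 1) (nat_lit 4) (nat_lit 2) (nat_lit 5) (nat_lit 2) (nat_lit 4) (nat_lit 292) (nat_lit 197) (nat_lit 171))) (XT.nd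 (nat_lit 78) (nat_lit 0) (nat_lit 0) (XT.lf (nat_lit 0) (nat_lit 9081210335859) (nat_lit 76) (nat_lit 12090446382851) (nat_lit 76) (nat_lit 12090114761984) (nat_lit 1) (nat_lit 4) (nat_lit 2) (nat_lit 5) (nat_lit 2) (nat_lit 4) (nat_lit 293) (nat_lit 197) (nat_lit 170)) (XT.lf (nat_lit 0) (nat_lit 10443974470271) (nat_lit 76) (nat_lit 13903675265909) (nat_lit 76) (nat_lit 13903342628126) (nat_lit 1) (nat_lit 4) (nat_lit 2) (nat_lit 5) (nat_lit 2) (nat_lit 4) (nat_lit 294) (nat_lit 197) (nat_lit 169))))) (XT.nd (nat_lit 468) (nat_lit 0) (nat_lit 0) (XT.nd (nat_lit 312) (nat_lit 0) (nat_lit 0) (XT.nd (nat_lit 78) (nat_lit 0) (nat_lit 0) (XT.lf (nat_lit 0) (nat_lit 12011150095956) (nat_lit 76) (nat_lit 15988890023689) (nat_lit 76) (nat_lit 15988556501629) (nat_lit 1) (nat_lit 4) (nat_lit 2) (nat_lit 5) (nat_lit 2) (nat_lit 4) (nat_lit 295) (nat_lit 197) (nat_lit 168)) (XT.lf (nat_lit 0)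 (nat_lit 13813399344722) (nat_lit 76) (nat_lit 18386888336233) (nat_lit 76) (nat_lit 18386554045237) (nat_lit 1) (nat_lit 4) (nat_lit 2) (nat_lit 5) (nat_lit 2) (nat_lit 4) (nat_lit 296) (nat_lit 197) (nat_lit 167))) (XT.nd (nat_lit 78) (nat_lit 0) (nat_lit 0) (XT.lf (nat_lit 0) (nat_lit 21010442010826) (nat_lit 76) (nat_lit 27963001959145) (nat_lit 76) (nat_lit 27962665912497) (nat_lit 1) (nat_lit 4) (nat_lit 2) (nat_lit 5) (nat_lit 2) (nat_lit 4) (nat_lit 299) (nat_lit 197) (nat_lit 164)) (XT.lf (nat_lit 0) (nat_lit 24162577279076) (nat_lit 76) (nat_lit 32157120890811) (nat_lit 76) (nat_lit 32156784404521) (nat_lit 1) (nat_lit 4) (nat_lit 2) (nat_lit 5) (nat_lit 2) (nat_lit 4) (nat_lit 300) (nat_lit 197) (nat_lit 163)))) (XT.nd (nat_lit 156) (nat_lit 0) (nat_lit 0) (XT.nd (nat_lit 78) (nat_lit 0) (nat_lit 0) (XT.lf (nat_lit 0) (nat_lit 27787531484858) (nat_lit 76) (nat_lit 36980358328990)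 (nat_lit 76) (nat_lit 36980021460403) (nat_lit 1) (nat_lit 4) (nat_lit 2) (nat_lit 5) (nat_lit 2) (nat_lit 4) (nat_lit 301) (nat_lit 197) (nat_lit 162)) (XT.lf (nat_lit 0) (nat_lit 31956227645242) (nat_lit 76) (nat_lit 42527081962688) (nat_lit 76) (nat_lit 42526744761670) (nat_lit 1) (nat_lit 4) (nat_lit 2) (nat_lit 5) (nat_lit 2) (nat_lit 4) (nat_lit 302) (nat_lit 197) (nat_lit 161))) (XT.nd (nat_lit 78) (nat_lit 0) (nat_lit 0) (XT.lf (nat_lit 0) (nat_lit 36750227206845) (nat_lit 76) (nat_lit 48905814645610) (nat_lit 76) (nat_lit 48905477155520) (nat_lit 1) (nat_lit 4) (nat_lit 2) (nat_lit 5) (nat_lit 2) (nat_lit 4) (nat_lit 303) (nat_lit 197) (nat_lit 160)) (XT.nd (nat_lit 31278) (nat_lit 0) (nat_lit 0) (XT.lf (nat_lit 0) (nat_lit 42263325813263) (nat_lit 76) (nat_lit 56241357669377) (nat_lit 76) (nat_lit 56241019927920) (nat_lit 1) (nat_lit 4) (nat_lit 2) (nat_lit 5) (nat_lit 2)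 (nat_lit 4) (nat_lit 304) (nat_lit 197) (nat_lit 159)) (XT.lf (nat_lit 0) (nat_lit 74614072677) (nat_lit 76) (nat_lit 107283369003) (nat_lit 76) (nat_lit 107283369003) (nat_lit 1) (nat_lit 4) (nat_lit 2) (nat_lit 5) (nat_lit 2) (nat_lit 4) (nat_lit 264) (nat_lit 198) (nat_lit 198))))))) (XT.nd (nat_lit 624) (nat_lit 0) (nat_lit 0) (XT.nd (nat_lit 312) (nat_lit 0) (nat_lit 0) (XT.nd (nat_lit 156) (nat_lit 0) (nat_lit 0) (XT.nd (nat_lit 78) (nat_lit 0) (nat_lit 0) (XT.lf (nat_lit 0) (nat_lit 173455733590) (nat_lit 76) (nat_lit 245784584574) (nat_lit 76) (nat_lit 245733671989) (nat_lit 1) (nat_lit 4) (nat_lit 2) (nat_lit 5) (nat_lit 2) (nat_lit 4) (nat_lit 265) (nat_lit 198) (nat_lit 197)) (XT.lf (nat_lit 0) (nat_lit 201160810344) (nat_lit 76) (nat_lit 281762322417) (nat_lit 76) (nat_lit 281667138019) (nat_lit 1) (nat_lit 4) (nat_lit 2) (nat_lit 5) (nat_lit 2) (nat_lit 4) (nat_lit 266)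 (nat_lit 198) (nat_lit 196))) (XT.nd (nat_lit 78) (nat_lit 0) (nat_lit 0) (XT.lf (nat_lit 0) (nat_lit 232885431466) (nat_lit 76) (nat_lit 323203863797) (nat_lit 76) (nat_lit 323070182170) (nat_lit 1) (nat_lit 4) (nat_lit 2) (nat_lit 5) (nat_lit 2) (nat_lit 4) (nat_lit 267) (nat_lit 198) (nat_lit 195)) (XT.lf (nat_lit 0) (nat_lit 269250296066) (nat_lit 76) (nat_lit 370920021479) (nat_lit 76) (nat_lit 370752864002) (nat_lit 1) (nat_lit 4) (nat_lit 2) (nat_lit 5) (nat_lit 2) (nat_lit 4) (nat_lit 268) (nat_lit 198) (nat_lit 194)))) (XT.nd (nat_lit 156) (nat_lit 0) (nat_lit 0) (XT.nd (nat_lit 78) (nat_lit 0) (nat_lit 0) (XT.lf (nat_lit 0) (nat_lit 310966890623) (nat_lit 76) (nat_lit 425844372463) (nat_lit 76) (nat_lit 425648105550) (nat_lit 1) (nat_lit 4) (nat_lit 2) (nat_lit 5) (nat_lit 2) (nat_lit 4) (nat_lit 269) (nat_lit 198) (nat_lit 193)) (XT.lf (nat_lit 0) (nat_lit 358851409381) (nat_lit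 76) (nat_lit 489051523614) (nat_lit 76) (nat_lit 488829944148) (nat_lit 1) (nat_lit 4) (nat_lit 2) (nat_lit 5) (nat_lit 2) (nat_lit 4) (nat_lit 270) (nat_lit 198) (nat_lit 192))) (XT.nd (nat_lit 78) (nat_lit 0) (nat_lit 0) (XT.lf (nat_lit 0) (nat_lit 413840723357) (nat_lit 76) (nat_lit 561778136586) (nat_lit 76) (nat_lit 561534546205) (nat_lit 1) (nat_lit 4) (nat_lit 2) (nat_lit 5) (nat_lit 2) (nat_lit 4) (nat_lit 271) (nat_lit 198) (nat_lit 191)) (XT.lf (nat_lit 0) (nat_lit 477010710435) (nat_lit 76) (nat_lit 645447123373) (nat_lit 76) (nat_lit 645184393065) (nat_lit 1) (nat_lit 4) (nat_lit 2) (nat_lit 5) (nat_lit 2) (nat_lit 4) (nat_lit 272) (nat_lit 198) (nat_lit 190))))) (XT.nd (nat_lit 312) (nat_lit 0) (nat_lit 0) (XT.nd (nat_lit 156) (nat_lit 0) (nat_lit 0) (XT.nd (nat_lit 78) (nat_lit 0) (nat_lit 0) (XT.lf (nat_lit 0) (nat_lit 549597305144) (nat_lit 76) (nat_lit 741695485888)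 (nat_lit 76) (nat_lit 741416112166) (nat_lit 1) (nat_lit 4) (nat_lit 2) (nat_lit 5) (nat_lit 2) (nat_lit 4) (nat_lit 273) (nat_lit 198) (nat_lit 189)) (XT.lf (nat_lit 0) (nat_lit 633020679988) (nat_lit 76) (nat_lit 852406344269) (nat_lit 76) (nat_lit 852112498013) (nat_lit 1) (nat_lit 4) (nat_lit 2) (nat_lit 5) (nat_lit 2) (nat_lit 4) (nat_lit 274) (nat_lit 198) (nat_lit 188))) (XT.nd (nat_lit 78) (nat_lit 0) (nat_lit 0) (XT.lf (nat_lit 0) (nat_lit 728913031433) (nat_lit 76) (nat_lit 979745780527) (nat_lit 76) (nat_lit 979439349459) (nat_lit 1) (nat_lit 4) (nat_lit 2) (nat_lit 5) (nat_lit 2) (nat_lit 4) (nat_lit 275) (nat_lit 198) (nat_lit 187)) (XT.lf (nat_lit 0) (nat_lit 839150514181) (nat_lit 76) (nat_lit 1126205218416) (nat_lit 76) (nat_lit 1125887844033) (nat_lit 1) (nat_lit 4) (nat_lit 2) (nat_lit 5) (nat_lit 2) (nat_lit 4) (nat_lit 276) (nat_lit 198) (nat_lit 186)))) (XT.nd (nat_lit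 156) (nat_lit 0) (nat_lit 0) (XT.nd (nat_lit 78) (nat_lit 0) (nat_lit 0) (XT.lf (nat_lit 0) (nat_lit 965889948546) (nat_lit 76) (nat_lit 1294650168676) (nat_lit 76) (nat_lit 1294323278366) (nat_lit 1) (nat_lit 4) (nat_lit 2) (nat_lit 5) (nat_lit 2) (nat_lit 4) (nat_lit 277) (nat_lit 198) (nat_lit 185)) (XT.lf (nat_lit 0) (nat_lit 1111611019113) (nat_lit 76) (nat_lit 1488376293378) (nat_lit 76) (nat_lit 1488041128350) (nat_lit 1) (nat_lit 4) (nat_lit 2) (nat_lit 5) (nat_lit 2) (nat_lit 4) (nat_lit 278) (nat_lit 198) (nat_lit 184))) (XT.nd (nat_lit 78) (nat_lit 0) (nat_lit 0) (XT.lf (nat_lit 0) (nat_lit 1279164790308) (nat_lit 76) (nat_lit 1711173886265) (nat_lit 76) (nat_lit 1710831525830) (nat_lit 1) (nat_lit 4) (nat_lit 2) (nat_lit 5) (nat_lit 2) (nat_lit 4) (nat_lit 279) (nat_lit 198) (nat_lit 183)) (XT.nd (nat_lit 78) (nat_lit 0) (nat_lit 0) (XT.lf (nat_lit 0) (nat_lit 1471829488087)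 (nat_lit 76) (nat_lit 1967402030678) (nat_lit 76) (nat_lit 1967053413367) (nat_lit 1) (nat_lit 4) (nat_lit 2) (nat_lit 5) (nat_lit 2) (nat_lit 4) (nat_lit 280) (nat_lit 198) (nat_lit 182)) (XT.lf (nat_lit 0) (nat_lit 1693374639147) (nat_lit 76) (nat_lit 2262073885963) (nat_lit 76) (nat_lit 2261719827890) (nat_lit 1) (nat_lit 4) (nat_lit 2) (nat_lit 5) (nat_lit 2) (nat_lit 4) (nat_lit 281) (nat_lit 198) (nat_lit 181))))))))
noncomputable def xc11 : XT := (XT.nd (nat_lit 1404) (nat_lit 0) (nat_lit 0) (XT.nd (nat_lit 624) (nat_lit 0) (nat_lit 0) (XT.nd (nat_lit 312) (nat_lit 0) (nat_lit 0) (XT.nd (nat_lit 156) (nat_lit 0) (nat_lit 0) (XT.nd (nat_lit 78) (nat_lit 0) (nat_lit 0) (XT.lf (nat_lit 0) (nat_lit 1948134822530) (nat_lit 76) (nat_lit 2600954771027) (nat_lit 76) (nat_lit 2600595981858) (nat_lit 1) (nat_lit 4) (nat_lit 2) (nat_lit 5) (nat_lit 2) (nat_lit 4) (nat_lit 282) (nat_lit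 198) (nat_lit 180)) (XT.lf (nat_lit 0) (nat_lit 2241094476607) (nat_lit 76) (nat_lit 2990674964058) (nat_lit 76) (nat_lit 2990312060891) (nat_lit 1) (nat_lit 4) (nat_lit 2) (nat_lit 5) (nat_lit 2) (nat_lit 4) (nat_lit 283) (nat_lit 198) (nat_lit 179))) (XT.nd (nat_lit 78) (nat_lit 0) (nat_lit 0) (XT.lf (nat_lit 0) (nat_lit 2577985420696) (nat_lit 76) (nat_lit 3438859425354) (nat_lit 76) (nat_lit 3438492944797) (nat_lit 1) (nat_lit 4) (nat_lit 2) (nat_lit 5) (nat_lit 2) (nat_lit 4) (nat_lit 284) (nat_lit 198) (nat_lit 178)) (XT.lf (nat_lit 0) (nat_lit 2965398999356) (nat_lit 76) (nat_lit 3954276981330) (nat_lit 76) (nat_lit 3953907390000) (nat_lit 1) (nat_lit 4) (nat_lit 2) (nat_lit 5) (nat_lit 2) (nat_lit 4) (nat_lit 285) (nat_lit 198) (nat_lit 177)))) (XT.nd (nat_lit 156) (nat_lit 0) (nat_lit 0) (XT.nd (nat_lit 78) (nat_lit 0) (nat_lit 0) (XT.lf (nat_lit 0) (nat_lit 3410915043474)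 (nat_lit 76) (nat_lit 4547011888517) (nat_lit 76) (nat_lit 4546639592168) (nat_lit 1) (nat_lit 4) (nat_lit 2) (nat_lit 5) (nat_lit 2) (nat_lit 4) (nat_lit 286) (nat_lit 198) (nat_lit 176)) (XT.lf (nat_lit 0) (nat_lit 3923250171304) (nat_lit 76) (nat_lit 5228661134230) (nat_lit 76) (nat_lit 5228286485689) (nat_lit 1) (nat_lit 4) (nat_lit 2) (nat_lit 5) (nat_lit 2) (nat_lit 4) (nat_lit 287) (nat_lit 198) (nat_lit 175))) (XT.nd (nat_lit 78) (nat_lit 0) (nat_lit 0) (XT.lf (nat_lit 0) (nat_lit 4512428330999) (nat_lit 76) (nat_lit 6012561334146) (nat_lit 76) (nat_lit 6012184640221) (nat_lit 1) (nat_lit 4) (nat_lit 2) (nat_lit 5) (nat_lit 2) (nat_lit 4) (nat_lit 288) (nat_lit 198) (nat_lit 174)) (XT.lf (nat_lit 0) (nat_lit 5189976921336) (nat_lit 76) (nat_lit 6914049666089) (nat_lit 76) (nat_lit 6913671193569) (nat_lit 1) (nat_lit 4) (nat_lit 2) (nat_lit 5) (nat_lit 2) (nat_lit 4) (nat_lit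 289) (nat_lit 198) (nat_lit 173))))) (XT.nd (nat_lit 312) (nat_lit 0) (nat_lit 0) (XT.nd (nat_lit 156) (nat_lit 0) (nat_lit 0) (XT.nd (nat_lit 78) (nat_lit 0) (nat_lit 0) (XT.lf (nat_lit 0) (nat_lit 5969152327778) (nat_lit 76) (nat_lit 7950763945249) (nat_lit 76) (nat_lit 7950383926125) (nat_lit 1) (nat_lit 4) (nat_lit 2) (nat_lit 5) (nat_lit 2) (nat_lit 4) (nat_lit 290) (nat_lit 198) (nat_lit 172)) (XT.lf (nat_lit 0) (nat_lit 6865199286538) (nat_lit 76) (nat_lit 9142987711870) (nat_lit 76) (nat_lit 9142606347874) (nat_lit 1) (nat_lit 4) (nat_lit 2) (nat_lit 5) (nat_lit 2) (nat_lit 4) (nat_lit 291) (nat_lit 198) (nat_lit 171))) (XT.nd (nat_lit 78) (nat_lit 0) (nat_lit 0) (XT.lf (nat_lit 0) (nat_lit 7895649151157) (nat_lit 76) (nat_lit 10514047083127) (nat_lit 76) (nat_lit 10513664549675) (nat_lit 1) (nat_lit 4) (nat_lit 2) (nat_lit 5) (nat_lit 2) (nat_lit 4) (nat_lit 292) (nat_lit 198)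 (nat_lit 170)) (XT.lf (nat_lit 0) (nat_lit 9080662897247) (nat_lit 76) (nat_lit 12090767133673) (nat_lit 76) (nat_lit 12090383583304) (nat_lit 1) (nat_lit 4) (nat_lit 2) (nat_lit 5) (nat_lit 2) (nat_lit 4) (nat_lit 293) (nat_lit 198) (nat_lit 169)))) (XT.nd (nat_lit 156) (nat_lit 0) (nat_lit 0) (XT.nd (nat_lit 78) (nat_lit 0) (nat_lit 0) (XT.lf (nat_lit 0) (nat_lit 10443425576362) (nat_lit 76) (nat_lit 13903996734062) (nat_lit 76) (nat_lit 13903612299418) (nat_lit 1) (nat_lit 4) (nat_lit 2) (nat_lit 5) (nat_lit 2) (nat_lit 4) (nat_lit 294) (nat_lit 198) (nat_lit 168)) (XT.lf (nat_lit 0) (nat_lit 12010599936572) (nat_lit 76) (nat_lit 15989212115608) (nat_lit 76) (nat_lit 15988826912028) (nat_lit 1) (nat_lit 4) (nat_lit 2) (nat_lit 5) (nat_lit 2) (nat_lit 4) (nat_lit 295) (nat_lit 198) (nat_lit 167))) (XT.nd (nat_lit 156) (nat_lit 0) (nat_lit 0) (XT.lf (nat_lit 0) (nat_lit 13812848084925)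 (nat_lit 76) (nat_lit 18387210970557) (nat_lit 76) (nat_lit 18386825098337) (nat_lit 1) (nat_lit 4) (nat_lit 2) (nat_lit 5) (nat_lit 2) (nat_lit 4) (nat_lit 296) (nat_lit 198) (nat_lit 166)) (XT.nd (nat_lit 78) (nat_lit 0) (nat_lit 0) (XT.lf (nat_lit 0) (nat_lit 18268900419589) (nat_lit 76) (nat_lit 24316266201446) (nat_lit 76) (nat_lit 24315879242213) (nat_lit 1) (nat_lit 4) (nat_lit 2) (nat_lit 5) (nat_lit 2) (nat_lit 4) (nat_lit 298) (nat_lit 198) (nat_lit 164)) (XT.lf (nat_lit 0) (nat_lit 21009888238536) (nat_lit 76) (nat_lit 27963325831903) (nat_lit 76) (nat_lit 27962938433029) (nat_lit 1) (nat_lit 4) (nat_lit 2) (nat_lit 5) (nat_lit 2) (nat_lit 4) (nat_lit 299) (nat_lit 198) (nat_lit 163))))))) (XT.nd (nat_lit 31668) (nat_lit 0) (nat_lit 0) (XT.nd (nat_lit 312) (nat_lit 0) (nat_lit 0) (XT.nd (nat_lit 156) (nat_lit 0) (nat_lit 0) (XT.nd (nat_lit 78) (nat_lit 0) (nat_lit 0) (XT.lf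 (nat_lit 0) (nat_lit 24162022877621) (nat_lit 76) (nat_lit 32157445073691) (nat_lit 76) (nat_lit 32157057292520) (nat_lit 1) (nat_lit 4) (nat_lit 2) (nat_lit 5) (nat_lit 2) (nat_lit 4) (nat_lit 300) (nat_lit 198) (nat_lit 162)) (XT.lf (nat_lit 0) (nat_lit 27786976536303) (nat_lit 76) (nat_lit 36980682781541) (nat_lit 76) (nat_lit 36980294667938) (nat_lit 1) (nat_lit 4) (nat_lit 2) (nat_lit 5) (nat_lit 2) (nat_lit 4) (nat_lit 301) (nat_lit 198) (nat_lit 161))) (XT.nd (nat_lit 78) (nat_lit 0) (nat_lit 0) (XT.lf (nat_lit 0) (nat_lit 31955672220948) (nat_lit 76) (nat_lit 42527406649737) (nat_lit 76) (nat_lit 42527018247062) (nat_lit 1) (nat_lit 4) (nat_lit 2) (nat_lit 5) (nat_lit 2) (nat_lit 4) (nat_lit 302) (nat_lit 198) (nat_lit 160)) (XT.lf (nat_lit 0) (nat_lit 36749671368864) (nat_lit 76) (nat_lit 48906139536568) (nat_lit 76) (nat_lit 48905750882527) (nat_lit 1) (nat_lit 4) (nat_lit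 2) (nat_lit 5) (nat_lit 2) (nat_lit 4) (nat_lit 303) (nat_lit 198) (nat_lit 159)))) (XT.nd (nat_lit 31200) (nat_lit 0) (nat_lit 0) (XT.nd (nat_lit 31122) (nat_lit 0) (nat_lit 0) (XT.lf (nat_lit 0) (nat_lit 42262769615555) (nat_lit 76) (nat_lit 56241682737649) (nat_lit 76) (nat_lit 56241293865028) (nat_lit 1) (nat_lit 4) (nat_lit 2) (nat_lit 5) (nat_lit 2) (nat_lit 4) (nat_lit 304) (nat_lit 198) (nat_lit 158)) (XT.lf (nat_lit 0) (nat_lit 54732241831) (nat_lit 76) (nat_lit 82029907383) (nat_lit 76) (nat_lit 82029907383) (nat_lit 1) (nat_lit 4) (nat_lit 2) (nat_lit 5) (nat_lit 2) (nat_lit 4) (nat_lit 262) (nat_lit 199) (nat_lit 199))) (XT.nd (nat_lit 78) (nat_lit 0) (nat_lit 0) (XT.lf (nat_lit 0) (nat_lit 128004027608) (nat_lit 76) (nat_lit 187556548230) (nat_lit 76) (nat_lit 187497998757) (nat_lit 1) (nat_lit 4) (nat_lit 2) (nat_lit 5) (nat_lit 2) (nat_lit 4) (nat_lit 263) (nat_lit 199)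 (nat_lit 198)) (XT.lf (nat_lit 0) (nat_lit 149144355972) (nat_lit 76) (nat_lit 214666588145) (nat_lit 76) (nat_lit 214557126087) (nat_lit 1) (nat_lit 4) (nat_lit 2) (nat_lit 5) (nat_lit 2) (nat_lit 4) (nat_lit 264) (nat_lit 199) (nat_lit 197))))) (XT.nd (nat_lit 312) (nat_lit 0) (nat_lit 0) (XT.nd (nat_lit 156) (nat_lit 0) (nat_lit 0) (XT.nd (nat_lit 78) (nat_lit 0) (nat_lit 0) (XT.lf (nat_lit 0) (nat_lit 173299083874) (nat_lit 76) (nat_lit 245920348336) (nat_lit 76) (nat_lit 245766614466) (nat_lit 1) (nat_lit 4) (nat_lit 2) (nat_lit 5) (nat_lit 2) (nat_lit 4) (nat_lit 265) (nat_lit 199) (nat_lit 196)) (XT.lf (nat_lit 0) (nat_lit 200940803816) (nat_lit 76) (nat_lit 281929315416) (nat_lit 76) (nat_lit 281737084317) (nat_lit 1) (nat_lit 4) (nat_lit 2) (nat_lit 5) (nat_lit 2) (nat_lit 4) (nat_lit 266) (nat_lit 199) (nat_lit 195))) (XT.nd (nat_lit 78) (nat_lit 0) (nat_lit 0) (XT.lf (nat_lit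 0) (nat_lit 232610332059) (nat_lit 76) (nat_lit 323398012654) (nat_lit 76) (nat_lit 323172305705) (nat_lit 1) (nat_lit 4) (nat_lit 2) (nat_lit 5) (nat_lit 2) (nat_lit 4) (nat_lit 267) (nat_lit 199) (nat_lit 194)) (XT.lf (nat_lit 0) (nat_lit 268927289806) (nat_lit 76) (nat_lit 371137784127) (nat_lit 76) (nat_lit 370882967741) (nat_lit 1) (nat_lit 4) (nat_lit 2) (nat_lit 5) (nat_lit 2) (nat_lit 4) (nat_lit 268) (nat_lit 199) (nat_lit 193)))) (XT.nd (nat_lit 156) (nat_lit 0) (nat_lit 0) (XT.nd (nat_lit 78) (nat_lit 0) (nat_lit 0) (XT.lf (nat_lit 0) (nat_lit 310602226232) (nat_lit 76) (nat_lit 426082668841) (nat_lit 76) (nat_lit 425802539903) (nat_lit 1) (nat_lit 4) (nat_lit 2) (nat_lit 5) (nat_lit 2) (nat_lit 4) (nat_lit 269) (nat_lit 199) (nat_lit 192)) (XT.lf (nat_lit 0) (nat_lit 358450520527) (nat_lit 76) (nat_lit 489307675410) (nat_lit 76) (nat_lit 489005535556) (nat_lit 1) (nat_lit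 4) (nat_lit 2) (nat_lit 5) (nat_lit 2) (nat_lit 4) (nat_lit 270) (nat_lit 199) (nat_lit 191))) (XT.nd (nat_lit 78) (nat_lit 0) (nat_lit 0) (XT.lf (nat_lit 0) (nat_lit 413408334970) (nat_lit 76) (nat_lit 562049814833) (nat_lit 76) (nat_lit 561728535053) (nat_lit 1) (nat_lit 4) (nat_lit 2) (nat_lit 5) (nat_lit 2) (nat_lit 4) (nat_lit 271) (nat_lit 199) (nat_lit 190)) (XT.nd (nat_lit 78) (nat_lit 0) (nat_lit 0) (XT.lf (nat_lit 0) (nat_lit 476550931150) (nat_lit 76) (nat_lit 645732302880) (nat_lit 76) (nat_lit 645394379686) (nat_lit 1) (nat_lit 4) (nat_lit 2) (nat_lit 5) (nat_lit 2) (nat_lit 4) (nat_lit 272) (nat_lit 199) (nat_lit 189)) (XT.lf (nat_lit 0) (nat_lit 549113707686) (nat_lit 76) (nat_lit 741992405623) (nat_lit 76) (nat_lit 741640009894) (nat_lit 1) (nat_lit 4) (nat_lit 2) (nat_lit 5) (nat_lit 2) (nat_lit 4) (nat_lit 273) (nat_lit 199) (nat_lit 188))))))))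
noncomputable def xc12 : XT := (XT.nd (nat_lit 1326) (nat_lit 0) (nat_lit 0) (XT.nd (nat_lit 624) (nat_lit 0) (nat_lit 0) (XT.nd (nat_lit 312) (nat_lit 0) (nat_lit 0) (XT.nd (nat_lit 156) (nat_lit 0) (nat_lit 0) (XT.nd (nat_lit 78) (nat_lit 0) (nat_lit 0) (XT.lf (nat_lit 0) (nat_lit 632516371077) (nat_lit 76) (nat_lit 852713472897) (nat_lit 76) (nat_lit 852348492356) (nat_lit 1) (nat_lit 4) (nat_lit 2) (nat_lit 5) (nat_lit 2) (nat_lit 4) (nat_lit 274) (nat_lit 199) (nat_lit 187)) (XT.lf (nat_lit 0) (nat_lit 728390712562) (nat_lit 76) (nat_lit 980061786453) (nat_lit 76) (nat_lit 979685862597) (nat_lit 1) (nat_lit 4) (nat_lit 2) (nat_lit 5) (nat_lit 2) (nat_lit 4) (nat_lit 275) (nat_lit 199) (nat_lit 186))) (XT.nd (nat_lit 78) (nat_lit 0) (nat_lit 0) (XT.lf (nat_lit 0) (nat_lit 838612534475) (nat_lit 76) (nat_lit 1126528943732) (nat_lit 76) (nat_lit 1126143503950) (nat_lit 1) (nat_lit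 4) (nat_lit 2) (nat_lit 5) (nat_lit 2) (nat_lit 4) (nat_lit 276) (nat_lit 199) (nat_lit 185)) (XT.lf (nat_lit 0) (nat_lit 965338350723) (nat_lit 76) (nat_lit 1294980606504) (nat_lit 76) (nat_lit 1294586892004) (nat_lit 1) (nat_lit 4) (nat_lit 2) (nat_lit 5) (nat_lit 2) (nat_lit 4) (nat_lit 277) (nat_lit 199) (nat_lit 184)))) (XT.nd (nat_lit 156) (nat_lit 0) (nat_lit 0) (XT.nd (nat_lit 78) (nat_lit 0) (nat_lit 0) (XT.lf (nat_lit 0) (nat_lit 1111047579449) (nat_lit 76) (nat_lit 1488712568174) (nat_lit 76) (nat_lit 1488311658266) (nat_lit 1) (nat_lit 4) (nat_lit 2) (nat_lit 5) (nat_lit 2) (nat_lit 4) (nat_lit 278) (nat_lit 199) (nat_lit 183)) (XT.lf (nat_lit 0) (nat_lit 1278591053390) (nat_lit 76) (nat_lit 1711515236686) (nat_lit 76) (nat_lit 1711108069902) (nat_lit 1) (nat_lit 4) (nat_lit 2) (nat_lit 5) (nat_lit 2) (nat_lit 4) (nat_lit 279) (nat_lit 199) (nat_lit 182))) (XT.nd (nat_lit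 78) (nat_lit 0) (nat_lit 0) (XT.lf (nat_lit 0) (nat_lit 1471246797037) (nat_lit 76) (nat_lit 1967747794684) (nat_lit 76) (nat_lit 1967335187139) (nat_lit 1) (nat_lit 4) (nat_lit 2) (nat_lit 5) (nat_lit 2) (nat_lit 4) (nat_lit 280) (nat_lit 199) (nat_lit 181)) (XT.lf (nat_lit 0) (nat_lit 1692784161894) (nat_lit 76) (nat_lit 2262423487870) (nat_lit 76) (nat_lit 2262006149228) (nat_lit 1) (nat_lit 4) (nat_lit 2) (nat_lit 5) (nat_lit 2) (nat_lit 4) (nat_lit 281) (nat_lit 199) (nat_lit 180))))) (XT.nd (nat_lit 312) (nat_lit 0) (nat_lit 0) (XT.nd (nat_lit 156) (nat_lit 0) (nat_lit 0) (XT.nd (nat_lit 78) (nat_lit 0) (nat_lit 0) (XT.lf (nat_lit 0) (nat_lit 1947537574666) (nat_lit 76) (nat_lit 2601307710240) (nat_lit 76) (nat_lit 2600886257601) (nat_lit 1) (nat_lit 4) (nat_lit 2) (nat_lit 5) (nat_lit 2) (nat_lit 4) (nat_lit 282) (nat_lit 199) (nat_lit 179)) (XT.lf (nat_lit 0) (nat_lit 2240491341254)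 (nat_lit 76) (nat_lit 2991030805276) (nat_lit 76) (nat_lit 2990605775247) (nat_lit 1) (nat_lit 4) (nat_lit 2) (nat_lit 5) (nat_lit 2) (nat_lit 4) (nat_lit 283) (nat_lit 199) (nat_lit 178))) (XT.nd (nat_lit 78) (nat_lit 0) (nat_lit 0) (XT.lf (nat_lit 0) (nat_lit 2577377165789) (nat_lit 76) (nat_lit 3439217790053) (nat_lit 76) (nat_lit 3438789649251) (nat_lit 1) (nat_lit 4) (nat_lit 2) (nat_lit 5) (nat_lit 2) (nat_lit 4) (nat_lit 284) (nat_lit 199) (nat_lit 177)) (XT.lf (nat_lit 0) (nat_lit 2964786292662) (nat_lit 76) (nat_lit 3954637540362) (nat_lit 76) (nat_lit 3954206694540) (nat_lit 1) (nat_lit 4) (nat_lit 2) (nat_lit 5) (nat_lit 2) (nat_lit 4) (nat_lit 285) (nat_lit 199) (nat_lit 176)))) (XT.nd (nat_lit 156) (nat_lit 0) (nat_lit 0) (XT.nd (nat_lit 78) (nat_lit 0) (nat_lit 0) (XT.lf (nat_lit 0) (nat_lit 3410298465661) (nat_lit 76) (nat_lit 4547374355665) (nat_lit 76) (nat_lit 4546941157651)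 (nat_lit 1) (nat_lit 4) (nat_lit 2) (nat_lit 5) (nat_lit 2) (nat_lit 4) (nat_lit 286) (nat_lit 199) (nat_lit 175)) (XT.lf (nat_lit 0) (nat_lit 3922630227301) (nat_lit 76) (nat_lit 5229025260608) (nat_lit 76) (nat_lit 5228590017211) (nat_lit 1) (nat_lit 4) (nat_lit 2) (nat_lit 5) (nat_lit 2) (nat_lit 4) (nat_lit 287) (nat_lit 199) (nat_lit 174))) (XT.nd (nat_lit 78) (nat_lit 0) (nat_lit 0) (XT.lf (nat_lit 0) (nat_lit 4511805459874) (nat_lit 76) (nat_lit 6012926903333) (nat_lit 76) (nat_lit 6012489881341) (nat_lit 1) (nat_lit 4) (nat_lit 2) (nat_lit 5) (nat_lit 2) (nat_lit 4) (nat_lit 288) (nat_lit 199) (nat_lit 173)) (XT.nd (nat_lit 78) (nat_lit 0) (nat_lit 0) (XT.lf (nat_lit 0) (nat_lit 5189351504887) (nat_lit 76) (nat_lit 6914416489892) (nat_lit 76) (nat_lit 6913977921296) (nat_lit 1) (nat_lit 4) (nat_lit 2) (nat_lit 5) (nat_lit 2) (nat_lit 4) (nat_lit 289) (nat_lit 199) (nat_lit 172))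 (XT.lf (nat_lit 0) (nat_lit 5968524698004) (nat_lit 76) (nat_lit 7951131860023) (nat_lit 76) (nat_lit 7950691946554) (nat_lit 1) (nat_lit 4) (nat_lit 2) (nat_lit 5) (nat_lit 2) (nat_lit 4) (nat_lit 290) (nat_lit 199) (nat_lit 171))))))) (XT.nd (nat_lit 624) (nat_lit 0) (nat_lit 0) (XT.nd (nat_lit 312) (nat_lit 0) (nat_lit 0) (XT.nd (nat_lit 156) (nat_lit 0) (nat_lit 0) (XT.nd (nat_lit 78) (nat_lit 0) (nat_lit 0) (XT.lf (nat_lit 0) (nat_lit 6864569732134) (nat_lit 76) (nat_lit 9143356575315) (nat_lit 76) (nat_lit 9142915492391) (nat_lit 1) (nat_lit 4) (nat_lit 2) (nat_lit 5) (nat_lit 2) (nat_lit 4) (nat_lit 291) (nat_lit 199) (nat_lit 170)) (XT.lf (nat_lit 0) (nat_lit 7895017923162) (nat_lit 76) (nat_lit 10514416771502) (nat_lit 76) (nat_lit 10513974671661) (nat_lit 1) (nat_lit 4) (nat_lit 2) (nat_lit 5) (nat_lit 2) (nat_lit 4) (nat_lit 292) (nat_lit 199) (nat_lit 169))) (XT.nd (nat_lit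 78) (nat_lit 0) (nat_lit 0) (XT.lf (nat_lit 0) (nat_lit 9080030213955) (nat_lit 76) (nat_lit 12091137539380) (nat_lit 76) (nat_lit 12090694555262) (nat_lit 1) (nat_lit 4) (nat_lit 2) (nat_lit 5) (nat_lit 2) (nat_lit 4) (nat_lit 293) (nat_lit 199) (nat_lit 168)) (XT.lf (nat_lit 0) (nat_lit 10442791627595) (nat_lit 76) (nat_lit 13904367763536) (nat_lit 76) (nat_lit 13903924010483) (nat_lit 1) (nat_lit 4) (nat_lit 2) (nat_lit 5) (nat_lit 2) (nat_lit 4) (nat_lit 294) (nat_lit 199) (nat_lit 167)))) (XT.nd (nat_lit 156) (nat_lit 0) (nat_lit 0) (XT.nd (nat_lit 78) (nat_lit 0) (nat_lit 0) (XT.lf (nat_lit 0) (nat_lit 12009964887391) (nat_lit 76) (nat_lit 15989583687487) (nat_lit 76) (nat_lit 15989139265794) (nat_lit 1) (nat_lit 4) (nat_lit 2) (nat_lit 5) (nat_lit 2) (nat_lit 4) (nat_lit 295) (nat_lit 199) (nat_lit 166)) (XT.lf (nat_lit 0) (nat_lit 13812212078862) (nat_lit 76) (nat_lit 18387583014093)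 (nat_lit 76) (nat_lit 18387138010975) (nat_lit 1) (nat_lit 4) (nat_lit 2) (nat_lit 5) (nat_lit 2) (nat_lit 4) (nat_lit 296) (nat_lit 199) (nat_lit 165))) (XT.nd (nat_lit 78) (nat_lit 0) (nat_lit 0) (XT.lf (nat_lit 0) (nat_lit 15884794560101) (nat_lit 76) (nat_lit 21145283121483) (nat_lit 76) (nat_lit 21144837612777) (nat_lit 1) (nat_lit 4) (nat_lit 2) (nat_lit 5) (nat_lit 2) (nat_lit 4) (nat_lit 297) (nat_lit 199) (nat_lit 164)) (XT.lf (nat_lit 0) (nat_lit 18268262857916) (nat_lit 76) (nat_lit 24316639011758) (nat_lit 76) (nat_lit 24316193063411) (nat_lit 1) (nat_lit 4) (nat_lit 2) (nat_lit 5) (nat_lit 2) (nat_lit 4) (nat_lit 298) (nat_lit 199) (nat_lit 163))))) (XT.nd (nat_lit 312) (nat_lit 0) (nat_lit 0) (XT.nd (nat_lit 156) (nat_lit 0) (nat_lit 0) (XT.nd (nat_lit 78) (nat_lit 0) (nat_lit 0) (XT.lf (nat_lit 0) (nat_lit 21009250047698) (nat_lit 76) (nat_lit 27963698952338) (nat_lit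 76) (nat_lit 27963252621694) (nat_lit 1) (nat_lit 4) (nat_lit 2) (nat_lit 5) (nat_lit 2) (nat_lit 4) (nat_lit 299) (nat_lit 199) (nat_lit 162)) (XT.lf (nat_lit 0) (nat_lit 24161384139683) (nat_lit 76) (nat_lit 32157818463797) (nat_lit 76) (nat_lit 32157371800721) (nat_lit 1) (nat_lit 4) (nat_lit 2) (nat_lit 5) (nat_lit 2) (nat_lit 4) (nat_lit 300) (nat_lit 199) (nat_lit 161))) (XT.nd (nat_lit 78) (nat_lit 0) (nat_lit 0) (XT.lf (nat_lit 0) (nat_lit 27786337322626) (nat_lit 76) (nat_lit 36981056406144) (nat_lit 76) (nat_lit 36980609453997) (nat_lit 1) (nat_lit 4) (nat_lit 2) (nat_lit 5) (nat_lit 2) (nat_lit 4) (nat_lit 301) (nat_lit 199) (nat_lit 160)) (XT.lf (nat_lit 0) (nat_lit 31955032593584) (nat_lit 76) (nat_lit 42527780478249) (nat_lit 76) (nat_lit 42527333274736) (nat_lit 1) (nat_lit 4) (nat_lit 2) (nat_lit 5) (nat_lit 2) (nat_lit 4) (nat_lit 302) (nat_lit 199) (nat_lit 159))))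 (XT.nd (nat_lit 31044) (nat_lit 0) (nat_lit 0) (XT.nd (nat_lit 78) (nat_lit 0) (nat_lit 0) (XT.lf (nat_lit 0) (nat_lit 36749031381774) (nat_lit 76) (nat_lit 48906513542394) (nat_lit 76) (nat_lit 48906066120301) (nat_lit 1) (nat_lit 4) (nat_lit 2) (nat_lit 5) (nat_lit 2) (nat_lit 4) (nat_lit 303) (nat_lit 199) (nat_lit 158)) (XT.lf (nat_lit 0) (nat_lit 42262129315658) (nat_lit 76) (nat_lit 56242056897660) (nat_lit 76) (nat_lit 56241609285498) (nat_lit 1) (nat_lit 4) (nat_lit 2) (nat_lit 5) (nat_lit 2) (nat_lit 4) (nat_lit 304) (nat_lit 199) (nat_lit 157))) (XT.nd (nat_lit 78) (nat_lit 0) (nat_lit 0) (XT.lf (nat_lit 0) (nat_lit 39445713835) (nat_lit 76) (nat_lit 63070902398) (nat_lit 76) (nat_lit 63070902398) (nat_lit 1) (nat_lit 4) (nat_lit 2) (nat_lit 5) (nat_lit 2) (nat_lit 4) (nat_lit 260) (nat_lit 200) (nat_lit 200)) (XT.nd (nat_lit 78) (nat_lit 0) (nat_lit 0) (XT.lf (nat_lit 0)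 (nat_lit 93162993927) (nat_lit 76) (nat_lit 143784000952) (nat_lit 76) (nat_lit 143716669058) (nat_lit 1) (nat_lit 4) (nat_lit 2) (nat_lit 5) (nat_lit 2) (nat_lit 4) (nat_lit 261) (nat_lit 200) (nat_lit 199)) (XT.lf (nat_lit 0) (nat_lit 109368125872) (nat_lit 76) (nat_lit 164174642427) (nat_lit 76) (nat_lit 164048761061) (nat_lit 1) (nat_lit 4) (nat_lit 2) (nat_lit 5) (nat_lit 2) (nat_lit 4) (nat_lit 262) (nat_lit 200) (nat_lit 198))))))))
noncomputable def xc13 : XT := (XT.nd (nat_lit 1326) (nat_lit 0) (nat_lit 0) (XT.nd (nat_lit 624) (nat_lit 0) (nat_lit 0) (XT.nd (nat_lit 312) (nat_lit 0) (nat_lit 0) (XT.nd (nat_lit 156) (nat_lit 0) (nat_lit 0) (XT.nd (nat_lit 78) (nat_lit 0) (nat_lit 0) (XT.lf (nat_lit 0) (nat_lit 127823880434) (nat_lit 76) (nat_lit 187712676556) (nat_lit 76) (nat_lit 187535882605) (nat_lit 1) (nat_lit 4) (nat_lit 2) (nat_lit 5) (nat_lit 2) (nat_lit 4) (nat_lit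 263) (nat_lit 200) (nat_lit 197)) (XT.lf (nat_lit 0) (nat_lit 148891348465) (nat_lit 76) (nat_lit 214858630094) (nat_lit 76) (nat_lit 214637564330) (nat_lit 1) (nat_lit 4) (nat_lit 2) (nat_lit 5) (nat_lit 2) (nat_lit 4) (nat_lit 264) (nat_lit 200) (nat_lit 196))) (XT.nd (nat_lit 78) (nat_lit 0) (nat_lit 0) (XT.lf (nat_lit 0) (nat_lit 172982719555) (nat_lit 76) (nat_lit 246143619522) (nat_lit 76) (nat_lit 245884056530) (nat_lit 1) (nat_lit 4) (nat_lit 2) (nat_lit 5) (nat_lit 2) (nat_lit 4) (nat_lit 265) (nat_lit 200) (nat_lit 195)) (XT.lf (nat_lit 0) (nat_lit 200569346618) (nat_lit 76) (nat_lit 282179742461) (nat_lit 76) (nat_lit 281886703618) (nat_lit 1) (nat_lit 4) (nat_lit 2) (nat_lit 5) (nat_lit 2) (nat_lit 4) (nat_lit 266) (nat_lit 200) (nat_lit 194)))) (XT.nd (nat_lit 156) (nat_lit 0) (nat_lit 0) (XT.nd (nat_lit 78) (nat_lit 0) (nat_lit 0) (XT.lf (nat_lit 0) (nat_lit 232190968008)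 (nat_lit 76) (nat_lit 323672053489) (nat_lit 76) (nat_lit 323349905210) (nat_lit 1) (nat_lit 4) (nat_lit 2) (nat_lit 5) (nat_lit 2) (nat_lit 4) (nat_lit 267) (nat_lit 200) (nat_lit 193)) (XT.lf (nat_lit 0) (nat_lit 268466267624) (nat_lit 76) (nat_lit 371432358692) (nat_lit 76) (nat_lit 371084897861) (nat_lit 1) (nat_lit 4) (nat_lit 2) (nat_lit 5) (nat_lit 2) (nat_lit 4) (nat_lit 268) (nat_lit 200) (nat_lit 192))) (XT.nd (nat_lit 78) (nat_lit 0) (nat_lit 0) (XT.lf (nat_lit 0) (nat_lit 310104979587) (nat_lit 76) (nat_lit 426395098824) (nat_lit 76) (nat_lit 426025627077) (nat_lit 1) (nat_lit 4) (nat_lit 2) (nat_lit 5) (nat_lit 2) (nat_lit 4) (nat_lit 269) (nat_lit 200) (nat_lit 191)) (XT.lf (nat_lit 0) (nat_lit 357921774349) (nat_lit 76) (nat_lit 489635631843) (nat_lit 76) (nat_lit 489247020170) (nat_lit 1) (nat_lit 4) (nat_lit 2) (nat_lit 5) (nat_lit 2) (nat_lit 4) (nat_lit 270) (nat_lit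 200) (nat_lit 190))))) (XT.nd (nat_lit 312) (nat_lit 0) (nat_lit 0) (XT.nd (nat_lit 156) (nat_lit 0) (nat_lit 0) (XT.nd (nat_lit 78) (nat_lit 0) (nat_lit 0) (XT.lf (nat_lit 0) (nat_lit 412852197895) (nat_lit 76) (nat_lit 562391272527) (nat_lit 76) (nat_lit 561986017439) (nat_lit 1) (nat_lit 4) (nat_lit 2) (nat_lit 5) (nat_lit 2) (nat_lit 4) (nat_lit 271) (nat_lit 200) (nat_lit 189)) (XT.lf (nat_lit 0) (nat_lit 475970975902) (nat_lit 76) (nat_lit 646085500802) (nat_lit 76) (nat_lit 645665773180) (nat_lit 1) (nat_lit 4) (nat_lit 2) (nat_lit 5) (nat_lit 2) (nat_lit 4) (nat_lit 272) (nat_lit 200) (nat_lit 188))) (XT.nd (nat_lit 78) (nat_lit 0) (nat_lit 0) (XT.lf (nat_lit 0) (nat_lit 548513040985) (nat_lit 76) (nat_lit 742355812437) (nat_lit 76) (nat_lit 741923500003) (nat_lit 1) (nat_lit 4) (nat_lit 2) (nat_lit 5) (nat_lit 2) (nat_lit 4) (nat_lit 273) (nat_lit 200) (nat_lit 187)) (XT.lf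 (nat_lit 0) (nat_lit 631897694415) (nat_lit 76) (nat_lit 853085757010) (nat_lit 76) (nat_lit 852642501260) (nat_lit 1) (nat_lit 4) (nat_lit 2) (nat_lit 5) (nat_lit 2) (nat_lit 4) (nat_lit 274) (nat_lit 200) (nat_lit 186)))) (XT.nd (nat_lit 156) (nat_lit 0) (nat_lit 0) (XT.nd (nat_lit 78) (nat_lit 0) (nat_lit 0) (XT.lf (nat_lit 0) (nat_lit 727756375065) (nat_lit 76) (nat_lit 980441789956) (nat_lit 76) (nat_lit 979989018281) (nat_lit 1) (nat_lit 4) (nat_lit 2) (nat_lit 5) (nat_lit 2) (nat_lit 4) (nat_lit 275) (nat_lit 200) (nat_lit 185)) (XT.lf (nat_lit 0) (nat_lit 837964578861) (nat_lit 76) (nat_lit 1126915659747) (nat_lit 76) (nat_lit 1126454613354) (nat_lit 1) (nat_lit 4) (nat_lit 2) (nat_lit 5) (nat_lit 2) (nat_lit 4) (nat_lit 276) (nat_lit 200) (nat_lit 184))) (XT.nd (nat_lit 78) (nat_lit 0) (nat_lit 0) (XT.lf (nat_lit 0) (nat_lit 964678553267) (nat_lit 76) (nat_lit 1295373159488)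 (nat_lit 76) (nat_lit 1294904917687) (nat_lit 1) (nat_lit 4) (nat_lit 2) (nat_lit 5) (nat_lit 2) (nat_lit 4) (nat_lit 277) (nat_lit 200) (nat_lit 183)) (XT.nd (nat_lit 78) (nat_lit 0) (nat_lit 0) (XT.lf (nat_lit 0) (nat_lit 1110377484741) (nat_lit 76) (nat_lit 1489110196782) (nat_lit 76) (nat_lit 1488635698105) (nat_lit 1) (nat_lit 4) (nat_lit 2) (nat_lit 5) (nat_lit 2) (nat_lit 4) (nat_lit 278) (nat_lit 200) (nat_lit 182)) (XT.lf (nat_lit 0) (nat_lit 1277912004549) (nat_lit 76) (nat_lit 1711917278879) (nat_lit 76) (nat_lit 1711437339441) (nat_lit 1) (nat_lit 4) (nat_lit 2) (nat_lit 5) (nat_lit 2) (nat_lit 4) (nat_lit 279) (nat_lit 200) (nat_lit 181))))))) (XT.nd (nat_lit 624) (nat_lit 0) (nat_lit 0) (XT.nd (nat_lit 312) (nat_lit 0) (nat_lit 0) (XT.nd (nat_lit 156) (nat_lit 0) (nat_lit 0) (XT.nd (nat_lit 78) (nat_lit 0) (nat_lit 0) (XT.lf (nat_lit 0) (nat_lit 1470559961992) (nat_lit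 76) (nat_lit 1968153674779) (nat_lit 76) (nat_lit 1967669004244) (nat_lit 1) (nat_lit 4) (nat_lit 2) (nat_lit 5) (nat_lit 2) (nat_lit 4) (nat_lit 280) (nat_lit 200) (nat_lit 180)) (XT.lf (nat_lit 0) (nat_lit 1692090556238) (nat_lit 76) (nat_lit 2262832705270) (nat_lit 76) (nat_lit 2262343920737) (nat_lit 1) (nat_lit 4) (nat_lit 2) (nat_lit 5) (nat_lit 2) (nat_lit 4) (nat_lit 281) (nat_lit 200) (nat_lit 179))) (XT.nd (nat_lit 78) (nat_lit 0) (nat_lit 0) (XT.lf (nat_lit 0) (nat_lit 1946838081523) (nat_lit 76) (nat_lit 2601719829645) (nat_lit 76) (nat_lit 2601227467723) (nat_lit 1) (nat_lit 4) (nat_lit 2) (nat_lit 5) (nat_lit 2) (nat_lit 4) (nat_lit 282) (nat_lit 200) (nat_lit 178)) (XT.lf (nat_lit 0) (nat_lit 2239786728557) (nat_lit 76) (nat_lit 2991445448163) (nat_lit 76) (nat_lit 2990949975467) (nat_lit 1) (nat_lit 4) (nat_lit 2) (nat_lit 5) (nat_lit 2) (nat_lit 4) (nat_lit 283) (nat_lit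 200) (nat_lit 177)))) (XT.nd (nat_lit 156) (nat_lit 0) (nat_lit 0) (XT.nd (nat_lit 78) (nat_lit 0) (nat_lit 0) (XT.lf (nat_lit 0) (nat_lit 2576668101305) (nat_lit 76) (nat_lit 3439634627273) (nat_lit 76) (nat_lit 3439136449557) (nat_lit 1) (nat_lit 4) (nat_lit 2) (nat_lit 5) (nat_lit 2) (nat_lit 4) (nat_lit 284) (nat_lit 200) (nat_lit 176)) (XT.lf (nat_lit 0) (nat_lit 2964073357059) (nat_lit 76) (nat_lit 3955056285697) (nat_lit 76) (nat_lit 3954555755790) (nat_lit 1) (nat_lit 4) (nat_lit 2) (nat_lit 5) (nat_lit 2) (nat_lit 4) (nat_lit 285) (nat_lit 200) (nat_lit 175))) (XT.nd (nat_lit 78) (nat_lit 0) (nat_lit 0) (XT.lf (nat_lit 0) (nat_lit 3409582163867) (nat_lit 76) (nat_lit 4547794760230) (nat_lit 76) (nat_lit 4547292184939) (nat_lit 1) (nat_lit 4) (nat_lit 2) (nat_lit 5) (nat_lit 2) (nat_lit 4) (nat_lit 286) (nat_lit 200) (nat_lit 174)) (XT.lf (nat_lit 0) (nat_lit 3921910998385)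 (nat_lit 76) (nat_lit 5229447107982) (nat_lit 76) (nat_lit 5228942754097) (nat_lit 1) (nat_lit 4) (nat_lit 2) (nat_lit 5) (nat_lit 2) (nat_lit 4) (nat_lit 287) (nat_lit 200) (nat_lit 173))))) (XT.nd (nat_lit 312) (nat_lit 0) (nat_lit 0) (XT.nd (nat_lit 156) (nat_lit 0) (nat_lit 0) (XT.nd (nat_lit 78) (nat_lit 0) (nat_lit 0) (XT.lf (nat_lit 0) (nat_lit 4511083685634) (nat_lit 76) (nat_lit 6013350005324) (nat_lit 76) (nat_lit 6012844104834) (nat_lit 1) (nat_lit 4) (nat_lit 2) (nat_lit 5) (nat_lit 2) (nat_lit 4) (nat_lit 288) (nat_lit 200) (nat_lit 172)) (XT.lf (nat_lit 0) (nat_lit 5188627517323) (nat_lit 76) (nat_lit 6914840682854) (nat_lit 76) (nat_lit 6914333437492) (nat_lit 1) (nat_lit 4) (nat_lit 2) (nat_lit 5) (nat_lit 2) (nat_lit 4) (nat_lit 289) (nat_lit 200) (nat_lit 171))) (XT.nd (nat_lit 78) (nat_lit 0) (nat_lit 0) (XT.lf (nat_lit 0) (nat_lit 5967798785810) (nat_lit 76) (nat_lit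 7951557001656) (nat_lit 76) (nat_lit 7951048586838) (nat_lit 1) (nat_lit 4) (nat_lit 2) (nat_lit 5) (nat_lit 2) (nat_lit 4) (nat_lit 290) (nat_lit 200) (nat_lit 170)) (XT.lf (nat_lit 0) (nat_lit 6863842146349) (nat_lit 76) (nat_lit 9143782541878) (nat_lit 76) (nat_lit 9143273110144) (nat_lit 1) (nat_lit 4) (nat_lit 2) (nat_lit 5) (nat_lit 2) (nat_lit 4) (nat_lit 291) (nat_lit 200) (nat_lit 169)))) (XT.nd (nat_lit 156) (nat_lit 0) (nat_lit 0) (XT.nd (nat_lit 78) (nat_lit 0) (nat_lit 0) (XT.lf (nat_lit 0) (nat_lit 7894288882079) (nat_lit 76) (nat_lit 10514843455397) (nat_lit 76) (nat_lit 10514333139386) (nat_lit 1) (nat_lit 4) (nat_lit 2) (nat_lit 5) (nat_lit 2) (nat_lit 4) (nat_lit 292) (nat_lit 200) (nat_lit 168)) (XT.lf (nat_lit 0) (nat_lit 9079299907397) (nat_lit 76) (nat_lit 12091564847040) (nat_lit 76) (nat_lit 12091053762094) (nat_lit 1) (nat_lit 4) (nat_lit 2) (nat_lit 5) (nat_lit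 2) (nat_lit 4) (nat_lit 293) (nat_lit 200) (nat_lit 167))) (XT.nd (nat_lit 78) (nat_lit 0) (nat_lit 0) (XT.lf (nat_lit 0) (nat_lit 10442060220623) (nat_lit 76) (nat_lit 13904795613601) (nat_lit 76) (nat_lit 13904283860016) (nat_lit 1) (nat_lit 4) (nat_lit 2) (nat_lit 5) (nat_lit 2) (nat_lit 4) (nat_lit 294) (nat_lit 200) (nat_lit 166)) (XT.nd (nat_lit 78) (nat_lit 0) (nat_lit 0) (XT.lf (nat_lit 0) (nat_lit 12009232523538) (nat_lit 76) (nat_lit 15990012009209) (nat_lit 76) (nat_lit 15989499674198) (nat_lit 1) (nat_lit 4) (nat_lit 2) (nat_lit 5) (nat_lit 2) (nat_lit 4) (nat_lit 295) (nat_lit 200) (nat_lit 165)) (XT.lf (nat_lit 0) (nat_lit 13811478882938) (nat_lit 76) (nat_lit 18388011745952) (nat_lit 76) (nat_lit 18387498905353) (nat_lit 1) (nat_lit 4) (nat_lit 2) (nat_lit 5) (nat_lit 2) (nat_lit 4) (nat_lit 296) (nat_lit 200) (nat_lit 164))))))))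
noncomputable def xc14 : XT := (XT.nd (nat_lit 32136) (nat_lit 0) (nat_lit 0) (XT.nd (nat_lit 31434) (nat_lit 0) (nat_lit 0) (XT.nd (nat_lit 312) (nat_lit 0) (nat_lit 0) (XT.nd (nat_lit 156) (nat_lit 0) (nat_lit 0) (XT.nd (nat_lit 78) (nat_lit 0) (nat_lit 0) (XT.lf (nat_lit 0) (nat_lit 15884060640638) (nat_lit 76) (nat_lit 21145712209982) (nat_lit 76) (nat_lit 21145198929742) (nat_lit 1) (nat_lit 4) (nat_lit 2) (nat_lit 5) (nat_lit 2) (nat_lit 4) (nat_lit 297) (nat_lit 200) (nat_lit 163)) (XT.lf (nat_lit 0) (nat_lit 18267528309287) (nat_lit 76) (nat_lit 24317068410380) (nat_lit 76) (nat_lit 24316554747843) (nat_lit 1) (nat_lit 4) (nat_lit 2) (nat_lit 5) (nat_lit 2) (nat_lit 4) (nat_lit 298) (nat_lit 200) (nat_lit 162))) (XT.nd (nat_lit 78) (nat_lit 0) (nat_lit 0) (XT.lf (nat_lit 0) (nat_lit 21008514951969) (nat_lit 76) (nat_lit 27964128620631) (nat_lit 76) (nat_lit 27963614625661) (nat_lit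 1) (nat_lit 4) (nat_lit 2) (nat_lit 5) (nat_lit 2) (nat_lit 4) (nat_lit 299) (nat_lit 200) (nat_lit 161)) (XT.lf (nat_lit 0) (nat_lit 24160648568215) (nat_lit 76) (nat_lit 32158248366587) (nat_lit 76) (nat_lit 32157734082546) (nat_lit 1) (nat_lit 4) (nat_lit 2) (nat_lit 5) (nat_lit 2) (nat_lit 4) (nat_lit 300) (nat_lit 200) (nat_lit 160)))) (XT.nd (nat_lit 156) (nat_lit 0) (nat_lit 0) (XT.nd (nat_lit 78) (nat_lit 0) (nat_lit 0) (XT.lf (nat_lit 0) (nat_lit 27785601337471) (nat_lit 76) (nat_lit 36981486512844) (nat_lit 76) (nat_lit 36980971977437) (nat_lit 1) (nat_lit 4) (nat_lit 2) (nat_lit 5) (nat_lit 2) (nat_lit 4) (nat_lit 301) (nat_lit 200) (nat_lit 159)) (XT.lf (nat_lit 0) (nat_lit 31954296248703) (nat_lit 76) (nat_lit 42528210762263) (nat_lit 76) (nat_lit 42527696008276) (nat_lit 1) (nat_lit 4) (nat_lit 2) (nat_lit 5) (nat_lit 2) (nat_lit 4) (nat_lit 302) (nat_lit 200) (nat_lit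 158))) (XT.nd (nat_lit 30888) (nat_lit 0) (nat_lit 0) (XT.lf (nat_lit 0) (nat_lit 36748294724086) (nat_lit 76) (nat_lit 48906943980593) (nat_lit 76) (nat_lit 48906429036538) (nat_lit 1) (nat_lit 4) (nat_lit 2) (nat_lit 5) (nat_lit 2) (nat_lit 4) (nat_lit 303) (nat_lit 200) (nat_lit 157)) (XT.lf (nat_lit 0) (nat_lit 27595943862) (nat_lit 76) (nat_lit 48891846951) (nat_lit 76) (nat_lit 48891846951) (nat_lit 1) (nat_lit 4) (nat_lit 2) (nat_lit 5) (nat_lit 2) (nat_lit 4) (nat_lit 258) (nat_lit 201) (nat_lit 201))))) (XT.nd (nat_lit 312) (nat_lit 0) (nat_lit 0) (XT.nd (nat_lit 156) (nat_lit 0) (nat_lit 0) (XT.nd (nat_lit 78) (nat_lit 0) (nat_lit 0) (XT.lf (nat_lit 0) (nat_lit 66274200806) (nat_lit 76) (nat_lit 110980312238) (nat_lit 76) (nat_lit 110902880561) (nat_lit 1) (nat_lit 4) (nat_lit 2) (nat_lit 5) (nat_lit 2) (nat_lit 4) (nat_lit 259) (nat_lit 201) (nat_lit 200)) (XT.lf (nat_lit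 0) (nat_lit 78780616211) (nat_lit 76) (nat_lit 126273856606) (nat_lit 76) (nat_lit 126129093035) (nat_lit 1) (nat_lit 4) (nat_lit 2) (nat_lit 5) (nat_lit 2) (nat_lit 4) (nat_lit 260) (nat_lit 201) (nat_lit 199))) (XT.nd (nat_lit 78) (nat_lit 0) (nat_lit 0) (XT.lf (nat_lit 0) (nat_lit 92955824677) (nat_lit 76) (nat_lit 143963548527) (nat_lit 76) (nat_lit 143760235483) (nat_lit 1) (nat_lit 4) (nat_lit 2) (nat_lit 5) (nat_lit 2) (nat_lit 4) (nat_lit 261) (nat_lit 201) (nat_lit 198)) (XT.lf (nat_lit 0) (nat_lit 109077167238) (nat_lit 76) (nat_lit 164395490668) (nat_lit 76) (nat_lit 164141265040) (nat_lit 1) (nat_lit 4) (nat_lit 2) (nat_lit 5) (nat_lit 2) (nat_lit 4) (nat_lit 262) (nat_lit 201) (nat_lit 197)))) (XT.nd (nat_lit 156) (nat_lit 0) (nat_lit 0) (XT.nd (nat_lit 78) (nat_lit 0) (nat_lit 0) (XT.lf (nat_lit 0) (nat_lit 127460061468) (nat_lit 76) (nat_lit 187969438420) (nat_lit 76)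 (nat_lit 187670940979) (nat_lit 1) (nat_lit 4) (nat_lit 2) (nat_lit 5) (nat_lit 2) (nat_lit 4) (nat_lit 263) (nat_lit 201) (nat_lit 196)) (XT.lf (nat_lit 0) (nat_lit 148464172687) (nat_lit 76) (nat_lit 215146621195) (nat_lit 76) (nat_lit 214809626526) (nat_lit 1) (nat_lit 4) (nat_lit 2) (nat_lit 5) (nat_lit 2) (nat_lit 4) (nat_lit 264) (nat_lit 201) (nat_lit 195))) (XT.nd (nat_lit 78) (nat_lit 0) (nat_lit 0) (XT.lf (nat_lit 0) (nat_lit 172500450897) (nat_lit 76) (nat_lit 246458766483) (nat_lit 76) (nat_lit 246088295962) (nat_lit 1) (nat_lit 4) (nat_lit 2) (nat_lit 5) (nat_lit 2) (nat_lit 4) (nat_lit 265) (nat_lit 201) (nat_lit 194)) (XT.nd (nat_lit 78) (nat_lit 0) (nat_lit 0) (XT.lf (nat_lit 0) (nat_lit 200039171108) (nat_lit 76) (nat_lit 282518503211) (nat_lit 76) (nat_lit 282118923255) (nat_lit 1) (nat_lit 4) (nat_lit 2) (nat_lit 5) (nat_lit 2) (nat_lit 4) (nat_lit 266) (nat_lit 201)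 (nat_lit 193)) (XT.lf (nat_lit 0) (nat_lit 231619134367) (nat_lit 76) (nat_lit 324031347970) (nat_lit 76) (nat_lit 323606455461) (nat_lit 1) (nat_lit 4) (nat_lit 2) (nat_lit 5) (nat_lit 2) (nat_lit 4) (nat_lit 267) (nat_lit 201) (nat_lit 192))))))) (XT.nd (nat_lit 624) (nat_lit 0) (nat_lit 0) (XT.nd (nat_lit 312) (nat_lit 0) (nat_lit 0) (XT.nd (nat_lit 156) (nat_lit 0) (nat_lit 0) (XT.nd (nat_lit 78) (nat_lit 0) (nat_lit 0) (XT.lf (nat_lit 0) (nat_lit 267858209520) (nat_lit 76) (nat_lit 371809508591) (nat_lit 76) (nat_lit 371362605166) (nat_lit 1) (nat_lit 4) (nat_lit 2) (nat_lit 5) (nat_lit 2) (nat_lit 4) (nat_lit 268) (nat_lit 201) (nat_lit 191)) (XT.lf (nat_lit 0) (nat_lit 309465421950) (nat_lit 76) (nat_lit 426787775173) (nat_lit 76) (nat_lit 426321731822) (nat_lit 1) (nat_lit 4) (nat_lit 2) (nat_lit 5) (nat_lit 2) (nat_lit 4) (nat_lit 269) (nat_lit 201) (nat_lit 190))) (XT.nd (nat_lit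 78) (nat_lit 0) (nat_lit 0) (XT.lf (nat_lit 0) (nat_lit 357254825814) (nat_lit 76) (nat_lit 490041809453) (nat_lit 76) (nat_lit 489559122688) (nat_lit 1) (nat_lit 4) (nat_lit 2) (nat_lit 5) (nat_lit 2) (nat_lit 4) (nat_lit 270) (nat_lit 201) (nat_lit 189)) (XT.lf (nat_lit 0) (nat_lit 412161431188) (nat_lit 76) (nat_lit 562809190364) (nat_lit 76) (nat_lit 562312031065) (nat_lit 1) (nat_lit 4) (nat_lit 2) (nat_lit 5) (nat_lit 2) (nat_lit 4) (nat_lit 271) (nat_lit 201) (nat_lit 188)))) (XT.nd (nat_lit 156) (nat_lit 0) (nat_lit 0) (XT.nd (nat_lit 78) (nat_lit 0) (nat_lit 0) (XT.lf (nat_lit 0) (nat_lit 475259497741) (nat_lit 76) (nat_lit 646513627532) (nat_lit 76) (nat_lit 646003883420) (nat_lit 1) (nat_lit 4) (nat_lit 2) (nat_lit 5) (nat_lit 2) (nat_lit 4) (nat_lit 272) (nat_lit 201) (nat_lit 187)) (XT.lf (nat_lit 0) (nat_lit 547783552863) (nat_lit 76) (nat_lit 742792816466) (nat_lit 76)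 (nat_lit 742272129039) (nat_lit 1) (nat_lit 4) (nat_lit 2) (nat_lit 5) (nat_lit 2) (nat_lit 4) (nat_lit 273) (nat_lit 201) (nat_lit 186))) (XT.nd (nat_lit 78) (nat_lit 0) (nat_lit 0) (XT.lf (nat_lit 0) (nat_lit 631152545459) (nat_lit 76) (nat_lit 853530480428) (nat_lit 76) (nat_lit 853000277075) (nat_lit 1) (nat_lit 4) (nat_lit 2) (nat_lit 5) (nat_lit 2) (nat_lit 4) (nat_lit 274) (nat_lit 201) (nat_lit 185)) (XT.lf (nat_lit 0) (nat_lit 726997607992) (nat_lit 76) (nat_lit 980893225887) (nat_lit 76) (nat_lit 980354747816) (nat_lit 1) (nat_lit 4) (nat_lit 2) (nat_lit 5) (nat_lit 2) (nat_lit 4) (nat_lit 275) (nat_lit 201) (nat_lit 184))))) (XT.nd (nat_lit 312) (nat_lit 0) (nat_lit 0) (XT.nd (nat_lit 156) (nat_lit 0) (nat_lit 0) (XT.nd (nat_lit 78) (nat_lit 0) (nat_lit 0) (XT.lf (nat_lit 0) (nat_lit 837193969946) (nat_lit 76) (nat_lit 1127372932646) (nat_lit 76) (nat_lit 1126827259168) (nat_lit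 1) (nat_lit 4) (nat_lit 2) (nat_lit 5) (nat_lit 2) (nat_lit 4) (nat_lit 276) (nat_lit 201) (nat_lit 183)) (XT.lf (nat_lit 0) (nat_lit 963897647100) (nat_lit 76) (nat_lit 1295835508011) (nat_lit 76) (nat_lit 1295283577657) (nat_lit 1) (nat_lit 4) (nat_lit 2) (nat_lit 5) (nat_lit 2) (nat_lit 4) (nat_lit 277) (nat_lit 201) (nat_lit 182))) (XT.nd (nat_lit 78) (nat_lit 0) (nat_lit 0) (XT.lf (nat_lit 0) (nat_lit 1109587624440) (nat_lit 76) (nat_lit 1489576958891) (nat_lit 76) (nat_lit 1489019587775) (nat_lit 1) (nat_lit 4) (nat_lit 2) (nat_lit 5) (nat_lit 2) (nat_lit 4) (nat_lit 278) (nat_lit 201) (nat_lit 181)) (XT.lf (nat_lit 0) (nat_lit 1277114358045) (nat_lit 76) (nat_lit 1712387878890) (nat_lit 76) (nat_lit 1711825776676) (nat_lit 1) (nat_lit 4) (nat_lit 2) (nat_lit 5) (nat_lit 2) (nat_lit 4) (nat_lit 279) (nat_lit 201) (nat_lit 180)))) (XT.nd (nat_lit 156) (nat_lit 0) (nat_lit 0) (XT.nd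 (nat_lit 78) (nat_lit 0) (nat_lit 0) (XT.lf (nat_lit 0) (nat_lit 1469755544878) (nat_lit 76) (nat_lit 1968627612095) (nat_lit 76) (nat_lit 1968061395884) (nat_lit 1) (nat_lit 4) (nat_lit 2) (nat_lit 5) (nat_lit 2) (nat_lit 4) (nat_lit 280) (nat_lit 201) (nat_lit 179)) (XT.lf (nat_lit 0) (nat_lit 1691280251636) (nat_lit 76) (nat_lit 2263309544590) (nat_lit 76) (nat_lit 2262739750991) (nat_lit 1) (nat_lit 4) (nat_lit 2) (nat_lit 5) (nat_lit 2) (nat_lit 4) (nat_lit 281) (nat_lit 201) (nat_lit 178))) (XT.nd (nat_lit 78) (nat_lit 0) (nat_lit 0) (XT.lf (nat_lit 0) (nat_lit 1946022657365) (nat_lit 76) (nat_lit 2602199192447) (nat_lit 76) (nat_lit 2601626288074) (nat_lit 1) (nat_lit 4) (nat_lit 2) (nat_lit 5) (nat_lit 2) (nat_lit 4) (nat_lit 282) (nat_lit 201) (nat_lit 177)) (XT.nd (nat_lit 78) (nat_lit 0) (nat_lit 0) (XT.lf (nat_lit 0) (nat_lit 2238966852613) (nat_lit 76) (nat_lit 2991927005297)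 (nat_lit 76) (nat_lit 2991351395904) (nat_lit 1) (nat_lit 4) (nat_lit 2) (nat_lit 5) (nat_lit 2) (nat_lit 4) (nat_lit 283) (nat_lit 201) (nat_lit 176)) (XT.lf (nat_lit 0) (nat_lit 2575844354242) (nat_lit 76) (nat_lit 3440118092522) (nat_lit 76) (nat_lit 3439540130938) (nat_lit 1) (nat_lit 4) (nat_lit 2) (nat_lit 5) (nat_lit 2) (nat_lit 4) (nat_lit 284) (nat_lit 201) (nat_lit 175))))))))
noncomputable def xc15 : XT := (XT.nd (nat_lit 1326) (nat_lit 0) (nat_lit 0) (XT.nd (nat_lit 624) (nat_lit 0) (nat_lit 0) (XT.nd (nat_lit 312) (nat_lit 0) (nat_lit 0) (XT.nd (nat_lit 156) (nat_lit 0) (nat_lit 0) (XT.nd (nat_lit 78) (nat_lit 0) (nat_lit 0) (XT.lf (nat_lit 0) (nat_lit 2963246243806) (nat_lit 76) (nat_lit 3955541410177) (nat_lit 76) (nat_lit 3954961403209) (nat_lit 1) (nat_lit 4) (nat_lit 2) (nat_lit 5) (nat_lit 2) (nat_lit 4) (nat_lit 285) (nat_lit 201) (nat_lit 174)) (XT.lf (nat_lit 0)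 (nat_lit 3408752123492) (nat_lit 76) (nat_lit 4548281327519) (nat_lit 76) (nat_lit 4547699541956) (nat_lit 1) (nat_lit 4) (nat_lit 2) (nat_lit 5) (nat_lit 2) (nat_lit 4) (nat_lit 286) (nat_lit 201) (nat_lit 173))) (XT.nd (nat_lit 78) (nat_lit 0) (nat_lit 0) (XT.lf (nat_lit 0) (nat_lit 3921078412686) (nat_lit 76) (nat_lit 5229934929888) (nat_lit 76) (nat_lit 5229351597722) (nat_lit 1) (nat_lit 4) (nat_lit 2) (nat_lit 5) (nat_lit 2) (nat_lit 4) (nat_lit 287) (nat_lit 201) (nat_lit 172)) (XT.lf (nat_lit 0) (nat_lit 4510248886611) (nat_lit 76) (nat_lit 6013838918201) (nat_lit 76) (nat_lit 6013254241161) (nat_lit 1) (nat_lit 4) (nat_lit 2) (nat_lit 5) (nat_lit 2) (nat_lit 4) (nat_lit 288) (nat_lit 201) (nat_lit 171)))) (XT.nd (nat_lit 156) (nat_lit 0) (nat_lit 0) (XT.nd (nat_lit 78) (nat_lit 0) (nat_lit 0) (XT.lf (nat_lit 0) (nat_lit 5187790793670) (nat_lit 76) (nat_lit 6915330544402) (nat_lit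 76) (nat_lit 6914744697907) (nat_lit 1) (nat_lit 4) (nat_lit 2) (nat_lit 5) (nat_lit 2) (nat_lit 4) (nat_lit 289) (nat_lit 201) (nat_lit 170)) (XT.lf (nat_lit 0) (nat_lit 5966960388565) (nat_lit 76) (nat_lit 7952047688134) (nat_lit 76) (nat_lit 7951460824722) (nat_lit 1) (nat_lit 4) (nat_lit 2) (nat_lit 5) (nat_lit 2) (nat_lit 4) (nat_lit 290) (nat_lit 201) (nat_lit 169))) (XT.nd (nat_lit 78) (nat_lit 0) (nat_lit 0) (XT.lf (nat_lit 0) (nat_lit 6863002293807) (nat_lit 76) (nat_lit 9144273945688) (nat_lit 76) (nat_lit 9143686198000) (nat_lit 1) (nat_lit 4) (nat_lit 2) (nat_lit 5) (nat_lit 2) (nat_lit 4) (nat_lit 291) (nat_lit 201) (nat_lit 168)) (XT.lf (nat_lit 0) (nat_lit 7893447764062) (nat_lit 76) (nat_lit 10515335482972) (nat_lit 76) (nat_lit 10514746966349) (nat_lit 1) (nat_lit 4) (nat_lit 2) (nat_lit 5) (nat_lit 2) (nat_lit 4) (nat_lit 292) (nat_lit 201) (nat_lit 167))))) (XT.nd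 (nat_lit 312) (nat_lit 0) (nat_lit 0) (XT.nd (nat_lit 156) (nat_lit 0) (nat_lit 0) (XT.nd (nat_lit 78) (nat_lit 0) (nat_lit 0) (XT.lf (nat_lit 0) (nat_lit 9078457688966) (nat_lit 76) (nat_lit 12092057417021) (nat_lit 76) (nat_lit 12091468231758) (nat_lit 1) (nat_lit 4) (nat_lit 2) (nat_lit 5) (nat_lit 2) (nat_lit 4) (nat_lit 293) (nat_lit 201) (nat_lit 166)) (XT.lf (nat_lit 0) (nat_lit 10441217045310) (nat_lit 76) (nat_lit 13905288655239) (nat_lit 76) (nat_lit 13904698888551) (nat_lit 1) (nat_lit 4) (nat_lit 2) (nat_lit 5) (nat_lit 2) (nat_lit 4) (nat_lit 294) (nat_lit 201) (nat_lit 165))) (XT.nd (nat_lit 78) (nat_lit 0) (nat_lit 0) (XT.lf (nat_lit 0) (nat_lit 12008388516155) (nat_lit 76) (nat_lit 15990505460984) (nat_lit 76) (nat_lit 15989915188707) (nat_lit 1) (nat_lit 4) (nat_lit 2) (nat_lit 5) (nat_lit 2) (nat_lit 4) (nat_lit 295) (nat_lit 201) (nat_lit 164)) (XT.lf (nat_lit 0)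 (nat_lit 13810634152015) (nat_lit 76) (nat_lit 18388505554367) (nat_lit 76) (nat_lit 18387914842449) (nat_lit 1) (nat_lit 4) (nat_lit 2) (nat_lit 5) (nat_lit 2) (nat_lit 4) (nat_lit 296) (nat_lit 201) (nat_lit 163)))) (XT.nd (nat_lit 156) (nat_lit 0) (nat_lit 0) (XT.nd (nat_lit 78) (nat_lit 0) (nat_lit 0) (XT.lf (nat_lit 0) (nat_lit 15883215280550) (nat_lit 76) (nat_lit 21146206328519) (nat_lit 76) (nat_lit 21145615234304) (nat_lit 1) (nat_lit 4) (nat_lit 2) (nat_lit 5) (nat_lit 2) (nat_lit 4) (nat_lit 297) (nat_lit 201) (nat_lit 162)) (XT.lf (nat_lit 0) (nat_lit 18266682402099) (nat_lit 76) (nat_lit 24317562798588) (nat_lit 76) (nat_lit 24316971371941) (nat_lit 1) (nat_lit 4) (nat_lit 2) (nat_lit 5) (nat_lit 2) (nat_lit 4) (nat_lit 298) (nat_lit 201) (nat_lit 161))) (XT.nd (nat_lit 78) (nat_lit 0) (nat_lit 0) (XT.lf (nat_lit 0) (nat_lit 21007668569042) (nat_lit 76) (nat_lit 27964623243336)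 (nat_lit 76) (nat_lit 27964031527617) (nat_lit 1) (nat_lit 4) (nat_lit 2) (nat_lit 5) (nat_lit 2) (nat_lit 4) (nat_lit 299) (nat_lit 201) (nat_lit 160)) (XT.nd (nat_lit 78) (nat_lit 0) (nat_lit 0) (XT.lf (nat_lit 0) (nat_lit 24159801771601) (nat_lit 76) (nat_lit 32158743193202) (nat_lit 76) (nat_lit 32158151226118) (nat_lit 1) (nat_lit 4) (nat_lit 2) (nat_lit 5) (nat_lit 2) (nat_lit 4) (nat_lit 300) (nat_lit 201) (nat_lit 159)) (XT.lf (nat_lit 0) (nat_lit 27784754181131) (nat_lit 76) (nat_lit 36981981516772) (nat_lit 76) (nat_lit 36981389331108) (nat_lit 1) (nat_lit 4) (nat_lit 2) (nat_lit 5) (nat_lit 2) (nat_lit 4) (nat_lit 301) (nat_lit 201) (nat_lit 158))))))) (XT.nd (nat_lit 31278) (nat_lit 0) (nat_lit 0) (XT.nd (nat_lit 30966) (nat_lit 0) (nat_lit 0) (XT.nd (nat_lit 30810) (nat_lit 0) (nat_lit 0) (XT.nd (nat_lit 78) (nat_lit 0) (nat_lit 0) (XT.lf (nat_lit 0) (nat_lit 31953448779556)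 (nat_lit 76) (nat_lit 42528705920377) (nat_lit 76) (nat_lit 42528113544644) (nat_lit 1) (nat_lit 4) (nat_lit 2) (nat_lit 5) (nat_lit 2) (nat_lit 4) (nat_lit 302) (nat_lit 201) (nat_lit 157)) (XT.lf (nat_lit 0) (nat_lit 36747446982934) (nat_lit 76) (nat_lit 48907439272782) (nat_lit 76) (nat_lit 48906846731771) (nat_lit 1) (nat_lit 4) (nat_lit 2) (nat_lit 5) (nat_lit 2) (nat_lit 4) (nat_lit 303) (nat_lit 201) (nat_lit 156))) (XT.nd (nat_lit 78) (nat_lit 0) (nat_lit 0) (XT.lf (nat_lit 0) (nat_lit 18301212910) (nat_lit 76) (nat_lit 38350621493) (nat_lit 76) (nat_lit 38350621493) (nat_lit 1) (nat_lit 4) (nat_lit 2) (nat_lit 5) (nat_lit 2) (nat_lit 4) (nat_lit 256) (nat_lit 202) (nat_lit 202)) (XT.lf (nat_lit 0) (nat_lit 45316849104) (nat_lit 76) (nat_lit 86514853323) (nat_lit 76) (nat_lit 86425806893) (nat_lit 1) (nat_lit 4) (nat_lit 2) (nat_lit 5) (nat_lit 2) (nat_lit 4) (nat_lit 257) (nat_lit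 202) (nat_lit 201)))) (XT.nd (nat_lit 156) (nat_lit 0) (nat_lit 0) (XT.nd (nat_lit 78) (nat_lit 0) (nat_lit 0) (XT.lf (nat_lit 0) (nat_lit 55064454547) (nat_lit 76) (nat_lit 97935553483) (nat_lit 76) (nat_lit 97769075376) (nat_lit 1) (nat_lit 4) (nat_lit 2) (nat_lit 5) (nat_lit 2) (nat_lit 4) (nat_lit 258) (nat_lit 202) (nat_lit 200)) (XT.lf (nat_lit 0) (nat_lit 66035956168) (nat_lit 76) (nat_lit 111186791950) (nat_lit 76) (nat_lit 110952981950) (nat_lit 1) (nat_lit 4) (nat_lit 2) (nat_lit 5) (nat_lit 2) (nat_lit 4) (nat_lit 259) (nat_lit 202) (nat_lit 199))) (XT.nd (nat_lit 78) (nat_lit 0) (nat_lit 0) (XT.lf (nat_lit 0) (nat_lit 78446013782) (nat_lit 76) (nat_lit 126527832084) (nat_lit 76) (nat_lit 126235472611) (nat_lit 1) (nat_lit 4) (nat_lit 2) (nat_lit 5) (nat_lit 2) (nat_lit 4) (nat_lit 260) (nat_lit 202) (nat_lit 198)) (XT.lf (nat_lit 0) (nat_lit 92537432865) (nat_lit 76) (nat_lit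 144258824671) (nat_lit 76) (nat_lit 143915552614) (nat_lit 1) (nat_lit 4) (nat_lit 2) (nat_lit 5) (nat_lit 2) (nat_lit 4) (nat_lit 261) (nat_lit 202) (nat_lit 197))))) (XT.nd (nat_lit 312) (nat_lit 0) (nat_lit 0) (XT.nd (nat_lit 156) (nat_lit 0) (nat_lit 0) (XT.nd (nat_lit 78) (nat_lit 0) (nat_lit 0) (XT.lf (nat_lit 0) (nat_lit 108585915093) (nat_lit 76) (nat_lit 164726680435) (nat_lit 76) (nat_lit 164339136565) (nat_lit 1) (nat_lit 4) (nat_lit 2) (nat_lit 5) (nat_lit 2) (nat_lit 4) (nat_lit 262) (nat_lit 202) (nat_lit 196)) (XT.lf (nat_lit 0) (nat_lit 126905452511) (nat_lit 76) (nat_lit 188331857425) (nat_lit 76) (nat_lit 187905816326) (nat_lit 1) (nat_lit 4) (nat_lit 2) (nat_lit 5) (nat_lit 2) (nat_lit 4) (nat_lit 263) (nat_lit 202) (nat_lit 195))) (XT.nd (nat_lit 78) (nat_lit 0) (nat_lit 0) (XT.lf (nat_lit 0) (nat_lit 147854470851) (nat_lit 76) (nat_lit 215536196058) (nat_lit 76)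 (nat_lit 215076679108) (nat_lit 1) (nat_lit 4) (nat_lit 2) (nat_lit 5) (nat_lit 2) (nat_lit 4) (nat_lit 264) (nat_lit 202) (nat_lit 194)) (XT.lf (nat_lit 0) (nat_lit 171842842209) (nat_lit 76) (nat_lit 246871955135) (nat_lit 76) (nat_lit 246383328750) (nat_lit 1) (nat_lit 4) (nat_lit 2) (nat_lit 5) (nat_lit 2) (nat_lit 4) (nat_lit 265) (nat_lit 202) (nat_lit 193)))) (XT.nd (nat_lit 156) (nat_lit 0) (nat_lit 0) (XT.nd (nat_lit 78) (nat_lit 0) (nat_lit 0) (XT.lf (nat_lit 0) (nat_lit 199339904288) (nat_lit 76) (nat_lit 282952225595) (nat_lit 76) (nat_lit 282438286657) (nat_lit 1) (nat_lit 4) (nat_lit 2) (nat_lit 5) (nat_lit 2) (nat_lit 4) (nat_lit 266) (nat_lit 202) (nat_lit 192)) (XT.lf (nat_lit 0) (nat_lit 230883643084) (nat_lit 76) (nat_lit 324482925771) (nat_lit 76) (nat_lit 323946975918) (nat_lit 1) (nat_lit 4) (nat_lit 2) (nat_lit 5) (nat_lit 2) (nat_lit 4) (nat_lit 267) (nat_lit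 202) (nat_lit 191))) (XT.nd (nat_lit 78) (nat_lit 0) (nat_lit 0) (XT.lf (nat_lit 0) (nat_lit 267091218704) (nat_lit 76) (nat_lit 372276612842) (nat_lit 76) (nat_lit 371721523062) (nat_lit 1) (nat_lit 4) (nat_lit 2) (nat_lit 5) (nat_lit 2) (nat_lit 4) (nat_lit 268) (nat_lit 202) (nat_lit 190)) (XT.nd (nat_lit 78) (nat_lit 0) (nat_lit 0) (XT.lf (nat_lit 0) (nat_lit 308671040237) (nat_lit 76) (nat_lit 427268380685) (nat_lit 76) (nat_lit 426696647491) (nat_lit 1) (nat_lit 4) (nat_lit 2) (nat_lit 5) (nat_lit 2) (nat_lit 4) (nat_lit 269) (nat_lit 202) (nat_lit 189)) (XT.lf (nat_lit 0) (nat_lit 356436625929) (nat_lit 76) (nat_lit 490534155193) (nat_lit 76) (nat_lit 489947949464) (nat_lit 1) (nat_lit 4) (nat_lit 2) (nat_lit 5) (nat_lit 2) (nat_lit 4) (nat_lit 270) (nat_lit 202) (nat_lit 188))))))))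
noncomputable def xc16 : XT := (XT.nd (nat_lit 1326) (nat_lit 0) (nat_lit 0) (XT.nd (nat_lit 624) (nat_lit 0) (nat_lit 0) (XT.nd (nat_lit 312) (nat_lit 0) (nat_lit 0) (XT.nd (nat_lit 156) (nat_lit 0) (nat_lit 0) (XT.nd (nat_lit 78) (nat_lit 0) (nat_lit 0) (XT.lf (nat_lit 0) (nat_lit 411322519848) (nat_lit 76) (nat_lit 563311744997) (nat_lit 76) (nat_lit 562712954456) (nat_lit 1) (nat_lit 4) (nat_lit 2) (nat_lit 5) (nat_lit 2) (nat_lit 4) (nat_lit 271) (nat_lit 202) (nat_lit 187)) (XT.lf (nat_lit 0) (nat_lit 474402576441) (nat_lit 76) (nat_lit 647025059462) (nat_lit 76) (nat_lit 646415325607) (nat_lit 1) (nat_lit 4) (nat_lit 2) (nat_lit 5) (nat_lit 2) (nat_lit 4) (nat_lit 272) (nat_lit 202) (nat_lit 186))) (XT.nd (nat_lit 78) (nat_lit 0) (nat_lit 0) (XT.lf (nat_lit 0) (nat_lit 546910970729) (nat_lit 76) (nat_lit 743311967786) (nat_lit 76) (nat_lit 742692718004) (nat_lit 1) (nat_lit 4)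 (nat_lit 2) (nat_lit 5) (nat_lit 2) (nat_lit 4) (nat_lit 273) (nat_lit 202) (nat_lit 185)) (XT.lf (nat_lit 0) (nat_lit 630266345207) (nat_lit 76) (nat_lit 854056344261) (nat_lit 76) (nat_lit 853428819761) (nat_lit 1) (nat_lit 4) (nat_lit 2) (nat_lit 5) (nat_lit 2) (nat_lit 4) (nat_lit 274) (nat_lit 202) (nat_lit 184)))) (XT.nd (nat_lit 156) (nat_lit 0) (nat_lit 0) (XT.nd (nat_lit 78) (nat_lit 0) (nat_lit 0) (XT.lf (nat_lit 0) (nat_lit 726099565899) (nat_lit 76) (nat_lit 981424926689) (nat_lit 76) (nat_lit 980790206781) (nat_lit 1) (nat_lit 4) (nat_lit 2) (nat_lit 5) (nat_lit 2) (nat_lit 4) (nat_lit 275) (nat_lit 202) (nat_lit 183)) (XT.lf (nat_lit 0) (nat_lit 836285630600) (nat_lit 76) (nat_lit 1127909709072) (nat_lit 76) (nat_lit 1127268732288) (nat_lit 1) (nat_lit 4) (nat_lit 2) (nat_lit 5) (nat_lit 2) (nat_lit 4) (nat_lit 276) (nat_lit 202) (nat_lit 182))) (XT.nd (nat_lit 78) (nat_lit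 0) (nat_lit 0) (XT.lf (nat_lit 0) (nat_lit 962980353621) (nat_lit 76) (nat_lit 1296376698023) (nat_lit 76) (nat_lit 1295730280478) (nat_lit 1) (nat_lit 4) (nat_lit 2) (nat_lit 5) (nat_lit 2) (nat_lit 4) (nat_lit 277) (nat_lit 202) (nat_lit 181)) (XT.lf (nat_lit 0) (nat_lit 1108662544758) (nat_lit 76) (nat_lit 1490121986803) (nat_lit 76) (nat_lit 1489470838161) (nat_lit 1) (nat_lit 4) (nat_lit 2) (nat_lit 5) (nat_lit 2) (nat_lit 4) (nat_lit 278) (nat_lit 202) (nat_lit 180))))) (XT.nd (nat_lit 312) (nat_lit 0) (nat_lit 0) (XT.nd (nat_lit 156) (nat_lit 0) (nat_lit 0) (XT.nd (nat_lit 78) (nat_lit 0) (nat_lit 0) (XT.lf (nat_lit 0) (nat_lit 1276182507753) (nat_lit 76) (nat_lit 1712936244108) (nat_lit 76) (nat_lit 1712280981468) (nat_lit 1) (nat_lit 4) (nat_lit 2) (nat_lit 5) (nat_lit 2) (nat_lit 4) (nat_lit 279) (nat_lit 202) (nat_lit 179)) (XT.lf (nat_lit 0) (nat_lit 1468817807097) (nat_lit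 76) (nat_lit 1969178879317) (nat_lit 76) (nat_lit 1968520039289) (nat_lit 1) (nat_lit 4) (nat_lit 2) (nat_lit 5) (nat_lit 2) (nat_lit 4) (nat_lit 280) (nat_lit 202) (nat_lit 178))) (XT.nd (nat_lit 78) (nat_lit 0) (nat_lit 0) (XT.lf (nat_lit 0) (nat_lit 1690337394301) (nat_lit 76) (nat_lit 2263863335295) (nat_lit 76) (nat_lit 2263201384493) (nat_lit 1) (nat_lit 4) (nat_lit 2) (nat_lit 5) (nat_lit 2) (nat_lit 4) (nat_lit 281) (nat_lit 202) (nat_lit 177)) (XT.lf (nat_lit 0) (nat_lit 1945075348243) (nat_lit 76) (nat_lit 2602755177485) (nat_lit 76) (nat_lit 2602090521662) (nat_lit 1) (nat_lit 4) (nat_lit 2) (nat_lit 5) (nat_lit 2) (nat_lit 4) (nat_lit 282) (nat_lit 202) (nat_lit 176)))) (XT.nd (nat_lit 156) (nat_lit 0) (nat_lit 0) (XT.nd (nat_lit 78) (nat_lit 0) (nat_lit 0) (XT.lf (nat_lit 0) (nat_lit 2238015672372) (nat_lit 76) (nat_lit 2992484898450) (nat_lit 76) (nat_lit 2991817890436)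 (nat_lit 1) (nat_lit 4) (nat_lit 2) (nat_lit 5) (nat_lit 2) (nat_lit 4) (nat_lit 283) (nat_lit 202) (nat_lit 175)) (XT.lf (nat_lit 0) (nat_lit 2574889807811) (nat_lit 76) (nat_lit 3440677644905) (nat_lit 76) (nat_lit 3440008591508) (nat_lit 1) (nat_lit 4) (nat_lit 2) (nat_lit 5) (nat_lit 2) (nat_lit 4) (nat_lit 284) (nat_lit 202) (nat_lit 174))) (XT.nd (nat_lit 78) (nat_lit 0) (nat_lit 0) (XT.lf (nat_lit 0) (nat_lit 2962288770253) (nat_lit 76) (nat_lit 3956102405369) (nat_lit 76) (nat_lit 3955431573377) (nat_lit 1) (nat_lit 4) (nat_lit 2) (nat_lit 5) (nat_lit 2) (nat_lit 4) (nat_lit 285) (nat_lit 202) (nat_lit 173)) (XT.nd (nat_lit 78) (nat_lit 0) (nat_lit 0) (XT.lf (nat_lit 0) (nat_lit 3407792104616) (nat_lit 76) (nat_lit 4548843577328) (nat_lit 76) (nat_lit 4548171198732) (nat_lit 1) (nat_lit 4) (nat_lit 2) (nat_lit 5) (nat_lit 2) (nat_lit 4) (nat_lit 286) (nat_lit 202) (nat_lit 172))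 (XT.lf (nat_lit 0) (nat_lit 3920116180485) (nat_lit 76) (nat_lit 5230498270668) (nat_lit 76) (nat_lit 5229824547199) (nat_lit 1) (nat_lit 4) (nat_lit 2) (nat_lit 5) (nat_lit 2) (nat_lit 4) (nat_lit 287) (nat_lit 202) (nat_lit 171))))))) (XT.nd (nat_lit 624) (nat_lit 0) (nat_lit 0) (XT.nd (nat_lit 312) (nat_lit 0) (nat_lit 0) (XT.nd (nat_lit 156) (nat_lit 0) (nat_lit 0) (XT.nd (nat_lit 78) (nat_lit 0) (nat_lit 0) (XT.lf (nat_lit 0) (nat_lit 4509284729779) (nat_lit 76) (nat_lit 6014403207651) (nat_lit 76) (nat_lit 6013728314727) (nat_lit 1) (nat_lit 4) (nat_lit 2) (nat_lit 5) (nat_lit 2) (nat_lit 4) (nat_lit 288) (nat_lit 202) (nat_lit 170)) (XT.lf (nat_lit 0) (nat_lit 5186824963246) (nat_lit 76) (nat_lit 6915895658783) (nat_lit 76) (nat_lit 6915219748942) (nat_lit 1) (nat_lit 4) (nat_lit 2) (nat_lit 5) (nat_lit 2) (nat_lit 4) (nat_lit 289) (nat_lit 202) (nat_lit 169))) (XT.nd (nat_lit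 78) (nat_lit 0) (nat_lit 0) (XT.lf (nat_lit 0) (nat_lit 5965993102845) (nat_lit 76) (nat_lit 7952613519846) (nat_lit 76) (nat_lit 7951936725729) (nat_lit 1) (nat_lit 4) (nat_lit 2) (nat_lit 5) (nat_lit 2) (nat_lit 4) (nat_lit 290) (nat_lit 202) (nat_lit 168)) (XT.lf (nat_lit 0) (nat_lit 6862033742611) (nat_lit 76) (nat_lit 9144840401166) (nat_lit 76) (nat_lit 9144162838114) (nat_lit 1) (nat_lit 4) (nat_lit 2) (nat_lit 5) (nat_lit 2) (nat_lit 4) (nat_lit 291) (nat_lit 202) (nat_lit 167)))) (XT.nd (nat_lit 156) (nat_lit 0) (nat_lit 0) (XT.nd (nat_lit 78) (nat_lit 0) (nat_lit 0) (XT.lf (nat_lit 0) (nat_lit 7892478112452) (nat_lit 76) (nat_lit 10515902480856) (nat_lit 76) (nat_lit 10515224249164) (nat_lit 1) (nat_lit 4) (nat_lit 2) (nat_lit 5) (nat_lit 2) (nat_lit 4) (nat_lit 292) (nat_lit 202) (nat_lit 166)) (XT.lf (nat_lit 0) (nat_lit 9077487080475) (nat_lit 76) (nat_lit 12092624886562)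 (nat_lit 76) (nat_lit 12091946073444) (nat_lit 1) (nat_lit 4) (nat_lit 2) (nat_lit 5) (nat_lit 2) (nat_lit 4) (nat_lit 293) (nat_lit 202) (nat_lit 165))) (XT.nd (nat_lit 78) (nat_lit 0) (nat_lit 0) (XT.lf (nat_lit 0) (nat_lit 10440245604749) (nat_lit 76) (nat_lit 13905856534916) (nat_lit 76) (nat_lit 13905177216211) (nat_lit 1) (nat_lit 4) (nat_lit 2) (nat_lit 5) (nat_lit 2) (nat_lit 4) (nat_lit 294) (nat_lit 202) (nat_lit 164)) (XT.lf (nat_lit 0) (nat_lit 12007416352053) (nat_lit 76) (nat_lit 15991073697301) (nat_lit 76) (nat_lit 15990393938954) (nat_lit 1) (nat_lit 4) (nat_lit 2) (nat_lit 5) (nat_lit 2) (nat_lit 4) (nat_lit 295) (nat_lit 202) (nat_lit 163))))) (XT.nd (nat_lit 312) (nat_lit 0) (nat_lit 0) (XT.nd (nat_lit 156) (nat_lit 0) (nat_lit 0) (XT.nd (nat_lit 78) (nat_lit 0) (nat_lit 0) (XT.lf (nat_lit 0) (nat_lit 13809661358749) (nat_lit 76) (nat_lit 18389074100806) (nat_lit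 76) (nat_lit 18388393960162) (nat_lit 1) (nat_lit 4) (nat_lit 2) (nat_lit 5) (nat_lit 2) (nat_lit 4) (nat_lit 296) (nat_lit 202) (nat_lit 162)) (XT.lf (nat_lit 0) (nat_lit 15882241940183) (nat_lit 76) (nat_lit 21146775144630) (nat_lit 76) (nat_lit 21146094671554) (nat_lit 1) (nat_lit 4) (nat_lit 2) (nat_lit 5) (nat_lit 2) (nat_lit 4) (nat_lit 297) (nat_lit 202) (nat_lit 161))) (XT.nd (nat_lit 78) (nat_lit 0) (nat_lit 0) (XT.lf (nat_lit 0) (nat_lit 18265708585994) (nat_lit 76) (nat_lit 24318131849196) (nat_lit 76) (nat_lit 24317451087048) (nat_lit 1) (nat_lit 4) (nat_lit 2) (nat_lit 5) (nat_lit 2) (nat_lit 4) (nat_lit 298) (nat_lit 202) (nat_lit 160)) (XT.lf (nat_lit 0) (nat_lit 21006694339250) (nat_lit 76) (nat_lit 27965192497853) (nat_lit 76) (nat_lit 27964511484340) (nat_lit 1) (nat_lit 4) (nat_lit 2) (nat_lit 5) (nat_lit 2) (nat_lit 4) (nat_lit 299) (nat_lit 202) (nat_lit 159))))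 (XT.nd (nat_lit 156) (nat_lit 0) (nat_lit 0) (XT.nd (nat_lit 78) (nat_lit 0) (nat_lit 0) (XT.lf (nat_lit 0) (nat_lit 24158827182082) (nat_lit 76) (nat_lit 32159312625033) (nat_lit 76) (nat_lit 32158631392940) (nat_lit 1) (nat_lit 4) (nat_lit 2) (nat_lit 5) (nat_lit 2) (nat_lit 4) (nat_lit 300) (nat_lit 202) (nat_lit 158)) (XT.lf (nat_lit 0) (nat_lit 27783779278805) (nat_lit 76) (nat_lit 36982551102789) (nat_lit 76) (nat_lit 36981869680627) (nat_lit 1) (nat_lit 4) (nat_lit 2) (nat_lit 5) (nat_lit 2) (nat_lit 4) (nat_lit 301) (nat_lit 202) (nat_lit 157))) (XT.nd (nat_lit 30654) (nat_lit 0) (nat_lit 0) (XT.lf (nat_lit 0) (nat_lit 31952473605225) (nat_lit 76) (nat_lit 42529275640468) (nat_lit 76) (nat_lit 42528594053028) (nat_lit 1) (nat_lit 4) (nat_lit 2) (nat_lit 5) (nat_lit 2) (nat_lit 4) (nat_lit 302) (nat_lit 202) (nat_lit 156)) (XT.nd (nat_lit 78) (nat_lit 0) (nat_lit 0) (XT.lf (nat_lit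 0) (nat_lit 10888268169) (nat_lit 76) (nat_lit 30587144774) (nat_lit 76) (nat_lit 30587144774) (nat_lit 1) (nat_lit 4) (nat_lit 2) (nat_lit 5) (nat_lit 2) (nat_lit 4) (nat_lit 254) (nat_lit 203) (nat_lit 203)) (XT.lf (nat_lit 0) (nat_lit 28750685111) (nat_lit 76) (nat_lit 68405120450) (nat_lit 76) (nat_lit 68302717057) (nat_lit 1) (nat_lit 4) (nat_lit 2) (nat_lit 5) (nat_lit 2) (nat_lit 4) (nat_lit 255) (nat_lit 203) (nat_lit 202))))))))
noncomputable def xc17 : XT := (XT.nd (nat_lit 1326) (nat_lit 0) (nat_lit 0) (XT.nd (nat_lit 624) (nat_lit 0) (nat_lit 0) (XT.nd (nat_lit 312) (nat_lit 0) (nat_lit 0) (XT.nd (nat_lit 156) (nat_lit 0) (nat_lit 0) (XT.nd (nat_lit 78) (nat_lit 0) (nat_lit 0) (XT.lf (nat_lit 0) (nat_lit 36455877666) (nat_lit 76) (nat_lit 76875881504) (nat_lit 76) (nat_lit 76684431682) (nat_lit 1) (nat_lit 4) (nat_lit 2) (nat_lit 5) (nat_lit 2) (nat_lit 4) (nat_lit 256)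 (nat_lit 203) (nat_lit 201)) (XT.lf (nat_lit 0) (nat_lit 45042867771) (nat_lit 76) (nat_lit 86752304991) (nat_lit 76) (nat_lit 86483423491) (nat_lit 1) (nat_lit 4) (nat_lit 2) (nat_lit 5) (nat_lit 2) (nat_lit 4) (nat_lit 257) (nat_lit 203) (nat_lit 200))) (XT.nd (nat_lit 78) (nat_lit 0) (nat_lit 0) (XT.lf (nat_lit 0) (nat_lit 54679661754) (nat_lit 76) (nat_lit 98227625282) (nat_lit 76) (nat_lit 97891411889) (nat_lit 1) (nat_lit 4) (nat_lit 2) (nat_lit 5) (nat_lit 2) (nat_lit 4) (nat_lit 258) (nat_lit 203) (nat_lit 199)) (XT.lf (nat_lit 0) (nat_lit 65554805585) (nat_lit 76) (nat_lit 111526359515) (nat_lit 76) (nat_lit 111131596649) (nat_lit 1) (nat_lit 4) (nat_lit 2) (nat_lit 5) (nat_lit 2) (nat_lit 4) (nat_lit 259) (nat_lit 203) (nat_lit 198)))) (XT.nd (nat_lit 156) (nat_lit 0) (nat_lit 0) (XT.nd (nat_lit 78) (nat_lit 0) (nat_lit 0) (XT.lf (nat_lit 0) (nat_lit 77881073816) (nat_lit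 76) (nat_lit 126908700316) (nat_lit 76) (nat_lit 126463024865) (nat_lit 1) (nat_lit 4) (nat_lit 2) (nat_lit 5) (nat_lit 2) (nat_lit 4) (nat_lit 260) (nat_lit 203) (nat_lit 197)) (XT.lf (nat_lit 0) (nat_lit 91899632565) (nat_lit 76) (nat_lit 144675606526) (nat_lit 76) (nat_lit 144185659262) (nat_lit 1) (nat_lit 4) (nat_lit 2) (nat_lit 5) (nat_lit 2) (nat_lit 4) (nat_lit 261) (nat_lit 203) (nat_lit 196))) (XT.nd (nat_lit 78) (nat_lit 0) (nat_lit 0) (XT.lf (nat_lit 0) (nat_lit 107884757982) (nat_lit 76) (nat_lit 165174691527) (nat_lit 76) (nat_lit 164646247035) (nat_lit 1) (nat_lit 4) (nat_lit 2) (nat_lit 5) (nat_lit 2) (nat_lit 4) (nat_lit 262) (nat_lit 203) (nat_lit 195)) (XT.lf (nat_lit 0) (nat_lit 126149202520) (nat_lit 76) (nat_lit 188807024375) (nat_lit 76) (nat_lit 188245104032) (nat_lit 1) (nat_lit 4) (nat_lit 2) (nat_lit 5) (nat_lit 2) (nat_lit 4) (nat_lit 263) (nat_lit 203) (nat_lit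 194))))) (XT.nd (nat_lit 312) (nat_lit 0) (nat_lit 0) (XT.nd (nat_lit 156) (nat_lit 0) (nat_lit 0) (XT.nd (nat_lit 78) (nat_lit 0) (nat_lit 0) (XT.lf (nat_lit 0) (nat_lit 147050314008) (nat_lit 76) (nat_lit 216034976799) (nat_lit 76) (nat_lit 215443947020) (nat_lit 1) (nat_lit 4) (nat_lit 2) (nat_lit 5) (nat_lit 2) (nat_lit 4) (nat_lit 264) (nat_lit 203) (nat_lit 193)) (XT.lf (nat_lit 0) (nat_lit 170997027235) (nat_lit 76) (nat_lit 247391269607) (nat_lit 76) (nat_lit 246774927275) (nat_lit 1) (nat_lit 4) (nat_lit 2) (nat_lit 5) (nat_lit 2) (nat_lit 4) (nat_lit 265) (nat_lit 203) (nat_lit 192))) (XT.nd (nat_lit 78) (nat_lit 0) (nat_lit 0) (XT.lf (nat_lit 0) (nat_lit 198457864851) (nat_lit 76) (nat_lit 283489395484) (nat_lit 76) (nat_lit 282851042237) (nat_lit 1) (nat_lit 4) (nat_lit 2) (nat_lit 5) (nat_lit 2) (nat_lit 4) (nat_lit 266) (nat_lit 203) (nat_lit 191)) (XT.lf (nat_lit 0) (nat_lit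 229970104114) (nat_lit 76) (nat_lit 325035622110) (nat_lit 76) (nat_lit 324378128937) (nat_lit 1) (nat_lit 4) (nat_lit 2) (nat_lit 5) (nat_lit 2) (nat_lit 4) (nat_lit 267) (nat_lit 203) (nat_lit 190)))) (XT.nd (nat_lit 156) (nat_lit 0) (nat_lit 0) (XT.nd (nat_lit 78) (nat_lit 0) (nat_lit 0) (XT.lf (nat_lit 0) (nat_lit 266150288836) (nat_lit 76) (nat_lit 372842810443) (nat_lit 76) (nat_lit 372168673855) (nat_lit 1) (nat_lit 4) (nat_lit 2) (nat_lit 5) (nat_lit 2) (nat_lit 4) (nat_lit 268) (nat_lit 203) (nat_lit 189)) (XT.lf (nat_lit 0) (nat_lit 307706292196) (nat_lit 76) (nat_lit 427846318513) (nat_lit 76) (nat_lit 427157709391) (nat_lit 1) (nat_lit 4) (nat_lit 2) (nat_lit 5) (nat_lit 2) (nat_lit 4) (nat_lit 269) (nat_lit 203) (nat_lit 188))) (XT.nd (nat_lit 78) (nat_lit 0) (nat_lit 0) (XT.lf (nat_lit 0) (nat_lit 355451166434) (nat_lit 76) (nat_lit 491122301913) (nat_lit 76) (nat_lit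 490421107979) (nat_lit 1) (nat_lit 4) (nat_lit 2) (nat_lit 5) (nat_lit 2) (nat_lit 4) (nat_lit 270) (nat_lit 203) (nat_lit 187)) (XT.nd (nat_lit 78) (nat_lit 0) (nat_lit 0) (XT.lf (nat_lit 0) (nat_lit 410319050394) (nat_lit 76) (nat_lit 563908769015) (nat_lit 76) (nat_lit 563196631766) (nat_lit 1) (nat_lit 4) (nat_lit 2) (nat_lit 5) (nat_lit 2) (nat_lit 4) (nat_lit 271) (nat_lit 203) (nat_lit 186)) (XT.lf (nat_lit 0) (nat_lit 473383446152) (nat_lit 76) (nat_lit 647629802871) (nat_lit 76) (nat_lit 646908149696) (nat_lit 1) (nat_lit 4) (nat_lit 2) (nat_lit 5) (nat_lit 2) (nat_lit 4) (nat_lit 272) (nat_lit 203) (nat_lit 185))))))) (XT.nd (nat_lit 624) (nat_lit 0) (nat_lit 0) (XT.nd (nat_lit 312) (nat_lit 0) (nat_lit 0) (XT.nd (nat_lit 156) (nat_lit 0) (nat_lit 0) (XT.nd (nat_lit 78) (nat_lit 0) (nat_lit 0) (XT.lf (nat_lit 0) (nat_lit 545878222322) (nat_lit 76) (nat_lit 743923423708) (nat_lit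 76) (nat_lit 743193495814) (nat_lit 1) (nat_lit 4) (nat_lit 2) (nat_lit 5) (nat_lit 2) (nat_lit 4) (nat_lit 273) (nat_lit 203) (nat_lit 184)) (XT.lf (nat_lit 0) (nat_lit 629221754959) (nat_lit 76) (nat_lit 854673637151) (nat_lit 76) (nat_lit 853936513850) (nat_lit 1) (nat_lit 4) (nat_lit 2) (nat_lit 5) (nat_lit 2) (nat_lit 4) (nat_lit 274) (nat_lit 203) (nat_lit 183))) (XT.nd (nat_lit 78) (nat_lit 0) (nat_lit 0) (XT.lf (nat_lit 0) (nat_lit 725044678398) (nat_lit 76) (nat_lit 982047295202) (nat_lit 76) (nat_lit 981303915025) (nat_lit 1) (nat_lit 4) (nat_lit 2) (nat_lit 5) (nat_lit 2) (nat_lit 4) (nat_lit 275) (nat_lit 203) (nat_lit 182)) (XT.lf (nat_lit 0) (nat_lit 835221788966) (nat_lit 76) (nat_lit 1128536491171) (nat_lit 76) (nat_lit 1127787670233) (nat_lit 1) (nat_lit 4) (nat_lit 2) (nat_lit 5) (nat_lit 2) (nat_lit 4) (nat_lit 276) (nat_lit 203) (nat_lit 181)))) (XT.nd (nat_lit 156)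 (nat_lit 0) (nat_lit 0) (XT.nd (nat_lit 78) (nat_lit 0) (nat_lit 0) (XT.lf (nat_lit 0) (nat_lit 961908725784) (nat_lit 76) (nat_lit 1297007318023) (nat_lit 76) (nat_lit 1296253765988) (nat_lit 1) (nat_lit 4) (nat_lit 2) (nat_lit 5) (nat_lit 2) (nat_lit 4) (nat_lit 277) (nat_lit 203) (nat_lit 180)) (XT.lf (nat_lit 0) (nat_lit 1107584146310) (nat_lit 76) (nat_lit 1490755944109) (nat_lit 76) (nat_lit 1489998278076) (nat_lit 1) (nat_lit 4) (nat_lit 2) (nat_lit 5) (nat_lit 2) (nat_lit 4) (nat_lit 278) (nat_lit 203) (nat_lit 179))) (XT.nd (nat_lit 78) (nat_lit 0) (nat_lit 0) (XT.lf (nat_lit 0) (nat_lit 1275098221817) (nat_lit 76) (nat_lit 1713573103418) (nat_lit 76) (nat_lit 1712811859996) (nat_lit 1) (nat_lit 4) (nat_lit 2) (nat_lit 5) (nat_lit 2) (nat_lit 4) (nat_lit 279) (nat_lit 203) (nat_lit 178)) (XT.lf (nat_lit 0) (nat_lit 1467728401607) (nat_lit 76) (nat_lit 1969818262110) (nat_lit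 76) (nat_lit 1969053907915) (nat_lit 1) (nat_lit 4) (nat_lit 2) (nat_lit 5) (nat_lit 2) (nat_lit 4) (nat_lit 280) (nat_lit 203) (nat_lit 177))))) (XT.nd (nat_lit 312) (nat_lit 0) (nat_lit 0) (XT.nd (nat_lit 156) (nat_lit 0) (nat_lit 0) (XT.nd (nat_lit 78) (nat_lit 0) (nat_lit 0) (XT.lf (nat_lit 0) (nat_lit 1689243537023) (nat_lit 76) (nat_lit 2264504912421) (nat_lit 76) (nat_lit 2263737853205) (nat_lit 1) (nat_lit 4) (nat_lit 2) (nat_lit 5) (nat_lit 2) (nat_lit 4) (nat_lit 281) (nat_lit 203) (nat_lit 176)) (XT.lf (nat_lit 0) (nat_lit 1943977619847) (nat_lit 76) (nat_lit 2603398662725) (nat_lit 76) (nat_lit 2602629251318) (nat_lit 1) (nat_lit 4) (nat_lit 2) (nat_lit 5) (nat_lit 2) (nat_lit 4) (nat_lit 282) (nat_lit 203) (nat_lit 175))) (XT.nd (nat_lit 78) (nat_lit 0) (nat_lit 0) (XT.lf (nat_lit 0) (nat_lit 2236914577786) (nat_lit 76) (nat_lit 2993130042921) (nat_lit 76) (nat_lit 2992358586130)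 (nat_lit 1) (nat_lit 4) (nat_lit 2) (nat_lit 5) (nat_lit 2) (nat_lit 4) (nat_lit 283) (nat_lit 203) (nat_lit 174)) (XT.lf (nat_lit 0) (nat_lit 2573785786102) (nat_lit 76) (nat_lit 3441324232185) (nat_lit 76) (nat_lit 3440550996800) (nat_lit 1) (nat_lit 4) (nat_lit 2) (nat_lit 5) (nat_lit 2) (nat_lit 4) (nat_lit 284) (nat_lit 203) (nat_lit 173)))) (XT.nd (nat_lit 156) (nat_lit 0) (nat_lit 0) (XT.nd (nat_lit 78) (nat_lit 0) (nat_lit 0) (XT.lf (nat_lit 0) (nat_lit 2961182203221) (nat_lit 76) (nat_lit 3956750247265) (nat_lit 76) (nat_lit 3955975465276) (nat_lit 1) (nat_lit 4) (nat_lit 2) (nat_lit 5) (nat_lit 2) (nat_lit 4) (nat_lit 285) (nat_lit 203) (nat_lit 172)) (XT.lf (nat_lit 0) (nat_lit 3406683324259) (nat_lit 76) (nat_lit 4549492510195) (nat_lit 76) (nat_lit 4548716383333) (nat_lit 1) (nat_lit 4) (nat_lit 2) (nat_lit 5) (nat_lit 2) (nat_lit 4) (nat_lit 286) (nat_lit 203) (nat_lit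 171))) (XT.nd (nat_lit 78) (nat_lit 0) (nat_lit 0) (XT.lf (nat_lit 0) (nat_lit 3919005475498) (nat_lit 76) (nat_lit 5231148152206) (nat_lit 76) (nat_lit 5230370855889) (nat_lit 1) (nat_lit 4) (nat_lit 2) (nat_lit 5) (nat_lit 2) (nat_lit 4) (nat_lit 287) (nat_lit 203) (nat_lit 170)) (XT.nd (nat_lit 78) (nat_lit 0) (nat_lit 0) (XT.lf (nat_lit 0) (nat_lit 4508172351201) (nat_lit 76) (nat_lit 6015053914120) (nat_lit 76) (nat_lit 6014275600885) (nat_lit 1) (nat_lit 4) (nat_lit 2) (nat_lit 5) (nat_lit 2) (nat_lit 4) (nat_lit 288) (nat_lit 203) (nat_lit 169)) (XT.lf (nat_lit 0) (nat_lit 5185711129371) (nat_lit 76) (nat_lit 6916547082583) (nat_lit 76) (nat_lit 6915767885072) (nat_lit 1) (nat_lit 4) (nat_lit 2) (nat_lit 5) (nat_lit 2) (nat_lit 4) (nat_lit 289) (nat_lit 203) (nat_lit 168))))))))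
noncomputable def xc18 : XT := (XT.nd (nat_lit 31746) (nat_lit 0) (nat_lit 0) (XT.nd (nat_lit 624) (nat_lit 0) (nat_lit 0) (XT.nd (nat_lit 312) (nat_lit 0) (nat_lit 0) (XT.nd (nat_lit 156) (nat_lit 0) (nat_lit 0) (XT.nd (nat_lit 78) (nat_lit 0) (nat_lit 0) (XT.lf (nat_lit 0) (nat_lit 5964878003494) (nat_lit 76) (nat_lit 7953265567412) (nat_lit 76) (nat_lit 7952485600966) (nat_lit 1) (nat_lit 4) (nat_lit 2) (nat_lit 5) (nat_lit 2) (nat_lit 4) (nat_lit 290) (nat_lit 203) (nat_lit 167)) (XT.lf (nat_lit 0) (nat_lit 6860917542846) (nat_lit 76) (nat_lit 9145492991138) (nat_lit 76) (nat_lit 9144712356052) (nat_lit 1) (nat_lit 4) (nat_lit 2) (nat_lit 5) (nat_lit 2) (nat_lit 4) (nat_lit 291) (nat_lit 203) (nat_lit 166))) (XT.nd (nat_lit 78) (nat_lit 0) (nat_lit 0) (XT.lf (nat_lit 0) (nat_lit 7891360955806) (nat_lit 76) (nat_lit 10516555542485) (nat_lit 76) (nat_lit 10515774325973) (nat_lit 1)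 (nat_lit 4) (nat_lit 2) (nat_lit 5) (nat_lit 2) (nat_lit 4) (nat_lit 292) (nat_lit 203) (nat_lit 165)) (XT.lf (nat_lit 0) (nat_lit 9076369091758) (nat_lit 76) (nat_lit 12093278358327) (nat_lit 76) (nat_lit 12092496636228) (nat_lit 1) (nat_lit 4) (nat_lit 2) (nat_lit 5) (nat_lit 2) (nat_lit 4) (nat_lit 293) (nat_lit 203) (nat_lit 164)))) (XT.nd (nat_lit 156) (nat_lit 0) (nat_lit 0) (XT.nd (nat_lit 78) (nat_lit 0) (nat_lit 0) (XT.lf (nat_lit 0) (nat_lit 10439126892492) (nat_lit 76) (nat_lit 13906510363322) (nat_lit 76) (nat_lit 13905728201581) (nat_lit 1) (nat_lit 4) (nat_lit 2) (nat_lit 5) (nat_lit 2) (nat_lit 4) (nat_lit 294) (nat_lit 203) (nat_lit 163)) (XT.lf (nat_lit 0) (nat_lit 12006297010632) (nat_lit 76) (nat_lit 15991727835829) (nat_lit 76) (nat_lit 15990945291791) (nat_lit 1) (nat_lit 4) (nat_lit 2) (nat_lit 5) (nat_lit 2) (nat_lit 4) (nat_lit 295) (nat_lit 203) (nat_lit 162)))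 (XT.nd (nat_lit 78) (nat_lit 0) (nat_lit 0) (XT.lf (nat_lit 0) (nat_lit 13808541470227) (nat_lit 76) (nat_lit 18389728509005) (nat_lit 76) (nat_lit 18388945632535) (nat_lit 1) (nat_lit 4) (nat_lit 2) (nat_lit 5) (nat_lit 2) (nat_lit 4) (nat_lit 296) (nat_lit 203) (nat_lit 161)) (XT.lf (nat_lit 0) (nat_lit 15881121575922) (nat_lit 76) (nat_lit 21147429787325) (nat_lit 76) (nat_lit 21146646621785) (nat_lit 1) (nat_lit 4) (nat_lit 2) (nat_lit 5) (nat_lit 2) (nat_lit 4) (nat_lit 297) (nat_lit 203) (nat_lit 160))))) (XT.nd (nat_lit 780) (nat_lit 0) (nat_lit 0) (XT.nd (nat_lit 156) (nat_lit 0) (nat_lit 0) (XT.nd (nat_lit 78) (nat_lit 0) (nat_lit 0) (XT.lf (nat_lit 0) (nat_lit 18264587808047) (nat_lit 76) (nat_lit 24318786695801) (nat_lit 76) (nat_lit 24318003278894) (nat_lit 1) (nat_lit 4) (nat_lit 2) (nat_lit 5) (nat_lit 2) (nat_lit 4) (nat_lit 298) (nat_lit 203) (nat_lit 159)) (XT.lf (nat_lit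 0) (nat_lit 21005573201576) (nat_lit 76) (nat_lit 27965847521772) (nat_lit 76) (nat_lit 27965063886286) (nat_lit 1) (nat_lit 4) (nat_lit 2) (nat_lit 5) (nat_lit 2) (nat_lit 4) (nat_lit 299) (nat_lit 203) (nat_lit 158))) (XT.nd (nat_lit 78) (nat_lit 0) (nat_lit 0) (XT.lf (nat_lit 0) (nat_lit 24157705731602) (nat_lit 76) (nat_lit 32159967803138) (nat_lit 76) (nat_lit 32159183977582) (nat_lit 1) (nat_lit 4) (nat_lit 2) (nat_lit 5) (nat_lit 2) (nat_lit 4) (nat_lit 300) (nat_lit 203) (nat_lit 157)) (XT.lf (nat_lit 0) (nat_lit 27782657556320) (nat_lit 76) (nat_lit 36983206414968) (nat_lit 76) (nat_lit 36982422424135) (nat_lit 1) (nat_lit 4) (nat_lit 2) (nat_lit 5) (nat_lit 2) (nat_lit 4) (nat_lit 301) (nat_lit 203) (nat_lit 156)))) (XT.nd (nat_lit 30108) (nat_lit 0) (nat_lit 0) (XT.nd (nat_lit 30030) (nat_lit 0) (nat_lit 0) (XT.lf (nat_lit 0) (nat_lit 73916748082200) (nat_lit 76) (nat_lit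 98367699281626) (nat_lit 76) (nat_lit 98366914603169) (nat_lit 1) (nat_lit 4) (nat_lit 2) (nat_lit 5) (nat_lit 2) (nat_lit 4) (nat_lit 308) (nat_lit 203) (nat_lit 149)) (XT.lf (nat_lit 0) (nat_lit 4840505235) (nat_lit 76) (nat_lit 24955125795) (nat_lit 76) (nat_lit 24955125795) (nat_lit 1) (nat_lit 4) (nat_lit 2) (nat_lit 5) (nat_lit 2) (nat_lit 4) (nat_lit 252) (nat_lit 204) (nat_lit 204))) (XT.nd (nat_lit 78) (nat_lit 0) (nat_lit 0) (XT.lf (nat_lit 0) (nat_lit 15396980612) (nat_lit 76) (nat_lit 55159679920) (nat_lit 76) (nat_lit 55041916018) (nat_lit 1) (nat_lit 4) (nat_lit 2) (nat_lit 5) (nat_lit 2) (nat_lit 4) (nat_lit 253) (nat_lit 204) (nat_lit 203)) (XT.nd (nat_lit 78) (nat_lit 0) (nat_lit 0) (XT.lf (nat_lit 0) (nat_lit 21608005960) (nat_lit 76) (nat_lit 61375123842) (nat_lit 76) (nat_lit 61154956546) (nat_lit 1) (nat_lit 4) (nat_lit 2) (nat_lit 5) (nat_lit 2) (nat_lit 4) (nat_lit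 254) (nat_lit 204) (nat_lit 202)) (XT.lf (nat_lit 0) (nat_lit 28435606578) (nat_lit 76) (nat_lit 68678189868) (nat_lit 76) (nat_lit 68368976143) (nat_lit 1) (nat_lit 4) (nat_lit 2) (nat_lit 5) (nat_lit 2) (nat_lit 4) (nat_lit 255) (nat_lit 204) (nat_lit 201))))))) (XT.nd (nat_lit 624) (nat_lit 0) (nat_lit 0) (XT.nd (nat_lit 312) (nat_lit 0) (nat_lit 0) (XT.nd (nat_lit 156) (nat_lit 0) (nat_lit 0) (XT.nd (nat_lit 78) (nat_lit 0) (nat_lit 0) (XT.lf (nat_lit 0) (nat_lit 36013365954) (nat_lit 76) (nat_lit 77211764073) (nat_lit 76) (nat_lit 76825118671) (nat_lit 1) (nat_lit 4) (nat_lit 2) (nat_lit 5) (nat_lit 2) (nat_lit 4) (nat_lit 256) (nat_lit 204) (nat_lit 200)) (XT.lf (nat_lit 0) (nat_lit 44489544600) (nat_lit 76) (nat_lit 87142807691) (nat_lit 76) (nat_lit 86688830395) (nat_lit 1) (nat_lit 4) (nat_lit 2) (nat_lit 5) (nat_lit 2) (nat_lit 4) (nat_lit 257) (nat_lit 204) (nat_lit 199)))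 (XT.nd (nat_lit 78) (nat_lit 0) (nat_lit 0) (XT.lf (nat_lit 0) (nat_lit 54029980792) (nat_lit 76) (nat_lit 98665623749) (nat_lit 76) (nat_lit 98153096981) (nat_lit 1) (nat_lit 4) (nat_lit 2) (nat_lit 5) (nat_lit 2) (nat_lit 4) (nat_lit 258) (nat_lit 204) (nat_lit 198)) (XT.lf (nat_lit 0) (nat_lit 64821335240) (nat_lit 76) (nat_lit 112005658648) (nat_lit 76) (nat_lit 111442219295) (nat_lit 1) (nat_lit 4) (nat_lit 2) (nat_lit 5) (nat_lit 2) (nat_lit 4) (nat_lit 259) (nat_lit 204) (nat_lit 197)))) (XT.nd (nat_lit 156) (nat_lit 0) (nat_lit 0) (XT.nd (nat_lit 78) (nat_lit 0) (nat_lit 0) (XT.lf (nat_lit 0) (nat_lit 77074743138) (nat_lit 76) (nat_lit 127423913072) (nat_lit 76) (nat_lit 126816201906) (nat_lit 1) (nat_lit 4) (nat_lit 2) (nat_lit 5) (nat_lit 2) (nat_lit 4) (nat_lit 260) (nat_lit 204) (nat_lit 196)) (XT.lf (nat_lit 0) (nat_lit 91029945075) (nat_lit 76) (nat_lit 145222048519) (nat_lit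 76) (nat_lit 144575840124) (nat_lit 1) (nat_lit 4) (nat_lit 2) (nat_lit 5) (nat_lit 2) (nat_lit 4) (nat_lit 261) (nat_lit 204) (nat_lit 195))) (XT.nd (nat_lit 78) (nat_lit 0) (nat_lit 0) (XT.lf (nat_lit 0) (nat_lit 106959977613) (nat_lit 76) (nat_lit 165748289379) (nat_lit 76) (nat_lit 165068605134) (nat_lit 1) (nat_lit 4) (nat_lit 2) (nat_lit 5) (nat_lit 2) (nat_lit 4) (nat_lit 262) (nat_lit 204) (nat_lit 194)) (XT.lf (nat_lit 0) (nat_lit 125176515299) (nat_lit 76) (nat_lit 189404236017) (nat_lit 76) (nat_lit 188695442336) (nat_lit 1) (nat_lit 4) (nat_lit 2) (nat_lit 5) (nat_lit 2) (nat_lit 4) (nat_lit 263) (nat_lit 204) (nat_lit 193))))) (XT.nd (nat_lit 312) (nat_lit 0) (nat_lit 0) (XT.nd (nat_lit 156) (nat_lit 0) (nat_lit 0) (XT.nd (nat_lit 78) (nat_lit 0) (nat_lit 0) (XT.lf (nat_lit 0) (nat_lit 146035968655) (nat_lit 76) (nat_lit 216652722171) (nat_lit 76) (nat_lit 215918615937)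 (nat_lit 1) (nat_lit 4) (nat_lit 2) (nat_lit 5) (nat_lit 2) (nat_lit 4) (nat_lit 264) (nat_lit 204) (nat_lit 192)) (XT.lf (nat_lit 0) (nat_lit 169946457419) (nat_lit 76) (nat_lit 248026870397) (nat_lit 76) (nat_lit 247270753247) (nat_lit 1) (nat_lit 4) (nat_lit 2) (nat_lit 5) (nat_lit 2) (nat_lit 4) (nat_lit 265) (nat_lit 204) (nat_lit 191))) (XT.nd (nat_lit 78) (nat_lit 0) (nat_lit 0) (XT.lf (nat_lit 0) (nat_lit 197375795502) (nat_lit 76) (nat_lit 284140522724) (nat_lit 76) (nat_lit 283365265648) (nat_lit 1) (nat_lit 4) (nat_lit 2) (nat_lit 5) (nat_lit 2) (nat_lit 4) (nat_lit 266) (nat_lit 204) (nat_lit 190)) (XT.lf (nat_lit 0) (nat_lit 228860643867) (nat_lit 76) (nat_lit 325700250612) (nat_lit 76) (nat_lit 324908350122) (nat_lit 1) (nat_lit 4) (nat_lit 2) (nat_lit 5) (nat_lit 2) (nat_lit 4) (nat_lit 267) (nat_lit 204) (nat_lit 189)))) (XT.nd (nat_lit 156) (nat_lit 0) (nat_lit 0) (XT.nd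 (nat_lit 78) (nat_lit 0) (nat_lit 0) (XT.lf (nat_lit 0) (nat_lit 265017010417) (nat_lit 76) (nat_lit 373519179171) (nat_lit 76) (nat_lit 372712806147) (nat_lit 1) (nat_lit 4) (nat_lit 2) (nat_lit 5) (nat_lit 2) (nat_lit 4) (nat_lit 268) (nat_lit 204) (nat_lit 188)) (XT.lf (nat_lit 0) (nat_lit 306552302323) (nat_lit 76) (nat_lit 428532896134) (nat_lit 76) (nat_lit 427713938298) (nat_lit 1) (nat_lit 4) (nat_lit 2) (nat_lit 5) (nat_lit 2) (nat_lit 4) (nat_lit 269) (nat_lit 204) (nat_lit 187))) (XT.nd (nat_lit 78) (nat_lit 0) (nat_lit 0) (XT.lf (nat_lit 0) (nat_lit 354279166601) (nat_lit 76) (nat_lit 491817756833) (nat_lit 76) (nat_lit 490987855682) (nat_lit 1) (nat_lit 4) (nat_lit 2) (nat_lit 5) (nat_lit 2) (nat_lit 4) (nat_lit 270) (nat_lit 204) (nat_lit 186)) (XT.nd (nat_lit 78) (nat_lit 0) (nat_lit 0) (XT.lf (nat_lit 0) (nat_lit 409131389726) (nat_lit 76) (nat_lit 564611943325) (nat_lit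 76) (nat_lit 563772526247) (nat_lit 1) (nat_lit 4) (nat_lit 2) (nat_lit 5) (nat_lit 2) (nat_lit 4) (nat_lit 271) (nat_lit 204) (nat_lit 185)) (XT.lf (nat_lit 0) (nat_lit 472182167367) (nat_lit 76) (nat_lit 648339689694) (nat_lit 76) (nat_lit 647491997898) (nat_lit 1) (nat_lit 4) (nat_lit 2) (nat_lit 5) (nat_lit 2) (nat_lit 4) (nat_lit 272) (nat_lit 204) (nat_lit 184))))))))
noncomputable def xc19 : XT := (XT.nd (nat_lit 1326) (nat_lit 0) (nat_lit 0) (XT.nd (nat_lit 624) (nat_lit 0) (nat_lit 0) (XT.nd (nat_lit 312) (nat_lit 0) (nat_lit 0) (XT.nd (nat_lit 156) (nat_lit 0) (nat_lit 0) (XT.nd (nat_lit 78) (nat_lit 0) (nat_lit 0) (XT.lf (nat_lit 0) (nat_lit 544665101696) (nat_lit 76) (nat_lit 744639147498) (nat_lit 76) (nat_lit 743784260295) (nat_lit 1) (nat_lit 4) (nat_lit 2) (nat_lit 5) (nat_lit 2) (nat_lit 4) (nat_lit 273) (nat_lit 204) (nat_lit 183)) (XT.lf (nat_lit 0) (nat_lit 627998337080)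 (nat_lit 76) (nat_lit 855394436565) (nat_lit 76) (nat_lit 854533292486) (nat_lit 1) (nat_lit 4) (nat_lit 2) (nat_lit 5) (nat_lit 2) (nat_lit 4) (nat_lit 274) (nat_lit 204) (nat_lit 182))) (XT.nd (nat_lit 78) (nat_lit 0) (nat_lit 0) (XT.lf (nat_lit 0) (nat_lit 723812306386) (nat_lit 76) (nat_lit 982772508203) (nat_lit 76) (nat_lit 981905923362) (nat_lit 1) (nat_lit 4) (nat_lit 2) (nat_lit 5) (nat_lit 2) (nat_lit 4) (nat_lit 275) (nat_lit 204) (nat_lit 181)) (XT.lf (nat_lit 0) (nat_lit 833981630751) (nat_lit 76) (nat_lit 1129265542073) (nat_lit 76) (nat_lit 1128394226135) (nat_lit 1) (nat_lit 4) (nat_lit 2) (nat_lit 5) (nat_lit 2) (nat_lit 4) (nat_lit 276) (nat_lit 204) (nat_lit 180)))) (XT.nd (nat_lit 156) (nat_lit 0) (nat_lit 0) (XT.nd (nat_lit 78) (nat_lit 0) (nat_lit 0) (XT.lf (nat_lit 0) (nat_lit 960661796958) (nat_lit 76) (nat_lit 1297739706231) (nat_lit 76) (nat_lit 1296864276295)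 (nat_lit 1) (nat_lit 4) (nat_lit 2) (nat_lit 5) (nat_lit 2) (nat_lit 4) (nat_lit 277) (nat_lit 204) (nat_lit 179)) (XT.lf (nat_lit 0) (nat_lit 1106331329996) (nat_lit 76) (nat_lit 1491491234321) (nat_lit 76) (nat_lit 1490612226996) (nat_lit 1) (nat_lit 4) (nat_lit 2) (nat_lit 5) (nat_lit 2) (nat_lit 4) (nat_lit 278) (nat_lit 204) (nat_lit 178))) (XT.nd (nat_lit 78) (nat_lit 0) (nat_lit 0) (XT.lf (nat_lit 0) (nat_lit 1273840285948) (nat_lit 76) (nat_lit 1714310917112) (nat_lit 76) (nat_lit 1713428799014) (nat_lit 1) (nat_lit 4) (nat_lit 2) (nat_lit 5) (nat_lit 2) (nat_lit 4) (nat_lit 279) (nat_lit 204) (nat_lit 177)) (XT.lf (nat_lit 0) (nat_lit 1466466013951) (nat_lit 76) (nat_lit 1970558270137) (nat_lit 76) (nat_lit 1969673447019) (nat_lit 1) (nat_lit 4) (nat_lit 2) (nat_lit 5) (nat_lit 2) (nat_lit 4) (nat_lit 280) (nat_lit 204) (nat_lit 176))))) (XT.nd (nat_lit 312) (nat_lit 0) (nat_lit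 0) (XT.nd (nat_lit 156) (nat_lit 0) (nat_lit 0) (XT.nd (nat_lit 78) (nat_lit 0) (nat_lit 0) (XT.lf (nat_lit 0) (nat_lit 1687977278249) (nat_lit 76) (nat_lit 2265246828562) (nat_lit 76) (nat_lit 2264359653253) (nat_lit 1) (nat_lit 4) (nat_lit 2) (nat_lit 5) (nat_lit 2) (nat_lit 4) (nat_lit 281) (nat_lit 204) (nat_lit 175)) (XT.lf (nat_lit 0) (nat_lit 1942707994883) (nat_lit 76) (nat_lit 2604142238097) (nat_lit 76) (nat_lit 2603253017404) (nat_lit 1) (nat_lit 4) (nat_lit 2) (nat_lit 5) (nat_lit 2) (nat_lit 4) (nat_lit 282) (nat_lit 204) (nat_lit 174))) (XT.nd (nat_lit 78) (nat_lit 0) (nat_lit 0) (XT.lf (nat_lit 0) (nat_lit 2235642025699) (nat_lit 76) (nat_lit 2993875061102) (nat_lit 76) (nat_lit 2992984061814) (nat_lit 1) (nat_lit 4) (nat_lit 2) (nat_lit 5) (nat_lit 2) (nat_lit 4) (nat_lit 283) (nat_lit 204) (nat_lit 173)) (XT.lf (nat_lit 0) (nat_lit 2572510688692) (nat_lit 76) (nat_lit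 3442070504983) (nat_lit 76) (nat_lit 3441177959091) (nat_lit 1) (nat_lit 4) (nat_lit 2) (nat_lit 5) (nat_lit 2) (nat_lit 4) (nat_lit 284) (nat_lit 204) (nat_lit 172)))) (XT.nd (nat_lit 156) (nat_lit 0) (nat_lit 0) (XT.nd (nat_lit 78) (nat_lit 0) (nat_lit 0) (XT.lf (nat_lit 0) (nat_lit 2959904892486) (nat_lit 76) (nat_lit 3957497611034) (nat_lit 76) (nat_lit 3956603720269) (nat_lit 1) (nat_lit 4) (nat_lit 2) (nat_lit 5) (nat_lit 2) (nat_lit 4) (nat_lit 285) (nat_lit 204) (nat_lit 171)) (XT.lf (nat_lit 0) (nat_lit 3405404088894) (nat_lit 76) (nat_lit 4550240822635) (nat_lit 76) (nat_lit 4549345762415) (nat_lit 1) (nat_lit 4) (nat_lit 2) (nat_lit 5) (nat_lit 2) (nat_lit 4) (nat_lit 286) (nat_lit 204) (nat_lit 170))) (XT.nd (nat_lit 78) (nat_lit 0) (nat_lit 0) (XT.lf (nat_lit 0) (nat_lit 3917724566541) (nat_lit 76) (nat_lit 5231897289576) (nat_lit 76) (nat_lit 5231001212439) (nat_lit 1)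 (nat_lit 4) (nat_lit 2) (nat_lit 5) (nat_lit 2) (nat_lit 4) (nat_lit 287) (nat_lit 204) (nat_lit 169)) (XT.nd (nat_lit 78) (nat_lit 0) (nat_lit 0) (XT.lf (nat_lit 0) (nat_lit 4506889986948) (nat_lit 76) (nat_lit 6015803768821) (nat_lit 76) (nat_lit 6014906807408) (nat_lit 1) (nat_lit 4) (nat_lit 2) (nat_lit 5) (nat_lit 2) (nat_lit 4) (nat_lit 288) (nat_lit 204) (nat_lit 168)) (XT.lf (nat_lit 0) (nat_lit 5184427499642) (nat_lit 76) (nat_lit 6917297561050) (nat_lit 76) (nat_lit 6916399830702) (nat_lit 1) (nat_lit 4) (nat_lit 2) (nat_lit 5) (nat_lit 2) (nat_lit 4) (nat_lit 289) (nat_lit 204) (nat_lit 167))))))) (XT.nd (nat_lit 624) (nat_lit 0) (nat_lit 0) (XT.nd (nat_lit 312) (nat_lit 0) (nat_lit 0) (XT.nd (nat_lit 156) (nat_lit 0) (nat_lit 0) (XT.nd (nat_lit 78) (nat_lit 0) (nat_lit 0) (XT.lf (nat_lit 0) (nat_lit 5963593273351) (nat_lit 76) (nat_lit 7954016588285) (nat_lit 76) (nat_lit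 7953118189297) (nat_lit 1) (nat_lit 4) (nat_lit 2) (nat_lit 5) (nat_lit 2) (nat_lit 4) (nat_lit 290) (nat_lit 204) (nat_lit 166)) (XT.lf (nat_lit 0) (nat_lit 6859631855822) (nat_lit 76) (nat_lit 9146244483668) (nat_lit 76) (nat_lit 9145345503254) (nat_lit 1) (nat_lit 4) (nat_lit 2) (nat_lit 5) (nat_lit 2) (nat_lit 4) (nat_lit 291) (nat_lit 204) (nat_lit 165))) (XT.nd (nat_lit 78) (nat_lit 0) (nat_lit 0) (XT.lf (nat_lit 0) (nat_lit 7890074436711) (nat_lit 76) (nat_lit 10517307445151) (nat_lit 76) (nat_lit 10516407959149) (nat_lit 1) (nat_lit 4) (nat_lit 2) (nat_lit 5) (nat_lit 2) (nat_lit 4) (nat_lit 292) (nat_lit 204) (nat_lit 164)) (XT.lf (nat_lit 0) (nat_lit 9075081849124) (nat_lit 76) (nat_lit 12094030617633) (nat_lit 76) (nat_lit 12093130691990) (nat_lit 1) (nat_lit 4) (nat_lit 2) (nat_lit 5) (nat_lit 2) (nat_lit 4) (nat_lit 293) (nat_lit 204) (nat_lit 163)))) (XT.nd (nat_lit 156)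 (nat_lit 0) (nat_lit 0) (XT.nd (nat_lit 78) (nat_lit 0) (nat_lit 0) (XT.lf (nat_lit 0) (nat_lit 10437839020693) (nat_lit 76) (nat_lit 13907262932750) (nat_lit 76) (nat_lit 13906362624811) (nat_lit 1) (nat_lit 4) (nat_lit 2) (nat_lit 5) (nat_lit 2) (nat_lit 4) (nat_lit 294) (nat_lit 204) (nat_lit 162)) (XT.lf (nat_lit 0) (nat_lit 12005008591732) (nat_lit 76) (nat_lit 15992480674928) (nat_lit 76) (nat_lit 15991580034557) (nat_lit 1) (nat_lit 4) (nat_lit 2) (nat_lit 5) (nat_lit 2) (nat_lit 4) (nat_lit 295) (nat_lit 204) (nat_lit 161))) (XT.nd (nat_lit 78) (nat_lit 0) (nat_lit 0) (XT.lf (nat_lit 0) (nat_lit 13807252575588) (nat_lit 76) (nat_lit 18390481582601) (nat_lit 76) (nat_lit 18389580653158) (nat_lit 1) (nat_lit 4) (nat_lit 2) (nat_lit 5) (nat_lit 2) (nat_lit 4) (nat_lit 296) (nat_lit 204) (nat_lit 160)) (XT.lf (nat_lit 0) (nat_lit 15879832267597) (nat_lit 76) (nat_lit 21148183064832)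 (nat_lit 76) (nat_lit 21147281884023) (nat_lit 1) (nat_lit 4) (nat_lit 2) (nat_lit 5) (nat_lit 2) (nat_lit 4) (nat_lit 297) (nat_lit 204) (nat_lit 159))))) (XT.nd (nat_lit 780) (nat_lit 0) (nat_lit 0) (XT.nd (nat_lit 624) (nat_lit 0) (nat_lit 0) (XT.nd (nat_lit 78) (nat_lit 0) (nat_lit 0) (XT.lf (nat_lit 0) (nat_lit 18263298139994) (nat_lit 76) (nat_lit 24319540150622) (nat_lit 76) (nat_lit 24318638751233) (nat_lit 1) (nat_lit 4) (nat_lit 2) (nat_lit 5) (nat_lit 2) (nat_lit 4) (nat_lit 298) (nat_lit 204) (nat_lit 158)) (XT.lf (nat_lit 0) (nat_lit 21004283220718) (nat_lit 76) (nat_lit 27966601130778) (nat_lit 76) (nat_lit 27965699541320) (nat_lit 1) (nat_lit 4) (nat_lit 2) (nat_lit 5) (nat_lit 2) (nat_lit 4) (nat_lit 299) (nat_lit 204) (nat_lit 157))) (XT.nd (nat_lit 78) (nat_lit 0) (nat_lit 0) (XT.lf (nat_lit 0) (nat_lit 55888286589760) (nat_lit 76) (nat_lit 74382095217492) (nat_lit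 76) (nat_lit 74381192837267) (nat_lit 1) (nat_lit 4) (nat_lit 2) (nat_lit 5) (nat_lit 2) (nat_lit 4) (nat_lit 306) (nat_lit 204) (nat_lit 150)) (XT.lf (nat_lit 0) (nat_lit 64273016920075) (nat_lit 76) (nat_lit 85538540945220) (nat_lit 76) (nat_lit 85537638502861) (nat_lit 1) (nat_lit 4) (nat_lit 2) (nat_lit 5) (nat_lit 2) (nat_lit 4) (nat_lit 307) (nat_lit 204) (nat_lit 149)))) (XT.nd (nat_lit 29874) (nat_lit 0) (nat_lit 0) (XT.nd (nat_lit 78) (nat_lit 0) (nat_lit 0) (XT.lf (nat_lit 0) (nat_lit 73915456608761) (nat_lit 76) (nat_lit 98368453626341) (nat_lit 76) (nat_lit 98367551129952) (nat_lit 1) (nat_lit 4) (nat_lit 2) (nat_lit 5) (nat_lit 2) (nat_lit 4) (nat_lit 308) (nat_lit 204) (nat_lit 148)) (XT.lf (nat_lit 0) (nat_lit 85004262084509) (nat_lit 76) (nat_lit 113122853291571) (nat_lit 76) (nat_lit 113121950748200) (nat_lit 1) (nat_lit 4) (nat_lit 2) (nat_lit 5) (nat_lit 2) (nat_lit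 4) (nat_lit 309) (nat_lit 204) (nat_lit 147))) (XT.nd (nat_lit 78) (nat_lit 76) (nat_lit 0) (XT.lf (nat_lit 0) (nat_lit 20739171169) (nat_lit 152) (nat_lit 219873261) (nat_lit 0) (nat_lit 20739171169) (nat_lit 2) (nat_lit 5) (nat_lit 4) (nat_lit 4) (nat_lit 2) (nat_lit 4) (nat_lit 250) (nat_lit 205) (nat_lit 205)) (XT.nd (nat_lit 78) (nat_lit 0) (nat_lit 0) (XT.lf (nat_lit 0) (nat_lit 4348261340) (nat_lit 76) (nat_lit 45659561135) (nat_lit 76) (nat_lit 45524132647) (nat_lit 1) (nat_lit 4) (nat_lit 2) (nat_lit 5) (nat_lit 2) (nat_lit 4) (nat_lit 251) (nat_lit 205) (nat_lit 204)) (XT.lf (nat_lit 0) (nat_lit 9487200536) (nat_lit 76) (nat_lit 50141211029) (nat_lit 76) (nat_lit 49888018639) (nat_lit 1) (nat_lit 4) (nat_lit 2) (nat_lit 5) (nat_lit 2) (nat_lit 4) (nat_lit 252) (nat_lit 205) (nat_lit 203))))))))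
noncomputable def xc20 : XT := (XT.nd (nat_lit 1326) (nat_lit 0) (nat_lit 0) (XT.nd (nat_lit 624) (nat_lit 0) (nat_lit 0) (XT.nd (nat_lit 312) (nat_lit 0) (nat_lit 0) (XT.nd (nat_lit 156) (nat_lit 0) (nat_lit 0) (XT.nd (nat_lit 78) (nat_lit 0) (nat_lit 0) (XT.lf (nat_lit 0) (nat_lit 15034640298) (nat_lit 76) (nat_lit 55473709751) (nat_lit 76) (nat_lit 55118113967) (nat_lit 1) (nat_lit 4) (nat_lit 2) (nat_lit 5) (nat_lit 2) (nat_lit 4) (nat_lit 253) (nat_lit 205) (nat_lit 202)) (XT.lf (nat_lit 0) (nat_lit 21099117492) (nat_lit 76) (nat_lit 61761388797) (nat_lit 76) (nat_lit 61316746584) (nat_lit 1) (nat_lit 4) (nat_lit 2) (nat_lit 5) (nat_lit 2) (nat_lit 4) (nat_lit 254) (nat_lit 205) (nat_lit 201))) (XT.nd (nat_lit 78) (nat_lit 0) (nat_lit 0) (XT.lf (nat_lit 0) (nat_lit 27799284931) (nat_lit 76) (nat_lit 69127267974) (nat_lit 76) (nat_lit 68605194084) (nat_lit 1) (nat_lit 4) (nat_lit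 2) (nat_lit 5) (nat_lit 2) (nat_lit 4) (nat_lit 255) (nat_lit 205) (nat_lit 200)) (XT.lf (nat_lit 0) (nat_lit 35266232848) (nat_lit 76) (nat_lit 77715462310) (nat_lit 76) (nat_lit 77126056526) (nat_lit 1) (nat_lit 4) (nat_lit 2) (nat_lit 5) (nat_lit 2) (nat_lit 4) (nat_lit 256) (nat_lit 205) (nat_lit 199)))) (XT.nd (nat_lit 156) (nat_lit 0) (nat_lit 0) (XT.nd (nat_lit 78) (nat_lit 0) (nat_lit 0) (XT.lf (nat_lit 0) (nat_lit 43646053703) (nat_lit 76) (nat_lit 87694001694) (nat_lit 76) (nat_lit 87046046438) (nat_lit 1) (nat_lit 4) (nat_lit 2) (nat_lit 5) (nat_lit 2) (nat_lit 4) (nat_lit 257) (nat_lit 205) (nat_lit 198)) (XT.lf (nat_lit 0) (nat_lit 53102700513) (nat_lit 76) (nat_lit 99258118418) (nat_lit 76) (nat_lit 98559250577) (nat_lit 1) (nat_lit 4) (nat_lit 2) (nat_lit 5) (nat_lit 2) (nat_lit 4) (nat_lit 258) (nat_lit 205) (nat_lit 197))) (XT.nd (nat_lit 78) (nat_lit 0) (nat_lit 0)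 (XT.lf (nat_lit 0) (nat_lit 63821194627) (nat_lit 76) (nat_lit 112634066941) (nat_lit 76) (nat_lit 111890927287) (nat_lit 1) (nat_lit 4) (nat_lit 2) (nat_lit 5) (nat_lit 2) (nat_lit 4) (nat_lit 259) (nat_lit 205) (nat_lit 196)) (XT.lf (nat_lit 0) (nat_lit 76011245713) (nat_lit 76) (nat_lit 128083550601) (nat_lit 76) (nat_lit 127301913719) (nat_lit 1) (nat_lit 4) (nat_lit 2) (nat_lit 5) (nat_lit 2) (nat_lit 4) (nat_lit 260) (nat_lit 205) (nat_lit 195))))) (XT.nd (nat_lit 312) (nat_lit 0) (nat_lit 0) (XT.nd (nat_lit 156) (nat_lit 0) (nat_lit 0) (XT.nd (nat_lit 78) (nat_lit 0) (nat_lit 0) (XT.lf (nat_lit 0) (nat_lit 89911354771) (nat_lit 76) (nat_lit 145908841907) (nat_lit 76) (nat_lit 145093729174) (nat_lit 1) (nat_lit 4) (nat_lit 2) (nat_lit 5) (nat_lit 2) (nat_lit 4) (nat_lit 261) (nat_lit 205) (nat_lit 194)) (XT.lf (nat_lit 0) (nat_lit 105793480456) (nat_lit 76) (nat_lit 166458696558)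 (nat_lit 76) (nat_lit 165614474389) (nat_lit 1) (nat_lit 4) (nat_lit 2) (nat_lit 5) (nat_lit 2) (nat_lit 4) (nat_lit 262) (nat_lit 205) (nat_lit 193))) (XT.nd (nat_lit 78) (nat_lit 0) (nat_lit 0) (XT.lf (nat_lit 0) (nat_lit 123968360011) (nat_lit 76) (nat_lit 190135176926) (nat_lit 76) (nat_lit 189265642204) (nat_lit 1) (nat_lit 4) (nat_lit 2) (nat_lit 5) (nat_lit 2) (nat_lit 4) (nat_lit 263) (nat_lit 205) (nat_lit 192)) (XT.lf (nat_lit 0) (nat_lit 144791588904) (nat_lit 76) (nat_lit 217401518498) (nat_lit 76) (nat_lit 216509972861) (nat_lit 1) (nat_lit 4) (nat_lit 2) (nat_lit 5) (nat_lit 2) (nat_lit 4) (nat_lit 264) (nat_lit 205) (nat_lit 191)))) (XT.nd (nat_lit 156) (nat_lit 0) (nat_lit 0) (XT.nd (nat_lit 78) (nat_lit 0) (nat_lit 0) (XT.lf (nat_lit 0) (nat_lit 168670578135) (nat_lit 76) (nat_lit 248791193174) (nat_lit 76) (nat_lit 247880507610) (nat_lit 1) (nat_lit 4) (nat_lit 2)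 (nat_lit 5) (nat_lit 2) (nat_lit 4) (nat_lit 265) (nat_lit 205) (nat_lit 190)) (XT.lf (nat_lit 0) (nat_lit 196072525321) (nat_lit 76) (nat_lit 284918346762) (nat_lit 76) (nat_lit 283991017784) (nat_lit 1) (nat_lit 4) (nat_lit 2) (nat_lit 5) (nat_lit 2) (nat_lit 4) (nat_lit 266) (nat_lit 205) (nat_lit 189))) (XT.nd (nat_lit 78) (nat_lit 0) (nat_lit 0) (XT.lf (nat_lit 0) (nat_lit 227533555514) (nat_lit 76) (nat_lit 326489814877) (nat_lit 76) (nat_lit 325548013365) (nat_lit 1) (nat_lit 4) (nat_lit 2) (nat_lit 5) (nat_lit 2) (nat_lit 4) (nat_lit 267) (nat_lit 205) (nat_lit 188)) (XT.nd (nat_lit 78) (nat_lit 0) (nat_lit 0) (XT.lf (nat_lit 0) (nat_lit 263669210610) (nat_lit 76) (nat_lit 374318952329) (nat_lit 76) (nat_lit 373364566005) (nat_lit 1) (nat_lit 4) (nat_lit 2) (nat_lit 5) (nat_lit 2) (nat_lit 4) (nat_lit 268) (nat_lit 205) (nat_lit 187)) (XT.lf (nat_lit 0) (nat_lit 305186492556)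 (nat_lit 76) (nat_lit 429341546591) (nat_lit 76) (nat_lit 428376216951) (nat_lit 1) (nat_lit 4) (nat_lit 2) (nat_lit 5) (nat_lit 2) (nat_lit 4) (nat_lit 269) (nat_lit 205) (nat_lit 186))))))) (XT.nd (nat_lit 624) (nat_lit 0) (nat_lit 0) (XT.nd (nat_lit 312) (nat_lit 0) (nat_lit 0) (XT.nd (nat_lit 156) (nat_lit 0) (nat_lit 0) (XT.nd (nat_lit 78) (nat_lit 0) (nat_lit 0) (XT.lf (nat_lit 0) (nat_lit 352897695999) (nat_lit 76) (nat_lit 492634126679) (nat_lit 76) (nat_lit 491659281114) (nat_lit 1) (nat_lit 4) (nat_lit 2) (nat_lit 5) (nat_lit 2) (nat_lit 4) (nat_lit 270) (nat_lit 205) (nat_lit 185)) (XT.lf (nat_lit 0) (nat_lit 407736301006) (nat_lit 76) (nat_lit 565435025684) (nat_lit 76) (nat_lit 564451905400) (nat_lit 1) (nat_lit 4) (nat_lit 2) (nat_lit 5) (nat_lit 2) (nat_lit 4) (nat_lit 271) (nat_lit 205) (nat_lit 184))) (XT.nd (nat_lit 78) (nat_lit 0) (nat_lit 0) (XT.lf (nat_lit 0) (nat_lit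 470775236806) (nat_lit 76) (nat_lit 649168609021) (nat_lit 76) (nat_lit 648178293329) (nat_lit 1) (nat_lit 4) (nat_lit 2) (nat_lit 5) (nat_lit 2) (nat_lit 4) (nat_lit 272) (nat_lit 205) (nat_lit 183)) (XT.lf (nat_lit 0) (nat_lit 543247873882) (nat_lit 76) (nat_lit 745473142449) (nat_lit 76) (nat_lit 744476569882) (nat_lit 1) (nat_lit 4) (nat_lit 2) (nat_lit 5) (nat_lit 2) (nat_lit 4) (nat_lit 273) (nat_lit 205) (nat_lit 182)))) (XT.nd (nat_lit 156) (nat_lit 0) (nat_lit 0) (XT.nd (nat_lit 78) (nat_lit 0) (nat_lit 0) (XT.lf (nat_lit 0) (nat_lit 626572155133) (nat_lit 76) (nat_lit 856232845103) (nat_lit 76) (nat_lit 855230831774) (nat_lit 1) (nat_lit 4) (nat_lit 2) (nat_lit 5) (nat_lit 2) (nat_lit 4) (nat_lit 274) (nat_lit 205) (nat_lit 181)) (XT.lf (nat_lit 0) (nat_lit 722378338236) (nat_lit 76) (nat_lit 983614754641) (nat_lit 76) (nat_lit 982608010215) (nat_lit 1) (nat_lit 4) (nat_lit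 2) (nat_lit 5) (nat_lit 2) (nat_lit 4) (nat_lit 275) (nat_lit 205) (nat_lit 180))) (XT.nd (nat_lit 78) (nat_lit 0) (nat_lit 0) (XT.lf (nat_lit 0) (nat_lit 832540891990) (nat_lit 76) (nat_lit 1130111125817) (nat_lit 76) (nat_lit 1129100267393) (nat_lit 1) (nat_lit 4) (nat_lit 2) (nat_lit 5) (nat_lit 2) (nat_lit 4) (nat_lit 276) (nat_lit 205) (nat_lit 179)) (XT.lf (nat_lit 0) (nat_lit 959215170709) (nat_lit 76) (nat_lit 1298588191979) (nat_lit 76) (nat_lit 1297573756166) (nat_lit 1) (nat_lit 4) (nat_lit 2) (nat_lit 5) (nat_lit 2) (nat_lit 4) (nat_lit 277) (nat_lit 205) (nat_lit 178))))) (XT.nd (nat_lit 312) (nat_lit 0) (nat_lit 0) (XT.nd (nat_lit 156) (nat_lit 0) (nat_lit 0) (XT.nd (nat_lit 78) (nat_lit 0) (nat_lit 0) (XT.lf (nat_lit 0) (nat_lit 1104879584193) (nat_lit 76) (nat_lit 1492342243551) (nat_lit 76) (nat_lit 1491324696966) (nat_lit 1) (nat_lit 4) (nat_lit 2) (nat_lit 5) (nat_lit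 2) (nat_lit 4) (nat_lit 278) (nat_lit 205) (nat_lit 177)) (XT.lf (nat_lit 0) (nat_lit 1272384088358) (nat_lit 76) (nat_lit 1715164120675) (nat_lit 76) (nat_lit 1714143869069) (nat_lit 1) (nat_lit 4) (nat_lit 2) (nat_lit 5) (nat_lit 2) (nat_lit 4) (nat_lit 279) (nat_lit 205) (nat_lit 176))) (XT.nd (nat_lit 78) (nat_lit 0) (nat_lit 0) (XT.lf (nat_lit 0) (nat_lit 1465005945242) (nat_lit 76) (nat_lit 1971413381814) (nat_lit 76) (nat_lit 1970390778017) (nat_lit 1) (nat_lit 4) (nat_lit 2) (nat_lit 5) (nat_lit 2) (nat_lit 4) (nat_lit 280) (nat_lit 205) (nat_lit 175)) (XT.lf (nat_lit 0) (nat_lit 1686513843350) (nat_lit 76) (nat_lit 2266103599470) (nat_lit 76) (nat_lit 2265078950289) (nat_lit 1) (nat_lit 4) (nat_lit 2) (nat_lit 5) (nat_lit 2) (nat_lit 4) (nat_lit 281) (nat_lit 205) (nat_lit 174)))) (XT.nd (nat_lit 156) (nat_lit 0) (nat_lit 0) (XT.nd (nat_lit 78) (nat_lit 0) (nat_lit 0) (XT.lf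 (nat_lit 0) (nat_lit 1941241632861) (nat_lit 76) (nat_lit 2605000451814) (nat_lit 76) (nat_lit 2603974024039) (nat_lit 1) (nat_lit 4) (nat_lit 2) (nat_lit 5) (nat_lit 2) (nat_lit 4) (nat_lit 282) (nat_lit 205) (nat_lit 173)) (XT.lf (nat_lit 0) (nat_lit 2234173118354) (nat_lit 76) (nat_lit 2994734529436) (nat_lit 76) (nat_lit 2993706555056) (nat_lit 1) (nat_lit 4) (nat_lit 2) (nat_lit 5) (nat_lit 2) (nat_lit 4) (nat_lit 283) (nat_lit 205) (nat_lit 172))) (XT.nd (nat_lit 78) (nat_lit 0) (nat_lit 0) (XT.lf (nat_lit 0) (nat_lit 2571039568022) (nat_lit 76) (nat_lit 3442931064288) (nat_lit 76) (nat_lit 3441901745035) (nat_lit 1) (nat_lit 4) (nat_lit 2) (nat_lit 5) (nat_lit 2) (nat_lit 4) (nat_lit 284) (nat_lit 205) (nat_lit 171)) (XT.nd (nat_lit 78) (nat_lit 0) (nat_lit 0) (XT.lf (nat_lit 0) (nat_lit 2958431847186) (nat_lit 76) (nat_lit 3958359119010) (nat_lit 76) (nat_lit 3957328630302)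 (nat_lit 1) (nat_lit 4) (nat_lit 2) (nat_lit 5) (nat_lit 2) (nat_lit 4) (nat_lit 285) (nat_lit 205) (nat_lit 170)) (XT.lf (nat_lit 0) (nat_lit 3403929370002) (nat_lit 76) (nat_lit 4551103155541) (nat_lit 76) (nat_lit 4550071649916) (nat_lit 1) (nat_lit 4) (nat_lit 2) (nat_lit 5) (nat_lit 2) (nat_lit 4) (nat_lit 286) (nat_lit 205) (nat_lit 169))))))))
noncomputable def xc21 : XT := (XT.nd (nat_lit 31590) (nat_lit 0) (nat_lit 0) (XT.nd (nat_lit 624) (nat_lit 0) (nat_lit 0) (XT.nd (nat_lit 312) (nat_lit 0) (nat_lit 0) (XT.nd (nat_lit 156) (nat_lit 0) (nat_lit 0) (XT.nd (nat_lit 78) (nat_lit 0) (nat_lit 0) (XT.lf (nat_lit 0) (nat_lit 3916248392353) (nat_lit 76) (nat_lit 5232760339814) (nat_lit 76) (nat_lit 5231727949913) (nat_lit 1) (nat_lit 4) (nat_lit 2) (nat_lit 5) (nat_lit 2) (nat_lit 4) (nat_lit 287) (nat_lit 205) (nat_lit 168)) (XT.lf (nat_lit 0) (nat_lit 4505412547283) (nat_lit 76)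 (nat_lit 6016667442825) (nat_lit 76) (nat_lit 6015634283989) (nat_lit 1) (nat_lit 4) (nat_lit 2) (nat_lit 5) (nat_lit 2) (nat_lit 4) (nat_lit 288) (nat_lit 205) (nat_lit 167))) (XT.nd (nat_lit 78) (nat_lit 0) (nat_lit 0) (XT.lf (nat_lit 0) (nat_lit 5182948959564) (nat_lit 76) (nat_lit 6918161777459) (nat_lit 76) (nat_lit 6917127949983) (nat_lit 1) (nat_lit 4) (nat_lit 2) (nat_lit 5) (nat_lit 2) (nat_lit 4) (nat_lit 289) (nat_lit 205) (nat_lit 166)) (XT.lf (nat_lit 0) (nat_lit 5962113776392) (nat_lit 76) (nat_lit 7954881276351) (nat_lit 76) (nat_lit 7953846867450) (nat_lit 1) (nat_lit 4) (nat_lit 2) (nat_lit 5) (nat_lit 2) (nat_lit 4) (nat_lit 290) (nat_lit 205) (nat_lit 165)))) (XT.nd (nat_lit 156) (nat_lit 0) (nat_lit 0) (XT.nd (nat_lit 78) (nat_lit 0) (nat_lit 0) (XT.lf (nat_lit 0) (nat_lit 6858151526792) (nat_lit 76) (nat_lit 9147109581870) (nat_lit 76) (nat_lit 9146074667381) (nat_lit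 1) (nat_lit 4) (nat_lit 2) (nat_lit 5) (nat_lit 2) (nat_lit 4) (nat_lit 291) (nat_lit 205) (nat_lit 164)) (XT.lf (nat_lit 0) (nat_lit 7888593384142) (nat_lit 76) (nat_lit 10518172899994) (nat_lit 76) (nat_lit 10517137545863) (nat_lit 1) (nat_lit 4) (nat_lit 2) (nat_lit 5) (nat_lit 2) (nat_lit 4) (nat_lit 292) (nat_lit 205) (nat_lit 163))) (XT.nd (nat_lit 78) (nat_lit 0) (nat_lit 0) (XT.lf (nat_lit 0) (nat_lit 9073600167389) (nat_lit 76) (nat_lit 12094896382598) (nat_lit 76) (nat_lit 12093860646171) (nat_lit 1) (nat_lit 4) (nat_lit 2) (nat_lit 5) (nat_lit 2) (nat_lit 4) (nat_lit 293) (nat_lit 205) (nat_lit 162)) (XT.lf (nat_lit 0) (nat_lit 10436356791858) (nat_lit 76) (nat_lit 13908128967386) (nat_lit 76) (nat_lit 13907092898527) (nat_lit 1) (nat_lit 4) (nat_lit 2) (nat_lit 5) (nat_lit 2) (nat_lit 4) (nat_lit 294) (nat_lit 205) (nat_lit 161))))) (XT.nd (nat_lit 1014) (nat_lit 0) (nat_lit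 0) (XT.nd (nat_lit 858) (nat_lit 0) (nat_lit 0) (XT.nd (nat_lit 780) (nat_lit 0) (nat_lit 0) (XT.lf (nat_lit 0) (nat_lit 12003525887158) (nat_lit 76) (nat_lit 15993346944061) (nat_lit 76) (nat_lit 15992310586131) (nat_lit 1) (nat_lit 4) (nat_lit 2) (nat_lit 5) (nat_lit 2) (nat_lit 4) (nat_lit 295) (nat_lit 205) (nat_lit 160)) (XT.lf (nat_lit 0) (nat_lit 48595731453938) (nat_lit 76) (nat_lit 64681705603196) (nat_lit 76) (nat_lit 64680667794483) (nat_lit 1) (nat_lit 4) (nat_lit 2) (nat_lit 5) (nat_lit 2) (nat_lit 4) (nat_lit 305) (nat_lit 205) (nat_lit 150))) (XT.nd (nat_lit 78) (nat_lit 0) (nat_lit 0) (XT.lf (nat_lit 0) (nat_lit 55886801395304) (nat_lit 76) (nat_lit 74382962713914) (nat_lit 76) (nat_lit 74381924843067) (nat_lit 1) (nat_lit 4) (nat_lit 2) (nat_lit 5) (nat_lit 2) (nat_lit 4) (nat_lit 306) (nat_lit 205) (nat_lit 149)) (XT.lf (nat_lit 0) (nat_lit 64271531636700) (nat_lit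 76) (nat_lit 85539408485471) (nat_lit 76) (nat_lit 85538370560595) (nat_lit 1) (nat_lit 4) (nat_lit 2) (nat_lit 5) (nat_lit 2) (nat_lit 4) (nat_lit 307) (nat_lit 205) (nat_lit 148)))) (XT.nd (nat_lit 29718) (nat_lit 0) (nat_lit 76) (XT.nd (nat_lit 78) (nat_lit 0) (nat_lit 0) (XT.lf (nat_lit 0) (nat_lit 73913971248065) (nat_lit 76) (nat_lit 98369321204704) (nat_lit 76) (nat_lit 98368283232845) (nat_lit 1) (nat_lit 4) (nat_lit 2) (nat_lit 5) (nat_lit 2) (nat_lit 4) (nat_lit 308) (nat_lit 205) (nat_lit 147)) (XT.lf (nat_lit 0) (nat_lit 85002776656578) (nat_lit 76) (nat_lit 113123720903075) (nat_lit 76) (nat_lit 113122682890362) (nat_lit 1) (nat_lit 4) (nat_lit 2) (nat_lit 5) (nat_lit 2) (nat_lit 4) (nat_lit 309) (nat_lit 205) (nat_lit 146))) (XT.nd (nat_lit 78) (nat_lit 0) (nat_lit 0) (XT.lf (nat_lit 0) (nat_lit 13796886719) (nat_lit 152) (nat_lit 4253518710) (nat_lit 0) (nat_lit 13796886719)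 (nat_lit 2) (nat_lit 5) (nat_lit 4) (nat_lit 4) (nat_lit 2) (nat_lit 4) (nat_lit 248) (nat_lit 206) (nat_lit 206)) (XT.nd (nat_lit 78) (nat_lit 0) (nat_lit 0) (XT.lf (nat_lit 0) (nat_lit 34179667492) (nat_lit 152) (nat_lit 4646206851) (nat_lit 0) (nat_lit 34023924731) (nat_lit 2) (nat_lit 5) (nat_lit 4) (nat_lit 4) (nat_lit 2) (nat_lit 4) (nat_lit 249) (nat_lit 206) (nat_lit 205)) (XT.lf (nat_lit 0) (nat_lit 41530293313) (nat_lit 152) (nat_lit 642785503) (nat_lit 0) (nat_lit 41239122064) (nat_lit 2) (nat_lit 5) (nat_lit 4) (nat_lit 4) (nat_lit 2) (nat_lit 4) (nat_lit 250) (nat_lit 206) (nat_lit 204))))))) (XT.nd (nat_lit 624) (nat_lit 0) (nat_lit 0) (XT.nd (nat_lit 312) (nat_lit 0) (nat_lit 0) (XT.nd (nat_lit 156) (nat_lit 0) (nat_lit 0) (XT.nd (nat_lit 78) (nat_lit 0) (nat_lit 0) (XT.lf (nat_lit 0) (nat_lit 3931569980) (nat_lit 76) (nat_lit 46020695440) (nat_lit 76) (nat_lit 45611760289)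 (nat_lit 1) (nat_lit 4) (nat_lit 2) (nat_lit 5) (nat_lit 2) (nat_lit 4) (nat_lit 251) (nat_lit 206) (nat_lit 203)) (XT.lf (nat_lit 0) (nat_lit 8901978798) (nat_lit 76) (nat_lit 50585415727) (nat_lit 76) (nat_lit 50074077182) (nat_lit 1) (nat_lit 4) (nat_lit 2) (nat_lit 5) (nat_lit 2) (nat_lit 4) (nat_lit 252) (nat_lit 206) (nat_lit 202))) (XT.nd (nat_lit 78) (nat_lit 0) (nat_lit 0) (XT.lf (nat_lit 0) (nat_lit 14302870405) (nat_lit 76) (nat_lit 55990149572) (nat_lit 76) (nat_lit 55389764598) (nat_lit 1) (nat_lit 4) (nat_lit 2) (nat_lit 5) (nat_lit 2) (nat_lit 4) (nat_lit 253) (nat_lit 206) (nat_lit 201)) (XT.lf (nat_lit 0) (nat_lit 20239914420) (nat_lit 76) (nat_lit 62340641769) (nat_lit 76) (nat_lit 61662825118) (nat_lit 1) (nat_lit 4) (nat_lit 2) (nat_lit 5) (nat_lit 2) (nat_lit 4) (nat_lit 254) (nat_lit 206) (nat_lit 200)))) (XT.nd (nat_lit 156) (nat_lit 0) (nat_lit 0) (XT.nd (nat_lit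 78) (nat_lit 0) (nat_lit 0) (XT.lf (nat_lit 0) (nat_lit 26829270400) (nat_lit 76) (nat_lit 69761141077) (nat_lit 76) (nat_lit 69015992533) (nat_lit 1) (nat_lit 4) (nat_lit 2) (nat_lit 5) (nat_lit 2) (nat_lit 4) (nat_lit 255) (nat_lit 206) (nat_lit 199)) (XT.lf (nat_lit 0) (nat_lit 34199860527) (nat_lit 76) (nat_lit 78396831180) (nat_lit 76) (nat_lit 77593133163) (nat_lit 1) (nat_lit 4) (nat_lit 2) (nat_lit 5) (nat_lit 2) (nat_lit 4) (nat_lit 256) (nat_lit 206) (nat_lit 198))) (XT.nd (nat_lit 78) (nat_lit 0) (nat_lit 0) (XT.lf (nat_lit 0) (nat_lit 42495891998) (nat_lit 76) (nat_lit 88416671230) (nat_lit 76) (nat_lit 87562060628) (nat_lit 1) (nat_lit 4) (nat_lit 2) (nat_lit 5) (nat_lit 2) (nat_lit 4) (nat_lit 257) (nat_lit 206) (nat_lit 197)) (XT.lf (nat_lit 0) (nat_lit 51879678474) (nat_lit 76) (nat_lit 100016701577) (nat_lit 76) (nat_lit 99117819163) (nat_lit 1) (nat_lit 4) (nat_lit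 2) (nat_lit 5) (nat_lit 2) (nat_lit 4) (nat_lit 258) (nat_lit 206) (nat_lit 196))))) (XT.nd (nat_lit 312) (nat_lit 0) (nat_lit 0) (XT.nd (nat_lit 156) (nat_lit 0) (nat_lit 0) (XT.nd (nat_lit 78) (nat_lit 0) (nat_lit 0) (XT.lf (nat_lit 0) (nat_lit 62534815777) (nat_lit 76) (nat_lit 113423879337) (nat_lit 76) (nat_lit 112486499694) (nat_lit 1) (nat_lit 4) (nat_lit 2) (nat_lit 5) (nat_lit 2) (nat_lit 4) (nat_lit 259) (nat_lit 206) (nat_lit 195)) (XT.lf (nat_lit 0) (nat_lit 74669773983) (nat_lit 76) (nat_lit 128900518856) (nat_lit 76) (nat_lit 127929663362) (nat_lit 1) (nat_lit 4) (nat_lit 2) (nat_lit 5) (nat_lit 2) (nat_lit 4) (nat_lit 260) (nat_lit 206) (nat_lit 194))) (XT.nd (nat_lit 78) (nat_lit 0) (nat_lit 0) (XT.lf (nat_lit 0) (nat_lit 88521976190) (nat_lit 76) (nat_lit 146749423952) (nat_lit 76) (nat_lit 145749459022) (nat_lit 1) (nat_lit 4) (nat_lit 2) (nat_lit 5) (nat_lit 2) (nat_lit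 4) (nat_lit 261) (nat_lit 206) (nat_lit 193)) (XT.lf (nat_lit 0) (nat_lit 104362443743) (nat_lit 76) (nat_lit 167319812333) (nat_lit 76) (nat_lit 166294534850) (nat_lit 1) (nat_lit 4) (nat_lit 2) (nat_lit 5) (nat_lit 2) (nat_lit 4) (nat_lit 262) (nat_lit 206) (nat_lit 192)))) (XT.nd (nat_lit 156) (nat_lit 0) (nat_lit 0) (XT.nd (nat_lit 78) (nat_lit 0) (nat_lit 0) (XT.lf (nat_lit 0) (nat_lit 122501098835) (nat_lit 76) (nat_lit 191014148119) (nat_lit 76) (nat_lit 189966859721) (nat_lit 1) (nat_lit 4) (nat_lit 2) (nat_lit 5) (nat_lit 2) (nat_lit 4) (nat_lit 263) (nat_lit 206) (nat_lit 191)) (XT.lf (nat_lit 0) (nat_lit 143292828195) (nat_lit 76) (nat_lit 218296016141) (nat_lit 76) (nat_lit 217229587817) (nat_lit 1) (nat_lit 4) (nat_lit 2) (nat_lit 5) (nat_lit 2) (nat_lit 4) (nat_lit 264) (nat_lit 206) (nat_lit 190))) (XT.nd (nat_lit 78) (nat_lit 0) (nat_lit 0) (XT.lf (nat_lit 0) (nat_lit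 167144426528) (nat_lit 76) (nat_lit 249699192078) (nat_lit 76) (nat_lit 248616120339) (nat_lit 1) (nat_lit 4) (nat_lit 2) (nat_lit 5) (nat_lit 2) (nat_lit 4) (nat_lit 265) (nat_lit 206) (nat_lit 189)) (XT.nd (nat_lit 78) (nat_lit 0) (nat_lit 0) (XT.lf (nat_lit 0) (nat_lit 194522555542) (nat_lit 76) (nat_lit 285838085894) (nat_lit 76) (nat_lit 284740541621) (nat_lit 1) (nat_lit 4) (nat_lit 2) (nat_lit 5) (nat_lit 2) (nat_lit 4) (nat_lit 266) (nat_lit 206) (nat_lit 188)) (XT.lf (nat_lit 0) (nat_lit 225962874281) (nat_lit 76) (nat_lit 327419762902) (nat_lit 76) (nat_lit 326309633816) (nat_lit 1) (nat_lit 4) (nat_lit 2) (nat_lit 5) (nat_lit 2) (nat_lit 4) (nat_lit 267) (nat_lit 206) (nat_lit 187))))))))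
noncomputable def xc22 : XT := (XT.nd (nat_lit 1326) (nat_lit 0) (nat_lit 0) (XT.nd (nat_lit 624) (nat_lit 0) (nat_lit 0) (XT.nd (nat_lit 312) (nat_lit 0) (nat_lit 0) (XT.nd (nat_lit 156) (nat_lit 0) (nat_lit 0) (XT.nd (nat_lit 78) (nat_lit 0) (nat_lit 0) (XT.lf (nat_lit 0) (nat_lit 262080519416) (nat_lit 76) (nat_lit 375257777652) (nat_lit 76) (nat_lit 374136705252) (nat_lit 1) (nat_lit 4) (nat_lit 2) (nat_lit 5) (nat_lit 2) (nat_lit 4) (nat_lit 268) (nat_lit 206) (nat_lit 186)) (XT.lf (nat_lit 0) (nat_lit 303582140528) (nat_lit 76) (nat_lit 430288091304) (nat_lit 76) (nat_lit 429157502977) (nat_lit 1) (nat_lit 4) (nat_lit 2) (nat_lit 5) (nat_lit 2) (nat_lit 4) (nat_lit 269) (nat_lit 206) (nat_lit 185))) (XT.nd (nat_lit 78) (nat_lit 0) (nat_lit 0) (XT.lf (nat_lit 0) (nat_lit 351279725853) (nat_lit 76) (nat_lit 493587383905) (nat_lit 76) (nat_lit 492448520860) (nat_lit 1) (nat_lit 4)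 (nat_lit 2) (nat_lit 5) (nat_lit 2) (nat_lit 4) (nat_lit 270) (nat_lit 206) (nat_lit 184)) (XT.lf (nat_lit 0) (nat_lit 406106489020) (nat_lit 76) (nat_lit 566394119878) (nat_lit 76) (nat_lit 565248061426) (nat_lit 1) (nat_lit 4) (nat_lit 2) (nat_lit 5) (nat_lit 2) (nat_lit 4) (nat_lit 271) (nat_lit 206) (nat_lit 183)))) (XT.nd (nat_lit 156) (nat_lit 0) (nat_lit 0) (XT.nd (nat_lit 78) (nat_lit 0) (nat_lit 0) (XT.lf (nat_lit 0) (nat_lit 469135127567) (nat_lit 76) (nat_lit 650132778838) (nat_lit 76) (nat_lit 648980463510) (nat_lit 1) (nat_lit 4) (nat_lit 2) (nat_lit 5) (nat_lit 2) (nat_lit 4) (nat_lit 272) (nat_lit 206) (nat_lit 182)) (XT.lf (nat_lit 0) (nat_lit 541598810509) (nat_lit 76) (nat_lit 746441725853) (nat_lit 76) (nat_lit 745283969763) (nat_lit 1) (nat_lit 4) (nat_lit 2) (nat_lit 5) (nat_lit 2) (nat_lit 4) (nat_lit 273) (nat_lit 206) (nat_lit 181))) (XT.nd (nat_lit 78) (nat_lit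 0) (nat_lit 0) (XT.lf (nat_lit 0) (nat_lit 624915305558) (nat_lit 76) (nat_lit 857205266408) (nat_lit 76) (nat_lit 856042779221) (nat_lit 1) (nat_lit 4) (nat_lit 2) (nat_lit 5) (nat_lit 2) (nat_lit 4) (nat_lit 274) (nat_lit 206) (nat_lit 180)) (XT.lf (nat_lit 0) (nat_lit 720714718049) (nat_lit 76) (nat_lit 984590513251) (nat_lit 76) (nat_lit 983423912067) (nat_lit 1) (nat_lit 4) (nat_lit 2) (nat_lit 5) (nat_lit 2) (nat_lit 4) (nat_lit 275) (nat_lit 206) (nat_lit 179))))) (XT.nd (nat_lit 312) (nat_lit 0) (nat_lit 0) (XT.nd (nat_lit 156) (nat_lit 0) (nat_lit 0) (XT.nd (nat_lit 78) (nat_lit 0) (nat_lit 0) (XT.lf (nat_lit 0) (nat_lit 830871384316) (nat_lit 76) (nat_lit 1131089786432) (nat_lit 76) (nat_lit 1129919607858) (nat_lit 1) (nat_lit 4) (nat_lit 2) (nat_lit 5) (nat_lit 2) (nat_lit 4) (nat_lit 276) (nat_lit 206) (nat_lit 178)) (XT.lf (nat_lit 0) (nat_lit 957540543480) (nat_lit 76)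 (nat_lit 1299569376076) (nat_lit 76) (nat_lit 1298396086729) (nat_lit 1) (nat_lit 4) (nat_lit 2) (nat_lit 5) (nat_lit 2) (nat_lit 4) (nat_lit 277) (nat_lit 206) (nat_lit 177))) (XT.nd (nat_lit 78) (nat_lit 0) (nat_lit 0) (XT.lf (nat_lit 0) (nat_lit 1103200505177) (nat_lit 76) (nat_lit 1493325621981) (nat_lit 76) (nat_lit 1492149627614) (nat_lit 1) (nat_lit 4) (nat_lit 2) (nat_lit 5) (nat_lit 2) (nat_lit 4) (nat_lit 278) (nat_lit 206) (nat_lit 176)) (XT.lf (nat_lit 0) (nat_lit 1270701138223) (nat_lit 76) (nat_lit 1716149407219) (nat_lit 76) (nat_lit 1714971060661) (nat_lit 1) (nat_lit 4) (nat_lit 2) (nat_lit 5) (nat_lit 2) (nat_lit 4) (nat_lit 279) (nat_lit 206) (nat_lit 175)))) (XT.nd (nat_lit 156) (nat_lit 0) (nat_lit 0) (XT.nd (nat_lit 78) (nat_lit 0) (nat_lit 0) (XT.lf (nat_lit 0) (nat_lit 1463319628917) (nat_lit 76) (nat_lit 1972400327589) (nat_lit 76) (nat_lit 1971219935647) (nat_lit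 1) (nat_lit 4) (nat_lit 2) (nat_lit 5) (nat_lit 2) (nat_lit 4) (nat_lit 280) (nat_lit 206) (nat_lit 174)) (XT.lf (nat_lit 0) (nat_lit 1684824599903) (nat_lit 76) (nat_lit 2267091988054) (nat_lit 76) (nat_lit 2265909817518) (nat_lit 1) (nat_lit 4) (nat_lit 2) (nat_lit 5) (nat_lit 2) (nat_lit 4) (nat_lit 281) (nat_lit 206) (nat_lit 173))) (XT.nd (nat_lit 78) (nat_lit 0) (nat_lit 0) (XT.lf (nat_lit 0) (nat_lit 1939549844091) (nat_lit 76) (nat_lit 2605990095015) (nat_lit 76) (nat_lit 2604806377875) (nat_lit 1) (nat_lit 4) (nat_lit 2) (nat_lit 5) (nat_lit 2) (nat_lit 4) (nat_lit 282) (nat_lit 206) (nat_lit 172)) (XT.nd (nat_lit 78) (nat_lit 0) (nat_lit 0) (XT.lf (nat_lit 0) (nat_lit 2232479116259) (nat_lit 76) (nat_lit 2995725263608) (nat_lit 76) (nat_lit 2994540201594) (nat_lit 1) (nat_lit 4) (nat_lit 2) (nat_lit 5) (nat_lit 2) (nat_lit 4) (nat_lit 283) (nat_lit 206) (nat_lit 171)) (XT.lf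 (nat_lit 0) (nat_lit 2569343641297) (nat_lit 76) (nat_lit 3443922747131) (nat_lit 76) (nat_lit 3442736515662) (nat_lit 1) (nat_lit 4) (nat_lit 2) (nat_lit 5) (nat_lit 2) (nat_lit 4) (nat_lit 284) (nat_lit 206) (nat_lit 170))))))) (XT.nd (nat_lit 624) (nat_lit 0) (nat_lit 0) (XT.nd (nat_lit 312) (nat_lit 0) (nat_lit 0) (XT.nd (nat_lit 156) (nat_lit 0) (nat_lit 0) (XT.nd (nat_lit 78) (nat_lit 0) (nat_lit 0) (XT.lf (nat_lit 0) (nat_lit 2956734246869) (nat_lit 76) (nat_lit 3959351626783) (nat_lit 76) (nat_lit 3958164378397) (nat_lit 1) (nat_lit 4) (nat_lit 2) (nat_lit 5) (nat_lit 2) (nat_lit 4) (nat_lit 285) (nat_lit 206) (nat_lit 169)) (XT.lf (nat_lit 0) (nat_lit 3402230314389) (nat_lit 76) (nat_lit 4552096380645) (nat_lit 76) (nat_lit 4550908247984) (nat_lit 1) (nat_lit 4) (nat_lit 2) (nat_lit 5) (nat_lit 2) (nat_lit 4) (nat_lit 286) (nat_lit 206) (nat_lit 168))) (XT.nd (nat_lit 78) (nat_lit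 0) (nat_lit 0) (XT.lf (nat_lit 0) (nat_lit 3914548071264) (nat_lit 76) (nat_lit 5233754188684) (nat_lit 76) (nat_lit 5232565287087) (nat_lit 1) (nat_lit 4) (nat_lit 2) (nat_lit 5) (nat_lit 2) (nat_lit 4) (nat_lit 287) (nat_lit 206) (nat_lit 167)) (XT.lf (nat_lit 0) (nat_lit 4503711125780) (nat_lit 76) (nat_lit 6017661834101) (nat_lit 76) (nat_lit 6016472263864) (nat_lit 1) (nat_lit 4) (nat_lit 2) (nat_lit 5) (nat_lit 2) (nat_lit 4) (nat_lit 288) (nat_lit 206) (nat_lit 166)))) (XT.nd (nat_lit 156) (nat_lit 0) (nat_lit 0) (XT.nd (nat_lit 78) (nat_lit 0) (nat_lit 0) (XT.lf (nat_lit 0) (nat_lit 5181246581180) (nat_lit 76) (nat_lit 6919156640392) (nat_lit 76) (nat_lit 6917966488730) (nat_lit 1) (nat_lit 4) (nat_lit 2) (nat_lit 5) (nat_lit 2) (nat_lit 4) (nat_lit 289) (nat_lit 206) (nat_lit 165)) (XT.lf (nat_lit 0) (nat_lit 5960410565937) (nat_lit 76) (nat_lit 7955876549420) (nat_lit 76)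 (nat_lit 7954685892170) (nat_lit 1) (nat_lit 4) (nat_lit 2) (nat_lit 5) (nat_lit 2) (nat_lit 4) (nat_lit 290) (nat_lit 206) (nat_lit 164))) (XT.nd (nat_lit 78) (nat_lit 0) (nat_lit 0) (XT.lf (nat_lit 0) (nat_lit 6856447592797) (nat_lit 76) (nat_lit 9148105211580) (nat_lit 76) (nat_lit 9146914114688) (nat_lit 1) (nat_lit 4) (nat_lit 2) (nat_lit 5) (nat_lit 2) (nat_lit 4) (nat_lit 291) (nat_lit 206) (nat_lit 163)) (XT.lf (nat_lit 0) (nat_lit 7886888820982) (nat_lit 76) (nat_lit 10519168839825) (nat_lit 76) (nat_lit 10517977360637) (nat_lit 1) (nat_lit 4) (nat_lit 2) (nat_lit 5) (nat_lit 2) (nat_lit 4) (nat_lit 292) (nat_lit 206) (nat_lit 162))))) (XT.nd (nat_lit 936) (nat_lit 0) (nat_lit 0) (XT.nd (nat_lit 156) (nat_lit 0) (nat_lit 0) (XT.nd (nat_lit 78) (nat_lit 0) (nat_lit 0) (XT.lf (nat_lit 0) (nat_lit 9071895057129) (nat_lit 76) (nat_lit 12095892592101) (nat_lit 76) (nat_lit 12094700780480)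 (nat_lit 1) (nat_lit 4) (nat_lit 2) (nat_lit 5) (nat_lit 2) (nat_lit 4) (nat_lit 293) (nat_lit 206) (nat_lit 161)) (XT.lf (nat_lit 0) (nat_lit 10434651205859) (nat_lit 76) (nat_lit 13909125411386) (nat_lit 76) (nat_lit 13907933310694) (nat_lit 1) (nat_lit 4) (nat_lit 2) (nat_lit 5) (nat_lit 2) (nat_lit 4) (nat_lit 294) (nat_lit 206) (nat_lit 160))) (XT.nd (nat_lit 702) (nat_lit 0) (nat_lit 0) (XT.lf (nat_lit 0) (nat_lit 12001819887473) (nat_lit 76) (nat_lit 15994343591971) (nat_lit 76) (nat_lit 15993151239913) (nat_lit 1) (nat_lit 4) (nat_lit 2) (nat_lit 5) (nat_lit 2) (nat_lit 4) (nat_lit 295) (nat_lit 206) (nat_lit 159)) (XT.lf (nat_lit 0) (nat_lit 42253962470558) (nat_lit 76) (nat_lit 56246827569864) (nat_lit 76) (nat_lit 56245634018390) (nat_lit 1) (nat_lit 4) (nat_lit 2) (nat_lit 5) (nat_lit 2) (nat_lit 4) (nat_lit 304) (nat_lit 206) (nat_lit 150)))) (XT.nd (nat_lit 156) (nat_lit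 0) (nat_lit 0) (XT.nd (nat_lit 78) (nat_lit 0) (nat_lit 0) (XT.lf (nat_lit 0) (nat_lit 48594023378057) (nat_lit 76) (nat_lit 64682703274485) (nat_lit 76) (nat_lit 64681509660877) (nat_lit 1) (nat_lit 4) (nat_lit 2) (nat_lit 5) (nat_lit 2) (nat_lit 4) (nat_lit 305) (nat_lit 206) (nat_lit 149)) (XT.lf (nat_lit 0) (nat_lit 55885093230505) (nat_lit 76) (nat_lit 74383960429031) (nat_lit 76) (nat_lit 74382766761394) (nat_lit 1) (nat_lit 4) (nat_lit 2) (nat_lit 5) (nat_lit 2) (nat_lit 4) (nat_lit 306) (nat_lit 206) (nat_lit 148))) (XT.nd (nat_lit 78) (nat_lit 0) (nat_lit 0) (XT.lf (nat_lit 0) (nat_lit 64269823394579) (nat_lit 76) (nat_lit 85540406238701) (nat_lit 76) (nat_lit 85539212524082) (nat_lit 1) (nat_lit 4) (nat_lit 2) (nat_lit 5) (nat_lit 2) (nat_lit 4) (nat_lit 307) (nat_lit 206) (nat_lit 147)) (XT.nd (nat_lit 78) (nat_lit 0) (nat_lit 0) (XT.lf (nat_lit 0) (nat_lit 73912262938709)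 (nat_lit 76) (nat_lit 98370318991075) (nat_lit 76) (nat_lit 98369125235601) (nat_lit 1) (nat_lit 4) (nat_lit 2) (nat_lit 5) (nat_lit 2) (nat_lit 4) (nat_lit 308) (nat_lit 206) (nat_lit 146)) (XT.lf (nat_lit 0) (nat_lit 85001068288756) (nat_lit 76) (nat_lit 113124718718264) (nat_lit 76) (nat_lit 113123524927265) (nat_lit 1) (nat_lit 4) (nat_lit 2) (nat_lit 5) (nat_lit 2) (nat_lit 4) (nat_lit 309) (nat_lit 206) (nat_lit 145))))))))
noncomputable def xc23 : XT := (XT.nd (nat_lit 1326) (nat_lit 0) (nat_lit 0) (XT.nd (nat_lit 624) (nat_lit 0) (nat_lit 0) (XT.nd (nat_lit 312) (nat_lit 76) (nat_lit 0) (XT.nd (nat_lit 156) (nat_lit 0) (nat_lit 0) (XT.nd (nat_lit 78) (nat_lit 0) (nat_lit 0) (XT.lf (nat_lit 0) (nat_lit 8264786361) (nat_lit 152) (nat_lit 7916623612) (nat_lit 0) (nat_lit 8264786361) (nat_lit 2) (nat_lit 5) (nat_lit 4) (nat_lit 4) (nat_lit 2) (nat_lit 4) (nat_lit 246) (nat_lit 207)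 (nat_lit 207)) (XT.lf (nat_lit 0) (nat_lit 21822860875) (nat_lit 152) (nat_lit 12300815198) (nat_lit 0) (nat_lit 21643756700) (nat_lit 2) (nat_lit 5) (nat_lit 4) (nat_lit 4) (nat_lit 2) (nat_lit 4) (nat_lit 247) (nat_lit 207) (nat_lit 206))) (XT.nd (nat_lit 78) (nat_lit 0) (nat_lit 0) (XT.lf (nat_lit 0) (nat_lit 27653517058) (nat_lit 152) (nat_lit 8740532246) (nat_lit 0) (nat_lit 27318670122) (nat_lit 2) (nat_lit 5) (nat_lit 4) (nat_lit 4) (nat_lit 2) (nat_lit 4) (nat_lit 248) (nat_lit 207) (nat_lit 205)) (XT.lf (nat_lit 0) (nat_lit 34135619325) (nat_lit 152) (nat_lit 5082740657) (nat_lit 0) (nat_lit 33665343901) (nat_lit 2) (nat_lit 5) (nat_lit 4) (nat_lit 4) (nat_lit 2) (nat_lit 4) (nat_lit 249) (nat_lit 207) (nat_lit 204)))) (XT.nd (nat_lit 156) (nat_lit 0) (nat_lit 0) (XT.nd (nat_lit 78) (nat_lit 76) (nat_lit 0) (XT.lf (nat_lit 0) (nat_lit 41395991418) (nat_lit 152) (nat_lit 1255874943)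 (nat_lit 0) (nat_lit 40807952091) (nat_lit 2) (nat_lit 5) (nat_lit 4) (nat_lit 4) (nat_lit 2) (nat_lit 4) (nat_lit 250) (nat_lit 207) (nat_lit 203)) (XT.lf (nat_lit 0) (nat_lit 3090034602) (nat_lit 76) (nat_lit 46614601235) (nat_lit 76) (nat_lit 45924158515) (nat_lit 1) (nat_lit 4) (nat_lit 2) (nat_lit 5) (nat_lit 2) (nat_lit 4) (nat_lit 251) (nat_lit 207) (nat_lit 202))) (XT.nd (nat_lit 78) (nat_lit 0) (nat_lit 0) (XT.lf (nat_lit 0) (nat_lit 7913895265) (nat_lit 76) (nat_lit 51251556645) (nat_lit 76) (nat_lit 50472067496) (nat_lit 1) (nat_lit 4) (nat_lit 2) (nat_lit 5) (nat_lit 2) (nat_lit 4) (nat_lit 252) (nat_lit 207) (nat_lit 201)) (XT.lf (nat_lit 0) (nat_lit 13187353694) (nat_lit 76) (nat_lit 56719103641) (nat_lit 76) (nat_lit 55862182815) (nat_lit 1) (nat_lit 4) (nat_lit 2) (nat_lit 5) (nat_lit 2) (nat_lit 4) (nat_lit 253) (nat_lit 207) (nat_lit 200))))) (XT.nd (nat_lit 312) (nat_lit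 0) (nat_lit 0) (XT.nd (nat_lit 156) (nat_lit 0) (nat_lit 0) (XT.nd (nat_lit 78) (nat_lit 0) (nat_lit 0) (XT.lf (nat_lit 0) (nat_lit 19013586250) (nat_lit 76) (nat_lit 63124215969) (nat_lit 76) (nat_lit 62199963249) (nat_lit 1) (nat_lit 4) (nat_lit 2) (nat_lit 5) (nat_lit 2) (nat_lit 4) (nat_lit 254) (nat_lit 207) (nat_lit 199)) (XT.lf (nat_lit 0) (nat_lit 25506584439) (nat_lit 76) (nat_lit 70592211044) (nat_lit 76) (nat_lit 69609408852) (nat_lit 1) (nat_lit 4) (nat_lit 2) (nat_lit 5) (nat_lit 2) (nat_lit 4) (nat_lit 255) (nat_lit 207) (nat_lit 198))) (XT.nd (nat_lit 78) (nat_lit 0) (nat_lit 0) (XT.lf (nat_lit 0) (nat_lit 32793385182) (nat_lit 76) (nat_lit 79269201813) (nat_lit 76) (nat_lit 78235487036) (nat_lit 1) (nat_lit 4) (nat_lit 2) (nat_lit 5) (nat_lit 2) (nat_lit 4) (nat_lit 256) (nat_lit 207) (nat_lit 197)) (XT.lf (nat_lit 0) (nat_lit 41016556321) (nat_lit 76) (nat_lit 89324955486)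 (nat_lit 76) (nat_lit 88246968896) (nat_lit 1) (nat_lit 4) (nat_lit 2) (nat_lit 5) (nat_lit 2) (nat_lit 4) (nat_lit 257) (nat_lit 207) (nat_lit 196)))) (XT.nd (nat_lit 156) (nat_lit 0) (nat_lit 0) (XT.nd (nat_lit 78) (nat_lit 0) (nat_lit 0) (XT.lf (nat_lit 0) (nat_lit 50336985985) (nat_lit 76) (nat_lit 100956215071) (nat_lit 76) (nat_lit 99839731252) (nat_lit 1) (nat_lit 4) (nat_lit 2) (nat_lit 5) (nat_lit 2) (nat_lit 4) (nat_lit 258) (nat_lit 207) (nat_lit 195)) (XT.lf (nat_lit 0) (nat_lit 60937030408) (nat_lit 76) (nat_lit 114390548689) (nat_lit 76) (nat_lit 113240589019) (nat_lit 1) (nat_lit 4) (nat_lit 2) (nat_lit 5) (nat_lit 2) (nat_lit 4) (nat_lit 259) (nat_lit 207) (nat_lit 194))) (XT.nd (nat_lit 78) (nat_lit 0) (nat_lit 0) (XT.lf (nat_lit 0) (nat_lit 73024081763) (nat_lit 76) (nat_lit 129890801998) (nat_lit 76) (nat_lit 128711732893) (nat_lit 1) (nat_lit 4) (nat_lit 2) (nat_lit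 5) (nat_lit 2) (nat_lit 4) (nat_lit 260) (nat_lit 207) (nat_lit 193)) (XT.nd (nat_lit 78) (nat_lit 0) (nat_lit 0) (XT.lf (nat_lit 0) (nat_lit 86834625837) (nat_lit 76) (nat_lit 147760240825) (nat_lit 76) (nat_lit 146555859167) (nat_lit 1) (nat_lit 4) (nat_lit 2) (nat_lit 5) (nat_lit 2) (nat_lit 4) (nat_lit 261) (nat_lit 207) (nat_lit 192)) (XT.lf (nat_lit 0) (nat_lit 102638868928) (nat_lit 76) (nat_lit 168348484623) (nat_lit 76) (nat_lit 167122092050) (nat_lit 1) (nat_lit 4) (nat_lit 2) (nat_lit 5) (nat_lit 2) (nat_lit 4) (nat_lit 262) (nat_lit 207) (nat_lit 191))))))) (XT.nd (nat_lit 624) (nat_lit 0) (nat_lit 0) (XT.nd (nat_lit 312) (nat_lit 0) (nat_lit 0) (XT.nd (nat_lit 156) (nat_lit 0) (nat_lit 0) (XT.nd (nat_lit 78) (nat_lit 0) (nat_lit 0) (XT.lf (nat_lit 0) (nat_lit 120746024487) (nat_lit 76) (nat_lit 192058346860) (nat_lit 76) (nat_lit 190812814360) (nat_lit 1) (nat_lit 4) (nat_lit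 2) (nat_lit 5) (nat_lit 2) (nat_lit 4) (nat_lit 263) (nat_lit 207) (nat_lit 190)) (XT.lf (nat_lit 0) (nat_lit 141510362949) (nat_lit 76) (nat_lit 219353716143) (nat_lit 76) (nat_lit 218091540229) (nat_lit 1) (nat_lit 4) (nat_lit 2) (nat_lit 5) (nat_lit 2) (nat_lit 4) (nat_lit 264) (nat_lit 207) (nat_lit 189))) (XT.nd (nat_lit 78) (nat_lit 0) (nat_lit 0) (XT.lf (nat_lit 0) (nat_lit 165338143111) (nat_lit 76) (nat_lit 250768632307) (nat_lit 76) (nat_lit 249491983859) (nat_lit 1) (nat_lit 4) (nat_lit 2) (nat_lit 5) (nat_lit 2) (nat_lit 4) (nat_lit 265) (nat_lit 207) (nat_lit 188)) (XT.lf (nat_lit 0) (nat_lit 192695560670) (nat_lit 76) (nat_lit 286917735015) (nat_lit 76) (nat_lit 285628501755) (nat_lit 1) (nat_lit 4) (nat_lit 2) (nat_lit 5) (nat_lit 2) (nat_lit 4) (nat_lit 266) (nat_lit 207) (nat_lit 187)))) (XT.nd (nat_lit 156) (nat_lit 0) (nat_lit 0) (XT.nd (nat_lit 78) (nat_lit 0) (nat_lit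 0) (XT.lf (nat_lit 0) (nat_lit 224117869449) (nat_lit 76) (nat_lit 328508289322) (nat_lit 76) (nat_lit 327208112746) (nat_lit 1) (nat_lit 4) (nat_lit 2) (nat_lit 5) (nat_lit 2) (nat_lit 4) (nat_lit 267) (nat_lit 207) (nat_lit 186)) (XT.lf (nat_lit 0) (nat_lit 260219853750) (nat_lit 76) (nat_lit 376354023462) (nat_lit 76) (nat_lit 375044330960) (nat_lit 1) (nat_lit 4) (nat_lit 2) (nat_lit 5) (nat_lit 2) (nat_lit 4) (nat_lit 268) (nat_lit 207) (nat_lit 185))) (XT.nd (nat_lit 78) (nat_lit 0) (nat_lit 0) (XT.lf (nat_lit 0) (nat_lit 301707856743) (nat_lit 76) (nat_lit 431391049626) (nat_lit 76) (nat_lit 430073082406) (nat_lit 1) (nat_lit 4) (nat_lit 2) (nat_lit 5) (nat_lit 2) (nat_lit 4) (nat_lit 269) (nat_lit 207) (nat_lit 184)) (XT.lf (nat_lit 0) (nat_lit 349393600228) (nat_lit 76) (nat_lit 494696179196) (nat_lit 76) (nat_lit 493371016568) (nat_lit 1) (nat_lit 4) (nat_lit 2) (nat_lit 5)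 (nat_lit 2) (nat_lit 4) (nat_lit 270) (nat_lit 207) (nat_lit 183))))) (XT.nd (nat_lit 312) (nat_lit 0) (nat_lit 0) (XT.nd (nat_lit 156) (nat_lit 0) (nat_lit 0) (XT.nd (nat_lit 78) (nat_lit 0) (nat_lit 0) (XT.lf (nat_lit 0) (nat_lit 404210066141) (nat_lit 76) (nat_lit 567507990793) (nat_lit 76) (nat_lit 566176571289) (nat_lit 1) (nat_lit 4) (nat_lit 2) (nat_lit 5) (nat_lit 2) (nat_lit 4) (nat_lit 271) (nat_lit 207) (nat_lit 182)) (XT.lf (nat_lit 0) (nat_lit 467229750555) (nat_lit 76) (nat_lit 651251063339) (nat_lit 76) (nat_lit 649914203074) (nat_lit 1) (nat_lit 4) (nat_lit 2) (nat_lit 5) (nat_lit 2) (nat_lit 4) (nat_lit 272) (nat_lit 207) (nat_lit 181))) (XT.nd (nat_lit 78) (nat_lit 0) (nat_lit 0) (XT.lf (nat_lit 0) (nat_lit 539685647295) (nat_lit 76) (nat_lit 747563848255) (nat_lit 76) (nat_lit 746222256893) (nat_lit 1) (nat_lit 4) (nat_lit 2) (nat_lit 5) (nat_lit 2) (nat_lit 4) (nat_lit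 273) (nat_lit 207) (nat_lit 180)) (XT.lf (nat_lit 0) (nat_lit 622995371732) (nat_lit 76) (nat_lit 858330726115) (nat_lit 76) (nat_lit 856985020755) (nat_lit 1) (nat_lit 4) (nat_lit 2) (nat_lit 5) (nat_lit 2) (nat_lit 4) (nat_lit 274) (nat_lit 207) (nat_lit 179)))) (XT.nd (nat_lit 156) (nat_lit 0) (nat_lit 0) (XT.nd (nat_lit 78) (nat_lit 0) (nat_lit 0) (XT.lf (nat_lit 0) (nat_lit 718788896736) (nat_lit 76) (nat_lit 985718874963) (nat_lit 76) (nat_lit 984369592214) (nat_lit 1) (nat_lit 4) (nat_lit 2) (nat_lit 5) (nat_lit 2) (nat_lit 4) (nat_lit 275) (nat_lit 207) (nat_lit 178)) (XT.lf (nat_lit 0) (nat_lit 828940443448) (nat_lit 76) (nat_lit 1132220671625) (nat_lit 76) (nat_lit 1130868278104) (nat_lit 1) (nat_lit 4) (nat_lit 2) (nat_lit 5) (nat_lit 2) (nat_lit 4) (nat_lit 276) (nat_lit 207) (nat_lit 177))) (XT.nd (nat_lit 78) (nat_lit 0) (nat_lit 0) (XT.lf (nat_lit 0) (nat_lit 955605150825)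 (nat_lit 76) (nat_lit 1300702455602) (nat_lit 76) (nat_lit 1299347357060) (nat_lit 1) (nat_lit 4) (nat_lit 2) (nat_lit 5) (nat_lit 2) (nat_lit 4) (nat_lit 277) (nat_lit 207) (nat_lit 176)) (XT.nd (nat_lit 78) (nat_lit 0) (nat_lit 0) (XT.lf (nat_lit 0) (nat_lit 1101261241404) (nat_lit 76) (nat_lit 1494460609622) (nat_lit 76) (nat_lit 1493103158889) (nat_lit 1) (nat_lit 4) (nat_lit 2) (nat_lit 5) (nat_lit 2) (nat_lit 4) (nat_lit 278) (nat_lit 207) (nat_lit 175)) (XT.lf (nat_lit 0) (nat_lit 1268758508259) (nat_lit 76) (nat_lit 1717286054091) (nat_lit 76) (nat_lit 1715926557974) (nat_lit 1) (nat_lit 4) (nat_lit 2) (nat_lit 5) (nat_lit 2) (nat_lit 4) (nat_lit 279) (nat_lit 207) (nat_lit 174))))))))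
noncomputable def xc24 : XT := (XT.nd (nat_lit 1872) (nat_lit 0) (nat_lit 0) (XT.nd (nat_lit 624) (nat_lit 0) (nat_lit 0) (XT.nd (nat_lit 312) (nat_lit 0) (nat_lit 0) (XT.nd (nat_lit 156) (nat_lit 0) (nat_lit 0) (XT.nd (nat_lit 78) (nat_lit 0) (nat_lit 0) (XT.lf (nat_lit 0) (nat_lit 1461374071831) (nat_lit 76) (nat_lit 1973538417270) (nat_lit 76) (nat_lit 1972177142559) (nat_lit 1) (nat_lit 4) (nat_lit 2) (nat_lit 5) (nat_lit 2) (nat_lit 4) (nat_lit 280) (nat_lit 207) (nat_lit 173)) (XT.lf (nat_lit 0) (nat_lit 1682876497494) (nat_lit 76) (nat_lit 2268231332352) (nat_lit 76) (nat_lit 2266868511036) (nat_lit 1) (nat_lit 4) (nat_lit 2) (nat_lit 5) (nat_lit 2) (nat_lit 4) (nat_lit 281) (nat_lit 207) (nat_lit 172))) (XT.nd (nat_lit 78) (nat_lit 0) (nat_lit 0) (XT.lf (nat_lit 0) (nat_lit 1937599528357) (nat_lit 76) (nat_lit 2607130530284) (nat_lit 76) (nat_lit 2605766364095) (nat_lit 1) (nat_lit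 4) (nat_lit 2) (nat_lit 5) (nat_lit 2) (nat_lit 4) (nat_lit 282) (nat_lit 207) (nat_lit 171)) (XT.lf (nat_lit 0) (nat_lit 2230526875895) (nat_lit 76) (nat_lit 2996866647547) (nat_lit 76) (nat_lit 2995501311903) (nat_lit 1) (nat_lit 4) (nat_lit 2) (nat_lit 5) (nat_lit 2) (nat_lit 4) (nat_lit 283) (nat_lit 207) (nat_lit 170)))) (XT.nd (nat_lit 156) (nat_lit 0) (nat_lit 0) (XT.nd (nat_lit 78) (nat_lit 0) (nat_lit 0) (XT.lf (nat_lit 0) (nat_lit 2567389727341) (nat_lit 76) (nat_lit 3445064956000) (nat_lit 76) (nat_lit 3443698603440) (nat_lit 1) (nat_lit 4) (nat_lit 2) (nat_lit 5) (nat_lit 2) (nat_lit 4) (nat_lit 284) (nat_lit 207) (nat_lit 169)) (XT.lf (nat_lit 0) (nat_lit 2954778877616) (nat_lit 76) (nat_lit 3960494552984) (nat_lit 76) (nat_lit 3959127316147) (nat_lit 1) (nat_lit 4) (nat_lit 2) (nat_lit 5) (nat_lit 2) (nat_lit 4) (nat_lit 285) (nat_lit 207) (nat_lit 168))) (XT.nd (nat_lit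 78) (nat_lit 0) (nat_lit 0) (XT.lf (nat_lit 0) (nat_lit 3400273679660) (nat_lit 76) (nat_lit 4553239930613) (nat_lit 76) (nat_lit 4551871924840) (nat_lit 1) (nat_lit 4) (nat_lit 2) (nat_lit 5) (nat_lit 2) (nat_lit 4) (nat_lit 286) (nat_lit 207) (nat_lit 167)) (XT.lf (nat_lit 0) (nat_lit 3912590336122) (nat_lit 76) (nat_lit 5234898281057) (nat_lit 76) (nat_lit 5233529606645) (nat_lit 1) (nat_lit 4) (nat_lit 2) (nat_lit 5) (nat_lit 2) (nat_lit 4) (nat_lit 287) (nat_lit 207) (nat_lit 166))))) (XT.nd (nat_lit 312) (nat_lit 0) (nat_lit 0) (XT.nd (nat_lit 156) (nat_lit 0) (nat_lit 0) (XT.nd (nat_lit 78) (nat_lit 0) (nat_lit 0) (XT.lf (nat_lit 0) (nat_lit 4501752433757) (nat_lit 76) (nat_lit 6018806398130) (nat_lit 76) (nat_lit 6017437142293) (nat_lit 1) (nat_lit 4) (nat_lit 2) (nat_lit 5) (nat_lit 2) (nat_lit 4) (nat_lit 288) (nat_lit 207) (nat_lit 165)) (XT.lf (nat_lit 0) (nat_lit 5179287057086)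 (nat_lit 76) (nat_lit 6920301614558) (nat_lit 76) (nat_lit 6918931853133) (nat_lit 1) (nat_lit 4) (nat_lit 2) (nat_lit 5) (nat_lit 2) (nat_lit 4) (nat_lit 289) (nat_lit 207) (nat_lit 164))) (XT.nd (nat_lit 78) (nat_lit 0) (nat_lit 0) (XT.lf (nat_lit 0) (nat_lit 5958450318303) (nat_lit 76) (nat_lit 7957021880227) (nat_lit 76) (nat_lit 7955651679160) (nat_lit 1) (nat_lit 4) (nat_lit 2) (nat_lit 5) (nat_lit 2) (nat_lit 4) (nat_lit 290) (nat_lit 207) (nat_lit 163)) (XT.lf (nat_lit 0) (nat_lit 6854486715998) (nat_lit 76) (nat_lit 9149250852508) (nat_lit 76) (nat_lit 9147880269144) (nat_lit 1) (nat_lit 4) (nat_lit 2) (nat_lit 5) (nat_lit 2) (nat_lit 4) (nat_lit 291) (nat_lit 207) (nat_lit 162)))) (XT.nd (nat_lit 156) (nat_lit 0) (nat_lit 0) (XT.nd (nat_lit 78) (nat_lit 0) (nat_lit 0) (XT.lf (nat_lit 0) (nat_lit 7884927397083) (nat_lit 76) (nat_lit 10520314750425) (nat_lit 76) (nat_lit 10518943834629)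 (nat_lit 1) (nat_lit 4) (nat_lit 2) (nat_lit 5) (nat_lit 2) (nat_lit 4) (nat_lit 292) (nat_lit 207) (nat_lit 161)) (XT.lf (nat_lit 0) (nat_lit 9069933157491) (nat_lit 76) (nat_lit 12097038737198) (nat_lit 76) (nat_lit 12095667532331) (nat_lit 1) (nat_lit 4) (nat_lit 2) (nat_lit 5) (nat_lit 2) (nat_lit 4) (nat_lit 293) (nat_lit 207) (nat_lit 160))) (XT.nd (nat_lit 78) (nat_lit 0) (nat_lit 0) (XT.lf (nat_lit 0) (nat_lit 10432688892534) (nat_lit 76) (nat_lit 13910271760393) (nat_lit 76) (nat_lit 13908900304160) (nat_lit 1) (nat_lit 4) (nat_lit 2) (nat_lit 5) (nat_lit 2) (nat_lit 4) (nat_lit 294) (nat_lit 207) (nat_lit 159)) (XT.nd (nat_lit 624) (nat_lit 0) (nat_lit 0) (XT.lf (nat_lit 0) (nat_lit 11999857214421) (nat_lit 76) (nat_lit 15995490118292) (nat_lit 76) (nat_lit 15994118443479) (nat_lit 1) (nat_lit 4) (nat_lit 2) (nat_lit 5) (nat_lit 2) (nat_lit 4) (nat_lit 295) (nat_lit 207) (nat_lit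 158)) (XT.lf (nat_lit 0) (nat_lit 36738901550816) (nat_lit 76) (nat_lit 48912430895104) (nat_lit 76) (nat_lit 48911058239455) (nat_lit 1) (nat_lit 4) (nat_lit 2) (nat_lit 5) (nat_lit 2) (nat_lit 4) (nat_lit 303) (nat_lit 207) (nat_lit 150))))))) (XT.nd (nat_lit 29874) (nat_lit 0) (nat_lit 0) (XT.nd (nat_lit 312) (nat_lit 0) (nat_lit 0) (XT.nd (nat_lit 156) (nat_lit 0) (nat_lit 0) (XT.nd (nat_lit 78) (nat_lit 0) (nat_lit 0) (XT.lf (nat_lit 0) (nat_lit 42251998081038) (nat_lit 76) (nat_lit 56247974942250) (nat_lit 76) (nat_lit 56246602224467) (nat_lit 1) (nat_lit 4) (nat_lit 2) (nat_lit 5) (nat_lit 2) (nat_lit 4) (nat_lit 304) (nat_lit 207) (nat_lit 149)) (XT.lf (nat_lit 0) (nat_lit 48592058899618) (nat_lit 76) (nat_lit 64683850690699) (nat_lit 76) (nat_lit 64682477918887) (nat_lit 1) (nat_lit 4) (nat_lit 2) (nat_lit 5) (nat_lit 2) (nat_lit 4) (nat_lit 305) (nat_lit 207) (nat_lit 148)))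 (XT.nd (nat_lit 78) (nat_lit 0) (nat_lit 0) (XT.lf (nat_lit 0) (nat_lit 55883128674745) (nat_lit 76) (nat_lit 74385107883358) (nat_lit 76) (nat_lit 74383735064563) (nat_lit 1) (nat_lit 4) (nat_lit 2) (nat_lit 5) (nat_lit 2) (nat_lit 4) (nat_lit 306) (nat_lit 207) (nat_lit 147)) (XT.lf (nat_lit 0) (nat_lit 64267858771584) (nat_lit 76) (nat_lit 85541553726169) (nat_lit 76) (nat_lit 85540180866520) (nat_lit 1) (nat_lit 4) (nat_lit 2) (nat_lit 5) (nat_lit 2) (nat_lit 4) (nat_lit 307) (nat_lit 207) (nat_lit 146)))) (XT.nd (nat_lit 29406) (nat_lit 0) (nat_lit 76) (XT.nd (nat_lit 78) (nat_lit 0) (nat_lit 0) (XT.lf (nat_lit 0) (nat_lit 73910298257248) (nat_lit 76) (nat_lit 98371466507361) (nat_lit 76) (nat_lit 98370093612187) (nat_lit 1) (nat_lit 4) (nat_lit 2) (nat_lit 5) (nat_lit 2) (nat_lit 4) (nat_lit 308) (nat_lit 207) (nat_lit 145)) (XT.lf (nat_lit 0) (nat_lit 84999103556455) (nat_lit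 76) (nat_lit 113125866259610) (nat_lit 76) (nat_lit 113124493333544) (nat_lit 1) (nat_lit 4) (nat_lit 2) (nat_lit 5) (nat_lit 2) (nat_lit 4) (nat_lit 309) (nat_lit 207) (nat_lit 144))) (XT.nd (nat_lit 78) (nat_lit 0) (nat_lit 0) (XT.lf (nat_lit 0) (nat_lit 3756577385) (nat_lit 152) (nat_lit 11391510042) (nat_lit 0) (nat_lit 3756577385) (nat_lit 2) (nat_lit 5) (nat_lit 4) (nat_lit 4) (nat_lit 2) (nat_lit 4) (nat_lit 244) (nat_lit 208) (nat_lit 208)) (XT.lf (nat_lit 0) (nat_lit 11876058066) (nat_lit 152) (nat_lit 19406941123) (nat_lit 0) (nat_lit 11670088265) (nat_lit 2) (nat_lit 5) (nat_lit 4) (nat_lit 4) (nat_lit 2) (nat_lit 4) (nat_lit 245) (nat_lit 208) (nat_lit 207))))) (XT.nd (nat_lit 312) (nat_lit 76) (nat_lit 0) (XT.nd (nat_lit 156) (nat_lit 0) (nat_lit 0) (XT.nd (nat_lit 78) (nat_lit 0) (nat_lit 0) (XT.lf (nat_lit 0) (nat_lit 16598277885) (nat_lit 152) (nat_lit 16101766274) (nat_lit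 0) (nat_lit 16213203909) (nat_lit 2) (nat_lit 5) (nat_lit 4) (nat_lit 4) (nat_lit 2) (nat_lit 4) (nat_lit 246) (nat_lit 208) (nat_lit 206)) (XT.lf (nat_lit 0) (nat_lit 21772205483) (nat_lit 152) (nat_lit 12802829075) (nat_lit 0) (nat_lit 21231388746) (nat_lit 2) (nat_lit 5) (nat_lit 4) (nat_lit 4) (nat_lit 2) (nat_lit 4) (nat_lit 247) (nat_lit 208) (nat_lit 205))) (XT.nd (nat_lit 78) (nat_lit 0) (nat_lit 0) (XT.lf (nat_lit 0) (nat_lit 27499069878) (nat_lit 152) (nat_lit 9445585102) (nat_lit 0) (nat_lit 26822824653) (nat_lit 2) (nat_lit 5) (nat_lit 4) (nat_lit 4) (nat_lit 2) (nat_lit 4) (nat_lit 248) (nat_lit 208) (nat_lit 204)) (XT.lf (nat_lit 0) (nat_lit 33890918418) (nat_lit 152) (nat_lit 5964349148) (nat_lit 0) (nat_lit 33096909290) (nat_lit 2) (nat_lit 5) (nat_lit 4) (nat_lit 4) (nat_lit 2) (nat_lit 4) (nat_lit 249) (nat_lit 208) (nat_lit 203)))) (XT.nd (nat_lit 156) (nat_lit 0)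 (nat_lit 0) (XT.nd (nat_lit 78) (nat_lit 76) (nat_lit 0) (XT.lf (nat_lit 0) (nat_lit 41072809008) (nat_lit 152) (nat_lit 2291010072) (nat_lit 0) (nat_lit 40176396487) (nat_lit 2) (nat_lit 5) (nat_lit 4) (nat_lit 4) (nat_lit 2) (nat_lit 4) (nat_lit 250) (nat_lit 208) (nat_lit 202)) (XT.lf (nat_lit 0) (nat_lit 1807190385) (nat_lit 76) (nat_lit 47452898414) (nat_lit 76) (nat_lit 46467439464) (nat_lit 1) (nat_lit 4) (nat_lit 2) (nat_lit 5) (nat_lit 2) (nat_lit 4) (nat_lit 251) (nat_lit 208) (nat_lit 201))) (XT.nd (nat_lit 78) (nat_lit 0) (nat_lit 0) (XT.lf (nat_lit 0) (nat_lit 6503617869) (nat_lit 76) (nat_lit 52152666975) (nat_lit 76) (nat_lit 51089776347) (nat_lit 1) (nat_lit 4) (nat_lit 2) (nat_lit 5) (nat_lit 2) (nat_lit 4) (nat_lit 252) (nat_lit 208) (nat_lit 200)) (XT.nd (nat_lit 78) (nat_lit 0) (nat_lit 0) (XT.lf (nat_lit 0) (nat_lit 11666264839) (nat_lit 76) (nat_lit 57674834103)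 (nat_lit 76) (nat_lit 56544611582) (nat_lit 1) (nat_lit 4) (nat_lit 2) (nat_lit 5) (nat_lit 2) (nat_lit 4) (nat_lit 253) (nat_lit 208) (nat_lit 199)) (XT.lf (nat_lit 0) (nat_lit 17396139604) (nat_lit 76) (nat_lit 64127442197) (nat_lit 76) (nat_lit 62938670203) (nat_lit 1) (nat_lit 4) (nat_lit 2) (nat_lit 5) (nat_lit 2) (nat_lit 4) (nat_lit 254) (nat_lit 208) (nat_lit 198))))))))
noncomputable def xc25 : XT := (XT.nd (nat_lit 1326) (nat_lit 0) (nat_lit 0) (XT.nd (nat_lit 624) (nat_lit 0) (nat_lit 0) (XT.nd (nat_lit 312) (nat_lit 0) (nat_lit 0) (XT.nd (nat_lit 156) (nat_lit 0) (nat_lit 0) (XT.nd (nat_lit 78) (nat_lit 0) (nat_lit 0) (XT.lf (nat_lit 0) (nat_lit 23805348410) (nat_lit 76) (nat_lit 71636737938) (nat_lit 76) (nat_lit 70397053360) (nat_lit 1) (nat_lit 4) (nat_lit 2) (nat_lit 5) (nat_lit 2) (nat_lit 4) (nat_lit 255) (nat_lit 208) (nat_lit 197)) (XT.lf (nat_lit 0) (nat_lit 31019288820)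 (nat_lit 76) (nat_lit 80349642330) (nat_lit 76) (nat_lit 79065685939) (nat_lit 1) (nat_lit 4) (nat_lit 2) (nat_lit 5) (nat_lit 2) (nat_lit 4) (nat_lit 256) (nat_lit 208) (nat_lit 196))) (XT.nd (nat_lit 78) (nat_lit 0) (nat_lit 0) (XT.lf (nat_lit 0) (nat_lit 39179103147) (nat_lit 76) (nat_lit 90436625241) (nat_lit 76) (nat_lit 89114171621) (nat_lit 1) (nat_lit 4) (nat_lit 2) (nat_lit 5) (nat_lit 2) (nat_lit 4) (nat_lit 257) (nat_lit 208) (nat_lit 195)) (XT.lf (nat_lit 0) (nat_lit 48444439932) (nat_lit 76) (nat_lit 102095040684) (nat_lit 76) (nat_lit 100739111213) (nat_lit 1) (nat_lit 4) (nat_lit 2) (nat_lit 5) (nat_lit 2) (nat_lit 4) (nat_lit 258) (nat_lit 208) (nat_lit 194)))) (XT.nd (nat_lit 156) (nat_lit 0) (nat_lit 0) (XT.nd (nat_lit 78) (nat_lit 0) (nat_lit 0) (XT.lf (nat_lit 0) (nat_lit 58996577503) (nat_lit 76) (nat_lit 115552988092) (nat_lit 76) (nat_lit 114167949185) (nat_lit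 1) (nat_lit 4) (nat_lit 2) (nat_lit 5) (nat_lit 2) (nat_lit 4) (nat_lit 259) (nat_lit 208) (nat_lit 193)) (XT.lf (nat_lit 0) (nat_lit 71041970726) (nat_lit 76) (nat_lit 131073775132) (nat_lit 76) (nat_lit 129663423673) (nat_lit 1) (nat_lit 4) (nat_lit 2) (nat_lit 5) (nat_lit 2) (nat_lit 4) (nat_lit 260) (nat_lit 208) (nat_lit 192))) (XT.nd (nat_lit 78) (nat_lit 0) (nat_lit 0) (XT.lf (nat_lit 0) (nat_lit 84816290337) (nat_lit 76) (nat_lit 148961069376) (nat_lit 76) (nat_lit 147528707001) (nat_lit 1) (nat_lit 4) (nat_lit 2) (nat_lit 5) (nat_lit 2) (nat_lit 4) (nat_lit 261) (nat_lit 208) (nat_lit 191)) (XT.lf (nat_lit 0) (nat_lit 100589033895) (nat_lit 76) (nat_lit 169564839625) (nat_lit 76) (nat_lit 168113337324) (nat_lit 1) (nat_lit 4) (nat_lit 2) (nat_lit 5) (nat_lit 2) (nat_lit 4) (nat_lit 262) (nat_lit 208) (nat_lit 190))))) (XT.nd (nat_lit 312) (nat_lit 0) (nat_lit 0) (XT.nd (nat_lit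 156) (nat_lit 0) (nat_lit 0) (XT.nd (nat_lit 78) (nat_lit 0) (nat_lit 0) (XT.lf (nat_lit 0) (nat_lit 118668798556) (nat_lit 76) (nat_lit 193288203122) (nat_lit 76) (nat_lit 191820057407) (nat_lit 1) (nat_lit 4) (nat_lit 2) (nat_lit 5) (nat_lit 2) (nat_lit 4) (nat_lit 263) (nat_lit 208) (nat_lit 189)) (XT.lf (nat_lit 0) (nat_lit 139409318846) (nat_lit 76) (nat_lit 220595312633) (nat_lit 76) (nat_lit 219112694383) (nat_lit 1) (nat_lit 4) (nat_lit 2) (nat_lit 5) (nat_lit 2) (nat_lit 4) (nat_lit 264) (nat_lit 208) (nat_lit 188))) (XT.nd (nat_lit 78) (nat_lit 0) (nat_lit 0) (XT.lf (nat_lit 0) (nat_lit 163216387554) (nat_lit 76) (nat_lit 252020437690) (nat_lit 76) (nat_lit 250525234628) (nat_lit 1) (nat_lit 4) (nat_lit 2) (nat_lit 5) (nat_lit 2) (nat_lit 4) (nat_lit 265) (nat_lit 208) (nat_lit 187)) (XT.lf (nat_lit 0) (nat_lit 190555795153) (nat_lit 76) (nat_lit 288178417697) (nat_lit 76)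 (nat_lit 286672271320) (nat_lit 1) (nat_lit 4) (nat_lit 2) (nat_lit 5) (nat_lit 2) (nat_lit 4) (nat_lit 266) (nat_lit 208) (nat_lit 186)))) (XT.nd (nat_lit 156) (nat_lit 0) (nat_lit 0) (XT.nd (nat_lit 78) (nat_lit 0) (nat_lit 0) (XT.lf (nat_lit 0) (nat_lit 221962443097) (nat_lit 76) (nat_lit 329776691393) (nat_lit 76) (nat_lit 328261029090) (nat_lit 1) (nat_lit 4) (nat_lit 2) (nat_lit 5) (nat_lit 2) (nat_lit 4) (nat_lit 267) (nat_lit 208) (nat_lit 185)) (XT.lf (nat_lit 0) (nat_lit 258050809280) (nat_lit 76) (nat_lit 377629138046) (nat_lit 76) (nat_lit 376105201024) (nat_lit 1) (nat_lit 4) (nat_lit 2) (nat_lit 5) (nat_lit 2) (nat_lit 4) (nat_lit 268) (nat_lit 208) (nat_lit 184))) (XT.nd (nat_lit 78) (nat_lit 0) (nat_lit 0) (XT.lf (nat_lit 0) (nat_lit 299526970433) (nat_lit 76) (nat_lit 432672001178) (nat_lit 76) (nat_lit 431140868749) (nat_lit 1) (nat_lit 4) (nat_lit 2) (nat_lit 5) (nat_lit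 2) (nat_lit 4) (nat_lit 269) (nat_lit 208) (nat_lit 183)) (XT.nd (nat_lit 78) (nat_lit 0) (nat_lit 0) (XT.lf (nat_lit 0) (nat_lit 347202416665) (nat_lit 76) (nat_lit 495982206372) (nat_lit 76) (nat_lit 494444817067) (nat_lit 1) (nat_lit 4) (nat_lit 2) (nat_lit 5) (nat_lit 2) (nat_lit 4) (nat_lit 270) (nat_lit 208) (nat_lit 182)) (XT.lf (nat_lit 0) (nat_lit 402009928445) (nat_lit 76) (nat_lit 568798431555) (nat_lit 76) (nat_lit 567255601488) (nat_lit 1) (nat_lit 4) (nat_lit 2) (nat_lit 5) (nat_lit 2) (nat_lit 4) (nat_lit 271) (nat_lit 208) (nat_lit 181))))))) (XT.nd (nat_lit 624) (nat_lit 0) (nat_lit 0) (XT.nd (nat_lit 312) (nat_lit 0) (nat_lit 0) (XT.nd (nat_lit 156) (nat_lit 0) (nat_lit 0) (XT.nd (nat_lit 78) (nat_lit 0) (nat_lit 0) (XT.lf (nat_lit 0) (nat_lit 465021826656) (nat_lit 76) (nat_lit 652545342002) (nat_lit 76) (nat_lit 650997780839) (nat_lit 1) (nat_lit 4) (nat_lit 2) (nat_lit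 5) (nat_lit 2) (nat_lit 4) (nat_lit 272) (nat_lit 208) (nat_lit 180)) (XT.lf (nat_lit 0) (nat_lit 537470952785) (nat_lit 76) (nat_lit 748861464223) (nat_lit 76) (nat_lit 747309789063) (nat_lit 1) (nat_lit 4) (nat_lit 2) (nat_lit 5) (nat_lit 2) (nat_lit 4) (nat_lit 273) (nat_lit 208) (nat_lit 179))) (XT.nd (nat_lit 78) (nat_lit 0) (nat_lit 0) (XT.lf (nat_lit 0) (nat_lit 620774789734) (nat_lit 76) (nat_lit 859631244088) (nat_lit 76) (nat_lit 858075991538) (nat_lit 1) (nat_lit 4) (nat_lit 2) (nat_lit 5) (nat_lit 2) (nat_lit 4) (nat_lit 274) (nat_lit 208) (nat_lit 178)) (XT.lf (nat_lit 0) (nat_lit 716563195183) (nat_lit 76) (nat_lit 987021916418) (nat_lit 76) (nat_lit 985463553095) (nat_lit 1) (nat_lit 4) (nat_lit 2) (nat_lit 5) (nat_lit 2) (nat_lit 4) (nat_lit 275) (nat_lit 208) (nat_lit 177)))) (XT.nd (nat_lit 156) (nat_lit 0) (nat_lit 0) (XT.nd (nat_lit 78) (nat_lit 0) (nat_lit 0) (XT.lf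 (nat_lit 0) (nat_lit 826710290109) (nat_lit 76) (nat_lit 1133525907413) (nat_lit 76) (nat_lit 1131964839070) (nat_lit 1) (nat_lit 4) (nat_lit 2) (nat_lit 5) (nat_lit 2) (nat_lit 4) (nat_lit 276) (nat_lit 208) (nat_lit 176)) (XT.lf (nat_lit 0) (nat_lit 953371126367) (nat_lit 76) (nat_lit 1302009599505) (nat_lit 76) (nat_lit 1300446178970) (nat_lit 1) (nat_lit 4) (nat_lit 2) (nat_lit 5) (nat_lit 2) (nat_lit 4) (nat_lit 277) (nat_lit 208) (nat_lit 175))) (XT.nd (nat_lit 78) (nat_lit 0) (nat_lit 0) (XT.lf (nat_lit 0) (nat_lit 1099023850755) (nat_lit 76) (nat_lit 1495769412755) (nat_lit 76) (nat_lit 1494203946837) (nat_lit 1) (nat_lit 4) (nat_lit 2) (nat_lit 5) (nat_lit 2) (nat_lit 4) (nat_lit 278) (nat_lit 208) (nat_lit 174)) (XT.lf (nat_lit 0) (nat_lit 1266518190489) (nat_lit 76) (nat_lit 1718596300034) (nat_lit 76) (nat_lit 1717029055520) (nat_lit 1) (nat_lit 4) (nat_lit 2) (nat_lit 5)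 (nat_lit 2) (nat_lit 4) (nat_lit 279) (nat_lit 208) (nat_lit 173))))) (XT.nd (nat_lit 312) (nat_lit 0) (nat_lit 0) (XT.nd (nat_lit 156) (nat_lit 0) (nat_lit 0) (XT.nd (nat_lit 78) (nat_lit 0) (nat_lit 0) (XT.lf (nat_lit 0) (nat_lit 1459131208737) (nat_lit 76) (nat_lit 1974849917829) (nat_lit 76) (nat_lit 1973281126712) (nat_lit 1) (nat_lit 4) (nat_lit 2) (nat_lit 5) (nat_lit 2) (nat_lit 4) (nat_lit 280) (nat_lit 208) (nat_lit 172)) (XT.lf (nat_lit 0) (nat_lit 1680631421075) (nat_lit 76) (nat_lit 2269543923882) (nat_lit 76) (nat_lit 2267973787892) (nat_lit 1) (nat_lit 4) (nat_lit 2) (nat_lit 5) (nat_lit 2) (nat_lit 4) (nat_lit 281) (nat_lit 208) (nat_lit 171))) (XT.nd (nat_lit 78) (nat_lit 0) (nat_lit 0) (XT.lf (nat_lit 0) (nat_lit 1935352527308) (nat_lit 76) (nat_lit 2608444070484) (nat_lit 76) (nat_lit 2606872765039) (nat_lit 1) (nat_lit 4) (nat_lit 2) (nat_lit 5) (nat_lit 2) (nat_lit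 4) (nat_lit 282) (nat_lit 208) (nat_lit 170)) (XT.lf (nat_lit 0) (nat_lit 2228278201254) (nat_lit 76) (nat_lit 2998181012678) (nat_lit 76) (nat_lit 2996608690316) (nat_lit 1) (nat_lit 4) (nat_lit 2) (nat_lit 5) (nat_lit 2) (nat_lit 4) (nat_lit 283) (nat_lit 208) (nat_lit 169)))) (XT.nd (nat_lit 156) (nat_lit 0) (nat_lit 0) (XT.nd (nat_lit 78) (nat_lit 0) (nat_lit 0) (XT.lf (nat_lit 0) (nat_lit 2565139597404) (nat_lit 76) (nat_lit 3446380038463) (nat_lit 76) (nat_lit 3444806831825) (nat_lit 1) (nat_lit 4) (nat_lit 2) (nat_lit 5) (nat_lit 2) (nat_lit 4) (nat_lit 284) (nat_lit 208) (nat_lit 168)) (XT.lf (nat_lit 0) (nat_lit 2952527482203) (nat_lit 76) (nat_lit 3961810259213) (nat_lit 76) (nat_lit 3960236283639) (nat_lit 1) (nat_lit 4) (nat_lit 2) (nat_lit 5) (nat_lit 2) (nat_lit 4) (nat_lit 285) (nat_lit 208) (nat_lit 167))) (XT.nd (nat_lit 78) (nat_lit 0) (nat_lit 0) (XT.lf (nat_lit 0)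 (nat_lit 3398021183833) (nat_lit 76) (nat_lit 4554556179247) (nat_lit 76) (nat_lit 4552981535033) (nat_lit 1) (nat_lit 4) (nat_lit 2) (nat_lit 5) (nat_lit 2) (nat_lit 4) (nat_lit 286) (nat_lit 208) (nat_lit 166)) (XT.nd (nat_lit 78) (nat_lit 0) (nat_lit 0) (XT.lf (nat_lit 0) (nat_lit 3910336883413) (nat_lit 76) (nat_lit 5236215001348) (nat_lit 76) (nat_lit 5234639775709) (nat_lit 1) (nat_lit 4) (nat_lit 2) (nat_lit 5) (nat_lit 2) (nat_lit 4) (nat_lit 287) (nat_lit 208) (nat_lit 165)) (XT.lf (nat_lit 0) (nat_lit 4499498148978) (nat_lit 76) (nat_lit 6020123528558) (nat_lit 76) (nat_lit 6018547797331) (nat_lit 1) (nat_lit 4) (nat_lit 2) (nat_lit 5) (nat_lit 2) (nat_lit 4) (nat_lit 288) (nat_lit 208) (nat_lit 164))))))))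
noncomputable def xc26 : XT := (XT.nd (nat_lit 30888) (nat_lit 0) (nat_lit 0) (XT.nd (nat_lit 624) (nat_lit 0) (nat_lit 0) (XT.nd (nat_lit 312) (nat_lit 0) (nat_lit 0) (XT.nd (nat_lit 156) (nat_lit 0) (nat_lit 0) (XT.nd (nat_lit 78) (nat_lit 0) (nat_lit 0) (XT.lf (nat_lit 0) (nat_lit 5177032048767) (nat_lit 76) (nat_lit 6921619101626) (nat_lit 76) (nat_lit 6920042930758) (nat_lit 1) (nat_lit 4) (nat_lit 2) (nat_lit 5) (nat_lit 2) (nat_lit 4) (nat_lit 289) (nat_lit 208) (nat_lit 163)) (XT.lf (nat_lit 0) (nat_lit 5956194680819) (nat_lit 76) (nat_lit 7958339677416) (nat_lit 76) (nat_lit 7956763124252) (nat_lit 1) (nat_lit 4) (nat_lit 2) (nat_lit 5) (nat_lit 2) (nat_lit 4) (nat_lit 290) (nat_lit 208) (nat_lit 162))) (XT.nd (nat_lit 78) (nat_lit 0) (nat_lit 0) (XT.lf (nat_lit 0) (nat_lit 6852230531414) (nat_lit 76) (nat_lit 9150568919369) (nat_lit 76) (nat_lit 9148992033772) (nat_lit 1)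 (nat_lit 4) (nat_lit 2) (nat_lit 5) (nat_lit 2) (nat_lit 4) (nat_lit 291) (nat_lit 208) (nat_lit 161)) (XT.lf (nat_lit 0) (nat_lit 7882670736760) (nat_lit 76) (nat_lit 10521633051783) (nat_lit 76) (nat_lit 10520055877114) (nat_lit 1) (nat_lit 4) (nat_lit 2) (nat_lit 5) (nat_lit 2) (nat_lit 4) (nat_lit 292) (nat_lit 208) (nat_lit 160)))) (XT.nd (nat_lit 156) (nat_lit 0) (nat_lit 0) (XT.nd (nat_lit 78) (nat_lit 0) (nat_lit 0) (XT.lf (nat_lit 0) (nat_lit 9067676083481) (nat_lit 76) (nat_lit 12098357242466) (nat_lit 76) (nat_lit 12096779816431) (nat_lit 1) (nat_lit 4) (nat_lit 2) (nat_lit 5) (nat_lit 2) (nat_lit 4) (nat_lit 293) (nat_lit 208) (nat_lit 159)) (XT.lf (nat_lit 0) (nat_lit 10430431458798) (nat_lit 76) (nat_lit 13911590442975) (nat_lit 76) (nat_lit 13910012798360) (nat_lit 1) (nat_lit 4) (nat_lit 2) (nat_lit 5) (nat_lit 2) (nat_lit 4) (nat_lit 294) (nat_lit 208) (nat_lit 158)))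 (XT.nd (nat_lit 78) (nat_lit 0) (nat_lit 0) (XT.lf (nat_lit 0) (nat_lit 11997599467879) (nat_lit 76) (nat_lit 15996808955059) (nat_lit 76) (nat_lit 15995231120375) (nat_lit 1) (nat_lit 4) (nat_lit 2) (nat_lit 5) (nat_lit 2) (nat_lit 4) (nat_lit 295) (nat_lit 208) (nat_lit 157)) (XT.lf (nat_lit 0) (nat_lit 13799842093510) (nat_lit 76) (nat_lit 18394810532215) (nat_lit 76) (nat_lit 18393232532254) (nat_lit 1) (nat_lit 4) (nat_lit 2) (nat_lit 5) (nat_lit 2) (nat_lit 4) (nat_lit 296) (nat_lit 208) (nat_lit 156))))) (XT.nd (nat_lit 702) (nat_lit 0) (nat_lit 0) (XT.nd (nat_lit 546) (nat_lit 0) (nat_lit 0) (XT.nd (nat_lit 468) (nat_lit 0) (nat_lit 0) (XT.lf (nat_lit 0) (nat_lit 15872420604454) (nat_lit 76) (nat_lit 21152512596605) (nat_lit 76) (nat_lit 21150934452925) (nat_lit 1) (nat_lit 4) (nat_lit 2) (nat_lit 5) (nat_lit 2) (nat_lit 4) (nat_lit 297) (nat_lit 208) (nat_lit 155)) (XT.lf (nat_lit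 0) (nat_lit 36736642400611) (nat_lit 76) (nat_lit 48913750423751) (nat_lit 76) (nat_lit 48912171736166) (nat_lit 1) (nat_lit 4) (nat_lit 2) (nat_lit 5) (nat_lit 2) (nat_lit 4) (nat_lit 303) (nat_lit 208) (nat_lit 149))) (XT.nd (nat_lit 78) (nat_lit 0) (nat_lit 0) (XT.lf (nat_lit 0) (nat_lit 42249738841915) (nat_lit 76) (nat_lit 56249294514725) (nat_lit 76) (nat_lit 56247715773112) (nat_lit 1) (nat_lit 4) (nat_lit 2) (nat_lit 5) (nat_lit 2) (nat_lit 4) (nat_lit 304) (nat_lit 208) (nat_lit 148)) (XT.lf (nat_lit 0) (nat_lit 48589799583173) (nat_lit 76) (nat_lit 64685170301288) (nat_lit 76) (nat_lit 64683591512691) (nat_lit 1) (nat_lit 4) (nat_lit 2) (nat_lit 5) (nat_lit 2) (nat_lit 4) (nat_lit 305) (nat_lit 208) (nat_lit 147)))) (XT.nd (nat_lit 156) (nat_lit 0) (nat_lit 0) (XT.nd (nat_lit 78) (nat_lit 0) (nat_lit 0) (XT.lf (nat_lit 0) (nat_lit 55880869291065) (nat_lit 76) (nat_lit 74386427527088)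 (nat_lit 76) (nat_lit 74384848697637) (nat_lit 1) (nat_lit 4) (nat_lit 2) (nat_lit 5) (nat_lit 2) (nat_lit 4) (nat_lit 306) (nat_lit 208) (nat_lit 146)) (XT.lf (nat_lit 0) (nat_lit 64265599329438) (nat_lit 76) (nat_lit 85542873398717) (nat_lit 76) (nat_lit 85541294533741) (nat_lit 1) (nat_lit 4) (nat_lit 2) (nat_lit 5) (nat_lit 2) (nat_lit 4) (nat_lit 307) (nat_lit 208) (nat_lit 145))) (XT.nd (nat_lit 29250) (nat_lit 0) (nat_lit 76) (XT.lf (nat_lit 0) (nat_lit 73908038764262) (nat_lit 76) (nat_lit 98372786204968) (nat_lit 76) (nat_lit 98371207309101) (nat_lit 1) (nat_lit 4) (nat_lit 2) (nat_lit 5) (nat_lit 2) (nat_lit 4) (nat_lit 308) (nat_lit 208) (nat_lit 144)) (XT.nd (nat_lit 78) (nat_lit 152) (nat_lit 0) (XT.lf (nat_lit 0) (nat_lit 14726769490) (nat_lit 76) (nat_lit 25003894) (nat_lit 76) (nat_lit 25003894) (nat_lit 4) (nat_lit 4) (nat_lit 5) (nat_lit 5) (nat_lit 5) (nat_lit 4)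 (nat_lit 242) (nat_lit 209) (nat_lit 209)) (XT.lf (nat_lit 0) (nat_lit 3661072115) (nat_lit 152) (nat_lit 26296056881) (nat_lit 0) (nat_lit 3424206843) (nat_lit 2) (nat_lit 5) (nat_lit 4) (nat_lit 4) (nat_lit 2) (nat_lit 4) (nat_lit 243) (nat_lit 209) (nat_lit 208))))))) (XT.nd (nat_lit 624) (nat_lit 0) (nat_lit 0) (XT.nd (nat_lit 312) (nat_lit 76) (nat_lit 0) (XT.nd (nat_lit 156) (nat_lit 0) (nat_lit 0) (XT.nd (nat_lit 78) (nat_lit 0) (nat_lit 0) (XT.lf (nat_lit 0) (nat_lit 7592165707) (nat_lit 152) (nat_lit 23091816993) (nat_lit 0) (nat_lit 7149330634) (nat_lit 2) (nat_lit 5) (nat_lit 4) (nat_lit 4) (nat_lit 2) (nat_lit 4) (nat_lit 244) (nat_lit 209) (nat_lit 207)) (XT.lf (nat_lit 0) (nat_lit 11817804365) (nat_lit 152) (nat_lit 19984257081) (nat_lit 0) (nat_lit 11195865117) (nat_lit 2) (nat_lit 5) (nat_lit 4) (nat_lit 4) (nat_lit 2) (nat_lit 4) (nat_lit 245) (nat_lit 209) (nat_lit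 206))) (XT.nd (nat_lit 78) (nat_lit 0) (nat_lit 0) (XT.lf (nat_lit 0) (nat_lit 16420663629) (nat_lit 152) (nat_lit 16912577059) (nat_lit 0) (nat_lit 15642981620) (nat_lit 2) (nat_lit 5) (nat_lit 4) (nat_lit 4) (nat_lit 2) (nat_lit 4) (nat_lit 246) (nat_lit 209) (nat_lit 205)) (XT.lf (nat_lit 0) (nat_lit 21490799440) (nat_lit 152) (nat_lit 13816678840) (nat_lit 0) (nat_lit 20577688943) (nat_lit 2) (nat_lit 5) (nat_lit 4) (nat_lit 4) (nat_lit 2) (nat_lit 4) (nat_lit 247) (nat_lit 209) (nat_lit 204)))) (XT.nd (nat_lit 156) (nat_lit 76) (nat_lit 0) (XT.nd (nat_lit 78) (nat_lit 0) (nat_lit 0) (XT.lf (nat_lit 0) (nat_lit 27127410107) (nat_lit 152) (nat_lit 10635990501) (nat_lit 0) (nat_lit 26096535708) (nat_lit 2) (nat_lit 5) (nat_lit 4) (nat_lit 4) (nat_lit 2) (nat_lit 4) (nat_lit 248) (nat_lit 209) (nat_lit 203)) (XT.lf (nat_lit 0) (nat_lit 33440777144) (nat_lit 152) (nat_lit 7308281185)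 (nat_lit 0) (nat_lit 32307499351) (nat_lit 2) (nat_lit 5) (nat_lit 4) (nat_lit 4) (nat_lit 2) (nat_lit 4) (nat_lit 249) (nat_lit 209) (nat_lit 202))) (XT.nd (nat_lit 78) (nat_lit 76) (nat_lit 0) (XT.lf (nat_lit 0) (nat_lit 40554422949) (nat_lit 152) (nat_lit 3768443535) (nat_lit 0) (nat_lit 39332098727) (nat_lit 2) (nat_lit 5) (nat_lit 4) (nat_lit 4) (nat_lit 2) (nat_lit 4) (nat_lit 250) (nat_lit 209) (nat_lit 201)) (XT.lf (nat_lit 0) (nat_lit 57938201) (nat_lit 76) (nat_lit 48551988445) (nat_lit 76) (nat_lit 47252232546) (nat_lit 1) (nat_lit 4) (nat_lit 2) (nat_lit 5) (nat_lit 2) (nat_lit 4) (nat_lit 251) (nat_lit 209) (nat_lit 200))))) (XT.nd (nat_lit 312) (nat_lit 0) (nat_lit 0) (XT.nd (nat_lit 156) (nat_lit 0) (nat_lit 0) (XT.nd (nat_lit 78) (nat_lit 0) (nat_lit 0) (XT.lf (nat_lit 0) (nat_lit 4643554227) (nat_lit 76) (nat_lit 53306377137) (nat_lit 76) (nat_lit 51939289345) (nat_lit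 1) (nat_lit 4) (nat_lit 2) (nat_lit 5) (nat_lit 2) (nat_lit 4) (nat_lit 252) (nat_lit 209) (nat_lit 199)) (XT.lf (nat_lit 0) (nat_lit 9709843406) (nat_lit 76) (nat_lit 58876040031) (nat_lit 76) (nat_lit 57450402766) (nat_lit 1) (nat_lit 4) (nat_lit 2) (nat_lit 5) (nat_lit 2) (nat_lit 4) (nat_lit 253) (nat_lit 209) (nat_lit 198))) (XT.nd (nat_lit 78) (nat_lit 0) (nat_lit 0) (XT.lf (nat_lit 0) (nat_lit 15355928787) (nat_lit 76) (nat_lit 65369948792) (nat_lit 76) (nat_lit 63893398942) (nat_lit 1) (nat_lit 4) (nat_lit 2) (nat_lit 5) (nat_lit 2) (nat_lit 4) (nat_lit 254) (nat_lit 209) (nat_lit 197)) (XT.lf (nat_lit 0) (nat_lit 21692277260) (nat_lit 76) (nat_lit 72915158156) (nat_lit 76) (nat_lit 71394336493) (nat_lit 1) (nat_lit 4) (nat_lit 2) (nat_lit 5) (nat_lit 2) (nat_lit 4) (nat_lit 255) (nat_lit 209) (nat_lit 196)))) (XT.nd (nat_lit 156) (nat_lit 0) (nat_lit 0) (XT.nd (nat_lit 78)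 (nat_lit 0) (nat_lit 0) (XT.lf (nat_lit 0) (nat_lit 28842860859) (nat_lit 76) (nat_lit 81659291785) (nat_lit 76) (nat_lit 80099972893) (nat_lit 1) (nat_lit 4) (nat_lit 2) (nat_lit 5) (nat_lit 2) (nat_lit 4) (nat_lit 256) (nat_lit 209) (nat_lit 195)) (XT.lf (nat_lit 0) (nat_lit 36947582306) (nat_lit 76) (nat_lit 91773430554) (nat_lit 76) (nat_lit 90180635812) (nat_lit 1) (nat_lit 4) (nat_lit 2) (nat_lit 5) (nat_lit 2) (nat_lit 4) (nat_lit 257) (nat_lit 209) (nat_lit 194))) (XT.nd (nat_lit 78) (nat_lit 0) (nat_lit 0) (XT.lf (nat_lit 0) (nat_lit 46165012239) (nat_lit 76) (nat_lit 103455459787) (nat_lit 76) (nat_lit 101833555609) (nat_lit 1) (nat_lit 4) (nat_lit 2) (nat_lit 5) (nat_lit 2) (nat_lit 4) (nat_lit 258) (nat_lit 209) (nat_lit 193)) (XT.nd (nat_lit 78) (nat_lit 0) (nat_lit 0) (XT.lf (nat_lit 0) (nat_lit 56675491678) (nat_lit 76) (nat_lit 116933940926) (nat_lit 76) (nat_lit 115286724195)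 (nat_lit 1) (nat_lit 4) (nat_lit 2) (nat_lit 5) (nat_lit 2) (nat_lit 4) (nat_lit 259) (nat_lit 209) (nat_lit 192)) (XT.lf (nat_lit 0) (nat_lit 68684660438) (nat_lit 76) (nat_lit 132472583384) (nat_lit 76) (nat_lit 130803355737) (nat_lit 1) (nat_lit 4) (nat_lit 2) (nat_lit 5) (nat_lit 2) (nat_lit 4) (nat_lit 260) (nat_lit 209) (nat_lit 191))))))))
noncomputable def xc27 : XT := (XT.nd (nat_lit 1326) (nat_lit 0) (nat_lit 0) (XT.nd (nat_lit 624) (nat_lit 0) (nat_lit 0) (XT.nd (nat_lit 312) (nat_lit 0) (nat_lit 0) (XT.nd (nat_lit 156) (nat_lit 0) (nat_lit 0) (XT.nd (nat_lit 78) (nat_lit 0) (nat_lit 0) (XT.lf (nat_lit 0) (nat_lit 82427480517) (nat_lit 76) (nat_lit 150375404078) (nat_lit 76) (nat_lit 148687036505) (nat_lit 1) (nat_lit 4) (nat_lit 2) (nat_lit 5) (nat_lit 2) (nat_lit 4) (nat_lit 261) (nat_lit 209) (nat_lit 190)) (XT.lf (nat_lit 0) (nat_lit 98172833177) (nat_lit 76) (nat_lit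 170992675588) (nat_lit 76) (nat_lit 169287664601) (nat_lit 1) (nat_lit 4) (nat_lit 2) (nat_lit 5) (nat_lit 2) (nat_lit 4) (nat_lit 262) (nat_lit 209) (nat_lit 189))) (XT.nd (nat_lit 78) (nat_lit 0) (nat_lit 0) (XT.lf (nat_lit 0) (nat_lit 116228779666) (nat_lit 76) (nat_lit 194727779313) (nat_lit 76) (nat_lit 193008295791) (nat_lit 1) (nat_lit 4) (nat_lit 2) (nat_lit 5) (nat_lit 2) (nat_lit 4) (nat_lit 263) (nat_lit 209) (nat_lit 188)) (XT.lf (nat_lit 0) (nat_lit 136948588502) (nat_lit 76) (nat_lit 222045097716) (nat_lit 76) (nat_lit 220313029383) (nat_lit 1) (nat_lit 4) (nat_lit 2) (nat_lit 5) (nat_lit 2) (nat_lit 4) (nat_lit 264) (nat_lit 209) (nat_lit 187)))) (XT.nd (nat_lit 156) (nat_lit 0) (nat_lit 0) (XT.nd (nat_lit 78) (nat_lit 0) (nat_lit 0) (XT.lf (nat_lit 0) (nat_lit 160737647249) (nat_lit 76) (nat_lit 253479100071) (nat_lit 76) (nat_lit 251736088423) (nat_lit 1) (nat_lit 4)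 (nat_lit 2) (nat_lit 5) (nat_lit 2) (nat_lit 4) (nat_lit 265) (nat_lit 209) (nat_lit 186)) (XT.lf (nat_lit 0) (nat_lit 188061394013) (nat_lit 76) (nat_lit 289644799468) (nat_lit 76) (nat_lit 287892271893) (nat_lit 1) (nat_lit 4) (nat_lit 2) (nat_lit 5) (nat_lit 2) (nat_lit 4) (nat_lit 266) (nat_lit 209) (nat_lit 185))) (XT.nd (nat_lit 78) (nat_lit 0) (nat_lit 0) (XT.lf (nat_lit 0) (nat_lit 219454423840) (nat_lit 76) (nat_lit 331249785677) (nat_lit 76) (nat_lit 329488983384) (nat_lit 1) (nat_lit 4) (nat_lit 2) (nat_lit 5) (nat_lit 2) (nat_lit 4) (nat_lit 267) (nat_lit 209) (nat_lit 184)) (XT.lf (nat_lit 0) (nat_lit 255530948183) (nat_lit 76) (nat_lit 379108069298) (nat_lit 76) (nat_lit 377340071598) (nat_lit 1) (nat_lit 4) (nat_lit 2) (nat_lit 5) (nat_lit 2) (nat_lit 4) (nat_lit 268) (nat_lit 209) (nat_lit 183))))) (XT.nd (nat_lit 312) (nat_lit 0) (nat_lit 0) (XT.nd (nat_lit 156) (nat_lit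 0) (nat_lit 0) (XT.nd (nat_lit 78) (nat_lit 0) (nat_lit 0) (XT.lf (nat_lit 0) (nat_lit 296996812082) (nat_lit 76) (nat_lit 434156008054) (nat_lit 76) (nat_lit 432381753478) (nat_lit 1) (nat_lit 4) (nat_lit 2) (nat_lit 5) (nat_lit 2) (nat_lit 4) (nat_lit 269) (nat_lit 209) (nat_lit 182)) (XT.lf (nat_lit 0) (nat_lit 344663304181) (nat_lit 76) (nat_lit 497470626834) (nat_lit 76) (nat_lit 495690931496) (nat_lit 1) (nat_lit 4) (nat_lit 2) (nat_lit 5) (nat_lit 2) (nat_lit 4) (nat_lit 270) (nat_lit 209) (nat_lit 181))) (XT.nd (nat_lit 78) (nat_lit 0) (nat_lit 0) (XT.lf (nat_lit 0) (nat_lit 399463029758) (nat_lit 76) (nat_lit 570290689918) (nat_lit 76) (nat_lit 568506263483) (nat_lit 1) (nat_lit 4) (nat_lit 2) (nat_lit 5) (nat_lit 2) (nat_lit 4) (nat_lit 271) (nat_lit 209) (nat_lit 180)) (XT.lf (nat_lit 0) (nat_lit 462468157358) (nat_lit 76) (nat_lit 654040937671) (nat_lit 76) (nat_lit 652252397239)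 (nat_lit 1) (nat_lit 4) (nat_lit 2) (nat_lit 5) (nat_lit 2) (nat_lit 4) (nat_lit 272) (nat_lit 209) (nat_lit 179)))) (XT.nd (nat_lit 156) (nat_lit 0) (nat_lit 0) (XT.nd (nat_lit 78) (nat_lit 0) (nat_lit 0) (XT.lf (nat_lit 0) (nat_lit 534911395999) (nat_lit 76) (nat_lit 750359961897) (nat_lit 76) (nat_lit 748567844075) (nat_lit 1) (nat_lit 4) (nat_lit 2) (nat_lit 5) (nat_lit 2) (nat_lit 4) (nat_lit 273) (nat_lit 209) (nat_lit 178)) (XT.lf (nat_lit 0) (nat_lit 618210113394) (nat_lit 76) (nat_lit 861132265243) (nat_lit 76) (nat_lit 859337036649) (nat_lit 1) (nat_lit 4) (nat_lit 2) (nat_lit 5) (nat_lit 2) (nat_lit 4) (nat_lit 274) (nat_lit 209) (nat_lit 177))) (XT.nd (nat_lit 78) (nat_lit 0) (nat_lit 0) (XT.lf (nat_lit 0) (nat_lit 713994067056) (nat_lit 76) (nat_lit 988525131906) (nat_lit 76) (nat_lit 986727198291) (nat_lit 1) (nat_lit 4) (nat_lit 2) (nat_lit 5) (nat_lit 2) (nat_lit 4)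 (nat_lit 275) (nat_lit 209) (nat_lit 176)) (XT.nd (nat_lit 78) (nat_lit 0) (nat_lit 0) (XT.lf (nat_lit 0) (nat_lit 824137290862) (nat_lit 76) (nat_lit 1135031031016) (nat_lit 76) (nat_lit 1133230745210) (nat_lit 1) (nat_lit 4) (nat_lit 2) (nat_lit 5) (nat_lit 2) (nat_lit 4) (nat_lit 276) (nat_lit 209) (nat_lit 175)) (XT.lf (nat_lit 0) (nat_lit 950794760931) (nat_lit 76) (nat_lit 1303516382338) (nat_lit 76) (nat_lit 1301714051148) (nat_lit 1) (nat_lit 4) (nat_lit 2) (nat_lit 5) (nat_lit 2) (nat_lit 4) (nat_lit 277) (nat_lit 209) (nat_lit 174))))))) (XT.nd (nat_lit 624) (nat_lit 0) (nat_lit 0) (XT.nd (nat_lit 312) (nat_lit 0) (nat_lit 0) (XT.nd (nat_lit 156) (nat_lit 0) (nat_lit 0) (XT.nd (nat_lit 78) (nat_lit 0) (nat_lit 0) (XT.lf (nat_lit 0) (nat_lit 1096444558197) (nat_lit 76) (nat_lit 1497277638398) (nat_lit 76) (nat_lit 1495473528614) (nat_lit 1) (nat_lit 4) (nat_lit 2) (nat_lit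 5) (nat_lit 2) (nat_lit 4) (nat_lit 278) (nat_lit 209) (nat_lit 173)) (XT.lf (nat_lit 0) (nat_lit 1263936352607) (nat_lit 76) (nat_lit 1720105780293) (nat_lit 76) (nat_lit 1718300123904) (nat_lit 1) (nat_lit 4) (nat_lit 2) (nat_lit 5) (nat_lit 2) (nat_lit 4) (nat_lit 279) (nat_lit 209) (nat_lit 172))) (XT.nd (nat_lit 78) (nat_lit 0) (nat_lit 0) (XT.lf (nat_lit 0) (nat_lit 1456547157531) (nat_lit 76) (nat_lit 1976360489060) (nat_lit 76) (nat_lit 1974553487798) (nat_lit 1) (nat_lit 4) (nat_lit 2) (nat_lit 5) (nat_lit 2) (nat_lit 4) (nat_lit 280) (nat_lit 209) (nat_lit 171)) (XT.lf (nat_lit 0) (nat_lit 1678045445238) (nat_lit 76) (nat_lit 2271055443783) (nat_lit 76) (nat_lit 2269247273066) (nat_lit 1) (nat_lit 4) (nat_lit 2) (nat_lit 5) (nat_lit 2) (nat_lit 4) (nat_lit 281) (nat_lit 209) (nat_lit 170)))) (XT.nd (nat_lit 156) (nat_lit 0) (nat_lit 0) (XT.nd (nat_lit 78) (nat_lit 0) (nat_lit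 0) (XT.lf (nat_lit 0) (nat_lit 1932764877879) (nat_lit 76) (nat_lit 2609956415316) (nat_lit 76) (nat_lit 2608147227682) (nat_lit 1) (nat_lit 4) (nat_lit 2) (nat_lit 5) (nat_lit 2) (nat_lit 4) (nat_lit 282) (nat_lit 209) (nat_lit 169)) (XT.lf (nat_lit 0) (nat_lit 2225689096529) (nat_lit 76) (nat_lit 2999694074841) (nat_lit 76) (nat_lit 2997884002931) (nat_lit 1) (nat_lit 4) (nat_lit 2) (nat_lit 5) (nat_lit 2) (nat_lit 4) (nat_lit 283) (nat_lit 209) (nat_lit 168))) (XT.nd (nat_lit 78) (nat_lit 0) (nat_lit 0) (XT.lf (nat_lit 0) (nat_lit 2562549227203) (nat_lit 76) (nat_lit 3447893724392) (nat_lit 76) (nat_lit 3446082883547) (nat_lit 1) (nat_lit 4) (nat_lit 2) (nat_lit 5) (nat_lit 2) (nat_lit 4) (nat_lit 284) (nat_lit 209) (nat_lit 167)) (XT.lf (nat_lit 0) (nat_lit 2949936011589) (nat_lit 76) (nat_lit 3963324487547) (nat_lit 76) (nat_lit 3961512978062) (nat_lit 1) (nat_lit 4) (nat_lit 2)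 (nat_lit 5) (nat_lit 2) (nat_lit 4) (nat_lit 285) (nat_lit 209) (nat_lit 166))))) (XT.nd (nat_lit 312) (nat_lit 0) (nat_lit 0) (XT.nd (nat_lit 156) (nat_lit 0) (nat_lit 0) (XT.nd (nat_lit 78) (nat_lit 0) (nat_lit 0) (XT.lf (nat_lit 0) (nat_lit 3395428756338) (nat_lit 76) (nat_lit 4556070879238) (nat_lit 76) (nat_lit 4554258788327) (nat_lit 1) (nat_lit 4) (nat_lit 2) (nat_lit 5) (nat_lit 2) (nat_lit 4) (nat_lit 286) (nat_lit 209) (nat_lit 165)) (XT.lf (nat_lit 0) (nat_lit 3907743623847) (nat_lit 76) (nat_lit 5237730111476) (nat_lit 76) (nat_lit 5235917514978) (nat_lit 1) (nat_lit 4) (nat_lit 2) (nat_lit 5) (nat_lit 2) (nat_lit 4) (nat_lit 287) (nat_lit 209) (nat_lit 164))) (XT.nd (nat_lit 78) (nat_lit 0) (nat_lit 0) (XT.lf (nat_lit 0) (nat_lit 4496904165872) (nat_lit 76) (nat_lit 6021638995326) (nat_lit 76) (nat_lit 6019825959186) (nat_lit 1) (nat_lit 4) (nat_lit 2) (nat_lit 5) (nat_lit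 2) (nat_lit 4) (nat_lit 288) (nat_lit 209) (nat_lit 163)) (XT.lf (nat_lit 0) (nat_lit 5174437436495) (nat_lit 76) (nat_lit 6923134878516) (nat_lit 76) (nat_lit 6921321460079) (nat_lit 1) (nat_lit 4) (nat_lit 2) (nat_lit 5) (nat_lit 2) (nat_lit 4) (nat_lit 289) (nat_lit 209) (nat_lit 162)))) (XT.nd (nat_lit 156) (nat_lit 0) (nat_lit 0) (XT.nd (nat_lit 78) (nat_lit 0) (nat_lit 0) (XT.lf (nat_lit 0) (nat_lit 5953599521448) (nat_lit 76) (nat_lit 7959855723978) (nat_lit 76) (nat_lit 7958041973109) (nat_lit 1) (nat_lit 4) (nat_lit 2) (nat_lit 5) (nat_lit 2) (nat_lit 4) (nat_lit 290) (nat_lit 209) (nat_lit 161)) (XT.lf (nat_lit 0) (nat_lit 6849634896304) (nat_lit 76) (nat_lit 9152085200428) (nat_lit 76) (nat_lit 9150271160488) (nat_lit 1) (nat_lit 4) (nat_lit 2) (nat_lit 5) (nat_lit 2) (nat_lit 4) (nat_lit 291) (nat_lit 209) (nat_lit 160))) (XT.nd (nat_lit 78) (nat_lit 0) (nat_lit 0) (XT.lf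 (nat_lit 0) (nat_lit 7880074687963) (nat_lit 76) (nat_lit 10523149536752) (nat_lit 76) (nat_lit 10521335245445) (nat_lit 1) (nat_lit 4) (nat_lit 2) (nat_lit 5) (nat_lit 2) (nat_lit 4) (nat_lit 292) (nat_lit 209) (nat_lit 159)) (XT.nd (nat_lit 78) (nat_lit 0) (nat_lit 0) (XT.lf (nat_lit 0) (nat_lit 9065079674957) (nat_lit 76) (nat_lit 12099873904748) (nat_lit 76) (nat_lit 12098059394862) (nat_lit 1) (nat_lit 4) (nat_lit 2) (nat_lit 5) (nat_lit 2) (nat_lit 4) (nat_lit 293) (nat_lit 209) (nat_lit 158)) (XT.lf (nat_lit 0) (nat_lit 10427834737468) (nat_lit 76) (nat_lit 13913107259442) (nat_lit 76) (nat_lit 13911292559487) (nat_lit 1) (nat_lit 4) (nat_lit 2) (nat_lit 5) (nat_lit 2) (nat_lit 4) (nat_lit 294) (nat_lit 209) (nat_lit 157))))))))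
noncomputable def xc28 : XT := (XT.nd (nat_lit 30810) (nat_lit 0) (nat_lit 0) (XT.nd (nat_lit 30108) (nat_lit 0) (nat_lit 76) (XT.nd (nat_lit 702) (nat_lit 0) (nat_lit 0) (XT.nd (nat_lit 156) (nat_lit 0) (nat_lit 0) (XT.nd (nat_lit 78) (nat_lit 0) (nat_lit 0) (XT.lf (nat_lit 0) (nat_lit 11995002474543) (nat_lit 76) (nat_lit 15998325905600) (nat_lit 76) (nat_lit 15996511040368) (nat_lit 1) (nat_lit 4) (nat_lit 2) (nat_lit 5) (nat_lit 2) (nat_lit 4) (nat_lit 295) (nat_lit 209) (nat_lit 156)) (XT.lf (nat_lit 0) (nat_lit 13797244863648) (nat_lit 76) (nat_lit 18396327599343) (nat_lit 76) (nat_lit 18394512590391) (nat_lit 1) (nat_lit 4) (nat_lit 2) (nat_lit 5) (nat_lit 2) (nat_lit 4) (nat_lit 296) (nat_lit 209) (nat_lit 155))) (XT.nd (nat_lit 468) (nat_lit 0) (nat_lit 0) (XT.lf (nat_lit 0) (nat_lit 15869823168916) (nat_lit 76) (nat_lit 21154029765113) (nat_lit 76) (nat_lit 21152214631188)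 (nat_lit 1) (nat_lit 4) (nat_lit 2) (nat_lit 5) (nat_lit 2) (nat_lit 4) (nat_lit 297) (nat_lit 209) (nat_lit 154)) (XT.lf (nat_lit 0) (nat_lit 36734044186700) (nat_lit 76) (nat_lit 48915267975927) (nat_lit 76) (nat_lit 48913452369042) (nat_lit 1) (nat_lit 4) (nat_lit 2) (nat_lit 5) (nat_lit 2) (nat_lit 4) (nat_lit 303) (nat_lit 209) (nat_lit 148)))) (XT.nd (nat_lit 156) (nat_lit 0) (nat_lit 0) (XT.nd (nat_lit 78) (nat_lit 0) (nat_lit 0) (XT.lf (nat_lit 0) (nat_lit 42247140550682) (nat_lit 76) (nat_lit 56250812105014) (nat_lit 76) (nat_lit 56248996451146) (nat_lit 1) (nat_lit 4) (nat_lit 2) (nat_lit 5) (nat_lit 2) (nat_lit 4) (nat_lit 304) (nat_lit 209) (nat_lit 147)) (XT.lf (nat_lit 0) (nat_lit 48587201224705) (nat_lit 76) (nat_lit 64686687924718) (nat_lit 76) (nat_lit 64684872229995) (nat_lit 1) (nat_lit 4) (nat_lit 2) (nat_lit 5) (nat_lit 2) (nat_lit 4) (nat_lit 305) (nat_lit 209)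 (nat_lit 146))) (XT.nd (nat_lit 78) (nat_lit 0) (nat_lit 0) (XT.lf (nat_lit 0) (nat_lit 55878270874131) (nat_lit 76) (nat_lit 74387945179336) (nat_lit 76) (nat_lit 74386129449088) (nat_lit 1) (nat_lit 4) (nat_lit 2) (nat_lit 5) (nat_lit 2) (nat_lit 4) (nat_lit 306) (nat_lit 209) (nat_lit 145)) (XT.lf (nat_lit 0) (nat_lit 64263000861665) (nat_lit 76) (nat_lit 85544391076024) (nat_lit 76) (nat_lit 85542575314886) (nat_lit 1) (nat_lit 4) (nat_lit 2) (nat_lit 5) (nat_lit 2) (nat_lit 4) (nat_lit 307) (nat_lit 209) (nat_lit 144))))) (XT.nd (nat_lit 312) (nat_lit 0) (nat_lit 0) (XT.nd (nat_lit 156) (nat_lit 152) (nat_lit 0) (XT.nd (nat_lit 78) (nat_lit 0) (nat_lit 0) (XT.lf (nat_lit 0) (nat_lit 5313005362) (nat_lit 76) (nat_lit 3165768725) (nat_lit 76) (nat_lit 3165768725) (nat_lit 4) (nat_lit 4) (nat_lit 5) (nat_lit 5) (nat_lit 5) (nat_lit 4) (nat_lit 240) (nat_lit 210) (nat_lit 210)) (XT.lf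 (nat_lit 0) (nat_lit 19537710941) (nat_lit 76) (nat_lit 3482907955) (nat_lit 76) (nat_lit 3169653633) (nat_lit 4) (nat_lit 4) (nat_lit 5) (nat_lit 5) (nat_lit 5) (nat_lit 4) (nat_lit 241) (nat_lit 210) (nat_lit 209))) (XT.nd (nat_lit 78) (nat_lit 76) (nat_lit 0) (XT.lf (nat_lit 0) (nat_lit 78793064) (nat_lit 152) (nat_lit 416244295) (nat_lit 76) (nat_lit 29081386137) (nat_lit 3) (nat_lit 5) (nat_lit 5) (nat_lit 5) (nat_lit 4) (nat_lit 4) (nat_lit 242) (nat_lit 210) (nat_lit 208)) (XT.lf (nat_lit 0) (nat_lit 3594080358) (nat_lit 152) (nat_lit 26959970233) (nat_lit 0) (nat_lit 2878850223) (nat_lit 2) (nat_lit 5) (nat_lit 4) (nat_lit 4) (nat_lit 2) (nat_lit 4) (nat_lit 243) (nat_lit 210) (nat_lit 207)))) (XT.nd (nat_lit 156) (nat_lit 0) (nat_lit 0) (XT.nd (nat_lit 78) (nat_lit 0) (nat_lit 0) (XT.lf (nat_lit 0) (nat_lit 7387909312) (nat_lit 152) (nat_lit 24024249396) (nat_lit 0) (nat_lit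 6493575002) (nat_lit 2) (nat_lit 5) (nat_lit 4) (nat_lit 4) (nat_lit 2) (nat_lit 4) (nat_lit 244) (nat_lit 210) (nat_lit 206)) (XT.lf (nat_lit 0) (nat_lit 11494187415) (nat_lit 152) (nat_lit 21150184310) (nat_lit 0) (nat_lit 10444110344) (nat_lit 2) (nat_lit 5) (nat_lit 4) (nat_lit 4) (nat_lit 2) (nat_lit 4) (nat_lit 245) (nat_lit 210) (nat_lit 205))) (XT.nd (nat_lit 78) (nat_lit 0) (nat_lit 0) (XT.lf (nat_lit 0) (nat_lit 15993254892) (nat_lit 152) (nat_lit 18281543268) (nat_lit 0) (nat_lit 14807749333) (nat_lit 2) (nat_lit 5) (nat_lit 4) (nat_lit 4) (nat_lit 2) (nat_lit 4) (nat_lit 246) (nat_lit 210) (nat_lit 204)) (XT.nd (nat_lit 78) (nat_lit 0) (nat_lit 0) (XT.lf (nat_lit 0) (nat_lit 20973136975) (nat_lit 152) (nat_lit 15362200683) (nat_lit 0) (nat_lit 19669867513) (nat_lit 2) (nat_lit 5) (nat_lit 4) (nat_lit 4) (nat_lit 2) (nat_lit 4) (nat_lit 247) (nat_lit 210) (nat_lit 203)) (XT.lf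 (nat_lit 0) (nat_lit 26531266140) (nat_lit 152) (nat_lit 12335038983) (nat_lit 0) (nat_lit 25125593284) (nat_lit 2) (nat_lit 5) (nat_lit 4) (nat_lit 4) (nat_lit 2) (nat_lit 4) (nat_lit 248) (nat_lit 210) (nat_lit 202))))))) (XT.nd (nat_lit 624) (nat_lit 0) (nat_lit 0) (XT.nd (nat_lit 312) (nat_lit 0) (nat_lit 0) (XT.nd (nat_lit 156) (nat_lit 76) (nat_lit 0) (XT.nd (nat_lit 78) (nat_lit 0) (nat_lit 0) (XT.lf (nat_lit 0) (nat_lit 32776388392) (nat_lit 152) (nat_lit 9140831091) (nat_lit 0) (nat_lit 31281669108) (nat_lit 2) (nat_lit 5) (nat_lit 4) (nat_lit 4) (nat_lit 2) (nat_lit 4) (nat_lit 249) (nat_lit 210) (nat_lit 201)) (XT.lf (nat_lit 0) (nat_lit 39830690906) (nat_lit 152) (nat_lit 5717081636) (nat_lit 0) (nat_lit 38258539944) (nat_lit 2) (nat_lit 5) (nat_lit 4) (nat_lit 4) (nat_lit 2) (nat_lit 4) (nat_lit 250) (nat_lit 210) (nat_lit 200))) (XT.nd (nat_lit 78) (nat_lit 76) (nat_lit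 0) (XT.lf (nat_lit 0) (nat_lit 47832192644) (nat_lit 152) (nat_lit 1996804216) (nat_lit 0) (nat_lit 46192709789) (nat_lit 2) (nat_lit 5) (nat_lit 4) (nat_lit 4) (nat_lit 2) (nat_lit 4) (nat_lit 251) (nat_lit 210) (nat_lit 199)) (XT.lf (nat_lit 0) (nat_lit 2297311788) (nat_lit 76) (nat_lit 54735259721) (nat_lit 76) (nat_lit 53037227394) (nat_lit 1) (nat_lit 4) (nat_lit 2) (nat_lit 5) (nat_lit 2) (nat_lit 4) (nat_lit 252) (nat_lit 210) (nat_lit 198)))) (XT.nd (nat_lit 156) (nat_lit 0) (nat_lit 0) (XT.nd (nat_lit 78) (nat_lit 0) (nat_lit 0) (XT.lf (nat_lit 0) (nat_lit 7279811583) (nat_lit 76) (nat_lit 60346223282) (nat_lit 76) (nat_lit 58597278369) (nat_lit 1) (nat_lit 4) (nat_lit 2) (nat_lit 5) (nat_lit 2) (nat_lit 4) (nat_lit 253) (nat_lit 210) (nat_lit 197)) (XT.lf (nat_lit 0) (nat_lit 12853036632) (nat_lit 76) (nat_lit 66876045665) (nat_lit 76) (nat_lit 65082828940) (nat_lit 1) (nat_lit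 4) (nat_lit 2) (nat_lit 5) (nat_lit 2) (nat_lit 4) (nat_lit 254) (nat_lit 210) (nat_lit 196))) (XT.nd (nat_lit 78) (nat_lit 0) (nat_lit 0) (XT.lf (nat_lit 0) (nat_lit 19126028293) (nat_lit 76) (nat_lit 74452484267) (nat_lit 76) (nat_lit 72620770313) (nat_lit 1) (nat_lit 4) (nat_lit 2) (nat_lit 5) (nat_lit 2) (nat_lit 4) (nat_lit 255) (nat_lit 210) (nat_lit 195)) (XT.lf (nat_lit 0) (nat_lit 26221519012) (nat_lit 76) (nat_lit 83223773754) (nat_lit 76) (nat_lit 81358583949) (nat_lit 1) (nat_lit 4) (nat_lit 2) (nat_lit 5) (nat_lit 2) (nat_lit 4) (nat_lit 256) (nat_lit 210) (nat_lit 194))))) (XT.nd (nat_lit 312) (nat_lit 0) (nat_lit 0) (XT.nd (nat_lit 156) (nat_lit 0) (nat_lit 0) (XT.nd (nat_lit 78) (nat_lit 0) (nat_lit 0) (XT.lf (nat_lit 0) (nat_lit 34278333607) (nat_lit 76) (nat_lit 93361526314) (nat_lit 76) (nat_lit 91467227073) (nat_lit 1) (nat_lit 4) (nat_lit 2) (nat_lit 5) (nat_lit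 2) (nat_lit 4) (nat_lit 257) (nat_lit 210) (nat_lit 193)) (XT.lf (nat_lit 0) (nat_lit 43454105408) (nat_lit 76) (nat_lit 105064089277) (nat_lit 76) (nat_lit 103144477484) (nat_lit 1) (nat_lit 4) (nat_lit 2) (nat_lit 5) (nat_lit 2) (nat_lit 4) (nat_lit 258) (nat_lit 210) (nat_lit 192))) (XT.nd (nat_lit 78) (nat_lit 0) (nat_lit 0) (XT.lf (nat_lit 0) (nat_lit 53928360385) (nat_lit 76) (nat_lit 118560425834) (nat_lit 76) (nat_lit 116618803125) (nat_lit 1) (nat_lit 4) (nat_lit 2) (nat_lit 5) (nat_lit 2) (nat_lit 4) (nat_lit 259) (nat_lit 210) (nat_lit 191)) (XT.lf (nat_lit 0) (nat_lit 65906029612) (nat_lit 76) (nat_lit 134114594742) (nat_lit 76) (nat_lit 132153832106) (nat_lit 1) (nat_lit 4) (nat_lit 2) (nat_lit 5) (nat_lit 2) (nat_lit 4) (nat_lit 260) (nat_lit 210) (nat_lit 190)))) (XT.nd (nat_lit 156) (nat_lit 0) (nat_lit 0) (XT.nd (nat_lit 78) (nat_lit 0) (nat_lit 0) (XT.lf (nat_lit 0)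 (nat_lit 79621458793) (nat_lit 76) (nat_lit 152030916697) (nat_lit 76) (nat_lit 150053510648) (nat_lit 1) (nat_lit 4) (nat_lit 2) (nat_lit 5) (nat_lit 2) (nat_lit 4) (nat_lit 261) (nat_lit 210) (nat_lit 189)) (XT.lf (nat_lit 0) (nat_lit 95342993281) (nat_lit 76) (nat_lit 172659928434) (nat_lit 76) (nat_lit 170668049850) (nat_lit 1) (nat_lit 4) (nat_lit 2) (nat_lit 5) (nat_lit 2) (nat_lit 4) (nat_lit 262) (nat_lit 210) (nat_lit 188))) (XT.nd (nat_lit 78) (nat_lit 0) (nat_lit 0) (XT.lf (nat_lit 0) (nat_lit 113378228316) (nat_lit 76) (nat_lit 196405241052) (nat_lit 76) (nat_lit 194400777656) (nat_lit 1) (nat_lit 4) (nat_lit 2) (nat_lit 5) (nat_lit 2) (nat_lit 4) (nat_lit 263) (nat_lit 210) (nat_lit 187)) (XT.nd (nat_lit 78) (nat_lit 0) (nat_lit 0) (XT.lf (nat_lit 0) (nat_lit 134080027191) (nat_lit 76) (nat_lit 223731436753) (nat_lit 76) (nat_lit 221716030042) (nat_lit 1) (nat_lit 4) (nat_lit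 2) (nat_lit 5) (nat_lit 2) (nat_lit 4) (nat_lit 264) (nat_lit 210) (nat_lit 186)) (XT.lf (nat_lit 0) (nat_lit 157853425104) (nat_lit 76) (nat_lit 255173158499) (nat_lit 76) (nat_lit 253148235861) (nat_lit 1) (nat_lit 4) (nat_lit 2) (nat_lit 5) (nat_lit 2) (nat_lit 4) (nat_lit 265) (nat_lit 210) (nat_lit 185))))))))
noncomputable def xc29 : XT := (XT.nd (nat_lit 1326) (nat_lit 0) (nat_lit 0) (XT.nd (nat_lit 624) (nat_lit 0) (nat_lit 0) (XT.nd (nat_lit 312) (nat_lit 0) (nat_lit 0) (XT.nd (nat_lit 156) (nat_lit 0) (nat_lit 0) (XT.nd (nat_lit 78) (nat_lit 0) (nat_lit 0) (XT.lf (nat_lit 0) (nat_lit 185163553751) (nat_lit 76) (nat_lit 291345570408) (nat_lit 76) (nat_lit 289312373053) (nat_lit 1) (nat_lit 4) (nat_lit 2) (nat_lit 5) (nat_lit 2) (nat_lit 4) (nat_lit 266) (nat_lit 210) (nat_lit 184)) (XT.lf (nat_lit 0) (nat_lit 216544741737) (nat_lit 76) (nat_lit 332956393585) (nat_lit 76) (nat_lit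 330916000822) (nat_lit 1) (nat_lit 4) (nat_lit 2) (nat_lit 5) (nat_lit 2) (nat_lit 4) (nat_lit 267) (nat_lit 210) (nat_lit 183))) (XT.nd (nat_lit 78) (nat_lit 0) (nat_lit 0) (XT.lf (nat_lit 0) (nat_lit 252610968826) (nat_lit 76) (nat_lit 380819752830) (nat_lit 76) (nat_lit 378773103191) (nat_lit 1) (nat_lit 4) (nat_lit 2) (nat_lit 5) (nat_lit 2) (nat_lit 4) (nat_lit 268) (nat_lit 210) (nat_lit 182)) (XT.lf (nat_lit 0) (nat_lit 294067878593) (nat_lit 76) (nat_lit 435872105172) (nat_lit 76) (nat_lit 433820014772) (nat_lit 1) (nat_lit 4) (nat_lit 2) (nat_lit 5) (nat_lit 2) (nat_lit 4) (nat_lit 269) (nat_lit 210) (nat_lit 181)))) (XT.nd (nat_lit 156) (nat_lit 0) (nat_lit 0) (XT.nd (nat_lit 78) (nat_lit 0) (nat_lit 0) (XT.lf (nat_lit 0) (nat_lit 341726584488) (nat_lit 76) (nat_lit 499190561853) (nat_lit 76) (nat_lit 497133740356) (nat_lit 1) (nat_lit 4) (nat_lit 2) (nat_lit 5) (nat_lit 2)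 (nat_lit 4) (nat_lit 270) (nat_lit 210) (nat_lit 180)) (XT.lf (nat_lit 0) (nat_lit 396519539454) (nat_lit 76) (nat_lit 572013962243) (nat_lit 76) (nat_lit 569953026748) (nat_lit 1) (nat_lit 4) (nat_lit 2) (nat_lit 5) (nat_lit 2) (nat_lit 4) (nat_lit 271) (nat_lit 210) (nat_lit 179))) (XT.nd (nat_lit 78) (nat_lit 0) (nat_lit 0) (XT.lf (nat_lit 0) (nat_lit 459518779566) (nat_lit 76) (nat_lit 655767112000) (nat_lit 76) (nat_lit 653702599116) (nat_lit 1) (nat_lit 4) (nat_lit 2) (nat_lit 5) (nat_lit 2) (nat_lit 4) (nat_lit 272) (nat_lit 210) (nat_lit 178)) (XT.lf (nat_lit 0) (nat_lit 531956898653) (nat_lit 76) (nat_lit 752088659708) (nat_lit 76) (nat_lit 750021036051) (nat_lit 1) (nat_lit 4) (nat_lit 2) (nat_lit 5) (nat_lit 2) (nat_lit 4) (nat_lit 273) (nat_lit 210) (nat_lit 177))))) (XT.nd (nat_lit 312) (nat_lit 0) (nat_lit 0) (XT.nd (nat_lit 156) (nat_lit 0) (nat_lit 0) (XT.nd (nat_lit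 78) (nat_lit 0) (nat_lit 0) (XT.lf (nat_lit 0) (nat_lit 615251164261) (nat_lit 76) (nat_lit 862863157387) (nat_lit 76) (nat_lit 860792828710) (nat_lit 1) (nat_lit 4) (nat_lit 2) (nat_lit 5) (nat_lit 2) (nat_lit 4) (nat_lit 274) (nat_lit 210) (nat_lit 176)) (XT.lf (nat_lit 0) (nat_lit 711031246804) (nat_lit 76) (nat_lit 990257932165) (nat_lit 76) (nat_lit 988185251296) (nat_lit 1) (nat_lit 4) (nat_lit 2) (nat_lit 5) (nat_lit 2) (nat_lit 4) (nat_lit 275) (nat_lit 210) (nat_lit 175))) (XT.nd (nat_lit 78) (nat_lit 0) (nat_lit 0) (XT.lf (nat_lit 0) (nat_lit 821171104420) (nat_lit 76) (nat_lit 1136765490505) (nat_lit 76) (nat_lit 1134690764253) (nat_lit 1) (nat_lit 4) (nat_lit 2) (nat_lit 5) (nat_lit 2) (nat_lit 4) (nat_lit 276) (nat_lit 210) (nat_lit 174)) (XT.lf (nat_lit 0) (nat_lit 947825647366) (nat_lit 76) (nat_lit 1305252284637) (nat_lit 76) (nat_lit 1303175779790) (nat_lit 1) (nat_lit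 4) (nat_lit 2) (nat_lit 5) (nat_lit 2) (nat_lit 4) (nat_lit 277) (nat_lit 210) (nat_lit 173)))) (XT.nd (nat_lit 156) (nat_lit 0) (nat_lit 0) (XT.nd (nat_lit 78) (nat_lit 0) (nat_lit 0) (XT.lf (nat_lit 0) (nat_lit 1093472899309) (nat_lit 76) (nat_lit 1499014795313) (nat_lit 76) (nat_lit 1496936743862) (nat_lit 1) (nat_lit 4) (nat_lit 2) (nat_lit 5) (nat_lit 2) (nat_lit 4) (nat_lit 278) (nat_lit 210) (nat_lit 172)) (XT.lf (nat_lit 0) (nat_lit 1260962480395) (nat_lit 76) (nat_lit 1721844028179) (nat_lit 76) (nat_lit 1719764631855) (nat_lit 1) (nat_lit 4) (nat_lit 2) (nat_lit 5) (nat_lit 2) (nat_lit 4) (nat_lit 279) (nat_lit 210) (nat_lit 171))) (XT.nd (nat_lit 78) (nat_lit 0) (nat_lit 0) (XT.lf (nat_lit 0) (nat_lit 1453571360688) (nat_lit 76) (nat_lit 1978099685616) (nat_lit 76) (nat_lit 1976019119837) (nat_lit 1) (nat_lit 4) (nat_lit 2) (nat_lit 5) (nat_lit 2) (nat_lit 4) (nat_lit 280)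 (nat_lit 210) (nat_lit 170)) (XT.nd (nat_lit 78) (nat_lit 0) (nat_lit 0) (XT.lf (nat_lit 0) (nat_lit 1675067974804) (nat_lit 76) (nat_lit 2272795465271) (nat_lit 76) (nat_lit 2270713882574) (nat_lit 1) (nat_lit 4) (nat_lit 2) (nat_lit 5) (nat_lit 2) (nat_lit 4) (nat_lit 281) (nat_lit 210) (nat_lit 169)) (XT.lf (nat_lit 0) (nat_lit 1929785952148) (nat_lit 76) (nat_lit 2611697154135) (nat_lit 76) (nat_lit 2609614687162) (nat_lit 1) (nat_lit 4) (nat_lit 2) (nat_lit 5) (nat_lit 2) (nat_lit 4) (nat_lit 282) (nat_lit 210) (nat_lit 168))))))) (XT.nd (nat_lit 624) (nat_lit 0) (nat_lit 0) (XT.nd (nat_lit 312) (nat_lit 0) (nat_lit 0) (XT.nd (nat_lit 156) (nat_lit 0) (nat_lit 0) (XT.nd (nat_lit 78) (nat_lit 0) (nat_lit 0) (XT.lf (nat_lit 0) (nat_lit 2222708905322) (nat_lit 76) (nat_lit 3001435437426) (nat_lit 76) (nat_lit 2999352201518) (nat_lit 1) (nat_lit 4) (nat_lit 2) (nat_lit 5) (nat_lit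 2) (nat_lit 4) (nat_lit 283) (nat_lit 210) (nat_lit 167)) (XT.lf (nat_lit 0) (nat_lit 2559567935582) (nat_lit 76) (nat_lit 3449635629382) (nat_lit 76) (nat_lit 3447551724835) (nat_lit 1) (nat_lit 4) (nat_lit 2) (nat_lit 5) (nat_lit 2) (nat_lit 4) (nat_lit 284) (nat_lit 210) (nat_lit 166))) (XT.nd (nat_lit 78) (nat_lit 0) (nat_lit 0) (XT.lf (nat_lit 0) (nat_lit 2946953763087) (nat_lit 76) (nat_lit 3965066864194) (nat_lit 76) (nat_lit 3962982378221) (nat_lit 1) (nat_lit 4) (nat_lit 2) (nat_lit 5) (nat_lit 2) (nat_lit 4) (nat_lit 285) (nat_lit 210) (nat_lit 165)) (XT.lf (nat_lit 0) (nat_lit 3392445675765) (nat_lit 76) (nat_lit 4557813666022) (nat_lit 76) (nat_lit 4555728674461) (nat_lit 1) (nat_lit 4) (nat_lit 2) (nat_lit 5) (nat_lit 2) (nat_lit 4) (nat_lit 286) (nat_lit 210) (nat_lit 164)))) (XT.nd (nat_lit 156) (nat_lit 0) (nat_lit 0) (XT.nd (nat_lit 78) (nat_lit 0) (nat_lit 0) (XT.lf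 (nat_lit 0) (nat_lit 3904759819734) (nat_lit 76) (nat_lit 5239473254900) (nat_lit 76) (nat_lit 5237387823698) (nat_lit 1) (nat_lit 4) (nat_lit 2) (nat_lit 5) (nat_lit 2) (nat_lit 4) (nat_lit 287) (nat_lit 210) (nat_lit 163)) (XT.lf (nat_lit 0) (nat_lit 4493919732594) (nat_lit 76) (nat_lit 6023382448872) (nat_lit 76) (nat_lit 6021296635373) (nat_lit 1) (nat_lit 4) (nat_lit 2) (nat_lit 5) (nat_lit 2) (nat_lit 4) (nat_lit 288) (nat_lit 210) (nat_lit 162))) (XT.nd (nat_lit 78) (nat_lit 0) (nat_lit 0) (XT.lf (nat_lit 0) (nat_lit 5171452456118) (nat_lit 76) (nat_lit 6924878601733) (nat_lit 76) (nat_lit 6922792455802) (nat_lit 1) (nat_lit 4) (nat_lit 2) (nat_lit 5) (nat_lit 2) (nat_lit 4) (nat_lit 289) (nat_lit 210) (nat_lit 161)) (XT.lf (nat_lit 0) (nat_lit 5950614065331) (nat_lit 76) (nat_lit 7961599681692) (nat_lit 76) (nat_lit 7959513246690) (nat_lit 1) (nat_lit 4) (nat_lit 2) (nat_lit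 5) (nat_lit 2) (nat_lit 4) (nat_lit 290) (nat_lit 210) (nat_lit 160))))) (XT.nd (nat_lit 312) (nat_lit 0) (nat_lit 0) (XT.nd (nat_lit 156) (nat_lit 0) (nat_lit 0) (XT.nd (nat_lit 78) (nat_lit 0) (nat_lit 0) (XT.lf (nat_lit 0) (nat_lit 6846649026501) (nat_lit 76) (nat_lit 9153829362052) (nat_lit 76) (nat_lit 9151742675683) (nat_lit 1) (nat_lit 4) (nat_lit 2) (nat_lit 5) (nat_lit 2) (nat_lit 4) (nat_lit 291) (nat_lit 210) (nat_lit 159)) (XT.lf (nat_lit 0) (nat_lit 7877088458433) (nat_lit 76) (nat_lit 10524893875689) (nat_lit 76) (nat_lit 10522806970741) (nat_lit 1) (nat_lit 4) (nat_lit 2) (nat_lit 5) (nat_lit 2) (nat_lit 4) (nat_lit 292) (nat_lit 210) (nat_lit 158))) (XT.nd (nat_lit 78) (nat_lit 0) (nat_lit 0) (XT.lf (nat_lit 0) (nat_lit 9062093132621) (nat_lit 76) (nat_lit 12101618397871) (nat_lit 76) (nat_lit 12099531302853) (nat_lit 1) (nat_lit 4) (nat_lit 2) (nat_lit 5) (nat_lit 2)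 (nat_lit 4) (nat_lit 293) (nat_lit 210) (nat_lit 157)) (XT.lf (nat_lit 0) (nat_lit 10424847923126) (nat_lit 76) (nat_lit 13914851886639) (nat_lit 76) (nat_lit 13912764626345) (nat_lit 1) (nat_lit 4) (nat_lit 2) (nat_lit 5) (nat_lit 2) (nat_lit 4) (nat_lit 294) (nat_lit 210) (nat_lit 156)))) (XT.nd (nat_lit 156) (nat_lit 0) (nat_lit 0) (XT.nd (nat_lit 78) (nat_lit 0) (nat_lit 0) (XT.lf (nat_lit 0) (nat_lit 11992015423675) (nat_lit 76) (nat_lit 16000070649384) (nat_lit 76) (nat_lit 15997983245370) (nat_lit 1) (nat_lit 4) (nat_lit 2) (nat_lit 5) (nat_lit 2) (nat_lit 4) (nat_lit 295) (nat_lit 210) (nat_lit 155)) (XT.lf (nat_lit 0) (nat_lit 13794257607105) (nat_lit 76) (nat_lit 18398072444506) (nat_lit 76) (nat_lit 18395984915518) (nat_lit 1) (nat_lit 4) (nat_lit 2) (nat_lit 5) (nat_lit 2) (nat_lit 4) (nat_lit 296) (nat_lit 210) (nat_lit 154))) (XT.nd (nat_lit 546) (nat_lit 0) (nat_lit 0)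 (XT.lf (nat_lit 0) (nat_lit 15866835733525) (nat_lit 76) (nat_lit 21155774698432) (nat_lit 76) (nat_lit 21153687060772) (nat_lit 1) (nat_lit 4) (nat_lit 2) (nat_lit 5) (nat_lit 2) (nat_lit 4) (nat_lit 297) (nat_lit 210) (nat_lit 153)) (XT.nd (nat_lit 78) (nat_lit 0) (nat_lit 0) (XT.lf (nat_lit 0) (nat_lit 42244152371209) (nat_lit 76) (nat_lit 56252557405100) (nat_lit 76) (nat_lit 56250469315315) (nat_lit 1) (nat_lit 4) (nat_lit 2) (nat_lit 5) (nat_lit 2) (nat_lit 4) (nat_lit 304) (nat_lit 210) (nat_lit 146)) (XT.lf (nat_lit 0) (nat_lit 48584212986766) (nat_lit 76) (nat_lit 64688433253621) (nat_lit 76) (nat_lit 64686345128312) (nat_lit 1) (nat_lit 4) (nat_lit 2) (nat_lit 5) (nat_lit 2) (nat_lit 4) (nat_lit 305) (nat_lit 210) (nat_lit 145))))))))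
noncomputable def xc30 : XT := (XT.nd (nat_lit 1326) (nat_lit 0) (nat_lit 0) (XT.nd (nat_lit 624) (nat_lit 76) (nat_lit 0) (XT.nd (nat_lit 312) (nat_lit 152) (nat_lit 0) (XT.nd (nat_lit 156) (nat_lit 0) (nat_lit 0) (XT.nd (nat_lit 78) (nat_lit 76) (nat_lit 0) (XT.lf (nat_lit 0) (nat_lit 3445044924) (nat_lit 152) (nat_lit 2440073281) (nat_lit 0) (nat_lit 3445044924) (nat_lit 5) (nat_lit 5) (nat_lit 7) (nat_lit 4) (nat_lit 5) (nat_lit 4) (nat_lit 238) (nat_lit 211) (nat_lit 211)) (XT.lf (nat_lit 0) (nat_lit 2254837926) (nat_lit 76) (nat_lit 9461021100) (nat_lit 76) (nat_lit 9100778630) (nat_lit 4) (nat_lit 4) (nat_lit 5) (nat_lit 5) (nat_lit 5) (nat_lit 4) (nat_lit 239) (nat_lit 211) (nat_lit 210))) (XT.nd (nat_lit 78) (nat_lit 0) (nat_lit 0) (XT.lf (nat_lit 0) (nat_lit 10293383514) (nat_lit 76) (nat_lit 6848057995) (nat_lit 76) (nat_lit 6174561204) (nat_lit 4) (nat_lit 4) (nat_lit 5)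 (nat_lit 5) (nat_lit 5) (nat_lit 4) (nat_lit 240) (nat_lit 211) (nat_lit 209)) (XT.lf (nat_lit 0) (nat_lit 18915842680) (nat_lit 76) (nat_lit 4135322478) (nat_lit 76) (nat_lit 3189430624) (nat_lit 4) (nat_lit 4) (nat_lit 5) (nat_lit 5) (nat_lit 5) (nat_lit 4) (nat_lit 241) (nat_lit 211) (nat_lit 208)))) (XT.nd (nat_lit 156) (nat_lit 0) (nat_lit 0) (XT.nd (nat_lit 78) (nat_lit 152) (nat_lit 0) (XT.lf (nat_lit 0) (nat_lit 28290915710) (nat_lit 76) (nat_lit 1269739287) (nat_lit 76) (nat_lit 86982161) (nat_lit 4) (nat_lit 4) (nat_lit 5) (nat_lit 5) (nat_lit 5) (nat_lit 4) (nat_lit 242) (nat_lit 211) (nat_lit 207)) (XT.lf (nat_lit 0) (nat_lit 3221920866) (nat_lit 152) (nat_lit 28300786546) (nat_lit 0) (nat_lit 2014332234) (nat_lit 2) (nat_lit 5) (nat_lit 4) (nat_lit 4) (nat_lit 2) (nat_lit 4) (nat_lit 243) (nat_lit 211) (nat_lit 206))) (XT.nd (nat_lit 78) (nat_lit 0) (nat_lit 0) (XT.lf (nat_lit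 0) (nat_lit 6896389265) (nat_lit 152) (nat_lit 25598560536) (nat_lit 0) (nat_lit 5533057872) (nat_lit 2) (nat_lit 5) (nat_lit 4) (nat_lit 4) (nat_lit 2) (nat_lit 4) (nat_lit 244) (nat_lit 211) (nat_lit 205)) (XT.lf (nat_lit 0) (nat_lit 10898875581) (nat_lit 152) (nat_lit 22927534430) (nat_lit 0) (nat_lit 9400115700) (nat_lit 2) (nat_lit 5) (nat_lit 4) (nat_lit 4) (nat_lit 2) (nat_lit 4) (nat_lit 245) (nat_lit 211) (nat_lit 204))))) (XT.nd (nat_lit 312) (nat_lit 76) (nat_lit 0) (XT.nd (nat_lit 156) (nat_lit 0) (nat_lit 0) (XT.nd (nat_lit 78) (nat_lit 0) (nat_lit 0) (XT.lf (nat_lit 0) (nat_lit 15307689329) (nat_lit 152) (nat_lit 20235449021) (nat_lit 0) (nat_lit 13691165546) (nat_lit 2) (nat_lit 5) (nat_lit 4) (nat_lit 4) (nat_lit 2) (nat_lit 4) (nat_lit 246) (nat_lit 211) (nat_lit 203)) (XT.lf (nat_lit 0) (nat_lit 20209089910) (nat_lit 152) (nat_lit 17469633075) (nat_lit 0) (nat_lit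 18490162733) (nat_lit 2) (nat_lit 5) (nat_lit 4) (nat_lit 4) (nat_lit 2) (nat_lit 4) (nat_lit 247) (nat_lit 211) (nat_lit 202))) (XT.nd (nat_lit 78) (nat_lit 0) (nat_lit 0) (XT.lf (nat_lit 0) (nat_lit 25698974290) (nat_lit 152) (nat_lit 14575972800) (nat_lit 0) (nat_lit 23891000684) (nat_lit 2) (nat_lit 5) (nat_lit 4) (nat_lit 4) (nat_lit 2) (nat_lit 4) (nat_lit 248) (nat_lit 211) (nat_lit 201)) (XT.lf (nat_lit 0) (nat_lit 31884753251) (nat_lit 152) (nat_lit 11497853104) (nat_lit 0) (nat_lit 29999347967) (nat_lit 2) (nat_lit 5) (nat_lit 4) (nat_lit 4) (nat_lit 2) (nat_lit 4) (nat_lit 249) (nat_lit 211) (nat_lit 200)))) (XT.nd (nat_lit 156) (nat_lit 76) (nat_lit 0) (XT.nd (nat_lit 78) (nat_lit 0) (nat_lit 0) (XT.lf (nat_lit 0) (nat_lit 38887452903) (nat_lit 152) (nat_lit 8175049906) (nat_lit 0) (nat_lit 36934715726) (nat_lit 2) (nat_lit 5) (nat_lit 4) (nat_lit 4) (nat_lit 2) (nat_lit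 4) (nat_lit 250) (nat_lit 211) (nat_lit 199)) (XT.lf (nat_lit 0) (nat_lit 46844082587) (nat_lit 152) (nat_lit 4542551839) (nat_lit 0) (nat_lit 44832795938) (nat_lit 2) (nat_lit 5) (nat_lit 4) (nat_lit 4) (nat_lit 2) (nat_lit 4) (nat_lit 251) (nat_lit 211) (nat_lit 198))) (XT.nd (nat_lit 78) (nat_lit 76) (nat_lit 0) (XT.lf (nat_lit 0) (nat_lit 55910315493) (nat_lit 152) (nat_lit 529288289) (nat_lit 0) (nat_lit 53848116259) (nat_lit 2) (nat_lit 5) (nat_lit 4) (nat_lit 4) (nat_lit 2) (nat_lit 4) (nat_lit 252) (nat_lit 211) (nat_lit 197)) (XT.nd (nat_lit 78) (nat_lit 0) (nat_lit 0) (XT.lf (nat_lit 0) (nat_lit 4328625271) (nat_lit 76) (nat_lit 62114148309) (nat_lit 76) (nat_lit 60007677262) (nat_lit 1) (nat_lit 4) (nat_lit 2) (nat_lit 5) (nat_lit 2) (nat_lit 4) (nat_lit 253) (nat_lit 211) (nat_lit 196)) (XT.lf (nat_lit 0) (nat_lit 9838493508) (nat_lit 76) (nat_lit 68675199930) (nat_lit 76)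 (nat_lit 66530231654) (nat_lit 1) (nat_lit 4) (nat_lit 2) (nat_lit 5) (nat_lit 2) (nat_lit 4) (nat_lit 254) (nat_lit 211) (nat_lit 195))))))) (XT.nd (nat_lit 624) (nat_lit 0) (nat_lit 0) (XT.nd (nat_lit 312) (nat_lit 0) (nat_lit 0) (XT.nd (nat_lit 156) (nat_lit 0) (nat_lit 0) (XT.nd (nat_lit 78) (nat_lit 0) (nat_lit 0) (XT.lf (nat_lit 0) (nat_lit 16056392289) (nat_lit 76) (nat_lit 76278794390) (nat_lit 76) (nat_lit 74100350263) (nat_lit 1) (nat_lit 4) (nat_lit 2) (nat_lit 5) (nat_lit 2) (nat_lit 4) (nat_lit 255) (nat_lit 211) (nat_lit 194)) (XT.lf (nat_lit 0) (nat_lit 23103976157) (nat_lit 76) (nat_lit 85073697667) (nat_lit 76) (nat_lit 82866144105) (nat_lit 1) (nat_lit 4) (nat_lit 2) (nat_lit 5) (nat_lit 2) (nat_lit 4) (nat_lit 256) (nat_lit 211) (nat_lit 193))) (XT.nd (nat_lit 78) (nat_lit 0) (nat_lit 0) (XT.lf (nat_lit 0) (nat_lit 31119132620) (nat_lit 76) (nat_lit 95231983957) (nat_lit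 76) (nat_lit 92999117842) (nat_lit 1) (nat_lit 4) (nat_lit 2) (nat_lit 5) (nat_lit 2) (nat_lit 4) (nat_lit 257) (nat_lit 211) (nat_lit 192)) (XT.lf (nat_lit 0) (nat_lit 40258679958) (nat_lit 76) (nat_lit 106952402339) (nat_lit 76) (nat_lit 104697525308) (nat_lit 1) (nat_lit 4) (nat_lit 2) (nat_lit 5) (nat_lit 2) (nat_lit 4) (nat_lit 258) (nat_lit 211) (nat_lit 191)))) (XT.nd (nat_lit 156) (nat_lit 0) (nat_lit 0) (XT.nd (nat_lit 78) (nat_lit 0) (nat_lit 0) (XT.lf (nat_lit 0) (nat_lit 50701435402) (nat_lit 76) (nat_lit 120464265345) (nat_lit 76) (nat_lit 118190248388) (nat_lit 1) (nat_lit 4) (nat_lit 2) (nat_lit 5) (nat_lit 2) (nat_lit 4) (nat_lit 259) (nat_lit 211) (nat_lit 190)) (XT.lf (nat_lit 0) (nat_lit 62651713731) (nat_lit 76) (nat_lit 136031935514) (nat_lit 76) (nat_lit 133741275143) (nat_lit 1) (nat_lit 4) (nat_lit 2) (nat_lit 5) (nat_lit 2) (nat_lit 4) (nat_lit 260) (nat_lit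 211) (nat_lit 189))) (XT.nd (nat_lit 78) (nat_lit 0) (nat_lit 0) (XT.lf (nat_lit 0) (nat_lit 76343324740) (nat_lit 76) (nat_lit 153959997697) (nat_lit 76) (nat_lit 151654864792) (nat_lit 1) (nat_lit 4) (nat_lit 2) (nat_lit 5) (nat_lit 2) (nat_lit 4) (nat_lit 261) (nat_lit 211) (nat_lit 188)) (XT.lf (nat_lit 0) (nat_lit 92044147774) (nat_lit 76) (nat_lit 174599218327) (nat_lit 76) (nat_lit 172281500609) (nat_lit 1) (nat_lit 4) (nat_lit 2) (nat_lit 5) (nat_lit 2) (nat_lit 4) (nat_lit 262) (nat_lit 211) (nat_lit 187))))) (XT.nd (nat_lit 312) (nat_lit 0) (nat_lit 0) (XT.nd (nat_lit 156) (nat_lit 0) (nat_lit 0) (XT.nd (nat_lit 78) (nat_lit 0) (nat_lit 0) (XT.lf (nat_lit 0) (nat_lit 110061372849) (nat_lit 76) (nat_lit 198353408243) (nat_lit 76) (nat_lit 196024747210) (nat_lit 1) (nat_lit 4) (nat_lit 2) (nat_lit 5) (nat_lit 2) (nat_lit 4) (nat_lit 263) (nat_lit 211) (nat_lit 186)) (XT.lf (nat_lit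 0) (nat_lit 130747510890) (nat_lit 76) (nat_lit 225687323334) (nat_lit 76) (nat_lit 223349146376) (nat_lit 1) (nat_lit 4) (nat_lit 2) (nat_lit 5) (nat_lit 2) (nat_lit 4) (nat_lit 264) (nat_lit 211) (nat_lit 185))) (XT.nd (nat_lit 78) (nat_lit 0) (nat_lit 0) (XT.lf (nat_lit 0) (nat_lit 154507290685) (nat_lit 76) (nat_lit 257135757593) (nat_lit 76) (nat_lit 254789305915) (nat_lit 1) (nat_lit 4) (nat_lit 2) (nat_lit 5) (nat_lit 2) (nat_lit 4) (nat_lit 265) (nat_lit 211) (nat_lit 184)) (XT.lf (nat_lit 0) (nat_lit 181805577491) (nat_lit 76) (nat_lit 293314006470) (nat_lit 76) (nat_lit 290960359385) (nat_lit 1) (nat_lit 4) (nat_lit 2) (nat_lit 5) (nat_lit 2) (nat_lit 4) (nat_lit 266) (nat_lit 211) (nat_lit 183)))) (XT.nd (nat_lit 156) (nat_lit 0) (nat_lit 0) (XT.nd (nat_lit 78) (nat_lit 0) (nat_lit 0) (XT.lf (nat_lit 0) (nat_lit 213176468223) (nat_lit 76) (nat_lit 334929905271) (nat_lit 76)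 (nat_lit 332570001310) (nat_lit 1) (nat_lit 4) (nat_lit 2) (nat_lit 5) (nat_lit 2) (nat_lit 4) (nat_lit 267) (nat_lit 211) (nat_lit 182)) (XT.lf (nat_lit 0) (nat_lit 249233741180) (nat_lit 76) (nat_lit 382797678102) (nat_lit 76) (nat_lit 380432333380) (nat_lit 1) (nat_lit 4) (nat_lit 2) (nat_lit 5) (nat_lit 2) (nat_lit 4) (nat_lit 268) (nat_lit 211) (nat_lit 181))) (XT.nd (nat_lit 78) (nat_lit 0) (nat_lit 0) (XT.lf (nat_lit 0) (nat_lit 290682864743) (nat_lit 76) (nat_lit 437853868346) (nat_lit 76) (nat_lit 435483792526) (nat_lit 1) (nat_lit 4) (nat_lit 2) (nat_lit 5) (nat_lit 2) (nat_lit 4) (nat_lit 269) (nat_lit 211) (nat_lit 180)) (XT.nd (nat_lit 78) (nat_lit 0) (nat_lit 0) (XT.lf (nat_lit 0) (nat_lit 338334800028) (nat_lit 76) (nat_lit 501175662332) (nat_lit 76) (nat_lit 498801472515) (nat_lit 1) (nat_lit 4) (nat_lit 2) (nat_lit 5) (nat_lit 2) (nat_lit 4) (nat_lit 270) (nat_lit 211)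 (nat_lit 179)) (XT.lf (nat_lit 0) (nat_lit 393121867506) (nat_lit 76) (nat_lit 574001964726) (nat_lit 76) (nat_lit 571624197520) (nat_lit 1) (nat_lit 4) (nat_lit 2) (nat_lit 5) (nat_lit 2) (nat_lit 4) (nat_lit 271) (nat_lit 211) (nat_lit 178))))))))
noncomputable def xc31 : XT := (XT.nd (nat_lit 1326) (nat_lit 0) (nat_lit 0) (XT.nd (nat_lit 624) (nat_lit 0) (nat_lit 0) (XT.nd (nat_lit 312) (nat_lit 0) (nat_lit 0) (XT.nd (nat_lit 156) (nat_lit 0) (nat_lit 0) (XT.nd (nat_lit 78) (nat_lit 0) (nat_lit 0) (XT.lf (nat_lit 0) (nat_lit 456115988064) (nat_lit 76) (nat_lit 657757637965) (nat_lit 76) (nat_lit 655376759987) (nat_lit 1) (nat_lit 4) (nat_lit 2) (nat_lit 5) (nat_lit 2) (nat_lit 4) (nat_lit 272) (nat_lit 211) (nat_lit 177)) (XT.lf (nat_lit 0) (nat_lit 528549655363) (nat_lit 76) (nat_lit 754081380006) (nat_lit 76) (nat_lit 751697797007) (nat_lit 1) (nat_lit 4) (nat_lit 2) (nat_lit 5)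 (nat_lit 2) (nat_lit 4) (nat_lit 273) (nat_lit 211) (nat_lit 176))) (XT.nd (nat_lit 78) (nat_lit 0) (nat_lit 0) (XT.lf (nat_lit 0) (nat_lit 611840049852) (nat_lit 76) (nat_lit 864857785800) (nat_lit 76) (nat_lit 862471850609) (nat_lit 1) (nat_lit 4) (nat_lit 2) (nat_lit 5) (nat_lit 2) (nat_lit 4) (nat_lit 274) (nat_lit 211) (nat_lit 175)) (XT.lf (nat_lit 0) (nat_lit 707616766206) (nat_lit 76) (nat_lit 992254219808) (nat_lit 76) (nat_lit 989866239234) (nat_lit 1) (nat_lit 4) (nat_lit 2) (nat_lit 5) (nat_lit 2) (nat_lit 4) (nat_lit 275) (nat_lit 211) (nat_lit 174)))) (XT.nd (nat_lit 156) (nat_lit 0) (nat_lit 0) (XT.nd (nat_lit 78) (nat_lit 0) (nat_lit 0) (XT.lf (nat_lit 0) (nat_lit 817753696700) (nat_lit 76) (nat_lit 1138763220958) (nat_lit 76) (nat_lit 1136373461789) (nat_lit 1) (nat_lit 4) (nat_lit 2) (nat_lit 5) (nat_lit 2) (nat_lit 4) (nat_lit 276) (nat_lit 211) (nat_lit 173)) (XT.lf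 (nat_lit 0) (nat_lit 944405694322) (nat_lit 76) (nat_lit 1307251269706) (nat_lit 76) (nat_lit 1304859963933) (nat_lit 1) (nat_lit 4) (nat_lit 2) (nat_lit 5) (nat_lit 2) (nat_lit 4) (nat_lit 277) (nat_lit 211) (nat_lit 172))) (XT.nd (nat_lit 78) (nat_lit 0) (nat_lit 0) (XT.lf (nat_lit 0) (nat_lit 1090050732940) (nat_lit 76) (nat_lit 1501014871353) (nat_lit 76) (nat_lit 1498622220708) (nat_lit 1) (nat_lit 4) (nat_lit 2) (nat_lit 5) (nat_lit 2) (nat_lit 4) (nat_lit 278) (nat_lit 211) (nat_lit 171)) (XT.lf (nat_lit 0) (nat_lit 1257538389395) (nat_lit 76) (nat_lit 1723845052890) (nat_lit 76) (nat_lit 1721451232789) (nat_lit 1) (nat_lit 4) (nat_lit 2) (nat_lit 5) (nat_lit 2) (nat_lit 4) (nat_lit 279) (nat_lit 211) (nat_lit 170))))) (XT.nd (nat_lit 312) (nat_lit 0) (nat_lit 0) (XT.nd (nat_lit 156) (nat_lit 0) (nat_lit 0) (XT.nd (nat_lit 78) (nat_lit 0) (nat_lit 0) (XT.lf (nat_lit 0) (nat_lit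 1450145596097) (nat_lit 76) (nat_lit 1980101535258) (nat_lit 76) (nat_lit 1977706698240) (nat_lit 1) (nat_lit 4) (nat_lit 2) (nat_lit 5) (nat_lit 2) (nat_lit 4) (nat_lit 280) (nat_lit 211) (nat_lit 169)) (XT.lf (nat_lit 0) (nat_lit 1671640754916) (nat_lit 76) (nat_lit 2274798032243) (nat_lit 76) (nat_lit 2272402310949) (nat_lit 1) (nat_lit 4) (nat_lit 2) (nat_lit 5) (nat_lit 2) (nat_lit 4) (nat_lit 281) (nat_lit 211) (nat_lit 168))) (XT.nd (nat_lit 78) (nat_lit 0) (nat_lit 0) (XT.lf (nat_lit 0) (nat_lit 1926357466785) (nat_lit 76) (nat_lit 2613700344873) (nat_lit 76) (nat_lit 2611303854644) (nat_lit 1) (nat_lit 4) (nat_lit 2) (nat_lit 5) (nat_lit 2) (nat_lit 4) (nat_lit 282) (nat_lit 211) (nat_lit 167)) (XT.lf (nat_lit 0) (nat_lit 2219279319545) (nat_lit 76) (nat_lit 3003439170570) (nat_lit 76) (nat_lit 3001042011701) (nat_lit 1) (nat_lit 4) (nat_lit 2) (nat_lit 5) (nat_lit 2) (nat_lit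 4) (nat_lit 283) (nat_lit 211) (nat_lit 166)))) (XT.nd (nat_lit 156) (nat_lit 0) (nat_lit 0) (XT.nd (nat_lit 78) (nat_lit 0) (nat_lit 0) (XT.lf (nat_lit 0) (nat_lit 2556137392924) (nat_lit 76) (nat_lit 3451639834183) (nat_lit 76) (nat_lit 3449242093888) (nat_lit 1) (nat_lit 4) (nat_lit 2) (nat_lit 5) (nat_lit 2) (nat_lit 4) (nat_lit 284) (nat_lit 211) (nat_lit 165)) (XT.lf (nat_lit 0) (nat_lit 2943522388358) (nat_lit 76) (nat_lit 3967071479132) (nat_lit 76) (nat_lit 3964673233249) (nat_lit 1) (nat_lit 4) (nat_lit 2) (nat_lit 5) (nat_lit 2) (nat_lit 4) (nat_lit 285) (nat_lit 211) (nat_lit 164))) (XT.nd (nat_lit 78) (nat_lit 0) (nat_lit 0) (XT.lf (nat_lit 0) (nat_lit 3389013577496) (nat_lit 76) (nat_lit 4559818637599) (nat_lit 76) (nat_lit 4557419952075) (nat_lit 1) (nat_lit 4) (nat_lit 2) (nat_lit 5) (nat_lit 2) (nat_lit 4) (nat_lit 286) (nat_lit 211) (nat_lit 163)) (XT.nd (nat_lit 78)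 (nat_lit 0) (nat_lit 0) (XT.lf (nat_lit 0) (nat_lit 3901327092301) (nat_lit 76) (nat_lit 5241478536599) (nat_lit 76) (nat_lit 5239079468779) (nat_lit 1) (nat_lit 4) (nat_lit 2) (nat_lit 5) (nat_lit 2) (nat_lit 4) (nat_lit 287) (nat_lit 211) (nat_lit 162)) (XT.lf (nat_lit 0) (nat_lit 4490486458060) (nat_lit 76) (nat_lit 6025388000243) (nat_lit 76) (nat_lit 6022988599990) (nat_lit 1) (nat_lit 4) (nat_lit 2) (nat_lit 5) (nat_lit 2) (nat_lit 4) (nat_lit 288) (nat_lit 211) (nat_lit 161))))))) (XT.nd (nat_lit 624) (nat_lit 0) (nat_lit 0) (XT.nd (nat_lit 312) (nat_lit 0) (nat_lit 0) (XT.nd (nat_lit 156) (nat_lit 0) (nat_lit 0) (XT.nd (nat_lit 78) (nat_lit 0) (nat_lit 0) (XT.lf (nat_lit 0) (nat_lit 5168018705845) (nat_lit 76) (nat_lit 6926884387601) (nat_lit 76) (nat_lit 6924484698277) (nat_lit 1) (nat_lit 4) (nat_lit 2) (nat_lit 5) (nat_lit 2) (nat_lit 4) (nat_lit 289) (nat_lit 211) (nat_lit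 160)) (XT.lf (nat_lit 0) (nat_lit 5947179901372) (nat_lit 76) (nat_lit 7963605671470) (nat_lit 76) (nat_lit 7961205730780) (nat_lit 1) (nat_lit 4) (nat_lit 2) (nat_lit 5) (nat_lit 2) (nat_lit 4) (nat_lit 290) (nat_lit 211) (nat_lit 159))) (XT.nd (nat_lit 78) (nat_lit 0) (nat_lit 0) (XT.lf (nat_lit 0) (nat_lit 6843214502815) (nat_lit 76) (nat_lit 9155835529143) (nat_lit 76) (nat_lit 9153435369873) (nat_lit 1) (nat_lit 4) (nat_lit 2) (nat_lit 5) (nat_lit 2) (nat_lit 4) (nat_lit 291) (nat_lit 211) (nat_lit 158)) (XT.lf (nat_lit 0) (nat_lit 7873653621940) (nat_lit 76) (nat_lit 10526900196966) (nat_lit 76) (nat_lit 10524499847627) (nat_lit 1) (nat_lit 4) (nat_lit 2) (nat_lit 5) (nat_lit 2) (nat_lit 4) (nat_lit 292) (nat_lit 211) (nat_lit 157)))) (XT.nd (nat_lit 156) (nat_lit 0) (nat_lit 0) (XT.nd (nat_lit 78) (nat_lit 0) (nat_lit 0) (XT.lf (nat_lit 0) (nat_lit 9058658024123) (nat_lit 76)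 (nat_lit 12103624853222) (nat_lit 76) (nat_lit 12101224338606) (nat_lit 1) (nat_lit 4) (nat_lit 2) (nat_lit 5) (nat_lit 2) (nat_lit 4) (nat_lit 293) (nat_lit 211) (nat_lit 156)) (XT.lf (nat_lit 0) (nat_lit 10421412578102) (nat_lit 76) (nat_lit 13916858458577) (nat_lit 76) (nat_lit 13914457800241) (nat_lit 1) (nat_lit 4) (nat_lit 2) (nat_lit 5) (nat_lit 2) (nat_lit 4) (nat_lit 294) (nat_lit 211) (nat_lit 155))) (XT.nd (nat_lit 78) (nat_lit 0) (nat_lit 0) (XT.lf (nat_lit 0) (nat_lit 11988579872975) (nat_lit 76) (nat_lit 16002077322701) (nat_lit 76) (nat_lit 15999676539392) (nat_lit 1) (nat_lit 4) (nat_lit 2) (nat_lit 5) (nat_lit 2) (nat_lit 4) (nat_lit 295) (nat_lit 211) (nat_lit 154)) (XT.lf (nat_lit 0) (nat_lit 13790821877557) (nat_lit 76) (nat_lit 18400079205979) (nat_lit 76) (nat_lit 18397678313997) (nat_lit 1) (nat_lit 4) (nat_lit 2) (nat_lit 5) (nat_lit 2) (nat_lit 4) (nat_lit 296)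 (nat_lit 211) (nat_lit 153))))) (XT.nd (nat_lit 29874) (nat_lit 0) (nat_lit 76) (XT.nd (nat_lit 29718) (nat_lit 0) (nat_lit 304) (XT.nd (nat_lit 29640) (nat_lit 0) (nat_lit 456) (XT.lf (nat_lit 0) (nat_lit 15863399848458) (nat_lit 76) (nat_lit 21157781536563) (nat_lit 76) (nat_lit 21155380550083) (nat_lit 1) (nat_lit 4) (nat_lit 2) (nat_lit 5) (nat_lit 2) (nat_lit 4) (nat_lit 297) (nat_lit 211) (nat_lit 152)) (XT.lf (nat_lit 0) (nat_lit 6440879060) (nat_lit 76) (nat_lit 586846837) (nat_lit 76) (nat_lit 586846837) (nat_lit 7) (nat_lit 4) (nat_lit 8) (nat_lit 5) (nat_lit 8) (nat_lit 4) (nat_lit 236) (nat_lit 212) (nat_lit 212))) (XT.nd (nat_lit 78) (nat_lit 0) (nat_lit 0) (XT.lf (nat_lit 0) (nat_lit 2839699393) (nat_lit 152) (nat_lit 11561404315) (nat_lit 0) (nat_lit 2425420552) (nat_lit 5) (nat_lit 5) (nat_lit 7) (nat_lit 4) (nat_lit 5) (nat_lit 4) (nat_lit 237) (nat_lit 212) (nat_lit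 211)) (XT.lf (nat_lit 0) (nat_lit 7117406576) (nat_lit 152) (nat_lit 5228613163) (nat_lit 0) (nat_lit 6342885265) (nat_lit 5) (nat_lit 5) (nat_lit 7) (nat_lit 4) (nat_lit 5) (nat_lit 4) (nat_lit 238) (nat_lit 212) (nat_lit 210)))) (XT.nd (nat_lit 156) (nat_lit 152) (nat_lit 0) (XT.nd (nat_lit 78) (nat_lit 0) (nat_lit 0) (XT.lf (nat_lit 0) (nat_lit 1539689426) (nat_lit 76) (nat_lit 10211297801) (nat_lit 76) (nat_lit 9123522169) (nat_lit 4) (nat_lit 4) (nat_lit 5) (nat_lit 5) (nat_lit 5) (nat_lit 4) (nat_lit 239) (nat_lit 212) (nat_lit 209)) (XT.lf (nat_lit 0) (nat_lit 9288993962) (nat_lit 76) (nat_lit 7734228674) (nat_lit 76) (nat_lit 6374057980) (nat_lit 4) (nat_lit 4) (nat_lit 5) (nat_lit 5) (nat_lit 5) (nat_lit 4) (nat_lit 240) (nat_lit 212) (nat_lit 208))) (XT.nd (nat_lit 78) (nat_lit 152) (nat_lit 0) (XT.lf (nat_lit 0) (nat_lit 17659939170) (nat_lit 76) (nat_lit 5139661833) (nat_lit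 76) (nat_lit 3542625867) (nat_lit 4) (nat_lit 4) (nat_lit 5) (nat_lit 5) (nat_lit 5) (nat_lit 4) (nat_lit 241) (nat_lit 212) (nat_lit 207)) (XT.nd (nat_lit 78) (nat_lit 152) (nat_lit 0) (XT.lf (nat_lit 0) (nat_lit 26816304411) (nat_lit 76) (nat_lit 2376834013) (nat_lit 76) (nat_lit 573828246) (nat_lit 4) (nat_lit 4) (nat_lit 5) (nat_lit 5) (nat_lit 5) (nat_lit 4) (nat_lit 242) (nat_lit 212) (nat_lit 206)) (XT.lf (nat_lit 0) (nat_lit 2537312256) (nat_lit 152) (nat_lit 30344739183) (nat_lit 0) (nat_lit 813738393) (nat_lit 2) (nat_lit 5) (nat_lit 4) (nat_lit 4) (nat_lit 2) (nat_lit 4) (nat_lit 243) (nat_lit 212) (nat_lit 205))))))))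
noncomputable def xc32 : XT := (XT.nd (nat_lit 1248) (nat_lit 0) (nat_lit 0) (XT.nd (nat_lit 624) (nat_lit 76) (nat_lit 0) (XT.nd (nat_lit 312) (nat_lit 0) (nat_lit 0) (XT.nd (nat_lit 156) (nat_lit 0) (nat_lit 0) (XT.nd (nat_lit 78) (nat_lit 0) (nat_lit 0) (XT.lf (nat_lit 0) (nat_lit 6107988868) (nat_lit 152) (nat_lit 27845552152) (nat_lit 0) (nat_lit 4248986517) (nat_lit 2) (nat_lit 5) (nat_lit 4) (nat_lit 4) (nat_lit 2) (nat_lit 4) (nat_lit 244) (nat_lit 212) (nat_lit 204)) (XT.lf (nat_lit 0) (nat_lit 10020221456) (nat_lit 152) (nat_lit 25351081681) (nat_lit 0) (nat_lit 8043455203) (nat_lit 2) (nat_lit 5) (nat_lit 4) (nat_lit 4) (nat_lit 2) (nat_lit 4) (nat_lit 245) (nat_lit 212) (nat_lit 203))) (XT.nd (nat_lit 78) (nat_lit 0) (nat_lit 0) (XT.lf (nat_lit 0) (nat_lit 14350553702) (nat_lit 152) (nat_lit 22812522911) (nat_lit 0) (nat_lit 12271384055) (nat_lit 2) (nat_lit 5) (nat_lit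 4) (nat_lit 4) (nat_lit 2) (nat_lit 4) (nat_lit 246) (nat_lit 212) (nat_lit 202)) (XT.lf (nat_lit 0) (nat_lit 19183709497) (nat_lit 152) (nat_lit 20180208389) (nat_lit 0) (nat_lit 17015493422) (nat_lit 2) (nat_lit 5) (nat_lit 4) (nat_lit 4) (nat_lit 2) (nat_lit 4) (nat_lit 247) (nat_lit 212) (nat_lit 201)))) (XT.nd (nat_lit 156) (nat_lit 0) (nat_lit 0) (XT.nd (nat_lit 78) (nat_lit 0) (nat_lit 0) (XT.lf (nat_lit 0) (nat_lit 24614250586) (nat_lit 152) (nat_lit 17402636310) (nat_lit 0) (nat_lit 22368602833) (nat_lit 2) (nat_lit 5) (nat_lit 4) (nat_lit 4) (nat_lit 2) (nat_lit 4) (nat_lit 248) (nat_lit 212) (nat_lit 200)) (XT.lf (nat_lit 0) (nat_lit 30748426685) (nat_lit 152) (nat_lit 14425462871) (nat_lit 0) (nat_lit 28435447039) (nat_lit 2) (nat_lit 5) (nat_lit 4) (nat_lit 4) (nat_lit 2) (nat_lit 4) (nat_lit 249) (nat_lit 212) (nat_lit 199))) (XT.nd (nat_lit 78) (nat_lit 0) (nat_lit 0)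 (XT.lf (nat_lit 0) (nat_lit 37706254284) (nat_lit 152) (nat_lit 11190439027) (nat_lit 0) (nat_lit 35334725165) (nat_lit 2) (nat_lit 5) (nat_lit 4) (nat_lit 4) (nat_lit 2) (nat_lit 4) (nat_lit 250) (nat_lit 212) (nat_lit 198)) (XT.lf (nat_lit 0) (nat_lit 45623864791) (nat_lit 152) (nat_lit 7634270833) (nat_lit 0) (nat_lit 43201423087) (nat_lit 2) (nat_lit 5) (nat_lit 4) (nat_lit 4) (nat_lit 2) (nat_lit 4) (nat_lit 251) (nat_lit 212) (nat_lit 197))))) (XT.nd (nat_lit 312) (nat_lit 0) (nat_lit 0) (XT.nd (nat_lit 156) (nat_lit 0) (nat_lit 0) (XT.nd (nat_lit 78) (nat_lit 76) (nat_lit 0) (XT.lf (nat_lit 0) (nat_lit 54656167978) (nat_lit 152) (nat_lit 3687381086) (nat_lit 0) (nat_lit 52189454461) (nat_lit 2) (nat_lit 5) (nat_lit 4) (nat_lit 4) (nat_lit 2) (nat_lit 4) (nat_lit 252) (nat_lit 212) (nat_lit 196)) (XT.lf (nat_lit 0) (nat_lit 798543867) (nat_lit 76) (nat_lit 64214404951) (nat_lit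 76) (nat_lit 61709194205) (nat_lit 1) (nat_lit 4) (nat_lit 2) (nat_lit 5) (nat_lit 2) (nat_lit 4) (nat_lit 253) (nat_lit 212) (nat_lit 195))) (XT.nd (nat_lit 78) (nat_lit 0) (nat_lit 0) (XT.lf (nat_lit 0) (nat_lit 6253319224) (nat_lit 76) (nat_lit 70802612430) (nat_lit 76) (nat_lit 68263925833) (nat_lit 1) (nat_lit 4) (nat_lit 2) (nat_lit 5) (nat_lit 2) (nat_lit 4) (nat_lit 254) (nat_lit 212) (nat_lit 194)) (XT.lf (nat_lit 0) (nat_lit 12423311154) (nat_lit 76) (nat_lit 78429820680) (nat_lit 76) (nat_lit 75862024648) (nat_lit 1) (nat_lit 4) (nat_lit 2) (nat_lit 5) (nat_lit 2) (nat_lit 4) (nat_lit 255) (nat_lit 212) (nat_lit 193)))) (XT.nd (nat_lit 156) (nat_lit 0) (nat_lit 0) (XT.nd (nat_lit 78) (nat_lit 0) (nat_lit 0) (XT.lf (nat_lit 0) (nat_lit 19429236889) (nat_lit 76) (nat_lit 87245257688) (nat_lit 76) (nat_lit 84652149103) (nat_lit 1) (nat_lit 4) (nat_lit 2) (nat_lit 5) (nat_lit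 2) (nat_lit 4) (nat_lit 256) (nat_lit 212) (nat_lit 192)) (XT.lf (nat_lit 0) (nat_lit 27408168890) (nat_lit 76) (nat_lit 97421399396) (nat_lit 76) (nat_lit 94806279895) (nat_lit 1) (nat_lit 4) (nat_lit 2) (nat_lit 5) (nat_lit 2) (nat_lit 4) (nat_lit 257) (nat_lit 212) (nat_lit 191))) (XT.nd (nat_lit 78) (nat_lit 0) (nat_lit 0) (XT.lf (nat_lit 0) (nat_lit 36516216695) (nat_lit 76) (nat_lit 109157344227) (nat_lit 76) (nat_lit 106523084800) (nat_lit 1) (nat_lit 4) (nat_lit 2) (nat_lit 5) (nat_lit 2) (nat_lit 4) (nat_lit 258) (nat_lit 212) (nat_lit 190)) (XT.lf (nat_lit 0) (nat_lit 46931581241) (nat_lit 76) (nat_lit 122682708495) (nat_lit 76) (nat_lit 120031805654) (nat_lit 1) (nat_lit 4) (nat_lit 2) (nat_lit 5) (nat_lit 2) (nat_lit 4) (nat_lit 259) (nat_lit 212) (nat_lit 189)))))) (XT.nd (nat_lit 624) (nat_lit 0) (nat_lit 0) (XT.nd (nat_lit 312) (nat_lit 0) (nat_lit 0) (XT.nd (nat_lit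 156) (nat_lit 0) (nat_lit 0) (XT.nd (nat_lit 78) (nat_lit 0) (nat_lit 0) (XT.lf (nat_lit 0) (nat_lit 58858041398) (nat_lit 76) (nat_lit 138262118891) (nat_lit 76) (nat_lit 135596743516) (nat_lit 1) (nat_lit 4) (nat_lit 2) (nat_lit 5) (nat_lit 2) (nat_lit 4) (nat_lit 260) (nat_lit 212) (nat_lit 188)) (XT.lf (nat_lit 0) (nat_lit 72528940953) (nat_lit 76) (nat_lit 156200389967) (nat_lit 76) (nat_lit 153522429779) (nat_lit 1) (nat_lit 4) (nat_lit 2) (nat_lit 5) (nat_lit 2) (nat_lit 4) (nat_lit 261) (nat_lit 212) (nat_lit 187))) (XT.nd (nat_lit 78) (nat_lit 0) (nat_lit 0) (XT.lf (nat_lit 0) (nat_lit 88211754027) (nat_lit 76) (nat_lit 176848487895) (nat_lit 76) (nat_lit 174159584393) (nat_lit 1) (nat_lit 4) (nat_lit 2) (nat_lit 5) (nat_lit 2) (nat_lit 4) (nat_lit 262) (nat_lit 212) (nat_lit 186)) (XT.lf (nat_lit 0) (nat_lit 106213318267) (nat_lit 76) (nat_lit 200610397201) (nat_lit 76) (nat_lit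 197911977772) (nat_lit 1) (nat_lit 4) (nat_lit 2) (nat_lit 5) (nat_lit 2) (nat_lit 4) (nat_lit 263) (nat_lit 212) (nat_lit 185)))) (XT.nd (nat_lit 156) (nat_lit 0) (nat_lit 0) (XT.nd (nat_lit 78) (nat_lit 0) (nat_lit 0) (XT.lf (nat_lit 0) (nat_lit 126885838190) (nat_lit 76) (nat_lit 227951024805) (nat_lit 76) (nat_lit 225244330658) (nat_lit 1) (nat_lit 4) (nat_lit 2) (nat_lit 5) (nat_lit 2) (nat_lit 4) (nat_lit 264) (nat_lit 212) (nat_lit 184)) (XT.lf (nat_lit 0) (nat_lit 150633776144) (nat_lit 76) (nat_lit 259405296031) (nat_lit 76) (nat_lit 256691406477) (nat_lit 1) (nat_lit 4) (nat_lit 2) (nat_lit 5) (nat_lit 2) (nat_lit 4) (nat_lit 265) (nat_lit 212) (nat_lit 183))) (XT.nd (nat_lit 78) (nat_lit 0) (nat_lit 0) (XT.lf (nat_lit 0) (nat_lit 177921765697) (nat_lit 76) (nat_lit 295588620533) (nat_lit 76) (nat_lit 292868474102) (nat_lit 1) (nat_lit 4) (nat_lit 2) (nat_lit 5) (nat_lit 2)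 (nat_lit 4) (nat_lit 266) (nat_lit 212) (nat_lit 182)) (XT.lf (nat_lit 0) (nat_lit 209283702297) (nat_lit 76) (nat_lit 337208932920) (nat_lit 76) (nat_lit 334483345728) (nat_lit 1) (nat_lit 4) (nat_lit 2) (nat_lit 5) (nat_lit 2) (nat_lit 4) (nat_lit 267) (nat_lit 212) (nat_lit 181))))) (XT.nd (nat_lit 312) (nat_lit 0) (nat_lit 0) (XT.nd (nat_lit 156) (nat_lit 0) (nat_lit 0) (XT.nd (nat_lit 78) (nat_lit 0) (nat_lit 0) (XT.lf (nat_lit 0) (nat_lit 245333189050) (nat_lit 76) (nat_lit 385080543652) (nat_lit 76) (nat_lit 382350225363) (nat_lit 1) (nat_lit 4) (nat_lit 2) (nat_lit 5) (nat_lit 2) (nat_lit 4) (nat_lit 268) (nat_lit 212) (nat_lit 180)) (XT.lf (nat_lit 0) (nat_lit 286775542003) (nat_lit 76) (nat_lit 440140071201) (nat_lit 76) (nat_lit 437405638914) (nat_lit 1) (nat_lit 4) (nat_lit 2) (nat_lit 5) (nat_lit 2) (nat_lit 4) (nat_lit 269) (nat_lit 212) (nat_lit 179))) (XT.nd (nat_lit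 78) (nat_lit 0) (nat_lit 0) (XT.lf (nat_lit 0) (nat_lit 334421589800) (nat_lit 76) (nat_lit 503464767192) (nat_lit 76) (nat_lit 500726757516) (nat_lit 1) (nat_lit 4) (nat_lit 2) (nat_lit 5) (nat_lit 2) (nat_lit 4) (nat_lit 270) (nat_lit 212) (nat_lit 178)) (XT.lf (nat_lit 0) (nat_lit 389203537723) (nat_lit 76) (nat_lit 576293593068) (nat_lit 76) (nat_lit 573552472619) (nat_lit 1) (nat_lit 4) (nat_lit 2) (nat_lit 5) (nat_lit 2) (nat_lit 4) (nat_lit 271) (nat_lit 212) (nat_lit 177)))) (XT.nd (nat_lit 156) (nat_lit 0) (nat_lit 0) (XT.nd (nat_lit 78) (nat_lit 0) (nat_lit 0) (XT.lf (nat_lit 0) (nat_lit 452193206494) (nat_lit 76) (nat_lit 660051460640) (nat_lit 76) (nat_lit 657307635171) (nat_lit 1) (nat_lit 4) (nat_lit 2) (nat_lit 5) (nat_lit 2) (nat_lit 4) (nat_lit 272) (nat_lit 212) (nat_lit 176)) (XT.lf (nat_lit 0) (nat_lit 524623002675) (nat_lit 76) (nat_lit 756377110795) (nat_lit 76)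 (nat_lit 753630933135) (nat_lit 1) (nat_lit 4) (nat_lit 2) (nat_lit 5) (nat_lit 2) (nat_lit 4) (nat_lit 273) (nat_lit 212) (nat_lit 175))) (XT.nd (nat_lit 78) (nat_lit 0) (nat_lit 0) (XT.lf (nat_lit 0) (nat_lit 607910030974) (nat_lit 76) (nat_lit 867155175820) (nat_lit 76) (nat_lit 864406952776) (nat_lit 1) (nat_lit 4) (nat_lit 2) (nat_lit 5) (nat_lit 2) (nat_lit 4) (nat_lit 274) (nat_lit 212) (nat_lit 174)) (XT.nd (nat_lit 78) (nat_lit 0) (nat_lit 0) (XT.lf (nat_lit 0) (nat_lit 703683820205) (nat_lit 76) (nat_lit 994553052638) (nat_lit 76) (nat_lit 991803050999) (nat_lit 1) (nat_lit 4) (nat_lit 2) (nat_lit 5) (nat_lit 2) (nat_lit 4) (nat_lit 275) (nat_lit 212) (nat_lit 173)) (XT.lf (nat_lit 0) (nat_lit 813818205375) (nat_lit 76) (nat_lit 1141063308404) (nat_lit 76) (nat_lit 1138311760161) (nat_lit 1) (nat_lit 4) (nat_lit 2) (nat_lit 5) (nat_lit 2) (nat_lit 4) (nat_lit 276) (nat_lit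 212) (nat_lit 172))))))))
noncomputable def xc33 : XT := (XT.nd (nat_lit 1326) (nat_lit 0) (nat_lit 0) (XT.nd (nat_lit 624) (nat_lit 0) (nat_lit 0) (XT.nd (nat_lit 312) (nat_lit 0) (nat_lit 0) (XT.nd (nat_lit 156) (nat_lit 0) (nat_lit 0) (XT.nd (nat_lit 78) (nat_lit 0) (nat_lit 0) (XT.lf (nat_lit 0) (nat_lit 940467989673) (nat_lit 76) (nat_lit 1309552448123) (nat_lit 76) (nat_lit 1306799555007) (nat_lit 1) (nat_lit 4) (nat_lit 2) (nat_lit 5) (nat_lit 2) (nat_lit 4) (nat_lit 277) (nat_lit 212) (nat_lit 171)) (XT.lf (nat_lit 0) (nat_lit 1086111103661) (nat_lit 76) (nat_lit 1503316998441) (nat_lit 76) (nat_lit 1500562935870) (nat_lit 1) (nat_lit 4) (nat_lit 2) (nat_lit 5) (nat_lit 2) (nat_lit 4) (nat_lit 278) (nat_lit 212) (nat_lit 170))) (XT.nd (nat_lit 78) (nat_lit 0) (nat_lit 0) (XT.lf (nat_lit 0) (nat_lit 1253597086524) (nat_lit 76) (nat_lit 1726148004908) (nat_lit 76) (nat_lit 1723392925420)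 (nat_lit 1) (nat_lit 4) (nat_lit 2) (nat_lit 5) (nat_lit 2) (nat_lit 4) (nat_lit 279) (nat_lit 212) (nat_lit 169)) (XT.lf (nat_lit 0) (nat_lit 1446202837929) (nat_lit 76) (nat_lit 1982405204607) (nat_lit 76) (nat_lit 1979649240843) (nat_lit 1) (nat_lit 4) (nat_lit 2) (nat_lit 5) (nat_lit 2) (nat_lit 4) (nat_lit 280) (nat_lit 212) (nat_lit 168)))) (XT.nd (nat_lit 156) (nat_lit 0) (nat_lit 0) (XT.nd (nat_lit 78) (nat_lit 0) (nat_lit 0) (XT.lf (nat_lit 0) (nat_lit 1667696731273) (nat_lit 76) (nat_lit 2277102325359) (nat_lit 76) (nat_lit 2274345592659) (nat_lit 1) (nat_lit 4) (nat_lit 2) (nat_lit 5) (nat_lit 2) (nat_lit 4) (nat_lit 281) (nat_lit 212) (nat_lit 167)) (XT.lf (nat_lit 0) (nat_lit 1922412342728) (nat_lit 76) (nat_lit 2616005180394) (nat_lit 76) (nat_lit 2613247779055) (nat_lit 1) (nat_lit 4) (nat_lit 2) (nat_lit 5) (nat_lit 2) (nat_lit 4) (nat_lit 282) (nat_lit 212) (nat_lit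 166))) (XT.nd (nat_lit 78) (nat_lit 0) (nat_lit 0) (XT.lf (nat_lit 0) (nat_lit 2215333238607) (nat_lit 76) (nat_lit 3005744477748) (nat_lit 76) (nat_lit 3002986494983) (nat_lit 1) (nat_lit 4) (nat_lit 2) (nat_lit 5) (nat_lit 2) (nat_lit 4) (nat_lit 283) (nat_lit 212) (nat_lit 165)) (XT.lf (nat_lit 0) (nat_lit 2552190479915) (nat_lit 76) (nat_lit 3453945551497) (nat_lit 76) (nat_lit 3451187063145) (nat_lit 1) (nat_lit 4) (nat_lit 2) (nat_lit 5) (nat_lit 2) (nat_lit 4) (nat_lit 284) (nat_lit 212) (nat_lit 164))))) (XT.nd (nat_lit 312) (nat_lit 0) (nat_lit 0) (XT.nd (nat_lit 156) (nat_lit 0) (nat_lit 0) (XT.nd (nat_lit 78) (nat_lit 0) (nat_lit 0) (XT.lf (nat_lit 0) (nat_lit 2939574751809) (nat_lit 76) (nat_lit 3969377553086) (nat_lit 76) (nat_lit 3966618625093) (nat_lit 1) (nat_lit 4) (nat_lit 2) (nat_lit 5) (nat_lit 2) (nat_lit 4) (nat_lit 285) (nat_lit 212) (nat_lit 163)) (XT.lf (nat_lit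 0) (nat_lit 3385065311782) (nat_lit 76) (nat_lit 4562125021676) (nat_lit 76) (nat_lit 4559365711385) (nat_lit 1) (nat_lit 4) (nat_lit 2) (nat_lit 5) (nat_lit 2) (nat_lit 4) (nat_lit 286) (nat_lit 212) (nat_lit 162))) (XT.nd (nat_lit 78) (nat_lit 0) (nat_lit 0) (XT.lf (nat_lit 0) (nat_lit 3897378279487) (nat_lit 76) (nat_lit 5243785190347) (nat_lit 76) (nat_lit 5241025547625) (nat_lit 1) (nat_lit 4) (nat_lit 2) (nat_lit 5) (nat_lit 2) (nat_lit 4) (nat_lit 287) (nat_lit 212) (nat_lit 161)) (XT.lf (nat_lit 0) (nat_lit 4486537169507) (nat_lit 76) (nat_lit 6027694888488) (nat_lit 76) (nat_lit 6024934956694) (nat_lit 1) (nat_lit 4) (nat_lit 2) (nat_lit 5) (nat_lit 2) (nat_lit 4) (nat_lit 288) (nat_lit 212) (nat_lit 160)))) (XT.nd (nat_lit 156) (nat_lit 0) (nat_lit 0) (XT.nd (nat_lit 78) (nat_lit 0) (nat_lit 0) (XT.lf (nat_lit 0) (nat_lit 5164069003606) (nat_lit 76) (nat_lit 6929191479756)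 (nat_lit 76) (nat_lit 6926431296596) (nat_lit 1) (nat_lit 4) (nat_lit 2) (nat_lit 5) (nat_lit 2) (nat_lit 4) (nat_lit 289) (nat_lit 212) (nat_lit 159)) (XT.lf (nat_lit 0) (nat_lit 5943229839406) (nat_lit 76) (nat_lit 7965912940939) (nat_lit 76) (nat_lit 7963152539199) (nat_lit 1) (nat_lit 4) (nat_lit 2) (nat_lit 5) (nat_lit 2) (nat_lit 4) (nat_lit 290) (nat_lit 212) (nat_lit 158))) (XT.nd (nat_lit 78) (nat_lit 0) (nat_lit 0) (XT.lf (nat_lit 0) (nat_lit 6839264128042) (nat_lit 76) (nat_lit 9158142952797) (nat_lit 76) (nat_lit 9155382360988) (nat_lit 1) (nat_lit 4) (nat_lit 2) (nat_lit 5) (nat_lit 2) (nat_lit 4) (nat_lit 291) (nat_lit 212) (nat_lit 157)) (XT.nd (nat_lit 78) (nat_lit 0) (nat_lit 0) (XT.lf (nat_lit 0) (nat_lit 7869702975162) (nat_lit 76) (nat_lit 10529207754694) (nat_lit 76) (nat_lit 10526446997608) (nat_lit 1) (nat_lit 4) (nat_lit 2) (nat_lit 5) (nat_lit 2) (nat_lit 4)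 (nat_lit 292) (nat_lit 212) (nat_lit 156)) (XT.lf (nat_lit 0) (nat_lit 9054707140819) (nat_lit 76) (nat_lit 12105932527537) (nat_lit 76) (nat_lit 12103171626731) (nat_lit 1) (nat_lit 4) (nat_lit 2) (nat_lit 5) (nat_lit 2) (nat_lit 4) (nat_lit 293) (nat_lit 212) (nat_lit 155))))))) (XT.nd (nat_lit 30030) (nat_lit 0) (nat_lit 76) (XT.nd (nat_lit 29718) (nat_lit 0) (nat_lit 304) (XT.nd (nat_lit 156) (nat_lit 0) (nat_lit 0) (XT.nd (nat_lit 78) (nat_lit 0) (nat_lit 0) (XT.lf (nat_lit 0) (nat_lit 10417461489122) (nat_lit 76) (nat_lit 13919166234271) (nat_lit 76) (nat_lit 13916405208492) (nat_lit 1) (nat_lit 4) (nat_lit 2) (nat_lit 5) (nat_lit 2) (nat_lit 4) (nat_lit 294) (nat_lit 212) (nat_lit 154)) (XT.lf (nat_lit 0) (nat_lit 11984628605148) (nat_lit 76) (nat_lit 16004385186551) (nat_lit 76) (nat_lit 16001624052099) (nat_lit 1) (nat_lit 4) (nat_lit 2) (nat_lit 5) (nat_lit 2) (nat_lit 4)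 (nat_lit 295) (nat_lit 212) (nat_lit 153))) (XT.nd (nat_lit 78) (nat_lit 0) (nat_lit 0) (XT.lf (nat_lit 0) (nat_lit 13786870454209) (nat_lit 76) (nat_lit 18402387146487) (nat_lit 76) (nat_lit 18399625917537) (nat_lit 1) (nat_lit 4) (nat_lit 2) (nat_lit 5) (nat_lit 2) (nat_lit 4) (nat_lit 296) (nat_lit 212) (nat_lit 152)) (XT.lf (nat_lit 0) (nat_lit 15859448289875) (nat_lit 76) (nat_lit 21160089543729) (nat_lit 76) (nat_lit 21157328232607) (nat_lit 1) (nat_lit 4) (nat_lit 2) (nat_lit 5) (nat_lit 2) (nat_lit 4) (nat_lit 297) (nat_lit 212) (nat_lit 151)))) (XT.nd (nat_lit 156) (nat_lit 152) (nat_lit 0) (XT.nd (nat_lit 78) (nat_lit 76) (nat_lit 0) (XT.lf (nat_lit 0) (nat_lit 2414325357) (nat_lit 152) (nat_lit 1486128490) (nat_lit 0) (nat_lit 2414325357) (nat_lit 8) (nat_lit 5) (nat_lit 10) (nat_lit 4) (nat_lit 8) (nat_lit 4) (nat_lit 234) (nat_lit 213) (nat_lit 213)) (XT.lf (nat_lit 0)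 (nat_lit 4419088732) (nat_lit 76) (nat_lit 4981616146) (nat_lit 76) (nat_lit 4433732380) (nat_lit 7) (nat_lit 4) (nat_lit 8) (nat_lit 5) (nat_lit 8) (nat_lit 4) (nat_lit 235) (nat_lit 213) (nat_lit 212))) (XT.nd (nat_lit 78) (nat_lit 152) (nat_lit 0) (XT.lf (nat_lit 0) (nat_lit 12558784784) (nat_lit 76) (nat_lit 1861420703) (nat_lit 76) (nat_lit 837116270) (nat_lit 7) (nat_lit 4) (nat_lit 8) (nat_lit 5) (nat_lit 8) (nat_lit 4) (nat_lit 236) (nat_lit 213) (nat_lit 211)) (XT.lf (nat_lit 0) (nat_lit 2914151514) (nat_lit 152) (nat_lit 12310607506) (nat_lit 0) (nat_lit 1663209537) (nat_lit 5) (nat_lit 5) (nat_lit 7) (nat_lit 4) (nat_lit 5) (nat_lit 4) (nat_lit 237) (nat_lit 213) (nat_lit 210))))) (XT.nd (nat_lit 312) (nat_lit 152) (nat_lit 0) (XT.nd (nat_lit 156) (nat_lit 0) (nat_lit 0) (XT.nd (nat_lit 78) (nat_lit 76) (nat_lit 0) (XT.lf (nat_lit 0) (nat_lit 7029282946) (nat_lit 152) (nat_lit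 6280830789) (nat_lit 0) (nat_lit 5465086647) (nat_lit 5) (nat_lit 5) (nat_lit 7) (nat_lit 4) (nat_lit 5) (nat_lit 4) (nat_lit 238) (nat_lit 213) (nat_lit 209)) (XT.lf (nat_lit 0) (nat_lit 95400389) (nat_lit 76) (nat_lit 11366288060) (nat_lit 76) (nat_lit 9529696699) (nat_lit 4) (nat_lit 4) (nat_lit 5) (nat_lit 5) (nat_lit 5) (nat_lit 4) (nat_lit 239) (nat_lit 213) (nat_lit 208))) (XT.nd (nat_lit 78) (nat_lit 0) (nat_lit 0) (XT.lf (nat_lit 0) (nat_lit 7593190968) (nat_lit 76) (nat_lit 9007387610) (nat_lit 76) (nat_lit 6933930977) (nat_lit 4) (nat_lit 4) (nat_lit 5) (nat_lit 5) (nat_lit 5) (nat_lit 4) (nat_lit 240) (nat_lit 213) (nat_lit 207)) (XT.lf (nat_lit 0) (nat_lit 15745428385) (nat_lit 76) (nat_lit 6515576139) (nat_lit 76) (nat_lit 4236149705) (nat_lit 4) (nat_lit 4) (nat_lit 5) (nat_lit 5) (nat_lit 5) (nat_lit 4) (nat_lit 241) (nat_lit 213) (nat_lit 206)))) (XT.nd (nat_lit 156)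 (nat_lit 0) (nat_lit 0) (XT.nd (nat_lit 78) (nat_lit 152) (nat_lit 0) (XT.lf (nat_lit 0) (nat_lit 24711612940) (nat_lit 76) (nat_lit 3842100816) (nat_lit 76) (nat_lit 1383570207) (nat_lit 4) (nat_lit 4) (nat_lit 5) (nat_lit 5) (nat_lit 5) (nat_lit 4) (nat_lit 242) (nat_lit 213) (nat_lit 205)) (XT.lf (nat_lit 0) (nat_lit 741421364) (nat_lit 76) (nat_lit 819366884) (nat_lit 152) (nat_lit 32346379873) (nat_lit 2) (nat_lit 5) (nat_lit 3) (nat_lit 5) (nat_lit 4) (nat_lit 4) (nat_lit 243) (nat_lit 213) (nat_lit 204))) (XT.nd (nat_lit 78) (nat_lit 0) (nat_lit 0) (XT.lf (nat_lit 0) (nat_lit 5007282896) (nat_lit 152) (nat_lit 30809187126) (nat_lit 0) (nat_lit 2616237802) (nat_lit 2) (nat_lit 5) (nat_lit 4) (nat_lit 4) (nat_lit 2) (nat_lit 4) (nat_lit 244) (nat_lit 213) (nat_lit 203)) (XT.nd (nat_lit 78) (nat_lit 0) (nat_lit 0) (XT.lf (nat_lit 0) (nat_lit 8841033982) (nat_lit 152) (nat_lit 28468243292)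 (nat_lit 0) (nat_lit 6347585495) (nat_lit 2) (nat_lit 5) (nat_lit 4) (nat_lit 4) (nat_lit 2) (nat_lit 4) (nat_lit 245) (nat_lit 213) (nat_lit 202)) (XT.lf (nat_lit 0) (nat_lit 13103121443) (nat_lit 152) (nat_lit 26063185948) (nat_lit 0) (nat_lit 10520626527) (nat_lit 2) (nat_lit 5) (nat_lit 4) (nat_lit 4) (nat_lit 2) (nat_lit 4) (nat_lit 246) (nat_lit 213) (nat_lit 201))))))))
noncomputable def xc34 : XT := (XT.nd (nat_lit 1326) (nat_lit 0) (nat_lit 0) (XT.nd (nat_lit 624) (nat_lit 0) (nat_lit 0) (XT.nd (nat_lit 312) (nat_lit 76) (nat_lit 0) (XT.nd (nat_lit 156) (nat_lit 0) (nat_lit 0) (XT.nd (nat_lit 78) (nat_lit 0) (nat_lit 0) (XT.lf (nat_lit 0) (nat_lit 17876933947) (nat_lit 152) (nat_lit 23546959621) (nat_lit 0) (nat_lit 15217007354) (nat_lit 2) (nat_lit 5) (nat_lit 4) (nat_lit 4) (nat_lit 2) (nat_lit 4) (nat_lit 247) (nat_lit 213) (nat_lit 200)) (XT.lf (nat_lit 0) (nat_lit 23255872174)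 (nat_lit 152) (nat_lit 20870333799) (nat_lit 0) (nat_lit 20528613687) (nat_lit 2) (nat_lit 5) (nat_lit 4) (nat_lit 4) (nat_lit 2) (nat_lit 4) (nat_lit 248) (nat_lit 213) (nat_lit 199))) (XT.nd (nat_lit 78) (nat_lit 0) (nat_lit 0) (XT.lf (nat_lit 0) (nat_lit 29345176220) (nat_lit 152) (nat_lit 17980939714) (nat_lit 0) (nat_lit 26559368260) (nat_lit 2) (nat_lit 5) (nat_lit 4) (nat_lit 4) (nat_lit 2) (nat_lit 4) (nat_lit 249) (nat_lit 213) (nat_lit 198)) (XT.lf (nat_lit 0) (nat_lit 36263984641) (nat_lit 152) (nat_lit 14822245743) (nat_lit 0) (nat_lit 33427264096) (nat_lit 2) (nat_lit 5) (nat_lit 4) (nat_lit 4) (nat_lit 2) (nat_lit 4) (nat_lit 250) (nat_lit 213) (nat_lit 197)))) (XT.nd (nat_lit 156) (nat_lit 76) (nat_lit 0) (XT.nd (nat_lit 78) (nat_lit 0) (nat_lit 0) (XT.lf (nat_lit 0) (nat_lit 44147665429) (nat_lit 152) (nat_lit 11332451352) (nat_lit 0) (nat_lit 41266673071) (nat_lit 2)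 (nat_lit 5) (nat_lit 4) (nat_lit 4) (nat_lit 2) (nat_lit 4) (nat_lit 251) (nat_lit 213) (nat_lit 196)) (XT.lf (nat_lit 0) (nat_lit 53150464512) (nat_lit 152) (nat_lit 7443277954) (nat_lit 0) (nat_lit 50230974926) (nat_lit 2) (nat_lit 5) (nat_lit 4) (nat_lit 4) (nat_lit 2) (nat_lit 4) (nat_lit 252) (nat_lit 213) (nat_lit 195))) (XT.nd (nat_lit 78) (nat_lit 76) (nat_lit 0) (XT.lf (nat_lit 0) (nat_lit 63448523611) (nat_lit 152) (nat_lit 3078633028) (nat_lit 0) (nat_lit 60495558174) (nat_lit 2) (nat_lit 5) (nat_lit 4) (nat_lit 4) (nat_lit 2) (nat_lit 4) (nat_lit 253) (nat_lit 213) (nat_lit 194)) (XT.lf (nat_lit 0) (nat_lit 2027369067) (nat_lit 76) (nat_lit 73299906454) (nat_lit 76) (nat_lit 70317831581) (nat_lit 1) (nat_lit 4) (nat_lit 2) (nat_lit 5) (nat_lit 2) (nat_lit 4) (nat_lit 254) (nat_lit 213) (nat_lit 193))))) (XT.nd (nat_lit 312) (nat_lit 0) (nat_lit 0) (XT.nd (nat_lit 156) (nat_lit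 0) (nat_lit 0) (XT.nd (nat_lit 78) (nat_lit 0) (nat_lit 0) (XT.lf (nat_lit 0) (nat_lit 8155702864) (nat_lit 76) (nat_lit 80947648434) (nat_lit 76) (nat_lit 77940261009) (nat_lit 1) (nat_lit 4) (nat_lit 2) (nat_lit 5) (nat_lit 2) (nat_lit 4) (nat_lit 255) (nat_lit 213) (nat_lit 192)) (XT.lf (nat_lit 0) (nat_lit 15125404137) (nat_lit 76) (nat_lit 89780940860) (nat_lit 76) (nat_lit 86751542519) (nat_lit 1) (nat_lit 4) (nat_lit 2) (nat_lit 5) (nat_lit 2) (nat_lit 4) (nat_lit 256) (nat_lit 213) (nat_lit 191))) (XT.nd (nat_lit 78) (nat_lit 0) (nat_lit 0) (XT.lf (nat_lit 0) (nat_lit 23072836605) (nat_lit 76) (nat_lit 99972609018) (nat_lit 76) (nat_lit 96924070751) (nat_lit 1) (nat_lit 4) (nat_lit 2) (nat_lit 5) (nat_lit 2) (nat_lit 4) (nat_lit 257) (nat_lit 213) (nat_lit 190)) (XT.lf (nat_lit 0) (nat_lit 32153493513) (nat_lit 76) (nat_lit 111722055111) (nat_lit 76) (nat_lit 108656873429) (nat_lit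 1) (nat_lit 4) (nat_lit 2) (nat_lit 5) (nat_lit 2) (nat_lit 4) (nat_lit 258) (nat_lit 213) (nat_lit 189)))) (XT.nd (nat_lit 156) (nat_lit 0) (nat_lit 0) (XT.nd (nat_lit 78) (nat_lit 0) (nat_lit 0) (XT.lf (nat_lit 0) (nat_lit 42545039886) (nat_lit 76) (nat_lit 125259159605) (nat_lit 76) (nat_lit 122179505390) (nat_lit 1) (nat_lit 4) (nat_lit 2) (nat_lit 5) (nat_lit 2) (nat_lit 4) (nat_lit 259) (nat_lit 213) (nat_lit 188)) (XT.lf (nat_lit 0) (nat_lit 54450788589) (nat_lit 76) (nat_lit 140848778895) (nat_lit 76) (nat_lit 137756539867) (nat_lit 1) (nat_lit 4) (nat_lit 2) (nat_lit 5) (nat_lit 2) (nat_lit 4) (nat_lit 260) (nat_lit 213) (nat_lit 187))) (XT.nd (nat_lit 78) (nat_lit 0) (nat_lit 0) (XT.lf (nat_lit 0) (nat_lit 68103678184) (nat_lit 76) (nat_lit 158795927269) (nat_lit 76) (nat_lit 155692744926) (nat_lit 1) (nat_lit 4) (nat_lit 2) (nat_lit 5) (nat_lit 2) (nat_lit 4) (nat_lit 261)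 (nat_lit 213) (nat_lit 186)) (XT.nd (nat_lit 78) (nat_lit 0) (nat_lit 0) (XT.lf (nat_lit 0) (nat_lit 83770830423) (nat_lit 76) (nat_lit 179451744587) (nat_lit 76) (nat_lit 176339046318) (nat_lit 1) (nat_lit 4) (nat_lit 2) (nat_lit 5) (nat_lit 2) (nat_lit 4) (nat_lit 262) (nat_lit 213) (nat_lit 185)) (XT.lf (nat_lit 0) (nat_lit 101758776545) (nat_lit 76) (nat_lit 203220366406) (nat_lit 76) (nat_lit 200099393418) (nat_lit 1) (nat_lit 4) (nat_lit 2) (nat_lit 5) (nat_lit 2) (nat_lit 4) (nat_lit 263) (nat_lit 213) (nat_lit 184))))))) (XT.nd (nat_lit 624) (nat_lit 0) (nat_lit 0) (XT.nd (nat_lit 312) (nat_lit 0) (nat_lit 0) (XT.nd (nat_lit 156) (nat_lit 0) (nat_lit 0) (XT.nd (nat_lit 78) (nat_lit 0) (nat_lit 0) (XT.lf (nat_lit 0) (nat_lit 122419454628) (nat_lit 76) (nat_lit 230566830978) (nat_lit 76) (nat_lit 227438662583) (nat_lit 1) (nat_lit 4) (nat_lit 2) (nat_lit 5) (nat_lit 2) (nat_lit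 4) (nat_lit 264) (nat_lit 213) (nat_lit 183)) (XT.lf (nat_lit 0) (nat_lit 146157095329) (nat_lit 76) (nat_lit 262026177828) (nat_lit 76) (nat_lit 258891752557) (nat_lit 1) (nat_lit 4) (nat_lit 2) (nat_lit 5) (nat_lit 2) (nat_lit 4) (nat_lit 265) (nat_lit 213) (nat_lit 182))) (XT.nd (nat_lit 78) (nat_lit 0) (nat_lit 0) (XT.lf (nat_lit 0) (nat_lit 173436130748) (nat_lit 76) (nat_lit 298213915915) (nat_lit 76) (nat_lit 295074049883) (nat_lit 1) (nat_lit 4) (nat_lit 2) (nat_lit 5) (nat_lit 2) (nat_lit 4) (nat_lit 266) (nat_lit 213) (nat_lit 181)) (XT.lf (nat_lit 0) (nat_lit 204790281145) (nat_lit 76) (nat_lit 339838066204) (nat_lit 76) (nat_lit 336693469074) (nat_lit 1) (nat_lit 4) (nat_lit 2) (nat_lit 5) (nat_lit 2) (nat_lit 4) (nat_lit 267) (nat_lit 213) (nat_lit 180)))) (XT.nd (nat_lit 156) (nat_lit 0) (nat_lit 0) (XT.nd (nat_lit 78) (nat_lit 0) (nat_lit 0) (XT.lf (nat_lit 0) (nat_lit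 240832997288) (nat_lit 76) (nat_lit 387713014241) (nat_lit 76) (nat_lit 384564303114) (nat_lit 1) (nat_lit 4) (nat_lit 2) (nat_lit 5) (nat_lit 2) (nat_lit 4) (nat_lit 268) (nat_lit 213) (nat_lit 179)) (XT.lf (nat_lit 0) (nat_lit 282269462753) (nat_lit 76) (nat_lit 442775443794) (nat_lit 76) (nat_lit 439623155278) (nat_lit 1) (nat_lit 4) (nat_lit 2) (nat_lit 5) (nat_lit 2) (nat_lit 4) (nat_lit 269) (nat_lit 213) (nat_lit 178))) (XT.nd (nat_lit 78) (nat_lit 0) (nat_lit 0) (XT.lf (nat_lit 0) (nat_lit 329910390995) (nat_lit 76) (nat_lit 506102663267) (nat_lit 76) (nat_lit 502947263978) (nat_lit 1) (nat_lit 4) (nat_lit 2) (nat_lit 5) (nat_lit 2) (nat_lit 4) (nat_lit 270) (nat_lit 213) (nat_lit 177)) (XT.lf (nat_lit 0) (nat_lit 384687887131) (nat_lit 76) (nat_lit 578933683476) (nat_lit 76) (nat_lit 575775579167) (nat_lit 1) (nat_lit 4) (nat_lit 2) (nat_lit 5) (nat_lit 2) (nat_lit 4) (nat_lit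 271) (nat_lit 213) (nat_lit 176))))) (XT.nd (nat_lit 312) (nat_lit 0) (nat_lit 0) (XT.nd (nat_lit 156) (nat_lit 0) (nat_lit 0) (XT.nd (nat_lit 78) (nat_lit 0) (nat_lit 0) (XT.lf (nat_lit 0) (nat_lit 447673684783) (nat_lit 76) (nat_lit 662693459163) (nat_lit 76) (nat_lit 659533002662) (nat_lit 1) (nat_lit 4) (nat_lit 2) (nat_lit 5) (nat_lit 2) (nat_lit 4) (nat_lit 272) (nat_lit 213) (nat_lit 175)) (XT.lf (nat_lit 0) (nat_lit 520100114774) (nat_lit 76) (nat_lit 759020768549) (nat_lit 76) (nat_lit 755858266665) (nat_lit 1) (nat_lit 4) (nat_lit 2) (nat_lit 5) (nat_lit 2) (nat_lit 4) (nat_lit 273) (nat_lit 213) (nat_lit 174))) (XT.nd (nat_lit 78) (nat_lit 0) (nat_lit 0) (XT.lf (nat_lit 0) (nat_lit 603384215951) (nat_lit 76) (nat_lit 869800276383) (nat_lit 76) (nat_lit 866635995904) (nat_lit 1) (nat_lit 4) (nat_lit 2) (nat_lit 5) (nat_lit 2) (nat_lit 4) (nat_lit 274) (nat_lit 213) (nat_lit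 173)) (XT.lf (nat_lit 0) (nat_lit 699155459858) (nat_lit 76) (nat_lit 997199407817) (nat_lit 76) (nat_lit 994033580734) (nat_lit 1) (nat_lit 4) (nat_lit 2) (nat_lit 5) (nat_lit 2) (nat_lit 4) (nat_lit 275) (nat_lit 213) (nat_lit 172)))) (XT.nd (nat_lit 156) (nat_lit 0) (nat_lit 0) (XT.nd (nat_lit 78) (nat_lit 0) (nat_lit 0) (XT.lf (nat_lit 0) (nat_lit 809287631704) (nat_lit 76) (nat_lit 1143710754554) (nat_lit 76) (nat_lit 1140543582598) (nat_lit 1) (nat_lit 4) (nat_lit 2) (nat_lit 5) (nat_lit 2) (nat_lit 4) (nat_lit 276) (nat_lit 213) (nat_lit 171)) (XT.lf (nat_lit 0) (nat_lit 935935491372) (nat_lit 76) (nat_lit 1312200842944) (nat_lit 76) (nat_lit 1309032501533) (nat_lit 1) (nat_lit 4) (nat_lit 2) (nat_lit 5) (nat_lit 2) (nat_lit 4) (nat_lit 277) (nat_lit 213) (nat_lit 170))) (XT.nd (nat_lit 78) (nat_lit 0) (nat_lit 0) (XT.lf (nat_lit 0) (nat_lit 1081576931768) (nat_lit 76) (nat_lit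 1505966218193) (nat_lit 76) (nat_lit 1502796859864) (nat_lit 1) (nat_lit 4) (nat_lit 2) (nat_lit 5) (nat_lit 2) (nat_lit 4) (nat_lit 278) (nat_lit 213) (nat_lit 169)) (XT.nd (nat_lit 78) (nat_lit 0) (nat_lit 0) (XT.lf (nat_lit 0) (nat_lit 1249061459335) (nat_lit 76) (nat_lit 1728797941991) (nat_lit 76) (nat_lit 1725627699387) (nat_lit 1) (nat_lit 4) (nat_lit 2) (nat_lit 5) (nat_lit 2) (nat_lit 4) (nat_lit 279) (nat_lit 213) (nat_lit 168)) (XT.lf (nat_lit 0) (nat_lit 1441665945264) (nat_lit 76) (nat_lit 1985055765456) (nat_lit 76) (nat_lit 1981884753917) (nat_lit 1) (nat_lit 4) (nat_lit 2) (nat_lit 5) (nat_lit 2) (nat_lit 4) (nat_lit 280) (nat_lit 213) (nat_lit 167))))))))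
noncomputable def xc35 : XT := (XT.nd (nat_lit 30576) (nat_lit 0) (nat_lit 76) (XT.nd (nat_lit 624) (nat_lit 0) (nat_lit 0) (XT.nd (nat_lit 312) (nat_lit 0) (nat_lit 0) (XT.nd (nat_lit 156) (nat_lit 0) (nat_lit 0) (XT.nd (nat_lit 78) (nat_lit 0) (nat_lit 0) (XT.lf (nat_lit 0) (nat_lit 1663158738193) (nat_lit 76) (nat_lit 2279753428613) (nat_lit 76) (nat_lit 2276581748434) (nat_lit 1) (nat_lit 4) (nat_lit 2) (nat_lit 5) (nat_lit 2) (nat_lit 4) (nat_lit 281) (nat_lit 213) (nat_lit 166)) (XT.lf (nat_lit 0) (nat_lit 1917873392767) (nat_lit 76) (nat_lit 2618656755306) (nat_lit 76) (nat_lit 2615484493701) (nat_lit 1) (nat_lit 4) (nat_lit 2) (nat_lit 5) (nat_lit 2) (nat_lit 4) (nat_lit 282) (nat_lit 213) (nat_lit 165))) (XT.nd (nat_lit 78) (nat_lit 0) (nat_lit 0) (XT.lf (nat_lit 0) (nat_lit 2210793456575) (nat_lit 76) (nat_lit 3008396462796) (nat_lit 76) (nat_lit 3005223695603) (nat_lit 1)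 (nat_lit 4) (nat_lit 2) (nat_lit 5) (nat_lit 2) (nat_lit 4) (nat_lit 283) (nat_lit 213) (nat_lit 164)) (XT.lf (nat_lit 0) (nat_lit 2547649974344) (nat_lit 76) (nat_lit 3456597893186) (nat_lit 76) (nat_lit 3453424686352) (nat_lit 1) (nat_lit 4) (nat_lit 2) (nat_lit 5) (nat_lit 2) (nat_lit 4) (nat_lit 284) (nat_lit 213) (nat_lit 163)))) (XT.nd (nat_lit 156) (nat_lit 0) (nat_lit 0) (XT.nd (nat_lit 78) (nat_lit 0) (nat_lit 0) (XT.lf (nat_lit 0) (nat_lit 2935033617073) (nat_lit 76) (nat_lit 3972030204897) (nat_lit 76) (nat_lit 3968856615766) (nat_lit 1) (nat_lit 4) (nat_lit 2) (nat_lit 5) (nat_lit 2) (nat_lit 4) (nat_lit 285) (nat_lit 213) (nat_lit 162)) (XT.lf (nat_lit 0) (nat_lit 3380523629946) (nat_lit 76) (nat_lit 4564777943158) (nat_lit 76) (nat_lit 4561604021595) (nat_lit 1) (nat_lit 4) (nat_lit 2) (nat_lit 5) (nat_lit 2) (nat_lit 4) (nat_lit 286) (nat_lit 213) (nat_lit 161))) (XT.nd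 (nat_lit 78) (nat_lit 0) (nat_lit 0) (XT.lf (nat_lit 0) (nat_lit 3892836121911) (nat_lit 76) (nat_lit 5246438346326) (nat_lit 76) (nat_lit 5243264135692) (nat_lit 1) (nat_lit 4) (nat_lit 2) (nat_lit 5) (nat_lit 2) (nat_lit 4) (nat_lit 287) (nat_lit 213) (nat_lit 160)) (XT.lf (nat_lit 0) (nat_lit 4481994598246) (nat_lit 76) (nat_lit 6030348248377) (nat_lit 76) (nat_lit 6027173786376) (nat_lit 1) (nat_lit 4) (nat_lit 2) (nat_lit 5) (nat_lit 2) (nat_lit 4) (nat_lit 288) (nat_lit 213) (nat_lit 159))))) (XT.nd (nat_lit 312) (nat_lit 0) (nat_lit 0) (XT.nd (nat_lit 156) (nat_lit 0) (nat_lit 0) (XT.nd (nat_lit 78) (nat_lit 0) (nat_lit 0) (XT.lf (nat_lit 0) (nat_lit 5159526072617) (nat_lit 76) (nat_lit 6931845016958) (nat_lit 76) (nat_lit 6928670336378) (nat_lit 1) (nat_lit 4) (nat_lit 2) (nat_lit 5) (nat_lit 2) (nat_lit 4) (nat_lit 289) (nat_lit 213) (nat_lit 158)) (XT.lf (nat_lit 0) (nat_lit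 5938686595611) (nat_lit 76) (nat_lit 7968566632326) (nat_lit 76) (nat_lit 7965391761677) (nat_lit 1) (nat_lit 4) (nat_lit 2) (nat_lit 5) (nat_lit 2) (nat_lit 4) (nat_lit 290) (nat_lit 213) (nat_lit 157))) (XT.nd (nat_lit 78) (nat_lit 0) (nat_lit 0) (XT.lf (nat_lit 0) (nat_lit 6834720612242) (nat_lit 76) (nat_lit 9160796778259) (nat_lit 76) (nat_lit 9157621742332) (nat_lit 1) (nat_lit 4) (nat_lit 2) (nat_lit 5) (nat_lit 2) (nat_lit 4) (nat_lit 291) (nat_lit 213) (nat_lit 156)) (XT.lf (nat_lit 0) (nat_lit 7865159222835) (nat_lit 76) (nat_lit 10531861696743) (nat_lit 76) (nat_lit 10528686517096) (nat_lit 1) (nat_lit 4) (nat_lit 2) (nat_lit 5) (nat_lit 2) (nat_lit 4) (nat_lit 292) (nat_lit 213) (nat_lit 155)))) (XT.nd (nat_lit 156) (nat_lit 0) (nat_lit 0) (XT.nd (nat_lit 78) (nat_lit 0) (nat_lit 0) (XT.lf (nat_lit 0) (nat_lit 9050163182817) (nat_lit 76) (nat_lit 12108586570964) (nat_lit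 76) (nat_lit 12105411266344) (nat_lit 1) (nat_lit 4) (nat_lit 2) (nat_lit 5) (nat_lit 2) (nat_lit 4) (nat_lit 293) (nat_lit 213) (nat_lit 154)) (XT.lf (nat_lit 0) (nat_lit 10412917352272) (nat_lit 76) (nat_lit 13921820365855) (nat_lit 76) (nat_lit 13918644952562) (nat_lit 1) (nat_lit 4) (nat_lit 2) (nat_lit 5) (nat_lit 2) (nat_lit 4) (nat_lit 294) (nat_lit 213) (nat_lit 153))) (XT.nd (nat_lit 78) (nat_lit 0) (nat_lit 0) (XT.lf (nat_lit 0) (nat_lit 11980084312778) (nat_lit 76) (nat_lit 16007039394792) (nat_lit 76) (nat_lit 16003863887002) (nat_lit 1) (nat_lit 4) (nat_lit 2) (nat_lit 5) (nat_lit 2) (nat_lit 4) (nat_lit 295) (nat_lit 213) (nat_lit 152)) (XT.nd (nat_lit 78) (nat_lit 0) (nat_lit 0) (XT.lf (nat_lit 0) (nat_lit 13782326026605) (nat_lit 76) (nat_lit 18405041421387) (nat_lit 76) (nat_lit 18401865831424) (nat_lit 1) (nat_lit 4) (nat_lit 2) (nat_lit 5) (nat_lit 2) (nat_lit 4)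 (nat_lit 296) (nat_lit 213) (nat_lit 151)) (XT.lf (nat_lit 0) (nat_lit 15854903744675) (nat_lit 76) (nat_lit 21162743876593) (nat_lit 76) (nat_lit 21159568215176) (nat_lit 1) (nat_lit 4) (nat_lit 2) (nat_lit 5) (nat_lit 2) (nat_lit 4) (nat_lit 297) (nat_lit 213) (nat_lit 150))))))) (XT.nd (nat_lit 624) (nat_lit 228) (nat_lit 0) (XT.nd (nat_lit 312) (nat_lit 152) (nat_lit 0) (XT.nd (nat_lit 156) (nat_lit 76) (nat_lit 0) (XT.nd (nat_lit 78) (nat_lit 152) (nat_lit 0) (XT.lf (nat_lit 0) (nat_lit 2910064324) (nat_lit 152) (nat_lit 1219049328) (nat_lit 152) (nat_lit 1219049328) (nat_lit 10) (nat_lit 4) (nat_lit 12) (nat_lit 5) (nat_lit 12) (nat_lit 4) (nat_lit 232) (nat_lit 214) (nat_lit 214)) (XT.lf (nat_lit 0) (nat_lit 1277158861) (nat_lit 152) (nat_lit 9689984693) (nat_lit 0) (nat_lit 647092529) (nat_lit 8) (nat_lit 5) (nat_lit 10) (nat_lit 4) (nat_lit 8) (nat_lit 4) (nat_lit 233) (nat_lit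 214) (nat_lit 213))) (XT.nd (nat_lit 78) (nat_lit 76) (nat_lit 0) (XT.lf (nat_lit 0) (nat_lit 5263497144) (nat_lit 152) (nat_lit 3310610000) (nat_lit 0) (nat_lit 4085547046) (nat_lit 8) (nat_lit 5) (nat_lit 10) (nat_lit 4) (nat_lit 8) (nat_lit 4) (nat_lit 234) (nat_lit 214) (nat_lit 212)) (XT.lf (nat_lit 0) (nat_lit 3724696059) (nat_lit 76) (nat_lit 5912345493) (nat_lit 76) (nat_lit 4257974728) (nat_lit 7) (nat_lit 4) (nat_lit 8) (nat_lit 5) (nat_lit 8) (nat_lit 4) (nat_lit 235) (nat_lit 214) (nat_lit 211)))) (XT.nd (nat_lit 156) (nat_lit 0) (nat_lit 0) (XT.nd (nat_lit 78) (nat_lit 152) (nat_lit 0) (XT.lf (nat_lit 0) (nat_lit 11583545731) (nat_lit 76) (nat_lit 2913752887) (nat_lit 76) (nat_lit 845103282) (nat_lit 7) (nat_lit 4) (nat_lit 8) (nat_lit 5) (nat_lit 8) (nat_lit 4) (nat_lit 236) (nat_lit 214) (nat_lit 210)) (XT.lf (nat_lit 0) (nat_lit 2650233588) (nat_lit 152) (nat_lit 13823672211)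 (nat_lit 0) (nat_lit 538153523) (nat_lit 5) (nat_lit 5) (nat_lit 7) (nat_lit 4) (nat_lit 5) (nat_lit 4) (nat_lit 237) (nat_lit 214) (nat_lit 209))) (XT.nd (nat_lit 78) (nat_lit 0) (nat_lit 0) (XT.lf (nat_lit 0) (nat_lit 6623994801) (nat_lit 152) (nat_lit 8057386307) (nat_lit 0) (nat_lit 4239519674) (nat_lit 5) (nat_lit 5) (nat_lit 7) (nat_lit 4) (nat_lit 5) (nat_lit 4) (nat_lit 238) (nat_lit 214) (nat_lit 208)) (XT.lf (nat_lit 0) (nat_lit 10929519353) (nat_lit 152) (nat_lit 1918770777) (nat_lit 0) (nat_lit 8308178954) (nat_lit 5) (nat_lit 5) (nat_lit 7) (nat_lit 4) (nat_lit 5) (nat_lit 4) (nat_lit 239) (nat_lit 214) (nat_lit 207))))) (XT.nd (nat_lit 312) (nat_lit 76) (nat_lit 0) (XT.nd (nat_lit 156) (nat_lit 76) (nat_lit 0) (XT.nd (nat_lit 78) (nat_lit 0) (nat_lit 0) (XT.lf (nat_lit 0) (nat_lit 5172795776) (nat_lit 76) (nat_lit 10692444433) (nat_lit 76) (nat_lit 7865134232) (nat_lit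 4) (nat_lit 4) (nat_lit 5) (nat_lit 5) (nat_lit 5) (nat_lit 4) (nat_lit 240) (nat_lit 214) (nat_lit 206)) (XT.lf (nat_lit 0) (nat_lit 13134852507) (nat_lit 76) (nat_lit 8289985459) (nat_lit 76) (nat_lit 5283571083) (nat_lit 4) (nat_lit 4) (nat_lit 5) (nat_lit 5) (nat_lit 5) (nat_lit 4) (nat_lit 241) (nat_lit 214) (nat_lit 205))) (XT.nd (nat_lit 78) (nat_lit 76) (nat_lit 0) (XT.lf (nat_lit 0) (nat_lit 21935662552) (nat_lit 76) (nat_lit 5694207959) (nat_lit 76) (nat_lit 2532050822) (nat_lit 4) (nat_lit 4) (nat_lit 5) (nat_lit 5) (nat_lit 5) (nat_lit 4) (nat_lit 242) (nat_lit 214) (nat_lit 204)) (XT.lf (nat_lit 0) (nat_lit 403798515) (nat_lit 152) (nat_lit 2429418815) (nat_lit 76) (nat_lit 31322509505) (nat_lit 3) (nat_lit 5) (nat_lit 5) (nat_lit 5) (nat_lit 4) (nat_lit 4) (nat_lit 243) (nat_lit 214) (nat_lit 203)))) (XT.nd (nat_lit 156) (nat_lit 0) (nat_lit 0) (XT.nd (nat_lit 78) (nat_lit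 0) (nat_lit 0) (XT.lf (nat_lit 0) (nat_lit 3572735798) (nat_lit 152) (nat_lit 34547449618) (nat_lit 0) (nat_lit 602866645) (nat_lit 2) (nat_lit 5) (nat_lit 4) (nat_lit 4) (nat_lit 2) (nat_lit 4) (nat_lit 244) (nat_lit 214) (nat_lit 202)) (XT.lf (nat_lit 0) (nat_lit 7338242099) (nat_lit 152) (nat_lit 32340007209) (nat_lit 0) (nat_lit 4279326516) (nat_lit 2) (nat_lit 5) (nat_lit 4) (nat_lit 4) (nat_lit 2) (nat_lit 4) (nat_lit 245) (nat_lit 214) (nat_lit 201))) (XT.nd (nat_lit 78) (nat_lit 0) (nat_lit 0) (XT.lf (nat_lit 0) (nat_lit 11540986269) (nat_lit 152) (nat_lit 30051038060) (nat_lit 0) (nat_lit 8404639009) (nat_lit 2) (nat_lit 5) (nat_lit 4) (nat_lit 4) (nat_lit 2) (nat_lit 4) (nat_lit 246) (nat_lit 214) (nat_lit 200)) (XT.nd (nat_lit 78) (nat_lit 0) (nat_lit 0) (XT.lf (nat_lit 0) (nat_lit 16263195912) (nat_lit 152) (nat_lit 27635757991) (nat_lit 0) (nat_lit 13059516758) (nat_lit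 2) (nat_lit 5) (nat_lit 4) (nat_lit 4) (nat_lit 2) (nat_lit 4) (nat_lit 247) (nat_lit 214) (nat_lit 199)) (XT.lf (nat_lit 0) (nat_lit 21597262085) (nat_lit 152) (nat_lit 25046911522) (nat_lit 0) (nat_lit 18335033459) (nat_lit 2) (nat_lit 5) (nat_lit 4) (nat_lit 4) (nat_lit 2) (nat_lit 4) (nat_lit 248) (nat_lit 214) (nat_lit 198))))))))
noncomputable def xc36 : XT := (XT.nd (nat_lit 1326) (nat_lit 0) (nat_lit 0) (XT.nd (nat_lit 624) (nat_lit 0) (nat_lit 0) (XT.nd (nat_lit 312) (nat_lit 76) (nat_lit 0) (XT.nd (nat_lit 156) (nat_lit 0) (nat_lit 0) (XT.nd (nat_lit 78) (nat_lit 0) (nat_lit 0) (XT.lf (nat_lit 0) (nat_lit 27647546953) (nat_lit 152) (nat_lit 22233847310) (nat_lit 0) (nat_lit 24334405742) (nat_lit 2) (nat_lit 5) (nat_lit 4) (nat_lit 4) (nat_lit 2) (nat_lit 4) (nat_lit 249) (nat_lit 214) (nat_lit 197)) (XT.lf (nat_lit 0) (nat_lit 34532425655) (nat_lit 152) (nat_lit 19141527142)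 (nat_lit 0) (nat_lit 31175012631) (nat_lit 2) (nat_lit 5) (nat_lit 4) (nat_lit 4) (nat_lit 2) (nat_lit 4) (nat_lit 250) (nat_lit 214) (nat_lit 196))) (XT.nd (nat_lit 78) (nat_lit 0) (nat_lit 0) (XT.lf (nat_lit 0) (nat_lit 42386602339) (nat_lit 152) (nat_lit 15709449100) (nat_lit 0) (nat_lit 38990692086) (nat_lit 2) (nat_lit 5) (nat_lit 4) (nat_lit 4) (nat_lit 2) (nat_lit 4) (nat_lit 251) (nat_lit 214) (nat_lit 195)) (XT.lf (nat_lit 0) (nat_lit 51363745680) (nat_lit 152) (nat_lit 11870463834) (nat_lit 0) (nat_lit 47934359576) (nat_lit 2) (nat_lit 5) (nat_lit 4) (nat_lit 4) (nat_lit 2) (nat_lit 4) (nat_lit 252) (nat_lit 214) (nat_lit 194)))) (XT.nd (nat_lit 156) (nat_lit 76) (nat_lit 0) (XT.nd (nat_lit 78) (nat_lit 0) (nat_lit 0) (XT.lf (nat_lit 0) (nat_lit 61639495438) (nat_lit 152) (nat_lit 7549460760) (nat_lit 0) (nat_lit 58180999898) (nat_lit 2) (nat_lit 5) (nat_lit 4) (nat_lit 4)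 (nat_lit 2) (nat_lit 4) (nat_lit 253) (nat_lit 214) (nat_lit 193)) (XT.lf (nat_lit 0) (nat_lit 73414898891) (nat_lit 152) (nat_lit 2661898515) (nat_lit 0) (nat_lit 69931090799) (nat_lit 2) (nat_lit 5) (nat_lit 4) (nat_lit 4) (nat_lit 2) (nat_lit 4) (nat_lit 254) (nat_lit 214) (nat_lit 192))) (XT.nd (nat_lit 78) (nat_lit 0) (nat_lit 0) (XT.lf (nat_lit 0) (nat_lit 3170070737) (nat_lit 76) (nat_lit 83881539500) (nat_lit 76) (nat_lit 80375720493) (nat_lit 1) (nat_lit 4) (nat_lit 2) (nat_lit 5) (nat_lit 2) (nat_lit 4) (nat_lit 255) (nat_lit 214) (nat_lit 191)) (XT.lf (nat_lit 0) (nat_lit 10108272477) (nat_lit 76) (nat_lit 92730358376) (nat_lit 76) (nat_lit 89205399442) (nat_lit 1) (nat_lit 4) (nat_lit 2) (nat_lit 5) (nat_lit 2) (nat_lit 4) (nat_lit 256) (nat_lit 214) (nat_lit 190))))) (XT.nd (nat_lit 312) (nat_lit 0) (nat_lit 0) (XT.nd (nat_lit 156) (nat_lit 0) (nat_lit 0) (XT.nd (nat_lit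 78) (nat_lit 0) (nat_lit 0) (XT.lf (nat_lit 0) (nat_lit 18028314047) (nat_lit 76) (nat_lit 102935527795) (nat_lit 76) (nat_lit 99393925447) (nat_lit 1) (nat_lit 4) (nat_lit 2) (nat_lit 5) (nat_lit 2) (nat_lit 4) (nat_lit 257) (nat_lit 214) (nat_lit 189)) (XT.lf (nat_lit 0) (nat_lit 27085152782) (nat_lit 76) (nat_lit 114696714115) (nat_lit 76) (nat_lit 111140639232) (nat_lit 1) (nat_lit 4) (nat_lit 2) (nat_lit 5) (nat_lit 2) (nat_lit 4) (nat_lit 258) (nat_lit 214) (nat_lit 188))) (XT.nd (nat_lit 78) (nat_lit 0) (nat_lit 0) (XT.lf (nat_lit 0) (nat_lit 37455987701) (nat_lit 76) (nat_lit 128244027503) (nat_lit 76) (nat_lit 124675367808) (nat_lit 1) (nat_lit 4) (nat_lit 2) (nat_lit 5) (nat_lit 2) (nat_lit 4) (nat_lit 259) (nat_lit 214) (nat_lit 187)) (XT.lf (nat_lit 0) (nat_lit 49343726445) (nat_lit 76) (nat_lit 143842524090) (nat_lit 76) (nat_lit 140262921080) (nat_lit 1) (nat_lit 4) (nat_lit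 2) (nat_lit 5) (nat_lit 2) (nat_lit 4) (nat_lit 260) (nat_lit 214) (nat_lit 186)))) (XT.nd (nat_lit 156) (nat_lit 0) (nat_lit 0) (XT.nd (nat_lit 78) (nat_lit 0) (nat_lit 0) (XT.lf (nat_lit 0) (nat_lit 62980955204) (nat_lit 76) (nat_lit 161797391854) (nat_lit 76) (nat_lit 158208272918) (nat_lit 1) (nat_lit 4) (nat_lit 2) (nat_lit 5) (nat_lit 2) (nat_lit 4) (nat_lit 261) (nat_lit 214) (nat_lit 185)) (XT.lf (nat_lit 0) (nat_lit 78634489326) (nat_lit 76) (nat_lit 182459921685) (nat_lit 76) (nat_lit 178862528031) (nat_lit 1) (nat_lit 4) (nat_lit 2) (nat_lit 5) (nat_lit 2) (nat_lit 4) (nat_lit 262) (nat_lit 214) (nat_lit 184))) (XT.nd (nat_lit 78) (nat_lit 0) (nat_lit 0) (XT.lf (nat_lit 0) (nat_lit 96610593607) (nat_lit 76) (nat_lit 206234380472) (nat_lit 76) (nat_lit 202629791410) (nat_lit 1) (nat_lit 4) (nat_lit 2) (nat_lit 5) (nat_lit 2) (nat_lit 4) (nat_lit 263) (nat_lit 214) (nat_lit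 183)) (XT.nd (nat_lit 78) (nat_lit 0) (nat_lit 0) (XT.lf (nat_lit 0) (nat_lit 117260974437) (nat_lit 76) (nat_lit 233585920668) (nat_lit 76) (nat_lit 229975074731) (nat_lit 1) (nat_lit 4) (nat_lit 2) (nat_lit 5) (nat_lit 2) (nat_lit 4) (nat_lit 264) (nat_lit 214) (nat_lit 182)) (XT.lf (nat_lit 0) (nat_lit 140989661005) (nat_lit 76) (nat_lit 265049681104) (nat_lit 76) (nat_lit 261433394405) (nat_lit 1) (nat_lit 4) (nat_lit 2) (nat_lit 5) (nat_lit 2) (nat_lit 4) (nat_lit 265) (nat_lit 214) (nat_lit 181))))))) (XT.nd (nat_lit 624) (nat_lit 0) (nat_lit 0) (XT.nd (nat_lit 312) (nat_lit 0) (nat_lit 0) (XT.nd (nat_lit 156) (nat_lit 0) (nat_lit 0) (XT.nd (nat_lit 78) (nat_lit 0) (nat_lit 0) (XT.lf (nat_lit 0) (nat_lit 168260910222) (nat_lit 76) (nat_lit 301241257093) (nat_lit 76) (nat_lit 297620239297) (nat_lit 1) (nat_lit 4) (nat_lit 2) (nat_lit 5) (nat_lit 2) (nat_lit 4) (nat_lit 266) (nat_lit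 214) (nat_lit 180)) (XT.lf (nat_lit 0) (nat_lit 199608290007) (nat_lit 76) (nat_lit 342868744686) (nat_lit 76) (nat_lit 339243612893) (nat_lit 1) (nat_lit 4) (nat_lit 2) (nat_lit 5) (nat_lit 2) (nat_lit 4) (nat_lit 267) (nat_lit 214) (nat_lit 179))) (XT.nd (nat_lit 78) (nat_lit 0) (nat_lit 0) (XT.lf (nat_lit 0) (nat_lit 235645118662) (nat_lit 76) (nat_lit 390746594728) (nat_lit 76) (nat_lit 387117885546) (nat_lit 1) (nat_lit 4) (nat_lit 2) (nat_lit 5) (nat_lit 2) (nat_lit 4) (nat_lit 268) (nat_lit 214) (nat_lit 178)) (XT.lf (nat_lit 0) (nat_lit 277076464572) (nat_lit 76) (nat_lit 445811547764) (nat_lit 76) (nat_lit 442179727808) (nat_lit 1) (nat_lit 4) (nat_lit 2) (nat_lit 5) (nat_lit 2) (nat_lit 4) (nat_lit 269) (nat_lit 214) (nat_lit 177)))) (XT.nd (nat_lit 156) (nat_lit 0) (nat_lit 0) (XT.nd (nat_lit 78) (nat_lit 0) (nat_lit 0) (XT.lf (nat_lit 0) (nat_lit 324712941027) (nat_lit 76)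 (nat_lit 509140961569) (nat_lit 76) (nat_lit 505506436593) (nat_lit 1) (nat_lit 4) (nat_lit 2) (nat_lit 5) (nat_lit 2) (nat_lit 4) (nat_lit 270) (nat_lit 214) (nat_lit 176)) (XT.lf (nat_lit 0) (nat_lit 379486566045) (nat_lit 76) (nat_lit 581973889893) (nat_lit 76) (nat_lit 578337012726) (nat_lit 1) (nat_lit 4) (nat_lit 2) (nat_lit 5) (nat_lit 2) (nat_lit 4) (nat_lit 271) (nat_lit 214) (nat_lit 175))) (XT.nd (nat_lit 78) (nat_lit 0) (nat_lit 0) (XT.lf (nat_lit 0) (nat_lit 442468997507) (nat_lit 76) (nat_lit 665735324811) (nat_lit 76) (nat_lit 662096402259) (nat_lit 1) (nat_lit 4) (nat_lit 2) (nat_lit 5) (nat_lit 2) (nat_lit 4) (nat_lit 272) (nat_lit 214) (nat_lit 174)) (XT.lf (nat_lit 0) (nat_lit 514892500375) (nat_lit 76) (nat_lit 762064077006) (nat_lit 76) (nat_lit 758423375860) (nat_lit 1) (nat_lit 4) (nat_lit 2) (nat_lit 5) (nat_lit 2) (nat_lit 4) (nat_lit 273) (nat_lit 214) (nat_lit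 173))))) (XT.nd (nat_lit 312) (nat_lit 0) (nat_lit 0) (XT.nd (nat_lit 156) (nat_lit 0) (nat_lit 0) (XT.nd (nat_lit 78) (nat_lit 0) (nat_lit 0) (XT.lf (nat_lit 0) (nat_lit 598174056229) (nat_lit 76) (nat_lit 872844839456) (nat_lit 76) (nat_lit 869202591706) (nat_lit 1) (nat_lit 4) (nat_lit 2) (nat_lit 5) (nat_lit 2) (nat_lit 4) (nat_lit 274) (nat_lit 214) (nat_lit 172)) (XT.lf (nat_lit 0) (nat_lit 693943086812) (nat_lit 76) (nat_lit 1000245061861) (nat_lit 76) (nat_lit 996601469239) (nat_lit 1) (nat_lit 4) (nat_lit 2) (nat_lit 5) (nat_lit 2) (nat_lit 4) (nat_lit 275) (nat_lit 214) (nat_lit 171))) (XT.nd (nat_lit 78) (nat_lit 0) (nat_lit 0) (XT.lf (nat_lit 0) (nat_lit 804073334027) (nat_lit 76) (nat_lit 1146757357269) (nat_lit 76) (nat_lit 1143112595191) (nat_lit 1) (nat_lit 4) (nat_lit 2) (nat_lit 5) (nat_lit 2) (nat_lit 4) (nat_lit 276) (nat_lit 214) (nat_lit 170)) (XT.lf (nat_lit 0)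 (nat_lit 930719520103) (nat_lit 76) (nat_lit 1315248270589) (nat_lit 76) (nat_lit 1311602491594) (nat_lit 1) (nat_lit 4) (nat_lit 2) (nat_lit 5) (nat_lit 2) (nat_lit 4) (nat_lit 277) (nat_lit 214) (nat_lit 169)))) (XT.nd (nat_lit 156) (nat_lit 0) (nat_lit 0) (XT.nd (nat_lit 78) (nat_lit 0) (nat_lit 0) (XT.lf (nat_lit 0) (nat_lit 1076359505202) (nat_lit 76) (nat_lit 1509014363169) (nat_lit 76) (nat_lit 1505367699899) (nat_lit 1) (nat_lit 4) (nat_lit 2) (nat_lit 5) (nat_lit 2) (nat_lit 4) (nat_lit 278) (nat_lit 214) (nat_lit 168)) (XT.lf (nat_lit 0) (nat_lit 1243842767294) (nat_lit 76) (nat_lit 1731846710734) (nat_lit 76) (nat_lit 1728199278528) (nat_lit 1) (nat_lit 4) (nat_lit 2) (nat_lit 5) (nat_lit 2) (nat_lit 4) (nat_lit 279) (nat_lit 214) (nat_lit 167))) (XT.nd (nat_lit 78) (nat_lit 0) (nat_lit 0) (XT.lf (nat_lit 0) (nat_lit 1436446152809) (nat_lit 76) (nat_lit 1988105076605) (nat_lit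 76) (nat_lit 1984456975759) (nat_lit 1) (nat_lit 4) (nat_lit 2) (nat_lit 5) (nat_lit 2) (nat_lit 4) (nat_lit 280) (nat_lit 214) (nat_lit 166)) (XT.nd (nat_lit 78) (nat_lit 0) (nat_lit 0) (XT.lf (nat_lit 0) (nat_lit 1657937988857) (nat_lit 76) (nat_lit 2282803211418) (nat_lit 76) (nat_lit 2279154529147) (nat_lit 1) (nat_lit 4) (nat_lit 2) (nat_lit 5) (nat_lit 2) (nat_lit 4) (nat_lit 281) (nat_lit 214) (nat_lit 165)) (XT.lf (nat_lit 0) (nat_lit 1912651811361) (nat_lit 76) (nat_lit 2621706948247) (nat_lit 76) (nat_lit 2618057760388) (nat_lit 1) (nat_lit 4) (nat_lit 2) (nat_lit 5) (nat_lit 2) (nat_lit 4) (nat_lit 282) (nat_lit 214) (nat_lit 164))))))))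
noncomputable def xc37 : XT := (XT.nd (nat_lit 30420) (nat_lit 0) (nat_lit 76) (XT.nd (nat_lit 624) (nat_lit 0) (nat_lit 0) (XT.nd (nat_lit 312) (nat_lit 0) (nat_lit 0) (XT.nd (nat_lit 156) (nat_lit 0) (nat_lit 0) (XT.nd (nat_lit 78) (nat_lit 0) (nat_lit 0) (XT.lf (nat_lit 0) (nat_lit 2205571151629) (nat_lit 76) (nat_lit 3011447012378) (nat_lit 76) (nat_lit 3007797384877) (nat_lit 1) (nat_lit 4) (nat_lit 2) (nat_lit 5) (nat_lit 2) (nat_lit 4) (nat_lit 283) (nat_lit 214) (nat_lit 163)) (XT.lf (nat_lit 0) (nat_lit 2542427040232) (nat_lit 76) (nat_lit 3459648752890) (nat_lit 76) (nat_lit 3455998743092) (nat_lit 1) (nat_lit 4) (nat_lit 2) (nat_lit 5) (nat_lit 2) (nat_lit 4) (nat_lit 284) (nat_lit 214) (nat_lit 162))) (XT.nd (nat_lit 78) (nat_lit 0) (nat_lit 0) (XT.lf (nat_lit 0) (nat_lit 2929810135861) (nat_lit 76) (nat_lit 3975081334272) (nat_lit 76) (nat_lit 3971430992042) (nat_lit 1)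 (nat_lit 4) (nat_lit 2) (nat_lit 5) (nat_lit 2) (nat_lit 4) (nat_lit 285) (nat_lit 214) (nat_lit 161)) (XT.lf (nat_lit 0) (nat_lit 3375299672995) (nat_lit 76) (nat_lit 4567829307030) (nat_lit 76) (nat_lit 4564178675729) (nat_lit 1) (nat_lit 4) (nat_lit 2) (nat_lit 5) (nat_lit 2) (nat_lit 4) (nat_lit 286) (nat_lit 214) (nat_lit 160)))) (XT.nd (nat_lit 156) (nat_lit 0) (nat_lit 0) (XT.nd (nat_lit 78) (nat_lit 0) (nat_lit 0) (XT.lf (nat_lit 0) (nat_lit 3887611751274) (nat_lit 76) (nat_lit 5249489914108) (nat_lit 76) (nat_lit 5245839031441) (nat_lit 1) (nat_lit 4) (nat_lit 2) (nat_lit 5) (nat_lit 2) (nat_lit 4) (nat_lit 287) (nat_lit 214) (nat_lit 159)) (XT.lf (nat_lit 0) (nat_lit 4476769867882) (nat_lit 76) (nat_lit 6033399993472) (nat_lit 76) (nat_lit 6029748892225) (nat_lit 1) (nat_lit 4) (nat_lit 2) (nat_lit 5) (nat_lit 2) (nat_lit 4) (nat_lit 288) (nat_lit 214) (nat_lit 158))) (XT.nd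 (nat_lit 78) (nat_lit 0) (nat_lit 0) (XT.lf (nat_lit 0) (nat_lit 5154301029447) (nat_lit 76) (nat_lit 6934896916240) (nat_lit 76) (nat_lit 6931245624924) (nat_lit 1) (nat_lit 4) (nat_lit 2) (nat_lit 5) (nat_lit 2) (nat_lit 4) (nat_lit 289) (nat_lit 214) (nat_lit 157)) (XT.lf (nat_lit 0) (nat_lit 5933461280435) (nat_lit 76) (nat_lit 7971618665682) (nat_lit 76) (nat_lit 7967967209088) (nat_lit 1) (nat_lit 4) (nat_lit 2) (nat_lit 5) (nat_lit 2) (nat_lit 4) (nat_lit 290) (nat_lit 214) (nat_lit 156))))) (XT.nd (nat_lit 312) (nat_lit 0) (nat_lit 0) (XT.nd (nat_lit 156) (nat_lit 0) (nat_lit 0) (XT.nd (nat_lit 78) (nat_lit 0) (nat_lit 0) (XT.lf (nat_lit 0) (nat_lit 6829495060539) (nat_lit 76) (nat_lit 9163848928201) (nat_lit 76) (nat_lit 9160197327888) (nat_lit 1) (nat_lit 4) (nat_lit 2) (nat_lit 5) (nat_lit 2) (nat_lit 4) (nat_lit 291) (nat_lit 214) (nat_lit 155)) (XT.lf (nat_lit 0) (nat_lit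 7859933465458) (nat_lit 76) (nat_lit 10534913948064) (nat_lit 76) (nat_lit 10531262222777) (nat_lit 1) (nat_lit 4) (nat_lit 2) (nat_lit 5) (nat_lit 2) (nat_lit 4) (nat_lit 292) (nat_lit 214) (nat_lit 154))) (XT.nd (nat_lit 78) (nat_lit 0) (nat_lit 0) (XT.lf (nat_lit 0) (nat_lit 9044937246591) (nat_lit 76) (nat_lit 12111638910442) (nat_lit 76) (nat_lit 12107987076483) (nat_lit 1) (nat_lit 4) (nat_lit 2) (nat_lit 5) (nat_lit 2) (nat_lit 4) (nat_lit 293) (nat_lit 214) (nat_lit 153)) (XT.lf (nat_lit 0) (nat_lit 10407691260527) (nat_lit 76) (nat_lit 13924872781990) (nat_lit 76) (nat_lit 13921220853533) (nat_lit 1) (nat_lit 4) (nat_lit 2) (nat_lit 5) (nat_lit 2) (nat_lit 4) (nat_lit 294) (nat_lit 214) (nat_lit 152)))) (XT.nd (nat_lit 156) (nat_lit 0) (nat_lit 0) (XT.nd (nat_lit 78) (nat_lit 0) (nat_lit 0) (XT.lf (nat_lit 0) (nat_lit 11974858085798) (nat_lit 76) (nat_lit 16010091877586) (nat_lit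 76) (nat_lit 16006439866957) (nat_lit 1) (nat_lit 4) (nat_lit 2) (nat_lit 5) (nat_lit 2) (nat_lit 4) (nat_lit 295) (nat_lit 214) (nat_lit 151)) (XT.lf (nat_lit 0) (nat_lit 13777099682029) (nat_lit 76) (nat_lit 18408093962144) (nat_lit 76) (nat_lit 18404441880061) (nat_lit 1) (nat_lit 4) (nat_lit 2) (nat_lit 5) (nat_lit 2) (nat_lit 4) (nat_lit 296) (nat_lit 214) (nat_lit 150))) (XT.nd (nat_lit 29172) (nat_lit 0) (nat_lit 836) (XT.lf (nat_lit 0) (nat_lit 15849677297843) (nat_lit 76) (nat_lit 21165796467754) (nat_lit 76) (nat_lit 21162144323537) (nat_lit 1) (nat_lit 4) (nat_lit 2) (nat_lit 5) (nat_lit 2) (nat_lit 4) (nat_lit 297) (nat_lit 214) (nat_lit 149)) (XT.nd (nat_lit 78) (nat_lit 0) (nat_lit 0) (XT.lf (nat_lit 0) (nat_lit 487926990) (nat_lit 152) (nat_lit 3648998536) (nat_lit 0) (nat_lit 487926990) (nat_lit 12) (nat_lit 5) (nat_lit 14) (nat_lit 4) (nat_lit 12) (nat_lit 4) (nat_lit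 230) (nat_lit 215) (nat_lit 215)) (XT.lf (nat_lit 0) (nat_lit 4735117189) (nat_lit 152) (nat_lit 1287323050) (nat_lit 0) (nat_lit 3901854465) (nat_lit 12) (nat_lit 5) (nat_lit 14) (nat_lit 4) (nat_lit 12) (nat_lit 4) (nat_lit 231) (nat_lit 215) (nat_lit 214))))))) (XT.nd (nat_lit 624) (nat_lit 228) (nat_lit 0) (XT.nd (nat_lit 312) (nat_lit 152) (nat_lit 0) (XT.nd (nat_lit 156) (nat_lit 76) (nat_lit 0) (XT.nd (nat_lit 78) (nat_lit 152) (nat_lit 0) (XT.lf (nat_lit 0) (nat_lit 5511837646) (nat_lit 152) (nat_lit 3386209348) (nat_lit 152) (nat_lit 1828370344) (nat_lit 10) (nat_lit 4) (nat_lit 12) (nat_lit 5) (nat_lit 12) (nat_lit 4) (nat_lit 232) (nat_lit 215) (nat_lit 213)) (XT.lf (nat_lit 0) (nat_lit 1244744184) (nat_lit 76) (nat_lit 351836987) (nat_lit 152) (nat_lit 10080175516) (nat_lit 8) (nat_lit 5) (nat_lit 9) (nat_lit 5) (nat_lit 10) (nat_lit 4) (nat_lit 233) (nat_lit 215) (nat_lit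 212))) (XT.nd (nat_lit 78) (nat_lit 76) (nat_lit 0) (XT.lf (nat_lit 0) (nat_lit 5398594199) (nat_lit 152) (nat_lit 4332289008) (nat_lit 0) (nat_lit 3019647153) (nat_lit 8) (nat_lit 5) (nat_lit 10) (nat_lit 4) (nat_lit 8) (nat_lit 4) (nat_lit 234) (nat_lit 215) (nat_lit 211)) (XT.lf (nat_lit 0) (nat_lit 2322324768) (nat_lit 76) (nat_lit 7244130341) (nat_lit 76) (nat_lit 4450904455) (nat_lit 7) (nat_lit 4) (nat_lit 8) (nat_lit 5) (nat_lit 8) (nat_lit 4) (nat_lit 235) (nat_lit 215) (nat_lit 210)))) (XT.nd (nat_lit 156) (nat_lit 0) (nat_lit 0) (XT.nd (nat_lit 78) (nat_lit 152) (nat_lit 0) (XT.lf (nat_lit 0) (nat_lit 9936960197) (nat_lit 76) (nat_lit 4351279333) (nat_lit 76) (nat_lit 1197810977) (nat_lit 7) (nat_lit 4) (nat_lit 8) (nat_lit 5) (nat_lit 8) (nat_lit 4) (nat_lit 236) (nat_lit 215) (nat_lit 209)) (XT.lf (nat_lit 0) (nat_lit 1020226031) (nat_lit 76) (nat_lit 1066726856) (nat_lit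 152) (nat_lit 15107645897) (nat_lit 5) (nat_lit 5) (nat_lit 6) (nat_lit 5) (nat_lit 7) (nat_lit 4) (nat_lit 237) (nat_lit 215) (nat_lit 208))) (XT.nd (nat_lit 78) (nat_lit 0) (nat_lit 0) (XT.lf (nat_lit 0) (nat_lit 5893612591) (nat_lit 152) (nat_lit 10593038412) (nat_lit 0) (nat_lit 2642205861) (nat_lit 5) (nat_lit 5) (nat_lit 7) (nat_lit 4) (nat_lit 5) (nat_lit 4) (nat_lit 238) (nat_lit 215) (nat_lit 207)) (XT.lf (nat_lit 0) (nat_lit 10092240948) (nat_lit 152) (nat_lit 4653659792) (nat_lit 0) (nat_lit 6634864416) (nat_lit 5) (nat_lit 5) (nat_lit 7) (nat_lit 4) (nat_lit 5) (nat_lit 4) (nat_lit 239) (nat_lit 215) (nat_lit 206))))) (XT.nd (nat_lit 312) (nat_lit 152) (nat_lit 0) (XT.nd (nat_lit 156) (nat_lit 0) (nat_lit 0) (XT.nd (nat_lit 78) (nat_lit 0) (nat_lit 0) (XT.lf (nat_lit 0) (nat_lit 1980452830) (nat_lit 76) (nat_lit 12822367647) (nat_lit 76) (nat_lit 9185886940) (nat_lit 4)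 (nat_lit 4) (nat_lit 5) (nat_lit 5) (nat_lit 5) (nat_lit 4) (nat_lit 240) (nat_lit 215) (nat_lit 205)) (XT.lf (nat_lit 0) (nat_lit 9777135051) (nat_lit 76) (nat_lit 10497606496) (nat_lit 76) (nat_lit 6705383028) (nat_lit 4) (nat_lit 4) (nat_lit 5) (nat_lit 5) (nat_lit 5) (nat_lit 4) (nat_lit 241) (nat_lit 215) (nat_lit 204))) (XT.nd (nat_lit 78) (nat_lit 0) (nat_lit 0) (XT.lf (nat_lit 0) (nat_lit 18434141174) (nat_lit 76) (nat_lit 7969392320) (nat_lit 76) (nat_lit 4041740364) (nat_lit 4) (nat_lit 4) (nat_lit 5) (nat_lit 5) (nat_lit 5) (nat_lit 4) (nat_lit 242) (nat_lit 215) (nat_lit 203)) (XT.lf (nat_lit 0) (nat_lit 28120847404) (nat_lit 76) (nat_lit 5188260058) (nat_lit 76) (nat_lit 1142844200) (nat_lit 4) (nat_lit 4) (nat_lit 5) (nat_lit 5) (nat_lit 5) (nat_lit 4) (nat_lit 243) (nat_lit 215) (nat_lit 202)))) (XT.nd (nat_lit 156) (nat_lit 0) (nat_lit 0) (XT.nd (nat_lit 78) (nat_lit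 76) (nat_lit 0) (XT.lf (nat_lit 0) (nat_lit 1865693827) (nat_lit 152) (nat_lit 136577522) (nat_lit 76) (nat_lit 37063557524) (nat_lit 3) (nat_lit 5) (nat_lit 5) (nat_lit 5) (nat_lit 4) (nat_lit 4) (nat_lit 244) (nat_lit 215) (nat_lit 201)) (XT.lf (nat_lit 0) (nat_lit 5482443358) (nat_lit 152) (nat_lit 37042125334) (nat_lit 0) (nat_lit 1798212332) (nat_lit 2) (nat_lit 5) (nat_lit 4) (nat_lit 4) (nat_lit 2) (nat_lit 4) (nat_lit 245) (nat_lit 215) (nat_lit 200))) (XT.nd (nat_lit 78) (nat_lit 0) (nat_lit 0) (XT.lf (nat_lit 0) (nat_lit 9633584666) (nat_lit 152) (nat_lit 34854102442) (nat_lit 0) (nat_lit 5882021746) (nat_lit 2) (nat_lit 5) (nat_lit 4) (nat_lit 4) (nat_lit 2) (nat_lit 4) (nat_lit 246) (nat_lit 215) (nat_lit 199)) (XT.nd (nat_lit 78) (nat_lit 0) (nat_lit 0) (XT.lf (nat_lit 0) (nat_lit 14310922255) (nat_lit 152) (nat_lit 32526601726) (nat_lit 0) (nat_lit 10500809862) (nat_lit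 2) (nat_lit 5) (nat_lit 4) (nat_lit 4) (nat_lit 2) (nat_lit 4) (nat_lit 247) (nat_lit 215) (nat_lit 198)) (XT.lf (nat_lit 0) (nat_lit 19605969251) (nat_lit 152) (nat_lit 30014085131) (nat_lit 0) (nat_lit 15744944274) (nat_lit 2) (nat_lit 5) (nat_lit 4) (nat_lit 4) (nat_lit 2) (nat_lit 4) (nat_lit 248) (nat_lit 215) (nat_lit 197))))))))
noncomputable def xc38 : XT := (XT.nd (nat_lit 1326) (nat_lit 0) (nat_lit 0) (XT.nd (nat_lit 624) (nat_lit 0) (nat_lit 0) (XT.nd (nat_lit 312) (nat_lit 76) (nat_lit 0) (XT.nd (nat_lit 156) (nat_lit 0) (nat_lit 0) (XT.nd (nat_lit 78) (nat_lit 0) (nat_lit 0) (XT.lf (nat_lit 0) (nat_lit 25622324400) (nat_lit 152) (nat_lit 27267394721) (nat_lit 0) (nat_lit 21717027609) (nat_lit 2) (nat_lit 5) (nat_lit 4) (nat_lit 4) (nat_lit 2) (nat_lit 4) (nat_lit 249) (nat_lit 215) (nat_lit 196)) (XT.lf (nat_lit 0) (nat_lit 32477698998) (nat_lit 152) (nat_lit 24232790903)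 (nat_lit 0) (nat_lit 28533904979) (nat_lit 2) (nat_lit 5) (nat_lit 4) (nat_lit 4) (nat_lit 2) (nat_lit 4) (nat_lit 250) (nat_lit 215) (nat_lit 195))) (XT.nd (nat_lit 78) (nat_lit 0) (nat_lit 0) (XT.lf (nat_lit 0) (nat_lit 40306219940) (nat_lit 152) (nat_lit 20850900992) (nat_lit 0) (nat_lit 36328950070) (nat_lit 2) (nat_lit 5) (nat_lit 4) (nat_lit 4) (nat_lit 2) (nat_lit 4) (nat_lit 251) (nat_lit 215) (nat_lit 194)) (XT.lf (nat_lit 0) (nat_lit 49261053939) (nat_lit 152) (nat_lit 17055557578) (nat_lit 0) (nat_lit 45254674633) (nat_lit 2) (nat_lit 5) (nat_lit 4) (nat_lit 4) (nat_lit 2) (nat_lit 4) (nat_lit 252) (nat_lit 215) (nat_lit 193)))) (XT.nd (nat_lit 156) (nat_lit 76) (nat_lit 0) (XT.nd (nat_lit 78) (nat_lit 0) (nat_lit 0) (XT.lf (nat_lit 0) (nat_lit 59517404270) (nat_lit 152) (nat_lit 12772503941) (nat_lit 0) (nat_lit 55485712412) (nat_lit 2) (nat_lit 5) (nat_lit 4) (nat_lit 4)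 (nat_lit 2) (nat_lit 4) (nat_lit 253) (nat_lit 215) (nat_lit 192)) (XT.lf (nat_lit 0) (nat_lit 71275938656) (nat_lit 152) (nat_lit 7917941207) (nat_lit 0) (nat_lit 67222235882) (nat_lit 2) (nat_lit 5) (nat_lit 4) (nat_lit 4) (nat_lit 2) (nat_lit 4) (nat_lit 254) (nat_lit 215) (nat_lit 191))) (XT.nd (nat_lit 78) (nat_lit 76) (nat_lit 0) (XT.lf (nat_lit 0) (nat_lit 84766715379) (nat_lit 152) (nat_lit 2396888799) (nat_lit 0) (nat_lit 80693872679) (nat_lit 2) (nat_lit 5) (nat_lit 4) (nat_lit 4) (nat_lit 2) (nat_lit 4) (nat_lit 255) (nat_lit 215) (nat_lit 190)) (XT.lf (nat_lit 0) (nat_lit 4279680636) (nat_lit 76) (nat_lit 96151216231) (nat_lit 76) (nat_lit 92061730116) (nat_lit 1) (nat_lit 4) (nat_lit 2) (nat_lit 5) (nat_lit 2) (nat_lit 4) (nat_lit 256) (nat_lit 215) (nat_lit 189))))) (XT.nd (nat_lit 312) (nat_lit 0) (nat_lit 0) (XT.nd (nat_lit 156) (nat_lit 0) (nat_lit 0) (XT.nd (nat_lit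 78) (nat_lit 0) (nat_lit 0) (XT.lf (nat_lit 0) (nat_lit 12175904034) (nat_lit 76) (nat_lit 106368125876) (nat_lit 76) (nat_lit 102264167228) (nat_lit 1) (nat_lit 4) (nat_lit 2) (nat_lit 5) (nat_lit 2) (nat_lit 4) (nat_lit 257) (nat_lit 215) (nat_lit 188)) (XT.lf (nat_lit 0) (nat_lit 21212031316) (nat_lit 76) (nat_lit 118139521089) (nat_lit 76) (nat_lit 114022977628) (nat_lit 1) (nat_lit 4) (nat_lit 2) (nat_lit 5) (nat_lit 2) (nat_lit 4) (nat_lit 258) (nat_lit 215) (nat_lit 187))) (XT.nd (nat_lit 78) (nat_lit 0) (nat_lit 0) (XT.lf (nat_lit 0) (nat_lit 31564856275) (nat_lit 76) (nat_lit 131695711776) (nat_lit 76) (nat_lit 127568225000) (nat_lit 1) (nat_lit 4) (nat_lit 2) (nat_lit 5) (nat_lit 2) (nat_lit 4) (nat_lit 259) (nat_lit 215) (nat_lit 186)) (XT.lf (nat_lit 0) (nat_lit 43436934183) (nat_lit 76) (nat_lit 147301927753) (nat_lit 76) (nat_lit 143164925051) (nat_lit 1) (nat_lit 4) (nat_lit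 2) (nat_lit 5) (nat_lit 2) (nat_lit 4) (nat_lit 260) (nat_lit 215) (nat_lit 185)))) (XT.nd (nat_lit 156) (nat_lit 0) (nat_lit 0) (XT.nd (nat_lit 78) (nat_lit 0) (nat_lit 0) (XT.lf (nat_lit 0) (nat_lit 57060544826) (nat_lit 76) (nat_lit 165263508030) (nat_lit 76) (nat_lit 161118230609) (nat_lit 1) (nat_lit 4) (nat_lit 2) (nat_lit 5) (nat_lit 2) (nat_lit 4) (nat_lit 261) (nat_lit 215) (nat_lit 184)) (XT.lf (nat_lit 0) (nat_lit 72702237106) (nat_lit 76) (nat_lit 185931874829) (nat_lit 76) (nat_lit 181779402001) (nat_lit 1) (nat_lit 4) (nat_lit 2) (nat_lit 5) (nat_lit 2) (nat_lit 4) (nat_lit 262) (nat_lit 215) (nat_lit 183))) (XT.nd (nat_lit 78) (nat_lit 0) (nat_lit 0) (XT.lf (nat_lit 0) (nat_lit 90668044135) (nat_lit 76) (nat_lit 209711409239) (nat_lit 76) (nat_lit 205552679535) (nat_lit 1) (nat_lit 4) (nat_lit 2) (nat_lit 5) (nat_lit 2) (nat_lit 4) (nat_lit 263) (nat_lit 215) (nat_lit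 182)) (XT.nd (nat_lit 78) (nat_lit 0) (nat_lit 0) (XT.lf (nat_lit 0) (nat_lit 111309470831) (nat_lit 76) (nat_lit 237067363022) (nat_lit 76) (nat_lit 232903192556) (nat_lit 1) (nat_lit 4) (nat_lit 2) (nat_lit 5) (nat_lit 2) (nat_lit 4) (nat_lit 264) (nat_lit 215) (nat_lit 181)) (XT.lf (nat_lit 0) (nat_lit 135030371196) (nat_lit 76) (nat_lit 268534961359) (nat_lit 76) (nat_lit 264366059796) (nat_lit 1) (nat_lit 4) (nat_lit 2) (nat_lit 5) (nat_lit 2) (nat_lit 4) (nat_lit 265) (nat_lit 215) (nat_lit 180))))))) (XT.nd (nat_lit 624) (nat_lit 0) (nat_lit 0) (XT.nd (nat_lit 312) (nat_lit 0) (nat_lit 0) (XT.nd (nat_lit 156) (nat_lit 0) (nat_lit 0) (XT.nd (nat_lit 78) (nat_lit 0) (nat_lit 0) (XT.lf (nat_lit 0) (nat_lit 162294849802) (nat_lit 76) (nat_lit 304729874653) (nat_lit 76) (nat_lit 300556859093) (nat_lit 1) (nat_lit 4) (nat_lit 2) (nat_lit 5) (nat_lit 2) (nat_lit 4) (nat_lit 266) (nat_lit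 215) (nat_lit 179)) (XT.lf (nat_lit 0) (nat_lit 193636342100) (nat_lit 76) (nat_lit 346360264251) (nat_lit 76) (nat_lit 342183671302) (nat_lit 1) (nat_lit 4) (nat_lit 2) (nat_lit 5) (nat_lit 2) (nat_lit 4) (nat_lit 267) (nat_lit 215) (nat_lit 178))) (XT.nd (nat_lit 78) (nat_lit 0) (nat_lit 0) (XT.lf (nat_lit 0) (nat_lit 229668051199) (nat_lit 76) (nat_lit 394240637775) (nat_lit 76) (nat_lit 390060934053) (nat_lit 1) (nat_lit 4) (nat_lit 2) (nat_lit 5) (nat_lit 2) (nat_lit 4) (nat_lit 268) (nat_lit 215) (nat_lit 177)) (XT.lf (nat_lit 0) (nat_lit 271094945323) (nat_lit 76) (nat_lit 449307785143) (nat_lit 76) (nat_lit 445125376401) (nat_lit 1) (nat_lit 4) (nat_lit 2) (nat_lit 5) (nat_lit 2) (nat_lit 4) (nat_lit 269) (nat_lit 215) (nat_lit 176)))) (XT.nd (nat_lit 156) (nat_lit 0) (nat_lit 0) (XT.nd (nat_lit 78) (nat_lit 0) (nat_lit 0) (XT.lf (nat_lit 0) (nat_lit 318727550659) (nat_lit 76)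 (nat_lit 512639107064) (nat_lit 76) (nat_lit 508454346130) (nat_lit 1) (nat_lit 4) (nat_lit 2) (nat_lit 5) (nat_lit 2) (nat_lit 4) (nat_lit 270) (nat_lit 215) (nat_lit 175)) (XT.lf (nat_lit 0) (nat_lit 373497809487) (nat_lit 76) (nat_lit 585473694618) (nat_lit 76) (nat_lit 581286888300) (nat_lit 1) (nat_lit 4) (nat_lit 2) (nat_lit 5) (nat_lit 2) (nat_lit 4) (nat_lit 271) (nat_lit 215) (nat_lit 174))) (XT.nd (nat_lit 78) (nat_lit 0) (nat_lit 0) (XT.lf (nat_lit 0) (nat_lit 436477313827) (nat_lit 76) (nat_lit 669236572345) (nat_lit 76) (nat_lit 665047987433) (nat_lit 1) (nat_lit 4) (nat_lit 2) (nat_lit 5) (nat_lit 2) (nat_lit 4) (nat_lit 272) (nat_lit 215) (nat_lit 173)) (XT.lf (nat_lit 0) (nat_lit 508898271372) (nat_lit 76) (nat_lit 765566579157) (nat_lit 76) (nat_lit 761376447640) (nat_lit 1) (nat_lit 4) (nat_lit 2) (nat_lit 5) (nat_lit 2) (nat_lit 4) (nat_lit 273) (nat_lit 215) (nat_lit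 172))))) (XT.nd (nat_lit 312) (nat_lit 0) (nat_lit 0) (XT.nd (nat_lit 156) (nat_lit 0) (nat_lit 0) (XT.nd (nat_lit 78) (nat_lit 0) (nat_lit 0) (XT.lf (nat_lit 0) (nat_lit 592177613900) (nat_lit 76) (nat_lit 876348432578) (nat_lit 76) (nat_lit 872156956188) (nat_lit 1) (nat_lit 4) (nat_lit 2) (nat_lit 5) (nat_lit 2) (nat_lit 4) (nat_lit 274) (nat_lit 215) (nat_lit 171)) (XT.lf (nat_lit 0) (nat_lit 687944719853) (nat_lit 76) (nat_lit 1003749603654) (nat_lit 76) (nat_lit 999556957810) (nat_lit 1) (nat_lit 4) (nat_lit 2) (nat_lit 5) (nat_lit 2) (nat_lit 4) (nat_lit 275) (nat_lit 215) (nat_lit 170))) (XT.nd (nat_lit 78) (nat_lit 0) (nat_lit 0) (XT.lf (nat_lit 0) (nat_lit 798073293477) (nat_lit 76) (nat_lit 1150262723992) (nat_lit 76) (nat_lit 1146069061231) (nat_lit 1) (nat_lit 4) (nat_lit 2) (nat_lit 5) (nat_lit 2) (nat_lit 4) (nat_lit 276) (nat_lit 215) (nat_lit 169)) (XT.lf (nat_lit 0)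 (nat_lit 924718024256) (nat_lit 76) (nat_lit 1318754354644) (nat_lit 76) (nat_lit 1314559807606) (nat_lit 1) (nat_lit 4) (nat_lit 2) (nat_lit 5) (nat_lit 2) (nat_lit 4) (nat_lit 277) (nat_lit 215) (nat_lit 168)))) (XT.nd (nat_lit 156) (nat_lit 0) (nat_lit 0) (XT.nd (nat_lit 78) (nat_lit 0) (nat_lit 0) (XT.lf (nat_lit 0) (nat_lit 1070356743879) (nat_lit 76) (nat_lit 1512521070990) (nat_lit 76) (nat_lit 1508325755017) (nat_lit 1) (nat_lit 4) (nat_lit 2) (nat_lit 5) (nat_lit 2) (nat_lit 4) (nat_lit 278) (nat_lit 215) (nat_lit 167)) (XT.lf (nat_lit 0) (nat_lit 1237838905557) (nat_lit 76) (nat_lit 1735353960960) (nat_lit 76) (nat_lit 1731157976347) (nat_lit 1) (nat_lit 4) (nat_lit 2) (nat_lit 5) (nat_lit 2) (nat_lit 4) (nat_lit 279) (nat_lit 215) (nat_lit 166))) (XT.nd (nat_lit 78) (nat_lit 0) (nat_lit 0) (XT.lf (nat_lit 0) (nat_lit 1430441334192) (nat_lit 76) (nat_lit 1991612798487) (nat_lit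 76) (nat_lit 1987416232449) (nat_lit 1) (nat_lit 4) (nat_lit 2) (nat_lit 5) (nat_lit 2) (nat_lit 4) (nat_lit 280) (nat_lit 215) (nat_lit 165)) (XT.nd (nat_lit 78) (nat_lit 0) (nat_lit 0) (XT.lf (nat_lit 0) (nat_lit 1651932338169) (nat_lit 76) (nat_lit 2286311343438) (nat_lit 76) (nat_lit 2282114271812) (nat_lit 1) (nat_lit 4) (nat_lit 2) (nat_lit 5) (nat_lit 2) (nat_lit 4) (nat_lit 281) (nat_lit 215) (nat_lit 164)) (XT.lf (nat_lit 0) (nat_lit 1906645437132) (nat_lit 76) (nat_lit 2625215436907) (nat_lit 76) (nat_lit 2621017925640) (nat_lit 1) (nat_lit 4) (nat_lit 2) (nat_lit 5) (nat_lit 2) (nat_lit 4) (nat_lit 282) (nat_lit 215) (nat_lit 163))))))))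
noncomputable def xc39 : XT := (XT.nd (nat_lit 30264) (nat_lit 0) (nat_lit 76) (XT.nd (nat_lit 624) (nat_lit 0) (nat_lit 0) (XT.nd (nat_lit 312) (nat_lit 0) (nat_lit 0) (XT.nd (nat_lit 156) (nat_lit 0) (nat_lit 0) (XT.nd (nat_lit 78) (nat_lit 0) (nat_lit 0) (XT.lf (nat_lit 0) (nat_lit 2199564148235) (nat_lit 76) (nat_lit 3014955811159) (nat_lit 76) (nat_lit 3010757917595) (nat_lit 1) (nat_lit 4) (nat_lit 2) (nat_lit 5) (nat_lit 2) (nat_lit 4) (nat_lit 283) (nat_lit 215) (nat_lit 162)) (XT.lf (nat_lit 0) (nat_lit 2536419489739) (nat_lit 76) (nat_lit 3463157821343) (nat_lit 76) (nat_lit 3458959595346) (nat_lit 1) (nat_lit 4) (nat_lit 2) (nat_lit 5) (nat_lit 2) (nat_lit 4) (nat_lit 284) (nat_lit 215) (nat_lit 161))) (XT.nd (nat_lit 78) (nat_lit 0) (nat_lit 0) (XT.lf (nat_lit 0) (nat_lit 2923802109629) (nat_lit 76) (nat_lit 3978590637222) (nat_lit 76) (nat_lit 3974392122154) (nat_lit 1)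 (nat_lit 4) (nat_lit 2) (nat_lit 5) (nat_lit 2) (nat_lit 4) (nat_lit 285) (nat_lit 215) (nat_lit 160)) (XT.lf (nat_lit 0) (nat_lit 3369291233077) (nat_lit 76) (nat_lit 4571338813890) (nat_lit 76) (nat_lit 4567140047456) (nat_lit 1) (nat_lit 4) (nat_lit 2) (nat_lit 5) (nat_lit 2) (nat_lit 4) (nat_lit 286) (nat_lit 215) (nat_lit 159)))) (XT.nd (nat_lit 156) (nat_lit 0) (nat_lit 0) (XT.nd (nat_lit 78) (nat_lit 0) (nat_lit 0) (XT.lf (nat_lit 0) (nat_lit 3881602951628) (nat_lit 76) (nat_lit 5252999598282) (nat_lit 76) (nat_lit 5248800613268) (nat_lit 1) (nat_lit 4) (nat_lit 2) (nat_lit 5) (nat_lit 2) (nat_lit 4) (nat_lit 287) (nat_lit 215) (nat_lit 158)) (XT.lf (nat_lit 0) (nat_lit 4470760755429) (nat_lit 76) (nat_lit 6036909831831) (nat_lit 76) (nat_lit 6032710656749) (nat_lit 1) (nat_lit 4) (nat_lit 2) (nat_lit 5) (nat_lit 2) (nat_lit 4) (nat_lit 288) (nat_lit 215) (nat_lit 157))) (XT.nd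 (nat_lit 78) (nat_lit 0) (nat_lit 0) (XT.lf (nat_lit 0) (nat_lit 5148291644989) (nat_lit 76) (nat_lit 6938406888673) (nat_lit 76) (nat_lit 6934207548313) (nat_lit 1) (nat_lit 4) (nat_lit 2) (nat_lit 5) (nat_lit 2) (nat_lit 4) (nat_lit 289) (nat_lit 215) (nat_lit 156)) (XT.lf (nat_lit 0) (nat_lit 5927451659451) (nat_lit 76) (nat_lit 7975128754701) (nat_lit 76) (nat_lit 7970929270622) (nat_lit 1) (nat_lit 4) (nat_lit 2) (nat_lit 5) (nat_lit 2) (nat_lit 4) (nat_lit 290) (nat_lit 215) (nat_lit 155))))) (XT.nd (nat_lit 312) (nat_lit 0) (nat_lit 0) (XT.nd (nat_lit 156) (nat_lit 0) (nat_lit 0) (XT.nd (nat_lit 78) (nat_lit 0) (nat_lit 0) (XT.lf (nat_lit 0) (nat_lit 6823485233880) (nat_lit 76) (nat_lit 9167359118600) (nat_lit 76) (nat_lit 9163159509547) (nat_lit 1) (nat_lit 4) (nat_lit 2) (nat_lit 5) (nat_lit 2) (nat_lit 4) (nat_lit 291) (nat_lit 215) (nat_lit 154)) (XT.lf (nat_lit 0) (nat_lit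 7853923459951) (nat_lit 76) (nat_lit 10538424226619) (nat_lit 76) (nat_lit 10534224508893) (nat_lit 1) (nat_lit 4) (nat_lit 2) (nat_lit 5) (nat_lit 2) (nat_lit 4) (nat_lit 292) (nat_lit 215) (nat_lit 153))) (XT.nd (nat_lit 78) (nat_lit 0) (nat_lit 0) (XT.lf (nat_lit 0) (nat_lit 9038927085564) (nat_lit 76) (nat_lit 12115149265654) (nat_lit 76) (nat_lit 12110949453431) (nat_lit 1) (nat_lit 4) (nat_lit 2) (nat_lit 5) (nat_lit 2) (nat_lit 4) (nat_lit 293) (nat_lit 215) (nat_lit 152)) (XT.lf (nat_lit 0) (nat_lit 10401680964265) (nat_lit 76) (nat_lit 13928383203861) (nat_lit 76) (nat_lit 13924183309465) (nat_lit 1) (nat_lit 4) (nat_lit 2) (nat_lit 5) (nat_lit 2) (nat_lit 4) (nat_lit 294) (nat_lit 215) (nat_lit 151)))) (XT.nd (nat_lit 156) (nat_lit 0) (nat_lit 0) (XT.nd (nat_lit 78) (nat_lit 0) (nat_lit 0) (XT.lf (nat_lit 0) (nat_lit 11968847671940) (nat_lit 76) (nat_lit 16013602357421) (nat_lit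 76) (nat_lit 16009402391571) (nat_lit 1) (nat_lit 4) (nat_lit 2) (nat_lit 5) (nat_lit 2) (nat_lit 4) (nat_lit 295) (nat_lit 215) (nat_lit 150)) (XT.lf (nat_lit 0) (nat_lit 13771089165915) (nat_lit 76) (nat_lit 18411604492383) (nat_lit 76) (nat_lit 18407404464399) (nat_lit 1) (nat_lit 4) (nat_lit 2) (nat_lit 5) (nat_lit 2) (nat_lit 4) (nat_lit 296) (nat_lit 215) (nat_lit 149))) (XT.nd (nat_lit 29016) (nat_lit 0) (nat_lit 988) (XT.lf (nat_lit 0) (nat_lit 15843666692809) (nat_lit 76) (nat_lit 21169307041821) (nat_lit 76) (nat_lit 21165106959808) (nat_lit 1) (nat_lit 4) (nat_lit 2) (nat_lit 5) (nat_lit 2) (nat_lit 4) (nat_lit 297) (nat_lit 215) (nat_lit 148)) (XT.nd (nat_lit 78) (nat_lit 152) (nat_lit 0) (XT.lf (nat_lit 0) (nat_lit 1677573539) (nat_lit 380) (nat_lit 724100365) (nat_lit 0) (nat_lit 1677573539) (nat_lit 16) (nat_lit 5) (nat_lit 21) (nat_lit 4) (nat_lit 16) (nat_lit 4) (nat_lit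 228) (nat_lit 216) (nat_lit 216)) (XT.lf (nat_lit 0) (nat_lit 4462953321) (nat_lit 152) (nat_lit 2653286658) (nat_lit 152) (nat_lit 1551296706) (nat_lit 14) (nat_lit 4) (nat_lit 16) (nat_lit 5) (nat_lit 16) (nat_lit 4) (nat_lit 229) (nat_lit 216) (nat_lit 215))))))) (XT.nd (nat_lit 624) (nat_lit 304) (nat_lit 0) (XT.nd (nat_lit 312) (nat_lit 228) (nat_lit 0) (XT.nd (nat_lit 156) (nat_lit 228) (nat_lit 0) (XT.nd (nat_lit 78) (nat_lit 0) (nat_lit 0) (XT.lf (nat_lit 0) (nat_lit 1657731898) (nat_lit 76) (nat_lit 71558325) (nat_lit 152) (nat_lit 7552373352) (nat_lit 12) (nat_lit 5) (nat_lit 13) (nat_lit 5) (nat_lit 14) (nat_lit 4) (nat_lit 230) (nat_lit 216) (nat_lit 214)) (XT.lf (nat_lit 0) (nat_lit 5304912993) (nat_lit 152) (nat_lit 1891139382) (nat_lit 0) (nat_lit 2788821857) (nat_lit 12) (nat_lit 5) (nat_lit 14) (nat_lit 4) (nat_lit 12) (nat_lit 4) (nat_lit 231) (nat_lit 216) (nat_lit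 213))) (XT.nd (nat_lit 78) (nat_lit 76) (nat_lit 0) (XT.lf (nat_lit 0) (nat_lit 4580932858) (nat_lit 152) (nat_lit 4691252410) (nat_lit 152) (nat_lit 1545094942) (nat_lit 10) (nat_lit 4) (nat_lit 12) (nat_lit 5) (nat_lit 12) (nat_lit 4) (nat_lit 232) (nat_lit 216) (nat_lit 212)) (XT.lf (nat_lit 0) (nat_lit 1649118804) (nat_lit 228) (nat_lit 148435805) (nat_lit 76) (nat_lit 9999840049) (nat_lit 9) (nat_lit 5) (nat_lit 12) (nat_lit 5) (nat_lit 10) (nat_lit 4) (nat_lit 233) (nat_lit 216) (nat_lit 211)))) (XT.nd (nat_lit 156) (nat_lit 76) (nat_lit 0) (XT.nd (nat_lit 78) (nat_lit 76) (nat_lit 0) (XT.lf (nat_lit 0) (nat_lit 5236585083) (nat_lit 152) (nat_lit 6057283378) (nat_lit 0) (nat_lit 1610096473) (nat_lit 8) (nat_lit 5) (nat_lit 10) (nat_lit 4) (nat_lit 8) (nat_lit 4) (nat_lit 234) (nat_lit 216) (nat_lit 210)) (XT.lf (nat_lit 0) (nat_lit 184537160) (nat_lit 76) (nat_lit 9003027351)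 (nat_lit 76) (nat_lit 5016296272) (nat_lit 7) (nat_lit 4) (nat_lit 8) (nat_lit 5) (nat_lit 8) (nat_lit 4) (nat_lit 235) (nat_lit 216) (nat_lit 209))) (XT.nd (nat_lit 78) (nat_lit 76) (nat_lit 0) (XT.lf (nat_lit 0) (nat_lit 7586812378) (nat_lit 76) (nat_lit 6202125558) (nat_lit 76) (nat_lit 1902140157) (nat_lit 7) (nat_lit 4) (nat_lit 8) (nat_lit 5) (nat_lit 8) (nat_lit 4) (nat_lit 236) (nat_lit 216) (nat_lit 208)) (XT.lf (nat_lit 0) (nat_lit 1293023273) (nat_lit 152) (nat_lit 1792380424) (nat_lit 76) (nat_lit 14341794486) (nat_lit 6) (nat_lit 5) (nat_lit 8) (nat_lit 5) (nat_lit 7) (nat_lit 4) (nat_lit 237) (nat_lit 216) (nat_lit 207))))) (XT.nd (nat_lit 312) (nat_lit 152) (nat_lit 0) (XT.nd (nat_lit 156) (nat_lit 76) (nat_lit 0) (XT.nd (nat_lit 78) (nat_lit 0) (nat_lit 0) (XT.lf (nat_lit 0) (nat_lit 4823846230) (nat_lit 152) (nat_lit 13937397689) (nat_lit 0) (nat_lit 641893417) (nat_lit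 5) (nat_lit 5) (nat_lit 7) (nat_lit 4) (nat_lit 5) (nat_lit 4) (nat_lit 238) (nat_lit 216) (nat_lit 206)) (XT.lf (nat_lit 0) (nat_lit 8929521373) (nat_lit 152) (nat_lit 8171268556) (nat_lit 0) (nat_lit 4568464385) (nat_lit 5) (nat_lit 5) (nat_lit 7) (nat_lit 4) (nat_lit 5) (nat_lit 4) (nat_lit 239) (nat_lit 216) (nat_lit 205))) (XT.nd (nat_lit 78) (nat_lit 76) (nat_lit 0) (XT.lf (nat_lit 0) (nat_lit 13477265692) (nat_lit 152) (nat_lit 1864121267) (nat_lit 0) (nat_lit 8960465943) (nat_lit 5) (nat_lit 5) (nat_lit 7) (nat_lit 4) (nat_lit 5) (nat_lit 4) (nat_lit 240) (nat_lit 216) (nat_lit 204)) (XT.lf (nat_lit 0) (nat_lit 5606581544) (nat_lit 76) (nat_lit 13181631836) (nat_lit 76) (nat_lit 8529403599) (nat_lit 4) (nat_lit 4) (nat_lit 5) (nat_lit 5) (nat_lit 5) (nat_lit 4) (nat_lit 241) (nat_lit 216) (nat_lit 203)))) (XT.nd (nat_lit 156) (nat_lit 152) (nat_lit 0) (XT.nd (nat_lit 78) (nat_lit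 0) (nat_lit 0) (XT.lf (nat_lit 0) (nat_lit 14138540778) (nat_lit 76) (nat_lit 10712168376) (nat_lit 76) (nat_lit 5942176237) (nat_lit 4) (nat_lit 4) (nat_lit 5) (nat_lit 5) (nat_lit 5) (nat_lit 4) (nat_lit 242) (nat_lit 216) (nat_lit 202)) (XT.lf (nat_lit 0) (nat_lit 23716510584) (nat_lit 76) (nat_lit 7982123695) (nat_lit 76) (nat_lit 3109728162) (nat_lit 4) (nat_lit 4) (nat_lit 5) (nat_lit 5) (nat_lit 5) (nat_lit 4) (nat_lit 243) (nat_lit 216) (nat_lit 201))) (XT.nd (nat_lit 78) (nat_lit 76) (nat_lit 0) (XT.lf (nat_lit 0) (nat_lit 21278589) (nat_lit 152) (nat_lit 4915692993) (nat_lit 76) (nat_lit 34505495143) (nat_lit 3) (nat_lit 5) (nat_lit 5) (nat_lit 5) (nat_lit 4) (nat_lit 4) (nat_lit 244) (nat_lit 216) (nat_lit 200)) (XT.nd (nat_lit 78) (nat_lit 0) (nat_lit 0) (XT.lf (nat_lit 0) (nat_lit 2033212342) (nat_lit 76) (nat_lit 1256129974) (nat_lit 152) (nat_lit 41462479319) (nat_lit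 2) (nat_lit 5) (nat_lit 3) (nat_lit 5) (nat_lit 4) (nat_lit 4) (nat_lit 245) (nat_lit 216) (nat_lit 199)) (XT.lf (nat_lit 0) (nat_lit 7343597908) (nat_lit 152) (nat_lit 40566352092) (nat_lit 0) (nat_lit 2903419183) (nat_lit 2) (nat_lit 5) (nat_lit 4) (nat_lit 4) (nat_lit 2) (nat_lit 4) (nat_lit 246) (nat_lit 216) (nat_lit 198))))))))
noncomputable def xc40 : XT := (XT.nd (nat_lit 1326) (nat_lit 0) (nat_lit 0) (XT.nd (nat_lit 624) (nat_lit 76) (nat_lit 0) (XT.nd (nat_lit 312) (nat_lit 0) (nat_lit 0) (XT.nd (nat_lit 156) (nat_lit 0) (nat_lit 0) (XT.nd (nat_lit 78) (nat_lit 0) (nat_lit 0) (XT.lf (nat_lit 0) (nat_lit 11981916319) (nat_lit 152) (nat_lit 38315181249) (nat_lit 0) (nat_lit 7490825010) (nat_lit 2) (nat_lit 5) (nat_lit 4) (nat_lit 4) (nat_lit 2) (nat_lit 4) (nat_lit 247) (nat_lit 216) (nat_lit 197)) (XT.lf (nat_lit 0) (nat_lit 17243033596) (nat_lit 152) (nat_lit 35869038456)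 (nat_lit 0) (nat_lit 12707670474) (nat_lit 2) (nat_lit 5) (nat_lit 4) (nat_lit 4) (nat_lit 2) (nat_lit 4) (nat_lit 248) (nat_lit 216) (nat_lit 196))) (XT.nd (nat_lit 78) (nat_lit 0) (nat_lit 0) (XT.lf (nat_lit 0) (nat_lit 23229884641) (nat_lit 152) (nat_lit 33180064397) (nat_lit 0) (nat_lit 18656024290) (nat_lit 2) (nat_lit 5) (nat_lit 4) (nat_lit 4) (nat_lit 2) (nat_lit 4) (nat_lit 249) (nat_lit 216) (nat_lit 195)) (XT.lf (nat_lit 0) (nat_lit 30059603497) (nat_lit 152) (nat_lit 30195648709) (nat_lit 0) (nat_lit 25452267295) (nat_lit 2) (nat_lit 5) (nat_lit 4) (nat_lit 4) (nat_lit 2) (nat_lit 4) (nat_lit 250) (nat_lit 216) (nat_lit 194)))) (XT.nd (nat_lit 156) (nat_lit 0) (nat_lit 0) (XT.nd (nat_lit 78) (nat_lit 0) (nat_lit 0) (XT.lf (nat_lit 0) (nat_lit 37865815097) (nat_lit 152) (nat_lit 26857400651) (nat_lit 0) (nat_lit 33229369460) (nat_lit 2) (nat_lit 5) (nat_lit 4) (nat_lit 4)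 (nat_lit 2) (nat_lit 4) (nat_lit 251) (nat_lit 216) (nat_lit 193)) (XT.lf (nat_lit 0) (nat_lit 46801249669) (nat_lit 152) (nat_lit 23100006674) (nat_lit 0) (nat_lit 42139491479) (nat_lit 2) (nat_lit 5) (nat_lit 4) (nat_lit 4) (nat_lit 2) (nat_lit 4) (nat_lit 252) (nat_lit 216) (nat_lit 192))) (XT.nd (nat_lit 78) (nat_lit 0) (nat_lit 0) (XT.lf (nat_lit 0) (nat_lit 57040730933) (nat_lit 152) (nat_lit 18849952547) (nat_lit 0) (nat_lit 52356961828) (nat_lit 2) (nat_lit 5) (nat_lit 4) (nat_lit 4) (nat_lit 2) (nat_lit 4) (nat_lit 253) (nat_lit 216) (nat_lit 191)) (XT.lf (nat_lit 0) (nat_lit 68784596565) (nat_lit 152) (nat_lit 14024085039) (nat_lit 0) (nat_lit 64081687534) (nat_lit 2) (nat_lit 5) (nat_lit 4) (nat_lit 4) (nat_lit 2) (nat_lit 4) (nat_lit 254) (nat_lit 216) (nat_lit 190))))) (XT.nd (nat_lit 312) (nat_lit 0) (nat_lit 0) (XT.nd (nat_lit 156) (nat_lit 76) (nat_lit 0) (XT.nd (nat_lit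 78) (nat_lit 0) (nat_lit 0) (XT.lf (nat_lit 0) (nat_lit 82262617850) (nat_lit 152) (nat_lit 8527985002) (nat_lit 0) (nat_lit 77543065404) (nat_lit 2) (nat_lit 5) (nat_lit 4) (nat_lit 4) (nat_lit 2) (nat_lit 4) (nat_lit 255) (nat_lit 216) (nat_lit 189)) (XT.lf (nat_lit 0) (nat_lit 97738495204) (nat_lit 152) (nat_lit 2254120045) (nat_lit 0) (nat_lit 93004470224) (nat_lit 2) (nat_lit 5) (nat_lit 4) (nat_lit 4) (nat_lit 2) (nat_lit 4) (nat_lit 256) (nat_lit 216) (nat_lit 188))) (XT.nd (nat_lit 78) (nat_lit 0) (nat_lit 0) (XT.lf (nat_lit 0) (nat_lit 5401102894) (nat_lit 76) (nat_lit 110337562790) (nat_lit 76) (nat_lit 105590952998) (nat_lit 1) (nat_lit 4) (nat_lit 2) (nat_lit 5) (nat_lit 2) (nat_lit 4) (nat_lit 257) (nat_lit 216) (nat_lit 187)) (XT.lf (nat_lit 0) (nat_lit 14419220215) (nat_lit 76) (nat_lit 122117835302) (nat_lit 76) (nat_lit 117360282194) (nat_lit 1) (nat_lit 4) (nat_lit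 2) (nat_lit 5) (nat_lit 2) (nat_lit 4) (nat_lit 258) (nat_lit 216) (nat_lit 186)))) (XT.nd (nat_lit 156) (nat_lit 0) (nat_lit 0) (XT.nd (nat_lit 78) (nat_lit 0) (nat_lit 0) (XT.lf (nat_lit 0) (nat_lit 24756384340) (nat_lit 76) (nat_lit 135681745378) (nat_lit 76) (nat_lit 130914676344) (nat_lit 1) (nat_lit 4) (nat_lit 2) (nat_lit 5) (nat_lit 2) (nat_lit 4) (nat_lit 259) (nat_lit 216) (nat_lit 185)) (XT.lf (nat_lit 0) (nat_lit 36614844131) (nat_lit 76) (nat_lit 151294673868) (nat_lit 76) (nat_lit 146519330116) (nat_lit 1) (nat_lit 4) (nat_lit 2) (nat_lit 5) (nat_lit 2) (nat_lit 4) (nat_lit 260) (nat_lit 216) (nat_lit 184))) (XT.nd (nat_lit 78) (nat_lit 0) (nat_lit 0) (XT.lf (nat_lit 0) (nat_lit 50226612932) (nat_lit 76) (nat_lit 169262091113) (nat_lit 76) (nat_lit 164479551953) (nat_lit 1) (nat_lit 4) (nat_lit 2) (nat_lit 5) (nat_lit 2) (nat_lit 4) (nat_lit 261) (nat_lit 216) (nat_lit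 183)) (XT.nd (nat_lit 78) (nat_lit 0) (nat_lit 0) (XT.lf (nat_lit 0) (nat_lit 65858007959) (nat_lit 76) (nat_lit 189935533536) (nat_lit 76) (nat_lit 185146737500) (nat_lit 1) (nat_lit 4) (nat_lit 2) (nat_lit 5) (nat_lit 2) (nat_lit 4) (nat_lit 262) (nat_lit 216) (nat_lit 182)) (XT.lf (nat_lit 0) (nat_lit 83814860855) (nat_lit 76) (nat_lit 213719481532) (nat_lit 76) (nat_lit 208925244735) (nat_lit 1) (nat_lit 4) (nat_lit 2) (nat_lit 5) (nat_lit 2) (nat_lit 4) (nat_lit 263) (nat_lit 216) (nat_lit 181))))))) (XT.nd (nat_lit 624) (nat_lit 0) (nat_lit 0) (XT.nd (nat_lit 312) (nat_lit 0) (nat_lit 0) (XT.nd (nat_lit 156) (nat_lit 0) (nat_lit 0) (XT.nd (nat_lit 78) (nat_lit 0) (nat_lit 0) (XT.lf (nat_lit 0) (nat_lit 104448501348) (nat_lit 76) (nat_lit 241079273216) (nat_lit 76) (nat_lit 236280305322) (nat_lit 1) (nat_lit 4) (nat_lit 2) (nat_lit 5) (nat_lit 2) (nat_lit 4) (nat_lit 264) (nat_lit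 216) (nat_lit 180)) (XT.lf (nat_lit 0) (nat_lit 128162631102) (nat_lit 76) (nat_lit 272550208858) (nat_lit 76) (nat_lit 267747126967) (nat_lit 1) (nat_lit 4) (nat_lit 2) (nat_lit 5) (nat_lit 2) (nat_lit 4) (nat_lit 265) (nat_lit 216) (nat_lit 179))) (XT.nd (nat_lit 78) (nat_lit 0) (nat_lit 0) (XT.lf (nat_lit 0) (nat_lit 155421222220) (nat_lit 76) (nat_lit 308748024157) (nat_lit 76) (nat_lit 303941364876) (nat_lit 1) (nat_lit 4) (nat_lit 2) (nat_lit 5) (nat_lit 2) (nat_lit 4) (nat_lit 266) (nat_lit 216) (nat_lit 178)) (XT.lf (nat_lit 0) (nat_lit 186757594963) (nat_lit 76) (nat_lit 350380937237) (nat_lit 76) (nat_lit 345571167184) (nat_lit 1) (nat_lit 4) (nat_lit 2) (nat_lit 5) (nat_lit 2) (nat_lit 4) (nat_lit 267) (nat_lit 216) (nat_lit 177)))) (XT.nd (nat_lit 156) (nat_lit 0) (nat_lit 0) (XT.nd (nat_lit 78) (nat_lit 0) (nat_lit 0) (XT.lf (nat_lit 0) (nat_lit 222784852276) (nat_lit 76)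 (nat_lit 398263505094) (nat_lit 76) (nat_lit 393451030020) (nat_lit 1) (nat_lit 4) (nat_lit 2) (nat_lit 5) (nat_lit 2) (nat_lit 4) (nat_lit 268) (nat_lit 216) (nat_lit 176)) (XT.lf (nat_lit 0) (nat_lit 264207875281) (nat_lit 76) (nat_lit 453332560577) (nat_lit 76) (nat_lit 448517733312) (nat_lit 1) (nat_lit 4) (nat_lit 2) (nat_lit 5) (nat_lit 2) (nat_lit 4) (nat_lit 269) (nat_lit 216) (nat_lit 175))) (XT.nd (nat_lit 78) (nat_lit 0) (nat_lit 0) (XT.lf (nat_lit 0) (nat_lit 311837114427) (nat_lit 76) (nat_lit 516665541728) (nat_lit 76) (nat_lit 511848669079) (nat_lit 1) (nat_lit 4) (nat_lit 2) (nat_lit 5) (nat_lit 2) (nat_lit 4) (nat_lit 270) (nat_lit 216) (nat_lit 174)) (XT.lf (nat_lit 0) (nat_lit 366604446133) (nat_lit 76) (nat_lit 589501572091) (nat_lit 76) (nat_lit 584682920848) (nat_lit 1) (nat_lit 4) (nat_lit 2) (nat_lit 5) (nat_lit 2) (nat_lit 4) (nat_lit 271) (nat_lit 216) (nat_lit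 173))))) (XT.nd (nat_lit 312) (nat_lit 0) (nat_lit 0) (XT.nd (nat_lit 156) (nat_lit 0) (nat_lit 0) (XT.nd (nat_lit 78) (nat_lit 0) (nat_lit 0) (XT.lf (nat_lit 0) (nat_lit 429581405149) (nat_lit 76) (nat_lit 673265704435) (nat_lit 76) (nat_lit 668445506587) (nat_lit 1) (nat_lit 4) (nat_lit 2) (nat_lit 5) (nat_lit 2) (nat_lit 4) (nat_lit 272) (nat_lit 216) (nat_lit 172)) (XT.lf (nat_lit 0) (nat_lit 502000149369) (nat_lit 76) (nat_lit 769596802218) (nat_lit 76) (nat_lit 764775259497) (nat_lit 1) (nat_lit 4) (nat_lit 2) (nat_lit 5) (nat_lit 2) (nat_lit 4) (nat_lit 273) (nat_lit 216) (nat_lit 171))) (XT.nd (nat_lit 78) (nat_lit 0) (nat_lit 0) (XT.lf (nat_lit 0) (nat_lit 585277567268) (nat_lit 76) (nat_lit 880379604309) (nat_lit 76) (nat_lit 875556892134) (nat_lit 1) (nat_lit 4) (nat_lit 2) (nat_lit 5) (nat_lit 2) (nat_lit 4) (nat_lit 274) (nat_lit 216) (nat_lit 170)) (XT.lf (nat_lit 0) (nat_lit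 681042999629) (nat_lit 76) (nat_lit 1007781600316) (nat_lit 76) (nat_lit 1002957871223) (nat_lit 1) (nat_lit 4) (nat_lit 2) (nat_lit 5) (nat_lit 2) (nat_lit 4) (nat_lit 275) (nat_lit 216) (nat_lit 169)))) (XT.nd (nat_lit 156) (nat_lit 0) (nat_lit 0) (XT.nd (nat_lit 78) (nat_lit 0) (nat_lit 0) (XT.lf (nat_lit 0) (nat_lit 791170117956) (nat_lit 76) (nat_lit 1154295437986) (nat_lit 76) (nat_lit 1149470824617) (nat_lit 1) (nat_lit 4) (nat_lit 2) (nat_lit 5) (nat_lit 2) (nat_lit 4) (nat_lit 276) (nat_lit 216) (nat_lit 168)) (XT.lf (nat_lit 0) (nat_lit 917813583259) (nat_lit 76) (nat_lit 1322787692403) (nat_lit 76) (nat_lit 1317962310099) (nat_lit 1) (nat_lit 4) (nat_lit 2) (nat_lit 5) (nat_lit 2) (nat_lit 4) (nat_lit 277) (nat_lit 216) (nat_lit 167))) (XT.nd (nat_lit 78) (nat_lit 0) (nat_lit 0) (XT.lf (nat_lit 0) (nat_lit 1063451202469) (nat_lit 76) (nat_lit 1516554951155) (nat_lit 76) (nat_lit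 1511728900211) (nat_lit 1) (nat_lit 4) (nat_lit 2) (nat_lit 5) (nat_lit 2) (nat_lit 4) (nat_lit 278) (nat_lit 216) (nat_lit 166)) (XT.nd (nat_lit 78) (nat_lit 0) (nat_lit 0) (XT.lf (nat_lit 0) (nat_lit 1230932407265) (nat_lit 76) (nat_lit 1739388312782) (nat_lit 76) (nat_lit 1734561680412) (nat_lit 1) (nat_lit 4) (nat_lit 2) (nat_lit 5) (nat_lit 2) (nat_lit 4) (nat_lit 279) (nat_lit 216) (nat_lit 165)) (XT.lf (nat_lit 0) (nat_lit 1423534003829) (nat_lit 76) (nat_lit 1995647560446) (nat_lit 76) (nat_lit 1990820422489) (nat_lit 1) (nat_lit 4) (nat_lit 2) (nat_lit 5) (nat_lit 2) (nat_lit 4) (nat_lit 280) (nat_lit 216) (nat_lit 164))))))))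
noncomputable def xc41 : XT := (XT.nd (nat_lit 1560) (nat_lit 0) (nat_lit 0) (XT.nd (nat_lit 624) (nat_lit 0) (nat_lit 0) (XT.nd (nat_lit 312) (nat_lit 0) (nat_lit 0) (XT.nd (nat_lit 156) (nat_lit 0) (nat_lit 0) (XT.nd (nat_lit 78) (nat_lit 0) (nat_lit 0) (XT.lf (nat_lit 0) (nat_lit 1645024284267) (nat_lit 76) (nat_lit 2290346462036) (nat_lit 76) (nat_lit 2285518884438) (nat_lit 1) (nat_lit 4) (nat_lit 2) (nat_lit 5) (nat_lit 2) (nat_lit 4) (nat_lit 281) (nat_lit 216) (nat_lit 163)) (XT.lf (nat_lit 0) (nat_lit 1899736754065) (nat_lit 76) (nat_lit 2629250865628) (nat_lit 76) (nat_lit 2624422905732) (nat_lit 1) (nat_lit 4) (nat_lit 2) (nat_lit 5) (nat_lit 2) (nat_lit 4) (nat_lit 282) (nat_lit 216) (nat_lit 162))) (XT.nd (nat_lit 78) (nat_lit 0) (nat_lit 0) (XT.lf (nat_lit 0) (nat_lit 2192654918068) (nat_lit 76) (nat_lit 3018991509551) (nat_lit 76) (nat_lit 3014163217224) (nat_lit 1) (nat_lit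 4) (nat_lit 2) (nat_lit 5) (nat_lit 2) (nat_lit 4) (nat_lit 283) (nat_lit 216) (nat_lit 161)) (XT.lf (nat_lit 0) (nat_lit 2529509783832) (nat_lit 76) (nat_lit 3467193754232) (nat_lit 76) (nat_lit 3462365172833) (nat_lit 1) (nat_lit 4) (nat_lit 2) (nat_lit 5) (nat_lit 2) (nat_lit 4) (nat_lit 284) (nat_lit 216) (nat_lit 160)))) (XT.nd (nat_lit 156) (nat_lit 0) (nat_lit 0) (XT.nd (nat_lit 78) (nat_lit 0) (nat_lit 0) (XT.lf (nat_lit 0) (nat_lit 2916891990036) (nat_lit 76) (nat_lit 3982626774021) (nat_lit 76) (nat_lit 3977797941256) (nat_lit 1) (nat_lit 4) (nat_lit 2) (nat_lit 5) (nat_lit 2) (nat_lit 4) (nat_lit 285) (nat_lit 216) (nat_lit 159)) (XT.lf (nat_lit 0) (nat_lit 3362380753757) (nat_lit 76) (nat_lit 4575375128002) (nat_lit 76) (nat_lit 4570546076658) (nat_lit 1) (nat_lit 4) (nat_lit 2) (nat_lit 5) (nat_lit 2) (nat_lit 4) (nat_lit 286) (nat_lit 216) (nat_lit 158))) (XT.nd (nat_lit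 78) (nat_lit 0) (nat_lit 0) (XT.lf (nat_lit 0) (nat_lit 3874692159502) (nat_lit 76) (nat_lit 5257036066580) (nat_lit 76) (nat_lit 5252206825166) (nat_lit 1) (nat_lit 4) (nat_lit 2) (nat_lit 5) (nat_lit 2) (nat_lit 4) (nat_lit 287) (nat_lit 216) (nat_lit 157)) (XT.lf (nat_lit 0) (nat_lit 4463849691298) (nat_lit 76) (nat_lit 6040946434203) (nat_lit 76) (nat_lit 6036117027512) (nat_lit 1) (nat_lit 4) (nat_lit 2) (nat_lit 5) (nat_lit 2) (nat_lit 4) (nat_lit 288) (nat_lit 216) (nat_lit 156))))) (XT.nd (nat_lit 312) (nat_lit 0) (nat_lit 0) (XT.nd (nat_lit 156) (nat_lit 0) (nat_lit 0) (XT.nd (nat_lit 78) (nat_lit 0) (nat_lit 0) (XT.lf (nat_lit 0) (nat_lit 5141380344331) (nat_lit 76) (nat_lit 6942443607631) (nat_lit 76) (nat_lit 6937614057221) (nat_lit 1) (nat_lit 4) (nat_lit 2) (nat_lit 5) (nat_lit 2) (nat_lit 4) (nat_lit 289) (nat_lit 216) (nat_lit 155)) (XT.lf (nat_lit 0) (nat_lit 5920540153118)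 (nat_lit 76) (nat_lit 7979165575039) (nat_lit 76) (nat_lit 7974335899655) (nat_lit 1) (nat_lit 4) (nat_lit 2) (nat_lit 5) (nat_lit 2) (nat_lit 4) (nat_lit 290) (nat_lit 216) (nat_lit 154))) (XT.nd (nat_lit 78) (nat_lit 0) (nat_lit 0) (XT.lf (nat_lit 0) (nat_lit 6816573548699) (nat_lit 76) (nat_lit 9171396027094) (nat_lit 76) (nat_lit 9166566243037) (nat_lit 1) (nat_lit 4) (nat_lit 2) (nat_lit 5) (nat_lit 2) (nat_lit 4) (nat_lit 291) (nat_lit 216) (nat_lit 153)) (XT.lf (nat_lit 0) (nat_lit 7847011619250) (nat_lit 76) (nat_lit 10542461211771) (nat_lit 76) (nat_lit 10537631333216) (nat_lit 1) (nat_lit 4) (nat_lit 2) (nat_lit 5) (nat_lit 2) (nat_lit 4) (nat_lit 292) (nat_lit 216) (nat_lit 152)))) (XT.nd (nat_lit 156) (nat_lit 0) (nat_lit 0) (XT.nd (nat_lit 78) (nat_lit 0) (nat_lit 0) (XT.lf (nat_lit 0) (nat_lit 9032015109628) (nat_lit 76) (nat_lit 12119186317464) (nat_lit 76) (nat_lit 12114356356737)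 (nat_lit 1) (nat_lit 4) (nat_lit 2) (nat_lit 5) (nat_lit 2) (nat_lit 4) (nat_lit 293) (nat_lit 216) (nat_lit 151)) (XT.lf (nat_lit 0) (nat_lit 10394768870733) (nat_lit 76) (nat_lit 13932420313635) (nat_lit 76) (nat_lit 13927590281454) (nat_lit 1) (nat_lit 4) (nat_lit 2) (nat_lit 5) (nat_lit 2) (nat_lit 4) (nat_lit 294) (nat_lit 216) (nat_lit 150))) (XT.nd (nat_lit 78) (nat_lit 0) (nat_lit 0) (XT.lf (nat_lit 0) (nat_lit 11961935476152) (nat_lit 76) (nat_lit 16017639517599) (nat_lit 76) (nat_lit 16012809423284) (nat_lit 1) (nat_lit 4) (nat_lit 2) (nat_lit 5) (nat_lit 2) (nat_lit 4) (nat_lit 295) (nat_lit 216) (nat_lit 149)) (XT.nd (nat_lit 312) (nat_lit 0) (nat_lit 0) (XT.lf (nat_lit 0) (nat_lit 13764176881207) (nat_lit 76) (nat_lit 18415641696390) (nat_lit 76) (nat_lit 18410811548045) (nat_lit 1) (nat_lit 4) (nat_lit 2) (nat_lit 5) (nat_lit 2) (nat_lit 4) (nat_lit 296) (nat_lit 216)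 (nat_lit 148)) (XT.lf (nat_lit 0) (nat_lit 24113332421937) (nat_lit 76) (nat_lit 32185885289020) (nat_lit 76) (nat_lit 32181054986423) (nat_lit 1) (nat_lit 4) (nat_lit 2) (nat_lit 5) (nat_lit 2) (nat_lit 4) (nat_lit 300) (nat_lit 216) (nat_lit 144))))))) (XT.nd (nat_lit 28938) (nat_lit 0) (nat_lit 304) (XT.nd (nat_lit 28626) (nat_lit 0) (nat_lit 836) (XT.nd (nat_lit 156) (nat_lit 0) (nat_lit 0) (XT.nd (nat_lit 78) (nat_lit 0) (nat_lit 0) (XT.lf (nat_lit 0) (nat_lit 27738282728009) (nat_lit 76) (nat_lit 37009124649407) (nat_lit 76) (nat_lit 37004294319947) (nat_lit 1) (nat_lit 4) (nat_lit 2) (nat_lit 5) (nat_lit 2) (nat_lit 4) (nat_lit 301) (nat_lit 216) (nat_lit 143)) (XT.lf (nat_lit 0) (nat_lit 31906975497341) (nat_lit 76) (nat_lit 42555849954591) (nat_lit 76) (nat_lit 42551019601773) (nat_lit 1) (nat_lit 4) (nat_lit 2) (nat_lit 5) (nat_lit 2) (nat_lit 4) (nat_lit 302) (nat_lit 216)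 (nat_lit 142))) (XT.nd (nat_lit 28392) (nat_lit 0) (nat_lit 1520) (XT.lf (nat_lit 0) (nat_lit 36700972110202) (nat_lit 76) (nat_lit 48934584090978) (nat_lit 76) (nat_lit 48929753717848) (nat_lit 1) (nat_lit 4) (nat_lit 2) (nat_lit 5) (nat_lit 2) (nat_lit 4) (nat_lit 303) (nat_lit 216) (nat_lit 141)) (XT.lf (nat_lit 0) (nat_lit 1702675933) (nat_lit 228) (nat_lit 991978560) (nat_lit 228) (nat_lit 991978560) (nat_lit 21) (nat_lit 4) (nat_lit 24) (nat_lit 5) (nat_lit 24) (nat_lit 4) (nat_lit 226) (nat_lit 217) (nat_lit 217)))) (XT.nd (nat_lit 156) (nat_lit 304) (nat_lit 0) (XT.nd (nat_lit 78) (nat_lit 0) (nat_lit 0) (XT.lf (nat_lit 0) (nat_lit 1013808077) (nat_lit 304) (nat_lit 135582521) (nat_lit 380) (nat_lit 6599895058) (nat_lit 16) (nat_lit 5) (nat_lit 20) (nat_lit 5) (nat_lit 21) (nat_lit 4) (nat_lit 227) (nat_lit 217) (nat_lit 216)) (XT.lf (nat_lit 0) (nat_lit 4425148801) (nat_lit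 380) (nat_lit 1708703512) (nat_lit 0) (nat_lit 2055870405) (nat_lit 16) (nat_lit 5) (nat_lit 21) (nat_lit 4) (nat_lit 16) (nat_lit 4) (nat_lit 228) (nat_lit 217) (nat_lit 215))) (XT.nd (nat_lit 78) (nat_lit 152) (nat_lit 0) (XT.lf (nat_lit 0) (nat_lit 3928330567) (nat_lit 152) (nat_lit 4064219873) (nat_lit 152) (nat_lit 736689345) (nat_lit 14) (nat_lit 4) (nat_lit 16) (nat_lit 5) (nat_lit 16) (nat_lit 4) (nat_lit 229) (nat_lit 217) (nat_lit 214)) (XT.lf (nat_lit 0) (nat_lit 709669694) (nat_lit 76) (nat_lit 1555661908) (nat_lit 152) (nat_lit 7104956922) (nat_lit 12) (nat_lit 5) (nat_lit 13) (nat_lit 5) (nat_lit 14) (nat_lit 4) (nat_lit 230) (nat_lit 217) (nat_lit 213))))) (XT.nd (nat_lit 312) (nat_lit 228) (nat_lit 0) (XT.nd (nat_lit 156) (nat_lit 152) (nat_lit 0) (XT.nd (nat_lit 78) (nat_lit 152) (nat_lit 0) (XT.lf (nat_lit 0) (nat_lit 5622390059) (nat_lit 152) (nat_lit 3110585845)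 (nat_lit 0) (nat_lit 1374242639) (nat_lit 12) (nat_lit 5) (nat_lit 14) (nat_lit 4) (nat_lit 12) (nat_lit 4) (nat_lit 231) (nat_lit 217) (nat_lit 212)) (XT.lf (nat_lit 0) (nat_lit 3009200929) (nat_lit 152) (nat_lit 6378761294) (nat_lit 152) (nat_lit 1582730108) (nat_lit 10) (nat_lit 4) (nat_lit 12) (nat_lit 5) (nat_lit 12) (nat_lit 4) (nat_lit 232) (nat_lit 217) (nat_lit 211))) (XT.nd (nat_lit 78) (nat_lit 76) (nat_lit 0) (XT.lf (nat_lit 0) (nat_lit 1480941631) (nat_lit 228) (nat_lit 2088427344) (nat_lit 76) (nat_lit 8402370034) (nat_lit 9) (nat_lit 5) (nat_lit 12) (nat_lit 5) (nat_lit 10) (nat_lit 4) (nat_lit 233) (nat_lit 217) (nat_lit 210)) (XT.lf (nat_lit 0) (nat_lit 4594694818) (nat_lit 76) (nat_lit 187363558) (nat_lit 152) (nat_lit 8339737764) (nat_lit 8) (nat_lit 5) (nat_lit 9) (nat_lit 5) (nat_lit 10) (nat_lit 4) (nat_lit 234) (nat_lit 217) (nat_lit 209)))) (XT.nd (nat_lit 156)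 (nat_lit 152) (nat_lit 0) (XT.nd (nat_lit 78) (nat_lit 76) (nat_lit 0) (XT.lf (nat_lit 0) (nat_lit 8606020578) (nat_lit 152) (nat_lit 2487405669) (nat_lit 0) (nat_lit 3347783045) (nat_lit 8) (nat_lit 5) (nat_lit 10) (nat_lit 4) (nat_lit 8) (nat_lit 4) (nat_lit 235) (nat_lit 217) (nat_lit 208)) (XT.lf (nat_lit 0) (nat_lit 4487121121) (nat_lit 76) (nat_lit 8502503773) (nat_lit 76) (nat_lit 2971871177) (nat_lit 7) (nat_lit 4) (nat_lit 8) (nat_lit 5) (nat_lit 8) (nat_lit 4) (nat_lit 236) (nat_lit 217) (nat_lit 207))) (XT.nd (nat_lit 78) (nat_lit 76) (nat_lit 0) (XT.lf (nat_lit 0) (nat_lit 222823364) (nat_lit 152) (nat_lit 5288427633) (nat_lit 76) (nat_lit 12207670578) (nat_lit 6) (nat_lit 5) (nat_lit 8) (nat_lit 5) (nat_lit 7) (nat_lit 4) (nat_lit 237) (nat_lit 217) (nat_lit 206)) (XT.nd (nat_lit 78) (nat_lit 0) (nat_lit 0) (XT.lf (nat_lit 0) (nat_lit 1499091420) (nat_lit 76) (nat_lit 1976517457)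 (nat_lit 152) (nat_lit 16261223170) (nat_lit 5) (nat_lit 5) (nat_lit 6) (nat_lit 5) (nat_lit 7) (nat_lit 4) (nat_lit 238) (nat_lit 217) (nat_lit 205)) (XT.lf (nat_lit 0) (nat_lit 7418611767) (nat_lit 152) (nat_lit 12540419849) (nat_lit 0) (nat_lit 2068549294) (nat_lit 5) (nat_lit 5) (nat_lit 7) (nat_lit 4) (nat_lit 5) (nat_lit 4) (nat_lit 239) (nat_lit 217) (nat_lit 204))))))))
noncomputable def xc42 : XT := (XT.nd (nat_lit 1326) (nat_lit 76) (nat_lit 0) (XT.nd (nat_lit 624) (nat_lit 0) (nat_lit 0) (XT.nd (nat_lit 312) (nat_lit 152) (nat_lit 0) (XT.nd (nat_lit 156) (nat_lit 0) (nat_lit 0) (XT.nd (nat_lit 78) (nat_lit 76) (nat_lit 0) (XT.lf (nat_lit 0) (nat_lit 11896070102) (nat_lit 152) (nat_lit 6364274062) (nat_lit 0) (nat_lit 6410579142) (nat_lit 5) (nat_lit 5) (nat_lit 7) (nat_lit 4) (nat_lit 5) (nat_lit 4) (nat_lit 240) (nat_lit 217) (nat_lit 203)) (XT.lf (nat_lit 0) (nat_lit 541594201)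 (nat_lit 76) (nat_lit 16394575017) (nat_lit 76) (nat_lit 10791320155) (nat_lit 4) (nat_lit 4) (nat_lit 5) (nat_lit 5) (nat_lit 5) (nat_lit 4) (nat_lit 241) (nat_lit 217) (nat_lit 202))) (XT.nd (nat_lit 78) (nat_lit 0) (nat_lit 0) (XT.lf (nat_lit 0) (nat_lit 8964817010) (nat_lit 76) (nat_lit 13976199138) (nat_lit 76) (nat_lit 8270540882) (nat_lit 4) (nat_lit 4) (nat_lit 5) (nat_lit 5) (nat_lit 5) (nat_lit 4) (nat_lit 242) (nat_lit 217) (nat_lit 201)) (XT.lf (nat_lit 0) (nat_lit 18448233403) (nat_lit 76) (nat_lit 11290578439) (nat_lit 76) (nat_lit 5495873753) (nat_lit 4) (nat_lit 4) (nat_lit 5) (nat_lit 5) (nat_lit 5) (nat_lit 4) (nat_lit 243) (nat_lit 217) (nat_lit 200)))) (XT.nd (nat_lit 156) (nat_lit 76) (nat_lit 0) (XT.nd (nat_lit 78) (nat_lit 76) (nat_lit 0) (XT.lf (nat_lit 0) (nat_lit 29177388483) (nat_lit 76) (nat_lit 8285168167) (nat_lit 76) (nat_lit 2413031804) (nat_lit 4) (nat_lit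 4) (nat_lit 5) (nat_lit 5) (nat_lit 5) (nat_lit 4) (nat_lit 244) (nat_lit 217) (nat_lit 199)) (XT.lf (nat_lit 0) (nat_lit 945864663) (nat_lit 152) (nat_lit 3905859228) (nat_lit 76) (nat_lit 40366892912) (nat_lit 3) (nat_lit 5) (nat_lit 5) (nat_lit 5) (nat_lit 4) (nat_lit 4) (nat_lit 245) (nat_lit 217) (nat_lit 198))) (XT.nd (nat_lit 78) (nat_lit 0) (nat_lit 0) (XT.lf (nat_lit 0) (nat_lit 4005964284) (nat_lit 76) (nat_lit 647050605) (nat_lit 152) (nat_lit 46679290796) (nat_lit 2) (nat_lit 5) (nat_lit 3) (nat_lit 5) (nat_lit 4) (nat_lit 4) (nat_lit 246) (nat_lit 217) (nat_lit 197)) (XT.lf (nat_lit 0) (nat_lit 9230610596) (nat_lit 152) (nat_lit 45114751376) (nat_lit 0) (nat_lit 3970671193) (nat_lit 2) (nat_lit 5) (nat_lit 4) (nat_lit 4) (nat_lit 2) (nat_lit 4) (nat_lit 247) (nat_lit 217) (nat_lit 196))))) (XT.nd (nat_lit 312) (nat_lit 0) (nat_lit 0) (XT.nd (nat_lit 156) (nat_lit 0) (nat_lit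 0) (XT.nd (nat_lit 78) (nat_lit 0) (nat_lit 0) (XT.lf (nat_lit 0) (nat_lit 14462223769) (nat_lit 152) (nat_lit 42726324933) (nat_lit 0) (nat_lit 9163787137) (nat_lit 2) (nat_lit 5) (nat_lit 4) (nat_lit 4) (nat_lit 2) (nat_lit 4) (nat_lit 248) (nat_lit 217) (nat_lit 195)) (XT.lf (nat_lit 0) (nat_lit 20423419072) (nat_lit 152) (nat_lit 40087539004) (nat_lit 0) (nat_lit 15091506589) (nat_lit 2) (nat_lit 5) (nat_lit 4) (nat_lit 4) (nat_lit 2) (nat_lit 4) (nat_lit 249) (nat_lit 217) (nat_lit 194))) (XT.nd (nat_lit 78) (nat_lit 0) (nat_lit 0) (XT.lf (nat_lit 0) (nat_lit 27230828586) (nat_lit 152) (nat_lit 37146765169) (nat_lit 0) (nat_lit 21869806668) (nat_lit 2) (nat_lit 5) (nat_lit 4) (nat_lit 4) (nat_lit 2) (nat_lit 4) (nat_lit 250) (nat_lit 217) (nat_lit 193)) (XT.lf (nat_lit 0) (nat_lit 35017640759) (nat_lit 152) (nat_lit 33846466548) (nat_lit 0) (nat_lit 29631306288) (nat_lit 2) (nat_lit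 5) (nat_lit 4) (nat_lit 4) (nat_lit 2) (nat_lit 4) (nat_lit 251) (nat_lit 217) (nat_lit 192)))) (XT.nd (nat_lit 156) (nat_lit 0) (nat_lit 0) (XT.nd (nat_lit 78) (nat_lit 0) (nat_lit 0) (XT.lf (nat_lit 0) (nat_lit 43936206265) (nat_lit 152) (nat_lit 30122072081) (nat_lit 0) (nat_lit 38527860878) (nat_lit 2) (nat_lit 5) (nat_lit 4) (nat_lit 4) (nat_lit 2) (nat_lit 4) (nat_lit 252) (nat_lit 217) (nat_lit 191)) (XT.lf (nat_lit 0) (nat_lit 54161018774) (nat_lit 152) (nat_lit 25900713181) (nat_lit 0) (nat_lit 48733533461) (nat_lit 2) (nat_lit 5) (nat_lit 4) (nat_lit 4) (nat_lit 2) (nat_lit 4) (nat_lit 253) (nat_lit 217) (nat_lit 190))) (XT.nd (nat_lit 78) (nat_lit 0) (nat_lit 0) (XT.lf (nat_lit 0) (nat_lit 65892128968) (nat_lit 152) (nat_lit 21099798044) (nat_lit 0) (nat_lit 60448000241) (nat_lit 2) (nat_lit 5) (nat_lit 4) (nat_lit 4) (nat_lit 2) (nat_lit 4) (nat_lit 254) (nat_lit 217) (nat_lit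 189)) (XT.nd (nat_lit 78) (nat_lit 0) (nat_lit 0) (XT.lf (nat_lit 0) (nat_lit 79359058568) (nat_lit 152) (nat_lit 15625395721) (nat_lit 0) (nat_lit 73900457306) (nat_lit 2) (nat_lit 5) (nat_lit 4) (nat_lit 4) (nat_lit 2) (nat_lit 4) (nat_lit 255) (nat_lit 217) (nat_lit 188)) (XT.lf (nat_lit 0) (nat_lit 94825290978) (nat_lit 152) (nat_lit 9370398340) (nat_lit 0) (nat_lit 89354104904) (nat_lit 2) (nat_lit 5) (nat_lit 4) (nat_lit 4) (nat_lit 2) (nat_lit 4) (nat_lit 256) (nat_lit 217) (nat_lit 187))))))) (XT.nd (nat_lit 624) (nat_lit 0) (nat_lit 0) (XT.nd (nat_lit 312) (nat_lit 0) (nat_lit 0) (XT.nd (nat_lit 156) (nat_lit 0) (nat_lit 0) (XT.nd (nat_lit 78) (nat_lit 76) (nat_lit 0) (XT.lf (nat_lit 0) (nat_lit 112593426398) (nat_lit 152) (nat_lit 2212425519) (nat_lit 0) (nat_lit 107111297009) (nat_lit 2) (nat_lit 5) (nat_lit 4) (nat_lit 4) (nat_lit 2) (nat_lit 4) (nat_lit 257) (nat_lit 217)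 (nat_lit 186)) (XT.lf (nat_lit 0) (nat_lit 6573816655) (nat_lit 76) (nat_lit 126709493334) (nat_lit 76) (nat_lit 121217848019) (nat_lit 1) (nat_lit 4) (nat_lit 2) (nat_lit 5) (nat_lit 2) (nat_lit 4) (nat_lit 258) (nat_lit 217) (nat_lit 185))) (XT.nd (nat_lit 78) (nat_lit 0) (nat_lit 0) (XT.lf (nat_lit 0) (nat_lit 16897362662) (nat_lit 76) (nat_lit 140280115923) (nat_lit 76) (nat_lit 134780195890) (nat_lit 1) (nat_lit 4) (nat_lit 2) (nat_lit 5) (nat_lit 2) (nat_lit 4) (nat_lit 259) (nat_lit 217) (nat_lit 184)) (XT.lf (nat_lit 0) (nat_lit 28743980612) (nat_lit 76) (nat_lit 155898881381) (nat_lit 76) (nat_lit 150391765941) (nat_lit 1) (nat_lit 4) (nat_lit 2) (nat_lit 5) (nat_lit 2) (nat_lit 4) (nat_lit 260) (nat_lit 217) (nat_lit 183)))) (XT.nd (nat_lit 156) (nat_lit 0) (nat_lit 0) (XT.nd (nat_lit 78) (nat_lit 0) (nat_lit 0) (XT.lf (nat_lit 0) (nat_lit 42345452160) (nat_lit 76) (nat_lit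 173871374250) (nat_lit 76) (nat_lit 168358001933) (nat_lit 1) (nat_lit 4) (nat_lit 2) (nat_lit 5) (nat_lit 2) (nat_lit 4) (nat_lit 261) (nat_lit 217) (nat_lit 182)) (XT.lf (nat_lit 0) (nat_lit 57967893054) (nat_lit 76) (nat_lit 194549230259) (nat_lit 76) (nat_lit 189030417181) (nat_lit 1) (nat_lit 4) (nat_lit 2) (nat_lit 5) (nat_lit 2) (nat_lit 4) (nat_lit 262) (nat_lit 217) (nat_lit 181))) (XT.nd (nat_lit 78) (nat_lit 0) (nat_lit 0) (XT.lf (nat_lit 0) (nat_lit 75916959747) (nat_lit 76) (nat_lit 218337016157) (nat_lit 76) (nat_lit 212813471982) (nat_lit 1) (nat_lit 4) (nat_lit 2) (nat_lit 5) (nat_lit 2) (nat_lit 4) (nat_lit 263) (nat_lit 217) (nat_lit 180)) (XT.lf (nat_lit 0) (nat_lit 96543829629) (nat_lit 76) (nat_lit 245700145146) (nat_lit 76) (nat_lit 240172486973) (nat_lit 1) (nat_lit 4) (nat_lit 2) (nat_lit 5) (nat_lit 2) (nat_lit 4) (nat_lit 264) (nat_lit 217) (nat_lit 179)))))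 (XT.nd (nat_lit 312) (nat_lit 0) (nat_lit 0) (XT.nd (nat_lit 156) (nat_lit 0) (nat_lit 0) (XT.nd (nat_lit 78) (nat_lit 0) (nat_lit 0) (XT.lf (nat_lit 0) (nat_lit 120252071895) (nat_lit 76) (nat_lit 277173982793) (nat_lit 76) (nat_lit 271642747231) (nat_lit 1) (nat_lit 4) (nat_lit 2) (nat_lit 5) (nat_lit 2) (nat_lit 4) (nat_lit 265) (nat_lit 217) (nat_lit 178)) (XT.lf (nat_lit 0) (nat_lit 147505543459) (nat_lit 76) (nat_lit 313374321574) (nat_lit 76) (nat_lit 307839975239) (nat_lit 1) (nat_lit 4) (nat_lit 2) (nat_lit 5) (nat_lit 2) (nat_lit 4) (nat_lit 266) (nat_lit 217) (nat_lit 177))) (XT.nd (nat_lit 78) (nat_lit 0) (nat_lit 0) (XT.lf (nat_lit 0) (nat_lit 178837464415) (nat_lit 76) (nat_lit 355009428986) (nat_lit 76) (nat_lit 349472377631) (nat_lit 1) (nat_lit 4) (nat_lit 2) (nat_lit 5) (nat_lit 2) (nat_lit 4) (nat_lit 267) (nat_lit 217) (nat_lit 176)) (XT.lf (nat_lit 0) (nat_lit 214860850609)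 (nat_lit 76) (nat_lit 402893904958) (nat_lit 76) (nat_lit 397354501412) (nat_lit 1) (nat_lit 4) (nat_lit 2) (nat_lit 5) (nat_lit 2) (nat_lit 4) (nat_lit 268) (nat_lit 217) (nat_lit 175)))) (XT.nd (nat_lit 156) (nat_lit 0) (nat_lit 0) (XT.nd (nat_lit 78) (nat_lit 0) (nat_lit 0) (XT.lf (nat_lit 0) (nat_lit 256280507424) (nat_lit 76) (nat_lit 457964619672) (nat_lit 76) (nat_lit 452423170741) (nat_lit 1) (nat_lit 4) (nat_lit 2) (nat_lit 5) (nat_lit 2) (nat_lit 4) (nat_lit 269) (nat_lit 217) (nat_lit 174)) (XT.lf (nat_lit 0) (nat_lit 303906819448) (nat_lit 76) (nat_lit 521299043632) (nat_lit 76) (nat_lit 515755816107) (nat_lit 1) (nat_lit 4) (nat_lit 2) (nat_lit 5) (nat_lit 2) (nat_lit 4) (nat_lit 270) (nat_lit 217) (nat_lit 173))) (XT.nd (nat_lit 78) (nat_lit 0) (nat_lit 0) (XT.lf (nat_lit 0) (nat_lit 358671605830) (nat_lit 76) (nat_lit 594136328612) (nat_lit 76) (nat_lit 588591554483)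 (nat_lit 1) (nat_lit 4) (nat_lit 2) (nat_lit 5) (nat_lit 2) (nat_lit 4) (nat_lit 271) (nat_lit 217) (nat_lit 172)) (XT.nd (nat_lit 78) (nat_lit 0) (nat_lit 0) (XT.lf (nat_lit 0) (nat_lit 421646351521) (nat_lit 76) (nat_lit 677901551926) (nat_lit 76) (nat_lit 672355432924) (nat_lit 1) (nat_lit 4) (nat_lit 2) (nat_lit 5) (nat_lit 2) (nat_lit 4) (nat_lit 272) (nat_lit 217) (nat_lit 171)) (XT.lf (nat_lit 0) (nat_lit 494063171111) (nat_lit 76) (nat_lit 774233598379) (nat_lit 76) (nat_lit 768686309923) (nat_lit 1) (nat_lit 4) (nat_lit 2) (nat_lit 5) (nat_lit 2) (nat_lit 4) (nat_lit 273) (nat_lit 217) (nat_lit 170))))))))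
noncomputable def xc43 : XT := (XT.nd (nat_lit 1326) (nat_lit 0) (nat_lit 0) (XT.nd (nat_lit 624) (nat_lit 0) (nat_lit 0) (XT.nd (nat_lit 312) (nat_lit 0) (nat_lit 0) (XT.nd (nat_lit 156) (nat_lit 0) (nat_lit 0) (XT.nd (nat_lit 78) (nat_lit 0) (nat_lit 0) (XT.lf (nat_lit 0) (nat_lit 577338915418) (nat_lit 76) (nat_lit 885017225402) (nat_lit 76) (nat_lit 879468920028) (nat_lit 1) (nat_lit 4) (nat_lit 2) (nat_lit 5) (nat_lit 2) (nat_lit 4) (nat_lit 274) (nat_lit 217) (nat_lit 169)) (XT.lf (nat_lit 0) (nat_lit 673102892482) (nat_lit 76) (nat_lit 1012419938740) (nat_lit 76) (nat_lit 1006870749090) (nat_lit 1) (nat_lit 4) (nat_lit 2) (nat_lit 5) (nat_lit 2) (nat_lit 4) (nat_lit 275) (nat_lit 217) (nat_lit 168))) (XT.nd (nat_lit 78) (nat_lit 0) (nat_lit 0) (XT.lf (nat_lit 0) (nat_lit 783228745334) (nat_lit 76) (nat_lit 1158934400176) (nat_lit 76) (nat_lit 1153384441590) (nat_lit 1) (nat_lit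 4) (nat_lit 2) (nat_lit 5) (nat_lit 2) (nat_lit 4) (nat_lit 276) (nat_lit 217) (nat_lit 167)) (XT.lf (nat_lit 0) (nat_lit 909871110224) (nat_lit 76) (nat_lit 1327427196999) (nat_lit 76) (nat_lit 1321876569774) (nat_lit 1) (nat_lit 4) (nat_lit 2) (nat_lit 5) (nat_lit 2) (nat_lit 4) (nat_lit 277) (nat_lit 217) (nat_lit 166)))) (XT.nd (nat_lit 156) (nat_lit 0) (nat_lit 0) (XT.nd (nat_lit 78) (nat_lit 0) (nat_lit 0) (XT.lf (nat_lit 0) (nat_lit 1055507772552) (nat_lit 76) (nat_lit 1521194927407) (nat_lit 76) (nat_lit 1515643718756) (nat_lit 1) (nat_lit 4) (nat_lit 2) (nat_lit 5) (nat_lit 2) (nat_lit 4) (nat_lit 278) (nat_lit 217) (nat_lit 165)) (XT.lf (nat_lit 0) (nat_lit 1222988145278) (nat_lit 76) (nat_lit 1744028699170) (nat_lit 76) (nat_lit 1738476984932) (nat_lit 1) (nat_lit 4) (nat_lit 2) (nat_lit 5) (nat_lit 2) (nat_lit 4) (nat_lit 279) (nat_lit 217) (nat_lit 164))) (XT.nd (nat_lit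 78) (nat_lit 0) (nat_lit 0) (XT.lf (nat_lit 0) (nat_lit 1415589018301) (nat_lit 76) (nat_lit 2000288303475) (nat_lit 76) (nat_lit 1994736149595) (nat_lit 1) (nat_lit 4) (nat_lit 2) (nat_lit 5) (nat_lit 2) (nat_lit 4) (nat_lit 280) (nat_lit 217) (nat_lit 163)) (XT.lf (nat_lit 0) (nat_lit 1637078669574) (nat_lit 76) (nat_lit 2294987515187) (nat_lit 76) (nat_lit 2289434979011) (nat_lit 1) (nat_lit 4) (nat_lit 2) (nat_lit 5) (nat_lit 2) (nat_lit 4) (nat_lit 281) (nat_lit 217) (nat_lit 162))))) (XT.nd (nat_lit 312) (nat_lit 0) (nat_lit 0) (XT.nd (nat_lit 156) (nat_lit 0) (nat_lit 0) (XT.nd (nat_lit 78) (nat_lit 0) (nat_lit 0) (XT.lf (nat_lit 0) (nat_lit 1891790592272) (nat_lit 76) (nat_lit 2633892188450) (nat_lit 76) (nat_lit 2628339319841) (nat_lit 1) (nat_lit 4) (nat_lit 2) (nat_lit 5) (nat_lit 2) (nat_lit 4) (nat_lit 282) (nat_lit 217) (nat_lit 161)) (XT.lf (nat_lit 0) (nat_lit 2184708280536)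 (nat_lit 76) (nat_lit 3023633066871) (nat_lit 76) (nat_lit 3018079909190) (nat_lit 1) (nat_lit 4) (nat_lit 2) (nat_lit 5) (nat_lit 2) (nat_lit 4) (nat_lit 283) (nat_lit 217) (nat_lit 160))) (XT.nd (nat_lit 78) (nat_lit 0) (nat_lit 0) (XT.lf (nat_lit 0) (nat_lit 2521562732614) (nat_lit 76) (nat_lit 3471835515461) (nat_lit 76) (nat_lit 3466282106415) (nat_lit 1) (nat_lit 4) (nat_lit 2) (nat_lit 5) (nat_lit 2) (nat_lit 4) (nat_lit 284) (nat_lit 217) (nat_lit 159)) (XT.lf (nat_lit 0) (nat_lit 2908944579091) (nat_lit 76) (nat_lit 3987268712564) (nat_lit 76) (nat_lit 3981715084938) (nat_lit 1) (nat_lit 4) (nat_lit 2) (nat_lit 5) (nat_lit 2) (nat_lit 4) (nat_lit 285) (nat_lit 217) (nat_lit 158)))) (XT.nd (nat_lit 156) (nat_lit 0) (nat_lit 0) (XT.nd (nat_lit 78) (nat_lit 0) (nat_lit 0) (XT.lf (nat_lit 0) (nat_lit 3354433030005) (nat_lit 76) (nat_lit 4580017220731) (nat_lit 76) (nat_lit 4574463403036)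 (nat_lit 1) (nat_lit 4) (nat_lit 2) (nat_lit 5) (nat_lit 2) (nat_lit 4) (nat_lit 286) (nat_lit 217) (nat_lit 157)) (XT.lf (nat_lit 0) (nat_lit 3866744163745) (nat_lit 76) (nat_lit 5261678293382) (nat_lit 76) (nat_lit 5256124310410) (nat_lit 1) (nat_lit 4) (nat_lit 2) (nat_lit 5) (nat_lit 2) (nat_lit 4) (nat_lit 287) (nat_lit 217) (nat_lit 156))) (XT.nd (nat_lit 78) (nat_lit 0) (nat_lit 0) (XT.lf (nat_lit 0) (nat_lit 4455901459015) (nat_lit 76) (nat_lit 6045588777592) (nat_lit 76) (nat_lit 6040034650900) (nat_lit 1) (nat_lit 4) (nat_lit 2) (nat_lit 5) (nat_lit 2) (nat_lit 4) (nat_lit 288) (nat_lit 217) (nat_lit 155)) (XT.nd (nat_lit 78) (nat_lit 0) (nat_lit 0) (XT.lf (nat_lit 0) (nat_lit 5133431906373) (nat_lit 76) (nat_lit 6947086052400) (nat_lit 76) (nat_lit 6941531800734) (nat_lit 1) (nat_lit 4) (nat_lit 2) (nat_lit 5) (nat_lit 2) (nat_lit 4) (nat_lit 289) (nat_lit 217) (nat_lit 154))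 (XT.lf (nat_lit 0) (nat_lit 5912591536311) (nat_lit 76) (nat_lit 7983808107964) (nat_lit 76) (nat_lit 7978253747626) (nat_lit 1) (nat_lit 4) (nat_lit 2) (nat_lit 5) (nat_lit 2) (nat_lit 4) (nat_lit 290) (nat_lit 217) (nat_lit 153))))))) (XT.nd (nat_lit 858) (nat_lit 0) (nat_lit 0) (XT.nd (nat_lit 312) (nat_lit 0) (nat_lit 0) (XT.nd (nat_lit 156) (nat_lit 0) (nat_lit 0) (XT.nd (nat_lit 78) (nat_lit 0) (nat_lit 0) (XT.lf (nat_lit 0) (nat_lit 6808624776373) (nat_lit 76) (nat_lit 9176038636676) (nat_lit 76) (nat_lit 9170484181840) (nat_lit 1) (nat_lit 4) (nat_lit 2) (nat_lit 5) (nat_lit 2) (nat_lit 4) (nat_lit 291) (nat_lit 217) (nat_lit 152)) (XT.lf (nat_lit 0) (nat_lit 7839062711689) (nat_lit 76) (nat_lit 10547103888011) (nat_lit 76) (nat_lit 10541549351003) (nat_lit 1) (nat_lit 4) (nat_lit 2) (nat_lit 5) (nat_lit 2) (nat_lit 4) (nat_lit 292) (nat_lit 217) (nat_lit 151))) (XT.nd (nat_lit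 78) (nat_lit 0) (nat_lit 0) (XT.lf (nat_lit 0) (nat_lit 9024066084472) (nat_lit 76) (nat_lit 12123829051669) (nat_lit 76) (nat_lit 12118274443207) (nat_lit 1) (nat_lit 4) (nat_lit 2) (nat_lit 5) (nat_lit 2) (nat_lit 4) (nat_lit 293) (nat_lit 217) (nat_lit 150)) (XT.lf (nat_lit 0) (nat_lit 10386819743320) (nat_lit 76) (nat_lit 13937063098243) (nat_lit 76) (nat_lit 13931508427647) (nat_lit 1) (nat_lit 4) (nat_lit 2) (nat_lit 5) (nat_lit 2) (nat_lit 4) (nat_lit 294) (nat_lit 217) (nat_lit 149)))) (XT.nd (nat_lit 390) (nat_lit 0) (nat_lit 0) (XT.nd (nat_lit 312) (nat_lit 0) (nat_lit 0) (XT.lf (nat_lit 0) (nat_lit 11953986259820) (nat_lit 76) (nat_lit 16022282346036) (nat_lit 76) (nat_lit 16016727621410) (nat_lit 1) (nat_lit 4) (nat_lit 2) (nat_lit 5) (nat_lit 2) (nat_lit 4) (nat_lit 295) (nat_lit 217) (nat_lit 148)) (XT.lf (nat_lit 0) (nat_lit 20953252168160) (nat_lit 76) (nat_lit 27996407100383)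 (nat_lit 76) (nat_lit 27990852221504) (nat_lit 1) (nat_lit 4) (nat_lit 2) (nat_lit 5) (nat_lit 2) (nat_lit 4) (nat_lit 299) (nat_lit 217) (nat_lit 144))) (XT.nd (nat_lit 78) (nat_lit 0) (nat_lit 0) (XT.lf (nat_lit 0) (nat_lit 24105382907534) (nat_lit 76) (nat_lit 32190528264379) (nat_lit 76) (nat_lit 32184973358639) (nat_lit 1) (nat_lit 4) (nat_lit 2) (nat_lit 5) (nat_lit 2) (nat_lit 4) (nat_lit 300) (nat_lit 217) (nat_lit 143)) (XT.lf (nat_lit 0) (nat_lit 27730333175164) (nat_lit 76) (nat_lit 37013767643715) (nat_lit 76) (nat_lit 37008212714615) (nat_lit 1) (nat_lit 4) (nat_lit 2) (nat_lit 5) (nat_lit 2) (nat_lit 4) (nat_lit 301) (nat_lit 217) (nat_lit 142))))) (XT.nd (nat_lit 28470) (nat_lit 0) (nat_lit 912) (XT.nd (nat_lit 28314) (nat_lit 0) (nat_lit 1748) (XT.nd (nat_lit 78) (nat_lit 0) (nat_lit 0) (XT.lf (nat_lit 0) (nat_lit 31899025911067) (nat_lit 76) (nat_lit 42560492965376)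 (nat_lit 76) (nat_lit 42554938015965) (nat_lit 1) (nat_lit 4) (nat_lit 2) (nat_lit 5) (nat_lit 2) (nat_lit 4) (nat_lit 302) (nat_lit 217) (nat_lit 141)) (XT.lf (nat_lit 0) (nat_lit 36693022494861) (nat_lit 76) (nat_lit 48939227116091) (nat_lit 76) (nat_lit 48933672149017) (nat_lit 1) (nat_lit 4) (nat_lit 2) (nat_lit 5) (nat_lit 2) (nat_lit 4) (nat_lit 303) (nat_lit 217) (nat_lit 140))) (XT.nd (nat_lit 78) (nat_lit 0) (nat_lit 0) (XT.lf (nat_lit 0) (nat_lit 288931472) (nat_lit 228) (nat_lit 2845625897) (nat_lit 0) (nat_lit 288931472) (nat_lit 24) (nat_lit 5) (nat_lit 27) (nat_lit 4) (nat_lit 24) (nat_lit 4) (nat_lit 224) (nat_lit 218) (nat_lit 218)) (XT.lf (nat_lit 0) (nat_lit 3633199753) (nat_lit 228) (nat_lit 1494507238) (nat_lit 0) (nat_lit 1957210785) (nat_lit 24) (nat_lit 5) (nat_lit 27) (nat_lit 4) (nat_lit 24) (nat_lit 4) (nat_lit 225) (nat_lit 218) (nat_lit 217)))) (XT.nd (nat_lit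 156) (nat_lit 228) (nat_lit 0) (XT.nd (nat_lit 78) (nat_lit 380) (nat_lit 0) (XT.lf (nat_lit 0) (nat_lit 3186221538) (nat_lit 228) (nat_lit 3676483145) (nat_lit 228) (nat_lit 543112466) (nat_lit 21) (nat_lit 4) (nat_lit 24) (nat_lit 5) (nat_lit 24) (nat_lit 4) (nat_lit 226) (nat_lit 218) (nat_lit 216)) (XT.lf (nat_lit 0) (nat_lit 441090571) (nat_lit 304) (nat_lit 1810886030) (nat_lit 380) (nat_lit 5554043275) (nat_lit 16) (nat_lit 5) (nat_lit 20) (nat_lit 5) (nat_lit 21) (nat_lit 4) (nat_lit 227) (nat_lit 218) (nat_lit 215))) (XT.nd (nat_lit 78) (nat_lit 228) (nat_lit 0) (XT.lf (nat_lit 0) (nat_lit 5286810386) (nat_lit 380) (nat_lit 2495308651) (nat_lit 0) (nat_lit 501898147) (nat_lit 16) (nat_lit 5) (nat_lit 21) (nat_lit 4) (nat_lit 16) (nat_lit 4) (nat_lit 228) (nat_lit 218) (nat_lit 214)) (XT.nd (nat_lit 78) (nat_lit 76) (nat_lit 0) (XT.lf (nat_lit 0) (nat_lit 2848625048) (nat_lit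 152) (nat_lit 5811701568) (nat_lit 152) (nat_lit 193526605) (nat_lit 14) (nat_lit 4) (nat_lit 16) (nat_lit 5) (nat_lit 16) (nat_lit 4) (nat_lit 229) (nat_lit 218) (nat_lit 213)) (XT.lf (nat_lit 0) (nat_lit 2585720359) (nat_lit 228) (nat_lit 783452471) (nat_lit 76) (nat_lit 6149452844) (nat_lit 13) (nat_lit 5) (nat_lit 16) (nat_lit 5) (nat_lit 14) (nat_lit 4) (nat_lit 230) (nat_lit 218) (nat_lit 212))))))))
noncomputable def xc44 : XT := (XT.nd (nat_lit 1326) (nat_lit 76) (nat_lit 0) (XT.nd (nat_lit 624) (nat_lit 304) (nat_lit 0) (XT.nd (nat_lit 312) (nat_lit 152) (nat_lit 0) (XT.nd (nat_lit 156) (nat_lit 152) (nat_lit 0) (XT.nd (nat_lit 78) (nat_lit 152) (nat_lit 0) (XT.lf (nat_lit 0) (nat_lit 5304882258) (nat_lit 76) (nat_lit 405675803) (nat_lit 152) (nat_lit 4580643539) (nat_lit 12) (nat_lit 5) (nat_lit 13) (nat_lit 5) (nat_lit 14) (nat_lit 4) (nat_lit 231) (nat_lit 218) (nat_lit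 211)) (XT.lf (nat_lit 0) (nat_lit 765890583) (nat_lit 152) (nat_lit 8481752477) (nat_lit 152) (nat_lit 1942012180) (nat_lit 10) (nat_lit 4) (nat_lit 12) (nat_lit 5) (nat_lit 12) (nat_lit 4) (nat_lit 232) (nat_lit 218) (nat_lit 210))) (XT.nd (nat_lit 78) (nat_lit 76) (nat_lit 0) (XT.lf (nat_lit 0) (nat_lit 1037217029) (nat_lit 228) (nat_lit 4724002523) (nat_lit 76) (nat_lit 6449712604) (nat_lit 9) (nat_lit 5) (nat_lit 12) (nat_lit 5) (nat_lit 10) (nat_lit 4) (nat_lit 233) (nat_lit 218) (nat_lit 209)) (XT.lf (nat_lit 0) (nat_lit 1521926629) (nat_lit 76) (nat_lit 2587928364) (nat_lit 152) (nat_lit 9285870830) (nat_lit 8) (nat_lit 5) (nat_lit 9) (nat_lit 5) (nat_lit 10) (nat_lit 4) (nat_lit 234) (nat_lit 218) (nat_lit 208)))) (XT.nd (nat_lit 156) (nat_lit 76) (nat_lit 0) (XT.nd (nat_lit 78) (nat_lit 76) (nat_lit 0) (XT.lf (nat_lit 0) (nat_lit 7737356132) (nat_lit 152) (nat_lit 5902922521)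 (nat_lit 0) (nat_lit 1104733585) (nat_lit 8) (nat_lit 5) (nat_lit 10) (nat_lit 4) (nat_lit 8) (nat_lit 4) (nat_lit 235) (nat_lit 218) (nat_lit 207)) (XT.lf (nat_lit 0) (nat_lit 577240294) (nat_lit 76) (nat_lit 11297421375) (nat_lit 76) (nat_lit 4427933557) (nat_lit 7) (nat_lit 4) (nat_lit 8) (nat_lit 5) (nat_lit 8) (nat_lit 4) (nat_lit 236) (nat_lit 218) (nat_lit 206))) (XT.nd (nat_lit 78) (nat_lit 76) (nat_lit 0) (XT.lf (nat_lit 0) (nat_lit 8392630414) (nat_lit 76) (nat_lit 8378274286) (nat_lit 76) (nat_lit 1302816666) (nat_lit 7) (nat_lit 4) (nat_lit 8) (nat_lit 5) (nat_lit 8) (nat_lit 4) (nat_lit 237) (nat_lit 218) (nat_lit 205)) (XT.lf (nat_lit 0) (nat_lit 1931514638) (nat_lit 152) (nat_lit 3101805322) (nat_lit 76) (nat_lit 15086800949) (nat_lit 6) (nat_lit 5) (nat_lit 8) (nat_lit 5) (nat_lit 7) (nat_lit 4) (nat_lit 238) (nat_lit 218) (nat_lit 204))))) (XT.nd (nat_lit 312) (nat_lit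 152) (nat_lit 0) (XT.nd (nat_lit 156) (nat_lit 76) (nat_lit 0) (XT.nd (nat_lit 78) (nat_lit 0) (nat_lit 0) (XT.lf (nat_lit 0) (nat_lit 4568392205) (nat_lit 76) (nat_lit 1003094660) (nat_lit 152) (nat_lit 16885038416) (nat_lit 5) (nat_lit 5) (nat_lit 6) (nat_lit 5) (nat_lit 7) (nat_lit 4) (nat_lit 239) (nat_lit 218) (nat_lit 203)) (XT.lf (nat_lit 0) (nat_lit 9946290944) (nat_lit 152) (nat_lit 11784365628) (nat_lit 0) (nat_lit 3384783949) (nat_lit 5) (nat_lit 5) (nat_lit 7) (nat_lit 4) (nat_lit 5) (nat_lit 4) (nat_lit 240) (nat_lit 218) (nat_lit 202))) (XT.nd (nat_lit 78) (nat_lit 76) (nat_lit 0) (XT.lf (nat_lit 0) (nat_lit 14910817498) (nat_lit 152) (nat_lit 5025769782) (nat_lit 0) (nat_lit 8246907110) (nat_lit 5) (nat_lit 5) (nat_lit 7) (nat_lit 4) (nat_lit 5) (nat_lit 4) (nat_lit 241) (nat_lit 218) (nat_lit 201)) (XT.lf (nat_lit 0) (nat_lit 2811744839) (nat_lit 76) (nat_lit 17825346076)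 (nat_lit 76) (nat_lit 11072389259) (nat_lit 4) (nat_lit 4) (nat_lit 5) (nat_lit 5) (nat_lit 5) (nat_lit 4) (nat_lit 242) (nat_lit 218) (nat_lit 200)))) (XT.nd (nat_lit 156) (nat_lit 152) (nat_lit 0) (XT.nd (nat_lit 78) (nat_lit 0) (nat_lit 0) (XT.lf (nat_lit 0) (nat_lit 12212940873) (nat_lit 76) (nat_lit 15178354927) (nat_lit 76) (nat_lit 8347966432) (nat_lit 4) (nat_lit 4) (nat_lit 5) (nat_lit 5) (nat_lit 5) (nat_lit 4) (nat_lit 243) (nat_lit 218) (nat_lit 199)) (XT.lf (nat_lit 0) (nat_lit 22870599989) (nat_lit 76) (nat_lit 12206535568) (nat_lit 76) (nat_lit 5308815180) (nat_lit 4) (nat_lit 4) (nat_lit 5) (nat_lit 5) (nat_lit 5) (nat_lit 4) (nat_lit 244) (nat_lit 218) (nat_lit 198))) (XT.nd (nat_lit 78) (nat_lit 152) (nat_lit 0) (XT.lf (nat_lit 0) (nat_lit 34993241603) (nat_lit 76) (nat_lit 8851743709) (nat_lit 76) (nat_lit 1895473848) (nat_lit 4) (nat_lit 4) (nat_lit 5) (nat_lit 5)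 (nat_lit 5) (nat_lit 4) (nat_lit 245) (nat_lit 218) (nat_lit 197)) (XT.nd (nat_lit 78) (nat_lit 76) (nat_lit 0) (XT.lf (nat_lit 0) (nat_lit 1784450817) (nat_lit 152) (nat_lit 3170613187) (nat_lit 76) (nat_lit 46940318907) (nat_lit 3) (nat_lit 5) (nat_lit 5) (nat_lit 5) (nat_lit 4) (nat_lit 4) (nat_lit 246) (nat_lit 218) (nat_lit 196)) (XT.lf (nat_lit 0) (nat_lit 5867932720) (nat_lit 76) (nat_lit 141084479) (nat_lit 152) (nat_lit 52923104703) (nat_lit 2) (nat_lit 5) (nat_lit 3) (nat_lit 5) (nat_lit 4) (nat_lit 4) (nat_lit 247) (nat_lit 218) (nat_lit 195))))))) (XT.nd (nat_lit 624) (nat_lit 76) (nat_lit 0) (XT.nd (nat_lit 312) (nat_lit 0) (nat_lit 0) (XT.nd (nat_lit 156) (nat_lit 0) (nat_lit 0) (XT.nd (nat_lit 78) (nat_lit 0) (nat_lit 0) (XT.lf (nat_lit 0) (nat_lit 11209132622) (nat_lit 152) (nat_lit 50720108862) (nat_lit 0) (nat_lit 5043957416) (nat_lit 2) (nat_lit 5) (nat_lit 4) (nat_lit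 4) (nat_lit 2) (nat_lit 4) (nat_lit 248) (nat_lit 218) (nat_lit 194)) (XT.lf (nat_lit 0) (nat_lit 17148018583) (nat_lit 152) (nat_lit 48124964785) (nat_lit 0) (nat_lit 10953733942) (nat_lit 2) (nat_lit 5) (nat_lit 4) (nat_lit 4) (nat_lit 2) (nat_lit 4) (nat_lit 249) (nat_lit 218) (nat_lit 193))) (XT.nd (nat_lit 78) (nat_lit 0) (nat_lit 0) (XT.lf (nat_lit 0) (nat_lit 23936028671) (nat_lit 152) (nat_lit 45222140387) (nat_lit 0) (nat_lit 17716431476) (nat_lit 2) (nat_lit 5) (nat_lit 4) (nat_lit 4) (nat_lit 2) (nat_lit 4) (nat_lit 250) (nat_lit 218) (nat_lit 192)) (XT.lf (nat_lit 0) (nat_lit 31705971777) (nat_lit 152) (nat_lit 41954841277) (nat_lit 0) (nat_lit 25464363667) (nat_lit 2) (nat_lit 5) (nat_lit 4) (nat_lit 4) (nat_lit 2) (nat_lit 4) (nat_lit 251) (nat_lit 218) (nat_lit 191)))) (XT.nd (nat_lit 156) (nat_lit 0) (nat_lit 0) (XT.nd (nat_lit 78) (nat_lit 0) (nat_lit 0) (XT.lf (nat_lit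 0) (nat_lit 40609868528) (nat_lit 152) (nat_lit 38259142036) (nat_lit 0) (nat_lit 34349120492) (nat_lit 2) (nat_lit 5) (nat_lit 4) (nat_lit 4) (nat_lit 2) (nat_lit 4) (nat_lit 252) (nat_lit 218) (nat_lit 190)) (XT.lf (nat_lit 0) (nat_lit 50821925600) (nat_lit 152) (nat_lit 34062735508) (nat_lit 0) (nat_lit 44544534149) (nat_lit 2) (nat_lit 5) (nat_lit 4) (nat_lit 4) (nat_lit 2) (nat_lit 4) (nat_lit 253) (nat_lit 218) (nat_lit 189))) (XT.nd (nat_lit 78) (nat_lit 0) (nat_lit 0) (XT.lf (nat_lit 0) (nat_lit 62541944108) (nat_lit 152) (nat_lit 29283518084) (nat_lit 0) (nat_lit 56250080124) (nat_lit 2) (nat_lit 5) (nat_lit 4) (nat_lit 4) (nat_lit 2) (nat_lit 4) (nat_lit 254) (nat_lit 218) (nat_lit 188)) (XT.lf (nat_lit 0) (nat_lit 75999228764) (nat_lit 152) (nat_lit 23827983338) (nat_lit 0) (nat_lit 69694779967) (nat_lit 2) (nat_lit 5) (nat_lit 4) (nat_lit 4) (nat_lit 2) (nat_lit 4) (nat_lit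 255) (nat_lit 218) (nat_lit 187))))) (XT.nd (nat_lit 312) (nat_lit 0) (nat_lit 0) (XT.nd (nat_lit 156) (nat_lit 76) (nat_lit 0) (XT.nd (nat_lit 78) (nat_lit 0) (nat_lit 0) (XT.lf (nat_lit 0) (nat_lit 91457074266) (nat_lit 152) (nat_lit 17589392547) (nat_lit 0) (nat_lit 85141682154) (nat_lit 2) (nat_lit 5) (nat_lit 4) (nat_lit 4) (nat_lit 2) (nat_lit 4) (nat_lit 256) (nat_lit 218) (nat_lit 186)) (XT.lf (nat_lit 0) (nat_lit 109217916723) (nat_lit 152) (nat_lit 10445686324) (nat_lit 0) (nat_lit 102893008685) (nat_lit 2) (nat_lit 5) (nat_lit 4) (nat_lit 4) (nat_lit 2) (nat_lit 4) (nat_lit 257) (nat_lit 218) (nat_lit 185))) (XT.nd (nat_lit 78) (nat_lit 76) (nat_lit 0) (XT.lf (nat_lit 0) (nat_lit 129629250878) (nat_lit 152) (nat_lit 2257096505) (nat_lit 0) (nat_lit 123296068121) (nat_lit 2) (nat_lit 5) (nat_lit 4) (nat_lit 4) (nat_lit 2) (nat_lit 4) (nat_lit 258) (nat_lit 218) (nat_lit 184))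 (XT.lf (nat_lit 0) (nat_lit 7834027774) (nat_lit 76) (nat_lit 145580791531) (nat_lit 76) (nat_lit 139240413367) (nat_lit 1) (nat_lit 4) (nat_lit 2) (nat_lit 5) (nat_lit 2) (nat_lit 4) (nat_lit 259) (nat_lit 218) (nat_lit 183)))) (XT.nd (nat_lit 156) (nat_lit 0) (nat_lit 0) (XT.nd (nat_lit 78) (nat_lit 0) (nat_lit 0) (XT.lf (nat_lit 0) (nat_lit 19670348471) (nat_lit 76) (nat_lit 161204632613) (nat_lit 76) (nat_lit 154857997573) (nat_lit 1) (nat_lit 4) (nat_lit 2) (nat_lit 5) (nat_lit 2) (nat_lit 4) (nat_lit 260) (nat_lit 218) (nat_lit 182)) (XT.lf (nat_lit 0) (nat_lit 33262865886) (nat_lit 76) (nat_lit 179181539068) (nat_lit 76) (nat_lit 172829463266) (nat_lit 1) (nat_lit 4) (nat_lit 2) (nat_lit 5) (nat_lit 2) (nat_lit 4) (nat_lit 261) (nat_lit 218) (nat_lit 181))) (XT.nd (nat_lit 78) (nat_lit 0) (nat_lit 0) (XT.lf (nat_lit 0) (nat_lit 48877520578) (nat_lit 76) (nat_lit 199863232978)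 (nat_lit 76) (nat_lit 193506426079) (nat_lit 1) (nat_lit 4) (nat_lit 2) (nat_lit 5) (nat_lit 2) (nat_lit 4) (nat_lit 262) (nat_lit 218) (nat_lit 180)) (XT.nd (nat_lit 78) (nat_lit 0) (nat_lit 0) (XT.lf (nat_lit 0) (nat_lit 66819816659) (nat_lit 76) (nat_lit 223654356181) (nat_lit 76) (nat_lit 217293435285) (nat_lit 1) (nat_lit 4) (nat_lit 2) (nat_lit 5) (nat_lit 2) (nat_lit 4) (nat_lit 263) (nat_lit 218) (nat_lit 179)) (XT.lf (nat_lit 0) (nat_lit 87440799054) (nat_lit 76) (nat_lit 251020387175) (nat_lit 76) (nat_lit 244655888889) (nat_lit 1) (nat_lit 4) (nat_lit 2) (nat_lit 5) (nat_lit 2) (nat_lit 4) (nat_lit 264) (nat_lit 218) (nat_lit 178))))))))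
noncomputable def xc45 : XT := (XT.nd (nat_lit 1326) (nat_lit 0) (nat_lit 0) (XT.nd (nat_lit 624) (nat_lit 0) (nat_lit 0) (XT.nd (nat_lit 312) (nat_lit 0) (nat_lit 0) (XT.nd (nat_lit 156) (nat_lit 0) (nat_lit 0) (XT.nd (nat_lit 78) (nat_lit 0) (nat_lit 0) (XT.lf (nat_lit 0) (nat_lit 111143921765) (nat_lit 76) (nat_lit 282496748304) (nat_lit 76) (nat_lit 276129139246) (nat_lit 1) (nat_lit 4) (nat_lit 2) (nat_lit 5) (nat_lit 2) (nat_lit 4) (nat_lit 265) (nat_lit 218) (nat_lit 177)) (XT.lf (nat_lit 0) (nat_lit 138392941542) (nat_lit 76) (nat_lit 318699281417) (nat_lit 76) (nat_lit 312328967339) (nat_lit 1) (nat_lit 4) (nat_lit 2) (nat_lit 5) (nat_lit 2) (nat_lit 4) (nat_lit 266) (nat_lit 218) (nat_lit 176))) (XT.nd (nat_lit 78) (nat_lit 0) (nat_lit 0) (XT.lf (nat_lit 0) (nat_lit 169720991379) (nat_lit 76) (nat_lit 360336296945) (nat_lit 76) (nat_lit 353963630675) (nat_lit 1) (nat_lit 4)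 (nat_lit 2) (nat_lit 5) (nat_lit 2) (nat_lit 4) (nat_lit 267) (nat_lit 218) (nat_lit 175)) (XT.lf (nat_lit 0) (nat_lit 205741011383) (nat_lit 76) (nat_lit 408222432147) (nat_lit 76) (nat_lit 401847720494) (nat_lit 1) (nat_lit 4) (nat_lit 2) (nat_lit 5) (nat_lit 2) (nat_lit 4) (nat_lit 268) (nat_lit 218) (nat_lit 174)))) (XT.nd (nat_lit 156) (nat_lit 0) (nat_lit 0) (XT.nd (nat_lit 78) (nat_lit 0) (nat_lit 0) (XT.lf (nat_lit 0) (nat_lit 247157741075) (nat_lit 76) (nat_lit 463294589670) (nat_lit 76) (nat_lit 456918099422) (nat_lit 1) (nat_lit 4) (nat_lit 2) (nat_lit 5) (nat_lit 2) (nat_lit 4) (nat_lit 269) (nat_lit 218) (nat_lit 173)) (XT.lf (nat_lit 0) (nat_lit 294781507776) (nat_lit 76) (nat_lit 526630268247) (nat_lit 76) (nat_lit 520252231394) (nat_lit 1) (nat_lit 4) (nat_lit 2) (nat_lit 5) (nat_lit 2) (nat_lit 4) (nat_lit 270) (nat_lit 218) (nat_lit 172))) (XT.nd (nat_lit 78) (nat_lit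 0) (nat_lit 0) (XT.lf (nat_lit 0) (nat_lit 349544080833) (nat_lit 76) (nat_lit 599468644198) (nat_lit 76) (nat_lit 593089262472) (nat_lit 1) (nat_lit 4) (nat_lit 2) (nat_lit 5) (nat_lit 2) (nat_lit 4) (nat_lit 271) (nat_lit 218) (nat_lit 171)) (XT.lf (nat_lit 0) (nat_lit 412516901895) (nat_lit 76) (nat_lit 683234816183) (nat_lit 76) (nat_lit 676854265002) (nat_lit 1) (nat_lit 4) (nat_lit 2) (nat_lit 5) (nat_lit 2) (nat_lit 4) (nat_lit 272) (nat_lit 218) (nat_lit 170))))) (XT.nd (nat_lit 312) (nat_lit 0) (nat_lit 0) (XT.nd (nat_lit 156) (nat_lit 0) (nat_lit 0) (XT.nd (nat_lit 78) (nat_lit 0) (nat_lit 0) (XT.lf (nat_lit 0) (nat_lit 484932047893) (nat_lit 76) (nat_lit 779567687567) (nat_lit 76) (nat_lit 773186119469) (nat_lit 1) (nat_lit 4) (nat_lit 2) (nat_lit 5) (nat_lit 2) (nat_lit 4) (nat_lit 273) (nat_lit 218) (nat_lit 169)) (XT.lf (nat_lit 0) (nat_lit 568206336903) (nat_lit 76) (nat_lit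 890352031920) (nat_lit 76) (nat_lit 883969579547) (nat_lit 1) (nat_lit 4) (nat_lit 2) (nat_lit 5) (nat_lit 2) (nat_lit 4) (nat_lit 274) (nat_lit 218) (nat_lit 168))) (XT.nd (nat_lit 78) (nat_lit 0) (nat_lit 0) (XT.lf (nat_lit 0) (nat_lit 663969048492) (nat_lit 76) (nat_lit 1017755369024) (nat_lit 76) (nat_lit 1011372147716) (nat_lit 1) (nat_lit 4) (nat_lit 2) (nat_lit 5) (nat_lit 2) (nat_lit 4) (nat_lit 275) (nat_lit 218) (nat_lit 167)) (XT.lf (nat_lit 0) (nat_lit 774093800929) (nat_lit 76) (nat_lit 1164270372866) (nat_lit 76) (nat_lit 1157886482917) (nat_lit 1) (nat_lit 4) (nat_lit 2) (nat_lit 5) (nat_lit 2) (nat_lit 4) (nat_lit 276) (nat_lit 218) (nat_lit 166)))) (XT.nd (nat_lit 156) (nat_lit 0) (nat_lit 0) (XT.nd (nat_lit 78) (nat_lit 0) (nat_lit 0) (XT.lf (nat_lit 0) (nat_lit 900735208938) (nat_lit 76) (nat_lit 1332763641346) (nat_lit 76) (nat_lit 1326379169971) (nat_lit 1) (nat_lit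 4) (nat_lit 2) (nat_lit 5) (nat_lit 2) (nat_lit 4) (nat_lit 277) (nat_lit 218) (nat_lit 165)) (XT.lf (nat_lit 0) (nat_lit 1046371039196) (nat_lit 76) (nat_lit 1526531781891) (nat_lit 76) (nat_lit 1520146804929) (nat_lit 1) (nat_lit 4) (nat_lit 2) (nat_lit 5) (nat_lit 2) (nat_lit 4) (nat_lit 278) (nat_lit 218) (nat_lit 164))) (XT.nd (nat_lit 78) (nat_lit 0) (nat_lit 0) (XT.lf (nat_lit 0) (nat_lit 1213850688381) (nat_lit 76) (nat_lit 1749365910294) (nat_lit 76) (nat_lit 1742980493691) (nat_lit 1) (nat_lit 4) (nat_lit 2) (nat_lit 5) (nat_lit 2) (nat_lit 4) (nat_lit 279) (nat_lit 218) (nat_lit 163)) (XT.nd (nat_lit 78) (nat_lit 0) (nat_lit 0) (XT.lf (nat_lit 0) (nat_lit 1406450932240) (nat_lit 76) (nat_lit 2005625824721) (nat_lit 76) (nat_lit 1999240025821) (nat_lit 1) (nat_lit 4) (nat_lit 2) (nat_lit 5) (nat_lit 2) (nat_lit 4) (nat_lit 280) (nat_lit 218) (nat_lit 162)) (XT.lf (nat_lit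 0) (nat_lit 1627940036413) (nat_lit 76) (nat_lit 2300325306104) (nat_lit 76) (nat_lit 2293939174772) (nat_lit 1) (nat_lit 4) (nat_lit 2) (nat_lit 5) (nat_lit 2) (nat_lit 4) (nat_lit 281) (nat_lit 218) (nat_lit 161))))))) (XT.nd (nat_lit 624) (nat_lit 0) (nat_lit 0) (XT.nd (nat_lit 312) (nat_lit 0) (nat_lit 0) (XT.nd (nat_lit 156) (nat_lit 0) (nat_lit 0) (XT.nd (nat_lit 78) (nat_lit 0) (nat_lit 0) (XT.lf (nat_lit 0) (nat_lit 1882651483372) (nat_lit 76) (nat_lit 2639230213864) (nat_lit 76) (nat_lit 2632843793461) (nat_lit 1) (nat_lit 4) (nat_lit 2) (nat_lit 5) (nat_lit 2) (nat_lit 4) (nat_lit 282) (nat_lit 218) (nat_lit 160)) (XT.lf (nat_lit 0) (nat_lit 2175568757949) (nat_lit 76) (nat_lit 3028971296195) (nat_lit 76) (nat_lit 3022584624425) (nat_lit 1) (nat_lit 4) (nat_lit 2) (nat_lit 5) (nat_lit 2) (nat_lit 4) (nat_lit 283) (nat_lit 218) (nat_lit 159))) (XT.nd (nat_lit 78) (nat_lit 0)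 (nat_lit 0) (XT.lf (nat_lit 0) (nat_lit 2512422850300) (nat_lit 76) (nat_lit 3477173922099) (nat_lit 76) (nat_lit 3470787031749) (nat_lit 1) (nat_lit 4) (nat_lit 2) (nat_lit 5) (nat_lit 2) (nat_lit 4) (nat_lit 284) (nat_lit 218) (nat_lit 158)) (XT.lf (nat_lit 0) (nat_lit 2899804383971) (nat_lit 76) (nat_lit 3992607273387) (nat_lit 76) (nat_lit 3986220192968) (nat_lit 1) (nat_lit 4) (nat_lit 2) (nat_lit 5) (nat_lit 2) (nat_lit 4) (nat_lit 285) (nat_lit 218) (nat_lit 157)))) (XT.nd (nat_lit 156) (nat_lit 0) (nat_lit 0) (XT.nd (nat_lit 78) (nat_lit 0) (nat_lit 0) (XT.lf (nat_lit 0) (nat_lit 3345292562880) (nat_lit 76) (nat_lit 4585355915628) (nat_lit 76) (nat_lit 4578968669932) (nat_lit 1) (nat_lit 4) (nat_lit 2) (nat_lit 5) (nat_lit 2) (nat_lit 4) (nat_lit 286) (nat_lit 218) (nat_lit 156)) (XT.lf (nat_lit 0) (nat_lit 3857603460093) (nat_lit 76) (nat_lit 5267017104866) (nat_lit 76) (nat_lit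 5260629715450) (nat_lit 1) (nat_lit 4) (nat_lit 2) (nat_lit 5) (nat_lit 2) (nat_lit 4) (nat_lit 287) (nat_lit 218) (nat_lit 155))) (XT.nd (nat_lit 78) (nat_lit 0) (nat_lit 0) (XT.lf (nat_lit 0) (nat_lit 4446760549687) (nat_lit 76) (nat_lit 6050927690456) (nat_lit 76) (nat_lit 6044540176066) (nat_lit 1) (nat_lit 4) (nat_lit 2) (nat_lit 5) (nat_lit 2) (nat_lit 4) (nat_lit 288) (nat_lit 218) (nat_lit 154)) (XT.lf (nat_lit 0) (nat_lit 5124290818198) (nat_lit 76) (nat_lit 6952425053419) (nat_lit 76) (nat_lit 6946037430357) (nat_lit 1) (nat_lit 4) (nat_lit 2) (nat_lit 5) (nat_lit 2) (nat_lit 4) (nat_lit 289) (nat_lit 218) (nat_lit 153))))) (XT.nd (nat_lit 312) (nat_lit 0) (nat_lit 0) (XT.nd (nat_lit 156) (nat_lit 0) (nat_lit 0) (XT.nd (nat_lit 78) (nat_lit 0) (nat_lit 0) (XT.lf (nat_lit 0) (nat_lit 5903450292616) (nat_lit 76) (nat_lit 7989147185640) (nat_lit 76) (nat_lit 7982759468081) (nat_lit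 1) (nat_lit 4) (nat_lit 2) (nat_lit 5) (nat_lit 2) (nat_lit 4) (nat_lit 290) (nat_lit 218) (nat_lit 152)) (XT.lf (nat_lit 0) (nat_lit 6799483397443) (nat_lit 76) (nat_lit 9181377781011) (nat_lit 76) (nat_lit 9174989981279) (nat_lit 1) (nat_lit 4) (nat_lit 2) (nat_lit 5) (nat_lit 2) (nat_lit 4) (nat_lit 291) (nat_lit 218) (nat_lit 151))) (XT.nd (nat_lit 78) (nat_lit 0) (nat_lit 0) (XT.lf (nat_lit 0) (nat_lit 7829921215163) (nat_lit 76) (nat_lit 10552443090310) (nat_lit 76) (nat_lit 10546055219124) (nat_lit 1) (nat_lit 4) (nat_lit 2) (nat_lit 5) (nat_lit 2) (nat_lit 4) (nat_lit 292) (nat_lit 218) (nat_lit 150)) (XT.lf (nat_lit 0) (nat_lit 9014924485690) (nat_lit 76) (nat_lit 12129168304372) (nat_lit 76) (nat_lit 12122780371052) (nat_lit 1) (nat_lit 4) (nat_lit 2) (nat_lit 5) (nat_lit 2) (nat_lit 4) (nat_lit 293) (nat_lit 218) (nat_lit 149)))) (XT.nd (nat_lit 312) (nat_lit 0) (nat_lit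 0) (XT.nd (nat_lit 78) (nat_lit 0) (nat_lit 0) (XT.lf (nat_lit 0) (nat_lit 10377678055619) (nat_lit 76) (nat_lit 13942402394775) (nat_lit 76) (nat_lit 13936014407426) (nat_lit 1) (nat_lit 4) (nat_lit 2) (nat_lit 5) (nat_lit 2) (nat_lit 4) (nat_lit 294) (nat_lit 218) (nat_lit 148)) (XT.lf (nat_lit 0) (nat_lit 11944844494797) (nat_lit 76) (nat_lit 16027621680680) (nat_lit 76) (nat_lit 16021233646349) (nat_lit 1) (nat_lit 4) (nat_lit 2) (nat_lit 5) (nat_lit 2) (nat_lit 4) (nat_lit 295) (nat_lit 218) (nat_lit 147))) (XT.nd (nat_lit 78) (nat_lit 0) (nat_lit 0) (XT.lf (nat_lit 0) (nat_lit 18203126892317) (nat_lit 76) (nat_lit 24354684681050) (nat_lit 76) (nat_lit 24348296539448) (nat_lit 1) (nat_lit 4) (nat_lit 2) (nat_lit 5) (nat_lit 2) (nat_lit 4) (nat_lit 298) (nat_lit 218) (nat_lit 144)) (XT.nd (nat_lit 78) (nat_lit 0) (nat_lit 0) (XT.lf (nat_lit 0) (nat_lit 20944110182388) (nat_lit 76)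 (nat_lit 28001746543837) (nat_lit 76) (nat_lit 27995358375373) (nat_lit 1) (nat_lit 4) (nat_lit 2) (nat_lit 5) (nat_lit 2) (nat_lit 4) (nat_lit 299) (nat_lit 218) (nat_lit 143)) (XT.lf (nat_lit 0) (nat_lit 24096240883320) (nat_lit 76) (nat_lit 32195867726782) (nat_lit 76) (nat_lit 32189479534959) (nat_lit 1) (nat_lit 4) (nat_lit 2) (nat_lit 5) (nat_lit 2) (nat_lit 4) (nat_lit 300) (nat_lit 218) (nat_lit 142))))))))
noncomputable def xc46 : XT := (XT.nd (nat_lit 29328) (nat_lit 0) (nat_lit 76) (XT.nd (nat_lit 28626) (nat_lit 0) (nat_lit 532) (XT.nd (nat_lit 28314) (nat_lit 0) (nat_lit 1444) (XT.nd (nat_lit 156) (nat_lit 0) (nat_lit 0) (XT.nd (nat_lit 78) (nat_lit 0) (nat_lit 0) (XT.lf (nat_lit 0) (nat_lit 27721191117522) (nat_lit 76) (nat_lit 37019107122594) (nat_lit 76) (nat_lit 37012718910460) (nat_lit 1) (nat_lit 4) (nat_lit 2) (nat_lit 5) (nat_lit 2) (nat_lit 4) (nat_lit 301) (nat_lit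 218) (nat_lit 141)) (XT.lf (nat_lit 0) (nat_lit 31889883824358) (nat_lit 76) (nat_lit 42565832458583) (nat_lit 76) (nat_lit 42559444228786) (nat_lit 1) (nat_lit 4) (nat_lit 2) (nat_lit 5) (nat_lit 2) (nat_lit 4) (nat_lit 302) (nat_lit 218) (nat_lit 140))) (XT.nd (nat_lit 28080) (nat_lit 0) (nat_lit 2052) (XT.lf (nat_lit 0) (nat_lit 36683880382875) (nat_lit 76) (nat_lit 48944566621757) (nat_lit 76) (nat_lit 48938178376601) (nat_lit 1) (nat_lit 4) (nat_lit 2) (nat_lit 5) (nat_lit 2) (nat_lit 4) (nat_lit 303) (nat_lit 218) (nat_lit 139)) (XT.lf (nat_lit 0) (nat_lit 1615713009) (nat_lit 76) (nat_lit 34900110) (nat_lit 0) (nat_lit 1615713009) (nat_lit 28) (nat_lit 5) (nat_lit 29) (nat_lit 0) (nat_lit 28) (nat_lit 4) (nat_lit 222) (nat_lit 219) (nat_lit 219)))) (XT.nd (nat_lit 156) (nat_lit 304) (nat_lit 0) (XT.nd (nat_lit 78) (nat_lit 228) (nat_lit 0) (XT.lf (nat_lit 0) (nat_lit 3744653277)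 (nat_lit 76) (nat_lit 2569967072) (nat_lit 76) (nat_lit 353471662) (nat_lit 27) (nat_lit 4) (nat_lit 28) (nat_lit 5) (nat_lit 28) (nat_lit 4) (nat_lit 223) (nat_lit 219) (nat_lit 218)) (XT.lf (nat_lit 0) (nat_lit 892994059) (nat_lit 152) (nat_lit 1449739327) (nat_lit 228) (nat_lit 4531108187) (nat_lit 24) (nat_lit 5) (nat_lit 26) (nat_lit 5) (nat_lit 27) (nat_lit 4) (nat_lit 224) (nat_lit 219) (nat_lit 217))) (XT.nd (nat_lit 78) (nat_lit 304) (nat_lit 0) (XT.lf (nat_lit 0) (nat_lit 5144520028) (nat_lit 228) (nat_lit 1923694175) (nat_lit 0) (nat_lit 83762036) (nat_lit 24) (nat_lit 5) (nat_lit 27) (nat_lit 4) (nat_lit 24) (nat_lit 4) (nat_lit 225) (nat_lit 219) (nat_lit 216)) (XT.lf (nat_lit 0) (nat_lit 614215639) (nat_lit 304) (nat_lit 5007482811) (nat_lit 76) (nat_lit 1878220855) (nat_lit 20) (nat_lit 5) (nat_lit 24) (nat_lit 5) (nat_lit 21) (nat_lit 4) (nat_lit 226) (nat_lit 219) (nat_lit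 215))))) (XT.nd (nat_lit 312) (nat_lit 380) (nat_lit 0) (XT.nd (nat_lit 156) (nat_lit 228) (nat_lit 0) (XT.nd (nat_lit 78) (nat_lit 304) (nat_lit 0) (XT.lf (nat_lit 0) (nat_lit 3180714819) (nat_lit 304) (nat_lit 591499525) (nat_lit 76) (nat_lit 4152991641) (nat_lit 20) (nat_lit 5) (nat_lit 24) (nat_lit 5) (nat_lit 21) (nat_lit 4) (nat_lit 227) (nat_lit 219) (nat_lit 214)) (XT.lf (nat_lit 0) (nat_lit 4549919226) (nat_lit 304) (nat_lit 1467851818) (nat_lit 380) (nat_lit 2416335041) (nat_lit 16) (nat_lit 5) (nat_lit 20) (nat_lit 5) (nat_lit 21) (nat_lit 4) (nat_lit 228) (nat_lit 219) (nat_lit 213))) (XT.nd (nat_lit 78) (nat_lit 0) (nat_lit 0) (XT.lf (nat_lit 0) (nat_lit 80911363) (nat_lit 228) (nat_lit 7844780779) (nat_lit 76) (nat_lit 1117571271) (nat_lit 13) (nat_lit 5) (nat_lit 16) (nat_lit 5) (nat_lit 14) (nat_lit 4) (nat_lit 229) (nat_lit 219) (nat_lit 212)) (XT.lf (nat_lit 0) (nat_lit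 2716814493) (nat_lit 228) (nat_lit 2807655381) (nat_lit 76) (nat_lit 4202093971) (nat_lit 13) (nat_lit 5) (nat_lit 16) (nat_lit 5) (nat_lit 14) (nat_lit 4) (nat_lit 230) (nat_lit 219) (nat_lit 211)))) (XT.nd (nat_lit 156) (nat_lit 304) (nat_lit 0) (XT.nd (nat_lit 78) (nat_lit 0) (nat_lit 0) (XT.lf (nat_lit 0) (nat_lit 2914251683) (nat_lit 76) (nat_lit 2718744592) (nat_lit 152) (nat_lit 4898148662) (nat_lit 12) (nat_lit 5) (nat_lit 13) (nat_lit 5) (nat_lit 14) (nat_lit 4) (nat_lit 231) (nat_lit 219) (nat_lit 210)) (XT.lf (nat_lit 0) (nat_lit 8939285265) (nat_lit 152) (nat_lit 1997662888) (nat_lit 0) (nat_lit 527884416) (nat_lit 12) (nat_lit 5) (nat_lit 14) (nat_lit 4) (nat_lit 12) (nat_lit 4) (nat_lit 232) (nat_lit 219) (nat_lit 209))) (XT.nd (nat_lit 78) (nat_lit 76) (nat_lit 0) (XT.lf (nat_lit 0) (nat_lit 309263429) (nat_lit 228) (nat_lit 8106726944) (nat_lit 76) (nat_lit 4103663592)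 (nat_lit 9) (nat_lit 5) (nat_lit 12) (nat_lit 5) (nat_lit 10) (nat_lit 4) (nat_lit 233) (nat_lit 219) (nat_lit 208)) (XT.nd (nat_lit 78) (nat_lit 76) (nat_lit 0) (XT.lf (nat_lit 0) (nat_lit 3230845133) (nat_lit 228) (nat_lit 2138580604) (nat_lit 76) (nat_lit 8358084437) (nat_lit 9) (nat_lit 5) (nat_lit 12) (nat_lit 5) (nat_lit 10) (nat_lit 4) (nat_lit 234) (nat_lit 219) (nat_lit 207)) (XT.lf (nat_lit 0) (nat_lit 4894509635) (nat_lit 76) (nat_lit 1734235637) (nat_lit 152) (nat_lit 8482842859) (nat_lit 8) (nat_lit 5) (nat_lit 9) (nat_lit 5) (nat_lit 10) (nat_lit 4) (nat_lit 235) (nat_lit 219) (nat_lit 206))))))) (XT.nd (nat_lit 624) (nat_lit 152) (nat_lit 0) (XT.nd (nat_lit 312) (nat_lit 152) (nat_lit 0) (XT.nd (nat_lit 156) (nat_lit 76) (nat_lit 0) (XT.nd (nat_lit 78) (nat_lit 76) (nat_lit 0) (XT.lf (nat_lit 0) (nat_lit 10596947130) (nat_lit 152) (nat_lit 3843694036) (nat_lit 0) (nat_lit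 2254201065) (nat_lit 8) (nat_lit 5) (nat_lit 10) (nat_lit 4) (nat_lit 8) (nat_lit 4) (nat_lit 236) (nat_lit 219) (nat_lit 205)) (XT.lf (nat_lit 0) (nat_lit 3474644707) (nat_lit 76) (nat_lit 11774986710) (nat_lit 76) (nat_lit 3253136471) (nat_lit 7) (nat_lit 4) (nat_lit 8) (nat_lit 5) (nat_lit 8) (nat_lit 4) (nat_lit 237) (nat_lit 219) (nat_lit 204))) (XT.nd (nat_lit 78) (nat_lit 0) (nat_lit 0) (XT.lf (nat_lit 0) (nat_lit 91899026) (nat_lit 152) (nat_lit 8480010094) (nat_lit 76) (nat_lit 11999012023) (nat_lit 6) (nat_lit 5) (nat_lit 8) (nat_lit 5) (nat_lit 7) (nat_lit 4) (nat_lit 238) (nat_lit 219) (nat_lit 203)) (XT.lf (nat_lit 0) (nat_lit 3487984949) (nat_lit 152) (nat_lit 1313853847) (nat_lit 76) (nat_lit 18142244369) (nat_lit 6) (nat_lit 5) (nat_lit 8) (nat_lit 5) (nat_lit 7) (nat_lit 4) (nat_lit 239) (nat_lit 219) (nat_lit 202)))) (XT.nd (nat_lit 156) (nat_lit 76) (nat_lit 0) (XT.nd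 (nat_lit 78) (nat_lit 0) (nat_lit 0) (XT.lf (nat_lit 0) (nat_lit 7404454115) (nat_lit 76) (nat_lit 193331701) (nat_lit 152) (nat_lit 18045114988) (nat_lit 5) (nat_lit 5) (nat_lit 6) (nat_lit 5) (nat_lit 7) (nat_lit 4) (nat_lit 240) (nat_lit 219) (nat_lit 201)) (XT.lf (nat_lit 0) (nat_lit 12508092742) (nat_lit 152) (nat_lit 11557981003) (nat_lit 0) (nat_lit 4653145973) (nat_lit 5) (nat_lit 5) (nat_lit 7) (nat_lit 4) (nat_lit 5) (nat_lit 4) (nat_lit 241) (nat_lit 219) (nat_lit 200))) (XT.nd (nat_lit 78) (nat_lit 76) (nat_lit 0) (XT.lf (nat_lit 0) (nat_lit 18077751563) (nat_lit 152) (nat_lit 4045687885) (nat_lit 0) (nat_lit 10145373116) (nat_lit 5) (nat_lit 5) (nat_lit 7) (nat_lit 4) (nat_lit 5) (nat_lit 4) (nat_lit 242) (nat_lit 219) (nat_lit 199)) (XT.lf (nat_lit 0) (nat_lit 4888638141) (nat_lit 76) (nat_lit 19721518351) (nat_lit 76) (nat_lit 11721808011) (nat_lit 4) (nat_lit 4) (nat_lit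 5) (nat_lit 5) (nat_lit 5) (nat_lit 4) (nat_lit 243) (nat_lit 219) (nat_lit 198))))) (XT.nd (nat_lit 312) (nat_lit 76) (nat_lit 0) (XT.nd (nat_lit 156) (nat_lit 76) (nat_lit 0) (XT.nd (nat_lit 78) (nat_lit 0) (nat_lit 0) (XT.lf (nat_lit 0) (nat_lit 15484126852) (nat_lit 76) (nat_lit 16778908482) (nat_lit 76) (nat_lit 8720648670) (nat_lit 4) (nat_lit 4) (nat_lit 5) (nat_lit 5) (nat_lit 5) (nat_lit 4) (nat_lit 244) (nat_lit 219) (nat_lit 197)) (XT.lf (nat_lit 0) (nat_lit 27552707246) (nat_lit 76) (nat_lit 13449516179) (nat_lit 76) (nat_lit 5340343782) (nat_lit 4) (nat_lit 4) (nat_lit 5) (nat_lit 5) (nat_lit 5) (nat_lit 4) (nat_lit 245) (nat_lit 219) (nat_lit 196))) (XT.nd (nat_lit 78) (nat_lit 76) (nat_lit 0) (XT.lf (nat_lit 0) (nat_lit 41330503722) (nat_lit 76) (nat_lit 9668201156) (nat_lit 76) (nat_lit 1514756946) (nat_lit 4) (nat_lit 4) (nat_lit 5) (nat_lit 5) (nat_lit 5) (nat_lit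 4) (nat_lit 246) (nat_lit 219) (nat_lit 195)) (XT.lf (nat_lit 0) (nat_lit 2578928613) (nat_lit 152) (nat_lit 2647244919) (nat_lit 76) (nat_lit 54373345616) (nat_lit 3) (nat_lit 5) (nat_lit 5) (nat_lit 5) (nat_lit 4) (nat_lit 4) (nat_lit 247) (nat_lit 219) (nat_lit 194)))) (XT.nd (nat_lit 156) (nat_lit 0) (nat_lit 0) (XT.nd (nat_lit 78) (nat_lit 0) (nat_lit 0) (XT.lf (nat_lit 0) (nat_lit 7420112719) (nat_lit 152) (nat_lit 60006790363) (nat_lit 0) (nat_lit 267575946) (nat_lit 2) (nat_lit 5) (nat_lit 4) (nat_lit 4) (nat_lit 2) (nat_lit 4) (nat_lit 248) (nat_lit 219) (nat_lit 193)) (XT.lf (nat_lit 0) (nat_lit 13339599254) (nat_lit 152) (nat_lit 57449595724) (nat_lit 0) (nat_lit 6161749927) (nat_lit 2) (nat_lit 5) (nat_lit 4) (nat_lit 4) (nat_lit 2) (nat_lit 4) (nat_lit 249) (nat_lit 219) (nat_lit 192))) (XT.nd (nat_lit 78) (nat_lit 0) (nat_lit 0) (XT.lf (nat_lit 0) (nat_lit 20110740274)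 (nat_lit 152) (nat_lit 54579770836) (nat_lit 0) (nat_lit 12910880032) (nat_lit 2) (nat_lit 5) (nat_lit 4) (nat_lit 4) (nat_lit 2) (nat_lit 4) (nat_lit 250) (nat_lit 219) (nat_lit 191)) (XT.nd (nat_lit 78) (nat_lit 0) (nat_lit 0) (XT.lf (nat_lit 0) (nat_lit 27866014626) (nat_lit 152) (nat_lit 51341166952) (nat_lit 0) (nat_lit 20647014458) (nat_lit 2) (nat_lit 5) (nat_lit 4) (nat_lit 4) (nat_lit 2) (nat_lit 4) (nat_lit 251) (nat_lit 219) (nat_lit 190)) (XT.lf (nat_lit 0) (nat_lit 36757155939) (nat_lit 152) (nat_lit 47670420083) (nat_lit 0) (nat_lit 29521512357) (nat_lit 2) (nat_lit 5) (nat_lit 4) (nat_lit 4) (nat_lit 2) (nat_lit 4) (nat_lit 252) (nat_lit 219) (nat_lit 189))))))))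
noncomputable def xc47 : XT := (XT.nd (nat_lit 1326) (nat_lit 0) (nat_lit 0) (XT.nd (nat_lit 624) (nat_lit 0) (nat_lit 0) (XT.nd (nat_lit 312) (nat_lit 76) (nat_lit 0) (XT.nd (nat_lit 156) (nat_lit 0) (nat_lit 0) (XT.nd (nat_lit 78) (nat_lit 0) (nat_lit 0) (XT.lf (nat_lit 0) (nat_lit 46958121325) (nat_lit 152) (nat_lit 43495711268) (nat_lit 0) (nat_lit 39708005209) (nat_lit 2) (nat_lit 5) (nat_lit 4) (nat_lit 4) (nat_lit 2) (nat_lit 4) (nat_lit 253) (nat_lit 219) (nat_lit 188)) (XT.lf (nat_lit 0) (nat_lit 58668494890) (nat_lit 152) (nat_lit 38735361421) (nat_lit 0) (nat_lit 51405793961) (nat_lit 2) (nat_lit 5) (nat_lit 4) (nat_lit 4) (nat_lit 2) (nat_lit 4) (nat_lit 254) (nat_lit 219) (nat_lit 187))) (XT.nd (nat_lit 78) (nat_lit 0) (nat_lit 0) (XT.lf (nat_lit 0) (nat_lit 72117392638) (nat_lit 152) (nat_lit 33296233264) (nat_lit 0) (nat_lit 64843748394) (nat_lit 2) (nat_lit 5) (nat_lit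 4) (nat_lit 4) (nat_lit 2) (nat_lit 4) (nat_lit 255) (nat_lit 219) (nat_lit 186)) (XT.lf (nat_lit 0) (nat_lit 87567945177) (nat_lit 152) (nat_lit 27071909072) (nat_lit 0) (nat_lit 80284785007) (nat_lit 2) (nat_lit 5) (nat_lit 4) (nat_lit 4) (nat_lit 2) (nat_lit 4) (nat_lit 256) (nat_lit 219) (nat_lit 185)))) (XT.nd (nat_lit 156) (nat_lit 76) (nat_lit 0) (XT.nd (nat_lit 78) (nat_lit 0) (nat_lit 0) (XT.lf (nat_lit 0) (nat_lit 105322445927) (nat_lit 152) (nat_lit 19940608587) (nat_lit 0) (nat_lit 98031011038) (nat_lit 2) (nat_lit 5) (nat_lit 4) (nat_lit 4) (nat_lit 2) (nat_lit 4) (nat_lit 257) (nat_lit 219) (nat_lit 184)) (XT.lf (nat_lit 0) (nat_lit 125728265554) (nat_lit 152) (nat_lit 11762806367) (nat_lit 0) (nat_lit 118429635258) (nat_lit 2) (nat_lit 5) (nat_lit 4) (nat_lit 4) (nat_lit 2) (nat_lit 4) (nat_lit 258) (nat_lit 219) (nat_lit 183))) (XT.nd (nat_lit 78) (nat_lit 76) (nat_lit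 0) (XT.lf (nat_lit 0) (nat_lit 149184648355) (nat_lit 152) (nat_lit 2378501933) (nat_lit 0) (nat_lit 141879761183) (nat_lit 2) (nat_lit 5) (nat_lit 4) (nat_lit 4) (nat_lit 2) (nat_lit 4) (nat_lit 259) (nat_lit 219) (nat_lit 182)) (XT.lf (nat_lit 0) (nat_lit 9216420123) (nat_lit 76) (nat_lit 167315735740) (nat_lit 76) (nat_lit 160005407807) (nat_lit 1) (nat_lit 4) (nat_lit 2) (nat_lit 5) (nat_lit 2) (nat_lit 4) (nat_lit 260) (nat_lit 219) (nat_lit 181))))) (XT.nd (nat_lit 312) (nat_lit 0) (nat_lit 0) (XT.nd (nat_lit 156) (nat_lit 0) (nat_lit 0) (XT.nd (nat_lit 78) (nat_lit 0) (nat_lit 0) (XT.lf (nat_lit 0) (nat_lit 22801151335) (nat_lit 76) (nat_lit 185296480096) (nat_lit 76) (nat_lit 177981421065) (nat_lit 1) (nat_lit 4) (nat_lit 2) (nat_lit 5) (nat_lit 2) (nat_lit 4) (nat_lit 261) (nat_lit 219) (nat_lit 180)) (XT.lf (nat_lit 0) (nat_lit 38409035415) (nat_lit 76) (nat_lit 205981511311)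 (nat_lit 76) (nat_lit 198662338283) (nat_lit 1) (nat_lit 4) (nat_lit 2) (nat_lit 5) (nat_lit 2) (nat_lit 4) (nat_lit 262) (nat_lit 219) (nat_lit 179))) (XT.nd (nat_lit 78) (nat_lit 0) (nat_lit 0) (XT.lf (nat_lit 0) (nat_lit 56345444009) (nat_lit 76) (nat_lit 229775536519) (nat_lit 76) (nat_lit 222452786102) (nat_lit 1) (nat_lit 4) (nat_lit 2) (nat_lit 5) (nat_lit 2) (nat_lit 4) (nat_lit 263) (nat_lit 219) (nat_lit 178)) (XT.lf (nat_lit 0) (nat_lit 76961306849) (nat_lit 76) (nat_lit 257144090995) (nat_lit 76) (nat_lit 249818229805) (nat_lit 1) (nat_lit 4) (nat_lit 2) (nat_lit 5) (nat_lit 2) (nat_lit 4) (nat_lit 264) (nat_lit 219) (nat_lit 177)))) (XT.nd (nat_lit 156) (nat_lit 0) (nat_lit 0) (XT.nd (nat_lit 78) (nat_lit 0) (nat_lit 0) (XT.lf (nat_lit 0) (nat_lit 100659977774) (nat_lit 76) (nat_lit 288622646456) (nat_lit 76) (nat_lit 281294080246) (nat_lit 1) (nat_lit 4) (nat_lit 2) (nat_lit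 5) (nat_lit 2) (nat_lit 4) (nat_lit 265) (nat_lit 219) (nat_lit 176)) (XT.lf (nat_lit 0) (nat_lit 127905126431) (nat_lit 76) (nat_lit 324827087685) (nat_lit 76) (nat_lit 317496169283) (nat_lit 1) (nat_lit 4) (nat_lit 2) (nat_lit 5) (nat_lit 2) (nat_lit 4) (nat_lit 266) (nat_lit 219) (nat_lit 175))) (XT.nd (nat_lit 78) (nat_lit 0) (nat_lit 0) (XT.lf (nat_lit 0) (nat_lit 159229810079) (nat_lit 76) (nat_lit 366465762443) (nat_lit 76) (nat_lit 359132798657) (nat_lit 1) (nat_lit 4) (nat_lit 2) (nat_lit 5) (nat_lit 2) (nat_lit 4) (nat_lit 267) (nat_lit 219) (nat_lit 174)) (XT.nd (nat_lit 78) (nat_lit 0) (nat_lit 0) (XT.lf (nat_lit 0) (nat_lit 195246902961) (nat_lit 76) (nat_lit 414353340455) (nat_lit 76) (nat_lit 407018598074) (nat_lit 1) (nat_lit 4) (nat_lit 2) (nat_lit 5) (nat_lit 2) (nat_lit 4) (nat_lit 268) (nat_lit 219) (nat_lit 173)) (XT.lf (nat_lit 0) (nat_lit 236661087329) (nat_lit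 76) (nat_lit 469426752594) (nat_lit 76) (nat_lit 462090463610) (nat_lit 1) (nat_lit 4) (nat_lit 2) (nat_lit 5) (nat_lit 2) (nat_lit 4) (nat_lit 269) (nat_lit 219) (nat_lit 172))))))) (XT.nd (nat_lit 624) (nat_lit 0) (nat_lit 0) (XT.nd (nat_lit 312) (nat_lit 0) (nat_lit 0) (XT.nd (nat_lit 156) (nat_lit 0) (nat_lit 0) (XT.nd (nat_lit 78) (nat_lit 0) (nat_lit 0) (XT.lf (nat_lit 0) (nat_lit 284282640705) (nat_lit 76) (nat_lit 532763522142) (nat_lit 76) (nat_lit 525425888284) (nat_lit 1) (nat_lit 4) (nat_lit 2) (nat_lit 5) (nat_lit 2) (nat_lit 4) (nat_lit 270) (nat_lit 219) (nat_lit 171)) (XT.lf (nat_lit 0) (nat_lit 339043289132) (nat_lit 76) (nat_lit 605602846763) (nat_lit 76) (nat_lit 598264043451) (nat_lit 1) (nat_lit 4) (nat_lit 2) (nat_lit 5) (nat_lit 2) (nat_lit 4) (nat_lit 271) (nat_lit 219) (nat_lit 170))) (XT.nd (nat_lit 78) (nat_lit 0) (nat_lit 0) (XT.lf (nat_lit 0) (nat_lit 402014436602)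 (nat_lit 76) (nat_lit 689369843679) (nat_lit 76) (nat_lit 682030023450) (nat_lit 1) (nat_lit 4) (nat_lit 2) (nat_lit 5) (nat_lit 2) (nat_lit 4) (nat_lit 272) (nat_lit 219) (nat_lit 169)) (XT.lf (nat_lit 0) (nat_lit 474428127304) (nat_lit 76) (nat_lit 785703432394) (nat_lit 76) (nat_lit 778362727889) (nat_lit 1) (nat_lit 4) (nat_lit 2) (nat_lit 5) (nat_lit 2) (nat_lit 4) (nat_lit 273) (nat_lit 219) (nat_lit 168)))) (XT.nd (nat_lit 156) (nat_lit 0) (nat_lit 0) (XT.nd (nat_lit 78) (nat_lit 0) (nat_lit 0) (XT.lf (nat_lit 0) (nat_lit 557701150838) (nat_lit 76) (nat_lit 896488400514) (nat_lit 76) (nat_lit 889146927073) (nat_lit 1) (nat_lit 4) (nat_lit 2) (nat_lit 5) (nat_lit 2) (nat_lit 4) (nat_lit 274) (nat_lit 219) (nat_lit 167)) (XT.lf (nat_lit 0) (nat_lit 653462762013) (nat_lit 76) (nat_lit 1023892280023) (nat_lit 76) (nat_lit 1016550137943) (nat_lit 1) (nat_lit 4) (nat_lit 2) (nat_lit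 5) (nat_lit 2) (nat_lit 4) (nat_lit 275) (nat_lit 219) (nat_lit 166))) (XT.nd (nat_lit 78) (nat_lit 0) (nat_lit 0) (XT.lf (nat_lit 0) (nat_lit 763586557569) (nat_lit 76) (nat_lit 1170407755522) (nat_lit 76) (nat_lit 1163065032016) (nat_lit 1) (nat_lit 4) (nat_lit 2) (nat_lit 5) (nat_lit 2) (nat_lit 4) (nat_lit 276) (nat_lit 219) (nat_lit 165)) (XT.lf (nat_lit 0) (nat_lit 890227133507) (nat_lit 76) (nat_lit 1338901434138) (nat_lit 76) (nat_lit 1331558205044) (nat_lit 1) (nat_lit 4) (nat_lit 2) (nat_lit 5) (nat_lit 2) (nat_lit 4) (nat_lit 277) (nat_lit 219) (nat_lit 164))))) (XT.nd (nat_lit 312) (nat_lit 0) (nat_lit 0) (XT.nd (nat_lit 156) (nat_lit 0) (nat_lit 0) (XT.nd (nat_lit 78) (nat_lit 0) (nat_lit 0) (XT.lf (nat_lit 0) (nat_lit 1035862240225) (nat_lit 76) (nat_lit 1532669931323) (nat_lit 76) (nat_lit 1525326262588) (nat_lit 1) (nat_lit 4) (nat_lit 2) (nat_lit 5) (nat_lit 2) (nat_lit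 4) (nat_lit 278) (nat_lit 219) (nat_lit 163)) (XT.lf (nat_lit 0) (nat_lit 1203341260246) (nat_lit 76) (nat_lit 1755504369849) (nat_lit 76) (nat_lit 1748160318817) (nat_lit 1) (nat_lit 4) (nat_lit 2) (nat_lit 5) (nat_lit 2) (nat_lit 4) (nat_lit 279) (nat_lit 219) (nat_lit 162))) (XT.nd (nat_lit 78) (nat_lit 0) (nat_lit 0) (XT.lf (nat_lit 0) (nat_lit 1395940957004) (nat_lit 76) (nat_lit 2011764553947) (nat_lit 76) (nat_lit 2004420170483) (nat_lit 1) (nat_lit 4) (nat_lit 2) (nat_lit 5) (nat_lit 2) (nat_lit 4) (nat_lit 280) (nat_lit 219) (nat_lit 161)) (XT.lf (nat_lit 0) (nat_lit 1617429585438) (nat_lit 76) (nat_lit 2306464269827) (nat_lit 76) (nat_lit 2299119597292) (nat_lit 1) (nat_lit 4) (nat_lit 2) (nat_lit 5) (nat_lit 2) (nat_lit 4) (nat_lit 281) (nat_lit 219) (nat_lit 160)))) (XT.nd (nat_lit 156) (nat_lit 0) (nat_lit 0) (XT.nd (nat_lit 78) (nat_lit 0) (nat_lit 0) (XT.lf (nat_lit 0)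 (nat_lit 1872140618711) (nat_lit 76) (nat_lit 2645369381497) (nat_lit 76) (nat_lit 2638024457595) (nat_lit 1) (nat_lit 4) (nat_lit 2) (nat_lit 5) (nat_lit 2) (nat_lit 4) (nat_lit 282) (nat_lit 219) (nat_lit 159)) (XT.lf (nat_lit 0) (nat_lit 2165057533561) (nat_lit 76) (nat_lit 3035110641141) (nat_lit 76) (nat_lit 3027765498660) (nat_lit 1) (nat_lit 4) (nat_lit 2) (nat_lit 5) (nat_lit 2) (nat_lit 4) (nat_lit 283) (nat_lit 219) (nat_lit 158))) (XT.nd (nat_lit 78) (nat_lit 0) (nat_lit 0) (XT.lf (nat_lit 0) (nat_lit 2501911313106) (nat_lit 76) (nat_lit 3483313421230) (nat_lit 76) (nat_lit 3475968088680) (nat_lit 1) (nat_lit 4) (nat_lit 2) (nat_lit 5) (nat_lit 2) (nat_lit 4) (nat_lit 284) (nat_lit 219) (nat_lit 157)) (XT.nd (nat_lit 78) (nat_lit 0) (nat_lit 0) (XT.lf (nat_lit 0) (nat_lit 2889292574771) (nat_lit 76) (nat_lit 3998746906593) (nat_lit 76) (nat_lit 3991401408765) (nat_lit 1)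 (nat_lit 4) (nat_lit 2) (nat_lit 5) (nat_lit 2) (nat_lit 4) (nat_lit 285) (nat_lit 219) (nat_lit 156)) (XT.lf (nat_lit 0) (nat_lit 3334780517153) (nat_lit 76) (nat_lit 4591495665420) (nat_lit 76) (nat_lit 4584150023873) (nat_lit 1) (nat_lit 4) (nat_lit 2) (nat_lit 5) (nat_lit 2) (nat_lit 4) (nat_lit 286) (nat_lit 219) (nat_lit 155))))))))
noncomputable def xc48 : XT := (XT.nd (nat_lit 29250) (nat_lit 0) (nat_lit 532) (XT.nd (nat_lit 624) (nat_lit 0) (nat_lit 0) (XT.nd (nat_lit 312) (nat_lit 0) (nat_lit 0) (XT.nd (nat_lit 156) (nat_lit 0) (nat_lit 0) (XT.nd (nat_lit 78) (nat_lit 0) (nat_lit 0) (XT.lf (nat_lit 0) (nat_lit 3847091208692) (nat_lit 76) (nat_lit 5273156956038) (nat_lit 76) (nat_lit 5265811189517) (nat_lit 1) (nat_lit 4) (nat_lit 2) (nat_lit 5) (nat_lit 2) (nat_lit 4) (nat_lit 287) (nat_lit 219) (nat_lit 154)) (XT.lf (nat_lit 0) (nat_lit 4436248119438) (nat_lit 76) (nat_lit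 6057067629784) (nat_lit 76) (nat_lit 6049721754590) (nat_lit 1) (nat_lit 4) (nat_lit 2) (nat_lit 5) (nat_lit 2) (nat_lit 4) (nat_lit 288) (nat_lit 219) (nat_lit 153))) (XT.nd (nat_lit 78) (nat_lit 0) (nat_lit 0) (XT.lf (nat_lit 0) (nat_lit 5113778232428) (nat_lit 76) (nat_lit 6958565069404) (nat_lit 76) (nat_lit 6951219099713) (nat_lit 1) (nat_lit 4) (nat_lit 2) (nat_lit 5) (nat_lit 2) (nat_lit 4) (nat_lit 289) (nat_lit 219) (nat_lit 152)) (XT.lf (nat_lit 0) (nat_lit 5892937571612) (nat_lit 76) (nat_lit 7995287268285) (nat_lit 76) (nat_lit 7987941216421) (nat_lit 1) (nat_lit 4) (nat_lit 2) (nat_lit 5) (nat_lit 2) (nat_lit 4) (nat_lit 290) (nat_lit 219) (nat_lit 151)))) (XT.nd (nat_lit 156) (nat_lit 0) (nat_lit 0) (XT.nd (nat_lit 78) (nat_lit 0) (nat_lit 0) (XT.lf (nat_lit 0) (nat_lit 6788970558843) (nat_lit 76) (nat_lit 9187517921619) (nat_lit 76) (nat_lit 9180171798302) (nat_lit 1)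 (nat_lit 4) (nat_lit 2) (nat_lit 5) (nat_lit 2) (nat_lit 4) (nat_lit 291) (nat_lit 219) (nat_lit 150)) (XT.lf (nat_lit 0) (nat_lit 7819408274307) (nat_lit 76) (nat_lit 10558583281322) (nat_lit 76) (nat_lit 10551237095870) (nat_lit 1) (nat_lit 4) (nat_lit 2) (nat_lit 5) (nat_lit 2) (nat_lit 4) (nat_lit 292) (nat_lit 219) (nat_lit 149))) (XT.nd (nat_lit 78) (nat_lit 0) (nat_lit 0) (XT.lf (nat_lit 0) (nat_lit 9004411455914) (nat_lit 76) (nat_lit 12135308539212) (nat_lit 76) (nat_lit 12127962299731) (nat_lit 1) (nat_lit 4) (nat_lit 2) (nat_lit 5) (nat_lit 2) (nat_lit 4) (nat_lit 293) (nat_lit 219) (nat_lit 148)) (XT.lf (nat_lit 0) (nat_lit 10367164948522) (nat_lit 76) (nat_lit 13948542667728) (nat_lit 76) (nat_lit 13941196381265) (nat_lit 1) (nat_lit 4) (nat_lit 2) (nat_lit 5) (nat_lit 2) (nat_lit 4) (nat_lit 294) (nat_lit 219) (nat_lit 147))))) (XT.nd (nat_lit 390) (nat_lit 0) (nat_lit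 0) (XT.nd (nat_lit 234) (nat_lit 0) (nat_lit 0) (XT.nd (nat_lit 156) (nat_lit 0) (nat_lit 0) (XT.lf (nat_lit 0) (nat_lit 11934331320465) (nat_lit 76) (nat_lit 16033761986774) (nat_lit 76) (nat_lit 16026415659457) (nat_lit 1) (nat_lit 4) (nat_lit 2) (nat_lit 5) (nat_lit 2) (nat_lit 4) (nat_lit 295) (nat_lit 219) (nat_lit 146)) (XT.lf (nat_lit 0) (nat_lit 15809149795531) (nat_lit 76) (nat_lit 21189466940207) (nat_lit 76) (nat_lit 21182120546473) (nat_lit 1) (nat_lit 4) (nat_lit 2) (nat_lit 5) (nat_lit 2) (nat_lit 4) (nat_lit 297) (nat_lit 219) (nat_lit 144))) (XT.nd (nat_lit 78) (nat_lit 0) (nat_lit 0) (XT.lf (nat_lit 0) (nat_lit 18192613564470) (nat_lit 76) (nat_lit 24360825062813) (nat_lit 76) (nat_lit 24353478642216) (nat_lit 1) (nat_lit 4) (nat_lit 2) (nat_lit 5) (nat_lit 2) (nat_lit 4) (nat_lit 298) (nat_lit 219) (nat_lit 143)) (XT.lf (nat_lit 0) (nat_lit 20933596816100) (nat_lit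 76) (nat_lit 28007886944549) (nat_lit 76) (nat_lit 28000540500594) (nat_lit 1) (nat_lit 4) (nat_lit 2) (nat_lit 5) (nat_lit 2) (nat_lit 4) (nat_lit 299) (nat_lit 219) (nat_lit 142)))) (XT.nd (nat_lit 156) (nat_lit 0) (nat_lit 0) (XT.nd (nat_lit 78) (nat_lit 0) (nat_lit 0) (XT.lf (nat_lit 0) (nat_lit 24085727483604) (nat_lit 76) (nat_lit 32202008143970) (nat_lit 76) (nat_lit 32194661679704) (nat_lit 1) (nat_lit 4) (nat_lit 2) (nat_lit 5) (nat_lit 2) (nat_lit 4) (nat_lit 300) (nat_lit 219) (nat_lit 141)) (XT.lf (nat_lit 0) (nat_lit 27710677688738) (nat_lit 76) (nat_lit 37025247554110) (nat_lit 76) (nat_lit 37017901072182) (nat_lit 1) (nat_lit 4) (nat_lit 2) (nat_lit 5) (nat_lit 2) (nat_lit 4) (nat_lit 301) (nat_lit 219) (nat_lit 140))) (XT.nd (nat_lit 78) (nat_lit 0) (nat_lit 0) (XT.lf (nat_lit 0) (nat_lit 31879370370298) (nat_lit 76) (nat_lit 42571972902558) (nat_lit 76) (nat_lit 42564626405271)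 (nat_lit 1) (nat_lit 4) (nat_lit 2) (nat_lit 5) (nat_lit 2) (nat_lit 4) (nat_lit 302) (nat_lit 219) (nat_lit 139)) (XT.nd (nat_lit 27924) (nat_lit 0) (nat_lit 2128) (XT.lf (nat_lit 0) (nat_lit 36673366906835) (nat_lit 76) (nat_lit 48950707076566) (nat_lit 76) (nat_lit 48943360565923) (nat_lit 1) (nat_lit 4) (nat_lit 2) (nat_lit 5) (nat_lit 2) (nat_lit 4) (nat_lit 303) (nat_lit 219) (nat_lit 138)) (XT.lf (nat_lit 0) (nat_lit 1073741823) (nat_lit 0) (nat_lit 0) (nat_lit 0) (nat_lit 0) (nat_lit 29) (nat_lit 0) (nat_lit 1) (nat_lit 0) (nat_lit 1) (nat_lit 0) (nat_lit 220) (nat_lit 220) (nat_lit 220))))))) (XT.nd (nat_lit 624) (nat_lit 608) (nat_lit 0) (XT.nd (nat_lit 312) (nat_lit 608) (nat_lit 0) (XT.nd (nat_lit 156) (nat_lit 304) (nat_lit 0) (XT.nd (nat_lit 78) (nat_lit 0) (nat_lit 0) (XT.lf (nat_lit 0) (nat_lit 2809935668) (nat_lit 76) (nat_lit 3393537692) (nat_lit 0) (nat_lit 260965947)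 (nat_lit 28) (nat_lit 5) (nat_lit 29) (nat_lit 0) (nat_lit 28) (nat_lit 4) (nat_lit 221) (nat_lit 220) (nat_lit 219)) (XT.lf (nat_lit 0) (nat_lit 5553468829) (nat_lit 76) (nat_lit 228506975) (nat_lit 0) (nat_lit 788003698) (nat_lit 28) (nat_lit 5) (nat_lit 29) (nat_lit 0) (nat_lit 28) (nat_lit 4) (nat_lit 222) (nat_lit 220) (nat_lit 218))) (XT.nd (nat_lit 78) (nat_lit 152) (nat_lit 0) (XT.lf (nat_lit 0) (nat_lit 1535852980) (nat_lit 152) (nat_lit 3390768535) (nat_lit 76) (nat_lit 1802807528) (nat_lit 26) (nat_lit 5) (nat_lit 28) (nat_lit 5) (nat_lit 27) (nat_lit 4) (nat_lit 223) (nat_lit 220) (nat_lit 217)) (XT.lf (nat_lit 0) (nat_lit 196806051) (nat_lit 152) (nat_lit 3787216024) (nat_lit 228) (nat_lit 2983608224) (nat_lit 24) (nat_lit 5) (nat_lit 26) (nat_lit 5) (nat_lit 27) (nat_lit 4) (nat_lit 224) (nat_lit 220) (nat_lit 216)))) (XT.nd (nat_lit 156) (nat_lit 304) (nat_lit 0) (XT.nd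 (nat_lit 78) (nat_lit 304) (nat_lit 0) (XT.lf (nat_lit 0) (nat_lit 4391150400) (nat_lit 152) (nat_lit 2221581470) (nat_lit 228) (nat_lit 660874665) (nat_lit 24) (nat_lit 5) (nat_lit 26) (nat_lit 5) (nat_lit 27) (nat_lit 4) (nat_lit 225) (nat_lit 220) (nat_lit 215)) (XT.lf (nat_lit 0) (nat_lit 1315591250) (nat_lit 228) (nat_lit 235453645) (nat_lit 304) (nat_lit 6107042972) (nat_lit 20) (nat_lit 5) (nat_lit 23) (nat_lit 5) (nat_lit 24) (nat_lit 5) (nat_lit 226) (nat_lit 220) (nat_lit 214))) (XT.nd (nat_lit 78) (nat_lit 304) (nat_lit 0) (XT.lf (nat_lit 0) (nat_lit 3966947798) (nat_lit 304) (nat_lit 2075846163) (nat_lit 76) (nat_lit 2064406187) (nat_lit 20) (nat_lit 5) (nat_lit 24) (nat_lit 5) (nat_lit 21) (nat_lit 4) (nat_lit 227) (nat_lit 220) (nat_lit 213)) (XT.lf (nat_lit 0) (nat_lit 2768659994) (nat_lit 304) (nat_lit 3839110538) (nat_lit 380) (nat_lit 2038839659) (nat_lit 16) (nat_lit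 5) (nat_lit 20) (nat_lit 5) (nat_lit 21) (nat_lit 4) (nat_lit 228) (nat_lit 220) (nat_lit 212))))) (XT.nd (nat_lit 312) (nat_lit 304) (nat_lit 0) (XT.nd (nat_lit 156) (nat_lit 76) (nat_lit 0) (XT.nd (nat_lit 78) (nat_lit 152) (nat_lit 0) (XT.lf (nat_lit 0) (nat_lit 203803910) (nat_lit 380) (nat_lit 1008795646) (nat_lit 76) (nat_lit 8074785404) (nat_lit 15) (nat_lit 5) (nat_lit 20) (nat_lit 5) (nat_lit 16) (nat_lit 5) (nat_lit 229) (nat_lit 220) (nat_lit 211)) (XT.lf (nat_lit 0) (nat_lit 2631792983) (nat_lit 228) (nat_lit 5465722708) (nat_lit 76) (nat_lit 1905063588) (nat_lit 13) (nat_lit 5) (nat_lit 16) (nat_lit 5) (nat_lit 14) (nat_lit 4) (nat_lit 230) (nat_lit 220) (nat_lit 210))) (XT.nd (nat_lit 78) (nat_lit 76) (nat_lit 0) (XT.lf (nat_lit 0) (nat_lit 5331940941) (nat_lit 228) (nat_lit 136825263) (nat_lit 76) (nat_lit 5371413829) (nat_lit 13) (nat_lit 5) (nat_lit 16) (nat_lit 5)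 (nat_lit 14) (nat_lit 4) (nat_lit 231) (nat_lit 220) (nat_lit 209)) (XT.lf (nat_lit 0) (nat_lit 6302823386) (nat_lit 76) (nat_lit 2216990806) (nat_lit 152) (nat_lit 3272350260) (nat_lit 12) (nat_lit 5) (nat_lit 13) (nat_lit 5) (nat_lit 14) (nat_lit 4) (nat_lit 232) (nat_lit 220) (nat_lit 208)))) (XT.nd (nat_lit 156) (nat_lit 76) (nat_lit 0) (XT.nd (nat_lit 78) (nat_lit 76) (nat_lit 0) (XT.lf (nat_lit 0) (nat_lit 563672301) (nat_lit 152) (nat_lit 11548134607) (nat_lit 152) (nat_lit 787247999) (nat_lit 10) (nat_lit 4) (nat_lit 12) (nat_lit 5) (nat_lit 12) (nat_lit 4) (nat_lit 233) (nat_lit 220) (nat_lit 207)) (XT.lf (nat_lit 0) (nat_lit 2127866464) (nat_lit 228) (nat_lit 6458368770) (nat_lit 76) (nat_lit 5537400037) (nat_lit 9) (nat_lit 5) (nat_lit 12) (nat_lit 5) (nat_lit 10) (nat_lit 4) (nat_lit 234) (nat_lit 220) (nat_lit 206))) (XT.nd (nat_lit 78) (nat_lit 0) (nat_lit 0) (XT.lf (nat_lit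 0) (nat_lit 34453713) (nat_lit 76) (nat_lit 5223500079) (nat_lit 152) (nat_lit 10290236919) (nat_lit 8) (nat_lit 5) (nat_lit 9) (nat_lit 5) (nat_lit 10) (nat_lit 4) (nat_lit 235) (nat_lit 220) (nat_lit 205)) (XT.nd (nat_lit 78) (nat_lit 0) (nat_lit 0) (XT.lf (nat_lit 0) (nat_lit 8006224086) (nat_lit 76) (nat_lit 1055329787) (nat_lit 152) (nat_lit 8094846909) (nat_lit 8) (nat_lit 5) (nat_lit 9) (nat_lit 5) (nat_lit 10) (nat_lit 4) (nat_lit 236) (nat_lit 220) (nat_lit 204)) (XT.lf (nat_lit 0) (nat_lit 13471167898) (nat_lit 152) (nat_lit 2193656941) (nat_lit 0) (nat_lit 3336193186) (nat_lit 8) (nat_lit 5) (nat_lit 10) (nat_lit 4) (nat_lit 8) (nat_lit 4) (nat_lit 237) (nat_lit 220) (nat_lit 203))))))))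
noncomputable def xc49 : XT := (XT.nd (nat_lit 1326) (nat_lit 76) (nat_lit 0) (XT.nd (nat_lit 624) (nat_lit 152) (nat_lit 0) (XT.nd (nat_lit 312) (nat_lit 76) (nat_lit 0) (XT.nd (nat_lit 156) (nat_lit 76) (nat_lit 0) (XT.nd (nat_lit 78) (nat_lit 76) (nat_lit 0) (XT.lf (nat_lit 0) (nat_lit 6121223923) (nat_lit 76) (nat_lit 12620971676) (nat_lit 76) (nat_lit 2350568477) (nat_lit 7) (nat_lit 4) (nat_lit 8) (nat_lit 5) (nat_lit 8) (nat_lit 4) (nat_lit 238) (nat_lit 220) (nat_lit 202)) (XT.lf (nat_lit 0) (nat_lit 1207199632) (nat_lit 152) (nat_lit 7792687892) (nat_lit 76) (nat_lit 14487927546) (nat_lit 6) (nat_lit 5) (nat_lit 8) (nat_lit 5) (nat_lit 7) (nat_lit 4) (nat_lit 239) (nat_lit 220) (nat_lit 201))) (XT.nd (nat_lit 78) (nat_lit 0) (nat_lit 0) (XT.lf (nat_lit 0) (nat_lit 211672366) (nat_lit 76) (nat_lit 4766115011) (nat_lit 152) (nat_lit 21259859403) (nat_lit 5) (nat_lit 5) (nat_lit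 6) (nat_lit 5) (nat_lit 7) (nat_lit 4) (nat_lit 240) (nat_lit 220) (nat_lit 200)) (XT.lf (nat_lit 0) (nat_lit 9658558858) (nat_lit 152) (nat_lit 19231060057) (nat_lit 0) (nat_lit 458891967) (nat_lit 5) (nat_lit 5) (nat_lit 7) (nat_lit 4) (nat_lit 5) (nat_lit 4) (nat_lit 241) (nat_lit 220) (nat_lit 199)))) (XT.nd (nat_lit 156) (nat_lit 76) (nat_lit 0) (XT.nd (nat_lit 78) (nat_lit 0) (nat_lit 0) (XT.lf (nat_lit 0) (nat_lit 15193273123) (nat_lit 152) (nat_lit 11783897837) (nat_lit 0) (nat_lit 5926274339) (nat_lit 5) (nat_lit 5) (nat_lit 7) (nat_lit 4) (nat_lit 5) (nat_lit 4) (nat_lit 242) (nat_lit 220) (nat_lit 198)) (XT.lf (nat_lit 0) (nat_lit 21492863402) (nat_lit 152) (nat_lit 3341427748) (nat_lit 0) (nat_lit 12167315145) (nat_lit 5) (nat_lit 5) (nat_lit 7) (nat_lit 4) (nat_lit 5) (nat_lit 4) (nat_lit 243) (nat_lit 220) (nat_lit 197))) (XT.nd (nat_lit 78) (nat_lit 0) (nat_lit 0) (XT.lf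 (nat_lit 0) (nat_lit 6873451121) (nat_lit 76) (nat_lit 22091746379) (nat_lit 76) (nat_lit 12715285537) (nat_lit 4) (nat_lit 4) (nat_lit 5) (nat_lit 5) (nat_lit 5) (nat_lit 4) (nat_lit 244) (nat_lit 220) (nat_lit 196)) (XT.lf (nat_lit 0) (nat_lit 18895021758) (nat_lit 76) (nat_lit 18784440646) (nat_lit 76) (nat_lit 9363707992) (nat_lit 4) (nat_lit 4) (nat_lit 5) (nat_lit 5) (nat_lit 5) (nat_lit 4) (nat_lit 245) (nat_lit 220) (nat_lit 195))))) (XT.nd (nat_lit 312) (nat_lit 0) (nat_lit 0) (XT.nd (nat_lit 156) (nat_lit 152) (nat_lit 0) (XT.nd (nat_lit 78) (nat_lit 0) (nat_lit 0) (XT.lf (nat_lit 0) (nat_lit 32631940183) (nat_lit 76) (nat_lit 15022331337) (nat_lit 76) (nat_lit 5563101454) (nat_lit 4) (nat_lit 4) (nat_lit 5) (nat_lit 5) (nat_lit 5) (nat_lit 4) (nat_lit 246) (nat_lit 220) (nat_lit 194)) (XT.lf (nat_lit 0) (nat_lit 48352972193) (nat_lit 76) (nat_lit 10731811966) (nat_lit 76)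 (nat_lit 1239106232) (nat_lit 4) (nat_lit 4) (nat_lit 5) (nat_lit 5) (nat_lit 5) (nat_lit 4) (nat_lit 247) (nat_lit 220) (nat_lit 193))) (XT.nd (nat_lit 78) (nat_lit 76) (nat_lit 0) (XT.lf (nat_lit 0) (nat_lit 3364112081) (nat_lit 152) (nat_lit 2288974193) (nat_lit 76) (nat_lit 62825739800) (nat_lit 3) (nat_lit 5) (nat_lit 5) (nat_lit 5) (nat_lit 4) (nat_lit 4) (nat_lit 248) (nat_lit 220) (nat_lit 192)) (XT.lf (nat_lit 0) (nat_lit 8923648530) (nat_lit 152) (nat_lit 68243870250) (nat_lit 0) (nat_lit 621798337) (nat_lit 2) (nat_lit 5) (nat_lit 4) (nat_lit 4) (nat_lit 2) (nat_lit 4) (nat_lit 249) (nat_lit 220) (nat_lit 191)))) (XT.nd (nat_lit 156) (nat_lit 0) (nat_lit 0) (XT.nd (nat_lit 78) (nat_lit 0) (nat_lit 0) (XT.lf (nat_lit 0) (nat_lit 15680120796) (nat_lit 152) (nat_lit 65402740589) (nat_lit 0) (nat_lit 7359130677) (nat_lit 2) (nat_lit 5) (nat_lit 4) (nat_lit 4) (nat_lit 2) (nat_lit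 4) (nat_lit 250) (nat_lit 220) (nat_lit 190)) (XT.lf (nat_lit 0) (nat_lit 23422639711) (nat_lit 152) (nat_lit 62189089076) (nat_lit 0) (nat_lit 15085006176) (nat_lit 2) (nat_lit 5) (nat_lit 4) (nat_lit 4) (nat_lit 2) (nat_lit 4) (nat_lit 251) (nat_lit 220) (nat_lit 189))) (XT.nd (nat_lit 78) (nat_lit 0) (nat_lit 0) (XT.lf (nat_lit 0) (nat_lit 32302689338) (nat_lit 152) (nat_lit 58540039920) (nat_lit 0) (nat_lit 23950583270) (nat_lit 2) (nat_lit 5) (nat_lit 4) (nat_lit 4) (nat_lit 2) (nat_lit 4) (nat_lit 252) (nat_lit 220) (nat_lit 188)) (XT.nd (nat_lit 78) (nat_lit 0) (nat_lit 0) (XT.lf (nat_lit 0) (nat_lit 42494009780) (nat_lit 152) (nat_lit 54384198683) (nat_lit 0) (nat_lit 34129318900) (nat_lit 2) (nat_lit 5) (nat_lit 4) (nat_lit 4) (nat_lit 2) (nat_lit 4) (nat_lit 253) (nat_lit 220) (nat_lit 187)) (XT.lf (nat_lit 0) (nat_lit 54195996437) (nat_lit 152) (nat_lit 49640255425) (nat_lit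 0) (nat_lit 45820362242) (nat_lit 2) (nat_lit 5) (nat_lit 4) (nat_lit 4) (nat_lit 2) (nat_lit 4) (nat_lit 254) (nat_lit 220) (nat_lit 186))))))) (XT.nd (nat_lit 624) (nat_lit 0) (nat_lit 0) (XT.nd (nat_lit 312) (nat_lit 76) (nat_lit 0) (XT.nd (nat_lit 156) (nat_lit 0) (nat_lit 0) (XT.nd (nat_lit 78) (nat_lit 0) (nat_lit 0) (XT.lf (nat_lit 0) (nat_lit 67637601222) (nat_lit 152) (nat_lit 44215393867) (nat_lit 0) (nat_lit 59252451100) (nat_lit 2) (nat_lit 5) (nat_lit 4) (nat_lit 4) (nat_lit 2) (nat_lit 4) (nat_lit 255) (nat_lit 220) (nat_lit 185)) (XT.lf (nat_lit 0) (nat_lit 83081812054) (nat_lit 152) (nat_lit 38003475413) (nat_lit 0) (nat_lit 74688387214) (nat_lit 2) (nat_lit 5) (nat_lit 4) (nat_lit 4) (nat_lit 2) (nat_lit 4) (nat_lit 256) (nat_lit 220) (nat_lit 184))) (XT.nd (nat_lit 78) (nat_lit 0) (nat_lit 0) (XT.lf (nat_lit 0) (nat_lit 100830798276) (nat_lit 152) (nat_lit 30882962527)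 (nat_lit 0) (nat_lit 92430178028) (nat_lit 2) (nat_lit 5) (nat_lit 4) (nat_lit 4) (nat_lit 2) (nat_lit 4) (nat_lit 257) (nat_lit 220) (nat_lit 183)) (XT.lf (nat_lit 0) (nat_lit 121231822661) (nat_lit 152) (nat_lit 22714540827) (nat_lit 0) (nat_lit 112824945538) (nat_lit 2) (nat_lit 5) (nat_lit 4) (nat_lit 4) (nat_lit 2) (nat_lit 4) (nat_lit 258) (nat_lit 220) (nat_lit 182)))) (XT.nd (nat_lit 156) (nat_lit 76) (nat_lit 0) (XT.nd (nat_lit 78) (nat_lit 0) (nat_lit 0) (XT.lf (nat_lit 0) (nat_lit 144684035687) (nat_lit 152) (nat_lit 13338393367) (nat_lit 0) (nat_lit 136271717802) (nat_lit 2) (nat_lit 5) (nat_lit 4) (nat_lit 4) (nat_lit 2) (nat_lit 4) (nat_lit 259) (nat_lit 220) (nat_lit 181)) (XT.lf (nat_lit 0) (nat_lit 171646285000) (nat_lit 152) (nat_lit 2571073784) (nat_lit 0) (nat_lit 163229236018) (nat_lit 2) (nat_lit 5) (nat_lit 4) (nat_lit 4) (nat_lit 2) (nat_lit 4) (nat_lit 260)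 (nat_lit 220) (nat_lit 180))) (XT.nd (nat_lit 78) (nat_lit 0) (nat_lit 0) (XT.lf (nat_lit 0) (nat_lit 10755622787) (nat_lit 76) (nat_lit 192335837484) (nat_lit 76) (nat_lit 183914674505) (nat_lit 1) (nat_lit 4) (nat_lit 2) (nat_lit 5) (nat_lit 2) (nat_lit 4) (nat_lit 261) (nat_lit 220) (nat_lit 179)) (XT.lf (nat_lit 0) (nat_lit 26357619380) (nat_lit 76) (nat_lit 213023770704) (nat_lit 76) (nat_lit 204599030336) (nat_lit 1) (nat_lit 4) (nat_lit 2) (nat_lit 5) (nat_lit 2) (nat_lit 4) (nat_lit 262) (nat_lit 220) (nat_lit 178))))) (XT.nd (nat_lit 312) (nat_lit 0) (nat_lit 0) (XT.nd (nat_lit 156) (nat_lit 0) (nat_lit 0) (XT.nd (nat_lit 78) (nat_lit 0) (nat_lit 0) (XT.lf (nat_lit 0) (nat_lit 44288908419) (nat_lit 76) (nat_lit 236820319394) (nat_lit 76) (nat_lit 228392468253) (nat_lit 1) (nat_lit 4) (nat_lit 2) (nat_lit 5) (nat_lit 2) (nat_lit 4) (nat_lit 263) (nat_lit 220) (nat_lit 177))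 (XT.lf (nat_lit 0) (nat_lit 64900319472) (nat_lit 76) (nat_lit 264191068202) (nat_lit 76) (nat_lit 255760512040) (nat_lit 1) (nat_lit 4) (nat_lit 2) (nat_lit 5) (nat_lit 2) (nat_lit 4) (nat_lit 264) (nat_lit 220) (nat_lit 176))) (XT.nd (nat_lit 78) (nat_lit 0) (nat_lit 0) (XT.lf (nat_lit 0) (nat_lit 88595119278) (nat_lit 76) (nat_lit 295671531779) (nat_lit 76) (nat_lit 287238623426) (nat_lit 1) (nat_lit 4) (nat_lit 2) (nat_lit 5) (nat_lit 2) (nat_lit 4) (nat_lit 265) (nat_lit 220) (nat_lit 175)) (XT.lf (nat_lit 0) (nat_lit 115836901745) (nat_lit 76) (nat_lit 331877632238) (nat_lit 76) (nat_lit 323442678501) (nat_lit 1) (nat_lit 4) (nat_lit 2) (nat_lit 5) (nat_lit 2) (nat_lit 4) (nat_lit 266) (nat_lit 220) (nat_lit 174)))) (XT.nd (nat_lit 156) (nat_lit 0) (nat_lit 0) (XT.nd (nat_lit 78) (nat_lit 0) (nat_lit 0) (XT.lf (nat_lit 0) (nat_lit 147158658271) (nat_lit 76) (nat_lit 373517749805)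 (nat_lit 76) (nat_lit 365081017474) (nat_lit 1) (nat_lit 4) (nat_lit 2) (nat_lit 5) (nat_lit 2) (nat_lit 4) (nat_lit 267) (nat_lit 220) (nat_lit 173)) (XT.lf (nat_lit 0) (nat_lit 183173205829) (nat_lit 76) (nat_lit 421406582434) (nat_lit 76) (nat_lit 412968303498) (nat_lit 1) (nat_lit 4) (nat_lit 2) (nat_lit 5) (nat_lit 2) (nat_lit 4) (nat_lit 268) (nat_lit 220) (nat_lit 172))) (XT.nd (nat_lit 78) (nat_lit 0) (nat_lit 0) (XT.lf (nat_lit 0) (nat_lit 224585176873) (nat_lit 76) (nat_lit 476481085544) (nat_lit 76) (nat_lit 468041461735) (nat_lit 1) (nat_lit 4) (nat_lit 2) (nat_lit 5) (nat_lit 2) (nat_lit 4) (nat_lit 269) (nat_lit 220) (nat_lit 171)) (XT.nd (nat_lit 78) (nat_lit 0) (nat_lit 0) (XT.lf (nat_lit 0) (nat_lit 272204805619) (nat_lit 76) (nat_lit 539818803762) (nat_lit 76) (nat_lit 531378010498) (nat_lit 1) (nat_lit 4) (nat_lit 2) (nat_lit 5) (nat_lit 2) (nat_lit 4) (nat_lit 270)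 (nat_lit 220) (nat_lit 170)) (XT.lf (nat_lit 0) (nat_lit 326963780454) (nat_lit 76) (nat_lit 612658953314) (nat_lit 76) (nat_lit 604217143133) (nat_lit 1) (nat_lit 4) (nat_lit 2) (nat_lit 5) (nat_lit 2) (nat_lit 4) (nat_lit 271) (nat_lit 220) (nat_lit 169))))))))
noncomputable def xc50 : XT := (XT.nd (nat_lit 1326) (nat_lit 0) (nat_lit 0) (XT.nd (nat_lit 624) (nat_lit 0) (nat_lit 0) (XT.nd (nat_lit 312) (nat_lit 0) (nat_lit 0) (XT.nd (nat_lit 156) (nat_lit 0) (nat_lit 0) (XT.nd (nat_lit 78) (nat_lit 0) (nat_lit 0) (XT.lf (nat_lit 0) (nat_lit 389933472627) (nat_lit 76) (nat_lit 696426667561) (nat_lit 76) (nat_lit 687983973105) (nat_lit 1) (nat_lit 4) (nat_lit 2) (nat_lit 5) (nat_lit 2) (nat_lit 4) (nat_lit 272) (nat_lit 220) (nat_lit 168)) (XT.lf (nat_lit 0) (nat_lit 462345897853) (nat_lit 76) (nat_lit 792760880043) (nat_lit 76) (nat_lit 784317416650) (nat_lit 1) (nat_lit 4) (nat_lit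 2) (nat_lit 5) (nat_lit 2) (nat_lit 4) (nat_lit 273) (nat_lit 220) (nat_lit 167))) (XT.nd (nat_lit 78) (nat_lit 0) (nat_lit 0) (XT.lf (nat_lit 0) (nat_lit 545617820974) (nat_lit 76) (nat_lit 903546390568) (nat_lit 76) (nat_lit 895102258536) (nat_lit 1) (nat_lit 4) (nat_lit 2) (nat_lit 5) (nat_lit 2) (nat_lit 4) (nat_lit 274) (nat_lit 220) (nat_lit 166)) (XT.lf (nat_lit 0) (nat_lit 641378475267) (nat_lit 76) (nat_lit 1030950741735) (nat_lit 76) (nat_lit 1022506028277) (nat_lit 1) (nat_lit 4) (nat_lit 2) (nat_lit 5) (nat_lit 2) (nat_lit 4) (nat_lit 275) (nat_lit 220) (nat_lit 165)))) (XT.nd (nat_lit 156) (nat_lit 0) (nat_lit 0) (XT.nd (nat_lit 78) (nat_lit 0) (nat_lit 0) (XT.lf (nat_lit 0) (nat_lit 751501438753) (nat_lit 76) (nat_lit 1177466627369) (nat_lit 76) (nat_lit 1169021408324) (nat_lit 1) (nat_lit 4) (nat_lit 2) (nat_lit 5) (nat_lit 2) (nat_lit 4) (nat_lit 276) (nat_lit 220) (nat_lit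 164)) (XT.lf (nat_lit 0) (nat_lit 878141291151) (nat_lit 76) (nat_lit 1345960662626) (nat_lit 76) (nat_lit 1337515003939) (nat_lit 1) (nat_lit 4) (nat_lit 2) (nat_lit 5) (nat_lit 2) (nat_lit 4) (nat_lit 277) (nat_lit 220) (nat_lit 163))) (XT.nd (nat_lit 78) (nat_lit 0) (nat_lit 0) (XT.lf (nat_lit 0) (nat_lit 1023775768704) (nat_lit 76) (nat_lit 1539729469933) (nat_lit 76) (nat_lit 1531283428949) (nat_lit 1) (nat_lit 4) (nat_lit 2) (nat_lit 5) (nat_lit 2) (nat_lit 4) (nat_lit 278) (nat_lit 220) (nat_lit 162)) (XT.lf (nat_lit 0) (nat_lit 1191254241624) (nat_lit 76) (nat_lit 1762564178130) (nat_lit 76) (nat_lit 1754117804714) (nat_lit 1) (nat_lit 4) (nat_lit 2) (nat_lit 5) (nat_lit 2) (nat_lit 4) (nat_lit 279) (nat_lit 220) (nat_lit 161))))) (XT.nd (nat_lit 312) (nat_lit 0) (nat_lit 0) (XT.nd (nat_lit 156) (nat_lit 0) (nat_lit 0) (XT.nd (nat_lit 78) (nat_lit 0) (nat_lit 0) (XT.lf (nat_lit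 0) (nat_lit 1383853462644) (nat_lit 76) (nat_lit 2018824596725) (nat_lit 76) (nat_lit 2010377934238) (nat_lit 1) (nat_lit 4) (nat_lit 2) (nat_lit 5) (nat_lit 2) (nat_lit 4) (nat_lit 280) (nat_lit 220) (nat_lit 160)) (XT.lf (nat_lit 0) (nat_lit 1605341677391) (nat_lit 76) (nat_lit 2313524516516) (nat_lit 76) (nat_lit 2305077602662) (nat_lit 1) (nat_lit 4) (nat_lit 2) (nat_lit 5) (nat_lit 2) (nat_lit 4) (nat_lit 281) (nat_lit 220) (nat_lit 159))) (XT.nd (nat_lit 78) (nat_lit 0) (nat_lit 0) (XT.lf (nat_lit 0) (nat_lit 1860052350937) (nat_lit 76) (nat_lit 2652429805499) (nat_lit 76) (nat_lit 2643982673066) (nat_lit 1) (nat_lit 4) (nat_lit 2) (nat_lit 5) (nat_lit 2) (nat_lit 4) (nat_lit 282) (nat_lit 220) (nat_lit 158)) (XT.lf (nat_lit 0) (nat_lit 2152968952981) (nat_lit 76) (nat_lit 3042171219328) (nat_lit 76) (nat_lit 3033723896826) (nat_lit 1) (nat_lit 4) (nat_lit 2) (nat_lit 5) (nat_lit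 2) (nat_lit 4) (nat_lit 283) (nat_lit 220) (nat_lit 157)))) (XT.nd (nat_lit 156) (nat_lit 0) (nat_lit 0) (XT.nd (nat_lit 78) (nat_lit 0) (nat_lit 0) (XT.lf (nat_lit 0) (nat_lit 2489822460521) (nat_lit 76) (nat_lit 3490374133492) (nat_lit 76) (nat_lit 3481926645712) (nat_lit 1) (nat_lit 4) (nat_lit 2) (nat_lit 5) (nat_lit 2) (nat_lit 4) (nat_lit 284) (nat_lit 220) (nat_lit 156)) (XT.lf (nat_lit 0) (nat_lit 2877203485659) (nat_lit 76) (nat_lit 4005807735441) (nat_lit 76) (nat_lit 3997360103942) (nat_lit 1) (nat_lit 4) (nat_lit 2) (nat_lit 5) (nat_lit 2) (nat_lit 4) (nat_lit 285) (nat_lit 220) (nat_lit 155))) (XT.nd (nat_lit 78) (nat_lit 0) (nat_lit 0) (XT.lf (nat_lit 0) (nat_lit 3322691222366) (nat_lit 76) (nat_lit 4598556595648) (nat_lit 76) (nat_lit 4590108839175) (nat_lit 1) (nat_lit 4) (nat_lit 2) (nat_lit 5) (nat_lit 2) (nat_lit 4) (nat_lit 286) (nat_lit 220) (nat_lit 154)) (XT.nd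 (nat_lit 78) (nat_lit 0) (nat_lit 0) (XT.lf (nat_lit 0) (nat_lit 3835001735057) (nat_lit 76) (nat_lit 5280217974421) (nat_lit 76) (nat_lit 5271770109276) (nat_lit 1) (nat_lit 4) (nat_lit 2) (nat_lit 5) (nat_lit 2) (nat_lit 4) (nat_lit 287) (nat_lit 220) (nat_lit 153)) (XT.lf (nat_lit 0) (nat_lit 4424158490283) (nat_lit 76) (nat_lit 6064128724824) (nat_lit 76) (nat_lit 6055680765181) (nat_lit 1) (nat_lit 4) (nat_lit 2) (nat_lit 5) (nat_lit 2) (nat_lit 4) (nat_lit 288) (nat_lit 220) (nat_lit 152))))))) (XT.nd (nat_lit 624) (nat_lit 0) (nat_lit 0) (XT.nd (nat_lit 312) (nat_lit 0) (nat_lit 0) (XT.nd (nat_lit 156) (nat_lit 0) (nat_lit 0) (XT.nd (nat_lit 78) (nat_lit 0) (nat_lit 0) (XT.lf (nat_lit 0) (nat_lit 5101688468039) (nat_lit 76) (nat_lit 6965626231104) (nat_lit 76) (nat_lit 6957178189289) (nat_lit 1) (nat_lit 4) (nat_lit 2) (nat_lit 5) (nat_lit 2) (nat_lit 4) (nat_lit 289) (nat_lit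 220) (nat_lit 151)) (XT.lf (nat_lit 0) (nat_lit 5880847689627) (nat_lit 76) (nat_lit 8002348487948) (nat_lit 76) (nat_lit 7993900374679) (nat_lit 1) (nat_lit 4) (nat_lit 2) (nat_lit 5) (nat_lit 2) (nat_lit 4) (nat_lit 290) (nat_lit 220) (nat_lit 150))) (XT.nd (nat_lit 78) (nat_lit 0) (nat_lit 0) (XT.lf (nat_lit 0) (nat_lit 6776880574601) (nat_lit 76) (nat_lit 9194579191686) (nat_lit 76) (nat_lit 9186131016283) (nat_lit 1) (nat_lit 4) (nat_lit 2) (nat_lit 5) (nat_lit 2) (nat_lit 4) (nat_lit 291) (nat_lit 220) (nat_lit 149)) (XT.lf (nat_lit 0) (nat_lit 7807318201146) (nat_lit 76) (nat_lit 10565644595218) (nat_lit 76) (nat_lit 10557196365785) (nat_lit 1) (nat_lit 4) (nat_lit 2) (nat_lit 5) (nat_lit 2) (nat_lit 4) (nat_lit 292) (nat_lit 220) (nat_lit 148)))) (XT.nd (nat_lit 156) (nat_lit 0) (nat_lit 0) (XT.nd (nat_lit 78) (nat_lit 0) (nat_lit 0) (XT.lf (nat_lit 0) (nat_lit 8992321305432)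 (nat_lit 76) (nat_lit 12142369891221) (nat_lit 76) (nat_lit 12133921614806) (nat_lit 1) (nat_lit 4) (nat_lit 2) (nat_lit 5) (nat_lit 2) (nat_lit 4) (nat_lit 293) (nat_lit 220) (nat_lit 147)) (XT.lf (nat_lit 0) (nat_lit 10355074730805) (nat_lit 76) (nat_lit 13955604052877) (nat_lit 76) (nat_lit 13947155735608) (nat_lit 1) (nat_lit 4) (nat_lit 2) (nat_lit 5) (nat_lit 2) (nat_lit 4) (nat_lit 294) (nat_lit 220) (nat_lit 146))) (XT.nd (nat_lit 78) (nat_lit 0) (nat_lit 0) (XT.lf (nat_lit 0) (nat_lit 11922241044282) (nat_lit 76) (nat_lit 16040823400742) (nat_lit 76) (nat_lit 16032375047948) (nat_lit 1) (nat_lit 4) (nat_lit 2) (nat_lit 5) (nat_lit 2) (nat_lit 4) (nat_lit 295) (nat_lit 220) (nat_lit 145)) (XT.lf (nat_lit 0) (nat_lit 13724482195475) (nat_lit 76) (nat_lit 18438825704664) (nat_lit 76) (nat_lit 18430377320978) (nat_lit 1) (nat_lit 4) (nat_lit 2) (nat_lit 5) (nat_lit 2) (nat_lit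 4) (nat_lit 296) (nat_lit 220) (nat_lit 144))))) (XT.nd (nat_lit 312) (nat_lit 0) (nat_lit 0) (XT.nd (nat_lit 156) (nat_lit 0) (nat_lit 0) (XT.nd (nat_lit 78) (nat_lit 0) (nat_lit 0) (XT.lf (nat_lit 0) (nat_lit 15797059424300) (nat_lit 76) (nat_lit 21196528401025) (nat_lit 76) (nat_lit 21188079990477) (nat_lit 1) (nat_lit 4) (nat_lit 2) (nat_lit 5) (nat_lit 2) (nat_lit 4) (nat_lit 297) (nat_lit 220) (nat_lit 143)) (XT.lf (nat_lit 0) (nat_lit 18180523154797) (nat_lit 76) (nat_lit 24367886542579) (nat_lit 76) (nat_lit 24359438108673) (nat_lit 1) (nat_lit 4) (nat_lit 2) (nat_lit 5) (nat_lit 2) (nat_lit 4) (nat_lit 298) (nat_lit 220) (nat_lit 142))) (XT.nd (nat_lit 78) (nat_lit 0) (nat_lit 0) (XT.lf (nat_lit 0) (nat_lit 20921506372999) (nat_lit 76) (nat_lit 28014948440792) (nat_lit 76) (nat_lit 28006499986574) (nat_lit 1) (nat_lit 4) (nat_lit 2) (nat_lit 5) (nat_lit 2) (nat_lit 4) (nat_lit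 299) (nat_lit 220) (nat_lit 141)) (XT.lf (nat_lit 0) (nat_lit 24073637011435) (nat_lit 76) (nat_lit 32209069654542) (nat_lit 76) (nat_lit 32200621182661) (nat_lit 1) (nat_lit 4) (nat_lit 2) (nat_lit 5) (nat_lit 2) (nat_lit 4) (nat_lit 300) (nat_lit 220) (nat_lit 140)))) (XT.nd (nat_lit 156) (nat_lit 0) (nat_lit 0) (XT.nd (nat_lit 78) (nat_lit 0) (nat_lit 0) (XT.lf (nat_lit 0) (nat_lit 27698587191292) (nat_lit 76) (nat_lit 37032309077141) (nat_lit 76) (nat_lit 37023860589902) (nat_lit 1) (nat_lit 4) (nat_lit 2) (nat_lit 5) (nat_lit 2) (nat_lit 4) (nat_lit 301) (nat_lit 220) (nat_lit 139)) (XT.lf (nat_lit 0) (nat_lit 31867279850872) (nat_lit 76) (nat_lit 42579034436423) (nat_lit 76) (nat_lit 42570585935828) (nat_lit 1) (nat_lit 4) (nat_lit 2) (nat_lit 5) (nat_lit 2) (nat_lit 4) (nat_lit 302) (nat_lit 220) (nat_lit 138))) (XT.nd (nat_lit 28002) (nat_lit 0) (nat_lit 1824) (XT.lf (nat_lit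 0) (nat_lit 36661276368297) (nat_lit 76) (nat_lit 48957768619851) (nat_lit 76) (nat_lit 48949320107643) (nat_lit 1) (nat_lit 4) (nat_lit 2) (nat_lit 5) (nat_lit 2) (nat_lit 4) (nat_lit 303) (nat_lit 220) (nat_lit 137)) (XT.nd (nat_lit 78) (nat_lit 228) (nat_lit 0) (XT.lf (nat_lit 0) (nat_lit 1341105660) (nat_lit 0) (nat_lit 1341105660) (nat_lit 76) (nat_lit 581805272) (nat_lit 28) (nat_lit 5) (nat_lit 28) (nat_lit 3) (nat_lit 29) (nat_lit 0) (nat_lit 221) (nat_lit 221) (nat_lit 218)) (XT.lf (nat_lit 0) (nat_lit 1104326109) (nat_lit 228) (nat_lit 840865568) (nat_lit 228) (nat_lit 4717529893) (nat_lit 25) (nat_lit 3) (nat_lit 28) (nat_lit 3) (nat_lit 28) (nat_lit 5) (nat_lit 222) (nat_lit 221) (nat_lit 217))))))))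
noncomputable def xc51 : XT := (XT.nd (nat_lit 1326) (nat_lit 380) (nat_lit 0) (XT.nd (nat_lit 624) (nat_lit 456) (nat_lit 0) (XT.nd (nat_lit 312) (nat_lit 760) (nat_lit 0) (XT.nd (nat_lit 156) (nat_lit 152) (nat_lit 0) (XT.nd (nat_lit 78) (nat_lit 0) (nat_lit 76) (XT.lf (nat_lit 76) (nat_lit 2554820728) (nat_lit 0) (nat_lit 744765400) (nat_lit 228) (nat_lit 3558424327) (nat_lit 26) (nat_lit 5) (nat_lit 25) (nat_lit 3) (nat_lit 28) (nat_lit 5) (nat_lit 223) (nat_lit 221) (nat_lit 216)) (XT.lf (nat_lit 0) (nat_lit 5545514756) (nat_lit 152) (nat_lit 834681575) (nat_lit 76) (nat_lit 748231493) (nat_lit 26) (nat_lit 5) (nat_lit 28) (nat_lit 5) (nat_lit 27) (nat_lit 4) (nat_lit 224) (nat_lit 221) (nat_lit 215))) (XT.nd (nat_lit 78) (nat_lit 0) (nat_lit 0) (XT.lf (nat_lit 0) (nat_lit 478520594) (nat_lit 228) (nat_lit 4333834903) (nat_lit 76) (nat_lit 2648190381) (nat_lit 23) (nat_lit 5) (nat_lit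 26) (nat_lit 5) (nat_lit 24) (nat_lit 5) (nat_lit 225) (nat_lit 221) (nat_lit 214)) (XT.lf (nat_lit 0) (nat_lit 2441746765) (nat_lit 228) (nat_lit 404627029) (nat_lit 76) (nat_lit 5024263426) (nat_lit 23) (nat_lit 5) (nat_lit 26) (nat_lit 5) (nat_lit 24) (nat_lit 5) (nat_lit 226) (nat_lit 221) (nat_lit 213)))) (XT.nd (nat_lit 156) (nat_lit 228) (nat_lit 0) (XT.nd (nat_lit 78) (nat_lit 304) (nat_lit 0) (XT.lf (nat_lit 0) (nat_lit 4260806001) (nat_lit 228) (nat_lit 361976406) (nat_lit 304) (nat_lit 3733272106) (nat_lit 20) (nat_lit 5) (nat_lit 23) (nat_lit 5) (nat_lit 24) (nat_lit 5) (nat_lit 227) (nat_lit 221) (nat_lit 212)) (XT.lf (nat_lit 0) (nat_lit 436315700) (nat_lit 304) (nat_lit 6609223069) (nat_lit 380) (nat_lit 1883570456) (nat_lit 16) (nat_lit 5) (nat_lit 20) (nat_lit 5) (nat_lit 21) (nat_lit 4) (nat_lit 228) (nat_lit 221) (nat_lit 211))) (XT.nd (nat_lit 78) (nat_lit 152) (nat_lit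 0) (XT.lf (nat_lit 0) (nat_lit 242509716) (nat_lit 380) (nat_lit 3755637152) (nat_lit 76) (nat_lit 5586890538) (nat_lit 15) (nat_lit 5) (nat_lit 20) (nat_lit 5) (nat_lit 16) (nat_lit 5) (nat_lit 229) (nat_lit 221) (nat_lit 210)) (XT.lf (nat_lit 0) (nat_lit 1501295469) (nat_lit 152) (nat_lit 863450539) (nat_lit 228) (nat_lit 7981963223) (nat_lit 13) (nat_lit 5) (nat_lit 15) (nat_lit 5) (nat_lit 16) (nat_lit 5) (nat_lit 230) (nat_lit 221) (nat_lit 209))))) (XT.nd (nat_lit 312) (nat_lit 152) (nat_lit 0) (XT.nd (nat_lit 156) (nat_lit 228) (nat_lit 0) (XT.nd (nat_lit 78) (nat_lit 76) (nat_lit 0) (XT.lf (nat_lit 0) (nat_lit 4946217821) (nat_lit 228) (nat_lit 3596904223) (nat_lit 76) (nat_lit 2659523790) (nat_lit 13) (nat_lit 5) (nat_lit 16) (nat_lit 5) (nat_lit 14) (nat_lit 4) (nat_lit 231) (nat_lit 221) (nat_lit 208)) (XT.lf (nat_lit 0) (nat_lit 2393737957) (nat_lit 76) (nat_lit 5506379701)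 (nat_lit 152) (nat_lit 4290073324) (nat_lit 12) (nat_lit 5) (nat_lit 13) (nat_lit 5) (nat_lit 14) (nat_lit 4) (nat_lit 232) (nat_lit 221) (nat_lit 207))) (XT.nd (nat_lit 78) (nat_lit 228) (nat_lit 0) (XT.lf (nat_lit 0) (nat_lit 9479954985) (nat_lit 76) (nat_lit 1861777254) (nat_lit 152) (nat_lit 1978310020) (nat_lit 12) (nat_lit 5) (nat_lit 13) (nat_lit 5) (nat_lit 14) (nat_lit 4) (nat_lit 233) (nat_lit 221) (nat_lit 206)) (XT.lf (nat_lit 0) (nat_lit 716319236) (nat_lit 228) (nat_lit 11657447896) (nat_lit 76) (nat_lit 2227537220) (nat_lit 9) (nat_lit 5) (nat_lit 12) (nat_lit 5) (nat_lit 10) (nat_lit 4) (nat_lit 234) (nat_lit 221) (nat_lit 205)))) (XT.nd (nat_lit 156) (nat_lit 76) (nat_lit 0) (XT.nd (nat_lit 78) (nat_lit 76) (nat_lit 0) (XT.lf (nat_lit 0) (nat_lit 3787094465) (nat_lit 228) (nat_lit 5261250955) (nat_lit 76) (nat_lit 6986676891) (nat_lit 9) (nat_lit 5) (nat_lit 12) (nat_lit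 5) (nat_lit 10) (nat_lit 4) (nat_lit 235) (nat_lit 221) (nat_lit 204)) (XT.lf (nat_lit 0) (nat_lit 2107046122) (nat_lit 76) (nat_lit 5190467530) (nat_lit 152) (nat_lit 10389926910) (nat_lit 8) (nat_lit 5) (nat_lit 9) (nat_lit 5) (nat_lit 10) (nat_lit 4) (nat_lit 236) (nat_lit 221) (nat_lit 203))) (XT.nd (nat_lit 78) (nat_lit 76) (nat_lit 0) (XT.lf (nat_lit 0) (nat_lit 11004918005) (nat_lit 76) (nat_lit 503579202) (nat_lit 152) (nat_lit 8053556079) (nat_lit 8) (nat_lit 5) (nat_lit 9) (nat_lit 5) (nat_lit 10) (nat_lit 4) (nat_lit 237) (nat_lit 221) (nat_lit 202)) (XT.nd (nat_lit 78) (nat_lit 76) (nat_lit 0) (XT.lf (nat_lit 0) (nat_lit 16463244745) (nat_lit 152) (nat_lit 839082647) (nat_lit 0) (nat_lit 4399088675) (nat_lit 8) (nat_lit 5) (nat_lit 10) (nat_lit 4) (nat_lit 8) (nat_lit 4) (nat_lit 238) (nat_lit 221) (nat_lit 201)) (XT.lf (nat_lit 0) (nat_lit 8646502037) (nat_lit 76) (nat_lit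 13818266357) (nat_lit 76) (nat_lit 1651706894) (nat_lit 7) (nat_lit 4) (nat_lit 8) (nat_lit 5) (nat_lit 8) (nat_lit 4) (nat_lit 239) (nat_lit 221) (nat_lit 200))))))) (XT.nd (nat_lit 624) (nat_lit 152) (nat_lit 0) (XT.nd (nat_lit 312) (nat_lit 76) (nat_lit 0) (XT.nd (nat_lit 156) (nat_lit 0) (nat_lit 0) (XT.nd (nat_lit 78) (nat_lit 76) (nat_lit 0) (XT.lf (nat_lit 0) (nat_lit 2221183737) (nat_lit 152) (nat_lit 7480060856) (nat_lit 76) (nat_lit 17182147846) (nat_lit 6) (nat_lit 5) (nat_lit 8) (nat_lit 5) (nat_lit 7) (nat_lit 4) (nat_lit 240) (nat_lit 221) (nat_lit 199)) (XT.lf (nat_lit 0) (nat_lit 1657611158) (nat_lit 76) (nat_lit 4849667319) (nat_lit 152) (nat_lit 23546279463) (nat_lit 5) (nat_lit 5) (nat_lit 6) (nat_lit 5) (nat_lit 7) (nat_lit 4) (nat_lit 241) (nat_lit 221) (nat_lit 198))) (XT.nd (nat_lit 78) (nat_lit 0) (nat_lit 0) (XT.lf (nat_lit 0) (nat_lit 11810791791) (nat_lit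 152) (nat_lit 20804605746) (nat_lit 0) (nat_lit 1027861823) (nat_lit 5) (nat_lit 5) (nat_lit 7) (nat_lit 4) (nat_lit 5) (nat_lit 4) (nat_lit 242) (nat_lit 221) (nat_lit 197)) (XT.lf (nat_lit 0) (nat_lit 18083958965) (nat_lit 152) (nat_lit 12411383975) (nat_lit 0) (nat_lit 7250116412) (nat_lit 5) (nat_lit 5) (nat_lit 7) (nat_lit 4) (nat_lit 5) (nat_lit 4) (nat_lit 243) (nat_lit 221) (nat_lit 196)))) (XT.nd (nat_lit 156) (nat_lit 0) (nat_lit 0) (XT.nd (nat_lit 78) (nat_lit 76) (nat_lit 0) (XT.lf (nat_lit 0) (nat_lit 25248701497) (nat_lit 152) (nat_lit 2851251877) (nat_lit 0) (nat_lit 14370587132) (nat_lit 5) (nat_lit 5) (nat_lit 7) (nat_lit 4) (nat_lit 5) (nat_lit 4) (nat_lit 244) (nat_lit 221) (nat_lit 195)) (XT.lf (nat_lit 0) (nat_lit 8850795639) (nat_lit 76) (nat_lit 24960896068) (nat_lit 76) (nat_lit 14044284473) (nat_lit 4) (nat_lit 4) (nat_lit 5) (nat_lit 5) (nat_lit 5) (nat_lit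 4) (nat_lit 245) (nat_lit 221) (nat_lit 194))) (XT.nd (nat_lit 78) (nat_lit 0) (nat_lit 0) (XT.lf (nat_lit 0) (nat_lit 22552167934) (nat_lit 76) (nat_lit 21215487379) (nat_lit 76) (nat_lit 10265399934) (nat_lit 4) (nat_lit 4) (nat_lit 5) (nat_lit 5) (nat_lit 5) (nat_lit 4) (nat_lit 246) (nat_lit 221) (nat_lit 193)) (XT.lf (nat_lit 0) (nat_lit 38242290266) (nat_lit 76) (nat_lit 16939490287) (nat_lit 76) (nat_lit 5960293406) (nat_lit 4) (nat_lit 4) (nat_lit 5) (nat_lit 5) (nat_lit 5) (nat_lit 4) (nat_lit 247) (nat_lit 221) (nat_lit 192))))) (XT.nd (nat_lit 312) (nat_lit 0) (nat_lit 0) (XT.nd (nat_lit 156) (nat_lit 76) (nat_lit 0) (XT.nd (nat_lit 78) (nat_lit 76) (nat_lit 0) (XT.lf (nat_lit 0) (nat_lit 56228143287) (nat_lit 76) (nat_lit 12049243977) (nat_lit 76) (nat_lit 1044734544) (nat_lit 4) (nat_lit 4) (nat_lit 5) (nat_lit 5) (nat_lit 5) (nat_lit 4) (nat_lit 248) (nat_lit 221) (nat_lit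 191)) (XT.lf (nat_lit 0) (nat_lit 4169934320) (nat_lit 152) (nat_lit 2061161559) (nat_lit 76) (nat_lit 72473715962) (nat_lit 3) (nat_lit 5) (nat_lit 5) (nat_lit 5) (nat_lit 4) (nat_lit 4) (nat_lit 249) (nat_lit 221) (nat_lit 190))) (XT.nd (nat_lit 78) (nat_lit 0) (nat_lit 0) (XT.lf (nat_lit 0) (nat_lit 10557484205) (nat_lit 152) (nat_lit 77902803402) (nat_lit 0) (nat_lit 952562227) (nat_lit 2) (nat_lit 5) (nat_lit 4) (nat_lit 4) (nat_lit 2) (nat_lit 4) (nat_lit 250) (nat_lit 221) (nat_lit 189)) (XT.lf (nat_lit 0) (nat_lit 18288911434) (nat_lit 152) (nat_lit 74710849603) (nat_lit 0) (nat_lit 8669516921) (nat_lit 2) (nat_lit 5) (nat_lit 4) (nat_lit 4) (nat_lit 2) (nat_lit 4) (nat_lit 251) (nat_lit 221) (nat_lit 188)))) (XT.nd (nat_lit 156) (nat_lit 0) (nat_lit 0) (XT.nd (nat_lit 78) (nat_lit 0) (nat_lit 0) (XT.lf (nat_lit 0) (nat_lit 27159316117) (nat_lit 152) (nat_lit 71080668025) (nat_lit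 0) (nat_lit 17527336792) (nat_lit 2) (nat_lit 5) (nat_lit 4) (nat_lit 4) (nat_lit 2) (nat_lit 4) (nat_lit 252) (nat_lit 221) (nat_lit 187)) (XT.lf (nat_lit 0) (nat_lit 37342249652) (nat_lit 152) (nat_lit 66941233376) (nat_lit 0) (nat_lit 27699327012) (nat_lit 2) (nat_lit 5) (nat_lit 4) (nat_lit 4) (nat_lit 2) (nat_lit 4) (nat_lit 253) (nat_lit 221) (nat_lit 186))) (XT.nd (nat_lit 78) (nat_lit 0) (nat_lit 0) (XT.lf (nat_lit 0) (nat_lit 49036943346) (nat_lit 152) (nat_lit 62211556718) (nat_lit 0) (nat_lit 39384504780) (nat_lit 2) (nat_lit 5) (nat_lit 4) (nat_lit 4) (nat_lit 2) (nat_lit 4) (nat_lit 254) (nat_lit 221) (nat_lit 185)) (XT.nd (nat_lit 78) (nat_lit 0) (nat_lit 0) (XT.lf (nat_lit 0) (nat_lit 62472206423) (nat_lit 152) (nat_lit 56799100898) (nat_lit 0) (nat_lit 52811493139) (nat_lit 2) (nat_lit 5) (nat_lit 4) (nat_lit 4) (nat_lit 2) (nat_lit 4) (nat_lit 255) (nat_lit 221) (nat_lit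 184)) (XT.lf (nat_lit 0) (nat_lit 77910902727) (nat_lit 152) (nat_lit 50597970042) (nat_lit 0) (nat_lit 68242994036) (nat_lit 2) (nat_lit 5) (nat_lit 4) (nat_lit 4) (nat_lit 2) (nat_lit 4) (nat_lit 256) (nat_lit 221) (nat_lit 183))))))))
noncomputable def xc52 : XT := (XT.nd (nat_lit 1326) (nat_lit 0) (nat_lit 0) (XT.nd (nat_lit 624) (nat_lit 0) (nat_lit 0) (XT.nd (nat_lit 312) (nat_lit 76) (nat_lit 0) (XT.nd (nat_lit 156) (nat_lit 0) (nat_lit 0) (XT.nd (nat_lit 78) (nat_lit 0) (nat_lit 0) (XT.lf (nat_lit 0) (nat_lit 95655093707) (nat_lit 152) (nat_lit 43486837677) (nat_lit 0) (nat_lit 85980928140) (nat_lit 2) (nat_lit 5) (nat_lit 4) (nat_lit 4) (nat_lit 2) (nat_lit 4) (nat_lit 257) (nat_lit 221) (nat_lit 182)) (XT.lf (nat_lit 0) (nat_lit 116051948317) (nat_lit 152) (nat_lit 35326572951) (nat_lit 0) (nat_lit 106372341988) (nat_lit 2) (nat_lit 5) (nat_lit 4) (nat_lit 4) (nat_lit 2) (nat_lit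 4) (nat_lit 258) (nat_lit 221) (nat_lit 181))) (XT.nd (nat_lit 78) (nat_lit 0) (nat_lit 0) (XT.lf (nat_lit 0) (nat_lit 139500535452) (nat_lit 152) (nat_lit 25957518512) (nat_lit 0) (nat_lit 129816198025) (nat_lit 2) (nat_lit 5) (nat_lit 4) (nat_lit 4) (nat_lit 2) (nat_lit 4) (nat_lit 259) (nat_lit 221) (nat_lit 180)) (XT.lf (nat_lit 0) (nat_lit 166459631816) (nat_lit 152) (nat_lit 15196366773) (nat_lit 0) (nat_lit 156771180392) (nat_lit 2) (nat_lit 5) (nat_lit 4) (nat_lit 4) (nat_lit 2) (nat_lit 4) (nat_lit 260) (nat_lit 221) (nat_lit 179)))) (XT.nd (nat_lit 156) (nat_lit 0) (nat_lit 0) (XT.nd (nat_lit 78) (nat_lit 76) (nat_lit 0) (XT.lf (nat_lit 0) (nat_lit 197456697990) (nat_lit 152) (nat_lit 2832573461) (nat_lit 0) (nat_lit 187764669176) (nat_lit 2) (nat_lit 5) (nat_lit 4) (nat_lit 4) (nat_lit 2) (nat_lit 4) (nat_lit 261) (nat_lit 221) (nat_lit 178)) (XT.lf (nat_lit 0) (nat_lit 12487483897)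 (nat_lit 76) (nat_lit 221127794493) (nat_lit 76) (nat_lit 211432654907) (nat_lit 1) (nat_lit 4) (nat_lit 2) (nat_lit 5) (nat_lit 2) (nat_lit 4) (nat_lit 262) (nat_lit 221) (nat_lit 177))) (XT.nd (nat_lit 78) (nat_lit 0) (nat_lit 0) (XT.lf (nat_lit 0) (nat_lit 30414321149) (nat_lit 76) (nat_lit 244926537516) (nat_lit 76) (nat_lit 235228692909) (nat_lit 1) (nat_lit 4) (nat_lit 2) (nat_lit 5) (nat_lit 2) (nat_lit 4) (nat_lit 263) (nat_lit 221) (nat_lit 176)) (XT.lf (nat_lit 0) (nat_lit 51021861083) (nat_lit 76) (nat_lit 272299194439) (nat_lit 76) (nat_lit 262598997641) (nat_lit 1) (nat_lit 4) (nat_lit 2) (nat_lit 5) (nat_lit 2) (nat_lit 4) (nat_lit 264) (nat_lit 221) (nat_lit 175))))) (XT.nd (nat_lit 312) (nat_lit 0) (nat_lit 0) (XT.nd (nat_lit 156) (nat_lit 0) (nat_lit 0) (XT.nd (nat_lit 78) (nat_lit 0) (nat_lit 0) (XT.lf (nat_lit 0) (nat_lit 74713294699) (nat_lit 76) (nat_lit 303781317246)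 (nat_lit 76) (nat_lit 294079075064) (nat_lit 1) (nat_lit 4) (nat_lit 2) (nat_lit 5) (nat_lit 2) (nat_lit 4) (nat_lit 265) (nat_lit 221) (nat_lit 174)) (XT.lf (nat_lit 0) (nat_lit 101952150044) (nat_lit 76) (nat_lit 339988860514) (nat_lit 76) (nat_lit 330284839738) (nat_lit 1) (nat_lit 4) (nat_lit 2) (nat_lit 5) (nat_lit 2) (nat_lit 4) (nat_lit 266) (nat_lit 221) (nat_lit 173))) (XT.nd (nat_lit 78) (nat_lit 0) (nat_lit 0) (XT.lf (nat_lit 0) (nat_lit 133271361246) (nat_lit 76) (nat_lit 381630232698) (nat_lit 76) (nat_lit 371924665318) (nat_lit 1) (nat_lit 4) (nat_lit 2) (nat_lit 5) (nat_lit 2) (nat_lit 4) (nat_lit 267) (nat_lit 221) (nat_lit 172)) (XT.lf (nat_lit 0) (nat_lit 169283695480) (nat_lit 76) (nat_lit 429520156297) (nat_lit 76) (nat_lit 419813244044) (nat_lit 1) (nat_lit 4) (nat_lit 2) (nat_lit 5) (nat_lit 2) (nat_lit 4) (nat_lit 268) (nat_lit 221) (nat_lit 171)))) (XT.nd (nat_lit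 156) (nat_lit 0) (nat_lit 0) (XT.nd (nat_lit 78) (nat_lit 0) (nat_lit 0) (XT.lf (nat_lit 0) (nat_lit 210693741893) (nat_lit 76) (nat_lit 484595608078) (nat_lit 76) (nat_lit 474887526370) (nat_lit 1) (nat_lit 4) (nat_lit 2) (nat_lit 5) (nat_lit 2) (nat_lit 4) (nat_lit 269) (nat_lit 221) (nat_lit 170)) (XT.lf (nat_lit 0) (nat_lit 258311697048) (nat_lit 76) (nat_lit 547934151227) (nat_lit 76) (nat_lit 538225052602) (nat_lit 1) (nat_lit 4) (nat_lit 2) (nat_lit 5) (nat_lit 2) (nat_lit 4) (nat_lit 270) (nat_lit 221) (nat_lit 169))) (XT.nd (nat_lit 78) (nat_lit 0) (nat_lit 0) (XT.lf (nat_lit 0) (nat_lit 313069216586) (nat_lit 76) (nat_lit 620775018111) (nat_lit 76) (nat_lit 611065035209) (nat_lit 1) (nat_lit 4) (nat_lit 2) (nat_lit 5) (nat_lit 2) (nat_lit 4) (nat_lit 271) (nat_lit 221) (nat_lit 168)) (XT.nd (nat_lit 78) (nat_lit 0) (nat_lit 0) (XT.lf (nat_lit 0) (nat_lit 376037643283) (nat_lit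 76) (nat_lit 704543356124) (nat_lit 76) (nat_lit 694832604287) (nat_lit 1) (nat_lit 4) (nat_lit 2) (nat_lit 5) (nat_lit 2) (nat_lit 4) (nat_lit 272) (nat_lit 221) (nat_lit 167)) (XT.lf (nat_lit 0) (nat_lit 448448968096) (nat_lit 76) (nat_lit 800878111011) (nat_lit 76) (nat_lit 791166690534) (nat_lit 1) (nat_lit 4) (nat_lit 2) (nat_lit 5) (nat_lit 2) (nat_lit 4) (nat_lit 273) (nat_lit 221) (nat_lit 166))))))) (XT.nd (nat_lit 624) (nat_lit 0) (nat_lit 0) (XT.nd (nat_lit 312) (nat_lit 0) (nat_lit 0) (XT.nd (nat_lit 156) (nat_lit 0) (nat_lit 0) (XT.nd (nat_lit 78) (nat_lit 0) (nat_lit 0) (XT.lf (nat_lit 0) (nat_lit 531719934335) (nat_lit 76) (nat_lit 911664093193) (nat_lit 76) (nat_lit 901952091291) (nat_lit 1) (nat_lit 4) (nat_lit 2) (nat_lit 5) (nat_lit 2) (nat_lit 4) (nat_lit 274) (nat_lit 221) (nat_lit 165)) (XT.lf (nat_lit 0) (nat_lit 627479756558) (nat_lit 76) (nat_lit 1039068854496)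 (nat_lit 76) (nat_lit 1029356347006) (nat_lit 1) (nat_lit 4) (nat_lit 2) (nat_lit 5) (nat_lit 2) (nat_lit 4) (nat_lit 275) (nat_lit 221) (nat_lit 164))) (XT.nd (nat_lit 78) (nat_lit 0) (nat_lit 0) (XT.lf (nat_lit 0) (nat_lit 737601996504) (nat_lit 76) (nat_lit 1185585096771) (nat_lit 76) (nat_lit 1175872149639) (nat_lit 1) (nat_lit 4) (nat_lit 2) (nat_lit 5) (nat_lit 2) (nat_lit 4) (nat_lit 276) (nat_lit 221) (nat_lit 163)) (XT.lf (nat_lit 0) (nat_lit 864241219737) (nat_lit 76) (nat_lit 1354079442149) (nat_lit 76) (nat_lit 1344366112721) (nat_lit 1) (nat_lit 4) (nat_lit 2) (nat_lit 5) (nat_lit 2) (nat_lit 4) (nat_lit 277) (nat_lit 221) (nat_lit 162)))) (XT.nd (nat_lit 156) (nat_lit 0) (nat_lit 0) (XT.nd (nat_lit 78) (nat_lit 0) (nat_lit 0) (XT.lf (nat_lit 0) (nat_lit 1009875150189) (nat_lit 76) (nat_lit 1547848519128) (nat_lit 76) (nat_lit 1538134857268) (nat_lit 1) (nat_lit 4) (nat_lit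 2) (nat_lit 5) (nat_lit 2) (nat_lit 4) (nat_lit 278) (nat_lit 221) (nat_lit 161)) (XT.lf (nat_lit 0) (nat_lit 1177353147371) (nat_lit 76) (nat_lit 1770683461822) (nat_lit 76) (nat_lit 1760969510890) (nat_lit 1) (nat_lit 4) (nat_lit 2) (nat_lit 5) (nat_lit 2) (nat_lit 4) (nat_lit 279) (nat_lit 221) (nat_lit 160))) (XT.nd (nat_lit 78) (nat_lit 0) (nat_lit 0) (XT.lf (nat_lit 0) (nat_lit 1369951954704) (nat_lit 76) (nat_lit 2026944084327) (nat_lit 76) (nat_lit 2017229882029) (nat_lit 1) (nat_lit 4) (nat_lit 2) (nat_lit 5) (nat_lit 2) (nat_lit 4) (nat_lit 280) (nat_lit 221) (nat_lit 159)) (XT.lf (nat_lit 0) (nat_lit 1591439809724) (nat_lit 76) (nat_lit 2321644181431) (nat_lit 76) (nat_lit 2311929760554) (nat_lit 1) (nat_lit 4) (nat_lit 2) (nat_lit 5) (nat_lit 2) (nat_lit 4) (nat_lit 281) (nat_lit 221) (nat_lit 158))))) (XT.nd (nat_lit 312) (nat_lit 0) (nat_lit 0) (XT.nd (nat_lit 156) (nat_lit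 0) (nat_lit 0) (XT.nd (nat_lit 78) (nat_lit 0) (nat_lit 0) (XT.lf (nat_lit 0) (nat_lit 1846150170464) (nat_lit 76) (nat_lit 2660549624599) (nat_lit 76) (nat_lit 2650835013653) (nat_lit 1) (nat_lit 4) (nat_lit 2) (nat_lit 5) (nat_lit 2) (nat_lit 4) (nat_lit 282) (nat_lit 221) (nat_lit 157)) (XT.lf (nat_lit 0) (nat_lit 2139066500503) (nat_lit 76) (nat_lit 3050291172503) (nat_lit 76) (nat_lit 3040576396279) (nat_lit 1) (nat_lit 4) (nat_lit 2) (nat_lit 5) (nat_lit 2) (nat_lit 4) (nat_lit 283) (nat_lit 221) (nat_lit 156))) (XT.nd (nat_lit 78) (nat_lit 0) (nat_lit 0) (XT.lf (nat_lit 0) (nat_lit 2475919771516) (nat_lit 76) (nat_lit 3498494203253) (nat_lit 76) (nat_lit 3488779283310) (nat_lit 1) (nat_lit 4) (nat_lit 2) (nat_lit 5) (nat_lit 2) (nat_lit 4) (nat_lit 284) (nat_lit 221) (nat_lit 155)) (XT.lf (nat_lit 0) (nat_lit 2863300590979) (nat_lit 76) (nat_lit 4013927906582) (nat_lit 76) (nat_lit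 4004212861665) (nat_lit 1) (nat_lit 4) (nat_lit 2) (nat_lit 5) (nat_lit 2) (nat_lit 4) (nat_lit 285) (nat_lit 221) (nat_lit 154)))) (XT.nd (nat_lit 156) (nat_lit 0) (nat_lit 0) (XT.nd (nat_lit 78) (nat_lit 0) (nat_lit 0) (XT.lf (nat_lit 0) (nat_lit 3308788148838) (nat_lit 76) (nat_lit 4606676854945) (nat_lit 76) (nat_lit 4596961701355) (nat_lit 1) (nat_lit 4) (nat_lit 2) (nat_lit 5) (nat_lit 2) (nat_lit 4) (nat_lit 286) (nat_lit 221) (nat_lit 153)) (XT.lf (nat_lit 0) (nat_lit 3821098506009) (nat_lit 76) (nat_lit 5288338310375) (nat_lit 76) (nat_lit 5278623062288) (nat_lit 1) (nat_lit 4) (nat_lit 2) (nat_lit 5) (nat_lit 2) (nat_lit 4) (nat_lit 287) (nat_lit 221) (nat_lit 152))) (XT.nd (nat_lit 78) (nat_lit 0) (nat_lit 0) (XT.lf (nat_lit 0) (nat_lit 4410255126000) (nat_lit 76) (nat_lit 6072249127437) (nat_lit 76) (nat_lit 6062533797177) (nat_lit 1) (nat_lit 4) (nat_lit 2) (nat_lit 5)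 (nat_lit 2) (nat_lit 4) (nat_lit 288) (nat_lit 221) (nat_lit 151)) (XT.nd (nat_lit 78) (nat_lit 0) (nat_lit 0) (XT.lf (nat_lit 0) (nat_lit 5087784986160) (nat_lit 76) (nat_lit 6973746691681) (nat_lit 76) (nat_lit 6964031289967) (nat_lit 1) (nat_lit 4) (nat_lit 2) (nat_lit 5) (nat_lit 2) (nat_lit 4) (nat_lit 289) (nat_lit 221) (nat_lit 150)) (XT.lf (nat_lit 0) (nat_lit 5866944105492) (nat_lit 76) (nat_lit 8010468998928) (nat_lit 76) (nat_lit 8000753535081) (nat_lit 1) (nat_lit 4) (nat_lit 2) (nat_lit 5) (nat_lit 2) (nat_lit 4) (nat_lit 290) (nat_lit 221) (nat_lit 149))))))))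
noncomputable def xc53 : XT := (XT.nd (nat_lit 29328) (nat_lit 0) (nat_lit 304) (XT.nd (nat_lit 624) (nat_lit 0) (nat_lit 0) (XT.nd (nat_lit 312) (nat_lit 0) (nat_lit 0) (XT.nd (nat_lit 156) (nat_lit 0) (nat_lit 0) (XT.nd (nat_lit 78) (nat_lit 0) (nat_lit 0) (XT.lf (nat_lit 0) (nat_lit 6762976901547) (nat_lit 76) (nat_lit 9202699746496) (nat_lit 76) (nat_lit 9192984228619) (nat_lit 1) (nat_lit 4) (nat_lit 2) (nat_lit 5) (nat_lit 2) (nat_lit 4) (nat_lit 291) (nat_lit 221) (nat_lit 148)) (XT.lf (nat_lit 0) (nat_lit 7793414450771) (nat_lit 76) (nat_lit 10573765188140) (nat_lit 76) (nat_lit 10564049623280) (nat_lit 1) (nat_lit 4) (nat_lit 2) (nat_lit 5) (nat_lit 2) (nat_lit 4) (nat_lit 292) (nat_lit 221) (nat_lit 147))) (XT.nd (nat_lit 78) (nat_lit 0) (nat_lit 0) (XT.lf (nat_lit 0) (nat_lit 8978417487821) (nat_lit 76) (nat_lit 12150490517284) (nat_lit 76) (nat_lit 12140774911570) (nat_lit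 1) (nat_lit 4) (nat_lit 2) (nat_lit 5) (nat_lit 2) (nat_lit 4) (nat_lit 293) (nat_lit 221) (nat_lit 146)) (XT.lf (nat_lit 0) (nat_lit 10341170854728) (nat_lit 76) (nat_lit 13963724707759) (nat_lit 76) (nat_lit 13954009066520) (nat_lit 1) (nat_lit 4) (nat_lit 2) (nat_lit 5) (nat_lit 2) (nat_lit 4) (nat_lit 294) (nat_lit 221) (nat_lit 145)))) (XT.nd (nat_lit 156) (nat_lit 0) (nat_lit 0) (XT.nd (nat_lit 78) (nat_lit 0) (nat_lit 0) (XT.lf (nat_lit 0) (nat_lit 11908337117366) (nat_lit 76) (nat_lit 16048944080683) (nat_lit 76) (nat_lit 16039228408553) (nat_lit 1) (nat_lit 4) (nat_lit 2) (nat_lit 5) (nat_lit 2) (nat_lit 4) (nat_lit 295) (nat_lit 221) (nat_lit 144)) (XT.lf (nat_lit 0) (nat_lit 13710578224351) (nat_lit 76) (nat_lit 18446946406396) (nat_lit 76) (nat_lit 18437230707403) (nat_lit 1) (nat_lit 4) (nat_lit 2) (nat_lit 5) (nat_lit 2) (nat_lit 4) (nat_lit 296) (nat_lit 221) (nat_lit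 143))) (XT.nd (nat_lit 78) (nat_lit 0) (nat_lit 0) (XT.lf (nat_lit 0) (nat_lit 15783155414733) (nat_lit 76) (nat_lit 21204649121705) (nat_lit 76) (nat_lit 21194933399354) (nat_lit 1) (nat_lit 4) (nat_lit 2) (nat_lit 5) (nat_lit 2) (nat_lit 4) (nat_lit 297) (nat_lit 221) (nat_lit 142)) (XT.lf (nat_lit 0) (nat_lit 18166619111802) (nat_lit 76) (nat_lit 24376007279736) (nat_lit 76) (nat_lit 24366291537074) (nat_lit 1) (nat_lit 4) (nat_lit 2) (nat_lit 5) (nat_lit 2) (nat_lit 4) (nat_lit 298) (nat_lit 221) (nat_lit 141))))) (XT.nd (nat_lit 312) (nat_lit 0) (nat_lit 0) (XT.nd (nat_lit 156) (nat_lit 0) (nat_lit 0) (XT.nd (nat_lit 78) (nat_lit 0) (nat_lit 0) (XT.lf (nat_lit 0) (nat_lit 20907602300936) (nat_lit 76) (nat_lit 28023069192277) (nat_lit 76) (nat_lit 28013353431952) (nat_lit 1) (nat_lit 4) (nat_lit 2) (nat_lit 5) (nat_lit 2) (nat_lit 4) (nat_lit 299) (nat_lit 221) (nat_lit 140)) (XT.lf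 (nat_lit 0) (nat_lit 24059732914096) (nat_lit 76) (nat_lit 32217190418486) (nat_lit 76) (nat_lit 32207474642802) (nat_lit 1) (nat_lit 4) (nat_lit 2) (nat_lit 5) (nat_lit 2) (nat_lit 4) (nat_lit 300) (nat_lit 221) (nat_lit 139))) (XT.nd (nat_lit 78) (nat_lit 0) (nat_lit 0) (XT.lf (nat_lit 0) (nat_lit 27684683071974) (nat_lit 76) (nat_lit 37040429851919) (nat_lit 76) (nat_lit 37030714062880) (nat_lit 1) (nat_lit 4) (nat_lit 2) (nat_lit 5) (nat_lit 2) (nat_lit 4) (nat_lit 301) (nat_lit 221) (nat_lit 138)) (XT.lf (nat_lit 0) (nat_lit 31853375712441) (nat_lit 76) (nat_lit 42587155220621) (nat_lit 76) (nat_lit 42577439419969) (nat_lit 1) (nat_lit 4) (nat_lit 2) (nat_lit 5) (nat_lit 2) (nat_lit 4) (nat_lit 302) (nat_lit 221) (nat_lit 137)))) (XT.nd (nat_lit 28158) (nat_lit 0) (nat_lit 1596) (XT.nd (nat_lit 28080) (nat_lit 0) (nat_lit 1824) (XT.lf (nat_lit 0) (nat_lit 36647372213247) (nat_lit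 76) (nat_lit 48965889412242) (nat_lit 76) (nat_lit 48956173601491) (nat_lit 1) (nat_lit 4) (nat_lit 2) (nat_lit 5) (nat_lit 2) (nat_lit 4) (nat_lit 303) (nat_lit 221) (nat_lit 136)) (XT.lf (nat_lit 0) (nat_lit 1541422203) (nat_lit 228) (nat_lit 934343515) (nat_lit 228) (nat_lit 934343515) (nat_lit 25) (nat_lit 3) (nat_lit 28) (nat_lit 3) (nat_lit 28) (nat_lit 5) (nat_lit 222) (nat_lit 222) (nat_lit 216))) (XT.nd (nat_lit 78) (nat_lit 228) (nat_lit 0) (XT.lf (nat_lit 76) (nat_lit 1323528220) (nat_lit 0) (nat_lit 3742003441) (nat_lit 228) (nat_lit 1983741648) (nat_lit 26) (nat_lit 5) (nat_lit 25) (nat_lit 3) (nat_lit 28) (nat_lit 5) (nat_lit 223) (nat_lit 222) (nat_lit 215)) (XT.nd (nat_lit 78) (nat_lit 228) (nat_lit 0) (XT.lf (nat_lit 76) (nat_lit 5011979010) (nat_lit 0) (nat_lit 2121250231) (nat_lit 228) (nat_lit 214830915) (nat_lit 26) (nat_lit 5) (nat_lit 25) (nat_lit 3) (nat_lit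 28) (nat_lit 5) (nat_lit 224) (nat_lit 222) (nat_lit 214)) (XT.lf (nat_lit 76) (nat_lit 1414609324) (nat_lit 0) (nat_lit 16152536) (nat_lit 304) (nat_lit 6286261817) (nat_lit 23) (nat_lit 5) (nat_lit 22) (nat_lit 5) (nat_lit 26) (nat_lit 5) (nat_lit 225) (nat_lit 222) (nat_lit 213))))))) (XT.nd (nat_lit 624) (nat_lit 532) (nat_lit 0) (XT.nd (nat_lit 312) (nat_lit 228) (nat_lit 0) (XT.nd (nat_lit 156) (nat_lit 380) (nat_lit 0) (XT.nd (nat_lit 78) (nat_lit 228) (nat_lit 0) (XT.lf (nat_lit 0) (nat_lit 3275595773) (nat_lit 228) (nat_lit 2480669004) (nat_lit 76) (nat_lit 2389684002) (nat_lit 23) (nat_lit 5) (nat_lit 26) (nat_lit 5) (nat_lit 24) (nat_lit 5) (nat_lit 226) (nat_lit 222) (nat_lit 212)) (XT.lf (nat_lit 0) (nat_lit 1878661801) (nat_lit 228) (nat_lit 3376961914) (nat_lit 304) (nat_lit 3406828225) (nat_lit 20) (nat_lit 5) (nat_lit 23) (nat_lit 5) (nat_lit 24) (nat_lit 5) (nat_lit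 227) (nat_lit 222) (nat_lit 211))) (XT.nd (nat_lit 78) (nat_lit 380) (nat_lit 0) (XT.lf (nat_lit 0) (nat_lit 6977715985) (nat_lit 228) (nat_lit 485236734) (nat_lit 304) (nat_lit 1805680833) (nat_lit 20) (nat_lit 5) (nat_lit 23) (nat_lit 5) (nat_lit 24) (nat_lit 5) (nat_lit 228) (nat_lit 222) (nat_lit 210)) (XT.lf (nat_lit 0) (nat_lit 94941780) (nat_lit 380) (nat_lit 7149263964) (nat_lit 76) (nat_lit 2713265284) (nat_lit 15) (nat_lit 5) (nat_lit 20) (nat_lit 5) (nat_lit 16) (nat_lit 5) (nat_lit 229) (nat_lit 222) (nat_lit 209)))) (XT.nd (nat_lit 156) (nat_lit 76) (nat_lit 0) (XT.nd (nat_lit 78) (nat_lit 152) (nat_lit 0) (XT.lf (nat_lit 0) (nat_lit 2077326233) (nat_lit 380) (nat_lit 2120935108) (nat_lit 76) (nat_lit 6542393714) (nat_lit 15) (nat_lit 5) (nat_lit 20) (nat_lit 5) (nat_lit 16) (nat_lit 5) (nat_lit 230) (nat_lit 222) (nat_lit 208)) (XT.lf (nat_lit 0) (nat_lit 3824626151) (nat_lit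 152) (nat_lit 545572032) (nat_lit 228) (nat_lit 7270148171) (nat_lit 13) (nat_lit 5) (nat_lit 15) (nat_lit 5) (nat_lit 16) (nat_lit 5) (nat_lit 231) (nat_lit 222) (nat_lit 207))) (XT.nd (nat_lit 78) (nat_lit 76) (nat_lit 0) (XT.lf (nat_lit 0) (nat_lit 7139686139) (nat_lit 228) (nat_lit 2103413852) (nat_lit 76) (nat_lit 3412857397) (nat_lit 13) (nat_lit 5) (nat_lit 16) (nat_lit 5) (nat_lit 14) (nat_lit 4) (nat_lit 232) (nat_lit 222) (nat_lit 206)) (XT.lf (nat_lit 0) (nat_lit 4693414382) (nat_lit 76) (nat_lit 5734282592) (nat_lit 152) (nat_lit 3381503645) (nat_lit 12) (nat_lit 5) (nat_lit 13) (nat_lit 5) (nat_lit 14) (nat_lit 4) (nat_lit 233) (nat_lit 222) (nat_lit 205))))) (XT.nd (nat_lit 312) (nat_lit 228) (nat_lit 0) (XT.nd (nat_lit 156) (nat_lit 76) (nat_lit 0) (XT.nd (nat_lit 78) (nat_lit 228) (nat_lit 0) (XT.lf (nat_lit 0) (nat_lit 12589440173) (nat_lit 76) (nat_lit 1620996830)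 (nat_lit 152) (nat_lit 925421150) (nat_lit 12) (nat_lit 5) (nat_lit 13) (nat_lit 5) (nat_lit 14) (nat_lit 4) (nat_lit 234) (nat_lit 222) (nat_lit 204)) (XT.lf (nat_lit 0) (nat_lit 1989026278) (nat_lit 228) (nat_lit 11522697141) (nat_lit 76) (nat_lit 3099638976) (nat_lit 9) (nat_lit 5) (nat_lit 12) (nat_lit 5) (nat_lit 10) (nat_lit 4) (nat_lit 235) (nat_lit 222) (nat_lit 203))) (XT.nd (nat_lit 78) (nat_lit 76) (nat_lit 0) (XT.lf (nat_lit 0) (nat_lit 5368427467) (nat_lit 228) (nat_lit 4412727346) (nat_lit 76) (nat_lit 8502479444) (nat_lit 9) (nat_lit 5) (nat_lit 12) (nat_lit 5) (nat_lit 10) (nat_lit 4) (nat_lit 236) (nat_lit 222) (nat_lit 202)) (XT.lf (nat_lit 0) (nat_lit 3986372872) (nat_lit 76) (nat_lit 5351602830) (nat_lit 152) (nat_lit 10856661281) (nat_lit 8) (nat_lit 5) (nat_lit 9) (nat_lit 5) (nat_lit 10) (nat_lit 4) (nat_lit 237) (nat_lit 222) (nat_lit 201)))) (XT.nd (nat_lit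 156) (nat_lit 152) (nat_lit 0) (XT.nd (nat_lit 78) (nat_lit 76) (nat_lit 0) (XT.lf (nat_lit 0) (nat_lit 14015020777) (nat_lit 76) (nat_lit 42216231) (nat_lit 152) (nat_lit 8312237607) (nat_lit 8) (nat_lit 5) (nat_lit 9) (nat_lit 5) (nat_lit 10) (nat_lit 4) (nat_lit 238) (nat_lit 222) (nat_lit 200)) (XT.lf (nat_lit 0) (nat_lit 338227008) (nat_lit 76) (nat_lit 19343028922) (nat_lit 76) (nat_lit 5160035717) (nat_lit 7) (nat_lit 4) (nat_lit 8) (nat_lit 5) (nat_lit 8) (nat_lit 4) (nat_lit 239) (nat_lit 222) (nat_lit 199))) (XT.nd (nat_lit 78) (nat_lit 152) (nat_lit 0) (XT.lf (nat_lit 0) (nat_lit 11158671690) (nat_lit 76) (nat_lit 15364842930) (nat_lit 76) (nat_lit 1104418048) (nat_lit 7) (nat_lit 4) (nat_lit 8) (nat_lit 5) (nat_lit 8) (nat_lit 4) (nat_lit 240) (nat_lit 222) (nat_lit 198)) (XT.nd (nat_lit 78) (nat_lit 76) (nat_lit 0) (XT.lf (nat_lit 0) (nat_lit 3184156504) (nat_lit 152) (nat_lit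 7481820291) (nat_lit 76) (nat_lit 20153444441) (nat_lit 6) (nat_lit 5) (nat_lit 8) (nat_lit 5) (nat_lit 7) (nat_lit 4) (nat_lit 241) (nat_lit 222) (nat_lit 197)) (XT.lf (nat_lit 0) (nat_lit 2975582085) (nat_lit 76) (nat_lit 5099714814) (nat_lit 152) (nat_lit 26395757225) (nat_lit 5) (nat_lit 5) (nat_lit 6) (nat_lit 5) (nat_lit 7) (nat_lit 4) (nat_lit 242) (nat_lit 222) (nat_lit 196))))))))
noncomputable def xc54 : XT := (XT.nd (nat_lit 1326) (nat_lit 76) (nat_lit 0) (XT.nd (nat_lit 624) (nat_lit 76) (nat_lit 0) (XT.nd (nat_lit 312) (nat_lit 76) (nat_lit 0) (XT.nd (nat_lit 156) (nat_lit 76) (nat_lit 0) (XT.nd (nat_lit 78) (nat_lit 0) (nat_lit 0) (XT.lf (nat_lit 0) (nat_lit 14114319145) (nat_lit 152) (nat_lit 22933906575) (nat_lit 0) (nat_lit 1560215811) (nat_lit 5) (nat_lit 5) (nat_lit 7) (nat_lit 4) (nat_lit 5) (nat_lit 4) (nat_lit 243) (nat_lit 222) (nat_lit 195)) (XT.lf (nat_lit 0)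 (nat_lit 21259082014) (nat_lit 152) (nat_lit 13411013281) (nat_lit 0) (nat_lit 8666481452) (nat_lit 5) (nat_lit 5) (nat_lit 7) (nat_lit 4) (nat_lit 5) (nat_lit 4) (nat_lit 244) (nat_lit 222) (nat_lit 194))) (XT.nd (nat_lit 78) (nat_lit 76) (nat_lit 0) (XT.lf (nat_lit 0) (nat_lit 29438206031) (nat_lit 152) (nat_lit 2529306364) (nat_lit 0) (nat_lit 16812129618) (nat_lit 5) (nat_lit 5) (nat_lit 7) (nat_lit 4) (nat_lit 5) (nat_lit 4) (nat_lit 245) (nat_lit 222) (nat_lit 193)) (XT.lf (nat_lit 0) (nat_lit 10893974040) (nat_lit 76) (nat_lit 28368839727) (nat_lit 76) (nat_lit 15713653878) (nat_lit 4) (nat_lit 4) (nat_lit 5) (nat_lit 5) (nat_lit 5) (nat_lit 4) (nat_lit 246) (nat_lit 222) (nat_lit 192)))) (XT.nd (nat_lit 156) (nat_lit 76) (nat_lit 0) (XT.nd (nat_lit 78) (nat_lit 0) (nat_lit 0) (XT.lf (nat_lit 0) (nat_lit 26557218390) (nat_lit 76) (nat_lit 24105470703) (nat_lit 76) (nat_lit 11424972301)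 (nat_lit 4) (nat_lit 4) (nat_lit 5) (nat_lit 5) (nat_lit 5) (nat_lit 4) (nat_lit 247) (nat_lit 222) (nat_lit 191)) (XT.lf (nat_lit 0) (nat_lit 44519699253) (nat_lit 76) (nat_lit 19226205322) (nat_lit 76) (nat_lit 6523696006) (nat_lit 4) (nat_lit 4) (nat_lit 5) (nat_lit 5) (nat_lit 5) (nat_lit 4) (nat_lit 248) (nat_lit 222) (nat_lit 190))) (XT.nd (nat_lit 78) (nat_lit 76) (nat_lit 0) (XT.lf (nat_lit 0) (nat_lit 65132856474) (nat_lit 76) (nat_lit 13635579698) (nat_lit 76) (nat_lit 913930455) (nat_lit 4) (nat_lit 4) (nat_lit 5) (nat_lit 5) (nat_lit 5) (nat_lit 4) (nat_lit 249) (nat_lit 222) (nat_lit 189)) (XT.lf (nat_lit 0) (nat_lit 5023179044) (nat_lit 152) (nat_lit 1938457711) (nat_lit 76) (nat_lit 83514236640) (nat_lit 3) (nat_lit 5) (nat_lit 5) (nat_lit 5) (nat_lit 4) (nat_lit 4) (nat_lit 250) (nat_lit 222) (nat_lit 188))))) (XT.nd (nat_lit 312) (nat_lit 0) (nat_lit 0) (XT.nd (nat_lit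 156) (nat_lit 0) (nat_lit 0) (XT.nd (nat_lit 78) (nat_lit 0) (nat_lit 0) (XT.lf (nat_lit 0) (nat_lit 12364387286) (nat_lit 152) (nat_lit 89151439500) (nat_lit 0) (nat_lit 1275026250) (nat_lit 2) (nat_lit 5) (nat_lit 4) (nat_lit 4) (nat_lit 2) (nat_lit 4) (nat_lit 251) (nat_lit 222) (nat_lit 187)) (XT.lf (nat_lit 0) (nat_lit 21226405062) (nat_lit 152) (nat_lit 85537664511) (nat_lit 0) (nat_lit 10126100711) (nat_lit 2) (nat_lit 5) (nat_lit 4) (nat_lit 4) (nat_lit 2) (nat_lit 4) (nat_lit 252) (nat_lit 222) (nat_lit 186))) (XT.nd (nat_lit 78) (nat_lit 0) (nat_lit 0) (XT.lf (nat_lit 0) (nat_lit 31402045633) (nat_lit 152) (nat_lit 81412496461) (nat_lit 0) (nat_lit 20292225356) (nat_lit 2) (nat_lit 5) (nat_lit 4) (nat_lit 4) (nat_lit 2) (nat_lit 4) (nat_lit 253) (nat_lit 222) (nat_lit 185)) (XT.lf (nat_lit 0) (nat_lit 43090397620) (nat_lit 152) (nat_lit 76695225541) (nat_lit 0) (nat_lit 31972302625)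 (nat_lit 2) (nat_lit 5) (nat_lit 4) (nat_lit 4) (nat_lit 2) (nat_lit 4) (nat_lit 254) (nat_lit 222) (nat_lit 184)))) (XT.nd (nat_lit 156) (nat_lit 0) (nat_lit 0) (XT.nd (nat_lit 78) (nat_lit 0) (nat_lit 0) (XT.lf (nat_lit 0) (nat_lit 56520146170) (nat_lit 152) (nat_lit 71293557320) (nat_lit 0) (nat_lit 45394855767) (nat_lit 2) (nat_lit 5) (nat_lit 4) (nat_lit 4) (nat_lit 2) (nat_lit 4) (nat_lit 255) (nat_lit 222) (nat_lit 183)) (XT.lf (nat_lit 0) (nat_lit 71954047232) (nat_lit 152) (nat_lit 65101806984) (nat_lit 0) (nat_lit 60822499953) (nat_lit 2) (nat_lit 5) (nat_lit 4) (nat_lit 4) (nat_lit 2) (nat_lit 4) (nat_lit 256) (nat_lit 222) (nat_lit 182))) (XT.nd (nat_lit 78) (nat_lit 0) (nat_lit 0) (XT.lf (nat_lit 0) (nat_lit 89694068437) (nat_lit 152) (nat_lit 57998831593) (nat_lit 0) (nat_lit 78557080396) (nat_lit 2) (nat_lit 5) (nat_lit 4) (nat_lit 4) (nat_lit 2) (nat_lit 4) (nat_lit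 257) (nat_lit 222) (nat_lit 181)) (XT.nd (nat_lit 78) (nat_lit 0) (nat_lit 0) (XT.lf (nat_lit 0) (nat_lit 110087297155) (nat_lit 152) (nat_lit 49845659889) (nat_lit 0) (nat_lit 98945578018) (nat_lit 2) (nat_lit 5) (nat_lit 4) (nat_lit 4) (nat_lit 2) (nat_lit 4) (nat_lit 258) (nat_lit 222) (nat_lit 180)) (XT.lf (nat_lit 0) (nat_lit 133532731340) (nat_lit 152) (nat_lit 40482773295) (nat_lit 0) (nat_lit 122386898205) (nat_lit 2) (nat_lit 5) (nat_lit 4) (nat_lit 4) (nat_lit 2) (nat_lit 4) (nat_lit 259) (nat_lit 222) (nat_lit 179))))))) (XT.nd (nat_lit 624) (nat_lit 0) (nat_lit 0) (XT.nd (nat_lit 312) (nat_lit 0) (nat_lit 0) (XT.nd (nat_lit 156) (nat_lit 76) (nat_lit 0) (XT.nd (nat_lit 78) (nat_lit 0) (nat_lit 0) (XT.lf (nat_lit 0) (nat_lit 160489086009) (nat_lit 152) (nat_lit 29726984899) (nat_lit 0) (nat_lit 149339675485) (nat_lit 2) (nat_lit 5) (nat_lit 4) (nat_lit 4) (nat_lit 2) (nat_lit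 4) (nat_lit 260) (nat_lit 222) (nat_lit 178)) (XT.lf (nat_lit 0) (nat_lit 191483768100) (nat_lit 152) (nat_lit 17367855363) (nat_lit 0) (nat_lit 180331246803) (nat_lit 2) (nat_lit 5) (nat_lit 4) (nat_lit 4) (nat_lit 2) (nat_lit 4) (nat_lit 261) (nat_lit 222) (nat_lit 177))) (XT.nd (nat_lit 78) (nat_lit 76) (nat_lit 0) (XT.lf (nat_lit 0) (nat_lit 227123195308) (nat_lit 152) (nat_lit 3163575631) (nat_lit 0) (nat_lit 215967968990) (nat_lit 2) (nat_lit 5) (nat_lit 4) (nat_lit 4) (nat_lit 2) (nat_lit 4) (nat_lit 262) (nat_lit 222) (nat_lit 176)) (XT.lf (nat_lit 0) (nat_lit 14450222883) (nat_lit 76) (nat_lit 254252790803) (nat_lit 76) (nat_lit 243095212294) (nat_lit 1) (nat_lit 4) (nat_lit 2) (nat_lit 5) (nat_lit 2) (nat_lit 4) (nat_lit 263) (nat_lit 222) (nat_lit 175)))) (XT.nd (nat_lit 156) (nat_lit 0) (nat_lit 0) (XT.nd (nat_lit 78) (nat_lit 0) (nat_lit 0) (XT.lf (nat_lit 0) (nat_lit 35054396627)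 (nat_lit 76) (nat_lit 281627106956) (nat_lit 76) (nat_lit 270467483064) (nat_lit 1) (nat_lit 4) (nat_lit 2) (nat_lit 5) (nat_lit 2) (nat_lit 4) (nat_lit 264) (nat_lit 222) (nat_lit 174)) (XT.lf (nat_lit 0) (nat_lit 58742903120) (nat_lit 76) (nat_lit 313110672573) (nat_lit 76) (nat_lit 301949270085) (nat_lit 1) (nat_lit 4) (nat_lit 2) (nat_lit 5) (nat_lit 2) (nat_lit 4) (nat_lit 265) (nat_lit 222) (nat_lit 173))) (XT.nd (nat_lit 78) (nat_lit 0) (nat_lit 0) (XT.lf (nat_lit 0) (nat_lit 85979213142) (nat_lit 76) (nat_lit 349319470457) (nat_lit 76) (nat_lit 338156521366) (nat_lit 1) (nat_lit 4) (nat_lit 2) (nat_lit 5) (nat_lit 2) (nat_lit 4) (nat_lit 266) (nat_lit 222) (nat_lit 172)) (XT.lf (nat_lit 0) (nat_lit 117296211019) (nat_lit 76) (nat_lit 390961933612) (nat_lit 76) (nat_lit 379797639648) (nat_lit 1) (nat_lit 4) (nat_lit 2) (nat_lit 5) (nat_lit 2) (nat_lit 4) (nat_lit 267) (nat_lit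 222) (nat_lit 171))))) (XT.nd (nat_lit 312) (nat_lit 0) (nat_lit 0) (XT.nd (nat_lit 156) (nat_lit 0) (nat_lit 0) (XT.nd (nat_lit 78) (nat_lit 0) (nat_lit 0) (XT.lf (nat_lit 0) (nat_lit 153306620623) (nat_lit 76) (nat_lit 438852805882) (nat_lit 76) (nat_lit 427687342463) (nat_lit 1) (nat_lit 4) (nat_lit 2) (nat_lit 5) (nat_lit 2) (nat_lit 4) (nat_lit 268) (nat_lit 222) (nat_lit 170)) (XT.lf (nat_lit 0) (nat_lit 194714993445) (nat_lit 76) (nat_lit 493929082594) (nat_lit 76) (nat_lit 482762602257) (nat_lit 1) (nat_lit 4) (nat_lit 2) (nat_lit 5) (nat_lit 2) (nat_lit 4) (nat_lit 269) (nat_lit 222) (nat_lit 169))) (XT.nd (nat_lit 78) (nat_lit 0) (nat_lit 0) (XT.lf (nat_lit 0) (nat_lit 242331493302) (nat_lit 76) (nat_lit 557268343074) (nat_lit 76) (nat_lit 546100978461) (nat_lit 1) (nat_lit 4) (nat_lit 2) (nat_lit 5) (nat_lit 2) (nat_lit 4) (nat_lit 270) (nat_lit 222) (nat_lit 168)) (XT.lf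 (nat_lit 0) (nat_lit 297087747365) (nat_lit 76) (nat_lit 630109833723) (nat_lit 76) (nat_lit 618941700176) (nat_lit 1) (nat_lit 4) (nat_lit 2) (nat_lit 5) (nat_lit 2) (nat_lit 4) (nat_lit 271) (nat_lit 222) (nat_lit 167)))) (XT.nd (nat_lit 156) (nat_lit 0) (nat_lit 0) (XT.nd (nat_lit 78) (nat_lit 0) (nat_lit 0) (XT.lf (nat_lit 0) (nat_lit 360055073649) (nat_lit 76) (nat_lit 713878714142) (nat_lit 76) (nat_lit 702709911955) (nat_lit 1) (nat_lit 4) (nat_lit 2) (nat_lit 5) (nat_lit 2) (nat_lit 4) (nat_lit 272) (nat_lit 222) (nat_lit 166)) (XT.lf (nat_lit 0) (nat_lit 432465441580) (nat_lit 76) (nat_lit 810213940686) (nat_lit 76) (nat_lit 799044557073) (nat_lit 1) (nat_lit 4) (nat_lit 2) (nat_lit 5) (nat_lit 2) (nat_lit 4) (nat_lit 273) (nat_lit 222) (nat_lit 165))) (XT.nd (nat_lit 78) (nat_lit 0) (nat_lit 0) (XT.lf (nat_lit 0) (nat_lit 515735575748) (nat_lit 76) (nat_lit 921000333004) (nat_lit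 76) (nat_lit 909830443804) (nat_lit 1) (nat_lit 4) (nat_lit 2) (nat_lit 5) (nat_lit 2) (nat_lit 4) (nat_lit 274) (nat_lit 222) (nat_lit 164)) (XT.nd (nat_lit 78) (nat_lit 0) (nat_lit 0) (XT.lf (nat_lit 0) (nat_lit 611494674431) (nat_lit 76) (nat_lit 1048405450948) (nat_lit 76) (nat_lit 1037235122105) (nat_lit 1) (nat_lit 4) (nat_lit 2) (nat_lit 5) (nat_lit 2) (nat_lit 4) (nat_lit 275) (nat_lit 222) (nat_lit 163)) (XT.lf (nat_lit 0) (nat_lit 721616285212) (nat_lit 76) (nat_lit 1194922003345) (nat_lit 76) (nat_lit 1183751292205) (nat_lit 1) (nat_lit 4) (nat_lit 2) (nat_lit 5) (nat_lit 2) (nat_lit 4) (nat_lit 276) (nat_lit 222) (nat_lit 162))))))))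
noncomputable def xc55 : XT := (XT.nd (nat_lit 1326) (nat_lit 0) (nat_lit 0) (XT.nd (nat_lit 624) (nat_lit 0) (nat_lit 0) (XT.nd (nat_lit 312) (nat_lit 0) (nat_lit 0) (XT.nd (nat_lit 156) (nat_lit 0) (nat_lit 0) (XT.nd (nat_lit 78) (nat_lit 0) (nat_lit 0) (XT.lf (nat_lit 0) (nat_lit 848254961345) (nat_lit 76) (nat_lit 1363416618394) (nat_lit 76) (nat_lit 1352245574823) (nat_lit 1) (nat_lit 4) (nat_lit 2) (nat_lit 5) (nat_lit 2) (nat_lit 4) (nat_lit 277) (nat_lit 222) (nat_lit 161)) (XT.lf (nat_lit 0) (nat_lit 993888416059) (nat_lit 76) (nat_lit 1557185929870) (nat_lit 76) (nat_lit 1546014597228) (nat_lit 1) (nat_lit 4) (nat_lit 2) (nat_lit 5) (nat_lit 2) (nat_lit 4) (nat_lit 278) (nat_lit 222) (nat_lit 160))) (XT.nd (nat_lit 78) (nat_lit 0) (nat_lit 0) (XT.lf (nat_lit 0) (nat_lit 1161365999554) (nat_lit 76) (nat_lit 1780021076474) (nat_lit 76) (nat_lit 1768849492465) (nat_lit 1) (nat_lit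 4) (nat_lit 2) (nat_lit 5) (nat_lit 2) (nat_lit 4) (nat_lit 279) (nat_lit 222) (nat_lit 159)) (XT.lf (nat_lit 0) (nat_lit 1353964447160) (nat_lit 76) (nat_lit 2036281876292) (nat_lit 76) (nat_lit 2025110073704) (nat_lit 1) (nat_lit 4) (nat_lit 2) (nat_lit 5) (nat_lit 2) (nat_lit 4) (nat_lit 280) (nat_lit 222) (nat_lit 158)))) (XT.nd (nat_lit 156) (nat_lit 0) (nat_lit 0) (XT.nd (nat_lit 78) (nat_lit 0) (nat_lit 0) (XT.lf (nat_lit 0) (nat_lit 1575451989374) (nat_lit 76) (nat_lit 2330982127582) (nat_lit 76) (nat_lit 2319810134925) (nat_lit 1) (nat_lit 4) (nat_lit 2) (nat_lit 5) (nat_lit 2) (nat_lit 4) (nat_lit 281) (nat_lit 222) (nat_lit 157)) (XT.lf (nat_lit 0) (nat_lit 1830162078108) (nat_lit 76) (nat_lit 2669887704825) (nat_lit 76) (nat_lit 2658715546890) (nat_lit 1) (nat_lit 4) (nat_lit 2) (nat_lit 5) (nat_lit 2) (nat_lit 4) (nat_lit 282) (nat_lit 222) (nat_lit 156))) (XT.nd (nat_lit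 78) (nat_lit 0) (nat_lit 0) (XT.lf (nat_lit 0) (nat_lit 2123078171621) (nat_lit 76) (nat_lit 3059629369315) (nat_lit 76) (nat_lit 3048457067661) (nat_lit 1) (nat_lit 4) (nat_lit 2) (nat_lit 5) (nat_lit 2) (nat_lit 4) (nat_lit 283) (nat_lit 222) (nat_lit 155)) (XT.lf (nat_lit 0) (nat_lit 2459931236958) (nat_lit 76) (nat_lit 3507832501445) (nat_lit 76) (nat_lit 3496660074817) (nat_lit 1) (nat_lit 4) (nat_lit 2) (nat_lit 5) (nat_lit 2) (nat_lit 4) (nat_lit 284) (nat_lit 222) (nat_lit 154))))) (XT.nd (nat_lit 312) (nat_lit 0) (nat_lit 0) (XT.nd (nat_lit 156) (nat_lit 0) (nat_lit 0) (XT.nd (nat_lit 78) (nat_lit 0) (nat_lit 0) (XT.lf (nat_lit 0) (nat_lit 2847311877574) (nat_lit 76) (nat_lit 4023266292929) (nat_lit 76) (nat_lit 4012093757628) (nat_lit 1) (nat_lit 4) (nat_lit 2) (nat_lit 5) (nat_lit 2) (nat_lit 4) (nat_lit 285) (nat_lit 222) (nat_lit 153)) (XT.lf (nat_lit 0) (nat_lit 3292799279913)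 (nat_lit 76) (nat_lit 4616015317949) (nat_lit 76) (nat_lit 4604842688151) (nat_lit 1) (nat_lit 4) (nat_lit 2) (nat_lit 5) (nat_lit 2) (nat_lit 4) (nat_lit 286) (nat_lit 222) (nat_lit 152))) (XT.nd (nat_lit 78) (nat_lit 0) (nat_lit 0) (XT.lf (nat_lit 0) (nat_lit 3805109501849) (nat_lit 76) (nat_lit 5297676840039) (nat_lit 76) (nat_lit 5286504128068) (nat_lit 1) (nat_lit 4) (nat_lit 2) (nat_lit 5) (nat_lit 2) (nat_lit 4) (nat_lit 287) (nat_lit 222) (nat_lit 151)) (XT.lf (nat_lit 0) (nat_lit 4394266004245) (nat_lit 76) (nat_lit 6081587715065) (nat_lit 76) (nat_lit 6070414931640) (nat_lit 1) (nat_lit 4) (nat_lit 2) (nat_lit 5) (nat_lit 2) (nat_lit 4) (nat_lit 288) (nat_lit 222) (nat_lit 150)))) (XT.nd (nat_lit 156) (nat_lit 0) (nat_lit 0) (XT.nd (nat_lit 78) (nat_lit 0) (nat_lit 0) (XT.lf (nat_lit 0) (nat_lit 5071795762148) (nat_lit 76) (nat_lit 6983085329712) (nat_lit 76) (nat_lit 6971912484153)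 (nat_lit 1) (nat_lit 4) (nat_lit 2) (nat_lit 5) (nat_lit 2) (nat_lit 4) (nat_lit 289) (nat_lit 222) (nat_lit 149)) (XT.lf (nat_lit 0) (nat_lit 5850954792560) (nat_lit 76) (nat_lit 8019807680788) (nat_lit 76) (nat_lit 8008634781200) (nat_lit 1) (nat_lit 4) (nat_lit 2) (nat_lit 5) (nat_lit 2) (nat_lit 4) (nat_lit 290) (nat_lit 222) (nat_lit 148))) (XT.nd (nat_lit 78) (nat_lit 0) (nat_lit 0) (XT.lf (nat_lit 0) (nat_lit 6746987511295) (nat_lit 76) (nat_lit 9212038466468) (nat_lit 76) (nat_lit 9200865519898) (nat_lit 1) (nat_lit 4) (nat_lit 2) (nat_lit 5) (nat_lit 2) (nat_lit 4) (nat_lit 291) (nat_lit 222) (nat_lit 147)) (XT.nd (nat_lit 78) (nat_lit 0) (nat_lit 0) (XT.lf (nat_lit 0) (nat_lit 7777424993283) (nat_lit 76) (nat_lit 10583103941253) (nat_lit 76) (nat_lit 10571930953829) (nat_lit 1) (nat_lit 4) (nat_lit 2) (nat_lit 5) (nat_lit 2) (nat_lit 4) (nat_lit 292) (nat_lit 222) (nat_lit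 146)) (XT.lf (nat_lit 0) (nat_lit 8962427971868) (nat_lit 76) (nat_lit 12159829299216) (nat_lit 76) (nat_lit 12148656276266) (nat_lit 1) (nat_lit 4) (nat_lit 2) (nat_lit 5) (nat_lit 2) (nat_lit 4) (nat_lit 293) (nat_lit 222) (nat_lit 145))))))) (XT.nd (nat_lit 624) (nat_lit 0) (nat_lit 0) (XT.nd (nat_lit 312) (nat_lit 0) (nat_lit 0) (XT.nd (nat_lit 156) (nat_lit 0) (nat_lit 0) (XT.nd (nat_lit 78) (nat_lit 0) (nat_lit 0) (XT.lf (nat_lit 0) (nat_lit 10325181287935) (nat_lit 76) (nat_lit 13973063514750) (nat_lit 76) (nat_lit 13961890460909) (nat_lit 1) (nat_lit 4) (nat_lit 2) (nat_lit 5) (nat_lit 2) (nat_lit 4) (nat_lit 294) (nat_lit 222) (nat_lit 144)) (XT.lf (nat_lit 0) (nat_lit 11892347506364) (nat_lit 76) (nat_lit 16058282909465) (nat_lit 76) (nat_lit 16047109828761) (nat_lit 1) (nat_lit 4) (nat_lit 2) (nat_lit 5) (nat_lit 2) (nat_lit 4) (nat_lit 295) (nat_lit 222) (nat_lit 143)))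 (XT.nd (nat_lit 78) (nat_lit 0) (nat_lit 0) (XT.lf (nat_lit 0) (nat_lit 13694588574907) (nat_lit 76) (nat_lit 18456285254127) (nat_lit 76) (nat_lit 18445112150065) (nat_lit 1) (nat_lit 4) (nat_lit 2) (nat_lit 5) (nat_lit 2) (nat_lit 4) (nat_lit 296) (nat_lit 222) (nat_lit 142)) (XT.lf (nat_lit 0) (nat_lit 15767165731861) (nat_lit 76) (nat_lit 21213987985913) (nat_lit 76) (nat_lit 21202814861539) (nat_lit 1) (nat_lit 4) (nat_lit 2) (nat_lit 5) (nat_lit 2) (nat_lit 4) (nat_lit 297) (nat_lit 222) (nat_lit 141)))) (XT.nd (nat_lit 156) (nat_lit 0) (nat_lit 0) (XT.nd (nat_lit 78) (nat_lit 0) (nat_lit 0) (XT.lf (nat_lit 0) (nat_lit 18150629399862) (nat_lit 76) (nat_lit 24385346158272) (nat_lit 76) (nat_lit 24374173016236) (nat_lit 1) (nat_lit 4) (nat_lit 2) (nat_lit 5) (nat_lit 2) (nat_lit 4) (nat_lit 298) (nat_lit 222) (nat_lit 140)) (XT.lf (nat_lit 0) (nat_lit 20891612563720) (nat_lit 76)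 (nat_lit 28032408083272) (nat_lit 76) (nat_lit 28021234925877) (nat_lit 1) (nat_lit 4) (nat_lit 2) (nat_lit 5) (nat_lit 2) (nat_lit 4) (nat_lit 299) (nat_lit 222) (nat_lit 139))) (XT.nd (nat_lit 78) (nat_lit 0) (nat_lit 0) (XT.lf (nat_lit 0) (nat_lit 24043743154900) (nat_lit 76) (nat_lit 32226529320314) (nat_lit 76) (nat_lit 32215356149564) (nat_lit 1) (nat_lit 4) (nat_lit 2) (nat_lit 5) (nat_lit 2) (nat_lit 4) (nat_lit 300) (nat_lit 222) (nat_lit 138)) (XT.lf (nat_lit 0) (nat_lit 27668693293666) (nat_lit 76) (nat_lit 37049768763168) (nat_lit 76) (nat_lit 37038595580805) (nat_lit 1) (nat_lit 4) (nat_lit 2) (nat_lit 5) (nat_lit 2) (nat_lit 4) (nat_lit 301) (nat_lit 222) (nat_lit 137))))) (XT.nd (nat_lit 28470) (nat_lit 0) (nat_lit 1064) (XT.nd (nat_lit 28314) (nat_lit 0) (nat_lit 1596) (XT.nd (nat_lit 28236) (nat_lit 0) (nat_lit 1824) (XT.lf (nat_lit 0) (nat_lit 31837385917514) (nat_lit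 76) (nat_lit 42596494140062) (nat_lit 76) (nat_lit 42585320947601) (nat_lit 1) (nat_lit 4) (nat_lit 2) (nat_lit 5) (nat_lit 2) (nat_lit 4) (nat_lit 302) (nat_lit 222) (nat_lit 136)) (XT.lf (nat_lit 0) (nat_lit 3399049514) (nat_lit 228) (nat_lit 129845481) (nat_lit 228) (nat_lit 129845481) (nat_lit 25) (nat_lit 3) (nat_lit 28) (nat_lit 3) (nat_lit 28) (nat_lit 5) (nat_lit 223) (nat_lit 223) (nat_lit 214))) (XT.nd (nat_lit 78) (nat_lit 0) (nat_lit 0) (XT.lf (nat_lit 0) (nat_lit 993244832) (nat_lit 228) (nat_lit 4357939527) (nat_lit 304) (nat_lit 2280314894) (nat_lit 22) (nat_lit 5) (nat_lit 25) (nat_lit 3) (nat_lit 26) (nat_lit 5) (nat_lit 224) (nat_lit 223) (nat_lit 213)) (XT.lf (nat_lit 0) (nat_lit 2445765448) (nat_lit 228) (nat_lit 822173329) (nat_lit 304) (nat_lit 4758356530) (nat_lit 22) (nat_lit 5) (nat_lit 25) (nat_lit 3) (nat_lit 26) (nat_lit 5) (nat_lit 225) (nat_lit 223) (nat_lit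 212)))) (XT.nd (nat_lit 156) (nat_lit 532) (nat_lit 0) (XT.nd (nat_lit 78) (nat_lit 0) (nat_lit 76) (XT.lf (nat_lit 76) (nat_lit 3396613853) (nat_lit 0) (nat_lit 644504219) (nat_lit 304) (nat_lit 4452459243) (nat_lit 23) (nat_lit 5) (nat_lit 22) (nat_lit 5) (nat_lit 26) (nat_lit 5) (nat_lit 226) (nat_lit 223) (nat_lit 211)) (XT.lf (nat_lit 0) (nat_lit 5827651275) (nat_lit 228) (nat_lit 959959424) (nat_lit 76) (nat_lit 2252306782) (nat_lit 23) (nat_lit 5) (nat_lit 26) (nat_lit 5) (nat_lit 24) (nat_lit 5) (nat_lit 227) (nat_lit 223) (nat_lit 210))) (XT.nd (nat_lit 78) (nat_lit 380) (nat_lit 0) (XT.lf (nat_lit 0) (nat_lit 3967234187) (nat_lit 228) (nat_lit 3943474781) (nat_lit 304) (nat_lit 1754737599) (nat_lit 20) (nat_lit 5) (nat_lit 23) (nat_lit 5) (nat_lit 24) (nat_lit 5) (nat_lit 228) (nat_lit 223) (nat_lit 209)) (XT.nd (nat_lit 78) (nat_lit 380) (nat_lit 0) (XT.lf (nat_lit 0) (nat_lit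 9595480440) (nat_lit 228) (nat_lit 610168835) (nat_lit 304) (nat_lit 195563515) (nat_lit 20) (nat_lit 5) (nat_lit 23) (nat_lit 5) (nat_lit 24) (nat_lit 5) (nat_lit 229) (nat_lit 223) (nat_lit 208)) (XT.lf (nat_lit 0) (nat_lit 1673043968) (nat_lit 380) (nat_lit 6310307805) (nat_lit 76) (nat_lit 3222402550) (nat_lit 15) (nat_lit 5) (nat_lit 20) (nat_lit 5) (nat_lit 16) (nat_lit 5) (nat_lit 230) (nat_lit 223) (nat_lit 207))))))))
noncomputable def xc56 : XT := (XT.nd (nat_lit 1326) (nat_lit 228) (nat_lit 0) (XT.nd (nat_lit 624) (nat_lit 304) (nat_lit 0) (XT.nd (nat_lit 312) (nat_lit 304) (nat_lit 0) (XT.nd (nat_lit 156) (nat_lit 76) (nat_lit 0) (XT.nd (nat_lit 78) (nat_lit 152) (nat_lit 0) (XT.lf (nat_lit 0) (nat_lit 3748804230) (nat_lit 380) (nat_lit 777035588) (nat_lit 76) (nat_lit 7612576661) (nat_lit 15) (nat_lit 5) (nat_lit 20) (nat_lit 5) (nat_lit 16) (nat_lit 5) (nat_lit 231) (nat_lit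 223) (nat_lit 206)) (XT.lf (nat_lit 0) (nat_lit 5984812596) (nat_lit 152) (nat_lit 289112118) (nat_lit 228) (nat_lit 6917109312) (nat_lit 13) (nat_lit 5) (nat_lit 15) (nat_lit 5) (nat_lit 16) (nat_lit 5) (nat_lit 232) (nat_lit 223) (nat_lit 205))) (XT.nd (nat_lit 78) (nat_lit 76) (nat_lit 0) (XT.lf (nat_lit 0) (nat_lit 9308208545) (nat_lit 228) (nat_lit 881666191) (nat_lit 76) (nat_lit 4192767132) (nat_lit 13) (nat_lit 5) (nat_lit 16) (nat_lit 5) (nat_lit 14) (nat_lit 4) (nat_lit 233) (nat_lit 223) (nat_lit 204)) (XT.lf (nat_lit 0) (nat_lit 6864810836) (nat_lit 76) (nat_lit 6142210188) (nat_lit 152) (nat_lit 2715133216) (nat_lit 12) (nat_lit 5) (nat_lit 13) (nat_lit 5) (nat_lit 14) (nat_lit 4) (nat_lit 234) (nat_lit 223) (nat_lit 203)))) (XT.nd (nat_lit 156) (nat_lit 76) (nat_lit 0) (XT.nd (nat_lit 78) (nat_lit 228) (nat_lit 0) (XT.lf (nat_lit 0) (nat_lit 15753842544) (nat_lit 76) (nat_lit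 1470916100) (nat_lit 152) (nat_lit 43716083) (nat_lit 12) (nat_lit 5) (nat_lit 13) (nat_lit 5) (nat_lit 14) (nat_lit 4) (nat_lit 235) (nat_lit 223) (nat_lit 202)) (XT.lf (nat_lit 0) (nat_lit 3168483553) (nat_lit 228) (nat_lit 11827004971) (nat_lit 76) (nat_lit 3971368317) (nat_lit 9) (nat_lit 5) (nat_lit 12) (nat_lit 5) (nat_lit 10) (nat_lit 4) (nat_lit 236) (nat_lit 223) (nat_lit 201))) (XT.nd (nat_lit 78) (nat_lit 76) (nat_lit 0) (XT.lf (nat_lit 0) (nat_lit 6939868398) (nat_lit 228) (nat_lit 3836291456) (nat_lit 76) (nat_lit 10131576139) (nat_lit 9) (nat_lit 5) (nat_lit 12) (nat_lit 5) (nat_lit 10) (nat_lit 4) (nat_lit 237) (nat_lit 223) (nat_lit 200)) (XT.lf (nat_lit 0) (nat_lit 5766385387) (nat_lit 76) (nat_lit 5687473819) (nat_lit 152) (nat_lit 11659637095) (nat_lit 8) (nat_lit 5) (nat_lit 9) (nat_lit 5) (nat_lit 10) (nat_lit 4) (nat_lit 238) (nat_lit 223) (nat_lit 199))))) (XT.nd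 (nat_lit 312) (nat_lit 152) (nat_lit 0) (XT.nd (nat_lit 156) (nat_lit 76) (nat_lit 0) (XT.nd (nat_lit 78) (nat_lit 76) (nat_lit 0) (XT.lf (nat_lit 0) (nat_lit 16802524624) (nat_lit 152) (nat_lit 8498602274) (nat_lit 0) (nat_lit 325604332) (nat_lit 8) (nat_lit 5) (nat_lit 10) (nat_lit 4) (nat_lit 8) (nat_lit 4) (nat_lit 239) (nat_lit 223) (nat_lit 198)) (XT.lf (nat_lit 0) (nat_lit 1445651797) (nat_lit 76) (nat_lit 21786949886) (nat_lit 76) (nat_lit 5242697701) (nat_lit 7) (nat_lit 4) (nat_lit 8) (nat_lit 5) (nat_lit 8) (nat_lit 4) (nat_lit 240) (nat_lit 223) (nat_lit 197))) (XT.nd (nat_lit 78) (nat_lit 76) (nat_lit 0) (XT.lf (nat_lit 0) (nat_lit 13751333955) (nat_lit 76) (nat_lit 17271714262) (nat_lit 76) (nat_lit 668912604) (nat_lit 7) (nat_lit 4) (nat_lit 8) (nat_lit 5) (nat_lit 8) (nat_lit 4) (nat_lit 241) (nat_lit 223) (nat_lit 196)) (XT.lf (nat_lit 0) (nat_lit 4137995637) (nat_lit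 152) (nat_lit 7757023623) (nat_lit 76) (nat_lit 23474362369) (nat_lit 6) (nat_lit 5) (nat_lit 8) (nat_lit 5) (nat_lit 7) (nat_lit 4) (nat_lit 242) (nat_lit 223) (nat_lit 195)))) (XT.nd (nat_lit 156) (nat_lit 76) (nat_lit 0) (XT.nd (nat_lit 78) (nat_lit 0) (nat_lit 0) (XT.lf (nat_lit 0) (nat_lit 4230485940) (nat_lit 76) (nat_lit 5503687081) (nat_lit 152) (nat_lit 29839079857) (nat_lit 5) (nat_lit 5) (nat_lit 6) (nat_lit 5) (nat_lit 7) (nat_lit 4) (nat_lit 243) (nat_lit 223) (nat_lit 194)) (XT.lf (nat_lit 0) (nat_lit 16633666325) (nat_lit 152) (nat_lit 25624359266) (nat_lit 0) (nat_lit 2080202599) (nat_lit 5) (nat_lit 5) (nat_lit 7) (nat_lit 4) (nat_lit 5) (nat_lit 4) (nat_lit 244) (nat_lit 223) (nat_lit 193))) (XT.nd (nat_lit 78) (nat_lit 76) (nat_lit 0) (XT.lf (nat_lit 0) (nat_lit 24797682845) (nat_lit 152) (nat_lit 14770810234) (nat_lit 0) (nat_lit 10215109684) (nat_lit 5) (nat_lit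 5) (nat_lit 7) (nat_lit 4) (nat_lit 5) (nat_lit 4) (nat_lit 245) (nat_lit 223) (nat_lit 192)) (XT.nd (nat_lit 78) (nat_lit 76) (nat_lit 0) (XT.lf (nat_lit 0) (nat_lit 34158057395) (nat_lit 152) (nat_lit 2341871849) (nat_lit 0) (nat_lit 19550171681) (nat_lit 5) (nat_lit 5) (nat_lit 7) (nat_lit 4) (nat_lit 5) (nat_lit 4) (nat_lit 246) (nat_lit 223) (nat_lit 191)) (XT.lf (nat_lit 0) (nat_lit 13069135593) (nat_lit 76) (nat_lit 32369957178) (nat_lit 76) (nat_lit 17740060549) (nat_lit 4) (nat_lit 4) (nat_lit 5) (nat_lit 5) (nat_lit 5) (nat_lit 4) (nat_lit 247) (nat_lit 223) (nat_lit 190))))))) (XT.nd (nat_lit 624) (nat_lit 76) (nat_lit 0) (XT.nd (nat_lit 312) (nat_lit 76) (nat_lit 0) (XT.nd (nat_lit 156) (nat_lit 76) (nat_lit 0) (XT.nd (nat_lit 78) (nat_lit 0) (nat_lit 0) (XT.lf (nat_lit 0) (nat_lit 31011292842) (nat_lit 76) (nat_lit 27500240432) (nat_lit 76) (nat_lit 12851203876) (nat_lit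 4) (nat_lit 4) (nat_lit 5) (nat_lit 5) (nat_lit 5) (nat_lit 4) (nat_lit 248) (nat_lit 223) (nat_lit 189)) (XT.lf (nat_lit 0) (nat_lit 51606777353) (nat_lit 76) (nat_lit 21917917968) (nat_lit 76) (nat_lit 7252237997) (nat_lit 4) (nat_lit 4) (nat_lit 5) (nat_lit 5) (nat_lit 5) (nat_lit 4) (nat_lit 249) (nat_lit 223) (nat_lit 188))) (XT.nd (nat_lit 78) (nat_lit 76) (nat_lit 0) (XT.lf (nat_lit 0) (nat_lit 75258544260) (nat_lit 76) (nat_lit 15513770433) (nat_lit 76) (nat_lit 833617928) (nat_lit 4) (nat_lit 4) (nat_lit 5) (nat_lit 5) (nat_lit 5) (nat_lit 4) (nat_lit 250) (nat_lit 223) (nat_lit 187)) (XT.lf (nat_lit 0) (nat_lit 5948871081) (nat_lit 152) (nat_lit 1902664491) (nat_lit 76) (nat_lit 96169510725) (nat_lit 3) (nat_lit 5) (nat_lit 5) (nat_lit 5) (nat_lit 4) (nat_lit 4) (nat_lit 251) (nat_lit 223) (nat_lit 186)))) (XT.nd (nat_lit 156) (nat_lit 0) (nat_lit 0) (XT.nd (nat_lit 78) (nat_lit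 0) (nat_lit 0) (XT.lf (nat_lit 0) (nat_lit 14387877478) (nat_lit 152) (nat_lit 102193883658) (nat_lit 0) (nat_lit 1602068233) (nat_lit 2) (nat_lit 5) (nat_lit 4) (nat_lit 4) (nat_lit 2) (nat_lit 4) (nat_lit 252) (nat_lit 223) (nat_lit 185)) (XT.lf (nat_lit 0) (nat_lit 24557176342) (nat_lit 152) (nat_lit 98081121346) (nat_lit 0) (nat_lit 11763092379) (nat_lit 2) (nat_lit 5) (nat_lit 4) (nat_lit 4) (nat_lit 2) (nat_lit 4) (nat_lit 253) (nat_lit 223) (nat_lit 184))) (XT.nd (nat_lit 78) (nat_lit 0) (nat_lit 0) (XT.lf (nat_lit 0) (nat_lit 36240013801) (nat_lit 152) (nat_lit 93374638025) (nat_lit 0) (nat_lit 23438734430) (nat_lit 2) (nat_lit 5) (nat_lit 4) (nat_lit 4) (nat_lit 2) (nat_lit 4) (nat_lit 254) (nat_lit 223) (nat_lit 183)) (XT.lf (nat_lit 0) (nat_lit 49664967109) (nat_lit 152) (nat_lit 87982350324) (nat_lit 0) (nat_lit 36857430862) (nat_lit 2) (nat_lit 5) (nat_lit 4) (nat_lit 4)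 (nat_lit 2) (nat_lit 4) (nat_lit 255) (nat_lit 223) (nat_lit 182))))) (XT.nd (nat_lit 312) (nat_lit 76) (nat_lit 0) (XT.nd (nat_lit 156) (nat_lit 0) (nat_lit 0) (XT.nd (nat_lit 78) (nat_lit 0) (nat_lit 0) (XT.lf (nat_lit 0) (nat_lit 65094698396) (nat_lit 152) (nat_lit 81798756963) (nat_lit 0) (nat_lit 52281721387) (nat_lit 2) (nat_lit 5) (nat_lit 4) (nat_lit 4) (nat_lit 2) (nat_lit 4) (nat_lit 256) (nat_lit 223) (nat_lit 181)) (XT.lf (nat_lit 0) (nat_lit 82831093709) (nat_lit 152) (nat_lit 74702874593) (nat_lit 0) (nat_lit 70013385603) (nat_lit 2) (nat_lit 5) (nat_lit 4) (nat_lit 4) (nat_lit 2) (nat_lit 4) (nat_lit 257) (nat_lit 223) (nat_lit 180))) (XT.nd (nat_lit 78) (nat_lit 0) (nat_lit 0) (XT.lf (nat_lit 0) (nat_lit 103221169478) (nat_lit 152) (nat_lit 66555870733) (nat_lit 0) (nat_lit 90399347375) (nat_lit 2) (nat_lit 5) (nat_lit 4) (nat_lit 4) (nat_lit 2) (nat_lit 4) (nat_lit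 258) (nat_lit 223) (nat_lit 179)) (XT.lf (nat_lit 0) (nat_lit 126663861968) (nat_lit 152) (nat_lit 57198347482) (nat_lit 0) (nat_lit 113838462476) (nat_lit 2) (nat_lit 5) (nat_lit 4) (nat_lit 4) (nat_lit 2) (nat_lit 4) (nat_lit 259) (nat_lit 223) (nat_lit 178)))) (XT.nd (nat_lit 156) (nat_lit 76) (nat_lit 0) (XT.nd (nat_lit 78) (nat_lit 0) (nat_lit 0) (XT.lf (nat_lit 0) (nat_lit 153617832554) (nat_lit 152) (nat_lit 46447222862) (nat_lit 0) (nat_lit 140789322289) (nat_lit 2) (nat_lit 5) (nat_lit 4) (nat_lit 4) (nat_lit 2) (nat_lit 4) (nat_lit 260) (nat_lit 223) (nat_lit 177)) (XT.lf (nat_lit 0) (nat_lit 184610441530) (nat_lit 152) (nat_lit 34092148784) (nat_lit 0) (nat_lit 171779226245) (nat_lit 2) (nat_lit 5) (nat_lit 4) (nat_lit 4) (nat_lit 2) (nat_lit 4) (nat_lit 261) (nat_lit 223) (nat_lit 176))) (XT.nd (nat_lit 78) (nat_lit 76) (nat_lit 0) (XT.lf (nat_lit 0) (nat_lit 220248066028)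 (nat_lit 152) (nat_lit 19891395537) (nat_lit 0) (nat_lit 207414498552) (nat_lit 2) (nat_lit 5) (nat_lit 4) (nat_lit 4) (nat_lit 2) (nat_lit 4) (nat_lit 262) (nat_lit 223) (nat_lit 175)) (XT.nd (nat_lit 78) (nat_lit 76) (nat_lit 0) (XT.lf (nat_lit 0) (nat_lit 261227963919) (nat_lit 152) (nat_lit 3567122298) (nat_lit 0) (nat_lit 248392351059) (nat_lit 2) (nat_lit 5) (nat_lit 4) (nat_lit 4) (nat_lit 2) (nat_lit 4) (nat_lit 263) (nat_lit 223) (nat_lit 174)) (XT.lf (nat_lit 0) (nat_lit 16685519190) (nat_lit 76) (nat_lit 292357308391) (nat_lit 76) (nat_lit 279519916936) (nat_lit 1) (nat_lit 4) (nat_lit 2) (nat_lit 5) (nat_lit 2) (nat_lit 4) (nat_lit 264) (nat_lit 223) (nat_lit 173))))))))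
noncomputable def xc57 : XT := (XT.nd (nat_lit 1326) (nat_lit 0) (nat_lit 0) (XT.nd (nat_lit 624) (nat_lit 0) (nat_lit 0) (XT.nd (nat_lit 312) (nat_lit 0) (nat_lit 0) (XT.nd (nat_lit 156) (nat_lit 0) (nat_lit 0) (XT.nd (nat_lit 78) (nat_lit 0) (nat_lit 0) (XT.lf (nat_lit 0) (nat_lit 40371480360) (nat_lit 76) (nat_lit 323842128624) (nat_lit 76) (nat_lit 311003190565) (nat_lit 1) (nat_lit 4) (nat_lit 2) (nat_lit 5) (nat_lit 2) (nat_lit 4) (nat_lit 265) (nat_lit 223) (nat_lit 172)) (XT.lf (nat_lit 0) (nat_lit 67605577057) (nat_lit 76) (nat_lit 360052017480) (nat_lit 76) (nat_lit 347211734548) (nat_lit 1) (nat_lit 4) (nat_lit 2) (nat_lit 5) (nat_lit 2) (nat_lit 4) (nat_lit 266) (nat_lit 223) (nat_lit 171))) (XT.nd (nat_lit 78) (nat_lit 0) (nat_lit 0) (XT.lf (nat_lit 0) (nat_lit 98920650304) (nat_lit 76) (nat_lit 401695429305) (nat_lit 76) (nat_lit 388853976918) (nat_lit 1) (nat_lit 4) (nat_lit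 2) (nat_lit 5) (nat_lit 2) (nat_lit 4) (nat_lit 267) (nat_lit 223) (nat_lit 170)) (XT.lf (nat_lit 0) (nat_lit 134929386316) (nat_lit 76) (nat_lit 449587126506) (nat_lit 76) (nat_lit 436744657202) (nat_lit 1) (nat_lit 4) (nat_lit 2) (nat_lit 5) (nat_lit 2) (nat_lit 4) (nat_lit 268) (nat_lit 223) (nat_lit 169)))) (XT.nd (nat_lit 156) (nat_lit 0) (nat_lit 0) (XT.nd (nat_lit 78) (nat_lit 0) (nat_lit 0) (XT.lf (nat_lit 0) (nat_lit 176336303841) (nat_lit 76) (nat_lit 504664120549) (nat_lit 76) (nat_lit 491820766968) (nat_lit 1) (nat_lit 4) (nat_lit 2) (nat_lit 5) (nat_lit 2) (nat_lit 4) (nat_lit 269) (nat_lit 223) (nat_lit 168)) (XT.lf (nat_lit 0) (nat_lit 223951538223) (nat_lit 76) (nat_lit 568004004795) (nat_lit 76) (nat_lit 555159882279) (nat_lit 1) (nat_lit 4) (nat_lit 2) (nat_lit 5) (nat_lit 2) (nat_lit 4) (nat_lit 270) (nat_lit 223) (nat_lit 167))) (XT.nd (nat_lit 78) (nat_lit 0) (nat_lit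 0) (XT.lf (nat_lit 0) (nat_lit 278706691872) (nat_lit 76) (nat_lit 640846037850) (nat_lit 76) (nat_lit 628001246695) (nat_lit 1) (nat_lit 4) (nat_lit 2) (nat_lit 5) (nat_lit 2) (nat_lit 4) (nat_lit 271) (nat_lit 223) (nat_lit 166)) (XT.lf (nat_lit 0) (nat_lit 341673061274) (nat_lit 76) (nat_lit 724615389925) (nat_lit 76) (nat_lit 711770017344) (nat_lit 1) (nat_lit 4) (nat_lit 2) (nat_lit 5) (nat_lit 2) (nat_lit 4) (nat_lit 272) (nat_lit 223) (nat_lit 165))))) (XT.nd (nat_lit 312) (nat_lit 0) (nat_lit 0) (XT.nd (nat_lit 156) (nat_lit 0) (nat_lit 0) (XT.nd (nat_lit 78) (nat_lit 0) (nat_lit 0) (XT.lf (nat_lit 0) (nat_lit 414082597134) (nat_lit 76) (nat_lit 820951026606) (nat_lit 76) (nat_lit 808105148437) (nat_lit 1) (nat_lit 4) (nat_lit 2) (nat_lit 5) (nat_lit 2) (nat_lit 4) (nat_lit 273) (nat_lit 223) (nat_lit 164)) (XT.lf (nat_lit 0) (nat_lit 497352007763) (nat_lit 76) (nat_lit 931737775564)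 (nat_lit 76) (nat_lit 918891457755) (nat_lit 1) (nat_lit 4) (nat_lit 2) (nat_lit 5) (nat_lit 2) (nat_lit 4) (nat_lit 274) (nat_lit 223) (nat_lit 163))) (XT.nd (nat_lit 78) (nat_lit 0) (nat_lit 0) (XT.lf (nat_lit 0) (nat_lit 593110477281) (nat_lit 76) (nat_lit 1059143203630) (nat_lit 76) (nat_lit 1046296503523) (nat_lit 1) (nat_lit 4) (nat_lit 2) (nat_lit 5) (nat_lit 2) (nat_lit 4) (nat_lit 275) (nat_lit 223) (nat_lit 162)) (XT.lf (nat_lit 0) (nat_lit 703231540962) (nat_lit 76) (nat_lit 1205660025698) (nat_lit 76) (nat_lit 1192812993159) (nat_lit 1) (nat_lit 4) (nat_lit 2) (nat_lit 5) (nat_lit 2) (nat_lit 4) (nat_lit 276) (nat_lit 223) (nat_lit 161)))) (XT.nd (nat_lit 156) (nat_lit 0) (nat_lit 0) (XT.nd (nat_lit 78) (nat_lit 0) (nat_lit 0) (XT.lf (nat_lit 0) (nat_lit 829869741356) (nat_lit 76) (nat_lit 1374154875245) (nat_lit 76) (nat_lit 1361307553635) (nat_lit 1) (nat_lit 4) (nat_lit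 2) (nat_lit 5) (nat_lit 2) (nat_lit 4) (nat_lit 277) (nat_lit 223) (nat_lit 160)) (XT.lf (nat_lit 0) (nat_lit 975502782383) (nat_lit 76) (nat_lit 1567924390631) (nat_lit 76) (nat_lit 1555076817654) (nat_lit 1) (nat_lit 4) (nat_lit 2) (nat_lit 5) (nat_lit 2) (nat_lit 4) (nat_lit 278) (nat_lit 223) (nat_lit 159))) (XT.nd (nat_lit 78) (nat_lit 0) (nat_lit 0) (XT.lf (nat_lit 0) (nat_lit 1142980006151) (nat_lit 76) (nat_lit 1790759714548) (nat_lit 76) (nat_lit 1777911922992) (nat_lit 1) (nat_lit 4) (nat_lit 2) (nat_lit 5) (nat_lit 2) (nat_lit 4) (nat_lit 279) (nat_lit 223) (nat_lit 158)) (XT.nd (nat_lit 78) (nat_lit 0) (nat_lit 0) (XT.lf (nat_lit 0) (nat_lit 1335578140951) (nat_lit 76) (nat_lit 2047020668552) (nat_lit 76) (nat_lit 2034172686926) (nat_lit 1) (nat_lit 4) (nat_lit 2) (nat_lit 5) (nat_lit 2) (nat_lit 4) (nat_lit 280) (nat_lit 223) (nat_lit 157)) (XT.lf (nat_lit 0) (nat_lit 1557065411160)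 (nat_lit 76) (nat_lit 2341721053916) (nat_lit 76) (nat_lit 2328872907013) (nat_lit 1) (nat_lit 4) (nat_lit 2) (nat_lit 5) (nat_lit 2) (nat_lit 4) (nat_lit 281) (nat_lit 223) (nat_lit 156))))))) (XT.nd (nat_lit 624) (nat_lit 0) (nat_lit 0) (XT.nd (nat_lit 312) (nat_lit 0) (nat_lit 0) (XT.nd (nat_lit 156) (nat_lit 0) (nat_lit 0) (XT.nd (nat_lit 78) (nat_lit 0) (nat_lit 0) (XT.lf (nat_lit 0) (nat_lit 1811775263367) (nat_lit 76) (nat_lit 2680626747745) (nat_lit 76) (nat_lit 2667778457123) (nat_lit 1) (nat_lit 4) (nat_lit 2) (nat_lit 5) (nat_lit 2) (nat_lit 4) (nat_lit 282) (nat_lit 223) (nat_lit 155)) (XT.lf (nat_lit 0) (nat_lit 2104691151205) (nat_lit 76) (nat_lit 3070368513615) (nat_lit 76) (nat_lit 3057520098019) (nat_lit 1) (nat_lit 4) (nat_lit 2) (nat_lit 5) (nat_lit 2) (nat_lit 4) (nat_lit 283) (nat_lit 223) (nat_lit 154))) (XT.nd (nat_lit 78) (nat_lit 0) (nat_lit 0) (XT.lf (nat_lit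 0) (nat_lit 2441544037694) (nat_lit 76) (nat_lit 3518571733900) (nat_lit 76) (nat_lit 3505723209632) (nat_lit 1) (nat_lit 4) (nat_lit 2) (nat_lit 5) (nat_lit 2) (nat_lit 4) (nat_lit 284) (nat_lit 223) (nat_lit 153)) (XT.lf (nat_lit 0) (nat_lit 2828924522790) (nat_lit 76) (nat_lit 4034005602042) (nat_lit 76) (nat_lit 4021156983276) (nat_lit 1) (nat_lit 4) (nat_lit 2) (nat_lit 5) (nat_lit 2) (nat_lit 4) (nat_lit 285) (nat_lit 223) (nat_lit 152)))) (XT.nd (nat_lit 156) (nat_lit 0) (nat_lit 0) (XT.nd (nat_lit 78) (nat_lit 0) (nat_lit 0) (XT.lf (nat_lit 0) (nat_lit 3274411789894) (nat_lit 76) (nat_lit 4626754693721) (nat_lit 76) (nat_lit 4613905992782) (nat_lit 1) (nat_lit 4) (nat_lit 2) (nat_lit 5) (nat_lit 2) (nat_lit 4) (nat_lit 286) (nat_lit 223) (nat_lit 151)) (XT.lf (nat_lit 0) (nat_lit 3786721894235) (nat_lit 76) (nat_lit 5308416273775) (nat_lit 76) (nat_lit 5295567501382) (nat_lit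 1) (nat_lit 4) (nat_lit 2) (nat_lit 5) (nat_lit 2) (nat_lit 4) (nat_lit 287) (nat_lit 223) (nat_lit 150))) (XT.nd (nat_lit 78) (nat_lit 0) (nat_lit 0) (XT.lf (nat_lit 0) (nat_lit 4375878294374) (nat_lit 76) (nat_lit 6092327199204) (nat_lit 76) (nat_lit 6079478364677) (nat_lit 1) (nat_lit 4) (nat_lit 2) (nat_lit 5) (nat_lit 2) (nat_lit 4) (nat_lit 288) (nat_lit 223) (nat_lit 149)) (XT.lf (nat_lit 0) (nat_lit 5053407963358) (nat_lit 76) (nat_lit 6993824857680) (nat_lit 76) (nat_lit 6980975969124) (nat_lit 1) (nat_lit 4) (nat_lit 2) (nat_lit 5) (nat_lit 2) (nat_lit 4) (nat_lit 289) (nat_lit 223) (nat_lit 148))))) (XT.nd (nat_lit 312) (nat_lit 0) (nat_lit 0) (XT.nd (nat_lit 156) (nat_lit 0) (nat_lit 0) (XT.nd (nat_lit 78) (nat_lit 0) (nat_lit 0) (XT.lf (nat_lit 0) (nat_lit 5832566916449) (nat_lit 76) (nat_lit 8030547246869) (nat_lit 76) (nat_lit 8017698311331) (nat_lit 1) (nat_lit 4) (nat_lit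 2) (nat_lit 5) (nat_lit 2) (nat_lit 4) (nat_lit 290) (nat_lit 223) (nat_lit 147)) (XT.lf (nat_lit 0) (nat_lit 6728599567948) (nat_lit 76) (nat_lit 9222778065690) (nat_lit 76) (nat_lit 9209929089298) (nat_lit 1) (nat_lit 4) (nat_lit 2) (nat_lit 5) (nat_lit 2) (nat_lit 4) (nat_lit 291) (nat_lit 223) (nat_lit 146))) (XT.nd (nat_lit 78) (nat_lit 0) (nat_lit 0) (XT.lf (nat_lit 0) (nat_lit 7759036991470) (nat_lit 76) (nat_lit 10593843569293) (nat_lit 76) (nat_lit 10580994557376) (nat_lit 1) (nat_lit 4) (nat_lit 2) (nat_lit 5) (nat_lit 2) (nat_lit 4) (nat_lit 292) (nat_lit 223) (nat_lit 145)) (XT.lf (nat_lit 0) (nat_lit 8944039919216) (nat_lit 76) (nat_lit 12170568952315) (nat_lit 76) (nat_lit 12157719909506) (nat_lit 1) (nat_lit 4) (nat_lit 2) (nat_lit 5) (nat_lit 2) (nat_lit 4) (nat_lit 293) (nat_lit 223) (nat_lit 144)))) (XT.nd (nat_lit 156) (nat_lit 0) (nat_lit 0) (XT.nd (nat_lit 78) (nat_lit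 0) (nat_lit 0) (XT.lf (nat_lit 0) (nat_lit 10306793191074) (nat_lit 76) (nat_lit 13983803189640) (nat_lit 76) (nat_lit 13970954119969) (nat_lit 1) (nat_lit 4) (nat_lit 2) (nat_lit 5) (nat_lit 2) (nat_lit 4) (nat_lit 294) (nat_lit 223) (nat_lit 143)) (XT.lf (nat_lit 0) (nat_lit 11873959371061) (nat_lit 76) (nat_lit 16069022603304) (nat_lit 76) (nat_lit 16056173510274) (nat_lit 1) (nat_lit 4) (nat_lit 2) (nat_lit 5) (nat_lit 2) (nat_lit 4) (nat_lit 295) (nat_lit 223) (nat_lit 142))) (XT.nd (nat_lit 78) (nat_lit 0) (nat_lit 0) (XT.lf (nat_lit 0) (nat_lit 13676200406176) (nat_lit 76) (nat_lit 18467024964442) (nat_lit 76) (nat_lit 18454175851101) (nat_lit 1) (nat_lit 4) (nat_lit 2) (nat_lit 5) (nat_lit 2) (nat_lit 4) (nat_lit 296) (nat_lit 223) (nat_lit 141)) (XT.nd (nat_lit 78) (nat_lit 0) (nat_lit 0) (XT.lf (nat_lit 0) (nat_lit 15748777534062) (nat_lit 76) (nat_lit 21224727710556) (nat_lit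 76) (nat_lit 21211878579553) (nat_lit 1) (nat_lit 4) (nat_lit 2) (nat_lit 5) (nat_lit 2) (nat_lit 4) (nat_lit 297) (nat_lit 223) (nat_lit 140)) (XT.lf (nat_lit 0) (nat_lit 18132241176787) (nat_lit 76) (nat_lit 24396085895375) (nat_lit 76) (nat_lit 24383236749012) (nat_lit 1) (nat_lit 4) (nat_lit 2) (nat_lit 5) (nat_lit 2) (nat_lit 4) (nat_lit 298) (nat_lit 223) (nat_lit 139))))))))
noncomputable def xc58 : XT := (XT.nd (nat_lit 29640) (nat_lit 0) (nat_lit 76) (XT.nd (nat_lit 28938) (nat_lit 0) (nat_lit 608) (XT.nd (nat_lit 28626) (nat_lit 0) (nat_lit 1444) (XT.nd (nat_lit 156) (nat_lit 0) (nat_lit 0) (XT.nd (nat_lit 78) (nat_lit 0) (nat_lit 0) (XT.lf (nat_lit 0) (nat_lit 20873224318666) (nat_lit 76) (nat_lit 28043147831208) (nat_lit 76) (nat_lit 28030298671491) (nat_lit 1) (nat_lit 4) (nat_lit 2) (nat_lit 5) (nat_lit 2) (nat_lit 4) (nat_lit 299) (nat_lit 223) (nat_lit 138)) (XT.lf (nat_lit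 0) (nat_lit 24025354890733) (nat_lit 76) (nat_lit 32237269077671) (nat_lit 76) (nat_lit 32224419906341) (nat_lit 1) (nat_lit 4) (nat_lit 2) (nat_lit 5) (nat_lit 2) (nat_lit 4) (nat_lit 300) (nat_lit 223) (nat_lit 137))) (XT.nd (nat_lit 28392) (nat_lit 0) (nat_lit 1596) (XT.lf (nat_lit 0) (nat_lit 27650305012879) (nat_lit 76) (nat_lit 37060508528717) (nat_lit 76) (nat_lit 37047659347288) (nat_lit 1) (nat_lit 4) (nat_lit 2) (nat_lit 5) (nat_lit 2) (nat_lit 4) (nat_lit 301) (nat_lit 223) (nat_lit 136)) (XT.lf (nat_lit 0) (nat_lit 539288093) (nat_lit 0) (nat_lit 539288093) (nat_lit 228) (nat_lit 2915793080) (nat_lit 22) (nat_lit 5) (nat_lit 22) (nat_lit 3) (nat_lit 25) (nat_lit 3) (nat_lit 224) (nat_lit 224) (nat_lit 212)))) (XT.nd (nat_lit 156) (nat_lit 152) (nat_lit 0) (XT.nd (nat_lit 78) (nat_lit 0) (nat_lit 0) (XT.lf (nat_lit 0) (nat_lit 3464689302) (nat_lit 228) (nat_lit 3399378330)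 (nat_lit 304) (nat_lit 1542149223) (nat_lit 22) (nat_lit 5) (nat_lit 25) (nat_lit 3) (nat_lit 26) (nat_lit 5) (nat_lit 225) (nat_lit 224) (nat_lit 211)) (XT.lf (nat_lit 76) (nat_lit 501067539) (nat_lit 0) (nat_lit 4351839338) (nat_lit 304) (nat_lit 4052475038) (nat_lit 23) (nat_lit 5) (nat_lit 22) (nat_lit 5) (nat_lit 26) (nat_lit 5) (nat_lit 226) (nat_lit 224) (nat_lit 210))) (XT.nd (nat_lit 78) (nat_lit 152) (nat_lit 0) (XT.lf (nat_lit 76) (nat_lit 5244338922) (nat_lit 0) (nat_lit 1214471953) (nat_lit 304) (nat_lit 3020712366) (nat_lit 23) (nat_lit 5) (nat_lit 22) (nat_lit 5) (nat_lit 26) (nat_lit 5) (nat_lit 227) (nat_lit 224) (nat_lit 209)) (XT.lf (nat_lit 0) (nat_lit 359267370) (nat_lit 228) (nat_lit 7915605547) (nat_lit 304) (nat_lit 1870843346) (nat_lit 20) (nat_lit 5) (nat_lit 23) (nat_lit 5) (nat_lit 24) (nat_lit 5) (nat_lit 228) (nat_lit 224) (nat_lit 208))))) (XT.nd (nat_lit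 312) (nat_lit 304) (nat_lit 0) (XT.nd (nat_lit 156) (nat_lit 152) (nat_lit 0) (XT.nd (nat_lit 78) (nat_lit 380) (nat_lit 0) (XT.lf (nat_lit 0) (nat_lit 5928499366) (nat_lit 228) (nat_lit 4580340860) (nat_lit 304) (nat_lit 382322636) (nat_lit 20) (nat_lit 5) (nat_lit 23) (nat_lit 5) (nat_lit 24) (nat_lit 5) (nat_lit 229) (nat_lit 224) (nat_lit 207)) (XT.lf (nat_lit 0) (nat_lit 446423124) (nat_lit 304) (nat_lit 662847894) (nat_lit 380) (nat_lit 10647043537) (nat_lit 15) (nat_lit 5) (nat_lit 19) (nat_lit 5) (nat_lit 20) (nat_lit 5) (nat_lit 230) (nat_lit 224) (nat_lit 206))) (XT.nd (nat_lit 78) (nat_lit 152) (nat_lit 0) (XT.lf (nat_lit 0) (nat_lit 3106504096) (nat_lit 380) (nat_lit 5811601989) (nat_lit 76) (nat_lit 3783001098) (nat_lit 15) (nat_lit 5) (nat_lit 20) (nat_lit 5) (nat_lit 16) (nat_lit 5) (nat_lit 231) (nat_lit 224) (nat_lit 205)) (XT.lf (nat_lit 0) (nat_lit 398639584) (nat_lit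 152) (nat_lit 4957256036) (nat_lit 228) (nat_lit 8439494013) (nat_lit 13) (nat_lit 5) (nat_lit 15) (nat_lit 5) (nat_lit 16) (nat_lit 5) (nat_lit 232) (nat_lit 224) (nat_lit 204)))) (XT.nd (nat_lit 156) (nat_lit 228) (nat_lit 0) (XT.nd (nat_lit 78) (nat_lit 76) (nat_lit 0) (XT.lf (nat_lit 0) (nat_lit 8082150760) (nat_lit 152) (nat_lit 76678771) (nat_lit 228) (nat_lit 6863136136) (nat_lit 13) (nat_lit 5) (nat_lit 15) (nat_lit 5) (nat_lit 16) (nat_lit 5) (nat_lit 233) (nat_lit 224) (nat_lit 203)) (XT.lf (nat_lit 0) (nat_lit 162982966) (nat_lit 76) (nat_lit 11378125854) (nat_lit 152) (nat_lit 4868080243) (nat_lit 12) (nat_lit 5) (nat_lit 13) (nat_lit 5) (nat_lit 14) (nat_lit 4) (nat_lit 234) (nat_lit 224) (nat_lit 202))) (XT.nd (nat_lit 78) (nat_lit 228) (nat_lit 0) (XT.lf (nat_lit 0) (nat_lit 9004085804) (nat_lit 76) (nat_lit 6721602364) (nat_lit 152) (nat_lit 2234996033) (nat_lit 12)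 (nat_lit 5) (nat_lit 13) (nat_lit 5) (nat_lit 14) (nat_lit 4) (nat_lit 235) (nat_lit 224) (nat_lit 201)) (XT.nd (nat_lit 78) (nat_lit 152) (nat_lit 0) (XT.lf (nat_lit 0) (nat_lit 657162235) (nat_lit 152) (nat_lit 702701050) (nat_lit 76) (nat_lit 18390234021) (nat_lit 11) (nat_lit 5) (nat_lit 13) (nat_lit 5) (nat_lit 12) (nat_lit 5) (nat_lit 236) (nat_lit 224) (nat_lit 200)) (XT.lf (nat_lit 0) (nat_lit 4309996791) (nat_lit 228) (nat_lit 12524233985) (nat_lit 76) (nat_lit 4874660328) (nat_lit 9) (nat_lit 5) (nat_lit 12) (nat_lit 5) (nat_lit 10) (nat_lit 4) (nat_lit 237) (nat_lit 224) (nat_lit 199))))))) (XT.nd (nat_lit 624) (nat_lit 228) (nat_lit 0) (XT.nd (nat_lit 312) (nat_lit 152) (nat_lit 0) (XT.nd (nat_lit 156) (nat_lit 76) (nat_lit 0) (XT.nd (nat_lit 78) (nat_lit 76) (nat_lit 0) (XT.lf (nat_lit 0) (nat_lit 8560188402) (nat_lit 228) (nat_lit 3475368450) (nat_lit 76) (nat_lit 11918779311)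 (nat_lit 9) (nat_lit 5) (nat_lit 12) (nat_lit 5) (nat_lit 10) (nat_lit 4) (nat_lit 238) (nat_lit 224) (nat_lit 198)) (XT.lf (nat_lit 0) (nat_lit 7525147795) (nat_lit 76) (nat_lit 6187574524) (nat_lit 152) (nat_lit 12784368386) (nat_lit 8) (nat_lit 5) (nat_lit 9) (nat_lit 5) (nat_lit 10) (nat_lit 4) (nat_lit 239) (nat_lit 224) (nat_lit 197))) (XT.nd (nat_lit 78) (nat_lit 76) (nat_lit 0) (XT.lf (nat_lit 0) (nat_lit 19805861625) (nat_lit 152) (nat_lit 8936334510) (nat_lit 0) (nat_lit 654090245) (nat_lit 8) (nat_lit 5) (nat_lit 10) (nat_lit 4) (nat_lit 8) (nat_lit 4) (nat_lit 240) (nat_lit 224) (nat_lit 196)) (XT.lf (nat_lit 0) (nat_lit 2461509576) (nat_lit 76) (nat_lit 24709031406) (nat_lit 76) (nat_lit 5506347442) (nat_lit 7) (nat_lit 4) (nat_lit 8) (nat_lit 5) (nat_lit 8) (nat_lit 4) (nat_lit 241) (nat_lit 224) (nat_lit 195)))) (XT.nd (nat_lit 156) (nat_lit 76) (nat_lit 0) (XT.nd (nat_lit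 78) (nat_lit 76) (nat_lit 0) (XT.lf (nat_lit 0) (nat_lit 16508825360) (nat_lit 76) (nat_lit 19561635781) (nat_lit 76) (nat_lit 314680003) (nat_lit 7) (nat_lit 4) (nat_lit 8) (nat_lit 5) (nat_lit 8) (nat_lit 4) (nat_lit 242) (nat_lit 224) (nat_lit 194)) (XT.lf (nat_lit 0) (nat_lit 5118782435) (nat_lit 152) (nat_lit 8280070768) (nat_lit 76) (nat_lit 27220772876) (nat_lit 6) (nat_lit 5) (nat_lit 8) (nat_lit 5) (nat_lit 7) (nat_lit 4) (nat_lit 243) (nat_lit 224) (nat_lit 193))) (XT.nd (nat_lit 78) (nat_lit 0) (nat_lit 0) (XT.lf (nat_lit 0) (nat_lit 5476451302) (nat_lit 76) (nat_lit 6056283655) (nat_lit 152) (nat_lit 33924740738) (nat_lit 5) (nat_lit 5) (nat_lit 6) (nat_lit 5) (nat_lit 7) (nat_lit 4) (nat_lit 244) (nat_lit 224) (nat_lit 192)) (XT.lf (nat_lit 0) (nat_lit 19432836734) (nat_lit 152) (nat_lit 28901182687) (nat_lit 0) (nat_lit 2608455610) (nat_lit 5) (nat_lit 5) (nat_lit 7) (nat_lit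 4) (nat_lit 5) (nat_lit 4) (nat_lit 245) (nat_lit 224) (nat_lit 191))))) (XT.nd (nat_lit 312) (nat_lit 152) (nat_lit 0) (XT.nd (nat_lit 156) (nat_lit 76) (nat_lit 0) (XT.nd (nat_lit 78) (nat_lit 0) (nat_lit 0) (XT.lf (nat_lit 0) (nat_lit 28781787846) (nat_lit 152) (nat_lit 16493535709) (nat_lit 0) (nat_lit 11935395807) (nat_lit 5) (nat_lit 5) (nat_lit 7) (nat_lit 4) (nat_lit 5) (nat_lit 4) (nat_lit 246) (nat_lit 224) (nat_lit 190)) (XT.lf (nat_lit 0) (nat_lit 39511724765) (nat_lit 152) (nat_lit 2264547357) (nat_lit 0) (nat_lit 22646192799) (nat_lit 5) (nat_lit 5) (nat_lit 7) (nat_lit 4) (nat_lit 5) (nat_lit 4) (nat_lit 247) (nat_lit 224) (nat_lit 189))) (XT.nd (nat_lit 78) (nat_lit 0) (nat_lit 0) (XT.lf (nat_lit 0) (nat_lit 15438629145) (nat_lit 76) (nat_lit 37033232602) (nat_lit 76) (nat_lit 20151057222) (nat_lit 4) (nat_lit 4) (nat_lit 5) (nat_lit 5) (nat_lit 5) (nat_lit 4) (nat_lit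 248) (nat_lit 224) (nat_lit 188)) (XT.lf (nat_lit 0) (nat_lit 36018746083) (nat_lit 76) (nat_lit 31458130277) (nat_lit 76) (nat_lit 14561482362) (nat_lit 4) (nat_lit 4) (nat_lit 5) (nat_lit 5) (nat_lit 5) (nat_lit 4) (nat_lit 249) (nat_lit 224) (nat_lit 187)))) (XT.nd (nat_lit 156) (nat_lit 152) (nat_lit 0) (XT.nd (nat_lit 78) (nat_lit 0) (nat_lit 0) (XT.lf (nat_lit 0) (nat_lit 59657149882) (nat_lit 76) (nat_lit 25060261124) (nat_lit 76) (nat_lit 8151028397) (nat_lit 4) (nat_lit 4) (nat_lit 5) (nat_lit 5) (nat_lit 5) (nat_lit 4) (nat_lit 250) (nat_lit 224) (nat_lit 186)) (XT.lf (nat_lit 0) (nat_lit 86816331052) (nat_lit 76) (nat_lit 17714449442) (nat_lit 76) (nat_lit 794273400) (nat_lit 4) (nat_lit 4) (nat_lit 5) (nat_lit 5) (nat_lit 5) (nat_lit 4) (nat_lit 251) (nat_lit 224) (nat_lit 185))) (XT.nd (nat_lit 78) (nat_lit 76) (nat_lit 0) (XT.lf (nat_lit 0) (nat_lit 6971421161) (nat_lit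 152) (nat_lit 1941136470) (nat_lit 76) (nat_lit 110691828516) (nat_lit 3) (nat_lit 5) (nat_lit 5) (nat_lit 5) (nat_lit 4) (nat_lit 4) (nat_lit 252) (nat_lit 224) (nat_lit 184)) (XT.nd (nat_lit 78) (nat_lit 0) (nat_lit 0) (XT.lf (nat_lit 0) (nat_lit 16673720422) (nat_lit 152) (nat_lit 117273233301) (nat_lit 0) (nat_lit 1945053738) (nat_lit 2) (nat_lit 5) (nat_lit 4) (nat_lit 4) (nat_lit 2) (nat_lit 4) (nat_lit 253) (nat_lit 224) (nat_lit 183)) (XT.lf (nat_lit 0) (nat_lit 28351762639) (nat_lit 152) (nat_lit 112576130500) (nat_lit 0) (nat_lit 13616839079) (nat_lit 2) (nat_lit 5) (nat_lit 4) (nat_lit 4) (nat_lit 2) (nat_lit 4) (nat_lit 254) (nat_lit 224) (nat_lit 182))))))))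
noncomputable def xc59 : XT := (XT.nd (nat_lit 1326) (nat_lit 0) (nat_lit 0) (XT.nd (nat_lit 624) (nat_lit 76) (nat_lit 0) (XT.nd (nat_lit 312) (nat_lit 0) (nat_lit 0) (XT.nd (nat_lit 156) (nat_lit 0) (nat_lit 0) (XT.nd (nat_lit 78) (nat_lit 0) (nat_lit 0) (XT.lf (nat_lit 0) (nat_lit 41772546171) (nat_lit 152) (nat_lit 107191999774) (nat_lit 0) (nat_lit 27032181850) (nat_lit 2) (nat_lit 5) (nat_lit 4) (nat_lit 4) (nat_lit 2) (nat_lit 4) (nat_lit 255) (nat_lit 224) (nat_lit 181)) (XT.lf (nat_lit 0) (nat_lit 57198651566) (nat_lit 152) (nat_lit 101015499434) (nat_lit 0) (nat_lit 42453556148) (nat_lit 2) (nat_lit 5) (nat_lit 4) (nat_lit 4) (nat_lit 2) (nat_lit 4) (nat_lit 256) (nat_lit 224) (nat_lit 180))) (XT.nd (nat_lit 78) (nat_lit 0) (nat_lit 0) (XT.lf (nat_lit 0) (nat_lit 74931893930) (nat_lit 152) (nat_lit 93925784908) (nat_lit 0) (nat_lit 60182684515) (nat_lit 2) (nat_lit 5) (nat_lit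 4) (nat_lit 4) (nat_lit 2) (nat_lit 4) (nat_lit 257) (nat_lit 224) (nat_lit 179)) (XT.lf (nat_lit 0) (nat_lit 95319228004) (nat_lit 152) (nat_lit 85784144391) (nat_lit 0) (nat_lit 80566441199) (nat_lit 2) (nat_lit 5) (nat_lit 4) (nat_lit 4) (nat_lit 2) (nat_lit 4) (nat_lit 258) (nat_lit 224) (nat_lit 178)))) (XT.nd (nat_lit 156) (nat_lit 0) (nat_lit 0) (XT.nd (nat_lit 78) (nat_lit 0) (nat_lit 0) (XT.lf (nat_lit 0) (nat_lit 118759536412) (nat_lit 152) (nat_lit 76431284917) (nat_lit 0) (nat_lit 104003638834) (nat_lit 2) (nat_lit 5) (nat_lit 4) (nat_lit 4) (nat_lit 2) (nat_lit 4) (nat_lit 259) (nat_lit 224) (nat_lit 177)) (XT.lf (nat_lit 0) (nat_lit 145711433883) (nat_lit 152) (nat_lit 65684215755) (nat_lit 0) (nat_lit 130952831285) (nat_lit 2) (nat_lit 5) (nat_lit 4) (nat_lit 4) (nat_lit 2) (nat_lit 4) (nat_lit 260) (nat_lit 224) (nat_lit 176))) (XT.nd (nat_lit 78) (nat_lit 0) (nat_lit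 0) (XT.lf (nat_lit 0) (nat_lit 176702240150) (nat_lit 152) (nat_lit 53332668162) (nat_lit 0) (nat_lit 161941285360) (nat_lit 2) (nat_lit 5) (nat_lit 4) (nat_lit 4) (nat_lit 2) (nat_lit 4) (nat_lit 261) (nat_lit 224) (nat_lit 175)) (XT.lf (nat_lit 0) (nat_lit 212338297075) (nat_lit 152) (nat_lit 39134981424) (nat_lit 0) (nat_lit 197575296902) (nat_lit 2) (nat_lit 5) (nat_lit 4) (nat_lit 4) (nat_lit 2) (nat_lit 4) (nat_lit 262) (nat_lit 224) (nat_lit 174))))) (XT.nd (nat_lit 312) (nat_lit 0) (nat_lit 0) (XT.nd (nat_lit 156) (nat_lit 76) (nat_lit 0) (XT.nd (nat_lit 78) (nat_lit 0) (nat_lit 0) (XT.lf (nat_lit 0) (nat_lit 253316831859) (nat_lit 152) (nat_lit 22813374713) (nat_lit 0) (nat_lit 238552053091) (nat_lit 2) (nat_lit 5) (nat_lit 4) (nat_lit 4) (nat_lit 2) (nat_lit 4) (nat_lit 263) (nat_lit 224) (nat_lit 173)) (XT.lf (nat_lit 0) (nat_lit 300439598443) (nat_lit 152) (nat_lit 4048512247)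 (nat_lit 0) (nat_lit 285673273071) (nat_lit 2) (nat_lit 5) (nat_lit 4) (nat_lit 4) (nat_lit 2) (nat_lit 4) (nat_lit 264) (nat_lit 224) (nat_lit 172))) (XT.nd (nat_lit 78) (nat_lit 0) (nat_lit 0) (XT.lf (nat_lit 0) (nat_lit 19239585537) (nat_lit 76) (nat_lit 336185648671) (nat_lit 76) (nat_lit 321417978426) (nat_lit 1) (nat_lit 4) (nat_lit 2) (nat_lit 5) (nat_lit 2) (nat_lit 4) (nat_lit 265) (nat_lit 224) (nat_lit 171)) (XT.lf (nat_lit 0) (nat_lit 46471757604) (nat_lit 76) (nat_lit 372396486197) (nat_lit 76) (nat_lit 357627646497) (nat_lit 1) (nat_lit 4) (nat_lit 2) (nat_lit 5) (nat_lit 2) (nat_lit 4) (nat_lit 266) (nat_lit 224) (nat_lit 170)))) (XT.nd (nat_lit 156) (nat_lit 0) (nat_lit 0) (XT.nd (nat_lit 78) (nat_lit 0) (nat_lit 0) (XT.lf (nat_lit 0) (nat_lit 77785157259) (nat_lit 76) (nat_lit 414040722953) (nat_lit 76) (nat_lit 399270866336) (nat_lit 1) (nat_lit 4) (nat_lit 2) (nat_lit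 5) (nat_lit 2) (nat_lit 4) (nat_lit 267) (nat_lit 224) (nat_lit 169)) (XT.lf (nat_lit 0) (nat_lit 113792437974) (nat_lit 76) (nat_lit 461933137485) (nat_lit 76) (nat_lit 447162396592) (nat_lit 1) (nat_lit 4) (nat_lit 2) (nat_lit 5) (nat_lit 2) (nat_lit 4) (nat_lit 268) (nat_lit 224) (nat_lit 168))) (XT.nd (nat_lit 78) (nat_lit 0) (nat_lit 0) (XT.lf (nat_lit 0) (nat_lit 155198090024) (nat_lit 76) (nat_lit 517010755294) (nat_lit 76) (nat_lit 502239245465) (nat_lit 1) (nat_lit 4) (nat_lit 2) (nat_lit 5) (nat_lit 2) (nat_lit 4) (nat_lit 269) (nat_lit 224) (nat_lit 167)) (XT.nd (nat_lit 78) (nat_lit 0) (nat_lit 0) (XT.lf (nat_lit 0) (nat_lit 202812223992) (nat_lit 76) (nat_lit 580351181946) (nat_lit 76) (nat_lit 565579003478) (nat_lit 1) (nat_lit 4) (nat_lit 2) (nat_lit 5) (nat_lit 2) (nat_lit 4) (nat_lit 270) (nat_lit 224) (nat_lit 166)) (XT.lf (nat_lit 0) (nat_lit 257566420760) (nat_lit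 76) (nat_lit 653193686658) (nat_lit 76) (nat_lit 638420926764) (nat_lit 1) (nat_lit 4) (nat_lit 2) (nat_lit 5) (nat_lit 2) (nat_lit 4) (nat_lit 271) (nat_lit 224) (nat_lit 165))))))) (XT.nd (nat_lit 624) (nat_lit 0) (nat_lit 0) (XT.nd (nat_lit 312) (nat_lit 0) (nat_lit 0) (XT.nd (nat_lit 156) (nat_lit 0) (nat_lit 0) (XT.nd (nat_lit 78) (nat_lit 0) (nat_lit 0) (XT.lf (nat_lit 0) (nat_lit 320531958091) (nat_lit 76) (nat_lit 736963448870) (nat_lit 76) (nat_lit 722190183388) (nat_lit 1) (nat_lit 4) (nat_lit 2) (nat_lit 5) (nat_lit 2) (nat_lit 4) (nat_lit 272) (nat_lit 224) (nat_lit 164)) (XT.lf (nat_lit 0) (nat_lit 392940770412) (nat_lit 76) (nat_lit 833299442190) (nat_lit 76) (nat_lit 818525737067) (nat_lit 1) (nat_lit 4) (nat_lit 2) (nat_lit 5) (nat_lit 2) (nat_lit 4) (nat_lit 273) (nat_lit 224) (nat_lit 163))) (XT.nd (nat_lit 78) (nat_lit 0) (nat_lit 0) (XT.lf (nat_lit 0) (nat_lit 476209551875)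 (nat_lit 76) (nat_lit 944086501271) (nat_lit 76) (nat_lit 929312413851) (nat_lit 1) (nat_lit 4) (nat_lit 2) (nat_lit 5) (nat_lit 2) (nat_lit 4) (nat_lit 274) (nat_lit 224) (nat_lit 162)) (XT.lf (nat_lit 0) (nat_lit 571967474293) (nat_lit 76) (nat_lit 1071492199008) (nat_lit 76) (nat_lit 1056717779156) (nat_lit 1) (nat_lit 4) (nat_lit 2) (nat_lit 5) (nat_lit 2) (nat_lit 4) (nat_lit 275) (nat_lit 224) (nat_lit 161)))) (XT.nd (nat_lit 156) (nat_lit 0) (nat_lit 0) (XT.nd (nat_lit 78) (nat_lit 0) (nat_lit 0) (XT.lf (nat_lit 0) (nat_lit 682088062235) (nat_lit 76) (nat_lit 1218009255573) (nat_lit 76) (nat_lit 1203234546650) (nat_lit 1) (nat_lit 4) (nat_lit 2) (nat_lit 5) (nat_lit 2) (nat_lit 4) (nat_lit 276) (nat_lit 224) (nat_lit 160)) (XT.lf (nat_lit 0) (nat_lit 808725848943) (nat_lit 76) (nat_lit 1386504309030) (nat_lit 76) (nat_lit 1371729348740) (nat_lit 1) (nat_lit 4) (nat_lit 2) (nat_lit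 5) (nat_lit 2) (nat_lit 4) (nat_lit 277) (nat_lit 224) (nat_lit 159))) (XT.nd (nat_lit 78) (nat_lit 0) (nat_lit 0) (XT.lf (nat_lit 0) (nat_lit 954358530243) (nat_lit 76) (nat_lit 1580274001729) (nat_lit 76) (nat_lit 1565498822860) (nat_lit 1) (nat_lit 4) (nat_lit 2) (nat_lit 5) (nat_lit 2) (nat_lit 4) (nat_lit 278) (nat_lit 224) (nat_lit 158)) (XT.lf (nat_lit 0) (nat_lit 1121835441205) (nat_lit 76) (nat_lit 1803109479832) (nat_lit 76) (nat_lit 1788334110894) (nat_lit 1) (nat_lit 4) (nat_lit 2) (nat_lit 5) (nat_lit 2) (nat_lit 4) (nat_lit 279) (nat_lit 224) (nat_lit 157))))) (XT.nd (nat_lit 312) (nat_lit 0) (nat_lit 0) (XT.nd (nat_lit 156) (nat_lit 0) (nat_lit 0) (XT.nd (nat_lit 78) (nat_lit 0) (nat_lit 0) (XT.lf (nat_lit 0) (nat_lit 1314433303999) (nat_lit 76) (nat_lit 2059370567910) (nat_lit 76) (nat_lit 2044595033694) (nat_lit 1) (nat_lit 4) (nat_lit 2) (nat_lit 5) (nat_lit 2) (nat_lit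 4) (nat_lit 280) (nat_lit 224) (nat_lit 156)) (XT.lf (nat_lit 0) (nat_lit 1535920337681) (nat_lit 76) (nat_lit 2354071069860) (nat_lit 76) (nat_lit 2339295391925) (nat_lit 1) (nat_lit 4) (nat_lit 2) (nat_lit 5) (nat_lit 2) (nat_lit 4) (nat_lit 281) (nat_lit 224) (nat_lit 155))) (XT.nd (nat_lit 78) (nat_lit 0) (nat_lit 0) (XT.lf (nat_lit 0) (nat_lit 1790629984214) (nat_lit 76) (nat_lit 2692976865069) (nat_lit 76) (nat_lit 2678201062160) (nat_lit 1) (nat_lit 4) (nat_lit 2) (nat_lit 5) (nat_lit 2) (nat_lit 4) (nat_lit 282) (nat_lit 224) (nat_lit 154)) (XT.lf (nat_lit 0) (nat_lit 2083545693203) (nat_lit 76) (nat_lit 3082718719095) (nat_lit 76) (nat_lit 3067942807513) (nat_lit 1) (nat_lit 4) (nat_lit 2) (nat_lit 5) (nat_lit 2) (nat_lit 4) (nat_lit 283) (nat_lit 224) (nat_lit 153)))) (XT.nd (nat_lit 156) (nat_lit 0) (nat_lit 0) (XT.nd (nat_lit 78) (nat_lit 0) (nat_lit 0) (XT.lf (nat_lit 0)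 (nat_lit 2420398424173) (nat_lit 76) (nat_lit 3530922016037) (nat_lit 76) (nat_lit 3516146009958) (nat_lit 1) (nat_lit 4) (nat_lit 2) (nat_lit 5) (nat_lit 2) (nat_lit 4) (nat_lit 284) (nat_lit 224) (nat_lit 152)) (XT.lf (nat_lit 0) (nat_lit 2807778774033) (nat_lit 76) (nat_lit 4046355950838) (nat_lit 76) (nat_lit 4031579862586) (nat_lit 1) (nat_lit 4) (nat_lit 2) (nat_lit 5) (nat_lit 2) (nat_lit 4) (nat_lit 285) (nat_lit 224) (nat_lit 151))) (XT.nd (nat_lit 78) (nat_lit 0) (nat_lit 0) (XT.lf (nat_lit 0) (nat_lit 3253265923543) (nat_lit 76) (nat_lit 4639105100481) (nat_lit 76) (nat_lit 4624328940776) (nat_lit 1) (nat_lit 4) (nat_lit 2) (nat_lit 5) (nat_lit 2) (nat_lit 4) (nat_lit 286) (nat_lit 224) (nat_lit 150)) (XT.nd (nat_lit 78) (nat_lit 0) (nat_lit 0) (XT.lf (nat_lit 0) (nat_lit 3765575925626) (nat_lit 76) (nat_lit 5320766730938) (nat_lit 76) (nat_lit 5305990509099) (nat_lit 1)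 (nat_lit 4) (nat_lit 2) (nat_lit 5) (nat_lit 2) (nat_lit 4) (nat_lit 287) (nat_lit 224) (nat_lit 149)) (XT.lf (nat_lit 0) (nat_lit 4354732236846) (nat_lit 76) (nat_lit 6104677700196) (nat_lit 76) (nat_lit 6089901424328) (nat_lit 1) (nat_lit 4) (nat_lit 2) (nat_lit 5) (nat_lit 2) (nat_lit 4) (nat_lit 288) (nat_lit 224) (nat_lit 148))))))))
noncomputable def xc60 : XT := (XT.nd (nat_lit 29796) (nat_lit 0) (nat_lit 304) (XT.nd (nat_lit 702) (nat_lit 0) (nat_lit 0) (XT.nd (nat_lit 312) (nat_lit 0) (nat_lit 0) (XT.nd (nat_lit 156) (nat_lit 0) (nat_lit 0) (XT.nd (nat_lit 78) (nat_lit 0) (nat_lit 0) (XT.lf (nat_lit 0) (nat_lit 5032261828509) (nat_lit 76) (nat_lit 7006175396785) (nat_lit 76) (nat_lit 6991399073934) (nat_lit 1) (nat_lit 4) (nat_lit 2) (nat_lit 5) (nat_lit 2) (nat_lit 4) (nat_lit 289) (nat_lit 224) (nat_lit 147)) (XT.lf (nat_lit 0) (nat_lit 5811420714365) (nat_lit 76) (nat_lit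 8042897819115) (nat_lit 76) (nat_lit 8028121455410) (nat_lit 1) (nat_lit 4) (nat_lit 2) (nat_lit 5) (nat_lit 2) (nat_lit 4) (nat_lit 290) (nat_lit 224) (nat_lit 146))) (XT.nd (nat_lit 78) (nat_lit 0) (nat_lit 0) (XT.lf (nat_lit 0) (nat_lit 6707453307398) (nat_lit 76) (nat_lit 9235128666754) (nat_lit 76) (nat_lit 9220352267524) (nat_lit 1) (nat_lit 4) (nat_lit 2) (nat_lit 5) (nat_lit 2) (nat_lit 4) (nat_lit 291) (nat_lit 224) (nat_lit 145)) (XT.lf (nat_lit 0) (nat_lit 7737890680081) (nat_lit 76) (nat_lit 10606194195417) (nat_lit 76) (nat_lit 10591417765295) (nat_lit 1) (nat_lit 4) (nat_lit 2) (nat_lit 5) (nat_lit 2) (nat_lit 4) (nat_lit 292) (nat_lit 224) (nat_lit 144)))) (XT.nd (nat_lit 234) (nat_lit 0) (nat_lit 0) (XT.nd (nat_lit 78) (nat_lit 0) (nat_lit 0) (XT.lf (nat_lit 0) (nat_lit 8922893563617) (nat_lit 76) (nat_lit 12182919600230) (nat_lit 76) (nat_lit 12168143143246) (nat_lit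 1) (nat_lit 4) (nat_lit 2) (nat_lit 5) (nat_lit 2) (nat_lit 4) (nat_lit 293) (nat_lit 224) (nat_lit 143)) (XT.lf (nat_lit 0) (nat_lit 10285646797034) (nat_lit 76) (nat_lit 13996153856504) (nat_lit 76) (nat_lit 13981377376161) (nat_lit 1) (nat_lit 4) (nat_lit 2) (nat_lit 5) (nat_lit 2) (nat_lit 4) (nat_lit 294) (nat_lit 224) (nat_lit 142))) (XT.nd (nat_lit 78) (nat_lit 0) (nat_lit 0) (XT.lf (nat_lit 0) (nat_lit 13655053949640) (nat_lit 76) (nat_lit 18479375662110) (nat_lit 76) (nat_lit 18464599143794) (nat_lit 1) (nat_lit 4) (nat_lit 2) (nat_lit 5) (nat_lit 2) (nat_lit 4) (nat_lit 296) (nat_lit 224) (nat_lit 140)) (XT.lf (nat_lit 0) (nat_lit 15727631052250) (nat_lit 76) (nat_lit 21237078420684) (nat_lit 76) (nat_lit 21222301887008) (nat_lit 1) (nat_lit 4) (nat_lit 2) (nat_lit 5) (nat_lit 2) (nat_lit 4) (nat_lit 297) (nat_lit 224) (nat_lit 139))))) (XT.nd (nat_lit 28704) (nat_lit 0) (nat_lit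 1444) (XT.nd (nat_lit 780) (nat_lit 0) (nat_lit 0) (XT.nd (nat_lit 702) (nat_lit 0) (nat_lit 0) (XT.lf (nat_lit 0) (nat_lit 18111094672996) (nat_lit 76) (nat_lit 24408436616335) (nat_lit 76) (nat_lit 24393660069305) (nat_lit 1) (nat_lit 4) (nat_lit 2) (nat_lit 5) (nat_lit 2) (nat_lit 4) (nat_lit 298) (nat_lit 224) (nat_lit 138)) (XT.lf (nat_lit 0) (nat_lit 64120802709132) (nat_lit 76) (nat_lit 85627442706737) (nat_lit 76) (nat_lit 85612666095981) (nat_lit 1) (nat_lit 4) (nat_lit 2) (nat_lit 5) (nat_lit 2) (nat_lit 4) (nat_lit 307) (nat_lit 224) (nat_lit 129))) (XT.nd (nat_lit 78) (nat_lit 0) (nat_lit 0) (XT.lf (nat_lit 0) (nat_lit 73763241841244) (nat_lit 76) (nat_lit 98457355662198) (nat_lit 76) (nat_lit 98442579048141) (nat_lit 1) (nat_lit 4) (nat_lit 2) (nat_lit 5) (nat_lit 2) (nat_lit 4) (nat_lit 308) (nat_lit 224) (nat_lit 128)) (XT.lf (nat_lit 0) (nat_lit 84852046833016) (nat_lit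 76) (nat_lit 113211755565985) (nat_lit 76) (nat_lit 113196978949058) (nat_lit 1) (nat_lit 4) (nat_lit 2) (nat_lit 5) (nat_lit 2) (nat_lit 4) (nat_lit 309) (nat_lit 224) (nat_lit 127)))) (XT.nd (nat_lit 156) (nat_lit 152) (nat_lit 0) (XT.nd (nat_lit 78) (nat_lit 0) (nat_lit 0) (XT.lf (nat_lit 0) (nat_lit 1135737467) (nat_lit 0) (nat_lit 1135737467) (nat_lit 228) (nat_lit 2157974778) (nat_lit 22) (nat_lit 5) (nat_lit 22) (nat_lit 3) (nat_lit 25) (nat_lit 3) (nat_lit 225) (nat_lit 225) (nat_lit 210)) (XT.lf (nat_lit 0) (nat_lit 5740504415) (nat_lit 228) (nat_lit 2690190844) (nat_lit 304) (nat_lit 956675459) (nat_lit 22) (nat_lit 5) (nat_lit 25) (nat_lit 3) (nat_lit 26) (nat_lit 5) (nat_lit 226) (nat_lit 225) (nat_lit 209))) (XT.nd (nat_lit 78) (nat_lit 152) (nat_lit 0) (XT.lf (nat_lit 76) (nat_lit 1739908531) (nat_lit 0) (nat_lit 5416173588) (nat_lit 304) (nat_lit 2834593456) (nat_lit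 23) (nat_lit 5) (nat_lit 22) (nat_lit 5) (nat_lit 26) (nat_lit 5) (nat_lit 227) (nat_lit 225) (nat_lit 208)) (XT.nd (nat_lit 78) (nat_lit 152) (nat_lit 0) (XT.lf (nat_lit 76) (nat_lit 7042886161) (nat_lit 0) (nat_lit 1754519571) (nat_lit 304) (nat_lit 1886208057) (nat_lit 23) (nat_lit 5) (nat_lit 22) (nat_lit 5) (nat_lit 26) (nat_lit 5) (nat_lit 228) (nat_lit 225) (nat_lit 207)) (XT.lf (nat_lit 0) (nat_lit 1601140128) (nat_lit 228) (nat_lit 9142376694) (nat_lit 304) (nat_lit 729186716) (nat_lit 20) (nat_lit 5) (nat_lit 23) (nat_lit 5) (nat_lit 24) (nat_lit 5) (nat_lit 229) (nat_lit 225) (nat_lit 206))))))) (XT.nd (nat_lit 624) (nat_lit 456) (nat_lit 0) (XT.nd (nat_lit 312) (nat_lit 152) (nat_lit 0) (XT.nd (nat_lit 156) (nat_lit 152) (nat_lit 0) (XT.nd (nat_lit 78) (nat_lit 304) (nat_lit 0) (XT.lf (nat_lit 0) (nat_lit 726133830) (nat_lit 304) (nat_lit 4537588394) (nat_lit 76) (nat_lit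 7086711838) (nat_lit 19) (nat_lit 5) (nat_lit 23) (nat_lit 5) (nat_lit 20) (nat_lit 5) (nat_lit 230) (nat_lit 225) (nat_lit 205)) (XT.lf (nat_lit 0) (nat_lit 1612324981) (nat_lit 304) (nat_lit 688547738) (nat_lit 380) (nat_lit 11058033657) (nat_lit 15) (nat_lit 5) (nat_lit 19) (nat_lit 5) (nat_lit 20) (nat_lit 5) (nat_lit 231) (nat_lit 225) (nat_lit 204))) (XT.nd (nat_lit 78) (nat_lit 152) (nat_lit 0) (XT.lf (nat_lit 0) (nat_lit 4466622267) (nat_lit 380) (nat_lit 5590524149) (nat_lit 76) (nat_lit 4408854412) (nat_lit 15) (nat_lit 5) (nat_lit 20) (nat_lit 5) (nat_lit 16) (nat_lit 5) (nat_lit 232) (nat_lit 225) (nat_lit 203)) (XT.lf (nat_lit 0) (nat_lit 1501580108) (nat_lit 152) (nat_lit 5478409516) (nat_lit 228) (nat_lit 8756253269) (nat_lit 13) (nat_lit 5) (nat_lit 15) (nat_lit 5) (nat_lit 16) (nat_lit 5) (nat_lit 233) (nat_lit 225) (nat_lit 202)))) (XT.nd (nat_lit 156) (nat_lit 76)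 (nat_lit 0) (XT.nd (nat_lit 78) (nat_lit 76) (nat_lit 0) (XT.lf (nat_lit 0) (nat_lit 10100672345) (nat_lit 228) (nat_lit 6966362542) (nat_lit 76) (nat_lit 95871798) (nat_lit 13) (nat_lit 5) (nat_lit 16) (nat_lit 5) (nat_lit 14) (nat_lit 4) (nat_lit 234) (nat_lit 225) (nat_lit 201)) (XT.lf (nat_lit 0) (nat_lit 1152259405) (nat_lit 76) (nat_lit 12787506165) (nat_lit 152) (nat_lit 4826633875) (nat_lit 12) (nat_lit 5) (nat_lit 13) (nat_lit 5) (nat_lit 14) (nat_lit 4) (nat_lit 235) (nat_lit 225) (nat_lit 200))) (XT.nd (nat_lit 78) (nat_lit 76) (nat_lit 0) (XT.lf (nat_lit 0) (nat_lit 11193680408) (nat_lit 76) (nat_lit 7471287443) (nat_lit 152) (nat_lit 1899238130) (nat_lit 12) (nat_lit 5) (nat_lit 13) (nat_lit 5) (nat_lit 14) (nat_lit 4) (nat_lit 236) (nat_lit 225) (nat_lit 199)) (XT.lf (nat_lit 0) (nat_lit 1287275351) (nat_lit 152) (nat_lit 23951771) (nat_lit 76) (nat_lit 21318994696) (nat_lit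 11) (nat_lit 5) (nat_lit 13) (nat_lit 5) (nat_lit 12) (nat_lit 5) (nat_lit 237) (nat_lit 225) (nat_lit 198))))) (XT.nd (nat_lit 312) (nat_lit 228) (nat_lit 0) (XT.nd (nat_lit 156) (nat_lit 76) (nat_lit 0) (XT.nd (nat_lit 78) (nat_lit 0) (nat_lit 0) (XT.lf (nat_lit 0) (nat_lit 5460270000) (nat_lit 228) (nat_lit 13588637149) (nat_lit 76) (nat_lit 5838439161) (nat_lit 9) (nat_lit 5) (nat_lit 12) (nat_lit 5) (nat_lit 10) (nat_lit 4) (nat_lit 238) (nat_lit 225) (nat_lit 197)) (XT.lf (nat_lit 0) (nat_lit 10282280740) (nat_lit 228) (nat_lit 3288645949) (nat_lit 76) (nat_lit 13908839497) (nat_lit 9) (nat_lit 5) (nat_lit 12) (nat_lit 5) (nat_lit 10) (nat_lit 4) (nat_lit 239) (nat_lit 225) (nat_lit 196))) (XT.nd (nat_lit 78) (nat_lit 0) (nat_lit 0) (XT.lf (nat_lit 0) (nat_lit 9329764652) (nat_lit 76) (nat_lit 6848776588) (nat_lit 152) (nat_lit 14230027974) (nat_lit 8) (nat_lit 5) (nat_lit 9)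 (nat_lit 5) (nat_lit 10) (nat_lit 4) (nat_lit 240) (nat_lit 225) (nat_lit 195)) (XT.lf (nat_lit 0) (nat_lit 23141926734) (nat_lit 152) (nat_lit 9643848502) (nat_lit 0) (nat_lit 963655777) (nat_lit 8) (nat_lit 5) (nat_lit 10) (nat_lit 4) (nat_lit 8) (nat_lit 4) (nat_lit 241) (nat_lit 225) (nat_lit 194)))) (XT.nd (nat_lit 156) (nat_lit 152) (nat_lit 0) (XT.nd (nat_lit 78) (nat_lit 0) (nat_lit 0) (XT.lf (nat_lit 0) (nat_lit 3434902371) (nat_lit 76) (nat_lit 28153789925) (nat_lit 76) (nat_lit 5937021740) (nat_lit 7) (nat_lit 4) (nat_lit 8) (nat_lit 5) (nat_lit 8) (nat_lit 4) (nat_lit 242) (nat_lit 225) (nat_lit 193)) (XT.lf (nat_lit 0) (nat_lit 19510511216) (nat_lit 76) (nat_lit 22268406199) (nat_lit 76) (nat_lit 18162162) (nat_lit 7) (nat_lit 4) (nat_lit 8) (nat_lit 5) (nat_lit 8) (nat_lit 4) (nat_lit 243) (nat_lit 225) (nat_lit 192))) (XT.nd (nat_lit 78) (nat_lit 76) (nat_lit 0) (XT.lf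 (nat_lit 0) (nat_lit 6158877648) (nat_lit 152) (nat_lit 9037766527) (nat_lit 76) (nat_lit 31474214821) (nat_lit 6) (nat_lit 5) (nat_lit 8) (nat_lit 5) (nat_lit 7) (nat_lit 4) (nat_lit 244) (nat_lit 225) (nat_lit 191)) (XT.nd (nat_lit 78) (nat_lit 0) (nat_lit 0) (XT.lf (nat_lit 0) (nat_lit 6760219543) (nat_lit 76) (nat_lit 6758331883) (nat_lit 152) (nat_lit 38718403759) (nat_lit 5) (nat_lit 5) (nat_lit 6) (nat_lit 5) (nat_lit 7) (nat_lit 4) (nat_lit 245) (nat_lit 225) (nat_lit 190)) (XT.lf (nat_lit 0) (nat_lit 22577721004) (nat_lit 152) (nat_lit 32807754820) (nat_lit 0) (nat_lit 3163219317) (nat_lit 5) (nat_lit 5) (nat_lit 7) (nat_lit 4) (nat_lit 5) (nat_lit 4) (nat_lit 246) (nat_lit 225) (nat_lit 189))))))))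
noncomputable def xc61 : XT := (XT.nd (nat_lit 1326) (nat_lit 76) (nat_lit 0) (XT.nd (nat_lit 624) (nat_lit 0) (nat_lit 0) (XT.nd (nat_lit 312) (nat_lit 152) (nat_lit 0) (XT.nd (nat_lit 156) (nat_lit 76) (nat_lit 0) (XT.nd (nat_lit 78) (nat_lit 0) (nat_lit 0) (XT.lf (nat_lit 0) (nat_lit 33299020163) (nat_lit 152) (nat_lit 18594865830) (nat_lit 0) (nat_lit 13867875061) (nat_lit 5) (nat_lit 5) (nat_lit 7) (nat_lit 4) (nat_lit 5) (nat_lit 4) (nat_lit 247) (nat_lit 225) (nat_lit 188)) (XT.lf (nat_lit 0) (nat_lit 45612365339) (nat_lit 152) (nat_lit 2280142300) (nat_lit 0) (nat_lit 26166747704) (nat_lit 5) (nat_lit 5) (nat_lit 7) (nat_lit 4) (nat_lit 5) (nat_lit 4) (nat_lit 248) (nat_lit 225) (nat_lit 187))) (XT.nd (nat_lit 78) (nat_lit 0) (nat_lit 0) (XT.lf (nat_lit 0) (nat_lit 18063779442) (nat_lit 76) (nat_lit 42442872953) (nat_lit 76) (nat_lit 22984670505) (nat_lit 4) (nat_lit 4) (nat_lit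 5) (nat_lit 5) (nat_lit 5) (nat_lit 4) (nat_lit 249) (nat_lit 225) (nat_lit 186)) (XT.lf (nat_lit 0) (nat_lit 41690563149) (nat_lit 76) (nat_lit 36050463262) (nat_lit 76) (nat_lit 16581317500) (nat_lit 4) (nat_lit 4) (nat_lit 5) (nat_lit 5) (nat_lit 5) (nat_lit 4) (nat_lit 250) (nat_lit 225) (nat_lit 185)))) (XT.nd (nat_lit 156) (nat_lit 152) (nat_lit 0) (XT.nd (nat_lit 78) (nat_lit 0) (nat_lit 0) (XT.lf (nat_lit 0) (nat_lit 68839639889) (nat_lit 76) (nat_lit 28709398939) (nat_lit 76) (nat_lit 9230737250) (nat_lit 4) (nat_lit 4) (nat_lit 5) (nat_lit 5) (nat_lit 5) (nat_lit 4) (nat_lit 251) (nat_lit 225) (nat_lit 184)) (XT.lf (nat_lit 0) (nat_lit 100042187252) (nat_lit 76) (nat_lit 20276050464) (nat_lit 76) (nat_lit 789114057) (nat_lit 4) (nat_lit 4) (nat_lit 5) (nat_lit 5) (nat_lit 5) (nat_lit 4) (nat_lit 252) (nat_lit 225) (nat_lit 183))) (XT.nd (nat_lit 78) (nat_lit 76) (nat_lit 0)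 (XT.lf (nat_lit 0) (nat_lit 8115598923) (nat_lit 152) (nat_lit 2045594128) (nat_lit 76) (nat_lit 127368866448) (nat_lit 3) (nat_lit 5) (nat_lit 5) (nat_lit 5) (nat_lit 4) (nat_lit 4) (nat_lit 253) (nat_lit 225) (nat_lit 182)) (XT.lf (nat_lit 0) (nat_lit 19271308785) (nat_lit 152) (nat_lit 134675384342) (nat_lit 0) (nat_lit 2314449054) (nat_lit 2) (nat_lit 5) (nat_lit 4) (nat_lit 4) (nat_lit 2) (nat_lit 4) (nat_lit 254) (nat_lit 225) (nat_lit 181))))) (XT.nd (nat_lit 312) (nat_lit 0) (nat_lit 0) (XT.nd (nat_lit 156) (nat_lit 0) (nat_lit 0) (XT.nd (nat_lit 78) (nat_lit 0) (nat_lit 0) (XT.lf (nat_lit 0) (nat_lit 32688466426) (nat_lit 152) (nat_lit 129298346636) (nat_lit 0) (nat_lit 15726875598) (nat_lit 2) (nat_lit 5) (nat_lit 4) (nat_lit 4) (nat_lit 2) (nat_lit 4) (nat_lit 255) (nat_lit 225) (nat_lit 180)) (XT.lf (nat_lit 0) (nat_lit 48111418872) (nat_lit 152) (nat_lit 123128014141) (nat_lit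 0) (nat_lit 31145714047) (nat_lit 2) (nat_lit 5) (nat_lit 4) (nat_lit 4) (nat_lit 2) (nat_lit 4) (nat_lit 256) (nat_lit 225) (nat_lit 179))) (XT.nd (nat_lit 78) (nat_lit 0) (nat_lit 0) (XT.lf (nat_lit 0) (nat_lit 65841919541) (nat_lit 152) (nat_lit 116043662958) (nat_lit 0) (nat_lit 48872637326) (nat_lit 2) (nat_lit 5) (nat_lit 4) (nat_lit 4) (nat_lit 2) (nat_lit 4) (nat_lit 257) (nat_lit 225) (nat_lit 178)) (XT.lf (nat_lit 0) (nat_lit 86226869532) (nat_lit 152) (nat_lit 107906686218) (nat_lit 0) (nat_lit 69254476545) (nat_lit 2) (nat_lit 5) (nat_lit 4) (nat_lit 4) (nat_lit 2) (nat_lit 4) (nat_lit 258) (nat_lit 225) (nat_lit 177)))) (XT.nd (nat_lit 156) (nat_lit 0) (nat_lit 0) (XT.nd (nat_lit 78) (nat_lit 0) (nat_lit 0) (XT.lf (nat_lit 0) (nat_lit 109665104825) (nat_lit 152) (nat_lit 98557882201) (nat_lit 0) (nat_lit 92690006817) (nat_lit 2) (nat_lit 5) (nat_lit 4) (nat_lit 4) (nat_lit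 2) (nat_lit 4) (nat_lit 259) (nat_lit 225) (nat_lit 176)) (XT.lf (nat_lit 0) (nat_lit 136615199586) (nat_lit 152) (nat_lit 87814339524) (nat_lit 0) (nat_lit 119637749387) (nat_lit 2) (nat_lit 5) (nat_lit 4) (nat_lit 4) (nat_lit 2) (nat_lit 4) (nat_lit 260) (nat_lit 225) (nat_lit 175))) (XT.nd (nat_lit 78) (nat_lit 0) (nat_lit 0) (XT.lf (nat_lit 0) (nat_lit 167604438280) (nat_lit 152) (nat_lit 75465858440) (nat_lit 0) (nat_lit 150624942697) (nat_lit 2) (nat_lit 5) (nat_lit 4) (nat_lit 4) (nat_lit 2) (nat_lit 4) (nat_lit 261) (nat_lit 225) (nat_lit 174)) (XT.nd (nat_lit 78) (nat_lit 0) (nat_lit 0) (XT.lf (nat_lit 0) (nat_lit 203239132099) (nat_lit 152) (nat_lit 61270838232) (nat_lit 0) (nat_lit 186257857921) (nat_lit 2) (nat_lit 5) (nat_lit 4) (nat_lit 4) (nat_lit 2) (nat_lit 4) (nat_lit 262) (nat_lit 225) (nat_lit 173)) (XT.lf (nat_lit 0) (nat_lit 244216481572) (nat_lit 152) (nat_lit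 44951550242) (nat_lit 0) (nat_lit 227233660790) (nat_lit 2) (nat_lit 5) (nat_lit 4) (nat_lit 4) (nat_lit 2) (nat_lit 4) (nat_lit 263) (nat_lit 225) (nat_lit 172))))))) (XT.nd (nat_lit 624) (nat_lit 0) (nat_lit 0) (XT.nd (nat_lit 312) (nat_lit 0) (nat_lit 0) (XT.nd (nat_lit 156) (nat_lit 76) (nat_lit 0) (XT.nd (nat_lit 78) (nat_lit 0) (nat_lit 0) (XT.lf (nat_lit 0) (nat_lit 291338217452) (nat_lit 152) (nat_lit 26188704055) (nat_lit 0) (nat_lit 274354051797) (nat_lit 2) (nat_lit 5) (nat_lit 4) (nat_lit 4) (nat_lit 2) (nat_lit 4) (nat_lit 264) (nat_lit 225) (nat_lit 171)) (XT.lf (nat_lit 0) (nat_lit 345526286743) (nat_lit 152) (nat_lit 4615200505) (nat_lit 0) (nat_lit 328540951634) (nat_lit 2) (nat_lit 5) (nat_lit 4) (nat_lit 4) (nat_lit 2) (nat_lit 4) (nat_lit 265) (nat_lit 225) (nat_lit 170))) (XT.nd (nat_lit 78) (nat_lit 0) (nat_lit 0) (XT.lf (nat_lit 0) (nat_lit 22164267011) (nat_lit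 76) (nat_lit 386594398823) (nat_lit 76) (nat_lit 369608046796) (nat_lit 1) (nat_lit 4) (nat_lit 2) (nat_lit 5) (nat_lit 2) (nat_lit 4) (nat_lit 266) (nat_lit 225) (nat_lit 169)) (XT.lf (nat_lit 0) (nat_lit 53476211369) (nat_lit 76) (nat_lit 428239352911) (nat_lit 76) (nat_lit 411252116608) (nat_lit 1) (nat_lit 4) (nat_lit 2) (nat_lit 5) (nat_lit 2) (nat_lit 4) (nat_lit 267) (nat_lit 225) (nat_lit 168)))) (XT.nd (nat_lit 156) (nat_lit 0) (nat_lit 0) (XT.nd (nat_lit 78) (nat_lit 0) (nat_lit 0) (XT.lf (nat_lit 0) (nat_lit 89482226609) (nat_lit 76) (nat_lit 476132391209) (nat_lit 76) (nat_lit 459144385970) (nat_lit 1) (nat_lit 4) (nat_lit 2) (nat_lit 5) (nat_lit 2) (nat_lit 4) (nat_lit 268) (nat_lit 225) (nat_lit 167)) (XT.lf (nat_lit 0) (nat_lit 130886778245) (nat_lit 76) (nat_lit 531210551423) (nat_lit 76) (nat_lit 514221877545) (nat_lit 1) (nat_lit 4) (nat_lit 2) (nat_lit 5) (nat_lit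 2) (nat_lit 4) (nat_lit 269) (nat_lit 225) (nat_lit 166))) (XT.nd (nat_lit 78) (nat_lit 0) (nat_lit 0) (XT.lf (nat_lit 0) (nat_lit 178499955331) (nat_lit 76) (nat_lit 594551449731) (nat_lit 76) (nat_lit 577562194428) (nat_lit 1) (nat_lit 4) (nat_lit 2) (nat_lit 5) (nat_lit 2) (nat_lit 4) (nat_lit 270) (nat_lit 225) (nat_lit 165)) (XT.lf (nat_lit 0) (nat_lit 233253320029) (nat_lit 76) (nat_lit 667394364580) (nat_lit 76) (nat_lit 650404603688) (nat_lit 1) (nat_lit 4) (nat_lit 2) (nat_lit 5) (nat_lit 2) (nat_lit 4) (nat_lit 271) (nat_lit 225) (nat_lit 164))))) (XT.nd (nat_lit 312) (nat_lit 0) (nat_lit 0) (XT.nd (nat_lit 156) (nat_lit 0) (nat_lit 0) (XT.nd (nat_lit 78) (nat_lit 0) (nat_lit 0) (XT.lf (nat_lit 0) (nat_lit 296218133820) (nat_lit 76) (nat_lit 751164483432) (nat_lit 76) (nat_lit 734174282899) (nat_lit 1) (nat_lit 4) (nat_lit 2) (nat_lit 5) (nat_lit 2) (nat_lit 4) (nat_lit 272)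 (nat_lit 225) (nat_lit 163)) (XT.lf (nat_lit 0) (nat_lit 368626316976) (nat_lit 76) (nat_lit 847500786875) (nat_lit 76) (nat_lit 830510204045) (nat_lit 1) (nat_lit 4) (nat_lit 2) (nat_lit 5) (nat_lit 2) (nat_lit 4) (nat_lit 273) (nat_lit 225) (nat_lit 162))) (XT.nd (nat_lit 78) (nat_lit 0) (nat_lit 0) (XT.lf (nat_lit 0) (nat_lit 451894551339) (nat_lit 76) (nat_lit 958288115627) (nat_lit 76) (nat_lit 941297200365) (nat_lit 1) (nat_lit 4) (nat_lit 2) (nat_lit 5) (nat_lit 2) (nat_lit 4) (nat_lit 274) (nat_lit 225) (nat_lit 161)) (XT.lf (nat_lit 0) (nat_lit 547651998018) (nat_lit 76) (nat_lit 1085694047860) (nat_lit 76) (nat_lit 1068702843527) (nat_lit 1) (nat_lit 4) (nat_lit 2) (nat_lit 5) (nat_lit 2) (nat_lit 4) (nat_lit 275) (nat_lit 225) (nat_lit 160)))) (XT.nd (nat_lit 156) (nat_lit 0) (nat_lit 0) (XT.nd (nat_lit 78) (nat_lit 0) (nat_lit 0) (XT.lf (nat_lit 0) (nat_lit 657772172274)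 (nat_lit 76) (nat_lit 1232211308336) (nat_lit 76) (nat_lit 1215219852636) (nat_lit 1) (nat_lit 4) (nat_lit 2) (nat_lit 5) (nat_lit 2) (nat_lit 4) (nat_lit 276) (nat_lit 225) (nat_lit 159)) (XT.lf (nat_lit 0) (nat_lit 784409599254) (nat_lit 76) (nat_lit 1400706539106) (nat_lit 76) (nat_lit 1383714864827) (nat_lit 1) (nat_lit 4) (nat_lit 2) (nat_lit 5) (nat_lit 2) (nat_lit 4) (nat_lit 277) (nat_lit 225) (nat_lit 158))) (XT.nd (nat_lit 78) (nat_lit 0) (nat_lit 0) (XT.lf (nat_lit 0) (nat_lit 930041967748) (nat_lit 76) (nat_lit 1594476385991) (nat_lit 76) (nat_lit 1577484521643) (nat_lit 1) (nat_lit 4) (nat_lit 2) (nat_lit 5) (nat_lit 2) (nat_lit 4) (nat_lit 278) (nat_lit 225) (nat_lit 157)) (XT.nd (nat_lit 78) (nat_lit 0) (nat_lit 0) (XT.lf (nat_lit 0) (nat_lit 1097518606704) (nat_lit 76) (nat_lit 1817311998168) (nat_lit 76) (nat_lit 1800319968542) (nat_lit 1) (nat_lit 4) (nat_lit 2) (nat_lit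 5) (nat_lit 2) (nat_lit 4) (nat_lit 279) (nat_lit 225) (nat_lit 156)) (XT.lf (nat_lit 0) (nat_lit 1290116232973) (nat_lit 76) (nat_lit 2073573202832) (nat_lit 76) (nat_lit 2056581029487) (nat_lit 1) (nat_lit 4) (nat_lit 2) (nat_lit 5) (nat_lit 2) (nat_lit 4) (nat_lit 280) (nat_lit 225) (nat_lit 155))))))))
noncomputable def xc62 : XT := (XT.nd (nat_lit 2184) (nat_lit 0) (nat_lit 0) (XT.nd (nat_lit 624) (nat_lit 0) (nat_lit 0) (XT.nd (nat_lit 312) (nat_lit 0) (nat_lit 0) (XT.nd (nat_lit 156) (nat_lit 0) (nat_lit 0) (XT.nd (nat_lit 78) (nat_lit 0) (nat_lit 0) (XT.lf (nat_lit 0) (nat_lit 1511603060979) (nat_lit 76) (nat_lit 2368273806162) (nat_lit 76) (nat_lit 2351281507844) (nat_lit 1) (nat_lit 4) (nat_lit 2) (nat_lit 5) (nat_lit 2) (nat_lit 4) (nat_lit 281) (nat_lit 225) (nat_lit 154)) (XT.lf (nat_lit 0) (nat_lit 1766312528664) (nat_lit 76) (nat_lit 2707179689527) (nat_lit 76) (nat_lit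 2690187282536) (nat_lit 1) (nat_lit 4) (nat_lit 2) (nat_lit 5) (nat_lit 2) (nat_lit 4) (nat_lit 282) (nat_lit 225) (nat_lit 153))) (XT.nd (nat_lit 78) (nat_lit 0) (nat_lit 0) (XT.lf (nat_lit 0) (nat_lit 2059228082133) (nat_lit 76) (nat_lit 3096921620210) (nat_lit 76) (nat_lit 3079929118721) (nat_lit 1) (nat_lit 4) (nat_lit 2) (nat_lit 5) (nat_lit 2) (nat_lit 4) (nat_lit 283) (nat_lit 225) (nat_lit 152)) (XT.lf (nat_lit 0) (nat_lit 2396080677868) (nat_lit 76) (nat_lit 3545124983811) (nat_lit 76) (nat_lit 3528132400150) (nat_lit 1) (nat_lit 4) (nat_lit 2) (nat_lit 5) (nat_lit 2) (nat_lit 4) (nat_lit 284) (nat_lit 225) (nat_lit 151)))) (XT.nd (nat_lit 156) (nat_lit 0) (nat_lit 0) (XT.nd (nat_lit 78) (nat_lit 0) (nat_lit 0) (XT.lf (nat_lit 0) (nat_lit 2783460910133) (nat_lit 76) (nat_lit 4060558976576) (nat_lit 76) (nat_lit 4043566321461) (nat_lit 1) (nat_lit 4) (nat_lit 2) (nat_lit 5)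 (nat_lit 2) (nat_lit 4) (nat_lit 285) (nat_lit 225) (nat_lit 150)) (XT.lf (nat_lit 0) (nat_lit 3228947957386) (nat_lit 76) (nat_lit 4653308176622) (nat_lit 76) (nat_lit 4636315459373) (nat_lit 1) (nat_lit 4) (nat_lit 2) (nat_lit 5) (nat_lit 2) (nat_lit 4) (nat_lit 286) (nat_lit 225) (nat_lit 149))) (XT.nd (nat_lit 78) (nat_lit 0) (nat_lit 0) (XT.lf (nat_lit 0) (nat_lit 3741257870550) (nat_lit 76) (nat_lit 5334969850909) (nat_lit 76) (nat_lit 5317977079630) (nat_lit 1) (nat_lit 4) (nat_lit 2) (nat_lit 5) (nat_lit 2) (nat_lit 4) (nat_lit 287) (nat_lit 225) (nat_lit 148)) (XT.lf (nat_lit 0) (nat_lit 4330414104449) (nat_lit 76) (nat_lit 6118880858279) (nat_lit 76) (nat_lit 6101888040019) (nat_lit 1) (nat_lit 4) (nat_lit 2) (nat_lit 5) (nat_lit 2) (nat_lit 4) (nat_lit 288) (nat_lit 225) (nat_lit 147))))) (XT.nd (nat_lit 312) (nat_lit 0) (nat_lit 0) (XT.nd (nat_lit 156) (nat_lit 0) (nat_lit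 0) (XT.nd (nat_lit 78) (nat_lit 0) (nat_lit 0) (XT.lf (nat_lit 0) (nat_lit 5007943628877) (nat_lit 76) (nat_lit 7020378588009) (nat_lit 76) (nat_lit 7003385728894) (nat_lit 1) (nat_lit 4) (nat_lit 2) (nat_lit 5) (nat_lit 2) (nat_lit 4) (nat_lit 289) (nat_lit 225) (nat_lit 146)) (XT.lf (nat_lit 0) (nat_lit 5787102456267) (nat_lit 76) (nat_lit 8057101039158) (nat_lit 76) (nat_lit 8040108144517) (nat_lit 1) (nat_lit 4) (nat_lit 2) (nat_lit 5) (nat_lit 2) (nat_lit 4) (nat_lit 290) (nat_lit 225) (nat_lit 145))) (XT.nd (nat_lit 78) (nat_lit 0) (nat_lit 0) (XT.lf (nat_lit 0) (nat_lit 6683134998460) (nat_lit 76) (nat_lit 9249331911856) (nat_lit 76) (nat_lit 9232338986324) (nat_lit 1) (nat_lit 4) (nat_lit 2) (nat_lit 5) (nat_lit 2) (nat_lit 4) (nat_lit 291) (nat_lit 225) (nat_lit 144)) (XT.lf (nat_lit 0) (nat_lit 7713572326934) (nat_lit 76) (nat_lit 10620397462310) (nat_lit 76) (nat_lit 10603404509916)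 (nat_lit 1) (nat_lit 4) (nat_lit 2) (nat_lit 5) (nat_lit 2) (nat_lit 4) (nat_lit 292) (nat_lit 225) (nat_lit 143)))) (XT.nd (nat_lit 1014) (nat_lit 0) (nat_lit 0) (XT.nd (nat_lit 78) (nat_lit 0) (nat_lit 0) (XT.lf (nat_lit 0) (nat_lit 8898575172029) (nat_lit 76) (nat_lit 12197122886071) (nat_lit 76) (nat_lit 12180129910319) (nat_lit 1) (nat_lit 4) (nat_lit 2) (nat_lit 5) (nat_lit 2) (nat_lit 4) (nat_lit 293) (nat_lit 225) (nat_lit 142)) (XT.lf (nat_lit 0) (nat_lit 10261328372018) (nat_lit 76) (nat_lit 14010357158822) (nat_lit 76) (nat_lit 13993364162758) (nat_lit 1) (nat_lit 4) (nat_lit 2) (nat_lit 5) (nat_lit 2) (nat_lit 4) (nat_lit 294) (nat_lit 225) (nat_lit 141))) (XT.nd (nat_lit 78) (nat_lit 0) (nat_lit 0) (XT.lf (nat_lit 0) (nat_lit 55711754412660) (nat_lit 76) (nat_lit 74485200055150) (nat_lit 76) (nat_lit 74468206948984) (nat_lit 1) (nat_lit 4) (nat_lit 2) (nat_lit 5) (nat_lit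 2) (nat_lit 4) (nat_lit 306) (nat_lit 225) (nat_lit 129)) (XT.nd (nat_lit 78) (nat_lit 0) (nat_lit 0) (XT.lf (nat_lit 0) (nat_lit 64096484097482) (nat_lit 76) (nat_lit 85641646101049) (nat_lit 76) (nat_lit 85624652991581) (nat_lit 1) (nat_lit 4) (nat_lit 2) (nat_lit 5) (nat_lit 2) (nat_lit 4) (nat_lit 307) (nat_lit 225) (nat_lit 128)) (XT.lf (nat_lit 0) (nat_lit 73738923224870) (nat_lit 76) (nat_lit 98471559058839) (nat_lit 76) (nat_lit 98454565946501) (nat_lit 1) (nat_lit 4) (nat_lit 2) (nat_lit 5) (nat_lit 2) (nat_lit 4) (nat_lit 308) (nat_lit 225) (nat_lit 127))))))) (XT.nd (nat_lit 28470) (nat_lit 0) (nat_lit 532) (XT.nd (nat_lit 28158) (nat_lit 0) (nat_lit 1064) (XT.nd (nat_lit 28002) (nat_lit 0) (nat_lit 1596) (XT.nd (nat_lit 27924) (nat_lit 0) (nat_lit 1596) (XT.lf (nat_lit 0) (nat_lit 84827728212533) (nat_lit 76) (nat_lit 113225958964651) (nat_lit 76) (nat_lit 113208965849817)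 (nat_lit 1) (nat_lit 4) (nat_lit 2) (nat_lit 5) (nat_lit 2) (nat_lit 4) (nat_lit 309) (nat_lit 225) (nat_lit 126)) (XT.lf (nat_lit 0) (nat_lit 1695932612) (nat_lit 0) (nat_lit 1695932612) (nat_lit 228) (nat_lit 1577937715) (nat_lit 22) (nat_lit 5) (nat_lit 22) (nat_lit 3) (nat_lit 25) (nat_lit 3) (nat_lit 226) (nat_lit 226) (nat_lit 208))) (XT.nd (nat_lit 78) (nat_lit 0) (nat_lit 0) (XT.lf (nat_lit 0) (nat_lit 7929452831) (nat_lit 228) (nat_lit 2171909084) (nat_lit 304) (nat_lit 482561544) (nat_lit 22) (nat_lit 5) (nat_lit 25) (nat_lit 3) (nat_lit 26) (nat_lit 5) (nat_lit 227) (nat_lit 226) (nat_lit 207)) (XT.lf (nat_lit 76) (nat_lit 2880804725) (nat_lit 0) (nat_lit 6539796865) (nat_lit 304) (nat_lit 1879251028) (nat_lit 23) (nat_lit 5) (nat_lit 22) (nat_lit 5) (nat_lit 26) (nat_lit 5) (nat_lit 228) (nat_lit 226) (nat_lit 206)))) (XT.nd (nat_lit 156) (nat_lit 304) (nat_lit 0) (XT.nd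 (nat_lit 78) (nat_lit 228) (nat_lit 0) (XT.lf (nat_lit 76) (nat_lit 8864458141) (nat_lit 0) (nat_lit 2288303801) (nat_lit 304) (nat_lit 968677139) (nat_lit 23) (nat_lit 5) (nat_lit 22) (nat_lit 5) (nat_lit 26) (nat_lit 5) (nat_lit 229) (nat_lit 226) (nat_lit 205)) (XT.lf (nat_lit 0) (nat_lit 215796460) (nat_lit 304) (nat_lit 10316471451) (nat_lit 76) (nat_lit 2512519977) (nat_lit 19) (nat_lit 5) (nat_lit 23) (nat_lit 5) (nat_lit 20) (nat_lit 5) (nat_lit 230) (nat_lit 226) (nat_lit 204))) (XT.nd (nat_lit 78) (nat_lit 304) (nat_lit 0) (XT.lf (nat_lit 0) (nat_lit 1686972473) (nat_lit 304) (nat_lit 4347702049) (nat_lit 76) (nat_lit 8034385816) (nat_lit 19) (nat_lit 5) (nat_lit 23) (nat_lit 5) (nat_lit 20) (nat_lit 5) (nat_lit 231) (nat_lit 226) (nat_lit 203)) (XT.lf (nat_lit 0) (nat_lit 2685129032) (nat_lit 304) (nat_lit 736081438) (nat_lit 380) (nat_lit 11819902100) (nat_lit 15) (nat_lit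 5) (nat_lit 19) (nat_lit 5) (nat_lit 20) (nat_lit 5) (nat_lit 232) (nat_lit 226) (nat_lit 202))))) (XT.nd (nat_lit 312) (nat_lit 304) (nat_lit 0) (XT.nd (nat_lit 156) (nat_lit 76) (nat_lit 0) (XT.nd (nat_lit 78) (nat_lit 152) (nat_lit 0) (XT.lf (nat_lit 0) (nat_lit 5812715840) (nat_lit 380) (nat_lit 5602775257) (nat_lit 76) (nat_lit 5114343746) (nat_lit 15) (nat_lit 5) (nat_lit 20) (nat_lit 5) (nat_lit 16) (nat_lit 5) (nat_lit 233) (nat_lit 226) (nat_lit 201)) (XT.lf (nat_lit 0) (nat_lit 2515584297) (nat_lit 152) (nat_lit 6131978182) (nat_lit 228) (nat_lit 9351986272) (nat_lit 13) (nat_lit 5) (nat_lit 15) (nat_lit 5) (nat_lit 16) (nat_lit 5) (nat_lit 234) (nat_lit 226) (nat_lit 200))) (XT.nd (nat_lit 78) (nat_lit 76) (nat_lit 0) (XT.lf (nat_lit 0) (nat_lit 12161459210) (nat_lit 228) (nat_lit 7247027145) (nat_lit 76) (nat_lit 243486549) (nat_lit 13) (nat_lit 5) (nat_lit 16) (nat_lit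 5) (nat_lit 14) (nat_lit 4) (nat_lit 235) (nat_lit 226) (nat_lit 199)) (XT.lf (nat_lit 0) (nat_lit 2054647649) (nat_lit 76) (nat_lit 14480801415) (nat_lit 152) (nat_lit 4967144341) (nat_lit 12) (nat_lit 5) (nat_lit 13) (nat_lit 5) (nat_lit 14) (nat_lit 4) (nat_lit 236) (nat_lit 226) (nat_lit 198)))) (XT.nd (nat_lit 156) (nat_lit 76) (nat_lit 0) (XT.nd (nat_lit 78) (nat_lit 228) (nat_lit 0) (XT.lf (nat_lit 0) (nat_lit 13507123195) (nat_lit 76) (nat_lit 8396475626) (nat_lit 152) (nat_lit 1676745923) (nat_lit 12) (nat_lit 5) (nat_lit 13) (nat_lit 5) (nat_lit 14) (nat_lit 4) (nat_lit 237) (nat_lit 226) (nat_lit 197)) (XT.lf (nat_lit 0) (nat_lit 620642786) (nat_lit 152) (nat_lit 1287343044) (nat_lit 228) (nat_lit 24050615596) (nat_lit 9) (nat_lit 5) (nat_lit 11) (nat_lit 5) (nat_lit 12) (nat_lit 5) (nat_lit 238) (nat_lit 226) (nat_lit 196))) (XT.nd (nat_lit 78) (nat_lit 76) (nat_lit 0) (XT.lf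 (nat_lit 0) (nat_lit 6660235785) (nat_lit 228) (nat_lit 15011256401) (nat_lit 76) (nat_lit 6890068766) (nat_lit 9) (nat_lit 5) (nat_lit 12) (nat_lit 5) (nat_lit 10) (nat_lit 4) (nat_lit 239) (nat_lit 226) (nat_lit 195)) (XT.nd (nat_lit 78) (nat_lit 76) (nat_lit 0) (XT.lf (nat_lit 0) (nat_lit 12155862230) (nat_lit 228) (nat_lit 3246572129) (nat_lit 76) (nat_lit 16148090405) (nat_lit 9) (nat_lit 5) (nat_lit 12) (nat_lit 5) (nat_lit 10) (nat_lit 4) (nat_lit 240) (nat_lit 226) (nat_lit 194)) (XT.lf (nat_lit 0) (nat_lit 11240265031) (nat_lit 76) (nat_lit 7674252535) (nat_lit 152) (nat_lit 16007635633) (nat_lit 8) (nat_lit 5) (nat_lit 9) (nat_lit 5) (nat_lit 10) (nat_lit 4) (nat_lit 241) (nat_lit 226) (nat_lit 193))))))))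
noncomputable def xc63 : XT := (XT.nd (nat_lit 1326) (nat_lit 76) (nat_lit 0) (XT.nd (nat_lit 624) (nat_lit 228) (nat_lit 0) (XT.nd (nat_lit 312) (nat_lit 76) (nat_lit 0) (XT.nd (nat_lit 156) (nat_lit 76) (nat_lit 0) (XT.nd (nat_lit 78) (nat_lit 76) (nat_lit 0) (XT.lf (nat_lit 0) (nat_lit 26889348724) (nat_lit 152) (nat_lit 10611835089) (nat_lit 0) (nat_lit 1268092231) (nat_lit 8) (nat_lit 5) (nat_lit 10) (nat_lit 4) (nat_lit 8) (nat_lit 4) (nat_lit 242) (nat_lit 226) (nat_lit 192)) (XT.lf (nat_lit 0) (nat_lit 4406974292) (nat_lit 76) (nat_lit 32179054110) (nat_lit 76) (nat_lit 6528688182) (nat_lit 7) (nat_lit 4) (nat_lit 8) (nat_lit 5) (nat_lit 8) (nat_lit 4) (nat_lit 243) (nat_lit 226) (nat_lit 191))) (XT.nd (nat_lit 78) (nat_lit 0) (nat_lit 0) (XT.lf (nat_lit 0) (nat_lit 217736317) (nat_lit 152) (nat_lit 25207545397) (nat_lit 76) (nat_lit 22605219097) (nat_lit 6) (nat_lit 5) (nat_lit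 8) (nat_lit 5) (nat_lit 7) (nat_lit 4) (nat_lit 244) (nat_lit 226) (nat_lit 190)) (XT.lf (nat_lit 0) (nat_lit 7288590466) (nat_lit 152) (nat_lit 10027219894) (nat_lit 76) (nat_lit 36324137980) (nat_lit 6) (nat_lit 5) (nat_lit 8) (nat_lit 5) (nat_lit 7) (nat_lit 4) (nat_lit 245) (nat_lit 226) (nat_lit 189)))) (XT.nd (nat_lit 156) (nat_lit 0) (nat_lit 0) (XT.nd (nat_lit 78) (nat_lit 0) (nat_lit 0) (XT.lf (nat_lit 0) (nat_lit 8123818104) (nat_lit 76) (nat_lit 7616017908) (nat_lit 152) (nat_lit 44303065579) (nat_lit 5) (nat_lit 5) (nat_lit 6) (nat_lit 5) (nat_lit 7) (nat_lit 4) (nat_lit 246) (nat_lit 226) (nat_lit 188)) (XT.lf (nat_lit 0) (nat_lit 26138261015) (nat_lit 152) (nat_lit 37404830883) (nat_lit 0) (nat_lit 3761328200) (nat_lit 5) (nat_lit 5) (nat_lit 7) (nat_lit 4) (nat_lit 5) (nat_lit 4) (nat_lit 247) (nat_lit 226) (nat_lit 187))) (XT.nd (nat_lit 78) (nat_lit 0) (nat_lit 0) (XT.lf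 (nat_lit 0) (nat_lit 38445074804) (nat_lit 152) (nat_lit 21102280783) (nat_lit 0) (nat_lit 16055557177) (nat_lit 5) (nat_lit 5) (nat_lit 7) (nat_lit 4) (nat_lit 5) (nat_lit 4) (nat_lit 248) (nat_lit 226) (nat_lit 186)) (XT.lf (nat_lit 0) (nat_lit 52585699808) (nat_lit 152) (nat_lit 2377107191) (nat_lit 0) (nat_lit 30185238865) (nat_lit 5) (nat_lit 5) (nat_lit 7) (nat_lit 4) (nat_lit 5) (nat_lit 4) (nat_lit 249) (nat_lit 226) (nat_lit 185))))) (XT.nd (nat_lit 312) (nat_lit 152) (nat_lit 0) (XT.nd (nat_lit 156) (nat_lit 0) (nat_lit 0) (XT.nd (nat_lit 78) (nat_lit 0) (nat_lit 0) (XT.lf (nat_lit 0) (nat_lit 21007263883) (nat_lit 76) (nat_lit 48699402543) (nat_lit 76) (nat_lit 26289425675) (nat_lit 4) (nat_lit 4) (nat_lit 5) (nat_lit 5) (nat_lit 5) (nat_lit 4) (nat_lit 250) (nat_lit 226) (nat_lit 184)) (XT.lf (nat_lit 0) (nat_lit 48147554164) (nat_lit 76) (nat_lit 41362466358) (nat_lit 76)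 (nat_lit 18944214771) (nat_lit 4) (nat_lit 4) (nat_lit 5) (nat_lit 5) (nat_lit 5) (nat_lit 4) (nat_lit 251) (nat_lit 226) (nat_lit 183))) (XT.nd (nat_lit 78) (nat_lit 0) (nat_lit 0) (XT.lf (nat_lit 0) (nat_lit 79342461127) (nat_lit 76) (nat_lit 32932707568) (nat_lit 76) (nat_lit 10507260574) (nat_lit 4) (nat_lit 4) (nat_lit 5) (nat_lit 5) (nat_lit 5) (nat_lit 4) (nat_lit 252) (nat_lit 226) (nat_lit 182)) (XT.lf (nat_lit 0) (nat_lit 115202319910) (nat_lit 76) (nat_lit 23245196110) (nat_lit 76) (nat_lit 813492240) (nat_lit 4) (nat_lit 4) (nat_lit 5) (nat_lit 5) (nat_lit 5) (nat_lit 4) (nat_lit 253) (nat_lit 226) (nat_lit 181)))) (XT.nd (nat_lit 156) (nat_lit 0) (nat_lit 0) (XT.nd (nat_lit 78) (nat_lit 76) (nat_lit 0) (XT.lf (nat_lit 0) (nat_lit 9407392137) (nat_lit 152) (nat_lit 2211251537) (nat_lit 76) (nat_lit 146529594263) (nat_lit 3) (nat_lit 5) (nat_lit 5) (nat_lit 5) (nat_lit 4)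 (nat_lit 4) (nat_lit 254) (nat_lit 226) (nat_lit 180)) (XT.lf (nat_lit 0) (nat_lit 22234995878) (nat_lit 152) (nat_lit 154733906394) (nat_lit 0) (nat_lit 2720321331) (nat_lit 2) (nat_lit 5) (nat_lit 4) (nat_lit 4) (nat_lit 2) (nat_lit 4) (nat_lit 255) (nat_lit 226) (nat_lit 179))) (XT.nd (nat_lit 78) (nat_lit 0) (nat_lit 0) (XT.lf (nat_lit 0) (nat_lit 37655206629) (nat_lit 152) (nat_lit 148568937241) (nat_lit 0) (nat_lit 18136954693) (nat_lit 2) (nat_lit 5) (nat_lit 4) (nat_lit 4) (nat_lit 2) (nat_lit 4) (nat_lit 256) (nat_lit 226) (nat_lit 178)) (XT.nd (nat_lit 78) (nat_lit 0) (nat_lit 0) (XT.lf (nat_lit 0) (nat_lit 55383323215) (nat_lit 152) (nat_lit 141489249835) (nat_lit 0) (nat_lit 35861960506) (nat_lit 2) (nat_lit 5) (nat_lit 4) (nat_lit 4) (nat_lit 2) (nat_lit 4) (nat_lit 257) (nat_lit 226) (nat_lit 177)) (XT.lf (nat_lit 0) (nat_lit 75766200092) (nat_lit 152) (nat_lit 133356328553)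 (nat_lit 0) (nat_lit 56242132362) (nat_lit 2) (nat_lit 5) (nat_lit 4) (nat_lit 4) (nat_lit 2) (nat_lit 4) (nat_lit 258) (nat_lit 226) (nat_lit 176))))))) (XT.nd (nat_lit 624) (nat_lit 76) (nat_lit 0) (XT.nd (nat_lit 312) (nat_lit 0) (nat_lit 0) (XT.nd (nat_lit 156) (nat_lit 0) (nat_lit 0) (XT.nd (nat_lit 78) (nat_lit 0) (nat_lit 0) (XT.lf (nat_lit 0) (nat_lit 99202632675) (nat_lit 152) (nat_lit 124011051021) (nat_lit 0) (nat_lit 79676212754) (nat_lit 2) (nat_lit 5) (nat_lit 4) (nat_lit 4) (nat_lit 2) (nat_lit 4) (nat_lit 259) (nat_lit 226) (nat_lit 175)) (XT.lf (nat_lit 0) (nat_lit 126151159864) (nat_lit 152) (nat_lit 113270574853) (nat_lit 0) (nat_lit 106622694559) (nat_lit 2) (nat_lit 5) (nat_lit 4) (nat_lit 4) (nat_lit 2) (nat_lit 4) (nat_lit 260) (nat_lit 226) (nat_lit 174))) (XT.nd (nat_lit 78) (nat_lit 0) (nat_lit 0) (XT.lf (nat_lit 0) (nat_lit 157139035451) (nat_lit 152) (nat_lit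 100924760298) (nat_lit 0) (nat_lit 137608791552) (nat_lit 2) (nat_lit 5) (nat_lit 4) (nat_lit 4) (nat_lit 2) (nat_lit 4) (nat_lit 261) (nat_lit 226) (nat_lit 173)) (XT.lf (nat_lit 0) (nat_lit 192772543959) (nat_lit 152) (nat_lit 86732058811) (nat_lit 0) (nat_lit 173240753455) (nat_lit 2) (nat_lit 5) (nat_lit 4) (nat_lit 4) (nat_lit 2) (nat_lit 4) (nat_lit 262) (nat_lit 226) (nat_lit 172)))) (XT.nd (nat_lit 156) (nat_lit 0) (nat_lit 0) (XT.nd (nat_lit 78) (nat_lit 0) (nat_lit 0) (XT.lf (nat_lit 0) (nat_lit 233748862727) (nat_lit 152) (nat_lit 70414787101) (nat_lit 0) (nat_lit 214215727351) (nat_lit 2) (nat_lit 5) (nat_lit 4) (nat_lit 4) (nat_lit 2) (nat_lit 4) (nat_lit 263) (nat_lit 226) (nat_lit 171)) (XT.lf (nat_lit 0) (nat_lit 280869702342) (nat_lit 152) (nat_lit 51653694200) (nat_lit 0) (nat_lit 261335397511) (nat_lit 2) (nat_lit 5) (nat_lit 4) (nat_lit 4) (nat_lit 2) (nat_lit 4)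 (nat_lit 264) (nat_lit 226) (nat_lit 170))) (XT.nd (nat_lit 78) (nat_lit 0) (nat_lit 0) (XT.lf (nat_lit 0) (nat_lit 335056992273) (nat_lit 152) (nat_lit 30081715247) (nat_lit 0) (nat_lit 315521670525) (nat_lit 2) (nat_lit 5) (nat_lit 4) (nat_lit 4) (nat_lit 2) (nat_lit 4) (nat_lit 265) (nat_lit 226) (nat_lit 169)) (XT.lf (nat_lit 0) (nat_lit 397370918627) (nat_lit 152) (nat_lit 5276789784) (nat_lit 0) (nat_lit 377834712603) (nat_lit 2) (nat_lit 5) (nat_lit 4) (nat_lit 4) (nat_lit 2) (nat_lit 4) (nat_lit 266) (nat_lit 226) (nat_lit 168))))) (XT.nd (nat_lit 312) (nat_lit 0) (nat_lit 0) (XT.nd (nat_lit 156) (nat_lit 0) (nat_lit 0) (XT.nd (nat_lit 78) (nat_lit 0) (nat_lit 0) (XT.lf (nat_lit 0) (nat_lit 25518202823) (nat_lit 76) (nat_lit 444569118459) (nat_lit 76) (nat_lit 425032143499) (nat_lit 1) (nat_lit 4) (nat_lit 2) (nat_lit 5) (nat_lit 2) (nat_lit 4) (nat_lit 267) (nat_lit 226) (nat_lit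 167)) (XT.lf (nat_lit 0) (nat_lit 61523117649) (nat_lit 76) (nat_lit 492462699162) (nat_lit 76) (nat_lit 472925055563) (nat_lit 1) (nat_lit 4) (nat_lit 2) (nat_lit 5) (nat_lit 2) (nat_lit 4) (nat_lit 268) (nat_lit 226) (nat_lit 166))) (XT.nd (nat_lit 78) (nat_lit 0) (nat_lit 0) (XT.lf (nat_lit 0) (nat_lit 102926712404) (nat_lit 76) (nat_lit 547541331033) (nat_lit 76) (nat_lit 528003106008) (nat_lit 1) (nat_lit 4) (nat_lit 2) (nat_lit 5) (nat_lit 2) (nat_lit 4) (nat_lit 269) (nat_lit 226) (nat_lit 165)) (XT.lf (nat_lit 0) (nat_lit 150539057420) (nat_lit 76) (nat_lit 610882639478) (nat_lit 76) (nat_lit 591343908866) (nat_lit 1) (nat_lit 4) (nat_lit 2) (nat_lit 5) (nat_lit 2) (nat_lit 4) (nat_lit 270) (nat_lit 226) (nat_lit 164)))) (XT.nd (nat_lit 156) (nat_lit 0) (nat_lit 0) (XT.nd (nat_lit 78) (nat_lit 0) (nat_lit 0) (XT.lf (nat_lit 0) (nat_lit 205291698577) (nat_lit 76) (nat_lit 683725910967)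 (nat_lit 76) (nat_lit 664186740713) (nat_lit 1) (nat_lit 4) (nat_lit 2) (nat_lit 5) (nat_lit 2) (nat_lit 4) (nat_lit 271) (nat_lit 226) (nat_lit 163)) (XT.lf (nat_lit 0) (nat_lit 268255883204) (nat_lit 76) (nat_lit 767496339941) (nat_lit 76) (nat_lit 747956787390) (nat_lit 1) (nat_lit 4) (nat_lit 2) (nat_lit 5) (nat_lit 2) (nat_lit 4) (nat_lit 272) (nat_lit 226) (nat_lit 162))) (XT.nd (nat_lit 78) (nat_lit 0) (nat_lit 0) (XT.lf (nat_lit 0) (nat_lit 340663519259) (nat_lit 76) (nat_lit 863832913055) (nat_lit 76) (nat_lit 844293028072) (nat_lit 1) (nat_lit 4) (nat_lit 2) (nat_lit 5) (nat_lit 2) (nat_lit 4) (nat_lit 273) (nat_lit 226) (nat_lit 161)) (XT.nd (nat_lit 78) (nat_lit 0) (nat_lit 0) (XT.lf (nat_lit 0) (nat_lit 423931277884) (nat_lit 76) (nat_lit 974620476304) (nat_lit 76) (nat_lit 955080302250) (nat_lit 1) (nat_lit 4) (nat_lit 2) (nat_lit 5) (nat_lit 2) (nat_lit 4) (nat_lit 274)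 (nat_lit 226) (nat_lit 160)) (XT.lf (nat_lit 0) (nat_lit 519688310876) (nat_lit 76) (nat_lit 1102026612448) (nat_lit 76) (nat_lit 1082486187027) (nat_lit 1) (nat_lit 4) (nat_lit 2) (nat_lit 5) (nat_lit 2) (nat_lit 4) (nat_lit 275) (nat_lit 226) (nat_lit 159))))))))
noncomputable def xc64 : XT := (XT.nd (nat_lit 1248) (nat_lit 0) (nat_lit 0) (XT.nd (nat_lit 624) (nat_lit 0) (nat_lit 0) (XT.nd (nat_lit 312) (nat_lit 0) (nat_lit 0) (XT.nd (nat_lit 156) (nat_lit 0) (nat_lit 0) (XT.nd (nat_lit 78) (nat_lit 0) (nat_lit 0) (XT.lf (nat_lit 0) (nat_lit 629808125405) (nat_lit 76) (nat_lit 1248544050237) (nat_lit 76) (nat_lit 1229003406237) (nat_lit 1) (nat_lit 4) (nat_lit 2) (nat_lit 5) (nat_lit 2) (nat_lit 4) (nat_lit 276) (nat_lit 226) (nat_lit 158)) (XT.lf (nat_lit 0) (nat_lit 756445239579) (nat_lit 76) (nat_lit 1417039435193) (nat_lit 76) (nat_lit 1397498601123) (nat_lit 1) (nat_lit 4) (nat_lit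 2) (nat_lit 5) (nat_lit 2) (nat_lit 4) (nat_lit 277) (nat_lit 226) (nat_lit 157))) (XT.nd (nat_lit 78) (nat_lit 0) (nat_lit 0) (XT.lf (nat_lit 0) (nat_lit 902077336067) (nat_lit 76) (nat_lit 1610809416152) (nat_lit 76) (nat_lit 1591268416805) (nat_lit 1) (nat_lit 4) (nat_lit 2) (nat_lit 5) (nat_lit 2) (nat_lit 4) (nat_lit 278) (nat_lit 226) (nat_lit 156)) (XT.lf (nat_lit 0) (nat_lit 1069553738497) (nat_lit 76) (nat_lit 1833645144915) (nat_lit 76) (nat_lit 1814104001849) (nat_lit 1) (nat_lit 4) (nat_lit 2) (nat_lit 5) (nat_lit 2) (nat_lit 4) (nat_lit 279) (nat_lit 226) (nat_lit 155)))) (XT.nd (nat_lit 156) (nat_lit 0) (nat_lit 0) (XT.nd (nat_lit 78) (nat_lit 0) (nat_lit 0) (XT.lf (nat_lit 0) (nat_lit 1262151159090) (nat_lit 76) (nat_lit 2089906450959) (nat_lit 76) (nat_lit 2070365182919) (nat_lit 1) (nat_lit 4) (nat_lit 2) (nat_lit 5) (nat_lit 2) (nat_lit 4) (nat_lit 280) (nat_lit 226)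 (nat_lit 154)) (XT.lf (nat_lit 0) (nat_lit 1483637808249) (nat_lit 76) (nat_lit 2384607142445) (nat_lit 76) (nat_lit 2365065765732) (nat_lit 1) (nat_lit 4) (nat_lit 2) (nat_lit 5) (nat_lit 2) (nat_lit 4) (nat_lit 281) (nat_lit 226) (nat_lit 153))) (XT.nd (nat_lit 78) (nat_lit 0) (nat_lit 0) (XT.lf (nat_lit 0) (nat_lit 1738347120414) (nat_lit 76) (nat_lit 2723513102467) (nat_lit 76) (nat_lit 2703971631257) (nat_lit 1) (nat_lit 4) (nat_lit 2) (nat_lit 5) (nat_lit 2) (nat_lit 4) (nat_lit 282) (nat_lit 226) (nat_lit 152)) (XT.lf (nat_lit 0) (nat_lit 2031262538648) (nat_lit 76) (nat_lit 3113255099809) (nat_lit 76) (nat_lit 3093713546426) (nat_lit 1) (nat_lit 4) (nat_lit 2) (nat_lit 5) (nat_lit 2) (nat_lit 4) (nat_lit 283) (nat_lit 226) (nat_lit 151))))) (XT.nd (nat_lit 312) (nat_lit 0) (nat_lit 0) (XT.nd (nat_lit 156) (nat_lit 0) (nat_lit 0) (XT.nd (nat_lit 78) (nat_lit 0) (nat_lit 0) (XT.lf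 (nat_lit 0) (nat_lit 2368115016788) (nat_lit 76) (nat_lit 3561458521374) (nat_lit 76) (nat_lit 3541916896538) (nat_lit 1) (nat_lit 4) (nat_lit 2) (nat_lit 5) (nat_lit 2) (nat_lit 4) (nat_lit 284) (nat_lit 226) (nat_lit 150)) (XT.lf (nat_lit 0) (nat_lit 2755495146796) (nat_lit 76) (nat_lit 4076892564542) (nat_lit 76) (nat_lit 4057350877572) (nat_lit 1) (nat_lit 4) (nat_lit 2) (nat_lit 5) (nat_lit 2) (nat_lit 4) (nat_lit 285) (nat_lit 226) (nat_lit 149))) (XT.nd (nat_lit 78) (nat_lit 0) (nat_lit 0) (XT.lf (nat_lit 0) (nat_lit 3200982105129) (nat_lit 76) (nat_lit 4669641808418) (nat_lit 76) (nat_lit 4650100067418) (nat_lit 1) (nat_lit 4) (nat_lit 2) (nat_lit 5) (nat_lit 2) (nat_lit 4) (nat_lit 286) (nat_lit 226) (nat_lit 148)) (XT.lf (nat_lit 0) (nat_lit 3713291940973) (nat_lit 76) (nat_lit 5351303520816) (nat_lit 76) (nat_lit 5331761732834) (nat_lit 1) (nat_lit 4) (nat_lit 2) (nat_lit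 5) (nat_lit 2) (nat_lit 4) (nat_lit 287) (nat_lit 226) (nat_lit 147)))) (XT.nd (nat_lit 156) (nat_lit 0) (nat_lit 0) (XT.nd (nat_lit 78) (nat_lit 0) (nat_lit 0) (XT.lf (nat_lit 0) (nat_lit 4302448107636) (nat_lit 76) (nat_lit 6135214561328) (nat_lit 76) (nat_lit 6115672732492) (nat_lit 1) (nat_lit 4) (nat_lit 2) (nat_lit 5) (nat_lit 2) (nat_lit 4) (nat_lit 288) (nat_lit 226) (nat_lit 146)) (XT.lf (nat_lit 0) (nat_lit 4979977573598) (nat_lit 76) (nat_lit 7036712319876) (nat_lit 76) (nat_lit 7017170455515) (nat_lit 1) (nat_lit 4) (nat_lit 2) (nat_lit 5) (nat_lit 2) (nat_lit 4) (nat_lit 289) (nat_lit 226) (nat_lit 145))) (XT.nd (nat_lit 78) (nat_lit 0) (nat_lit 0) (XT.lf (nat_lit 0) (nat_lit 5759136350149) (nat_lit 76) (nat_lit 8073434796084) (nat_lit 76) (nat_lit 8053892900831) (nat_lit 1) (nat_lit 4) (nat_lit 2) (nat_lit 5) (nat_lit 2) (nat_lit 4) (nat_lit 290) (nat_lit 226) (nat_lit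 144)) (XT.lf (nat_lit 0) (nat_lit 6655168848133) (nat_lit 76) (nat_lit 9265665690574) (nat_lit 76) (nat_lit 9246123768458) (nat_lit 1) (nat_lit 4) (nat_lit 2) (nat_lit 5) (nat_lit 2) (nat_lit 4) (nat_lit 291) (nat_lit 226) (nat_lit 143)))))) (XT.nd (nat_lit 29406) (nat_lit 0) (nat_lit 912) (XT.nd (nat_lit 1170) (nat_lit 0) (nat_lit 0) (XT.nd (nat_lit 1014) (nat_lit 0) (nat_lit 0) (XT.nd (nat_lit 78) (nat_lit 0) (nat_lit 0) (XT.lf (nat_lit 0) (nat_lit 7685606138165) (nat_lit 76) (nat_lit 10636731259976) (nat_lit 76) (nat_lit 10617189314502) (nat_lit 1) (nat_lit 4) (nat_lit 2) (nat_lit 5) (nat_lit 2) (nat_lit 4) (nat_lit 292) (nat_lit 226) (nat_lit 142)) (XT.lf (nat_lit 0) (nat_lit 8870608949832) (nat_lit 76) (nat_lit 12213456700214) (nat_lit 76) (nat_lit 12193914734429) (nat_lit 1) (nat_lit 4) (nat_lit 2) (nat_lit 5) (nat_lit 2) (nat_lit 4) (nat_lit 293) (nat_lit 226) (nat_lit 141)))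 (XT.nd (nat_lit 78) (nat_lit 0) (nat_lit 0) (XT.lf (nat_lit 0) (nat_lit 48392718707956) (nat_lit 76) (nat_lit 64800276532399) (nat_lit 76) (nat_lit 64780734456511) (nat_lit 1) (nat_lit 4) (nat_lit 2) (nat_lit 5) (nat_lit 2) (nat_lit 4) (nat_lit 305) (nat_lit 226) (nat_lit 129)) (XT.lf (nat_lit 0) (nat_lit 55683788003830) (nat_lit 76) (nat_lit 74501533961287) (nat_lit 76) (nat_lit 74481991882098) (nat_lit 1) (nat_lit 4) (nat_lit 2) (nat_lit 5) (nat_lit 2) (nat_lit 4) (nat_lit 306) (nat_lit 226) (nat_lit 128)))) (XT.nd (nat_lit 156) (nat_lit 0) (nat_lit 0) (XT.nd (nat_lit 78) (nat_lit 0) (nat_lit 0) (XT.lf (nat_lit 0) (nat_lit 64068517683928) (nat_lit 76) (nat_lit 85657980009514) (nat_lit 76) (nat_lit 85638437927455) (nat_lit 1) (nat_lit 4) (nat_lit 2) (nat_lit 5) (nat_lit 2) (nat_lit 4) (nat_lit 307) (nat_lit 226) (nat_lit 127)) (XT.lf (nat_lit 0) (nat_lit 73710956807207) (nat_lit 76)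 (nat_lit 98487892969329) (nat_lit 76) (nat_lit 98468350884774) (nat_lit 1) (nat_lit 4) (nat_lit 2) (nat_lit 5) (nat_lit 2) (nat_lit 4) (nat_lit 308) (nat_lit 226) (nat_lit 126))) (XT.nd (nat_lit 28002) (nat_lit 0) (nat_lit 1596) (XT.lf (nat_lit 0) (nat_lit 84799761791298) (nat_lit 76) (nat_lit 113242292876902) (nat_lit 76) (nat_lit 113222750790176) (nat_lit 1) (nat_lit 4) (nat_lit 2) (nat_lit 5) (nat_lit 2) (nat_lit 4) (nat_lit 309) (nat_lit 226) (nat_lit 125)) (XT.lf (nat_lit 0) (nat_lit 2245093411) (nat_lit 0) (nat_lit 2245093411) (nat_lit 228) (nat_lit 1131276175) (nat_lit 22) (nat_lit 5) (nat_lit 22) (nat_lit 3) (nat_lit 25) (nat_lit 3) (nat_lit 227) (nat_lit 227) (nat_lit 206))))) (XT.nd (nat_lit 312) (nat_lit 456) (nat_lit 0) (XT.nd (nat_lit 156) (nat_lit 228) (nat_lit 0) (XT.nd (nat_lit 78) (nat_lit 0) (nat_lit 0) (XT.lf (nat_lit 0) (nat_lit 10122933329) (nat_lit 228) (nat_lit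 1800674361) (nat_lit 304) (nat_lit 87939927) (nat_lit 22) (nat_lit 5) (nat_lit 25) (nat_lit 3) (nat_lit 26) (nat_lit 5) (nat_lit 228) (nat_lit 227) (nat_lit 205)) (XT.lf (nat_lit 76) (nat_lit 3978263743) (nat_lit 0) (nat_lit 7756076216) (nat_lit 304) (nat_lit 1117258572) (nat_lit 23) (nat_lit 5) (nat_lit 22) (nat_lit 5) (nat_lit 26) (nat_lit 5) (nat_lit 229) (nat_lit 227) (nat_lit 204))) (XT.nd (nat_lit 78) (nat_lit 228) (nat_lit 0) (XT.lf (nat_lit 76) (nat_lit 10772681914) (nat_lit 0) (nat_lit 2836166608) (nat_lit 304) (nat_lit 206256874) (nat_lit 23) (nat_lit 5) (nat_lit 22) (nat_lit 5) (nat_lit 26) (nat_lit 5) (nat_lit 230) (nat_lit 227) (nat_lit 203)) (XT.lf (nat_lit 0) (nat_lit 988964685) (nat_lit 304) (nat_lit 11106964253) (nat_lit 76) (nat_lit 2789108584) (nat_lit 19) (nat_lit 5) (nat_lit 23) (nat_lit 5) (nat_lit 20) (nat_lit 5) (nat_lit 231) (nat_lit 227) (nat_lit 202)))) (XT.nd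 (nat_lit 156) (nat_lit 152) (nat_lit 0) (XT.nd (nat_lit 78) (nat_lit 304) (nat_lit 0) (XT.lf (nat_lit 0) (nat_lit 2584191175) (nat_lit 304) (nat_lit 4341615690) (nat_lit 76) (nat_lit 9152335524) (nat_lit 19) (nat_lit 5) (nat_lit 23) (nat_lit 5) (nat_lit 20) (nat_lit 5) (nat_lit 232) (nat_lit 227) (nat_lit 201)) (XT.lf (nat_lit 0) (nat_lit 3716219977) (nat_lit 304) (nat_lit 804339808) (nat_lit 380) (nat_lit 12914750095) (nat_lit 15) (nat_lit 5) (nat_lit 19) (nat_lit 5) (nat_lit 20) (nat_lit 5) (nat_lit 233) (nat_lit 227) (nat_lit 200))) (XT.nd (nat_lit 78) (nat_lit 152) (nat_lit 0) (XT.lf (nat_lit 0) (nat_lit 7195852125) (nat_lit 380) (nat_lit 5818369228) (nat_lit 76) (nat_lit 5914887498) (nat_lit 15) (nat_lit 5) (nat_lit 20) (nat_lit 5) (nat_lit 16) (nat_lit 5) (nat_lit 234) (nat_lit 227) (nat_lit 199)) (XT.nd (nat_lit 78) (nat_lit 0) (nat_lit 0) (XT.lf (nat_lit 0) (nat_lit 3489343244)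 (nat_lit 152) (nat_lit 6924597018) (nat_lit 228) (nat_lit 10212096132) (nat_lit 13) (nat_lit 5) (nat_lit 15) (nat_lit 5) (nat_lit 16) (nat_lit 5) (nat_lit 235) (nat_lit 227) (nat_lit 198)) (XT.lf (nat_lit 0) (nat_lit 14398295115) (nat_lit 228) (nat_lit 7756168341) (nat_lit 76) (nat_lit 380753562) (nat_lit 13) (nat_lit 5) (nat_lit 16) (nat_lit 5) (nat_lit 14) (nat_lit 4) (nat_lit 236) (nat_lit 227) (nat_lit 197))))))))
noncomputable def xc65 : XT := (XT.nd (nat_lit 1326) (nat_lit 228) (nat_lit 0) (XT.nd (nat_lit 624) (nat_lit 228) (nat_lit 0) (XT.nd (nat_lit 312) (nat_lit 152) (nat_lit 0) (XT.nd (nat_lit 156) (nat_lit 228) (nat_lit 0) (XT.nd (nat_lit 78) (nat_lit 0) (nat_lit 0) (XT.lf (nat_lit 0) (nat_lit 2914488906) (nat_lit 76) (nat_lit 16482917337) (nat_lit 152) (nat_lit 5271017795) (nat_lit 12) (nat_lit 5) (nat_lit 13) (nat_lit 5) (nat_lit 14) (nat_lit 4) (nat_lit 237) (nat_lit 227)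 (nat_lit 196)) (XT.lf (nat_lit 0) (nat_lit 16012882203) (nat_lit 76) (nat_lit 9508117151) (nat_lit 152) (nat_lit 1544607205) (nat_lit 12) (nat_lit 5) (nat_lit 13) (nat_lit 5) (nat_lit 14) (nat_lit 4) (nat_lit 238) (nat_lit 227) (nat_lit 195))) (XT.nd (nat_lit 78) (nat_lit 0) (nat_lit 0) (XT.lf (nat_lit 0) (nat_lit 1205897372) (nat_lit 152) (nat_lit 1312574576) (nat_lit 228) (nat_lit 27283756011) (nat_lit 9) (nat_lit 5) (nat_lit 11) (nat_lit 5) (nat_lit 12) (nat_lit 5) (nat_lit 239) (nat_lit 227) (nat_lit 194)) (XT.lf (nat_lit 0) (nat_lit 7947305395) (nat_lit 228) (nat_lit 16797405110) (nat_lit 76) (nat_lit 8056557327) (nat_lit 9) (nat_lit 5) (nat_lit 12) (nat_lit 5) (nat_lit 10) (nat_lit 4) (nat_lit 240) (nat_lit 227) (nat_lit 193)))) (XT.nd (nat_lit 156) (nat_lit 76) (nat_lit 0) (XT.nd (nat_lit 78) (nat_lit 76) (nat_lit 0) (XT.lf (nat_lit 0) (nat_lit 14229706123) (nat_lit 228) (nat_lit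 3328740773) (nat_lit 76) (nat_lit 18685937223) (nat_lit 9) (nat_lit 5) (nat_lit 12) (nat_lit 5) (nat_lit 10) (nat_lit 4) (nat_lit 241) (nat_lit 227) (nat_lit 192)) (XT.lf (nat_lit 0) (nat_lit 13312721180) (nat_lit 76) (nat_lit 8672769969) (nat_lit 152) (nat_lit 18138915921) (nat_lit 8) (nat_lit 5) (nat_lit 9) (nat_lit 5) (nat_lit 10) (nat_lit 4) (nat_lit 242) (nat_lit 227) (nat_lit 191))) (XT.nd (nat_lit 78) (nat_lit 76) (nat_lit 0) (XT.lf (nat_lit 0) (nat_lit 31131547237) (nat_lit 152) (nat_lit 11841727034) (nat_lit 0) (nat_lit 1579204431) (nat_lit 8) (nat_lit 5) (nat_lit 10) (nat_lit 4) (nat_lit 8) (nat_lit 4) (nat_lit 243) (nat_lit 227) (nat_lit 190)) (XT.lf (nat_lit 0) (nat_lit 5413454513) (nat_lit 76) (nat_lit 36856343755) (nat_lit 76) (nat_lit 7281990034) (nat_lit 7) (nat_lit 4) (nat_lit 8) (nat_lit 5) (nat_lit 8) (nat_lit 4) (nat_lit 244) (nat_lit 227) (nat_lit 189))))) (XT.nd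 (nat_lit 312) (nat_lit 76) (nat_lit 0) (XT.nd (nat_lit 156) (nat_lit 76) (nat_lit 0) (XT.nd (nat_lit 78) (nat_lit 0) (nat_lit 0) (XT.lf (nat_lit 0) (nat_lit 429423870) (nat_lit 152) (nat_lit 28670232327) (nat_lit 76) (nat_lit 26107994080) (nat_lit 6) (nat_lit 5) (nat_lit 8) (nat_lit 5) (nat_lit 7) (nat_lit 4) (nat_lit 245) (nat_lit 227) (nat_lit 188)) (XT.lf (nat_lit 0) (nat_lit 8537554779) (nat_lit 152) (nat_lit 11254394287) (nat_lit 76) (nat_lit 41870143128) (nat_lit 6) (nat_lit 5) (nat_lit 8) (nat_lit 5) (nat_lit 7) (nat_lit 4) (nat_lit 246) (nat_lit 227) (nat_lit 187))) (XT.nd (nat_lit 78) (nat_lit 0) (nat_lit 0) (XT.lf (nat_lit 0) (nat_lit 9606712657) (nat_lit 76) (nat_lit 8640413972) (nat_lit 152) (nat_lit 50779830714) (nat_lit 5) (nat_lit 5) (nat_lit 6) (nat_lit 5) (nat_lit 7) (nat_lit 4) (nat_lit 247) (nat_lit 227) (nat_lit 186)) (XT.lf (nat_lit 0) (nat_lit 30190479835) (nat_lit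 152) (nat_lit 42770499061) (nat_lit 0) (nat_lit 4419006436) (nat_lit 5) (nat_lit 5) (nat_lit 7) (nat_lit 4) (nat_lit 5) (nat_lit 4) (nat_lit 248) (nat_lit 227) (nat_lit 185)))) (XT.nd (nat_lit 156) (nat_lit 76) (nat_lit 0) (XT.nd (nat_lit 78) (nat_lit 0) (nat_lit 0) (XT.lf (nat_lit 0) (nat_lit 44326166171) (nat_lit 152) (nat_lit 24054530332) (nat_lit 0) (nat_lit 18545176846) (nat_lit 5) (nat_lit 5) (nat_lit 7) (nat_lit 4) (nat_lit 5) (nat_lit 4) (nat_lit 249) (nat_lit 227) (nat_lit 184)) (XT.lf (nat_lit 0) (nat_lit 60572972297) (nat_lit 152) (nat_lit 2548375384) (nat_lit 0) (nat_lit 34783708254) (nat_lit 5) (nat_lit 5) (nat_lit 7) (nat_lit 4) (nat_lit 5) (nat_lit 4) (nat_lit 250) (nat_lit 227) (nat_lit 183))) (XT.nd (nat_lit 78) (nat_lit 0) (nat_lit 0) (XT.lf (nat_lit 0) (nat_lit 24335228720) (nat_lit 76) (nat_lit 55921211713) (nat_lit 76) (nat_lit 30124752262) (nat_lit 4) (nat_lit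 4) (nat_lit 5) (nat_lit 5) (nat_lit 5) (nat_lit 4) (nat_lit 251) (nat_lit 227) (nat_lit 182)) (XT.nd (nat_lit 78) (nat_lit 0) (nat_lit 0) (XT.lf (nat_lit 0) (nat_lit 55523491858) (nat_lit 76) (nat_lit 47494574388) (nat_lit 76) (nat_lit 21691858062) (nat_lit 4) (nat_lit 4) (nat_lit 5) (nat_lit 5) (nat_lit 5) (nat_lit 4) (nat_lit 252) (nat_lit 227) (nat_lit 181)) (XT.lf (nat_lit 0) (nat_lit 91377573400) (nat_lit 76) (nat_lit 37809777248) (nat_lit 76) (nat_lit 12001620160) (nat_lit 4) (nat_lit 4) (nat_lit 5) (nat_lit 5) (nat_lit 5) (nat_lit 4) (nat_lit 253) (nat_lit 227) (nat_lit 180))))))) (XT.nd (nat_lit 624) (nat_lit 76) (nat_lit 0) (XT.nd (nat_lit 312) (nat_lit 0) (nat_lit 0) (XT.nd (nat_lit 156) (nat_lit 76) (nat_lit 0) (XT.nd (nat_lit 78) (nat_lit 76) (nat_lit 0) (XT.lf (nat_lit 0) (nat_lit 132598966247) (nat_lit 76) (nat_lit 26677335131) (nat_lit 76) (nat_lit 864446946) (nat_lit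 4) (nat_lit 4) (nat_lit 5) (nat_lit 5) (nat_lit 5) (nat_lit 4) (nat_lit 254) (nat_lit 227) (nat_lit 179)) (XT.lf (nat_lit 0) (nat_lit 10874798405) (nat_lit 152) (nat_lit 2436185610) (nat_lit 76) (nat_lit 168550922134) (nat_lit 3) (nat_lit 5) (nat_lit 5) (nat_lit 5) (nat_lit 4) (nat_lit 4) (nat_lit 255) (nat_lit 227) (nat_lit 178))) (XT.nd (nat_lit 78) (nat_lit 0) (nat_lit 0) (XT.lf (nat_lit 0) (nat_lit 25625436772) (nat_lit 152) (nat_lit 177836025926) (nat_lit 0) (nat_lit 3172758884) (nat_lit 2) (nat_lit 5) (nat_lit 4) (nat_lit 4) (nat_lit 2) (nat_lit 4) (nat_lit 256) (nat_lit 227) (nat_lit 177)) (XT.lf (nat_lit 0) (nat_lit 43351480243) (nat_lit 152) (nat_lit 170760393978) (nat_lit 0) (nat_lit 20896097335) (nat_lit 2) (nat_lit 5) (nat_lit 4) (nat_lit 4) (nat_lit 2) (nat_lit 4) (nat_lit 257) (nat_lit 227) (nat_lit 176)))) (XT.nd (nat_lit 156) (nat_lit 0) (nat_lit 0) (XT.nd (nat_lit 78)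 (nat_lit 0) (nat_lit 0) (XT.lf (nat_lit 0) (nat_lit 63732554410) (nat_lit 152) (nat_lit 162630999181) (nat_lit 0) (nat_lit 41274819310) (nat_lit 2) (nat_lit 5) (nat_lit 4) (nat_lit 4) (nat_lit 2) (nat_lit 4) (nat_lit 258) (nat_lit 227) (nat_lit 175)) (XT.lf (nat_lit 0) (nat_lit 87167419421) (nat_lit 152) (nat_lit 153288788158) (nat_lit 0) (nat_lit 64707638937) (nat_lit 2) (nat_lit 5) (nat_lit 4) (nat_lit 4) (nat_lit 2) (nat_lit 4) (nat_lit 259) (nat_lit 227) (nat_lit 174))) (XT.nd (nat_lit 78) (nat_lit 0) (nat_lit 0) (XT.lf (nat_lit 0) (nat_lit 114114583503) (nat_lit 152) (nat_lit 142550978519) (nat_lit 0) (nat_lit 91653024424) (nat_lit 2) (nat_lit 5) (nat_lit 4) (nat_lit 4) (nat_lit 2) (nat_lit 4) (nat_lit 260) (nat_lit 227) (nat_lit 173)) (XT.lf (nat_lit 0) (nat_lit 145101273779) (nat_lit 152) (nat_lit 130207482686) (nat_lit 0) (nat_lit 122638168097) (nat_lit 2) (nat_lit 5) (nat_lit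 4) (nat_lit 4) (nat_lit 2) (nat_lit 4) (nat_lit 261) (nat_lit 227) (nat_lit 172))))) (XT.nd (nat_lit 312) (nat_lit 76) (nat_lit 0) (XT.nd (nat_lit 156) (nat_lit 0) (nat_lit 0) (XT.nd (nat_lit 78) (nat_lit 0) (nat_lit 0) (XT.lf (nat_lit 0) (nat_lit 180733751582) (nat_lit 152) (nat_lit 116016797477) (nat_lit 0) (nat_lit 158269301027) (nat_lit 2) (nat_lit 5) (nat_lit 4) (nat_lit 4) (nat_lit 2) (nat_lit 4) (nat_lit 262) (nat_lit 227) (nat_lit 171)) (XT.lf (nat_lit 0) (nat_lit 221709174086) (nat_lit 152) (nat_lit 99701279054) (nat_lit 0) (nat_lit 199243554076) (nat_lit 2) (nat_lit 5) (nat_lit 4) (nat_lit 4) (nat_lit 2) (nat_lit 4) (nat_lit 263) (nat_lit 227) (nat_lit 170))) (XT.nd (nat_lit 78) (nat_lit 0) (nat_lit 0) (XT.lf (nat_lit 0) (nat_lit 268829234340) (nat_lit 152) (nat_lit 80941710749) (nat_lit 0) (nat_lit 246362597412) (nat_lit 2) (nat_lit 5) (nat_lit 4) (nat_lit 4) (nat_lit 2)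 (nat_lit 4) (nat_lit 264) (nat_lit 227) (nat_lit 169)) (XT.lf (nat_lit 0) (nat_lit 323015846566) (nat_lit 152) (nat_lit 59371057533) (nat_lit 0) (nat_lit 300548325362) (nat_lit 2) (nat_lit 5) (nat_lit 4) (nat_lit 4) (nat_lit 2) (nat_lit 4) (nat_lit 265) (nat_lit 227) (nat_lit 168)))) (XT.nd (nat_lit 156) (nat_lit 76) (nat_lit 0) (XT.nd (nat_lit 78) (nat_lit 0) (nat_lit 0) (XT.lf (nat_lit 0) (nat_lit 385329183612) (nat_lit 152) (nat_lit 34567284884) (nat_lit 0) (nat_lit 362860893472) (nat_lit 2) (nat_lit 5) (nat_lit 4) (nat_lit 4) (nat_lit 2) (nat_lit 4) (nat_lit 266) (nat_lit 227) (nat_lit 167)) (XT.lf (nat_lit 0) (nat_lit 456988419463) (nat_lit 152) (nat_lit 6045101600) (nat_lit 0) (nat_lit 434519460684) (nat_lit 2) (nat_lit 5) (nat_lit 4) (nat_lit 4) (nat_lit 2) (nat_lit 4) (nat_lit 267) (nat_lit 227) (nat_lit 166))) (XT.nd (nat_lit 78) (nat_lit 0) (nat_lit 0) (XT.lf (nat_lit 0) (nat_lit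 29368085051) (nat_lit 76) (nat_lit 511243567371) (nat_lit 76) (nat_lit 488774027167) (nat_lit 1) (nat_lit 4) (nat_lit 2) (nat_lit 5) (nat_lit 2) (nat_lit 4) (nat_lit 268) (nat_lit 227) (nat_lit 165)) (XT.nd (nat_lit 78) (nat_lit 0) (nat_lit 0) (XT.lf (nat_lit 0) (nat_lit 70770847735) (nat_lit 76) (nat_lit 566322609379) (nat_lit 76) (nat_lit 543852563586) (nat_lit 1) (nat_lit 4) (nat_lit 2) (nat_lit 5) (nat_lit 2) (nat_lit 4) (nat_lit 269) (nat_lit 227) (nat_lit 164)) (XT.lf (nat_lit 0) (nat_lit 118382469211) (nat_lit 76) (nat_lit 629664274464) (nat_lit 76) (nat_lit 607193789031) (nat_lit 1) (nat_lit 4) (nat_lit 2) (nat_lit 5) (nat_lit 2) (nat_lit 4) (nat_lit 270) (nat_lit 227) (nat_lit 163))))))))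
noncomputable def xc66 : XT := (XT.nd (nat_lit 1326) (nat_lit 0) (nat_lit 0) (XT.nd (nat_lit 624) (nat_lit 0) (nat_lit 0) (XT.nd (nat_lit 312) (nat_lit 0) (nat_lit 0) (XT.nd (nat_lit 156) (nat_lit 0) (nat_lit 0) (XT.nd (nat_lit 78) (nat_lit 0) (nat_lit 0) (XT.lf (nat_lit 0) (nat_lit 173134481203) (nat_lit 76) (nat_lit 702507856075) (nat_lit 76) (nat_lit 680036988344) (nat_lit 1) (nat_lit 4) (nat_lit 2) (nat_lit 5) (nat_lit 2) (nat_lit 4) (nat_lit 271) (nat_lit 227) (nat_lit 162)) (XT.lf (nat_lit 0) (nat_lit 236098118730) (nat_lit 76) (nat_lit 786278554720) (nat_lit 76) (nat_lit 763807354558) (nat_lit 1) (nat_lit 4) (nat_lit 2) (nat_lit 5) (nat_lit 2) (nat_lit 4) (nat_lit 272) (nat_lit 227) (nat_lit 161))) (XT.nd (nat_lit 78) (nat_lit 0) (nat_lit 0) (XT.lf (nat_lit 0) (nat_lit 308505279046) (nat_lit 76) (nat_lit 882615362331) (nat_lit 76) (nat_lit 860143873097) (nat_lit 1) (nat_lit 4)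 (nat_lit 2) (nat_lit 5) (nat_lit 2) (nat_lit 4) (nat_lit 273) (nat_lit 227) (nat_lit 160)) (XT.lf (nat_lit 0) (nat_lit 391772623984) (nat_lit 76) (nat_lit 993403129491) (nat_lit 76) (nat_lit 970931388890) (nat_lit 1) (nat_lit 4) (nat_lit 2) (nat_lit 5) (nat_lit 2) (nat_lit 4) (nat_lit 274) (nat_lit 227) (nat_lit 159)))) (XT.nd (nat_lit 156) (nat_lit 0) (nat_lit 0) (XT.nd (nat_lit 78) (nat_lit 0) (nat_lit 0) (XT.lf (nat_lit 0) (nat_lit 487529297250) (nat_lit 76) (nat_lit 1120809442947) (nat_lit 76) (nat_lit 1098337483768) (nat_lit 1) (nat_lit 4) (nat_lit 2) (nat_lit 5) (nat_lit 2) (nat_lit 4) (nat_lit 275) (nat_lit 227) (nat_lit 158)) (XT.lf (nat_lit 0) (nat_lit 597648798972) (nat_lit 76) (nat_lit 1267327034922) (nat_lit 76) (nat_lit 1244854885673) (nat_lit 1) (nat_lit 4) (nat_lit 2) (nat_lit 5) (nat_lit 2) (nat_lit 4) (nat_lit 276) (nat_lit 227) (nat_lit 157))) (XT.nd (nat_lit 78) (nat_lit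 0) (nat_lit 0) (XT.lf (nat_lit 0) (nat_lit 724285641141) (nat_lit 76) (nat_lit 1435822553952) (nat_lit 76) (nat_lit 1413350239426) (nat_lit 1) (nat_lit 4) (nat_lit 2) (nat_lit 5) (nat_lit 2) (nat_lit 4) (nat_lit 277) (nat_lit 227) (nat_lit 156)) (XT.lf (nat_lit 0) (nat_lit 869917501103) (nat_lit 76) (nat_lit 1629592651497) (nat_lit 76) (nat_lit 1607120193251) (nat_lit 1) (nat_lit 4) (nat_lit 2) (nat_lit 5) (nat_lit 2) (nat_lit 4) (nat_lit 278) (nat_lit 227) (nat_lit 155))))) (XT.nd (nat_lit 312) (nat_lit 0) (nat_lit 0) (XT.nd (nat_lit 156) (nat_lit 0) (nat_lit 0) (XT.nd (nat_lit 78) (nat_lit 0) (nat_lit 0) (XT.lf (nat_lit 0) (nat_lit 1037393697858) (nat_lit 76) (nat_lit 1852428481640) (nat_lit 76) (nat_lit 1829955898421) (nat_lit 1) (nat_lit 4) (nat_lit 2) (nat_lit 5) (nat_lit 2) (nat_lit 4) (nat_lit 279) (nat_lit 227) (nat_lit 154)) (XT.lf (nat_lit 0) (nat_lit 1229990939603) (nat_lit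 76) (nat_lit 2108689875840) (nat_lit 76) (nat_lit 2086217183948) (nat_lit 1) (nat_lit 4) (nat_lit 2) (nat_lit 5) (nat_lit 2) (nat_lit 4) (nat_lit 280) (nat_lit 227) (nat_lit 153))) (XT.nd (nat_lit 78) (nat_lit 0) (nat_lit 0) (XT.lf (nat_lit 0) (nat_lit 1451477433241) (nat_lit 76) (nat_lit 2403390643983) (nat_lit 76) (nat_lit 2380917857593) (nat_lit 1) (nat_lit 4) (nat_lit 2) (nat_lit 5) (nat_lit 2) (nat_lit 4) (nat_lit 281) (nat_lit 227) (nat_lit 152)) (XT.lf (nat_lit 0) (nat_lit 1706186610171) (nat_lit 76) (nat_lit 2742296670664) (nat_lit 76) (nat_lit 2719823802102) (nat_lit 1) (nat_lit 4) (nat_lit 2) (nat_lit 5) (nat_lit 2) (nat_lit 4) (nat_lit 282) (nat_lit 227) (nat_lit 151)))) (XT.nd (nat_lit 156) (nat_lit 0) (nat_lit 0) (XT.nd (nat_lit 78) (nat_lit 0) (nat_lit 0) (XT.lf (nat_lit 0) (nat_lit 1999101910810) (nat_lit 76) (nat_lit 3132038725970) (nat_lit 76) (nat_lit 3109565785954)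 (nat_lit 1) (nat_lit 4) (nat_lit 2) (nat_lit 5) (nat_lit 2) (nat_lit 4) (nat_lit 283) (nat_lit 227) (nat_lit 150)) (XT.lf (nat_lit 0) (nat_lit 2335954286693) (nat_lit 76) (nat_lit 3580242197939) (nat_lit 76) (nat_lit 3557769195789) (nat_lit 1) (nat_lit 4) (nat_lit 2) (nat_lit 5) (nat_lit 2) (nat_lit 4) (nat_lit 284) (nat_lit 227) (nat_lit 149))) (XT.nd (nat_lit 78) (nat_lit 0) (nat_lit 0) (XT.lf (nat_lit 0) (nat_lit 2723334327782) (nat_lit 76) (nat_lit 4095676284936) (nat_lit 76) (nat_lit 4073203228757) (nat_lit 1) (nat_lit 4) (nat_lit 2) (nat_lit 5) (nat_lit 2) (nat_lit 4) (nat_lit 285) (nat_lit 227) (nat_lit 148)) (XT.nd (nat_lit 78) (nat_lit 0) (nat_lit 0) (XT.lf (nat_lit 0) (nat_lit 3168821208795) (nat_lit 76) (nat_lit 4688425566924) (nat_lit 76) (nat_lit 4665952463762) (nat_lit 1) (nat_lit 4) (nat_lit 2) (nat_lit 5) (nat_lit 2) (nat_lit 4) (nat_lit 286) (nat_lit 227) (nat_lit 147))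 (XT.lf (nat_lit 0) (nat_lit 3681130977403) (nat_lit 76) (nat_lit 5370087312464) (nat_lit 76) (nat_lit 5347614168448) (nat_lit 1) (nat_lit 4) (nat_lit 2) (nat_lit 5) (nat_lit 2) (nat_lit 4) (nat_lit 287) (nat_lit 227) (nat_lit 146))))))) (XT.nd (nat_lit 1404) (nat_lit 0) (nat_lit 0) (XT.nd (nat_lit 312) (nat_lit 0) (nat_lit 0) (XT.nd (nat_lit 156) (nat_lit 0) (nat_lit 0) (XT.nd (nat_lit 78) (nat_lit 0) (nat_lit 0) (XT.lf (nat_lit 0) (nat_lit 4270287085600) (nat_lit 76) (nat_lit 6153998381794) (nat_lit 76) (nat_lit 6131525202253) (nat_lit 1) (nat_lit 4) (nat_lit 2) (nat_lit 5) (nat_lit 2) (nat_lit 4) (nat_lit 288) (nat_lit 227) (nat_lit 145)) (XT.lf (nat_lit 0) (nat_lit 4947816500722) (nat_lit 76) (nat_lit 7055496165401) (nat_lit 76) (nat_lit 7033022954969) (nat_lit 1) (nat_lit 4) (nat_lit 2) (nat_lit 5) (nat_lit 2) (nat_lit 4) (nat_lit 289) (nat_lit 227) (nat_lit 144))) (XT.nd (nat_lit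 78) (nat_lit 0) (nat_lit 0) (XT.lf (nat_lit 0) (nat_lit 5726975233064) (nat_lit 76) (nat_lit 8092218663400) (nat_lit 76) (nat_lit 8069745426105) (nat_lit 1) (nat_lit 4) (nat_lit 2) (nat_lit 5) (nat_lit 2) (nat_lit 4) (nat_lit 290) (nat_lit 227) (nat_lit 143)) (XT.lf (nat_lit 0) (nat_lit 6623007692607) (nat_lit 76) (nat_lit 9284449576838) (nat_lit 76) (nat_lit 9261976316185) (nat_lit 1) (nat_lit 4) (nat_lit 2) (nat_lit 5) (nat_lit 2) (nat_lit 4) (nat_lit 291) (nat_lit 227) (nat_lit 142)))) (XT.nd (nat_lit 936) (nat_lit 0) (nat_lit 0) (XT.nd (nat_lit 78) (nat_lit 0) (nat_lit 0) (XT.lf (nat_lit 0) (nat_lit 7653444949211) (nat_lit 76) (nat_lit 10655515162717) (nat_lit 76) (nat_lit 10633041881752) (nat_lit 1) (nat_lit 4) (nat_lit 2) (nat_lit 5) (nat_lit 2) (nat_lit 4) (nat_lit 292) (nat_lit 227) (nat_lit 141)) (XT.lf (nat_lit 0) (nat_lit 8838447731810) (nat_lit 76) (nat_lit 12232240617283)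 (nat_lit 76) (nat_lit 12209767318656) (nat_lit 1) (nat_lit 4) (nat_lit 2) (nat_lit 5) (nat_lit 2) (nat_lit 4) (nat_lit 293) (nat_lit 227) (nat_lit 140))) (XT.nd (nat_lit 78) (nat_lit 0) (nat_lit 0) (XT.lf (nat_lit 0) (nat_lit 42020497070363) (nat_lit 76) (nat_lit 56383184504343) (nat_lit 76) (nat_lit 56360711113276) (nat_lit 1) (nat_lit 4) (nat_lit 2) (nat_lit 5) (nat_lit 2) (nat_lit 4) (nat_lit 304) (nat_lit 227) (nat_lit 129)) (XT.lf (nat_lit 0) (nat_lit 48360557332369) (nat_lit 76) (nat_lit 64819060527134) (nat_lit 76) (nat_lit 64796587132766) (nat_lit 1) (nat_lit 4) (nat_lit 2) (nat_lit 5) (nat_lit 2) (nat_lit 4) (nat_lit 305) (nat_lit 227) (nat_lit 128))))) (XT.nd (nat_lit 28392) (nat_lit 0) (nat_lit 1292) (XT.nd (nat_lit 156) (nat_lit 0) (nat_lit 0) (XT.nd (nat_lit 78) (nat_lit 0) (nat_lit 0) (XT.lf (nat_lit 0) (nat_lit 55651626623518) (nat_lit 76) (nat_lit 74520317958350) (nat_lit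 76) (nat_lit 74497844561111) (nat_lit 1) (nat_lit 4) (nat_lit 2) (nat_lit 5) (nat_lit 2) (nat_lit 4) (nat_lit 306) (nat_lit 227) (nat_lit 127)) (XT.lf (nat_lit 0) (nat_lit 64036356299507) (nat_lit 76) (nat_lit 85676764008602) (nat_lit 76) (nat_lit 85654290608867) (nat_lit 1) (nat_lit 4) (nat_lit 2) (nat_lit 5) (nat_lit 2) (nat_lit 4) (nat_lit 307) (nat_lit 227) (nat_lit 126))) (XT.nd (nat_lit 28158) (nat_lit 0) (nat_lit 1596) (XT.lf (nat_lit 0) (nat_lit 73678795419215) (nat_lit 76) (nat_lit 98506676970178) (nat_lit 76) (nat_lit 98484203568273) (nat_lit 1) (nat_lit 4) (nat_lit 2) (nat_lit 5) (nat_lit 2) (nat_lit 4) (nat_lit 308) (nat_lit 227) (nat_lit 125)) (XT.lf (nat_lit 0) (nat_lit 2804746577) (nat_lit 0) (nat_lit 2804746577) (nat_lit 228) (nat_lit 784255165) (nat_lit 22) (nat_lit 5) (nat_lit 22) (nat_lit 3) (nat_lit 25) (nat_lit 3) (nat_lit 228) (nat_lit 228) (nat_lit 204)))) (XT.nd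 (nat_lit 156) (nat_lit 304) (nat_lit 0) (XT.nd (nat_lit 78) (nat_lit 0) (nat_lit 0) (XT.lf (nat_lit 0) (nat_lit 12135423947) (nat_lit 0) (nat_lit 276619147) (nat_lit 228) (nat_lit 1278562497) (nat_lit 22) (nat_lit 5) (nat_lit 22) (nat_lit 3) (nat_lit 25) (nat_lit 3) (nat_lit 229) (nat_lit 228) (nat_lit 203)) (XT.lf (nat_lit 76) (nat_lit 5078094654) (nat_lit 0) (nat_lit 9097415680) (nat_lit 304) (nat_lit 495524023) (nat_lit 23) (nat_lit 5) (nat_lit 22) (nat_lit 5) (nat_lit 26) (nat_lit 5) (nat_lit 230) (nat_lit 228) (nat_lit 202))) (XT.nd (nat_lit 78) (nat_lit 0) (nat_lit 76) (XT.lf (nat_lit 0) (nat_lit 409184250) (nat_lit 304) (nat_lit 2985738198) (nat_lit 380) (nat_lit 12395481512) (nat_lit 18) (nat_lit 5) (nat_lit 22) (nat_lit 5) (nat_lit 23) (nat_lit 5) (nat_lit 231) (nat_lit 228) (nat_lit 201)) (XT.nd (nat_lit 78) (nat_lit 0) (nat_lit 0) (XT.lf (nat_lit 0) (nat_lit 1697459675) (nat_lit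 304) (nat_lit 12200624833) (nat_lit 76) (nat_lit 3131641685) (nat_lit 19) (nat_lit 5) (nat_lit 23) (nat_lit 5) (nat_lit 20) (nat_lit 5) (nat_lit 232) (nat_lit 228) (nat_lit 200)) (XT.lf (nat_lit 0) (nat_lit 3458907057) (nat_lit 304) (nat_lit 4495132777) (nat_lit 76) (nat_lit 10459243951) (nat_lit 19) (nat_lit 5) (nat_lit 23) (nat_lit 5) (nat_lit 20) (nat_lit 5) (nat_lit 233) (nat_lit 228) (nat_lit 199))))))))
noncomputable def xc67 : XT := (XT.nd (nat_lit 1326) (nat_lit 228) (nat_lit 0) (XT.nd (nat_lit 624) (nat_lit 304) (nat_lit 0) (XT.nd (nat_lit 312) (nat_lit 304) (nat_lit 0) (XT.nd (nat_lit 156) (nat_lit 152) (nat_lit 0) (XT.nd (nat_lit 78) (nat_lit 0) (nat_lit 0) (XT.lf (nat_lit 0) (nat_lit 4748754365) (nat_lit 304) (nat_lit 893116416) (nat_lit 380) (nat_lit 14339193369) (nat_lit 15) (nat_lit 5) (nat_lit 19) (nat_lit 5) (nat_lit 20) (nat_lit 5) (nat_lit 234) (nat_lit 228) (nat_lit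 198)) (XT.lf (nat_lit 0) (nat_lit 8661792446) (nat_lit 380) (nat_lit 6218669174) (nat_lit 76) (nat_lit 6827369916) (nat_lit 15) (nat_lit 5) (nat_lit 20) (nat_lit 5) (nat_lit 16) (nat_lit 5) (nat_lit 235) (nat_lit 228) (nat_lit 197))) (XT.nd (nat_lit 78) (nat_lit 0) (nat_lit 0) (XT.lf (nat_lit 0) (nat_lit 4463724922) (nat_lit 152) (nat_lit 7867121814) (nat_lit 228) (nat_lit 11333560395) (nat_lit 13) (nat_lit 5) (nat_lit 15) (nat_lit 5) (nat_lit 16) (nat_lit 5) (nat_lit 236) (nat_lit 228) (nat_lit 196)) (XT.lf (nat_lit 0) (nat_lit 16870037132) (nat_lit 228) (nat_lit 8482608431) (nat_lit 76) (nat_lit 514043558) (nat_lit 13) (nat_lit 5) (nat_lit 16) (nat_lit 5) (nat_lit 14) (nat_lit 4) (nat_lit 237) (nat_lit 228) (nat_lit 195)))) (XT.nd (nat_lit 156) (nat_lit 228) (nat_lit 0) (XT.nd (nat_lit 78) (nat_lit 0) (nat_lit 0) (XT.lf (nat_lit 0) (nat_lit 3768784441) (nat_lit 76) (nat_lit 18826807270)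 (nat_lit 152) (nat_lit 5728061241) (nat_lit 12) (nat_lit 5) (nat_lit 13) (nat_lit 5) (nat_lit 14) (nat_lit 4) (nat_lit 238) (nat_lit 228) (nat_lit 194)) (XT.lf (nat_lit 0) (nat_lit 18777529490) (nat_lit 76) (nat_lit 10822554144) (nat_lit 152) (nat_lit 1486203309) (nat_lit 12) (nat_lit 5) (nat_lit 13) (nat_lit 5) (nat_lit 14) (nat_lit 4) (nat_lit 239) (nat_lit 228) (nat_lit 193))) (XT.nd (nat_lit 78) (nat_lit 0) (nat_lit 0) (XT.lf (nat_lit 0) (nat_lit 1758924259) (nat_lit 152) (nat_lit 1382526982) (nat_lit 228) (nat_lit 31093179962) (nat_lit 9) (nat_lit 5) (nat_lit 11) (nat_lit 5) (nat_lit 12) (nat_lit 5) (nat_lit 240) (nat_lit 228) (nat_lit 192)) (XT.lf (nat_lit 0) (nat_lit 9357196473) (nat_lit 228) (nat_lit 18965000942) (nat_lit 76) (nat_lit 9365591585) (nat_lit 9) (nat_lit 5) (nat_lit 12) (nat_lit 5) (nat_lit 10) (nat_lit 4) (nat_lit 241) (nat_lit 228) (nat_lit 191))))) (XT.nd (nat_lit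 312) (nat_lit 152) (nat_lit 0) (XT.nd (nat_lit 156) (nat_lit 76) (nat_lit 0) (XT.nd (nat_lit 78) (nat_lit 76) (nat_lit 0) (XT.lf (nat_lit 0) (nat_lit 16553549232) (nat_lit 228) (nat_lit 3521951947) (nat_lit 76) (nat_lit 21576263162) (nat_lit 9) (nat_lit 5) (nat_lit 12) (nat_lit 5) (nat_lit 10) (nat_lit 4) (nat_lit 242) (nat_lit 228) (nat_lit 190)) (XT.lf (nat_lit 0) (nat_lit 15601815666) (nat_lit 76) (nat_lit 9858282480) (nat_lit 152) (nat_lit 20655696556) (nat_lit 8) (nat_lit 5) (nat_lit 9) (nat_lit 5) (nat_lit 10) (nat_lit 4) (nat_lit 243) (nat_lit 228) (nat_lit 189))) (XT.nd (nat_lit 78) (nat_lit 76) (nat_lit 0) (XT.lf (nat_lit 0) (nat_lit 35959159249) (nat_lit 152) (nat_lit 13344350310) (nat_lit 0) (nat_lit 1907501628) (nat_lit 8) (nat_lit 5) (nat_lit 10) (nat_lit 4) (nat_lit 8) (nat_lit 4) (nat_lit 244) (nat_lit 228) (nat_lit 188)) (XT.lf (nat_lit 0) (nat_lit 6486670479) (nat_lit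 76) (nat_lit 42271700066) (nat_lit 76) (nat_lit 8203399030) (nat_lit 7) (nat_lit 4) (nat_lit 8) (nat_lit 5) (nat_lit 8) (nat_lit 4) (nat_lit 245) (nat_lit 228) (nat_lit 187)))) (XT.nd (nat_lit 156) (nat_lit 76) (nat_lit 0) (XT.nd (nat_lit 78) (nat_lit 0) (nat_lit 0) (XT.lf (nat_lit 0) (nat_lit 629207661) (nat_lit 152) (nat_lit 32729977096) (nat_lit 76) (nat_lit 30108875323) (nat_lit 6) (nat_lit 5) (nat_lit 8) (nat_lit 5) (nat_lit 7) (nat_lit 4) (nat_lit 246) (nat_lit 228) (nat_lit 186)) (XT.lf (nat_lit 0) (nat_lit 9935901223) (nat_lit 152) (nat_lit 12733170752) (nat_lit 76) (nat_lit 48224301233) (nat_lit 6) (nat_lit 5) (nat_lit 8) (nat_lit 5) (nat_lit 7) (nat_lit 4) (nat_lit 247) (nat_lit 228) (nat_lit 185))) (XT.nd (nat_lit 78) (nat_lit 0) (nat_lit 0) (XT.lf (nat_lit 0) (nat_lit 11247584839) (nat_lit 76) (nat_lit 9847246107) (nat_lit 152) (nat_lit 58269247890) (nat_lit 5) (nat_lit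 5) (nat_lit 6) (nat_lit 5) (nat_lit 7) (nat_lit 4) (nat_lit 248) (nat_lit 228) (nat_lit 184)) (XT.nd (nat_lit 78) (nat_lit 0) (nat_lit 0) (XT.lf (nat_lit 0) (nat_lit 34818469328) (nat_lit 152) (nat_lit 49000776035) (nat_lit 0) (nat_lit 5152540960) (nat_lit 5) (nat_lit 5) (nat_lit 7) (nat_lit 4) (nat_lit 5) (nat_lit 4) (nat_lit 249) (nat_lit 228) (nat_lit 183)) (XT.lf (nat_lit 0) (nat_lit 51061541112) (nat_lit 152) (nat_lit 27501581285) (nat_lit 0) (nat_lit 21388417337) (nat_lit 5) (nat_lit 5) (nat_lit 7) (nat_lit 4) (nat_lit 5) (nat_lit 4) (nat_lit 250) (nat_lit 228) (nat_lit 182))))))) (XT.nd (nat_lit 624) (nat_lit 0) (nat_lit 0) (XT.nd (nat_lit 312) (nat_lit 152) (nat_lit 0) (XT.nd (nat_lit 156) (nat_lit 0) (nat_lit 0) (XT.nd (nat_lit 78) (nat_lit 76) (nat_lit 0) (XT.lf (nat_lit 0) (nat_lit 69734092068) (nat_lit 152) (nat_lit 2790519869) (nat_lit 0) (nat_lit 40054711417) (nat_lit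 5) (nat_lit 5) (nat_lit 7) (nat_lit 4) (nat_lit 5) (nat_lit 4) (nat_lit 251) (nat_lit 228) (nat_lit 181)) (XT.lf (nat_lit 0) (nat_lit 28119256132) (nat_lit 76) (nat_lit 64246557015) (nat_lit 76) (nat_lit 34561735601) (nat_lit 4) (nat_lit 4) (nat_lit 5) (nat_lit 5) (nat_lit 5) (nat_lit 4) (nat_lit 252) (nat_lit 228) (nat_lit 180))) (XT.nd (nat_lit 78) (nat_lit 0) (nat_lit 0) (XT.lf (nat_lit 0) (nat_lit 63968313987) (nat_lit 76) (nat_lit 54564120151) (nat_lit 76) (nat_lit 24874567641) (nat_lit 4) (nat_lit 4) (nat_lit 5) (nat_lit 5) (nat_lit 5) (nat_lit 4) (nat_lit 253) (nat_lit 228) (nat_lit 179)) (XT.lf (nat_lit 0) (nat_lit 105185338411) (nat_lit 76) (nat_lit 43433730448) (nat_lit 76) (nat_lit 13740063940) (nat_lit 4) (nat_lit 4) (nat_lit 5) (nat_lit 5) (nat_lit 5) (nat_lit 4) (nat_lit 254) (nat_lit 228) (nat_lit 178)))) (XT.nd (nat_lit 156) (nat_lit 76) (nat_lit 0) (XT.nd (nat_lit 78)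 (nat_lit 76) (nat_lit 0) (XT.lf (nat_lit 0) (nat_lit 152576749446) (nat_lit 76) (nat_lit 30637619412) (nat_lit 76) (nat_lit 940375515) (nat_lit 4) (nat_lit 4) (nat_lit 5) (nat_lit 5) (nat_lit 5) (nat_lit 4) (nat_lit 255) (nat_lit 228) (nat_lit 177)) (XT.lf (nat_lit 0) (nat_lit 12548587124) (nat_lit 152) (nat_lit 2720892351) (nat_lit 76) (nat_lit 193865234354) (nat_lit 3) (nat_lit 5) (nat_lit 5) (nat_lit 5) (nat_lit 4) (nat_lit 4) (nat_lit 256) (nat_lit 228) (nat_lit 176))) (XT.nd (nat_lit 78) (nat_lit 0) (nat_lit 0) (XT.lf (nat_lit 0) (nat_lit 29510985001) (nat_lit 152) (nat_lit 204429791686) (nat_lit 0) (nat_lit 3682237445) (nat_lit 2) (nat_lit 5) (nat_lit 4) (nat_lit 4) (nat_lit 2) (nat_lit 4) (nat_lit 257) (nat_lit 228) (nat_lit 175)) (XT.lf (nat_lit 0) (nat_lit 49890491595) (nat_lit 152) (nat_lit 196303463397) (nat_lit 0) (nat_lit 24059698655) (nat_lit 2) (nat_lit 5) (nat_lit 4)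 (nat_lit 4) (nat_lit 2) (nat_lit 4) (nat_lit 258) (nat_lit 228) (nat_lit 174))))) (XT.nd (nat_lit 312) (nat_lit 0) (nat_lit 0) (XT.nd (nat_lit 156) (nat_lit 0) (nat_lit 0) (XT.nd (nat_lit 78) (nat_lit 0) (nat_lit 0) (XT.lf (nat_lit 0) (nat_lit 73323993498) (nat_lit 152) (nat_lit 186963918903) (nat_lit 0) (nat_lit 47491421964) (nat_lit 2) (nat_lit 5) (nat_lit 4) (nat_lit 4) (nat_lit 2) (nat_lit 4) (nat_lit 259) (nat_lit 228) (nat_lit 173)) (XT.lf (nat_lit 0) (nat_lit 100269972270) (nat_lit 152) (nat_lit 176228427986) (nat_lit 0) (nat_lit 74435854131) (nat_lit 2) (nat_lit 5) (nat_lit 4) (nat_lit 4) (nat_lit 2) (nat_lit 4) (nat_lit 260) (nat_lit 228) (nat_lit 172))) (XT.nd (nat_lit 78) (nat_lit 0) (nat_lit 0) (XT.lf (nat_lit 0) (nat_lit 131255631842) (nat_lit 152) (nat_lit 163886948432) (nat_lit 0) (nat_lit 105420168830) (nat_lit 2) (nat_lit 5) (nat_lit 4) (nat_lit 4) (nat_lit 2) (nat_lit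 4) (nat_lit 261) (nat_lit 228) (nat_lit 171)) (XT.lf (nat_lit 0) (nat_lit 166887213380) (nat_lit 152) (nat_lit 149698016510) (nat_lit 0) (nat_lit 141050580913) (nat_lit 2) (nat_lit 5) (nat_lit 4) (nat_lit 4) (nat_lit 2) (nat_lit 4) (nat_lit 262) (nat_lit 228) (nat_lit 170)))) (XT.nd (nat_lit 156) (nat_lit 0) (nat_lit 0) (XT.nd (nat_lit 78) (nat_lit 0) (nat_lit 0) (XT.lf (nat_lit 0) (nat_lit 207861856523) (nat_lit 152) (nat_lit 133384022683) (nat_lit 0) (nat_lit 182024207139) (nat_lit 2) (nat_lit 5) (nat_lit 4) (nat_lit 4) (nat_lit 2) (nat_lit 4) (nat_lit 263) (nat_lit 228) (nat_lit 169)) (XT.lf (nat_lit 0) (nat_lit 254981239072) (nat_lit 152) (nat_lit 114625780115) (nat_lit 0) (nat_lit 229142705412) (nat_lit 2) (nat_lit 5) (nat_lit 4) (nat_lit 4) (nat_lit 2) (nat_lit 4) (nat_lit 264) (nat_lit 228) (nat_lit 168))) (XT.nd (nat_lit 78) (nat_lit 0) (nat_lit 0) (XT.lf (nat_lit 0) (nat_lit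 309167261989) (nat_lit 152) (nat_lit 93056279713) (nat_lit 0) (nat_lit 283327959393) (nat_lit 2) (nat_lit 5) (nat_lit 4) (nat_lit 4) (nat_lit 2) (nat_lit 4) (nat_lit 265) (nat_lit 228) (nat_lit 167)) (XT.nd (nat_lit 78) (nat_lit 0) (nat_lit 0) (XT.lf (nat_lit 0) (nat_lit 371480086592) (nat_lit 152) (nat_lit 68253509511) (nat_lit 0) (nat_lit 345640115357) (nat_lit 2) (nat_lit 5) (nat_lit 4) (nat_lit 4) (nat_lit 2) (nat_lit 4) (nat_lit 266) (nat_lit 228) (nat_lit 166)) (XT.lf (nat_lit 0) (nat_lit 443138876842) (nat_lit 152) (nat_lit 39732197920) (nat_lit 0) (nat_lit 417298324181) (nat_lit 2) (nat_lit 5) (nat_lit 4) (nat_lit 4) (nat_lit 2) (nat_lit 4) (nat_lit 267) (nat_lit 228) (nat_lit 165))))))))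
noncomputable def xc68 : XT := (XT.nd (nat_lit 1326) (nat_lit 0) (nat_lit 0) (XT.nd (nat_lit 624) (nat_lit 0) (nat_lit 0) (XT.nd (nat_lit 312) (nat_lit 0) (nat_lit 0) (XT.nd (nat_lit 156) (nat_lit 0) (nat_lit 0) (XT.nd (nat_lit 78) (nat_lit 76) (nat_lit 0) (XT.lf (nat_lit 0) (nat_lit 525545652546) (nat_lit 152) (nat_lit 6934319277) (nat_lit 0) (nat_lit 499704594298) (nat_lit 2) (nat_lit 5) (nat_lit 4) (nat_lit 4) (nat_lit 2) (nat_lit 4) (nat_lit 268) (nat_lit 228) (nat_lit 164)) (XT.lf (nat_lit 0) (nat_lit 33790047755) (nat_lit 76) (nat_lit 587921846252) (nat_lit 76) (nat_lit 562080348363) (nat_lit 1) (nat_lit 4) (nat_lit 2) (nat_lit 5) (nat_lit 2) (nat_lit 4) (nat_lit 269) (nat_lit 228) (nat_lit 163))) (XT.nd (nat_lit 78) (nat_lit 0) (nat_lit 0) (XT.lf (nat_lit 0) (nat_lit 81401040066) (nat_lit 76) (nat_lit 651263821460) (nat_lit 76) (nat_lit 625421941273) (nat_lit 1) (nat_lit 4) (nat_lit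 2) (nat_lit 5) (nat_lit 2) (nat_lit 4) (nat_lit 270) (nat_lit 228) (nat_lit 162)) (XT.lf (nat_lit 0) (nat_lit 136152504958) (nat_lit 76) (nat_lit 724107672742) (nat_lit 76) (nat_lit 698265460123) (nat_lit 1) (nat_lit 4) (nat_lit 2) (nat_lit 5) (nat_lit 2) (nat_lit 4) (nat_lit 271) (nat_lit 228) (nat_lit 161)))) (XT.nd (nat_lit 156) (nat_lit 0) (nat_lit 0) (XT.nd (nat_lit 78) (nat_lit 0) (nat_lit 0) (XT.lf (nat_lit 0) (nat_lit 199115666746) (nat_lit 76) (nat_lit 807878605885) (nat_lit 76) (nat_lit 782036104194) (nat_lit 1) (nat_lit 4) (nat_lit 2) (nat_lit 5) (nat_lit 2) (nat_lit 4) (nat_lit 272) (nat_lit 228) (nat_lit 160)) (XT.lf (nat_lit 0) (nat_lit 271522413376) (nat_lit 76) (nat_lit 904215617406) (nat_lit 76) (nat_lit 878372864349) (nat_lit 1) (nat_lit 4) (nat_lit 2) (nat_lit 5) (nat_lit 2) (nat_lit 4) (nat_lit 273) (nat_lit 228) (nat_lit 159))) (XT.nd (nat_lit 78) (nat_lit 0) (nat_lit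 0) (XT.lf (nat_lit 0) (nat_lit 354789398587) (nat_lit 76) (nat_lit 1015003561878) (nat_lit 76) (nat_lit 989160590242) (nat_lit 1) (nat_lit 4) (nat_lit 2) (nat_lit 5) (nat_lit 2) (nat_lit 4) (nat_lit 274) (nat_lit 228) (nat_lit 158)) (XT.lf (nat_lit 0) (nat_lit 450545759046) (nat_lit 76) (nat_lit 1142410029521) (nat_lit 76) (nat_lit 1116566867815) (nat_lit 1) (nat_lit 4) (nat_lit 2) (nat_lit 5) (nat_lit 2) (nat_lit 4) (nat_lit 275) (nat_lit 228) (nat_lit 157))))) (XT.nd (nat_lit 312) (nat_lit 0) (nat_lit 0) (XT.nd (nat_lit 156) (nat_lit 0) (nat_lit 0) (XT.nd (nat_lit 78) (nat_lit 0) (nat_lit 0) (XT.lf (nat_lit 0) (nat_lit 560664988763) (nat_lit 76) (nat_lit 1288927755569) (nat_lit 76) (nat_lit 1263084428587) (nat_lit 1) (nat_lit 4) (nat_lit 2) (nat_lit 5) (nat_lit 2) (nat_lit 4) (nat_lit 276) (nat_lit 228) (nat_lit 156)) (XT.lf (nat_lit 0) (nat_lit 687301594405) (nat_lit 76) (nat_lit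 1457423391186) (nat_lit 76) (nat_lit 1431579920483) (nat_lit 1) (nat_lit 4) (nat_lit 2) (nat_lit 5) (nat_lit 2) (nat_lit 4) (nat_lit 277) (nat_lit 228) (nat_lit 155))) (XT.nd (nat_lit 78) (nat_lit 0) (nat_lit 0) (XT.lf (nat_lit 0) (nat_lit 832933248692) (nat_lit 76) (nat_lit 1651193590110) (nat_lit 76) (nat_lit 1625349994435) (nat_lit 1) (nat_lit 4) (nat_lit 2) (nat_lit 5) (nat_lit 2) (nat_lit 4) (nat_lit 278) (nat_lit 228) (nat_lit 154)) (XT.lf (nat_lit 0) (nat_lit 1000409266599) (nat_lit 76) (nat_lit 1874029508409) (nat_lit 76) (nat_lit 1848185804061) (nat_lit 1) (nat_lit 4) (nat_lit 2) (nat_lit 5) (nat_lit 2) (nat_lit 4) (nat_lit 279) (nat_lit 228) (nat_lit 153)))) (XT.nd (nat_lit 156) (nat_lit 0) (nat_lit 0) (XT.nd (nat_lit 78) (nat_lit 0) (nat_lit 0) (XT.lf (nat_lit 0) (nat_lit 1193006352824) (nat_lit 76) (nat_lit 2130290979267) (nat_lit 76) (nat_lit 2104447180420) (nat_lit 1)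 (nat_lit 4) (nat_lit 2) (nat_lit 5) (nat_lit 2) (nat_lit 4) (nat_lit 280) (nat_lit 228) (nat_lit 152)) (XT.lf (nat_lit 0) (nat_lit 1414492711228) (nat_lit 76) (nat_lit 2424991814069) (nat_lit 76) (nat_lit 2399147933050) (nat_lit 1) (nat_lit 4) (nat_lit 2) (nat_lit 5) (nat_lit 2) (nat_lit 4) (nat_lit 281) (nat_lit 228) (nat_lit 151))) (XT.nd (nat_lit 78) (nat_lit 0) (nat_lit 0) (XT.lf (nat_lit 0) (nat_lit 1669201770562) (nat_lit 76) (nat_lit 2763897898714) (nat_lit 76) (nat_lit 2738053946241) (nat_lit 1) (nat_lit 4) (nat_lit 2) (nat_lit 5) (nat_lit 2) (nat_lit 4) (nat_lit 282) (nat_lit 228) (nat_lit 150)) (XT.nd (nat_lit 78) (nat_lit 0) (nat_lit 0) (XT.lf (nat_lit 0) (nat_lit 1962116968944) (nat_lit 76) (nat_lit 3153640004423) (nat_lit 76) (nat_lit 3127795989816) (nat_lit 1) (nat_lit 4) (nat_lit 2) (nat_lit 5) (nat_lit 2) (nat_lit 4) (nat_lit 283) (nat_lit 228) (nat_lit 149)) (XT.lf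 (nat_lit 0) (nat_lit 2298969255908) (nat_lit 76) (nat_lit 3601843520221) (nat_lit 76) (nat_lit 3575999451585) (nat_lit 1) (nat_lit 4) (nat_lit 2) (nat_lit 5) (nat_lit 2) (nat_lit 4) (nat_lit 284) (nat_lit 228) (nat_lit 148))))))) (XT.nd (nat_lit 624) (nat_lit 0) (nat_lit 0) (XT.nd (nat_lit 312) (nat_lit 0) (nat_lit 0) (XT.nd (nat_lit 156) (nat_lit 0) (nat_lit 0) (XT.nd (nat_lit 78) (nat_lit 0) (nat_lit 0) (XT.lf (nat_lit 0) (nat_lit 2686349219676) (nat_lit 76) (nat_lit 4117277645330) (nat_lit 76) (nat_lit 4091433529712) (nat_lit 1) (nat_lit 4) (nat_lit 2) (nat_lit 5) (nat_lit 2) (nat_lit 4) (nat_lit 285) (nat_lit 228) (nat_lit 147)) (XT.lf (nat_lit 0) (nat_lit 3131836033453) (nat_lit 76) (nat_lit 4710026960459) (nat_lit 76) (nat_lit 4684182803987) (nat_lit 1) (nat_lit 4) (nat_lit 2) (nat_lit 5) (nat_lit 2) (nat_lit 4) (nat_lit 286) (nat_lit 228) (nat_lit 146))) (XT.nd (nat_lit 78) (nat_lit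 0) (nat_lit 0) (XT.lf (nat_lit 0) (nat_lit 3644145743595) (nat_lit 76) (nat_lit 5391688734818) (nat_lit 76) (nat_lit 5365844542820) (nat_lit 1) (nat_lit 4) (nat_lit 2) (nat_lit 5) (nat_lit 2) (nat_lit 4) (nat_lit 287) (nat_lit 228) (nat_lit 145)) (XT.lf (nat_lit 0) (nat_lit 4233301800953) (nat_lit 76) (nat_lit 6175599829207) (nat_lit 76) (nat_lit 6149755606318) (nat_lit 1) (nat_lit 4) (nat_lit 2) (nat_lit 5) (nat_lit 2) (nat_lit 4) (nat_lit 288) (nat_lit 228) (nat_lit 144)))) (XT.nd (nat_lit 156) (nat_lit 0) (nat_lit 0) (XT.nd (nat_lit 78) (nat_lit 0) (nat_lit 0) (XT.lf (nat_lit 0) (nat_lit 4910831171867) (nat_lit 76) (nat_lit 7077097634605) (nat_lit 76) (nat_lit 7051253384854) (nat_lit 1) (nat_lit 4) (nat_lit 2) (nat_lit 5) (nat_lit 2) (nat_lit 4) (nat_lit 289) (nat_lit 228) (nat_lit 143)) (XT.lf (nat_lit 0) (nat_lit 5689989865767) (nat_lit 76) (nat_lit 8113820151553) (nat_lit 76)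 (nat_lit 8087975878443) (nat_lit 1) (nat_lit 4) (nat_lit 2) (nat_lit 5) (nat_lit 2) (nat_lit 4) (nat_lit 290) (nat_lit 228) (nat_lit 142))) (XT.nd (nat_lit 78) (nat_lit 0) (nat_lit 0) (XT.lf (nat_lit 0) (nat_lit 6586022291881) (nat_lit 76) (nat_lit 9306051081468) (nat_lit 76) (nat_lit 9280206788046) (nat_lit 1) (nat_lit 4) (nat_lit 2) (nat_lit 5) (nat_lit 2) (nat_lit 4) (nat_lit 291) (nat_lit 228) (nat_lit 141)) (XT.lf (nat_lit 0) (nat_lit 7616459519418) (nat_lit 76) (nat_lit 10677116681675) (nat_lit 76) (nat_lit 10651272370591) (nat_lit 1) (nat_lit 4) (nat_lit 2) (nat_lit 5) (nat_lit 2) (nat_lit 4) (nat_lit 292) (nat_lit 228) (nat_lit 140))))) (XT.nd (nat_lit 780) (nat_lit 0) (nat_lit 0) (XT.nd (nat_lit 234) (nat_lit 0) (nat_lit 0) (XT.nd (nat_lit 156) (nat_lit 0) (nat_lit 0) (XT.lf (nat_lit 0) (nat_lit 8801462276740) (nat_lit 76) (nat_lit 12253842148700) (nat_lit 76) (nat_lit 12227997822258)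 (nat_lit 1) (nat_lit 4) (nat_lit 2) (nat_lit 5) (nat_lit 2) (nat_lit 4) (nat_lit 293) (nat_lit 228) (nat_lit 139)) (XT.lf (nat_lit 0) (nat_lit 11731381451528) (nat_lit 76) (nat_lit 16152295936253) (nat_lit 76) (nat_lit 16126451584843) (nat_lit 1) (nat_lit 4) (nat_lit 2) (nat_lit 5) (nat_lit 2) (nat_lit 4) (nat_lit 295) (nat_lit 228) (nat_lit 137))) (XT.nd (nat_lit 78) (nat_lit 0) (nat_lit 0) (XT.lf (nat_lit 0) (nat_lit 13533622374587) (nat_lit 76) (nat_lit 18550298352625) (nat_lit 76) (nat_lit 18524453991116) (nat_lit 1) (nat_lit 4) (nat_lit 2) (nat_lit 5) (nat_lit 2) (nat_lit 4) (nat_lit 296) (nat_lit 228) (nat_lit 136)) (XT.lf (nat_lit 0) (nat_lit 15606199405034) (nat_lit 76) (nat_lit 21308001146768) (nat_lit 76) (nat_lit 21282156776478) (nat_lit 1) (nat_lit 4) (nat_lit 2) (nat_lit 5) (nat_lit 2) (nat_lit 4) (nat_lit 297) (nat_lit 228) (nat_lit 135)))) (XT.nd (nat_lit 156) (nat_lit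 0) (nat_lit 0) (XT.nd (nat_lit 78) (nat_lit 0) (nat_lit 0) (XT.lf (nat_lit 0) (nat_lit 36470415598275) (nat_lit 76) (nat_lit 49069241735650) (nat_lit 76) (nat_lit 49043397332127) (nat_lit 1) (nat_lit 4) (nat_lit 2) (nat_lit 5) (nat_lit 2) (nat_lit 4) (nat_lit 303) (nat_lit 228) (nat_lit 129)) (XT.lf (nat_lit 0) (nat_lit 41983511483004) (nat_lit 76) (nat_lit 56404786100966) (nat_lit 76) (nat_lit 56378941694142) (nat_lit 1) (nat_lit 4) (nat_lit 2) (nat_lit 5) (nat_lit 2) (nat_lit 4) (nat_lit 304) (nat_lit 228) (nat_lit 128))) (XT.nd (nat_lit 78) (nat_lit 0) (nat_lit 0) (XT.lf (nat_lit 0) (nat_lit 48323571740286) (nat_lit 76) (nat_lit 64840662126085) (nat_lit 76) (nat_lit 64814817716390) (nat_lit 1) (nat_lit 4) (nat_lit 2) (nat_lit 5) (nat_lit 2) (nat_lit 4) (nat_lit 305) (nat_lit 228) (nat_lit 127)) (XT.nd (nat_lit 78) (nat_lit 0) (nat_lit 0) (XT.lf (nat_lit 0) (nat_lit 55614641027327)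 (nat_lit 76) (nat_lit 74541919559327) (nat_lit 76) (nat_lit 74516075147136) (nat_lit 1) (nat_lit 4) (nat_lit 2) (nat_lit 5) (nat_lit 2) (nat_lit 4) (nat_lit 306) (nat_lit 228) (nat_lit 126)) (XT.lf (nat_lit 0) (nat_lit 63999370699744) (nat_lit 76) (nat_lit 85698365611340) (nat_lit 76) (nat_lit 85672521196978) (nat_lit 1) (nat_lit 4) (nat_lit 2) (nat_lit 5) (nat_lit 2) (nat_lit 4) (nat_lit 307) (nat_lit 228) (nat_lit 125))))))))
noncomputable def xc69 : XT := (XT.nd (nat_lit 29484) (nat_lit 0) (nat_lit 76) (XT.nd (nat_lit 28782) (nat_lit 0) (nat_lit 532) (XT.nd (nat_lit 28470) (nat_lit 0) (nat_lit 1064) (XT.nd (nat_lit 28314) (nat_lit 0) (nat_lit 1292) (XT.nd (nat_lit 28236) (nat_lit 0) (nat_lit 1596) (XT.lf (nat_lit 0) (nat_lit 73641809816345) (nat_lit 76) (nat_lit 98528278574447) (nat_lit 76) (nat_lit 98502434158197) (nat_lit 1) (nat_lit 4) (nat_lit 2) (nat_lit 5) (nat_lit 2) (nat_lit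 4) (nat_lit 308) (nat_lit 228) (nat_lit 124)) (XT.lf (nat_lit 0) (nat_lit 3393994787) (nat_lit 0) (nat_lit 3393994787) (nat_lit 228) (nat_lit 511184603) (nat_lit 22) (nat_lit 5) (nat_lit 22) (nat_lit 3) (nat_lit 25) (nat_lit 3) (nat_lit 229) (nat_lit 229) (nat_lit 202))) (XT.nd (nat_lit 78) (nat_lit 304) (nat_lit 0) (XT.lf (nat_lit 0) (nat_lit 14248844014) (nat_lit 0) (nat_lit 611218494) (nat_lit 228) (nat_lit 790853243) (nat_lit 22) (nat_lit 5) (nat_lit 22) (nat_lit 3) (nat_lit 25) (nat_lit 3) (nat_lit 230) (nat_lit 229) (nat_lit 201)) (XT.lf (nat_lit 0) (nat_lit 24586448) (nat_lit 304) (nat_lit 10570695537) (nat_lit 380) (nat_lit 6194346542) (nat_lit 18) (nat_lit 5) (nat_lit 22) (nat_lit 5) (nat_lit 23) (nat_lit 5) (nat_lit 231) (nat_lit 229) (nat_lit 200)))) (XT.nd (nat_lit 156) (nat_lit 228) (nat_lit 0) (XT.nd (nat_lit 78) (nat_lit 0) (nat_lit 76) (XT.lf (nat_lit 0) (nat_lit 943350456)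 (nat_lit 304) (nat_lit 3053086981) (nat_lit 380) (nat_lit 14088091951) (nat_lit 18) (nat_lit 5) (nat_lit 22) (nat_lit 5) (nat_lit 23) (nat_lit 5) (nat_lit 232) (nat_lit 229) (nat_lit 199)) (XT.lf (nat_lit 0) (nat_lit 2375632719) (nat_lit 304) (nat_lit 13597913978) (nat_lit 76) (nat_lit 3544047154) (nat_lit 19) (nat_lit 5) (nat_lit 23) (nat_lit 5) (nat_lit 20) (nat_lit 5) (nat_lit 233) (nat_lit 229) (nat_lit 198))) (XT.nd (nat_lit 78) (nat_lit 304) (nat_lit 0) (XT.lf (nat_lit 0) (nat_lit 4346051023) (nat_lit 304) (nat_lit 4793050884) (nat_lit 76) (nat_lit 11978268993) (nat_lit 19) (nat_lit 5) (nat_lit 23) (nat_lit 5) (nat_lit 20) (nat_lit 5) (nat_lit 234) (nat_lit 229) (nat_lit 197)) (XT.lf (nat_lit 0) (nat_lit 5820312428) (nat_lit 304) (nat_lit 1002982280) (nat_lit 380) (nat_lit 16102345161) (nat_lit 15) (nat_lit 5) (nat_lit 19) (nat_lit 5) (nat_lit 20) (nat_lit 5) (nat_lit 235) (nat_lit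 229) (nat_lit 196))))) (XT.nd (nat_lit 312) (nat_lit 304) (nat_lit 0) (XT.nd (nat_lit 156) (nat_lit 76) (nat_lit 0) (XT.nd (nat_lit 78) (nat_lit 152) (nat_lit 0) (XT.lf (nat_lit 0) (nat_lit 10253358101) (nat_lit 380) (nat_lit 6794225362) (nat_lit 76) (nat_lit 7870567497) (nat_lit 15) (nat_lit 5) (nat_lit 20) (nat_lit 5) (nat_lit 16) (nat_lit 5) (nat_lit 236) (nat_lit 229) (nat_lit 195)) (XT.lf (nat_lit 0) (nat_lit 5474289476) (nat_lit 152) (nat_lit 8974475715) (nat_lit 228) (nat_lit 12723310783) (nat_lit 13) (nat_lit 5) (nat_lit 15) (nat_lit 5) (nat_lit 16) (nat_lit 5) (nat_lit 237) (nat_lit 229) (nat_lit 194))) (XT.nd (nat_lit 78) (nat_lit 76) (nat_lit 0) (XT.lf (nat_lit 0) (nat_lit 19636457824) (nat_lit 228) (nat_lit 9424576133) (nat_lit 76) (nat_lit 648750818) (nat_lit 13) (nat_lit 5) (nat_lit 16) (nat_lit 5) (nat_lit 14) (nat_lit 4) (nat_lit 238) (nat_lit 229) (nat_lit 193)) (XT.lf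 (nat_lit 0) (nat_lit 4649506417) (nat_lit 76) (nat_lit 21553627855) (nat_lit 152) (nat_lit 6335013926) (nat_lit 12) (nat_lit 5) (nat_lit 13) (nat_lit 5) (nat_lit 14) (nat_lit 4) (nat_lit 239) (nat_lit 229) (nat_lit 192)))) (XT.nd (nat_lit 156) (nat_lit 76) (nat_lit 0) (XT.nd (nat_lit 78) (nat_lit 228) (nat_lit 0) (XT.lf (nat_lit 0) (nat_lit 21868423530) (nat_lit 76) (nat_lit 12361415087) (nat_lit 152) (nat_lit 1489780327) (nat_lit 12) (nat_lit 5) (nat_lit 13) (nat_lit 5) (nat_lit 14) (nat_lit 4) (nat_lit 240) (nat_lit 229) (nat_lit 191)) (XT.lf (nat_lit 0) (nat_lit 2304155928) (nat_lit 152) (nat_lit 1493925856) (nat_lit 228) (nat_lit 35543062853) (nat_lit 9) (nat_lit 5) (nat_lit 11) (nat_lit 5) (nat_lit 12) (nat_lit 5) (nat_lit 241) (nat_lit 229) (nat_lit 190))) (XT.nd (nat_lit 78) (nat_lit 76) (nat_lit 0) (XT.lf (nat_lit 0) (nat_lit 10925460457) (nat_lit 228) (nat_lit 21543577220)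 (nat_lit 76) (nat_lit 10846461066) (nat_lit 9) (nat_lit 5) (nat_lit 12) (nat_lit 5) (nat_lit 10) (nat_lit 4) (nat_lit 242) (nat_lit 229) (nat_lit 189)) (XT.nd (nat_lit 78) (nat_lit 76) (nat_lit 0) (XT.lf (nat_lit 0) (nat_lit 19179785541) (nat_lit 228) (nat_lit 3818789205) (nat_lit 76) (nat_lit 24878816327) (nat_lit 9) (nat_lit 5) (nat_lit 12) (nat_lit 5) (nat_lit 10) (nat_lit 4) (nat_lit 243) (nat_lit 229) (nat_lit 188)) (XT.lf (nat_lit 0) (nat_lit 18163022843) (nat_lit 76) (nat_lit 11249763616) (nat_lit 152) (nat_lit 23599754817) (nat_lit 8) (nat_lit 5) (nat_lit 9) (nat_lit 5) (nat_lit 10) (nat_lit 4) (nat_lit 244) (nat_lit 229) (nat_lit 187))))))) (XT.nd (nat_lit 624) (nat_lit 228) (nat_lit 0) (XT.nd (nat_lit 312) (nat_lit 76) (nat_lit 0) (XT.nd (nat_lit 156) (nat_lit 76) (nat_lit 0) (XT.nd (nat_lit 78) (nat_lit 76) (nat_lit 0) (XT.lf (nat_lit 0) (nat_lit 41472413044) (nat_lit 152)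 (nat_lit 15139094894) (nat_lit 0) (nat_lit 2262750904) (nat_lit 8) (nat_lit 5) (nat_lit 10) (nat_lit 4) (nat_lit 8) (nat_lit 4) (nat_lit 245) (nat_lit 229) (nat_lit 186)) (XT.lf (nat_lit 0) (nat_lit 7657174106) (nat_lit 76) (nat_lit 48526938817) (nat_lit 76) (nat_lit 9304691865) (nat_lit 7) (nat_lit 4) (nat_lit 8) (nat_lit 5) (nat_lit 8) (nat_lit 4) (nat_lit 246) (nat_lit 229) (nat_lit 185))) (XT.nd (nat_lit 78) (nat_lit 0) (nat_lit 0) (XT.lf (nat_lit 0) (nat_lit 825948139) (nat_lit 152) (nat_lit 37457401767) (nat_lit 76) (nat_lit 34689238479) (nat_lit 6) (nat_lit 5) (nat_lit 8) (nat_lit 5) (nat_lit 7) (nat_lit 4) (nat_lit 247) (nat_lit 229) (nat_lit 184)) (XT.lf (nat_lit 0) (nat_lit 11515294517) (nat_lit 152) (nat_lit 14484822979) (nat_lit 76) (nat_lit 55513626294) (nat_lit 6) (nat_lit 5) (nat_lit 8) (nat_lit 5) (nat_lit 7) (nat_lit 4) (nat_lit 248) (nat_lit 229) (nat_lit 183)))) (XT.nd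 (nat_lit 156) (nat_lit 0) (nat_lit 0) (XT.nd (nat_lit 78) (nat_lit 0) (nat_lit 0) (XT.lf (nat_lit 0) (nat_lit 13085849433) (nat_lit 76) (nat_lit 11256862354) (nat_lit 152) (nat_lit 66913183330) (nat_lit 5) (nat_lit 5) (nat_lit 6) (nat_lit 5) (nat_lit 7) (nat_lit 4) (nat_lit 249) (nat_lit 229) (nat_lit 182)) (XT.lf (nat_lit 0) (nat_lit 40116413653) (nat_lit 152) (nat_lit 56210780617) (nat_lit 0) (nat_lit 5978869029) (nat_lit 5) (nat_lit 5) (nat_lit 7) (nat_lit 4) (nat_lit 5) (nat_lit 4) (nat_lit 250) (nat_lit 229) (nat_lit 181))) (XT.nd (nat_lit 78) (nat_lit 0) (nat_lit 0) (XT.lf (nat_lit 0) (nat_lit 58786140911) (nat_lit 152) (nat_lit 31504982110) (nat_lit 0) (nat_lit 24643155524) (nat_lit 5) (nat_lit 5) (nat_lit 7) (nat_lit 4) (nat_lit 5) (nat_lit 4) (nat_lit 251) (nat_lit 229) (nat_lit 180)) (XT.lf (nat_lit 0) (nat_lit 80251048167) (nat_lit 152) (nat_lit 3103153181) (nat_lit 0) (nat_lit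 46103331683) (nat_lit 5) (nat_lit 5) (nat_lit 7) (nat_lit 4) (nat_lit 5) (nat_lit 4) (nat_lit 252) (nat_lit 229) (nat_lit 179))))) (XT.nd (nat_lit 312) (nat_lit 152) (nat_lit 0) (XT.nd (nat_lit 156) (nat_lit 0) (nat_lit 0) (XT.nd (nat_lit 78) (nat_lit 0) (nat_lit 0) (XT.lf (nat_lit 0) (nat_lit 32438273553) (nat_lit 76) (nat_lit 73836027179) (nat_lit 76) (nat_lit 39684196698) (nat_lit 4) (nat_lit 4) (nat_lit 5) (nat_lit 5) (nat_lit 5) (nat_lit 4) (nat_lit 253) (nat_lit 229) (nat_lit 178)) (XT.lf (nat_lit 0) (nat_lit 73651499347) (nat_lit 76) (nat_lit 62707422184) (nat_lit 76) (nat_lit 28552014314) (nat_lit 4) (nat_lit 4) (nat_lit 5) (nat_lit 5) (nat_lit 5) (nat_lit 4) (nat_lit 254) (nat_lit 229) (nat_lit 177))) (XT.nd (nat_lit 78) (nat_lit 0) (nat_lit 0) (XT.lf (nat_lit 0) (nat_lit 121039607226) (nat_lit 76) (nat_lit 49912863068) (nat_lit 76) (nat_lit 15754344425) (nat_lit 4) (nat_lit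 4) (nat_lit 5) (nat_lit 5) (nat_lit 5) (nat_lit 4) (nat_lit 255) (nat_lit 229) (nat_lit 176)) (XT.lf (nat_lit 0) (nat_lit 175529755823) (nat_lit 76) (nat_lit 35202021500) (nat_lit 76) (nat_lit 1040797836) (nat_lit 4) (nat_lit 4) (nat_lit 5) (nat_lit 5) (nat_lit 5) (nat_lit 4) (nat_lit 256) (nat_lit 229) (nat_lit 175)))) (XT.nd (nat_lit 156) (nat_lit 0) (nat_lit 0) (XT.nd (nat_lit 78) (nat_lit 76) (nat_lit 0) (XT.lf (nat_lit 0) (nat_lit 14463063442) (nat_lit 152) (nat_lit 3067989454) (nat_lit 76) (nat_lit 222968969525) (nat_lit 3) (nat_lit 5) (nat_lit 5) (nat_lit 5) (nat_lit 4) (nat_lit 4) (nat_lit 257) (nat_lit 229) (nat_lit 174)) (XT.lf (nat_lit 0) (nat_lit 33969188678) (nat_lit 152) (nat_lit 235032530284) (nat_lit 0) (nat_lit 4259952818) (nat_lit 2) (nat_lit 5) (nat_lit 4) (nat_lit 4) (nat_lit 2) (nat_lit 4) (nat_lit 258) (nat_lit 229) (nat_lit 173))) (XT.nd (nat_lit 78) (nat_lit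 0) (nat_lit 0) (XT.lf (nat_lit 0) (nat_lit 57401505271) (nat_lit 152) (nat_lit 225695304511) (nat_lit 0) (nat_lit 27690722807) (nat_lit 2) (nat_lit 5) (nat_lit 4) (nat_lit 4) (nat_lit 2) (nat_lit 4) (nat_lit 259) (nat_lit 229) (nat_lit 172)) (XT.nd (nat_lit 78) (nat_lit 0) (nat_lit 0) (XT.lf (nat_lit 0) (nat_lit 84346453337) (nat_lit 152) (nat_lit 214961829873) (nat_lit 0) (nat_lit 54634326000) (nat_lit 2) (nat_lit 5) (nat_lit 4) (nat_lit 4) (nat_lit 2) (nat_lit 4) (nat_lit 260) (nat_lit 229) (nat_lit 171)) (XT.lf (nat_lit 0) (nat_lit 115331216644) (nat_lit 152) (nat_lit 202622103605) (nat_lit 0) (nat_lit 85617919852) (nat_lit 2) (nat_lit 5) (nat_lit 4) (nat_lit 4) (nat_lit 2) (nat_lit 4) (nat_lit 261) (nat_lit 229) (nat_lit 170))))))))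
noncomputable def xc70 : XT := (XT.nd (nat_lit 1326) (nat_lit 0) (nat_lit 0) (XT.nd (nat_lit 624) (nat_lit 76) (nat_lit 0) (XT.nd (nat_lit 312) (nat_lit 0) (nat_lit 0) (XT.nd (nat_lit 156) (nat_lit 0) (nat_lit 0) (XT.nd (nat_lit 78) (nat_lit 0) (nat_lit 0) (XT.lf (nat_lit 0) (nat_lit 150962018822) (nat_lit 152) (nat_lit 188434696280) (nat_lit 0) (nat_lit 121247705113) (nat_lit 2) (nat_lit 5) (nat_lit 4) (nat_lit 4) (nat_lit 2) (nat_lit 4) (nat_lit 262) (nat_lit 229) (nat_lit 169)) (XT.lf (nat_lit 0) (nat_lit 191935984260) (nat_lit 152) (nat_lit 172122028189) (nat_lit 0) (nat_lit 162220786275) (nat_lit 2) (nat_lit 5) (nat_lit 4) (nat_lit 4) (nat_lit 2) (nat_lit 4) (nat_lit 263) (nat_lit 229) (nat_lit 168))) (XT.nd (nat_lit 78) (nat_lit 0) (nat_lit 0) (XT.lf (nat_lit 0) (nat_lit 239054777499) (nat_lit 152) (nat_lit 153364938436) (nat_lit 0) (nat_lit 209338810579) (nat_lit 2) (nat_lit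 5) (nat_lit 4) (nat_lit 4) (nat_lit 2) (nat_lit 4) (nat_lit 264) (nat_lit 229) (nat_lit 167)) (XT.lf (nat_lit 0) (nat_lit 293240287974) (nat_lit 152) (nat_lit 131796440481) (nat_lit 0) (nat_lit 263523652414) (nat_lit 2) (nat_lit 5) (nat_lit 4) (nat_lit 4) (nat_lit 2) (nat_lit 4) (nat_lit 265) (nat_lit 229) (nat_lit 166)))) (XT.nd (nat_lit 156) (nat_lit 0) (nat_lit 0) (XT.nd (nat_lit 78) (nat_lit 0) (nat_lit 0) (XT.lf (nat_lit 0) (nat_lit 355552666975) (nat_lit 152) (nat_lit 106994541972) (nat_lit 0) (nat_lit 325835449990) (nat_lit 2) (nat_lit 5) (nat_lit 4) (nat_lit 4) (nat_lit 2) (nat_lit 4) (nat_lit 266) (nat_lit 229) (nat_lit 165)) (XT.lf (nat_lit 0) (nat_lit 427211069745) (nat_lit 152) (nat_lit 78473988375) (nat_lit 0) (nat_lit 397493347171) (nat_lit 2) (nat_lit 5) (nat_lit 4) (nat_lit 4) (nat_lit 2) (nat_lit 4) (nat_lit 267) (nat_lit 229) (nat_lit 164))) (XT.nd (nat_lit 78) (nat_lit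 0) (nat_lit 0) (XT.lf (nat_lit 0) (nat_lit 509617508510) (nat_lit 152) (nat_lit 45676768858) (nat_lit 0) (nat_lit 479899346296) (nat_lit 2) (nat_lit 5) (nat_lit 4) (nat_lit 4) (nat_lit 2) (nat_lit 4) (nat_lit 268) (nat_lit 229) (nat_lit 163)) (XT.lf (nat_lit 0) (nat_lit 604384283161) (nat_lit 152) (nat_lit 7961198690) (nat_lit 0) (nat_lit 574665738649) (nat_lit 2) (nat_lit 5) (nat_lit 4) (nat_lit 4) (nat_lit 2) (nat_lit 4) (nat_lit 269) (nat_lit 229) (nat_lit 162))))) (XT.nd (nat_lit 312) (nat_lit 0) (nat_lit 0) (XT.nd (nat_lit 156) (nat_lit 0) (nat_lit 0) (XT.nd (nat_lit 78) (nat_lit 0) (nat_lit 0) (XT.lf (nat_lit 0) (nat_lit 38871220284) (nat_lit 76) (nat_lit 676103880299) (nat_lit 76) (nat_lit 646385003355) (nat_lit 1) (nat_lit 4) (nat_lit 2) (nat_lit 5) (nat_lit 2) (nat_lit 4) (nat_lit 270) (nat_lit 229) (nat_lit 161)) (XT.lf (nat_lit 0) (nat_lit 93622209437) (nat_lit 76) (nat_lit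 748947966078) (nat_lit 76) (nat_lit 719228800063) (nat_lit 1) (nat_lit 4) (nat_lit 2) (nat_lit 5) (nat_lit 2) (nat_lit 4) (nat_lit 271) (nat_lit 229) (nat_lit 160))) (XT.nd (nat_lit 78) (nat_lit 0) (nat_lit 0) (XT.lf (nat_lit 0) (nat_lit 156584957538) (nat_lit 76) (nat_lit 832719103130) (nat_lit 76) (nat_lit 802999685749) (nat_lit 1) (nat_lit 4) (nat_lit 2) (nat_lit 5) (nat_lit 2) (nat_lit 4) (nat_lit 272) (nat_lit 229) (nat_lit 159)) (XT.lf (nat_lit 0) (nat_lit 228991344441) (nat_lit 76) (nat_lit 929056291965) (nat_lit 76) (nat_lit 899336656004) (nat_lit 1) (nat_lit 4) (nat_lit 2) (nat_lit 5) (nat_lit 2) (nat_lit 4) (nat_lit 273) (nat_lit 229) (nat_lit 158)))) (XT.nd (nat_lit 156) (nat_lit 0) (nat_lit 0) (XT.nd (nat_lit 78) (nat_lit 0) (nat_lit 0) (XT.lf (nat_lit 0) (nat_lit 312258016846) (nat_lit 76) (nat_lit 1039844390623) (nat_lit 76) (nat_lit 1010124564593) (nat_lit 1) (nat_lit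 4) (nat_lit 2) (nat_lit 5) (nat_lit 2) (nat_lit 4) (nat_lit 274) (nat_lit 229) (nat_lit 157)) (XT.lf (nat_lit 0) (nat_lit 408014105300) (nat_lit 76) (nat_lit 1167250992340) (nat_lit 76) (nat_lit 1137531001032) (nat_lit 1) (nat_lit 4) (nat_lit 2) (nat_lit 5) (nat_lit 2) (nat_lit 4) (nat_lit 275) (nat_lit 229) (nat_lit 156))) (XT.nd (nat_lit 78) (nat_lit 0) (nat_lit 0) (XT.lf (nat_lit 0) (nat_lit 518133098490) (nat_lit 76) (nat_lit 1313768834974) (nat_lit 76) (nat_lit 1284048699947) (nat_lit 1) (nat_lit 4) (nat_lit 2) (nat_lit 5) (nat_lit 2) (nat_lit 4) (nat_lit 276) (nat_lit 229) (nat_lit 155)) (XT.nd (nat_lit 78) (nat_lit 0) (nat_lit 0) (XT.lf (nat_lit 0) (nat_lit 644769498457) (nat_lit 76) (nat_lit 1482264571970) (nat_lit 76) (nat_lit 1452544311970) (nat_lit 1) (nat_lit 4) (nat_lit 2) (nat_lit 5) (nat_lit 2) (nat_lit 4) (nat_lit 277) (nat_lit 229) (nat_lit 154)) (XT.lf (nat_lit 0)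 (nat_lit 790400973896) (nat_lit 76) (nat_lit 1676034859051) (nat_lit 76) (nat_lit 1646314490378) (nat_lit 1) (nat_lit 4) (nat_lit 2) (nat_lit 5) (nat_lit 2) (nat_lit 4) (nat_lit 278) (nat_lit 229) (nat_lit 153))))))) (XT.nd (nat_lit 624) (nat_lit 0) (nat_lit 0) (XT.nd (nat_lit 312) (nat_lit 0) (nat_lit 0) (XT.nd (nat_lit 156) (nat_lit 0) (nat_lit 0) (XT.nd (nat_lit 78) (nat_lit 0) (nat_lit 0) (XT.lf (nat_lit 0) (nat_lit 957876836283) (nat_lit 76) (nat_lit 1898870854008) (nat_lit 76) (nat_lit 1869150390836) (nat_lit 1) (nat_lit 4) (nat_lit 2) (nat_lit 5) (nat_lit 2) (nat_lit 4) (nat_lit 279) (nat_lit 229) (nat_lit 152)) (XT.lf (nat_lit 0) (nat_lit 1150473787273) (nat_lit 76) (nat_lit 2155132391524) (nat_lit 76) (nat_lit 2125411846180) (nat_lit 1) (nat_lit 4) (nat_lit 2) (nat_lit 5) (nat_lit 2) (nat_lit 4) (nat_lit 280) (nat_lit 229) (nat_lit 151))) (XT.nd (nat_lit 78) (nat_lit 0) (nat_lit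 0) (XT.lf (nat_lit 0) (nat_lit 1371960028082) (nat_lit 76) (nat_lit 2449833284290) (nat_lit 76) (nat_lit 2420112667492) (nat_lit 1) (nat_lit 4) (nat_lit 2) (nat_lit 5) (nat_lit 2) (nat_lit 4) (nat_lit 281) (nat_lit 229) (nat_lit 150)) (XT.lf (nat_lit 0) (nat_lit 1626668985159) (nat_lit 76) (nat_lit 2788739419338) (nat_lit 76) (nat_lit 2759018740407) (nat_lit 1) (nat_lit 4) (nat_lit 2) (nat_lit 5) (nat_lit 2) (nat_lit 4) (nat_lit 282) (nat_lit 229) (nat_lit 149)))) (XT.nd (nat_lit 156) (nat_lit 0) (nat_lit 0) (XT.nd (nat_lit 78) (nat_lit 0) (nat_lit 0) (XT.lf (nat_lit 0) (nat_lit 1919584094623) (nat_lit 76) (nat_lit 3178481568876) (nat_lit 76) (nat_lit 3148760835916) (nat_lit 1) (nat_lit 4) (nat_lit 2) (nat_lit 5) (nat_lit 2) (nat_lit 4) (nat_lit 283) (nat_lit 229) (nat_lit 148)) (XT.lf (nat_lit 0) (nat_lit 2256436304265) (nat_lit 76) (nat_lit 3626685122787) (nat_lit 76) (nat_lit 3596964342844)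 (nat_lit 1) (nat_lit 4) (nat_lit 2) (nat_lit 5) (nat_lit 2) (nat_lit 4) (nat_lit 284) (nat_lit 229) (nat_lit 147))) (XT.nd (nat_lit 78) (nat_lit 0) (nat_lit 0) (XT.lf (nat_lit 0) (nat_lit 2643816200798) (nat_lit 76) (nat_lit 4142119281037) (nat_lit 76) (nat_lit 4112398460240) (nat_lit 1) (nat_lit 4) (nat_lit 2) (nat_lit 5) (nat_lit 2) (nat_lit 4) (nat_lit 285) (nat_lit 229) (nat_lit 146)) (XT.lf (nat_lit 0) (nat_lit 3089302956109) (nat_lit 76) (nat_lit 4734868624985) (nat_lit 76) (nat_lit 4705147768663) (nat_lit 1) (nat_lit 4) (nat_lit 2) (nat_lit 5) (nat_lit 2) (nat_lit 4) (nat_lit 286) (nat_lit 229) (nat_lit 145))))) (XT.nd (nat_lit 312) (nat_lit 0) (nat_lit 0) (XT.nd (nat_lit 156) (nat_lit 0) (nat_lit 0) (XT.nd (nat_lit 78) (nat_lit 0) (nat_lit 0) (XT.lf (nat_lit 0) (nat_lit 3601612615412) (nat_lit 76) (nat_lit 5416530424402) (nat_lit 76) (nat_lit 5386809537188) (nat_lit 1) (nat_lit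 4) (nat_lit 2) (nat_lit 5) (nat_lit 2) (nat_lit 4) (nat_lit 287) (nat_lit 229) (nat_lit 144)) (XT.lf (nat_lit 0) (nat_lit 4190768628561) (nat_lit 76) (nat_lit 6200441540583) (nat_lit 76) (nat_lit 6170720626507) (nat_lit 1) (nat_lit 4) (nat_lit 2) (nat_lit 5) (nat_lit 2) (nat_lit 4) (nat_lit 288) (nat_lit 229) (nat_lit 143))) (XT.nd (nat_lit 78) (nat_lit 0) (nat_lit 0) (XT.lf (nat_lit 0) (nat_lit 4868297961032) (nat_lit 76) (nat_lit 7101939364929) (nat_lit 76) (nat_lit 7072218427495) (nat_lit 1) (nat_lit 4) (nat_lit 2) (nat_lit 5) (nat_lit 2) (nat_lit 4) (nat_lit 289) (nat_lit 229) (nat_lit 142)) (XT.lf (nat_lit 0) (nat_lit 5647456621504) (nat_lit 76) (nat_lit 8138661898354) (nat_lit 76) (nat_lit 8108940940608) (nat_lit 1) (nat_lit 4) (nat_lit 2) (nat_lit 5) (nat_lit 2) (nat_lit 4) (nat_lit 290) (nat_lit 229) (nat_lit 141)))) (XT.nd (nat_lit 156) (nat_lit 0) (nat_lit 0) (XT.nd (nat_lit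 78) (nat_lit 0) (nat_lit 0) (XT.lf (nat_lit 0) (nat_lit 6543489018551) (nat_lit 76) (nat_lit 9330892842597) (nat_lit 76) (nat_lit 9301171867188) (nat_lit 1) (nat_lit 4) (nat_lit 2) (nat_lit 5) (nat_lit 2) (nat_lit 4) (nat_lit 291) (nat_lit 229) (nat_lit 140)) (XT.lf (nat_lit 0) (nat_lit 7573926220811) (nat_lit 76) (nat_lit 10701958455263) (nat_lit 76) (nat_lit 10672237464496) (nat_lit 1) (nat_lit 4) (nat_lit 2) (nat_lit 5) (nat_lit 2) (nat_lit 4) (nat_lit 292) (nat_lit 229) (nat_lit 139))) (XT.nd (nat_lit 78) (nat_lit 0) (nat_lit 0) (XT.lf (nat_lit 0) (nat_lit 8758928956154) (nat_lit 76) (nat_lit 12278683933121) (nat_lit 76) (nat_lit 12248962928999) (nat_lit 1) (nat_lit 4) (nat_lit 2) (nat_lit 5) (nat_lit 2) (nat_lit 4) (nat_lit 293) (nat_lit 229) (nat_lit 138)) (XT.nd (nat_lit 78) (nat_lit 0) (nat_lit 0) (XT.lf (nat_lit 0) (nat_lit 10121682060707) (nat_lit 76) (nat_lit 14091918252914)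 (nat_lit 76) (nat_lit 14062197237178) (nat_lit 1) (nat_lit 4) (nat_lit 2) (nat_lit 5) (nat_lit 2) (nat_lit 4) (nat_lit 294) (nat_lit 229) (nat_lit 137)) (XT.lf (nat_lit 0) (nat_lit 11688848095210) (nat_lit 76) (nat_lit 16177137738288) (nat_lit 76) (nat_lit 16147416712454) (nat_lit 1) (nat_lit 4) (nat_lit 2) (nat_lit 5) (nat_lit 2) (nat_lit 4) (nat_lit 295) (nat_lit 229) (nat_lit 136))))))))
noncomputable def xc71 : XT := (XT.nd (nat_lit 30186) (nat_lit 0) (nat_lit 152) (XT.nd (nat_lit 29484) (nat_lit 0) (nat_lit 836) (XT.nd (nat_lit 780) (nat_lit 0) (nat_lit 0) (XT.nd (nat_lit 624) (nat_lit 0) (nat_lit 0) (XT.nd (nat_lit 78) (nat_lit 0) (nat_lit 0) (XT.lf (nat_lit 0) (nat_lit 13491089003817) (nat_lit 76) (nat_lit 18575140161783) (nat_lit 76) (nat_lit 18545419127168) (nat_lit 1) (nat_lit 4) (nat_lit 2) (nat_lit 5) (nat_lit 2) (nat_lit 4) (nat_lit 296) (nat_lit 229) (nat_lit 135)) (XT.lf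 (nat_lit 0) (nat_lit 15563666021697) (nat_lit 76) (nat_lit 21332842962121) (nat_lit 76) (nat_lit 21303121919869) (nat_lit 1) (nat_lit 4) (nat_lit 2) (nat_lit 5) (nat_lit 2) (nat_lit 4) (nat_lit 297) (nat_lit 229) (nat_lit 134))) (XT.nd (nat_lit 78) (nat_lit 0) (nat_lit 0) (XT.lf (nat_lit 0) (nat_lit 41940978047384) (nat_lit 76) (nat_lit 56429627942089) (nat_lit 76) (nat_lit 56399906868069) (nat_lit 1) (nat_lit 4) (nat_lit 2) (nat_lit 5) (nat_lit 2) (nat_lit 4) (nat_lit 304) (nat_lit 229) (nat_lit 127)) (XT.lf (nat_lit 0) (nat_lit 48281038300557) (nat_lit 76) (nat_lit 64865503969234) (nat_lit 76) (nat_lit 64835782892718) (nat_lit 1) (nat_lit 4) (nat_lit 2) (nat_lit 5) (nat_lit 2) (nat_lit 4) (nat_lit 305) (nat_lit 229) (nat_lit 126)))) (XT.nd (nat_lit 28548) (nat_lit 0) (nat_lit 1292) (XT.nd (nat_lit 28470) (nat_lit 0) (nat_lit 1596) (XT.lf (nat_lit 0) (nat_lit 55572107584027) (nat_lit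 76) (nat_lit 74566761404236) (nat_lit 76) (nat_lit 74537040325549) (nat_lit 1) (nat_lit 4) (nat_lit 2) (nat_lit 5) (nat_lit 2) (nat_lit 4) (nat_lit 306) (nat_lit 229) (nat_lit 125)) (XT.lf (nat_lit 0) (nat_lit 4030531603) (nat_lit 0) (nat_lit 4030531603) (nat_lit 228) (nat_lit 292430281) (nat_lit 22) (nat_lit 5) (nat_lit 22) (nat_lit 3) (nat_lit 25) (nat_lit 3) (nat_lit 230) (nat_lit 230) (nat_lit 200))) (XT.nd (nat_lit 78) (nat_lit 304) (nat_lit 0) (XT.lf (nat_lit 0) (nat_lit 16607801221) (nat_lit 0) (nat_lit 924531872) (nat_lit 228) (nat_lit 395686425) (nat_lit 22) (nat_lit 5) (nat_lit 22) (nat_lit 3) (nat_lit 25) (nat_lit 3) (nat_lit 231) (nat_lit 230) (nat_lit 199)) (XT.lf (nat_lit 0) (nat_lit 439394909) (nat_lit 304) (nat_lit 11825419914) (nat_lit 380) (nat_lit 6978531751) (nat_lit 18) (nat_lit 5) (nat_lit 22) (nat_lit 5) (nat_lit 23) (nat_lit 5) (nat_lit 232) (nat_lit 230) (nat_lit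 198))))) (XT.nd (nat_lit 312) (nat_lit 228) (nat_lit 0) (XT.nd (nat_lit 156) (nat_lit 228) (nat_lit 0) (XT.nd (nat_lit 78) (nat_lit 0) (nat_lit 76) (XT.lf (nat_lit 0) (nat_lit 1442349106) (nat_lit 304) (nat_lit 3223328329) (nat_lit 380) (nat_lit 16075247681) (nat_lit 18) (nat_lit 5) (nat_lit 22) (nat_lit 5) (nat_lit 23) (nat_lit 5) (nat_lit 233) (nat_lit 230) (nat_lit 197)) (XT.lf (nat_lit 0) (nat_lit 3052245372) (nat_lit 304) (nat_lit 15310338632) (nat_lit 76) (nat_lit 4032296356) (nat_lit 19) (nat_lit 5) (nat_lit 23) (nat_lit 5) (nat_lit 20) (nat_lit 5) (nat_lit 234) (nat_lit 230) (nat_lit 196))) (XT.nd (nat_lit 78) (nat_lit 304) (nat_lit 0) (XT.lf (nat_lit 0) (nat_lit 5276452368) (nat_lit 304) (nat_lit 5227432480) (nat_lit 76) (nat_lit 13737306845) (nat_lit 19) (nat_lit 5) (nat_lit 23) (nat_lit 5) (nat_lit 20) (nat_lit 5) (nat_lit 235) (nat_lit 230) (nat_lit 195)) (XT.lf (nat_lit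 0) (nat_lit 6965000055) (nat_lit 304) (nat_lit 1135205352) (nat_lit 380) (nat_lit 18224519458) (nat_lit 15) (nat_lit 5) (nat_lit 19) (nat_lit 5) (nat_lit 20) (nat_lit 5) (nat_lit 236) (nat_lit 230) (nat_lit 194)))) (XT.nd (nat_lit 156) (nat_lit 76) (nat_lit 0) (XT.nd (nat_lit 78) (nat_lit 152) (nat_lit 0) (XT.lf (nat_lit 0) (nat_lit 12012380182) (nat_lit 380) (nat_lit 7543231236) (nat_lit 76) (nat_lit 9065588986) (nat_lit 15) (nat_lit 5) (nat_lit 20) (nat_lit 5) (nat_lit 16) (nat_lit 5) (nat_lit 237) (nat_lit 230) (nat_lit 193)) (XT.lf (nat_lit 0) (nat_lit 6553282286) (nat_lit 152) (nat_lit 10265664560) (nat_lit 228) (nat_lit 14397188367) (nat_lit 13) (nat_lit 5) (nat_lit 15) (nat_lit 5) (nat_lit 16) (nat_lit 5) (nat_lit 238) (nat_lit 230) (nat_lit 192))) (XT.nd (nat_lit 78) (nat_lit 76) (nat_lit 0) (XT.lf (nat_lit 0) (nat_lit 22760312224) (nat_lit 228) (nat_lit 10588414869) (nat_lit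 76) (nat_lit 789617866) (nat_lit 13) (nat_lit 5) (nat_lit 16) (nat_lit 5) (nat_lit 14) (nat_lit 4) (nat_lit 239) (nat_lit 230) (nat_lit 191)) (XT.nd (nat_lit 78) (nat_lit 0) (nat_lit 0) (XT.lf (nat_lit 0) (nat_lit 5585423351) (nat_lit 76) (nat_lit 24713174487) (nat_lit 152) (nat_lit 7094523860) (nat_lit 12) (nat_lit 5) (nat_lit 13) (nat_lit 5) (nat_lit 14) (nat_lit 4) (nat_lit 240) (nat_lit 230) (nat_lit 190)) (XT.lf (nat_lit 0) (nat_lit 25356070513) (nat_lit 76) (nat_lit 14151716440) (nat_lit 152) (nat_lit 1547384631) (nat_lit 12) (nat_lit 5) (nat_lit 13) (nat_lit 5) (nat_lit 14) (nat_lit 4) (nat_lit 241) (nat_lit 230) (nat_lit 189))))))) (XT.nd (nat_lit 624) (nat_lit 228) (nat_lit 0) (XT.nd (nat_lit 312) (nat_lit 152) (nat_lit 0) (XT.nd (nat_lit 156) (nat_lit 76) (nat_lit 0) (XT.nd (nat_lit 78) (nat_lit 0) (nat_lit 0) (XT.lf (nat_lit 0) (nat_lit 2862552875) (nat_lit 152) (nat_lit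 1645439933) (nat_lit 228) (nat_lit 40712636380) (nat_lit 9) (nat_lit 5) (nat_lit 11) (nat_lit 5) (nat_lit 12) (nat_lit 5) (nat_lit 242) (nat_lit 230) (nat_lit 188)) (XT.lf (nat_lit 0) (nat_lit 12688804677) (nat_lit 228) (nat_lit 24573848122) (nat_lit 76) (nat_lit 12530920392) (nat_lit 9) (nat_lit 5) (nat_lit 12) (nat_lit 5) (nat_lit 10) (nat_lit 4) (nat_lit 243) (nat_lit 230) (nat_lit 187))) (XT.nd (nat_lit 78) (nat_lit 76) (nat_lit 0) (XT.lf (nat_lit 0) (nat_lit 22165036113) (nat_lit 228) (nat_lit 4216593950) (nat_lit 76) (nat_lit 28660630224) (nat_lit 9) (nat_lit 5) (nat_lit 12) (nat_lit 5) (nat_lit 10) (nat_lit 4) (nat_lit 244) (nat_lit 230) (nat_lit 186)) (XT.lf (nat_lit 0) (nat_lit 21054534740) (nat_lit 76) (nat_lit 12871246128) (nat_lit 152) (nat_lit 27023047929) (nat_lit 8) (nat_lit 5) (nat_lit 9) (nat_lit 5) (nat_lit 10) (nat_lit 4) (nat_lit 245) (nat_lit 230) (nat_lit 185))))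 (XT.nd (nat_lit 156) (nat_lit 76) (nat_lit 0) (XT.nd (nat_lit 78) (nat_lit 76) (nat_lit 0) (XT.lf (nat_lit 0) (nat_lit 47783543361) (nat_lit 152) (nat_lit 17253506984) (nat_lit 0) (nat_lit 2654431239) (nat_lit 8) (nat_lit 5) (nat_lit 10) (nat_lit 4) (nat_lit 8) (nat_lit 4) (nat_lit 246) (nat_lit 230) (nat_lit 184)) (XT.lf (nat_lit 0) (nat_lit 8955090905) (nat_lit 76) (nat_lit 55741317062) (nat_lit 76) (nat_lit 10602689014) (nat_lit 7) (nat_lit 4) (nat_lit 8) (nat_lit 5) (nat_lit 8) (nat_lit 4) (nat_lit 247) (nat_lit 230) (nat_lit 183))) (XT.nd (nat_lit 78) (nat_lit 0) (nat_lit 0) (XT.lf (nat_lit 0) (nat_lit 1027238717) (nat_lit 152) (nat_lit 42938339523) (nat_lit 76) (nat_lit 39941041534) (nat_lit 6) (nat_lit 5) (nat_lit 8) (nat_lit 5) (nat_lit 7) (nat_lit 4) (nat_lit 248) (nat_lit 230) (nat_lit 182)) (XT.lf (nat_lit 0) (nat_lit 13309891615) (nat_lit 152) (nat_lit 16537831200) (nat_lit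 76) (nat_lit 63882772223) (nat_lit 6) (nat_lit 5) (nat_lit 8) (nat_lit 5) (nat_lit 7) (nat_lit 4) (nat_lit 249) (nat_lit 230) (nat_lit 181))))) (XT.nd (nat_lit 312) (nat_lit 152) (nat_lit 0) (XT.nd (nat_lit 156) (nat_lit 0) (nat_lit 0) (XT.nd (nat_lit 78) (nat_lit 0) (nat_lit 0) (XT.lf (nat_lit 0) (nat_lit 15163000472) (nat_lit 76) (nat_lit 12894374188) (nat_lit 152) (nat_lit 76877229454) (nat_lit 5) (nat_lit 5) (nat_lit 6) (nat_lit 5) (nat_lit 7) (nat_lit 4) (nat_lit 250) (nat_lit 230) (nat_lit 180)) (XT.lf (nat_lit 0) (nat_lit 46190717990) (nat_lit 152) (nat_lit 64536453042) (nat_lit 0) (nat_lit 6916112937) (nat_lit 5) (nat_lit 5) (nat_lit 7) (nat_lit 4) (nat_lit 5) (nat_lit 4) (nat_lit 251) (nat_lit 230) (nat_lit 179))) (XT.nd (nat_lit 78) (nat_lit 0) (nat_lit 0) (XT.lf (nat_lit 0) (nat_lit 67653490124) (nat_lit 152) (nat_lit 36138603629) (nat_lit 0) (nat_lit 28374771073) (nat_lit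 5) (nat_lit 5) (nat_lit 7) (nat_lit 4) (nat_lit 5) (nat_lit 4) (nat_lit 252) (nat_lit 230) (nat_lit 178)) (XT.lf (nat_lit 0) (nat_lit 92331686329) (nat_lit 152) (nat_lit 3488516769) (nat_lit 0) (nat_lit 53049389889) (nat_lit 5) (nat_lit 5) (nat_lit 7) (nat_lit 4) (nat_lit 5) (nat_lit 4) (nat_lit 253) (nat_lit 230) (nat_lit 177)))) (XT.nd (nat_lit 156) (nat_lit 76) (nat_lit 0) (XT.nd (nat_lit 78) (nat_lit 0) (nat_lit 0) (XT.lf (nat_lit 0) (nat_lit 37380482639) (nat_lit 76) (nat_lit 84875504309) (nat_lit 76) (nat_lit 45590097096) (nat_lit 4) (nat_lit 4) (nat_lit 5) (nat_lit 5) (nat_lit 5) (nat_lit 4) (nat_lit 254) (nat_lit 230) (nat_lit 176)) (XT.lf (nat_lit 0) (nat_lit 84765718209) (nat_lit 76) (nat_lit 72082294688) (nat_lit 76) (nat_lit 32794182455) (nat_lit 4) (nat_lit 4) (nat_lit 5) (nat_lit 5) (nat_lit 5) (nat_lit 4) (nat_lit 255) (nat_lit 230) (nat_lit 175))) (XT.nd (nat_lit 78)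 (nat_lit 76) (nat_lit 0) (XT.lf (nat_lit 0) (nat_lit 139253369145) (nat_lit 76) (nat_lit 57372626595) (nat_lit 76) (nat_lit 18082162170) (nat_lit 4) (nat_lit 4) (nat_lit 5) (nat_lit 5) (nat_lit 5) (nat_lit 4) (nat_lit 256) (nat_lit 230) (nat_lit 174)) (XT.nd (nat_lit 78) (nat_lit 76) (nat_lit 0) (XT.lf (nat_lit 0) (nat_lit 201909498183) (nat_lit 76) (nat_lit 40458702174) (nat_lit 76) (nat_lit 1166192366) (nat_lit 4) (nat_lit 4) (nat_lit 5) (nat_lit 5) (nat_lit 5) (nat_lit 4) (nat_lit 257) (nat_lit 230) (nat_lit 173)) (XT.lf (nat_lit 0) (nat_lit 16656861898) (nat_lit 152) (nat_lit 3482035320) (nat_lit 76) (nat_lit 256432424609) (nat_lit 3) (nat_lit 5) (nat_lit 5) (nat_lit 5) (nat_lit 4) (nat_lit 4) (nat_lit 258) (nat_lit 230) (nat_lit 172))))))))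
noncomputable def xc72 : XT := (XT.nd (nat_lit 1326) (nat_lit 0) (nat_lit 0) (XT.nd (nat_lit 624) (nat_lit 76) (nat_lit 0) (XT.nd (nat_lit 312) (nat_lit 0) (nat_lit 0) (XT.nd (nat_lit 156) (nat_lit 0) (nat_lit 0) (XT.nd (nat_lit 78) (nat_lit 0) (nat_lit 0) (XT.lf (nat_lit 0) (nat_lit 39088427793) (nat_lit 152) (nat_lit 270240732961) (nat_lit 0) (nat_lit 4918136483) (nat_lit 2) (nat_lit 5) (nat_lit 4) (nat_lit 4) (nat_lit 2) (nat_lit 4) (nat_lit 259) (nat_lit 230) (nat_lit 171)) (XT.lf (nat_lit 0) (nat_lit 66032479595) (nat_lit 152) (nat_lit 259509011609) (nat_lit 0) (nat_lit 31861018830) (nat_lit 2) (nat_lit 5) (nat_lit 4) (nat_lit 4) (nat_lit 2) (nat_lit 4) (nat_lit 260) (nat_lit 230) (nat_lit 170))) (XT.nd (nat_lit 78) (nat_lit 0) (nat_lit 0) (XT.lf (nat_lit 0) (nat_lit 97016463541) (nat_lit 152) (nat_lit 247170809938) (nat_lit 0) (nat_lit 62843985859) (nat_lit 2) (nat_lit 5) (nat_lit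 4) (nat_lit 4) (nat_lit 2) (nat_lit 4) (nat_lit 261) (nat_lit 230) (nat_lit 169)) (XT.lf (nat_lit 0) (nat_lit 132646588013) (nat_lit 152) (nat_lit 232984728349) (nat_lit 0) (nat_lit 98473226055) (nat_lit 2) (nat_lit 5) (nat_lit 4) (nat_lit 4) (nat_lit 2) (nat_lit 4) (nat_lit 262) (nat_lit 230) (nat_lit 168)))) (XT.nd (nat_lit 156) (nat_lit 0) (nat_lit 0) (XT.nd (nat_lit 78) (nat_lit 0) (nat_lit 0) (XT.lf (nat_lit 0) (nat_lit 173619964143) (nat_lit 152) (nat_lit 216673213073) (nat_lit 0) (nat_lit 139445833249) (nat_lit 2) (nat_lit 5) (nat_lit 4) (nat_lit 4) (nat_lit 2) (nat_lit 4) (nat_lit 263) (nat_lit 230) (nat_lit 167)) (XT.lf (nat_lit 0) (nat_lit 220738244940) (nat_lit 152) (nat_lit 197917125766) (nat_lit 0) (nat_lit 186563445406) (nat_lit 2) (nat_lit 5) (nat_lit 4) (nat_lit 4) (nat_lit 2) (nat_lit 4) (nat_lit 264) (nat_lit 230) (nat_lit 166))) (XT.nd (nat_lit 78) (nat_lit 0) (nat_lit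 0) (XT.lf (nat_lit 0) (nat_lit 274923309813) (nat_lit 152) (nat_lit 176349499504) (nat_lit 0) (nat_lit 240747928853) (nat_lit 2) (nat_lit 5) (nat_lit 4) (nat_lit 4) (nat_lit 2) (nat_lit 4) (nat_lit 265) (nat_lit 230) (nat_lit 165)) (XT.lf (nat_lit 0) (nat_lit 337235301334) (nat_lit 152) (nat_lit 151548358990) (nat_lit 0) (nat_lit 303059414787) (nat_lit 2) (nat_lit 5) (nat_lit 4) (nat_lit 4) (nat_lit 2) (nat_lit 4) (nat_lit 266) (nat_lit 230) (nat_lit 164))))) (XT.nd (nat_lit 312) (nat_lit 76) (nat_lit 0) (XT.nd (nat_lit 156) (nat_lit 0) (nat_lit 0) (XT.nd (nat_lit 78) (nat_lit 0) (nat_lit 0) (XT.lf (nat_lit 0) (nat_lit 408893367164) (nat_lit 152) (nat_lit 123028464518) (nat_lit 0) (nat_lit 374717040976) (nat_lit 2) (nat_lit 5) (nat_lit 4) (nat_lit 4) (nat_lit 2) (nat_lit 4) (nat_lit 267) (nat_lit 230) (nat_lit 163)) (XT.lf (nat_lit 0) (nat_lit 491299512939) (nat_lit 152) (nat_lit 90231818153)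 (nat_lit 0) (nat_lit 457122804454) (nat_lit 2) (nat_lit 5) (nat_lit 4) (nat_lit 4) (nat_lit 2) (nat_lit 4) (nat_lit 268) (nat_lit 230) (nat_lit 162))) (XT.nd (nat_lit 78) (nat_lit 0) (nat_lit 0) (XT.lf (nat_lit 0) (nat_lit 586066032815) (nat_lit 152) (nat_lit 52516746379) (nat_lit 0) (nat_lit 551888991898) (nat_lit 2) (nat_lit 5) (nat_lit 4) (nat_lit 4) (nat_lit 2) (nat_lit 4) (nat_lit 269) (nat_lit 230) (nat_lit 161)) (XT.lf (nat_lit 0) (nat_lit 695047054355) (nat_lit 152) (nat_lit 9145345618) (nat_lit 0) (nat_lit 660869724367) (nat_lit 2) (nat_lit 5) (nat_lit 4) (nat_lit 4) (nat_lit 2) (nat_lit 4) (nat_lit 270) (nat_lit 230) (nat_lit 160)))) (XT.nd (nat_lit 156) (nat_lit 0) (nat_lit 0) (XT.nd (nat_lit 78) (nat_lit 0) (nat_lit 0) (XT.lf (nat_lit 0) (nat_lit 44711480163) (nat_lit 76) (nat_lit 777514741821) (nat_lit 76) (nat_lit 743337160466) (nat_lit 1) (nat_lit 4) (nat_lit 2) (nat_lit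 5) (nat_lit 2) (nat_lit 4) (nat_lit 271) (nat_lit 230) (nat_lit 159)) (XT.lf (nat_lit 0) (nat_lit 107673868536) (nat_lit 76) (nat_lit 861286056187) (nat_lit 76) (nat_lit 827108256252) (nat_lit 1) (nat_lit 4) (nat_lit 2) (nat_lit 5) (nat_lit 2) (nat_lit 4) (nat_lit 272) (nat_lit 230) (nat_lit 158))) (XT.nd (nat_lit 78) (nat_lit 0) (nat_lit 0) (XT.lf (nat_lit 0) (nat_lit 180079942633) (nat_lit 76) (nat_lit 957623399206) (nat_lit 76) (nat_lit 923445409203) (nat_lit 1) (nat_lit 4) (nat_lit 2) (nat_lit 5) (nat_lit 2) (nat_lit 4) (nat_lit 273) (nat_lit 230) (nat_lit 157)) (XT.nd (nat_lit 78) (nat_lit 0) (nat_lit 0) (XT.lf (nat_lit 0) (nat_lit 263346343032) (nat_lit 76) (nat_lit 1068411631939) (nat_lit 76) (nat_lit 1034233476658) (nat_lit 1) (nat_lit 4) (nat_lit 2) (nat_lit 5) (nat_lit 2) (nat_lit 4) (nat_lit 274) (nat_lit 230) (nat_lit 156)) (XT.lf (nat_lit 0) (nat_lit 359102194960) (nat_lit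 76) (nat_lit 1195818350242) (nat_lit 76) (nat_lit 1161640051241) (nat_lit 1) (nat_lit 4) (nat_lit 2) (nat_lit 5) (nat_lit 2) (nat_lit 4) (nat_lit 275) (nat_lit 230) (nat_lit 155))))))) (XT.nd (nat_lit 624) (nat_lit 0) (nat_lit 0) (XT.nd (nat_lit 312) (nat_lit 0) (nat_lit 0) (XT.nd (nat_lit 156) (nat_lit 0) (nat_lit 0) (XT.nd (nat_lit 78) (nat_lit 0) (nat_lit 0) (XT.lf (nat_lit 0) (nat_lit 469220982475) (nat_lit 76) (nat_lit 1342336294256) (nat_lit 76) (nat_lit 1308157870282) (nat_lit 1) (nat_lit 4) (nat_lit 2) (nat_lit 5) (nat_lit 2) (nat_lit 4) (nat_lit 276) (nat_lit 230) (nat_lit 154)) (XT.lf (nat_lit 0) (nat_lit 595857203594) (nat_lit 76) (nat_lit 1510832119408) (nat_lit 76) (nat_lit 1476653586761) (nat_lit 1) (nat_lit 4) (nat_lit 2) (nat_lit 5) (nat_lit 2) (nat_lit 4) (nat_lit 277) (nat_lit 230) (nat_lit 153))) (XT.nd (nat_lit 78) (nat_lit 0) (nat_lit 0) (XT.lf (nat_lit 0) (nat_lit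 741488523513) (nat_lit 76) (nat_lit 1704602483147) (nat_lit 76) (nat_lit 1670423856002) (nat_lit 1) (nat_lit 4) (nat_lit 2) (nat_lit 5) (nat_lit 2) (nat_lit 4) (nat_lit 278) (nat_lit 230) (nat_lit 152)) (XT.lf (nat_lit 0) (nat_lit 908964250665) (nat_lit 76) (nat_lit 1927438544762) (nat_lit 76) (nat_lit 1893259835445) (nat_lit 1) (nat_lit 4) (nat_lit 2) (nat_lit 5) (nat_lit 2) (nat_lit 4) (nat_lit 279) (nat_lit 230) (nat_lit 151)))) (XT.nd (nat_lit 156) (nat_lit 0) (nat_lit 0) (XT.nd (nat_lit 78) (nat_lit 0) (nat_lit 0) (XT.lf (nat_lit 0) (nat_lit 1101561084060) (nat_lit 76) (nat_lit 2183700140242) (nat_lit 76) (nat_lit 2149521359471) (nat_lit 1) (nat_lit 4) (nat_lit 2) (nat_lit 5) (nat_lit 2) (nat_lit 4) (nat_lit 280) (nat_lit 230) (nat_lit 150)) (XT.lf (nat_lit 0) (nat_lit 1323047222612) (nat_lit 76) (nat_lit 2478401083411) (nat_lit 76) (nat_lit 2444222240506) (nat_lit 1) (nat_lit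 4) (nat_lit 2) (nat_lit 5) (nat_lit 2) (nat_lit 4) (nat_lit 281) (nat_lit 230) (nat_lit 149))) (XT.nd (nat_lit 78) (nat_lit 0) (nat_lit 0) (XT.lf (nat_lit 0) (nat_lit 1577756090770) (nat_lit 76) (nat_lit 2817307262289) (nat_lit 76) (nat_lit 2783128365354) (nat_lit 1) (nat_lit 4) (nat_lit 2) (nat_lit 5) (nat_lit 2) (nat_lit 4) (nat_lit 282) (nat_lit 230) (nat_lit 148)) (XT.lf (nat_lit 0) (nat_lit 1870671122913) (nat_lit 76) (nat_lit 3207049449939) (nat_lit 76) (nat_lit 3172870506023) (nat_lit 1) (nat_lit 4) (nat_lit 2) (nat_lit 5) (nat_lit 2) (nat_lit 4) (nat_lit 283) (nat_lit 230) (nat_lit 147))))) (XT.nd (nat_lit 312) (nat_lit 0) (nat_lit 0) (XT.nd (nat_lit 156) (nat_lit 0) (nat_lit 0) (XT.nd (nat_lit 78) (nat_lit 0) (nat_lit 0) (XT.lf (nat_lit 0) (nat_lit 2207523265320) (nat_lit 76) (nat_lit 3655253036991) (nat_lit 76) (nat_lit 3621074052220) (nat_lit 1) (nat_lit 4) (nat_lit 2) (nat_lit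 5) (nat_lit 2) (nat_lit 4) (nat_lit 284) (nat_lit 230) (nat_lit 146)) (XT.lf (nat_lit 0) (nat_lit 2594903103387) (nat_lit 76) (nat_lit 4170687224060) (nat_lit 76) (nat_lit 4136508203764) (nat_lit 1) (nat_lit 4) (nat_lit 2) (nat_lit 5) (nat_lit 2) (nat_lit 4) (nat_lit 285) (nat_lit 230) (nat_lit 145))) (XT.nd (nat_lit 78) (nat_lit 0) (nat_lit 0) (XT.lf (nat_lit 0) (nat_lit 3040389807858) (nat_lit 76) (nat_lit 4763436593067) (nat_lit 76) (nat_lit 4729257541879) (nat_lit 1) (nat_lit 4) (nat_lit 2) (nat_lit 5) (nat_lit 2) (nat_lit 4) (nat_lit 286) (nat_lit 230) (nat_lit 144)) (XT.lf (nat_lit 0) (nat_lit 3552699422952) (nat_lit 76) (nat_lit 5445098414275) (nat_lit 76) (nat_lit 5410919336225) (nat_lit 1) (nat_lit 4) (nat_lit 2) (nat_lit 5) (nat_lit 2) (nat_lit 4) (nat_lit 287) (nat_lit 230) (nat_lit 143)))) (XT.nd (nat_lit 156) (nat_lit 0) (nat_lit 0) (XT.nd (nat_lit 78) (nat_lit 0) (nat_lit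 0) (XT.lf (nat_lit 0) (nat_lit 4141855397659) (nat_lit 76) (nat_lit 6229009549404) (nat_lit 76) (nat_lit 6194830447996) (nat_lit 1) (nat_lit 4) (nat_lit 2) (nat_lit 5) (nat_lit 2) (nat_lit 4) (nat_lit 288) (nat_lit 230) (nat_lit 142)) (XT.lf (nat_lit 0) (nat_lit 4819384696703) (nat_lit 76) (nat_lit 7130507390228) (nat_lit 76) (nat_lit 7096328268508) (nat_lit 1) (nat_lit 4) (nat_lit 2) (nat_lit 5) (nat_lit 2) (nat_lit 4) (nat_lit 289) (nat_lit 230) (nat_lit 141))) (XT.nd (nat_lit 78) (nat_lit 0) (nat_lit 0) (XT.lf (nat_lit 0) (nat_lit 5598543328107) (nat_lit 76) (nat_lit 8167229937980) (nat_lit 76) (nat_lit 8133050798598) (nat_lit 1) (nat_lit 4) (nat_lit 2) (nat_lit 5) (nat_lit 2) (nat_lit 4) (nat_lit 290) (nat_lit 230) (nat_lit 140)) (XT.nd (nat_lit 78) (nat_lit 0) (nat_lit 0) (XT.lf (nat_lit 0) (nat_lit 6494575699877) (nat_lit 76) (nat_lit 9359460894682) (nat_lit 76) (nat_lit 9325281739941)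 (nat_lit 1) (nat_lit 4) (nat_lit 2) (nat_lit 5) (nat_lit 2) (nat_lit 4) (nat_lit 291) (nat_lit 230) (nat_lit 139)) (XT.lf (nat_lit 0) (nat_lit 7525012880158) (nat_lit 76) (nat_lit 10730526518182) (nat_lit 76) (nat_lit 10696347350086) (nat_lit 1) (nat_lit 4) (nat_lit 2) (nat_lit 5) (nat_lit 2) (nat_lit 4) (nat_lit 292) (nat_lit 230) (nat_lit 138))))))))
noncomputable def xc73 : XT := (XT.nd (nat_lit 30498) (nat_lit 0) (nat_lit 152) (XT.nd (nat_lit 29796) (nat_lit 0) (nat_lit 836) (XT.nd (nat_lit 312) (nat_lit 0) (nat_lit 0) (XT.nd (nat_lit 156) (nat_lit 0) (nat_lit 0) (XT.nd (nat_lit 78) (nat_lit 0) (nat_lit 0) (XT.lf (nat_lit 0) (nat_lit 8710015596388) (nat_lit 76) (nat_lit 12307252005461) (nat_lit 76) (nat_lit 12273072825752) (nat_lit 1) (nat_lit 4) (nat_lit 2) (nat_lit 5) (nat_lit 2) (nat_lit 4) (nat_lit 293) (nat_lit 230) (nat_lit 137)) (XT.lf (nat_lit 0) (nat_lit 10072768684321)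 (nat_lit 76) (nat_lit 14120486333445) (nat_lit 76) (nat_lit 14086307143638) (nat_lit 1) (nat_lit 4) (nat_lit 2) (nat_lit 5) (nat_lit 2) (nat_lit 4) (nat_lit 294) (nat_lit 230) (nat_lit 136))) (XT.nd (nat_lit 78) (nat_lit 0) (nat_lit 0) (XT.lf (nat_lit 0) (nat_lit 11639934704373) (nat_lit 76) (nat_lit 16205705825943) (nat_lit 76) (nat_lit 16171526627354) (nat_lit 1) (nat_lit 4) (nat_lit 2) (nat_lit 5) (nat_lit 2) (nat_lit 4) (nat_lit 295) (nat_lit 230) (nat_lit 135)) (XT.lf (nat_lit 0) (nat_lit 13442175600413) (nat_lit 76) (nat_lit 18603708255633) (nat_lit 76) (nat_lit 18569529049408) (nat_lit 1) (nat_lit 4) (nat_lit 2) (nat_lit 5) (nat_lit 2) (nat_lit 4) (nat_lit 296) (nat_lit 230) (nat_lit 134)))) (XT.nd (nat_lit 29328) (nat_lit 0) (nat_lit 1292) (XT.nd (nat_lit 29250) (nat_lit 0) (nat_lit 1596) (XT.lf (nat_lit 0) (nat_lit 15514752607365) (nat_lit 76) (nat_lit 21361411061356) (nat_lit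 76) (nat_lit 21327231848492) (nat_lit 1) (nat_lit 4) (nat_lit 2) (nat_lit 5) (nat_lit 2) (nat_lit 4) (nat_lit 297) (nat_lit 230) (nat_lit 133)) (XT.lf (nat_lit 0) (nat_lit 4731472476) (nat_lit 0) (nat_lit 4731472476) (nat_lit 228) (nat_lit 112905778) (nat_lit 22) (nat_lit 5) (nat_lit 22) (nat_lit 3) (nat_lit 25) (nat_lit 3) (nat_lit 231) (nat_lit 231) (nat_lit 198))) (XT.nd (nat_lit 78) (nat_lit 304) (nat_lit 0) (XT.lf (nat_lit 0) (nat_lit 19266555982) (nat_lit 0) (nat_lit 1230796232) (nat_lit 228) (nat_lit 66536701) (nat_lit 22) (nat_lit 5) (nat_lit 22) (nat_lit 3) (nat_lit 25) (nat_lit 3) (nat_lit 232) (nat_lit 231) (nat_lit 197)) (XT.lf (nat_lit 0) (nat_lit 816170303) (nat_lit 304) (nat_lit 13349040119) (nat_lit 380) (nat_lit 7915695807) (nat_lit 18) (nat_lit 5) (nat_lit 22) (nat_lit 5) (nat_lit 23) (nat_lit 5) (nat_lit 233) (nat_lit 231) (nat_lit 196))))) (XT.nd (nat_lit 312) (nat_lit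 228) (nat_lit 0) (XT.nd (nat_lit 156) (nat_lit 228) (nat_lit 0) (XT.nd (nat_lit 78) (nat_lit 0) (nat_lit 76) (XT.lf (nat_lit 0) (nat_lit 1929019871) (nat_lit 304) (nat_lit 3489268638) (nat_lit 380) (nat_lit 18391216828) (nat_lit 18) (nat_lit 5) (nat_lit 22) (nat_lit 5) (nat_lit 23) (nat_lit 5) (nat_lit 234) (nat_lit 231) (nat_lit 195)) (XT.lf (nat_lit 0) (nat_lit 3752250605) (nat_lit 304) (nat_lit 17359432003) (nat_lit 76) (nat_lit 4604356030) (nat_lit 19) (nat_lit 5) (nat_lit 23) (nat_lit 5) (nat_lit 20) (nat_lit 5) (nat_lit 235) (nat_lit 231) (nat_lit 194))) (XT.nd (nat_lit 78) (nat_lit 304) (nat_lit 0) (XT.lf (nat_lit 0) (nat_lit 6278501464) (nat_lit 304) (nat_lit 5796366984) (nat_lit 76) (nat_lit 15769394368) (nat_lit 19) (nat_lit 5) (nat_lit 23) (nat_lit 5) (nat_lit 20) (nat_lit 5) (nat_lit 236) (nat_lit 231) (nat_lit 193)) (XT.lf (nat_lit 0) (nat_lit 8215149506) (nat_lit 304)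 (nat_lit 1291705988) (nat_lit 380) (nat_lit 20736513084) (nat_lit 15) (nat_lit 5) (nat_lit 19) (nat_lit 5) (nat_lit 20) (nat_lit 5) (nat_lit 237) (nat_lit 231) (nat_lit 192)))) (XT.nd (nat_lit 156) (nat_lit 76) (nat_lit 0) (XT.nd (nat_lit 78) (nat_lit 152) (nat_lit 0) (XT.lf (nat_lit 0) (nat_lit 13981358847) (nat_lit 380) (nat_lit 8470460398) (nat_lit 76) (nat_lit 10436343301) (nat_lit 15) (nat_lit 5) (nat_lit 20) (nat_lit 5) (nat_lit 16) (nat_lit 5) (nat_lit 238) (nat_lit 231) (nat_lit 191)) (XT.lf (nat_lit 0) (nat_lit 7731245811) (nat_lit 152) (nat_lit 11763939566) (nat_lit 228) (nat_lit 16379360925) (nat_lit 13) (nat_lit 5) (nat_lit 15) (nat_lit 5) (nat_lit 16) (nat_lit 5) (nat_lit 239) (nat_lit 231) (nat_lit 190))) (XT.nd (nat_lit 78) (nat_lit 76) (nat_lit 0) (XT.lf (nat_lit 0) (nat_lit 26309244295) (nat_lit 228) (nat_lit 11987756355) (nat_lit 76) (nat_lit 940993948) (nat_lit 13)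 (nat_lit 5) (nat_lit 16) (nat_lit 5) (nat_lit 14) (nat_lit 4) (nat_lit 240) (nat_lit 231) (nat_lit 189)) (XT.nd (nat_lit 78) (nat_lit 0) (nat_lit 0) (XT.lf (nat_lit 0) (nat_lit 6603570291) (nat_lit 76) (nat_lit 28364575956) (nat_lit 152) (nat_lit 8014473965) (nat_lit 12) (nat_lit 5) (nat_lit 13) (nat_lit 5) (nat_lit 14) (nat_lit 4) (nat_lit 241) (nat_lit 231) (nat_lit 188)) (XT.lf (nat_lit 0) (nat_lit 29316292775) (nat_lit 76) (nat_lit 16226148077) (nat_lit 152) (nat_lit 1654076262) (nat_lit 12) (nat_lit 5) (nat_lit 13) (nat_lit 5) (nat_lit 14) (nat_lit 4) (nat_lit 242) (nat_lit 231) (nat_lit 187))))))) (XT.nd (nat_lit 624) (nat_lit 228) (nat_lit 0) (XT.nd (nat_lit 312) (nat_lit 152) (nat_lit 0) (XT.nd (nat_lit 156) (nat_lit 76) (nat_lit 0) (XT.nd (nat_lit 78) (nat_lit 0) (nat_lit 0) (XT.lf (nat_lit 0) (nat_lit 3452823184) (nat_lit 152) (nat_lit 1837378947) (nat_lit 228) (nat_lit 46697122839)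 (nat_lit 9) (nat_lit 5) (nat_lit 11) (nat_lit 5) (nat_lit 12) (nat_lit 5) (nat_lit 243) (nat_lit 231) (nat_lit 186)) (XT.lf (nat_lit 0) (nat_lit 14686284284) (nat_lit 228) (nat_lit 28107739570) (nat_lit 76) (nat_lit 14454029275) (nat_lit 9) (nat_lit 5) (nat_lit 12) (nat_lit 5) (nat_lit 10) (nat_lit 4) (nat_lit 244) (nat_lit 231) (nat_lit 185))) (XT.nd (nat_lit 78) (nat_lit 76) (nat_lit 0) (XT.lf (nat_lit 0) (nat_lit 25571668838) (nat_lit 228) (nat_lit 4716747590) (nat_lit 76) (nat_lit 32997525475) (nat_lit 9) (nat_lit 5) (nat_lit 12) (nat_lit 5) (nat_lit 10) (nat_lit 4) (nat_lit 245) (nat_lit 231) (nat_lit 184)) (XT.lf (nat_lit 0) (nat_lit 24339035156) (nat_lit 76) (nat_lit 14752041152) (nat_lit 152) (nat_lit 30988285753) (nat_lit 8) (nat_lit 5) (nat_lit 9) (nat_lit 5) (nat_lit 10) (nat_lit 4) (nat_lit 246) (nat_lit 231) (nat_lit 183)))) (XT.nd (nat_lit 156) (nat_lit 76) (nat_lit 0)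 (XT.nd (nat_lit 78) (nat_lit 76) (nat_lit 0) (XT.lf (nat_lit 0) (nat_lit 55019330715) (nat_lit 152) (nat_lit 19723232733) (nat_lit 0) (nat_lit 3092117815) (nat_lit 8) (nat_lit 5) (nat_lit 10) (nat_lit 4) (nat_lit 8) (nat_lit 4) (nat_lit 247) (nat_lit 231) (nat_lit 182)) (XT.lf (nat_lit 0) (nat_lit 10411277554) (nat_lit 76) (nat_lit 64053620422) (nat_lit 76) (nat_lit 12119212115) (nat_lit 7) (nat_lit 4) (nat_lit 8) (nat_lit 5) (nat_lit 8) (nat_lit 4) (nat_lit 248) (nat_lit 231) (nat_lit 181))) (XT.nd (nat_lit 78) (nat_lit 0) (nat_lit 0) (XT.lf (nat_lit 0) (nat_lit 1239848803) (nat_lit 152) (nat_lit 49274990255) (nat_lit 76) (nat_lit 45968808186) (nat_lit 6) (nat_lit 5) (nat_lit 8) (nat_lit 5) (nat_lit 7) (nat_lit 4) (nat_lit 249) (nat_lit 231) (nat_lit 180)) (XT.lf (nat_lit 0) (nat_lit 15357266034) (nat_lit 152) (nat_lit 18927983971) (nat_lit 76) (nat_lit 73497023207) (nat_lit 6) (nat_lit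 5) (nat_lit 8) (nat_lit 5) (nat_lit 7) (nat_lit 4) (nat_lit 250) (nat_lit 231) (nat_lit 179))))) (XT.nd (nat_lit 312) (nat_lit 152) (nat_lit 0) (XT.nd (nat_lit 156) (nat_lit 0) (nat_lit 0) (XT.nd (nat_lit 78) (nat_lit 0) (nat_lit 0) (XT.lf (nat_lit 0) (nat_lit 17523857821) (nat_lit 76) (nat_lit 14789953742) (nat_lit 152) (nat_lit 88353667275) (nat_lit 5) (nat_lit 5) (nat_lit 6) (nat_lit 5) (nat_lit 7) (nat_lit 4) (nat_lit 251) (nat_lit 231) (nat_lit 178)) (XT.lf (nat_lit 0) (nat_lit 53162306625) (nat_lit 152) (nat_lit 74136811609) (nat_lit 0) (nat_lit 7984088330) (nat_lit 5) (nat_lit 5) (nat_lit 7) (nat_lit 4) (nat_lit 5) (nat_lit 4) (nat_lit 252) (nat_lit 231) (nat_lit 177))) (XT.nd (nat_lit 78) (nat_lit 0) (nat_lit 0) (XT.lf (nat_lit 0) (nat_lit 77838888370) (nat_lit 152) (nat_lit 41489733835) (nat_lit 0) (nat_lit 32657559302) (nat_lit 5) (nat_lit 5) (nat_lit 7) (nat_lit 4) (nat_lit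 5) (nat_lit 4) (nat_lit 253) (nat_lit 231) (nat_lit 176)) (XT.lf (nat_lit 0) (nat_lit 106213939041) (nat_lit 152) (nat_lit 3951220077) (nat_lit 0) (nat_lit 61029904953) (nat_lit 5) (nat_lit 5) (nat_lit 7) (nat_lit 4) (nat_lit 5) (nat_lit 4) (nat_lit 254) (nat_lit 231) (nat_lit 175)))) (XT.nd (nat_lit 156) (nat_lit 76) (nat_lit 0) (XT.nd (nat_lit 78) (nat_lit 0) (nat_lit 0) (XT.lf (nat_lit 0) (nat_lit 43045375870) (nat_lit 76) (nat_lit 97579664022) (nat_lit 76) (nat_lit 52393277742) (nat_lit 4) (nat_lit 4) (nat_lit 5) (nat_lit 5) (nat_lit 5) (nat_lit 4) (nat_lit 255) (nat_lit 231) (nat_lit 174)) (XT.lf (nat_lit 0) (nat_lit 97530854927) (nat_lit 76) (nat_lit 82871016341) (nat_lit 76) (nat_lit 37682584677) (nat_lit 4) (nat_lit 4) (nat_lit 5) (nat_lit 5) (nat_lit 5) (nat_lit 4) (nat_lit 256) (nat_lit 231) (nat_lit 173))) (XT.nd (nat_lit 78) (nat_lit 76) (nat_lit 0) (XT.lf (nat_lit 0) (nat_lit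 160185095375) (nat_lit 76) (nat_lit 65957979235) (nat_lit 76) (nat_lit 20767768977) (nat_lit 4) (nat_lit 4) (nat_lit 5) (nat_lit 5) (nat_lit 5) (nat_lit 4) (nat_lit 257) (nat_lit 231) (nat_lit 172)) (XT.nd (nat_lit 78) (nat_lit 76) (nat_lit 0) (XT.lf (nat_lit 0) (nat_lit 232233941047) (nat_lit 76) (nat_lit 46509645458) (nat_lit 76) (nat_lit 1317888596) (nat_lit 4) (nat_lit 4) (nat_lit 5) (nat_lit 5) (nat_lit 5) (nat_lit 4) (nat_lit 258) (nat_lit 231) (nat_lit 171)) (XT.lf (nat_lit 0) (nat_lit 19173794919) (nat_lit 152) (nat_lit 3969442658) (nat_lit 76) (nat_lit 294910981801) (nat_lit 3) (nat_lit 5) (nat_lit 5) (nat_lit 5) (nat_lit 4) (nat_lit 4) (nat_lit 259) (nat_lit 231) (nat_lit 170))))))))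
noncomputable def xc74 : XT := (XT.nd (nat_lit 1326) (nat_lit 0) (nat_lit 0) (XT.nd (nat_lit 624) (nat_lit 76) (nat_lit 0) (XT.nd (nat_lit 312) (nat_lit 0) (nat_lit 0) (XT.nd (nat_lit 156) (nat_lit 0) (nat_lit 0) (XT.nd (nat_lit 78) (nat_lit 0) (nat_lit 0) (XT.lf (nat_lit 0) (nat_lit 44969734166) (nat_lit 152) (nat_lit 310741548488) (nat_lit 0) (nat_lit 5670367913) (nat_lit 2) (nat_lit 5) (nat_lit 4) (nat_lit 4) (nat_lit 2) (nat_lit 4) (nat_lit 260) (nat_lit 231) (nat_lit 169)) (XT.lf (nat_lit 0) (nat_lit 75953040407) (nat_lit 152) (nat_lit 298404672553) (nat_lit 0) (nat_lit 36652789879) (nat_lit 2) (nat_lit 5) (nat_lit 4) (nat_lit 4) (nat_lit 2) (nat_lit 4) (nat_lit 261) (nat_lit 231) (nat_lit 168))) (XT.nd (nat_lit 78) (nat_lit 0) (nat_lit 0) (XT.lf (nat_lit 0) (nat_lit 111582575570) (nat_lit 152) (nat_lit 284219743779) (nat_lit 0) (nat_lit 72281556107) (nat_lit 2) (nat_lit 5) (nat_lit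 4) (nat_lit 4) (nat_lit 2) (nat_lit 4) (nat_lit 262) (nat_lit 231) (nat_lit 167)) (XT.lf (nat_lit 0) (nat_lit 152555439257) (nat_lit 152) (nat_lit 267909230950) (nat_lit 0) (nat_lit 113253751154) (nat_lit 2) (nat_lit 5) (nat_lit 4) (nat_lit 4) (nat_lit 2) (nat_lit 4) (nat_lit 263) (nat_lit 231) (nat_lit 166)))) (XT.nd (nat_lit 156) (nat_lit 0) (nat_lit 0) (XT.nd (nat_lit 78) (nat_lit 0) (nat_lit 0) (XT.lf (nat_lit 0) (nat_lit 199673274452) (nat_lit 152) (nat_lit 249154015337) (nat_lit 0) (nat_lit 160371004923) (nat_lit 2) (nat_lit 5) (nat_lit 4) (nat_lit 4) (nat_lit 2) (nat_lit 4) (nat_lit 264) (nat_lit 231) (nat_lit 165)) (XT.lf (nat_lit 0) (nat_lit 253857951845) (nat_lit 152) (nat_lit 227587147069) (nat_lit 0) (nat_lit 214555176728) (nat_lit 2) (nat_lit 5) (nat_lit 4) (nat_lit 4) (nat_lit 2) (nat_lit 4) (nat_lit 265) (nat_lit 231) (nat_lit 164))) (XT.nd (nat_lit 78) (nat_lit 0) (nat_lit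 0) (XT.lf (nat_lit 0) (nat_lit 316169606427) (nat_lit 152) (nat_lit 202786665680) (nat_lit 0) (nat_lit 276866391669) (nat_lit 2) (nat_lit 5) (nat_lit 4) (nat_lit 4) (nat_lit 2) (nat_lit 4) (nat_lit 266) (nat_lit 231) (nat_lit 163)) (XT.lf (nat_lit 0) (nat_lit 387827379267) (nat_lit 152) (nat_lit 174267344360) (nat_lit 0) (nat_lit 348523782212) (nat_lit 2) (nat_lit 5) (nat_lit 4) (nat_lit 4) (nat_lit 2) (nat_lit 4) (nat_lit 267) (nat_lit 231) (nat_lit 162))))) (XT.nd (nat_lit 312) (nat_lit 76) (nat_lit 0) (XT.nd (nat_lit 156) (nat_lit 0) (nat_lit 0) (XT.nd (nat_lit 78) (nat_lit 0) (nat_lit 0) (XT.lf (nat_lit 0) (nat_lit 470233270267) (nat_lit 152) (nat_lit 141471196389) (nat_lit 0) (nat_lit 430929340780) (nat_lit 2) (nat_lit 5) (nat_lit 4) (nat_lit 4) (nat_lit 2) (nat_lit 4) (nat_lit 268) (nat_lit 231) (nat_lit 161)) (XT.lf (nat_lit 0) (nat_lit 564999568600) (nat_lit 152) (nat_lit 103756558000)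 (nat_lit 0) (nat_lit 525695350042) (nat_lit 2) (nat_lit 5) (nat_lit 4) (nat_lit 4) (nat_lit 2) (nat_lit 4) (nat_lit 269) (nat_lit 231) (nat_lit 160))) (XT.nd (nat_lit 78) (nat_lit 0) (nat_lit 0) (XT.lf (nat_lit 0) (nat_lit 673980397494) (nat_lit 152) (nat_lit 60385534096) (nat_lit 0) (nat_lit 634675927570) (nat_lit 2) (nat_lit 5) (nat_lit 4) (nat_lit 4) (nat_lit 2) (nat_lit 4) (nat_lit 270) (nat_lit 231) (nat_lit 159)) (XT.lf (nat_lit 0) (nat_lit 799307990558) (nat_lit 152) (nat_lit 10509561165) (nat_lit 0) (nat_lit 760003302054) (nat_lit 2) (nat_lit 5) (nat_lit 4) (nat_lit 4) (nat_lit 2) (nat_lit 4) (nat_lit 271) (nat_lit 231) (nat_lit 158)))) (XT.nd (nat_lit 156) (nat_lit 0) (nat_lit 0) (XT.nd (nat_lit 78) (nat_lit 0) (nat_lit 0) (XT.lf (nat_lit 0) (nat_lit 51425443651) (nat_lit 76) (nat_lit 894138383700) (nat_lit 76) (nat_lit 854833505127) (nat_lit 1) (nat_lit 4) (nat_lit 2) (nat_lit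 5) (nat_lit 2) (nat_lit 4) (nat_lit 272) (nat_lit 231) (nat_lit 157)) (XT.lf (nat_lit 0) (nat_lit 123831245742) (nat_lit 76) (nat_lit 990475860794) (nat_lit 76) (nat_lit 951170816943) (nat_lit 1) (nat_lit 4) (nat_lit 2) (nat_lit 5) (nat_lit 2) (nat_lit 4) (nat_lit 273) (nat_lit 231) (nat_lit 156))) (XT.nd (nat_lit 78) (nat_lit 0) (nat_lit 0) (XT.lf (nat_lit 0) (nat_lit 207097409615) (nat_lit 76) (nat_lit 1101264210113) (nat_lit 76) (nat_lit 1061959022543) (nat_lit 1) (nat_lit 4) (nat_lit 2) (nat_lit 5) (nat_lit 2) (nat_lit 4) (nat_lit 274) (nat_lit 231) (nat_lit 155)) (XT.nd (nat_lit 78) (nat_lit 0) (nat_lit 0) (XT.lf (nat_lit 0) (nat_lit 302853055868) (nat_lit 76) (nat_lit 1228671029796) (nat_lit 76) (nat_lit 1189365717252) (nat_lit 1) (nat_lit 4) (nat_lit 2) (nat_lit 5) (nat_lit 2) (nat_lit 4) (nat_lit 275) (nat_lit 231) (nat_lit 154)) (XT.lf (nat_lit 0) (nat_lit 412971664535) (nat_lit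 76) (nat_lit 1375189061966) (nat_lit 76) (nat_lit 1335883640750) (nat_lit 1) (nat_lit 4) (nat_lit 2) (nat_lit 5) (nat_lit 2) (nat_lit 4) (nat_lit 276) (nat_lit 231) (nat_lit 153))))))) (XT.nd (nat_lit 624) (nat_lit 0) (nat_lit 0) (XT.nd (nat_lit 312) (nat_lit 0) (nat_lit 0) (XT.nd (nat_lit 156) (nat_lit 0) (nat_lit 0) (XT.nd (nat_lit 78) (nat_lit 0) (nat_lit 0) (XT.lf (nat_lit 0) (nat_lit 539607730134) (nat_lit 76) (nat_lit 1543684963775) (nat_lit 76) (nat_lit 1504379448061) (nat_lit 1) (nat_lit 4) (nat_lit 2) (nat_lit 5) (nat_lit 2) (nat_lit 4) (nat_lit 277) (nat_lit 231) (nat_lit 152)) (XT.lf (nat_lit 0) (nat_lit 685238914818) (nat_lit 76) (nat_lit 1737455394172) (nat_lit 76) (nat_lit 1698149796286) (nat_lit 1) (nat_lit 4) (nat_lit 2) (nat_lit 5) (nat_lit 2) (nat_lit 4) (nat_lit 278) (nat_lit 231) (nat_lit 151))) (XT.nd (nat_lit 78) (nat_lit 0) (nat_lit 0) (XT.lf (nat_lit 0) (nat_lit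 852714524375) (nat_lit 76) (nat_lit 1960291513751) (nat_lit 76) (nat_lit 1920985844411) (nat_lit 1) (nat_lit 4) (nat_lit 2) (nat_lit 5) (nat_lit 2) (nat_lit 4) (nat_lit 279) (nat_lit 231) (nat_lit 150)) (XT.lf (nat_lit 0) (nat_lit 1045311255513) (nat_lit 76) (nat_lit 2216553159635) (nat_lit 76) (nat_lit 2177247428160) (nat_lit 1) (nat_lit 4) (nat_lit 2) (nat_lit 5) (nat_lit 2) (nat_lit 4) (nat_lit 280) (nat_lit 231) (nat_lit 149)))) (XT.nd (nat_lit 156) (nat_lit 0) (nat_lit 0) (XT.nd (nat_lit 78) (nat_lit 0) (nat_lit 0) (XT.lf (nat_lit 0) (nat_lit 1266797305145) (nat_lit 76) (nat_lit 2511254146633) (nat_lit 76) (nat_lit 2471948361129) (nat_lit 1) (nat_lit 4) (nat_lit 2) (nat_lit 5) (nat_lit 2) (nat_lit 4) (nat_lit 281) (nat_lit 231) (nat_lit 148)) (XT.lf (nat_lit 0) (nat_lit 1521506095983) (nat_lit 76) (nat_lit 2850160363623) (nat_lit 76) (nat_lit 2810854531137) (nat_lit 1) (nat_lit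 4) (nat_lit 2) (nat_lit 5) (nat_lit 2) (nat_lit 4) (nat_lit 282) (nat_lit 231) (nat_lit 147))) (XT.nd (nat_lit 78) (nat_lit 0) (nat_lit 0) (XT.lf (nat_lit 0) (nat_lit 1814421060890) (nat_lit 76) (nat_lit 3239902584415) (nat_lit 76) (nat_lit 3200596711075) (nat_lit 1) (nat_lit 4) (nat_lit 2) (nat_lit 5) (nat_lit 2) (nat_lit 4) (nat_lit 283) (nat_lit 231) (nat_lit 146)) (XT.lf (nat_lit 0) (nat_lit 2151273144831) (nat_lit 76) (nat_lit 3688106200285) (nat_lit 76) (nat_lit 3648800291420) (nat_lit 1) (nat_lit 4) (nat_lit 2) (nat_lit 5) (nat_lit 2) (nat_lit 4) (nat_lit 284) (nat_lit 231) (nat_lit 145))))) (XT.nd (nat_lit 312) (nat_lit 0) (nat_lit 0) (XT.nd (nat_lit 156) (nat_lit 0) (nat_lit 0) (XT.nd (nat_lit 78) (nat_lit 0) (nat_lit 0) (XT.lf (nat_lit 0) (nat_lit 2538652932058) (nat_lit 76) (nat_lit 4203540412413) (nat_lit 76) (nat_lit 4164234472656) (nat_lit 1) (nat_lit 4) (nat_lit 2) (nat_lit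 5) (nat_lit 2) (nat_lit 4) (nat_lit 285) (nat_lit 231) (nat_lit 144)) (XT.lf (nat_lit 0) (nat_lit 2984139592321) (nat_lit 76) (nat_lit 4796289803211) (nat_lit 76) (nat_lit 4756983836592) (nat_lit 1) (nat_lit 4) (nat_lit 2) (nat_lit 5) (nat_lit 2) (nat_lit 4) (nat_lit 286) (nat_lit 231) (nat_lit 143))) (XT.nd (nat_lit 78) (nat_lit 0) (nat_lit 0) (XT.lf (nat_lit 0) (nat_lit 3496449168973) (nat_lit 76) (nat_lit 5477951643368) (nat_lit 76) (nat_lit 5438645653390) (nat_lit 1) (nat_lit 4) (nat_lit 2) (nat_lit 5) (nat_lit 2) (nat_lit 4) (nat_lit 287) (nat_lit 231) (nat_lit 142)) (XT.lf (nat_lit 0) (nat_lit 4085605110252) (nat_lit 76) (nat_lit 6261862794974) (nat_lit 76) (nat_lit 6222556784684) (nat_lit 1) (nat_lit 4) (nat_lit 2) (nat_lit 5) (nat_lit 2) (nat_lit 4) (nat_lit 288) (nat_lit 231) (nat_lit 141)))) (XT.nd (nat_lit 156) (nat_lit 0) (nat_lit 0) (XT.nd (nat_lit 78) (nat_lit 0) (nat_lit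 0) (XT.lf (nat_lit 0) (nat_lit 4763134380228) (nat_lit 76) (nat_lit 7163360650125) (nat_lit 76) (nat_lit 7124054622174) (nat_lit 1) (nat_lit 4) (nat_lit 2) (nat_lit 5) (nat_lit 2) (nat_lit 4) (nat_lit 289) (nat_lit 231) (nat_lit 140)) (XT.lf (nat_lit 0) (nat_lit 5542292986356) (nat_lit 76) (nat_lit 8200083210337) (nat_lit 76) (nat_lit 8160777167026) (nat_lit 1) (nat_lit 4) (nat_lit 2) (nat_lit 5) (nat_lit 2) (nat_lit 4) (nat_lit 290) (nat_lit 231) (nat_lit 139))) (XT.nd (nat_lit 78) (nat_lit 0) (nat_lit 0) (XT.lf (nat_lit 0) (nat_lit 6438325336147) (nat_lit 76) (nat_lit 9392314177872) (nat_lit 76) (nat_lit 9353008121207) (nat_lit 1) (nat_lit 4) (nat_lit 2) (nat_lit 5) (nat_lit 2) (nat_lit 4) (nat_lit 291) (nat_lit 231) (nat_lit 138)) (XT.nd (nat_lit 78) (nat_lit 0) (nat_lit 0) (XT.lf (nat_lit 0) (nat_lit 7468762497315) (nat_lit 76) (nat_lit 10763379810793) (nat_lit 76) (nat_lit 10724073742514)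 (nat_lit 1) (nat_lit 4) (nat_lit 2) (nat_lit 5) (nat_lit 2) (nat_lit 4) (nat_lit 292) (nat_lit 231) (nat_lit 137)) (XT.lf (nat_lit 0) (nat_lit 8653765196925) (nat_lit 76) (nat_lit 12340105306265) (nat_lit 76) (nat_lit 12300799227887) (nat_lit 1) (nat_lit 4) (nat_lit 2) (nat_lit 5) (nat_lit 2) (nat_lit 4) (nat_lit 293) (nat_lit 231) (nat_lit 136))))))))
noncomputable def xc75 : XT := (XT.nd (nat_lit 30576) (nat_lit 0) (nat_lit 76) (XT.nd (nat_lit 29874) (nat_lit 0) (nat_lit 608) (XT.nd (nat_lit 29562) (nat_lit 0) (nat_lit 1216) (XT.nd (nat_lit 156) (nat_lit 0) (nat_lit 0) (XT.nd (nat_lit 78) (nat_lit 0) (nat_lit 0) (XT.lf (nat_lit 0) (nat_lit 10016518270406) (nat_lit 76) (nat_lit 14153339641372) (nat_lit 76) (nat_lit 14114033554214) (nat_lit 1) (nat_lit 4) (nat_lit 2) (nat_lit 5) (nat_lit 2) (nat_lit 4) (nat_lit 294) (nat_lit 231) (nat_lit 135)) (XT.lf (nat_lit 0) (nat_lit 11583684277891)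 (nat_lit 76) (nat_lit 16238559140064) (nat_lit 76) (nat_lit 16199253045269) (nat_lit 1) (nat_lit 4) (nat_lit 2) (nat_lit 5) (nat_lit 2) (nat_lit 4) (nat_lit 295) (nat_lit 231) (nat_lit 134))) (XT.nd (nat_lit 78) (nat_lit 0) (nat_lit 0) (XT.lf (nat_lit 0) (nat_lit 13385925163004) (nat_lit 76) (nat_lit 18636561575140) (nat_lit 76) (nat_lit 18597255473706) (nat_lit 1) (nat_lit 4) (nat_lit 2) (nat_lit 5) (nat_lit 2) (nat_lit 4) (nat_lit 296) (nat_lit 231) (nat_lit 133)) (XT.lf (nat_lit 0) (nat_lit 15458502160454) (nat_lit 76) (nat_lit 21394264385548) (nat_lit 76) (nat_lit 21354958278339) (nat_lit 1) (nat_lit 4) (nat_lit 2) (nat_lit 5) (nat_lit 2) (nat_lit 4) (nat_lit 297) (nat_lit 231) (nat_lit 132)))) (XT.nd (nat_lit 156) (nat_lit 0) (nat_lit 76) (XT.nd (nat_lit 78) (nat_lit 0) (nat_lit 0) (XT.lf (nat_lit 0) (nat_lit 35594056) (nat_lit 380) (nat_lit 5476601552) (nat_lit 380) (nat_lit 5476601552)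 (nat_lit 17) (nat_lit 3) (nat_lit 22) (nat_lit 3) (nat_lit 22) (nat_lit 5) (nat_lit 232) (nat_lit 232) (nat_lit 196)) (XT.lf (nat_lit 0) (nat_lit 197905842) (nat_lit 380) (nat_lit 1333882764) (nat_lit 380) (nat_lit 22075006477) (nat_lit 17) (nat_lit 3) (nat_lit 22) (nat_lit 3) (nat_lit 22) (nat_lit 5) (nat_lit 233) (nat_lit 232) (nat_lit 195))) (XT.nd (nat_lit 78) (nat_lit 0) (nat_lit 0) (XT.lf (nat_lit 0) (nat_lit 1173655326) (nat_lit 304) (nat_lit 15162214449) (nat_lit 380) (nat_lit 9020164956) (nat_lit 18) (nat_lit 5) (nat_lit 22) (nat_lit 5) (nat_lit 23) (nat_lit 5) (nat_lit 234) (nat_lit 232) (nat_lit 194)) (XT.lf (nat_lit 0) (nat_lit 2422772396) (nat_lit 304) (nat_lit 3848153118) (nat_lit 380) (nat_lit 21077825246) (nat_lit 18) (nat_lit 5) (nat_lit 22) (nat_lit 5) (nat_lit 23) (nat_lit 5) (nat_lit 235) (nat_lit 232) (nat_lit 193))))) (XT.nd (nat_lit 312) (nat_lit 456) (nat_lit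 0) (XT.nd (nat_lit 156) (nat_lit 304) (nat_lit 0) (XT.nd (nat_lit 78) (nat_lit 0) (nat_lit 0) (XT.lf (nat_lit 0) (nat_lit 4498202319) (nat_lit 304) (nat_lit 19776233440) (nat_lit 76) (nat_lit 5270219432) (nat_lit 19) (nat_lit 5) (nat_lit 23) (nat_lit 5) (nat_lit 20) (nat_lit 5) (nat_lit 236) (nat_lit 232) (nat_lit 192)) (XT.lf (nat_lit 0) (nat_lit 7379506355) (nat_lit 304) (nat_lit 6503114758) (nat_lit 76) (nat_lit 18113246999) (nat_lit 19) (nat_lit 5) (nat_lit 23) (nat_lit 5) (nat_lit 20) (nat_lit 5) (nat_lit 237) (nat_lit 232) (nat_lit 191))) (XT.nd (nat_lit 78) (nat_lit 0) (nat_lit 0) (XT.lf (nat_lit 0) (nat_lit 9602733420) (nat_lit 304) (nat_lit 1475042100) (nat_lit 380) (nat_lit 23679364872) (nat_lit 15) (nat_lit 5) (nat_lit 19) (nat_lit 5) (nat_lit 20) (nat_lit 5) (nat_lit 238) (nat_lit 232) (nat_lit 190)) (XT.lf (nat_lit 0) (nat_lit 16204930641) (nat_lit 380) (nat_lit 9586582936)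 (nat_lit 76) (nat_lit 12010048835) (nat_lit 15) (nat_lit 5) (nat_lit 20) (nat_lit 5) (nat_lit 16) (nat_lit 5) (nat_lit 239) (nat_lit 232) (nat_lit 189)))) (XT.nd (nat_lit 156) (nat_lit 304) (nat_lit 0) (XT.nd (nat_lit 78) (nat_lit 0) (nat_lit 0) (XT.lf (nat_lit 0) (nat_lit 9038358907) (nat_lit 152) (nat_lit 13497094071) (nat_lit 228) (nat_lit 18702120870) (nat_lit 13) (nat_lit 5) (nat_lit 15) (nat_lit 5) (nat_lit 16) (nat_lit 5) (nat_lit 240) (nat_lit 232) (nat_lit 188)) (XT.lf (nat_lit 0) (nat_lit 30357623557) (nat_lit 228) (nat_lit 13643068584) (nat_lit 76) (nat_lit 1107045424) (nat_lit 13) (nat_lit 5) (nat_lit 16) (nat_lit 5) (nat_lit 14) (nat_lit 4) (nat_lit 241) (nat_lit 232) (nat_lit 187))) (XT.nd (nat_lit 78) (nat_lit 228) (nat_lit 0) (XT.lf (nat_lit 0) (nat_lit 7730463822) (nat_lit 76) (nat_lit 32577239889) (nat_lit 152) (nat_lit 9107587613) (nat_lit 12) (nat_lit 5) (nat_lit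 13) (nat_lit 5) (nat_lit 14) (nat_lit 4) (nat_lit 242) (nat_lit 232) (nat_lit 186)) (XT.nd (nat_lit 78) (nat_lit 228) (nat_lit 0) (XT.lf (nat_lit 0) (nat_lit 33832308854) (nat_lit 76) (nat_lit 18623529018) (nat_lit 152) (nat_lit 1807355139) (nat_lit 12) (nat_lit 5) (nat_lit 13) (nat_lit 5) (nat_lit 14) (nat_lit 4) (nat_lit 243) (nat_lit 232) (nat_lit 185)) (XT.lf (nat_lit 0) (nat_lit 4092400634) (nat_lit 152) (nat_lit 2071490911) (nat_lit 228) (nat_lit 53609132476) (nat_lit 9) (nat_lit 5) (nat_lit 11) (nat_lit 5) (nat_lit 12) (nat_lit 5) (nat_lit 244) (nat_lit 232) (nat_lit 184))))))) (XT.nd (nat_lit 624) (nat_lit 228) (nat_lit 0) (XT.nd (nat_lit 312) (nat_lit 228) (nat_lit 0) (XT.nd (nat_lit 156) (nat_lit 76) (nat_lit 0) (XT.nd (nat_lit 78) (nat_lit 0) (nat_lit 0) (XT.lf (nat_lit 0) (nat_lit 16960424586) (nat_lit 228) (nat_lit 32208826199) (nat_lit 76) (nat_lit 16655003855) (nat_lit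 9) (nat_lit 5) (nat_lit 12) (nat_lit 5) (nat_lit 10) (nat_lit 4) (nat_lit 245) (nat_lit 232) (nat_lit 183)) (XT.lf (nat_lit 0) (nat_lit 29469330172) (nat_lit 228) (nat_lit 5324195115) (nat_lit 76) (nat_lit 37975737069) (nat_lit 9) (nat_lit 5) (nat_lit 12) (nat_lit 5) (nat_lit 10) (nat_lit 4) (nat_lit 246) (nat_lit 232) (nat_lit 182))) (XT.nd (nat_lit 78) (nat_lit 0) (nat_lit 0) (XT.lf (nat_lit 0) (nat_lit 28085406652) (nat_lit 76) (nat_lit 16927121885) (nat_lit 152) (nat_lit 35569822101) (nat_lit 8) (nat_lit 5) (nat_lit 9) (nat_lit 5) (nat_lit 10) (nat_lit 4) (nat_lit 247) (nat_lit 232) (nat_lit 181)) (XT.lf (nat_lit 0) (nat_lit 63323841551) (nat_lit 152) (nat_lit 22592265621) (nat_lit 0) (nat_lit 3585819714) (nat_lit 8) (nat_lit 5) (nat_lit 10) (nat_lit 4) (nat_lit 8) (nat_lit 4) (nat_lit 248) (nat_lit 232) (nat_lit 180)))) (XT.nd (nat_lit 156) (nat_lit 76) (nat_lit 0) (XT.nd (nat_lit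 78) (nat_lit 76) (nat_lit 0) (XT.lf (nat_lit 0) (nat_lit 12058355207) (nat_lit 76) (nat_lit 73624692447) (nat_lit 76) (nat_lit 13881229849) (nat_lit 7) (nat_lit 4) (nat_lit 8) (nat_lit 5) (nat_lit 8) (nat_lit 4) (nat_lit 249) (nat_lit 232) (nat_lit 179)) (XT.lf (nat_lit 0) (nat_lit 1470078886) (nat_lit 152) (nat_lit 56587524089) (nat_lit 76) (nat_lit 52891812153) (nat_lit 6) (nat_lit 5) (nat_lit 8) (nat_lit 5) (nat_lit 7) (nat_lit 4) (nat_lit 250) (nat_lit 232) (nat_lit 178))) (XT.nd (nat_lit 78) (nat_lit 76) (nat_lit 0) (XT.lf (nat_lit 0) (nat_lit 17699336601) (nat_lit 152) (nat_lit 21698733998) (nat_lit 76) (nat_lit 84545648635) (nat_lit 6) (nat_lit 5) (nat_lit 8) (nat_lit 5) (nat_lit 7) (nat_lit 4) (nat_lit 251) (nat_lit 232) (nat_lit 177)) (XT.lf (nat_lit 0) (nat_lit 20217772810) (nat_lit 76) (nat_lit 16979277372) (nat_lit 152) (nat_lit 101565018616) (nat_lit 5) (nat_lit 5) (nat_lit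 6) (nat_lit 5) (nat_lit 7) (nat_lit 4) (nat_lit 252) (nat_lit 232) (nat_lit 176))))) (XT.nd (nat_lit 312) (nat_lit 152) (nat_lit 0) (XT.nd (nat_lit 156) (nat_lit 76) (nat_lit 0) (XT.nd (nat_lit 78) (nat_lit 0) (nat_lit 0) (XT.lf (nat_lit 0) (nat_lit 61169152382) (nat_lit 152) (nat_lit 85196759143) (nat_lit 0) (nat_lit 9204808160) (nat_lit 5) (nat_lit 5) (nat_lit 7) (nat_lit 4) (nat_lit 5) (nat_lit 4) (nat_lit 253) (nat_lit 232) (nat_lit 175)) (XT.lf (nat_lit 0) (nat_lit 89542982289) (nat_lit 152) (nat_lit 47660520686) (nat_lit 0) (nat_lit 37576285876) (nat_lit 5) (nat_lit 5) (nat_lit 7) (nat_lit 4) (nat_lit 5) (nat_lit 4) (nat_lit 254) (nat_lit 232) (nat_lit 174))) (XT.nd (nat_lit 78) (nat_lit 76) (nat_lit 0) (XT.lf (nat_lit 0) (nat_lit 122170604387) (nat_lit 152) (nat_lit 4498100285) (nat_lit 0) (nat_lit 70201862590) (nat_lit 5) (nat_lit 5) (nat_lit 7) (nat_lit 4) (nat_lit 5) (nat_lit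 4) (nat_lit 255) (nat_lit 232) (nat_lit 173)) (XT.lf (nat_lit 0) (nat_lit 49545903108) (nat_lit 76) (nat_lit 112196072276) (nat_lit 76) (nat_lit 60225551885) (nat_lit 4) (nat_lit 4) (nat_lit 5) (nat_lit 5) (nat_lit 5) (nat_lit 4) (nat_lit 256) (nat_lit 232) (nat_lit 172)))) (XT.nd (nat_lit 156) (nat_lit 152) (nat_lit 0) (XT.nd (nat_lit 78) (nat_lit 0) (nat_lit 0) (XT.lf (nat_lit 0) (nat_lit 112198501304) (nat_lit 76) (nat_lit 95283806749) (nat_lit 76) (nat_lit 43311739754) (nat_lit 4) (nat_lit 4) (nat_lit 5) (nat_lit 5) (nat_lit 5) (nat_lit 4) (nat_lit 257) (nat_lit 232) (nat_lit 171)) (XT.lf (nat_lit 0) (nat_lit 184245918931) (nat_lit 76) (nat_lit 75836143910) (nat_lit 76) (nat_lit 23862732041) (nat_lit 4) (nat_lit 4) (nat_lit 5) (nat_lit 5) (nat_lit 5) (nat_lit 4) (nat_lit 258) (nat_lit 232) (nat_lit 170))) (XT.nd (nat_lit 78) (nat_lit 152) (nat_lit 0) (XT.lf (nat_lit 0) (nat_lit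 267097779378) (nat_lit 76) (nat_lit 53472586006) (nat_lit 76) (nat_lit 1498004683) (nat_lit 4) (nat_lit 4) (nat_lit 5) (nat_lit 5) (nat_lit 5) (nat_lit 4) (nat_lit 259) (nat_lit 232) (nat_lit 169)) (XT.nd (nat_lit 78) (nat_lit 76) (nat_lit 0) (XT.lf (nat_lit 0) (nat_lit 22063780025) (nat_lit 152) (nat_lit 4538471186) (nat_lit 76) (nat_lit 339157983325) (nat_lit 3) (nat_lit 5) (nat_lit 5) (nat_lit 5) (nat_lit 4) (nat_lit 4) (nat_lit 260) (nat_lit 232) (nat_lit 168)) (XT.lf (nat_lit 0) (nat_lit 51728836788) (nat_lit 152) (nat_lit 357326093112) (nat_lit 0) (nat_lit 6531895470) (nat_lit 2) (nat_lit 5) (nat_lit 4) (nat_lit 4) (nat_lit 2) (nat_lit 4) (nat_lit 261) (nat_lit 232) (nat_lit 167))))))))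
noncomputable def xc76 : XT := (XT.nd (nat_lit 1326) (nat_lit 0) (nat_lit 0) (XT.nd (nat_lit 624) (nat_lit 76) (nat_lit 0) (XT.nd (nat_lit 312) (nat_lit 0) (nat_lit 0) (XT.nd (nat_lit 156) (nat_lit 0) (nat_lit 0) (XT.nd (nat_lit 78) (nat_lit 0) (nat_lit 0) (XT.lf (nat_lit 0) (nat_lit 87357859509) (nat_lit 152) (nat_lit 343142166785) (nat_lit 0) (nat_lit 42160249551) (nat_lit 2) (nat_lit 5) (nat_lit 4) (nat_lit 4) (nat_lit 2) (nat_lit 4) (nat_lit 262) (nat_lit 232) (nat_lit 166)) (XT.lf (nat_lit 0) (nat_lit 128330277594) (nat_lit 152) (nat_lit 326832525649) (nat_lit 0) (nat_lit 83132086210) (nat_lit 2) (nat_lit 5) (nat_lit 4) (nat_lit 4) (nat_lit 2) (nat_lit 4) (nat_lit 263) (nat_lit 232) (nat_lit 165))) (XT.nd (nat_lit 78) (nat_lit 0) (nat_lit 0) (XT.lf (nat_lit 0) (nat_lit 175447725309) (nat_lit 152) (nat_lit 308078068030) (nat_lit 0) (nat_lit 130249028338) (nat_lit 2) (nat_lit 5)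 (nat_lit 4) (nat_lit 4) (nat_lit 2) (nat_lit 4) (nat_lit 264) (nat_lit 232) (nat_lit 164)) (XT.lf (nat_lit 0) (nat_lit 229632065763) (nat_lit 152) (nat_lit 286511858887) (nat_lit 0) (nat_lit 184432929150) (nat_lit 2) (nat_lit 5) (nat_lit 4) (nat_lit 4) (nat_lit 2) (nat_lit 4) (nat_lit 265) (nat_lit 232) (nat_lit 163)))) (XT.nd (nat_lit 156) (nat_lit 0) (nat_lit 0) (XT.nd (nat_lit 78) (nat_lit 0) (nat_lit 0) (XT.lf (nat_lit 0) (nat_lit 291943427354) (nat_lit 152) (nat_lit 261711950650) (nat_lit 0) (nat_lit 246743908444) (nat_lit 2) (nat_lit 5) (nat_lit 4) (nat_lit 4) (nat_lit 2) (nat_lit 4) (nat_lit 266) (nat_lit 232) (nat_lit 162)) (XT.lf (nat_lit 0) (nat_lit 363600945419) (nat_lit 152) (nat_lit 233193127724) (nat_lit 0) (nat_lit 318401094077) (nat_lit 2) (nat_lit 5) (nat_lit 4) (nat_lit 4) (nat_lit 2) (nat_lit 4) (nat_lit 267) (nat_lit 232) (nat_lit 161))) (XT.nd (nat_lit 78) (nat_lit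 0) (nat_lit 0) (XT.lf (nat_lit 0) (nat_lit 446006614877) (nat_lit 152) (nat_lit 200397413138) (nat_lit 0) (nat_lit 400806474464) (nat_lit 2) (nat_lit 5) (nat_lit 4) (nat_lit 4) (nat_lit 2) (nat_lit 4) (nat_lit 268) (nat_lit 232) (nat_lit 160)) (XT.lf (nat_lit 0) (nat_lit 540772720564) (nat_lit 152) (nat_lit 162683151607) (nat_lit 0) (nat_lit 495572328784) (nat_lit 2) (nat_lit 5) (nat_lit 4) (nat_lit 4) (nat_lit 2) (nat_lit 4) (nat_lit 269) (nat_lit 232) (nat_lit 159))))) (XT.nd (nat_lit 312) (nat_lit 0) (nat_lit 0) (XT.nd (nat_lit 156) (nat_lit 76) (nat_lit 0) (XT.nd (nat_lit 78) (nat_lit 0) (nat_lit 0) (XT.lf (nat_lit 0) (nat_lit 649753381940) (nat_lit 152) (nat_lit 119312455405) (nat_lit 0) (nat_lit 604552771581) (nat_lit 2) (nat_lit 5) (nat_lit 4) (nat_lit 4) (nat_lit 2) (nat_lit 4) (nat_lit 270) (nat_lit 232) (nat_lit 158)) (XT.lf (nat_lit 0) (nat_lit 775080829335) (nat_lit 152)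 (nat_lit 69436767432) (nat_lit 0) (nat_lit 729880028907) (nat_lit 2) (nat_lit 5) (nat_lit 4) (nat_lit 4) (nat_lit 2) (nat_lit 4) (nat_lit 271) (nat_lit 232) (nat_lit 157))) (XT.nd (nat_lit 78) (nat_lit 76) (nat_lit 0) (XT.lf (nat_lit 0) (nat_lit 919207121504) (nat_lit 152) (nat_lit 12080259011) (nat_lit 0) (nat_lit 874006155799) (nat_lit 2) (nat_lit 5) (nat_lit 4) (nat_lit 4) (nat_lit 2) (nat_lit 4) (nat_lit 272) (nat_lit 232) (nat_lit 156)) (XT.lf (nat_lit 0) (nat_lit 59144735786) (nat_lit 76) (nat_lit 1028256442281) (nat_lit 76) (nat_lit 983055332855) (nat_lit 1) (nat_lit 4) (nat_lit 2) (nat_lit 5) (nat_lit 2) (nat_lit 4) (nat_lit 273) (nat_lit 232) (nat_lit 155)))) (XT.nd (nat_lit 156) (nat_lit 0) (nat_lit 0) (XT.nd (nat_lit 78) (nat_lit 0) (nat_lit 0) (XT.lf (nat_lit 0) (nat_lit 142410693984) (nat_lit 76) (nat_lit 1139044892979) (nat_lit 76) (nat_lit 1093843658580) (nat_lit 1) (nat_lit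 4) (nat_lit 2) (nat_lit 5) (nat_lit 2) (nat_lit 4) (nat_lit 274) (nat_lit 232) (nat_lit 154)) (XT.lf (nat_lit 0) (nat_lit 238166161388) (nat_lit 76) (nat_lit 1266451800818) (nat_lit 76) (nat_lit 1221250457746) (nat_lit 1) (nat_lit 4) (nat_lit 2) (nat_lit 5) (nat_lit 2) (nat_lit 4) (nat_lit 275) (nat_lit 232) (nat_lit 153))) (XT.nd (nat_lit 78) (nat_lit 0) (nat_lit 0) (XT.lf (nat_lit 0) (nat_lit 348284614535) (nat_lit 76) (nat_lit 1412969909646) (nat_lit 76) (nat_lit 1367768472076) (nat_lit 1) (nat_lit 4) (nat_lit 2) (nat_lit 5) (nat_lit 2) (nat_lit 4) (nat_lit 276) (nat_lit 232) (nat_lit 152)) (XT.nd (nat_lit 78) (nat_lit 0) (nat_lit 0) (XT.lf (nat_lit 0) (nat_lit 474920544900) (nat_lit 76) (nat_lit 1581465878114) (nat_lit 76) (nat_lit 1536264358372) (nat_lit 1) (nat_lit 4) (nat_lit 2) (nat_lit 5) (nat_lit 2) (nat_lit 4) (nat_lit 277) (nat_lit 232) (nat_lit 151)) (XT.lf (nat_lit 0)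 (nat_lit 620551611988) (nat_lit 76) (nat_lit 1775236366474) (nat_lit 76) (nat_lit 1730034775279) (nat_lit 1) (nat_lit 4) (nat_lit 2) (nat_lit 5) (nat_lit 2) (nat_lit 4) (nat_lit 278) (nat_lit 232) (nat_lit 150))))))) (XT.nd (nat_lit 624) (nat_lit 0) (nat_lit 0) (XT.nd (nat_lit 312) (nat_lit 0) (nat_lit 0) (XT.nd (nat_lit 156) (nat_lit 0) (nat_lit 0) (XT.nd (nat_lit 78) (nat_lit 0) (nat_lit 0) (XT.lf (nat_lit 0) (nat_lit 788027119288) (nat_lit 76) (nat_lit 1998072536457) (nat_lit 76) (nat_lit 1952870883128) (nat_lit 1) (nat_lit 4) (nat_lit 2) (nat_lit 5) (nat_lit 2) (nat_lit 4) (nat_lit 279) (nat_lit 232) (nat_lit 149)) (XT.lf (nat_lit 0) (nat_lit 980623761507) (nat_lit 76) (nat_lit 2254334226170) (nat_lit 76) (nat_lit 2209132518811) (nat_lit 1) (nat_lit 4) (nat_lit 2) (nat_lit 5) (nat_lit 2) (nat_lit 4) (nat_lit 280) (nat_lit 232) (nat_lit 148))) (XT.nd (nat_lit 78) (nat_lit 0) (nat_lit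 0) (XT.lf (nat_lit 0) (nat_lit 1202109733819) (nat_lit 76) (nat_lit 2549035251281) (nat_lit 76) (nat_lit 2503833496939) (nat_lit 1) (nat_lit 4) (nat_lit 2) (nat_lit 5) (nat_lit 2) (nat_lit 4) (nat_lit 281) (nat_lit 232) (nat_lit 147)) (XT.lf (nat_lit 0) (nat_lit 1456818457421) (nat_lit 76) (nat_lit 2887941501412) (nat_lit 76) (nat_lit 2842739706216) (nat_lit 1) (nat_lit 4) (nat_lit 2) (nat_lit 5) (nat_lit 2) (nat_lit 4) (nat_lit 282) (nat_lit 232) (nat_lit 146)))) (XT.nd (nat_lit 156) (nat_lit 0) (nat_lit 0) (XT.nd (nat_lit 78) (nat_lit 0) (nat_lit 0) (XT.lf (nat_lit 0) (nat_lit 1749733363862) (nat_lit 76) (nat_lit 3277683751022) (nat_lit 76) (nat_lit 3232481920301) (nat_lit 1) (nat_lit 4) (nat_lit 2) (nat_lit 5) (nat_lit 2) (nat_lit 4) (nat_lit 283) (nat_lit 232) (nat_lit 145)) (XT.lf (nat_lit 0) (nat_lit 2086585396963) (nat_lit 76) (nat_lit 3725887391951) (nat_lit 76) (nat_lit 3680685530339)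 (nat_lit 1) (nat_lit 4) (nat_lit 2) (nat_lit 5) (nat_lit 2) (nat_lit 4) (nat_lit 284) (nat_lit 232) (nat_lit 144))) (XT.nd (nat_lit 78) (nat_lit 0) (nat_lit 0) (XT.lf (nat_lit 0) (nat_lit 2473965139982) (nat_lit 76) (nat_lit 4241321625870) (nat_lit 76) (nat_lit 4196119737396) (nat_lit 1) (nat_lit 4) (nat_lit 2) (nat_lit 5) (nat_lit 2) (nat_lit 4) (nat_lit 285) (nat_lit 232) (nat_lit 143)) (XT.lf (nat_lit 0) (nat_lit 2919451761803) (nat_lit 76) (nat_lit 4834071035617) (nat_lit 76) (nat_lit 4788869123784) (nat_lit 1) (nat_lit 4) (nat_lit 2) (nat_lit 5) (nat_lit 2) (nat_lit 4) (nat_lit 286) (nat_lit 232) (nat_lit 142))))) (XT.nd (nat_lit 312) (nat_lit 0) (nat_lit 0) (XT.nd (nat_lit 156) (nat_lit 0) (nat_lit 0) (XT.nd (nat_lit 78) (nat_lit 0) (nat_lit 0) (XT.lf (nat_lit 0) (nat_lit 3431761305027) (nat_lit 76) (nat_lit 5515732892250) (nat_lit 76) (nat_lit 5470530960106) (nat_lit 1) (nat_lit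 4) (nat_lit 2) (nat_lit 5) (nat_lit 2) (nat_lit 4) (nat_lit 287) (nat_lit 232) (nat_lit 141)) (XT.lf (nat_lit 0) (nat_lit 4020917217238) (nat_lit 76) (nat_lit 6299644058184) (nat_lit 76) (nat_lit 6254442108377) (nat_lit 1) (nat_lit 4) (nat_lit 2) (nat_lit 5) (nat_lit 2) (nat_lit 4) (nat_lit 288) (nat_lit 232) (nat_lit 140))) (XT.nd (nat_lit 78) (nat_lit 0) (nat_lit 0) (XT.lf (nat_lit 0) (nat_lit 4698446461937) (nat_lit 76) (nat_lit 7201141925795) (nat_lit 76) (nat_lit 7155939960629) (nat_lit 1) (nat_lit 4) (nat_lit 2) (nat_lit 5) (nat_lit 2) (nat_lit 4) (nat_lit 289) (nat_lit 232) (nat_lit 139)) (XT.lf (nat_lit 0) (nat_lit 5477605046086) (nat_lit 76) (nat_lit 8237864496840) (nat_lit 76) (nat_lit 8192662518319) (nat_lit 1) (nat_lit 4) (nat_lit 2) (nat_lit 5) (nat_lit 2) (nat_lit 4) (nat_lit 290) (nat_lit 232) (nat_lit 138)))) (XT.nd (nat_lit 156) (nat_lit 0) (nat_lit 0) (XT.nd (nat_lit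 78) (nat_lit 0) (nat_lit 0) (XT.lf (nat_lit 0) (nat_lit 6373637376764) (nat_lit 76) (nat_lit 9430095473796) (nat_lit 76) (nat_lit 9384893483662) (nat_lit 1) (nat_lit 4) (nat_lit 2) (nat_lit 5) (nat_lit 2) (nat_lit 4) (nat_lit 291) (nat_lit 232) (nat_lit 137)) (XT.lf (nat_lit 0) (nat_lit 7404074521313) (nat_lit 76) (nat_lit 10801161114909) (nat_lit 76) (nat_lit 10755959114677) (nat_lit 1) (nat_lit 4) (nat_lit 2) (nat_lit 5) (nat_lit 2) (nat_lit 4) (nat_lit 292) (nat_lit 232) (nat_lit 136))) (XT.nd (nat_lit 78) (nat_lit 0) (nat_lit 0) (XT.lf (nat_lit 0) (nat_lit 8589077206472) (nat_lit 76) (nat_lit 12377886617504) (nat_lit 76) (nat_lit 12332684608490) (nat_lit 1) (nat_lit 4) (nat_lit 2) (nat_lit 5) (nat_lit 2) (nat_lit 4) (nat_lit 293) (nat_lit 232) (nat_lit 135)) (XT.nd (nat_lit 78) (nat_lit 0) (nat_lit 0) (XT.lf (nat_lit 0) (nat_lit 9951830267386) (nat_lit 76) (nat_lit 14191120958806)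 (nat_lit 76) (nat_lit 14145918942156) (nat_lit 1) (nat_lit 4) (nat_lit 2) (nat_lit 5) (nat_lit 2) (nat_lit 4) (nat_lit 294) (nat_lit 232) (nat_lit 134)) (XT.lf (nat_lit 0) (nat_lit 11518996263943) (nat_lit 76) (nat_lit 16276340462884) (nat_lit 76) (nat_lit 16231138439595) (nat_lit 1) (nat_lit 4) (nat_lit 2) (nat_lit 5) (nat_lit 2) (nat_lit 4) (nat_lit 295) (nat_lit 232) (nat_lit 133))))))))
noncomputable def xc77 : XT := (XT.nd (nat_lit 30654) (nat_lit 0) (nat_lit 76) (XT.nd (nat_lit 29952) (nat_lit 0) (nat_lit 608) (XT.nd (nat_lit 29640) (nat_lit 0) (nat_lit 1292) (XT.nd (nat_lit 29484) (nat_lit 0) (nat_lit 1216) (XT.nd (nat_lit 78) (nat_lit 0) (nat_lit 0) (XT.lf (nat_lit 0) (nat_lit 13321237139553) (nat_lit 76) (nat_lit 18674342902644) (nat_lit 76) (nat_lit 18629140873581) (nat_lit 1) (nat_lit 4) (nat_lit 2) (nat_lit 5) (nat_lit 2) (nat_lit 4) (nat_lit 296) (nat_lit 232) (nat_lit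 132)) (XT.lf (nat_lit 0) (nat_lit 15393814128740) (nat_lit 76) (nat_lit 21432045717124) (nat_lit 76) (nat_lit 21386843683040) (nat_lit 1) (nat_lit 4) (nat_lit 2) (nat_lit 5) (nat_lit 2) (nat_lit 4) (nat_lit 297) (nat_lit 232) (nat_lit 131))) (XT.nd (nat_lit 78) (nat_lit 0) (nat_lit 0) (XT.lf (nat_lit 0) (nat_lit 157285755) (nat_lit 380) (nat_lit 6230751917) (nat_lit 380) (nat_lit 6230751917) (nat_lit 17) (nat_lit 3) (nat_lit 22) (nat_lit 3) (nat_lit 22) (nat_lit 5) (nat_lit 233) (nat_lit 233) (nat_lit 194)) (XT.lf (nat_lit 0) (nat_lit 429944049) (nat_lit 380) (nat_lit 1416852365) (nat_lit 380) (nat_lit 25269144635) (nat_lit 17) (nat_lit 3) (nat_lit 22) (nat_lit 3) (nat_lit 22) (nat_lit 5) (nat_lit 234) (nat_lit 233) (nat_lit 193)))) (XT.nd (nat_lit 156) (nat_lit 0) (nat_lit 76) (XT.nd (nat_lit 78) (nat_lit 0) (nat_lit 0) (XT.lf (nat_lit 0) (nat_lit 1527442359) (nat_lit 304) (nat_lit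 17293498081) (nat_lit 380) (nat_lit 10310516564) (nat_lit 18) (nat_lit 5) (nat_lit 22) (nat_lit 5) (nat_lit 23) (nat_lit 5) (nat_lit 235) (nat_lit 233) (nat_lit 192)) (XT.lf (nat_lit 0) (nat_lit 2940743678) (nat_lit 304) (nat_lit 4300986055) (nat_lit 380) (nat_lit 24185000654) (nat_lit 18) (nat_lit 5) (nat_lit 22) (nat_lit 5) (nat_lit 23) (nat_lit 5) (nat_lit 236) (nat_lit 233) (nat_lit 191))) (XT.nd (nat_lit 78) (nat_lit 0) (nat_lit 0) (XT.lf (nat_lit 0) (nat_lit 5311393251) (nat_lit 304) (nat_lit 22601183871) (nat_lit 76) (nat_lit 6042007542) (nat_lit 19) (nat_lit 5) (nat_lit 23) (nat_lit 5) (nat_lit 20) (nat_lit 5) (nat_lit 237) (nat_lit 233) (nat_lit 190)) (XT.lf (nat_lit 0) (nat_lit 8606832817) (nat_lit 304) (nat_lit 7355551898) (nat_lit 76) (nat_lit 20813934220) (nat_lit 19) (nat_lit 5) (nat_lit 23) (nat_lit 5) (nat_lit 20) (nat_lit 5) (nat_lit 238) (nat_lit 233) (nat_lit 189)))))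 (XT.nd (nat_lit 312) (nat_lit 304) (nat_lit 0) (XT.nd (nat_lit 156) (nat_lit 152) (nat_lit 0) (XT.nd (nat_lit 78) (nat_lit 0) (nat_lit 0) (XT.lf (nat_lit 0) (nat_lit 11160581231) (nat_lit 304) (nat_lit 1688419560) (nat_lit 380) (nat_lit 27104520889) (nat_lit 15) (nat_lit 5) (nat_lit 19) (nat_lit 5) (nat_lit 20) (nat_lit 5) (nat_lit 239) (nat_lit 233) (nat_lit 188)) (XT.lf (nat_lit 0) (nat_lit 18731222576) (nat_lit 380) (nat_lit 10907786618) (nat_lit 76) (nat_lit 13817797399) (nat_lit 15) (nat_lit 5) (nat_lit 20) (nat_lit 5) (nat_lit 16) (nat_lit 5) (nat_lit 240) (nat_lit 233) (nat_lit 187))) (XT.nd (nat_lit 78) (nat_lit 0) (nat_lit 0) (XT.lf (nat_lit 0) (nat_lit 10505588149) (nat_lit 152) (nat_lit 15497887725) (nat_lit 228) (nat_lit 21406006718) (nat_lit 13) (nat_lit 5) (nat_lit 15) (nat_lit 5) (nat_lit 16) (nat_lit 5) (nat_lit 241) (nat_lit 233) (nat_lit 186)) (XT.lf (nat_lit 0) (nat_lit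 34988388162) (nat_lit 228) (nat_lit 15581512823) (nat_lit 76) (nat_lit 1291932017) (nat_lit 13) (nat_lit 5) (nat_lit 16) (nat_lit 5) (nat_lit 14) (nat_lit 4) (nat_lit 242) (nat_lit 233) (nat_lit 185)))) (XT.nd (nat_lit 156) (nat_lit 228) (nat_lit 0) (XT.nd (nat_lit 78) (nat_lit 0) (nat_lit 0) (XT.lf (nat_lit 0) (nat_lit 8993139623) (nat_lit 76) (nat_lit 37432050855) (nat_lit 152) (nat_lit 10391262658) (nat_lit 12) (nat_lit 5) (nat_lit 13) (nat_lit 5) (nat_lit 14) (nat_lit 4) (nat_lit 243) (nat_lit 233) (nat_lit 184)) (XT.lf (nat_lit 0) (nat_lit 38996812772) (nat_lit 76) (nat_lit 21389427921) (nat_lit 152) (nat_lit 2006751369) (nat_lit 12) (nat_lit 5) (nat_lit 13) (nat_lit 5) (nat_lit 14) (nat_lit 4) (nat_lit 244) (nat_lit 233) (nat_lit 183))) (XT.nd (nat_lit 78) (nat_lit 0) (nat_lit 0) (XT.lf (nat_lit 0) (nat_lit 4798248609) (nat_lit 152) (nat_lit 2350838459) (nat_lit 228) (nat_lit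 61580514606) (nat_lit 9) (nat_lit 5) (nat_lit 11) (nat_lit 5) (nat_lit 12) (nat_lit 5) (nat_lit 245) (nat_lit 233) (nat_lit 182)) (XT.nd (nat_lit 78) (nat_lit 0) (nat_lit 0) (XT.lf (nat_lit 0) (nat_lit 19558323933) (nat_lit 228) (nat_lit 36953137421) (nat_lit 76) (nat_lit 19178109018) (nat_lit 9) (nat_lit 5) (nat_lit 12) (nat_lit 5) (nat_lit 10) (nat_lit 4) (nat_lit 246) (nat_lit 233) (nat_lit 181)) (XT.lf (nat_lit 0) (nat_lit 33936543315) (nat_lit 228) (nat_lit 6047161157) (nat_lit 76) (nat_lit 43693710312) (nat_lit 9) (nat_lit 5) (nat_lit 12) (nat_lit 5) (nat_lit 10) (nat_lit 4) (nat_lit 247) (nat_lit 233) (nat_lit 180))))))) (XT.nd (nat_lit 624) (nat_lit 228) (nat_lit 0) (XT.nd (nat_lit 312) (nat_lit 76) (nat_lit 0) (XT.nd (nat_lit 156) (nat_lit 152) (nat_lit 0) (XT.nd (nat_lit 78) (nat_lit 0) (nat_lit 0) (XT.lf (nat_lit 0) (nat_lit 32370441637) (nat_lit 76) (nat_lit 19437664315)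 (nat_lit 152) (nat_lit 40854855708) (nat_lit 8) (nat_lit 5) (nat_lit 9) (nat_lit 5) (nat_lit 10) (nat_lit 4) (nat_lit 248) (nat_lit 233) (nat_lit 179)) (XT.lf (nat_lit 0) (nat_lit 72861443287) (nat_lit 152) (nat_lit 25913466884) (nat_lit 0) (nat_lit 4146289440) (nat_lit 8) (nat_lit 5) (nat_lit 10) (nat_lit 4) (nat_lit 8) (nat_lit 4) (nat_lit 249) (nat_lit 233) (nat_lit 178))) (XT.nd (nat_lit 78) (nat_lit 76) (nat_lit 0) (XT.lf (nat_lit 0) (nat_lit 13931672587) (nat_lit 76) (nat_lit 84640440898) (nat_lit 76) (nat_lit 15921173053) (nat_lit 7) (nat_lit 4) (nat_lit 8) (nat_lit 5) (nat_lit 8) (nat_lit 4) (nat_lit 250) (nat_lit 233) (nat_lit 177)) (XT.lf (nat_lit 0) (nat_lit 1724052164) (nat_lit 152) (nat_lit 65016133078) (nat_lit 76) (nat_lit 60846516103) (nat_lit 6) (nat_lit 5) (nat_lit 8) (nat_lit 5) (nat_lit 7) (nat_lit 4) (nat_lit 251) (nat_lit 233) (nat_lit 176)))) (XT.nd (nat_lit 156)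 (nat_lit 0) (nat_lit 0) (XT.nd (nat_lit 78) (nat_lit 76) (nat_lit 0) (XT.lf (nat_lit 0) (nat_lit 20383334001) (nat_lit 152) (nat_lit 24901787902) (nat_lit 76) (nat_lit 97245697780) (nat_lit 6) (nat_lit 5) (nat_lit 8) (nat_lit 5) (nat_lit 7) (nat_lit 4) (nat_lit 252) (nat_lit 233) (nat_lit 175)) (XT.lf (nat_lit 0) (nat_lit 23299842372) (nat_lit 76) (nat_lit 19504112696) (nat_lit 152) (nat_lit 116768241162) (nat_lit 5) (nat_lit 5) (nat_lit 6) (nat_lit 5) (nat_lit 7) (nat_lit 4) (nat_lit 253) (nat_lit 233) (nat_lit 174))) (XT.nd (nat_lit 78) (nat_lit 0) (nat_lit 0) (XT.lf (nat_lit 0) (nat_lit 70369099729) (nat_lit 152) (nat_lit 97930470211) (nat_lit 0) (nat_lit 10603001279) (nat_lit 5) (nat_lit 5) (nat_lit 7) (nat_lit 4) (nat_lit 5) (nat_lit 4) (nat_lit 254) (nat_lit 233) (nat_lit 173)) (XT.lf (nat_lit 0) (nat_lit 102995798755) (nat_lit 152) (nat_lit 54769770264) (nat_lit 0) (nat_lit 43227921710)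 (nat_lit 5) (nat_lit 5) (nat_lit 7) (nat_lit 4) (nat_lit 5) (nat_lit 4) (nat_lit 255) (nat_lit 233) (nat_lit 172))))) (XT.nd (nat_lit 312) (nat_lit 152) (nat_lit 0) (XT.nd (nat_lit 156) (nat_lit 0) (nat_lit 0) (XT.nd (nat_lit 78) (nat_lit 76) (nat_lit 0) (XT.lf (nat_lit 0) (nat_lit 140514776890) (nat_lit 152) (nat_lit 5138181828) (nat_lit 0) (nat_lit 80745353241) (nat_lit 5) (nat_lit 5) (nat_lit 7) (nat_lit 4) (nat_lit 5) (nat_lit 4) (nat_lit 256) (nat_lit 233) (nat_lit 171)) (XT.lf (nat_lit 0) (nat_lit 57010847824) (nat_lit 76) (nat_lit 129009950907) (nat_lit 76) (nat_lit 69239182385) (nat_lit 4) (nat_lit 4) (nat_lit 5) (nat_lit 5) (nat_lit 5) (nat_lit 4) (nat_lit 257) (nat_lit 233) (nat_lit 170))) (XT.nd (nat_lit 78) (nat_lit 0) (nat_lit 0) (XT.lf (nat_lit 0) (nat_lit 129057023673) (nat_lit 76) (nat_lit 109562871492) (nat_lit 76) (nat_lit 49790933515) (nat_lit 4) (nat_lit 4) (nat_lit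 5) (nat_lit 5) (nat_lit 5) (nat_lit 4) (nat_lit 258) (nat_lit 233) (nat_lit 169)) (XT.lf (nat_lit 0) (nat_lit 211907804313) (nat_lit 76) (nat_lit 87199820914) (nat_lit 76) (nat_lit 27426866020) (nat_lit 4) (nat_lit 4) (nat_lit 5) (nat_lit 5) (nat_lit 5) (nat_lit 4) (nat_lit 259) (nat_lit 233) (nat_lit 168)))) (XT.nd (nat_lit 156) (nat_lit 76) (nat_lit 0) (XT.nd (nat_lit 78) (nat_lit 76) (nat_lit 0) (XT.lf (nat_lit 0) (nat_lit 307184183278) (nat_lit 76) (nat_lit 61483261227) (nat_lit 76) (nat_lit 1709422057) (nat_lit 4) (nat_lit 4) (nat_lit 5) (nat_lit 5) (nat_lit 5) (nat_lit 4) (nat_lit 260) (nat_lit 233) (nat_lit 167)) (XT.lf (nat_lit 0) (nat_lit 25383869424) (nat_lit 152) (nat_lit 5199288842) (nat_lit 76) (nat_lit 390039510128) (nat_lit 3) (nat_lit 5) (nat_lit 5) (nat_lit 5) (nat_lit 4) (nat_lit 4) (nat_lit 261) (nat_lit 233) (nat_lit 166))) (XT.nd (nat_lit 78) (nat_lit 0) (nat_lit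 0) (XT.lf (nat_lit 0) (nat_lit 59498477995) (nat_lit 152) (nat_lit 410904827382) (nat_lit 0) (nat_lit 7519976478) (nat_lit 2) (nat_lit 5) (nat_lit 4) (nat_lit 4) (nat_lit 2) (nat_lit 4) (nat_lit 262) (nat_lit 233) (nat_lit 165)) (XT.nd (nat_lit 78) (nat_lit 0) (nat_lit 0) (XT.lf (nat_lit 0) (nat_lit 100470508600) (nat_lit 152) (nat_lit 394595944240) (nat_lit 0) (nat_lit 48491501495) (nat_lit 2) (nat_lit 5) (nat_lit 4) (nat_lit 4) (nat_lit 2) (nat_lit 4) (nat_lit 263) (nat_lit 233) (nat_lit 164)) (XT.lf (nat_lit 0) (nat_lit 147587619376) (nat_lit 152) (nat_lit 375842145746) (nat_lit 0) (nat_lit 95608172629) (nat_lit 2) (nat_lit 5) (nat_lit 4) (nat_lit 4) (nat_lit 2) (nat_lit 4) (nat_lit 264) (nat_lit 233) (nat_lit 163))))))))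
noncomputable def xc78 : XT := (XT.nd (nat_lit 1326) (nat_lit 0) (nat_lit 0) (XT.nd (nat_lit 624) (nat_lit 76) (nat_lit 0) (XT.nd (nat_lit 312) (nat_lit 0) (nat_lit 0) (XT.nd (nat_lit 156) (nat_lit 0) (nat_lit 0) (XT.nd (nat_lit 78) (nat_lit 0) (nat_lit 0) (XT.lf (nat_lit 0) (nat_lit 201771666838) (nat_lit 152) (nat_lit 354276509756) (nat_lit 0) (nat_lit 149791837795) (nat_lit 2) (nat_lit 5) (nat_lit 4) (nat_lit 4) (nat_lit 2) (nat_lit 4) (nat_lit 265) (nat_lit 233) (nat_lit 162)) (XT.lf (nat_lit 0) (nat_lit 264082773656) (nat_lit 152) (nat_lit 329477099913) (nat_lit 0) (nat_lit 212102612180) (nat_lit 2) (nat_lit 5) (nat_lit 4) (nat_lit 4) (nat_lit 2) (nat_lit 4) (nat_lit 266) (nat_lit 233) (nat_lit 161))) (XT.nd (nat_lit 78) (nat_lit 0) (nat_lit 0) (XT.lf (nat_lit 0) (nat_lit 335740070178) (nat_lit 152) (nat_lit 300958710372) (nat_lit 0) (nat_lit 283759619631) (nat_lit 2) (nat_lit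 5) (nat_lit 4) (nat_lit 4) (nat_lit 2) (nat_lit 4) (nat_lit 267) (nat_lit 233) (nat_lit 160)) (XT.lf (nat_lit 0) (nat_lit 418145546989) (nat_lit 152) (nat_lit 268163372643) (nat_lit 0) (nat_lit 366164845076) (nat_lit 2) (nat_lit 5) (nat_lit 4) (nat_lit 4) (nat_lit 2) (nat_lit 4) (nat_lit 268) (nat_lit 233) (nat_lit 159)))) (XT.nd (nat_lit 156) (nat_lit 0) (nat_lit 0) (XT.nd (nat_lit 78) (nat_lit 0) (nat_lit 0) (XT.lf (nat_lit 0) (nat_lit 512911485158) (nat_lit 152) (nat_lit 230449438814) (nat_lit 0) (nat_lit 460930564665) (nat_lit 2) (nat_lit 5) (nat_lit 4) (nat_lit 4) (nat_lit 2) (nat_lit 4) (nat_lit 269) (nat_lit 233) (nat_lit 158)) (XT.lf (nat_lit 0) (nat_lit 621892000866) (nat_lit 152) (nat_lit 187079027569) (nat_lit 0) (nat_lit 569910890304) (nat_lit 2) (nat_lit 5) (nat_lit 4) (nat_lit 4) (nat_lit 2) (nat_lit 4) (nat_lit 270) (nat_lit 233) (nat_lit 157))) (XT.nd (nat_lit 78) (nat_lit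 0) (nat_lit 0) (XT.lf (nat_lit 0) (nat_lit 747219321593) (nat_lit 152) (nat_lit 137203587386) (nat_lit 0) (nat_lit 695238045754) (nat_lit 2) (nat_lit 5) (nat_lit 4) (nat_lit 4) (nat_lit 2) (nat_lit 4) (nat_lit 271) (nat_lit 233) (nat_lit 156)) (XT.lf (nat_lit 0) (nat_lit 891345503616) (nat_lit 152) (nat_lit 79847294434) (nat_lit 0) (nat_lit 839364084057) (nat_lit 2) (nat_lit 5) (nat_lit 4) (nat_lit 4) (nat_lit 2) (nat_lit 4) (nat_lit 272) (nat_lit 233) (nat_lit 155))))) (XT.nd (nat_lit 312) (nat_lit 0) (nat_lit 0) (XT.nd (nat_lit 156) (nat_lit 0) (nat_lit 0) (XT.nd (nat_lit 78) (nat_lit 76) (nat_lit 0) (XT.lf (nat_lit 0) (nat_lit 1057090407017) (nat_lit 152) (nat_lit 13887960373) (nat_lit 0) (nat_lit 1005108862485) (nat_lit 2) (nat_lit 5) (nat_lit 4) (nat_lit 4) (nat_lit 2) (nat_lit 4) (nat_lit 273) (nat_lit 233) (nat_lit 154)) (XT.lf (nat_lit 0) (nat_lit 68020586484) (nat_lit 76) (nat_lit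 1182492867811) (nat_lit 76) (nat_lit 1130511214606) (nat_lit 1) (nat_lit 4) (nat_lit 2) (nat_lit 5) (nat_lit 2) (nat_lit 4) (nat_lit 274) (nat_lit 233) (nat_lit 153))) (XT.nd (nat_lit 78) (nat_lit 0) (nat_lit 0) (XT.lf (nat_lit 0) (nat_lit 163775898369) (nat_lit 76) (nat_lit 1309899852307) (nat_lit 76) (nat_lit 1257918104604) (nat_lit 1) (nat_lit 4) (nat_lit 2) (nat_lit 5) (nat_lit 2) (nat_lit 4) (nat_lit 275) (nat_lit 233) (nat_lit 152)) (XT.lf (nat_lit 0) (nat_lit 273894216281) (nat_lit 76) (nat_lit 1456418027793) (nat_lit 76) (nat_lit 1404436197918) (nat_lit 1) (nat_lit 4) (nat_lit 2) (nat_lit 5) (nat_lit 2) (nat_lit 4) (nat_lit 276) (nat_lit 233) (nat_lit 151)))) (XT.nd (nat_lit 156) (nat_lit 0) (nat_lit 0) (XT.nd (nat_lit 78) (nat_lit 0) (nat_lit 0) (XT.lf (nat_lit 0) (nat_lit 400530029050) (nat_lit 76) (nat_lit 1624914054225) (nat_lit 76) (nat_lit 1572932152896) (nat_lit 1) (nat_lit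 4) (nat_lit 2) (nat_lit 5) (nat_lit 2) (nat_lit 4) (nat_lit 277) (nat_lit 233) (nat_lit 150)) (XT.lf (nat_lit 0) (nat_lit 546160993882) (nat_lit 76) (nat_lit 1818684592990) (nat_lit 76) (nat_lit 1766702629527) (nat_lit 1) (nat_lit 4) (nat_lit 2) (nat_lit 5) (nat_lit 2) (nat_lit 4) (nat_lit 278) (nat_lit 233) (nat_lit 149))) (XT.nd (nat_lit 78) (nat_lit 0) (nat_lit 0) (XT.lf (nat_lit 0) (nat_lit 713636412263) (nat_lit 76) (nat_lit 2041520806801) (nat_lit 76) (nat_lit 1989538789309) (nat_lit 1) (nat_lit 4) (nat_lit 2) (nat_lit 5) (nat_lit 2) (nat_lit 4) (nat_lit 279) (nat_lit 233) (nat_lit 148)) (XT.nd (nat_lit 78) (nat_lit 0) (nat_lit 0) (XT.lf (nat_lit 0) (nat_lit 906232977161) (nat_lit 76) (nat_lit 2297782534626) (nat_lit 76) (nat_lit 2245800470152) (nat_lit 1) (nat_lit 4) (nat_lit 2) (nat_lit 5) (nat_lit 2) (nat_lit 4) (nat_lit 280) (nat_lit 233) (nat_lit 147)) (XT.lf (nat_lit 0)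 (nat_lit 1127718882237) (nat_lit 76) (nat_lit 2592483592878) (nat_lit 76) (nat_lit 2540501487550) (nat_lit 1) (nat_lit 4) (nat_lit 2) (nat_lit 5) (nat_lit 2) (nat_lit 4) (nat_lit 281) (nat_lit 233) (nat_lit 146))))))) (XT.nd (nat_lit 624) (nat_lit 0) (nat_lit 0) (XT.nd (nat_lit 312) (nat_lit 0) (nat_lit 0) (XT.nd (nat_lit 156) (nat_lit 0) (nat_lit 0) (XT.nd (nat_lit 78) (nat_lit 0) (nat_lit 0) (XT.lf (nat_lit 0) (nat_lit 1382427547373) (nat_lit 76) (nat_lit 2931389871828) (nat_lit 76) (nat_lit 2879407730974) (nat_lit 1) (nat_lit 4) (nat_lit 2) (nat_lit 5) (nat_lit 2) (nat_lit 4) (nat_lit 282) (nat_lit 233) (nat_lit 145)) (XT.lf (nat_lit 0) (nat_lit 1675342402974) (nat_lit 76) (nat_lit 3321132146497) (nat_lit 76) (nat_lit 3269149974752) (nat_lit 1) (nat_lit 4) (nat_lit 2) (nat_lit 5) (nat_lit 2) (nat_lit 4) (nat_lit 283) (nat_lit 233) (nat_lit 144))) (XT.nd (nat_lit 78) (nat_lit 0) (nat_lit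 0) (XT.lf (nat_lit 0) (nat_lit 2012194391867) (nat_lit 76) (nat_lit 3769335809217) (nat_lit 76) (nat_lit 3717353610610) (nat_lit 1) (nat_lit 4) (nat_lit 2) (nat_lit 5) (nat_lit 2) (nat_lit 4) (nat_lit 284) (nat_lit 233) (nat_lit 143)) (XT.lf (nat_lit 0) (nat_lit 2399574096444) (nat_lit 76) (nat_lit 4284770062085) (nat_lit 76) (nat_lit 4232787840119) (nat_lit 1) (nat_lit 4) (nat_lit 2) (nat_lit 5) (nat_lit 2) (nat_lit 4) (nat_lit 285) (nat_lit 233) (nat_lit 142)))) (XT.nd (nat_lit 156) (nat_lit 0) (nat_lit 0) (XT.nd (nat_lit 78) (nat_lit 0) (nat_lit 0) (XT.lf (nat_lit 0) (nat_lit 2845060684837) (nat_lit 76) (nat_lit 4877519488308) (nat_lit 76) (nat_lit 4825537246031) (nat_lit 1) (nat_lit 4) (nat_lit 2) (nat_lit 5) (nat_lit 2) (nat_lit 4) (nat_lit 286) (nat_lit 233) (nat_lit 141)) (XT.lf (nat_lit 0) (nat_lit 3357370198993) (nat_lit 76) (nat_lit 5559181359270) (nat_lit 76) (nat_lit 5507199099330)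 (nat_lit 1) (nat_lit 4) (nat_lit 2) (nat_lit 5) (nat_lit 2) (nat_lit 4) (nat_lit 287) (nat_lit 233) (nat_lit 140))) (XT.nd (nat_lit 78) (nat_lit 0) (nat_lit 0) (XT.lf (nat_lit 0) (nat_lit 3946526085928) (nat_lit 76) (nat_lit 6343092537663) (nat_lit 76) (nat_lit 6291110262364) (nat_lit 1) (nat_lit 4) (nat_lit 2) (nat_lit 5) (nat_lit 2) (nat_lit 4) (nat_lit 288) (nat_lit 233) (nat_lit 139)) (XT.lf (nat_lit 0) (nat_lit 4624055308648) (nat_lit 76) (nat_lit 7244590416107) (nat_lit 76) (nat_lit 7192608127453) (nat_lit 1) (nat_lit 4) (nat_lit 2) (nat_lit 5) (nat_lit 2) (nat_lit 4) (nat_lit 289) (nat_lit 233) (nat_lit 138))))) (XT.nd (nat_lit 312) (nat_lit 0) (nat_lit 0) (XT.nd (nat_lit 156) (nat_lit 0) (nat_lit 0) (XT.nd (nat_lit 78) (nat_lit 0) (nat_lit 0) (XT.lf (nat_lit 0) (nat_lit 5403213873684) (nat_lit 76) (nat_lit 8281312996573) (nat_lit 76) (nat_lit 8229330696306) (nat_lit 1) (nat_lit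 4) (nat_lit 2) (nat_lit 5) (nat_lit 2) (nat_lit 4) (nat_lit 290) (nat_lit 233) (nat_lit 137)) (XT.lf (nat_lit 0) (nat_lit 6299246187743) (nat_lit 76) (nat_lit 9473543981721) (nat_lit 76) (nat_lit 9421561671356) (nat_lit 1) (nat_lit 4) (nat_lit 2) (nat_lit 5) (nat_lit 2) (nat_lit 4) (nat_lit 291) (nat_lit 233) (nat_lit 136))) (XT.nd (nat_lit 78) (nat_lit 0) (nat_lit 0) (XT.lf (nat_lit 0) (nat_lit 7329683317839) (nat_lit 76) (nat_lit 10844609629958) (nat_lit 76) (nat_lit 10792627310811) (nat_lit 1) (nat_lit 4) (nat_lit 2) (nat_lit 5) (nat_lit 2) (nat_lit 4) (nat_lit 292) (nat_lit 233) (nat_lit 135)) (XT.lf (nat_lit 0) (nat_lit 8514685990431) (nat_lit 76) (nat_lit 12421335138747) (nat_lit 76) (nat_lit 12369352811964) (nat_lit 1) (nat_lit 4) (nat_lit 2) (nat_lit 5) (nat_lit 2) (nat_lit 4) (nat_lit 293) (nat_lit 233) (nat_lit 134)))) (XT.nd (nat_lit 156) (nat_lit 0) (nat_lit 0) (XT.nd (nat_lit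 78) (nat_lit 0) (nat_lit 0) (XT.lf (nat_lit 0) (nat_lit 9877439040418) (nat_lit 76) (nat_lit 14234569485435) (nat_lit 76) (nat_lit 14182587152013) (nat_lit 1) (nat_lit 4) (nat_lit 2) (nat_lit 5) (nat_lit 2) (nat_lit 4) (nat_lit 294) (nat_lit 233) (nat_lit 133)) (XT.lf (nat_lit 0) (nat_lit 11444605027472) (nat_lit 76) (nat_lit 16319788994197) (nat_lit 76) (nat_lit 16267806655000) (nat_lit 1) (nat_lit 4) (nat_lit 2) (nat_lit 5) (nat_lit 2) (nat_lit 4) (nat_lit 295) (nat_lit 233) (nat_lit 132))) (XT.nd (nat_lit 78) (nat_lit 0) (nat_lit 0) (XT.lf (nat_lit 0) (nat_lit 13246845894820) (nat_lit 76) (nat_lit 18717791438030) (nat_lit 76) (nat_lit 18665809093813) (nat_lit 1) (nat_lit 4) (nat_lit 2) (nat_lit 5) (nat_lit 2) (nat_lit 4) (nat_lit 296) (nat_lit 233) (nat_lit 131)) (XT.nd (nat_lit 29484) (nat_lit 0) (nat_lit 1216) (XT.lf (nat_lit 0) (nat_lit 15319422876822) (nat_lit 76) (nat_lit 21475494256052)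 (nat_lit 76) (nat_lit 21423511907469) (nat_lit 1) (nat_lit 4) (nat_lit 2) (nat_lit 5) (nat_lit 2) (nat_lit 4) (nat_lit 297) (nat_lit 233) (nat_lit 130)) (XT.lf (nat_lit 0) (nat_lit 268857893) (nat_lit 380) (nat_lit 7114446091) (nat_lit 380) (nat_lit 7114446091) (nat_lit 17) (nat_lit 3) (nat_lit 22) (nat_lit 3) (nat_lit 22) (nat_lit 5) (nat_lit 234) (nat_lit 234) (nat_lit 192))))))))
noncomputable def xc79 : XT := (XT.nd (nat_lit 1326) (nat_lit 380) (nat_lit 0) (XT.nd (nat_lit 624) (nat_lit 456) (nat_lit 0) (XT.nd (nat_lit 312) (nat_lit 304) (nat_lit 0) (XT.nd (nat_lit 156) (nat_lit 0) (nat_lit 76) (XT.nd (nat_lit 78) (nat_lit 0) (nat_lit 76) (XT.lf (nat_lit 0) (nat_lit 647443090) (nat_lit 380) (nat_lit 1540826109) (nat_lit 380) (nat_lit 28970962219) (nat_lit 17) (nat_lit 3) (nat_lit 22) (nat_lit 3) (nat_lit 22) (nat_lit 5) (nat_lit 235) (nat_lit 234) (nat_lit 191)) (XT.lf (nat_lit 0)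 (nat_lit 1890954732) (nat_lit 304) (nat_lit 19779357550) (nat_lit 380) (nat_lit 11809704154) (nat_lit 18) (nat_lit 5) (nat_lit 22) (nat_lit 5) (nat_lit 23) (nat_lit 5) (nat_lit 236) (nat_lit 234) (nat_lit 190))) (XT.nd (nat_lit 78) (nat_lit 0) (nat_lit 76) (XT.lf (nat_lit 0) (nat_lit 3498721333) (nat_lit 304) (nat_lit 4852077230) (nat_lit 380) (nat_lit 27771542148) (nat_lit 18) (nat_lit 5) (nat_lit 22) (nat_lit 5) (nat_lit 23) (nat_lit 5) (nat_lit 237) (nat_lit 234) (nat_lit 189)) (XT.lf (nat_lit 0) (nat_lit 6212798332) (nat_lit 304) (nat_lit 25884378778) (nat_lit 76) (nat_lit 6934134909) (nat_lit 19) (nat_lit 5) (nat_lit 23) (nat_lit 5) (nat_lit 20) (nat_lit 5) (nat_lit 238) (nat_lit 234) (nat_lit 188)))) (XT.nd (nat_lit 156) (nat_lit 152) (nat_lit 0) (XT.nd (nat_lit 78) (nat_lit 304) (nat_lit 0) (XT.lf (nat_lit 0) (nat_lit 9988897821) (nat_lit 304) (nat_lit 8365856272) (nat_lit 76)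 (nat_lit 23923699340) (nat_lit 19) (nat_lit 5) (nat_lit 23) (nat_lit 5) (nat_lit 20) (nat_lit 5) (nat_lit 239) (nat_lit 234) (nat_lit 187)) (XT.lf (nat_lit 0) (nat_lit 12923468263) (nat_lit 304) (nat_lit 1935724947) (nat_lit 380) (nat_lit 31074358786) (nat_lit 15) (nat_lit 5) (nat_lit 19) (nat_lit 5) (nat_lit 20) (nat_lit 5) (nat_lit 240) (nat_lit 234) (nat_lit 186))) (XT.nd (nat_lit 78) (nat_lit 152) (nat_lit 0) (XT.lf (nat_lit 0) (nat_lit 21613157258) (nat_lit 380) (nat_lit 12455649311) (nat_lit 76) (nat_lit 15895186283) (nat_lit 15) (nat_lit 5) (nat_lit 20) (nat_lit 5) (nat_lit 16) (nat_lit 5) (nat_lit 241) (nat_lit 234) (nat_lit 185)) (XT.lf (nat_lit 0) (nat_lit 12165717794) (nat_lit 152) (nat_lit 17804597003) (nat_lit 228) (nat_lit 24540210348) (nat_lit 13) (nat_lit 5) (nat_lit 15) (nat_lit 5) (nat_lit 16) (nat_lit 5) (nat_lit 242) (nat_lit 234) (nat_lit 184))))) (XT.nd (nat_lit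 312) (nat_lit 152) (nat_lit 0) (XT.nd (nat_lit 156) (nat_lit 228) (nat_lit 0) (XT.nd (nat_lit 78) (nat_lit 76) (nat_lit 0) (XT.lf (nat_lit 0) (nat_lit 40294960997) (nat_lit 228) (nat_lit 17837064095) (nat_lit 76) (nat_lit 1499959839) (nat_lit 13) (nat_lit 5) (nat_lit 16) (nat_lit 5) (nat_lit 14) (nat_lit 4) (nat_lit 243) (nat_lit 234) (nat_lit 183)) (XT.lf (nat_lit 0) (nat_lit 10420073688) (nat_lit 76) (nat_lit 43022832005) (nat_lit 152) (nat_lit 11887598107) (nat_lit 12) (nat_lit 5) (nat_lit 13) (nat_lit 5) (nat_lit 14) (nat_lit 4) (nat_lit 244) (nat_lit 234) (nat_lit 182))) (XT.nd (nat_lit 78) (nat_lit 228) (nat_lit 0) (XT.lf (nat_lit 0) (nat_lit 44914128707) (nat_lit 76) (nat_lit 24576949519) (nat_lit 152) (nat_lit 2253543249) (nat_lit 12) (nat_lit 5) (nat_lit 13) (nat_lit 5) (nat_lit 14) (nat_lit 4) (nat_lit 245) (nat_lit 234) (nat_lit 181)) (XT.lf (nat_lit 0) (nat_lit 5587541954)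 (nat_lit 152) (nat_lit 2679739396) (nat_lit 228) (nat_lit 70764671009) (nat_lit 9) (nat_lit 5) (nat_lit 11) (nat_lit 5) (nat_lit 12) (nat_lit 5) (nat_lit 246) (nat_lit 234) (nat_lit 180)))) (XT.nd (nat_lit 156) (nat_lit 152) (nat_lit 0) (XT.nd (nat_lit 78) (nat_lit 0) (nat_lit 0) (XT.lf (nat_lit 0) (nat_lit 22532780016) (nat_lit 228) (nat_lit 42430313926) (nat_lit 76) (nat_lit 22073619008) (nat_lit 9) (nat_lit 5) (nat_lit 12) (nat_lit 5) (nat_lit 10) (nat_lit 4) (nat_lit 247) (nat_lit 234) (nat_lit 179)) (XT.lf (nat_lit 0) (nat_lit 39062422632) (nat_lit 228) (nat_lit 6897023063) (nat_lit 76) (nat_lit 50264109152) (nat_lit 9) (nat_lit 5) (nat_lit 12) (nat_lit 5) (nat_lit 10) (nat_lit 4) (nat_lit 248) (nat_lit 234) (nat_lit 178))) (XT.nd (nat_lit 78) (nat_lit 76) (nat_lit 0) (XT.lf (nat_lit 0) (nat_lit 37280619593) (nat_lit 76) (nat_lit 22331744320) (nat_lit 152) (nat_lit 46944944398)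 (nat_lit 8) (nat_lit 5) (nat_lit 9) (nat_lit 5) (nat_lit 10) (nat_lit 4) (nat_lit 249) (nat_lit 234) (nat_lit 177)) (XT.nd (nat_lit 78) (nat_lit 76) (nat_lit 0) (XT.lf (nat_lit 0) (nat_lit 83820168667) (nat_lit 152) (nat_lit 29749342433) (nat_lit 0) (nat_lit 4785319260) (nat_lit 8) (nat_lit 5) (nat_lit 10) (nat_lit 4) (nat_lit 8) (nat_lit 4) (nat_lit 250) (nat_lit 234) (nat_lit 176)) (XT.lf (nat_lit 0) (nat_lit 16070243210) (nat_lit 76) (nat_lit 97315368721) (nat_lit 76) (nat_lit 18277408541) (nat_lit 7) (nat_lit 4) (nat_lit 8) (nat_lit 5) (nat_lit 8) (nat_lit 4) (nat_lit 251) (nat_lit 234) (nat_lit 175))))))) (XT.nd (nat_lit 624) (nat_lit 152) (nat_lit 0) (XT.nd (nat_lit 312) (nat_lit 76) (nat_lit 0) (XT.nd (nat_lit 156) (nat_lit 76) (nat_lit 0) (XT.nd (nat_lit 78) (nat_lit 0) (nat_lit 0) (XT.lf (nat_lit 0) (nat_lit 2007961650) (nat_lit 152) (nat_lit 74723547652) (nat_lit 76) (nat_lit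 69989321215) (nat_lit 6) (nat_lit 5) (nat_lit 8) (nat_lit 5) (nat_lit 7) (nat_lit 4) (nat_lit 252) (nat_lit 234) (nat_lit 174)) (XT.lf (nat_lit 0) (nat_lit 23462835545) (nat_lit 152) (nat_lit 28597920968) (nat_lit 76) (nat_lit 111846315661) (nat_lit 6) (nat_lit 5) (nat_lit 8) (nat_lit 5) (nat_lit 7) (nat_lit 4) (nat_lit 253) (nat_lit 234) (nat_lit 173))) (XT.nd (nat_lit 78) (nat_lit 0) (nat_lit 0) (XT.lf (nat_lit 0) (nat_lit 26832174979) (nat_lit 76) (nat_lit 22413051883) (nat_lit 152) (nat_lit 134259635941) (nat_lit 5) (nat_lit 5) (nat_lit 6) (nat_lit 5) (nat_lit 7) (nat_lit 4) (nat_lit 254) (nat_lit 234) (nat_lit 172)) (XT.lf (nat_lit 0) (nat_lit 80943046534) (nat_lit 152) (nat_lit 112585407243) (nat_lit 0) (nat_lit 12206662733) (nat_lit 5) (nat_lit 5) (nat_lit 7) (nat_lit 4) (nat_lit 5) (nat_lit 4) (nat_lit 255) (nat_lit 234) (nat_lit 171)))) (XT.nd (nat_lit 156) (nat_lit 76) (nat_lit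 0) (XT.nd (nat_lit 78) (nat_lit 0) (nat_lit 0) (XT.lf (nat_lit 0) (nat_lit 118461326694) (nat_lit 152) (nat_lit 62955119717) (nat_lit 0) (nat_lit 49723598021) (nat_lit 5) (nat_lit 5) (nat_lit 7) (nat_lit 4) (nat_lit 5) (nat_lit 4) (nat_lit 256) (nat_lit 234) (nat_lit 170)) (XT.lf (nat_lit 0) (nat_lit 161606043968) (nat_lit 152) (nat_lit 5882721201) (nat_lit 0) (nat_lit 92867145840) (nat_lit 5) (nat_lit 5) (nat_lit 7) (nat_lit 4) (nat_lit 5) (nat_lit 4) (nat_lit 257) (nat_lit 234) (nat_lit 169))) (XT.nd (nat_lit 78) (nat_lit 0) (nat_lit 0) (XT.lf (nat_lit 0) (nat_lit 65587472540) (nat_lit 76) (nat_lit 148349698960) (nat_lit 76) (nat_lit 79609783915) (nat_lit 4) (nat_lit 4) (nat_lit 5) (nat_lit 5) (nat_lit 5) (nat_lit 4) (nat_lit 258) (nat_lit 234) (nat_lit 168)) (XT.lf (nat_lit 0) (nat_lit 148437314217) (nat_lit 76) (nat_lit 125987089535) (nat_lit 76) (nat_lit 57246290213) (nat_lit 4)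 (nat_lit 4) (nat_lit 5) (nat_lit 5) (nat_lit 5) (nat_lit 4) (nat_lit 259) (nat_lit 234) (nat_lit 167))))) (XT.nd (nat_lit 312) (nat_lit 0) (nat_lit 0) (XT.nd (nat_lit 156) (nat_lit 152) (nat_lit 0) (XT.nd (nat_lit 78) (nat_lit 0) (nat_lit 0) (XT.lf (nat_lit 0) (nat_lit 243712876693) (nat_lit 76) (nat_lit 100270913459) (nat_lit 76) (nat_lit 31529345202) (nat_lit 4) (nat_lit 4) (nat_lit 5) (nat_lit 5) (nat_lit 5) (nat_lit 4) (nat_lit 260) (nat_lit 234) (nat_lit 166)) (XT.lf (nat_lit 0) (nat_lit 353278247060) (nat_lit 76) (nat_lit 70698028157) (nat_lit 76) (nat_lit 1955791261) (nat_lit 4) (nat_lit 4) (nat_lit 5) (nat_lit 5) (nat_lit 5) (nat_lit 4) (nat_lit 261) (nat_lit 234) (nat_lit 165))) (XT.nd (nat_lit 78) (nat_lit 76) (nat_lit 0) (XT.lf (nat_lit 0) (nat_lit 29199406281) (nat_lit 152) (nat_lit 5964094817) (nat_lit 76) (nat_lit 448551356725) (nat_lit 3) (nat_lit 5) (nat_lit 5) (nat_lit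 5) (nat_lit 4) (nat_lit 4) (nat_lit 262) (nat_lit 234) (nat_lit 164)) (XT.lf (nat_lit 0) (nat_lit 68431049837) (nat_lit 152) (nat_lit 472525292739) (nat_lit 0) (nat_lit 8654246437) (nat_lit 2) (nat_lit 5) (nat_lit 4) (nat_lit 4) (nat_lit 2) (nat_lit 4) (nat_lit 263) (nat_lit 234) (nat_lit 163)))) (XT.nd (nat_lit 156) (nat_lit 0) (nat_lit 0) (XT.nd (nat_lit 78) (nat_lit 0) (nat_lit 0) (XT.lf (nat_lit 0) (nat_lit 115547867622) (nat_lit 152) (nat_lit 453772067398) (nat_lit 0) (nat_lit 55770681925) (nat_lit 2) (nat_lit 5) (nat_lit 4) (nat_lit 4) (nat_lit 2) (nat_lit 4) (nat_lit 264) (nat_lit 234) (nat_lit 162)) (XT.lf (nat_lit 0) (nat_lit 169731660310) (nat_lit 152) (nat_lit 432206929801) (nat_lit 0) (nat_lit 109954142182) (nat_lit 2) (nat_lit 5) (nat_lit 4) (nat_lit 4) (nat_lit 2) (nat_lit 4) (nat_lit 265) (nat_lit 234) (nat_lit 161))) (XT.nd (nat_lit 78) (nat_lit 0) (nat_lit 0) (XT.lf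 (nat_lit 0) (nat_lit 232042545585) (nat_lit 152) (nat_lit 407407953343) (nat_lit 0) (nat_lit 172264738384) (nat_lit 2) (nat_lit 5) (nat_lit 4) (nat_lit 4) (nat_lit 2) (nat_lit 4) (nat_lit 266) (nat_lit 234) (nat_lit 160)) (XT.nd (nat_lit 78) (nat_lit 0) (nat_lit 0) (XT.lf (nat_lit 0) (nat_lit 303699649461) (nat_lit 152) (nat_lit 378889940660) (nat_lit 0) (nat_lit 243921590894) (nat_lit 2) (nat_lit 5) (nat_lit 4) (nat_lit 4) (nat_lit 2) (nat_lit 4) (nat_lit 267) (nat_lit 234) (nat_lit 159)) (XT.lf (nat_lit 0) (nat_lit 386104958754) (nat_lit 152) (nat_lit 346094930632) (nat_lit 0) (nat_lit 326326681608) (nat_lit 2) (nat_lit 5) (nat_lit 4) (nat_lit 4) (nat_lit 2) (nat_lit 4) (nat_lit 268) (nat_lit 234) (nat_lit 158))))))))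
noncomputable def xc80 : XT := (XT.nd (nat_lit 1326) (nat_lit 0) (nat_lit 0) (XT.nd (nat_lit 624) (nat_lit 0) (nat_lit 0) (XT.nd (nat_lit 312) (nat_lit 76) (nat_lit 0) (XT.nd (nat_lit 156) (nat_lit 0) (nat_lit 0) (XT.nd (nat_lit 78) (nat_lit 0) (nat_lit 0) (XT.lf (nat_lit 0) (nat_lit 480870751254) (nat_lit 152) (nat_lit 308381281761) (nat_lit 0) (nat_lit 421092284039) (nat_lit 2) (nat_lit 5) (nat_lit 4) (nat_lit 4) (nat_lit 2) (nat_lit 4) (nat_lit 269) (nat_lit 234) (nat_lit 157)) (XT.lf (nat_lit 0) (nat_lit 589851140294) (nat_lit 152) (nat_lit 265011118306) (nat_lit 0) (nat_lit 530072507802) (nat_lit 2) (nat_lit 5) (nat_lit 4) (nat_lit 4) (nat_lit 2) (nat_lit 4) (nat_lit 270) (nat_lit 234) (nat_lit 156))) (XT.nd (nat_lit 78) (nat_lit 0) (nat_lit 0) (XT.lf (nat_lit 0) (nat_lit 715178350876) (nat_lit 152) (nat_lit 215135893592) (nat_lit 0) (nat_lit 655399574664) (nat_lit 2) (nat_lit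 5) (nat_lit 4) (nat_lit 4) (nat_lit 2) (nat_lit 4) (nat_lit 271) (nat_lit 234) (nat_lit 155)) (XT.lf (nat_lit 0) (nat_lit 859304437120) (nat_lit 152) (nat_lit 157779788005) (nat_lit 0) (nat_lit 799525535934) (nat_lit 2) (nat_lit 5) (nat_lit 4) (nat_lit 4) (nat_lit 2) (nat_lit 4) (nat_lit 272) (nat_lit 234) (nat_lit 154)))) (XT.nd (nat_lit 156) (nat_lit 76) (nat_lit 0) (XT.nd (nat_lit 78) (nat_lit 0) (nat_lit 0) (XT.lf (nat_lit 0) (nat_lit 1025049257235) (nat_lit 152) (nat_lit 91820616870) (nat_lit 0) (nat_lit 965270247376) (nat_lit 2) (nat_lit 5) (nat_lit 4) (nat_lit 4) (nat_lit 2) (nat_lit 4) (nat_lit 273) (nat_lit 234) (nat_lit 153)) (XT.lf (nat_lit 0) (nat_lit 1215655644658) (nat_lit 152) (nat_lit 15967874665) (nat_lit 0) (nat_lit 1155876540302) (nat_lit 2) (nat_lit 5) (nat_lit 4) (nat_lit 4) (nat_lit 2) (nat_lit 4) (nat_lit 274) (nat_lit 234) (nat_lit 152))) (XT.nd (nat_lit 78)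 (nat_lit 0) (nat_lit 0) (XT.lf (nat_lit 0) (nat_lit 78226805142) (nat_lit 76) (nat_lit 1359865254835) (nat_lit 76) (nat_lit 1300086068307) (nat_lit 1) (nat_lit 4) (nat_lit 2) (nat_lit 5) (nat_lit 2) (nat_lit 4) (nat_lit 275) (nat_lit 234) (nat_lit 151)) (XT.lf (nat_lit 0) (nat_lit 188345005459) (nat_lit 76) (nat_lit 1506383488285) (nat_lit 76) (nat_lit 1446604230303) (nat_lit 1) (nat_lit 4) (nat_lit 2) (nat_lit 5) (nat_lit 2) (nat_lit 4) (nat_lit 276) (nat_lit 234) (nat_lit 150))))) (XT.nd (nat_lit 312) (nat_lit 0) (nat_lit 0) (XT.nd (nat_lit 156) (nat_lit 0) (nat_lit 0) (XT.nd (nat_lit 78) (nat_lit 0) (nat_lit 0) (XT.lf (nat_lit 0) (nat_lit 314980715971) (nat_lit 76) (nat_lit 1674879565121) (nat_lit 76) (nat_lit 1615100245005) (nat_lit 1) (nat_lit 4) (nat_lit 2) (nat_lit 5) (nat_lit 2) (nat_lit 4) (nat_lit 277) (nat_lit 234) (nat_lit 149)) (XT.lf (nat_lit 0) (nat_lit 460611591884)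 (nat_lit 76) (nat_lit 1868650147715) (nat_lit 76) (nat_lit 1808870773569) (nat_lit 1) (nat_lit 4) (nat_lit 2) (nat_lit 5) (nat_lit 2) (nat_lit 4) (nat_lit 278) (nat_lit 234) (nat_lit 148))) (XT.nd (nat_lit 78) (nat_lit 0) (nat_lit 0) (XT.lf (nat_lit 0) (nat_lit 628086932944) (nat_lit 76) (nat_lit 2091486399639) (nat_lit 76) (nat_lit 2031706978511) (nat_lit 1) (nat_lit 4) (nat_lit 2) (nat_lit 5) (nat_lit 2) (nat_lit 4) (nat_lit 279) (nat_lit 234) (nat_lit 147)) (XT.lf (nat_lit 0) (nat_lit 820683430606) (nat_lit 76) (nat_lit 2347748160605) (nat_lit 76) (nat_lit 2287968698623) (nat_lit 1) (nat_lit 4) (nat_lit 2) (nat_lit 5) (nat_lit 2) (nat_lit 4) (nat_lit 280) (nat_lit 234) (nat_lit 146)))) (XT.nd (nat_lit 156) (nat_lit 0) (nat_lit 0) (XT.nd (nat_lit 78) (nat_lit 0) (nat_lit 0) (XT.lf (nat_lit 0) (nat_lit 1042169277216) (nat_lit 76) (nat_lit 2642449247675) (nat_lit 76) (nat_lit 2582669750168)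 (nat_lit 1) (nat_lit 4) (nat_lit 2) (nat_lit 5) (nat_lit 2) (nat_lit 4) (nat_lit 281) (nat_lit 234) (nat_lit 145)) (XT.lf (nat_lit 0) (nat_lit 1296877891513) (nat_lit 76) (nat_lit 2981355551684) (nat_lit 76) (nat_lit 2921576023285) (nat_lit 1) (nat_lit 4) (nat_lit 2) (nat_lit 5) (nat_lit 2) (nat_lit 4) (nat_lit 282) (nat_lit 234) (nat_lit 144))) (XT.nd (nat_lit 78) (nat_lit 0) (nat_lit 0) (XT.lf (nat_lit 0) (nat_lit 1589792702906) (nat_lit 76) (nat_lit 3371097848144) (nat_lit 76) (nat_lit 3311318292883) (nat_lit 1) (nat_lit 4) (nat_lit 2) (nat_lit 5) (nat_lit 2) (nat_lit 4) (nat_lit 283) (nat_lit 234) (nat_lit 143)) (XT.nd (nat_lit 78) (nat_lit 0) (nat_lit 0) (XT.lf (nat_lit 0) (nat_lit 1926644653357) (nat_lit 76) (nat_lit 3819301529813) (nat_lit 76) (nat_lit 3759521951193) (nat_lit 1) (nat_lit 4) (nat_lit 2) (nat_lit 5) (nat_lit 2) (nat_lit 4) (nat_lit 284) (nat_lit 234) (nat_lit 142))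 (XT.lf (nat_lit 0) (nat_lit 2314024324505) (nat_lit 76) (nat_lit 4334735799158) (nat_lit 76) (nat_lit 4274956200226) (nat_lit 1) (nat_lit 4) (nat_lit 2) (nat_lit 5) (nat_lit 2) (nat_lit 4) (nat_lit 285) (nat_lit 234) (nat_lit 141))))))) (XT.nd (nat_lit 624) (nat_lit 0) (nat_lit 0) (XT.nd (nat_lit 312) (nat_lit 0) (nat_lit 0) (XT.nd (nat_lit 156) (nat_lit 0) (nat_lit 0) (XT.nd (nat_lit 78) (nat_lit 0) (nat_lit 0) (XT.lf (nat_lit 0) (nat_lit 2759510883830) (nat_lit 76) (nat_lit 4927485239709) (nat_lit 76) (nat_lit 4867705623115) (nat_lit 1) (nat_lit 4) (nat_lit 2) (nat_lit 5) (nat_lit 2) (nat_lit 4) (nat_lit 286) (nat_lit 234) (nat_lit 140)) (XT.lf (nat_lit 0) (nat_lit 3271820372710) (nat_lit 76) (nat_lit 5609147123129) (nat_lit 76) (nat_lit 5549367491177) (nat_lit 1) (nat_lit 4) (nat_lit 2) (nat_lit 5) (nat_lit 2) (nat_lit 4) (nat_lit 287) (nat_lit 234) (nat_lit 139))) (XT.nd (nat_lit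 78) (nat_lit 0) (nat_lit 0) (XT.lf (nat_lit 0) (nat_lit 3860976237666) (nat_lit 76) (nat_lit 6393058312356) (nat_lit 76) (nat_lit 6333278667049) (nat_lit 1) (nat_lit 4) (nat_lit 2) (nat_lit 5) (nat_lit 2) (nat_lit 4) (nat_lit 288) (nat_lit 234) (nat_lit 138)) (XT.lf (nat_lit 0) (nat_lit 4538505441273) (nat_lit 76) (nat_lit 7294556200221) (nat_lit 76) (nat_lit 7234776543301) (nat_lit 1) (nat_lit 4) (nat_lit 2) (nat_lit 5) (nat_lit 2) (nat_lit 4) (nat_lit 289) (nat_lit 234) (nat_lit 137)))) (XT.nd (nat_lit 156) (nat_lit 0) (nat_lit 0) (XT.nd (nat_lit 78) (nat_lit 0) (nat_lit 0) (XT.lf (nat_lit 0) (nat_lit 5317663989689) (nat_lit 76) (nat_lit 8331278788879) (nat_lit 76) (nat_lit 8271499121860) (nat_lit 1) (nat_lit 4) (nat_lit 2) (nat_lit 5) (nat_lit 2) (nat_lit 4) (nat_lit 290) (nat_lit 234) (nat_lit 136)) (XT.lf (nat_lit 0) (nat_lit 6213696289296) (nat_lit 76) (nat_lit 9523509781151)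 (nat_lit 76) (nat_lit 9463730105351) (nat_lit 1) (nat_lit 4) (nat_lit 2) (nat_lit 5) (nat_lit 2) (nat_lit 4) (nat_lit 291) (nat_lit 234) (nat_lit 135))) (XT.nd (nat_lit 78) (nat_lit 0) (nat_lit 0) (XT.lf (nat_lit 0) (nat_lit 7244133406826) (nat_lit 76) (nat_lit 10894575435581) (nat_lit 76) (nat_lit 10834795752145) (nat_lit 1) (nat_lit 4) (nat_lit 2) (nat_lit 5) (nat_lit 2) (nat_lit 4) (nat_lit 292) (nat_lit 234) (nat_lit 134)) (XT.lf (nat_lit 0) (nat_lit 8429136068490) (nat_lit 76) (nat_lit 12471300949757) (nat_lit 76) (nat_lit 12411521259681) (nat_lit 1) (nat_lit 4) (nat_lit 2) (nat_lit 5) (nat_lit 2) (nat_lit 4) (nat_lit 293) (nat_lit 234) (nat_lit 133))))) (XT.nd (nat_lit 29796) (nat_lit 0) (nat_lit 1216) (XT.nd (nat_lit 156) (nat_lit 0) (nat_lit 0) (XT.nd (nat_lit 78) (nat_lit 0) (nat_lit 0) (XT.lf (nat_lit 0) (nat_lit 9791889108975) (nat_lit 76) (nat_lit 14284535301129) (nat_lit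 76) (nat_lit 14224755605279) (nat_lit 1) (nat_lit 4) (nat_lit 2) (nat_lit 5) (nat_lit 2) (nat_lit 4) (nat_lit 294) (nat_lit 234) (nat_lit 132)) (XT.lf (nat_lit 0) (nat_lit 11359055087766) (nat_lit 76) (nat_lit 16369754813964) (nat_lit 76) (nat_lit 16309975113093) (nat_lit 1) (nat_lit 4) (nat_lit 2) (nat_lit 5) (nat_lit 2) (nat_lit 4) (nat_lit 295) (nat_lit 234) (nat_lit 131))) (XT.nd (nat_lit 78) (nat_lit 0) (nat_lit 0) (XT.lf (nat_lit 0) (nat_lit 13161295947929) (nat_lit 76) (nat_lit 18767757261338) (nat_lit 76) (nat_lit 18707977556102) (nat_lit 1) (nat_lit 4) (nat_lit 2) (nat_lit 5) (nat_lit 2) (nat_lit 4) (nat_lit 296) (nat_lit 234) (nat_lit 130)) (XT.lf (nat_lit 0) (nat_lit 15233872923683) (nat_lit 76) (nat_lit 21525460082440) (nat_lit 76) (nat_lit 21465680373407) (nat_lit 1) (nat_lit 4) (nat_lit 2) (nat_lit 5) (nat_lit 2) (nat_lit 4) (nat_lit 297) (nat_lit 234) (nat_lit 129))))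 (XT.nd (nat_lit 156) (nat_lit 0) (nat_lit 76) (XT.nd (nat_lit 78) (nat_lit 0) (nat_lit 0) (XT.lf (nat_lit 0) (nat_lit 375711548) (nat_lit 380) (nat_lit 8143111217) (nat_lit 380) (nat_lit 8143111217) (nat_lit 17) (nat_lit 3) (nat_lit 22) (nat_lit 3) (nat_lit 22) (nat_lit 5) (nat_lit 235) (nat_lit 235) (nat_lit 190)) (XT.lf (nat_lit 0) (nat_lit 860255156) (nat_lit 380) (nat_lit 1704990394) (nat_lit 380) (nat_lit 33249646921) (nat_lit 17) (nat_lit 3) (nat_lit 22) (nat_lit 3) (nat_lit 22) (nat_lit 5) (nat_lit 236) (nat_lit 235) (nat_lit 189))) (XT.nd (nat_lit 78) (nat_lit 0) (nat_lit 0) (XT.lf (nat_lit 0) (nat_lit 2276220640) (nat_lit 304) (nat_lit 22664472718) (nat_lit 380) (nat_lit 13545326208) (nat_lit 18) (nat_lit 5) (nat_lit 22) (nat_lit 5) (nat_lit 23) (nat_lit 5) (nat_lit 237) (nat_lit 235) (nat_lit 188)) (XT.nd (nat_lit 78) (nat_lit 0) (nat_lit 76) (XT.lf (nat_lit 0) (nat_lit 4111897096)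 (nat_lit 304) (nat_lit 5508768411) (nat_lit 380) (nat_lit 31906113845) (nat_lit 18) (nat_lit 5) (nat_lit 22) (nat_lit 5) (nat_lit 23) (nat_lit 5) (nat_lit 238) (nat_lit 235) (nat_lit 187)) (XT.lf (nat_lit 0) (nat_lit 7223883370) (nat_lit 304) (nat_lit 29686141324) (nat_lit 76) (nat_lit 7963537743) (nat_lit 19) (nat_lit 5) (nat_lit 23) (nat_lit 5) (nat_lit 20) (nat_lit 5) (nat_lit 239) (nat_lit 235) (nat_lit 186))))))))
noncomputable def xc81 : XT := (XT.nd (nat_lit 1326) (nat_lit 228) (nat_lit 0) (XT.nd (nat_lit 624) (nat_lit 304) (nat_lit 0) (XT.nd (nat_lit 312) (nat_lit 304) (nat_lit 0) (XT.nd (nat_lit 156) (nat_lit 152) (nat_lit 0) (XT.nd (nat_lit 78) (nat_lit 304) (nat_lit 0) (XT.lf (nat_lit 0) (nat_lit 11556071875) (nat_lit 304) (nat_lit 9550391868) (nat_lit 76) (nat_lit 27502934760) (nat_lit 19) (nat_lit 5) (nat_lit 23) (nat_lit 5) (nat_lit 20) (nat_lit 5) (nat_lit 240) (nat_lit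 235) (nat_lit 185)) (XT.lf (nat_lit 0) (nat_lit 14929133945) (nat_lit 304) (nat_lit 2221578928) (nat_lit 380) (nat_lit 35663043615) (nat_lit 15) (nat_lit 5) (nat_lit 19) (nat_lit 5) (nat_lit 20) (nat_lit 5) (nat_lit 241) (nat_lit 235) (nat_lit 184))) (XT.nd (nat_lit 78) (nat_lit 152) (nat_lit 0) (XT.lf (nat_lit 0) (nat_lit 24909763207) (nat_lit 380) (nat_lit 14257225215) (nat_lit 76) (nat_lit 18283032674) (nat_lit 15) (nat_lit 5) (nat_lit 20) (nat_lit 5) (nat_lit 16) (nat_lit 5) (nat_lit 242) (nat_lit 235) (nat_lit 183)) (XT.lf (nat_lit 0) (nat_lit 14054311888) (nat_lit 152) (nat_lit 20461695718) (nat_lit 228) (nat_lit 28163247663) (nat_lit 13) (nat_lit 5) (nat_lit 15) (nat_lit 5) (nat_lit 16) (nat_lit 5) (nat_lit 243) (nat_lit 235) (nat_lit 182)))) (XT.nd (nat_lit 156) (nat_lit 228) (nat_lit 0) (XT.nd (nat_lit 78) (nat_lit 76) (nat_lit 0) (XT.lf (nat_lit 0) (nat_lit 46383299370) (nat_lit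 228) (nat_lit 20450865183) (nat_lit 76) (nat_lit 1735719802) (nat_lit 13) (nat_lit 5) (nat_lit 16) (nat_lit 5) (nat_lit 14) (nat_lit 4) (nat_lit 244) (nat_lit 235) (nat_lit 181)) (XT.lf (nat_lit 0) (nat_lit 12042036062) (nat_lit 76) (nat_lit 49458089337) (nat_lit 152) (nat_lit 13623589280) (nat_lit 12) (nat_lit 5) (nat_lit 13) (nat_lit 5) (nat_lit 14) (nat_lit 4) (nat_lit 245) (nat_lit 235) (nat_lit 180))) (XT.nd (nat_lit 78) (nat_lit 228) (nat_lit 0) (XT.lf (nat_lit 0) (nat_lit 51702510031) (nat_lit 76) (nat_lit 28247694148) (nat_lit 152) (nat_lit 2550576003) (nat_lit 12) (nat_lit 5) (nat_lit 13) (nat_lit 5) (nat_lit 14) (nat_lit 4) (nat_lit 246) (nat_lit 235) (nat_lit 179)) (XT.lf (nat_lit 0) (nat_lit 6478267616) (nat_lit 152) (nat_lit 3063760925) (nat_lit 228) (nat_lit 81339355941) (nat_lit 9) (nat_lit 5) (nat_lit 11) (nat_lit 5) (nat_lit 12) (nat_lit 5) (nat_lit 247) (nat_lit 235)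 (nat_lit 178))))) (XT.nd (nat_lit 312) (nat_lit 228) (nat_lit 0) (XT.nd (nat_lit 156) (nat_lit 76) (nat_lit 0) (XT.nd (nat_lit 78) (nat_lit 0) (nat_lit 0) (XT.lf (nat_lit 0) (nat_lit 25943477731) (nat_lit 228) (nat_lit 48745111217) (nat_lit 76) (nat_lit 25398872549) (nat_lit 9) (nat_lit 5) (nat_lit 12) (nat_lit 5) (nat_lit 10) (nat_lit 4) (nat_lit 248) (nat_lit 235) (nat_lit 177)) (XT.lf (nat_lit 0) (nat_lit 44948551864) (nat_lit 228) (nat_lit 7888315828) (nat_lit 76) (nat_lit 57816082647) (nat_lit 9) (nat_lit 5) (nat_lit 12) (nat_lit 5) (nat_lit 10) (nat_lit 4) (nat_lit 249) (nat_lit 235) (nat_lit 176))) (XT.nd (nat_lit 78) (nat_lit 0) (nat_lit 0) (XT.lf (nat_lit 0) (nat_lit 42914006831) (nat_lit 76) (nat_lit 25665196219) (nat_lit 152) (nat_lit 53957846991) (nat_lit 8) (nat_lit 5) (nat_lit 9) (nat_lit 5) (nat_lit 10) (nat_lit 4) (nat_lit 250) (nat_lit 235) (nat_lit 175)) (XT.lf (nat_lit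 0) (nat_lit 96415506926) (nat_lit 152) (nat_lit 34173071221) (nat_lit 0) (nat_lit 5516036925) (nat_lit 8) (nat_lit 5) (nat_lit 10) (nat_lit 4) (nat_lit 8) (nat_lit 4) (nat_lit 251) (nat_lit 235) (nat_lit 174)))) (XT.nd (nat_lit 156) (nat_lit 76) (nat_lit 0) (XT.nd (nat_lit 78) (nat_lit 76) (nat_lit 0) (XT.lf (nat_lit 0) (nat_lit 18517694425) (nat_lit 76) (nat_lit 111896690429) (nat_lit 76) (nat_lit 20994868237) (nat_lit 7) (nat_lit 4) (nat_lit 8) (nat_lit 5) (nat_lit 8) (nat_lit 4) (nat_lit 252) (nat_lit 235) (nat_lit 173)) (XT.lf (nat_lit 0) (nat_lit 2328287587) (nat_lit 152) (nat_lit 85898049261) (nat_lit 76) (nat_lit 80499687409) (nat_lit 6) (nat_lit 5) (nat_lit 8) (nat_lit 5) (nat_lit 7) (nat_lit 4) (nat_lit 253) (nat_lit 235) (nat_lit 172))) (XT.nd (nat_lit 78) (nat_lit 76) (nat_lit 0) (XT.lf (nat_lit 0) (nat_lit 26998897130) (nat_lit 152) (nat_lit 32858017340) (nat_lit 76) (nat_lit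 128633669977) (nat_lit 6) (nat_lit 5) (nat_lit 8) (nat_lit 5) (nat_lit 7) (nat_lit 4) (nat_lit 254) (nat_lit 235) (nat_lit 171)) (XT.nd (nat_lit 78) (nat_lit 0) (nat_lit 0) (XT.lf (nat_lit 0) (nat_lit 30885247918) (nat_lit 76) (nat_lit 25762398915) (nat_lit 152) (nat_lit 154380553811) (nat_lit 5) (nat_lit 5) (nat_lit 6) (nat_lit 5) (nat_lit 7) (nat_lit 4) (nat_lit 255) (nat_lit 235) (nat_lit 170)) (XT.lf (nat_lit 0) (nat_lit 93098554058) (nat_lit 152) (nat_lit 129447030428) (nat_lit 0) (nat_lit 14047651756) (nat_lit 5) (nat_lit 5) (nat_lit 7) (nat_lit 4) (nat_lit 5) (nat_lit 4) (nat_lit 256) (nat_lit 235) (nat_lit 169))))))) (XT.nd (nat_lit 624) (nat_lit 0) (nat_lit 0) (XT.nd (nat_lit 312) (nat_lit 152) (nat_lit 0) (XT.nd (nat_lit 156) (nat_lit 76) (nat_lit 0) (XT.nd (nat_lit 78) (nat_lit 0) (nat_lit 0) (XT.lf (nat_lit 0) (nat_lit 136242743563) (nat_lit 152) (nat_lit 72375615587) (nat_lit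 0) (nat_lit 57190824343) (nat_lit 5) (nat_lit 5) (nat_lit 7) (nat_lit 4) (nat_lit 5) (nat_lit 4) (nat_lit 257) (nat_lit 235) (nat_lit 168)) (XT.lf (nat_lit 0) (nat_lit 185857574793) (nat_lit 152) (nat_lit 6745327565) (nat_lit 0) (nat_lit 106804771298) (nat_lit 5) (nat_lit 5) (nat_lit 7) (nat_lit 4) (nat_lit 5) (nat_lit 4) (nat_lit 258) (nat_lit 235) (nat_lit 167))) (XT.nd (nat_lit 78) (nat_lit 0) (nat_lit 0) (XT.lf (nat_lit 0) (nat_lit 75444495155) (nat_lit 76) (nat_lit 170593273213) (nat_lit 76) (nat_lit 91539700782) (nat_lit 4) (nat_lit 4) (nat_lit 5) (nat_lit 5) (nat_lit 5) (nat_lit 4) (nat_lit 259) (nat_lit 235) (nat_lit 166)) (XT.lf (nat_lit 0) (nat_lit 170719347640) (nat_lit 76) (nat_lit 144877430711) (nat_lit 76) (nat_lit 65823189641) (nat_lit 4) (nat_lit 4) (nat_lit 5) (nat_lit 5) (nat_lit 5) (nat_lit 4) (nat_lit 260) (nat_lit 235) (nat_lit 165)))) (XT.nd (nat_lit 156) (nat_lit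 152) (nat_lit 0) (XT.nd (nat_lit 78) (nat_lit 0) (nat_lit 0) (XT.lf (nat_lit 0) (nat_lit 280284100623) (nat_lit 76) (nat_lit 115304835474) (nat_lit 76) (nat_lit 36250012978) (nat_lit 4) (nat_lit 4) (nat_lit 5) (nat_lit 5) (nat_lit 5) (nat_lit 4) (nat_lit 261) (nat_lit 235) (nat_lit 164)) (XT.lf (nat_lit 0) (nat_lit 406282412316) (nat_lit 76) (nat_lit 81296893247) (nat_lit 76) (nat_lit 2241565163) (nat_lit 4) (nat_lit 4) (nat_lit 5) (nat_lit 5) (nat_lit 5) (nat_lit 4) (nat_lit 262) (nat_lit 235) (nat_lit 163))) (XT.nd (nat_lit 78) (nat_lit 76) (nat_lit 0) (XT.lf (nat_lit 0) (nat_lit 33585333437) (nat_lit 152) (nat_lit 6847300835) (nat_lit 76) (nat_lit 515838536664) (nat_lit 3) (nat_lit 5) (nat_lit 5) (nat_lit 5) (nat_lit 4) (nat_lit 4) (nat_lit 263) (nat_lit 235) (nat_lit 162)) (XT.lf (nat_lit 0) (nat_lit 78701605341) (nat_lit 152) (nat_lit 543392548843) (nat_lit 0) (nat_lit 9957127060)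 (nat_lit 2) (nat_lit 5) (nat_lit 4) (nat_lit 4) (nat_lit 2) (nat_lit 4) (nat_lit 264) (nat_lit 235) (nat_lit 161))))) (XT.nd (nat_lit 312) (nat_lit 0) (nat_lit 0) (XT.nd (nat_lit 156) (nat_lit 0) (nat_lit 0) (XT.nd (nat_lit 78) (nat_lit 0) (nat_lit 0) (XT.lf (nat_lit 0) (nat_lit 132885176486) (nat_lit 152) (nat_lit 521827844631) (nat_lit 0) (nat_lit 64140409134) (nat_lit 2) (nat_lit 5) (nat_lit 4) (nat_lit 4) (nat_lit 2) (nat_lit 4) (nat_lit 265) (nat_lit 235) (nat_lit 160)) (XT.lf (nat_lit 0) (nat_lit 195195869114) (nat_lit 152) (nat_lit 497029245031) (nat_lit 0) (nat_lit 126450850396) (nat_lit 2) (nat_lit 5) (nat_lit 4) (nat_lit 4) (nat_lit 2) (nat_lit 4) (nat_lit 266) (nat_lit 235) (nat_lit 159))) (XT.nd (nat_lit 78) (nat_lit 0) (nat_lit 0) (XT.lf (nat_lit 0) (nat_lit 266852805472) (nat_lit 152) (nat_lit 468511560049) (nat_lit 0) (nat_lit 198107568174) (nat_lit 2) (nat_lit 5) (nat_lit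 4) (nat_lit 4) (nat_lit 2) (nat_lit 4) (nat_lit 267) (nat_lit 235) (nat_lit 158)) (XT.lf (nat_lit 0) (nat_lit 349257969097) (nat_lit 152) (nat_lit 435716834980) (nat_lit 0) (nat_lit 280512541730) (nat_lit 2) (nat_lit 5) (nat_lit 4) (nat_lit 4) (nat_lit 2) (nat_lit 4) (nat_lit 268) (nat_lit 235) (nat_lit 157)))) (XT.nd (nat_lit 156) (nat_lit 0) (nat_lit 0) (XT.nd (nat_lit 78) (nat_lit 0) (nat_lit 0) (XT.lf (nat_lit 0) (nat_lit 444023634929) (nat_lit 152) (nat_lit 398003433898) (nat_lit 0) (nat_lit 375278042285) (nat_lit 2) (nat_lit 5) (nat_lit 4) (nat_lit 4) (nat_lit 2) (nat_lit 4) (nat_lit 269) (nat_lit 235) (nat_lit 156)) (XT.lf (nat_lit 0) (nat_lit 553003913823) (nat_lit 152) (nat_lit 354633485913) (nat_lit 0) (nat_lit 484258177460) (nat_lit 2) (nat_lit 5) (nat_lit 4) (nat_lit 4) (nat_lit 2) (nat_lit 4) (nat_lit 270) (nat_lit 235) (nat_lit 155))) (XT.nd (nat_lit 78) (nat_lit 0) (nat_lit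 0) (XT.lf (nat_lit 0) (nat_lit 678331028626) (nat_lit 152) (nat_lit 304758448563) (nat_lit 0) (nat_lit 609585167289) (nat_lit 2) (nat_lit 5) (nat_lit 4) (nat_lit 4) (nat_lit 2) (nat_lit 4) (nat_lit 271) (nat_lit 235) (nat_lit 154)) (XT.nd (nat_lit 78) (nat_lit 0) (nat_lit 0) (XT.lf (nat_lit 0) (nat_lit 822457031583) (nat_lit 152) (nat_lit 247402505902) (nat_lit 0) (nat_lit 753711061574) (nat_lit 2) (nat_lit 5) (nat_lit 4) (nat_lit 4) (nat_lit 2) (nat_lit 4) (nat_lit 272) (nat_lit 235) (nat_lit 153)) (XT.lf (nat_lit 0) (nat_lit 988201779275) (nat_lit 152) (nat_lit 181443476441) (nat_lit 0) (nat_lit 919455714768) (nat_lit 2) (nat_lit 5) (nat_lit 4) (nat_lit 4) (nat_lit 2) (nat_lit 4) (nat_lit 273) (nat_lit 235) (nat_lit 152))))))))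
noncomputable def xc82 : XT := (XT.nd (nat_lit 1326) (nat_lit 0) (nat_lit 0) (XT.nd (nat_lit 624) (nat_lit 0) (nat_lit 0) (XT.nd (nat_lit 312) (nat_lit 0) (nat_lit 0) (XT.nd (nat_lit 156) (nat_lit 76) (nat_lit 0) (XT.nd (nat_lit 78) (nat_lit 0) (nat_lit 0) (XT.lf (nat_lit 0) (nat_lit 1178808103722) (nat_lit 152) (nat_lit 105590857431) (nat_lit 0) (nat_lit 1110061957043) (nat_lit 2) (nat_lit 5) (nat_lit 4) (nat_lit 4) (nat_lit 2) (nat_lit 4) (nat_lit 274) (nat_lit 235) (nat_lit 151)) (XT.lf (nat_lit 0) (nat_lit 1398005259098) (nat_lit 152) (nat_lit 18360575891) (nat_lit 0) (nat_lit 1329259040964) (nat_lit 2) (nat_lit 5) (nat_lit 4) (nat_lit 4) (nat_lit 2) (nat_lit 4) (nat_lit 275) (nat_lit 235) (nat_lit 150))) (XT.nd (nat_lit 78) (nat_lit 0) (nat_lit 0) (XT.lf (nat_lit 0) (nat_lit 89963193161) (nat_lit 76) (nat_lit 1563843876219) (nat_lit 76) (nat_lit 1495097595952) (nat_lit 1) (nat_lit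 4) (nat_lit 2) (nat_lit 5) (nat_lit 2) (nat_lit 4) (nat_lit 276) (nat_lit 235) (nat_lit 149)) (XT.lf (nat_lit 0) (nat_lit 216598814754) (nat_lit 76) (nat_lit 1732339996884) (nat_lit 76) (nat_lit 1663593662587) (nat_lit 1) (nat_lit 4) (nat_lit 2) (nat_lit 5) (nat_lit 2) (nat_lit 4) (nat_lit 277) (nat_lit 235) (nat_lit 148)))) (XT.nd (nat_lit 156) (nat_lit 0) (nat_lit 0) (XT.nd (nat_lit 78) (nat_lit 0) (nat_lit 0) (XT.lf (nat_lit 0) (nat_lit 362229613346) (nat_lit 76) (nat_lit 1926110617590) (nat_lit 76) (nat_lit 1857364236310) (nat_lit 1) (nat_lit 4) (nat_lit 2) (nat_lit 5) (nat_lit 2) (nat_lit 4) (nat_lit 278) (nat_lit 235) (nat_lit 147)) (XT.lf (nat_lit 0) (nat_lit 529704887170) (nat_lit 76) (nat_lit 2148946902655) (nat_lit 76) (nat_lit 2080200480522) (nat_lit 1) (nat_lit 4) (nat_lit 2) (nat_lit 5) (nat_lit 2) (nat_lit 4) (nat_lit 279) (nat_lit 235) (nat_lit 146))) (XT.nd (nat_lit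 78) (nat_lit 0) (nat_lit 0) (XT.lf (nat_lit 0) (nat_lit 722301326367) (nat_lit 76) (nat_lit 2405208692439) (nat_lit 76) (nat_lit 2336462234781) (nat_lit 1) (nat_lit 4) (nat_lit 2) (nat_lit 5) (nat_lit 2) (nat_lit 4) (nat_lit 280) (nat_lit 235) (nat_lit 145)) (XT.lf (nat_lit 0) (nat_lit 943787122137) (nat_lit 76) (nat_lit 2699909804569) (nat_lit 76) (nat_lit 2631163316019) (nat_lit 1) (nat_lit 4) (nat_lit 2) (nat_lit 5) (nat_lit 2) (nat_lit 4) (nat_lit 281) (nat_lit 235) (nat_lit 144))))) (XT.nd (nat_lit 312) (nat_lit 0) (nat_lit 0) (XT.nd (nat_lit 156) (nat_lit 0) (nat_lit 0) (XT.nd (nat_lit 78) (nat_lit 0) (nat_lit 0) (XT.lf (nat_lit 0) (nat_lit 1198495692225) (nat_lit 76) (nat_lit 3038816130369) (nat_lit 76) (nat_lit 2970069614956) (nat_lit 1) (nat_lit 4) (nat_lit 2) (nat_lit 5) (nat_lit 2) (nat_lit 4) (nat_lit 282) (nat_lit 235) (nat_lit 143)) (XT.lf (nat_lit 0) (nat_lit 1491410465176)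 (nat_lit 76) (nat_lit 3428558445778) (nat_lit 76) (nat_lit 3359811907007) (nat_lit 1) (nat_lit 4) (nat_lit 2) (nat_lit 5) (nat_lit 2) (nat_lit 4) (nat_lit 283) (nat_lit 235) (nat_lit 142))) (XT.nd (nat_lit 78) (nat_lit 0) (nat_lit 0) (XT.lf (nat_lit 0) (nat_lit 1828262382199) (nat_lit 76) (nat_lit 3876762143923) (nat_lit 76) (nat_lit 3808015584841) (nat_lit 1) (nat_lit 4) (nat_lit 2) (nat_lit 5) (nat_lit 2) (nat_lit 4) (nat_lit 284) (nat_lit 235) (nat_lit 141)) (XT.lf (nat_lit 0) (nat_lit 2215642024280) (nat_lit 76) (nat_lit 4392196427596) (nat_lit 76) (nat_lit 4323449850851) (nat_lit 1) (nat_lit 4) (nat_lit 2) (nat_lit 5) (nat_lit 2) (nat_lit 4) (nat_lit 285) (nat_lit 235) (nat_lit 140)))) (XT.nd (nat_lit 156) (nat_lit 0) (nat_lit 0) (XT.nd (nat_lit 78) (nat_lit 0) (nat_lit 0) (XT.lf (nat_lit 0) (nat_lit 2661128558328) (nat_lit 76) (nat_lit 4984945880606) (nat_lit 76) (nat_lit 4916199288503)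 (nat_lit 1) (nat_lit 4) (nat_lit 2) (nat_lit 5) (nat_lit 2) (nat_lit 4) (nat_lit 286) (nat_lit 235) (nat_lit 139)) (XT.lf (nat_lit 0) (nat_lit 3173438025228) (nat_lit 76) (nat_lit 5666607774861) (nat_lit 76) (nat_lit 5597861169402) (nat_lit 1) (nat_lit 4) (nat_lit 2) (nat_lit 5) (nat_lit 2) (nat_lit 4) (nat_lit 287) (nat_lit 235) (nat_lit 138))) (XT.nd (nat_lit 78) (nat_lit 0) (nat_lit 0) (XT.lf (nat_lit 0) (nat_lit 3762593871072) (nat_lit 76) (nat_lit 6450518973508) (nat_lit 76) (nat_lit 6381772356436) (nat_lit 1) (nat_lit 4) (nat_lit 2) (nat_lit 5) (nat_lit 2) (nat_lit 4) (nat_lit 288) (nat_lit 235) (nat_lit 137)) (XT.nd (nat_lit 78) (nat_lit 0) (nat_lit 0) (XT.lf (nat_lit 0) (nat_lit 4440123058059) (nat_lit 76) (nat_lit 7352016869565) (nat_lit 76) (nat_lit 7283270242395) (nat_lit 1) (nat_lit 4) (nat_lit 2) (nat_lit 5) (nat_lit 2) (nat_lit 4) (nat_lit 289) (nat_lit 235) (nat_lit 136))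 (XT.lf (nat_lit 0) (nat_lit 5219281592024) (nat_lit 76) (nat_lit 8388739465346) (nat_lit 76) (nat_lit 8319992829395) (nat_lit 1) (nat_lit 4) (nat_lit 2) (nat_lit 5) (nat_lit 2) (nat_lit 4) (nat_lit 290) (nat_lit 235) (nat_lit 135))))))) (XT.nd (nat_lit 30264) (nat_lit 0) (nat_lit 836) (XT.nd (nat_lit 312) (nat_lit 0) (nat_lit 0) (XT.nd (nat_lit 156) (nat_lit 0) (nat_lit 0) (XT.nd (nat_lit 78) (nat_lit 0) (nat_lit 0) (XT.lf (nat_lit 0) (nat_lit 6115313879064) (nat_lit 76) (nat_lit 9580970463813) (nat_lit 76) (nat_lit 9512223820225) (nat_lit 1) (nat_lit 4) (nat_lit 2) (nat_lit 5) (nat_lit 2) (nat_lit 4) (nat_lit 291) (nat_lit 235) (nat_lit 134)) (XT.lf (nat_lit 0) (nat_lit 7145750985666) (nat_lit 76) (nat_lit 10952036123630) (nat_lit 76) (nat_lit 10883289473402) (nat_lit 1) (nat_lit 4) (nat_lit 2) (nat_lit 5) (nat_lit 2) (nat_lit 4) (nat_lit 292) (nat_lit 235) (nat_lit 133))) (XT.nd (nat_lit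 78) (nat_lit 0) (nat_lit 0) (XT.lf (nat_lit 0) (nat_lit 8330753637828) (nat_lit 76) (nat_lit 12528761642489) (nat_lit 76) (nat_lit 12460014986488) (nat_lit 1) (nat_lit 4) (nat_lit 2) (nat_lit 5) (nat_lit 2) (nat_lit 4) (nat_lit 293) (nat_lit 235) (nat_lit 132)) (XT.lf (nat_lit 0) (nat_lit 9693506670050) (nat_lit 76) (nat_lit 14341995997934) (nat_lit 76) (nat_lit 14273249336912) (nat_lit 1) (nat_lit 4) (nat_lit 2) (nat_lit 5) (nat_lit 2) (nat_lit 4) (nat_lit 294) (nat_lit 235) (nat_lit 131)))) (XT.nd (nat_lit 29796) (nat_lit 0) (nat_lit 1216) (XT.nd (nat_lit 78) (nat_lit 0) (nat_lit 0) (XT.lf (nat_lit 0) (nat_lit 11260672641656) (nat_lit 76) (nat_lit 16427215514310) (nat_lit 76) (nat_lit 16358468848922) (nat_lit 1) (nat_lit 4) (nat_lit 2) (nat_lit 5) (nat_lit 2) (nat_lit 4) (nat_lit 295) (nat_lit 235) (nat_lit 130)) (XT.lf (nat_lit 0) (nat_lit 13062913495571) (nat_lit 76) (nat_lit 18825217964764)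 (nat_lit 76) (nat_lit 18756471295580) (nat_lit 1) (nat_lit 4) (nat_lit 2) (nat_lit 5) (nat_lit 2) (nat_lit 4) (nat_lit 296) (nat_lit 235) (nat_lit 129))) (XT.nd (nat_lit 78) (nat_lit 0) (nat_lit 0) (XT.lf (nat_lit 0) (nat_lit 482370716) (nat_lit 380) (nat_lit 9335465016) (nat_lit 380) (nat_lit 9335465016) (nat_lit 17) (nat_lit 3) (nat_lit 22) (nat_lit 3) (nat_lit 22) (nat_lit 5) (nat_lit 236) (nat_lit 236) (nat_lit 188)) (XT.lf (nat_lit 0) (nat_lit 1076775926) (nat_lit 380) (nat_lit 1910107852) (nat_lit 380) (nat_lit 38186462859) (nat_lit 17) (nat_lit 3) (nat_lit 22) (nat_lit 3) (nat_lit 22) (nat_lit 5) (nat_lit 237) (nat_lit 236) (nat_lit 187))))) (XT.nd (nat_lit 312) (nat_lit 456) (nat_lit 0) (XT.nd (nat_lit 156) (nat_lit 0) (nat_lit 76) (XT.nd (nat_lit 78) (nat_lit 0) (nat_lit 0) (XT.lf (nat_lit 0) (nat_lit 2694495097) (nat_lit 304) (nat_lit 26002299797) (nat_lit 380) (nat_lit 15550029813)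 (nat_lit 18) (nat_lit 5) (nat_lit 22) (nat_lit 5) (nat_lit 23) (nat_lit 5) (nat_lit 238) (nat_lit 236) (nat_lit 186)) (XT.lf (nat_lit 0) (nat_lit 4795500235) (nat_lit 304) (nat_lit 6281306429) (nat_lit 380) (nat_lit 36668469768) (nat_lit 18) (nat_lit 5) (nat_lit 22) (nat_lit 5) (nat_lit 23) (nat_lit 5) (nat_lit 239) (nat_lit 236) (nat_lit 185))) (XT.nd (nat_lit 78) (nat_lit 0) (nat_lit 0) (XT.lf (nat_lit 0) (nat_lit 8367326208) (nat_lit 304) (nat_lit 34077894833) (nat_lit 76) (nat_lit 9149964508) (nat_lit 19) (nat_lit 5) (nat_lit 23) (nat_lit 5) (nat_lit 20) (nat_lit 5) (nat_lit 240) (nat_lit 236) (nat_lit 184)) (XT.lf (nat_lit 0) (nat_lit 13341535119) (nat_lit 304) (nat_lit 10929761353) (nat_lit 76) (nat_lit 31621328108) (nat_lit 19) (nat_lit 5) (nat_lit 23) (nat_lit 5) (nat_lit 20) (nat_lit 5) (nat_lit 241) (nat_lit 236) (nat_lit 183)))) (XT.nd (nat_lit 156) (nat_lit 228) (nat_lit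 0) (XT.nd (nat_lit 78) (nat_lit 0) (nat_lit 0) (XT.lf (nat_lit 0) (nat_lit 17219275637) (nat_lit 304) (nat_lit 2551409521) (nat_lit 380) (nat_lit 40957703190) (nat_lit 15) (nat_lit 5) (nat_lit 19) (nat_lit 5) (nat_lit 20) (nat_lit 5) (nat_lit 242) (nat_lit 236) (nat_lit 182)) (XT.lf (nat_lit 0) (nat_lit 28687537601) (nat_lit 380) (nat_lit 16345320156) (nat_lit 76) (nat_lit 21028185835) (nat_lit 15) (nat_lit 5) (nat_lit 20) (nat_lit 5) (nat_lit 16) (nat_lit 5) (nat_lit 243) (nat_lit 236) (nat_lit 181))) (XT.nd (nat_lit 78) (nat_lit 76) (nat_lit 0) (XT.lf (nat_lit 0) (nat_lit 16210652565) (nat_lit 152) (nat_lit 23520673451) (nat_lit 228) (nat_lit 32343882838) (nat_lit 13) (nat_lit 5) (nat_lit 15) (nat_lit 5) (nat_lit 16) (nat_lit 5) (nat_lit 244) (nat_lit 236) (nat_lit 180)) (XT.nd (nat_lit 78) (nat_lit 76) (nat_lit 0) (XT.lf (nat_lit 0) (nat_lit 53374135843) (nat_lit 228) (nat_lit 23471796642)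 (nat_lit 76) (nat_lit 2004218406) (nat_lit 13) (nat_lit 5) (nat_lit 16) (nat_lit 5) (nat_lit 14) (nat_lit 4) (nat_lit 245) (nat_lit 236) (nat_lit 179)) (XT.lf (nat_lit 0) (nat_lit 13892917139) (nat_lit 76) (nat_lit 56863065521) (nat_lit 152) (nat_lit 15631476599) (nat_lit 12) (nat_lit 5) (nat_lit 13) (nat_lit 5) (nat_lit 14) (nat_lit 4) (nat_lit 246) (nat_lit 236) (nat_lit 178))))))))
noncomputable def xc83 : XT := (XT.nd (nat_lit 1326) (nat_lit 228) (nat_lit 0) (XT.nd (nat_lit 624) (nat_lit 152) (nat_lit 0) (XT.nd (nat_lit 312) (nat_lit 228) (nat_lit 0) (XT.nd (nat_lit 156) (nat_lit 0) (nat_lit 0) (XT.nd (nat_lit 78) (nat_lit 228) (nat_lit 0) (XT.lf (nat_lit 0) (nat_lit 59496647986) (nat_lit 76) (nat_lit 32472902864) (nat_lit 152) (nat_lit 2902161470) (nat_lit 12) (nat_lit 5) (nat_lit 13) (nat_lit 5) (nat_lit 14) (nat_lit 4) (nat_lit 247) (nat_lit 236) (nat_lit 177)) (XT.lf (nat_lit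 0) (nat_lit 7489776658) (nat_lit 152) (nat_lit 3509760315) (nat_lit 228) (nat_lit 93510001701) (nat_lit 9) (nat_lit 5) (nat_lit 11) (nat_lit 5) (nat_lit 12) (nat_lit 5) (nat_lit 248) (nat_lit 236) (nat_lit 176))) (XT.nd (nat_lit 78) (nat_lit 0) (nat_lit 0) (XT.lf (nat_lit 0) (nat_lit 29858274032) (nat_lit 228) (nat_lit 56019259905) (nat_lit 76) (nat_lit 29219448755) (nat_lit 9) (nat_lit 5) (nat_lit 12) (nat_lit 5) (nat_lit 10) (nat_lit 4) (nat_lit 249) (nat_lit 236) (nat_lit 175)) (XT.lf (nat_lit 0) (nat_lit 51711073463) (nat_lit 228) (nat_lit 9038851903) (nat_lit 76) (nat_lit 66497838803) (nat_lit 9) (nat_lit 5) (nat_lit 12) (nat_lit 5) (nat_lit 10) (nat_lit 4) (nat_lit 250) (nat_lit 236) (nat_lit 174)))) (XT.nd (nat_lit 156) (nat_lit 152) (nat_lit 0) (XT.nd (nat_lit 78) (nat_lit 0) (nat_lit 0) (XT.lf (nat_lit 0) (nat_lit 49382332278) (nat_lit 76) (nat_lit 29502643138) (nat_lit 152)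 (nat_lit 62029717561) (nat_lit 8) (nat_lit 5) (nat_lit 9) (nat_lit 5) (nat_lit 10) (nat_lit 4) (nat_lit 251) (nat_lit 236) (nat_lit 173)) (XT.lf (nat_lit 0) (nat_lit 110894704767) (nat_lit 152) (nat_lit 39269789880) (nat_lit 0) (nat_lit 6353211671) (nat_lit 8) (nat_lit 5) (nat_lit 10) (nat_lit 4) (nat_lit 8) (nat_lit 4) (nat_lit 252) (nat_lit 236) (nat_lit 172))) (XT.nd (nat_lit 78) (nat_lit 76) (nat_lit 0) (XT.lf (nat_lit 0) (nat_lit 21323261430) (nat_lit 76) (nat_lit 128669108095) (nat_lit 76) (nat_lit 24125836404) (nat_lit 7) (nat_lit 4) (nat_lit 8) (nat_lit 5) (nat_lit 8) (nat_lit 4) (nat_lit 253) (nat_lit 236) (nat_lit 171)) (XT.lf (nat_lit 0) (nat_lit 2691997032) (nat_lit 152) (nat_lit 98757024674) (nat_lit 76) (nat_lit 92583690057) (nat_lit 6) (nat_lit 5) (nat_lit 8) (nat_lit 5) (nat_lit 7) (nat_lit 4) (nat_lit 254) (nat_lit 236) (nat_lit 170))))) (XT.nd (nat_lit 312) (nat_lit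 76) (nat_lit 0) (XT.nd (nat_lit 156) (nat_lit 0) (nat_lit 0) (XT.nd (nat_lit 78) (nat_lit 76) (nat_lit 0) (XT.lf (nat_lit 0) (nat_lit 31061311096) (nat_lit 152) (nat_lit 37764344310) (nat_lit 76) (nat_lit 147936589636) (nat_lit 6) (nat_lit 5) (nat_lit 8) (nat_lit 5) (nat_lit 7) (nat_lit 4) (nat_lit 255) (nat_lit 236) (nat_lit 169)) (XT.lf (nat_lit 0) (nat_lit 35539393663) (nat_lit 76) (nat_lit 29617223213) (nat_lit 152) (nat_lit 177524005488) (nat_lit 5) (nat_lit 5) (nat_lit 6) (nat_lit 5) (nat_lit 7) (nat_lit 4) (nat_lit 256) (nat_lit 236) (nat_lit 168))) (XT.nd (nat_lit 78) (nat_lit 0) (nat_lit 0) (XT.lf (nat_lit 0) (nat_lit 107073961397) (nat_lit 152) (nat_lit 148844283176) (nat_lit 0) (nat_lit 16162353102) (nat_lit 5) (nat_lit 5) (nat_lit 7) (nat_lit 4) (nat_lit 5) (nat_lit 4) (nat_lit 257) (nat_lit 236) (nat_lit 167)) (XT.lf (nat_lit 0) (nat_lit 156688393558) (nat_lit 152) (nat_lit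 83214738954) (nat_lit 0) (nat_lit 65776016327) (nat_lit 5) (nat_lit 5) (nat_lit 7) (nat_lit 4) (nat_lit 5) (nat_lit 4) (nat_lit 258) (nat_lit 236) (nat_lit 166)))) (XT.nd (nat_lit 156) (nat_lit 0) (nat_lit 0) (XT.nd (nat_lit 78) (nat_lit 76) (nat_lit 0) (XT.lf (nat_lit 0) (nat_lit 213744244457) (nat_lit 152) (nat_lit 7742153682) (nat_lit 0) (nat_lit 122831198586) (nat_lit 5) (nat_lit 5) (nat_lit 7) (nat_lit 4) (nat_lit 5) (nat_lit 4) (nat_lit 259) (nat_lit 236) (nat_lit 165)) (XT.lf (nat_lit 0) (nat_lit 86775461854) (nat_lit 76) (nat_lit 196175549191) (nat_lit 76) (nat_lit 105261921895) (nat_lit 4) (nat_lit 4) (nat_lit 5) (nat_lit 5) (nat_lit 5) (nat_lit 4) (nat_lit 260) (nat_lit 236) (nat_lit 164))) (XT.nd (nat_lit 78) (nat_lit 0) (nat_lit 0) (XT.lf (nat_lit 0) (nat_lit 196339677982) (nat_lit 76) (nat_lit 166603206185) (nat_lit 76) (nat_lit 75689073301) (nat_lit 4) (nat_lit 4) (nat_lit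 5) (nat_lit 5) (nat_lit 5) (nat_lit 4) (nat_lit 261) (nat_lit 236) (nat_lit 163)) (XT.nd (nat_lit 78) (nat_lit 0) (nat_lit 0) (XT.lf (nat_lit 0) (nat_lit 322337522844) (nat_lit 76) (nat_lit 132595483288) (nat_lit 76) (nat_lit 41680910763) (nat_lit 4) (nat_lit 4) (nat_lit 5) (nat_lit 5) (nat_lit 5) (nat_lit 4) (nat_lit 262) (nat_lit 236) (nat_lit 162)) (XT.lf (nat_lit 0) (nat_lit 467234171665) (nat_lit 76) (nat_lit 93487012011) (nat_lit 76) (nat_lit 2572057188) (nat_lit 4) (nat_lit 4) (nat_lit 5) (nat_lit 5) (nat_lit 5) (nat_lit 4) (nat_lit 263) (nat_lit 236) (nat_lit 161))))))) (XT.nd (nat_lit 624) (nat_lit 76) (nat_lit 0) (XT.nd (nat_lit 312) (nat_lit 0) (nat_lit 0) (XT.nd (nat_lit 156) (nat_lit 0) (nat_lit 0) (XT.nd (nat_lit 78) (nat_lit 76) (nat_lit 0) (XT.lf (nat_lit 0) (nat_lit 38627682574) (nat_lit 152) (nat_lit 7865769719) (nat_lit 76) (nat_lit 593217701988) (nat_lit 3) (nat_lit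 5) (nat_lit 5) (nat_lit 5) (nat_lit 4) (nat_lit 4) (nat_lit 264) (nat_lit 236) (nat_lit 160)) (XT.lf (nat_lit 0) (nat_lit 90511305898) (nat_lit 152) (nat_lit 624892706929) (nat_lit 0) (nat_lit 11454283006) (nat_lit 2) (nat_lit 5) (nat_lit 4) (nat_lit 4) (nat_lit 2) (nat_lit 4) (nat_lit 265) (nat_lit 236) (nat_lit 159))) (XT.nd (nat_lit 78) (nat_lit 0) (nat_lit 0) (XT.lf (nat_lit 0) (nat_lit 152821831008) (nat_lit 152) (nat_lit 600094435031) (nat_lit 0) (nat_lit 73764589537) (nat_lit 2) (nat_lit 5) (nat_lit 4) (nat_lit 4) (nat_lit 2) (nat_lit 4) (nat_lit 266) (nat_lit 236) (nat_lit 158)) (XT.lf (nat_lit 0) (nat_lit 224478621698) (nat_lit 152) (nat_lit 571577035007) (nat_lit 0) (nat_lit 145421190157) (nat_lit 2) (nat_lit 5) (nat_lit 4) (nat_lit 4) (nat_lit 2) (nat_lit 4) (nat_lit 267) (nat_lit 236) (nat_lit 157)))) (XT.nd (nat_lit 156) (nat_lit 0) (nat_lit 0) (XT.nd (nat_lit 78) (nat_lit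 0) (nat_lit 0) (XT.lf (nat_lit 0) (nat_lit 306883658655) (nat_lit 152) (nat_lit 538782557727) (nat_lit 0) (nat_lit 227826061837) (nat_lit 2) (nat_lit 5) (nat_lit 4) (nat_lit 4) (nat_lit 2) (nat_lit 4) (nat_lit 268) (nat_lit 236) (nat_lit 156)) (XT.lf (nat_lit 0) (nat_lit 401649214342) (nat_lit 152) (nat_lit 501069372115) (nat_lit 0) (nat_lit 322591473804) (nat_lit 2) (nat_lit 5) (nat_lit 4) (nat_lit 4) (nat_lit 2) (nat_lit 4) (nat_lit 269) (nat_lit 236) (nat_lit 155))) (XT.nd (nat_lit 78) (nat_lit 0) (nat_lit 0) (XT.lf (nat_lit 0) (nat_lit 510629397456) (nat_lit 152) (nat_lit 457699611494) (nat_lit 0) (nat_lit 431571531945) (nat_lit 2) (nat_lit 5) (nat_lit 4) (nat_lit 4) (nat_lit 2) (nat_lit 4) (nat_lit 270) (nat_lit 236) (nat_lit 154)) (XT.lf (nat_lit 0) (nat_lit 635956428972) (nat_lit 152) (nat_lit 407824737070) (nat_lit 0) (nat_lit 556898454789) (nat_lit 2) (nat_lit 5) (nat_lit 4)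 (nat_lit 4) (nat_lit 2) (nat_lit 4) (nat_lit 271) (nat_lit 236) (nat_lit 153))))) (XT.nd (nat_lit 312) (nat_lit 76) (nat_lit 0) (XT.nd (nat_lit 156) (nat_lit 0) (nat_lit 0) (XT.nd (nat_lit 78) (nat_lit 0) (nat_lit 0) (XT.lf (nat_lit 0) (nat_lit 780082359507) (nat_lit 152) (nat_lit 350468936083) (nat_lit 0) (nat_lit 701024290826) (nat_lit 2) (nat_lit 5) (nat_lit 4) (nat_lit 4) (nat_lit 2) (nat_lit 4) (nat_lit 272) (nat_lit 236) (nat_lit 152)) (XT.lf (nat_lit 0) (nat_lit 945827044223) (nat_lit 152) (nat_lit 284510029817) (nat_lit 0) (nat_lit 866768893369) (nat_lit 2) (nat_lit 5) (nat_lit 4) (nat_lit 4) (nat_lit 2) (nat_lit 4) (nat_lit 273) (nat_lit 236) (nat_lit 151))) (XT.nd (nat_lit 78) (nat_lit 0) (nat_lit 0) (XT.lf (nat_lit 0) (nat_lit 1136433313908) (nat_lit 152) (nat_lit 208657517934) (nat_lit 0) (nat_lit 1057375091600) (nat_lit 2) (nat_lit 5) (nat_lit 4) (nat_lit 4) (nat_lit 2)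 (nat_lit 4) (nat_lit 274) (nat_lit 236) (nat_lit 150)) (XT.lf (nat_lit 0) (nat_lit 1355630421664) (nat_lit 152) (nat_lit 121427329547) (nat_lit 0) (nat_lit 1276572137223) (nat_lit 2) (nat_lit 5) (nat_lit 4) (nat_lit 4) (nat_lit 2) (nat_lit 4) (nat_lit 275) (nat_lit 236) (nat_lit 149)))) (XT.nd (nat_lit 156) (nat_lit 0) (nat_lit 0) (XT.nd (nat_lit 78) (nat_lit 76) (nat_lit 0) (XT.lf (nat_lit 0) (nat_lit 1607707006557) (nat_lit 152) (nat_lit 21112787058) (nat_lit 0) (nat_lit 1528648668086) (nat_lit 2) (nat_lit 5) (nat_lit 4) (nat_lit 4) (nat_lit 2) (nat_lit 4) (nat_lit 276) (nat_lit 236) (nat_lit 148)) (XT.lf (nat_lit 0) (nat_lit 103459462114) (nat_lit 76) (nat_lit 1798419575353) (nat_lit 76) (nat_lit 1719361189899) (nat_lit 1) (nat_lit 4) (nat_lit 2) (nat_lit 5) (nat_lit 2) (nat_lit 4) (nat_lit 277) (nat_lit 236) (nat_lit 147))) (XT.nd (nat_lit 78) (nat_lit 0) (nat_lit 0) (XT.lf (nat_lit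 0) (nat_lit 249090193470) (nat_lit 76) (nat_lit 1992190229200) (nat_lit 76) (nat_lit 1913131802892) (nat_lit 1) (nat_lit 4) (nat_lit 2) (nat_lit 5) (nat_lit 2) (nat_lit 4) (nat_lit 278) (nat_lit 236) (nat_lit 146)) (XT.nd (nat_lit 78) (nat_lit 0) (nat_lit 0) (XT.lf (nat_lit 0) (nat_lit 416565408829) (nat_lit 76) (nat_lit 2215026543083) (nat_lit 76) (nat_lit 2135968081250) (nat_lit 1) (nat_lit 4) (nat_lit 2) (nat_lit 5) (nat_lit 2) (nat_lit 4) (nat_lit 279) (nat_lit 236) (nat_lit 145)) (XT.lf (nat_lit 0) (nat_lit 609161797186) (nat_lit 76) (nat_lit 2471288357927) (nat_lit 76) (nat_lit 2392229865203) (nat_lit 1) (nat_lit 4) (nat_lit 2) (nat_lit 5) (nat_lit 2) (nat_lit 4) (nat_lit 280) (nat_lit 236) (nat_lit 144))))))))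
noncomputable def xc84 : XT := (XT.nd (nat_lit 1716) (nat_lit 0) (nat_lit 0) (XT.nd (nat_lit 624) (nat_lit 0) (nat_lit 0) (XT.nd (nat_lit 312) (nat_lit 0) (nat_lit 0) (XT.nd (nat_lit 156) (nat_lit 0) (nat_lit 0) (XT.nd (nat_lit 78) (nat_lit 0) (nat_lit 0) (XT.lf (nat_lit 0) (nat_lit 830647548748) (nat_lit 76) (nat_lit 2765989491848) (nat_lit 76) (nat_lit 2686930972261) (nat_lit 1) (nat_lit 4) (nat_lit 2) (nat_lit 5) (nat_lit 2) (nat_lit 4) (nat_lit 281) (nat_lit 236) (nat_lit 143)) (XT.lf (nat_lit 0) (nat_lit 1085356080394) (nat_lit 76) (nat_lit 3104895836596) (nat_lit 76) (nat_lit 3025837293651) (nat_lit 1) (nat_lit 4) (nat_lit 2) (nat_lit 5) (nat_lit 2) (nat_lit 4) (nat_lit 282) (nat_lit 236) (nat_lit 142))) (XT.nd (nat_lit 78) (nat_lit 0) (nat_lit 0) (XT.lf (nat_lit 0) (nat_lit 1378270819916) (nat_lit 76) (nat_lit 3494638168482) (nat_lit 76) (nat_lit 3415579605225) (nat_lit 1) (nat_lit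 4) (nat_lit 2) (nat_lit 5) (nat_lit 2) (nat_lit 4) (nat_lit 283) (nat_lit 236) (nat_lit 141)) (XT.lf (nat_lit 0) (nat_lit 1715122707872) (nat_lit 76) (nat_lit 3942841880955) (nat_lit 76) (nat_lit 3863783300036) (nat_lit 1) (nat_lit 4) (nat_lit 2) (nat_lit 5) (nat_lit 2) (nat_lit 4) (nat_lit 284) (nat_lit 236) (nat_lit 140)))) (XT.nd (nat_lit 156) (nat_lit 0) (nat_lit 0) (XT.nd (nat_lit 78) (nat_lit 0) (nat_lit 0) (XT.lf (nat_lit 0) (nat_lit 2102502324676) (nat_lit 76) (nat_lit 4458276177087) (nat_lit 76) (nat_lit 4379217580809) (nat_lit 1) (nat_lit 4) (nat_lit 2) (nat_lit 5) (nat_lit 2) (nat_lit 4) (nat_lit 285) (nat_lit 236) (nat_lit 139)) (XT.lf (nat_lit 0) (nat_lit 2547988836745) (nat_lit 76) (nat_lit 5051025640931) (nat_lit 76) (nat_lit 4971967031298) (nat_lit 1) (nat_lit 4) (nat_lit 2) (nat_lit 5) (nat_lit 2) (nat_lit 4) (nat_lit 286) (nat_lit 236) (nat_lit 138))) (XT.nd (nat_lit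 78) (nat_lit 0) (nat_lit 0) (XT.lf (nat_lit 0) (nat_lit 3060298284533) (nat_lit 76) (nat_lit 5732687544606) (nat_lit 76) (nat_lit 5653628923360) (nat_lit 1) (nat_lit 4) (nat_lit 2) (nat_lit 5) (nat_lit 2) (nat_lit 4) (nat_lit 287) (nat_lit 236) (nat_lit 137)) (XT.lf (nat_lit 0) (nat_lit 3649454113757) (nat_lit 76) (nat_lit 6516598751445) (nat_lit 76) (nat_lit 6437540120101) (nat_lit 1) (nat_lit 4) (nat_lit 2) (nat_lit 5) (nat_lit 2) (nat_lit 4) (nat_lit 288) (nat_lit 236) (nat_lit 136))))) (XT.nd (nat_lit 312) (nat_lit 0) (nat_lit 0) (XT.nd (nat_lit 156) (nat_lit 0) (nat_lit 0) (XT.nd (nat_lit 78) (nat_lit 0) (nat_lit 0) (XT.lf (nat_lit 0) (nat_lit 4326983286293) (nat_lit 76) (nat_lit 7418096654626) (nat_lit 76) (nat_lit 7339038014500) (nat_lit 1) (nat_lit 4) (nat_lit 2) (nat_lit 5) (nat_lit 2) (nat_lit 4) (nat_lit 289) (nat_lit 236) (nat_lit 135)) (XT.lf (nat_lit 0) (nat_lit 5106141807690)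 (nat_lit 76) (nat_lit 8454819256602) (nat_lit 76) (nat_lit 8375760608840) (nat_lit 1) (nat_lit 4) (nat_lit 2) (nat_lit 5) (nat_lit 2) (nat_lit 4) (nat_lit 290) (nat_lit 236) (nat_lit 134))) (XT.nd (nat_lit 78) (nat_lit 0) (nat_lit 0) (XT.lf (nat_lit 0) (nat_lit 6002174083803) (nat_lit 76) (nat_lit 9647050260454) (nat_lit 76) (nat_lit 9567991606053) (nat_lit 1) (nat_lit 4) (nat_lit 2) (nat_lit 5) (nat_lit 2) (nat_lit 4) (nat_lit 291) (nat_lit 236) (nat_lit 133)) (XT.lf (nat_lit 0) (nat_lit 7032611180902) (nat_lit 76) (nat_lit 11018115924955) (nat_lit 76) (nat_lit 10939057264779) (nat_lit 1) (nat_lit 4) (nat_lit 2) (nat_lit 5) (nat_lit 2) (nat_lit 4) (nat_lit 292) (nat_lit 236) (nat_lit 132)))) (XT.nd (nat_lit 156) (nat_lit 0) (nat_lit 0) (XT.nd (nat_lit 78) (nat_lit 0) (nat_lit 0) (XT.lf (nat_lit 0) (nat_lit 8217613824802) (nat_lit 76) (nat_lit 12594841447887) (nat_lit 76) (nat_lit 12515782782691)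 (nat_lit 1) (nat_lit 4) (nat_lit 2) (nat_lit 5) (nat_lit 2) (nat_lit 4) (nat_lit 293) (nat_lit 236) (nat_lit 131)) (XT.lf (nat_lit 0) (nat_lit 9580366849838) (nat_lit 76) (nat_lit 14408075806874) (nat_lit 76) (nat_lit 14329017137312) (nat_lit 1) (nat_lit 4) (nat_lit 2) (nat_lit 5) (nat_lit 2) (nat_lit 4) (nat_lit 294) (nat_lit 236) (nat_lit 130))) (XT.nd (nat_lit 468) (nat_lit 0) (nat_lit 0) (XT.lf (nat_lit 0) (nat_lit 11147532815197) (nat_lit 76) (nat_lit 16493295326330) (nat_lit 76) (nat_lit 16414236652971) (nat_lit 1) (nat_lit 4) (nat_lit 2) (nat_lit 5) (nat_lit 2) (nat_lit 4) (nat_lit 295) (nat_lit 236) (nat_lit 129)) (XT.nd (nat_lit 78) (nat_lit 0) (nat_lit 0) (XT.lf (nat_lit 0) (nat_lit 26923877644758) (nat_lit 76) (nat_lit 37484781652113) (nat_lit 76) (nat_lit 37405722964387) (nat_lit 1) (nat_lit 4) (nat_lit 2) (nat_lit 5) (nat_lit 2) (nat_lit 4) (nat_lit 301) (nat_lit 236) (nat_lit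 123)) (XT.lf (nat_lit 0) (nat_lit 31092570173467) (nat_lit 76) (nat_lit 43031507075902) (nat_lit 76) (nat_lit 42952448386749) (nat_lit 1) (nat_lit 4) (nat_lit 2) (nat_lit 5) (nat_lit 2) (nat_lit 4) (nat_lit 302) (nat_lit 236) (nat_lit 122))))))) (XT.nd (nat_lit 29796) (nat_lit 0) (nat_lit 532) (XT.nd (nat_lit 29484) (nat_lit 0) (nat_lit 1064) (XT.nd (nat_lit 29328) (nat_lit 0) (nat_lit 1216) (XT.nd (nat_lit 29250) (nat_lit 0) (nat_lit 1216) (XT.lf (nat_lit 0) (nat_lit 35886566577092) (nat_lit 76) (nat_lit 49410241315424) (nat_lit 76) (nat_lit 49331182625030) (nat_lit 1) (nat_lit 4) (nat_lit 2) (nat_lit 5) (nat_lit 2) (nat_lit 4) (nat_lit 303) (nat_lit 236) (nat_lit 121)) (XT.lf (nat_lit 0) (nat_lit 592762192) (nat_lit 380) (nat_lit 10713771247) (nat_lit 380) (nat_lit 10713771247) (nat_lit 17) (nat_lit 3) (nat_lit 22) (nat_lit 3) (nat_lit 22) (nat_lit 5) (nat_lit 237) (nat_lit 237) (nat_lit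 186))) (XT.nd (nat_lit 78) (nat_lit 0) (nat_lit 76) (XT.lf (nat_lit 0) (nat_lit 1304441651) (nat_lit 380) (nat_lit 2158339644) (nat_lit 380) (nat_lit 43876147901) (nat_lit 17) (nat_lit 3) (nat_lit 22) (nat_lit 3) (nat_lit 22) (nat_lit 5) (nat_lit 238) (nat_lit 237) (nat_lit 185)) (XT.lf (nat_lit 0) (nat_lit 3156772469) (nat_lit 304) (nat_lit 29855881946) (nat_lit 380) (nat_lit 17862046326) (nat_lit 18) (nat_lit 5) (nat_lit 22) (nat_lit 5) (nat_lit 23) (nat_lit 5) (nat_lit 239) (nat_lit 237) (nat_lit 184)))) (XT.nd (nat_lit 156) (nat_lit 228) (nat_lit 0) (XT.nd (nat_lit 78) (nat_lit 0) (nat_lit 76) (XT.lf (nat_lit 0) (nat_lit 5565349712) (nat_lit 304) (nat_lit 7182839072) (nat_lit 380) (nat_lit 42150924617) (nat_lit 18) (nat_lit 5) (nat_lit 22) (nat_lit 5) (nat_lit 23) (nat_lit 5) (nat_lit 240) (nat_lit 237) (nat_lit 183)) (XT.lf (nat_lit 0) (nat_lit 9667688149) (nat_lit 304) (nat_lit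 39143327496) (nat_lit 76) (nat_lit 10516331475) (nat_lit 19) (nat_lit 5) (nat_lit 23) (nat_lit 5) (nat_lit 20) (nat_lit 5) (nat_lit 241) (nat_lit 237) (nat_lit 182))) (XT.nd (nat_lit 78) (nat_lit 304) (nat_lit 0) (XT.lf (nat_lit 0) (nat_lit 15382124526) (nat_lit 304) (nat_lit 12529006806) (nat_lit 76) (nat_lit 36359198881) (nat_lit 19) (nat_lit 5) (nat_lit 23) (nat_lit 5) (nat_lit 20) (nat_lit 5) (nat_lit 242) (nat_lit 237) (nat_lit 181)) (XT.lf (nat_lit 0) (nat_lit 19840557607) (nat_lit 304) (nat_lit 2931545338) (nat_lit 380) (nat_lit 47059924290) (nat_lit 15) (nat_lit 5) (nat_lit 19) (nat_lit 5) (nat_lit 20) (nat_lit 5) (nat_lit 243) (nat_lit 237) (nat_lit 180))))) (XT.nd (nat_lit 312) (nat_lit 304) (nat_lit 0) (XT.nd (nat_lit 156) (nat_lit 76) (nat_lit 0) (XT.nd (nat_lit 78) (nat_lit 152) (nat_lit 0) (XT.lf (nat_lit 0) (nat_lit 33021904470) (nat_lit 380) (nat_lit 18758941361) (nat_lit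 76) (nat_lit 24184453982) (nat_lit 15) (nat_lit 5) (nat_lit 20) (nat_lit 5) (nat_lit 16) (nat_lit 5) (nat_lit 244) (nat_lit 237) (nat_lit 179)) (XT.lf (nat_lit 0) (nat_lit 18678691958) (nat_lit 152) (nat_lit 27041003864) (nat_lit 228) (nat_lit 37162306871) (nat_lit 13) (nat_lit 5) (nat_lit 15) (nat_lit 5) (nat_lit 16) (nat_lit 5) (nat_lit 245) (nat_lit 237) (nat_lit 178))) (XT.nd (nat_lit 78) (nat_lit 76) (nat_lit 0) (XT.lf (nat_lit 0) (nat_lit 61405467234) (nat_lit 228) (nat_lit 26957255500) (nat_lit 76) (nat_lit 2311006656) (nat_lit 13) (nat_lit 5) (nat_lit 16) (nat_lit 5) (nat_lit 14) (nat_lit 4) (nat_lit 246) (nat_lit 237) (nat_lit 177)) (XT.lf (nat_lit 0) (nat_lit 16010560319) (nat_lit 76) (nat_lit 65382138039) (nat_lit 152) (nat_lit 17949240756) (nat_lit 12) (nat_lit 5) (nat_lit 13) (nat_lit 5) (nat_lit 14) (nat_lit 4) (nat_lit 247) (nat_lit 237) (nat_lit 176)))) (XT.nd (nat_lit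 156) (nat_lit 76) (nat_lit 0) (XT.nd (nat_lit 78) (nat_lit 228) (nat_lit 0) (XT.lf (nat_lit 0) (nat_lit 68450454409) (nat_lit 76) (nat_lit 37334805850) (nat_lit 152) (nat_lit 3314044532) (nat_lit 12) (nat_lit 5) (nat_lit 13) (nat_lit 5) (nat_lit 14) (nat_lit 4) (nat_lit 248) (nat_lit 237) (nat_lit 175)) (XT.lf (nat_lit 0) (nat_lit 8643314158) (nat_lit 152) (nat_lit 4025967463) (nat_lit 228) (nat_lit 107513622839) (nat_lit 9) (nat_lit 5) (nat_lit 11) (nat_lit 5) (nat_lit 12) (nat_lit 5) (nat_lit 249) (nat_lit 237) (nat_lit 174))) (XT.nd (nat_lit 78) (nat_lit 76) (nat_lit 0) (XT.lf (nat_lit 0) (nat_lit 34354614110) (nat_lit 228) (nat_lit 64393704282) (nat_lit 76) (nat_lit 33610491076) (nat_lit 9) (nat_lit 5) (nat_lit 12) (nat_lit 5) (nat_lit 10) (nat_lit 4) (nat_lit 250) (nat_lit 237) (nat_lit 173)) (XT.nd (nat_lit 78) (nat_lit 76) (nat_lit 0) (XT.lf (nat_lit 0) (nat_lit 59483037936)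 (nat_lit 228) (nat_lit 10369945246) (nat_lit 76) (nat_lit 76479579848) (nat_lit 9) (nat_lit 5) (nat_lit 12) (nat_lit 5) (nat_lit 10) (nat_lit 4) (nat_lit 251) (nat_lit 237) (nat_lit 172)) (XT.lf (nat_lit 0) (nat_lit 56813292270) (nat_lit 76) (nat_lit 33918714457) (nat_lit 152) (nat_lit 71317686365) (nat_lit 8) (nat_lit 5) (nat_lit 9) (nat_lit 5) (nat_lit 10) (nat_lit 4) (nat_lit 252) (nat_lit 237) (nat_lit 171))))))))
noncomputable def xc85 : XT := (XT.nd (nat_lit 1326) (nat_lit 76) (nat_lit 0) (XT.nd (nat_lit 624) (nat_lit 228) (nat_lit 0) (XT.nd (nat_lit 312) (nat_lit 76) (nat_lit 0) (XT.nd (nat_lit 156) (nat_lit 76) (nat_lit 0) (XT.nd (nat_lit 78) (nat_lit 76) (nat_lit 0) (XT.lf (nat_lit 0) (nat_lit 127541667988) (nat_lit 152) (nat_lit 45138147190) (nat_lit 0) (nat_lit 7313580345) (nat_lit 8) (nat_lit 5) (nat_lit 10) (nat_lit 4) (nat_lit 8) (nat_lit 4) (nat_lit 253) (nat_lit 237)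 (nat_lit 170)) (XT.lf (nat_lit 0) (nat_lit 24542856763) (nat_lit 76) (nat_lit 147960335634) (nat_lit 76) (nat_lit 27730903118) (nat_lit 7) (nat_lit 4) (nat_lit 8) (nat_lit 5) (nat_lit 8) (nat_lit 4) (nat_lit 254) (nat_lit 237) (nat_lit 169))) (XT.nd (nat_lit 78) (nat_lit 0) (nat_lit 0) (XT.lf (nat_lit 0) (nat_lit 3106735193) (nat_lit 152) (nat_lit 113551121304) (nat_lit 76) (nat_lit 106478086315) (nat_lit 6) (nat_lit 5) (nat_lit 8) (nat_lit 5) (nat_lit 7) (nat_lit 4) (nat_lit 255) (nat_lit 237) (nat_lit 168)) (XT.lf (nat_lit 0) (nat_lit 35730019592) (nat_lit 152) (nat_lit 43412076764) (nat_lit 76) (nat_lit 170133028298) (nat_lit 6) (nat_lit 5) (nat_lit 8) (nat_lit 5) (nat_lit 7) (nat_lit 4) (nat_lit 256) (nat_lit 237) (nat_lit 167)))) (XT.nd (nat_lit 156) (nat_lit 0) (nat_lit 0) (XT.nd (nat_lit 78) (nat_lit 0) (nat_lit 0) (XT.lf (nat_lit 0) (nat_lit 40886452851) (nat_lit 76) (nat_lit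 34052596458) (nat_lit 152) (nat_lit 204142299017) (nat_lit 5) (nat_lit 5) (nat_lit 6) (nat_lit 5) (nat_lit 7) (nat_lit 4) (nat_lit 257) (nat_lit 237) (nat_lit 166)) (XT.lf (nat_lit 0) (nat_lit 123143089051) (nat_lit 152) (nat_lit 171155952635) (nat_lit 0) (nat_lit 18592417660) (nat_lit 5) (nat_lit 5) (nat_lit 7) (nat_lit 4) (nat_lit 5) (nat_lit 4) (nat_lit 258) (nat_lit 237) (nat_lit 165))) (XT.nd (nat_lit 78) (nat_lit 0) (nat_lit 0) (XT.lf (nat_lit 0) (nat_lit 180198638196) (nat_lit 152) (nat_lit 95683929782) (nat_lit 0) (nat_lit 75647385379) (nat_lit 5) (nat_lit 5) (nat_lit 7) (nat_lit 4) (nat_lit 5) (nat_lit 4) (nat_lit 259) (nat_lit 237) (nat_lit 164)) (XT.lf (nat_lit 0) (nat_lit 245811955564) (nat_lit 152) (nat_lit 8892154982) (nat_lit 0) (nat_lit 141260197159) (nat_lit 5) (nat_lit 5) (nat_lit 7) (nat_lit 4) (nat_lit 5) (nat_lit 4) (nat_lit 260) (nat_lit 237) (nat_lit 163)))))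 (XT.nd (nat_lit 312) (nat_lit 152) (nat_lit 0) (XT.nd (nat_lit 156) (nat_lit 0) (nat_lit 0) (XT.nd (nat_lit 78) (nat_lit 0) (nat_lit 0) (XT.lf (nat_lit 0) (nat_lit 99802588260) (nat_lit 76) (nat_lit 225596804063) (nat_lit 76) (nat_lit 121044606017) (nat_lit 4) (nat_lit 4) (nat_lit 5) (nat_lit 5) (nat_lit 5) (nat_lit 4) (nat_lit 261) (nat_lit 237) (nat_lit 162)) (XT.lf (nat_lit 0) (nat_lit 225800027182) (nat_lit 76) (nat_lit 191589271889) (nat_lit 76) (nat_lit 87036691546) (nat_lit 4) (nat_lit 4) (nat_lit 5) (nat_lit 5) (nat_lit 5) (nat_lit 4) (nat_lit 262) (nat_lit 237) (nat_lit 161))) (XT.nd (nat_lit 78) (nat_lit 0) (nat_lit 0) (XT.lf (nat_lit 0) (nat_lit 370696323012) (nat_lit 76) (nat_lit 152480966457) (nat_lit 76) (nat_lit 47928053682) (nat_lit 4) (nat_lit 4) (nat_lit 5) (nat_lit 5) (nat_lit 5) (nat_lit 4) (nat_lit 263) (nat_lit 237) (nat_lit 160)) (XT.lf (nat_lit 0) (nat_lit 537326403277)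 (nat_lit 76) (nat_lit 107506725269) (nat_lit 76) (nat_lit 2953523423) (nat_lit 4) (nat_lit 4) (nat_lit 5) (nat_lit 5) (nat_lit 5) (nat_lit 4) (nat_lit 264) (nat_lit 237) (nat_lit 159)))) (XT.nd (nat_lit 156) (nat_lit 0) (nat_lit 0) (XT.nd (nat_lit 78) (nat_lit 76) (nat_lit 0) (XT.lf (nat_lit 0) (nat_lit 44425274750) (nat_lit 152) (nat_lit 9039112498) (nat_lit 76) (nat_lit 682202916699) (nat_lit 3) (nat_lit 5) (nat_lit 5) (nat_lit 5) (nat_lit 4) (nat_lit 4) (nat_lit 265) (nat_lit 237) (nat_lit 158)) (XT.lf (nat_lit 0) (nat_lit 104091374000) (nat_lit 152) (nat_lit 718620016190) (nat_lit 0) (nat_lit 13175137659) (nat_lit 2) (nat_lit 5) (nat_lit 4) (nat_lit 4) (nat_lit 2) (nat_lit 4) (nat_lit 266) (nat_lit 237) (nat_lit 157))) (XT.nd (nat_lit 78) (nat_lit 0) (nat_lit 0) (XT.lf (nat_lit 0) (nat_lit 175748038022) (nat_lit 152) (nat_lit 690102863956) (nat_lit 0) (nat_lit 84831636404) (nat_lit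 2) (nat_lit 5) (nat_lit 4) (nat_lit 4) (nat_lit 2) (nat_lit 4) (nat_lit 267) (nat_lit 237) (nat_lit 156)) (XT.nd (nat_lit 78) (nat_lit 0) (nat_lit 0) (XT.lf (nat_lit 0) (nat_lit 258152964833) (nat_lit 152) (nat_lit 657308602146) (nat_lit 0) (nat_lit 167236419495) (nat_lit 2) (nat_lit 5) (nat_lit 4) (nat_lit 4) (nat_lit 2) (nat_lit 4) (nat_lit 268) (nat_lit 237) (nat_lit 155)) (XT.lf (nat_lit 0) (nat_lit 352918424740) (nat_lit 152) (nat_lit 619595603897) (nat_lit 0) (nat_lit 262001754429) (nat_lit 2) (nat_lit 5) (nat_lit 4) (nat_lit 4) (nat_lit 2) (nat_lit 4) (nat_lit 269) (nat_lit 237) (nat_lit 154))))))) (XT.nd (nat_lit 624) (nat_lit 76) (nat_lit 0) (XT.nd (nat_lit 312) (nat_lit 0) (nat_lit 0) (XT.nd (nat_lit 156) (nat_lit 0) (nat_lit 0) (XT.nd (nat_lit 78) (nat_lit 0) (nat_lit 0) (XT.lf (nat_lit 0) (nat_lit 461898524569) (nat_lit 152) (nat_lit 576226006202) (nat_lit 0) (nat_lit 370981745585)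 (nat_lit 2) (nat_lit 5) (nat_lit 4) (nat_lit 4) (nat_lit 2) (nat_lit 4) (nat_lit 270) (nat_lit 237) (nat_lit 153)) (XT.lf (nat_lit 0) (nat_lit 587225483662) (nat_lit 152) (nat_lit 526351273453) (nat_lit 0) (nat_lit 496308610180) (nat_lit 2) (nat_lit 5) (nat_lit 4) (nat_lit 4) (nat_lit 2) (nat_lit 4) (nat_lit 271) (nat_lit 237) (nat_lit 152))) (XT.nd (nat_lit 78) (nat_lit 0) (nat_lit 0) (XT.lf (nat_lit 0) (nat_lit 731351351221) (nat_lit 152) (nat_lit 468995595661) (nat_lit 0) (nat_lit 640434395567) (nat_lit 2) (nat_lit 5) (nat_lit 4) (nat_lit 4) (nat_lit 2) (nat_lit 4) (nat_lit 272) (nat_lit 237) (nat_lit 151)) (XT.lf (nat_lit 0) (nat_lit 897095981175) (nat_lit 152) (nat_lit 403036796522) (nat_lit 0) (nat_lit 806178954067) (nat_lit 2) (nat_lit 5) (nat_lit 4) (nat_lit 4) (nat_lit 2) (nat_lit 4) (nat_lit 273) (nat_lit 237) (nat_lit 150)))) (XT.nd (nat_lit 156) (nat_lit 0) (nat_lit 0) (XT.nd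 (nat_lit 78) (nat_lit 0) (nat_lit 0) (XT.lf (nat_lit 0) (nat_lit 1087702203240) (nat_lit 152) (nat_lit 327184377791) (nat_lit 0) (nat_lit 996785113998) (nat_lit 2) (nat_lit 5) (nat_lit 4) (nat_lit 4) (nat_lit 2) (nat_lit 4) (nat_lit 274) (nat_lit 237) (nat_lit 149)) (XT.lf (nat_lit 0) (nat_lit 1306899269589) (nat_lit 152) (nat_lit 239954270407) (nat_lit 0) (nat_lit 1215982126317) (nat_lit 2) (nat_lit 5) (nat_lit 4) (nat_lit 4) (nat_lit 2) (nat_lit 4) (nat_lit 275) (nat_lit 237) (nat_lit 148))) (XT.nd (nat_lit 78) (nat_lit 0) (nat_lit 0) (XT.lf (nat_lit 0) (nat_lit 1558975818475) (nat_lit 152) (nat_lit 139639798356) (nat_lit 0) (nat_lit 1468058628221) (nat_lit 2) (nat_lit 5) (nat_lit 4) (nat_lit 4) (nat_lit 2) (nat_lit 4) (nat_lit 276) (nat_lit 237) (nat_lit 147)) (XT.lf (nat_lit 0) (nat_lit 1848863782376) (nat_lit 152) (nat_lit 24278287184) (nat_lit 0) (nat_lit 1757946551268) (nat_lit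 2) (nat_lit 5) (nat_lit 4) (nat_lit 4) (nat_lit 2) (nat_lit 4) (nat_lit 277) (nat_lit 237) (nat_lit 146))))) (XT.nd (nat_lit 312) (nat_lit 0) (nat_lit 0) (XT.nd (nat_lit 156) (nat_lit 0) (nat_lit 0) (XT.nd (nat_lit 78) (nat_lit 0) (nat_lit 0) (XT.lf (nat_lit 0) (nat_lit 118979734912) (nat_lit 76) (nat_lit 2068181844511) (nat_lit 76) (nat_lit 1977264577878) (nat_lit 1) (nat_lit 4) (nat_lit 2) (nat_lit 5) (nat_lit 2) (nat_lit 4) (nat_lit 278) (nat_lit 237) (nat_lit 145)) (XT.lf (nat_lit 0) (nat_lit 286454899431) (nat_lit 76) (nat_lit 2291018183453) (nat_lit 76) (nat_lit 2200100885929) (nat_lit 1) (nat_lit 4) (nat_lit 2) (nat_lit 5) (nat_lit 2) (nat_lit 4) (nat_lit 279) (nat_lit 237) (nat_lit 144))) (XT.nd (nat_lit 78) (nat_lit 0) (nat_lit 0) (XT.lf (nat_lit 0) (nat_lit 479051243580) (nat_lit 76) (nat_lit 2547280020088) (nat_lit 76) (nat_lit 2456362695701) (nat_lit 1) (nat_lit 4) (nat_lit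 2) (nat_lit 5) (nat_lit 2) (nat_lit 4) (nat_lit 280) (nat_lit 237) (nat_lit 143)) (XT.lf (nat_lit 0) (nat_lit 700536956700) (nat_lit 76) (nat_lit 2841981172957) (nat_lit 76) (nat_lit 2751063825212) (nat_lit 1) (nat_lit 4) (nat_lit 2) (nat_lit 5) (nat_lit 2) (nat_lit 4) (nat_lit 281) (nat_lit 237) (nat_lit 142)))) (XT.nd (nat_lit 156) (nat_lit 0) (nat_lit 0) (XT.nd (nat_lit 78) (nat_lit 0) (nat_lit 0) (XT.lf (nat_lit 0) (nat_lit 955245454918) (nat_lit 76) (nat_lit 3180887534182) (nat_lit 76) (nat_lit 3089970166126) (nat_lit 1) (nat_lit 4) (nat_lit 2) (nat_lit 5) (nat_lit 2) (nat_lit 4) (nat_lit 282) (nat_lit 237) (nat_lit 141)) (XT.lf (nat_lit 0) (nat_lit 1248160165372) (nat_lit 76) (nat_lit 3570629880396) (nat_lit 76) (nat_lit 3479712494677) (nat_lit 1) (nat_lit 4) (nat_lit 2) (nat_lit 5) (nat_lit 2) (nat_lit 4) (nat_lit 283) (nat_lit 237) (nat_lit 140))) (XT.nd (nat_lit 78) (nat_lit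 0) (nat_lit 0) (XT.lf (nat_lit 0) (nat_lit 1585012028051) (nat_lit 76) (nat_lit 4018833605329) (nat_lit 76) (nat_lit 3927916204251) (nat_lit 1) (nat_lit 4) (nat_lit 2) (nat_lit 5) (nat_lit 2) (nat_lit 4) (nat_lit 284) (nat_lit 237) (nat_lit 139)) (XT.nd (nat_lit 78) (nat_lit 0) (nat_lit 0) (XT.lf (nat_lit 0) (nat_lit 1972391622876) (nat_lit 76) (nat_lit 4534267912294) (nat_lit 76) (nat_lit 4443350497861) (nat_lit 1) (nat_lit 4) (nat_lit 2) (nat_lit 5) (nat_lit 2) (nat_lit 4) (nat_lit 285) (nat_lit 237) (nat_lit 138)) (XT.lf (nat_lit 0) (nat_lit 2417878115833) (nat_lit 76) (nat_lit 5127017385559) (nat_lit 76) (nat_lit 5036099959513) (nat_lit 1) (nat_lit 4) (nat_lit 2) (nat_lit 5) (nat_lit 2) (nat_lit 4) (nat_lit 286) (nat_lit 237) (nat_lit 137))))))))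
noncomputable def xc86 : XT := (XT.nd (nat_lit 30966) (nat_lit 0) (nat_lit 304) (XT.nd (nat_lit 1014) (nat_lit 0) (nat_lit 0) (XT.nd (nat_lit 312) (nat_lit 0) (nat_lit 0) (XT.nd (nat_lit 156) (nat_lit 0) (nat_lit 0) (XT.nd (nat_lit 78) (nat_lit 0) (nat_lit 0) (XT.lf (nat_lit 0) (nat_lit 2930187547001) (nat_lit 76) (nat_lit 5808679297426) (nat_lit 76) (nat_lit 5717761861281) (nat_lit 1) (nat_lit 4) (nat_lit 2) (nat_lit 5) (nat_lit 2) (nat_lit 4) (nat_lit 287) (nat_lit 237) (nat_lit 136)) (XT.lf (nat_lit 0) (nat_lit 3519343361773) (nat_lit 76) (nat_lit 6592590511389) (nat_lit 76) (nat_lit 6501673066463) (nat_lit 1) (nat_lit 4) (nat_lit 2) (nat_lit 5) (nat_lit 2) (nat_lit 4) (nat_lit 288) (nat_lit 237) (nat_lit 135))) (XT.nd (nat_lit 78) (nat_lit 0) (nat_lit 0) (XT.lf (nat_lit 0) (nat_lit 4196872521742) (nat_lit 76) (nat_lit 7494088420764) (nat_lit 76) (nat_lit 7403170968202) (nat_lit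 1) (nat_lit 4) (nat_lit 2) (nat_lit 5) (nat_lit 2) (nat_lit 4) (nat_lit 289) (nat_lit 237) (nat_lit 134)) (XT.lf (nat_lit 0) (nat_lit 4976031032212) (nat_lit 76) (nat_lit 8530811028126) (nat_lit 76) (nat_lit 8439893568924) (nat_lit 1) (nat_lit 4) (nat_lit 2) (nat_lit 5) (nat_lit 2) (nat_lit 4) (nat_lit 290) (nat_lit 237) (nat_lit 133)))) (XT.nd (nat_lit 156) (nat_lit 0) (nat_lit 0) (XT.nd (nat_lit 78) (nat_lit 0) (nat_lit 0) (XT.lf (nat_lit 0) (nat_lit 5872063298822) (nat_lit 76) (nat_lit 9723042036662) (nat_lit 76) (nat_lit 9632124571687) (nat_lit 1) (nat_lit 4) (nat_lit 2) (nat_lit 5) (nat_lit 2) (nat_lit 4) (nat_lit 291) (nat_lit 237) (nat_lit 132)) (XT.lf (nat_lit 0) (nat_lit 6902500387659) (nat_lit 76) (nat_lit 11094107705236) (nat_lit 76) (nat_lit 11003190235239) (nat_lit 1) (nat_lit 4) (nat_lit 2) (nat_lit 5) (nat_lit 2) (nat_lit 4) (nat_lit 292) (nat_lit 237) (nat_lit 131)))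 (XT.nd (nat_lit 78) (nat_lit 0) (nat_lit 0) (XT.lf (nat_lit 0) (nat_lit 8087503024373) (nat_lit 76) (nat_lit 12670833231710) (nat_lit 76) (nat_lit 12579915757347) (nat_lit 1) (nat_lit 4) (nat_lit 2) (nat_lit 5) (nat_lit 2) (nat_lit 4) (nat_lit 293) (nat_lit 237) (nat_lit 130)) (XT.lf (nat_lit 0) (nat_lit 9450256043162) (nat_lit 76) (nat_lit 14484067593776) (nat_lit 76) (nat_lit 14393150115617) (nat_lit 1) (nat_lit 4) (nat_lit 2) (nat_lit 5) (nat_lit 2) (nat_lit 4) (nat_lit 294) (nat_lit 237) (nat_lit 129))))) (XT.nd (nat_lit 29562) (nat_lit 0) (nat_lit 1216) (XT.nd (nat_lit 156) (nat_lit 0) (nat_lit 0) (XT.nd (nat_lit 78) (nat_lit 0) (nat_lit 0) (XT.lf (nat_lit 0) (nat_lit 23168816785080) (nat_lit 76) (nat_lit 32737533953888) (nat_lit 76) (nat_lit 32646616461361) (nat_lit 1) (nat_lit 4) (nat_lit 2) (nat_lit 5) (nat_lit 2) (nat_lit 4) (nat_lit 300) (nat_lit 237) (nat_lit 123)) (XT.lf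 (nat_lit 0) (nat_lit 26793766812087) (nat_lit 76) (nat_lit 37560773451828) (nat_lit 76) (nat_lit 37469855957875) (nat_lit 1) (nat_lit 4) (nat_lit 2) (nat_lit 5) (nat_lit 2) (nat_lit 4) (nat_lit 301) (nat_lit 237) (nat_lit 122))) (XT.nd (nat_lit 78) (nat_lit 0) (nat_lit 0) (XT.lf (nat_lit 0) (nat_lit 30962459338755) (nat_lit 76) (nat_lit 43107498876624) (nat_lit 76) (nat_lit 43016581381430) (nat_lit 1) (nat_lit 4) (nat_lit 2) (nat_lit 5) (nat_lit 2) (nat_lit 4) (nat_lit 302) (nat_lit 237) (nat_lit 121)) (XT.lf (nat_lit 0) (nat_lit 35756455740603) (nat_lit 76) (nat_lit 49486233117021) (nat_lit 76) (nat_lit 49395315620748) (nat_lit 1) (nat_lit 4) (nat_lit 2) (nat_lit 5) (nat_lit 2) (nat_lit 4) (nat_lit 303) (nat_lit 237) (nat_lit 120)))) (XT.nd (nat_lit 156) (nat_lit 0) (nat_lit 76) (XT.nd (nat_lit 78) (nat_lit 0) (nat_lit 0) (XT.lf (nat_lit 0) (nat_lit 710437101) (nat_lit 380) (nat_lit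 12304191549) (nat_lit 380) (nat_lit 12304191549) (nat_lit 17) (nat_lit 3) (nat_lit 22) (nat_lit 3) (nat_lit 22) (nat_lit 5) (nat_lit 238) (nat_lit 238) (nat_lit 184)) (XT.lf (nat_lit 0) (nat_lit 1550126300) (nat_lit 380) (nat_lit 2453142095) (nat_lit 380) (nat_lit 50428621590) (nat_lit 17) (nat_lit 3) (nat_lit 22) (nat_lit 3) (nat_lit 22) (nat_lit 5) (nat_lit 239) (nat_lit 238) (nat_lit 183))) (XT.nd (nat_lit 78) (nat_lit 0) (nat_lit 0) (XT.lf (nat_lit 0) (nat_lit 3674222636) (nat_lit 304) (nat_lit 34298904828) (nat_lit 380) (nat_lit 20525861434) (nat_lit 18) (nat_lit 5) (nat_lit 22) (nat_lit 5) (nat_lit 23) (nat_lit 5) (nat_lit 240) (nat_lit 238) (nat_lit 182)) (XT.nd (nat_lit 78) (nat_lit 0) (nat_lit 76) (XT.lf (nat_lit 0) (nat_lit 6438355905) (nat_lit 304) (nat_lit 8229517620) (nat_lit 380) (nat_lit 48460092144) (nat_lit 18) (nat_lit 5) (nat_lit 22) (nat_lit 5) (nat_lit 23) (nat_lit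 5) (nat_lit 241) (nat_lit 238) (nat_lit 181)) (XT.lf (nat_lit 0) (nat_lit 11152066711) (nat_lit 304) (nat_lit 44979853794) (nat_lit 76) (nat_lit 12089147768) (nat_lit 19) (nat_lit 5) (nat_lit 23) (nat_lit 5) (nat_lit 20) (nat_lit 5) (nat_lit 242) (nat_lit 238) (nat_lit 180))))))) (XT.nd (nat_lit 624) (nat_lit 304) (nat_lit 0) (XT.nd (nat_lit 312) (nat_lit 304) (nat_lit 0) (XT.nd (nat_lit 156) (nat_lit 152) (nat_lit 0) (XT.nd (nat_lit 78) (nat_lit 304) (nat_lit 0) (XT.lf (nat_lit 0) (nat_lit 17719204370) (nat_lit 304) (nat_lit 14377946675) (nat_lit 76) (nat_lit 41809049645) (nat_lit 19) (nat_lit 5) (nat_lit 23) (nat_lit 5) (nat_lit 20) (nat_lit 5) (nat_lit 243) (nat_lit 238) (nat_lit 179)) (XT.lf (nat_lit 0) (nat_lit 22845670076) (nat_lit 304) (nat_lit 3369329606) (nat_lit 380) (nat_lit 54087582590) (nat_lit 15) (nat_lit 5) (nat_lit 19) (nat_lit 5) (nat_lit 20) (nat_lit 5) (nat_lit 244)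 (nat_lit 238) (nat_lit 178))) (XT.nd (nat_lit 78) (nat_lit 152) (nat_lit 0) (XT.lf (nat_lit 0) (nat_lit 37998809217) (nat_lit 380) (nat_lit 21543915407) (nat_lit 76) (nat_lit 27813664818) (nat_lit 15) (nat_lit 5) (nat_lit 20) (nat_lit 5) (nat_lit 16) (nat_lit 5) (nat_lit 245) (nat_lit 238) (nat_lit 177)) (XT.lf (nat_lit 0) (nat_lit 21508050767) (nat_lit 152) (nat_lit 31091278750) (nat_lit 228) (nat_lit 42711580392) (nat_lit 13) (nat_lit 5) (nat_lit 15) (nat_lit 5) (nat_lit 16) (nat_lit 5) (nat_lit 246) (nat_lit 238) (nat_lit 176)))) (XT.nd (nat_lit 156) (nat_lit 228) (nat_lit 0) (XT.nd (nat_lit 78) (nat_lit 76) (nat_lit 0) (XT.lf (nat_lit 0) (nat_lit 70635350469) (nat_lit 228) (nat_lit 30974143910) (nat_lit 76) (nat_lit 2662312088) (nat_lit 13) (nat_lit 5) (nat_lit 16) (nat_lit 5) (nat_lit 14) (nat_lit 4) (nat_lit 247) (nat_lit 238) (nat_lit 175)) (XT.lf (nat_lit 0) (nat_lit 18437630650)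 (nat_lit 76) (nat_lit 75181604447) (nat_lit 152) (nat_lit 20621243253) (nat_lit 12) (nat_lit 5) (nat_lit 13) (nat_lit 5) (nat_lit 14) (nat_lit 4) (nat_lit 248) (nat_lit 238) (nat_lit 174))) (XT.nd (nat_lit 78) (nat_lit 228) (nat_lit 0) (XT.lf (nat_lit 0) (nat_lit 78740184555) (nat_lit 76) (nat_lit 42928196903) (nat_lit 152) (nat_lit 3793426328) (nat_lit 12) (nat_lit 5) (nat_lit 13) (nat_lit 5) (nat_lit 14) (nat_lit 4) (nat_lit 249) (nat_lit 238) (nat_lit 173)) (XT.lf (nat_lit 0) (nat_lit 9962549279) (nat_lit 152) (nat_lit 4622106893) (nat_lit 228) (nat_lit 123623366365) (nat_lit 9) (nat_lit 5) (nat_lit 11) (nat_lit 5) (nat_lit 12) (nat_lit 5) (nat_lit 250) (nat_lit 238) (nat_lit 172))))) (XT.nd (nat_lit 312) (nat_lit 228) (nat_lit 0) (XT.nd (nat_lit 156) (nat_lit 76) (nat_lit 0) (XT.nd (nat_lit 78) (nat_lit 0) (nat_lit 0) (XT.lf (nat_lit 0) (nat_lit 39521113578) (nat_lit 228) (nat_lit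 74031251713) (nat_lit 76) (nat_lit 38658208411) (nat_lit 9) (nat_lit 5) (nat_lit 12) (nat_lit 5) (nat_lit 10) (nat_lit 4) (nat_lit 251) (nat_lit 238) (nat_lit 171)) (XT.lf (nat_lit 0) (nat_lit 68417065237) (nat_lit 228) (nat_lit 11906734241) (nat_lit 76) (nat_lit 87956859150) (nat_lit 9) (nat_lit 5) (nat_lit 12) (nat_lit 5) (nat_lit 10) (nat_lit 4) (nat_lit 252) (nat_lit 238) (nat_lit 170))) (XT.nd (nat_lit 78) (nat_lit 0) (nat_lit 0) (XT.lf (nat_lit 0) (nat_lit 65353138775) (nat_lit 76) (nat_lit 38999470471) (nat_lit 152) (nat_lit 82002871396) (nat_lit 8) (nat_lit 5) (nat_lit 9) (nat_lit 5) (nat_lit 10) (nat_lit 4) (nat_lit 253) (nat_lit 238) (nat_lit 169)) (XT.lf (nat_lit 0) (nat_lit 146682564694) (nat_lit 152) (nat_lit 51892150046) (nat_lit 0) (nat_lit 8416202973) (nat_lit 8) (nat_lit 5) (nat_lit 10) (nat_lit 4) (nat_lit 8) (nat_lit 4) (nat_lit 254) (nat_lit 238) (nat_lit 168))))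 (XT.nd (nat_lit 156) (nat_lit 76) (nat_lit 0) (XT.nd (nat_lit 78) (nat_lit 76) (nat_lit 0) (XT.lf (nat_lit 0) (nat_lit 28240244535) (nat_lit 76) (nat_lit 170147475828) (nat_lit 76) (nat_lit 31880097189) (nat_lit 7) (nat_lit 4) (nat_lit 8) (nat_lit 5) (nat_lit 8) (nat_lit 4) (nat_lit 255) (nat_lit 238) (nat_lit 167)) (XT.lf (nat_lit 0) (nat_lit 3581016630) (nat_lit 152) (nat_lit 130569077159) (nat_lit 76) (nat_lit 122454973364) (nat_lit 6) (nat_lit 5) (nat_lit 8) (nat_lit 5) (nat_lit 7) (nat_lit 4) (nat_lit 256) (nat_lit 238) (nat_lit 166))) (XT.nd (nat_lit 78) (nat_lit 76) (nat_lit 0) (XT.lf (nat_lit 0) (nat_lit 41096714842) (nat_lit 152) (nat_lit 49911094939) (nat_lit 76) (nat_lit 195657481762) (nat_lit 6) (nat_lit 5) (nat_lit 8) (nat_lit 5) (nat_lit 7) (nat_lit 4) (nat_lit 257) (nat_lit 238) (nat_lit 165)) (XT.nd (nat_lit 78) (nat_lit 0) (nat_lit 0) (XT.lf (nat_lit 0) (nat_lit 47031632603)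 (nat_lit 76) (nat_lit 39155033951) (nat_lit 152) (nat_lit 234755850075) (nat_lit 5) (nat_lit 5) (nat_lit 6) (nat_lit 5) (nat_lit 7) (nat_lit 4) (nat_lit 258) (nat_lit 238) (nat_lit 164)) (XT.lf (nat_lit 0) (nat_lit 141620626847) (nat_lit 152) (nat_lit 196818023777) (nat_lit 0) (nat_lit 21385599094) (nat_lit 5) (nat_lit 5) (nat_lit 7) (nat_lit 4) (nat_lit 5) (nat_lit 4) (nat_lit 259) (nat_lit 238) (nat_lit 163))))))))
noncomputable def xc87 : XT := (XT.nd (nat_lit 1326) (nat_lit 76) (nat_lit 0) (XT.nd (nat_lit 624) (nat_lit 0) (nat_lit 0) (XT.nd (nat_lit 312) (nat_lit 152) (nat_lit 0) (XT.nd (nat_lit 156) (nat_lit 76) (nat_lit 0) (XT.nd (nat_lit 78) (nat_lit 0) (nat_lit 0) (XT.lf (nat_lit 0) (nat_lit 207233716045) (nat_lit 152) (nat_lit 110026674247) (nat_lit 0) (nat_lit 86998248651) (nat_lit 5) (nat_lit 5) (nat_lit 7) (nat_lit 4) (nat_lit 5) (nat_lit 4) (nat_lit 260) (nat_lit 238) (nat_lit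 162)) (XT.lf (nat_lit 0) (nat_lit 282688342046) (nat_lit 152) (nat_lit 10217417358) (nat_lit 0) (nat_lit 162452492355) (nat_lit 5) (nat_lit 5) (nat_lit 7) (nat_lit 4) (nat_lit 5) (nat_lit 4) (nat_lit 261) (nat_lit 238) (nat_lit 161))) (XT.nd (nat_lit 78) (nat_lit 0) (nat_lit 0) (XT.lf (nat_lit 0) (nat_lit 114781148240) (nat_lit 76) (nat_lit 259432485347) (nat_lit 76) (nat_lit 139196303224) (nat_lit 4) (nat_lit 4) (nat_lit 5) (nat_lit 5) (nat_lit 5) (nat_lit 4) (nat_lit 262) (nat_lit 238) (nat_lit 160)) (XT.lf (nat_lit 0) (nat_lit 259677137121) (nat_lit 76) (nat_lit 220324324129) (nat_lit 76) (nat_lit 100087852935) (nat_lit 4) (nat_lit 4) (nat_lit 5) (nat_lit 5) (nat_lit 5) (nat_lit 4) (nat_lit 263) (nat_lit 238) (nat_lit 159)))) (XT.nd (nat_lit 156) (nat_lit 152) (nat_lit 0) (XT.nd (nat_lit 78) (nat_lit 0) (nat_lit 0) (XT.lf (nat_lit 0) (nat_lit 426306950474) (nat_lit 76) (nat_lit 175350208344)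 (nat_lit 76) (nat_lit 55113485784) (nat_lit 4) (nat_lit 4) (nat_lit 5) (nat_lit 5) (nat_lit 5) (nat_lit 4) (nat_lit 264) (nat_lit 238) (nat_lit 158)) (XT.lf (nat_lit 0) (nat_lit 617930736820) (nat_lit 76) (nat_lit 123630209641) (nat_lit 76) (nat_lit 3393268501) (nat_lit 4) (nat_lit 4) (nat_lit 5) (nat_lit 5) (nat_lit 5) (nat_lit 4) (nat_lit 265) (nat_lit 238) (nat_lit 157))) (XT.nd (nat_lit 78) (nat_lit 76) (nat_lit 0) (XT.lf (nat_lit 0) (nat_lit 51091666938) (nat_lit 152) (nat_lit 10390047291) (nat_lit 76) (nat_lit 784535289488) (nat_lit 3) (nat_lit 5) (nat_lit 5) (nat_lit 5) (nat_lit 4) (nat_lit 4) (nat_lit 266) (nat_lit 238) (nat_lit 156)) (XT.lf (nat_lit 0) (nat_lit 119707629981) (nat_lit 152) (nat_lit 826408030506) (nat_lit 0) (nat_lit 15153459123) (nat_lit 2) (nat_lit 5) (nat_lit 4) (nat_lit 4) (nat_lit 2) (nat_lit 4) (nat_lit 267) (nat_lit 238) (nat_lit 155))))) (XT.nd (nat_lit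 312) (nat_lit 0) (nat_lit 0) (XT.nd (nat_lit 156) (nat_lit 0) (nat_lit 0) (XT.nd (nat_lit 78) (nat_lit 0) (nat_lit 0) (XT.lf (nat_lit 0) (nat_lit 202112461012) (nat_lit 152) (nat_lit 793613956060) (nat_lit 0) (nat_lit 97558165181) (nat_lit 2) (nat_lit 5) (nat_lit 4) (nat_lit 4) (nat_lit 2) (nat_lit 4) (nat_lit 268) (nat_lit 238) (nat_lit 154)) (XT.lf (nat_lit 0) (nat_lit 296877837634) (nat_lit 152) (nat_lit 755901120738) (nat_lit 0) (nat_lit 192323433130) (nat_lit 2) (nat_lit 5) (nat_lit 4) (nat_lit 4) (nat_lit 2) (nat_lit 4) (nat_lit 269) (nat_lit 238) (nat_lit 153))) (XT.nd (nat_lit 78) (nat_lit 0) (nat_lit 0) (XT.lf (nat_lit 0) (nat_lit 405857865039) (nat_lit 152) (nat_lit 712531664717) (nat_lit 0) (nat_lit 301303366037) (nat_lit 2) (nat_lit 5) (nat_lit 4) (nat_lit 4) (nat_lit 2) (nat_lit 4) (nat_lit 270) (nat_lit 238) (nat_lit 152)) (XT.lf (nat_lit 0) (nat_lit 531184761157) (nat_lit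 152) (nat_lit 662657055163) (nat_lit 0) (nat_lit 426630179982) (nat_lit 2) (nat_lit 5) (nat_lit 4) (nat_lit 4) (nat_lit 2) (nat_lit 4) (nat_lit 271) (nat_lit 238) (nat_lit 151)))) (XT.nd (nat_lit 156) (nat_lit 0) (nat_lit 0) (XT.nd (nat_lit 78) (nat_lit 0) (nat_lit 0) (XT.lf (nat_lit 0) (nat_lit 675310573953) (nat_lit 152) (nat_lit 605301484497) (nat_lit 0) (nat_lit 570755921325) (nat_lit 2) (nat_lit 5) (nat_lit 4) (nat_lit 4) (nat_lit 2) (nat_lit 4) (nat_lit 272) (nat_lit 238) (nat_lit 150)) (XT.lf (nat_lit 0) (nat_lit 841055156288) (nat_lit 152) (nat_lit 539342778512) (nat_lit 0) (nat_lit 736500441525) (nat_lit 2) (nat_lit 5) (nat_lit 4) (nat_lit 4) (nat_lit 2) (nat_lit 4) (nat_lit 273) (nat_lit 238) (nat_lit 149))) (XT.nd (nat_lit 78) (nat_lit 0) (nat_lit 0) (XT.lf (nat_lit 0) (nat_lit 1031661336945) (nat_lit 152) (nat_lit 463490440784) (nat_lit 0) (nat_lit 927106568154) (nat_lit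 2) (nat_lit 5) (nat_lit 4) (nat_lit 4) (nat_lit 2) (nat_lit 4) (nat_lit 274) (nat_lit 238) (nat_lit 148)) (XT.nd (nat_lit 78) (nat_lit 0) (nat_lit 0) (XT.lf (nat_lit 0) (nat_lit 1250858367287) (nat_lit 152) (nat_lit 376260403837) (nat_lit 0) (nat_lit 1146303551513) (nat_lit 2) (nat_lit 5) (nat_lit 4) (nat_lit 4) (nat_lit 2) (nat_lit 4) (nat_lit 275) (nat_lit 238) (nat_lit 147)) (XT.lf (nat_lit 0) (nat_lit 1502934884862) (nat_lit 152) (nat_lit 275945993036) (nat_lit 0) (nat_lit 1398380028234) (nat_lit 2) (nat_lit 5) (nat_lit 4) (nat_lit 4) (nat_lit 2) (nat_lit 4) (nat_lit 276) (nat_lit 238) (nat_lit 146))))))) (XT.nd (nat_lit 624) (nat_lit 0) (nat_lit 0) (XT.nd (nat_lit 312) (nat_lit 0) (nat_lit 0) (XT.nd (nat_lit 156) (nat_lit 76) (nat_lit 0) (XT.nd (nat_lit 78) (nat_lit 0) (nat_lit 0) (XT.lf (nat_lit 0) (nat_lit 1792822821537) (nat_lit 152) (nat_lit 160584535124) (nat_lit 0) (nat_lit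 1688267929384) (nat_lit 2) (nat_lit 5) (nat_lit 4) (nat_lit 4) (nat_lit 2) (nat_lit 4) (nat_lit 277) (nat_lit 238) (nat_lit 145)) (XT.lf (nat_lit 0) (nat_lit 2126193897812) (nat_lit 152) (nat_lit 27918958101) (nat_lit 0) (nat_lit 2021638974767) (nat_lit 2) (nat_lit 5) (nat_lit 4) (nat_lit 4) (nat_lit 2) (nat_lit 4) (nat_lit 278) (nat_lit 238) (nat_lit 144))) (XT.nd (nat_lit 78) (nat_lit 0) (nat_lit 0) (XT.lf (nat_lit 0) (nat_lit 136827718576) (nat_lit 76) (nat_lit 2378408616730) (nat_lit 76) (nat_lit 2273853666823) (nat_lit 1) (nat_lit 4) (nat_lit 2) (nat_lit 5) (nat_lit 2) (nat_lit 4) (nat_lit 279) (nat_lit 238) (nat_lit 143)) (XT.lf (nat_lit 0) (nat_lit 329424024282) (nat_lit 76) (nat_lit 2634670472313) (nat_lit 76) (nat_lit 2530115499047) (nat_lit 1) (nat_lit 4) (nat_lit 2) (nat_lit 5) (nat_lit 2) (nat_lit 4) (nat_lit 280) (nat_lit 238) (nat_lit 142)))) (XT.nd (nat_lit 156) (nat_lit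 0) (nat_lit 0) (XT.nd (nat_lit 78) (nat_lit 0) (nat_lit 0) (XT.lf (nat_lit 0) (nat_lit 550909703974) (nat_lit 76) (nat_lit 2929371641659) (nat_lit 76) (nat_lit 2824816648082) (nat_lit 1) (nat_lit 4) (nat_lit 2) (nat_lit 5) (nat_lit 2) (nat_lit 4) (nat_lit 281) (nat_lit 238) (nat_lit 141)) (XT.lf (nat_lit 0) (nat_lit 805618173124) (nat_lit 76) (nat_lit 3268278017212) (nat_lit 76) (nat_lit 3163723005973) (nat_lit 1) (nat_lit 4) (nat_lit 2) (nat_lit 5) (nat_lit 2) (nat_lit 4) (nat_lit 282) (nat_lit 238) (nat_lit 140))) (XT.nd (nat_lit 78) (nat_lit 0) (nat_lit 0) (XT.lf (nat_lit 0) (nat_lit 1098532858303) (nat_lit 76) (nat_lit 3658020375885) (nat_lit 76) (nat_lit 3553465349287) (nat_lit 1) (nat_lit 4) (nat_lit 2) (nat_lit 5) (nat_lit 2) (nat_lit 4) (nat_lit 283) (nat_lit 238) (nat_lit 139)) (XT.lf (nat_lit 0) (nat_lit 1435384699002) (nat_lit 76) (nat_lit 4106224111651) (nat_lit 76) (nat_lit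 4001669071698) (nat_lit 1) (nat_lit 4) (nat_lit 2) (nat_lit 5) (nat_lit 2) (nat_lit 4) (nat_lit 284) (nat_lit 238) (nat_lit 138))))) (XT.nd (nat_lit 312) (nat_lit 0) (nat_lit 0) (XT.nd (nat_lit 156) (nat_lit 0) (nat_lit 0) (XT.nd (nat_lit 78) (nat_lit 0) (nat_lit 0) (XT.lf (nat_lit 0) (nat_lit 1822764274715) (nat_lit 76) (nat_lit 4621658428037) (nat_lit 76) (nat_lit 4517103376471) (nat_lit 1) (nat_lit 4) (nat_lit 2) (nat_lit 5) (nat_lit 2) (nat_lit 4) (nat_lit 285) (nat_lit 238) (nat_lit 137)) (XT.lf (nat_lit 0) (nat_lit 2268250751052) (nat_lit 76) (nat_lit 5214407909494) (nat_lit 76) (nat_lit 5109852847829) (nat_lit 1) (nat_lit 4) (nat_lit 2) (nat_lit 5) (nat_lit 2) (nat_lit 4) (nat_lit 286) (nat_lit 238) (nat_lit 136))) (XT.nd (nat_lit 78) (nat_lit 0) (nat_lit 0) (XT.lf (nat_lit 0) (nat_lit 2780560167768) (nat_lit 76) (nat_lit 5896069828485) (nat_lit 76) (nat_lit 5791514758038) (nat_lit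 1) (nat_lit 4) (nat_lit 2) (nat_lit 5) (nat_lit 2) (nat_lit 4) (nat_lit 287) (nat_lit 238) (nat_lit 135)) (XT.lf (nat_lit 0) (nat_lit 3369715969973) (nat_lit 76) (nat_lit 6679981048642) (nat_lit 76) (nat_lit 6575425970560) (nat_lit 1) (nat_lit 4) (nat_lit 2) (nat_lit 5) (nat_lit 2) (nat_lit 4) (nat_lit 288) (nat_lit 238) (nat_lit 134)))) (XT.nd (nat_lit 156) (nat_lit 0) (nat_lit 0) (XT.nd (nat_lit 78) (nat_lit 0) (nat_lit 0) (XT.lf (nat_lit 0) (nat_lit 4047245119014) (nat_lit 76) (nat_lit 7581478963403) (nat_lit 76) (nat_lit 7476923878681) (nat_lit 1) (nat_lit 4) (nat_lit 2) (nat_lit 5) (nat_lit 2) (nat_lit 4) (nat_lit 289) (nat_lit 238) (nat_lit 133)) (XT.lf (nat_lit 0) (nat_lit 4826403619982) (nat_lit 76) (nat_lit 8618201575449) (nat_lit 76) (nat_lit 8513646484953) (nat_lit 1) (nat_lit 4) (nat_lit 2) (nat_lit 5) (nat_lit 2) (nat_lit 4) (nat_lit 290) (nat_lit 238) (nat_lit 132))) (XT.nd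 (nat_lit 78) (nat_lit 0) (nat_lit 0) (XT.lf (nat_lit 0) (nat_lit 5722435878329) (nat_lit 76) (nat_lit 9810432588058) (nat_lit 76) (nat_lit 9705877492541) (nat_lit 1) (nat_lit 4) (nat_lit 2) (nat_lit 5) (nat_lit 2) (nat_lit 4) (nat_lit 291) (nat_lit 238) (nat_lit 131)) (XT.nd (nat_lit 468) (nat_lit 0) (nat_lit 0) (XT.lf (nat_lit 0) (nat_lit 6752872959981) (nat_lit 76) (nat_lit 11181498260173) (nat_lit 76) (nat_lit 11076943160291) (nat_lit 1) (nat_lit 4) (nat_lit 2) (nat_lit 5) (nat_lit 2) (nat_lit 4) (nat_lit 292) (nat_lit 238) (nat_lit 130)) (XT.lf (nat_lit 0) (nat_lit 17126075851494) (nat_lit 76) (nat_lit 24983741223984) (nat_lit 76) (nat_lit 24879186107579) (nat_lit 1) (nat_lit 4) (nat_lit 2) (nat_lit 5) (nat_lit 2) (nat_lit 4) (nat_lit 298) (nat_lit 238) (nat_lit 124))))))))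
noncomputable def xc88 : XT := (XT.nd (nat_lit 30654) (nat_lit 0) (nat_lit 152) (XT.nd (nat_lit 29952) (nat_lit 0) (nat_lit 836) (XT.nd (nat_lit 312) (nat_lit 0) (nat_lit 0) (XT.nd (nat_lit 156) (nat_lit 0) (nat_lit 0) (XT.nd (nat_lit 78) (nat_lit 0) (nat_lit 0) (XT.lf (nat_lit 0) (nat_lit 19867058864851) (nat_lit 76) (nat_lit 28630803223167) (nat_lit 76) (nat_lit 28526248105121) (nat_lit 1) (nat_lit 4) (nat_lit 2) (nat_lit 5) (nat_lit 2) (nat_lit 4) (nat_lit 299) (nat_lit 238) (nat_lit 123)) (XT.lf (nat_lit 0) (nat_lit 23019189325160) (nat_lit 76) (nat_lit 32824924524717) (nat_lit 76) (nat_lit 32720369405244) (nat_lit 1) (nat_lit 4) (nat_lit 2) (nat_lit 5) (nat_lit 2) (nat_lit 4) (nat_lit 300) (nat_lit 238) (nat_lit 122))) (XT.nd (nat_lit 78) (nat_lit 0) (nat_lit 0) (XT.lf (nat_lit 0) (nat_lit 26644139350125) (nat_lit 76) (nat_lit 37648164023665) (nat_lit 76) (nat_lit 37543608902950)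 (nat_lit 1) (nat_lit 4) (nat_lit 2) (nat_lit 5) (nat_lit 2) (nat_lit 4) (nat_lit 301) (nat_lit 238) (nat_lit 121)) (XT.lf (nat_lit 0) (nat_lit 30812831875016) (nat_lit 76) (nat_lit 43194889449336) (nat_lit 76) (nat_lit 43090334327542) (nat_lit 1) (nat_lit 4) (nat_lit 2) (nat_lit 5) (nat_lit 2) (nat_lit 4) (nat_lit 302) (nat_lit 238) (nat_lit 120)))) (XT.nd (nat_lit 29484) (nat_lit 0) (nat_lit 1216) (XT.nd (nat_lit 29406) (nat_lit 0) (nat_lit 1216) (XT.lf (nat_lit 0) (nat_lit 35606828275320) (nat_lit 76) (nat_lit 49573623690495) (nat_lit 76) (nat_lit 49469068567762) (nat_lit 1) (nat_lit 4) (nat_lit 2) (nat_lit 5) (nat_lit 2) (nat_lit 4) (nat_lit 303) (nat_lit 238) (nat_lit 119)) (XT.lf (nat_lit 0) (nat_lit 838749798) (nat_lit 380) (nat_lit 14137233978) (nat_lit 380) (nat_lit 14137233978) (nat_lit 17) (nat_lit 3) (nat_lit 22) (nat_lit 3) (nat_lit 22) (nat_lit 5) (nat_lit 239) (nat_lit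 239) (nat_lit 182))) (XT.nd (nat_lit 78) (nat_lit 0) (nat_lit 76) (XT.lf (nat_lit 0) (nat_lit 1820466343) (nat_lit 380) (nat_lit 2799224187) (nat_lit 380) (nat_lit 57971025607) (nat_lit 17) (nat_lit 3) (nat_lit 22) (nat_lit 3) (nat_lit 22) (nat_lit 5) (nat_lit 240) (nat_lit 239) (nat_lit 181)) (XT.lf (nat_lit 0) (nat_lit 4258576672) (nat_lit 304) (nat_lit 39417003759) (nat_lit 380) (nat_lit 23593026592) (nat_lit 18) (nat_lit 5) (nat_lit 22) (nat_lit 5) (nat_lit 23) (nat_lit 5) (nat_lit 241) (nat_lit 239) (nat_lit 180))))) (XT.nd (nat_lit 312) (nat_lit 228) (nat_lit 0) (XT.nd (nat_lit 156) (nat_lit 228) (nat_lit 0) (XT.nd (nat_lit 78) (nat_lit 0) (nat_lit 76) (XT.lf (nat_lit 0) (nat_lit 7432996804) (nat_lit 304) (nat_lit 9440695877) (nat_lit 380) (nat_lit 55718919829) (nat_lit 18) (nat_lit 5) (nat_lit 22) (nat_lit 5) (nat_lit 23) (nat_lit 5) (nat_lit 242) (nat_lit 239) (nat_lit 179))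 (XT.lf (nat_lit 0) (nat_lit 12850755991) (nat_lit 304) (nat_lit 51700387383) (nat_lit 76) (nat_lit 13899016395) (nat_lit 19) (nat_lit 5) (nat_lit 23) (nat_lit 5) (nat_lit 20) (nat_lit 5) (nat_lit 243) (nat_lit 239) (nat_lit 178))) (XT.nd (nat_lit 78) (nat_lit 304) (nat_lit 0) (XT.lf (nat_lit 0) (nat_lit 20399588741) (nat_lit 304) (nat_lit 16511643475) (nat_lit 76) (nat_lit 48077360537) (nat_lit 19) (nat_lit 5) (nat_lit 23) (nat_lit 5) (nat_lit 20) (nat_lit 5) (nat_lit 244) (nat_lit 239) (nat_lit 177)) (XT.lf (nat_lit 0) (nat_lit 26294470551) (nat_lit 304) (nat_lit 3873256432) (nat_lit 380) (nat_lit 62177029737) (nat_lit 15) (nat_lit 5) (nat_lit 19) (nat_lit 5) (nat_lit 20) (nat_lit 5) (nat_lit 245) (nat_lit 239) (nat_lit 176)))) (XT.nd (nat_lit 156) (nat_lit 76) (nat_lit 0) (XT.nd (nat_lit 78) (nat_lit 152) (nat_lit 0) (XT.lf (nat_lit 0) (nat_lit 43716490015) (nat_lit 380) (nat_lit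 24753674998) (nat_lit 76) (nat_lit 31986881074) (nat_lit 15) (nat_lit 5) (nat_lit 20) (nat_lit 5) (nat_lit 16) (nat_lit 5) (nat_lit 246) (nat_lit 239) (nat_lit 175)) (XT.lf (nat_lit 0) (nat_lit 24755093933) (nat_lit 152) (nat_lit 35750527694) (nat_lit 228) (nat_lit 49099359032) (nat_lit 13) (nat_lit 5) (nat_lit 15) (nat_lit 5) (nat_lit 16) (nat_lit 5) (nat_lit 247) (nat_lit 239) (nat_lit 174))) (XT.nd (nat_lit 78) (nat_lit 76) (nat_lit 0) (XT.lf (nat_lit 0) (nat_lit 81245067519) (nat_lit 228) (nat_lit 35600076525) (nat_lit 76) (nat_lit 3065178321) (nat_lit 13) (nat_lit 5) (nat_lit 16) (nat_lit 5) (nat_lit 14) (nat_lit 4) (nat_lit 248) (nat_lit 239) (nat_lit 173)) (XT.nd (nat_lit 78) (nat_lit 0) (nat_lit 0) (XT.lf (nat_lit 0) (nat_lit 21222546539) (nat_lit 76) (nat_lit 86452906136) (nat_lit 152) (nat_lit 23699016799) (nat_lit 12) (nat_lit 5) (nat_lit 13) (nat_lit 5) (nat_lit 14) (nat_lit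 4) (nat_lit 249) (nat_lit 239) (nat_lit 172)) (XT.lf (nat_lit 0) (nat_lit 90567969883) (nat_lit 76) (nat_lit 49362262110) (nat_lit 152) (nat_lit 4349037718) (nat_lit 12) (nat_lit 5) (nat_lit 13) (nat_lit 5) (nat_lit 14) (nat_lit 4) (nat_lit 250) (nat_lit 239) (nat_lit 171))))))) (XT.nd (nat_lit 624) (nat_lit 228) (nat_lit 0) (XT.nd (nat_lit 312) (nat_lit 152) (nat_lit 0) (XT.nd (nat_lit 156) (nat_lit 76) (nat_lit 0) (XT.nd (nat_lit 78) (nat_lit 0) (nat_lit 0) (XT.lf (nat_lit 0) (nat_lit 11474124864) (nat_lit 152) (nat_lit 5309558512) (nat_lit 228) (nat_lit 142153790110) (nat_lit 9) (nat_lit 5) (nat_lit 11) (nat_lit 5) (nat_lit 12) (nat_lit 5) (nat_lit 251) (nat_lit 239) (nat_lit 170)) (XT.lf (nat_lit 0) (nat_lit 45459342885) (nat_lit 228) (nat_lit 85119676173) (nat_lit 76) (nat_lit 44461585172) (nat_lit 9) (nat_lit 5) (nat_lit 12) (nat_lit 5) (nat_lit 10) (nat_lit 4) (nat_lit 252) (nat_lit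 239) (nat_lit 169))) (XT.nd (nat_lit 78) (nat_lit 76) (nat_lit 0) (XT.lf (nat_lit 0) (nat_lit 78688374822) (nat_lit 228) (nat_lit 13678602380) (nat_lit 76) (nat_lit 101154427587) (nat_lit 9) (nat_lit 5) (nat_lit 12) (nat_lit 5) (nat_lit 10) (nat_lit 4) (nat_lit 253) (nat_lit 239) (nat_lit 168)) (XT.lf (nat_lit 0) (nat_lit 75169608771) (nat_lit 76) (nat_lit 44844059356) (nat_lit 152) (nat_lit 94293874563) (nat_lit 8) (nat_lit 5) (nat_lit 9) (nat_lit 5) (nat_lit 10) (nat_lit 4) (nat_lit 254) (nat_lit 239) (nat_lit 167)))) (XT.nd (nat_lit 156) (nat_lit 76) (nat_lit 0) (XT.nd (nat_lit 78) (nat_lit 76) (nat_lit 0) (XT.lf (nat_lit 0) (nat_lit 168692243544) (nat_lit 152) (nat_lit 59663330419) (nat_lit 0) (nat_lit 9682856916) (nat_lit 8) (nat_lit 5) (nat_lit 10) (nat_lit 4) (nat_lit 8) (nat_lit 4) (nat_lit 255) (nat_lit 239) (nat_lit 166)) (XT.lf (nat_lit 0) (nat_lit 32488348707) (nat_lit 76)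 (nat_lit 195664372135) (nat_lit 76) (nat_lit 36654216572) (nat_lit 7) (nat_lit 4) (nat_lit 8) (nat_lit 5) (nat_lit 8) (nat_lit 4) (nat_lit 256) (nat_lit 239) (nat_lit 165))) (XT.nd (nat_lit 78) (nat_lit 0) (nat_lit 0) (XT.lf (nat_lit 0) (nat_lit 4124423308) (nat_lit 152) (nat_lit 150143314089) (nat_lit 76) (nat_lit 140827131734) (nat_lit 6) (nat_lit 5) (nat_lit 8) (nat_lit 5) (nat_lit 7) (nat_lit 4) (nat_lit 257) (nat_lit 239) (nat_lit 164)) (XT.lf (nat_lit 0) (nat_lit 47266660489) (nat_lit 152) (nat_lit 57388085576) (nat_lit 76) (nat_lit 225009506083) (nat_lit 6) (nat_lit 5) (nat_lit 8) (nat_lit 5) (nat_lit 7) (nat_lit 4) (nat_lit 258) (nat_lit 239) (nat_lit 163))))) (XT.nd (nat_lit 312) (nat_lit 152) (nat_lit 0) (XT.nd (nat_lit 156) (nat_lit 0) (nat_lit 0) (XT.nd (nat_lit 78) (nat_lit 0) (nat_lit 0) (XT.lf (nat_lit 0) (nat_lit 54095611387) (nat_lit 76) (nat_lit 45024166567) (nat_lit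 152) (nat_lit 269963334358) (nat_lit 5) (nat_lit 5) (nat_lit 6) (nat_lit 5) (nat_lit 7) (nat_lit 4) (nat_lit 259) (nat_lit 239) (nat_lit 162)) (XT.lf (nat_lit 0) (nat_lit 162868314022) (nat_lit 152) (nat_lit 226332166473) (nat_lit 0) (nat_lit 24596704581) (nat_lit 5) (nat_lit 5) (nat_lit 7) (nat_lit 4) (nat_lit 5) (nat_lit 4) (nat_lit 260) (nat_lit 239) (nat_lit 161))) (XT.nd (nat_lit 78) (nat_lit 0) (nat_lit 0) (XT.lf (nat_lit 0) (nat_lit 238322767494) (nat_lit 152) (nat_lit 126523231148) (nat_lit 0) (nat_lit 100050825621) (nat_lit 5) (nat_lit 5) (nat_lit 7) (nat_lit 4) (nat_lit 5) (nat_lit 4) (nat_lit 261) (nat_lit 239) (nat_lit 160)) (XT.lf (nat_lit 0) (nat_lit 325095066433) (nat_lit 152) (nat_lit 11743556713) (nat_lit 0) (nat_lit 186822835488) (nat_lit 5) (nat_lit 5) (nat_lit 7) (nat_lit 4) (nat_lit 5) (nat_lit 4) (nat_lit 262) (nat_lit 239) (nat_lit 159)))) (XT.nd (nat_lit 156)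 (nat_lit 76) (nat_lit 0) (XT.nd (nat_lit 78) (nat_lit 0) (nat_lit 0) (XT.lf (nat_lit 0) (nat_lit 132004499486) (nat_lit 76) (nat_lit 298344455068) (nat_lit 76) (nat_lit 160071972757) (nat_lit 4) (nat_lit 4) (nat_lit 5) (nat_lit 5) (nat_lit 5) (nat_lit 4) (nat_lit 263) (nat_lit 239) (nat_lit 158)) (XT.lf (nat_lit 0) (nat_lit 298634080741) (nat_lit 76) (nat_lit 253370448330) (nat_lit 76) (nat_lit 115097747439) (nat_lit 4) (nat_lit 4) (nat_lit 5) (nat_lit 5) (nat_lit 5) (nat_lit 4) (nat_lit 264) (nat_lit 239) (nat_lit 157))) (XT.nd (nat_lit 78) (nat_lit 76) (nat_lit 0) (XT.lf (nat_lit 0) (nat_lit 490257665264) (nat_lit 76) (nat_lit 201650544449) (nat_lit 76) (nat_lit 63377653490) (nat_lit 4) (nat_lit 4) (nat_lit 5) (nat_lit 5) (nat_lit 5) (nat_lit 4) (nat_lit 265) (nat_lit 239) (nat_lit 156)) (XT.nd (nat_lit 78) (nat_lit 76) (nat_lit 0) (XT.lf (nat_lit 0) (nat_lit 710624410143) (nat_lit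 76) (nat_lit 142172832264) (nat_lit 76) (nat_lit 3899776027) (nat_lit 4) (nat_lit 4) (nat_lit 5) (nat_lit 5) (nat_lit 5) (nat_lit 4) (nat_lit 266) (nat_lit 239) (nat_lit 155)) (XT.lf (nat_lit 0) (nat_lit 58757383689) (nat_lit 152) (nat_lit 11944825023) (nat_lit 76) (nat_lit 902217046264) (nat_lit 3) (nat_lit 5) (nat_lit 5) (nat_lit 5) (nat_lit 4) (nat_lit 4) (nat_lit 267) (nat_lit 239) (nat_lit 154))))))))
noncomputable def xc89 : XT := (XT.nd (nat_lit 1326) (nat_lit 0) (nat_lit 0) (XT.nd (nat_lit 624) (nat_lit 76) (nat_lit 0) (XT.nd (nat_lit 312) (nat_lit 0) (nat_lit 0) (XT.nd (nat_lit 156) (nat_lit 0) (nat_lit 0) (XT.nd (nat_lit 78) (nat_lit 0) (nat_lit 0) (XT.lf (nat_lit 0) (nat_lit 137665702554) (nat_lit 152) (nat_lit 950365463352) (nat_lit 0) (nat_lit 17428028701) (nat_lit 2) (nat_lit 5) (nat_lit 4) (nat_lit 4) (nat_lit 2) (nat_lit 4) (nat_lit 268) (nat_lit 239) (nat_lit 153))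 (XT.lf (nat_lit 0) (nat_lit 232431006752) (nat_lit 152) (nat_lit 912652769704) (nat_lit 0) (nat_lit 112193238402) (nat_lit 2) (nat_lit 5) (nat_lit 4) (nat_lit 4) (nat_lit 2) (nat_lit 4) (nat_lit 269) (nat_lit 239) (nat_lit 152))) (XT.nd (nat_lit 78) (nat_lit 0) (nat_lit 0) (XT.lf (nat_lit 0) (nat_lit 341410971181) (nat_lit 152) (nat_lit 869283436879) (nat_lit 0) (nat_lit 221173120659) (nat_lit 2) (nat_lit 5) (nat_lit 4) (nat_lit 4) (nat_lit 2) (nat_lit 4) (nat_lit 270) (nat_lit 239) (nat_lit 151)) (XT.lf (nat_lit 0) (nat_lit 466737812537) (nat_lit 152) (nat_lit 819408934451) (nat_lit 0) (nat_lit 346499890560) (nat_lit 2) (nat_lit 5) (nat_lit 4) (nat_lit 4) (nat_lit 2) (nat_lit 4) (nat_lit 271) (nat_lit 239) (nat_lit 150)))) (XT.nd (nat_lit 156) (nat_lit 0) (nat_lit 0) (XT.nd (nat_lit 78) (nat_lit 0) (nat_lit 0) (XT.lf (nat_lit 0) (nat_lit 610863577714) (nat_lit 152) (nat_lit 762053456939)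 (nat_lit 0) (nat_lit 490625593603) (nat_lit 2) (nat_lit 5) (nat_lit 4) (nat_lit 4) (nat_lit 2) (nat_lit 4) (nat_lit 272) (nat_lit 239) (nat_lit 149)) (XT.lf (nat_lit 0) (nat_lit 776608118640) (nat_lit 152) (nat_lit 696094831956) (nat_lit 0) (nat_lit 656370080501) (nat_lit 2) (nat_lit 5) (nat_lit 4) (nat_lit 4) (nat_lit 2) (nat_lit 4) (nat_lit 273) (nat_lit 239) (nat_lit 148))) (XT.nd (nat_lit 78) (nat_lit 0) (nat_lit 0) (XT.lf (nat_lit 0) (nat_lit 967214263291) (nat_lit 152) (nat_lit 620242564666) (nat_lit 0) (nat_lit 846976178169) (nat_lit 2) (nat_lit 5) (nat_lit 4) (nat_lit 4) (nat_lit 2) (nat_lit 4) (nat_lit 274) (nat_lit 239) (nat_lit 147)) (XT.lf (nat_lit 0) (nat_lit 1186411262322) (nat_lit 152) (nat_lit 533012588969) (nat_lit 0) (nat_lit 1066173136346) (nat_lit 2) (nat_lit 5) (nat_lit 4) (nat_lit 4) (nat_lit 2) (nat_lit 4) (nat_lit 275) (nat_lit 239) (nat_lit 146))))) (XT.nd (nat_lit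 312) (nat_lit 76) (nat_lit 0) (XT.nd (nat_lit 156) (nat_lit 0) (nat_lit 0) (XT.nd (nat_lit 78) (nat_lit 0) (nat_lit 0) (XT.lf (nat_lit 0) (nat_lit 1438487752671) (nat_lit 152) (nat_lit 432698231428) (nat_lit 0) (nat_lit 1318249591170) (nat_lit 2) (nat_lit 5) (nat_lit 4) (nat_lit 4) (nat_lit 2) (nat_lit 4) (nat_lit 276) (nat_lit 239) (nat_lit 145)) (XT.lf (nat_lit 0) (nat_lit 1728375665671) (nat_lit 152) (nat_lit 317336819830) (nat_lit 0) (nat_lit 1608137473278) (nat_lit 2) (nat_lit 5) (nat_lit 4) (nat_lit 4) (nat_lit 2) (nat_lit 4) (nat_lit 277) (nat_lit 239) (nat_lit 144))) (XT.nd (nat_lit 78) (nat_lit 0) (nat_lit 0) (XT.lf (nat_lit 0) (nat_lit 2061746721359) (nat_lit 152) (nat_lit 184671283079) (nat_lit 0) (nat_lit 1941508502104) (nat_lit 2) (nat_lit 5) (nat_lit 4) (nat_lit 4) (nat_lit 2) (nat_lit 4) (nat_lit 278) (nat_lit 239) (nat_lit 143)) (XT.lf (nat_lit 0) (nat_lit 2445123396911)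 (nat_lit 152) (nat_lit 32105991108) (nat_lit 0) (nat_lit 2324885154297) (nat_lit 2) (nat_lit 5) (nat_lit 4) (nat_lit 4) (nat_lit 2) (nat_lit 4) (nat_lit 279) (nat_lit 239) (nat_lit 142)))) (XT.nd (nat_lit 156) (nat_lit 0) (nat_lit 0) (XT.nd (nat_lit 78) (nat_lit 0) (nat_lit 0) (XT.lf (nat_lit 0) (nat_lit 157352650220) (nat_lit 76) (nat_lit 2735169527797) (nat_lit 76) (nat_lit 2614931264871) (nat_lit 1) (nat_lit 4) (nat_lit 2) (nat_lit 5) (nat_lit 2) (nat_lit 4) (nat_lit 280) (nat_lit 239) (nat_lit 141)) (XT.lf (nat_lit 0) (nat_lit 378838300844) (nat_lit 76) (nat_lit 3029870711471) (nat_lit 76) (nat_lit 2909632430883) (nat_lit 1) (nat_lit 4) (nat_lit 2) (nat_lit 5) (nat_lit 2) (nat_lit 4) (nat_lit 281) (nat_lit 239) (nat_lit 140))) (XT.nd (nat_lit 78) (nat_lit 0) (nat_lit 0) (XT.lf (nat_lit 0) (nat_lit 633546744718) (nat_lit 76) (nat_lit 3368777099483) (nat_lit 76) (nat_lit 3248538803536)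 (nat_lit 1) (nat_lit 4) (nat_lit 2) (nat_lit 5) (nat_lit 2) (nat_lit 4) (nat_lit 282) (nat_lit 239) (nat_lit 139)) (XT.nd (nat_lit 78) (nat_lit 0) (nat_lit 0) (XT.lf (nat_lit 0) (nat_lit 926461407917) (nat_lit 76) (nat_lit 3758519468989) (nat_lit 76) (nat_lit 3638281159688) (nat_lit 1) (nat_lit 4) (nat_lit 2) (nat_lit 5) (nat_lit 2) (nat_lit 4) (nat_lit 283) (nat_lit 239) (nat_lit 138)) (XT.lf (nat_lit 0) (nat_lit 1263313229504) (nat_lit 76) (nat_lit 4206723214176) (nat_lit 76) (nat_lit 4086484893262) (nat_lit 1) (nat_lit 4) (nat_lit 2) (nat_lit 5) (nat_lit 2) (nat_lit 4) (nat_lit 284) (nat_lit 239) (nat_lit 137))))))) (XT.nd (nat_lit 936) (nat_lit 0) (nat_lit 0) (XT.nd (nat_lit 312) (nat_lit 0) (nat_lit 0) (XT.nd (nat_lit 156) (nat_lit 0) (nat_lit 0) (XT.nd (nat_lit 78) (nat_lit 0) (nat_lit 0) (XT.lf (nat_lit 0) (nat_lit 1650692788596) (nat_lit 76) (nat_lit 4722157538755) (nat_lit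 76) (nat_lit 4601919207741) (nat_lit 1) (nat_lit 4) (nat_lit 2) (nat_lit 5) (nat_lit 2) (nat_lit 4) (nat_lit 285) (nat_lit 239) (nat_lit 136)) (XT.lf (nat_lit 0) (nat_lit 2096179250482) (nat_lit 76) (nat_lit 5314907027335) (nat_lit 76) (nat_lit 5194668687540) (nat_lit 1) (nat_lit 4) (nat_lit 2) (nat_lit 5) (nat_lit 2) (nat_lit 4) (nat_lit 286) (nat_lit 239) (nat_lit 135))) (XT.nd (nat_lit 78) (nat_lit 0) (nat_lit 0) (XT.lf (nat_lit 0) (nat_lit 2608488654631) (nat_lit 76) (nat_lit 5996568952520) (nat_lit 76) (nat_lit 5876330605089) (nat_lit 1) (nat_lit 4) (nat_lit 2) (nat_lit 5) (nat_lit 2) (nat_lit 4) (nat_lit 287) (nat_lit 239) (nat_lit 134)) (XT.lf (nat_lit 0) (nat_lit 3197644445909) (nat_lit 76) (nat_lit 6780480178063) (nat_lit 76) (nat_lit 6660241823993) (nat_lit 1) (nat_lit 4) (nat_lit 2) (nat_lit 5) (nat_lit 2) (nat_lit 4) (nat_lit 288) (nat_lit 239) (nat_lit 133)))) (XT.nd (nat_lit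 156) (nat_lit 0) (nat_lit 0) (XT.nd (nat_lit 78) (nat_lit 0) (nat_lit 0) (XT.lf (nat_lit 0) (nat_lit 3875173585448) (nat_lit 76) (nat_lit 7681978097508) (nat_lit 76) (nat_lit 7561739737664) (nat_lit 1) (nat_lit 4) (nat_lit 2) (nat_lit 5) (nat_lit 2) (nat_lit 4) (nat_lit 289) (nat_lit 239) (nat_lit 132)) (XT.lf (nat_lit 0) (nat_lit 4654332078152) (nat_lit 76) (nat_lit 8718700713627) (nat_lit 76) (nat_lit 8598462348762) (nat_lit 1) (nat_lit 4) (nat_lit 2) (nat_lit 5) (nat_lit 2) (nat_lit 4) (nat_lit 290) (nat_lit 239) (nat_lit 131))) (XT.nd (nat_lit 78) (nat_lit 0) (nat_lit 0) (XT.lf (nat_lit 0) (nat_lit 5550364329315) (nat_lit 76) (nat_lit 9910931729778) (nat_lit 76) (nat_lit 9790693360547) (nat_lit 1) (nat_lit 4) (nat_lit 2) (nat_lit 5) (nat_lit 2) (nat_lit 4) (nat_lit 291) (nat_lit 239) (nat_lit 130)) (XT.lf (nat_lit 0) (nat_lit 6580801404718) (nat_lit 76) (nat_lit 11281997404973)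 (nat_lit 76) (nat_lit 11161759031945) (nat_lit 1) (nat_lit 4) (nat_lit 2) (nat_lit 5) (nat_lit 2) (nat_lit 4) (nat_lit 292) (nat_lit 239) (nat_lit 129))))) (XT.nd (nat_lit 312) (nat_lit 0) (nat_lit 0) (XT.nd (nat_lit 156) (nat_lit 0) (nat_lit 0) (XT.nd (nat_lit 78) (nat_lit 0) (nat_lit 0) (XT.lf (nat_lit 0) (nat_lit 14570540780363) (nat_lit 76) (nat_lit 21912882121437) (nat_lit 76) (nat_lit 21792643735683) (nat_lit 1) (nat_lit 4) (nat_lit 2) (nat_lit 5) (nat_lit 2) (nat_lit 4) (nat_lit 297) (nat_lit 239) (nat_lit 124)) (XT.lf (nat_lit 0) (nat_lit 16954004272586) (nat_lit 76) (nat_lit 25084240380438) (nat_lit 76) (nat_lit 24964001993044) (nat_lit 1) (nat_lit 4) (nat_lit 2) (nat_lit 5) (nat_lit 2) (nat_lit 4) (nat_lit 298) (nat_lit 239) (nat_lit 123))) (XT.nd (nat_lit 78) (nat_lit 0) (nat_lit 0) (XT.lf (nat_lit 0) (nat_lit 19694987283594) (nat_lit 76) (nat_lit 28731302380780) (nat_lit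 76) (nat_lit 28611063991958) (nat_lit 1) (nat_lit 4) (nat_lit 2) (nat_lit 5) (nat_lit 2) (nat_lit 4) (nat_lit 299) (nat_lit 239) (nat_lit 122)) (XT.lf (nat_lit 0) (nat_lit 22847117741861) (nat_lit 76) (nat_lit 32925423683336) (nat_lit 76) (nat_lit 32805185293273) (nat_lit 1) (nat_lit 4) (nat_lit 2) (nat_lit 5) (nat_lit 2) (nat_lit 4) (nat_lit 300) (nat_lit 239) (nat_lit 121)))) (XT.nd (nat_lit 156) (nat_lit 0) (nat_lit 0) (XT.nd (nat_lit 78) (nat_lit 0) (nat_lit 0) (XT.lf (nat_lit 0) (nat_lit 26472067765050) (nat_lit 76) (nat_lit 37748663183159) (nat_lit 76) (nat_lit 37628424792017) (nat_lit 1) (nat_lit 4) (nat_lit 2) (nat_lit 5) (nat_lit 2) (nat_lit 4) (nat_lit 301) (nat_lit 239) (nat_lit 120)) (XT.lf (nat_lit 0) (nat_lit 30640760288397) (nat_lit 76) (nat_lit 43295388609591) (nat_lit 76) (nat_lit 43175150217511) (nat_lit 1) (nat_lit 4) (nat_lit 2) (nat_lit 5) (nat_lit 2) (nat_lit 4)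 (nat_lit 302) (nat_lit 239) (nat_lit 119))) (XT.nd (nat_lit 29484) (nat_lit 0) (nat_lit 1216) (XT.lf (nat_lit 0) (nat_lit 35434756687358) (nat_lit 76) (nat_lit 49674122851412) (nat_lit 76) (nat_lit 49553884458516) (nat_lit 1) (nat_lit 4) (nat_lit 2) (nat_lit 5) (nat_lit 2) (nat_lit 4) (nat_lit 303) (nat_lit 239) (nat_lit 118)) (XT.nd (nat_lit 78) (nat_lit 0) (nat_lit 0) (XT.lf (nat_lit 0) (nat_lit 981006223) (nat_lit 380) (nat_lit 16248302022) (nat_lit 380) (nat_lit 16248302022) (nat_lit 17) (nat_lit 3) (nat_lit 22) (nat_lit 3) (nat_lit 22) (nat_lit 5) (nat_lit 240) (nat_lit 240) (nat_lit 180)) (XT.lf (nat_lit 0) (nat_lit 2122134478) (nat_lit 380) (nat_lit 3202556418) (nat_lit 380) (nat_lit 66650128051) (nat_lit 17) (nat_lit 3) (nat_lit 22) (nat_lit 3) (nat_lit 22) (nat_lit 5) (nat_lit 241) (nat_lit 240) (nat_lit 179))))))))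
noncomputable def xc90 : XT := (XT.nd (nat_lit 1326) (nat_lit 304) (nat_lit 0) (XT.nd (nat_lit 624) (nat_lit 532) (nat_lit 0) (XT.nd (nat_lit 312) (nat_lit 380) (nat_lit 0) (XT.nd (nat_lit 156) (nat_lit 0) (nat_lit 76) (XT.nd (nat_lit 78) (nat_lit 0) (nat_lit 0) (XT.lf (nat_lit 0) (nat_lit 4922482750) (nat_lit 304) (nat_lit 45309337465) (nat_lit 380) (nat_lit 27123123071) (nat_lit 18) (nat_lit 5) (nat_lit 22) (nat_lit 5) (nat_lit 23) (nat_lit 5) (nat_lit 242) (nat_lit 240) (nat_lit 178)) (XT.lf (nat_lit 0) (nat_lit 8569789435) (nat_lit 304) (nat_lit 10839220383) (nat_lit 380) (nat_lit 64069055620) (nat_lit 18) (nat_lit 5) (nat_lit 22) (nat_lit 5) (nat_lit 23) (nat_lit 5) (nat_lit 243) (nat_lit 240) (nat_lit 177))) (XT.nd (nat_lit 78) (nat_lit 0) (nat_lit 0) (XT.lf (nat_lit 0) (nat_lit 14797937838) (nat_lit 304) (nat_lit 59435449664) (nat_lit 76) (nat_lit 15981219676) (nat_lit 19) (nat_lit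 5) (nat_lit 23) (nat_lit 5) (nat_lit 20) (nat_lit 5) (nat_lit 244) (nat_lit 240) (nat_lit 176)) (XT.lf (nat_lit 0) (nat_lit 23476543095) (nat_lit 304) (nat_lit 18971002322) (nat_lit 76) (nat_lit 55286660985) (nat_lit 19) (nat_lit 5) (nat_lit 23) (nat_lit 5) (nat_lit 20) (nat_lit 5) (nat_lit 245) (nat_lit 240) (nat_lit 175)))) (XT.nd (nat_lit 156) (nat_lit 152) (nat_lit 0) (XT.nd (nat_lit 78) (nat_lit 0) (nat_lit 0) (XT.lf (nat_lit 0) (nat_lit 30255238461) (nat_lit 304) (nat_lit 4453131389) (nat_lit 380) (nat_lit 71485670972) (nat_lit 15) (nat_lit 5) (nat_lit 19) (nat_lit 5) (nat_lit 20) (nat_lit 5) (nat_lit 246) (nat_lit 240) (nat_lit 174)) (XT.lf (nat_lit 0) (nat_lit 50287467801) (nat_lit 380) (nat_lit 28450221356) (nat_lit 76) (nat_lit 36785795301) (nat_lit 15) (nat_lit 5) (nat_lit 20) (nat_lit 5) (nat_lit 16) (nat_lit 5) (nat_lit 247) (nat_lit 240) (nat_lit 173))) (XT.nd (nat_lit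 78) (nat_lit 0) (nat_lit 0) (XT.lf (nat_lit 0) (nat_lit 28484112693) (nat_lit 152) (nat_lit 41109747401) (nat_lit 228) (nat_lit 56449927599) (nat_lit 13) (nat_lit 5) (nat_lit 15) (nat_lit 5) (nat_lit 16) (nat_lit 5) (nat_lit 248) (nat_lit 240) (nat_lit 172)) (XT.lf (nat_lit 0) (nat_lit 93442727065) (nat_lit 228) (nat_lit 40924822240) (nat_lit 76) (nat_lit 3527616257) (nat_lit 13) (nat_lit 5) (nat_lit 16) (nat_lit 5) (nat_lit 14) (nat_lit 4) (nat_lit 249) (nat_lit 240) (nat_lit 171))))) (XT.nd (nat_lit 312) (nat_lit 228) (nat_lit 0) (XT.nd (nat_lit 156) (nat_lit 228) (nat_lit 0) (XT.nd (nat_lit 78) (nat_lit 0) (nat_lit 0) (XT.lf (nat_lit 0) (nat_lit 24420500385) (nat_lit 76) (nat_lit 99416351336) (nat_lit 152) (nat_lit 27242214919) (nat_lit 12) (nat_lit 5) (nat_lit 13) (nat_lit 5) (nat_lit 14) (nat_lit 4) (nat_lit 250) (nat_lit 240) (nat_lit 170)) (XT.lf (nat_lit 0) (nat_lit 104165836553)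 (nat_lit 76) (nat_lit 56762696452) (nat_lit 152) (nat_lit 4991259116) (nat_lit 12) (nat_lit 5) (nat_lit 13) (nat_lit 5) (nat_lit 14) (nat_lit 4) (nat_lit 251) (nat_lit 240) (nat_lit 169))) (XT.nd (nat_lit 78) (nat_lit 0) (nat_lit 0) (XT.lf (nat_lit 0) (nat_lit 13208244117) (nat_lit 152) (nat_lit 6101557948) (nat_lit 228) (nat_lit 163466967353) (nat_lit 9) (nat_lit 5) (nat_lit 11) (nat_lit 5) (nat_lit 12) (nat_lit 5) (nat_lit 252) (nat_lit 240) (nat_lit 168)) (XT.lf (nat_lit 0) (nat_lit 52285852839) (nat_lit 228) (nat_lit 97875330210) (nat_lit 76) (nat_lit 51134335613) (nat_lit 9) (nat_lit 5) (nat_lit 12) (nat_lit 5) (nat_lit 10) (nat_lit 4) (nat_lit 253) (nat_lit 240) (nat_lit 167)))) (XT.nd (nat_lit 156) (nat_lit 152) (nat_lit 0) (XT.nd (nat_lit 78) (nat_lit 76) (nat_lit 0) (XT.lf (nat_lit 0) (nat_lit 90498247152) (nat_lit 228) (nat_lit 15719699355) (nat_lit 76) (nat_lit 116330646217)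 (nat_lit 9) (nat_lit 5) (nat_lit 12) (nat_lit 5) (nat_lit 10) (nat_lit 4) (nat_lit 254) (nat_lit 240) (nat_lit 166)) (XT.lf (nat_lit 0) (nat_lit 86455257406) (nat_lit 76) (nat_lit 51566636739) (nat_lit 152) (nat_lit 108430827171) (nat_lit 8) (nat_lit 5) (nat_lit 9) (nat_lit 5) (nat_lit 10) (nat_lit 4) (nat_lit 255) (nat_lit 240) (nat_lit 165))) (XT.nd (nat_lit 78) (nat_lit 152) (nat_lit 0) (XT.lf (nat_lit 0) (nat_lit 194001595498) (nat_lit 152) (nat_lit 68603270712) (nat_lit 0) (nat_lit 11138479025) (nat_lit 8) (nat_lit 5) (nat_lit 10) (nat_lit 4) (nat_lit 8) (nat_lit 4) (nat_lit 256) (nat_lit 240) (nat_lit 164)) (XT.nd (nat_lit 78) (nat_lit 76) (nat_lit 0) (XT.lf (nat_lit 0) (nat_lit 37370725771) (nat_lit 76) (nat_lit 225010077053) (nat_lit 76) (nat_lit 42146379155) (nat_lit 7) (nat_lit 4) (nat_lit 8) (nat_lit 5) (nat_lit 8) (nat_lit 4) (nat_lit 257) (nat_lit 240) (nat_lit 163)) (XT.lf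 (nat_lit 0) (nat_lit 4747815865) (nat_lit 152) (nat_lit 172656399374) (nat_lit 76) (nat_lit 161954159803) (nat_lit 6) (nat_lit 5) (nat_lit 8) (nat_lit 5) (nat_lit 7) (nat_lit 4) (nat_lit 258) (nat_lit 240) (nat_lit 162))))))) (XT.nd (nat_lit 624) (nat_lit 152) (nat_lit 0) (XT.nd (nat_lit 312) (nat_lit 76) (nat_lit 0) (XT.nd (nat_lit 156) (nat_lit 0) (nat_lit 0) (XT.nd (nat_lit 78) (nat_lit 76) (nat_lit 0) (XT.lf (nat_lit 0) (nat_lit 54360771789) (nat_lit 152) (nat_lit 65988983779) (nat_lit 76) (nat_lit 258763504438) (nat_lit 6) (nat_lit 5) (nat_lit 8) (nat_lit 5) (nat_lit 7) (nat_lit 4) (nat_lit 259) (nat_lit 240) (nat_lit 161)) (XT.lf (nat_lit 0) (nat_lit 62216935246) (nat_lit 76) (nat_lit 51774674367) (nat_lit 152) (nat_lit 310453378385) (nat_lit 5) (nat_lit 5) (nat_lit 6) (nat_lit 5) (nat_lit 7) (nat_lit 4) (nat_lit 260) (nat_lit 240) (nat_lit 160))) (XT.nd (nat_lit 78) (nat_lit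 0) (nat_lit 0) (XT.lf (nat_lit 0) (nat_lit 187302034205) (nat_lit 152) (nat_lit 260275518195) (nat_lit 0) (nat_lit 28288679547) (nat_lit 5) (nat_lit 5) (nat_lit 7) (nat_lit 4) (nat_lit 5) (nat_lit 4) (nat_lit 261) (nat_lit 240) (nat_lit 159)) (XT.lf (nat_lit 0) (nat_lit 274074202687) (nat_lit 152) (nat_lit 145496086909) (nat_lit 0) (nat_lit 115060596663) (nat_lit 5) (nat_lit 5) (nat_lit 7) (nat_lit 4) (nat_lit 5) (nat_lit 4) (nat_lit 262) (nat_lit 240) (nat_lit 158)))) (XT.nd (nat_lit 156) (nat_lit 0) (nat_lit 0) (XT.nd (nat_lit 78) (nat_lit 76) (nat_lit 0) (XT.lf (nat_lit 0) (nat_lit 373861952545) (nat_lit 152) (nat_lit 13500195514) (nat_lit 0) (nat_lit 214848127941) (nat_lit 5) (nat_lit 5) (nat_lit 7) (nat_lit 4) (nat_lit 5) (nat_lit 4) (nat_lit 263) (nat_lit 240) (nat_lit 157)) (XT.lf (nat_lit 0) (nat_lit 151809846628) (nat_lit 76) (nat_lit 343093928182) (nat_lit 76) (nat_lit 184079913509)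 (nat_lit 4) (nat_lit 4) (nat_lit 5) (nat_lit 5) (nat_lit 5) (nat_lit 4) (nat_lit 264) (nat_lit 240) (nat_lit 156))) (XT.nd (nat_lit 78) (nat_lit 0) (nat_lit 0) (XT.lf (nat_lit 0) (nat_lit 343433255652) (nat_lit 76) (nat_lit 291374106756) (nat_lit 76) (nat_lit 132359926806) (nat_lit 4) (nat_lit 4) (nat_lit 5) (nat_lit 5) (nat_lit 5) (nat_lit 4) (nat_lit 265) (nat_lit 240) (nat_lit 155)) (XT.lf (nat_lit 0) (nat_lit 563799847923) (nat_lit 76) (nat_lit 231896466271) (nat_lit 76) (nat_lit 72882142601) (nat_lit 4) (nat_lit 4) (nat_lit 5) (nat_lit 5) (nat_lit 5) (nat_lit 4) (nat_lit 266) (nat_lit 240) (nat_lit 154))))) (XT.nd (nat_lit 312) (nat_lit 0) (nat_lit 0) (XT.nd (nat_lit 156) (nat_lit 76) (nat_lit 0) (XT.nd (nat_lit 78) (nat_lit 76) (nat_lit 0) (XT.lf (nat_lit 0) (nat_lit 817221143725) (nat_lit 76) (nat_lit 163497313760) (nat_lit 76) (nat_lit 4482865116) (nat_lit 4) (nat_lit 4) (nat_lit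 5) (nat_lit 5) (nat_lit 5) (nat_lit 4) (nat_lit 267) (nat_lit 240) (nat_lit 153)) (XT.lf (nat_lit 0) (nat_lit 67572478359) (nat_lit 152) (nat_lit 13733728842) (nat_lit 76) (nat_lit 1037550709709) (nat_lit 3) (nat_lit 5) (nat_lit 5) (nat_lit 5) (nat_lit 4) (nat_lit 4) (nat_lit 268) (nat_lit 240) (nat_lit 152))) (XT.nd (nat_lit 78) (nat_lit 0) (nat_lit 0) (XT.lf (nat_lit 0) (nat_lit 158317015839) (nat_lit 152) (nat_lit 1092917430886) (nat_lit 0) (nat_lit 20043405566) (nat_lit 2) (nat_lit 5) (nat_lit 4) (nat_lit 4) (nat_lit 2) (nat_lit 4) (nat_lit 269) (nat_lit 240) (nat_lit 151)) (XT.lf (nat_lit 0) (nat_lit 267296925506) (nat_lit 152) (nat_lit 1049548205187) (nat_lit 0) (nat_lit 129023243779) (nat_lit 2) (nat_lit 5) (nat_lit 4) (nat_lit 4) (nat_lit 2) (nat_lit 4) (nat_lit 270) (nat_lit 240) (nat_lit 150)))) (XT.nd (nat_lit 156) (nat_lit 0) (nat_lit 0) (XT.nd (nat_lit 78) (nat_lit 0) (nat_lit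 0) (XT.lf (nat_lit 0) (nat_lit 392623719242) (nat_lit 152) (nat_lit 999673795912) (nat_lit 0) (nat_lit 254349975381) (nat_lit 2) (nat_lit 5) (nat_lit 4) (nat_lit 4) (nat_lit 2) (nat_lit 4) (nat_lit 271) (nat_lit 240) (nat_lit 149)) (XT.lf (nat_lit 0) (nat_lit 536749443012) (nat_lit 152) (nat_lit 942318399403) (nat_lit 0) (nat_lit 398475645121) (nat_lit 2) (nat_lit 5) (nat_lit 4) (nat_lit 4) (nat_lit 2) (nat_lit 4) (nat_lit 272) (nat_lit 240) (nat_lit 148))) (XT.nd (nat_lit 78) (nat_lit 0) (nat_lit 0) (XT.lf (nat_lit 0) (nat_lit 702493947931) (nat_lit 152) (nat_lit 876359844857) (nat_lit 0) (nat_lit 564220103059) (nat_lit 2) (nat_lit 5) (nat_lit 4) (nat_lit 4) (nat_lit 2) (nat_lit 4) (nat_lit 273) (nat_lit 240) (nat_lit 147)) (XT.nd (nat_lit 78) (nat_lit 0) (nat_lit 0) (XT.lf (nat_lit 0) (nat_lit 893100061272) (nat_lit 152) (nat_lit 800507638816) (nat_lit 0) (nat_lit 754826175545) (nat_lit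 2) (nat_lit 5) (nat_lit 4) (nat_lit 4) (nat_lit 2) (nat_lit 4) (nat_lit 274) (nat_lit 240) (nat_lit 146)) (XT.lf (nat_lit 0) (nat_lit 1112297033076) (nat_lit 152) (nat_lit 713277716380) (nat_lit 0) (nat_lit 974023111825) (nat_lit 2) (nat_lit 5) (nat_lit 4) (nat_lit 4) (nat_lit 2) (nat_lit 4) (nat_lit 275) (nat_lit 240) (nat_lit 145))))))))
noncomputable def xc91 : XT := (XT.nd (nat_lit 1638) (nat_lit 0) (nat_lit 0) (XT.nd (nat_lit 624) (nat_lit 0) (nat_lit 0) (XT.nd (nat_lit 312) (nat_lit 76) (nat_lit 0) (XT.nd (nat_lit 156) (nat_lit 0) (nat_lit 0) (XT.nd (nat_lit 78) (nat_lit 0) (nat_lit 0) (XT.lf (nat_lit 0) (nat_lit 1364373499750) (nat_lit 152) (nat_lit 612963405153) (nat_lit 0) (nat_lit 1226099547607) (nat_lit 2) (nat_lit 5) (nat_lit 4) (nat_lit 4) (nat_lit 2) (nat_lit 4) (nat_lit 276) (nat_lit 240) (nat_lit 144)) (XT.lf (nat_lit 0) (nat_lit 1654261392163) (nat_lit 152) (nat_lit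 497602033828) (nat_lit 0) (nat_lit 1515987413157) (nat_lit 2) (nat_lit 5) (nat_lit 4) (nat_lit 4) (nat_lit 2) (nat_lit 4) (nat_lit 277) (nat_lit 240) (nat_lit 143))) (XT.nd (nat_lit 78) (nat_lit 0) (nat_lit 0) (XT.lf (nat_lit 0) (nat_lit 1987632429949) (nat_lit 152) (nat_lit 364936532097) (nat_lit 0) (nat_lit 1849358427585) (nat_lit 2) (nat_lit 5) (nat_lit 4) (nat_lit 4) (nat_lit 2) (nat_lit 4) (nat_lit 278) (nat_lit 240) (nat_lit 142)) (XT.lf (nat_lit 0) (nat_lit 2371009089934) (nat_lit 152) (nat_lit 212371270578) (nat_lit 0) (nat_lit 2232735067258) (nat_lit 2) (nat_lit 5) (nat_lit 4) (nat_lit 4) (nat_lit 2) (nat_lit 4) (nat_lit 279) (nat_lit 240) (nat_lit 141)))) (XT.nd (nat_lit 156) (nat_lit 0) (nat_lit 0) (XT.nd (nat_lit 78) (nat_lit 76) (nat_lit 0) (XT.lf (nat_lit 0) (nat_lit 2811892219813) (nat_lit 152) (nat_lit 36921276763) (nat_lit 0) (nat_lit 2673618179475) (nat_lit 2) (nat_lit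 5) (nat_lit 4) (nat_lit 4) (nat_lit 2) (nat_lit 4) (nat_lit 280) (nat_lit 240) (nat_lit 140)) (XT.lf (nat_lit 0) (nat_lit 180956132900) (nat_lit 76) (nat_lit 3145444668541) (nat_lit 76) (nat_lit 3007170612844) (nat_lit 1) (nat_lit 4) (nat_lit 2) (nat_lit 5) (nat_lit 2) (nat_lit 4) (nat_lit 281) (nat_lit 240) (nat_lit 139))) (XT.nd (nat_lit 78) (nat_lit 0) (nat_lit 0) (XT.lf (nat_lit 0) (nat_lit 435664554794) (nat_lit 76) (nat_lit 3484351067387) (nat_lit 76) (nat_lit 3346076998335) (nat_lit 1) (nat_lit 4) (nat_lit 2) (nat_lit 5) (nat_lit 2) (nat_lit 4) (nat_lit 282) (nat_lit 240) (nat_lit 138)) (XT.lf (nat_lit 0) (nat_lit 728579198881) (nat_lit 76) (nat_lit 3874093446314) (nat_lit 76) (nat_lit 3735819365649) (nat_lit 1) (nat_lit 4) (nat_lit 2) (nat_lit 5) (nat_lit 2) (nat_lit 4) (nat_lit 283) (nat_lit 240) (nat_lit 137))))) (XT.nd (nat_lit 312) (nat_lit 0) (nat_lit 0) (XT.nd (nat_lit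 156) (nat_lit 0) (nat_lit 0) (XT.nd (nat_lit 78) (nat_lit 0) (nat_lit 0) (XT.lf (nat_lit 0) (nat_lit 1065431003848) (nat_lit 76) (nat_lit 4322297199693) (nat_lit 76) (nat_lit 4184023108930) (nat_lit 1) (nat_lit 4) (nat_lit 2) (nat_lit 5) (nat_lit 2) (nat_lit 4) (nat_lit 284) (nat_lit 240) (nat_lit 136)) (XT.lf (nat_lit 0) (nat_lit 1452810548489) (nat_lit 76) (nat_lit 4837731531395) (nat_lit 76) (nat_lit 4699457431850) (nat_lit 1) (nat_lit 4) (nat_lit 2) (nat_lit 5) (nat_lit 2) (nat_lit 4) (nat_lit 285) (nat_lit 240) (nat_lit 135))) (XT.nd (nat_lit 78) (nat_lit 0) (nat_lit 0) (XT.lf (nat_lit 0) (nat_lit 1898296997808) (nat_lit 76) (nat_lit 5430481026169) (nat_lit 76) (nat_lit 5292206918989) (nat_lit 1) (nat_lit 4) (nat_lit 2) (nat_lit 5) (nat_lit 2) (nat_lit 4) (nat_lit 286) (nat_lit 240) (nat_lit 134)) (XT.lf (nat_lit 0) (nat_lit 2410606391029) (nat_lit 76) (nat_lit 6112142956741) (nat_lit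 76) (nat_lit 5973868842920) (nat_lit 1) (nat_lit 4) (nat_lit 2) (nat_lit 5) (nat_lit 2) (nat_lit 4) (nat_lit 287) (nat_lit 240) (nat_lit 133)))) (XT.nd (nat_lit 156) (nat_lit 0) (nat_lit 0) (XT.nd (nat_lit 78) (nat_lit 0) (nat_lit 0) (XT.lf (nat_lit 0) (nat_lit 2999762172804) (nat_lit 76) (nat_lit 6896054186968) (nat_lit 76) (nat_lit 6757780067373) (nat_lit 1) (nat_lit 4) (nat_lit 2) (nat_lit 5) (nat_lit 2) (nat_lit 4) (nat_lit 288) (nat_lit 240) (nat_lit 132)) (XT.lf (nat_lit 0) (nat_lit 3677291304081) (nat_lit 76) (nat_lit 7797552110486) (nat_lit 76) (nat_lit 7659277985871) (nat_lit 1) (nat_lit 4) (nat_lit 2) (nat_lit 5) (nat_lit 2) (nat_lit 4) (nat_lit 289) (nat_lit 240) (nat_lit 131))) (XT.nd (nat_lit 78) (nat_lit 0) (nat_lit 0) (XT.lf (nat_lit 0) (nat_lit 4456449789600) (nat_lit 76) (nat_lit 8834274730146) (nat_lit 76) (nat_lit 8696000601165) (nat_lit 1) (nat_lit 4) (nat_lit 2)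 (nat_lit 5) (nat_lit 2) (nat_lit 4) (nat_lit 290) (nat_lit 240) (nat_lit 130)) (XT.nd (nat_lit 78) (nat_lit 0) (nat_lit 0) (XT.lf (nat_lit 0) (nat_lit 5352482034515) (nat_lit 76) (nat_lit 10026505749377) (nat_lit 76) (nat_lit 9888231616599) (nat_lit 1) (nat_lit 4) (nat_lit 2) (nat_lit 5) (nat_lit 2) (nat_lit 4) (nat_lit 291) (nat_lit 240) (nat_lit 129)) (XT.lf (nat_lit 0) (nat_lit 6382919104485) (nat_lit 76) (nat_lit 11397571427250) (nat_lit 76) (nat_lit 11259297291171) (nat_lit 1) (nat_lit 4) (nat_lit 2) (nat_lit 5) (nat_lit 2) (nat_lit 4) (nat_lit 292) (nat_lit 240) (nat_lit 128))))))) (XT.nd (nat_lit 30108) (nat_lit 0) (nat_lit 912) (XT.nd (nat_lit 312) (nat_lit 0) (nat_lit 0) (XT.nd (nat_lit 156) (nat_lit 0) (nat_lit 0) (XT.nd (nat_lit 78) (nat_lit 0) (nat_lit 0) (XT.lf (nat_lit 0) (nat_lit 14372658461917) (nat_lit 76) (nat_lit 22028456152691) (nat_lit 76) (nat_lit 21890182005545)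 (nat_lit 1) (nat_lit 4) (nat_lit 2) (nat_lit 5) (nat_lit 2) (nat_lit 4) (nat_lit 297) (nat_lit 240) (nat_lit 123)) (XT.lf (nat_lit 0) (nat_lit 16756121951792) (nat_lit 76) (nat_lit 25199814412850) (nat_lit 76) (nat_lit 25061540264278) (nat_lit 1) (nat_lit 4) (nat_lit 2) (nat_lit 5) (nat_lit 2) (nat_lit 4) (nat_lit 298) (nat_lit 240) (nat_lit 122))) (XT.nd (nat_lit 78) (nat_lit 0) (nat_lit 0) (XT.lf (nat_lit 0) (nat_lit 19497104960757) (nat_lit 76) (nat_lit 28846876414198) (nat_lit 76) (nat_lit 28708602264385) (nat_lit 1) (nat_lit 4) (nat_lit 2) (nat_lit 5) (nat_lit 2) (nat_lit 4) (nat_lit 299) (nat_lit 240) (nat_lit 121)) (XT.lf (nat_lit 0) (nat_lit 22649235417249) (nat_lit 76) (nat_lit 33040997717630) (nat_lit 76) (nat_lit 32902723566738) (nat_lit 1) (nat_lit 4) (nat_lit 2) (nat_lit 5) (nat_lit 2) (nat_lit 4) (nat_lit 300) (nat_lit 240) (nat_lit 120)))) (XT.nd (nat_lit 156) (nat_lit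 0) (nat_lit 0) (XT.nd (nat_lit 78) (nat_lit 0) (nat_lit 0) (XT.lf (nat_lit 0) (nat_lit 26274185438893) (nat_lit 76) (nat_lit 37864237218214) (nat_lit 76) (nat_lit 37725963066383) (nat_lit 1) (nat_lit 4) (nat_lit 2) (nat_lit 5) (nat_lit 2) (nat_lit 4) (nat_lit 301) (nat_lit 240) (nat_lit 119)) (XT.lf (nat_lit 0) (nat_lit 30442877960897) (nat_lit 76) (nat_lit 43410962645308) (nat_lit 76) (nat_lit 43272688492662) (nat_lit 1) (nat_lit 4) (nat_lit 2) (nat_lit 5) (nat_lit 2) (nat_lit 4) (nat_lit 302) (nat_lit 240) (nat_lit 118))) (XT.nd (nat_lit 29562) (nat_lit 0) (nat_lit 1216) (XT.lf (nat_lit 0) (nat_lit 35236874358690) (nat_lit 76) (nat_lit 49789696887705) (nat_lit 76) (nat_lit 49651422734348) (nat_lit 1) (nat_lit 4) (nat_lit 2) (nat_lit 5) (nat_lit 2) (nat_lit 4) (nat_lit 303) (nat_lit 240) (nat_lit 117)) (XT.lf (nat_lit 0) (nat_lit 1140591149) (nat_lit 380) (nat_lit 18678351066) (nat_lit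 380) (nat_lit 18678351066) (nat_lit 17) (nat_lit 3) (nat_lit 22) (nat_lit 3) (nat_lit 22) (nat_lit 5) (nat_lit 241) (nat_lit 241) (nat_lit 178))))) (XT.nd (nat_lit 312) (nat_lit 304) (nat_lit 0) (XT.nd (nat_lit 156) (nat_lit 0) (nat_lit 76) (XT.nd (nat_lit 78) (nat_lit 0) (nat_lit 76) (XT.lf (nat_lit 0) (nat_lit 2462078985) (nat_lit 380) (nat_lit 3670424647) (nat_lit 380) (nat_lit 76635132025) (nat_lit 17) (nat_lit 3) (nat_lit 22) (nat_lit 3) (nat_lit 22) (nat_lit 5) (nat_lit 242) (nat_lit 241) (nat_lit 177)) (XT.lf (nat_lit 0) (nat_lit 5679849171) (nat_lit 304) (nat_lit 52090451236) (nat_lit 380) (nat_lit 31184893981) (nat_lit 18) (nat_lit 5) (nat_lit 22) (nat_lit 5) (nat_lit 23) (nat_lit 5) (nat_lit 243) (nat_lit 241) (nat_lit 176))) (XT.nd (nat_lit 78) (nat_lit 0) (nat_lit 76) (XT.lf (nat_lit 0) (nat_lit 9871774380) (nat_lit 304) (nat_lit 12451810528) (nat_lit 380) (nat_lit 73673590006)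 (nat_lit 18) (nat_lit 5) (nat_lit 22) (nat_lit 5) (nat_lit 23) (nat_lit 5) (nat_lit 244) (nat_lit 241) (nat_lit 175)) (XT.lf (nat_lit 0) (nat_lit 17032425072) (nat_lit 304) (nat_lit 68335647396) (nat_lit 76) (nat_lit 18376399469) (nat_lit 19) (nat_lit 5) (nat_lit 23) (nat_lit 5) (nat_lit 20) (nat_lit 5) (nat_lit 245) (nat_lit 241) (nat_lit 174)))) (XT.nd (nat_lit 156) (nat_lit 152) (nat_lit 0) (XT.nd (nat_lit 78) (nat_lit 304) (nat_lit 0) (XT.lf (nat_lit 0) (nat_lit 27010891131) (nat_lit 304) (nat_lit 21803505089) (nat_lit 76) (nat_lit 63577918255) (nat_lit 19) (nat_lit 5) (nat_lit 23) (nat_lit 5) (nat_lit 20) (nat_lit 5) (nat_lit 246) (nat_lit 241) (nat_lit 173)) (XT.lf (nat_lit 0) (nat_lit 34806074193) (nat_lit 304) (nat_lit 5120259126) (nat_lit 380) (nat_lit 82194976646) (nat_lit 15) (nat_lit 5) (nat_lit 19) (nat_lit 5) (nat_lit 20) (nat_lit 5) (nat_lit 247) (nat_lit 241) (nat_lit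 172))) (XT.nd (nat_lit 78) (nat_lit 152) (nat_lit 0) (XT.lf (nat_lit 0) (nat_lit 57840799150) (nat_lit 380) (nat_lit 32705274490) (nat_lit 76) (nat_lit 42304331564) (nat_lit 15) (nat_lit 5) (nat_lit 20) (nat_lit 5) (nat_lit 16) (nat_lit 5) (nat_lit 248) (nat_lit 241) (nat_lit 171)) (XT.nd (nat_lit 78) (nat_lit 0) (nat_lit 0) (XT.lf (nat_lit 0) (nat_lit 32768642390) (nat_lit 152) (nat_lit 47273669287) (nat_lit 228) (nat_lit 64906577201) (nat_lit 13) (nat_lit 5) (nat_lit 15) (nat_lit 5) (nat_lit 16) (nat_lit 5) (nat_lit 249) (nat_lit 241) (nat_lit 170)) (XT.lf (nat_lit 0) (nat_lit 107467377650) (nat_lit 228) (nat_lit 47052002466) (nat_lit 76) (nat_lit 4058770936) (nat_lit 13) (nat_lit 5) (nat_lit 16) (nat_lit 5) (nat_lit 14) (nat_lit 4) (nat_lit 250) (nat_lit 241) (nat_lit 169))))))))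
noncomputable def xc92 : XT := (XT.nd (nat_lit 1326) (nat_lit 228) (nat_lit 0) (XT.nd (nat_lit 624) (nat_lit 228) (nat_lit 0) (XT.nd (nat_lit 312) (nat_lit 152) (nat_lit 0) (XT.nd (nat_lit 156) (nat_lit 228) (nat_lit 0) (XT.nd (nat_lit 78) (nat_lit 0) (nat_lit 0) (XT.lf (nat_lit 0) (nat_lit 28094593866) (nat_lit 76) (nat_lit 114325408406) (nat_lit 152) (nat_lit 31319734757) (nat_lit 12) (nat_lit 5) (nat_lit 13) (nat_lit 5) (nat_lit 14) (nat_lit 4) (nat_lit 251) (nat_lit 241) (nat_lit 168)) (XT.lf (nat_lit 0) (nat_lit 119800293274) (nat_lit 76) (nat_lit 65274148199) (nat_lit 152) (nat_lit 5732285027) (nat_lit 12) (nat_lit 5) (nat_lit 13) (nat_lit 5) (nat_lit 14) (nat_lit 4) (nat_lit 252) (nat_lit 241) (nat_lit 167))) (XT.nd (nat_lit 78) (nat_lit 0) (nat_lit 0) (XT.lf (nat_lit 0) (nat_lit 15199310999) (nat_lit 152) (nat_lit 7013438642) (nat_lit 228) (nat_lit 187979533233) (nat_lit 9)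 (nat_lit 5) (nat_lit 11) (nat_lit 5) (nat_lit 12) (nat_lit 5) (nat_lit 253) (nat_lit 241) (nat_lit 166)) (XT.lf (nat_lit 0) (nat_lit 60134483900) (nat_lit 228) (nat_lit 112547331149) (nat_lit 76) (nat_lit 58807142034) (nat_lit 9) (nat_lit 5) (nat_lit 12) (nat_lit 5) (nat_lit 10) (nat_lit 4) (nat_lit 254) (nat_lit 241) (nat_lit 165)))) (XT.nd (nat_lit 156) (nat_lit 76) (nat_lit 0) (XT.nd (nat_lit 78) (nat_lit 76) (nat_lit 0) (XT.lf (nat_lit 0) (nat_lit 104077986951) (nat_lit 228) (nat_lit 18069568525) (nat_lit 76) (nat_lit 133782552784) (nat_lit 9) (nat_lit 5) (nat_lit 12) (nat_lit 5) (nat_lit 10) (nat_lit 4) (nat_lit 255) (nat_lit 241) (nat_lit 164)) (XT.lf (nat_lit 0) (nat_lit 99431264216) (nat_lit 76) (nat_lit 59298583842) (nat_lit 152) (nat_lit 124690061019) (nat_lit 8) (nat_lit 5) (nat_lit 9) (nat_lit 5) (nat_lit 10) (nat_lit 4) (nat_lit 256) (nat_lit 241) (nat_lit 163))) (XT.nd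 (nat_lit 78) (nat_lit 76) (nat_lit 0) (XT.lf (nat_lit 0) (nat_lit 223106005274) (nat_lit 152) (nat_lit 78886533138) (nat_lit 0) (nat_lit 12811665677) (nat_lit 8) (nat_lit 5) (nat_lit 10) (nat_lit 4) (nat_lit 8) (nat_lit 4) (nat_lit 257) (nat_lit 241) (nat_lit 162)) (XT.lf (nat_lit 0) (nat_lit 42983234264) (nat_lit 76) (nat_lit 258758601162) (nat_lit 76) (nat_lit 48463821924) (nat_lit 7) (nat_lit 4) (nat_lit 8) (nat_lit 5) (nat_lit 8) (nat_lit 4) (nat_lit 258) (nat_lit 241) (nat_lit 161))))) (XT.nd (nat_lit 312) (nat_lit 76) (nat_lit 0) (XT.nd (nat_lit 156) (nat_lit 76) (nat_lit 0) (XT.nd (nat_lit 78) (nat_lit 0) (nat_lit 0) (XT.lf (nat_lit 0) (nat_lit 5463564095) (nat_lit 152) (nat_lit 198548498729) (nat_lit 76) (nat_lit 186249520681) (nat_lit 6) (nat_lit 5) (nat_lit 8) (nat_lit 5) (nat_lit 7) (nat_lit 4) (nat_lit 259) (nat_lit 241) (nat_lit 160)) (XT.lf (nat_lit 0) (nat_lit 62517996992)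 (nat_lit 152) (nat_lit 75881800432) (nat_lit 76) (nat_lit 297579975240) (nat_lit 6) (nat_lit 5) (nat_lit 8) (nat_lit 5) (nat_lit 7) (nat_lit 4) (nat_lit 260) (nat_lit 241) (nat_lit 159))) (XT.nd (nat_lit 78) (nat_lit 0) (nat_lit 0) (XT.lf (nat_lit 0) (nat_lit 71554755042) (nat_lit 76) (nat_lit 59538518483) (nat_lit 152) (nat_lit 357018015670) (nat_lit 5) (nat_lit 5) (nat_lit 6) (nat_lit 5) (nat_lit 7) (nat_lit 4) (nat_lit 261) (nat_lit 241) (nat_lit 158)) (XT.lf (nat_lit 0) (nat_lit 215399965483) (nat_lit 152) (nat_lit 299311951218) (nat_lit 0) (nat_lit 32533848609) (nat_lit 5) (nat_lit 5) (nat_lit 7) (nat_lit 4) (nat_lit 5) (nat_lit 4) (nat_lit 262) (nat_lit 241) (nat_lit 157)))) (XT.nd (nat_lit 156) (nat_lit 76) (nat_lit 0) (XT.nd (nat_lit 78) (nat_lit 0) (nat_lit 0) (XT.lf (nat_lit 0) (nat_lit 315187616697) (nat_lit 152) (nat_lit 167316243679) (nat_lit 0) (nat_lit 132321309754) (nat_lit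 5) (nat_lit 5) (nat_lit 7) (nat_lit 4) (nat_lit 5) (nat_lit 4) (nat_lit 263) (nat_lit 241) (nat_lit 156)) (XT.lf (nat_lit 0) (nat_lit 429943231171) (nat_lit 152) (nat_lit 15521523740) (nat_lit 0) (nat_lit 247076758951) (nat_lit 5) (nat_lit 5) (nat_lit 7) (nat_lit 4) (nat_lit 5) (nat_lit 4) (nat_lit 264) (nat_lit 241) (nat_lit 155))) (XT.nd (nat_lit 78) (nat_lit 0) (nat_lit 0) (XT.lf (nat_lit 0) (nat_lit 174584856491) (nat_lit 76) (nat_lit 394556357563) (nat_lit 76) (nat_lit 211689741623) (nat_lit 4) (nat_lit 4) (nat_lit 5) (nat_lit 5) (nat_lit 5) (nat_lit 4) (nat_lit 265) (nat_lit 241) (nat_lit 154)) (XT.nd (nat_lit 78) (nat_lit 0) (nat_lit 0) (XT.lf (nat_lit 0) (nat_lit 394951316060) (nat_lit 76) (nat_lit 335078779425) (nat_lit 76) (nat_lit 152212038512) (nat_lit 4) (nat_lit 4) (nat_lit 5) (nat_lit 5) (nat_lit 5) (nat_lit 4) (nat_lit 266) (nat_lit 241) (nat_lit 153)) (XT.lf (nat_lit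 0) (nat_lit 648372496468) (nat_lit 76) (nat_lit 266679681129) (nat_lit 76) (nat_lit 83812831543) (nat_lit 4) (nat_lit 4) (nat_lit 5) (nat_lit 5) (nat_lit 5) (nat_lit 4) (nat_lit 267) (nat_lit 241) (nat_lit 152))))))) (XT.nd (nat_lit 624) (nat_lit 76) (nat_lit 0) (XT.nd (nat_lit 312) (nat_lit 0) (nat_lit 0) (XT.nd (nat_lit 156) (nat_lit 76) (nat_lit 0) (XT.nd (nat_lit 78) (nat_lit 76) (nat_lit 0) (XT.lf (nat_lit 0) (nat_lit 939806638202) (nat_lit 76) (nat_lit 188020819448) (nat_lit 76) (nat_lit 5153875364) (nat_lit 4) (nat_lit 4) (nat_lit 5) (nat_lit 5) (nat_lit 5) (nat_lit 4) (nat_lit 268) (nat_lit 241) (nat_lit 151)) (XT.lf (nat_lit 0) (nat_lit 77709474586) (nat_lit 152) (nat_lit 15791655894) (nat_lit 76) (nat_lit 1193184152842) (nat_lit 3) (nat_lit 5) (nat_lit 5) (nat_lit 5) (nat_lit 4) (nat_lit 4) (nat_lit 269) (nat_lit 241) (nat_lit 150))) (XT.nd (nat_lit 78) (nat_lit 0) (nat_lit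 0) (XT.lf (nat_lit 0) (nat_lit 182065670599) (nat_lit 152) (nat_lit 1256852889020) (nat_lit 0) (nat_lit 23050803025) (nat_lit 2) (nat_lit 5) (nat_lit 4) (nat_lit 4) (nat_lit 2) (nat_lit 4) (nat_lit 270) (nat_lit 241) (nat_lit 149)) (XT.lf (nat_lit 0) (nat_lit 307392422927) (nat_lit 152) (nat_lit 1206978560748) (nat_lit 0) (nat_lit 148377501323) (nat_lit 2) (nat_lit 5) (nat_lit 4) (nat_lit 4) (nat_lit 2) (nat_lit 4) (nat_lit 271) (nat_lit 241) (nat_lit 148)))) (XT.nd (nat_lit 156) (nat_lit 0) (nat_lit 0) (XT.nd (nat_lit 78) (nat_lit 0) (nat_lit 0) (XT.lf (nat_lit 0) (nat_lit 451518110689) (nat_lit 152) (nat_lit 1149623234676) (nat_lit 0) (nat_lit 292503142104) (nat_lit 2) (nat_lit 5) (nat_lit 4) (nat_lit 4) (nat_lit 2) (nat_lit 4) (nat_lit 272) (nat_lit 241) (nat_lit 147)) (XT.lf (nat_lit 0) (nat_lit 617262584299) (nat_lit 152) (nat_lit 1083664741380) (nat_lit 0) (nat_lit 458247574859)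 (nat_lit 2) (nat_lit 5) (nat_lit 4) (nat_lit 4) (nat_lit 2) (nat_lit 4) (nat_lit 273) (nat_lit 241) (nat_lit 146))) (XT.nd (nat_lit 78) (nat_lit 0) (nat_lit 0) (XT.lf (nat_lit 0) (nat_lit 807868670413) (nat_lit 152) (nat_lit 1007812588600) (nat_lit 0) (nat_lit 648853625448) (nat_lit 2) (nat_lit 5) (nat_lit 4) (nat_lit 4) (nat_lit 2) (nat_lit 4) (nat_lit 274) (nat_lit 241) (nat_lit 145)) (XT.lf (nat_lit 0) (nat_lit 1027065618542) (nat_lit 152) (nat_lit 920582712478) (nat_lit 0) (nat_lit 868050542686) (nat_lit 2) (nat_lit 5) (nat_lit 4) (nat_lit 4) (nat_lit 2) (nat_lit 4) (nat_lit 275) (nat_lit 241) (nat_lit 144))))) (XT.nd (nat_lit 312) (nat_lit 76) (nat_lit 0) (XT.nd (nat_lit 156) (nat_lit 0) (nat_lit 0) (XT.nd (nat_lit 78) (nat_lit 0) (nat_lit 0) (XT.lf (nat_lit 0) (nat_lit 1279142064629) (nat_lit 152) (nat_lit 820268441524) (nat_lit 0) (nat_lit 1120126961910) (nat_lit 2) (nat_lit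 5) (nat_lit 4) (nat_lit 4) (nat_lit 2) (nat_lit 4) (nat_lit 276) (nat_lit 241) (nat_lit 143)) (XT.lf (nat_lit 0) (nat_lit 1569029939140) (nat_lit 152) (nat_lit 704907105218) (nat_lit 0) (nat_lit 1410014813063) (nat_lit 2) (nat_lit 5) (nat_lit 4) (nat_lit 4) (nat_lit 2) (nat_lit 4) (nat_lit 277) (nat_lit 241) (nat_lit 142))) (XT.nd (nat_lit 78) (nat_lit 0) (nat_lit 0) (XT.lf (nat_lit 0) (nat_lit 1902400961359) (nat_lit 152) (nat_lit 572241633939) (nat_lit 0) (nat_lit 1743385814970) (nat_lit 2) (nat_lit 5) (nat_lit 4) (nat_lit 4) (nat_lit 2) (nat_lit 4) (nat_lit 278) (nat_lit 241) (nat_lit 141)) (XT.lf (nat_lit 0) (nat_lit 2285777607807) (nat_lit 152) (nat_lit 419676398900) (nat_lit 0) (nat_lit 2126762443756) (nat_lit 2) (nat_lit 5) (nat_lit 4) (nat_lit 4) (nat_lit 2) (nat_lit 4) (nat_lit 279) (nat_lit 241) (nat_lit 140)))) (XT.nd (nat_lit 156) (nat_lit 76) (nat_lit 0) (XT.nd (nat_lit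 78) (nat_lit 0) (nat_lit 0) (XT.lf (nat_lit 0) (nat_lit 2726660725916) (nat_lit 152) (nat_lit 244226428111) (nat_lit 0) (nat_lit 2567645546507) (nat_lit 2) (nat_lit 5) (nat_lit 4) (nat_lit 4) (nat_lit 2) (nat_lit 4) (nat_lit 280) (nat_lit 241) (nat_lit 139)) (XT.lf (nat_lit 0) (nat_lit 3233676289735) (nat_lit 152) (nat_lit 42459004753) (nat_lit 0) (nat_lit 3074661096970) (nat_lit 2) (nat_lit 5) (nat_lit 4) (nat_lit 4) (nat_lit 2) (nat_lit 4) (nat_lit 281) (nat_lit 241) (nat_lit 138))) (XT.nd (nat_lit 78) (nat_lit 0) (nat_lit 0) (XT.lf (nat_lit 0) (nat_lit 208099995291) (nat_lit 76) (nat_lit 3617261150731) (nat_lit 76) (nat_lit 3458245946353) (nat_lit 1) (nat_lit 4) (nat_lit 2) (nat_lit 5) (nat_lit 2) (nat_lit 4) (nat_lit 282) (nat_lit 241) (nat_lit 137)) (XT.nd (nat_lit 78) (nat_lit 0) (nat_lit 0) (XT.lf (nat_lit 0) (nat_lit 501014622757) (nat_lit 76) (nat_lit 4007003537851) (nat_lit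 76) (nat_lit 3847988323374) (nat_lit 1) (nat_lit 4) (nat_lit 2) (nat_lit 5) (nat_lit 2) (nat_lit 4) (nat_lit 283) (nat_lit 241) (nat_lit 136)) (XT.lf (nat_lit 0) (nat_lit 837866413273) (nat_lit 76) (nat_lit 4455207298353) (nat_lit 76) (nat_lit 4296192075095) (nat_lit 1) (nat_lit 4) (nat_lit 2) (nat_lit 5) (nat_lit 2) (nat_lit 4) (nat_lit 284) (nat_lit 241) (nat_lit 135))))))))
noncomputable def xc93 : XT := (XT.nd (nat_lit 31278) (nat_lit 0) (nat_lit 380) (XT.nd (nat_lit 936) (nat_lit 0) (nat_lit 0) (XT.nd (nat_lit 312) (nat_lit 0) (nat_lit 0) (XT.nd (nat_lit 156) (nat_lit 0) (nat_lit 0) (XT.nd (nat_lit 78) (nat_lit 0) (nat_lit 0) (XT.lf (nat_lit 0) (nat_lit 1225245945347) (nat_lit 76) (nat_lit 4970641636249) (nat_lit 76) (nat_lit 4811626405355) (nat_lit 1) (nat_lit 4) (nat_lit 2) (nat_lit 5) (nat_lit 2) (nat_lit 4) (nat_lit 285) (nat_lit 241) (nat_lit 134)) (XT.lf (nat_lit 0) (nat_lit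 1670732383738) (nat_lit 76) (nat_lit 5563391136410) (nat_lit 76) (nat_lit 5404375898876) (nat_lit 1) (nat_lit 4) (nat_lit 2) (nat_lit 5) (nat_lit 2) (nat_lit 4) (nat_lit 286) (nat_lit 241) (nat_lit 133))) (XT.nd (nat_lit 78) (nat_lit 0) (nat_lit 0) (XT.lf (nat_lit 0) (nat_lit 2183041767457) (nat_lit 76) (nat_lit 6245053071665) (nat_lit 76) (nat_lit 6086037828357) (nat_lit 1) (nat_lit 4) (nat_lit 2) (nat_lit 5) (nat_lit 2) (nat_lit 4) (nat_lit 287) (nat_lit 241) (nat_lit 132)) (XT.lf (nat_lit 0) (nat_lit 2772197540970) (nat_lit 76) (nat_lit 7028964305965) (nat_lit 76) (nat_lit 6869949057637) (nat_lit 1) (nat_lit 4) (nat_lit 2) (nat_lit 5) (nat_lit 2) (nat_lit 4) (nat_lit 288) (nat_lit 241) (nat_lit 131)))) (XT.nd (nat_lit 156) (nat_lit 0) (nat_lit 0) (XT.nd (nat_lit 78) (nat_lit 0) (nat_lit 0) (XT.lf (nat_lit 0) (nat_lit 3449726665061) (nat_lit 76) (nat_lit 7930462233025) (nat_lit 76)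 (nat_lit 7771446980331) (nat_lit 1) (nat_lit 4) (nat_lit 2) (nat_lit 5) (nat_lit 2) (nat_lit 4) (nat_lit 289) (nat_lit 241) (nat_lit 130)) (XT.lf (nat_lit 0) (nat_lit 4228885144332) (nat_lit 76) (nat_lit 8967184855765) (nat_lit 76) (nat_lit 8808169599274) (nat_lit 1) (nat_lit 4) (nat_lit 2) (nat_lit 5) (nat_lit 2) (nat_lit 4) (nat_lit 290) (nat_lit 241) (nat_lit 129))) (XT.nd (nat_lit 390) (nat_lit 0) (nat_lit 0) (XT.lf (nat_lit 0) (nat_lit 5124917383814) (nat_lit 76) (nat_lit 10159415877673) (nat_lit 76) (nat_lit 10000400617881) (nat_lit 1) (nat_lit 4) (nat_lit 2) (nat_lit 5) (nat_lit 2) (nat_lit 4) (nat_lit 291) (nat_lit 241) (nat_lit 128)) (XT.lf (nat_lit 0) (nat_lit 12072516840896) (nat_lit 76) (nat_lit 19403663457207) (nat_lit 76) (nat_lit 19244648186349) (nat_lit 1) (nat_lit 4) (nat_lit 2) (nat_lit 5) (nat_lit 2) (nat_lit 4) (nat_lit 296) (nat_lit 241) (nat_lit 123))))) (XT.nd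 (nat_lit 312) (nat_lit 0) (nat_lit 0) (XT.nd (nat_lit 156) (nat_lit 0) (nat_lit 0) (XT.nd (nat_lit 78) (nat_lit 0) (nat_lit 0) (XT.lf (nat_lit 0) (nat_lit 14145093790656) (nat_lit 76) (nat_lit 22161366291122) (nat_lit 76) (nat_lit 22002351018836) (nat_lit 1) (nat_lit 4) (nat_lit 2) (nat_lit 5) (nat_lit 2) (nat_lit 4) (nat_lit 297) (nat_lit 241) (nat_lit 122)) (XT.lf (nat_lit 0) (nat_lit 16528557278488) (nat_lit 76) (nat_lit 25332724552288) (nat_lit 76) (nat_lit 25173709278762) (nat_lit 1) (nat_lit 4) (nat_lit 2) (nat_lit 5) (nat_lit 2) (nat_lit 4) (nat_lit 298) (nat_lit 241) (nat_lit 121))) (XT.nd (nat_lit 78) (nat_lit 0) (nat_lit 0) (XT.lf (nat_lit 0) (nat_lit 19269540285677) (nat_lit 76) (nat_lit 28979786554511) (nat_lit 76) (nat_lit 28820771279906) (nat_lit 1) (nat_lit 4) (nat_lit 2) (nat_lit 5) (nat_lit 2) (nat_lit 4) (nat_lit 299) (nat_lit 241) (nat_lit 120)) (XT.lf (nat_lit 0)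 (nat_lit 22421670740624) (nat_lit 76) (nat_lit 33173907858705) (nat_lit 76) (nat_lit 33014892583161) (nat_lit 1) (nat_lit 4) (nat_lit 2) (nat_lit 5) (nat_lit 2) (nat_lit 4) (nat_lit 300) (nat_lit 241) (nat_lit 119)))) (XT.nd (nat_lit 29796) (nat_lit 0) (nat_lit 1216) (XT.nd (nat_lit 78) (nat_lit 0) (nat_lit 0) (XT.lf (nat_lit 0) (nat_lit 26046620760925) (nat_lit 76) (nat_lit 37997147359950) (nat_lit 76) (nat_lit 37838132083591) (nat_lit 1) (nat_lit 4) (nat_lit 2) (nat_lit 5) (nat_lit 2) (nat_lit 4) (nat_lit 301) (nat_lit 241) (nat_lit 118)) (XT.lf (nat_lit 0) (nat_lit 30215313281761) (nat_lit 76) (nat_lit 43543872787621) (nat_lit 76) (nat_lit 43384857510551) (nat_lit 1) (nat_lit 4) (nat_lit 2) (nat_lit 5) (nat_lit 2) (nat_lit 4) (nat_lit 302) (nat_lit 241) (nat_lit 117))) (XT.nd (nat_lit 78) (nat_lit 0) (nat_lit 0) (XT.lf (nat_lit 0) (nat_lit 1321081707) (nat_lit 380) (nat_lit 21474662320)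 (nat_lit 380) (nat_lit 21474662320) (nat_lit 17) (nat_lit 3) (nat_lit 22) (nat_lit 3) (nat_lit 22) (nat_lit 5) (nat_lit 242) (nat_lit 242) (nat_lit 176)) (XT.nd (nat_lit 78) (nat_lit 0) (nat_lit 76) (XT.lf (nat_lit 0) (nat_lit 2847741937) (nat_lit 380) (nat_lit 4211525030) (nat_lit 380) (nat_lit 88120938514) (nat_lit 17) (nat_lit 3) (nat_lit 22) (nat_lit 3) (nat_lit 22) (nat_lit 5) (nat_lit 243) (nat_lit 242) (nat_lit 175)) (XT.lf (nat_lit 0) (nat_lit 6546188747) (nat_lit 304) (nat_lit 59892459868) (nat_lit 380) (nat_lit 35857563768) (nat_lit 18) (nat_lit 5) (nat_lit 22) (nat_lit 5) (nat_lit 23) (nat_lit 5) (nat_lit 244) (nat_lit 242) (nat_lit 174))))))) (XT.nd (nat_lit 624) (nat_lit 456) (nat_lit 0) (XT.nd (nat_lit 312) (nat_lit 228) (nat_lit 0) (XT.nd (nat_lit 156) (nat_lit 228) (nat_lit 0) (XT.nd (nat_lit 78) (nat_lit 0) (nat_lit 76) (XT.lf (nat_lit 0) (nat_lit 11365029406) (nat_lit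 304) (nat_lit 14309530756) (nat_lit 380) (nat_lit 84720224759) (nat_lit 18) (nat_lit 5) (nat_lit 22) (nat_lit 5) (nat_lit 23) (nat_lit 5) (nat_lit 245) (nat_lit 242) (nat_lit 173)) (XT.lf (nat_lit 0) (nat_lit 19598477157) (nat_lit 304) (nat_lit 78574561827) (nat_lit 76) (nat_lit 21131344713) (nat_lit 19) (nat_lit 5) (nat_lit 23) (nat_lit 5) (nat_lit 20) (nat_lit 5) (nat_lit 246) (nat_lit 242) (nat_lit 172))) (XT.nd (nat_lit 78) (nat_lit 304) (nat_lit 0) (XT.lf (nat_lit 0) (nat_lit 31072253778) (nat_lit 304) (nat_lit 25064089393) (nat_lit 76) (nat_lit 73113288884) (nat_lit 19) (nat_lit 5) (nat_lit 23) (nat_lit 5) (nat_lit 20) (nat_lit 5) (nat_lit 247) (nat_lit 242) (nat_lit 171)) (XT.lf (nat_lit 0) (nat_lit 40036474897) (nat_lit 304) (nat_lit 5887661343) (nat_lit 380) (nat_lit 94513981198) (nat_lit 15) (nat_lit 5) (nat_lit 19) (nat_lit 5) (nat_lit 20) (nat_lit 5) (nat_lit 248) (nat_lit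 242) (nat_lit 170)))) (XT.nd (nat_lit 156) (nat_lit 76) (nat_lit 0) (XT.nd (nat_lit 78) (nat_lit 152) (nat_lit 0) (XT.lf (nat_lit 0) (nat_lit 66524640140) (nat_lit 380) (nat_lit 37601628938) (nat_lit 76) (nat_lit 48650485623) (nat_lit 15) (nat_lit 5) (nat_lit 20) (nat_lit 5) (nat_lit 16) (nat_lit 5) (nat_lit 249) (nat_lit 242) (nat_lit 169)) (XT.lf (nat_lit 0) (nat_lit 37692946532) (nat_lit 152) (nat_lit 54362798906) (nat_lit 228) (nat_lit 74634367534) (nat_lit 13) (nat_lit 5) (nat_lit 15) (nat_lit 5) (nat_lit 16) (nat_lit 5) (nat_lit 250) (nat_lit 242) (nat_lit 168))) (XT.nd (nat_lit 78) (nat_lit 76) (nat_lit 0) (XT.lf (nat_lit 0) (nat_lit 123593716075) (nat_lit 228) (nat_lit 54101074587) (nat_lit 76) (nat_lit 4669108119) (nat_lit 13) (nat_lit 5) (nat_lit 16) (nat_lit 5) (nat_lit 14) (nat_lit 4) (nat_lit 251) (nat_lit 242) (nat_lit 167)) (XT.lf (nat_lit 0) (nat_lit 32317114457) (nat_lit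 76) (nat_lit 131471652083) (nat_lit 152) (nat_lit 36011031531) (nat_lit 12) (nat_lit 5) (nat_lit 13) (nat_lit 5) (nat_lit 14) (nat_lit 4) (nat_lit 252) (nat_lit 242) (nat_lit 166))))) (XT.nd (nat_lit 312) (nat_lit 228) (nat_lit 0) (XT.nd (nat_lit 156) (nat_lit 0) (nat_lit 0) (XT.nd (nat_lit 78) (nat_lit 228) (nat_lit 0) (XT.lf (nat_lit 0) (nat_lit 137777582057) (nat_lit 76) (nat_lit 75063037747) (nat_lit 152) (nat_lit 6586333486) (nat_lit 12) (nat_lit 5) (nat_lit 13) (nat_lit 5) (nat_lit 14) (nat_lit 4) (nat_lit 253) (nat_lit 242) (nat_lit 165)) (XT.lf (nat_lit 0) (nat_lit 17486640740) (nat_lit 152) (nat_lit 8062919089) (nat_lit 228) (nat_lit 216170807850) (nat_lit 9) (nat_lit 5) (nat_lit 11) (nat_lit 5) (nat_lit 12) (nat_lit 5) (nat_lit 254) (nat_lit 242) (nat_lit 164))) (XT.nd (nat_lit 78) (nat_lit 0) (nat_lit 0) (XT.lf (nat_lit 0) (nat_lit 69159006682) (nat_lit 228) (nat_lit 129422399749)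 (nat_lit 76) (nat_lit 67630221717) (nat_lit 9) (nat_lit 5) (nat_lit 12) (nat_lit 5) (nat_lit 10) (nat_lit 4) (nat_lit 255) (nat_lit 242) (nat_lit 163)) (XT.lf (nat_lit 0) (nat_lit 119693467773) (nat_lit 228) (nat_lit 20773889828) (nat_lit 76) (nat_lit 153851682117) (nat_lit 9) (nat_lit 5) (nat_lit 12) (nat_lit 5) (nat_lit 10) (nat_lit 4) (nat_lit 256) (nat_lit 242) (nat_lit 162)))) (XT.nd (nat_lit 156) (nat_lit 152) (nat_lit 0) (XT.nd (nat_lit 78) (nat_lit 0) (nat_lit 0) (XT.lf (nat_lit 0) (nat_lit 114351789917) (nat_lit 76) (nat_lit 68191066383) (nat_lit 152) (nat_lit 143389494385) (nat_lit 8) (nat_lit 5) (nat_lit 9) (nat_lit 5) (nat_lit 10) (nat_lit 4) (nat_lit 257) (nat_lit 242) (nat_lit 161)) (XT.lf (nat_lit 0) (nat_lit 256575059525) (nat_lit 152) (nat_lit 90714047565) (nat_lit 0) (nat_lit 14735241463) (nat_lit 8) (nat_lit 5) (nat_lit 10) (nat_lit 4) (nat_lit 8) (nat_lit 4) (nat_lit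 258) (nat_lit 242) (nat_lit 160))) (XT.nd (nat_lit 78) (nat_lit 76) (nat_lit 0) (XT.lf (nat_lit 0) (nat_lit 49435936514) (nat_lit 76) (nat_lit 297570132396) (nat_lit 76) (nat_lit 55729981902) (nat_lit 7) (nat_lit 4) (nat_lit 8) (nat_lit 5) (nat_lit 8) (nat_lit 4) (nat_lit 259) (nat_lit 242) (nat_lit 159)) (XT.nd (nat_lit 78) (nat_lit 0) (nat_lit 0) (XT.lf (nat_lit 0) (nat_lit 6285802565) (nat_lit 152) (nat_lit 228325964049) (nat_lit 76) (nat_lit 214188640206) (nat_lit 6) (nat_lit 5) (nat_lit 8) (nat_lit 5) (nat_lit 7) (nat_lit 4) (nat_lit 260) (nat_lit 242) (nat_lit 158)) (XT.lf (nat_lit 0) (nat_lit 71898047720) (nat_lit 152) (nat_lit 87259888332) (nat_lit 76) (nat_lit 342218442329) (nat_lit 6) (nat_lit 5) (nat_lit 8) (nat_lit 5) (nat_lit 7) (nat_lit 4) (nat_lit 261) (nat_lit 242) (nat_lit 157))))))))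
noncomputable def xc94 : XT := (XT.nd (nat_lit 1326) (nat_lit 76) (nat_lit 0) (XT.nd (nat_lit 624) (nat_lit 152) (nat_lit 0) (XT.nd (nat_lit 312) (nat_lit 76) (nat_lit 0) (XT.nd (nat_lit 156) (nat_lit 0) (nat_lit 0) (XT.nd (nat_lit 78) (nat_lit 0) (nat_lit 0) (XT.lf (nat_lit 0) (nat_lit 82291960365) (nat_lit 76) (nat_lit 68467513995) (nat_lit 152) (nat_lit 410568170216) (nat_lit 5) (nat_lit 5) (nat_lit 6) (nat_lit 5) (nat_lit 7) (nat_lit 4) (nat_lit 262) (nat_lit 242) (nat_lit 156)) (XT.lf (nat_lit 0) (nat_lit 247711946050) (nat_lit 152) (nat_lit 344205042800) (nat_lit 0) (nat_lit 37415337719) (nat_lit 5) (nat_lit 5) (nat_lit 7) (nat_lit 4) (nat_lit 5) (nat_lit 4) (nat_lit 263) (nat_lit 242) (nat_lit 155))) (XT.nd (nat_lit 78) (nat_lit 0) (nat_lit 0) (XT.lf (nat_lit 0) (nat_lit 362467485936) (nat_lit 152) (nat_lit 192410461882) (nat_lit 0) (nat_lit 152170733885) (nat_lit 5) (nat_lit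 5) (nat_lit 7) (nat_lit 4) (nat_lit 5) (nat_lit 4) (nat_lit 264) (nat_lit 242) (nat_lit 154)) (XT.lf (nat_lit 0) (nat_lit 494436217355) (nat_lit 152) (nat_lit 17846953737) (nat_lit 0) (nat_lit 284139340332) (nat_lit 5) (nat_lit 5) (nat_lit 7) (nat_lit 4) (nat_lit 5) (nat_lit 4) (nat_lit 265) (nat_lit 242) (nat_lit 153)))) (XT.nd (nat_lit 156) (nat_lit 0) (nat_lit 0) (XT.nd (nat_lit 78) (nat_lit 0) (nat_lit 0) (XT.lf (nat_lit 0) (nat_lit 200775256322) (nat_lit 76) (nat_lit 453738556116) (nat_lit 76) (nat_lit 243441570419) (nat_lit 4) (nat_lit 4) (nat_lit 5) (nat_lit 5) (nat_lit 5) (nat_lit 4) (nat_lit 266) (nat_lit 242) (nat_lit 152)) (XT.lf (nat_lit 0) (nat_lit 454196336388) (nat_lit 76) (nat_lit 385339504963) (nat_lit 76) (nat_lit 175042424769) (nat_lit 4) (nat_lit 4) (nat_lit 5) (nat_lit 5) (nat_lit 5) (nat_lit 4) (nat_lit 267) (nat_lit 242) (nat_lit 151))) (XT.nd (nat_lit 78) (nat_lit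 0) (nat_lit 0) (XT.lf (nat_lit 0) (nat_lit 745630390868) (nat_lit 76) (nat_lit 306680684276) (nat_lit 76) (nat_lit 96383521910) (nat_lit 4) (nat_lit 4) (nat_lit 5) (nat_lit 5) (nat_lit 5) (nat_lit 4) (nat_lit 268) (nat_lit 242) (nat_lit 150)) (XT.lf (nat_lit 0) (nat_lit 1080779390393) (nat_lit 76) (nat_lit 216223117128) (nat_lit 76) (nat_lit 5925883308) (nat_lit 4) (nat_lit 4) (nat_lit 5) (nat_lit 5) (nat_lit 5) (nat_lit 4) (nat_lit 269) (nat_lit 242) (nat_lit 149))))) (XT.nd (nat_lit 312) (nat_lit 0) (nat_lit 0) (XT.nd (nat_lit 156) (nat_lit 0) (nat_lit 0) (XT.nd (nat_lit 78) (nat_lit 76) (nat_lit 0) (XT.lf (nat_lit 0) (nat_lit 89366746038) (nat_lit 152) (nat_lit 18158791972) (nat_lit 76) (nat_lit 1372162408416) (nat_lit 3) (nat_lit 5) (nat_lit 5) (nat_lit 5) (nat_lit 4) (nat_lit 4) (nat_lit 270) (nat_lit 242) (nat_lit 148)) (XT.lf (nat_lit 0) (nat_lit 209376354749) (nat_lit 152) (nat_lit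 1445379191750) (nat_lit 0) (nat_lit 26509093893) (nat_lit 2) (nat_lit 5) (nat_lit 4) (nat_lit 4) (nat_lit 2) (nat_lit 4) (nat_lit 271) (nat_lit 242) (nat_lit 147))) (XT.nd (nat_lit 78) (nat_lit 0) (nat_lit 0) (XT.lf (nat_lit 0) (nat_lit 353502011201) (nat_lit 152) (nat_lit 1388023926928) (nat_lit 0) (nat_lit 170634709491) (nat_lit 2) (nat_lit 5) (nat_lit 4) (nat_lit 4) (nat_lit 2) (nat_lit 4) (nat_lit 272) (nat_lit 242) (nat_lit 146)) (XT.lf (nat_lit 0) (nat_lit 519246457584) (nat_lit 152) (nat_lit 1322065486893) (nat_lit 0) (nat_lit 336379120349) (nat_lit 2) (nat_lit 5) (nat_lit 4) (nat_lit 4) (nat_lit 2) (nat_lit 4) (nat_lit 273) (nat_lit 242) (nat_lit 145)))) (XT.nd (nat_lit 156) (nat_lit 0) (nat_lit 0) (XT.nd (nat_lit 78) (nat_lit 0) (nat_lit 0) (XT.lf (nat_lit 0) (nat_lit 709852520023) (nat_lit 152) (nat_lit 1246213380426) (nat_lit 0) (nat_lit 526985151896) (nat_lit 2) (nat_lit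 5) (nat_lit 4) (nat_lit 4) (nat_lit 2) (nat_lit 4) (nat_lit 274) (nat_lit 242) (nat_lit 144)) (XT.lf (nat_lit 0) (nat_lit 929049447565) (nat_lit 152) (nat_lit 1158983544577) (nat_lit 0) (nat_lit 746182052577) (nat_lit 2) (nat_lit 5) (nat_lit 4) (nat_lit 4) (nat_lit 2) (nat_lit 4) (nat_lit 275) (nat_lit 242) (nat_lit 143))) (XT.nd (nat_lit 78) (nat_lit 0) (nat_lit 0) (XT.lf (nat_lit 0) (nat_lit 1181125875750) (nat_lit 152) (nat_lit 1058669308642) (nat_lit 0) (nat_lit 998258457403) (nat_lit 2) (nat_lit 5) (nat_lit 4) (nat_lit 4) (nat_lit 2) (nat_lit 4) (nat_lit 276) (nat_lit 242) (nat_lit 142)) (XT.nd (nat_lit 78) (nat_lit 0) (nat_lit 0) (XT.lf (nat_lit 0) (nat_lit 1471013734694) (nat_lit 152) (nat_lit 943308002789) (nat_lit 0) (nat_lit 1288146296036) (nat_lit 2) (nat_lit 5) (nat_lit 4) (nat_lit 4) (nat_lit 2) (nat_lit 4) (nat_lit 277) (nat_lit 242) (nat_lit 141)) (XT.lf (nat_lit 0) (nat_lit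 1804384743377) (nat_lit 152) (nat_lit 810642557990) (nat_lit 0) (nat_lit 1621517287056) (nat_lit 2) (nat_lit 5) (nat_lit 4) (nat_lit 4) (nat_lit 2) (nat_lit 4) (nat_lit 278) (nat_lit 242) (nat_lit 140))))))) (XT.nd (nat_lit 624) (nat_lit 0) (nat_lit 0) (XT.nd (nat_lit 312) (nat_lit 76) (nat_lit 0) (XT.nd (nat_lit 156) (nat_lit 0) (nat_lit 0) (XT.nd (nat_lit 78) (nat_lit 0) (nat_lit 0) (XT.lf (nat_lit 0) (nat_lit 2187761378055) (nat_lit 152) (nat_lit 658077345977) (nat_lit 0) (nat_lit 2004893906375) (nat_lit 2) (nat_lit 5) (nat_lit 4) (nat_lit 4) (nat_lit 2) (nat_lit 4) (nat_lit 279) (nat_lit 242) (nat_lit 139)) (XT.lf (nat_lit 0) (nat_lit 2628644485928) (nat_lit 152) (nat_lit 482627395211) (nat_lit 0) (nat_lit 2445777000893) (nat_lit 2) (nat_lit 5) (nat_lit 4) (nat_lit 4) (nat_lit 2) (nat_lit 4) (nat_lit 280) (nat_lit 242) (nat_lit 138))) (XT.nd (nat_lit 78) (nat_lit 0) (nat_lit 0)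 (XT.lf (nat_lit 0) (nat_lit 3135660040847) (nat_lit 152) (nat_lit 280859989263) (nat_lit 0) (nat_lit 2952792544199) (nat_lit 2) (nat_lit 5) (nat_lit 4) (nat_lit 4) (nat_lit 2) (nat_lit 4) (nat_lit 281) (nat_lit 242) (nat_lit 137)) (XT.lf (nat_lit 0) (nat_lit 3718727912364) (nat_lit 152) (nat_lit 48827504975) (nat_lit 0) (nat_lit 3535860405617) (nat_lit 2) (nat_lit 5) (nat_lit 4) (nat_lit 4) (nat_lit 2) (nat_lit 4) (nat_lit 282) (nat_lit 242) (nat_lit 136)))) (XT.nd (nat_lit 156) (nat_lit 0) (nat_lit 0) (XT.nd (nat_lit 78) (nat_lit 0) (nat_lit 0) (XT.lf (nat_lit 0) (nat_lit 239315329144) (nat_lit 76) (nat_lit 4159850158433) (nat_lit 76) (nat_lit 3976982642905) (nat_lit 1) (nat_lit 4) (nat_lit 2) (nat_lit 5) (nat_lit 2) (nat_lit 4) (nat_lit 283) (nat_lit 242) (nat_lit 135)) (XT.lf (nat_lit 0) (nat_lit 576167107093) (nat_lit 76) (nat_lit 4608053925130) (nat_lit 76) (nat_lit 4425186401966)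 (nat_lit 1) (nat_lit 4) (nat_lit 2) (nat_lit 5) (nat_lit 2) (nat_lit 4) (nat_lit 284) (nat_lit 242) (nat_lit 134))) (XT.nd (nat_lit 78) (nat_lit 0) (nat_lit 0) (XT.lf (nat_lit 0) (nat_lit 963546628239) (nat_lit 76) (nat_lit 5123488268412) (nat_lit 76) (nat_lit 4940620738608) (nat_lit 1) (nat_lit 4) (nat_lit 2) (nat_lit 5) (nat_lit 2) (nat_lit 4) (nat_lit 285) (nat_lit 242) (nat_lit 133)) (XT.lf (nat_lit 0) (nat_lit 1409033057128) (nat_lit 76) (nat_lit 5716237773257) (nat_lit 76) (nat_lit 5533370237679) (nat_lit 1) (nat_lit 4) (nat_lit 2) (nat_lit 5) (nat_lit 2) (nat_lit 4) (nat_lit 286) (nat_lit 242) (nat_lit 132))))) (XT.nd (nat_lit 312) (nat_lit 0) (nat_lit 0) (XT.nd (nat_lit 156) (nat_lit 0) (nat_lit 0) (XT.nd (nat_lit 78) (nat_lit 0) (nat_lit 0) (XT.lf (nat_lit 0) (nat_lit 1921342432584) (nat_lit 76) (nat_lit 6397899712585) (nat_lit 76) (nat_lit 6215032171986) (nat_lit 1) (nat_lit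 4) (nat_lit 2) (nat_lit 5) (nat_lit 2) (nat_lit 4) (nat_lit 287) (nat_lit 242) (nat_lit 131)) (XT.lf (nat_lit 0) (nat_lit 2510498198911) (nat_lit 76) (nat_lit 7181810950427) (nat_lit 76) (nat_lit 6998943405462) (nat_lit 1) (nat_lit 4) (nat_lit 2) (nat_lit 5) (nat_lit 2) (nat_lit 4) (nat_lit 288) (nat_lit 242) (nat_lit 130))) (XT.nd (nat_lit 78) (nat_lit 0) (nat_lit 0) (XT.lf (nat_lit 0) (nat_lit 3188027316755) (nat_lit 76) (nat_lit 8083308880566) (nat_lit 76) (nat_lit 7900441331805) (nat_lit 1) (nat_lit 4) (nat_lit 2) (nat_lit 5) (nat_lit 2) (nat_lit 4) (nat_lit 289) (nat_lit 242) (nat_lit 129)) (XT.lf (nat_lit 0) (nat_lit 3967185790593) (nat_lit 76) (nat_lit 9120031505984) (nat_lit 76) (nat_lit 8937163953922) (nat_lit 1) (nat_lit 4) (nat_lit 2) (nat_lit 5) (nat_lit 2) (nat_lit 4) (nat_lit 290) (nat_lit 242) (nat_lit 128)))) (XT.nd (nat_lit 468) (nat_lit 0) (nat_lit 0) (XT.nd (nat_lit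 390) (nat_lit 0) (nat_lit 0) (XT.lf (nat_lit 0) (nat_lit 4863218025350) (nat_lit 76) (nat_lit 10312262530221) (nat_lit 76) (nat_lit 10129394975288) (nat_lit 1) (nat_lit 4) (nat_lit 2) (nat_lit 5) (nat_lit 2) (nat_lit 4) (nat_lit 291) (nat_lit 242) (nat_lit 127)) (XT.lf (nat_lit 0) (nat_lit 11810817466596) (nat_lit 76) (nat_lit 19556510117561) (nat_lit 76) (nat_lit 19373642553005) (nat_lit 1) (nat_lit 4) (nat_lit 2) (nat_lit 5) (nat_lit 2) (nat_lit 4) (nat_lit 296) (nat_lit 242) (nat_lit 122))) (XT.nd (nat_lit 78) (nat_lit 0) (nat_lit 0) (XT.lf (nat_lit 0) (nat_lit 13883394414313) (nat_lit 76) (nat_lit 22314212952482) (nat_lit 76) (nat_lit 22131345386686) (nat_lit 1) (nat_lit 4) (nat_lit 2) (nat_lit 5) (nat_lit 2) (nat_lit 4) (nat_lit 297) (nat_lit 242) (nat_lit 121)) (XT.nd (nat_lit 78) (nat_lit 0) (nat_lit 0) (XT.lf (nat_lit 0) (nat_lit 16266857900370) (nat_lit 76) (nat_lit 25485571214524)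 (nat_lit 76) (nat_lit 25302703647648) (nat_lit 1) (nat_lit 4) (nat_lit 2) (nat_lit 5) (nat_lit 2) (nat_lit 4) (nat_lit 298) (nat_lit 242) (nat_lit 120)) (XT.lf (nat_lit 0) (nat_lit 19007840906014) (nat_lit 76) (nat_lit 29132633217508) (nat_lit 76) (nat_lit 28949765649694) (nat_lit 1) (nat_lit 4) (nat_lit 2) (nat_lit 5) (nat_lit 2) (nat_lit 4) (nat_lit 299) (nat_lit 242) (nat_lit 119))))))))
noncomputable def xc95 : XT := (XT.nd (nat_lit 31122) (nat_lit 0) (nat_lit 76) (XT.nd (nat_lit 30420) (nat_lit 0) (nat_lit 608) (XT.nd (nat_lit 30108) (nat_lit 0) (nat_lit 1292) (XT.nd (nat_lit 29952) (nat_lit 0) (nat_lit 1216) (XT.nd (nat_lit 78) (nat_lit 0) (nat_lit 0) (XT.lf (nat_lit 0) (nat_lit 22159971359618) (nat_lit 76) (nat_lit 33326754522364) (nat_lit 76) (nat_lit 33143886953734) (nat_lit 1) (nat_lit 4) (nat_lit 2) (nat_lit 5) (nat_lit 2) (nat_lit 4) (nat_lit 300) (nat_lit 242) (nat_lit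 118)) (XT.lf (nat_lit 0) (nat_lit 25784921378752) (nat_lit 76) (nat_lit 38149994024185) (nat_lit 76) (nat_lit 37967126454846) (nat_lit 1) (nat_lit 4) (nat_lit 2) (nat_lit 5) (nat_lit 2) (nat_lit 4) (nat_lit 301) (nat_lit 242) (nat_lit 117))) (XT.nd (nat_lit 78) (nat_lit 0) (nat_lit 0) (XT.lf (nat_lit 0) (nat_lit 1526353138) (nat_lit 380) (nat_lit 24691747183) (nat_lit 380) (nat_lit 24691747183) (nat_lit 17) (nat_lit 3) (nat_lit 22) (nat_lit 3) (nat_lit 22) (nat_lit 5) (nat_lit 243) (nat_lit 243) (nat_lit 174)) (XT.lf (nat_lit 0) (nat_lit 3287267012) (nat_lit 380) (nat_lit 4836098159) (nat_lit 380) (nat_lit 101331923666) (nat_lit 17) (nat_lit 3) (nat_lit 22) (nat_lit 3) (nat_lit 22) (nat_lit 5) (nat_lit 244) (nat_lit 243) (nat_lit 173)))) (XT.nd (nat_lit 156) (nat_lit 0) (nat_lit 76) (XT.nd (nat_lit 78) (nat_lit 0) (nat_lit 0) (XT.lf (nat_lit 0) (nat_lit 7538976945) (nat_lit 304) (nat_lit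 68867588542) (nat_lit 380) (nat_lit 41232368987) (nat_lit 18) (nat_lit 5) (nat_lit 22) (nat_lit 5) (nat_lit 23) (nat_lit 5) (nat_lit 245) (nat_lit 243) (nat_lit 172)) (XT.lf (nat_lit 0) (nat_lit 13079227197) (nat_lit 304) (nat_lit 16448360104) (nat_lit 380) (nat_lit 97424928607) (nat_lit 18) (nat_lit 5) (nat_lit 22) (nat_lit 5) (nat_lit 23) (nat_lit 5) (nat_lit 246) (nat_lit 243) (nat_lit 171))) (XT.nd (nat_lit 78) (nat_lit 0) (nat_lit 0) (XT.lf (nat_lit 0) (nat_lit 22546708711) (nat_lit 304) (nat_lit 90352101354) (nat_lit 76) (nat_lit 24299901107) (nat_lit 19) (nat_lit 5) (nat_lit 23) (nat_lit 5) (nat_lit 20) (nat_lit 5) (nat_lit 247) (nat_lit 243) (nat_lit 170)) (XT.lf (nat_lit 0) (nat_lit 35740448350) (nat_lit 304) (nat_lit 28816185630) (nat_lit 76) (nat_lit 84079286292) (nat_lit 19) (nat_lit 5) (nat_lit 23) (nat_lit 5) (nat_lit 20) (nat_lit 5) (nat_lit 248) (nat_lit 243) (nat_lit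 169))))) (XT.nd (nat_lit 312) (nat_lit 304) (nat_lit 0) (XT.nd (nat_lit 156) (nat_lit 152) (nat_lit 0) (XT.nd (nat_lit 78) (nat_lit 0) (nat_lit 0) (XT.lf (nat_lit 0) (nat_lit 46049121614) (nat_lit 304) (nat_lit 6770329144) (nat_lit 380) (nat_lit 108683333996) (nat_lit 15) (nat_lit 5) (nat_lit 19) (nat_lit 5) (nat_lit 20) (nat_lit 5) (nat_lit 249) (nat_lit 243) (nat_lit 168)) (XT.lf (nat_lit 0) (nat_lit 76509174436) (nat_lit 380) (nat_lit 43234737759) (nat_lit 76) (nat_lit 55948439808) (nat_lit 15) (nat_lit 5) (nat_lit 20) (nat_lit 5) (nat_lit 16) (nat_lit 5) (nat_lit 250) (nat_lit 243) (nat_lit 167))) (XT.nd (nat_lit 78) (nat_lit 0) (nat_lit 0) (XT.lf (nat_lit 0) (nat_lit 43353699691) (nat_lit 152) (nat_lit 62515766360) (nat_lit 228) (nat_lit 85823325123) (nat_lit 13) (nat_lit 5) (nat_lit 15) (nat_lit 5) (nat_lit 16) (nat_lit 5) (nat_lit 251) (nat_lit 243) (nat_lit 166)) (XT.lf (nat_lit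 0) (nat_lit 142137485606) (nat_lit 228) (nat_lit 62209635964) (nat_lit 76) (nat_lit 5370624842) (nat_lit 13) (nat_lit 5) (nat_lit 16) (nat_lit 5) (nat_lit 14) (nat_lit 4) (nat_lit 252) (nat_lit 243) (nat_lit 165)))) (XT.nd (nat_lit 156) (nat_lit 228) (nat_lit 0) (XT.nd (nat_lit 78) (nat_lit 0) (nat_lit 0) (XT.lf (nat_lit 0) (nat_lit 37170981445) (nat_lit 76) (nat_lit 151190458433) (nat_lit 152) (nat_lit 41407647742) (nat_lit 12) (nat_lit 5) (nat_lit 13) (nat_lit 5) (nat_lit 14) (nat_lit 4) (nat_lit 253) (nat_lit 243) (nat_lit 164)) (XT.lf (nat_lit 0) (nat_lit 158449697469) (nat_lit 76) (nat_lit 86320805181) (nat_lit 152) (nat_lit 7569902188) (nat_lit 12) (nat_lit 5) (nat_lit 13) (nat_lit 5) (nat_lit 14) (nat_lit 4) (nat_lit 254) (nat_lit 243) (nat_lit 163))) (XT.nd (nat_lit 78) (nat_lit 0) (nat_lit 0) (XT.lf (nat_lit 0) (nat_lit 20115257336) (nat_lit 152) (nat_lit 9270439865) (nat_lit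 228) (nat_lit 248592152757) (nat_lit 9) (nat_lit 5) (nat_lit 11) (nat_lit 5) (nat_lit 12) (nat_lit 5) (nat_lit 255) (nat_lit 243) (nat_lit 162)) (XT.nd (nat_lit 78) (nat_lit 0) (nat_lit 0) (XT.lf (nat_lit 0) (nat_lit 79536147058) (nat_lit 228) (nat_lit 148830443210) (nat_lit 76) (nat_lit 77776273597) (nat_lit 9) (nat_lit 5) (nat_lit 12) (nat_lit 5) (nat_lit 10) (nat_lit 4) (nat_lit 256) (nat_lit 243) (nat_lit 161)) (XT.lf (nat_lit 0) (nat_lit 137650348264) (nat_lit 228) (nat_lit 23885350258) (nat_lit 76) (nat_lit 176930754975) (nat_lit 9) (nat_lit 5) (nat_lit 12) (nat_lit 5) (nat_lit 10) (nat_lit 4) (nat_lit 257) (nat_lit 243) (nat_lit 160))))))) (XT.nd (nat_lit 624) (nat_lit 228) (nat_lit 0) (XT.nd (nat_lit 312) (nat_lit 76) (nat_lit 0) (XT.nd (nat_lit 156) (nat_lit 152) (nat_lit 0) (XT.nd (nat_lit 78) (nat_lit 0) (nat_lit 0) (XT.lf (nat_lit 0) (nat_lit 131508971310) (nat_lit 76) (nat_lit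 78417983403) (nat_lit 152) (nat_lit 164894836663) (nat_lit 8) (nat_lit 5) (nat_lit 9) (nat_lit 5) (nat_lit 10) (nat_lit 4) (nat_lit 258) (nat_lit 243) (nat_lit 159)) (XT.lf (nat_lit 0) (nat_lit 295063702923) (nat_lit 152) (nat_lit 104317021964) (nat_lit 0) (nat_lit 16946908352) (nat_lit 8) (nat_lit 5) (nat_lit 10) (nat_lit 4) (nat_lit 8) (nat_lit 4) (nat_lit 259) (nat_lit 243) (nat_lit 158))) (XT.nd (nat_lit 78) (nat_lit 76) (nat_lit 0) (XT.lf (nat_lit 0) (nat_lit 56855271875) (nat_lit 76) (nat_lit 342203944172) (nat_lit 76) (nat_lit 64086898234) (nat_lit 7) (nat_lit 4) (nat_lit 8) (nat_lit 5) (nat_lit 8) (nat_lit 4) (nat_lit 260) (nat_lit 243) (nat_lit 157)) (XT.lf (nat_lit 0) (nat_lit 7230717454) (nat_lit 152) (nat_lit 262571221990) (nat_lit 76) (nat_lit 246318215196) (nat_lit 6) (nat_lit 5) (nat_lit 8) (nat_lit 5) (nat_lit 7) (nat_lit 4) (nat_lit 261) (nat_lit 243) (nat_lit 156))))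 (XT.nd (nat_lit 156) (nat_lit 0) (nat_lit 0) (XT.nd (nat_lit 78) (nat_lit 76) (nat_lit 0) (XT.lf (nat_lit 0) (nat_lit 82684532708) (nat_lit 152) (nat_lit 100345709264) (nat_lit 76) (nat_lit 393552320817) (nat_lit 6) (nat_lit 5) (nat_lit 8) (nat_lit 5) (nat_lit 7) (nat_lit 4) (nat_lit 262) (nat_lit 243) (nat_lit 155)) (XT.lf (nat_lit 0) (nat_lit 94638772996) (nat_lit 76) (nat_lit 78736293450) (nat_lit 152) (nat_lit 472151469241) (nat_lit 5) (nat_lit 5) (nat_lit 6) (nat_lit 5) (nat_lit 7) (nat_lit 4) (nat_lit 263) (nat_lit 243) (nat_lit 154))) (XT.nd (nat_lit 78) (nat_lit 0) (nat_lit 0) (XT.lf (nat_lit 0) (nat_lit 284870239466) (nat_lit 152) (nat_lit 395833000656) (nat_lit 0) (nat_lit 43028705915) (nat_lit 5) (nat_lit 5) (nat_lit 7) (nat_lit 4) (nat_lit 5) (nat_lit 4) (nat_lit 264) (nat_lit 243) (nat_lit 153)) (XT.lf (nat_lit 0) (nat_lit 416838914486) (nat_lit 152) (nat_lit 221269597631)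 (nat_lit 0) (nat_lit 174997272262) (nat_lit 5) (nat_lit 5) (nat_lit 7) (nat_lit 4) (nat_lit 5) (nat_lit 4) (nat_lit 265) (nat_lit 243) (nat_lit 152))))) (XT.nd (nat_lit 312) (nat_lit 152) (nat_lit 0) (XT.nd (nat_lit 156) (nat_lit 0) (nat_lit 0) (XT.nd (nat_lit 78) (nat_lit 76) (nat_lit 0) (XT.lf (nat_lit 0) (nat_lit 568602785315) (nat_lit 152) (nat_lit 20521880681) (nat_lit 0) (nat_lit 326761048593) (nat_lit 5) (nat_lit 5) (nat_lit 7) (nat_lit 4) (nat_lit 5) (nat_lit 4) (nat_lit 266) (nat_lit 243) (nat_lit 151)) (XT.lf (nat_lit 0) (nat_lit 230893564700) (nat_lit 76) (nat_lit 521798390511) (nat_lit 76) (nat_lit 279956571617) (nat_lit 4) (nat_lit 4) (nat_lit 5) (nat_lit 5) (nat_lit 5) (nat_lit 4) (nat_lit 267) (nat_lit 243) (nat_lit 150))) (XT.nd (nat_lit 78) (nat_lit 0) (nat_lit 0) (XT.lf (nat_lit 0) (nat_lit 522327543307) (nat_lit 76) (nat_lit 443139605471) (nat_lit 76) (nat_lit 201297715123)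 (nat_lit 4) (nat_lit 4) (nat_lit 5) (nat_lit 5) (nat_lit 5) (nat_lit 4) (nat_lit 268) (nat_lit 243) (nat_lit 149)) (XT.lf (nat_lit 0) (nat_lit 857476476855) (nat_lit 76) (nat_lit 352682069321) (nat_lit 76) (nat_lit 110840116839) (nat_lit 4) (nat_lit 4) (nat_lit 5) (nat_lit 5) (nat_lit 5) (nat_lit 4) (nat_lit 269) (nat_lit 243) (nat_lit 148)))) (XT.nd (nat_lit 156) (nat_lit 76) (nat_lit 0) (XT.nd (nat_lit 78) (nat_lit 76) (nat_lit 0) (XT.lf (nat_lit 0) (nat_lit 1242897627088) (nat_lit 76) (nat_lit 248655960700) (nat_lit 76) (nat_lit 6813954189) (nat_lit 4) (nat_lit 4) (nat_lit 5) (nat_lit 5) (nat_lit 5) (nat_lit 4) (nat_lit 270) (nat_lit 243) (nat_lit 147)) (XT.lf (nat_lit 0) (nat_lit 102772400865) (nat_lit 152) (nat_lit 20881391632) (nat_lit 76) (nat_lit 1577987248051) (nat_lit 3) (nat_lit 5) (nat_lit 5) (nat_lit 5) (nat_lit 4) (nat_lit 4) (nat_lit 271) (nat_lit 243) (nat_lit 146)))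 (XT.nd (nat_lit 78) (nat_lit 0) (nat_lit 0) (XT.lf (nat_lit 0) (nat_lit 240783438253) (nat_lit 152) (nat_lit 1662184837528) (nat_lit 0) (nat_lit 30485964907) (nat_lit 2) (nat_lit 5) (nat_lit 4) (nat_lit 4) (nat_lit 2) (nat_lit 4) (nat_lit 272) (nat_lit 243) (nat_lit 145)) (XT.nd (nat_lit 78) (nat_lit 0) (nat_lit 0) (XT.lf (nat_lit 0) (nat_lit 406527860961) (nat_lit 152) (nat_lit 1596226443806) (nat_lit 0) (nat_lit 196230356724) (nat_lit 2) (nat_lit 5) (nat_lit 4) (nat_lit 4) (nat_lit 2) (nat_lit 4) (nat_lit 273) (nat_lit 243) (nat_lit 144)) (XT.lf (nat_lit 0) (nat_lit 597133902813) (nat_lit 152) (nat_lit 1520374377613) (nat_lit 0) (nat_lit 386836371713) (nat_lit 2) (nat_lit 5) (nat_lit 4) (nat_lit 4) (nat_lit 2) (nat_lit 4) (nat_lit 274) (nat_lit 243) (nat_lit 143))))))))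
noncomputable def xc96 : XT := (XT.nd (nat_lit 1638) (nat_lit 0) (nat_lit 0) (XT.nd (nat_lit 624) (nat_lit 76) (nat_lit 0) (XT.nd (nat_lit 312) (nat_lit 0) (nat_lit 0) (XT.nd (nat_lit 156) (nat_lit 0) (nat_lit 0) (XT.nd (nat_lit 78) (nat_lit 0) (nat_lit 0) (XT.lf (nat_lit 0) (nat_lit 816330812453) (nat_lit 152) (nat_lit 1433144576783) (nat_lit 0) (nat_lit 606033257996) (nat_lit 2) (nat_lit 5) (nat_lit 4) (nat_lit 4) (nat_lit 2) (nat_lit 4) (nat_lit 275) (nat_lit 243) (nat_lit 142)) (XT.lf (nat_lit 0) (nat_lit 1068407225071) (nat_lit 152) (nat_lit 1332830371300) (nat_lit 0) (nat_lit 858109650302) (nat_lit 2) (nat_lit 5) (nat_lit 4) (nat_lit 4) (nat_lit 2) (nat_lit 4) (nat_lit 276) (nat_lit 243) (nat_lit 141))) (XT.nd (nat_lit 78) (nat_lit 0) (nat_lit 0) (XT.lf (nat_lit 0) (nat_lit 1358295070479) (nat_lit 152) (nat_lit 1217469091927) (nat_lit 0) (nat_lit 1147997478047) (nat_lit 2) (nat_lit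 5) (nat_lit 4) (nat_lit 4) (nat_lit 2) (nat_lit 4) (nat_lit 277) (nat_lit 243) (nat_lit 140)) (XT.lf (nat_lit 0) (nat_lit 1691666067391) (nat_lit 152) (nat_lit 1084803670154) (nat_lit 0) (nat_lit 1481368459601) (nat_lit 2) (nat_lit 5) (nat_lit 4) (nat_lit 4) (nat_lit 2) (nat_lit 4) (nat_lit 278) (nat_lit 243) (nat_lit 139)))) (XT.nd (nat_lit 156) (nat_lit 0) (nat_lit 0) (XT.nd (nat_lit 78) (nat_lit 0) (nat_lit 0) (XT.lf (nat_lit 0) (nat_lit 2075042691834) (nat_lit 152) (nat_lit 932238478164) (nat_lit 0) (nat_lit 1864745070688) (nat_lit 2) (nat_lit 5) (nat_lit 4) (nat_lit 4) (nat_lit 2) (nat_lit 4) (nat_lit 279) (nat_lit 243) (nat_lit 138)) (XT.lf (nat_lit 0) (nat_lit 2515925790807) (nat_lit 152) (nat_lit 756788544808) (nat_lit 0) (nat_lit 2305628158048) (nat_lit 2) (nat_lit 5) (nat_lit 4) (nat_lit 4) (nat_lit 2) (nat_lit 4) (nat_lit 280) (nat_lit 243) (nat_lit 137))) (XT.nd (nat_lit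 78) (nat_lit 0) (nat_lit 0) (XT.lf (nat_lit 0) (nat_lit 3022941337986) (nat_lit 152) (nat_lit 555021154001) (nat_lit 0) (nat_lit 2812643695129) (nat_lit 2) (nat_lit 5) (nat_lit 4) (nat_lit 4) (nat_lit 2) (nat_lit 4) (nat_lit 281) (nat_lit 243) (nat_lit 136)) (XT.lf (nat_lit 0) (nat_lit 3606009202773) (nat_lit 152) (nat_lit 322988682878) (nat_lit 0) (nat_lit 3395711551134) (nat_lit 2) (nat_lit 5) (nat_lit 4) (nat_lit 4) (nat_lit 2) (nat_lit 4) (nat_lit 282) (nat_lit 243) (nat_lit 135))))) (XT.nd (nat_lit 312) (nat_lit 0) (nat_lit 0) (XT.nd (nat_lit 156) (nat_lit 0) (nat_lit 0) (XT.nd (nat_lit 78) (nat_lit 76) (nat_lit 0) (XT.lf (nat_lit 0) (nat_lit 4276537234695) (nat_lit 152) (nat_lit 56151365699) (nat_lit 0) (nat_lit 4066239575421) (nat_lit 2) (nat_lit 5) (nat_lit 4) (nat_lit 4) (nat_lit 2) (nat_lit 4) (nat_lit 283) (nat_lit 243) (nat_lit 134)) (XT.lf (nat_lit 0) (nat_lit 275212881491)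 (nat_lit 76) (nat_lit 4783827557504) (nat_lit 76) (nat_lit 4573529891589) (nat_lit 1) (nat_lit 4) (nat_lit 2) (nat_lit 5) (nat_lit 2) (nat_lit 4) (nat_lit 284) (nat_lit 243) (nat_lit 133))) (XT.nd (nat_lit 78) (nat_lit 0) (nat_lit 0) (XT.lf (nat_lit 0) (nat_lit 662592393135) (nat_lit 76) (nat_lit 5299261905470) (nat_lit 76) (nat_lit 5088964233781) (nat_lit 1) (nat_lit 4) (nat_lit 2) (nat_lit 5) (nat_lit 2) (nat_lit 4) (nat_lit 285) (nat_lit 243) (nat_lit 132)) (XT.lf (nat_lit 0) (nat_lit 1108078813761) (nat_lit 76) (nat_lit 5892011414387) (nat_lit 76) (nat_lit 5681713737678) (nat_lit 1) (nat_lit 4) (nat_lit 2) (nat_lit 5) (nat_lit 2) (nat_lit 4) (nat_lit 286) (nat_lit 243) (nat_lit 131)))) (XT.nd (nat_lit 156) (nat_lit 0) (nat_lit 0) (XT.nd (nat_lit 78) (nat_lit 0) (nat_lit 0) (XT.lf (nat_lit 0) (nat_lit 1620388182032) (nat_lit 76) (nat_lit 6573673357257) (nat_lit 76) (nat_lit 6363375676182)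 (nat_lit 1) (nat_lit 4) (nat_lit 2) (nat_lit 5) (nat_lit 2) (nat_lit 4) (nat_lit 287) (nat_lit 243) (nat_lit 130)) (XT.lf (nat_lit 0) (nat_lit 2209543942112) (nat_lit 76) (nat_lit 7357584598178) (nat_lit 76) (nat_lit 7147286913307) (nat_lit 1) (nat_lit 4) (nat_lit 2) (nat_lit 5) (nat_lit 2) (nat_lit 4) (nat_lit 288) (nat_lit 243) (nat_lit 129))) (XT.nd (nat_lit 78) (nat_lit 0) (nat_lit 0) (XT.lf (nat_lit 0) (nat_lit 2887073054522) (nat_lit 76) (nat_lit 8259082530996) (nat_lit 76) (nat_lit 8048784842823) (nat_lit 1) (nat_lit 4) (nat_lit 2) (nat_lit 5) (nat_lit 2) (nat_lit 4) (nat_lit 289) (nat_lit 243) (nat_lit 128)) (XT.nd (nat_lit 78) (nat_lit 0) (nat_lit 0) (XT.lf (nat_lit 0) (nat_lit 3666231523636) (nat_lit 76) (nat_lit 9295805158742) (nat_lit 76) (nat_lit 9085507467699) (nat_lit 1) (nat_lit 4) (nat_lit 2) (nat_lit 5) (nat_lit 2) (nat_lit 4) (nat_lit 290) (nat_lit 243) (nat_lit 127))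 (XT.lf (nat_lit 0) (nat_lit 4562263754285) (nat_lit 76) (nat_lit 10488036185004) (nat_lit 76) (nat_lit 10277738491465) (nat_lit 1) (nat_lit 4) (nat_lit 2) (nat_lit 5) (nat_lit 2) (nat_lit 4) (nat_lit 291) (nat_lit 243) (nat_lit 126))))))) (XT.nd (nat_lit 30576) (nat_lit 0) (nat_lit 836) (XT.nd (nat_lit 312) (nat_lit 0) (nat_lit 0) (XT.nd (nat_lit 156) (nat_lit 0) (nat_lit 0) (XT.nd (nat_lit 78) (nat_lit 0) (nat_lit 0) (XT.lf (nat_lit 0) (nat_lit 11509863181759) (nat_lit 76) (nat_lit 19732283779132) (nat_lit 76) (nat_lit 19521986077225) (nat_lit 1) (nat_lit 4) (nat_lit 2) (nat_lit 5) (nat_lit 2) (nat_lit 4) (nat_lit 296) (nat_lit 243) (nat_lit 121)) (XT.lf (nat_lit 0) (nat_lit 13582440127701) (nat_lit 76) (nat_lit 22489986614929) (nat_lit 76) (nat_lit 22279688911943) (nat_lit 1) (nat_lit 4) (nat_lit 2) (nat_lit 5) (nat_lit 2) (nat_lit 4) (nat_lit 297) (nat_lit 243) (nat_lit 120))) (XT.nd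 (nat_lit 78) (nat_lit 0) (nat_lit 0) (XT.lf (nat_lit 0) (nat_lit 15965903612213) (nat_lit 76) (nat_lit 25661344877732) (nat_lit 76) (nat_lit 25451047173807) (nat_lit 1) (nat_lit 4) (nat_lit 2) (nat_lit 5) (nat_lit 2) (nat_lit 4) (nat_lit 298) (nat_lit 243) (nat_lit 119)) (XT.lf (nat_lit 0) (nat_lit 18706886616514) (nat_lit 76) (nat_lit 29308406881378) (nat_lit 76) (nat_lit 29098109176638) (nat_lit 1) (nat_lit 4) (nat_lit 2) (nat_lit 5) (nat_lit 2) (nat_lit 4) (nat_lit 299) (nat_lit 243) (nat_lit 118)))) (XT.nd (nat_lit 30108) (nat_lit 0) (nat_lit 1216) (XT.nd (nat_lit 30030) (nat_lit 0) (nat_lit 1216) (XT.lf (nat_lit 0) (nat_lit 21859017068950) (nat_lit 76) (nat_lit 33502528186809) (nat_lit 76) (nat_lit 33292230481359) (nat_lit 1) (nat_lit 4) (nat_lit 2) (nat_lit 5) (nat_lit 2) (nat_lit 4) (nat_lit 300) (nat_lit 243) (nat_lit 117)) (XT.lf (nat_lit 0) (nat_lit 1760681667) (nat_lit 380)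 (nat_lit 28392398119) (nat_lit 380) (nat_lit 28392398119) (nat_lit 17) (nat_lit 3) (nat_lit 22) (nat_lit 3) (nat_lit 22) (nat_lit 5) (nat_lit 244) (nat_lit 244) (nat_lit 172))) (XT.nd (nat_lit 78) (nat_lit 0) (nat_lit 76) (XT.lf (nat_lit 0) (nat_lit 3789705860) (nat_lit 380) (nat_lit 5556102201) (nat_lit 380) (nat_lit 116526301535) (nat_lit 17) (nat_lit 3) (nat_lit 22) (nat_lit 3) (nat_lit 22) (nat_lit 5) (nat_lit 245) (nat_lit 244) (nat_lit 171)) (XT.lf (nat_lit 0) (nat_lit 8678035121) (nat_lit 304) (nat_lit 79191117897) (nat_lit 380) (nat_lit 47414328800) (nat_lit 18) (nat_lit 5) (nat_lit 22) (nat_lit 5) (nat_lit 23) (nat_lit 5) (nat_lit 246) (nat_lit 244) (nat_lit 170))))) (XT.nd (nat_lit 312) (nat_lit 228) (nat_lit 0) (XT.nd (nat_lit 156) (nat_lit 228) (nat_lit 0) (XT.nd (nat_lit 78) (nat_lit 0) (nat_lit 76) (XT.lf (nat_lit 0) (nat_lit 15048251828) (nat_lit 304) (nat_lit 18909867227)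 (nat_lit 380) (nat_lit 112036150041) (nat_lit 18) (nat_lit 5) (nat_lit 22) (nat_lit 5) (nat_lit 23) (nat_lit 5) (nat_lit 247) (nat_lit 244) (nat_lit 169)) (XT.lf (nat_lit 0) (nat_lit 25935111978) (nat_lit 304) (nat_lit 103898379885) (nat_lit 76) (nat_lit 27944020252) (nat_lit 19) (nat_lit 5) (nat_lit 23) (nat_lit 5) (nat_lit 20) (nat_lit 5) (nat_lit 248) (nat_lit 244) (nat_lit 168))) (XT.nd (nat_lit 78) (nat_lit 304) (nat_lit 0) (XT.lf (nat_lit 0) (nat_lit 41107078177) (nat_lit 304) (nat_lit 33132929413) (nat_lit 76) (nat_lit 96690426174) (nat_lit 19) (nat_lit 5) (nat_lit 23) (nat_lit 5) (nat_lit 20) (nat_lit 5) (nat_lit 249) (nat_lit 244) (nat_lit 167)) (XT.lf (nat_lit 0) (nat_lit 52961915552) (nat_lit 304) (nat_lit 7785514508) (nat_lit 380) (nat_lit 124979978230) (nat_lit 15) (nat_lit 5) (nat_lit 19) (nat_lit 5) (nat_lit 20) (nat_lit 5) (nat_lit 250) (nat_lit 244) (nat_lit 166))))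 (XT.nd (nat_lit 156) (nat_lit 76) (nat_lit 0) (XT.nd (nat_lit 78) (nat_lit 152) (nat_lit 0) (XT.lf (nat_lit 0) (nat_lit 87989965176) (nat_lit 380) (nat_lit 49714552944) (nat_lit 76) (nat_lit 64340994128) (nat_lit 15) (nat_lit 5) (nat_lit 20) (nat_lit 5) (nat_lit 16) (nat_lit 5) (nat_lit 251) (nat_lit 244) (nat_lit 165)) (XT.lf (nat_lit 0) (nat_lit 49861904874) (nat_lit 152) (nat_lit 71892033105) (nat_lit 228) (nat_lit 98692137660) (nat_lit 13) (nat_lit 5) (nat_lit 15) (nat_lit 5) (nat_lit 16) (nat_lit 5) (nat_lit 252) (nat_lit 244) (nat_lit 164))) (XT.nd (nat_lit 78) (nat_lit 76) (nat_lit 0) (XT.lf (nat_lit 0) (nat_lit 163461671486) (nat_lit 228) (nat_lit 71536090954) (nat_lit 76) (nat_lit 6177088515) (nat_lit 13) (nat_lit 5) (nat_lit 16) (nat_lit 5) (nat_lit 14) (nat_lit 4) (nat_lit 253) (nat_lit 244) (nat_lit 163)) (XT.nd (nat_lit 78) (nat_lit 0) (nat_lit 0) (XT.lf (nat_lit 0) (nat_lit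 42751392230) (nat_lit 76) (nat_lit 173867559174) (nat_lit 152) (nat_lit 47614985060) (nat_lit 12) (nat_lit 5) (nat_lit 13) (nat_lit 5) (nat_lit 14) (nat_lit 4) (nat_lit 254) (nat_lit 244) (nat_lit 162)) (XT.lf (nat_lit 0) (nat_lit 182221294323) (nat_lit 76) (nat_lit 99267649415) (nat_lit 152) (nat_lit 8702074609) (nat_lit 12) (nat_lit 5) (nat_lit 13) (nat_lit 5) (nat_lit 14) (nat_lit 4) (nat_lit 255) (nat_lit 244) (nat_lit 161))))))))
noncomputable def xc97 : XT := (XT.nd (nat_lit 1326) (nat_lit 152) (nat_lit 0) (XT.nd (nat_lit 624) (nat_lit 228) (nat_lit 0) (XT.nd (nat_lit 312) (nat_lit 152) (nat_lit 0) (XT.nd (nat_lit 156) (nat_lit 76) (nat_lit 0) (XT.nd (nat_lit 78) (nat_lit 0) (nat_lit 0) (XT.lf (nat_lit 0) (nat_lit 23136795831) (nat_lit 152) (nat_lit 10659556251) (nat_lit 228) (nat_lit 285877742195) (nat_lit 9) (nat_lit 5) (nat_lit 11) (nat_lit 5) (nat_lit 12) (nat_lit 5) (nat_lit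 256) (nat_lit 244) (nat_lit 160)) (XT.lf (nat_lit 0) (nat_lit 91469056356) (nat_lit 228) (nat_lit 171150989654) (nat_lit 76) (nat_lit 89443862933) (nat_lit 9) (nat_lit 5) (nat_lit 12) (nat_lit 5) (nat_lit 10) (nat_lit 4) (nat_lit 257) (nat_lit 244) (nat_lit 159))) (XT.nd (nat_lit 78) (nat_lit 76) (nat_lit 0) (XT.lf (nat_lit 0) (nat_lit 158300063321) (nat_lit 228) (nat_lit 27464657111) (nat_lit 76) (nat_lit 203471366740) (nat_lit 9) (nat_lit 5) (nat_lit 12) (nat_lit 5) (nat_lit 10) (nat_lit 4) (nat_lit 258) (nat_lit 244) (nat_lit 158)) (XT.lf (nat_lit 0) (nat_lit 151238653798) (nat_lit 76) (nat_lit 90179363003) (nat_lit 152) (nat_lit 189626731818) (nat_lit 8) (nat_lit 5) (nat_lit 9) (nat_lit 5) (nat_lit 10) (nat_lit 4) (nat_lit 259) (nat_lit 244) (nat_lit 157)))) (XT.nd (nat_lit 156) (nat_lit 76) (nat_lit 0) (XT.nd (nat_lit 78) (nat_lit 76) (nat_lit 0) (XT.lf (nat_lit 0) (nat_lit 339325061363)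 (nat_lit 152) (nat_lit 119961450316) (nat_lit 0) (nat_lit 19489988589) (nat_lit 8) (nat_lit 5) (nat_lit 10) (nat_lit 4) (nat_lit 8) (nat_lit 4) (nat_lit 260) (nat_lit 244) (nat_lit 156)) (XT.lf (nat_lit 0) (nat_lit 65386545556) (nat_lit 76) (nat_lit 393533244241) (nat_lit 76) (nat_lit 73697981397) (nat_lit 7) (nat_lit 4) (nat_lit 8) (nat_lit 5) (nat_lit 8) (nat_lit 4) (nat_lit 261) (nat_lit 244) (nat_lit 155))) (XT.nd (nat_lit 78) (nat_lit 0) (nat_lit 0) (XT.lf (nat_lit 0) (nat_lit 8316871010) (nat_lit 152) (nat_lit 301954155447) (nat_lit 76) (nat_lit 283266914552) (nat_lit 6) (nat_lit 5) (nat_lit 8) (nat_lit 5) (nat_lit 7) (nat_lit 4) (nat_lit 262) (nat_lit 244) (nat_lit 154)) (XT.lf (nat_lit 0) (nat_lit 95088556908) (nat_lit 152) (nat_lit 115395174486) (nat_lit 76) (nat_lit 452586009876) (nat_lit 6) (nat_lit 5) (nat_lit 8) (nat_lit 5) (nat_lit 7) (nat_lit 4) (nat_lit 263) (nat_lit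 244) (nat_lit 153))))) (XT.nd (nat_lit 312) (nat_lit 152) (nat_lit 0) (XT.nd (nat_lit 156) (nat_lit 0) (nat_lit 0) (XT.nd (nat_lit 78) (nat_lit 0) (nat_lit 0) (XT.lf (nat_lit 0) (nat_lit 108836871423) (nat_lit 76) (nat_lit 90545718454) (nat_lit 152) (nat_lit 542972732911) (nat_lit 5) (nat_lit 5) (nat_lit 6) (nat_lit 5) (nat_lit 7) (nat_lit 4) (nat_lit 264) (nat_lit 244) (nat_lit 152)) (XT.lf (nat_lit 0) (nat_lit 327601910742) (nat_lit 152) (nat_lit 455205834638) (nat_lit 0) (nat_lit 49483819014) (nat_lit 5) (nat_lit 5) (nat_lit 7) (nat_lit 4) (nat_lit 5) (nat_lit 4) (nat_lit 265) (nat_lit 244) (nat_lit 151))) (XT.nd (nat_lit 78) (nat_lit 0) (nat_lit 0) (XT.lf (nat_lit 0) (nat_lit 479365738924) (nat_lit 152) (nat_lit 254458197174) (nat_lit 0) (nat_lit 201247565025) (nat_lit 5) (nat_lit 5) (nat_lit 7) (nat_lit 4) (nat_lit 5) (nat_lit 4) (nat_lit 266) (nat_lit 244) (nat_lit 150)) (XT.lf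 (nat_lit 0) (nat_lit 653894061604) (nat_lit 152) (nat_lit 23598562696) (nat_lit 0) (nat_lit 375775816250) (nat_lit 5) (nat_lit 5) (nat_lit 7) (nat_lit 4) (nat_lit 5) (nat_lit 4) (nat_lit 267) (nat_lit 244) (nat_lit 149)))) (XT.nd (nat_lit 156) (nat_lit 76) (nat_lit 0) (XT.nd (nat_lit 78) (nat_lit 0) (nat_lit 0) (XT.lf (nat_lit 0) (nat_lit 265529126761) (nat_lit 76) (nat_lit 600067431490) (nat_lit 76) (nat_lit 321949124002) (nat_lit 4) (nat_lit 4) (nat_lit 5) (nat_lit 5) (nat_lit 5) (nat_lit 4) (nat_lit 268) (nat_lit 244) (nat_lit 148)) (XT.lf (nat_lit 0) (nat_lit 600678002939) (nat_lit 76) (nat_lit 509609922294) (nat_lit 76) (nat_lit 231491560777) (nat_lit 4) (nat_lit 4) (nat_lit 5) (nat_lit 5) (nat_lit 5) (nat_lit 4) (nat_lit 269) (nat_lit 244) (nat_lit 147))) (XT.nd (nat_lit 78) (nat_lit 76) (nat_lit 0) (XT.lf (nat_lit 0) (nat_lit 986099103285) (nat_lit 76) (nat_lit 405583837112)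 (nat_lit 76) (nat_lit 127465428613) (nat_lit 4) (nat_lit 4) (nat_lit 5) (nat_lit 5) (nat_lit 5) (nat_lit 4) (nat_lit 270) (nat_lit 244) (nat_lit 146)) (XT.nd (nat_lit 78) (nat_lit 76) (nat_lit 0) (XT.lf (nat_lit 0) (nat_lit 1429333275414) (nat_lit 76) (nat_lit 285953882973) (nat_lit 76) (nat_lit 7835433620) (nat_lit 4) (nat_lit 4) (nat_lit 5) (nat_lit 5) (nat_lit 5) (nat_lit 4) (nat_lit 271) (nat_lit 244) (nat_lit 145)) (XT.lf (nat_lit 0) (nat_lit 118188747136) (nat_lit 152) (nat_lit 24012678536) (nat_lit 76) (nat_lit 1814685696977) (nat_lit 3) (nat_lit 5) (nat_lit 5) (nat_lit 5) (nat_lit 4) (nat_lit 4) (nat_lit 272) (nat_lit 244) (nat_lit 144))))))) (XT.nd (nat_lit 624) (nat_lit 76) (nat_lit 0) (XT.nd (nat_lit 312) (nat_lit 0) (nat_lit 0) (XT.nd (nat_lit 156) (nat_lit 0) (nat_lit 0) (XT.nd (nat_lit 78) (nat_lit 0) (nat_lit 0) (XT.lf (nat_lit 0) (nat_lit 276901430582) (nat_lit 152)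 (nat_lit 1911511630843) (nat_lit 0) (nat_lit 35059242955) (nat_lit 2) (nat_lit 5) (nat_lit 4) (nat_lit 4) (nat_lit 2) (nat_lit 4) (nat_lit 273) (nat_lit 244) (nat_lit 143)) (XT.lf (nat_lit 0) (nat_lit 467507454532) (nat_lit 152) (nat_lit 1835659599669) (nat_lit 0) (nat_lit 225665243547) (nat_lit 2) (nat_lit 5) (nat_lit 4) (nat_lit 4) (nat_lit 2) (nat_lit 4) (nat_lit 274) (nat_lit 244) (nat_lit 142))) (XT.nd (nat_lit 78) (nat_lit 0) (nat_lit 0) (XT.lf (nat_lit 0) (nat_lit 686704348606) (nat_lit 152) (nat_lit 1748429829291) (nat_lit 0) (nat_lit 444862117309) (nat_lit 2) (nat_lit 5) (nat_lit 4) (nat_lit 4) (nat_lit 2) (nat_lit 4) (nat_lit 275) (nat_lit 244) (nat_lit 141)) (XT.lf (nat_lit 0) (nat_lit 938780747688) (nat_lit 152) (nat_lit 1648115650289) (nat_lit 0) (nat_lit 696938498729) (nat_lit 2) (nat_lit 5) (nat_lit 4) (nat_lit 4) (nat_lit 2) (nat_lit 4) (nat_lit 276) (nat_lit 244) (nat_lit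 140)))) (XT.nd (nat_lit 156) (nat_lit 0) (nat_lit 0) (XT.nd (nat_lit 78) (nat_lit 0) (nat_lit 0) (XT.lf (nat_lit 0) (nat_lit 1228668581325) (nat_lit 152) (nat_lit 1532754393942) (nat_lit 0) (nat_lit 986826317007) (nat_lit 2) (nat_lit 5) (nat_lit 4) (nat_lit 4) (nat_lit 2) (nat_lit 4) (nat_lit 277) (nat_lit 244) (nat_lit 139)) (XT.lf (nat_lit 0) (nat_lit 1562039568001) (nat_lit 152) (nat_lit 1400088992191) (nat_lit 0) (nat_lit 1320197290328) (nat_lit 2) (nat_lit 5) (nat_lit 4) (nat_lit 4) (nat_lit 2) (nat_lit 4) (nat_lit 278) (nat_lit 244) (nat_lit 138))) (XT.nd (nat_lit 78) (nat_lit 0) (nat_lit 0) (XT.lf (nat_lit 0) (nat_lit 1945416183543) (nat_lit 152) (nat_lit 1247523817612) (nat_lit 0) (nat_lit 1703573894257) (nat_lit 2) (nat_lit 5) (nat_lit 4) (nat_lit 4) (nat_lit 2) (nat_lit 4) (nat_lit 279) (nat_lit 244) (nat_lit 137)) (XT.lf (nat_lit 0) (nat_lit 2386299274777) (nat_lit 152) (nat_lit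 1072073899397) (nat_lit 0) (nat_lit 2144456975392) (nat_lit 2) (nat_lit 5) (nat_lit 4) (nat_lit 4) (nat_lit 2) (nat_lit 4) (nat_lit 280) (nat_lit 244) (nat_lit 136))))) (XT.nd (nat_lit 312) (nat_lit 76) (nat_lit 0) (XT.nd (nat_lit 156) (nat_lit 0) (nat_lit 0) (XT.nd (nat_lit 78) (nat_lit 0) (nat_lit 0) (XT.lf (nat_lit 0) (nat_lit 2893314815226) (nat_lit 152) (nat_lit 870306521755) (nat_lit 0) (nat_lit 2651472507061) (nat_lit 2) (nat_lit 5) (nat_lit 4) (nat_lit 4) (nat_lit 2) (nat_lit 4) (nat_lit 281) (nat_lit 244) (nat_lit 135)) (XT.lf (nat_lit 0) (nat_lit 3476382674161) (nat_lit 152) (nat_lit 638274062079) (nat_lit 0) (nat_lit 3234540358359) (nat_lit 2) (nat_lit 5) (nat_lit 4) (nat_lit 4) (nat_lit 2) (nat_lit 4) (nat_lit 282) (nat_lit 244) (nat_lit 134))) (XT.nd (nat_lit 78) (nat_lit 0) (nat_lit 0) (XT.lf (nat_lit 0) (nat_lit 4146910700995) (nat_lit 152) (nat_lit 371436754856) (nat_lit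 0) (nat_lit 3905068378553) (nat_lit 2) (nat_lit 5) (nat_lit 4) (nat_lit 4) (nat_lit 2) (nat_lit 4) (nat_lit 283) (nat_lit 244) (nat_lit 133)) (XT.lf (nat_lit 0) (nat_lit 4918017922340) (nat_lit 152) (nat_lit 64573870159) (nat_lit 0) (nat_lit 4676175594124) (nat_lit 2) (nat_lit 5) (nat_lit 4) (nat_lit 4) (nat_lit 2) (nat_lit 4) (nat_lit 284) (nat_lit 244) (nat_lit 132)))) (XT.nd (nat_lit 156) (nat_lit 0) (nat_lit 0) (XT.nd (nat_lit 78) (nat_lit 0) (nat_lit 0) (XT.lf (nat_lit 0) (nat_lit 316495005001) (nat_lit 76) (nat_lit 5501401596843) (nat_lit 76) (nat_lit 5259559263606) (nat_lit 1) (nat_lit 4) (nat_lit 2) (nat_lit 5) (nat_lit 2) (nat_lit 4) (nat_lit 285) (nat_lit 244) (nat_lit 131)) (XT.lf (nat_lit 0) (nat_lit 761981418441) (nat_lit 76) (nat_lit 6094151109302) (nat_lit 76) (nat_lit 5852308771700) (nat_lit 1) (nat_lit 4) (nat_lit 2) (nat_lit 5) (nat_lit 2) (nat_lit 4) (nat_lit 286)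 (nat_lit 244) (nat_lit 130))) (XT.nd (nat_lit 78) (nat_lit 0) (nat_lit 0) (XT.lf (nat_lit 0) (nat_lit 1274290780465) (nat_lit 76) (nat_lit 6775813055251) (nat_lit 76) (nat_lit 6533970713853) (nat_lit 1) (nat_lit 4) (nat_lit 2) (nat_lit 5) (nat_lit 2) (nat_lit 4) (nat_lit 287) (nat_lit 244) (nat_lit 129)) (XT.nd (nat_lit 78) (nat_lit 0) (nat_lit 0) (XT.lf (nat_lit 0) (nat_lit 1863446535111) (nat_lit 76) (nat_lit 7559724298850) (nat_lit 76) (nat_lit 7317881954151) (nat_lit 1) (nat_lit 4) (nat_lit 2) (nat_lit 5) (nat_lit 2) (nat_lit 4) (nat_lit 288) (nat_lit 244) (nat_lit 128)) (XT.lf (nat_lit 0) (nat_lit 2540975642797) (nat_lit 76) (nat_lit 8461222233996) (nat_lit 76) (nat_lit 8219379886426) (nat_lit 1) (nat_lit 4) (nat_lit 2) (nat_lit 5) (nat_lit 2) (nat_lit 4) (nat_lit 289) (nat_lit 244) (nat_lit 127))))))))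
noncomputable def xc98 : XT := (XT.nd (nat_lit 32058) (nat_lit 0) (nat_lit 76) (XT.nd (nat_lit 31356) (nat_lit 0) (nat_lit 608) (XT.nd (nat_lit 31044) (nat_lit 0) (nat_lit 1292) (XT.nd (nat_lit 30888) (nat_lit 0) (nat_lit 1216) (XT.nd (nat_lit 78) (nat_lit 0) (nat_lit 0) (XT.lf (nat_lit 0) (nat_lit 3320134107803) (nat_lit 76) (nat_lit 9497944863768) (nat_lit 76) (nat_lit 9256102513701) (nat_lit 1) (nat_lit 4) (nat_lit 2) (nat_lit 5) (nat_lit 2) (nat_lit 4) (nat_lit 290) (nat_lit 244) (nat_lit 126)) (XT.lf (nat_lit 0) (nat_lit 4216166334880) (nat_lit 76) (nat_lit 10690175891791) (nat_lit 76) (nat_lit 10448333539554) (nat_lit 1) (nat_lit 4) (nat_lit 2) (nat_lit 5) (nat_lit 2) (nat_lit 4) (nat_lit 291) (nat_lit 244) (nat_lit 125))) (XT.nd (nat_lit 78) (nat_lit 0) (nat_lit 0) (XT.lf (nat_lit 0) (nat_lit 2028848612) (nat_lit 380) (nat_lit 32648905367) (nat_lit 380) (nat_lit 32648905367)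 (nat_lit 17) (nat_lit 3) (nat_lit 22) (nat_lit 3) (nat_lit 22) (nat_lit 5) (nat_lit 245) (nat_lit 245) (nat_lit 170)) (XT.lf (nat_lit 0) (nat_lit 4365230773) (nat_lit 380) (nat_lit 6385426280) (nat_lit 380) (nat_lit 134001155513) (nat_lit 17) (nat_lit 3) (nat_lit 22) (nat_lit 3) (nat_lit 22) (nat_lit 5) (nat_lit 246) (nat_lit 245) (nat_lit 169)))) (XT.nd (nat_lit 156) (nat_lit 0) (nat_lit 76) (XT.nd (nat_lit 78) (nat_lit 0) (nat_lit 0) (XT.lf (nat_lit 0) (nat_lit 9985949564) (nat_lit 304) (nat_lit 91064788284) (nat_lit 380) (nat_lit 54524288679) (nat_lit 18) (nat_lit 5) (nat_lit 22) (nat_lit 5) (nat_lit 23) (nat_lit 5) (nat_lit 247) (nat_lit 245) (nat_lit 168)) (XT.lf (nat_lit 0) (nat_lit 17310888885) (nat_lit 304) (nat_lit 21742001835) (nat_lit 380) (nat_lit 128839668686) (nat_lit 18) (nat_lit 5) (nat_lit 22) (nat_lit 5) (nat_lit 23) (nat_lit 5) (nat_lit 248) (nat_lit 245) (nat_lit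 167))) (XT.nd (nat_lit 78) (nat_lit 0) (nat_lit 0) (XT.lf (nat_lit 0) (nat_lit 29830215796) (nat_lit 304) (nat_lit 119478194206) (nat_lit 76) (nat_lit 32134968454) (nat_lit 19) (nat_lit 5) (nat_lit 23) (nat_lit 5) (nat_lit 20) (nat_lit 5) (nat_lit 249) (nat_lit 245) (nat_lit 166)) (XT.lf (nat_lit 0) (nat_lit 47277346009) (nat_lit 304) (nat_lit 38098570858) (nat_lit 76) (nat_lit 111193420678) (nat_lit 19) (nat_lit 5) (nat_lit 23) (nat_lit 5) (nat_lit 20) (nat_lit 5) (nat_lit 250) (nat_lit 245) (nat_lit 165))))) (XT.nd (nat_lit 312) (nat_lit 304) (nat_lit 0) (XT.nd (nat_lit 156) (nat_lit 152) (nat_lit 0) (XT.nd (nat_lit 78) (nat_lit 0) (nat_lit 0) (XT.lf (nat_lit 0) (nat_lit 60910305490) (nat_lit 304) (nat_lit 8953066442) (nat_lit 380) (nat_lit 143722547090) (nat_lit 15) (nat_lit 5) (nat_lit 19) (nat_lit 5) (nat_lit 20) (nat_lit 5) (nat_lit 251) (nat_lit 245) (nat_lit 164)) (XT.lf (nat_lit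 0) (nat_lit 101191798005) (nat_lit 380) (nat_lit 57167656129) (nat_lit 76) (nat_lit 73992361281) (nat_lit 15) (nat_lit 5) (nat_lit 20) (nat_lit 5) (nat_lit 16) (nat_lit 5) (nat_lit 252) (nat_lit 245) (nat_lit 163))) (XT.nd (nat_lit 78) (nat_lit 0) (nat_lit 0) (XT.lf (nat_lit 0) (nat_lit 57345084918) (nat_lit 152) (nat_lit 82675007667) (nat_lit 228) (nat_lit 113492414845) (nat_lit 13) (nat_lit 5) (nat_lit 15) (nat_lit 5) (nat_lit 16) (nat_lit 5) (nat_lit 253) (nat_lit 245) (nat_lit 162)) (XT.lf (nat_lit 0) (nat_lit 187983616378) (nat_lit 228) (nat_lit 82262731134) (nat_lit 76) (nat_lit 7104309597) (nat_lit 13) (nat_lit 5) (nat_lit 16) (nat_lit 5) (nat_lit 14) (nat_lit 4) (nat_lit 254) (nat_lit 245) (nat_lit 161)))) (XT.nd (nat_lit 156) (nat_lit 228) (nat_lit 0) (XT.nd (nat_lit 78) (nat_lit 0) (nat_lit 0) (XT.lf (nat_lit 0) (nat_lit 49167703006) (nat_lit 76) (nat_lit 199946583012) (nat_lit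 152) (nat_lit 54754352030) (nat_lit 12) (nat_lit 5) (nat_lit 13) (nat_lit 5) (nat_lit 14) (nat_lit 4) (nat_lit 255) (nat_lit 245) (nat_lit 160)) (XT.lf (nat_lit 0) (nat_lit 209557620595) (nat_lit 76) (nat_lit 114156831577) (nat_lit 152) (nat_lit 10004880766) (nat_lit 12) (nat_lit 5) (nat_lit 13) (nat_lit 5) (nat_lit 14) (nat_lit 4) (nat_lit 256) (nat_lit 245) (nat_lit 159))) (XT.nd (nat_lit 78) (nat_lit 0) (nat_lit 0) (XT.lf (nat_lit 0) (nat_lit 26610528737) (nat_lit 152) (nat_lit 12257393588) (nat_lit 228) (nat_lit 328756958553) (nat_lit 9) (nat_lit 5) (nat_lit 11) (nat_lit 5) (nat_lit 12) (nat_lit 5) (nat_lit 257) (nat_lit 245) (nat_lit 158)) (XT.nd (nat_lit 78) (nat_lit 0) (nat_lit 0) (XT.lf (nat_lit 0) (nat_lit 105191295520) (nat_lit 228) (nat_lit 196820598375) (nat_lit 76) (nat_lit 102861310650) (nat_lit 9) (nat_lit 5) (nat_lit 12) (nat_lit 5) (nat_lit 10) (nat_lit 4) (nat_lit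 258) (nat_lit 245) (nat_lit 157)) (XT.lf (nat_lit 0) (nat_lit 182046708219) (nat_lit 228) (nat_lit 31581712438) (nat_lit 76) (nat_lit 233992826775) (nat_lit 9) (nat_lit 5) (nat_lit 12) (nat_lit 5) (nat_lit 10) (nat_lit 4) (nat_lit 259) (nat_lit 245) (nat_lit 156))))))) (XT.nd (nat_lit 624) (nat_lit 228) (nat_lit 0) (XT.nd (nat_lit 312) (nat_lit 76) (nat_lit 0) (XT.nd (nat_lit 156) (nat_lit 152) (nat_lit 0) (XT.nd (nat_lit 78) (nat_lit 0) (nat_lit 0) (XT.lf (nat_lit 0) (nat_lit 173926974960) (nat_lit 76) (nat_lit 103705270923) (nat_lit 152) (nat_lit 218068979516) (nat_lit 8) (nat_lit 5) (nat_lit 9) (nat_lit 5) (nat_lit 10) (nat_lit 4) (nat_lit 260) (nat_lit 245) (nat_lit 155)) (XT.lf (nat_lit 0) (nat_lit 390225183896) (nat_lit 152) (nat_lit 137953304959) (nat_lit 0) (nat_lit 22414276279) (nat_lit 8) (nat_lit 5) (nat_lit 10) (nat_lit 4) (nat_lit 8) (nat_lit 4) (nat_lit 261) (nat_lit 245)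 (nat_lit 154))) (XT.nd (nat_lit 78) (nat_lit 76) (nat_lit 0) (XT.lf (nat_lit 0) (nat_lit 75196782890) (nat_lit 76) (nat_lit 452562254275) (nat_lit 76) (nat_lit 84751202938) (nat_lit 7) (nat_lit 4) (nat_lit 8) (nat_lit 5) (nat_lit 8) (nat_lit 4) (nat_lit 262) (nat_lit 245) (nat_lit 153)) (XT.lf (nat_lit 0) (nat_lit 9565570614) (nat_lit 152) (nat_lit 347245199489) (nat_lit 76) (nat_lit 325757682984) (nat_lit 6) (nat_lit 5) (nat_lit 8) (nat_lit 5) (nat_lit 7) (nat_lit 4) (nat_lit 263) (nat_lit 245) (nat_lit 152)))) (XT.nd (nat_lit 156) (nat_lit 0) (nat_lit 0) (XT.nd (nat_lit 78) (nat_lit 76) (nat_lit 0) (XT.lf (nat_lit 0) (nat_lit 109352856924) (nat_lit 152) (nat_lit 132702642594) (nat_lit 76) (nat_lit 520474547225) (nat_lit 6) (nat_lit 5) (nat_lit 8) (nat_lit 5) (nat_lit 7) (nat_lit 4) (nat_lit 264) (nat_lit 245) (nat_lit 151)) (XT.lf (nat_lit 0) (nat_lit 125164128018) (nat_lit 76) (nat_lit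 104126805702) (nat_lit 152) (nat_lit 624417541362) (nat_lit 5) (nat_lit 5) (nat_lit 6) (nat_lit 5) (nat_lit 7) (nat_lit 4) (nat_lit 265) (nat_lit 245) (nat_lit 150))) (XT.nd (nat_lit 78) (nat_lit 0) (nat_lit 0) (XT.lf (nat_lit 0) (nat_lit 376743055845) (nat_lit 152) (nat_lit 523485109745) (nat_lit 0) (nat_lit 56907002234) (nat_lit 5) (nat_lit 5) (nat_lit 7) (nat_lit 4) (nat_lit 5) (nat_lit 4) (nat_lit 266) (nat_lit 245) (nat_lit 149)) (XT.lf (nat_lit 0) (nat_lit 551271346278) (nat_lit 152) (nat_lit 292625535370) (nat_lit 0) (nat_lit 231435230533) (nat_lit 5) (nat_lit 5) (nat_lit 7) (nat_lit 4) (nat_lit 5) (nat_lit 4) (nat_lit 267) (nat_lit 245) (nat_lit 148))))) (XT.nd (nat_lit 312) (nat_lit 152) (nat_lit 0) (XT.nd (nat_lit 156) (nat_lit 0) (nat_lit 0) (XT.nd (nat_lit 78) (nat_lit 76) (nat_lit 0) (XT.lf (nat_lit 0) (nat_lit 751978819988) (nat_lit 152) (nat_lit 27137137204) (nat_lit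 0) (nat_lit 432142650214) (nat_lit 5) (nat_lit 5) (nat_lit 7) (nat_lit 4) (nat_lit 5) (nat_lit 4) (nat_lit 268) (nat_lit 245) (nat_lit 147)) (XT.lf (nat_lit 0) (nat_lit 305359650677) (nat_lit 76) (nat_lit 690077003607) (nat_lit 76) (nat_lit 370240786851) (nat_lit 4) (nat_lit 4) (nat_lit 5) (nat_lit 5) (nat_lit 5) (nat_lit 4) (nat_lit 269) (nat_lit 245) (nat_lit 146))) (XT.nd (nat_lit 78) (nat_lit 0) (nat_lit 0) (XT.lf (nat_lit 0) (nat_lit 690780707642) (nat_lit 76) (nat_lit 586050938806) (nat_lit 76) (nat_lit 266214681196) (nat_lit 4) (nat_lit 4) (nat_lit 5) (nat_lit 5) (nat_lit 5) (nat_lit 4) (nat_lit 270) (nat_lit 245) (nat_lit 145)) (XT.lf (nat_lit 0) (nat_lit 1134014842049) (nat_lit 76) (nat_lit 466421002390) (nat_lit 76) (nat_lit 146584709255) (nat_lit 4) (nat_lit 4) (nat_lit 5) (nat_lit 5) (nat_lit 5) (nat_lit 4) (nat_lit 271) (nat_lit 245) (nat_lit 144)))) (XT.nd (nat_lit 156)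 (nat_lit 76) (nat_lit 0) (XT.nd (nat_lit 78) (nat_lit 76) (nat_lit 0) (XT.lf (nat_lit 0) (nat_lit 1643734026092) (nat_lit 76) (nat_lit 328846608646) (nat_lit 76) (nat_lit 9010284619) (nat_lit 4) (nat_lit 4) (nat_lit 5) (nat_lit 5) (nat_lit 5) (nat_lit 4) (nat_lit 272) (nat_lit 245) (nat_lit 143)) (XT.lf (nat_lit 0) (nat_lit 135917426798) (nat_lit 152) (nat_lit 27613883272) (nat_lit 76) (nat_lit 2086888825035) (nat_lit 3) (nat_lit 5) (nat_lit 5) (nat_lit 5) (nat_lit 4) (nat_lit 4) (nat_lit 273) (nat_lit 245) (nat_lit 142))) (XT.nd (nat_lit 78) (nat_lit 0) (nat_lit 0) (XT.lf (nat_lit 0) (nat_lit 318437005540) (nat_lit 152) (nat_lit 2198237670506) (nat_lit 0) (nat_lit 40318419238) (nat_lit 2) (nat_lit 5) (nat_lit 4) (nat_lit 4) (nat_lit 2) (nat_lit 4) (nat_lit 274) (nat_lit 245) (nat_lit 141)) (XT.nd (nat_lit 78) (nat_lit 0) (nat_lit 0) (XT.lf (nat_lit 0) (nat_lit 537633886078) (nat_lit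 152) (nat_lit 2111007926608) (nat_lit 0) (nat_lit 259515282113) (nat_lit 2) (nat_lit 5) (nat_lit 4) (nat_lit 4) (nat_lit 2) (nat_lit 4) (nat_lit 275) (nat_lit 245) (nat_lit 140)) (XT.lf (nat_lit 0) (nat_lit 789710273389) (nat_lit 152) (nat_lit 2010693770632) (nat_lit 0) (nat_lit 511591654065) (nat_lit 2) (nat_lit 5) (nat_lit 4) (nat_lit 4) (nat_lit 2) (nat_lit 4) (nat_lit 276) (nat_lit 245) (nat_lit 139))))))))
noncomputable def xc99 : XT := (XT.nd (nat_lit 32136) (nat_lit 0) (nat_lit 380) (XT.nd (nat_lit 624) (nat_lit 76) (nat_lit 0) (XT.nd (nat_lit 312) (nat_lit 0) (nat_lit 0) (XT.nd (nat_lit 156) (nat_lit 0) (nat_lit 0) (XT.nd (nat_lit 78) (nat_lit 0) (nat_lit 0) (XT.lf (nat_lit 0) (nat_lit 1079598096791) (nat_lit 152) (nat_lit 1895332534307) (nat_lit 0) (nat_lit 801479464112) (nat_lit 2) (nat_lit 5) (nat_lit 4) (nat_lit 4) (nat_lit 2) (nat_lit 4) (nat_lit 277) (nat_lit 245) (nat_lit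 138)) (XT.lf (nat_lit 0) (nat_lit 1412969074567) (nat_lit 152) (nat_lit 1762667149968) (nat_lit 0) (nat_lit 1134850430275) (nat_lit 2) (nat_lit 5) (nat_lit 4) (nat_lit 4) (nat_lit 2) (nat_lit 4) (nat_lit 278) (nat_lit 245) (nat_lit 137))) (XT.nd (nat_lit 78) (nat_lit 0) (nat_lit 0) (XT.lf (nat_lit 0) (nat_lit 1796345682369) (nat_lit 152) (nat_lit 1610101990529) (nat_lit 0) (nat_lit 1518227027979) (nat_lit 2) (nat_lit 5) (nat_lit 4) (nat_lit 4) (nat_lit 2) (nat_lit 4) (nat_lit 279) (nat_lit 245) (nat_lit 136)) (XT.lf (nat_lit 0) (nat_lit 2237228766873) (nat_lit 152) (nat_lit 1434652085479) (nat_lit 0) (nat_lit 1959110103701) (nat_lit 2) (nat_lit 5) (nat_lit 4) (nat_lit 4) (nat_lit 2) (nat_lit 4) (nat_lit 280) (nat_lit 245) (nat_lit 135)))) (XT.nd (nat_lit 156) (nat_lit 0) (nat_lit 0) (XT.nd (nat_lit 78) (nat_lit 0) (nat_lit 0) (XT.lf (nat_lit 0) (nat_lit 2744244301470) (nat_lit 152)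 (nat_lit 1232884719285) (nat_lit 0) (nat_lit 2466125630663) (nat_lit 2) (nat_lit 5) (nat_lit 4) (nat_lit 4) (nat_lit 2) (nat_lit 4) (nat_lit 281) (nat_lit 245) (nat_lit 134)) (XT.lf (nat_lit 0) (nat_lit 3327312155316) (nat_lit 152) (nat_lit 1000852269564) (nat_lit 0) (nat_lit 3049193477868) (nat_lit 2) (nat_lit 5) (nat_lit 4) (nat_lit 4) (nat_lit 2) (nat_lit 4) (nat_lit 282) (nat_lit 245) (nat_lit 133))) (XT.nd (nat_lit 78) (nat_lit 0) (nat_lit 0) (XT.lf (nat_lit 0) (nat_lit 3997840177725) (nat_lit 152) (nat_lit 734014970997) (nat_lit 0) (nat_lit 3719721494503) (nat_lit 2) (nat_lit 5) (nat_lit 4) (nat_lit 4) (nat_lit 2) (nat_lit 4) (nat_lit 283) (nat_lit 245) (nat_lit 132)) (XT.lf (nat_lit 0) (nat_lit 4768947395222) (nat_lit 152) (nat_lit 427152093828) (nat_lit 0) (nat_lit 4490828706980) (nat_lit 2) (nat_lit 5) (nat_lit 4) (nat_lit 4) (nat_lit 2) (nat_lit 4) (nat_lit 284) (nat_lit 245)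 (nat_lit 131))))) (XT.nd (nat_lit 312) (nat_lit 0) (nat_lit 0) (XT.nd (nat_lit 156) (nat_lit 0) (nat_lit 0) (XT.nd (nat_lit 78) (nat_lit 76) (nat_lit 0) (XT.lf (nat_lit 0) (nat_lit 5655720688150) (nat_lit 152) (nat_lit 74259799156) (nat_lit 0) (nat_lit 5377601995542) (nat_lit 2) (nat_lit 5) (nat_lit 4) (nat_lit 4) (nat_lit 2) (nat_lit 4) (nat_lit 285) (nat_lit 245) (nat_lit 130)) (XT.lf (nat_lit 0) (nat_lit 363969400390) (nat_lit 76) (nat_lit 6326611765075) (nat_lit 76) (nat_lit 6048493068670) (nat_lit 1) (nat_lit 4) (nat_lit 2) (nat_lit 5) (nat_lit 2) (nat_lit 4) (nat_lit 286) (nat_lit 245) (nat_lit 129))) (XT.nd (nat_lit 78) (nat_lit 0) (nat_lit 0) (XT.lf (nat_lit 0) (nat_lit 876278756981) (nat_lit 76) (nat_lit 7008273713702) (nat_lit 76) (nat_lit 6730155013996) (nat_lit 1) (nat_lit 4) (nat_lit 2) (nat_lit 5) (nat_lit 2) (nat_lit 4) (nat_lit 287) (nat_lit 245) (nat_lit 128)) (XT.lf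 (nat_lit 0) (nat_lit 1465434506903) (nat_lit 76) (nat_lit 7792184959630) (nat_lit 76) (nat_lit 7514066257054) (nat_lit 1) (nat_lit 4) (nat_lit 2) (nat_lit 5) (nat_lit 2) (nat_lit 4) (nat_lit 288) (nat_lit 245) (nat_lit 127)))) (XT.nd (nat_lit 1404) (nat_lit 0) (nat_lit 0) (XT.nd (nat_lit 78) (nat_lit 0) (nat_lit 0) (XT.lf (nat_lit 0) (nat_lit 2142963610480) (nat_lit 76) (nat_lit 8693682896801) (nat_lit 76) (nat_lit 8415564191728) (nat_lit 1) (nat_lit 4) (nat_lit 2) (nat_lit 5) (nat_lit 2) (nat_lit 4) (nat_lit 289) (nat_lit 245) (nat_lit 126)) (XT.lf (nat_lit 0) (nat_lit 2922122071914) (nat_lit 76) (nat_lit 9730405528333) (nat_lit 76) (nat_lit 9452286821090) (nat_lit 1) (nat_lit 4) (nat_lit 2) (nat_lit 5) (nat_lit 2) (nat_lit 4) (nat_lit 290) (nat_lit 245) (nat_lit 125))) (XT.nd (nat_lit 29640) (nat_lit 0) (nat_lit 1216) (XT.lf (nat_lit 0) (nat_lit 61231501500133) (nat_lit 76) (nat_lit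 87314951681034) (nat_lit 76) (nat_lit 87036832960664) (nat_lit 1) (nat_lit 4) (nat_lit 2) (nat_lit 5) (nat_lit 2) (nat_lit 4) (nat_lit 307) (nat_lit 245) (nat_lit 108)) (XT.nd (nat_lit 78) (nat_lit 0) (nat_lit 0) (XT.lf (nat_lit 0) (nat_lit 2336249397) (nat_lit 380) (nat_lit 37544462367) (nat_lit 380) (nat_lit 37544462367) (nat_lit 17) (nat_lit 3) (nat_lit 22) (nat_lit 3) (nat_lit 22) (nat_lit 5) (nat_lit 246) (nat_lit 246) (nat_lit 168)) (XT.lf (nat_lit 0) (nat_lit 5025360594) (nat_lit 380) (nat_lit 7340146647) (nat_lit 380) (nat_lit 154098235266) (nat_lit 17) (nat_lit 3) (nat_lit 22) (nat_lit 3) (nat_lit 22) (nat_lit 5) (nat_lit 247) (nat_lit 246) (nat_lit 167))))))) (XT.nd (nat_lit 624) (nat_lit 532) (nat_lit 0) (XT.nd (nat_lit 312) (nat_lit 380) (nat_lit 0) (XT.nd (nat_lit 156) (nat_lit 0) (nat_lit 76) (XT.nd (nat_lit 78) (nat_lit 0) (nat_lit 0) (XT.lf (nat_lit 0) (nat_lit 11488537028)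 (nat_lit 304) (nat_lit 104720727851) (nat_lit 380) (nat_lit 62701276448) (nat_lit 18) (nat_lit 5) (nat_lit 22) (nat_lit 5) (nat_lit 23) (nat_lit 5) (nat_lit 248) (nat_lit 246) (nat_lit 166)) (XT.lf (nat_lit 0) (nat_lit 19911604851) (nat_lit 304) (nat_lit 25000016306) (nat_lit 380) (nat_lit 148164179396) (nat_lit 18) (nat_lit 5) (nat_lit 22) (nat_lit 5) (nat_lit 23) (nat_lit 5) (nat_lit 249) (nat_lit 246) (nat_lit 165))) (XT.nd (nat_lit 78) (nat_lit 0) (nat_lit 0) (XT.lf (nat_lit 0) (nat_lit 34308405649) (nat_lit 304) (nat_lit 137396185974) (nat_lit 76) (nat_lit 36954718572) (nat_lit 19) (nat_lit 5) (nat_lit 23) (nat_lit 5) (nat_lit 20) (nat_lit 5) (nat_lit 250) (nat_lit 246) (nat_lit 164)) (XT.lf (nat_lit 0) (nat_lit 54372128330) (nat_lit 304) (nat_lit 43810106606) (nat_lit 76) (nat_lit 127872003214) (nat_lit 19) (nat_lit 5) (nat_lit 23) (nat_lit 5) (nat_lit 20) (nat_lit 5) (nat_lit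 251) (nat_lit 246) (nat_lit 163)))) (XT.nd (nat_lit 156) (nat_lit 152) (nat_lit 0) (XT.nd (nat_lit 78) (nat_lit 0) (nat_lit 0) (XT.lf (nat_lit 0) (nat_lit 70049953472) (nat_lit 304) (nat_lit 10295818286) (nat_lit 380) (nat_lit 165277581043) (nat_lit 15) (nat_lit 5) (nat_lit 19) (nat_lit 5) (nat_lit 20) (nat_lit 5) (nat_lit 252) (nat_lit 246) (nat_lit 162)) (XT.lf (nat_lit 0) (nat_lit 116373091753) (nat_lit 380) (nat_lit 65739719666) (nat_lit 76) (nat_lit 85091380337) (nat_lit 15) (nat_lit 5) (nat_lit 20) (nat_lit 5) (nat_lit 16) (nat_lit 5) (nat_lit 253) (nat_lit 246) (nat_lit 161))) (XT.nd (nat_lit 78) (nat_lit 0) (nat_lit 0) (XT.lf (nat_lit 0) (nat_lit 65949792317) (nat_lit 152) (nat_lit 95075630913) (nat_lit 228) (nat_lit 130513597704) (nat_lit 13) (nat_lit 5) (nat_lit 15) (nat_lit 5) (nat_lit 16) (nat_lit 5) (nat_lit 254) (nat_lit 246) (nat_lit 160)) (XT.lf (nat_lit 0) (nat_lit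 216183196014) (nat_lit 228) (nat_lit 94599287523) (nat_lit 76) (nat_lit 8170453432) (nat_lit 13) (nat_lit 5) (nat_lit 16) (nat_lit 5) (nat_lit 14) (nat_lit 4) (nat_lit 255) (nat_lit 246) (nat_lit 159))))) (XT.nd (nat_lit 312) (nat_lit 228) (nat_lit 0) (XT.nd (nat_lit 156) (nat_lit 228) (nat_lit 0) (XT.nd (nat_lit 78) (nat_lit 0) (nat_lit 0) (XT.lf (nat_lit 0) (nat_lit 56545582043) (nat_lit 76) (nat_lit 229937731116) (nat_lit 152) (nat_lit 62965326544) (nat_lit 12) (nat_lit 5) (nat_lit 13) (nat_lit 5) (nat_lit 14) (nat_lit 4) (nat_lit 256) (nat_lit 246) (nat_lit 158)) (XT.lf (nat_lit 0) (nat_lit 240993632020) (nat_lit 76) (nat_lit 131279626446) (nat_lit 152) (nat_lit 11503718716) (nat_lit 12) (nat_lit 5) (nat_lit 13) (nat_lit 5) (nat_lit 14) (nat_lit 4) (nat_lit 257) (nat_lit 246) (nat_lit 157))) (XT.nd (nat_lit 78) (nat_lit 0) (nat_lit 0) (XT.lf (nat_lit 0) (nat_lit 30604537938) (nat_lit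 152) (nat_lit 14095173816) (nat_lit 228) (nat_lit 378068653586) (nat_lit 9) (nat_lit 5) (nat_lit 11) (nat_lit 5) (nat_lit 12) (nat_lit 5) (nat_lit 258) (nat_lit 246) (nat_lit 156)) (XT.lf (nat_lit 0) (nat_lit 120971411935) (nat_lit 228) (nat_lit 226341389662) (nat_lit 76) (nat_lit 118291163790) (nat_lit 9) (nat_lit 5) (nat_lit 12) (nat_lit 5) (nat_lit 10) (nat_lit 4) (nat_lit 259) (nat_lit 246) (nat_lit 155)))) (XT.nd (nat_lit 156) (nat_lit 152) (nat_lit 0) (XT.nd (nat_lit 78) (nat_lit 76) (nat_lit 0) (XT.lf (nat_lit 0) (nat_lit 209354951050) (nat_lit 228) (nat_lit 36316970634) (nat_lit 76) (nat_lit 269092321698) (nat_lit 9) (nat_lit 5) (nat_lit 12) (nat_lit 5) (nat_lit 10) (nat_lit 4) (nat_lit 260) (nat_lit 246) (nat_lit 154)) (XT.lf (nat_lit 0) (nat_lit 200017929026) (nat_lit 76) (nat_lit 119260308041) (nat_lit 152) (nat_lit 250777994061) (nat_lit 8) (nat_lit 5) (nat_lit 9) (nat_lit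 5) (nat_lit 10) (nat_lit 4) (nat_lit 261) (nat_lit 246) (nat_lit 153))) (XT.nd (nat_lit 78) (nat_lit 152) (nat_lit 0) (XT.lf (nat_lit 0) (nat_lit 448759992352) (nat_lit 152) (nat_lit 158644514007) (nat_lit 0) (nat_lit 25777014622) (nat_lit 8) (nat_lit 5) (nat_lit 10) (nat_lit 4) (nat_lit 8) (nat_lit 4) (nat_lit 262) (nat_lit 246) (nat_lit 152)) (XT.nd (nat_lit 78) (nat_lit 76) (nat_lit 0) (XT.lf (nat_lit 0) (nat_lit 86478005806) (nat_lit 76) (nat_lit 520445853964) (nat_lit 76) (nat_lit 97462767562) (nat_lit 7) (nat_lit 4) (nat_lit 8) (nat_lit 5) (nat_lit 8) (nat_lit 4) (nat_lit 263) (nat_lit 246) (nat_lit 151)) (XT.lf (nat_lit 0) (nat_lit 11001290101) (nat_lit 152) (nat_lit 399330407181) (nat_lit 76) (nat_lit 374621888360) (nat_lit 6) (nat_lit 5) (nat_lit 8) (nat_lit 5) (nat_lit 7) (nat_lit 4) (nat_lit 264) (nat_lit 246) (nat_lit 150))))))))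
noncomputable def xc100 : XT := (XT.nd (nat_lit 1326) (nat_lit 76) (nat_lit 0) (XT.nd (nat_lit 624) (nat_lit 152) (nat_lit 0) (XT.nd (nat_lit 312) (nat_lit 76) (nat_lit 0) (XT.nd (nat_lit 156) (nat_lit 0) (nat_lit 0) (XT.nd (nat_lit 78) (nat_lit 76) (nat_lit 0) (XT.lf (nat_lit 0) (nat_lit 125756554068) (nat_lit 152) (nat_lit 152606671826) (nat_lit 76) (nat_lit 598546210117) (nat_lit 6) (nat_lit 5) (nat_lit 8) (nat_lit 5) (nat_lit 7) (nat_lit 4) (nat_lit 265) (nat_lit 246) (nat_lit 149)) (XT.lf (nat_lit 0) (nat_lit 143940052234) (nat_lit 76) (nat_lit 119745243933) (nat_lit 152) (nat_lit 718079339684) (nat_lit 5) (nat_lit 5) (nat_lit 6) (nat_lit 5) (nat_lit 7) (nat_lit 4) (nat_lit 266) (nat_lit 246) (nat_lit 148))) (XT.nd (nat_lit 78) (nat_lit 0) (nat_lit 0) (XT.lf (nat_lit 0) (nat_lit 433255163366) (nat_lit 152) (nat_lit 602006666311) (nat_lit 0) (nat_lit 65443514096) (nat_lit 5) (nat_lit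 5) (nat_lit 7) (nat_lit 4) (nat_lit 5) (nat_lit 4) (nat_lit 267) (nat_lit 246) (nat_lit 147)) (XT.lf (nat_lit 0) (nat_lit 633962612692) (nat_lit 152) (nat_lit 336518313591) (nat_lit 0) (nat_lit 266150916440) (nat_lit 5) (nat_lit 5) (nat_lit 7) (nat_lit 4) (nat_lit 5) (nat_lit 4) (nat_lit 268) (nat_lit 246) (nat_lit 146)))) (XT.nd (nat_lit 156) (nat_lit 0) (nat_lit 0) (XT.nd (nat_lit 78) (nat_lit 76) (nat_lit 0) (XT.lf (nat_lit 0) (nat_lit 864776133832) (nat_lit 152) (nat_lit 31206792929) (nat_lit 0) (nat_lit 496964396726) (nat_lit 5) (nat_lit 5) (nat_lit 7) (nat_lit 4) (nat_lit 5) (nat_lit 4) (nat_lit 269) (nat_lit 246) (nat_lit 145)) (XT.lf (nat_lit 0) (nat_lit 351164471550) (nat_lit 76) (nat_lit 793588143860) (nat_lit 76) (nat_lit 425776371228) (nat_lit 4) (nat_lit 4) (nat_lit 5) (nat_lit 5) (nat_lit 5) (nat_lit 4) (nat_lit 270) (nat_lit 246) (nat_lit 144))) (XT.nd (nat_lit 78) (nat_lit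 0) (nat_lit 0) (XT.lf (nat_lit 0) (nat_lit 794398573154) (nat_lit 76) (nat_lit 673958222855) (nat_lit 76) (nat_lit 306146419332) (nat_lit 4) (nat_lit 4) (nat_lit 5) (nat_lit 5) (nat_lit 5) (nat_lit 4) (nat_lit 271) (nat_lit 246) (nat_lit 143)) (XT.lf (nat_lit 0) (nat_lit 1304117728674) (nat_lit 76) (nat_lit 536383842512) (nat_lit 76) (nat_lit 168572012127) (nat_lit 4) (nat_lit 4) (nat_lit 5) (nat_lit 5) (nat_lit 5) (nat_lit 4) (nat_lit 272) (nat_lit 246) (nat_lit 142))))) (XT.nd (nat_lit 312) (nat_lit 0) (nat_lit 0) (XT.nd (nat_lit 156) (nat_lit 76) (nat_lit 0) (XT.nd (nat_lit 78) (nat_lit 76) (nat_lit 0) (XT.lf (nat_lit 0) (nat_lit 1890294704196) (nat_lit 76) (nat_lit 378173330172) (nat_lit 76) (nat_lit 10361476428) (nat_lit 4) (nat_lit 4) (nat_lit 5) (nat_lit 5) (nat_lit 5) (nat_lit 4) (nat_lit 273) (nat_lit 246) (nat_lit 141)) (XT.lf (nat_lit 0) (nat_lit 156305318771) (nat_lit 152)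 (nat_lit 31755438697) (nat_lit 76) (nat_lit 2399922355604) (nat_lit 3) (nat_lit 5) (nat_lit 5) (nat_lit 5) (nat_lit 4) (nat_lit 4) (nat_lit 274) (nat_lit 246) (nat_lit 140))) (XT.nd (nat_lit 78) (nat_lit 0) (nat_lit 0) (XT.lf (nat_lit 0) (nat_lit 366202828864) (nat_lit 152) (nat_lit 2527972788029) (nat_lit 0) (nat_lit 46366401283) (nat_lit 2) (nat_lit 5) (nat_lit 4) (nat_lit 4) (nat_lit 2) (nat_lit 4) (nat_lit 275) (nat_lit 246) (nat_lit 139)) (XT.lf (nat_lit 0) (nat_lit 618279205939) (nat_lit 152) (nat_lit 2427658652075) (nat_lit 0) (nat_lit 298442765004) (nat_lit 2) (nat_lit 5) (nat_lit 4) (nat_lit 4) (nat_lit 2) (nat_lit 4) (nat_lit 276) (nat_lit 246) (nat_lit 138)))) (XT.nd (nat_lit 156) (nat_lit 0) (nat_lit 0) (XT.nd (nat_lit 78) (nat_lit 0) (nat_lit 0) (XT.lf (nat_lit 0) (nat_lit 908167020441) (nat_lit 152) (nat_lit 2312297433162) (nat_lit 0) (nat_lit 588330567892) (nat_lit 2)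 (nat_lit 5) (nat_lit 4) (nat_lit 4) (nat_lit 2) (nat_lit 4) (nat_lit 277) (nat_lit 246) (nat_lit 137)) (XT.lf (nat_lit 0) (nat_lit 1241537990477) (nat_lit 152) (nat_lit 2179632063962) (nat_lit 0) (nat_lit 921701527830) (nat_lit 2) (nat_lit 5) (nat_lit 4) (nat_lit 4) (nat_lit 2) (nat_lit 4) (nat_lit 278) (nat_lit 246) (nat_lit 136))) (XT.nd (nat_lit 78) (nat_lit 0) (nat_lit 0) (XT.lf (nat_lit 0) (nat_lit 1624914591550) (nat_lit 152) (nat_lit 2027066917688) (nat_lit 0) (nat_lit 1305078120121) (nat_lit 2) (nat_lit 5) (nat_lit 4) (nat_lit 4) (nat_lit 2) (nat_lit 4) (nat_lit 279) (nat_lit 246) (nat_lit 135)) (XT.nd (nat_lit 78) (nat_lit 0) (nat_lit 0) (XT.lf (nat_lit 0) (nat_lit 2065797670202) (nat_lit 152) (nat_lit 1851617024086) (nat_lit 0) (nat_lit 1745961191137) (nat_lit 2) (nat_lit 5) (nat_lit 4) (nat_lit 4) (nat_lit 2) (nat_lit 4) (nat_lit 280) (nat_lit 246) (nat_lit 134)) (XT.lf (nat_lit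 0) (nat_lit 2572813199710) (nat_lit 152) (nat_lit 1649849667847) (nat_lit 0) (nat_lit 2252976714005) (nat_lit 2) (nat_lit 5) (nat_lit 4) (nat_lit 4) (nat_lit 2) (nat_lit 4) (nat_lit 281) (nat_lit 246) (nat_lit 133))))))) (XT.nd (nat_lit 624) (nat_lit 0) (nat_lit 0) (XT.nd (nat_lit 312) (nat_lit 76) (nat_lit 0) (XT.nd (nat_lit 156) (nat_lit 0) (nat_lit 0) (XT.nd (nat_lit 78) (nat_lit 0) (nat_lit 0) (XT.lf (nat_lit 0) (nat_lit 3155881049131) (nat_lit 152) (nat_lit 1417817226783) (nat_lit 0) (nat_lit 2836044557652) (nat_lit 2) (nat_lit 5) (nat_lit 4) (nat_lit 4) (nat_lit 2) (nat_lit 4) (nat_lit 282) (nat_lit 246) (nat_lit 132)) (XT.lf (nat_lit 0) (nat_lit 3826409067692) (nat_lit 152) (nat_lit 1150979935743) (nat_lit 0) (nat_lit 3506572571193) (nat_lit 2) (nat_lit 5) (nat_lit 4) (nat_lit 4) (nat_lit 2) (nat_lit 4) (nat_lit 283) (nat_lit 246) (nat_lit 131))) (XT.nd (nat_lit 78) (nat_lit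 0) (nat_lit 0) (XT.lf (nat_lit 0) (nat_lit 4597516281843) (nat_lit 152) (nat_lit 844117065119) (nat_lit 0) (nat_lit 4277679780978) (nat_lit 2) (nat_lit 5) (nat_lit 4) (nat_lit 4) (nat_lit 2) (nat_lit 4) (nat_lit 284) (nat_lit 246) (nat_lit 130)) (XT.lf (nat_lit 0) (nat_lit 5484289571862) (nat_lit 152) (nat_lit 491224776139) (nat_lit 0) (nat_lit 5164453067200) (nat_lit 2) (nat_lit 5) (nat_lit 4) (nat_lit 4) (nat_lit 2) (nat_lit 4) (nat_lit 285) (nat_lit 246) (nat_lit 129)))) (XT.nd (nat_lit 156) (nat_lit 0) (nat_lit 0) (XT.nd (nat_lit 78) (nat_lit 76) (nat_lit 0) (XT.lf (nat_lit 0) (nat_lit 6504078849943) (nat_lit 152) (nat_lit 85398654454) (nat_lit 0) (nat_lit 6184242341980) (nat_lit 2) (nat_lit 5) (nat_lit 4) (nat_lit 4) (nat_lit 2) (nat_lit 4) (nat_lit 286) (nat_lit 246) (nat_lit 128)) (XT.lf (nat_lit 0) (nat_lit 418564919817) (nat_lit 76) (nat_lit 7275603475927) (nat_lit 76) (nat_lit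 6955766965094) (nat_lit 1) (nat_lit 4) (nat_lit 2) (nat_lit 5) (nat_lit 2) (nat_lit 4) (nat_lit 287) (nat_lit 246) (nat_lit 127))) (XT.nd (nat_lit 78) (nat_lit 0) (nat_lit 0) (XT.lf (nat_lit 0) (nat_lit 1007720665631) (nat_lit 76) (nat_lit 8059514723880) (nat_lit 76) (nat_lit 7739678210551) (nat_lit 1) (nat_lit 4) (nat_lit 2) (nat_lit 5) (nat_lit 2) (nat_lit 4) (nat_lit 288) (nat_lit 246) (nat_lit 126)) (XT.lf (nat_lit 0) (nat_lit 1685249765636) (nat_lit 76) (nat_lit 8961012662812) (nat_lit 76) (nat_lit 8641176147312) (nat_lit 1) (nat_lit 4) (nat_lit 2) (nat_lit 5) (nat_lit 2) (nat_lit 4) (nat_lit 289) (nat_lit 246) (nat_lit 125))))) (XT.nd (nat_lit 31122) (nat_lit 0) (nat_lit 1216) (XT.nd (nat_lit 1326) (nat_lit 0) (nat_lit 0) (XT.nd (nat_lit 1248) (nat_lit 0) (nat_lit 0) (XT.lf (nat_lit 0) (nat_lit 2464408223964) (nat_lit 76) (nat_lit 9997735295875) (nat_lit 76) (nat_lit 9677898778488)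 (nat_lit 1) (nat_lit 4) (nat_lit 2) (nat_lit 5) (nat_lit 2) (nat_lit 4) (nat_lit 290) (nat_lit 246) (nat_lit 124)) (XT.lf (nat_lit 0) (nat_lit 52389057982872) (nat_lit 76) (nat_lit 76425835395031) (nat_lit 76) (nat_lit 76105998866405) (nat_lit 1) (nat_lit 4) (nat_lit 2) (nat_lit 5) (nat_lit 2) (nat_lit 4) (nat_lit 306) (nat_lit 246) (nat_lit 108))) (XT.nd (nat_lit 29718) (nat_lit 0) (nat_lit 1216) (XT.lf (nat_lit 0) (nat_lit 60773787633398) (nat_lit 76) (nat_lit 87582281457835) (nat_lit 76) (nat_lit 87262444929033) (nat_lit 1) (nat_lit 4) (nat_lit 2) (nat_lit 5) (nat_lit 2) (nat_lit 4) (nat_lit 307) (nat_lit 246) (nat_lit 107)) (XT.lf (nat_lit 0) (nat_lit 2689010808) (nat_lit 380) (nat_lit 43174786690) (nat_lit 380) (nat_lit 43174786690) (nat_lit 17) (nat_lit 3) (nat_lit 22) (nat_lit 3) (nat_lit 22) (nat_lit 5) (nat_lit 247) (nat_lit 247) (nat_lit 166)))) (XT.nd (nat_lit 156) (nat_lit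 0) (nat_lit 76) (XT.nd (nat_lit 78) (nat_lit 0) (nat_lit 76) (XT.lf (nat_lit 0) (nat_lit 5783206426) (nat_lit 380) (nat_lit 8438829458) (nat_lit 380) (nat_lit 177210631369) (nat_lit 17) (nat_lit 3) (nat_lit 22) (nat_lit 3) (nat_lit 22) (nat_lit 5) (nat_lit 248) (nat_lit 247) (nat_lit 165)) (XT.lf (nat_lit 0) (nat_lit 13215367698) (nat_lit 304) (nat_lit 120425979808) (nat_lit 380) (nat_lit 72105216096) (nat_lit 18) (nat_lit 5) (nat_lit 22) (nat_lit 5) (nat_lit 23) (nat_lit 5) (nat_lit 249) (nat_lit 247) (nat_lit 164))) (XT.nd (nat_lit 78) (nat_lit 0) (nat_lit 76) (XT.lf (nat_lit 0) (nat_lit 22901432637) (nat_lit 304) (nat_lit 28747534211) (nat_lit 380) (nat_lit 170387717766) (nat_lit 18) (nat_lit 5) (nat_lit 22) (nat_lit 5) (nat_lit 23) (nat_lit 5) (nat_lit 250) (nat_lit 247) (nat_lit 163)) (XT.nd (nat_lit 78) (nat_lit 0) (nat_lit 0) (XT.lf (nat_lit 0) (nat_lit 39457432079) (nat_lit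 304) (nat_lit 158002787887) (nat_lit 76) (nat_lit 42497551953) (nat_lit 19) (nat_lit 5) (nat_lit 23) (nat_lit 5) (nat_lit 20) (nat_lit 5) (nat_lit 251) (nat_lit 247) (nat_lit 162)) (XT.lf (nat_lit 0) (nat_lit 62530352434) (nat_lit 304) (nat_lit 50379165220) (nat_lit 76) (nat_lit 147052478127) (nat_lit 19) (nat_lit 5) (nat_lit 23) (nat_lit 5) (nat_lit 20) (nat_lit 5) (nat_lit 252) (nat_lit 247) (nat_lit 161))))))))
noncomputable def xc101 : XT := (XT.nd (nat_lit 1326) (nat_lit 228) (nat_lit 0) (XT.nd (nat_lit 624) (nat_lit 304) (nat_lit 0) (XT.nd (nat_lit 312) (nat_lit 304) (nat_lit 0) (XT.nd (nat_lit 156) (nat_lit 152) (nat_lit 0) (XT.nd (nat_lit 78) (nat_lit 0) (nat_lit 0) (XT.lf (nat_lit 0) (nat_lit 80559792171) (nat_lit 304) (nat_lit 11840033658) (nat_lit 380) (nat_lit 190066686548) (nat_lit 15) (nat_lit 5) (nat_lit 19) (nat_lit 5) (nat_lit 20) (nat_lit 5) (nat_lit 253) (nat_lit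 247) (nat_lit 160)) (XT.lf (nat_lit 0) (nat_lit 133830964058) (nat_lit 380) (nat_lit 75598345002) (nat_lit 76) (nat_lit 97855212049) (nat_lit 15) (nat_lit 5) (nat_lit 20) (nat_lit 5) (nat_lit 16) (nat_lit 5) (nat_lit 254) (nat_lit 247) (nat_lit 159))) (XT.nd (nat_lit 78) (nat_lit 0) (nat_lit 0) (XT.lf (nat_lit 0) (nat_lit 75844487750) (nat_lit 152) (nat_lit 109336500764) (nat_lit 228) (nat_lit 150088611373) (nat_lit 13) (nat_lit 5) (nat_lit 15) (nat_lit 5) (nat_lit 16) (nat_lit 5) (nat_lit 255) (nat_lit 247) (nat_lit 158)) (XT.lf (nat_lit 0) (nat_lit 248612215816) (nat_lit 228) (nat_lit 108787023162) (nat_lit 76) (nat_lit 9396397549) (nat_lit 13) (nat_lit 5) (nat_lit 16) (nat_lit 5) (nat_lit 14) (nat_lit 4) (nat_lit 256) (nat_lit 247) (nat_lit 157)))) (XT.nd (nat_lit 156) (nat_lit 228) (nat_lit 0) (XT.nd (nat_lit 78) (nat_lit 0) (nat_lit 0) (XT.lf (nat_lit 0) (nat_lit 65029478772) (nat_lit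 76) (nat_lit 264427756117) (nat_lit 152) (nat_lit 72408478425) (nat_lit 12) (nat_lit 5) (nat_lit 13) (nat_lit 5) (nat_lit 14) (nat_lit 4) (nat_lit 257) (nat_lit 247) (nat_lit 156)) (XT.lf (nat_lit 0) (nat_lit 277144467625) (nat_lit 76) (nat_lit 150971018528) (nat_lit 152) (nat_lit 13227844262) (nat_lit 12) (nat_lit 5) (nat_lit 13) (nat_lit 5) (nat_lit 14) (nat_lit 4) (nat_lit 258) (nat_lit 247) (nat_lit 155))) (XT.nd (nat_lit 78) (nat_lit 0) (nat_lit 0) (XT.lf (nat_lit 0) (nat_lit 35197055975) (nat_lit 152) (nat_lit 16208823189) (nat_lit 228) (nat_lit 434777553704) (nat_lit 9) (nat_lit 5) (nat_lit 11) (nat_lit 5) (nat_lit 12) (nat_lit 5) (nat_lit 259) (nat_lit 247) (nat_lit 154)) (XT.lf (nat_lit 0) (nat_lit 139118199027) (nat_lit 228) (nat_lit 260290860137) (nat_lit 76) (nat_lit 136035334799) (nat_lit 9) (nat_lit 5) (nat_lit 12) (nat_lit 5) (nat_lit 10) (nat_lit 4) (nat_lit 260) (nat_lit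 247) (nat_lit 153))))) (XT.nd (nat_lit 312) (nat_lit 152) (nat_lit 0) (XT.nd (nat_lit 156) (nat_lit 76) (nat_lit 0) (XT.nd (nat_lit 78) (nat_lit 76) (nat_lit 0) (XT.lf (nat_lit 0) (nat_lit 240759128753) (nat_lit 228) (nat_lit 41763004948) (nat_lit 76) (nat_lit 309456601640) (nat_lit 9) (nat_lit 5) (nat_lit 12) (nat_lit 5) (nat_lit 10) (nat_lit 4) (nat_lit 261) (nat_lit 247) (nat_lit 152)) (XT.lf (nat_lit 0) (nat_lit 230022060966) (nat_lit 76) (nat_lit 137148784478) (nat_lit 152) (nat_lit 288393685698) (nat_lit 8) (nat_lit 5) (nat_lit 9) (nat_lit 5) (nat_lit 10) (nat_lit 4) (nat_lit 262) (nat_lit 247) (nat_lit 151))) (XT.nd (nat_lit 78) (nat_lit 76) (nat_lit 0) (XT.lf (nat_lit 0) (nat_lit 516074770692) (nat_lit 152) (nat_lit 182439840109) (nat_lit 0) (nat_lit 29644018159) (nat_lit 8) (nat_lit 5) (nat_lit 10) (nat_lit 4) (nat_lit 8) (nat_lit 4) (nat_lit 263) (nat_lit 247) (nat_lit 150))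 (XT.lf (nat_lit 0) (nat_lit 99450996267) (nat_lit 76) (nat_lit 598512173683) (nat_lit 76) (nat_lit 112081338978) (nat_lit 7) (nat_lit 4) (nat_lit 8) (nat_lit 5) (nat_lit 8) (nat_lit 4) (nat_lit 264) (nat_lit 247) (nat_lit 149)))) (XT.nd (nat_lit 156) (nat_lit 76) (nat_lit 0) (XT.nd (nat_lit 78) (nat_lit 0) (nat_lit 0) (XT.lf (nat_lit 0) (nat_lit 12652151968) (nat_lit 152) (nat_lit 459228779426) (nat_lit 76) (nat_lit 430815589708) (nat_lit 6) (nat_lit 5) (nat_lit 8) (nat_lit 5) (nat_lit 7) (nat_lit 4) (nat_lit 265) (nat_lit 247) (nat_lit 148)) (XT.lf (nat_lit 0) (nat_lit 144620618353) (nat_lit 152) (nat_lit 175496638832) (nat_lit 76) (nat_lit 688328505195) (nat_lit 6) (nat_lit 5) (nat_lit 8) (nat_lit 5) (nat_lit 7) (nat_lit 4) (nat_lit 266) (nat_lit 247) (nat_lit 147))) (XT.nd (nat_lit 78) (nat_lit 0) (nat_lit 0) (XT.lf (nat_lit 0) (nat_lit 165532046847) (nat_lit 76) (nat_lit 137706589975)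 (nat_lit 152) (nat_lit 825790610858) (nat_lit 5) (nat_lit 5) (nat_lit 6) (nat_lit 5) (nat_lit 7) (nat_lit 4) (nat_lit 267) (nat_lit 247) (nat_lit 146)) (XT.nd (nat_lit 78) (nat_lit 0) (nat_lit 0) (XT.lf (nat_lit 0) (nat_lit 498243928716) (nat_lit 152) (nat_lit 692306751402) (nat_lit 0) (nat_lit 75260390190) (nat_lit 5) (nat_lit 5) (nat_lit 7) (nat_lit 4) (nat_lit 5) (nat_lit 4) (nat_lit 268) (nat_lit 247) (nat_lit 145)) (XT.lf (nat_lit 0) (nat_lit 729057431419) (nat_lit 152) (nat_lit 386995265103) (nat_lit 0) (nat_lit 306073857367) (nat_lit 5) (nat_lit 5) (nat_lit 7) (nat_lit 4) (nat_lit 5) (nat_lit 4) (nat_lit 269) (nat_lit 247) (nat_lit 144))))))) (XT.nd (nat_lit 624) (nat_lit 0) (nat_lit 0) (XT.nd (nat_lit 312) (nat_lit 152) (nat_lit 0) (XT.nd (nat_lit 156) (nat_lit 0) (nat_lit 0) (XT.nd (nat_lit 78) (nat_lit 76) (nat_lit 0) (XT.lf (nat_lit 0) (nat_lit 994492925057) (nat_lit 152)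 (nat_lit 35887120106) (nat_lit 0) (nat_lit 571509320114) (nat_lit 5) (nat_lit 5) (nat_lit 7) (nat_lit 4) (nat_lit 5) (nat_lit 4) (nat_lit 270) (nat_lit 247) (nat_lit 143)) (XT.lf (nat_lit 0) (nat_lit 403839802601) (nat_lit 76) (nat_lit 912626055201) (nat_lit 76) (nat_lit 489642423396) (nat_lit 4) (nat_lit 4) (nat_lit 5) (nat_lit 5) (nat_lit 5) (nat_lit 4) (nat_lit 271) (nat_lit 247) (nat_lit 142))) (XT.nd (nat_lit 78) (nat_lit 0) (nat_lit 0) (XT.lf (nat_lit 0) (nat_lit 913558933318) (nat_lit 76) (nat_lit 775051686512) (nat_lit 76) (nat_lit 352068031348) (nat_lit 4) (nat_lit 4) (nat_lit 5) (nat_lit 5) (nat_lit 5) (nat_lit 4) (nat_lit 272) (nat_lit 247) (nat_lit 141)) (XT.lf (nat_lit 0) (nat_lit 1499735887271) (nat_lit 76) (nat_lit 616841184305) (nat_lit 76) (nat_lit 193857508830) (nat_lit 4) (nat_lit 4) (nat_lit 5) (nat_lit 5) (nat_lit 5) (nat_lit 4) (nat_lit 273) (nat_lit 247) (nat_lit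 140)))) (XT.nd (nat_lit 156) (nat_lit 76) (nat_lit 0) (XT.nd (nat_lit 78) (nat_lit 76) (nat_lit 0) (XT.lf (nat_lit 0) (nat_lit 2173839343996) (nat_lit 76) (nat_lit 434899125712) (nat_lit 76) (nat_lit 11915432574) (nat_lit 4) (nat_lit 4) (nat_lit 5) (nat_lit 5) (nat_lit 5) (nat_lit 4) (nat_lit 274) (nat_lit 247) (nat_lit 139)) (XT.lf (nat_lit 0) (nat_lit 179751326758) (nat_lit 152) (nat_lit 36518355964) (nat_lit 76) (nat_lit 2759910865326) (nat_lit 3) (nat_lit 5) (nat_lit 5) (nat_lit 5) (nat_lit 4) (nat_lit 4) (nat_lit 275) (nat_lit 247) (nat_lit 138))) (XT.nd (nat_lit 78) (nat_lit 0) (nat_lit 0) (XT.lf (nat_lit 0) (nat_lit 421133459237) (nat_lit 152) (nat_lit 2907168303168) (nat_lit 0) (nat_lit 53321527192) (nat_lit 2) (nat_lit 5) (nat_lit 4) (nat_lit 4) (nat_lit 2) (nat_lit 4) (nat_lit 276) (nat_lit 247) (nat_lit 137)) (XT.lf (nat_lit 0) (nat_lit 711021265999) (nat_lit 152) (nat_lit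 2791807099395) (nat_lit 0) (nat_lit 343209323855) (nat_lit 2) (nat_lit 5) (nat_lit 4) (nat_lit 4) (nat_lit 2) (nat_lit 4) (nat_lit 277) (nat_lit 247) (nat_lit 136))))) (XT.nd (nat_lit 312) (nat_lit 0) (nat_lit 0) (XT.nd (nat_lit 156) (nat_lit 0) (nat_lit 0) (XT.nd (nat_lit 78) (nat_lit 0) (nat_lit 0) (XT.lf (nat_lit 0) (nat_lit 1044392229305) (nat_lit 152) (nat_lit 2659141743361) (nat_lit 0) (nat_lit 676580278381) (nat_lit 2) (nat_lit 5) (nat_lit 4) (nat_lit 4) (nat_lit 2) (nat_lit 4) (nat_lit 278) (nat_lit 247) (nat_lit 135)) (XT.lf (nat_lit 0) (nat_lit 1427768824526) (nat_lit 152) (nat_lit 2506576608535) (nat_lit 0) (nat_lit 1059956865966) (nat_lit 2) (nat_lit 5) (nat_lit 4) (nat_lit 4) (nat_lit 2) (nat_lit 4) (nat_lit 279) (nat_lit 247) (nat_lit 134))) (XT.nd (nat_lit 78) (nat_lit 0) (nat_lit 0) (XT.lf (nat_lit 0) (nat_lit 1868651898089) (nat_lit 152) (nat_lit 2331126724888) (nat_lit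 0) (nat_lit 1500839932888) (nat_lit 2) (nat_lit 5) (nat_lit 4) (nat_lit 4) (nat_lit 2) (nat_lit 4) (nat_lit 280) (nat_lit 247) (nat_lit 133)) (XT.lf (nat_lit 0) (nat_lit 2375667423172) (nat_lit 152) (nat_lit 2129359377305) (nat_lit 0) (nat_lit 2007855452198) (nat_lit 2) (nat_lit 5) (nat_lit 4) (nat_lit 4) (nat_lit 2) (nat_lit 4) (nat_lit 281) (nat_lit 247) (nat_lit 132)))) (XT.nd (nat_lit 156) (nat_lit 0) (nat_lit 0) (XT.nd (nat_lit 78) (nat_lit 0) (nat_lit 0) (XT.lf (nat_lit 0) (nat_lit 2958735268745) (nat_lit 152) (nat_lit 1897326943768) (nat_lit 0) (nat_lit 2590923292750) (nat_lit 2) (nat_lit 5) (nat_lit 4) (nat_lit 4) (nat_lit 2) (nat_lit 4) (nat_lit 282) (nat_lit 247) (nat_lit 131)) (XT.lf (nat_lit 0) (nat_lit 3629263283960) (nat_lit 152) (nat_lit 1630489659273) (nat_lit 0) (nat_lit 3261451303599) (nat_lit 2) (nat_lit 5) (nat_lit 4) (nat_lit 4) (nat_lit 2) (nat_lit 4) (nat_lit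 283) (nat_lit 247) (nat_lit 130))) (XT.nd (nat_lit 78) (nat_lit 0) (nat_lit 0) (XT.lf (nat_lit 0) (nat_lit 4400370495202) (nat_lit 152) (nat_lit 1323626794341) (nat_lit 0) (nat_lit 4032558511044) (nat_lit 2) (nat_lit 5) (nat_lit 4) (nat_lit 4) (nat_lit 2) (nat_lit 4) (nat_lit 284) (nat_lit 247) (nat_lit 129)) (XT.nd (nat_lit 78) (nat_lit 0) (nat_lit 0) (XT.lf (nat_lit 0) (nat_lit 5287143782690) (nat_lit 152) (nat_lit 970734510311) (nat_lit 0) (nat_lit 4919331795232) (nat_lit 2) (nat_lit 5) (nat_lit 4) (nat_lit 4) (nat_lit 2) (nat_lit 4) (nat_lit 285) (nat_lit 247) (nat_lit 128)) (XT.lf (nat_lit 0) (nat_lit 6306933058572) (nat_lit 152) (nat_lit 564908392929) (nat_lit 0) (nat_lit 5939121068243) (nat_lit 2) (nat_lit 5) (nat_lit 4) (nat_lit 4) (nat_lit 2) (nat_lit 4) (nat_lit 286) (nat_lit 247) (nat_lit 127))))))))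
noncomputable def xc102 : XT := (XT.nd (nat_lit 32136) (nat_lit 0) (nat_lit 228) (XT.nd (nat_lit 31434) (nat_lit 0) (nat_lit 912) (XT.nd (nat_lit 1404) (nat_lit 0) (nat_lit 0) (XT.nd (nat_lit 156) (nat_lit 0) (nat_lit 0) (XT.nd (nat_lit 78) (nat_lit 76) (nat_lit 0) (XT.lf (nat_lit 0) (nat_lit 7479690721722) (nat_lit 152) (nat_lit 98208365986) (nat_lit 0) (nat_lit 7111878728897) (nat_lit 2) (nat_lit 5) (nat_lit 4) (nat_lit 4) (nat_lit 2) (nat_lit 4) (nat_lit 287) (nat_lit 247) (nat_lit 126)) (XT.lf (nat_lit 0) (nat_lit 481349740488) (nat_lit 76) (nat_lit 8366943956554) (nat_lit 76) (nat_lit 7999131961558) (nat_lit 1) (nat_lit 4) (nat_lit 2) (nat_lit 5) (nat_lit 2) (nat_lit 4) (nat_lit 288) (nat_lit 247) (nat_lit 125))) (XT.nd (nat_lit 78) (nat_lit 0) (nat_lit 0) (XT.lf (nat_lit 0) (nat_lit 1158878837387) (nat_lit 76) (nat_lit 9268441897016) (nat_lit 76) (nat_lit 8900629900133) (nat_lit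 1) (nat_lit 4) (nat_lit 2) (nat_lit 5) (nat_lit 2) (nat_lit 4) (nat_lit 289) (nat_lit 247) (nat_lit 124)) (XT.lf (nat_lit 0) (nat_lit 1938037293013) (nat_lit 76) (nat_lit 10305164531411) (nat_lit 76) (nat_lit 9937352532887) (nat_lit 1) (nat_lit 4) (nat_lit 2) (nat_lit 5) (nat_lit 2) (nat_lit 4) (nat_lit 290) (nat_lit 247) (nat_lit 123)))) (XT.nd (nat_lit 156) (nat_lit 0) (nat_lit 0) (XT.nd (nat_lit 78) (nat_lit 0) (nat_lit 0) (XT.lf (nat_lit 0) (nat_lit 44571617774260) (nat_lit 76) (nat_lit 67032007192703) (nat_lit 76) (nat_lit 66664195184581) (nat_lit 1) (nat_lit 4) (nat_lit 2) (nat_lit 5) (nat_lit 2) (nat_lit 4) (nat_lit 305) (nat_lit 247) (nat_lit 108)) (XT.lf (nat_lit 0) (nat_lit 51862687035838) (nat_lit 76) (nat_lit 76733264638495) (nat_lit 76) (nat_lit 76365452630198) (nat_lit 1) (nat_lit 4) (nat_lit 2) (nat_lit 5) (nat_lit 2) (nat_lit 4) (nat_lit 306) (nat_lit 247) (nat_lit 107)))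 (XT.nd (nat_lit 29796) (nat_lit 0) (nat_lit 1216) (XT.lf (nat_lit 0) (nat_lit 60247416686113) (nat_lit 76) (nat_lit 87889710701422) (nat_lit 76) (nat_lit 87521898692972) (nat_lit 1) (nat_lit 4) (nat_lit 2) (nat_lit 5) (nat_lit 2) (nat_lit 4) (nat_lit 307) (nat_lit 247) (nat_lit 106)) (XT.lf (nat_lit 0) (nat_lit 3094119709) (nat_lit 380) (nat_lit 49649987656) (nat_lit 380) (nat_lit 49649987656) (nat_lit 17) (nat_lit 3) (nat_lit 22) (nat_lit 3) (nat_lit 22) (nat_lit 5) (nat_lit 248) (nat_lit 248) (nat_lit 164))))) (XT.nd (nat_lit 312) (nat_lit 304) (nat_lit 0) (XT.nd (nat_lit 156) (nat_lit 0) (nat_lit 76) (XT.nd (nat_lit 78) (nat_lit 0) (nat_lit 76) (XT.lf (nat_lit 0) (nat_lit 6653743528) (nat_lit 380) (nat_lit 9702885115) (nat_lit 380) (nat_lit 203790457313) (nat_lit 17) (nat_lit 3) (nat_lit 22) (nat_lit 3) (nat_lit 22) (nat_lit 5) (nat_lit 249) (nat_lit 248) (nat_lit 163)) (XT.lf (nat_lit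 0) (nat_lit 15200357250) (nat_lit 304) (nat_lit 138487716309) (nat_lit 380) (nat_lit 82920051954) (nat_lit 18) (nat_lit 5) (nat_lit 22) (nat_lit 5) (nat_lit 23) (nat_lit 5) (nat_lit 250) (nat_lit 248) (nat_lit 162))) (XT.nd (nat_lit 78) (nat_lit 0) (nat_lit 76) (XT.lf (nat_lit 0) (nat_lit 26338981791) (nat_lit 304) (nat_lit 33057785674) (nat_lit 380) (nat_lit 195945052339) (nat_lit 18) (nat_lit 5) (nat_lit 22) (nat_lit 5) (nat_lit 23) (nat_lit 5) (nat_lit 251) (nat_lit 248) (nat_lit 161)) (XT.lf (nat_lit 0) (nat_lit 45378138068) (nat_lit 304) (nat_lit 181701069220) (nat_lit 76) (nat_lit 48871901642) (nat_lit 19) (nat_lit 5) (nat_lit 23) (nat_lit 5) (nat_lit 20) (nat_lit 5) (nat_lit 252) (nat_lit 248) (nat_lit 160)))) (XT.nd (nat_lit 156) (nat_lit 152) (nat_lit 0) (XT.nd (nat_lit 78) (nat_lit 304) (nat_lit 0) (XT.lf (nat_lit 0) (nat_lit 71911723715) (nat_lit 304) (nat_lit 57934181873)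 (nat_lit 76) (nat_lit 169110103669) (nat_lit 19) (nat_lit 5) (nat_lit 23) (nat_lit 5) (nat_lit 20) (nat_lit 5) (nat_lit 253) (nat_lit 248) (nat_lit 159)) (XT.lf (nat_lit 0) (nat_lit 92645534666) (nat_lit 304) (nat_lit 13615919713) (nat_lit 380) (nat_lit 218574775237) (nat_lit 15) (nat_lit 5) (nat_lit 19) (nat_lit 5) (nat_lit 20) (nat_lit 5) (nat_lit 254) (nat_lit 248) (nat_lit 158))) (XT.nd (nat_lit 78) (nat_lit 152) (nat_lit 0) (XT.lf (nat_lit 0) (nat_lit 153907051799) (nat_lit 380) (nat_lit 86936332960) (nat_lit 76) (nat_lit 112533588119) (nat_lit 15) (nat_lit 5) (nat_lit 20) (nat_lit 5) (nat_lit 16) (nat_lit 5) (nat_lit 255) (nat_lit 248) (nat_lit 157)) (XT.nd (nat_lit 78) (nat_lit 0) (nat_lit 0) (XT.lf (nat_lit 0) (nat_lit 87222844532) (nat_lit 152) (nat_lit 125736616872) (nat_lit 228) (nat_lit 172600371142) (nat_lit 13) (nat_lit 5) (nat_lit 15) (nat_lit 5) (nat_lit 16) (nat_lit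 5) (nat_lit 256) (nat_lit 248) (nat_lit 156)) (XT.lf (nat_lit 0) (nat_lit 285905212952) (nat_lit 228) (nat_lit 125103445264) (nat_lit 76) (nat_lit 10806141568) (nat_lit 13) (nat_lit 5) (nat_lit 16) (nat_lit 5) (nat_lit 14) (nat_lit 4) (nat_lit 257) (nat_lit 248) (nat_lit 155))))))) (XT.nd (nat_lit 624) (nat_lit 228) (nat_lit 0) (XT.nd (nat_lit 312) (nat_lit 152) (nat_lit 0) (XT.nd (nat_lit 156) (nat_lit 228) (nat_lit 0) (XT.nd (nat_lit 78) (nat_lit 0) (nat_lit 0) (XT.lf (nat_lit 0) (nat_lit 74785457807) (nat_lit 76) (nat_lit 304091439634) (nat_lit 152) (nat_lit 83268504744) (nat_lit 12) (nat_lit 5) (nat_lit 13) (nat_lit 5) (nat_lit 14) (nat_lit 4) (nat_lit 258) (nat_lit 248) (nat_lit 154)) (XT.lf (nat_lit 0) (nat_lit 318717491872) (nat_lit 76) (nat_lit 173616254003) (nat_lit 152) (nat_lit 15210937906) (nat_lit 12) (nat_lit 5) (nat_lit 13) (nat_lit 5) (nat_lit 14) (nat_lit 4) (nat_lit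 259) (nat_lit 248) (nat_lit 153))) (XT.nd (nat_lit 78) (nat_lit 0) (nat_lit 0) (XT.lf (nat_lit 0) (nat_lit 40478003670) (nat_lit 152) (nat_lit 18639672793) (nat_lit 228) (nat_lit 499993129731) (nat_lit 9) (nat_lit 5) (nat_lit 11) (nat_lit 5) (nat_lit 12) (nat_lit 5) (nat_lit 260) (nat_lit 248) (nat_lit 152)) (XT.lf (nat_lit 0) (nat_lit 159986741964) (nat_lit 228) (nat_lit 299333175000) (nat_lit 76) (nat_lit 156441010399) (nat_lit 9) (nat_lit 5) (nat_lit 12) (nat_lit 5) (nat_lit 10) (nat_lit 4) (nat_lit 261) (nat_lit 248) (nat_lit 151)))) (XT.nd (nat_lit 156) (nat_lit 76) (nat_lit 0) (XT.nd (nat_lit 78) (nat_lit 76) (nat_lit 0) (XT.lf (nat_lit 0) (nat_lit 276873705094) (nat_lit 228) (nat_lit 48026312944) (nat_lit 76) (nat_lit 355875418303) (nat_lit 9) (nat_lit 5) (nat_lit 12) (nat_lit 5) (nat_lit 10) (nat_lit 4) (nat_lit 262) (nat_lit 248) (nat_lit 150)) (XT.lf (nat_lit 0) (nat_lit 264526460914)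 (nat_lit 76) (nat_lit 157720671322) (nat_lit 152) (nat_lit 331651976759) (nat_lit 8) (nat_lit 5) (nat_lit 9) (nat_lit 5) (nat_lit 10) (nat_lit 4) (nat_lit 263) (nat_lit 248) (nat_lit 149))) (XT.nd (nat_lit 78) (nat_lit 76) (nat_lit 0) (XT.lf (nat_lit 0) (nat_lit 593486575700) (nat_lit 152) (nat_lit 209804794576) (nat_lit 0) (nat_lit 34090962163) (nat_lit 8) (nat_lit 5) (nat_lit 10) (nat_lit 4) (nat_lit 8) (nat_lit 4) (nat_lit 264) (nat_lit 248) (nat_lit 148)) (XT.lf (nat_lit 0) (nat_lit 114369620822) (nat_lit 76) (nat_lit 688288577523) (nat_lit 76) (nat_lit 128892901852) (nat_lit 7) (nat_lit 4) (nat_lit 8) (nat_lit 5) (nat_lit 8) (nat_lit 4) (nat_lit 265) (nat_lit 248) (nat_lit 147))))) (XT.nd (nat_lit 312) (nat_lit 76) (nat_lit 0) (XT.nd (nat_lit 156) (nat_lit 76) (nat_lit 0) (XT.nd (nat_lit 78) (nat_lit 0) (nat_lit 0) (XT.lf (nat_lit 0) (nat_lit 14550480134) (nat_lit 152) (nat_lit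 528112197412) (nat_lit 76) (nat_lit 495438244304) (nat_lit 6) (nat_lit 5) (nat_lit 8) (nat_lit 5) (nat_lit 7) (nat_lit 4) (nat_lit 266) (nat_lit 248) (nat_lit 146)) (XT.lf (nat_lit 0) (nat_lit 166314150559) (nat_lit 152) (nat_lit 201820352981) (nat_lit 76) (nat_lit 791578055878) (nat_lit 6) (nat_lit 5) (nat_lit 8) (nat_lit 5) (nat_lit 7) (nat_lit 4) (nat_lit 267) (nat_lit 248) (nat_lit 145))) (XT.nd (nat_lit 78) (nat_lit 0) (nat_lit 0) (XT.lf (nat_lit 0) (nat_lit 190362600020) (nat_lit 76) (nat_lit 158362245355) (nat_lit 152) (nat_lit 949658726284) (nat_lit 5) (nat_lit 5) (nat_lit 6) (nat_lit 5) (nat_lit 7) (nat_lit 4) (nat_lit 268) (nat_lit 248) (nat_lit 144)) (XT.lf (nat_lit 0) (nat_lit 572980889174) (nat_lit 152) (nat_lit 796152072350) (nat_lit 0) (nat_lit 86549712598) (nat_lit 5) (nat_lit 5) (nat_lit 7) (nat_lit 4) (nat_lit 5) (nat_lit 4) (nat_lit 269) (nat_lit 248) (nat_lit 143))))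 (XT.nd (nat_lit 156) (nat_lit 76) (nat_lit 0) (XT.nd (nat_lit 78) (nat_lit 0) (nat_lit 0) (XT.lf (nat_lit 0) (nat_lit 838416368871) (nat_lit 152) (nat_lit 445043953337) (nat_lit 0) (nat_lit 351985165432) (nat_lit 5) (nat_lit 5) (nat_lit 7) (nat_lit 4) (nat_lit 5) (nat_lit 4) (nat_lit 270) (nat_lit 248) (nat_lit 142)) (XT.lf (nat_lit 0) (nat_lit 1143667144458) (nat_lit 152) (nat_lit 41269665050) (nat_lit 0) (nat_lit 657235917662) (nat_lit 5) (nat_lit 5) (nat_lit 7) (nat_lit 4) (nat_lit 5) (nat_lit 4) (nat_lit 271) (nat_lit 248) (nat_lit 141))) (XT.nd (nat_lit 78) (nat_lit 0) (nat_lit 0) (XT.lf (nat_lit 0) (nat_lit 464416272286) (nat_lit 76) (nat_lit 1049519728898) (nat_lit 76) (nat_lit 563088481790) (nat_lit 4) (nat_lit 4) (nat_lit 5) (nat_lit 5) (nat_lit 5) (nat_lit 4) (nat_lit 272) (nat_lit 248) (nat_lit 140)) (XT.nd (nat_lit 78) (nat_lit 0) (nat_lit 0) (XT.lf (nat_lit 0) (nat_lit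 1050593207486) (nat_lit 76) (nat_lit 891309235503) (nat_lit 76) (nat_lit 404877970732) (nat_lit 4) (nat_lit 4) (nat_lit 5) (nat_lit 5) (nat_lit 5) (nat_lit 4) (nat_lit 273) (nat_lit 248) (nat_lit 139)) (XT.lf (nat_lit 0) (nat_lit 1724696647901) (nat_lit 76) (nat_lit 709367184572) (nat_lit 76) (nat_lit 222935904443) (nat_lit 4) (nat_lit 4) (nat_lit 5) (nat_lit 5) (nat_lit 5) (nat_lit 4) (nat_lit 274) (nat_lit 248) (nat_lit 138))))))))
noncomputable def xc103 : XT := (XT.nd (nat_lit 32370) (nat_lit 0) (nat_lit 532) (XT.nd (nat_lit 624) (nat_lit 76) (nat_lit 0) (XT.nd (nat_lit 312) (nat_lit 0) (nat_lit 0) (XT.nd (nat_lit 156) (nat_lit 76) (nat_lit 0) (XT.nd (nat_lit 78) (nat_lit 76) (nat_lit 0) (XT.lf (nat_lit 0) (nat_lit 2499915573890) (nat_lit 76) (nat_lit 500133840326) (nat_lit 76) (nat_lit 13702546842) (nat_lit 4) (nat_lit 4) (nat_lit 5) (nat_lit 5) (nat_lit 5) (nat_lit 4) (nat_lit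 275) (nat_lit 248) (nat_lit 137)) (XT.lf (nat_lit 0) (nat_lit 206714184693) (nat_lit 152) (nat_lit 41995808007) (nat_lit 76) (nat_lit 3173897613371) (nat_lit 3) (nat_lit 5) (nat_lit 5) (nat_lit 5) (nat_lit 4) (nat_lit 4) (nat_lit 276) (nat_lit 248) (nat_lit 136))) (XT.nd (nat_lit 78) (nat_lit 0) (nat_lit 0) (XT.lf (nat_lit 0) (nat_lit 484303633921) (nat_lit 152) (nat_lit 3343243243869) (nat_lit 0) (nat_lit 61319881576) (nat_lit 2) (nat_lit 5) (nat_lit 4) (nat_lit 4) (nat_lit 2) (nat_lit 4) (nat_lit 277) (nat_lit 248) (nat_lit 135)) (XT.lf (nat_lit 0) (nat_lit 817674591375) (nat_lit 152) (nat_lit 3210577899283) (nat_lit 0) (nat_lit 394690831395) (nat_lit 2) (nat_lit 5) (nat_lit 4) (nat_lit 4) (nat_lit 2) (nat_lit 4) (nat_lit 278) (nat_lit 248) (nat_lit 134)))) (XT.nd (nat_lit 156) (nat_lit 0) (nat_lit 0) (XT.nd (nat_lit 78) (nat_lit 0) (nat_lit 0) (XT.lf (nat_lit 0) (nat_lit 1201051181507)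 (nat_lit 152) (nat_lit 3058012774411) (nat_lit 0) (nat_lit 778067414887) (nat_lit 2) (nat_lit 5) (nat_lit 4) (nat_lit 4) (nat_lit 2) (nat_lit 4) (nat_lit 279) (nat_lit 248) (nat_lit 133)) (XT.lf (nat_lit 0) (nat_lit 1641934250645) (nat_lit 152) (nat_lit 2882562899421) (nat_lit 0) (nat_lit 1218950478251) (nat_lit 2) (nat_lit 5) (nat_lit 4) (nat_lit 4) (nat_lit 2) (nat_lit 4) (nat_lit 280) (nat_lit 248) (nat_lit 132))) (XT.nd (nat_lit 78) (nat_lit 0) (nat_lit 0) (XT.lf (nat_lit 0) (nat_lit 2148949771880) (nat_lit 152) (nat_lit 2680795559365) (nat_lit 0) (nat_lit 1725965994465) (nat_lit 2) (nat_lit 5) (nat_lit 4) (nat_lit 4) (nat_lit 2) (nat_lit 4) (nat_lit 281) (nat_lit 248) (nat_lit 131)) (XT.lf (nat_lit 0) (nat_lit 2732017614107) (nat_lit 152) (nat_lit 2448763132373) (nat_lit 0) (nat_lit 2309033832326) (nat_lit 2) (nat_lit 5) (nat_lit 4) (nat_lit 4) (nat_lit 2) (nat_lit 4) (nat_lit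 282) (nat_lit 248) (nat_lit 130))))) (XT.nd (nat_lit 312) (nat_lit 76) (nat_lit 0) (XT.nd (nat_lit 156) (nat_lit 0) (nat_lit 0) (XT.nd (nat_lit 78) (nat_lit 0) (nat_lit 0) (XT.lf (nat_lit 0) (nat_lit 3402545626413) (nat_lit 152) (nat_lit 2181925853570) (nat_lit 0) (nat_lit 2979561840836) (nat_lit 2) (nat_lit 5) (nat_lit 4) (nat_lit 4) (nat_lit 2) (nat_lit 4) (nat_lit 283) (nat_lit 248) (nat_lit 129)) (XT.lf (nat_lit 0) (nat_lit 4173652835124) (nat_lit 152) (nat_lit 1875062993588) (nat_lit 0) (nat_lit 3750669046246) (nat_lit 2) (nat_lit 5) (nat_lit 4) (nat_lit 4) (nat_lit 2) (nat_lit 4) (nat_lit 284) (nat_lit 248) (nat_lit 128))) (XT.nd (nat_lit 78) (nat_lit 0) (nat_lit 0) (XT.lf (nat_lit 0) (nat_lit 5060426120413) (nat_lit 152) (nat_lit 1522170713861) (nat_lit 0) (nat_lit 4637442328664) (nat_lit 2) (nat_lit 5) (nat_lit 4) (nat_lit 4) (nat_lit 2) (nat_lit 4) (nat_lit 285) (nat_lit 248)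 (nat_lit 127)) (XT.lf (nat_lit 0) (nat_lit 6080215394381) (nat_lit 152) (nat_lit 1116344600222) (nat_lit 0) (nat_lit 5657231600136) (nat_lit 2) (nat_lit 5) (nat_lit 4) (nat_lit 4) (nat_lit 2) (nat_lit 4) (nat_lit 286) (nat_lit 248) (nat_lit 126)))) (XT.nd (nat_lit 156) (nat_lit 76) (nat_lit 0) (XT.nd (nat_lit 78) (nat_lit 0) (nat_lit 0) (XT.lf (nat_lit 0) (nat_lit 7252973055869) (nat_lit 152) (nat_lit 649644576533) (nat_lit 0) (nat_lit 6829989259453) (nat_lit 2) (nat_lit 5) (nat_lit 4) (nat_lit 4) (nat_lit 2) (nat_lit 4) (nat_lit 287) (nat_lit 248) (nat_lit 125)) (XT.lf (nat_lit 0) (nat_lit 8601644363469) (nat_lit 152) (nat_lit 112939555374) (nat_lit 0) (nat_lit 8178660565165) (nat_lit 2) (nat_lit 5) (nat_lit 4) (nat_lit 4) (nat_lit 2) (nat_lit 4) (nat_lit 288) (nat_lit 248) (nat_lit 124))) (XT.nd (nat_lit 78) (nat_lit 0) (nat_lit 0) (XT.lf (nat_lit 0) (nat_lit 553552264093) (nat_lit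 76) (nat_lit 9621985519214) (nat_lit 76) (nat_lit 9199001719270) (nat_lit 1) (nat_lit 4) (nat_lit 2) (nat_lit 5) (nat_lit 2) (nat_lit 4) (nat_lit 289) (nat_lit 248) (nat_lit 123)) (XT.nd (nat_lit 1170) (nat_lit 0) (nat_lit 0) (XT.lf (nat_lit 0) (nat_lit 1332710717370) (nat_lit 76) (nat_lit 10658708154767) (nat_lit 76) (nat_lit 10235724353395) (nat_lit 1) (nat_lit 4) (nat_lit 2) (nat_lit 5) (nat_lit 2) (nat_lit 4) (nat_lit 290) (nat_lit 248) (nat_lit 122)) (XT.lf (nat_lit 0) (nat_lit 43966291184882) (nat_lit 76) (nat_lit 67385550822828) (nat_lit 76) (nat_lit 66962567013111) (nat_lit 1) (nat_lit 4) (nat_lit 2) (nat_lit 5) (nat_lit 2) (nat_lit 4) (nat_lit 305) (nat_lit 248) (nat_lit 107))))))) (XT.nd (nat_lit 624) (nat_lit 532) (nat_lit 0) (XT.nd (nat_lit 312) (nat_lit 152) (nat_lit 0) (XT.nd (nat_lit 156) (nat_lit 0) (nat_lit 76) (XT.nd (nat_lit 78) (nat_lit 0) (nat_lit 0) (XT.lf (nat_lit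 0) (nat_lit 3559566421) (nat_lit 380) (nat_lit 57096716777) (nat_lit 380) (nat_lit 57096716777) (nat_lit 17) (nat_lit 3) (nat_lit 22) (nat_lit 3) (nat_lit 22) (nat_lit 5) (nat_lit 249) (nat_lit 249) (nat_lit 162)) (XT.lf (nat_lit 0) (nat_lit 7654115937) (nat_lit 380) (nat_lit 11156980445) (nat_lit 380) (nat_lit 234357688473) (nat_lit 17) (nat_lit 3) (nat_lit 22) (nat_lit 3) (nat_lit 22) (nat_lit 5) (nat_lit 250) (nat_lit 249) (nat_lit 161))) (XT.nd (nat_lit 78) (nat_lit 0) (nat_lit 0) (XT.lf (nat_lit 0) (nat_lit 17482440628) (nat_lit 304) (nat_lit 159259240130) (nat_lit 380) (nat_lit 95357344015) (nat_lit 18) (nat_lit 5) (nat_lit 22) (nat_lit 5) (nat_lit 23) (nat_lit 5) (nat_lit 251) (nat_lit 249) (nat_lit 160)) (XT.lf (nat_lit 0) (nat_lit 30291594095) (nat_lit 304) (nat_lit 38015032981) (nat_lit 380) (nat_lit 225336187814) (nat_lit 18) (nat_lit 5) (nat_lit 22) (nat_lit 5) (nat_lit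 23) (nat_lit 5) (nat_lit 252) (nat_lit 249) (nat_lit 159)))) (XT.nd (nat_lit 156) (nat_lit 304) (nat_lit 0) (XT.nd (nat_lit 78) (nat_lit 0) (nat_lit 0) (XT.lf (nat_lit 0) (nat_lit 52186440009) (nat_lit 304) (nat_lit 208954613838) (nat_lit 76) (nat_lit 56202472821) (nat_lit 19) (nat_lit 5) (nat_lit 23) (nat_lit 5) (nat_lit 20) (nat_lit 5) (nat_lit 253) (nat_lit 249) (nat_lit 158)) (XT.lf (nat_lit 0) (nat_lit 82699857256) (nat_lit 304) (nat_lit 66622904141) (nat_lit 76) (nat_lit 194476433074) (nat_lit 19) (nat_lit 5) (nat_lit 23) (nat_lit 5) (nat_lit 20) (nat_lit 5) (nat_lit 254) (nat_lit 249) (nat_lit 157))) (XT.nd (nat_lit 78) (nat_lit 0) (nat_lit 0) (XT.lf (nat_lit 0) (nat_lit 106543706015) (nat_lit 304) (nat_lit 15658217692) (nat_lit 380) (nat_lit 251359544042) (nat_lit 15) (nat_lit 5) (nat_lit 19) (nat_lit 5) (nat_lit 20) (nat_lit 5) (nat_lit 255) (nat_lit 249) (nat_lit 156)) (XT.lf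 (nat_lit 0) (nat_lit 176994200784) (nat_lit 380) (nat_lit 99975449225) (nat_lit 76) (nat_lit 129413697612) (nat_lit 15) (nat_lit 5) (nat_lit 20) (nat_lit 5) (nat_lit 16) (nat_lit 5) (nat_lit 256) (nat_lit 249) (nat_lit 155))))) (XT.nd (nat_lit 312) (nat_lit 304) (nat_lit 0) (XT.nd (nat_lit 156) (nat_lit 76) (nat_lit 0) (XT.nd (nat_lit 78) (nat_lit 0) (nat_lit 0) (XT.lf (nat_lit 0) (nat_lit 100307544270) (nat_lit 152) (nat_lit 144596837942) (nat_lit 228) (nat_lit 198489268448) (nat_lit 13) (nat_lit 5) (nat_lit 15) (nat_lit 5) (nat_lit 16) (nat_lit 5) (nat_lit 257) (nat_lit 249) (nat_lit 154)) (XT.lf (nat_lit 0) (nat_lit 328791875624) (nat_lit 228) (nat_lit 143867728502) (nat_lit 76) (nat_lit 12427277841) (nat_lit 13) (nat_lit 5) (nat_lit 16) (nat_lit 5) (nat_lit 14) (nat_lit 4) (nat_lit 258) (nat_lit 249) (nat_lit 153))) (XT.nd (nat_lit 78) (nat_lit 0) (nat_lit 0) (XT.lf (nat_lit 0)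 (nat_lit 86004453959) (nat_lit 76) (nat_lit 349704792706) (nat_lit 152) (nat_lit 95757838721) (nat_lit 12) (nat_lit 5) (nat_lit 13) (nat_lit 5) (nat_lit 14) (nat_lit 4) (nat_lit 259) (nat_lit 249) (nat_lit 152)) (XT.lf (nat_lit 0) (nat_lit 366526139550) (nat_lit 76) (nat_lit 199658376562) (nat_lit 152) (nat_lit 17491759692) (nat_lit 12) (nat_lit 5) (nat_lit 13) (nat_lit 5) (nat_lit 14) (nat_lit 4) (nat_lit 260) (nat_lit 249) (nat_lit 151)))) (XT.nd (nat_lit 156) (nat_lit 76) (nat_lit 0) (XT.nd (nat_lit 78) (nat_lit 0) (nat_lit 0) (XT.lf (nat_lit 0) (nat_lit 46550754729) (nat_lit 152) (nat_lit 21435265394) (nat_lit 228) (nat_lit 574991299925) (nat_lit 9) (nat_lit 5) (nat_lit 11) (nat_lit 5) (nat_lit 12) (nat_lit 5) (nat_lit 261) (nat_lit 249) (nat_lit 150)) (XT.lf (nat_lit 0) (nat_lit 183985368067) (nat_lit 228) (nat_lit 344232157559) (nat_lit 76) (nat_lit 179907445801) (nat_lit 9) (nat_lit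 5) (nat_lit 12) (nat_lit 5) (nat_lit 10) (nat_lit 4) (nat_lit 262) (nat_lit 249) (nat_lit 149))) (XT.nd (nat_lit 78) (nat_lit 76) (nat_lit 0) (XT.lf (nat_lit 0) (nat_lit 318405295473) (nat_lit 228) (nat_lit 55229395806) (nat_lit 76) (nat_lit 409256977867) (nat_lit 9) (nat_lit 5) (nat_lit 12) (nat_lit 5) (nat_lit 10) (nat_lit 4) (nat_lit 263) (nat_lit 249) (nat_lit 148)) (XT.nd (nat_lit 78) (nat_lit 0) (nat_lit 0) (XT.lf (nat_lit 0) (nat_lit 304206254855) (nat_lit 76) (nat_lit 181378446253) (nat_lit 152) (nat_lit 381399197248) (nat_lit 8) (nat_lit 5) (nat_lit 9) (nat_lit 5) (nat_lit 10) (nat_lit 4) (nat_lit 264) (nat_lit 249) (nat_lit 147)) (XT.lf (nat_lit 0) (nat_lit 682510007729) (nat_lit 152) (nat_lit 241274741325) (nat_lit 0) (nat_lit 39204864544) (nat_lit 8) (nat_lit 5) (nat_lit 10) (nat_lit 4) (nat_lit 8) (nat_lit 4) (nat_lit 265) (nat_lit 249) (nat_lit 146))))))))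
noncomputable def xc104 : XT := (XT.nd (nat_lit 1326) (nat_lit 76) (nat_lit 0) (XT.nd (nat_lit 624) (nat_lit 152) (nat_lit 0) (XT.nd (nat_lit 312) (nat_lit 76) (nat_lit 0) (XT.nd (nat_lit 156) (nat_lit 76) (nat_lit 0) (XT.nd (nat_lit 78) (nat_lit 76) (nat_lit 0) (XT.lf (nat_lit 0) (nat_lit 131525801272) (nat_lit 76) (nat_lit 791531544899) (nat_lit 76) (nat_lit 148226354731) (nat_lit 7) (nat_lit 4) (nat_lit 8) (nat_lit 5) (nat_lit 8) (nat_lit 4) (nat_lit 266) (nat_lit 249) (nat_lit 145)) (XT.lf (nat_lit 0) (nat_lit 16733434286) (nat_lit 152) (nat_lit 607328347305) (nat_lit 76) (nat_lit 569754219996) (nat_lit 6) (nat_lit 5) (nat_lit 8) (nat_lit 5) (nat_lit 7) (nat_lit 4) (nat_lit 267) (nat_lit 249) (nat_lit 144))) (XT.nd (nat_lit 78) (nat_lit 76) (nat_lit 0) (XT.lf (nat_lit 0) (nat_lit 191261605431) (nat_lit 152) (nat_lit 232092814868) (nat_lit 76) (nat_lit 910314972126) (nat_lit 6) (nat_lit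 5) (nat_lit 8) (nat_lit 5) (nat_lit 7) (nat_lit 4) (nat_lit 268) (nat_lit 249) (nat_lit 143)) (XT.lf (nat_lit 0) (nat_lit 218917554217) (nat_lit 76) (nat_lit 182116330273) (nat_lit 152) (nat_lit 1092107175149) (nat_lit 5) (nat_lit 5) (nat_lit 6) (nat_lit 5) (nat_lit 7) (nat_lit 4) (nat_lit 269) (nat_lit 249) (nat_lit 142)))) (XT.nd (nat_lit 156) (nat_lit 76) (nat_lit 0) (XT.nd (nat_lit 78) (nat_lit 0) (nat_lit 0) (XT.lf (nat_lit 0) (nat_lit 658928303192) (nat_lit 152) (nat_lit 915574360131) (nat_lit 0) (nat_lit 99532369018) (nat_lit 5) (nat_lit 5) (nat_lit 7) (nat_lit 4) (nat_lit 5) (nat_lit 4) (nat_lit 270) (nat_lit 249) (nat_lit 141)) (XT.lf (nat_lit 0) (nat_lit 964179068238) (nat_lit 152) (nat_lit 511800091492) (nat_lit 0) (nat_lit 404783113752) (nat_lit 5) (nat_lit 5) (nat_lit 7) (nat_lit 4) (nat_lit 5) (nat_lit 4) (nat_lit 271) (nat_lit 249) (nat_lit 140))) (XT.nd (nat_lit 78)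 (nat_lit 76) (nat_lit 0) (XT.lf (nat_lit 0) (nat_lit 1315217428333) (nat_lit 152) (nat_lit 47459719290) (nat_lit 0) (nat_lit 755821456185) (nat_lit 5) (nat_lit 5) (nat_lit 7) (nat_lit 4) (nat_lit 5) (nat_lit 4) (nat_lit 272) (nat_lit 249) (nat_lit 139)) (XT.lf (nat_lit 0) (nat_lit 534079090669) (nat_lit 76) (nat_lit 1206947510854) (nat_lit 76) (nat_lit 647551523347) (nat_lit 4) (nat_lit 4) (nat_lit 5) (nat_lit 5) (nat_lit 5) (nat_lit 4) (nat_lit 273) (nat_lit 249) (nat_lit 138))))) (XT.nd (nat_lit 312) (nat_lit 76) (nat_lit 0) (XT.nd (nat_lit 156) (nat_lit 76) (nat_lit 0) (XT.nd (nat_lit 78) (nat_lit 0) (nat_lit 0) (XT.lf (nat_lit 0) (nat_lit 1208182516903) (nat_lit 76) (nat_lit 1025005466585) (nat_lit 76) (nat_lit 465609465723) (nat_lit 4) (nat_lit 4) (nat_lit 5) (nat_lit 5) (nat_lit 5) (nat_lit 4) (nat_lit 274) (nat_lit 249) (nat_lit 137)) (XT.lf (nat_lit 0) (nat_lit 1983401430561)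 (nat_lit 76) (nat_lit 815772128134) (nat_lit 76) (nat_lit 256376115658) (nat_lit 4) (nat_lit 4) (nat_lit 5) (nat_lit 5) (nat_lit 5) (nat_lit 4) (nat_lit 275) (nat_lit 249) (nat_lit 136))) (XT.nd (nat_lit 78) (nat_lit 76) (nat_lit 0) (XT.lf (nat_lit 0) (nat_lit 2874903158212) (nat_lit 76) (nat_lit 575153799745) (nat_lit 76) (nat_lit 15757777171) (nat_lit 4) (nat_lit 4) (nat_lit 5) (nat_lit 5) (nat_lit 5) (nat_lit 4) (nat_lit 276) (nat_lit 249) (nat_lit 135)) (XT.lf (nat_lit 0) (nat_lit 237721432563) (nat_lit 152) (nat_lit 48294951343) (nat_lit 76) (nat_lit 3649982344788) (nat_lit 3) (nat_lit 5) (nat_lit 5) (nat_lit 5) (nat_lit 4) (nat_lit 4) (nat_lit 277) (nat_lit 249) (nat_lit 134)))) (XT.nd (nat_lit 156) (nat_lit 0) (nat_lit 0) (XT.nd (nat_lit 78) (nat_lit 0) (nat_lit 0) (XT.lf (nat_lit 0) (nat_lit 556949296815) (nat_lit 152) (nat_lit 3844729499995) (nat_lit 0) (nat_lit 70517958562)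 (nat_lit 2) (nat_lit 5) (nat_lit 4) (nat_lit 4) (nat_lit 2) (nat_lit 4) (nat_lit 278) (nat_lit 249) (nat_lit 133)) (XT.lf (nat_lit 0) (nat_lit 940325882522) (nat_lit 152) (nat_lit 3692164383780) (nat_lit 0) (nat_lit 453894538495) (nat_lit 2) (nat_lit 5) (nat_lit 4) (nat_lit 4) (nat_lit 2) (nat_lit 4) (nat_lit 279) (nat_lit 249) (nat_lit 132))) (XT.nd (nat_lit 78) (nat_lit 0) (nat_lit 0) (XT.lf (nat_lit 0) (nat_lit 1381208947812) (nat_lit 152) (nat_lit 3516714516317) (nat_lit 0) (nat_lit 894777598764) (nat_lit 2) (nat_lit 5) (nat_lit 4) (nat_lit 4) (nat_lit 2) (nat_lit 4) (nat_lit 280) (nat_lit 249) (nat_lit 131)) (XT.nd (nat_lit 78) (nat_lit 0) (nat_lit 0) (XT.lf (nat_lit 0) (nat_lit 1888224465701) (nat_lit 152) (nat_lit 3314947182807) (nat_lit 0) (nat_lit 1401793112287) (nat_lit 2) (nat_lit 5) (nat_lit 4) (nat_lit 4) (nat_lit 2) (nat_lit 4) (nat_lit 281) (nat_lit 249) (nat_lit 130))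 (XT.lf (nat_lit 0) (nat_lit 2471292305019) (nat_lit 152) (nat_lit 3082914761507) (nat_lit 0) (nat_lit 1984860947808) (nat_lit 2) (nat_lit 5) (nat_lit 4) (nat_lit 4) (nat_lit 2) (nat_lit 4) (nat_lit 282) (nat_lit 249) (nat_lit 129))))))) (XT.nd (nat_lit 858) (nat_lit 0) (nat_lit 0) (XT.nd (nat_lit 312) (nat_lit 76) (nat_lit 0) (XT.nd (nat_lit 156) (nat_lit 0) (nat_lit 0) (XT.nd (nat_lit 78) (nat_lit 0) (nat_lit 0) (XT.lf (nat_lit 0) (nat_lit 3141820314794) (nat_lit 152) (nat_lit 2816077487653) (nat_lit 0) (nat_lit 2655388954282) (nat_lit 2) (nat_lit 5) (nat_lit 4) (nat_lit 4) (nat_lit 2) (nat_lit 4) (nat_lit 283) (nat_lit 249) (nat_lit 128)) (XT.lf (nat_lit 0) (nat_lit 3912927521306) (nat_lit 152) (nat_lit 2509214631975) (nat_lit 0) (nat_lit 3426496157923) (nat_lit 2) (nat_lit 5) (nat_lit 4) (nat_lit 4) (nat_lit 2) (nat_lit 4) (nat_lit 284) (nat_lit 249) (nat_lit 127))) (XT.nd (nat_lit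 78) (nat_lit 0) (nat_lit 0) (XT.lf (nat_lit 0) (nat_lit 4799700804681) (nat_lit 152) (nat_lit 2156322355990) (nat_lit 0) (nat_lit 4313269438803) (nat_lit 2) (nat_lit 5) (nat_lit 4) (nat_lit 4) (nat_lit 2) (nat_lit 4) (nat_lit 285) (nat_lit 249) (nat_lit 126)) (XT.lf (nat_lit 0) (nat_lit 5819490076986) (nat_lit 152) (nat_lit 1750496245605) (nat_lit 0) (nat_lit 5333058708937) (nat_lit 2) (nat_lit 5) (nat_lit 4) (nat_lit 4) (nat_lit 2) (nat_lit 4) (nat_lit 286) (nat_lit 249) (nat_lit 125)))) (XT.nd (nat_lit 156) (nat_lit 76) (nat_lit 0) (XT.nd (nat_lit 78) (nat_lit 0) (nat_lit 0) (XT.lf (nat_lit 0) (nat_lit 6992247737026) (nat_lit 152) (nat_lit 1283796224746) (nat_lit 0) (nat_lit 6505816367090) (nat_lit 2) (nat_lit 5) (nat_lit 4) (nat_lit 4) (nat_lit 2) (nat_lit 4) (nat_lit 287) (nat_lit 249) (nat_lit 124)) (XT.lf (nat_lit 0) (nat_lit 8340919043369) (nat_lit 152) (nat_lit 747091206048)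 (nat_lit 0) (nat_lit 7854487671791) (nat_lit 2) (nat_lit 5) (nat_lit 4) (nat_lit 4) (nat_lit 2) (nat_lit 4) (nat_lit 288) (nat_lit 249) (nat_lit 123))) (XT.nd (nat_lit 78) (nat_lit 76) (nat_lit 0) (XT.lf (nat_lit 0) (nat_lit 9891891043311) (nat_lit 152) (nat_lit 129880439146) (nat_lit 0) (nat_lit 9405459670306) (nat_lit 2) (nat_lit 5) (nat_lit 4) (nat_lit 4) (nat_lit 2) (nat_lit 4) (nat_lit 289) (nat_lit 249) (nat_lit 122)) (XT.lf (nat_lit 0) (nat_lit 636585150990) (nat_lit 76) (nat_lit 11065283323790) (nat_lit 76) (nat_lit 10578851949544) (nat_lit 1) (nat_lit 4) (nat_lit 2) (nat_lit 5) (nat_lit 2) (nat_lit 4) (nat_lit 290) (nat_lit 249) (nat_lit 121))))) (XT.nd (nat_lit 31044) (nat_lit 0) (nat_lit 1216) (XT.nd (nat_lit 156) (nat_lit 0) (nat_lit 0) (XT.nd (nat_lit 78) (nat_lit 0) (nat_lit 0) (XT.lf (nat_lit 0) (nat_lit 5110809992826) (nat_lit 76) (nat_lit 17018539972798) (nat_lit 76)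 (nat_lit 16532108595009) (nat_lit 1) (nat_lit 4) (nat_lit 2) (nat_lit 5) (nat_lit 2) (nat_lit 4) (nat_lit 294) (nat_lit 249) (nat_lit 117)) (XT.lf (nat_lit 0) (nat_lit 6677975923301) (nat_lit 76) (nat_lit 19103759509449) (nat_lit 76) (nat_lit 18617328131042) (nat_lit 1) (nat_lit 4) (nat_lit 2) (nat_lit 5) (nat_lit 2) (nat_lit 4) (nat_lit 295) (nat_lit 249) (nat_lit 116))) (XT.nd (nat_lit 30810) (nat_lit 0) (nat_lit 1216) (XT.lf (nat_lit 0) (nat_lit 8480216741450) (nat_lit 76) (nat_lit 21501761977532) (nat_lit 76) (nat_lit 21015330598589) (nat_lit 1) (nat_lit 4) (nat_lit 2) (nat_lit 5) (nat_lit 2) (nat_lit 4) (nat_lit 296) (nat_lit 249) (nat_lit 115)) (XT.lf (nat_lit 0) (nat_lit 4094506115) (nat_lit 380) (nat_lit 65660642800) (nat_lit 380) (nat_lit 65660642800) (nat_lit 17) (nat_lit 3) (nat_lit 22) (nat_lit 3) (nat_lit 22) (nat_lit 5) (nat_lit 250) (nat_lit 250) (nat_lit 160)))) (XT.nd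 (nat_lit 156) (nat_lit 0) (nat_lit 76) (XT.nd (nat_lit 78) (nat_lit 0) (nat_lit 76) (XT.lf (nat_lit 0) (nat_lit 8803980685) (nat_lit 380) (nat_lit 12829516217) (nat_lit 380) (nat_lit 269510330449) (nat_lit 17) (nat_lit 3) (nat_lit 22) (nat_lit 3) (nat_lit 22) (nat_lit 5) (nat_lit 251) (nat_lit 250) (nat_lit 159)) (XT.lf (nat_lit 0) (nat_lit 20106341536) (nat_lit 304) (nat_lit 183146890894) (nat_lit 380) (nat_lit 109660404422) (nat_lit 18) (nat_lit 5) (nat_lit 22) (nat_lit 5) (nat_lit 23) (nat_lit 5) (nat_lit 252) (nat_lit 250) (nat_lit 158))) (XT.nd (nat_lit 78) (nat_lit 0) (nat_lit 76) (XT.lf (nat_lit 0) (nat_lit 34836667829) (nat_lit 304) (nat_lit 43716213793) (nat_lit 380) (nat_lit 259136145381) (nat_lit 18) (nat_lit 5) (nat_lit 22) (nat_lit 5) (nat_lit 23) (nat_lit 5) (nat_lit 253) (nat_lit 250) (nat_lit 157)) (XT.nd (nat_lit 78) (nat_lit 0) (nat_lit 0) (XT.lf (nat_lit 0) (nat_lit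 60015601648) (nat_lit 304) (nat_lit 240296584164) (nat_lit 76) (nat_lit 64632681879) (nat_lit 19) (nat_lit 5) (nat_lit 23) (nat_lit 5) (nat_lit 20) (nat_lit 5) (nat_lit 254) (nat_lit 250) (nat_lit 156)) (XT.lf (nat_lit 0) (nat_lit 95105875529) (nat_lit 304) (nat_lit 76615277370) (nat_lit 76) (nat_lit 223647757282) (nat_lit 19) (nat_lit 5) (nat_lit 23) (nat_lit 5) (nat_lit 20) (nat_lit 5) (nat_lit 255) (nat_lit 250) (nat_lit 155))))))))
noncomputable def xc105 : XT := (XT.nd (nat_lit 1326) (nat_lit 228) (nat_lit 0) (XT.nd (nat_lit 624) (nat_lit 304) (nat_lit 0) (XT.nd (nat_lit 312) (nat_lit 304) (nat_lit 0) (XT.nd (nat_lit 156) (nat_lit 152) (nat_lit 0) (XT.nd (nat_lit 78) (nat_lit 0) (nat_lit 0) (XT.lf (nat_lit 0) (nat_lit 122526276019) (nat_lit 304) (nat_lit 18006882311) (nat_lit 380) (nat_lit 289062381146) (nat_lit 15) (nat_lit 5) (nat_lit 19) (nat_lit 5) (nat_lit 20) (nat_lit 5)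 (nat_lit 256) (nat_lit 250) (nat_lit 154)) (XT.lf (nat_lit 0) (nat_lit 203544156018) (nat_lit 380) (nat_lit 114970758155) (nat_lit 76) (nat_lit 148825806148) (nat_lit 15) (nat_lit 5) (nat_lit 20) (nat_lit 5) (nat_lit 16) (nat_lit 5) (nat_lit 257) (nat_lit 250) (nat_lit 153))) (XT.nd (nat_lit 78) (nat_lit 0) (nat_lit 0) (XT.lf (nat_lit 0) (nat_lit 115354638525) (nat_lit 152) (nat_lit 166286158370) (nat_lit 228) (nat_lit 228261782826) (nat_lit 13) (nat_lit 5) (nat_lit 15) (nat_lit 5) (nat_lit 16) (nat_lit 5) (nat_lit 258) (nat_lit 250) (nat_lit 152)) (XT.lf (nat_lit 0) (nat_lit 378111322925) (nat_lit 228) (nat_lit 165446955035) (nat_lit 76) (nat_lit 14291532117) (nat_lit 13) (nat_lit 5) (nat_lit 16) (nat_lit 5) (nat_lit 14) (nat_lit 4) (nat_lit 259) (nat_lit 250) (nat_lit 151)))) (XT.nd (nat_lit 156) (nat_lit 228) (nat_lit 0) (XT.nd (nat_lit 78) (nat_lit 0) (nat_lit 0) (XT.lf (nat_lit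 0) (nat_lit 98906012398) (nat_lit 76) (nat_lit 402160237228) (nat_lit 152) (nat_lit 110120802442) (nat_lit 12) (nat_lit 5) (nat_lit 13) (nat_lit 5) (nat_lit 14) (nat_lit 4) (nat_lit 260) (nat_lit 250) (nat_lit 150)) (XT.lf (nat_lit 0) (nat_lit 421505834695) (nat_lit 76) (nat_lit 229606894451) (nat_lit 152) (nat_lit 20114904440) (nat_lit 12) (nat_lit 5) (nat_lit 13) (nat_lit 5) (nat_lit 14) (nat_lit 4) (nat_lit 261) (nat_lit 250) (nat_lit 149))) (XT.nd (nat_lit 78) (nat_lit 0) (nat_lit 0) (XT.lf (nat_lit 0) (nat_lit 53534162274) (nat_lit 152) (nat_lit 24650284264) (nat_lit 228) (nat_lit 661239390555) (nat_lit 9) (nat_lit 5) (nat_lit 11) (nat_lit 5) (nat_lit 12) (nat_lit 5) (nat_lit 262) (nat_lit 250) (nat_lit 148)) (XT.lf (nat_lit 0) (nat_lit 211583638159) (nat_lit 228) (nat_lit 395866229818) (nat_lit 76) (nat_lit 206893777296) (nat_lit 9) (nat_lit 5) (nat_lit 12) (nat_lit 5) (nat_lit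 10) (nat_lit 4) (nat_lit 263) (nat_lit 250) (nat_lit 147))))) (XT.nd (nat_lit 312) (nat_lit 152) (nat_lit 0) (XT.nd (nat_lit 156) (nat_lit 76) (nat_lit 0) (XT.nd (nat_lit 78) (nat_lit 76) (nat_lit 0) (XT.lf (nat_lit 0) (nat_lit 366166494040) (nat_lit 228) (nat_lit 63513151808) (nat_lit 76) (nat_lit 470645711178) (nat_lit 9) (nat_lit 5) (nat_lit 12) (nat_lit 5) (nat_lit 10) (nat_lit 4) (nat_lit 264) (nat_lit 250) (nat_lit 146)) (XT.lf (nat_lit 0) (nat_lit 349837816753) (nat_lit 76) (nat_lit 208584966864) (nat_lit 152) (nat_lit 438608641277) (nat_lit 8) (nat_lit 5) (nat_lit 9) (nat_lit 5) (nat_lit 10) (nat_lit 4) (nat_lit 265) (nat_lit 250) (nat_lit 145))) (XT.nd (nat_lit 78) (nat_lit 76) (nat_lit 0) (XT.lf (nat_lit 0) (nat_lit 784886845883) (nat_lit 152) (nat_lit 277465368450) (nat_lit 0) (nat_lit 45085789354) (nat_lit 8) (nat_lit 5) (nat_lit 10) (nat_lit 4) (nat_lit 8) (nat_lit 4) (nat_lit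 266) (nat_lit 250) (nat_lit 144)) (XT.lf (nat_lit 0) (nat_lit 151255228988) (nat_lit 76) (nat_lit 910261035233) (nat_lit 76) (nat_lit 170459943178) (nat_lit 7) (nat_lit 4) (nat_lit 8) (nat_lit 5) (nat_lit 8) (nat_lit 4) (nat_lit 267) (nat_lit 250) (nat_lit 143)))) (XT.nd (nat_lit 156) (nat_lit 76) (nat_lit 0) (XT.nd (nat_lit 78) (nat_lit 0) (nat_lit 0) (XT.lf (nat_lit 0) (nat_lit 19243738376) (nat_lit 152) (nat_lit 698427085436) (nat_lit 76) (nat_lit 655217533749) (nat_lit 6) (nat_lit 5) (nat_lit 8) (nat_lit 5) (nat_lit 7) (nat_lit 4) (nat_lit 268) (nat_lit 250) (nat_lit 142)) (XT.lf (nat_lit 0) (nat_lit 219951097504) (nat_lit 152) (nat_lit 266906290172) (nat_lit 76) (nat_lit 1046862375122) (nat_lit 6) (nat_lit 5) (nat_lit 8) (nat_lit 5) (nat_lit 7) (nat_lit 4) (nat_lit 269) (nat_lit 250) (nat_lit 141))) (XT.nd (nat_lit 78) (nat_lit 0) (nat_lit 0) (XT.lf (nat_lit 0) (nat_lit 251755613961)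 (nat_lit 76) (nat_lit 209433589354) (nat_lit 152) (nat_lit 1255922979150) (nat_lit 5) (nat_lit 5) (nat_lit 6) (nat_lit 5) (nat_lit 7) (nat_lit 4) (nat_lit 270) (nat_lit 250) (nat_lit 140)) (XT.nd (nat_lit 78) (nat_lit 0) (nat_lit 0) (XT.lf (nat_lit 0) (nat_lit 757767760877) (nat_lit 152) (nat_lit 1052910118634) (nat_lit 0) (nat_lit 114462375244) (nat_lit 5) (nat_lit 5) (nat_lit 7) (nat_lit 4) (nat_lit 5) (nat_lit 4) (nat_lit 271) (nat_lit 250) (nat_lit 139)) (XT.lf (nat_lit 0) (nat_lit 1108806113001) (nat_lit 152) (nat_lit 588569761288) (nat_lit 0) (nat_lit 465500712009) (nat_lit 5) (nat_lit 5) (nat_lit 7) (nat_lit 4) (nat_lit 5) (nat_lit 4) (nat_lit 272) (nat_lit 250) (nat_lit 138))))))) (XT.nd (nat_lit 624) (nat_lit 0) (nat_lit 0) (XT.nd (nat_lit 312) (nat_lit 152) (nat_lit 0) (XT.nd (nat_lit 156) (nat_lit 0) (nat_lit 0) (XT.nd (nat_lit 78) (nat_lit 76) (nat_lit 0) (XT.lf (nat_lit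 0) (nat_lit 1512500203042) (nat_lit 152) (nat_lit 54578378116) (nat_lit 0) (nat_lit 869194788694) (nat_lit 5) (nat_lit 5) (nat_lit 7) (nat_lit 4) (nat_lit 5) (nat_lit 4) (nat_lit 273) (nat_lit 250) (nat_lit 137)) (XT.lf (nat_lit 0) (nat_lit 614191239743) (nat_lit 76) (nat_lit 1387989503358) (nat_lit 76) (nat_lit 744684077397) (nat_lit 4) (nat_lit 4) (nat_lit 5) (nat_lit 5) (nat_lit 5) (nat_lit 4) (nat_lit 274) (nat_lit 250) (nat_lit 136))) (XT.nd (nat_lit 78) (nat_lit 0) (nat_lit 0) (XT.lf (nat_lit 0) (nat_lit 1389410142677) (nat_lit 76) (nat_lit 1178756169944) (nat_lit 76) (nat_lit 535450733885) (nat_lit 4) (nat_lit 4) (nat_lit 5) (nat_lit 5) (nat_lit 5) (nat_lit 4) (nat_lit 275) (nat_lit 250) (nat_lit 135)) (XT.lf (nat_lit 0) (nat_lit 2280911861004) (nat_lit 76) (nat_lit 938137845937) (nat_lit 76) (nat_lit 294832401096) (nat_lit 4) (nat_lit 4) (nat_lit 5) (nat_lit 5) (nat_lit 5) (nat_lit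 4) (nat_lit 276) (nat_lit 250) (nat_lit 134)))) (XT.nd (nat_lit 156) (nat_lit 76) (nat_lit 0) (XT.nd (nat_lit 78) (nat_lit 76) (nat_lit 0) (XT.lf (nat_lit 0) (nat_lit 3306138819647) (nat_lit 76) (nat_lit 661426781519) (nat_lit 76) (nat_lit 18121329043) (nat_lit 4) (nat_lit 4) (nat_lit 5) (nat_lit 5) (nat_lit 5) (nat_lit 4) (nat_lit 277) (nat_lit 250) (nat_lit 133)) (XT.lf (nat_lit 0) (nat_lit 273379738311) (nat_lit 152) (nat_lit 55539021746) (nat_lit 76) (nat_lit 4197479764114) (nat_lit 3) (nat_lit 5) (nat_lit 5) (nat_lit 5) (nat_lit 4) (nat_lit 4) (nat_lit 278) (nat_lit 250) (nat_lit 132))) (XT.nd (nat_lit 78) (nat_lit 0) (nat_lit 0) (XT.lf (nat_lit 0) (nat_lit 640491780416) (nat_lit 152) (nat_lit 4421438750739) (nat_lit 0) (nat_lit 81095723990) (nat_lit 2) (nat_lit 5) (nat_lit 4) (nat_lit 4) (nat_lit 2) (nat_lit 4) (nat_lit 279) (nat_lit 250) (nat_lit 131)) (XT.lf (nat_lit 0) (nat_lit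 1081374842359) (nat_lit 152) (nat_lit 4245988889821) (nat_lit 0) (nat_lit 521978781568) (nat_lit 2) (nat_lit 5) (nat_lit 4) (nat_lit 4) (nat_lit 2) (nat_lit 4) (nat_lit 280) (nat_lit 250) (nat_lit 130))))) (XT.nd (nat_lit 312) (nat_lit 0) (nat_lit 0) (XT.nd (nat_lit 156) (nat_lit 0) (nat_lit 0) (XT.nd (nat_lit 78) (nat_lit 0) (nat_lit 0) (XT.lf (nat_lit 0) (nat_lit 1588390357339) (nat_lit 152) (nat_lit 4044221562002) (nat_lit 0) (nat_lit 1028994292751) (nat_lit 2) (nat_lit 5) (nat_lit 4) (nat_lit 4) (nat_lit 2) (nat_lit 4) (nat_lit 281) (nat_lit 250) (nat_lit 129)) (XT.lf (nat_lit 0) (nat_lit 2171458194127) (nat_lit 152) (nat_lit 3812189145651) (nat_lit 0) (nat_lit 1612062126237) (nat_lit 2) (nat_lit 5) (nat_lit 4) (nat_lit 4) (nat_lit 2) (nat_lit 4) (nat_lit 282) (nat_lit 250) (nat_lit 128))) (XT.nd (nat_lit 78) (nat_lit 0) (nat_lit 0) (XT.lf (nat_lit 0) (nat_lit 2841986201702) (nat_lit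 152) (nat_lit 3545351876102) (nat_lit 0) (nat_lit 2282590130942) (nat_lit 2) (nat_lit 5) (nat_lit 4) (nat_lit 4) (nat_lit 2) (nat_lit 4) (nat_lit 283) (nat_lit 250) (nat_lit 127)) (XT.lf (nat_lit 0) (nat_lit 3613093406301) (nat_lit 152) (nat_lit 3238489024165) (nat_lit 0) (nat_lit 3053697333044) (nat_lit 2) (nat_lit 5) (nat_lit 4) (nat_lit 4) (nat_lit 2) (nat_lit 4) (nat_lit 284) (nat_lit 250) (nat_lit 126)))) (XT.nd (nat_lit 156) (nat_lit 0) (nat_lit 0) (XT.nd (nat_lit 78) (nat_lit 0) (nat_lit 0) (XT.lf (nat_lit 0) (nat_lit 4499866688012) (nat_lit 152) (nat_lit 2885596751435) (nat_lit 0) (nat_lit 3940470612586) (nat_lit 2) (nat_lit 5) (nat_lit 4) (nat_lit 4) (nat_lit 2) (nat_lit 4) (nat_lit 285) (nat_lit 250) (nat_lit 125)) (XT.lf (nat_lit 0) (nat_lit 5519655958871) (nat_lit 152) (nat_lit 2479770643879) (nat_lit 0) (nat_lit 4960259881557) (nat_lit 2) (nat_lit 5) (nat_lit 4) (nat_lit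 4) (nat_lit 2) (nat_lit 4) (nat_lit 286) (nat_lit 250) (nat_lit 124))) (XT.nd (nat_lit 78) (nat_lit 0) (nat_lit 0) (XT.lf (nat_lit 0) (nat_lit 6692413617654) (nat_lit 152) (nat_lit 2013070625481) (nat_lit 0) (nat_lit 6133017538698) (nat_lit 2) (nat_lit 5) (nat_lit 4) (nat_lit 4) (nat_lit 2) (nat_lit 4) (nat_lit 287) (nat_lit 250) (nat_lit 123)) (XT.nd (nat_lit 78) (nat_lit 0) (nat_lit 0) (XT.lf (nat_lit 0) (nat_lit 8041084922902) (nat_lit 152) (nat_lit 1476365608923) (nat_lit 0) (nat_lit 7481688842519) (nat_lit 2) (nat_lit 5) (nat_lit 4) (nat_lit 4) (nat_lit 2) (nat_lit 4) (nat_lit 288) (nat_lit 250) (nat_lit 122)) (XT.lf (nat_lit 0) (nat_lit 9592056921893) (nat_lit 152) (nat_lit 859154843882) (nat_lit 0) (nat_lit 9032660840269) (nat_lit 2) (nat_lit 5) (nat_lit 4) (nat_lit 4) (nat_lit 2) (nat_lit 4) (nat_lit 289) (nat_lit 250) (nat_lit 121))))))))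
noncomputable def xc106 : XT := (XT.nd (nat_lit 32214) (nat_lit 0) (nat_lit 228) (XT.nd (nat_lit 31512) (nat_lit 0) (nat_lit 836) (XT.nd (nat_lit 468) (nat_lit 0) (nat_lit 0) (XT.nd (nat_lit 312) (nat_lit 0) (nat_lit 0) (XT.nd (nat_lit 234) (nat_lit 76) (nat_lit 0) (XT.lf (nat_lit 0) (nat_lit 11375674718954) (nat_lit 152) (nat_lit 149362467563) (nat_lit 0) (nat_lit 10816278636251) (nat_lit 2) (nat_lit 5) (nat_lit 4) (nat_lit 4) (nat_lit 2) (nat_lit 4) (nat_lit 290) (nat_lit 250) (nat_lit 120)) (XT.lf (nat_lit 0) (nat_lit 2947512598693) (nat_lit 76) (nat_lit 15672867042296) (nat_lit 76) (nat_lit 15113470957129) (nat_lit 1) (nat_lit 4) (nat_lit 2) (nat_lit 5) (nat_lit 2) (nat_lit 4) (nat_lit 293) (nat_lit 250) (nat_lit 117))) (XT.nd (nat_lit 78) (nat_lit 0) (nat_lit 0) (XT.lf (nat_lit 0) (nat_lit 4310265582599) (nat_lit 76) (nat_lit 17486101421557) (nat_lit 76) (nat_lit 16926705335773)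 (nat_lit 1) (nat_lit 4) (nat_lit 2) (nat_lit 5) (nat_lit 2) (nat_lit 4) (nat_lit 294) (nat_lit 250) (nat_lit 116)) (XT.lf (nat_lit 0) (nat_lit 5877431512191) (nat_lit 76) (nat_lit 19571320958642) (nat_lit 76) (nat_lit 19011924872322) (nat_lit 1) (nat_lit 4) (nat_lit 2) (nat_lit 5) (nat_lit 2) (nat_lit 4) (nat_lit 295) (nat_lit 250) (nat_lit 115)))) (XT.nd (nat_lit 30888) (nat_lit 0) (nat_lit 1216) (XT.nd (nat_lit 78) (nat_lit 0) (nat_lit 0) (XT.lf (nat_lit 0) (nat_lit 7679672329572) (nat_lit 76) (nat_lit 21969323427104) (nat_lit 76) (nat_lit 21409927340317) (nat_lit 1) (nat_lit 4) (nat_lit 2) (nat_lit 5) (nat_lit 2) (nat_lit 4) (nat_lit 296) (nat_lit 250) (nat_lit 114)) (XT.lf (nat_lit 0) (nat_lit 9752249268124) (nat_lit 76) (nat_lit 24727026266543) (nat_lit 76) (nat_lit 24167630179350) (nat_lit 1) (nat_lit 4) (nat_lit 2) (nat_lit 5) (nat_lit 2) (nat_lit 4) (nat_lit 297) (nat_lit 250)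 (nat_lit 113))) (XT.nd (nat_lit 78) (nat_lit 0) (nat_lit 0) (XT.lf (nat_lit 0) (nat_lit 4709441753) (nat_lit 380) (nat_lit 75509299526) (nat_lit 380) (nat_lit 75509299526) (nat_lit 17) (nat_lit 3) (nat_lit 22) (nat_lit 3) (nat_lit 22) (nat_lit 5) (nat_lit 251) (nat_lit 251) (nat_lit 158)) (XT.lf (nat_lit 0) (nat_lit 10125899041) (nat_lit 380) (nat_lit 14753178965) (nat_lit 380) (nat_lit 309936115332) (nat_lit 17) (nat_lit 3) (nat_lit 22) (nat_lit 3) (nat_lit 22) (nat_lit 5) (nat_lit 252) (nat_lit 251) (nat_lit 157))))) (XT.nd (nat_lit 312) (nat_lit 456) (nat_lit 0) (XT.nd (nat_lit 156) (nat_lit 0) (nat_lit 76) (XT.nd (nat_lit 78) (nat_lit 0) (nat_lit 0) (XT.lf (nat_lit 0) (nat_lit 23123453306) (nat_lit 304) (nat_lit 210617990498) (nat_lit 380) (nat_lit 126109055863) (nat_lit 18) (nat_lit 5) (nat_lit 22) (nat_lit 5) (nat_lit 23) (nat_lit 5) (nat_lit 253) (nat_lit 251) (nat_lit 156))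 (XT.lf (nat_lit 0) (nat_lit 40063177168) (nat_lit 304) (nat_lit 50272833661) (nat_lit 380) (nat_lit 298006211343) (nat_lit 18) (nat_lit 5) (nat_lit 22) (nat_lit 5) (nat_lit 23) (nat_lit 5) (nat_lit 254) (nat_lit 251) (nat_lit 155))) (XT.nd (nat_lit 78) (nat_lit 0) (nat_lit 0) (XT.lf (nat_lit 0) (nat_lit 69018845970) (nat_lit 304) (nat_lit 276340147969) (nat_lit 76) (nat_lit 74327461767) (nat_lit 19) (nat_lit 5) (nat_lit 23) (nat_lit 5) (nat_lit 20) (nat_lit 5) (nat_lit 255) (nat_lit 251) (nat_lit 154)) (XT.lf (nat_lit 0) (nat_lit 109372543010) (nat_lit 304) (nat_lit 88106765655) (nat_lit 76) (nat_lit 257194814445) (nat_lit 19) (nat_lit 5) (nat_lit 23) (nat_lit 5) (nat_lit 20) (nat_lit 5) (nat_lit 256) (nat_lit 251) (nat_lit 153)))) (XT.nd (nat_lit 156) (nat_lit 228) (nat_lit 0) (XT.nd (nat_lit 78) (nat_lit 0) (nat_lit 0) (XT.lf (nat_lit 0) (nat_lit 140905984228) (nat_lit 304) (nat_lit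 20707863213) (nat_lit 380) (nat_lit 332420910716) (nat_lit 15) (nat_lit 5) (nat_lit 19) (nat_lit 5) (nat_lit 20) (nat_lit 5) (nat_lit 257) (nat_lit 251) (nat_lit 152)) (XT.lf (nat_lit 0) (nat_lit 234076403326) (nat_lit 380) (nat_lit 132215609343) (nat_lit 76) (nat_lit 171149717823) (nat_lit 15) (nat_lit 5) (nat_lit 20) (nat_lit 5) (nat_lit 16) (nat_lit 5) (nat_lit 258) (nat_lit 251) (nat_lit 151))) (XT.nd (nat_lit 78) (nat_lit 76) (nat_lit 0) (XT.lf (nat_lit 0) (nat_lit 132658562179) (nat_lit 152) (nat_lit 191228926917) (nat_lit 228) (nat_lit 262500387951) (nat_lit 13) (nat_lit 5) (nat_lit 15) (nat_lit 5) (nat_lit 16) (nat_lit 5) (nat_lit 259) (nat_lit 251) (nat_lit 150)) (XT.nd (nat_lit 78) (nat_lit 76) (nat_lit 0) (XT.lf (nat_lit 0) (nat_lit 434828524924) (nat_lit 228) (nat_lit 190263293003) (nat_lit 76) (nat_lit 16435384883) (nat_lit 13) (nat_lit 5) (nat_lit 16) (nat_lit 5) (nat_lit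 14) (nat_lit 4) (nat_lit 260) (nat_lit 251) (nat_lit 149)) (XT.lf (nat_lit 0) (nat_lit 113742587487) (nat_lit 76) (nat_lit 462484065338) (nat_lit 152) (nat_lit 126638384368) (nat_lit 12) (nat_lit 5) (nat_lit 13) (nat_lit 5) (nat_lit 14) (nat_lit 4) (nat_lit 261) (nat_lit 251) (nat_lit 148))))))) (XT.nd (nat_lit 624) (nat_lit 152) (nat_lit 0) (XT.nd (nat_lit 312) (nat_lit 228) (nat_lit 0) (XT.nd (nat_lit 156) (nat_lit 0) (nat_lit 0) (XT.nd (nat_lit 78) (nat_lit 228) (nat_lit 0) (XT.lf (nat_lit 0) (nat_lit 484732295316) (nat_lit 76) (nat_lit 264047748207) (nat_lit 152) (nat_lit 23131671897) (nat_lit 12) (nat_lit 5) (nat_lit 13) (nat_lit 5) (nat_lit 14) (nat_lit 4) (nat_lit 262) (nat_lit 251) (nat_lit 147)) (XT.lf (nat_lit 0) (nat_lit 61564887247) (nat_lit 152) (nat_lit 28347622034) (nat_lit 228) (nat_lit 760424842155) (nat_lit 9) (nat_lit 5) (nat_lit 11) (nat_lit 5) (nat_lit 12) (nat_lit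 5) (nat_lit 263) (nat_lit 251) (nat_lit 146))) (XT.nd (nat_lit 78) (nat_lit 0) (nat_lit 0) (XT.lf (nat_lit 0) (nat_lit 243321535402) (nat_lit 228) (nat_lit 455245596145) (nat_lit 76) (nat_lit 237928006177) (nat_lit 9) (nat_lit 5) (nat_lit 12) (nat_lit 5) (nat_lit 10) (nat_lit 4) (nat_lit 264) (nat_lit 251) (nat_lit 145)) (XT.lf (nat_lit 0) (nat_lit 421091773815) (nat_lit 228) (nat_lit 73039630539) (nat_lit 76) (nat_lit 541242708974) (nat_lit 9) (nat_lit 5) (nat_lit 12) (nat_lit 5) (nat_lit 10) (nat_lit 4) (nat_lit 265) (nat_lit 251) (nat_lit 144)))) (XT.nd (nat_lit 156) (nat_lit 152) (nat_lit 0) (XT.nd (nat_lit 78) (nat_lit 0) (nat_lit 0) (XT.lf (nat_lit 0) (nat_lit 402313960850) (nat_lit 76) (nat_lit 239872525636) (nat_lit 152) (nat_lit 504399608124) (nat_lit 8) (nat_lit 5) (nat_lit 9) (nat_lit 5) (nat_lit 10) (nat_lit 4) (nat_lit 266) (nat_lit 251) (nat_lit 143)) (XT.lf (nat_lit 0)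 (nat_lit 902620127581) (nat_lit 152) (nat_lit 319084732073) (nat_lit 0) (nat_lit 51848805302) (nat_lit 8) (nat_lit 5) (nat_lit 10) (nat_lit 4) (nat_lit 8) (nat_lit 4) (nat_lit 267) (nat_lit 251) (nat_lit 142))) (XT.nd (nat_lit 78) (nat_lit 76) (nat_lit 0) (XT.lf (nat_lit 0) (nat_lit 173943934906) (nat_lit 76) (nat_lit 1046800007984) (nat_lit 76) (nat_lit 196028658842) (nat_lit 7) (nat_lit 4) (nat_lit 8) (nat_lit 5) (nat_lit 8) (nat_lit 4) (nat_lit 268) (nat_lit 251) (nat_lit 141)) (XT.lf (nat_lit 0) (nat_lit 22130517618) (nat_lit 152) (nat_lit 803190759620) (nat_lit 76) (nat_lit 753500300487) (nat_lit 6) (nat_lit 5) (nat_lit 8) (nat_lit 5) (nat_lit 7) (nat_lit 4) (nat_lit 269) (nat_lit 251) (nat_lit 140))))) (XT.nd (nat_lit 312) (nat_lit 76) (nat_lit 0) (XT.nd (nat_lit 156) (nat_lit 0) (nat_lit 0) (XT.nd (nat_lit 78) (nat_lit 76) (nat_lit 0) (XT.lf (nat_lit 0) (nat_lit 252943952117)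 (nat_lit 152) (nat_lit 306941895757) (nat_lit 76) (nat_lit 1203891850239) (nat_lit 6) (nat_lit 5) (nat_lit 8) (nat_lit 5) (nat_lit 7) (nat_lit 4) (nat_lit 270) (nat_lit 251) (nat_lit 139)) (XT.lf (nat_lit 0) (nat_lit 289519278634) (nat_lit 76) (nat_lit 240848483741) (nat_lit 152) (nat_lit 1444311220147) (nat_lit 5) (nat_lit 5) (nat_lit 6) (nat_lit 5) (nat_lit 7) (nat_lit 4) (nat_lit 271) (nat_lit 251) (nat_lit 138))) (XT.nd (nat_lit 78) (nat_lit 0) (nat_lit 0) (XT.lf (nat_lit 0) (nat_lit 871433085467) (nat_lit 152) (nat_lit 1210846337361) (nat_lit 0) (nat_lit 131631845613) (nat_lit 5) (nat_lit 5) (nat_lit 7) (nat_lit 4) (nat_lit 5) (nat_lit 4) (nat_lit 272) (nat_lit 251) (nat_lit 137)) (XT.lf (nat_lit 0) (nat_lit 1275127169480) (nat_lit 152) (nat_lit 676854965422) (nat_lit 0) (nat_lit 535325918013) (nat_lit 5) (nat_lit 5) (nat_lit 7) (nat_lit 4) (nat_lit 5) (nat_lit 4) (nat_lit 273)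 (nat_lit 251) (nat_lit 136)))) (XT.nd (nat_lit 156) (nat_lit 0) (nat_lit 0) (XT.nd (nat_lit 78) (nat_lit 76) (nat_lit 0) (XT.lf (nat_lit 0) (nat_lit 1739375354827) (nat_lit 152) (nat_lit 62764908695) (nat_lit 0) (nat_lit 999574093261) (nat_lit 5) (nat_lit 5) (nat_lit 7) (nat_lit 4) (nat_lit 5) (nat_lit 4) (nat_lit 274) (nat_lit 251) (nat_lit 135)) (XT.lf (nat_lit 0) (nat_lit 706320141564) (nat_lit 76) (nat_lit 1596187827444) (nat_lit 76) (nat_lit 856386557097) (nat_lit 4) (nat_lit 4) (nat_lit 5) (nat_lit 5) (nat_lit 5) (nat_lit 4) (nat_lit 275) (nat_lit 251) (nat_lit 134))) (XT.nd (nat_lit 78) (nat_lit 0) (nat_lit 0) (XT.lf (nat_lit 0) (nat_lit 1597821851783) (nat_lit 76) (nat_lit 1355569507247) (nat_lit 76) (nat_lit 615768229263) (nat_lit 4) (nat_lit 4) (nat_lit 5) (nat_lit 5) (nat_lit 5) (nat_lit 4) (nat_lit 276) (nat_lit 251) (nat_lit 133)) (XT.nd (nat_lit 78) (nat_lit 0) (nat_lit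 0) (XT.lf (nat_lit 0) (nat_lit 2623048803375) (nat_lit 76) (nat_lit 1078858446141) (nat_lit 76) (nat_lit 339057161518) (nat_lit 4) (nat_lit 4) (nat_lit 5) (nat_lit 5) (nat_lit 5) (nat_lit 4) (nat_lit 277) (nat_lit 251) (nat_lit 132)) (XT.lf (nat_lit 0) (nat_lit 3802059784526) (nat_lit 76) (nat_lit 760640732063) (nat_lit 76) (nat_lit 20839441666) (nat_lit 4) (nat_lit 4) (nat_lit 5) (nat_lit 5) (nat_lit 5) (nat_lit 4) (nat_lit 278) (nat_lit 251) (nat_lit 131))))))))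
noncomputable def xc107 : XT := (XT.nd (nat_lit 1404) (nat_lit 0) (nat_lit 0) (XT.nd (nat_lit 624) (nat_lit 76) (nat_lit 0) (XT.nd (nat_lit 312) (nat_lit 0) (nat_lit 0) (XT.nd (nat_lit 156) (nat_lit 0) (nat_lit 0) (XT.nd (nat_lit 78) (nat_lit 76) (nat_lit 0) (XT.lf (nat_lit 0) (nat_lit 314386767763) (nat_lit 152) (nat_lit 63869744725) (nat_lit 76) (nat_lit 4827101779853) (nat_lit 3) (nat_lit 5) (nat_lit 5) (nat_lit 5) (nat_lit 4) (nat_lit 4) (nat_lit 279) (nat_lit 251) (nat_lit 130)) (XT.lf (nat_lit 0) (nat_lit 736565614834) (nat_lit 152) (nat_lit 5084654431587) (nat_lit 0) (nat_lit 93260136761) (nat_lit 2) (nat_lit 5) (nat_lit 4) (nat_lit 4) (nat_lit 2) (nat_lit 4) (nat_lit 280) (nat_lit 251) (nat_lit 129))) (XT.nd (nat_lit 78) (nat_lit 0) (nat_lit 0) (XT.lf (nat_lit 0) (nat_lit 1243581127284) (nat_lit 152) (nat_lit 4882887108717) (nat_lit 0) (nat_lit 600275645910) (nat_lit 2) (nat_lit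 5) (nat_lit 4) (nat_lit 4) (nat_lit 2) (nat_lit 4) (nat_lit 281) (nat_lit 251) (nat_lit 128)) (XT.lf (nat_lit 0) (nat_lit 1826648961871) (nat_lit 152) (nat_lit 4650854696671) (nat_lit 0) (nat_lit 1183343477626) (nat_lit 2) (nat_lit 5) (nat_lit 4) (nat_lit 4) (nat_lit 2) (nat_lit 4) (nat_lit 282) (nat_lit 251) (nat_lit 127)))) (XT.nd (nat_lit 156) (nat_lit 0) (nat_lit 0) (XT.nd (nat_lit 78) (nat_lit 0) (nat_lit 0) (XT.lf (nat_lit 0) (nat_lit 2497176967533) (nat_lit 152) (nat_lit 4384017430863) (nat_lit 0) (nat_lit 1853871480793) (nat_lit 2) (nat_lit 5) (nat_lit 4) (nat_lit 4) (nat_lit 2) (nat_lit 4) (nat_lit 283) (nat_lit 251) (nat_lit 126)) (XT.lf (nat_lit 0) (nat_lit 3268284170469) (nat_lit 152) (nat_lit 4077154582181) (nat_lit 0) (nat_lit 2624978681557) (nat_lit 2) (nat_lit 5) (nat_lit 4) (nat_lit 4) (nat_lit 2) (nat_lit 4) (nat_lit 284) (nat_lit 251) (nat_lit 125))) (XT.nd (nat_lit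 78) (nat_lit 0) (nat_lit 0) (XT.lf (nat_lit 0) (nat_lit 4155057450734) (nat_lit 152) (nat_lit 3724262312281) (nat_lit 0) (nat_lit 3511751959935) (nat_lit 2) (nat_lit 5) (nat_lit 4) (nat_lit 4) (nat_lit 2) (nat_lit 4) (nat_lit 285) (nat_lit 251) (nat_lit 124)) (XT.lf (nat_lit 0) (nat_lit 5174846720334) (nat_lit 152) (nat_lit 3318436207186) (nat_lit 0) (nat_lit 4531541227894) (nat_lit 2) (nat_lit 5) (nat_lit 4) (nat_lit 4) (nat_lit 2) (nat_lit 4) (nat_lit 286) (nat_lit 251) (nat_lit 123))))) (XT.nd (nat_lit 390) (nat_lit 76) (nat_lit 0) (XT.nd (nat_lit 156) (nat_lit 0) (nat_lit 0) (XT.nd (nat_lit 78) (nat_lit 0) (nat_lit 0) (XT.lf (nat_lit 0) (nat_lit 6347604378023) (nat_lit 152) (nat_lit 2851736190927) (nat_lit 0) (nat_lit 5704298884156) (nat_lit 2) (nat_lit 5) (nat_lit 4) (nat_lit 4) (nat_lit 2) (nat_lit 4) (nat_lit 287) (nat_lit 251) (nat_lit 122)) (XT.lf (nat_lit 0) (nat_lit 7696275682321)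 (nat_lit 152) (nat_lit 2315031176230) (nat_lit 0) (nat_lit 7052970187212) (nat_lit 2) (nat_lit 5) (nat_lit 4) (nat_lit 4) (nat_lit 2) (nat_lit 4) (nat_lit 288) (nat_lit 251) (nat_lit 121))) (XT.nd (nat_lit 78) (nat_lit 0) (nat_lit 0) (XT.lf (nat_lit 0) (nat_lit 9247247680484) (nat_lit 152) (nat_lit 1697820412806) (nat_lit 0) (nat_lit 8603942184297) (nat_lit 2) (nat_lit 5) (nat_lit 4) (nat_lit 4) (nat_lit 2) (nat_lit 4) (nat_lit 289) (nat_lit 251) (nat_lit 120)) (XT.lf (nat_lit 0) (nat_lit 11030865476826) (nat_lit 152) (nat_lit 988028037894) (nat_lit 0) (nat_lit 10387559979700) (nat_lit 2) (nat_lit 5) (nat_lit 4) (nat_lit 4) (nat_lit 2) (nat_lit 4) (nat_lit 290) (nat_lit 251) (nat_lit 119)))) (XT.nd (nat_lit 156) (nat_lit 0) (nat_lit 0) (XT.nd (nat_lit 78) (nat_lit 0) (nat_lit 0) (XT.lf (nat_lit 0) (nat_lit 841883930334) (nat_lit 76) (nat_lit 14633837162121) (nat_lit 76) (nat_lit 13990531663469)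 (nat_lit 1) (nat_lit 4) (nat_lit 2) (nat_lit 5) (nat_lit 2) (nat_lit 4) (nat_lit 292) (nat_lit 251) (nat_lit 117)) (XT.lf (nat_lit 0) (nat_lit 2026886525917) (nat_lit 76) (nat_lit 16210562708869) (nat_lit 76) (nat_lit 15567257209600) (nat_lit 1) (nat_lit 4) (nat_lit 2) (nat_lit 5) (nat_lit 2) (nat_lit 4) (nat_lit 293) (nat_lit 251) (nat_lit 116))) (XT.nd (nat_lit 78) (nat_lit 0) (nat_lit 0) (XT.lf (nat_lit 0) (nat_lit 3389639508939) (nat_lit 76) (nat_lit 18023797088565) (nat_lit 76) (nat_lit 17380491588759) (nat_lit 1) (nat_lit 4) (nat_lit 2) (nat_lit 5) (nat_lit 2) (nat_lit 4) (nat_lit 294) (nat_lit 251) (nat_lit 115)) (XT.nd (nat_lit 78) (nat_lit 0) (nat_lit 0) (XT.lf (nat_lit 0) (nat_lit 4956805437764) (nat_lit 76) (nat_lit 20109016626029) (nat_lit 76) (nat_lit 19465711125757) (nat_lit 1) (nat_lit 4) (nat_lit 2) (nat_lit 5) (nat_lit 2) (nat_lit 4) (nat_lit 295) (nat_lit 251) (nat_lit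 114)) (XT.lf (nat_lit 0) (nat_lit 6759046254477) (nat_lit 76) (nat_lit 22507019094820) (nat_lit 76) (nat_lit 21863713594142) (nat_lit 1) (nat_lit 4) (nat_lit 2) (nat_lit 5) (nat_lit 2) (nat_lit 4) (nat_lit 296) (nat_lit 251) (nat_lit 113))))))) (XT.nd (nat_lit 31434) (nat_lit 0) (nat_lit 532) (XT.nd (nat_lit 31122) (nat_lit 0) (nat_lit 1064) (XT.nd (nat_lit 30966) (nat_lit 0) (nat_lit 1216) (XT.nd (nat_lit 30888) (nat_lit 0) (nat_lit 1216) (XT.lf (nat_lit 0) (nat_lit 8831623192448) (nat_lit 76) (nat_lit 25264721934545) (nat_lit 76) (nat_lit 24621416433515) (nat_lit 1) (nat_lit 4) (nat_lit 2) (nat_lit 5) (nat_lit 2) (nat_lit 4) (nat_lit 297) (nat_lit 251) (nat_lit 112)) (XT.lf (nat_lit 0) (nat_lit 5416432473) (nat_lit 380) (nat_lit 86835361984) (nat_lit 380) (nat_lit 86835361984) (nat_lit 17) (nat_lit 3) (nat_lit 22) (nat_lit 3) (nat_lit 22) (nat_lit 5) (nat_lit 252) (nat_lit 252) (nat_lit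 156))) (XT.nd (nat_lit 78) (nat_lit 0) (nat_lit 76) (XT.lf (nat_lit 0) (nat_lit 11645782954) (nat_lit 380) (nat_lit 16965577599) (nat_lit 380) (nat_lit 356425954420) (nat_lit 17) (nat_lit 3) (nat_lit 22) (nat_lit 3) (nat_lit 22) (nat_lit 5) (nat_lit 253) (nat_lit 252) (nat_lit 155)) (XT.lf (nat_lit 0) (nat_lit 26592848836) (nat_lit 304) (nat_lit 242209982811) (nat_lit 380) (nat_lit 145025104811) (nat_lit 18) (nat_lit 5) (nat_lit 22) (nat_lit 5) (nat_lit 23) (nat_lit 5) (nat_lit 254) (nat_lit 252) (nat_lit 154)))) (XT.nd (nat_lit 156) (nat_lit 228) (nat_lit 0) (XT.nd (nat_lit 78) (nat_lit 0) (nat_lit 76) (XT.lf (nat_lit 0) (nat_lit 46073416817) (nat_lit 304) (nat_lit 57813144570) (nat_lit 380) (nat_lit 342706873974) (nat_lit 18) (nat_lit 5) (nat_lit 22) (nat_lit 5) (nat_lit 23) (nat_lit 5) (nat_lit 255) (nat_lit 252) (nat_lit 153)) (XT.lf (nat_lit 0) (nat_lit 79372356475) (nat_lit 304)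 (nat_lit 317790471625) (nat_lit 76) (nat_lit 85476488485) (nat_lit 19) (nat_lit 5) (nat_lit 23) (nat_lit 5) (nat_lit 20) (nat_lit 5) (nat_lit 256) (nat_lit 252) (nat_lit 152))) (XT.nd (nat_lit 78) (nat_lit 304) (nat_lit 0) (XT.lf (nat_lit 0) (nat_lit 125779018904) (nat_lit 304) (nat_lit 101322173077) (nat_lit 76) (nat_lit 295773956137) (nat_lit 19) (nat_lit 5) (nat_lit 23) (nat_lit 5) (nat_lit 20) (nat_lit 5) (nat_lit 257) (nat_lit 252) (nat_lit 151)) (XT.lf (nat_lit 0) (nat_lit 162042461678) (nat_lit 304) (nat_lit 23814003795) (nat_lit 380) (nat_lit 382283421538) (nat_lit 15) (nat_lit 5) (nat_lit 19) (nat_lit 5) (nat_lit 20) (nat_lit 5) (nat_lit 258) (nat_lit 252) (nat_lit 150))))) (XT.nd (nat_lit 312) (nat_lit 304) (nat_lit 0) (XT.nd (nat_lit 156) (nat_lit 76) (nat_lit 0) (XT.nd (nat_lit 78) (nat_lit 152) (nat_lit 0) (XT.lf (nat_lit 0) (nat_lit 269188335588) (nat_lit 380) (nat_lit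 152047374158) (nat_lit 76) (nat_lit 196822206310) (nat_lit 15) (nat_lit 5) (nat_lit 20) (nat_lit 5) (nat_lit 16) (nat_lit 5) (nat_lit 259) (nat_lit 252) (nat_lit 149)) (XT.lf (nat_lit 0) (nat_lit 152557896884) (nat_lit 152) (nat_lit 219913148595) (nat_lit 228) (nat_lit 301874945350) (nat_lit 13) (nat_lit 5) (nat_lit 15) (nat_lit 5) (nat_lit 16) (nat_lit 5) (nat_lit 260) (nat_lit 252) (nat_lit 148))) (XT.nd (nat_lit 78) (nat_lit 76) (nat_lit 0) (XT.lf (nat_lit 0) (nat_lit 500053184425) (nat_lit 228) (nat_lit 218802253656) (nat_lit 76) (nat_lit 18900785582) (nat_lit 13) (nat_lit 5) (nat_lit 16) (nat_lit 5) (nat_lit 14) (nat_lit 4) (nat_lit 261) (nat_lit 252) (nat_lit 147)) (XT.lf (nat_lit 0) (nat_lit 130804484667) (nat_lit 76) (nat_lit 531856518259) (nat_lit 152) (nat_lit 145633734885) (nat_lit 12) (nat_lit 5) (nat_lit 13) (nat_lit 5) (nat_lit 14) (nat_lit 4) (nat_lit 262) (nat_lit 252)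 (nat_lit 146)))) (XT.nd (nat_lit 156) (nat_lit 76) (nat_lit 0) (XT.nd (nat_lit 78) (nat_lit 228) (nat_lit 0) (XT.lf (nat_lit 0) (nat_lit 557442582272) (nat_lit 76) (nat_lit 303654774021) (nat_lit 152) (nat_lit 26601068648) (nat_lit 12) (nat_lit 5) (nat_lit 13) (nat_lit 5) (nat_lit 14) (nat_lit 4) (nat_lit 263) (nat_lit 252) (nat_lit 145)) (XT.lf (nat_lit 0) (nat_lit 70800074498) (nat_lit 152) (nat_lit 32599610429) (nat_lit 228) (nat_lit 874488222934) (nat_lit 9) (nat_lit 5) (nat_lit 11) (nat_lit 5) (nat_lit 12) (nat_lit 5) (nat_lit 264) (nat_lit 252) (nat_lit 144))) (XT.nd (nat_lit 78) (nat_lit 76) (nat_lit 0) (XT.lf (nat_lit 0) (nat_lit 279820031510) (nat_lit 228) (nat_lit 523532005966) (nat_lit 76) (nat_lit 273617329816) (nat_lit 9) (nat_lit 5) (nat_lit 12) (nat_lit 5) (nat_lit 10) (nat_lit 4) (nat_lit 265) (nat_lit 252) (nat_lit 143)) (XT.nd (nat_lit 78) (nat_lit 76) (nat_lit 0)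 (XT.lf (nat_lit 0) (nat_lit 484255771016) (nat_lit 228) (nat_lit 83995201554) (nat_lit 76) (nat_lit 622429222026) (nat_lit 9) (nat_lit 5) (nat_lit 12) (nat_lit 5) (nat_lit 10) (nat_lit 4) (nat_lit 266) (nat_lit 252) (nat_lit 142)) (XT.lf (nat_lit 0) (nat_lit 462661411563) (nat_lit 76) (nat_lit 275853263643) (nat_lit 152) (nat_lit 580059300312) (nat_lit 8) (nat_lit 5) (nat_lit 9) (nat_lit 5) (nat_lit 10) (nat_lit 4) (nat_lit 267) (nat_lit 252) (nat_lit 141))))))))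
noncomputable def xc108 : XT := (XT.nd (nat_lit 1326) (nat_lit 76) (nat_lit 0) (XT.nd (nat_lit 624) (nat_lit 228) (nat_lit 0) (XT.nd (nat_lit 312) (nat_lit 76) (nat_lit 0) (XT.nd (nat_lit 156) (nat_lit 76) (nat_lit 0) (XT.nd (nat_lit 78) (nat_lit 76) (nat_lit 0) (XT.lf (nat_lit 0) (nat_lit 1038013339396) (nat_lit 152) (nat_lit 366947107938) (nat_lit 0) (nat_lit 59626237662) (nat_lit 8) (nat_lit 5) (nat_lit 10) (nat_lit 4) (nat_lit 8) (nat_lit 4) (nat_lit 268) (nat_lit 252) (nat_lit 140)) (XT.lf (nat_lit 0) (nat_lit 200035843909) (nat_lit 76) (nat_lit 1203819871159) (nat_lit 76) (nat_lit 225432749114) (nat_lit 7) (nat_lit 4) (nat_lit 8) (nat_lit 5) (nat_lit 8) (nat_lit 4) (nat_lit 269) (nat_lit 252) (nat_lit 139))) (XT.nd (nat_lit 78) (nat_lit 0) (nat_lit 0) (XT.lf (nat_lit 0) (nat_lit 25450260467) (nat_lit 152) (nat_lit 923669079702) (nat_lit 76) (nat_lit 866525448907) (nat_lit 6) (nat_lit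 5) (nat_lit 8) (nat_lit 5) (nat_lit 7) (nat_lit 4) (nat_lit 270) (nat_lit 252) (nat_lit 138)) (XT.lf (nat_lit 0) (nat_lit 290885688593) (nat_lit 152) (nat_lit 352982924590) (nat_lit 76) (nat_lit 1384475717641) (nat_lit 6) (nat_lit 5) (nat_lit 8) (nat_lit 5) (nat_lit 7) (nat_lit 4) (nat_lit 271) (nat_lit 252) (nat_lit 137)))) (XT.nd (nat_lit 156) (nat_lit 0) (nat_lit 0) (XT.nd (nat_lit 78) (nat_lit 0) (nat_lit 0) (XT.lf (nat_lit 0) (nat_lit 332947414346) (nat_lit 76) (nat_lit 276975647405) (nat_lit 152) (nat_lit 1660957747498) (nat_lit 5) (nat_lit 5) (nat_lit 6) (nat_lit 5) (nat_lit 7) (nat_lit 4) (nat_lit 272) (nat_lit 252) (nat_lit 136)) (XT.lf (nat_lit 0) (nat_lit 1002148169617) (nat_lit 152) (nat_lit 1392473061827) (nat_lit 0) (nat_lit 151376708717) (nat_lit 5) (nat_lit 5) (nat_lit 7) (nat_lit 4) (nat_lit 5) (nat_lit 4) (nat_lit 273) (nat_lit 252) (nat_lit 135))) (XT.nd (nat_lit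 78) (nat_lit 0) (nat_lit 0) (XT.lf (nat_lit 0) (nat_lit 1466396350407) (nat_lit 152) (nat_lit 778383013594) (nat_lit 0) (nat_lit 615624880726) (nat_lit 5) (nat_lit 5) (nat_lit 7) (nat_lit 4) (nat_lit 5) (nat_lit 4) (nat_lit 274) (nat_lit 252) (nat_lit 134)) (XT.lf (nat_lit 0) (nat_lit 2000281749794) (nat_lit 152) (nat_lit 72179474006) (nat_lit 0) (nat_lit 1149510272477) (nat_lit 5) (nat_lit 5) (nat_lit 7) (nat_lit 4) (nat_lit 5) (nat_lit 4) (nat_lit 275) (nat_lit 252) (nat_lit 133))))) (XT.nd (nat_lit 312) (nat_lit 152) (nat_lit 0) (XT.nd (nat_lit 156) (nat_lit 0) (nat_lit 0) (XT.nd (nat_lit 78) (nat_lit 0) (nat_lit 0) (XT.lf (nat_lit 0) (nat_lit 812268326019) (nat_lit 76) (nat_lit 1835615924875) (nat_lit 76) (nat_lit 984844440919) (nat_lit 4) (nat_lit 4) (nat_lit 5) (nat_lit 5) (nat_lit 5) (nat_lit 4) (nat_lit 276) (nat_lit 252) (nat_lit 132)) (XT.lf (nat_lit 0) (nat_lit 1837495271481)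 (nat_lit 76) (nat_lit 1558904866650) (nat_lit 76) (nat_lit 708133376920) (nat_lit 4) (nat_lit 4) (nat_lit 5) (nat_lit 5) (nat_lit 5) (nat_lit 4) (nat_lit 277) (nat_lit 252) (nat_lit 131))) (XT.nd (nat_lit 78) (nat_lit 0) (nat_lit 0) (XT.lf (nat_lit 0) (nat_lit 3016506247300) (nat_lit 76) (nat_lit 1240687155077) (nat_lit 76) (nat_lit 389915660326) (nat_lit 4) (nat_lit 4) (nat_lit 5) (nat_lit 5) (nat_lit 5) (nat_lit 4) (nat_lit 278) (nat_lit 252) (nat_lit 130)) (XT.lf (nat_lit 0) (nat_lit 4372368859525) (nat_lit 76) (nat_lit 874736791450) (nat_lit 76) (nat_lit 23965292333) (nat_lit 4) (nat_lit 4) (nat_lit 5) (nat_lit 5) (nat_lit 5) (nat_lit 4) (nat_lit 279) (nat_lit 252) (nat_lit 129)))) (XT.nd (nat_lit 156) (nat_lit 0) (nat_lit 0) (XT.nd (nat_lit 78) (nat_lit 76) (nat_lit 0) (XT.lf (nat_lit 0) (nat_lit 361544834879) (nat_lit 152) (nat_lit 73450107922) (nat_lit 76) (nat_lit 5551167085486)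 (nat_lit 3) (nat_lit 5) (nat_lit 5) (nat_lit 5) (nat_lit 4) (nat_lit 4) (nat_lit 280) (nat_lit 252) (nat_lit 128)) (XT.lf (nat_lit 0) (nat_lit 847050507990) (nat_lit 152) (nat_lit 5847352496693) (nat_lit 0) (nat_lit 107249198238) (nat_lit 2) (nat_lit 5) (nat_lit 4) (nat_lit 4) (nat_lit 2) (nat_lit 4) (nat_lit 281) (nat_lit 252) (nat_lit 127))) (XT.nd (nat_lit 78) (nat_lit 0) (nat_lit 0) (XT.lf (nat_lit 0) (nat_lit 1430118340664) (nat_lit 152) (nat_lit 5615320088389) (nat_lit 0) (nat_lit 690317028416) (nat_lit 2) (nat_lit 5) (nat_lit 4) (nat_lit 4) (nat_lit 2) (nat_lit 4) (nat_lit 282) (nat_lit 252) (nat_lit 126)) (XT.nd (nat_lit 78) (nat_lit 0) (nat_lit 0) (XT.lf (nat_lit 0) (nat_lit 2100646344663) (nat_lit 152) (nat_lit 5348482825836) (nat_lit 0) (nat_lit 1360845030244) (nat_lit 2) (nat_lit 5) (nat_lit 4) (nat_lit 4) (nat_lit 2) (nat_lit 4) (nat_lit 283) (nat_lit 252) (nat_lit 125))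 (XT.lf (nat_lit 0) (nat_lit 2871753546151) (nat_lit 152) (nat_lit 5041619979983) (nat_lit 0) (nat_lit 2131952229845) (nat_lit 2) (nat_lit 5) (nat_lit 4) (nat_lit 4) (nat_lit 2) (nat_lit 4) (nat_lit 284) (nat_lit 252) (nat_lit 124))))))) (XT.nd (nat_lit 624) (nat_lit 76) (nat_lit 0) (XT.nd (nat_lit 312) (nat_lit 0) (nat_lit 0) (XT.nd (nat_lit 156) (nat_lit 0) (nat_lit 0) (XT.nd (nat_lit 78) (nat_lit 0) (nat_lit 0) (XT.lf (nat_lit 0) (nat_lit 3758526825159) (nat_lit 152) (nat_lit 4688727712544) (nat_lit 0) (nat_lit 3018725507211) (nat_lit 2) (nat_lit 5) (nat_lit 4) (nat_lit 4) (nat_lit 2) (nat_lit 4) (nat_lit 285) (nat_lit 252) (nat_lit 123)) (XT.lf (nat_lit 0) (nat_lit 4778316093665) (nat_lit 152) (nat_lit 4282901609589) (nat_lit 0) (nat_lit 4038514774291) (nat_lit 2) (nat_lit 5) (nat_lit 4) (nat_lit 4) (nat_lit 2) (nat_lit 4) (nat_lit 286) (nat_lit 252) (nat_lit 122))) (XT.nd (nat_lit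 78) (nat_lit 0) (nat_lit 0) (XT.lf (nat_lit 0) (nat_lit 5951073750403) (nat_lit 152) (nat_lit 3816201595190) (nat_lit 0) (nat_lit 5211272429787) (nat_lit 2) (nat_lit 5) (nat_lit 4) (nat_lit 4) (nat_lit 2) (nat_lit 4) (nat_lit 287) (nat_lit 252) (nat_lit 121)) (XT.lf (nat_lit 0) (nat_lit 7299745053873) (nat_lit 152) (nat_lit 3279496582111) (nat_lit 0) (nat_lit 6559943732179) (nat_lit 2) (nat_lit 5) (nat_lit 4) (nat_lit 4) (nat_lit 2) (nat_lit 4) (nat_lit 288) (nat_lit 252) (nat_lit 120)))) (XT.nd (nat_lit 156) (nat_lit 0) (nat_lit 0) (XT.nd (nat_lit 78) (nat_lit 0) (nat_lit 0) (XT.lf (nat_lit 0) (nat_lit 8850717051318) (nat_lit 152) (nat_lit 2662285820095) (nat_lit 0) (nat_lit 8110915728685) (nat_lit 2) (nat_lit 5) (nat_lit 4) (nat_lit 4) (nat_lit 2) (nat_lit 4) (nat_lit 289) (nat_lit 252) (nat_lit 119)) (XT.lf (nat_lit 0) (nat_lit 10634334847035) (nat_lit 152) (nat_lit 1952493446406)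 (nat_lit 0) (nat_lit 9894533523585) (nat_lit 2) (nat_lit 5) (nat_lit 4) (nat_lit 4) (nat_lit 2) (nat_lit 4) (nat_lit 290) (nat_lit 252) (nat_lit 118))) (XT.nd (nat_lit 78) (nat_lit 0) (nat_lit 0) (XT.lf (nat_lit 0) (nat_lit 12685495310940) (nat_lit 152) (nat_lit 1136232218951) (nat_lit 0) (nat_lit 11945693986781) (nat_lit 2) (nat_lit 5) (nat_lit 4) (nat_lit 4) (nat_lit 2) (nat_lit 4) (nat_lit 291) (nat_lit 252) (nat_lit 117)) (XT.lf (nat_lit 0) (nat_lit 15044329843414) (nat_lit 152) (nat_lit 197531809367) (nat_lit 0) (nat_lit 14304528518638) (nat_lit 2) (nat_lit 5) (nat_lit 4) (nat_lit 4) (nat_lit 2) (nat_lit 4) (nat_lit 292) (nat_lit 252) (nat_lit 116))))) (XT.nd (nat_lit 312) (nat_lit 0) (nat_lit 0) (XT.nd (nat_lit 156) (nat_lit 0) (nat_lit 0) (XT.nd (nat_lit 78) (nat_lit 0) (nat_lit 0) (XT.lf (nat_lit 0) (nat_lit 968166540326) (nat_lit 76) (nat_lit 16828912726363) (nat_lit 76) (nat_lit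 16089111401051) (nat_lit 1) (nat_lit 4) (nat_lit 2) (nat_lit 5) (nat_lit 2) (nat_lit 4) (nat_lit 293) (nat_lit 252) (nat_lit 115)) (XT.lf (nat_lit 0) (nat_lit 2330919522580) (nat_lit 76) (nat_lit 18642147106438) (nat_lit 76) (nat_lit 17902345780659) (nat_lit 1) (nat_lit 4) (nat_lit 2) (nat_lit 5) (nat_lit 2) (nat_lit 4) (nat_lit 294) (nat_lit 252) (nat_lit 114))) (XT.nd (nat_lit 78) (nat_lit 0) (nat_lit 0) (XT.lf (nat_lit 0) (nat_lit 3898085450737) (nat_lit 76) (nat_lit 20727366644231) (nat_lit 76) (nat_lit 19987565318046) (nat_lit 1) (nat_lit 4) (nat_lit 2) (nat_lit 5) (nat_lit 2) (nat_lit 4) (nat_lit 295) (nat_lit 252) (nat_lit 113)) (XT.lf (nat_lit 0) (nat_lit 5700326266869) (nat_lit 76) (nat_lit 23125369113308) (nat_lit 76) (nat_lit 22385567786770) (nat_lit 1) (nat_lit 4) (nat_lit 2) (nat_lit 5) (nat_lit 2) (nat_lit 4) (nat_lit 296) (nat_lit 252) (nat_lit 112)))) (XT.nd (nat_lit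 31044) (nat_lit 0) (nat_lit 1216) (XT.nd (nat_lit 30966) (nat_lit 0) (nat_lit 1216) (XT.lf (nat_lit 0) (nat_lit 7772903204336) (nat_lit 76) (nat_lit 25883071953282) (nat_lit 76) (nat_lit 25143270626438) (nat_lit 1) (nat_lit 4) (nat_lit 2) (nat_lit 5) (nat_lit 2) (nat_lit 4) (nat_lit 297) (nat_lit 252) (nat_lit 111)) (XT.lf (nat_lit 0) (nat_lit 6229331717) (nat_lit 380) (nat_lit 99860414885) (nat_lit 380) (nat_lit 99860414885) (nat_lit 17) (nat_lit 3) (nat_lit 22) (nat_lit 3) (nat_lit 22) (nat_lit 5) (nat_lit 253) (nat_lit 253) (nat_lit 154))) (XT.nd (nat_lit 78) (nat_lit 0) (nat_lit 76) (XT.lf (nat_lit 0) (nat_lit 13393405828) (nat_lit 380) (nat_lit 19509977028) (nat_lit 380) (nat_lit 409889410373) (nat_lit 17) (nat_lit 3) (nat_lit 22) (nat_lit 3) (nat_lit 22) (nat_lit 5) (nat_lit 254) (nat_lit 253) (nat_lit 153)) (XT.nd (nat_lit 78) (nat_lit 0) (nat_lit 0) (XT.lf (nat_lit 0) (nat_lit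 30582439704) (nat_lit 304) (nat_lit 278540946198) (nat_lit 380) (nat_lit 166778636559) (nat_lit 18) (nat_lit 5) (nat_lit 22) (nat_lit 5) (nat_lit 23) (nat_lit 5) (nat_lit 255) (nat_lit 253) (nat_lit 152)) (XT.lf (nat_lit 0) (nat_lit 52985006333) (nat_lit 304) (nat_lit 66484651877) (nat_lit 380) (nat_lit 394112701614) (nat_lit 18) (nat_lit 5) (nat_lit 22) (nat_lit 5) (nat_lit 23) (nat_lit 5) (nat_lit 256) (nat_lit 253) (nat_lit 151))))))))
noncomputable def xc109 : XT := (XT.nd (nat_lit 1326) (nat_lit 228) (nat_lit 0) (XT.nd (nat_lit 624) (nat_lit 532) (nat_lit 0) (XT.nd (nat_lit 312) (nat_lit 228) (nat_lit 0) (XT.nd (nat_lit 156) (nat_lit 304) (nat_lit 0) (XT.nd (nat_lit 78) (nat_lit 0) (nat_lit 0) (XT.lf (nat_lit 0) (nat_lit 91278726853) (nat_lit 304) (nat_lit 365458514172) (nat_lit 76) (nat_lit 98297891779) (nat_lit 19) (nat_lit 5) (nat_lit 23) (nat_lit 5) (nat_lit 20) (nat_lit 5)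 (nat_lit 257) (nat_lit 253) (nat_lit 150)) (XT.lf (nat_lit 0) (nat_lit 144646321225) (nat_lit 304) (nat_lit 116520039737) (nat_lit 76) (nat_lit 340139988706) (nat_lit 19) (nat_lit 5) (nat_lit 23) (nat_lit 5) (nat_lit 20) (nat_lit 5) (nat_lit 258) (nat_lit 253) (nat_lit 149))) (XT.nd (nat_lit 78) (nat_lit 0) (nat_lit 0) (XT.lf (nat_lit 0) (nat_lit 186349269354) (nat_lit 304) (nat_lit 27386074951) (nat_lit 380) (nat_lit 439625461585) (nat_lit 15) (nat_lit 5) (nat_lit 19) (nat_lit 5) (nat_lit 20) (nat_lit 5) (nat_lit 259) (nat_lit 253) (nat_lit 148)) (XT.lf (nat_lit 0) (nat_lit 309566942646) (nat_lit 380) (nat_lit 174854044299) (nat_lit 76) (nat_lit 226345560557) (nat_lit 15) (nat_lit 5) (nat_lit 20) (nat_lit 5) (nat_lit 16) (nat_lit 5) (nat_lit 260) (nat_lit 253) (nat_lit 147)))) (XT.nd (nat_lit 156) (nat_lit 76) (nat_lit 0) (XT.nd (nat_lit 78) (nat_lit 0) (nat_lit 0) (XT.lf (nat_lit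 0) (nat_lit 175441997582) (nat_lit 152) (nat_lit 252900032144) (nat_lit 228) (nat_lit 347155808482) (nat_lit 13) (nat_lit 5) (nat_lit 15) (nat_lit 5) (nat_lit 16) (nat_lit 5) (nat_lit 261) (nat_lit 253) (nat_lit 146)) (XT.lf (nat_lit 0) (nat_lit 575061450001) (nat_lit 228) (nat_lit 251622188454) (nat_lit 76) (nat_lit 21735973715) (nat_lit 13) (nat_lit 5) (nat_lit 16) (nat_lit 5) (nat_lit 14) (nat_lit 4) (nat_lit 262) (nat_lit 253) (nat_lit 145))) (XT.nd (nat_lit 78) (nat_lit 0) (nat_lit 0) (XT.lf (nat_lit 0) (nat_lit 150425542288) (nat_lit 76) (nat_lit 611634877374) (nat_lit 152) (nat_lit 167478487263) (nat_lit 12) (nat_lit 5) (nat_lit 13) (nat_lit 5) (nat_lit 14) (nat_lit 4) (nat_lit 263) (nat_lit 253) (nat_lit 144)) (XT.lf (nat_lit 0) (nat_lit 641059304327) (nat_lit 76) (nat_lit 349202886973) (nat_lit 152) (nat_lit 30590961246) (nat_lit 12) (nat_lit 5) (nat_lit 13) (nat_lit 5) (nat_lit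 14) (nat_lit 4) (nat_lit 264) (nat_lit 253) (nat_lit 143))))) (XT.nd (nat_lit 312) (nat_lit 228) (nat_lit 0) (XT.nd (nat_lit 156) (nat_lit 76) (nat_lit 0) (XT.nd (nat_lit 78) (nat_lit 0) (nat_lit 0) (XT.lf (nat_lit 0) (nat_lit 81420429086) (nat_lit 152) (nat_lit 37489434859) (nat_lit 228) (nat_lit 1005661195093) (nat_lit 9) (nat_lit 5) (nat_lit 11) (nat_lit 5) (nat_lit 12) (nat_lit 5) (nat_lit 265) (nat_lit 253) (nat_lit 142)) (XT.lf (nat_lit 0) (nat_lit 321793237218) (nat_lit 228) (nat_lit 602061482021) (nat_lit 76) (nat_lit 314660022077) (nat_lit 9) (nat_lit 5) (nat_lit 12) (nat_lit 5) (nat_lit 10) (nat_lit 4) (nat_lit 266) (nat_lit 253) (nat_lit 141))) (XT.nd (nat_lit 78) (nat_lit 76) (nat_lit 0) (XT.lf (nat_lit 0) (nat_lit 556894311435) (nat_lit 228) (nat_lit 96594199318) (nat_lit 76) (nat_lit 715793686016) (nat_lit 9) (nat_lit 5) (nat_lit 12) (nat_lit 5) (nat_lit 10) (nat_lit 4)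 (nat_lit 267) (nat_lit 253) (nat_lit 140)) (XT.lf (nat_lit 0) (nat_lit 532060892928) (nat_lit 76) (nat_lit 317231146695) (nat_lit 152) (nat_lit 667068007055) (nat_lit 8) (nat_lit 5) (nat_lit 9) (nat_lit 5) (nat_lit 10) (nat_lit 4) (nat_lit 268) (nat_lit 253) (nat_lit 139)))) (XT.nd (nat_lit 156) (nat_lit 152) (nat_lit 0) (XT.nd (nat_lit 78) (nat_lit 76) (nat_lit 0) (XT.lf (nat_lit 0) (nat_lit 1193715485997) (nat_lit 152) (nat_lit 421988921618) (nat_lit 0) (nat_lit 68570257671) (nat_lit 8) (nat_lit 5) (nat_lit 10) (nat_lit 4) (nat_lit 8) (nat_lit 4) (nat_lit 269) (nat_lit 253) (nat_lit 138)) (XT.lf (nat_lit 0) (nat_lit 230041461529) (nat_lit 76) (nat_lit 1384392747469) (nat_lit 76) (nat_lit 259247503785) (nat_lit 7) (nat_lit 4) (nat_lit 8) (nat_lit 5) (nat_lit 8) (nat_lit 4) (nat_lit 270) (nat_lit 253) (nat_lit 137))) (XT.nd (nat_lit 78) (nat_lit 76) (nat_lit 0) (XT.lf (nat_lit 0) (nat_lit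 29267924457) (nat_lit 152) (nat_lit 1062219219456) (nat_lit 76) (nat_lit 996504344388) (nat_lit 6) (nat_lit 5) (nat_lit 8) (nat_lit 5) (nat_lit 7) (nat_lit 4) (nat_lit 271) (nat_lit 253) (nat_lit 136)) (XT.nd (nat_lit 78) (nat_lit 76) (nat_lit 0) (XT.lf (nat_lit 0) (nat_lit 334518650508) (nat_lit 152) (nat_lit 405930170060) (nat_lit 76) (nat_lit 1592147143240) (nat_lit 6) (nat_lit 5) (nat_lit 8) (nat_lit 5) (nat_lit 7) (nat_lit 4) (nat_lit 272) (nat_lit 253) (nat_lit 135)) (XT.lf (nat_lit 0) (nat_lit 382889710934) (nat_lit 76) (nat_lit 318521912175) (nat_lit 152) (nat_lit 1910101291913) (nat_lit 5) (nat_lit 5) (nat_lit 6) (nat_lit 5) (nat_lit 7) (nat_lit 4) (nat_lit 273) (nat_lit 253) (nat_lit 134))))))) (XT.nd (nat_lit 624) (nat_lit 76) (nat_lit 0) (XT.nd (nat_lit 312) (nat_lit 76) (nat_lit 0) (XT.nd (nat_lit 156) (nat_lit 76) (nat_lit 0) (XT.nd (nat_lit 78) (nat_lit 0) (nat_lit 0)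 (XT.lf (nat_lit 0) (nat_lit 1152470486802) (nat_lit 152) (nat_lit 1601343850108) (nat_lit 0) (nat_lit 174083280252) (nat_lit 5) (nat_lit 5) (nat_lit 7) (nat_lit 4) (nat_lit 5) (nat_lit 4) (nat_lit 274) (nat_lit 253) (nat_lit 133)) (XT.lf (nat_lit 0) (nat_lit 1686355882744) (nat_lit 152) (nat_lit 895140316943) (nat_lit 0) (nat_lit 707968669554) (nat_lit 5) (nat_lit 5) (nat_lit 7) (nat_lit 4) (nat_lit 5) (nat_lit 4) (nat_lit 275) (nat_lit 253) (nat_lit 132))) (XT.nd (nat_lit 78) (nat_lit 76) (nat_lit 0) (XT.lf (nat_lit 0) (nat_lit 2300324081634) (nat_lit 152) (nat_lit 83006265812) (nat_lit 0) (nat_lit 1321936862670) (nat_lit 5) (nat_lit 5) (nat_lit 7) (nat_lit 4) (nat_lit 5) (nat_lit 4) (nat_lit 276) (nat_lit 253) (nat_lit 131)) (XT.lf (nat_lit 0) (nat_lit 934108698340) (nat_lit 76) (nat_lit 2110958255621) (nat_lit 76) (nat_lit 1132571031636) (nat_lit 4) (nat_lit 4) (nat_lit 5) (nat_lit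 5) (nat_lit 5) (nat_lit 4) (nat_lit 277) (nat_lit 253) (nat_lit 130)))) (XT.nd (nat_lit 156) (nat_lit 76) (nat_lit 0) (XT.nd (nat_lit 78) (nat_lit 0) (nat_lit 0) (XT.lf (nat_lit 0) (nat_lit 2113119669523) (nat_lit 76) (nat_lit 1792740546226) (nat_lit 76) (nat_lit 814353317875) (nat_lit 4) (nat_lit 4) (nat_lit 5) (nat_lit 5) (nat_lit 5) (nat_lit 4) (nat_lit 278) (nat_lit 253) (nat_lit 129)) (XT.lf (nat_lit 0) (nat_lit 3468982277717) (nat_lit 76) (nat_lit 1426790184493) (nat_lit 76) (nat_lit 448402952346) (nat_lit 4) (nat_lit 4) (nat_lit 5) (nat_lit 5) (nat_lit 5) (nat_lit 4) (nat_lit 279) (nat_lit 253) (nat_lit 128))) (XT.nd (nat_lit 78) (nat_lit 76) (nat_lit 0) (XT.lf (nat_lit 0) (nat_lit 5028224269603) (nat_lit 76) (nat_lit 1005947272042) (nat_lit 76) (nat_lit 27560036593) (nat_lit 4) (nat_lit 4) (nat_lit 5) (nat_lit 5) (nat_lit 5) (nat_lit 4) (nat_lit 280) (nat_lit 253) (nat_lit 127))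 (XT.lf (nat_lit 0) (nat_lit 415776599394) (nat_lit 152) (nat_lit 84467549620) (nat_lit 76) (nat_lit 6383842177537) (nat_lit 3) (nat_lit 5) (nat_lit 5) (nat_lit 5) (nat_lit 4) (nat_lit 4) (nat_lit 281) (nat_lit 253) (nat_lit 126))))) (XT.nd (nat_lit 312) (nat_lit 0) (nat_lit 0) (XT.nd (nat_lit 156) (nat_lit 0) (nat_lit 0) (XT.nd (nat_lit 78) (nat_lit 0) (nat_lit 0) (XT.lf (nat_lit 0) (nat_lit 974108122699) (nat_lit 152) (nat_lit 6724455295862) (nat_lit 0) (nat_lit 123336608947) (nat_lit 2) (nat_lit 5) (nat_lit 4) (nat_lit 4) (nat_lit 2) (nat_lit 4) (nat_lit 282) (nat_lit 253) (nat_lit 125)) (XT.lf (nat_lit 0) (nat_lit 1644636125252) (nat_lit 152) (nat_lit 6457618036138) (nat_lit 0) (nat_lit 793864609612) (nat_lit 2) (nat_lit 5) (nat_lit 4) (nat_lit 4) (nat_lit 2) (nat_lit 4) (nat_lit 283) (nat_lit 253) (nat_lit 124))) (XT.nd (nat_lit 78) (nat_lit 0) (nat_lit 0) (XT.lf (nat_lit 0) (nat_lit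 2415743325482) (nat_lit 152) (nat_lit 6150755192746) (nat_lit 0) (nat_lit 1564971808201) (nat_lit 2) (nat_lit 5) (nat_lit 4) (nat_lit 4) (nat_lit 2) (nat_lit 4) (nat_lit 284) (nat_lit 253) (nat_lit 123)) (XT.lf (nat_lit 0) (nat_lit 3302516603396) (nat_lit 152) (nat_lit 5797862927447) (nat_lit 0) (nat_lit 2451745084688) (nat_lit 2) (nat_lit 5) (nat_lit 4) (nat_lit 4) (nat_lit 2) (nat_lit 4) (nat_lit 285) (nat_lit 253) (nat_lit 122)))) (XT.nd (nat_lit 156) (nat_lit 0) (nat_lit 0) (XT.nd (nat_lit 78) (nat_lit 0) (nat_lit 0) (XT.lf (nat_lit 0) (nat_lit 4322305870951) (nat_lit 152) (nat_lit 5392036826352) (nat_lit 0) (nat_lit 3471534351002) (nat_lit 2) (nat_lit 5) (nat_lit 4) (nat_lit 4) (nat_lit 2) (nat_lit 4) (nat_lit 286) (nat_lit 253) (nat_lit 121)) (XT.lf (nat_lit 0) (nat_lit 5495063526862) (nat_lit 152) (nat_lit 4925336813572) (nat_lit 0) (nat_lit 4644292005834) (nat_lit 2) (nat_lit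 5) (nat_lit 4) (nat_lit 4) (nat_lit 2) (nat_lit 4) (nat_lit 287) (nat_lit 253) (nat_lit 120))) (XT.nd (nat_lit 78) (nat_lit 0) (nat_lit 0) (XT.lf (nat_lit 0) (nat_lit 6843734829613) (nat_lit 152) (nat_lit 4388631801899) (nat_lit 0) (nat_lit 5992963307646) (nat_lit 2) (nat_lit 5) (nat_lit 4) (nat_lit 4) (nat_lit 2) (nat_lit 4) (nat_lit 288) (nat_lit 253) (nat_lit 119)) (XT.nd (nat_lit 78) (nat_lit 0) (nat_lit 0) (XT.lf (nat_lit 0) (nat_lit 8394706826432) (nat_lit 152) (nat_lit 3771421041106) (nat_lit 0) (nat_lit 7543935303649) (nat_lit 2) (nat_lit 5) (nat_lit 4) (nat_lit 4) (nat_lit 2) (nat_lit 4) (nat_lit 289) (nat_lit 253) (nat_lit 118)) (XT.lf (nat_lit 0) (nat_lit 10178324621605) (nat_lit 152) (nat_lit 3061628668481) (nat_lit 0) (nat_lit 9327553098113) (nat_lit 2) (nat_lit 5) (nat_lit 4) (nat_lit 4) (nat_lit 2) (nat_lit 4) (nat_lit 290) (nat_lit 253) (nat_lit 117))))))))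
noncomputable def xc110 : XT := (XT.nd (nat_lit 32370) (nat_lit 0) (nat_lit 228) (XT.nd (nat_lit 31668) (nat_lit 0) (nat_lit 836) (XT.nd (nat_lit 312) (nat_lit 0) (nat_lit 0) (XT.nd (nat_lit 156) (nat_lit 76) (nat_lit 0) (XT.nd (nat_lit 78) (nat_lit 0) (nat_lit 0) (XT.lf (nat_lit 0) (nat_lit 12229485085037) (nat_lit 152) (nat_lit 2245367441952) (nat_lit 0) (nat_lit 11378713560928) (nat_lit 2) (nat_lit 5) (nat_lit 4) (nat_lit 4) (nat_lit 2) (nat_lit 4) (nat_lit 291) (nat_lit 253) (nat_lit 116)) (XT.lf (nat_lit 0) (nat_lit 14588319617100) (nat_lit 152) (nat_lit 1306667033172) (nat_lit 0) (nat_lit 13737548092454) (nat_lit 2) (nat_lit 5) (nat_lit 4) (nat_lit 4) (nat_lit 2) (nat_lit 4) (nat_lit 292) (nat_lit 253) (nat_lit 115))) (XT.nd (nat_lit 78) (nat_lit 76) (nat_lit 0) (XT.lf (nat_lit 0) (nat_lit 17300979328203) (nat_lit 152) (nat_lit 227161564580) (nat_lit 0) (nat_lit 16450207803091)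 (nat_lit 2) (nat_lit 5) (nat_lit 4) (nat_lit 4) (nat_lit 2) (nat_lit 4) (nat_lit 293) (nat_lit 253) (nat_lit 114)) (XT.lf (nat_lit 0) (nat_lit 1113391536831) (nat_lit 76) (nat_lit 19353249627699) (nat_lit 76) (nat_lit 18502478102181) (nat_lit 1) (nat_lit 4) (nat_lit 2) (nat_lit 5) (nat_lit 2) (nat_lit 4) (nat_lit 294) (nat_lit 253) (nat_lit 113)))) (XT.nd (nat_lit 31200) (nat_lit 0) (nat_lit 1216) (XT.nd (nat_lit 78) (nat_lit 0) (nat_lit 0) (XT.lf (nat_lit 0) (nat_lit 2680557464408) (nat_lit 76) (nat_lit 21438469165778) (nat_lit 76) (nat_lit 20587697639907) (nat_lit 1) (nat_lit 4) (nat_lit 2) (nat_lit 5) (nat_lit 2) (nat_lit 4) (nat_lit 295) (nat_lit 253) (nat_lit 112)) (XT.lf (nat_lit 0) (nat_lit 4482798280035) (nat_lit 76) (nat_lit 23836471635104) (nat_lit 76) (nat_lit 22985700108927) (nat_lit 1) (nat_lit 4) (nat_lit 2) (nat_lit 5) (nat_lit 2) (nat_lit 4) (nat_lit 296) (nat_lit 253)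 (nat_lit 111))) (XT.nd (nat_lit 78) (nat_lit 0) (nat_lit 0) (XT.lf (nat_lit 0) (nat_lit 7164059923) (nat_lit 380) (nat_lit 114839287026) (nat_lit 380) (nat_lit 114839287026) (nat_lit 17) (nat_lit 3) (nat_lit 22) (nat_lit 3) (nat_lit 22) (nat_lit 5) (nat_lit 254) (nat_lit 254) (nat_lit 152)) (XT.lf (nat_lit 0) (nat_lit 15402987916) (nat_lit 380) (nat_lit 22436142988) (nat_lit 380) (nat_lit 471372491335) (nat_lit 17) (nat_lit 3) (nat_lit 22) (nat_lit 3) (nat_lit 22) (nat_lit 5) (nat_lit 255) (nat_lit 254) (nat_lit 151))))) (XT.nd (nat_lit 312) (nat_lit 456) (nat_lit 0) (XT.nd (nat_lit 156) (nat_lit 0) (nat_lit 76) (XT.nd (nat_lit 78) (nat_lit 0) (nat_lit 0) (XT.lf (nat_lit 0) (nat_lit 35170307392) (nat_lit 304) (nat_lit 320321684320) (nat_lit 380) (nat_lit 191795255125) (nat_lit 18) (nat_lit 5) (nat_lit 22) (nat_lit 5) (nat_lit 23) (nat_lit 5) (nat_lit 256) (nat_lit 254) (nat_lit 150))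 (XT.lf (nat_lit 0) (nat_lit 60933193573) (nat_lit 304) (nat_lit 76456998522) (nat_lit 380) (nat_lit 453229453015) (nat_lit 18) (nat_lit 5) (nat_lit 22) (nat_lit 5) (nat_lit 23) (nat_lit 5) (nat_lit 257) (nat_lit 254) (nat_lit 149))) (XT.nd (nat_lit 78) (nat_lit 0) (nat_lit 0) (XT.lf (nat_lit 0) (nat_lit 104970926737) (nat_lit 304) (nat_lit 420276891906) (nat_lit 76) (nat_lit 113042522632) (nat_lit 19) (nat_lit 5) (nat_lit 23) (nat_lit 5) (nat_lit 20) (nat_lit 5) (nat_lit 258) (nat_lit 254) (nat_lit 148)) (XT.lf (nat_lit 0) (nat_lit 166343609283) (nat_lit 304) (nat_lit 133997698400) (nat_lit 76) (nat_lit 391160941000) (nat_lit 19) (nat_lit 5) (nat_lit 23) (nat_lit 5) (nat_lit 20) (nat_lit 5) (nat_lit 259) (nat_lit 254) (nat_lit 147)))) (XT.nd (nat_lit 156) (nat_lit 228) (nat_lit 0) (XT.nd (nat_lit 78) (nat_lit 0) (nat_lit 0) (XT.lf (nat_lit 0) (nat_lit 214301991268) (nat_lit 304) (nat_lit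 31493963952) (nat_lit 380) (nat_lit 505568923028) (nat_lit 15) (nat_lit 5) (nat_lit 19) (nat_lit 5) (nat_lit 20) (nat_lit 5) (nat_lit 260) (nat_lit 254) (nat_lit 146)) (XT.lf (nat_lit 0) (nat_lit 356002253775) (nat_lit 380) (nat_lit 201081821279) (nat_lit 76) (nat_lit 260297412259) (nat_lit 15) (nat_lit 5) (nat_lit 20) (nat_lit 5) (nat_lit 16) (nat_lit 5) (nat_lit 261) (nat_lit 254) (nat_lit 145))) (XT.nd (nat_lit 78) (nat_lit 76) (nat_lit 0) (XT.lf (nat_lit 0) (nat_lit 201758611899) (nat_lit 152) (nat_lit 290834969865) (nat_lit 228) (nat_lit 399228893424) (nat_lit 13) (nat_lit 5) (nat_lit 15) (nat_lit 5) (nat_lit 16) (nat_lit 5) (nat_lit 262) (nat_lit 254) (nat_lit 144)) (XT.nd (nat_lit 78) (nat_lit 76) (nat_lit 0) (XT.lf (nat_lit 0) (nat_lit 661320885204) (nat_lit 228) (nat_lit 289365211807) (nat_lit 76) (nat_lit 24996422927) (nat_lit 13) (nat_lit 5) (nat_lit 16) (nat_lit 5) (nat_lit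 14) (nat_lit 4) (nat_lit 263) (nat_lit 254) (nat_lit 143)) (XT.lf (nat_lit 0) (nat_lit 172989664687) (nat_lit 76) (nat_lit 703380019284) (nat_lit 152) (nat_lit 192600027570) (nat_lit 12) (nat_lit 5) (nat_lit 13) (nat_lit 5) (nat_lit 14) (nat_lit 4) (nat_lit 264) (nat_lit 254) (nat_lit 142))))))) (XT.nd (nat_lit 624) (nat_lit 152) (nat_lit 0) (XT.nd (nat_lit 312) (nat_lit 228) (nat_lit 0) (XT.nd (nat_lit 156) (nat_lit 0) (nat_lit 0) (XT.nd (nat_lit 78) (nat_lit 228) (nat_lit 0) (XT.lf (nat_lit 0) (nat_lit 737218453068) (nat_lit 76) (nat_lit 401583242022) (nat_lit 152) (nat_lit 35179403013) (nat_lit 12) (nat_lit 5) (nat_lit 13) (nat_lit 5) (nat_lit 14) (nat_lit 4) (nat_lit 265) (nat_lit 254) (nat_lit 141)) (XT.lf (nat_lit 0) (nat_lit 93633753119) (nat_lit 152) (nat_lit 43112761517) (nat_lit 228) (nat_lit 1156510176791) (nat_lit 9) (nat_lit 5) (nat_lit 11) (nat_lit 5) (nat_lit 12) (nat_lit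 5) (nat_lit 266) (nat_lit 254) (nat_lit 140))) (XT.nd (nat_lit 78) (nat_lit 0) (nat_lit 0) (XT.lf (nat_lit 0) (nat_lit 370062374772) (nat_lit 228) (nat_lit 692370458699) (nat_lit 76) (nat_lit 361859095550) (nat_lit 9) (nat_lit 5) (nat_lit 12) (nat_lit 5) (nat_lit 10) (nat_lit 4) (nat_lit 267) (nat_lit 254) (nat_lit 139)) (XT.lf (nat_lit 0) (nat_lit 640428590299) (nat_lit 228) (nat_lit 111083115629) (nat_lit 76) (nat_lit 823162799928) (nat_lit 9) (nat_lit 5) (nat_lit 12) (nat_lit 5) (nat_lit 10) (nat_lit 4) (nat_lit 268) (nat_lit 254) (nat_lit 138)))) (XT.nd (nat_lit 156) (nat_lit 152) (nat_lit 0) (XT.nd (nat_lit 78) (nat_lit 0) (nat_lit 0) (XT.lf (nat_lit 0) (nat_lit 611870230746) (nat_lit 76) (nat_lit 364815738175) (nat_lit 152) (nat_lit 767128065728) (nat_lit 8) (nat_lit 5) (nat_lit 9) (nat_lit 5) (nat_lit 10) (nat_lit 4) (nat_lit 269) (nat_lit 254) (nat_lit 137)) (XT.lf (nat_lit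 0) (nat_lit 1372772919060) (nat_lit 152) (nat_lit 485287068926) (nat_lit 0) (nat_lit 78855860109) (nat_lit 8) (nat_lit 5) (nat_lit 10) (nat_lit 4) (nat_lit 8) (nat_lit 4) (nat_lit 270) (nat_lit 254) (nat_lit 136))) (XT.nd (nat_lit 78) (nat_lit 76) (nat_lit 0) (XT.lf (nat_lit 0) (nat_lit 264547863014) (nat_lit 76) (nat_lit 1592051580675) (nat_lit 76) (nat_lit 298134510111) (nat_lit 7) (nat_lit 4) (nat_lit 8) (nat_lit 5) (nat_lit 8) (nat_lit 4) (nat_lit 271) (nat_lit 254) (nat_lit 135)) (XT.lf (nat_lit 0) (nat_lit 33658207583) (nat_lit 152) (nat_lit 1221551934358) (nat_lit 76) (nat_lit 1145980055135) (nat_lit 6) (nat_lit 5) (nat_lit 8) (nat_lit 5) (nat_lit 7) (nat_lit 4) (nat_lit 272) (nat_lit 254) (nat_lit 134))))) (XT.nd (nat_lit 312) (nat_lit 76) (nat_lit 0) (XT.nd (nat_lit 156) (nat_lit 0) (nat_lit 0) (XT.nd (nat_lit 78) (nat_lit 76) (nat_lit 0) (XT.lf (nat_lit 0) (nat_lit 384696530221)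 (nat_lit 152) (nat_lit 466819549468) (nat_lit 76) (nat_lit 1830969266107) (nat_lit 6) (nat_lit 5) (nat_lit 8) (nat_lit 5) (nat_lit 7) (nat_lit 4) (nat_lit 273) (nat_lit 254) (nat_lit 133)) (XT.lf (nat_lit 0) (nat_lit 440323307034) (nat_lit 76) (nat_lit 366300136739) (nat_lit 152) (nat_lit 2196616396694) (nat_lit 5) (nat_lit 5) (nat_lit 6) (nat_lit 5) (nat_lit 7) (nat_lit 4) (nat_lit 274) (nat_lit 254) (nat_lit 132))) (XT.nd (nat_lit 78) (nat_lit 0) (nat_lit 0) (XT.lf (nat_lit 0) (nat_lit 1325341129193) (nat_lit 152) (nat_lit 1841545298329) (nat_lit 0) (nat_lit 200195821611) (nat_lit 5) (nat_lit 5) (nat_lit 7) (nat_lit 4) (nat_lit 5) (nat_lit 4) (nat_lit 275) (nat_lit 254) (nat_lit 131)) (XT.lf (nat_lit 0) (nat_lit 1939309325478) (nat_lit 152) (nat_lit 1029411252054) (nat_lit 0) (nat_lit 814164012874) (nat_lit 5) (nat_lit 5) (nat_lit 7) (nat_lit 4) (nat_lit 5) (nat_lit 4) (nat_lit 276)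 (nat_lit 254) (nat_lit 130)))) (XT.nd (nat_lit 156) (nat_lit 0) (nat_lit 0) (XT.nd (nat_lit 78) (nat_lit 76) (nat_lit 0) (XT.lf (nat_lit 0) (nat_lit 2645372746333) (nat_lit 152) (nat_lit 95457107918) (nat_lit 0) (nat_lit 1520227429364) (nat_lit 5) (nat_lit 5) (nat_lit 7) (nat_lit 4) (nat_lit 5) (nat_lit 4) (nat_lit 277) (nat_lit 254) (nat_lit 129)) (XT.lf (nat_lit 0) (nat_lit 1074225096413) (nat_lit 76) (nat_lit 2427601950119) (nat_lit 76) (nat_lit 1302456629353) (nat_lit 4) (nat_lit 4) (nat_lit 5) (nat_lit 5) (nat_lit 5) (nat_lit 4) (nat_lit 278) (nat_lit 254) (nat_lit 128))) (XT.nd (nat_lit 78) (nat_lit 0) (nat_lit 0) (XT.lf (nat_lit 0) (nat_lit 2430087701102) (nat_lit 76) (nat_lit 2061651590033) (nat_lit 76) (nat_lit 936506265967) (nat_lit 4) (nat_lit 4) (nat_lit 5) (nat_lit 5) (nat_lit 5) (nat_lit 4) (nat_lit 279) (nat_lit 254) (nat_lit 127)) (XT.nd (nat_lit 78) (nat_lit 0) (nat_lit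 0) (XT.lf (nat_lit 0) (nat_lit 3989329689939) (nat_lit 76) (nat_lit 1640808679014) (nat_lit 76) (nat_lit 515663352077) (nat_lit 4) (nat_lit 4) (nat_lit 5) (nat_lit 5) (nat_lit 5) (nat_lit 4) (nat_lit 280) (nat_lit 254) (nat_lit 126)) (XT.lf (nat_lit 0) (nat_lit 5782457971404) (nat_lit 76) (nat_lit 1156839334019) (nat_lit 76) (nat_lit 31694004585) (nat_lit 4) (nat_lit 4) (nat_lit 5) (nat_lit 5) (nat_lit 5) (nat_lit 4) (nat_lit 281) (nat_lit 254) (nat_lit 125))))))))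
noncomputable def xc111 : XT := (XT.nd (nat_lit 32448) (nat_lit 0) (nat_lit 380) (XT.nd (nat_lit 624) (nat_lit 76) (nat_lit 0) (XT.nd (nat_lit 312) (nat_lit 0) (nat_lit 0) (XT.nd (nat_lit 156) (nat_lit 0) (nat_lit 0) (XT.nd (nat_lit 78) (nat_lit 76) (nat_lit 0) (XT.lf (nat_lit 0) (nat_lit 478143119006) (nat_lit 152) (nat_lit 97137625739) (nat_lit 76) (nat_lit 7341418526269) (nat_lit 3) (nat_lit 5) (nat_lit 5) (nat_lit 5) (nat_lit 4) (nat_lit 4) (nat_lit 282) (nat_lit 254) (nat_lit 124)) (XT.lf (nat_lit 0) (nat_lit 1120224370224) (nat_lit 152) (nat_lit 7733123533276) (nat_lit 0) (nat_lit 141837123710) (nat_lit 2) (nat_lit 5) (nat_lit 4) (nat_lit 4) (nat_lit 2) (nat_lit 4) (nat_lit 283) (nat_lit 254) (nat_lit 123))) (XT.nd (nat_lit 78) (nat_lit 0) (nat_lit 0) (XT.lf (nat_lit 0) (nat_lit 1891331569361) (nat_lit 152) (nat_lit 7426260692024) (nat_lit 0) (nat_lit 912944321419) (nat_lit 2)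 (nat_lit 5) (nat_lit 4) (nat_lit 4) (nat_lit 2) (nat_lit 4) (nat_lit 284) (nat_lit 254) (nat_lit 122)) (XT.lf (nat_lit 0) (nat_lit 2778104846323) (nat_lit 152) (nat_lit 7073368428585) (nat_lit 0) (nat_lit 1799717597141) (nat_lit 2) (nat_lit 5) (nat_lit 4) (nat_lit 4) (nat_lit 2) (nat_lit 4) (nat_lit 285) (nat_lit 254) (nat_lit 121)))) (XT.nd (nat_lit 156) (nat_lit 0) (nat_lit 0) (XT.nd (nat_lit 78) (nat_lit 0) (nat_lit 0) (XT.lf (nat_lit 0) (nat_lit 3797894113052) (nat_lit 152) (nat_lit 6667542329108) (nat_lit 0) (nat_lit 2819506862790) (nat_lit 2) (nat_lit 5) (nat_lit 4) (nat_lit 4) (nat_lit 2) (nat_lit 4) (nat_lit 286) (nat_lit 254) (nat_lit 120)) (XT.lf (nat_lit 0) (nat_lit 4970651768243) (nat_lit 152) (nat_lit 6200842317735) (nat_lit 0) (nat_lit 3992264517043) (nat_lit 2) (nat_lit 5) (nat_lit 4) (nat_lit 4) (nat_lit 2) (nat_lit 4) (nat_lit 287) (nat_lit 254) (nat_lit 119))) (XT.nd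 (nat_lit 78) (nat_lit 0) (nat_lit 0) (XT.lf (nat_lit 0) (nat_lit 6319323070369) (nat_lit 152) (nat_lit 5664137307286) (nat_lit 0) (nat_lit 5340935818353) (nat_lit 2) (nat_lit 5) (nat_lit 4) (nat_lit 4) (nat_lit 2) (nat_lit 4) (nat_lit 288) (nat_lit 254) (nat_lit 118)) (XT.lf (nat_lit 0) (nat_lit 7870295066644) (nat_lit 152) (nat_lit 5046926547557) (nat_lit 0) (nat_lit 6891907813919) (nat_lit 2) (nat_lit 5) (nat_lit 4) (nat_lit 4) (nat_lit 2) (nat_lit 4) (nat_lit 289) (nat_lit 254) (nat_lit 117))))) (XT.nd (nat_lit 312) (nat_lit 76) (nat_lit 0) (XT.nd (nat_lit 156) (nat_lit 0) (nat_lit 0) (XT.nd (nat_lit 78) (nat_lit 0) (nat_lit 0) (XT.lf (nat_lit 0) (nat_lit 9653912861344) (nat_lit 152) (nat_lit 4337134175857) (nat_lit 0) (nat_lit 8675525608002) (nat_lit 2) (nat_lit 5) (nat_lit 4) (nat_lit 4) (nat_lit 2) (nat_lit 4) (nat_lit 290) (nat_lit 254) (nat_lit 116)) (XT.lf (nat_lit 0) (nat_lit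 11705073324365) (nat_lit 152) (nat_lit 3520872950132) (nat_lit 0) (nat_lit 10726686070486) (nat_lit 2) (nat_lit 5) (nat_lit 4) (nat_lit 4) (nat_lit 2) (nat_lit 4) (nat_lit 291) (nat_lit 254) (nat_lit 115))) (XT.nd (nat_lit 78) (nat_lit 0) (nat_lit 0) (XT.lf (nat_lit 0) (nat_lit 14063907856070) (nat_lit 152) (nat_lit 2582172542052) (nat_lit 0) (nat_lit 13085520601725) (nat_lit 2) (nat_lit 5) (nat_lit 4) (nat_lit 4) (nat_lit 2) (nat_lit 4) (nat_lit 292) (nat_lit 254) (nat_lit 114)) (XT.lf (nat_lit 0) (nat_lit 16776567566863) (nat_lit 152) (nat_lit 1502667074067) (nat_lit 0) (nat_lit 15798180312111) (nat_lit 2) (nat_lit 5) (nat_lit 4) (nat_lit 4) (nat_lit 2) (nat_lit 4) (nat_lit 293) (nat_lit 254) (nat_lit 113)))) (XT.nd (nat_lit 156) (nat_lit 0) (nat_lit 0) (XT.nd (nat_lit 78) (nat_lit 76) (nat_lit 0) (XT.lf (nat_lit 0) (nat_lit 19896126233693) (nat_lit 152) (nat_lit 261235787022) (nat_lit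 0) (nat_lit 18917738978589) (nat_lit 2) (nat_lit 5) (nat_lit 4) (nat_lit 4) (nat_lit 2) (nat_lit 4) (nat_lit 294) (nat_lit 254) (nat_lit 112)) (XT.lf (nat_lit 0) (nat_lit 1280400279044) (nat_lit 76) (nat_lit 22256237066093) (nat_lit 76) (nat_lit 21277849810682) (nat_lit 1) (nat_lit 4) (nat_lit 2) (nat_lit 5) (nat_lit 2) (nat_lit 4) (nat_lit 295) (nat_lit 254) (nat_lit 111))) (XT.nd (nat_lit 31200) (nat_lit 0) (nat_lit 1216) (XT.lf (nat_lit 0) (nat_lit 3082641094232) (nat_lit 76) (nat_lit 24654239535636) (nat_lit 76) (nat_lit 23675852279958) (nat_lit 1) (nat_lit 4) (nat_lit 2) (nat_lit 5) (nat_lit 2) (nat_lit 4) (nat_lit 296) (nat_lit 254) (nat_lit 110)) (XT.nd (nat_lit 78) (nat_lit 0) (nat_lit 0) (XT.lf (nat_lit 0) (nat_lit 8238917265) (nat_lit 380) (nat_lit 132065036344) (nat_lit 380) (nat_lit 132065036344) (nat_lit 17) (nat_lit 3) (nat_lit 22) (nat_lit 3) (nat_lit 22) (nat_lit 5)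 (nat_lit 255) (nat_lit 255) (nat_lit 150)) (XT.lf (nat_lit 0) (nat_lit 17713868024) (nat_lit 380) (nat_lit 25801314460) (nat_lit 380) (nat_lit 542078115058) (nat_lit 17) (nat_lit 3) (nat_lit 22) (nat_lit 3) (nat_lit 22) (nat_lit 5) (nat_lit 256) (nat_lit 255) (nat_lit 149))))))) (XT.nd (nat_lit 624) (nat_lit 532) (nat_lit 0) (XT.nd (nat_lit 312) (nat_lit 380) (nat_lit 0) (XT.nd (nat_lit 156) (nat_lit 0) (nat_lit 76) (XT.nd (nat_lit 78) (nat_lit 0) (nat_lit 0) (XT.lf (nat_lit 0) (nat_lit 40446232884) (nat_lit 304) (nat_lit 368369631632) (nat_lit 380) (nat_lit 220564409618) (nat_lit 18) (nat_lit 5) (nat_lit 22) (nat_lit 5) (nat_lit 23) (nat_lit 5) (nat_lit 257) (nat_lit 255) (nat_lit 148)) (XT.lf (nat_lit 0) (nat_lit 70073502506) (nat_lit 304) (nat_lit 87925282791) (nat_lit 380) (nat_lit 521213754640) (nat_lit 18) (nat_lit 5) (nat_lit 22) (nat_lit 5) (nat_lit 23) (nat_lit 5) (nat_lit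 258) (nat_lit 255) (nat_lit 147))) (XT.nd (nat_lit 78) (nat_lit 0) (nat_lit 0) (XT.lf (nat_lit 0) (nat_lit 120716861291) (nat_lit 304) (nat_lit 483318123694) (nat_lit 76) (nat_lit 129998861016) (nat_lit 19) (nat_lit 5) (nat_lit 23) (nat_lit 5) (nat_lit 20) (nat_lit 5) (nat_lit 259) (nat_lit 255) (nat_lit 146)) (XT.lf (nat_lit 0) (nat_lit 191295407670) (nat_lit 304) (nat_lit 154097090553) (nat_lit 76) (nat_lit 449835047358) (nat_lit 19) (nat_lit 5) (nat_lit 23) (nat_lit 5) (nat_lit 20) (nat_lit 5) (nat_lit 260) (nat_lit 255) (nat_lit 145)))) (XT.nd (nat_lit 156) (nat_lit 152) (nat_lit 0) (XT.nd (nat_lit 78) (nat_lit 0) (nat_lit 0) (XT.lf (nat_lit 0) (nat_lit 246447540629) (nat_lit 304) (nat_lit 36218041728) (nat_lit 380) (nat_lit 581403990938) (nat_lit 15) (nat_lit 5) (nat_lit 19) (nat_lit 5) (nat_lit 20) (nat_lit 5) (nat_lit 261) (nat_lit 255) (nat_lit 144)) (XT.lf (nat_lit 0) (nat_lit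 409402795797) (nat_lit 380) (nat_lit 231243845197) (nat_lit 76) (nat_lit 299342037420) (nat_lit 15) (nat_lit 5) (nat_lit 20) (nat_lit 5) (nat_lit 16) (nat_lit 5) (nat_lit 262) (nat_lit 255) (nat_lit 143))) (XT.nd (nat_lit 78) (nat_lit 0) (nat_lit 0) (XT.lf (nat_lit 0) (nat_lit 232022641628) (nat_lit 152) (nat_lit 334460164606) (nat_lit 228) (nat_lit 459113010931) (nat_lit 13) (nat_lit 5) (nat_lit 15) (nat_lit 5) (nat_lit 16) (nat_lit 5) (nat_lit 263) (nat_lit 255) (nat_lit 142)) (XT.lf (nat_lit 0) (nat_lit 760519182599) (nat_lit 228) (nat_lit 332769763018) (nat_lit 76) (nat_lit 28745926558) (nat_lit 13) (nat_lit 5) (nat_lit 16) (nat_lit 5) (nat_lit 14) (nat_lit 4) (nat_lit 264) (nat_lit 255) (nat_lit 141))))) (XT.nd (nat_lit 312) (nat_lit 228) (nat_lit 0) (XT.nd (nat_lit 156) (nat_lit 228) (nat_lit 0) (XT.nd (nat_lit 78) (nat_lit 0) (nat_lit 0) (XT.lf (nat_lit 0) (nat_lit 198938334469)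 (nat_lit 76) (nat_lit 808886954353) (nat_lit 152) (nat_lit 221489855689) (nat_lit 12) (nat_lit 5) (nat_lit 13) (nat_lit 5) (nat_lit 14) (nat_lit 4) (nat_lit 265) (nat_lit 255) (nat_lit 140)) (XT.lf (nat_lit 0) (nat_lit 847801412402) (nat_lit 76) (nat_lit 461820669348) (nat_lit 152) (nat_lit 40456160407) (nat_lit 12) (nat_lit 5) (nat_lit 13) (nat_lit 5) (nat_lit 14) (nat_lit 4) (nat_lit 266) (nat_lit 255) (nat_lit 139))) (XT.nd (nat_lit 78) (nat_lit 0) (nat_lit 0) (XT.lf (nat_lit 0) (nat_lit 107679012435) (nat_lit 152) (nat_lit 49579608773) (nat_lit 228) (nat_lit 1329986553921) (nat_lit 9) (nat_lit 5) (nat_lit 11) (nat_lit 5) (nat_lit 12) (nat_lit 5) (nat_lit 267) (nat_lit 255) (nat_lit 138)) (XT.lf (nat_lit 0) (nat_lit 425571845900) (nat_lit 228) (nat_lit 796225841776) (nat_lit 76) (nat_lit 416138012934) (nat_lit 9) (nat_lit 5) (nat_lit 12) (nat_lit 5) (nat_lit 10) (nat_lit 4) (nat_lit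 268) (nat_lit 255) (nat_lit 137)))) (XT.nd (nat_lit 156) (nat_lit 152) (nat_lit 0) (XT.nd (nat_lit 78) (nat_lit 76) (nat_lit 0) (XT.lf (nat_lit 0) (nat_lit 736492978767) (nat_lit 228) (nat_lit 127745421470) (nat_lit 76) (nat_lit 946637266049) (nat_lit 9) (nat_lit 5) (nat_lit 12) (nat_lit 5) (nat_lit 10) (nat_lit 4) (nat_lit 269) (nat_lit 255) (nat_lit 136)) (XT.lf (nat_lit 0) (nat_lit 703650919519) (nat_lit 76) (nat_lit 419538038013) (nat_lit 152) (nat_lit 882197167924) (nat_lit 8) (nat_lit 5) (nat_lit 9) (nat_lit 5) (nat_lit 10) (nat_lit 4) (nat_lit 270) (nat_lit 255) (nat_lit 135))) (XT.nd (nat_lit 78) (nat_lit 152) (nat_lit 0) (XT.lf (nat_lit 0) (nat_lit 1578688940219) (nat_lit 152) (nat_lit 558079984890) (nat_lit 0) (nat_lit 90684287358) (nat_lit 8) (nat_lit 5) (nat_lit 10) (nat_lit 4) (nat_lit 8) (nat_lit 4) (nat_lit 271) (nat_lit 255) (nat_lit 134)) (XT.nd (nat_lit 78) (nat_lit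 76) (nat_lit 0) (XT.lf (nat_lit 0) (nat_lit 304230180278) (nat_lit 76) (nat_lit 1830859258106) (nat_lit 76) (nat_lit 342854596464) (nat_lit 7) (nat_lit 4) (nat_lit 8) (nat_lit 5) (nat_lit 8) (nat_lit 4) (nat_lit 272) (nat_lit 255) (nat_lit 133)) (XT.lf (nat_lit 0) (nat_lit 38707010144) (nat_lit 152) (nat_lit 1404784597467) (nat_lit 76) (nat_lit 1317877108084) (nat_lit 6) (nat_lit 5) (nat_lit 8) (nat_lit 5) (nat_lit 7) (nat_lit 4) (nat_lit 273) (nat_lit 255) (nat_lit 132))))))))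
noncomputable def xc112 : XT := (XT.nd (nat_lit 1326) (nat_lit 76) (nat_lit 0) (XT.nd (nat_lit 624) (nat_lit 152) (nat_lit 0) (XT.nd (nat_lit 312) (nat_lit 76) (nat_lit 0) (XT.nd (nat_lit 156) (nat_lit 0) (nat_lit 0) (XT.nd (nat_lit 78) (nat_lit 76) (nat_lit 0) (XT.lf (nat_lit 0) (nat_lit 442401071861) (nat_lit 152) (nat_lit 536842371415) (nat_lit 76) (nat_lit 2105614694875) (nat_lit 6) (nat_lit 5) (nat_lit 8) (nat_lit 5) (nat_lit 7) (nat_lit 4) (nat_lit 274) (nat_lit 255) (nat_lit 131)) (XT.lf (nat_lit 0) (nat_lit 506371908541) (nat_lit 76) (nat_lit 421245110171) (nat_lit 152) (nat_lit 2526108788897) (nat_lit 5) (nat_lit 5) (nat_lit 6) (nat_lit 5) (nat_lit 7) (nat_lit 4) (nat_lit 275) (nat_lit 255) (nat_lit 130))) (XT.nd (nat_lit 78) (nat_lit 0) (nat_lit 0) (XT.lf (nat_lit 0) (nat_lit 1524142351026) (nat_lit 152) (nat_lit 2117776995312) (nat_lit 0) (nat_lit 230225232146) (nat_lit 5)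 (nat_lit 5) (nat_lit 7) (nat_lit 4) (nat_lit 5) (nat_lit 4) (nat_lit 276) (nat_lit 255) (nat_lit 129)) (XT.lf (nat_lit 0) (nat_lit 2230205769912) (nat_lit 152) (nat_lit 1183822854849) (nat_lit 0) (nat_lit 936288647235) (nat_lit 5) (nat_lit 5) (nat_lit 7) (nat_lit 4) (nat_lit 5) (nat_lit 4) (nat_lit 277) (nat_lit 255) (nat_lit 128)))) (XT.nd (nat_lit 156) (nat_lit 0) (nat_lit 0) (XT.nd (nat_lit 78) (nat_lit 76) (nat_lit 0) (XT.lf (nat_lit 0) (nat_lit 3042178697946) (nat_lit 152) (nat_lit 109775600181) (nat_lit 0) (nat_lit 1748261571968) (nat_lit 5) (nat_lit 5) (nat_lit 7) (nat_lit 4) (nat_lit 5) (nat_lit 4) (nat_lit 278) (nat_lit 255) (nat_lit 127)) (XT.lf (nat_lit 0) (nat_lit 1235358931440) (nat_lit 76) (nat_lit 2791742209483) (nat_lit 76) (nat_lit 1497825080635) (nat_lit 4) (nat_lit 4) (nat_lit 5) (nat_lit 5) (nat_lit 5) (nat_lit 4) (nat_lit 279) (nat_lit 255) (nat_lit 126))) (XT.nd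 (nat_lit 78) (nat_lit 0) (nat_lit 0) (XT.lf (nat_lit 0) (nat_lit 2794600917628) (nat_lit 76) (nat_lit 2370899299709) (nat_lit 76) (nat_lit 1076982168365) (nat_lit 4) (nat_lit 4) (nat_lit 5) (nat_lit 5) (nat_lit 5) (nat_lit 4) (nat_lit 280) (nat_lit 255) (nat_lit 125)) (XT.lf (nat_lit 0) (nat_lit 4587729196787) (nat_lit 76) (nat_lit 1886929955797) (nat_lit 76) (nat_lit 593012822282) (nat_lit 4) (nat_lit 4) (nat_lit 5) (nat_lit 5) (nat_lit 5) (nat_lit 4) (nat_lit 281) (nat_lit 255) (nat_lit 124))))) (XT.nd (nat_lit 312) (nat_lit 0) (nat_lit 0) (XT.nd (nat_lit 156) (nat_lit 76) (nat_lit 0) (XT.nd (nat_lit 78) (nat_lit 76) (nat_lit 0) (XT.lf (nat_lit 0) (nat_lit 6649826713512) (nat_lit 76) (nat_lit 1330365212323) (nat_lit 76) (nat_lit 36448076920) (nat_lit 4) (nat_lit 4) (nat_lit 5) (nat_lit 5) (nat_lit 5) (nat_lit 4) (nat_lit 282) (nat_lit 255) (nat_lit 123)) (XT.lf (nat_lit 0) (nat_lit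 549864609317) (nat_lit 152) (nat_lit 111708227010) (nat_lit 76) (nat_lit 8442631321921) (nat_lit 3) (nat_lit 5) (nat_lit 5) (nat_lit 5) (nat_lit 4) (nat_lit 4) (nat_lit 283) (nat_lit 255) (nat_lit 122))) (XT.nd (nat_lit 78) (nat_lit 0) (nat_lit 0) (XT.lf (nat_lit 0) (nat_lit 1288258047777) (nat_lit 152) (nat_lit 8893092020194) (nat_lit 0) (nat_lit 163112709976) (nat_lit 2) (nat_lit 5) (nat_lit 4) (nat_lit 4) (nat_lit 2) (nat_lit 4) (nat_lit 284) (nat_lit 255) (nat_lit 121)) (XT.lf (nat_lit 0) (nat_lit 2175031323912) (nat_lit 152) (nat_lit 8540199758373) (nat_lit 0) (nat_lit 1049885985032) (nat_lit 2) (nat_lit 5) (nat_lit 4) (nat_lit 4) (nat_lit 2) (nat_lit 4) (nat_lit 285) (nat_lit 255) (nat_lit 120)))) (XT.nd (nat_lit 156) (nat_lit 0) (nat_lit 0) (XT.nd (nat_lit 78) (nat_lit 0) (nat_lit 0) (XT.lf (nat_lit 0) (nat_lit 3194820589921) (nat_lit 152) (nat_lit 8134373660303) (nat_lit 0)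 (nat_lit 2069675250103) (nat_lit 2) (nat_lit 5) (nat_lit 4) (nat_lit 4) (nat_lit 2) (nat_lit 4) (nat_lit 286) (nat_lit 255) (nat_lit 119)) (XT.lf (nat_lit 0) (nat_lit 4367578244488) (nat_lit 152) (nat_lit 7667673650153) (nat_lit 0) (nat_lit 3242432903853) (nat_lit 2) (nat_lit 5) (nat_lit 4) (nat_lit 4) (nat_lit 2) (nat_lit 4) (nat_lit 287) (nat_lit 255) (nat_lit 118))) (XT.nd (nat_lit 78) (nat_lit 0) (nat_lit 0) (XT.lf (nat_lit 0) (nat_lit 5716249546069) (nat_lit 152) (nat_lit 7130968640768) (nat_lit 0) (nat_lit 4591104204725) (nat_lit 2) (nat_lit 5) (nat_lit 4) (nat_lit 4) (nat_lit 2) (nat_lit 4) (nat_lit 288) (nat_lit 255) (nat_lit 117)) (XT.nd (nat_lit 78) (nat_lit 0) (nat_lit 0) (XT.lf (nat_lit 0) (nat_lit 7267221541872) (nat_lit 152) (nat_lit 6513757881964) (nat_lit 0) (nat_lit 6142076199911) (nat_lit 2) (nat_lit 5) (nat_lit 4) (nat_lit 4) (nat_lit 2) (nat_lit 4) (nat_lit 289)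 (nat_lit 255) (nat_lit 116)) (XT.lf (nat_lit 0) (nat_lit 9050839336161) (nat_lit 152) (nat_lit 5803965511069) (nat_lit 0) (nat_lit 7925693993663) (nat_lit 2) (nat_lit 5) (nat_lit 4) (nat_lit 4) (nat_lit 2) (nat_lit 4) (nat_lit 290) (nat_lit 255) (nat_lit 115))))))) (XT.nd (nat_lit 31824) (nat_lit 0) (nat_lit 836) (XT.nd (nat_lit 312) (nat_lit 76) (nat_lit 0) (XT.nd (nat_lit 156) (nat_lit 0) (nat_lit 0) (XT.nd (nat_lit 78) (nat_lit 0) (nat_lit 0) (XT.lf (nat_lit 0) (nat_lit 11101999798824) (nat_lit 152) (nat_lit 4987704286043) (nat_lit 0) (nat_lit 9976854455859) (nat_lit 2) (nat_lit 5) (nat_lit 4) (nat_lit 4) (nat_lit 2) (nat_lit 4) (nat_lit 291) (nat_lit 255) (nat_lit 114)) (XT.lf (nat_lit 0) (nat_lit 13460834330218) (nat_lit 152) (nat_lit 4049003878571) (nat_lit 0) (nat_lit 12335688986848) (nat_lit 2) (nat_lit 5) (nat_lit 4) (nat_lit 4) (nat_lit 2) (nat_lit 4) (nat_lit 292) (nat_lit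 255) (nat_lit 113))) (XT.nd (nat_lit 78) (nat_lit 0) (nat_lit 0) (XT.lf (nat_lit 0) (nat_lit 16173494040740) (nat_lit 152) (nat_lit 2969498411115) (nat_lit 0) (nat_lit 15048348697017) (nat_lit 2) (nat_lit 5) (nat_lit 4) (nat_lit 4) (nat_lit 2) (nat_lit 4) (nat_lit 293) (nat_lit 255) (nat_lit 112)) (XT.lf (nat_lit 0) (nat_lit 19293052707335) (nat_lit 152) (nat_lit 1728067124530) (nat_lit 0) (nat_lit 18167907363306) (nat_lit 2) (nat_lit 5) (nat_lit 4) (nat_lit 4) (nat_lit 2) (nat_lit 4) (nat_lit 294) (nat_lit 255) (nat_lit 111)))) (XT.nd (nat_lit 31356) (nat_lit 0) (nat_lit 1216) (XT.nd (nat_lit 78) (nat_lit 76) (nat_lit 0) (XT.lf (nat_lit 0) (nat_lit 22880545173480) (nat_lit 152) (nat_lit 300421145817) (nat_lit 0) (nat_lit 21755399829184) (nat_lit 2) (nat_lit 5) (nat_lit 4) (nat_lit 4) (nat_lit 2) (nat_lit 4) (nat_lit 295) (nat_lit 255) (nat_lit 110)) (XT.lf (nat_lit 0) (nat_lit 1472460329738)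 (nat_lit 76) (nat_lit 25594672621651) (nat_lit 76) (nat_lit 24469527277123) (nat_lit 1) (nat_lit 4) (nat_lit 2) (nat_lit 5) (nat_lit 2) (nat_lit 4) (nat_lit 296) (nat_lit 255) (nat_lit 109))) (XT.nd (nat_lit 78) (nat_lit 0) (nat_lit 0) (XT.lf (nat_lit 0) (nat_lit 9474942646) (nat_lit 380) (nat_lit 151874683110) (nat_lit 380) (nat_lit 151874683110) (nat_lit 17) (nat_lit 3) (nat_lit 22) (nat_lit 3) (nat_lit 22) (nat_lit 5) (nat_lit 256) (nat_lit 256) (nat_lit 148)) (XT.lf (nat_lit 0) (nat_lit 20371274821) (nat_lit 380) (nat_lit 29671322611) (nat_lit 380) (nat_lit 623389643299) (nat_lit 17) (nat_lit 3) (nat_lit 22) (nat_lit 3) (nat_lit 22) (nat_lit 5) (nat_lit 257) (nat_lit 256) (nat_lit 147))))) (XT.nd (nat_lit 312) (nat_lit 456) (nat_lit 0) (XT.nd (nat_lit 156) (nat_lit 0) (nat_lit 76) (XT.nd (nat_lit 78) (nat_lit 0) (nat_lit 0) (XT.lf (nat_lit 0) (nat_lit 46513454684) (nat_lit 304)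 (nat_lit 423624845499) (nat_lit 380) (nat_lit 253648969908) (nat_lit 18) (nat_lit 5) (nat_lit 22) (nat_lit 5) (nat_lit 23) (nat_lit 5) (nat_lit 258) (nat_lit 256) (nat_lit 146)) (XT.lf (nat_lit 0) (nat_lit 80584777332) (nat_lit 304) (nat_lit 101113874446) (nat_lit 380) (nat_lit 599395729877) (nat_lit 18) (nat_lit 5) (nat_lit 22) (nat_lit 5) (nat_lit 23) (nat_lit 5) (nat_lit 259) (nat_lit 256) (nat_lit 145))) (XT.nd (nat_lit 78) (nat_lit 0) (nat_lit 0) (XT.lf (nat_lit 0) (nat_lit 138824613958) (nat_lit 304) (nat_lit 555815613894) (nat_lit 76) (nat_lit 149498659915) (nat_lit 19) (nat_lit 5) (nat_lit 23) (nat_lit 5) (nat_lit 20) (nat_lit 5) (nat_lit 260) (nat_lit 256) (nat_lit 144)) (XT.lf (nat_lit 0) (nat_lit 219989913145) (nat_lit 304) (nat_lit 177211455568) (nat_lit 76) (nat_lit 517310278154) (nat_lit 19) (nat_lit 5) (nat_lit 23) (nat_lit 5) (nat_lit 20) (nat_lit 5) (nat_lit 261) (nat_lit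 256) (nat_lit 143)))) (XT.nd (nat_lit 156) (nat_lit 228) (nat_lit 0) (XT.nd (nat_lit 78) (nat_lit 0) (nat_lit 0) (XT.lf (nat_lit 0) (nat_lit 283414861266) (nat_lit 304) (nat_lit 41650735271) (nat_lit 380) (nat_lit 668614385008) (nat_lit 15) (nat_lit 5) (nat_lit 19) (nat_lit 5) (nat_lit 20) (nat_lit 5) (nat_lit 262) (nat_lit 256) (nat_lit 142)) (XT.lf (nat_lit 0) (nat_lit 470813369386) (nat_lit 380) (nat_lit 265930233489) (nat_lit 76) (nat_lit 344243353106) (nat_lit 15) (nat_lit 5) (nat_lit 20) (nat_lit 5) (nat_lit 16) (nat_lit 5) (nat_lit 263) (nat_lit 256) (nat_lit 141))) (XT.nd (nat_lit 78) (nat_lit 76) (nat_lit 0) (XT.lf (nat_lit 0) (nat_lit 266826217792) (nat_lit 152) (nat_lit 384629150932) (nat_lit 228) (nat_lit 527979798860) (nat_lit 13) (nat_lit 5) (nat_lit 15) (nat_lit 5) (nat_lit 16) (nat_lit 5) (nat_lit 264) (nat_lit 256) (nat_lit 140)) (XT.nd (nat_lit 78) (nat_lit 76) (nat_lit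 0) (XT.lf (nat_lit 0) (nat_lit 874597184461) (nat_lit 228) (nat_lit 382685053135) (nat_lit 76) (nat_lit 33057845932) (nat_lit 13) (nat_lit 5) (nat_lit 16) (nat_lit 5) (nat_lit 14) (nat_lit 4) (nat_lit 265) (nat_lit 256) (nat_lit 139)) (XT.lf (nat_lit 0) (nat_lit 228779251052) (nat_lit 76) (nat_lit 930219946221) (nat_lit 152) (nat_lit 254713200948) (nat_lit 12) (nat_lit 5) (nat_lit 13) (nat_lit 5) (nat_lit 14) (nat_lit 4) (nat_lit 266) (nat_lit 256) (nat_lit 138))))))))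
noncomputable def xc113 : XT := (XT.nd (nat_lit 1326) (nat_lit 152) (nat_lit 0) (XT.nd (nat_lit 624) (nat_lit 152) (nat_lit 0) (XT.nd (nat_lit 312) (nat_lit 228) (nat_lit 0) (XT.nd (nat_lit 156) (nat_lit 0) (nat_lit 0) (XT.nd (nat_lit 78) (nat_lit 228) (nat_lit 0) (XT.lf (nat_lit 0) (nat_lit 974971768968) (nat_lit 76) (nat_lit 531093725155) (nat_lit 152) (nat_lit 46524468734) (nat_lit 12) (nat_lit 5) (nat_lit 13) (nat_lit 5) (nat_lit 14) (nat_lit 4) (nat_lit 267) (nat_lit 256) (nat_lit 137)) (XT.lf (nat_lit 0) (nat_lit 123831012767) (nat_lit 152) (nat_lit 57016499448) (nat_lit 228) (nat_lit 1529484424050) (nat_lit 9) (nat_lit 5) (nat_lit 11) (nat_lit 5) (nat_lit 12) (nat_lit 5) (nat_lit 268) (nat_lit 256) (nat_lit 136))) (XT.nd (nat_lit 78) (nat_lit 0) (nat_lit 0) (XT.lf (nat_lit 0) (nat_lit 489407709675) (nat_lit 228) (nat_lit 915659577605) (nat_lit 76) (nat_lit 478558754990) (nat_lit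 9) (nat_lit 5) (nat_lit 12) (nat_lit 5) (nat_lit 10) (nat_lit 4) (nat_lit 269) (nat_lit 256) (nat_lit 135)) (XT.lf (nat_lit 0) (nat_lit 846967001139) (nat_lit 228) (nat_lit 146907112572) (nat_lit 76) (nat_lit 1088632890839) (nat_lit 9) (nat_lit 5) (nat_lit 12) (nat_lit 5) (nat_lit 10) (nat_lit 4) (nat_lit 270) (nat_lit 256) (nat_lit 134)))) (XT.nd (nat_lit 156) (nat_lit 152) (nat_lit 0) (XT.nd (nat_lit 78) (nat_lit 0) (nat_lit 0) (XT.lf (nat_lit 0) (nat_lit 809198674016) (nat_lit 76) (nat_lit 482468697674) (nat_lit 152) (nat_lit 1014526661704) (nat_lit 8) (nat_lit 5) (nat_lit 9) (nat_lit 5) (nat_lit 10) (nat_lit 4) (nat_lit 271) (nat_lit 256) (nat_lit 133)) (XT.lf (nat_lit 0) (nat_lit 1815492344238) (nat_lit 152) (nat_lit 641791873456) (nat_lit 0) (nat_lit 104286966933) (nat_lit 8) (nat_lit 5) (nat_lit 10) (nat_lit 4) (nat_lit 8) (nat_lit 4) (nat_lit 272) (nat_lit 256) (nat_lit 132)))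 (XT.nd (nat_lit 78) (nat_lit 76) (nat_lit 0) (XT.lf (nat_lit 0) (nat_lit 349864811525) (nat_lit 76) (nat_lit 2105488101702) (nat_lit 76) (nat_lit 394282717757) (nat_lit 7) (nat_lit 4) (nat_lit 8) (nat_lit 5) (nat_lit 8) (nat_lit 4) (nat_lit 273) (nat_lit 256) (nat_lit 131)) (XT.lf (nat_lit 0) (nat_lit 44513115672) (nat_lit 152) (nat_lit 1615502191024) (nat_lit 76) (nat_lit 1515558708081) (nat_lit 6) (nat_lit 5) (nat_lit 8) (nat_lit 5) (nat_lit 7) (nat_lit 4) (nat_lit 274) (nat_lit 256) (nat_lit 130))))) (XT.nd (nat_lit 312) (nat_lit 76) (nat_lit 0) (XT.nd (nat_lit 156) (nat_lit 0) (nat_lit 0) (XT.nd (nat_lit 78) (nat_lit 76) (nat_lit 0) (XT.lf (nat_lit 0) (nat_lit 508761279602) (nat_lit 152) (nat_lit 617368643593) (nat_lit 76) (nat_lit 2421456928484) (nat_lit 6) (nat_lit 5) (nat_lit 8) (nat_lit 5) (nat_lit 7) (nat_lit 4) (nat_lit 275) (nat_lit 256) (nat_lit 129)) (XT.lf (nat_lit 0)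 (nat_lit 582327774559) (nat_lit 76) (nat_lit 484431841098) (nat_lit 152) (nat_lit 2905025056342) (nat_lit 5) (nat_lit 5) (nat_lit 6) (nat_lit 5) (nat_lit 7) (nat_lit 4) (nat_lit 276) (nat_lit 256) (nat_lit 128))) (XT.nd (nat_lit 78) (nat_lit 0) (nat_lit 0) (XT.lf (nat_lit 0) (nat_lit 1752763743343) (nat_lit 152) (nat_lit 2435443470684) (nat_lit 0) (nat_lit 264759045167) (nat_lit 5) (nat_lit 5) (nat_lit 7) (nat_lit 4) (nat_lit 5) (nat_lit 4) (nat_lit 277) (nat_lit 256) (nat_lit 127)) (XT.lf (nat_lit 0) (nat_lit 2564736669888) (nat_lit 152) (nat_lit 1361396218793) (nat_lit 0) (nat_lit 1076731968841) (nat_lit 5) (nat_lit 5) (nat_lit 7) (nat_lit 4) (nat_lit 5) (nat_lit 4) (nat_lit 278) (nat_lit 256) (nat_lit 126)))) (XT.nd (nat_lit 156) (nat_lit 0) (nat_lit 0) (XT.nd (nat_lit 78) (nat_lit 76) (nat_lit 0) (XT.lf (nat_lit 0) (nat_lit 3498505532629) (nat_lit 152) (nat_lit 126241884310) (nat_lit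 0) (nat_lit 2010500829086) (nat_lit 5) (nat_lit 5) (nat_lit 7) (nat_lit 4) (nat_lit 5) (nat_lit 4) (nat_lit 279) (nat_lit 256) (nat_lit 125)) (XT.lf (nat_lit 0) (nat_lit 1420662824514) (nat_lit 76) (nat_lit 3210503515837) (nat_lit 76) (nat_lit 1722498810124) (nat_lit 4) (nat_lit 4) (nat_lit 5) (nat_lit 5) (nat_lit 5) (nat_lit 4) (nat_lit 280) (nat_lit 256) (nat_lit 124))) (XT.nd (nat_lit 78) (nat_lit 0) (nat_lit 0) (XT.lf (nat_lit 0) (nat_lit 3213791101669) (nat_lit 76) (nat_lit 2726534172867) (nat_lit 76) (nat_lit 1238529465266) (nat_lit 4) (nat_lit 4) (nat_lit 5) (nat_lit 5) (nat_lit 5) (nat_lit 4) (nat_lit 281) (nat_lit 256) (nat_lit 123)) (XT.nd (nat_lit 78) (nat_lit 0) (nat_lit 0) (XT.lf (nat_lit 0) (nat_lit 5275888616651) (nat_lit 76) (nat_lit 2169969430211) (nat_lit 76) (nat_lit 681964720969) (nat_lit 4) (nat_lit 4) (nat_lit 5) (nat_lit 5) (nat_lit 5) (nat_lit 4) (nat_lit 282)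 (nat_lit 256) (nat_lit 122)) (XT.lf (nat_lit 0) (nat_lit 7647300755622) (nat_lit 76) (nat_lit 1529919977688) (nat_lit 76) (nat_lit 41915267019) (nat_lit 4) (nat_lit 4) (nat_lit 5) (nat_lit 5) (nat_lit 5) (nat_lit 4) (nat_lit 283) (nat_lit 256) (nat_lit 121))))))) (XT.nd (nat_lit 624) (nat_lit 0) (nat_lit 0) (XT.nd (nat_lit 312) (nat_lit 0) (nat_lit 0) (XT.nd (nat_lit 156) (nat_lit 0) (nat_lit 0) (XT.nd (nat_lit 78) (nat_lit 76) (nat_lit 0) (XT.lf (nat_lit 0) (nat_lit 632344317698) (nat_lit 152) (nat_lit 128464428858) (nat_lit 76) (nat_lit 9709026032846) (nat_lit 3) (nat_lit 5) (nat_lit 5) (nat_lit 5) (nat_lit 4) (nat_lit 4) (nat_lit 284) (nat_lit 256) (nat_lit 120)) (XT.lf (nat_lit 0) (nat_lit 1481496771593) (nat_lit 152) (nat_lit 10227055790654) (nat_lit 0) (nat_lit 187579629863) (nat_lit 2) (nat_lit 5) (nat_lit 4) (nat_lit 4) (nat_lit 2) (nat_lit 4) (nat_lit 285) (nat_lit 256) (nat_lit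 119))) (XT.nd (nat_lit 78) (nat_lit 0) (nat_lit 0) (XT.lf (nat_lit 0) (nat_lit 2501286036977) (nat_lit 152) (nat_lit 9821229693808) (nat_lit 0) (nat_lit 1207368894431) (nat_lit 2) (nat_lit 5) (nat_lit 4) (nat_lit 4) (nat_lit 2) (nat_lit 4) (nat_lit 286) (nat_lit 256) (nat_lit 118)) (XT.lf (nat_lit 0) (nat_lit 3674043690999) (nat_lit 152) (nat_lit 9354529684721) (nat_lit 0) (nat_lit 2380126547743) (nat_lit 2) (nat_lit 5) (nat_lit 4) (nat_lit 4) (nat_lit 2) (nat_lit 4) (nat_lit 287) (nat_lit 256) (nat_lit 117)))) (XT.nd (nat_lit 156) (nat_lit 0) (nat_lit 0) (XT.nd (nat_lit 78) (nat_lit 0) (nat_lit 0) (XT.lf (nat_lit 0) (nat_lit 5022714992108) (nat_lit 152) (nat_lit 8817824676261) (nat_lit 0) (nat_lit 3728797848235) (nat_lit 2) (nat_lit 5) (nat_lit 4) (nat_lit 4) (nat_lit 2) (nat_lit 4) (nat_lit 288) (nat_lit 256) (nat_lit 116)) (XT.lf (nat_lit 0) (nat_lit 6573686987499) (nat_lit 152)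 (nat_lit 8200613918261) (nat_lit 0) (nat_lit 5279769843090) (nat_lit 2) (nat_lit 5) (nat_lit 4) (nat_lit 4) (nat_lit 2) (nat_lit 4) (nat_lit 289) (nat_lit 256) (nat_lit 115))) (XT.nd (nat_lit 78) (nat_lit 0) (nat_lit 0) (XT.lf (nat_lit 0) (nat_lit 8357304781430) (nat_lit 152) (nat_lit 7490821548066) (nat_lit 0) (nat_lit 7063387636555) (nat_lit 2) (nat_lit 5) (nat_lit 4) (nat_lit 4) (nat_lit 2) (nat_lit 4) (nat_lit 290) (nat_lit 256) (nat_lit 114)) (XT.lf (nat_lit 0) (nat_lit 10408465243783) (nat_lit 152) (nat_lit 6674560323648) (nat_lit 0) (nat_lit 9114548098501) (nat_lit 2) (nat_lit 5) (nat_lit 4) (nat_lit 4) (nat_lit 2) (nat_lit 4) (nat_lit 291) (nat_lit 256) (nat_lit 113))))) (XT.nd (nat_lit 31668) (nat_lit 0) (nat_lit 1140) (XT.nd (nat_lit 156) (nat_lit 0) (nat_lit 0) (XT.nd (nat_lit 78) (nat_lit 0) (nat_lit 0) (XT.lf (nat_lit 0) (nat_lit 12767299774907) (nat_lit 152) (nat_lit 5735859916705)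 (nat_lit 0) (nat_lit 11473382629273) (nat_lit 2) (nat_lit 5) (nat_lit 4) (nat_lit 4) (nat_lit 2) (nat_lit 4) (nat_lit 292) (nat_lit 256) (nat_lit 112)) (XT.lf (nat_lit 0) (nat_lit 15479959485194) (nat_lit 152) (nat_lit 4656354449710) (nat_lit 0) (nat_lit 14186042339253) (nat_lit 2) (nat_lit 5) (nat_lit 4) (nat_lit 4) (nat_lit 2) (nat_lit 4) (nat_lit 293) (nat_lit 256) (nat_lit 111))) (XT.nd (nat_lit 78) (nat_lit 0) (nat_lit 0) (XT.lf (nat_lit 0) (nat_lit 18599518151584) (nat_lit 152) (nat_lit 3414923163524) (nat_lit 0) (nat_lit 17305601005377) (nat_lit 2) (nat_lit 5) (nat_lit 4) (nat_lit 4) (nat_lit 2) (nat_lit 4) (nat_lit 294) (nat_lit 256) (nat_lit 110)) (XT.lf (nat_lit 0) (nat_lit 22187010617551) (nat_lit 152) (nat_lit 1987277185159) (nat_lit 0) (nat_lit 20893093471111) (nat_lit 2) (nat_lit 5) (nat_lit 4) (nat_lit 4) (nat_lit 2) (nat_lit 4) (nat_lit 295) (nat_lit 256) (nat_lit 109))))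 (XT.nd (nat_lit 156) (nat_lit 0) (nat_lit 76) (XT.nd (nat_lit 78) (nat_lit 0) (nat_lit 0) (XT.lf (nat_lit 0) (nat_lit 10896326040) (nat_lit 380) (nat_lit 174655803395) (nat_lit 380) (nat_lit 174655803395) (nat_lit 17) (nat_lit 3) (nat_lit 22) (nat_lit 3) (nat_lit 22) (nat_lit 5) (nat_lit 257) (nat_lit 257) (nat_lit 146)) (XT.lf (nat_lit 0) (nat_lit 23427212996) (nat_lit 380) (nat_lit 34121878078) (nat_lit 380) (nat_lit 716897946869) (nat_lit 17) (nat_lit 3) (nat_lit 22) (nat_lit 3) (nat_lit 22) (nat_lit 5) (nat_lit 258) (nat_lit 257) (nat_lit 145))) (XT.nd (nat_lit 78) (nat_lit 0) (nat_lit 0) (XT.lf (nat_lit 0) (nat_lit 53490689800) (nat_lit 304) (nat_lit 487168397747) (nat_lit 380) (nat_lit 291696238907) (nat_lit 18) (nat_lit 5) (nat_lit 22) (nat_lit 5) (nat_lit 23) (nat_lit 5) (nat_lit 259) (nat_lit 257) (nat_lit 144)) (XT.nd (nat_lit 78) (nat_lit 0) (nat_lit 76) (XT.lf (nat_lit 0)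 (nat_lit 92672682552) (nat_lit 304) (nat_lit 116280803807) (nat_lit 380) (nat_lit 689305022848) (nat_lit 18) (nat_lit 5) (nat_lit 22) (nat_lit 5) (nat_lit 23) (nat_lit 5) (nat_lit 260) (nat_lit 257) (nat_lit 143)) (XT.lf (nat_lit 0) (nat_lit 159648475030) (nat_lit 304) (nat_lit 639187783310) (nat_lit 76) (nat_lit 171923436026) (nat_lit 19) (nat_lit 5) (nat_lit 23) (nat_lit 5) (nat_lit 20) (nat_lit 5) (nat_lit 261) (nat_lit 257) (nat_lit 142))))))))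
noncomputable def xc114 : XT := (XT.nd (nat_lit 1326) (nat_lit 304) (nat_lit 0) (XT.nd (nat_lit 624) (nat_lit 304) (nat_lit 0) (XT.nd (nat_lit 312) (nat_lit 304) (nat_lit 0) (XT.nd (nat_lit 156) (nat_lit 152) (nat_lit 0) (XT.nd (nat_lit 78) (nat_lit 304) (nat_lit 0) (XT.lf (nat_lit 0) (nat_lit 252988547054) (nat_lit 304) (nat_lit 203793023756) (nat_lit 76) (nat_lit 594906799985) (nat_lit 19) (nat_lit 5) (nat_lit 23) (nat_lit 5) (nat_lit 20) (nat_lit 5) (nat_lit 262) (nat_lit 257) (nat_lit 141)) (XT.lf (nat_lit 0) (nat_lit 325927233778) (nat_lit 304) (nat_lit 47898335946) (nat_lit 380) (nat_lit 768906388074) (nat_lit 15) (nat_lit 5) (nat_lit 19) (nat_lit 5) (nat_lit 20) (nat_lit 5) (nat_lit 263) (nat_lit 257) (nat_lit 140))) (XT.nd (nat_lit 78) (nat_lit 152) (nat_lit 0) (XT.lf (nat_lit 0) (nat_lit 541435491407) (nat_lit 380) (nat_lit 305819625989) (nat_lit 76) (nat_lit 395879863689)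 (nat_lit 15) (nat_lit 5) (nat_lit 20) (nat_lit 5) (nat_lit 16) (nat_lit 5) (nat_lit 264) (nat_lit 257) (nat_lit 139)) (XT.lf (nat_lit 0) (nat_lit 306850286506) (nat_lit 152) (nat_lit 442323494563) (nat_lit 228) (nat_lit 607176644901) (nat_lit 13) (nat_lit 5) (nat_lit 15) (nat_lit 5) (nat_lit 16) (nat_lit 5) (nat_lit 265) (nat_lit 257) (nat_lit 138)))) (XT.nd (nat_lit 156) (nat_lit 228) (nat_lit 0) (XT.nd (nat_lit 78) (nat_lit 76) (nat_lit 0) (XT.lf (nat_lit 0) (nat_lit 1005786856250) (nat_lit 228) (nat_lit 440087679282) (nat_lit 76) (nat_lit 38016545802) (nat_lit 13) (nat_lit 5) (nat_lit 16) (nat_lit 5) (nat_lit 14) (nat_lit 4) (nat_lit 266) (nat_lit 257) (nat_lit 137)) (XT.lf (nat_lit 0) (nat_lit 263096264541) (nat_lit 76) (nat_lit 1069752899376) (nat_lit 152) (nat_lit 292920080452) (nat_lit 12) (nat_lit 5) (nat_lit 13) (nat_lit 5) (nat_lit 14) (nat_lit 4) (nat_lit 267) (nat_lit 257)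 (nat_lit 136))) (XT.nd (nat_lit 78) (nat_lit 228) (nat_lit 0) (XT.lf (nat_lit 0) (nat_lit 1121217643732) (nat_lit 76) (nat_lit 610757750208) (nat_lit 152) (nat_lit 53503051532) (nat_lit 12) (nat_lit 5) (nat_lit 13) (nat_lit 5) (nat_lit 14) (nat_lit 4) (nat_lit 268) (nat_lit 257) (nat_lit 135)) (XT.lf (nat_lit 0) (nat_lit 142405776944) (nat_lit 152) (nat_lit 65568936074) (nat_lit 228) (nat_lit 1758907002244) (nat_lit 9) (nat_lit 5) (nat_lit 11) (nat_lit 5) (nat_lit 12) (nat_lit 5) (nat_lit 269) (nat_lit 257) (nat_lit 134))))) (XT.nd (nat_lit 312) (nat_lit 228) (nat_lit 0) (XT.nd (nat_lit 156) (nat_lit 76) (nat_lit 0) (XT.nd (nat_lit 78) (nat_lit 0) (nat_lit 0) (XT.lf (nat_lit 0) (nat_lit 562818931828) (nat_lit 228) (nat_lit 1053008408055) (nat_lit 76) (nat_lit 550342598571) (nat_lit 9) (nat_lit 5) (nat_lit 12) (nat_lit 5) (nat_lit 10) (nat_lit 4) (nat_lit 270) (nat_lit 257) (nat_lit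 133)) (XT.lf (nat_lit 0) (nat_lit 974012108441) (nat_lit 228) (nat_lit 168943087118) (nat_lit 76) (nat_lit 1251927850842) (nat_lit 9) (nat_lit 5) (nat_lit 12) (nat_lit 5) (nat_lit 10) (nat_lit 4) (nat_lit 271) (nat_lit 257) (nat_lit 132))) (XT.nd (nat_lit 78) (nat_lit 0) (nat_lit 0) (XT.lf (nat_lit 0) (nat_lit 930578563261) (nat_lit 76) (nat_lit 554838967513) (nat_lit 152) (nat_lit 1166705599403) (nat_lit 8) (nat_lit 5) (nat_lit 9) (nat_lit 5) (nat_lit 10) (nat_lit 4) (nat_lit 272) (nat_lit 257) (nat_lit 131)) (XT.lf (nat_lit 0) (nat_lit 2087816243501) (nat_lit 152) (nat_lit 738060571928) (nat_lit 0) (nat_lit 119930039550) (nat_lit 8) (nat_lit 5) (nat_lit 10) (nat_lit 4) (nat_lit 8) (nat_lit 4) (nat_lit 273) (nat_lit 257) (nat_lit 130)))) (XT.nd (nat_lit 156) (nat_lit 76) (nat_lit 0) (XT.nd (nat_lit 78) (nat_lit 76) (nat_lit 0) (XT.lf (nat_lit 0) (nat_lit 402344612048) (nat_lit 76)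 (nat_lit 2421311282840) (nat_lit 76) (nat_lit 453425073869) (nat_lit 7) (nat_lit 4) (nat_lit 8) (nat_lit 5) (nat_lit 8) (nat_lit 4) (nat_lit 274) (nat_lit 257) (nat_lit 129)) (XT.lf (nat_lit 0) (nat_lit 51190123859) (nat_lit 152) (nat_lit 1857827447039) (nat_lit 76) (nat_lit 1742892539839) (nat_lit 6) (nat_lit 5) (nat_lit 8) (nat_lit 5) (nat_lit 7) (nat_lit 4) (nat_lit 275) (nat_lit 257) (nat_lit 128))) (XT.nd (nat_lit 78) (nat_lit 76) (nat_lit 0) (XT.lf (nat_lit 0) (nat_lit 585075507053) (nat_lit 152) (nat_lit 709973876969) (nat_lit 76) (nat_lit 2784675489970) (nat_lit 6) (nat_lit 5) (nat_lit 8) (nat_lit 5) (nat_lit 7) (nat_lit 4) (nat_lit 276) (nat_lit 257) (nat_lit 127)) (XT.nd (nat_lit 78) (nat_lit 0) (nat_lit 0) (XT.lf (nat_lit 0) (nat_lit 669677001035) (nat_lit 76) (nat_lit 557096590346) (nat_lit 152) (nat_lit 3340778776314) (nat_lit 5) (nat_lit 5) (nat_lit 6) (nat_lit 5) (nat_lit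 7) (nat_lit 4) (nat_lit 277) (nat_lit 257) (nat_lit 126)) (XT.lf (nat_lit 0) (nat_lit 2015678334836) (nat_lit 152) (nat_lit 2800759935389) (nat_lit 0) (nat_lit 304472923265) (nat_lit 5) (nat_lit 5) (nat_lit 7) (nat_lit 4) (nat_lit 5) (nat_lit 4) (nat_lit 278) (nat_lit 257) (nat_lit 125))))))) (XT.nd (nat_lit 624) (nat_lit 76) (nat_lit 0) (XT.nd (nat_lit 312) (nat_lit 152) (nat_lit 0) (XT.nd (nat_lit 156) (nat_lit 76) (nat_lit 0) (XT.nd (nat_lit 78) (nat_lit 0) (nat_lit 0) (XT.lf (nat_lit 0) (nat_lit 2949447196450) (nat_lit 152) (nat_lit 1565605603006) (nat_lit 0) (nat_lit 1238241782709) (nat_lit 5) (nat_lit 5) (nat_lit 7) (nat_lit 4) (nat_lit 5) (nat_lit 4) (nat_lit 279) (nat_lit 257) (nat_lit 124)) (XT.lf (nat_lit 0) (nat_lit 4023281385201) (nat_lit 152) (nat_lit 145178124690) (nat_lit 0) (nat_lit 2312075969572) (nat_lit 5) (nat_lit 5) (nat_lit 7) (nat_lit 4) (nat_lit 5) (nat_lit 4)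 (nat_lit 280) (nat_lit 257) (nat_lit 123))) (XT.nd (nat_lit 78) (nat_lit 0) (nat_lit 0) (XT.lf (nat_lit 0) (nat_lit 1633762288536) (nat_lit 76) (nat_lit 3692079024257) (nat_lit 76) (nat_lit 1980873606988) (nat_lit 4) (nat_lit 4) (nat_lit 5) (nat_lit 5) (nat_lit 5) (nat_lit 4) (nat_lit 281) (nat_lit 257) (nat_lit 122)) (XT.lf (nat_lit 0) (nat_lit 3695859802003) (nat_lit 76) (nat_lit 3135514282314) (nat_lit 76) (nat_lit 1424308863617) (nat_lit 4) (nat_lit 4) (nat_lit 5) (nat_lit 5) (nat_lit 5) (nat_lit 4) (nat_lit 282) (nat_lit 257) (nat_lit 121)))) (XT.nd (nat_lit 156) (nat_lit 152) (nat_lit 0) (XT.nd (nat_lit 78) (nat_lit 0) (nat_lit 0) (XT.lf (nat_lit 0) (nat_lit 6067271939656) (nat_lit 76) (nat_lit 2495464830410) (nat_lit 76) (nat_lit 784259410472) (nat_lit 4) (nat_lit 4) (nat_lit 5) (nat_lit 5) (nat_lit 5) (nat_lit 4) (nat_lit 283) (nat_lit 257) (nat_lit 120)) (XT.lf (nat_lit 0)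 (nat_lit 8794395895494) (nat_lit 76) (nat_lit 1759407961878) (nat_lit 76) (nat_lit 48202540861) (nat_lit 4) (nat_lit 4) (nat_lit 5) (nat_lit 5) (nat_lit 5) (nat_lit 4) (nat_lit 284) (nat_lit 257) (nat_lit 119))) (XT.nd (nat_lit 78) (nat_lit 76) (nat_lit 0) (XT.lf (nat_lit 0) (nat_lit 727195978194) (nat_lit 152) (nat_lit 147734068836) (nat_lit 76) (nat_lit 11165379947328) (nat_lit 3) (nat_lit 5) (nat_lit 5) (nat_lit 5) (nat_lit 4) (nat_lit 4) (nat_lit 285) (nat_lit 257) (nat_lit 118)) (XT.lf (nat_lit 0) (nat_lit 1703721299921) (nat_lit 152) (nat_lit 11761114134625) (nat_lit 0) (nat_lit 215716584468) (nat_lit 2) (nat_lit 5) (nat_lit 4) (nat_lit 4) (nat_lit 2) (nat_lit 4) (nat_lit 286) (nat_lit 257) (nat_lit 117))))) (XT.nd (nat_lit 390) (nat_lit 76) (nat_lit 0) (XT.nd (nat_lit 234) (nat_lit 0) (nat_lit 0) (XT.nd (nat_lit 156) (nat_lit 0) (nat_lit 0) (XT.lf (nat_lit 0) (nat_lit 2876478953470)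 (nat_lit 152) (nat_lit 11294414126464) (nat_lit 0) (nat_lit 1388474237400) (nat_lit 2) (nat_lit 5) (nat_lit 4) (nat_lit 4) (nat_lit 2) (nat_lit 4) (nat_lit 287) (nat_lit 257) (nat_lit 116)) (XT.lf (nat_lit 0) (nat_lit 5776122249202) (nat_lit 152) (nat_lit 10140498361508) (nat_lit 0) (nat_lit 4288117532128) (nat_lit 2) (nat_lit 5) (nat_lit 4) (nat_lit 4) (nat_lit 2) (nat_lit 4) (nat_lit 289) (nat_lit 257) (nat_lit 114))) (XT.nd (nat_lit 78) (nat_lit 0) (nat_lit 0) (XT.lf (nat_lit 0) (nat_lit 7559740042822) (nat_lit 152) (nat_lit 9430705991920) (nat_lit 0) (nat_lit 6071735325343) (nat_lit 2) (nat_lit 5) (nat_lit 4) (nat_lit 4) (nat_lit 2) (nat_lit 4) (nat_lit 290) (nat_lit 257) (nat_lit 113)) (XT.lf (nat_lit 0) (nat_lit 9610900504904) (nat_lit 152) (nat_lit 8614444768031) (nat_lit 0) (nat_lit 8122895787072) (nat_lit 2) (nat_lit 5) (nat_lit 4) (nat_lit 4) (nat_lit 2) (nat_lit 4) (nat_lit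 291) (nat_lit 257) (nat_lit 112)))) (XT.nd (nat_lit 702) (nat_lit 0) (nat_lit 0) (XT.nd (nat_lit 624) (nat_lit 76) (nat_lit 0) (XT.lf (nat_lit 0) (nat_lit 11969735035793) (nat_lit 152) (nat_lit 7675744361548) (nat_lit 0) (nat_lit 10481730317654) (nat_lit 2) (nat_lit 5) (nat_lit 4) (nat_lit 4) (nat_lit 2) (nat_lit 4) (nat_lit 292) (nat_lit 257) (nat_lit 111)) (XT.lf (nat_lit 0) (nat_lit 7840442241181) (nat_lit 76) (nat_lit 41690137852017) (nat_lit 76) (nat_lit 40202133132502) (nat_lit 1) (nat_lit 4) (nat_lit 2) (nat_lit 5) (nat_lit 2) (nat_lit 4) (nat_lit 300) (nat_lit 257) (nat_lit 103))) (XT.nd (nat_lit 78) (nat_lit 0) (nat_lit 0) (XT.lf (nat_lit 0) (nat_lit 11465392253486) (nat_lit 76) (nat_lit 46513377357204) (nat_lit 76) (nat_lit 45025372637602) (nat_lit 1) (nat_lit 4) (nat_lit 2) (nat_lit 5) (nat_lit 2) (nat_lit 4) (nat_lit 301) (nat_lit 257) (nat_lit 102)) (XT.nd (nat_lit 30966)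 (nat_lit 0) (nat_lit 1216) (XT.lf (nat_lit 0) (nat_lit 15634084767369) (nat_lit 76) (nat_lit 52060102788302) (nat_lit 76) (nat_lit 50572098068623) (nat_lit 1) (nat_lit 4) (nat_lit 2) (nat_lit 5) (nat_lit 2) (nat_lit 4) (nat_lit 302) (nat_lit 257) (nat_lit 101)) (XT.lf (nat_lit 0) (nat_lit 12530882317) (nat_lit 380) (nat_lit 200854111763) (nat_lit 380) (nat_lit 200854111763) (nat_lit 17) (nat_lit 3) (nat_lit 22) (nat_lit 3) (nat_lit 22) (nat_lit 5) (nat_lit 258) (nat_lit 258) (nat_lit 144))))))))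
noncomputable def xc115 : XT := (XT.nd (nat_lit 1326) (nat_lit 456) (nat_lit 0) (XT.nd (nat_lit 624) (nat_lit 456) (nat_lit 0) (XT.nd (nat_lit 312) (nat_lit 304) (nat_lit 0) (XT.nd (nat_lit 156) (nat_lit 0) (nat_lit 76) (XT.nd (nat_lit 78) (nat_lit 0) (nat_lit 76) (XT.lf (nat_lit 0) (nat_lit 26941481676) (nat_lit 380) (nat_lit 39240051718) (nat_lit 380) (nat_lit 824432530828) (nat_lit 17) (nat_lit 3) (nat_lit 22) (nat_lit 3) (nat_lit 22) (nat_lit 5) (nat_lit 259) (nat_lit 258) (nat_lit 143)) (XT.lf (nat_lit 0) (nat_lit 61514457287) (nat_lit 304) (nat_lit 560243525403) (nat_lit 380) (nat_lit 335450616909) (nat_lit 18) (nat_lit 5) (nat_lit 22) (nat_lit 5) (nat_lit 23) (nat_lit 5) (nat_lit 260) (nat_lit 258) (nat_lit 142))) (XT.nd (nat_lit 78) (nat_lit 0) (nat_lit 76) (XT.lf (nat_lit 0) (nat_lit 106573727559) (nat_lit 304) (nat_lit 133722809591) (nat_lit 380) (nat_lit 792700725985) (nat_lit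 18) (nat_lit 5) (nat_lit 22) (nat_lit 5) (nat_lit 23) (nat_lit 5) (nat_lit 261) (nat_lit 258) (nat_lit 141)) (XT.lf (nat_lit 0) (nat_lit 183595874056) (nat_lit 304) (nat_lit 735065820244) (nat_lit 76) (nat_lit 197711934132) (nat_lit 19) (nat_lit 5) (nat_lit 23) (nat_lit 5) (nat_lit 20) (nat_lit 5) (nat_lit 262) (nat_lit 258) (nat_lit 140)))) (XT.nd (nat_lit 156) (nat_lit 152) (nat_lit 0) (XT.nd (nat_lit 78) (nat_lit 304) (nat_lit 0) (XT.lf (nat_lit 0) (nat_lit 290936940218) (nat_lit 304) (nat_lit 234361863788) (nat_lit 76) (nat_lit 684142804941) (nat_lit 19) (nat_lit 5) (nat_lit 23) (nat_lit 5) (nat_lit 20) (nat_lit 5) (nat_lit 263) (nat_lit 258) (nat_lit 139)) (XT.lf (nat_lit 0) (nat_lit 374816427216) (nat_lit 304) (nat_lit 55083079067) (nat_lit 380) (nat_lit 884242229322) (nat_lit 15) (nat_lit 5) (nat_lit 19) (nat_lit 5) (nat_lit 20) (nat_lit 5) (nat_lit 264) (nat_lit 258) (nat_lit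 138))) (XT.nd (nat_lit 78) (nat_lit 152) (nat_lit 0) (XT.lf (nat_lit 0) (nat_lit 622650903294) (nat_lit 380) (nat_lit 351692462119) (nat_lit 76) (nat_lit 455261849002) (nat_lit 15) (nat_lit 5) (nat_lit 20) (nat_lit 5) (nat_lit 16) (nat_lit 5) (nat_lit 265) (nat_lit 258) (nat_lit 137)) (XT.lf (nat_lit 0) (nat_lit 352877932351) (nat_lit 152) (nat_lit 508671996812) (nat_lit 228) (nat_lit 698253048035) (nat_lit 13) (nat_lit 5) (nat_lit 15) (nat_lit 5) (nat_lit 16) (nat_lit 5) (nat_lit 266) (nat_lit 258) (nat_lit 136))))) (XT.nd (nat_lit 312) (nat_lit 152) (nat_lit 0) (XT.nd (nat_lit 156) (nat_lit 228) (nat_lit 0) (XT.nd (nat_lit 78) (nat_lit 76) (nat_lit 0) (XT.lf (nat_lit 0) (nat_lit 1156654955855) (nat_lit 228) (nat_lit 506100731497) (nat_lit 76) (nat_lit 43719045049) (nat_lit 13) (nat_lit 5) (nat_lit 16) (nat_lit 5) (nat_lit 14) (nat_lit 4) (nat_lit 267) (nat_lit 258) (nat_lit 135))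 (XT.lf (nat_lit 0) (nat_lit 302560799369) (nat_lit 76) (nat_lit 1230215804961) (nat_lit 152) (nat_lit 336858016423) (nat_lit 12) (nat_lit 5) (nat_lit 13) (nat_lit 5) (nat_lit 14) (nat_lit 4) (nat_lit 268) (nat_lit 258) (nat_lit 134))) (XT.nd (nat_lit 78) (nat_lit 228) (nat_lit 0) (XT.lf (nat_lit 0) (nat_lit 1289400373028) (nat_lit 76) (nat_lit 702371387242) (nat_lit 152) (nat_lit 61528443091) (nat_lit 12) (nat_lit 5) (nat_lit 13) (nat_lit 5) (nat_lit 14) (nat_lit 4) (nat_lit 269) (nat_lit 258) (nat_lit 133)) (XT.lf (nat_lit 0) (nat_lit 163766728373) (nat_lit 152) (nat_lit 75404247531) (nat_lit 228) (nat_lit 2022742987996) (nat_lit 9) (nat_lit 5) (nat_lit 11) (nat_lit 5) (nat_lit 12) (nat_lit 5) (nat_lit 270) (nat_lit 258) (nat_lit 132)))) (XT.nd (nat_lit 156) (nat_lit 152) (nat_lit 0) (XT.nd (nat_lit 78) (nat_lit 0) (nat_lit 0) (XT.lf (nat_lit 0) (nat_lit 647241821281) (nat_lit 228)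 (nat_lit 1210959588968) (nat_lit 76) (nat_lit 632894011292) (nat_lit 9) (nat_lit 5) (nat_lit 12) (nat_lit 5) (nat_lit 10) (nat_lit 4) (nat_lit 271) (nat_lit 258) (nat_lit 131)) (XT.lf (nat_lit 0) (nat_lit 1120113967907) (nat_lit 228) (nat_lit 194284480363) (nat_lit 76) (nat_lit 1439717048412) (nat_lit 9) (nat_lit 5) (nat_lit 12) (nat_lit 5) (nat_lit 10) (nat_lit 4) (nat_lit 272) (nat_lit 258) (nat_lit 130))) (XT.nd (nat_lit 78) (nat_lit 76) (nat_lit 0) (XT.lf (nat_lit 0) (nat_lit 1070165414398) (nat_lit 76) (nat_lit 638064786316) (nat_lit 152) (nat_lit 1341711392768) (nat_lit 8) (nat_lit 5) (nat_lit 9) (nat_lit 5) (nat_lit 10) (nat_lit 4) (nat_lit 273) (nat_lit 258) (nat_lit 129)) (XT.nd (nat_lit 78) (nat_lit 76) (nat_lit 0) (XT.lf (nat_lit 0) (nat_lit 2400988716039) (nat_lit 152) (nat_lit 848769595301) (nat_lit 0) (nat_lit 137919566335) (nat_lit 8) (nat_lit 5) (nat_lit 10) (nat_lit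 4) (nat_lit 8) (nat_lit 4) (nat_lit 274) (nat_lit 258) (nat_lit 128)) (XT.lf (nat_lit 0) (nat_lit 462696363435) (nat_lit 76) (nat_lit 2784507949469) (nat_lit 76) (nat_lit 521438795969) (nat_lit 7) (nat_lit 4) (nat_lit 8) (nat_lit 5) (nat_lit 8) (nat_lit 4) (nat_lit 275) (nat_lit 258) (nat_lit 127))))))) (XT.nd (nat_lit 624) (nat_lit 228) (nat_lit 0) (XT.nd (nat_lit 312) (nat_lit 76) (nat_lit 0) (XT.nd (nat_lit 156) (nat_lit 76) (nat_lit 0) (XT.nd (nat_lit 78) (nat_lit 0) (nat_lit 0) (XT.lf (nat_lit 0) (nat_lit 58868673316) (nat_lit 152) (nat_lit 2136501509171) (nat_lit 76) (nat_lit 2004326440131) (nat_lit 6) (nat_lit 5) (nat_lit 8) (nat_lit 5) (nat_lit 7) (nat_lit 4) (nat_lit 276) (nat_lit 258) (nat_lit 126)) (XT.lf (nat_lit 0) (nat_lit 672836859961) (nat_lit 152) (nat_lit 816469910754) (nat_lit 76) (nat_lit 3202376830262) (nat_lit 6) (nat_lit 5) (nat_lit 8) (nat_lit 5) (nat_lit 7)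 (nat_lit 4) (nat_lit 277) (nat_lit 258) (nat_lit 125))) (XT.nd (nat_lit 78) (nat_lit 0) (nat_lit 0) (XT.lf (nat_lit 0) (nat_lit 770128596780) (nat_lit 76) (nat_lit 640661058544) (nat_lit 152) (nat_lit 3841895563665) (nat_lit 5) (nat_lit 5) (nat_lit 6) (nat_lit 5) (nat_lit 7) (nat_lit 4) (nat_lit 278) (nat_lit 258) (nat_lit 124)) (XT.lf (nat_lit 0) (nat_lit 2318030107738) (nat_lit 152) (nat_lit 3220873883431) (nat_lit 0) (nat_lit 350143877878) (nat_lit 5) (nat_lit 5) (nat_lit 7) (nat_lit 4) (nat_lit 5) (nat_lit 4) (nat_lit 279) (nat_lit 258) (nat_lit 123)))) (XT.nd (nat_lit 156) (nat_lit 76) (nat_lit 0) (XT.nd (nat_lit 78) (nat_lit 0) (nat_lit 0) (XT.lf (nat_lit 0) (nat_lit 3391864295637) (nat_lit 152) (nat_lit 1800446406703) (nat_lit 0) (nat_lit 1423978064136) (nat_lit 5) (nat_lit 5) (nat_lit 7) (nat_lit 4) (nat_lit 5) (nat_lit 4) (nat_lit 280) (nat_lit 258) (nat_lit 122)) (XT.lf (nat_lit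 0) (nat_lit 4626773610128) (nat_lit 152) (nat_lit 166954811434) (nat_lit 0) (nat_lit 2658887377200) (nat_lit 5) (nat_lit 5) (nat_lit 7) (nat_lit 4) (nat_lit 5) (nat_lit 4) (nat_lit 281) (nat_lit 258) (nat_lit 121))) (XT.nd (nat_lit 78) (nat_lit 0) (nat_lit 0) (XT.lf (nat_lit 0) (nat_lit 1878826662324) (nat_lit 76) (nat_lit 4245890863563) (nat_lit 76) (nat_lit 2278004629393) (nat_lit 4) (nat_lit 4) (nat_lit 5) (nat_lit 5) (nat_lit 5) (nat_lit 4) (nat_lit 282) (nat_lit 258) (nat_lit 120)) (XT.lf (nat_lit 0) (nat_lit 4250238798831) (nat_lit 76) (nat_lit 3605841412197) (nat_lit 76) (nat_lit 1637955176949) (nat_lit 4) (nat_lit 4) (nat_lit 5) (nat_lit 5) (nat_lit 5) (nat_lit 4) (nat_lit 283) (nat_lit 258) (nat_lit 119))))) (XT.nd (nat_lit 1170) (nat_lit 76) (nat_lit 0) (XT.nd (nat_lit 156) (nat_lit 152) (nat_lit 0) (XT.nd (nat_lit 78) (nat_lit 0) (nat_lit 0) (XT.lf (nat_lit 0) (nat_lit 6977362753672)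 (nat_lit 76) (nat_lit 2869784544134) (nat_lit 76) (nat_lit 901898307946) (nat_lit 4) (nat_lit 4) (nat_lit 5) (nat_lit 5) (nat_lit 5) (nat_lit 4) (nat_lit 284) (nat_lit 258) (nat_lit 118)) (XT.lf (nat_lit 0) (nat_lit 10113555299877) (nat_lit 76) (nat_lit 2023319146736) (nat_lit 76) (nat_lit 55432909732) (nat_lit 4) (nat_lit 4) (nat_lit 5) (nat_lit 5) (nat_lit 5) (nat_lit 4) (nat_lit 285) (nat_lit 258) (nat_lit 117))) (XT.nd (nat_lit 78) (nat_lit 76) (nat_lit 0) (XT.lf (nat_lit 0) (nat_lit 836275384634) (nat_lit 152) (nat_lit 169894160749) (nat_lit 76) (nat_lit 12840186946652) (nat_lit 3) (nat_lit 5) (nat_lit 5) (nat_lit 5) (nat_lit 4) (nat_lit 4) (nat_lit 286) (nat_lit 258) (nat_lit 116)) (XT.lf (nat_lit 0) (nat_lit 1959279504428) (nat_lit 152) (nat_lit 13525281236197) (nat_lit 0) (nat_lit 248074079794) (nat_lit 2) (nat_lit 5) (nat_lit 4) (nat_lit 4) (nat_lit 2) (nat_lit 4) (nat_lit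 287) (nat_lit 258) (nat_lit 115)))) (XT.nd (nat_lit 156) (nat_lit 0) (nat_lit 0) (XT.nd (nat_lit 78) (nat_lit 0) (nat_lit 0) (XT.lf (nat_lit 0) (nat_lit 2239428122459) (nat_lit 76) (nat_lit 38926297714350) (nat_lit 76) (nat_lit 37215092286807) (nat_lit 1) (nat_lit 4) (nat_lit 2) (nat_lit 5) (nat_lit 2) (nat_lit 4) (nat_lit 299) (nat_lit 258) (nat_lit 103)) (XT.lf (nat_lit 0) (nat_lit 5391558568067) (nat_lit 76) (nat_lit 43120419023147) (nat_lit 76) (nat_lit 41409213595517) (nat_lit 1) (nat_lit 4) (nat_lit 2) (nat_lit 5) (nat_lit 2) (nat_lit 4) (nat_lit 300) (nat_lit 258) (nat_lit 102))) (XT.nd (nat_lit 78) (nat_lit 0) (nat_lit 0) (XT.lf (nat_lit 0) (nat_lit 9016508580247) (nat_lit 76) (nat_lit 47943658528395) (nat_lit 76) (nat_lit 46232453100690) (nat_lit 1) (nat_lit 4) (nat_lit 2) (nat_lit 5) (nat_lit 2) (nat_lit 4) (nat_lit 301) (nat_lit 258) (nat_lit 101)) (XT.nd (nat_lit 31044)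 (nat_lit 0) (nat_lit 1216) (XT.lf (nat_lit 0) (nat_lit 13185201094021) (nat_lit 76) (nat_lit 53490383959547) (nat_lit 76) (nat_lit 51779178531775) (nat_lit 1) (nat_lit 4) (nat_lit 2) (nat_lit 5) (nat_lit 2) (nat_lit 4) (nat_lit 302) (nat_lit 258) (nat_lit 100)) (XT.lf (nat_lit 0) (nat_lit 14410595852) (nat_lit 380) (nat_lit 230982181539) (nat_lit 380) (nat_lit 230982181539) (nat_lit 17) (nat_lit 3) (nat_lit 22) (nat_lit 3) (nat_lit 22) (nat_lit 5) (nat_lit 259) (nat_lit 259) (nat_lit 142))))))))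
noncomputable def xc116 : XT := (XT.nd (nat_lit 1326) (nat_lit 456) (nat_lit 0) (XT.nd (nat_lit 624) (nat_lit 456) (nat_lit 0) (XT.nd (nat_lit 312) (nat_lit 304) (nat_lit 0) (XT.nd (nat_lit 156) (nat_lit 0) (nat_lit 76) (XT.nd (nat_lit 78) (nat_lit 0) (nat_lit 76) (XT.lf (nat_lit 0) (nat_lit 30982845123) (nat_lit 380) (nat_lit 45125977758) (nat_lit 380) (nat_lit 948097328734) (nat_lit 17) (nat_lit 3) (nat_lit 22) (nat_lit 3) (nat_lit 22) (nat_lit 5) (nat_lit 260) (nat_lit 259) (nat_lit 141)) (XT.lf (nat_lit 0) (nat_lit 70741749901) (nat_lit 304) (nat_lit 644279954399) (nat_lit 380) (nat_lit 385768165714) (nat_lit 18) (nat_lit 5) (nat_lit 22) (nat_lit 5) (nat_lit 23) (nat_lit 5) (nat_lit 261) (nat_lit 259) (nat_lit 140))) (XT.nd (nat_lit 78) (nat_lit 0) (nat_lit 76) (XT.lf (nat_lit 0) (nat_lit 122559894537) (nat_lit 304) (nat_lit 153781144234) (nat_lit 380) (nat_lit 911605796855) (nat_lit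 18) (nat_lit 5) (nat_lit 22) (nat_lit 5) (nat_lit 23) (nat_lit 5) (nat_lit 262) (nat_lit 259) (nat_lit 139)) (XT.lf (nat_lit 0) (nat_lit 211135351778) (nat_lit 304) (nat_lit 845325594557) (nat_lit 76) (nat_lit 227368711173) (nat_lit 19) (nat_lit 5) (nat_lit 23) (nat_lit 5) (nat_lit 20) (nat_lit 5) (nat_lit 263) (nat_lit 259) (nat_lit 138)))) (XT.nd (nat_lit 156) (nat_lit 152) (nat_lit 0) (XT.nd (nat_lit 78) (nat_lit 304) (nat_lit 0) (XT.lf (nat_lit 0) (nat_lit 334577565263) (nat_lit 304) (nat_lit 269516057509) (nat_lit 76) (nat_lit 786764214309) (nat_lit 19) (nat_lit 5) (nat_lit 23) (nat_lit 5) (nat_lit 20) (nat_lit 5) (nat_lit 264) (nat_lit 259) (nat_lit 137)) (XT.lf (nat_lit 0) (nat_lit 431038973243) (nat_lit 304) (nat_lit 63345535430) (nat_lit 380) (nat_lit 1016878475279) (nat_lit 15) (nat_lit 5) (nat_lit 19) (nat_lit 5) (nat_lit 20) (nat_lit 5) (nat_lit 265) (nat_lit 259) (nat_lit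 136))) (XT.nd (nat_lit 78) (nat_lit 152) (nat_lit 0) (XT.lf (nat_lit 0) (nat_lit 716048605461) (nat_lit 380) (nat_lit 404446249949) (nat_lit 76) (nat_lit 523551130707) (nat_lit 15) (nat_lit 5) (nat_lit 20) (nat_lit 5) (nat_lit 16) (nat_lit 5) (nat_lit 266) (nat_lit 259) (nat_lit 135)) (XT.lf (nat_lit 0) (nat_lit 405809699988) (nat_lit 152) (nat_lit 584972779747) (nat_lit 228) (nat_lit 802990934464) (nat_lit 13) (nat_lit 5) (nat_lit 15) (nat_lit 5) (nat_lit 16) (nat_lit 5) (nat_lit 267) (nat_lit 259) (nat_lit 134))))) (XT.nd (nat_lit 312) (nat_lit 152) (nat_lit 0) (XT.nd (nat_lit 156) (nat_lit 228) (nat_lit 0) (XT.nd (nat_lit 78) (nat_lit 76) (nat_lit 0) (XT.lf (nat_lit 0) (nat_lit 1330153253046) (nat_lit 228) (nat_lit 582015765851) (nat_lit 76) (nat_lit 50276914945) (nat_lit 13) (nat_lit 5) (nat_lit 16) (nat_lit 5) (nat_lit 14) (nat_lit 4) (nat_lit 268) (nat_lit 259) (nat_lit 133))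 (XT.lf (nat_lit 0) (nat_lit 347944991218) (nat_lit 76) (nat_lit 1414748153533) (nat_lit 152) (nat_lit 387386661346) (nat_lit 12) (nat_lit 5) (nat_lit 13) (nat_lit 5) (nat_lit 14) (nat_lit 4) (nat_lit 269) (nat_lit 259) (nat_lit 132))) (XT.nd (nat_lit 78) (nat_lit 228) (nat_lit 0) (XT.lf (nat_lit 0) (nat_lit 1482810491542) (nat_lit 76) (nat_lit 807727076049) (nat_lit 152) (nat_lit 70757659520) (nat_lit 12) (nat_lit 5) (nat_lit 13) (nat_lit 5) (nat_lit 14) (nat_lit 4) (nat_lit 270) (nat_lit 259) (nat_lit 131)) (XT.lf (nat_lit 0) (nat_lit 188331801815) (nat_lit 152) (nat_lit 86714862768) (nat_lit 228) (nat_lit 2326154387360) (nat_lit 9) (nat_lit 5) (nat_lit 11) (nat_lit 5) (nat_lit 12) (nat_lit 5) (nat_lit 271) (nat_lit 259) (nat_lit 130)))) (XT.nd (nat_lit 156) (nat_lit 152) (nat_lit 0) (XT.nd (nat_lit 78) (nat_lit 0) (nat_lit 0) (XT.lf (nat_lit 0) (nat_lit 744328132039) (nat_lit 228)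 (nat_lit 1392603466599) (nat_lit 76) (nat_lit 727828130329) (nat_lit 9) (nat_lit 5) (nat_lit 12) (nat_lit 5) (nat_lit 10) (nat_lit 4) (nat_lit 272) (nat_lit 259) (nat_lit 129)) (XT.lf (nat_lit 0) (nat_lit 1288131095758) (nat_lit 228) (nat_lit 223427099622) (nat_lit 76) (nat_lit 1655674620755) (nat_lit 9) (nat_lit 5) (nat_lit 12) (nat_lit 5) (nat_lit 10) (nat_lit 4) (nat_lit 273) (nat_lit 259) (nat_lit 128))) (XT.nd (nat_lit 78) (nat_lit 76) (nat_lit 0) (XT.lf (nat_lit 0) (nat_lit 1230690276954) (nat_lit 76) (nat_lit 733774484359) (nat_lit 152) (nat_lit 1542968066487) (nat_lit 8) (nat_lit 5) (nat_lit 9) (nat_lit 5) (nat_lit 10) (nat_lit 4) (nat_lit 274) (nat_lit 259) (nat_lit 127)) (XT.nd (nat_lit 78) (nat_lit 76) (nat_lit 0) (XT.lf (nat_lit 0) (nat_lit 2761137050676) (nat_lit 152) (nat_lit 976084987400) (nat_lit 0) (nat_lit 158607517053) (nat_lit 8) (nat_lit 5) (nat_lit 10) (nat_lit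 4) (nat_lit 8) (nat_lit 4) (nat_lit 275) (nat_lit 259) (nat_lit 126)) (XT.lf (nat_lit 0) (nat_lit 532100863002) (nat_lit 76) (nat_lit 3202184122383) (nat_lit 76) (nat_lit 599654585890) (nat_lit 7) (nat_lit 4) (nat_lit 8) (nat_lit 5) (nat_lit 8) (nat_lit 4) (nat_lit 276) (nat_lit 259) (nat_lit 125))))))) (XT.nd (nat_lit 624) (nat_lit 228) (nat_lit 0) (XT.nd (nat_lit 312) (nat_lit 76) (nat_lit 0) (XT.nd (nat_lit 156) (nat_lit 76) (nat_lit 0) (XT.nd (nat_lit 78) (nat_lit 0) (nat_lit 0) (XT.lf (nat_lit 0) (nat_lit 67698997662) (nat_lit 152) (nat_lit 2456976694015) (nat_lit 76) (nat_lit 2304975420757) (nat_lit 6) (nat_lit 5) (nat_lit 8) (nat_lit 5) (nat_lit 7) (nat_lit 4) (nat_lit 277) (nat_lit 259) (nat_lit 124)) (XT.lf (nat_lit 0) (nat_lit 773762409259) (nat_lit 152) (nat_lit 938940361253) (nat_lit 76) (nat_lit 3682733367502) (nat_lit 6) (nat_lit 5) (nat_lit 8) (nat_lit 5) (nat_lit 7)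 (nat_lit 4) (nat_lit 278) (nat_lit 259) (nat_lit 123))) (XT.nd (nat_lit 78) (nat_lit 0) (nat_lit 0) (XT.lf (nat_lit 0) (nat_lit 885647920770) (nat_lit 76) (nat_lit 736760201935) (nat_lit 152) (nat_lit 4418179876214) (nat_lit 5) (nat_lit 5) (nat_lit 6) (nat_lit 5) (nat_lit 7) (nat_lit 4) (nat_lit 279) (nat_lit 259) (nat_lit 122)) (XT.lf (nat_lit 0) (nat_lit 2665734641046) (nat_lit 152) (nat_lit 3704004933985) (nat_lit 0) (nat_lit 402665471751) (nat_lit 5) (nat_lit 5) (nat_lit 7) (nat_lit 4) (nat_lit 5) (nat_lit 4) (nat_lit 280) (nat_lit 259) (nat_lit 121)))) (XT.nd (nat_lit 156) (nat_lit 76) (nat_lit 0) (XT.nd (nat_lit 78) (nat_lit 0) (nat_lit 0) (XT.lf (nat_lit 0) (nat_lit 3900643954893) (nat_lit 152) (nat_lit 2070513339917) (nat_lit 0) (nat_lit 1637574784357) (nat_lit 5) (nat_lit 5) (nat_lit 7) (nat_lit 4) (nat_lit 5) (nat_lit 4) (nat_lit 281) (nat_lit 259) (nat_lit 120)) (XT.lf (nat_lit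 0) (nat_lit 5320789664613) (nat_lit 152) (nat_lit 191998008983) (nat_lit 0) (nat_lit 3057720492998) (nat_lit 5) (nat_lit 5) (nat_lit 7) (nat_lit 4) (nat_lit 5) (nat_lit 4) (nat_lit 282) (nat_lit 259) (nat_lit 119))) (XT.nd (nat_lit 78) (nat_lit 0) (nat_lit 0) (XT.lf (nat_lit 0) (nat_lit 2160650684740) (nat_lit 76) (nat_lit 4882774482260) (nat_lit 76) (nat_lit 2619705309706) (nat_lit 4) (nat_lit 4) (nat_lit 5) (nat_lit 5) (nat_lit 5) (nat_lit 4) (nat_lit 283) (nat_lit 259) (nat_lit 118)) (XT.lf (nat_lit 0) (nat_lit 4887774638715) (nat_lit 76) (nat_lit 4146717614603) (nat_lit 76) (nat_lit 1883648441233) (nat_lit 4) (nat_lit 4) (nat_lit 5) (nat_lit 5) (nat_lit 5) (nat_lit 4) (nat_lit 284) (nat_lit 259) (nat_lit 117))))) (XT.nd (nat_lit 1092) (nat_lit 76) (nat_lit 0) (XT.nd (nat_lit 156) (nat_lit 152) (nat_lit 0) (XT.nd (nat_lit 78) (nat_lit 0) (nat_lit 0) (XT.lf (nat_lit 0) (nat_lit 8023967184166)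 (nat_lit 76) (nat_lit 3300252217559) (nat_lit 76) (nat_lit 1037183043480) (nat_lit 4) (nat_lit 4) (nat_lit 5) (nat_lit 5) (nat_lit 5) (nat_lit 4) (nat_lit 285) (nat_lit 259) (nat_lit 116)) (XT.lf (nat_lit 0) (nat_lit 11630588610026) (nat_lit 76) (nat_lit 2326817011620) (nat_lit 76) (nat_lit 63747836924) (nat_lit 4) (nat_lit 4) (nat_lit 5) (nat_lit 5) (nat_lit 5) (nat_lit 4) (nat_lit 286) (nat_lit 259) (nat_lit 115))) (XT.nd (nat_lit 858) (nat_lit 76) (nat_lit 0) (XT.lf (nat_lit 0) (nat_lit 961716699671) (nat_lit 152) (nat_lit 195378270938) (nat_lit 76) (nat_lit 14766214994113) (nat_lit 3) (nat_lit 5) (nat_lit 5) (nat_lit 5) (nat_lit 4) (nat_lit 4) (nat_lit 287) (nat_lit 259) (nat_lit 114)) (XT.lf (nat_lit 0) (nat_lit 33743669781569) (nat_lit 152) (nat_lit 3022400172155) (nat_lit 0) (nat_lit 31775783539794) (nat_lit 2) (nat_lit 5) (nat_lit 4) (nat_lit 4) (nat_lit 2) (nat_lit 4) (nat_lit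 298) (nat_lit 259) (nat_lit 103)))) (XT.nd (nat_lit 156) (nat_lit 0) (nat_lit 0) (XT.nd (nat_lit 78) (nat_lit 76) (nat_lit 0) (XT.lf (nat_lit 0) (nat_lit 40018216524746) (nat_lit 152) (nat_lit 525438436390) (nat_lit 0) (nat_lit 38050330282884) (nat_lit 2) (nat_lit 5) (nat_lit 4) (nat_lit 4) (nat_lit 2) (nat_lit 4) (nat_lit 299) (nat_lit 259) (nat_lit 102)) (XT.lf (nat_lit 0) (nat_lit 2575342343717) (nat_lit 76) (nat_lit 44765242370078) (nat_lit 76) (nat_lit 42797356128141) (nat_lit 1) (nat_lit 4) (nat_lit 2) (nat_lit 5) (nat_lit 2) (nat_lit 4) (nat_lit 300) (nat_lit 259) (nat_lit 101))) (XT.nd (nat_lit 78) (nat_lit 0) (nat_lit 0) (XT.lf (nat_lit 0) (nat_lit 6200292355789) (nat_lit 76) (nat_lit 49588481875381) (nat_lit 76) (nat_lit 47620595633377) (nat_lit 1) (nat_lit 4) (nat_lit 2) (nat_lit 5) (nat_lit 2) (nat_lit 4) (nat_lit 301) (nat_lit 259) (nat_lit 100)) (XT.nd (nat_lit 31122)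 (nat_lit 0) (nat_lit 1216) (XT.lf (nat_lit 0) (nat_lit 10368984869469) (nat_lit 76) (nat_lit 55135207306578) (nat_lit 76) (nat_lit 53167321064517) (nat_lit 1) (nat_lit 4) (nat_lit 2) (nat_lit 5) (nat_lit 2) (nat_lit 4) (nat_lit 302) (nat_lit 259) (nat_lit 99)) (XT.lf (nat_lit 0) (nat_lit 16572246619) (nat_lit 380) (nat_lit 265629473241) (nat_lit 380) (nat_lit 265629473241) (nat_lit 17) (nat_lit 3) (nat_lit 22) (nat_lit 3) (nat_lit 22) (nat_lit 5) (nat_lit 260) (nat_lit 260) (nat_lit 140))))))))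
noncomputable def xc117 : XT := (XT.nd (nat_lit 1326) (nat_lit 456) (nat_lit 0) (XT.nd (nat_lit 624) (nat_lit 456) (nat_lit 0) (XT.nd (nat_lit 312) (nat_lit 304) (nat_lit 0) (XT.nd (nat_lit 156) (nat_lit 0) (nat_lit 76) (XT.nd (nat_lit 78) (nat_lit 0) (nat_lit 76) (XT.lf (nat_lit 0) (nat_lit 35630378655) (nat_lit 380) (nat_lit 51894812631) (nat_lit 380) (nat_lit 1090311866254) (nat_lit 17) (nat_lit 3) (nat_lit 22) (nat_lit 3) (nat_lit 22) (nat_lit 5) (nat_lit 261) (nat_lit 260) (nat_lit 139)) (XT.lf (nat_lit 0) (nat_lit 81353106164) (nat_lit 304) (nat_lit 740921872085) (nat_lit 380) (nat_lit 443633357503) (nat_lit 18) (nat_lit 5) (nat_lit 22) (nat_lit 5) (nat_lit 23) (nat_lit 5) (nat_lit 262) (nat_lit 260) (nat_lit 138))) (XT.nd (nat_lit 78) (nat_lit 0) (nat_lit 76) (XT.lf (nat_lit 0) (nat_lit 140943960263) (nat_lit 304) (nat_lit 176848250239) (nat_lit 380) (nat_lit 1048346637629) (nat_lit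 18) (nat_lit 5) (nat_lit 22) (nat_lit 5) (nat_lit 23) (nat_lit 5) (nat_lit 263) (nat_lit 260) (nat_lit 137)) (XT.lf (nat_lit 0) (nat_lit 242805727599) (nat_lit 304) (nat_lit 972124359091) (nat_lit 76) (nat_lit 261474007959) (nat_lit 19) (nat_lit 5) (nat_lit 23) (nat_lit 5) (nat_lit 20) (nat_lit 5) (nat_lit 264) (nat_lit 260) (nat_lit 136)))) (XT.nd (nat_lit 156) (nat_lit 152) (nat_lit 0) (XT.nd (nat_lit 78) (nat_lit 304) (nat_lit 0) (XT.lf (nat_lit 0) (nat_lit 384764263577) (nat_lit 304) (nat_lit 309943401223) (nat_lit 76) (nat_lit 904778837855) (nat_lit 19) (nat_lit 5) (nat_lit 23) (nat_lit 5) (nat_lit 20) (nat_lit 5) (nat_lit 265) (nat_lit 260) (nat_lit 135)) (XT.lf (nat_lit 0) (nat_lit 495694881192) (nat_lit 304) (nat_lit 72847361587) (nat_lit 380) (nat_lit 1169410179696) (nat_lit 15) (nat_lit 5) (nat_lit 19) (nat_lit 5) (nat_lit 20) (nat_lit 5) (nat_lit 266) (nat_lit 260) (nat_lit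 134))) (XT.nd (nat_lit 78) (nat_lit 152) (nat_lit 0) (XT.lf (nat_lit 0) (nat_lit 823455946696) (nat_lit 380) (nat_lit 465113125825) (nat_lit 76) (nat_lit 602083803606) (nat_lit 15) (nat_lit 5) (nat_lit 20) (nat_lit 5) (nat_lit 16) (nat_lit 5) (nat_lit 267) (nat_lit 260) (nat_lit 133)) (XT.lf (nat_lit 0) (nat_lit 466681213803) (nat_lit 152) (nat_lit 672718684168) (nat_lit 228) (nat_lit 923439521116) (nat_lit 13) (nat_lit 5) (nat_lit 15) (nat_lit 5) (nat_lit 16) (nat_lit 5) (nat_lit 268) (nat_lit 260) (nat_lit 132))))) (XT.nd (nat_lit 312) (nat_lit 152) (nat_lit 0) (XT.nd (nat_lit 156) (nat_lit 228) (nat_lit 0) (XT.nd (nat_lit 78) (nat_lit 76) (nat_lit 0) (XT.lf (nat_lit 0) (nat_lit 1529676281693) (nat_lit 228) (nat_lit 669318073738) (nat_lit 76) (nat_lit 57818462122) (nat_lit 13) (nat_lit 5) (nat_lit 16) (nat_lit 5) (nat_lit 14) (nat_lit 4) (nat_lit 269) (nat_lit 260) (nat_lit 131))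 (XT.lf (nat_lit 0) (nat_lit 400136794302) (nat_lit 76) (nat_lit 1626960359798) (nat_lit 152) (nat_lit 445494617040) (nat_lit 12) (nat_lit 5) (nat_lit 13) (nat_lit 5) (nat_lit 14) (nat_lit 4) (nat_lit 270) (nat_lit 260) (nat_lit 130))) (XT.nd (nat_lit 78) (nat_lit 228) (nat_lit 0) (XT.lf (nat_lit 0) (nat_lit 1705232112578) (nat_lit 76) (nat_lit 928886122878) (nat_lit 152) (nat_lit 81371270614) (nat_lit 12) (nat_lit 5) (nat_lit 13) (nat_lit 5) (nat_lit 14) (nat_lit 4) (nat_lit 271) (nat_lit 260) (nat_lit 129)) (XT.lf (nat_lit 0) (nat_lit 216581620621) (nat_lit 152) (nat_lit 99722075628) (nat_lit 228) (nat_lit 2675077508538) (nat_lit 9) (nat_lit 5) (nat_lit 11) (nat_lit 5) (nat_lit 12) (nat_lit 5) (nat_lit 272) (nat_lit 260) (nat_lit 128)))) (XT.nd (nat_lit 156) (nat_lit 152) (nat_lit 0) (XT.nd (nat_lit 78) (nat_lit 0) (nat_lit 0) (XT.lf (nat_lit 0) (nat_lit 855977380249) (nat_lit 228)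 (nat_lit 1601493940679) (nat_lit 76) (nat_lit 837002362992) (nat_lit 9) (nat_lit 5) (nat_lit 12) (nat_lit 5) (nat_lit 10) (nat_lit 4) (nat_lit 273) (nat_lit 260) (nat_lit 127)) (XT.lf (nat_lit 0) (nat_lit 1481350784822) (nat_lit 228) (nat_lit 256941124645) (nat_lit 76) (nat_lit 1904025825271) (nat_lit 9) (nat_lit 5) (nat_lit 12) (nat_lit 5) (nat_lit 10) (nat_lit 4) (nat_lit 274) (nat_lit 260) (nat_lit 126))) (XT.nd (nat_lit 78) (nat_lit 76) (nat_lit 0) (XT.lf (nat_lit 0) (nat_lit 1415293856603) (nat_lit 76) (nat_lit 843840641962) (nat_lit 152) (nat_lit 1774413249848) (nat_lit 8) (nat_lit 5) (nat_lit 9) (nat_lit 5) (nat_lit 10) (nat_lit 4) (nat_lit 275) (nat_lit 260) (nat_lit 125)) (XT.nd (nat_lit 78) (nat_lit 76) (nat_lit 0) (XT.lf (nat_lit 0) (nat_lit 3175307628868) (nat_lit 152) (nat_lit 1122497699823) (nat_lit 0) (nat_lit 182398656533) (nat_lit 8) (nat_lit 5) (nat_lit 10) (nat_lit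 4) (nat_lit 8) (nat_lit 4) (nat_lit 276) (nat_lit 260) (nat_lit 124)) (XT.lf (nat_lit 0) (nat_lit 611916026517) (nat_lit 76) (nat_lit 3682511725991) (nat_lit 76) (nat_lit 689602751486) (nat_lit 7) (nat_lit 4) (nat_lit 8) (nat_lit 5) (nat_lit 8) (nat_lit 4) (nat_lit 277) (nat_lit 260) (nat_lit 123))))))) (XT.nd (nat_lit 624) (nat_lit 228) (nat_lit 0) (XT.nd (nat_lit 312) (nat_lit 76) (nat_lit 0) (XT.nd (nat_lit 156) (nat_lit 76) (nat_lit 0) (XT.nd (nat_lit 78) (nat_lit 0) (nat_lit 0) (XT.lf (nat_lit 0) (nat_lit 77853864966) (nat_lit 152) (nat_lit 2825523166714) (nat_lit 76) (nat_lit 2650721744914) (nat_lit 6) (nat_lit 5) (nat_lit 8) (nat_lit 5) (nat_lit 7) (nat_lit 4) (nat_lit 278) (nat_lit 260) (nat_lit 122)) (XT.lf (nat_lit 0) (nat_lit 889826785999) (nat_lit 152) (nat_lit 1079781388134) (nat_lit 76) (nat_lit 4235143382231) (nat_lit 6) (nat_lit 5) (nat_lit 8) (nat_lit 5) (nat_lit 7)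 (nat_lit 4) (nat_lit 279) (nat_lit 260) (nat_lit 121))) (XT.nd (nat_lit 78) (nat_lit 0) (nat_lit 0) (XT.lf (nat_lit 0) (nat_lit 1018495134951) (nat_lit 76) (nat_lit 847274220589) (nat_lit 152) (nat_lit 5080906841010) (nat_lit 5) (nat_lit 5) (nat_lit 6) (nat_lit 5) (nat_lit 7) (nat_lit 4) (nat_lit 280) (nat_lit 260) (nat_lit 120)) (XT.lf (nat_lit 0) (nat_lit 3065594850169) (nat_lit 152) (nat_lit 4259605649917) (nat_lit 0) (nat_lit 463065301733) (nat_lit 5) (nat_lit 5) (nat_lit 7) (nat_lit 4) (nat_lit 5) (nat_lit 4) (nat_lit 281) (nat_lit 260) (nat_lit 119)))) (XT.nd (nat_lit 156) (nat_lit 76) (nat_lit 0) (XT.nd (nat_lit 78) (nat_lit 0) (nat_lit 0) (XT.lf (nat_lit 0) (nat_lit 4485740559402) (nat_lit 152) (nat_lit 2381090319890) (nat_lit 0) (nat_lit 1883211010027) (nat_lit 5) (nat_lit 5) (nat_lit 7) (nat_lit 4) (nat_lit 5) (nat_lit 4) (nat_lit 282) (nat_lit 260) (nat_lit 118)) (XT.lf (nat_lit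 0) (nat_lit 6118908124109) (nat_lit 152) (nat_lit 220797692057) (nat_lit 0) (nat_lit 3516378573918) (nat_lit 5) (nat_lit 5) (nat_lit 7) (nat_lit 4) (nat_lit 5) (nat_lit 4) (nat_lit 283) (nat_lit 260) (nat_lit 117))) (XT.nd (nat_lit 78) (nat_lit 0) (nat_lit 0) (XT.lf (nat_lit 0) (nat_lit 2484748304894) (nat_lit 76) (nat_lit 5615190646404) (nat_lit 76) (nat_lit 3012661095503) (nat_lit 4) (nat_lit 4) (nat_lit 5) (nat_lit 5) (nat_lit 5) (nat_lit 4) (nat_lit 284) (nat_lit 260) (nat_lit 116)) (XT.lf (nat_lit 0) (nat_lit 5620940849690) (nat_lit 76) (nat_lit 4768725249667) (nat_lit 76) (nat_lit 2166195698150) (nat_lit 4) (nat_lit 4) (nat_lit 5) (nat_lit 5) (nat_lit 5) (nat_lit 4) (nat_lit 285) (nat_lit 260) (nat_lit 115))))) (XT.nd (nat_lit 1014) (nat_lit 76) (nat_lit 0) (XT.nd (nat_lit 858) (nat_lit 152) (nat_lit 0) (XT.nd (nat_lit 78) (nat_lit 0) (nat_lit 0) (XT.lf (nat_lit 0) (nat_lit 9227562274980)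 (nat_lit 76) (nat_lit 3795290043996) (nat_lit 76) (nat_lit 1192760491942) (nat_lit 4) (nat_lit 4) (nat_lit 5) (nat_lit 5) (nat_lit 5) (nat_lit 4) (nat_lit 286) (nat_lit 260) (nat_lit 114)) (XT.lf (nat_lit 0) (nat_lit 13375176912998) (nat_lit 76) (nat_lit 2675839557975) (nat_lit 76) (nat_lit 73310005454) (nat_lit 4) (nat_lit 4) (nat_lit 5) (nat_lit 5) (nat_lit 5) (nat_lit 4) (nat_lit 287) (nat_lit 260) (nat_lit 113))) (XT.nd (nat_lit 78) (nat_lit 0) (nat_lit 0) (XT.lf (nat_lit 0) (nat_lit 27074545904211) (nat_lit 152) (nat_lit 8143993005689) (nat_lit 0) (nat_lit 24811476726069) (nat_lit 2) (nat_lit 5) (nat_lit 4) (nat_lit 4) (nat_lit 2) (nat_lit 4) (nat_lit 297) (nat_lit 260) (nat_lit 103)) (XT.lf (nat_lit 0) (nat_lit 32530673507031) (nat_lit 152) (nat_lit 5972721930997) (nat_lit 0) (nat_lit 30267604328803) (nat_lit 2) (nat_lit 5) (nat_lit 4) (nat_lit 4) (nat_lit 2) (nat_lit 4) (nat_lit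 298) (nat_lit 260) (nat_lit 102)))) (XT.nd (nat_lit 156) (nat_lit 76) (nat_lit 0) (XT.nd (nat_lit 78) (nat_lit 0) (nat_lit 0) (XT.lf (nat_lit 0) (nat_lit 38805220250150) (nat_lit 152) (nat_lit 3475760195346) (nat_lit 0) (nat_lit 36542151071846) (nat_lit 2) (nat_lit 5) (nat_lit 4) (nat_lit 4) (nat_lit 2) (nat_lit 4) (nat_lit 299) (nat_lit 260) (nat_lit 101)) (XT.lf (nat_lit 0) (nat_lit 46020949004627) (nat_lit 152) (nat_lit 604254199560) (nat_lit 0) (nat_lit 43757879826257) (nat_lit 2) (nat_lit 5) (nat_lit 4) (nat_lit 4) (nat_lit 2) (nat_lit 4) (nat_lit 300) (nat_lit 260) (nat_lit 100))) (XT.nd (nat_lit 78) (nat_lit 0) (nat_lit 0) (XT.lf (nat_lit 0) (nat_lit 2961643697460) (nat_lit 76) (nat_lit 51480028724514) (nat_lit 76) (nat_lit 49216959546086) (nat_lit 1) (nat_lit 4) (nat_lit 2) (nat_lit 5) (nat_lit 2) (nat_lit 4) (nat_lit 301) (nat_lit 260) (nat_lit 99)) (XT.nd (nat_lit 31200) (nat_lit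 0) (nat_lit 1216) (XT.lf (nat_lit 0) (nat_lit 7130336211057) (nat_lit 76) (nat_lit 57026754155751) (nat_lit 76) (nat_lit 54763684977274) (nat_lit 1) (nat_lit 4) (nat_lit 2) (nat_lit 5) (nat_lit 2) (nat_lit 4) (nat_lit 302) (nat_lit 260) (nat_lit 98)) (XT.lf (nat_lit 0) (nat_lit 19058130031) (nat_lit 380) (nat_lit 305473867362) (nat_lit 380) (nat_lit 305473867362) (nat_lit 17) (nat_lit 3) (nat_lit 22) (nat_lit 3) (nat_lit 22) (nat_lit 5) (nat_lit 261) (nat_lit 261) (nat_lit 138))))))))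
noncomputable def xc118 : XT := (XT.nd (nat_lit 1326) (nat_lit 380) (nat_lit 0) (XT.nd (nat_lit 624) (nat_lit 456) (nat_lit 0) (XT.nd (nat_lit 312) (nat_lit 304) (nat_lit 0) (XT.nd (nat_lit 156) (nat_lit 0) (nat_lit 76) (XT.nd (nat_lit 78) (nat_lit 0) (nat_lit 76) (XT.lf (nat_lit 0) (nat_lit 40975016183) (nat_lit 380) (nat_lit 59678987803) (nat_lit 380) (nat_lit 1253858599469) (nat_lit 17) (nat_lit 3) (nat_lit 22) (nat_lit 3) (nat_lit 22) (nat_lit 5) (nat_lit 262) (nat_lit 261) (nat_lit 137)) (XT.lf (nat_lit 0) (nat_lit 93556142997) (nat_lit 304) (nat_lit 852060095828) (nat_lit 380) (nat_lit 510178336125) (nat_lit 18) (nat_lit 5) (nat_lit 22) (nat_lit 5) (nat_lit 23) (nat_lit 5) (nat_lit 263) (nat_lit 261) (nat_lit 136))) (XT.nd (nat_lit 78) (nat_lit 0) (nat_lit 76) (XT.lf (nat_lit 0) (nat_lit 162085615963) (nat_lit 304) (nat_lit 203375438149) (nat_lit 380) (nat_lit 1205598611531) (nat_lit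 18) (nat_lit 5) (nat_lit 22) (nat_lit 5) (nat_lit 23) (nat_lit 5) (nat_lit 264) (nat_lit 261) (nat_lit 135)) (XT.lf (nat_lit 0) (nat_lit 279226641978) (nat_lit 304) (nat_lit 1117942956509) (nat_lit 76) (nat_lit 300695101674) (nat_lit 19) (nat_lit 5) (nat_lit 23) (nat_lit 5) (nat_lit 20) (nat_lit 5) (nat_lit 265) (nat_lit 261) (nat_lit 134)))) (XT.nd (nat_lit 156) (nat_lit 152) (nat_lit 0) (XT.nd (nat_lit 78) (nat_lit 304) (nat_lit 0) (XT.lf (nat_lit 0) (nat_lit 442478951148) (nat_lit 304) (nat_lit 356434862324) (nat_lit 76) (nat_lit 1040495657030) (nat_lit 19) (nat_lit 5) (nat_lit 23) (nat_lit 5) (nat_lit 20) (nat_lit 5) (nat_lit 266) (nat_lit 261) (nat_lit 133)) (XT.lf (nat_lit 0) (nat_lit 570049160223) (nat_lit 304) (nat_lit 83774462682) (nat_lit 380) (nat_lit 1344821656084) (nat_lit 15) (nat_lit 5) (nat_lit 19) (nat_lit 5) (nat_lit 20) (nat_lit 5) (nat_lit 267) (nat_lit 261) (nat_lit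 132))) (XT.nd (nat_lit 78) (nat_lit 152) (nat_lit 0) (XT.lf (nat_lit 0) (nat_lit 946974376821) (nat_lit 380) (nat_lit 534880048107) (nat_lit 76) (nat_lit 692396376637) (nat_lit 15) (nat_lit 5) (nat_lit 20) (nat_lit 5) (nat_lit 16) (nat_lit 5) (nat_lit 268) (nat_lit 261) (nat_lit 131)) (XT.lf (nat_lit 0) (nat_lit 536683440347) (nat_lit 152) (nat_lit 773626477310) (nat_lit 228) (nat_lit 1061955408817) (nat_lit 13) (nat_lit 5) (nat_lit 15) (nat_lit 5) (nat_lit 16) (nat_lit 5) (nat_lit 269) (nat_lit 261) (nat_lit 130))))) (XT.nd (nat_lit 312) (nat_lit 152) (nat_lit 0) (XT.nd (nat_lit 156) (nat_lit 228) (nat_lit 0) (XT.nd (nat_lit 78) (nat_lit 76) (nat_lit 0) (XT.lf (nat_lit 0) (nat_lit 1759127754714) (nat_lit 228) (nat_lit 769715741705) (nat_lit 76) (nat_lit 66491238952) (nat_lit 13) (nat_lit 5) (nat_lit 16) (nat_lit 5) (nat_lit 14) (nat_lit 4) (nat_lit 270) (nat_lit 261) (nat_lit 129))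 (XT.lf (nat_lit 0) (nat_lit 460157354581) (nat_lit 76) (nat_lit 1871004401091) (nat_lit 152) (nat_lit 512318776697) (nat_lit 12) (nat_lit 5) (nat_lit 13) (nat_lit 5) (nat_lit 14) (nat_lit 4) (nat_lit 271) (nat_lit 261) (nat_lit 128))) (XT.nd (nat_lit 78) (nat_lit 228) (nat_lit 0) (XT.lf (nat_lit 0) (nat_lit 1961016965234) (nat_lit 76) (nat_lit 1068219030286) (nat_lit 152) (nat_lit 93576932598) (nat_lit 12) (nat_lit 5) (nat_lit 13) (nat_lit 5) (nat_lit 14) (nat_lit 4) (nat_lit 272) (nat_lit 261) (nat_lit 127)) (XT.lf (nat_lit 0) (nat_lit 249068900414) (nat_lit 152) (nat_lit 114680374455) (nat_lit 228) (nat_lit 3076339106897) (nat_lit 9) (nat_lit 5) (nat_lit 11) (nat_lit 5) (nat_lit 12) (nat_lit 5) (nat_lit 273) (nat_lit 261) (nat_lit 126)))) (XT.nd (nat_lit 156) (nat_lit 152) (nat_lit 0) (XT.nd (nat_lit 78) (nat_lit 0) (nat_lit 0) (XT.lf (nat_lit 0) (nat_lit 984374008764) (nat_lit 228)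 (nat_lit 1841717997068) (nat_lit 76) (nat_lit 962552727357) (nat_lit 9) (nat_lit 5) (nat_lit 12) (nat_lit 5) (nat_lit 10) (nat_lit 4) (nat_lit 274) (nat_lit 261) (nat_lit 125)) (XT.lf (nat_lit 0) (nat_lit 1703553421221) (nat_lit 228) (nat_lit 295482263156) (nat_lit 76) (nat_lit 2189629707684) (nat_lit 9) (nat_lit 5) (nat_lit 12) (nat_lit 5) (nat_lit 10) (nat_lit 4) (nat_lit 275) (nat_lit 261) (nat_lit 124))) (XT.nd (nat_lit 78) (nat_lit 76) (nat_lit 0) (XT.lf (nat_lit 0) (nat_lit 1627587963908) (nat_lit 76) (nat_lit 970416726876) (nat_lit 152) (nat_lit 2040575217202) (nat_lit 8) (nat_lit 5) (nat_lit 9) (nat_lit 5) (nat_lit 10) (nat_lit 4) (nat_lit 276) (nat_lit 261) (nat_lit 123)) (XT.nd (nat_lit 78) (nat_lit 76) (nat_lit 0) (XT.lf (nat_lit 0) (nat_lit 3651603788767) (nat_lit 152) (nat_lit 1290872327812) (nat_lit 0) (nat_lit 209758464028) (nat_lit 8) (nat_lit 5) (nat_lit 10) (nat_lit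 4) (nat_lit 8) (nat_lit 4) (nat_lit 277) (nat_lit 261) (nat_lit 122)) (XT.lf (nat_lit 0) (nat_lit 703703456253) (nat_lit 76) (nat_lit 4234888473737) (nat_lit 76) (nat_lit 793043147357) (nat_lit 7) (nat_lit 4) (nat_lit 8) (nat_lit 5) (nat_lit 8) (nat_lit 4) (nat_lit 278) (nat_lit 261) (nat_lit 121))))))) (XT.nd (nat_lit 624) (nat_lit 152) (nat_lit 0) (XT.nd (nat_lit 312) (nat_lit 76) (nat_lit 0) (XT.nd (nat_lit 156) (nat_lit 76) (nat_lit 0) (XT.nd (nat_lit 78) (nat_lit 0) (nat_lit 0) (XT.lf (nat_lit 0) (nat_lit 89531958060) (nat_lit 152) (nat_lit 3249351617976) (nat_lit 76) (nat_lit 3048330015003) (nat_lit 6) (nat_lit 5) (nat_lit 8) (nat_lit 5) (nat_lit 7) (nat_lit 4) (nat_lit 279) (nat_lit 261) (nat_lit 120)) (XT.lf (nat_lit 0) (nat_lit 1023300815508) (nat_lit 152) (nat_lit 1241748575705) (nat_lit 76) (nat_lit 4870414896828) (nat_lit 6) (nat_lit 5) (nat_lit 8) (nat_lit 5) (nat_lit 7)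 (nat_lit 4) (nat_lit 280) (nat_lit 261) (nat_lit 119))) (XT.nd (nat_lit 78) (nat_lit 0) (nat_lit 0) (XT.lf (nat_lit 0) (nat_lit 1171269424904) (nat_lit 76) (nat_lit 974365344878) (nat_lit 152) (nat_lit 5843042854583) (nat_lit 5) (nat_lit 5) (nat_lit 6) (nat_lit 5) (nat_lit 7) (nat_lit 4) (nat_lit 281) (nat_lit 261) (nat_lit 118)) (XT.lf (nat_lit 0) (nat_lit 3525434087499) (nat_lit 152) (nat_lit 4898546479132) (nat_lit 0) (nat_lit 532525103963) (nat_lit 5) (nat_lit 5) (nat_lit 7) (nat_lit 4) (nat_lit 5) (nat_lit 4) (nat_lit 282) (nat_lit 261) (nat_lit 117)))) (XT.nd (nat_lit 156) (nat_lit 76) (nat_lit 0) (XT.nd (nat_lit 78) (nat_lit 0) (nat_lit 0) (XT.lf (nat_lit 0) (nat_lit 5158601651838) (nat_lit 152) (nat_lit 2738253851984) (nat_lit 0) (nat_lit 2165692667592) (nat_lit 5) (nat_lit 5) (nat_lit 7) (nat_lit 4) (nat_lit 5) (nat_lit 4) (nat_lit 283) (nat_lit 261) (nat_lit 116)) (XT.lf (nat_lit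 0) (nat_lit 7036744350139) (nat_lit 152) (nat_lit 253917332049) (nat_lit 0) (nat_lit 4043835365277) (nat_lit 5) (nat_lit 5) (nat_lit 7) (nat_lit 4) (nat_lit 5) (nat_lit 4) (nat_lit 284) (nat_lit 261) (nat_lit 115))) (XT.nd (nat_lit 78) (nat_lit 0) (nat_lit 0) (XT.lf (nat_lit 0) (nat_lit 2857460563817) (nat_lit 76) (nat_lit 6457469237168) (nat_lit 76) (nat_lit 3464560251769) (nat_lit 4) (nat_lit 4) (nat_lit 5) (nat_lit 5) (nat_lit 5) (nat_lit 4) (nat_lit 285) (nat_lit 261) (nat_lit 114)) (XT.lf (nat_lit 0) (nat_lit 6464081988612) (nat_lit 76) (nat_lit 5484034031729) (nat_lit 76) (nat_lit 2491125045864) (nat_lit 4) (nat_lit 4) (nat_lit 5) (nat_lit 5) (nat_lit 5) (nat_lit 4) (nat_lit 286) (nat_lit 261) (nat_lit 113))))) (XT.nd (nat_lit 1014) (nat_lit 0) (nat_lit 0) (XT.nd (nat_lit 858) (nat_lit 0) (nat_lit 0) (XT.nd (nat_lit 780) (nat_lit 152) (nat_lit 0) (XT.lf (nat_lit 0) (nat_lit 10611696626200)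 (nat_lit 76) (nat_lit 4364583545910) (nat_lit 76) (nat_lit 1371674559639) (nat_lit 4) (nat_lit 4) (nat_lit 5) (nat_lit 5) (nat_lit 5) (nat_lit 4) (nat_lit 287) (nat_lit 261) (nat_lit 112)) (XT.lf (nat_lit 0) (nat_lit 25679600188425) (nat_lit 152) (nat_lit 11536863028488) (nat_lit 0) (nat_lit 23077070633375) (nat_lit 2) (nat_lit 5) (nat_lit 4) (nat_lit 4) (nat_lit 2) (nat_lit 4) (nat_lit 297) (nat_lit 261) (nat_lit 102))) (XT.nd (nat_lit 78) (nat_lit 0) (nat_lit 0) (XT.lf (nat_lit 0) (nat_lit 31135727791188) (nat_lit 152) (nat_lit 9365591953910) (nat_lit 0) (nat_lit 28533198236062) (nat_lit 2) (nat_lit 5) (nat_lit 4) (nat_lit 4) (nat_lit 2) (nat_lit 4) (nat_lit 298) (nat_lit 261) (nat_lit 101)) (XT.lf (nat_lit 0) (nat_lit 37410274534256) (nat_lit 152) (nat_lit 6868630218358) (nat_lit 0) (nat_lit 34807744979064) (nat_lit 2) (nat_lit 5) (nat_lit 4) (nat_lit 4) (nat_lit 2) (nat_lit 4) (nat_lit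 299) (nat_lit 261) (nat_lit 100)))) (XT.nd (nat_lit 31434) (nat_lit 0) (nat_lit 1140) (XT.nd (nat_lit 78) (nat_lit 0) (nat_lit 0) (XT.lf (nat_lit 0) (nat_lit 44626003288689) (nat_lit 152) (nat_lit 3997124222658) (nat_lit 0) (nat_lit 42023473733440) (nat_lit 2) (nat_lit 5) (nat_lit 4) (nat_lit 4) (nat_lit 2) (nat_lit 4) (nat_lit 300) (nat_lit 261) (nat_lit 99)) (XT.lf (nat_lit 0) (nat_lit 52924091356206) (nat_lit 152) (nat_lit 694892327764) (nat_lit 0) (nat_lit 50321561800907) (nat_lit 2) (nat_lit 5) (nat_lit 4) (nat_lit 4) (nat_lit 2) (nat_lit 4) (nat_lit 301) (nat_lit 261) (nat_lit 98))) (XT.nd (nat_lit 78) (nat_lit 0) (nat_lit 0) (XT.lf (nat_lit 0) (nat_lit 21916884635) (nat_lit 380) (nat_lit 351294927152) (nat_lit 380) (nat_lit 351294927152) (nat_lit 17) (nat_lit 3) (nat_lit 22) (nat_lit 3) (nat_lit 22) (nat_lit 5) (nat_lit 262) (nat_lit 262) (nat_lit 136)) (XT.nd (nat_lit 78) (nat_lit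 0) (nat_lit 76) (XT.lf (nat_lit 0) (nat_lit 47121329653) (nat_lit 380) (nat_lit 68630800645) (nat_lit 380) (nat_lit 1441937354061) (nat_lit 17) (nat_lit 3) (nat_lit 22) (nat_lit 3) (nat_lit 22) (nat_lit 5) (nat_lit 263) (nat_lit 262) (nat_lit 135)) (XT.lf (nat_lit 0) (nat_lit 107589618065) (nat_lit 304) (nat_lit 979869067049) (nat_lit 380) (nat_lit 586705067638) (nat_lit 18) (nat_lit 5) (nat_lit 22) (nat_lit 5) (nat_lit 23) (nat_lit 5) (nat_lit 264) (nat_lit 262) (nat_lit 134))))))))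
noncomputable def xc119 : XT := (XT.nd (nat_lit 1326) (nat_lit 304) (nat_lit 0) (XT.nd (nat_lit 624) (nat_lit 456) (nat_lit 0) (XT.nd (nat_lit 312) (nat_lit 228) (nat_lit 0) (XT.nd (nat_lit 156) (nat_lit 228) (nat_lit 0) (XT.nd (nat_lit 78) (nat_lit 0) (nat_lit 76) (XT.lf (nat_lit 0) (nat_lit 186398504982) (nat_lit 304) (nat_lit 233881716347) (nat_lit 380) (nat_lit 1386438386821) (nat_lit 18) (nat_lit 5) (nat_lit 22) (nat_lit 5) (nat_lit 23) (nat_lit 5) (nat_lit 265) (nat_lit 262) (nat_lit 133)) (XT.lf (nat_lit 0) (nat_lit 321110680044) (nat_lit 304) (nat_lit 1285634357305) (nat_lit 76) (nat_lit 345799361271) (nat_lit 19) (nat_lit 5) (nat_lit 23) (nat_lit 5) (nat_lit 20) (nat_lit 5) (nat_lit 266) (nat_lit 262) (nat_lit 132))) (XT.nd (nat_lit 78) (nat_lit 304) (nat_lit 0) (XT.lf (nat_lit 0) (nat_lit 508850830141) (nat_lit 304) (nat_lit 409900054558) (nat_lit 76) (nat_lit 1196570000668)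 (nat_lit 19) (nat_lit 5) (nat_lit 23) (nat_lit 5) (nat_lit 20) (nat_lit 5) (nat_lit 267) (nat_lit 262) (nat_lit 131)) (XT.lf (nat_lit 0) (nat_lit 655556569683) (nat_lit 304) (nat_lit 96340629708) (nat_lit 380) (nat_lit 1546544866261) (nat_lit 15) (nat_lit 5) (nat_lit 19) (nat_lit 5) (nat_lit 20) (nat_lit 5) (nat_lit 268) (nat_lit 262) (nat_lit 130)))) (XT.nd (nat_lit 156) (nat_lit 76) (nat_lit 0) (XT.nd (nat_lit 78) (nat_lit 152) (nat_lit 0) (XT.lf (nat_lit 0) (nat_lit 1089020562169) (nat_lit 380) (nat_lit 615112020094) (nat_lit 76) (nat_lit 796255835015) (nat_lit 15) (nat_lit 5) (nat_lit 20) (nat_lit 5) (nat_lit 16) (nat_lit 5) (nat_lit 269) (nat_lit 262) (nat_lit 129)) (XT.lf (nat_lit 0) (nat_lit 617185990027) (nat_lit 152) (nat_lit 889670441735) (nat_lit 228) (nat_lit 1221248689541) (nat_lit 13) (nat_lit 5) (nat_lit 15) (nat_lit 5) (nat_lit 16) (nat_lit 5) (nat_lit 270) (nat_lit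 262) (nat_lit 128))) (XT.nd (nat_lit 78) (nat_lit 76) (nat_lit 0) (XT.lf (nat_lit 0) (nat_lit 2022996941186) (nat_lit 228) (nat_lit 885173070377) (nat_lit 76) (nat_lit 76464930475) (nat_lit 13) (nat_lit 5) (nat_lit 16) (nat_lit 5) (nat_lit 14) (nat_lit 4) (nat_lit 271) (nat_lit 262) (nat_lit 127)) (XT.lf (nat_lit 0) (nat_lit 529180988872) (nat_lit 76) (nat_lit 2151655051670) (nat_lit 152) (nat_lit 589166568325) (nat_lit 12) (nat_lit 5) (nat_lit 13) (nat_lit 5) (nat_lit 14) (nat_lit 4) (nat_lit 272) (nat_lit 262) (nat_lit 126))))) (XT.nd (nat_lit 312) (nat_lit 228) (nat_lit 0) (XT.nd (nat_lit 156) (nat_lit 0) (nat_lit 0) (XT.nd (nat_lit 78) (nat_lit 228) (nat_lit 0) (XT.lf (nat_lit 0) (nat_lit 2255169537066) (nat_lit 76) (nat_lit 1228451876494) (nat_lit 152) (nat_lit 107613450857) (nat_lit 12) (nat_lit 5) (nat_lit 13) (nat_lit 5) (nat_lit 14) (nat_lit 4) (nat_lit 273) (nat_lit 262) (nat_lit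 125)) (XT.lf (nat_lit 0) (nat_lit 286429263225) (nat_lit 152) (nat_lit 131882421158) (nat_lit 228) (nat_lit 3537789951818) (nat_lit 9) (nat_lit 5) (nat_lit 11) (nat_lit 5) (nat_lit 12) (nat_lit 5) (nat_lit 274) (nat_lit 262) (nat_lit 124))) (XT.nd (nat_lit 78) (nat_lit 0) (nat_lit 0) (XT.lf (nat_lit 0) (nat_lit 1132030126319) (nat_lit 228) (nat_lit 2117975670379) (nat_lit 76) (nat_lit 1106935643958) (nat_lit 9) (nat_lit 5) (nat_lit 12) (nat_lit 5) (nat_lit 10) (nat_lit 4) (nat_lit 275) (nat_lit 262) (nat_lit 123)) (XT.lf (nat_lit 0) (nat_lit 1959086448527) (nat_lit 228) (nat_lit 339804579804) (nat_lit 76) (nat_lit 2518074170357) (nat_lit 9) (nat_lit 5) (nat_lit 12) (nat_lit 5) (nat_lit 10) (nat_lit 4) (nat_lit 276) (nat_lit 262) (nat_lit 122)))) (XT.nd (nat_lit 156) (nat_lit 152) (nat_lit 0) (XT.nd (nat_lit 78) (nat_lit 0) (nat_lit 0) (XT.lf (nat_lit 0) (nat_lit 1871726180281) (nat_lit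 76) (nat_lit 1115979227302) (nat_lit 152) (nat_lit 2346661484567) (nat_lit 8) (nat_lit 5) (nat_lit 9) (nat_lit 5) (nat_lit 10) (nat_lit 4) (nat_lit 277) (nat_lit 262) (nat_lit 121)) (XT.lf (nat_lit 0) (nat_lit 4199344368855) (nat_lit 152) (nat_lit 1484503156579) (nat_lit 0) (nat_lit 241222240449) (nat_lit 8) (nat_lit 5) (nat_lit 10) (nat_lit 4) (nat_lit 8) (nat_lit 4) (nat_lit 278) (nat_lit 262) (nat_lit 120))) (XT.nd (nat_lit 78) (nat_lit 76) (nat_lit 0) (XT.lf (nat_lit 0) (nat_lit 809258994167) (nat_lit 76) (nat_lit 4870121736365) (nat_lit 76) (nat_lit 911999606718) (nat_lit 7) (nat_lit 4) (nat_lit 8) (nat_lit 5) (nat_lit 8) (nat_lit 4) (nat_lit 279) (nat_lit 262) (nat_lit 119)) (XT.nd (nat_lit 78) (nat_lit 0) (nat_lit 0) (XT.lf (nat_lit 0) (nat_lit 102961761864) (nat_lit 152) (nat_lit 3736754342718) (nat_lit 76) (nat_lit 3505579523568) (nat_lit 6) (nat_lit 5) (nat_lit 8) (nat_lit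 5) (nat_lit 7) (nat_lit 4) (nat_lit 280) (nat_lit 262) (nat_lit 118)) (XT.lf (nat_lit 0) (nat_lit 1176795946611) (nat_lit 152) (nat_lit 1428010846448) (nat_lit 76) (nat_lit 5600977136843) (nat_lit 6) (nat_lit 5) (nat_lit 8) (nat_lit 5) (nat_lit 7) (nat_lit 4) (nat_lit 281) (nat_lit 262) (nat_lit 117))))))) (XT.nd (nat_lit 624) (nat_lit 152) (nat_lit 0) (XT.nd (nat_lit 312) (nat_lit 76) (nat_lit 0) (XT.nd (nat_lit 156) (nat_lit 0) (nat_lit 0) (XT.nd (nat_lit 78) (nat_lit 0) (nat_lit 0) (XT.lf (nat_lit 0) (nat_lit 1346959853543) (nat_lit 76) (nat_lit 1120520139956) (nat_lit 152) (nat_lit 6719499273259) (nat_lit 5) (nat_lit 5) (nat_lit 6) (nat_lit 5) (nat_lit 7) (nat_lit 4) (nat_lit 282) (nat_lit 262) (nat_lit 116)) (XT.lf (nat_lit 0) (nat_lit 4054249208037) (nat_lit 152) (nat_lit 5633328437184) (nat_lit 0) (nat_lit 612403874828) (nat_lit 5) (nat_lit 5) (nat_lit 7) (nat_lit 4) (nat_lit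 5) (nat_lit 4) (nat_lit 283) (nat_lit 262) (nat_lit 115))) (XT.nd (nat_lit 78) (nat_lit 0) (nat_lit 0) (XT.lf (nat_lit 0) (nat_lit 5932391906060) (nat_lit 152) (nat_lit 3148991917767) (nat_lit 0) (nat_lit 2490546572315) (nat_lit 5) (nat_lit 5) (nat_lit 7) (nat_lit 4) (nat_lit 5) (nat_lit 4) (nat_lit 284) (nat_lit 262) (nat_lit 114)) (XT.lf (nat_lit 0) (nat_lit 8092256008266) (nat_lit 152) (nat_lit 292004921408) (nat_lit 0) (nat_lit 4650410674054) (nat_lit 5) (nat_lit 5) (nat_lit 7) (nat_lit 4) (nat_lit 5) (nat_lit 4) (nat_lit 285) (nat_lit 262) (nat_lit 113)))) (XT.nd (nat_lit 156) (nat_lit 0) (nat_lit 0) (XT.nd (nat_lit 78) (nat_lit 0) (nat_lit 0) (XT.lf (nat_lit 0) (nat_lit 3286079658363) (nat_lit 76) (nat_lit 7426089618057) (nat_lit 76) (nat_lit 3984244283440) (nat_lit 4) (nat_lit 4) (nat_lit 5) (nat_lit 5) (nat_lit 5) (nat_lit 4) (nat_lit 286) (nat_lit 262) (nat_lit 112)) (XT.lf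 (nat_lit 0) (nat_lit 7433694295576) (nat_lit 76) (nat_lit 6306639132414) (nat_lit 76) (nat_lit 2864793797444) (nat_lit 4) (nat_lit 4) (nat_lit 5) (nat_lit 5) (nat_lit 5) (nat_lit 4) (nat_lit 287) (nat_lit 262) (nat_lit 111))) (XT.nd (nat_lit 78) (nat_lit 0) (nat_lit 0) (XT.lf (nat_lit 0) (nat_lit 12203451127671) (nat_lit 76) (nat_lit 5019271074254) (nat_lit 76) (nat_lit 1577425738976) (nat_lit 4) (nat_lit 4) (nat_lit 5) (nat_lit 5) (nat_lit 5) (nat_lit 4) (nat_lit 288) (nat_lit 262) (nat_lit 110)) (XT.lf (nat_lit 0) (nat_lit 17688671483971) (nat_lit 76) (nat_lit 3538797807655) (nat_lit 76) (nat_lit 96952472111) (nat_lit 4) (nat_lit 4) (nat_lit 5) (nat_lit 5) (nat_lit 5) (nat_lit 4) (nat_lit 289) (nat_lit 262) (nat_lit 109))))) (XT.nd (nat_lit 780) (nat_lit 0) (nat_lit 0) (XT.nd (nat_lit 624) (nat_lit 0) (nat_lit 0) (XT.nd (nat_lit 546) (nat_lit 76) (nat_lit 0) (XT.lf (nat_lit 0) (nat_lit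 1462650900957) (nat_lit 152) (nat_lit 297145898718) (nat_lit 76) (nat_lit 22457567240588) (nat_lit 3) (nat_lit 5) (nat_lit 5) (nat_lit 5) (nat_lit 4) (nat_lit 4) (nat_lit 290) (nat_lit 262) (nat_lit 108)) (XT.lf (nat_lit 0) (nat_lit 24075412615147) (nat_lit 152) (nat_lit 15438663554952) (nat_lit 0) (nat_lit 21082503626677) (nat_lit 2) (nat_lit 5) (nat_lit 4) (nat_lit 4) (nat_lit 2) (nat_lit 4) (nat_lit 297) (nat_lit 262) (nat_lit 101))) (XT.nd (nat_lit 78) (nat_lit 0) (nat_lit 0) (XT.lf (nat_lit 0) (nat_lit 29531540217859) (nat_lit 152) (nat_lit 13267392480473) (nat_lit 0) (nat_lit 26538631229323) (nat_lit 2) (nat_lit 5) (nat_lit 4) (nat_lit 4) (nat_lit 2) (nat_lit 4) (nat_lit 298) (nat_lit 262) (nat_lit 100)) (XT.lf (nat_lit 0) (nat_lit 35806086960883) (nat_lit 152) (nat_lit 10770430745007) (nat_lit 0) (nat_lit 32813177972290) (nat_lit 2) (nat_lit 5) (nat_lit 4) (nat_lit 4) (nat_lit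 2) (nat_lit 4) (nat_lit 299) (nat_lit 262) (nat_lit 99)))) (XT.nd (nat_lit 31590) (nat_lit 0) (nat_lit 1140) (XT.nd (nat_lit 31512) (nat_lit 0) (nat_lit 1140) (XT.lf (nat_lit 0) (nat_lit 43021815715279) (nat_lit 152) (nat_lit 7898924749382) (nat_lit 0) (nat_lit 40028906726635) (nat_lit 2) (nat_lit 5) (nat_lit 4) (nat_lit 4) (nat_lit 2) (nat_lit 4) (nat_lit 300) (nat_lit 262) (nat_lit 98)) (XT.lf (nat_lit 0) (nat_lit 25204443871) (nat_lit 380) (nat_lit 403989150864) (nat_lit 380) (nat_lit 403989150864) (nat_lit 17) (nat_lit 3) (nat_lit 22) (nat_lit 3) (nat_lit 22) (nat_lit 5) (nat_lit 263) (nat_lit 263) (nat_lit 134))) (XT.nd (nat_lit 78) (nat_lit 0) (nat_lit 76) (XT.lf (nat_lit 0) (nat_lit 54189575258) (nat_lit 380) (nat_lit 78925394028) (nat_lit 380) (nat_lit 1658227930457) (nat_lit 17) (nat_lit 3) (nat_lit 22) (nat_lit 3) (nat_lit 22) (nat_lit 5) (nat_lit 264) (nat_lit 263) (nat_lit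 133)) (XT.nd (nat_lit 78) (nat_lit 0) (nat_lit 0) (XT.lf (nat_lit 0) (nat_lit 123728101317) (nat_lit 304) (nat_lit 1126849394477) (nat_lit 380) (nat_lit 674710813488) (nat_lit 18) (nat_lit 5) (nat_lit 22) (nat_lit 5) (nat_lit 23) (nat_lit 5) (nat_lit 265) (nat_lit 263) (nat_lit 132)) (XT.lf (nat_lit 0) (nat_lit 214358315983) (nat_lit 304) (nat_lit 268963945426) (nat_lit 380) (nat_lit 1594404132413) (nat_lit 18) (nat_lit 5) (nat_lit 22) (nat_lit 5) (nat_lit 23) (nat_lit 5) (nat_lit 266) (nat_lit 263) (nat_lit 131))))))))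
noncomputable def xc120 : XT := (XT.nd (nat_lit 1326) (nat_lit 76) (nat_lit 0) (XT.nd (nat_lit 624) (nat_lit 532) (nat_lit 0) (XT.nd (nat_lit 312) (nat_lit 228) (nat_lit 0) (XT.nd (nat_lit 156) (nat_lit 304) (nat_lit 0) (XT.nd (nat_lit 78) (nat_lit 0) (nat_lit 0) (XT.lf (nat_lit 0) (nat_lit 369277313633) (nat_lit 304) (nat_lit 1478479478628) (nat_lit 76) (nat_lit 397669261186) (nat_lit 19) (nat_lit 5) (nat_lit 23) (nat_lit 5) (nat_lit 20) (nat_lit 5) (nat_lit 267) (nat_lit 263) (nat_lit 130)) (XT.lf (nat_lit 0) (nat_lit 585178482125) (nat_lit 304) (nat_lit 471385034679) (nat_lit 76) (nat_lit 1376055497050) (nat_lit 19) (nat_lit 5) (nat_lit 23) (nat_lit 5) (nat_lit 20) (nat_lit 5) (nat_lit 268) (nat_lit 263) (nat_lit 129))) (XT.nd (nat_lit 78) (nat_lit 0) (nat_lit 0) (XT.lf (nat_lit 0) (nat_lit 753890081924) (nat_lit 304) (nat_lit 110791722367) (nat_lit 380) (nat_lit 1778526567288) (nat_lit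 15) (nat_lit 5) (nat_lit 19) (nat_lit 5) (nat_lit 20) (nat_lit 5) (nat_lit 269) (nat_lit 263) (nat_lit 128)) (XT.lf (nat_lit 0) (nat_lit 1252373668290) (nat_lit 380) (nat_lit 707378796469) (nat_lit 76) (nat_lit 915694211691) (nat_lit 15) (nat_lit 5) (nat_lit 20) (nat_lit 5) (nat_lit 16) (nat_lit 5) (nat_lit 270) (nat_lit 263) (nat_lit 127)))) (XT.nd (nat_lit 156) (nat_lit 76) (nat_lit 0) (XT.nd (nat_lit 78) (nat_lit 0) (nat_lit 0) (XT.lf (nat_lit 0) (nat_lit 709763913959) (nat_lit 152) (nat_lit 1023121002574) (nat_lit 228) (nat_lit 1404435969835) (nat_lit 13) (nat_lit 5) (nat_lit 15) (nat_lit 5) (nat_lit 16) (nat_lit 5) (nat_lit 271) (nat_lit 263) (nat_lit 126)) (XT.lf (nat_lit 0) (nat_lit 2326446499956) (nat_lit 228) (nat_lit 1017949006294) (nat_lit 76) (nat_lit 87934674342) (nat_lit 13) (nat_lit 5) (nat_lit 16) (nat_lit 5) (nat_lit 14) (nat_lit 4) (nat_lit 272) (nat_lit 263) (nat_lit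 125))) (XT.nd (nat_lit 78) (nat_lit 0) (nat_lit 0) (XT.lf (nat_lit 0) (nat_lit 608558160722) (nat_lit 76) (nat_lit 2474403302172) (nat_lit 152) (nat_lit 677541534764) (nat_lit 12) (nat_lit 5) (nat_lit 13) (nat_lit 5) (nat_lit 14) (nat_lit 4) (nat_lit 273) (nat_lit 263) (nat_lit 124)) (XT.lf (nat_lit 0) (nat_lit 2593444988077) (nat_lit 76) (nat_lit 1412719651666) (nat_lit 152) (nat_lit 123755452129) (nat_lit 12) (nat_lit 5) (nat_lit 13) (nat_lit 5) (nat_lit 14) (nat_lit 4) (nat_lit 274) (nat_lit 263) (nat_lit 123))))) (XT.nd (nat_lit 312) (nat_lit 228) (nat_lit 0) (XT.nd (nat_lit 156) (nat_lit 76) (nat_lit 0) (XT.nd (nat_lit 78) (nat_lit 0) (nat_lit 0) (XT.lf (nat_lit 0) (nat_lit 329393673692) (nat_lit 152) (nat_lit 151664777175) (nat_lit 228) (nat_lit 4068458428627) (nat_lit 9) (nat_lit 5) (nat_lit 11) (nat_lit 5) (nat_lit 12) (nat_lit 5) (nat_lit 275) (nat_lit 263) (nat_lit 122)) (XT.lf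 (nat_lit 0) (nat_lit 1301834657547) (nat_lit 228) (nat_lit 2435672001088) (nat_lit 76) (nat_lit 1272975996221) (nat_lit 9) (nat_lit 5) (nat_lit 12) (nat_lit 5) (nat_lit 10) (nat_lit 4) (nat_lit 276) (nat_lit 263) (nat_lit 121))) (XT.nd (nat_lit 78) (nat_lit 76) (nat_lit 0) (XT.lf (nat_lit 0) (nat_lit 2252949426484) (nat_lit 228) (nat_lit 390775249516) (nat_lit 76) (nat_lit 2895785300840) (nat_lit 9) (nat_lit 5) (nat_lit 12) (nat_lit 5) (nat_lit 10) (nat_lit 4) (nat_lit 277) (nat_lit 263) (nat_lit 120)) (XT.lf (nat_lit 0) (nat_lit 2152485123798) (nat_lit 76) (nat_lit 1283376104891) (nat_lit 152) (nat_lit 2698660695746) (nat_lit 8) (nat_lit 5) (nat_lit 9) (nat_lit 5) (nat_lit 10) (nat_lit 4) (nat_lit 278) (nat_lit 263) (nat_lit 119)))) (XT.nd (nat_lit 156) (nat_lit 152) (nat_lit 0) (XT.nd (nat_lit 78) (nat_lit 76) (nat_lit 0) (XT.lf (nat_lit 0) (nat_lit 4829246033086) (nat_lit 152) (nat_lit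 1707178614638) (nat_lit 0) (nat_lit 277405581671) (nat_lit 8) (nat_lit 5) (nat_lit 10) (nat_lit 4) (nat_lit 8) (nat_lit 4) (nat_lit 279) (nat_lit 263) (nat_lit 118)) (XT.lf (nat_lit 0) (nat_lit 930647858020) (nat_lit 76) (nat_lit 5600639990443) (nat_lit 76) (nat_lit 1048799538090) (nat_lit 7) (nat_lit 4) (nat_lit 8) (nat_lit 5) (nat_lit 8) (nat_lit 4) (nat_lit 280) (nat_lit 263) (nat_lit 117))) (XT.nd (nat_lit 78) (nat_lit 76) (nat_lit 0) (XT.lf (nat_lit 0) (nat_lit 118406033776) (nat_lit 152) (nat_lit 4297267480549) (nat_lit 76) (nat_lit 4031416456877) (nat_lit 6) (nat_lit 5) (nat_lit 8) (nat_lit 5) (nat_lit 7) (nat_lit 4) (nat_lit 281) (nat_lit 263) (nat_lit 116)) (XT.nd (nat_lit 78) (nat_lit 76) (nat_lit 0) (XT.lf (nat_lit 0) (nat_lit 1353315345240) (nat_lit 152) (nat_lit 1642212461610) (nat_lit 76) (nat_lit 6441123711521) (nat_lit 6) (nat_lit 5) (nat_lit 8) (nat_lit 5) (nat_lit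 7) (nat_lit 4) (nat_lit 282) (nat_lit 263) (nat_lit 115)) (XT.lf (nat_lit 0) (nat_lit 1549003842843) (nat_lit 76) (nat_lit 1288598155918) (nat_lit 152) (nat_lit 7727424157056) (nat_lit 5) (nat_lit 5) (nat_lit 6) (nat_lit 5) (nat_lit 7) (nat_lit 4) (nat_lit 283) (nat_lit 263) (nat_lit 114))))))) (XT.nd (nat_lit 32916) (nat_lit 0) (nat_lit 684) (XT.nd (nat_lit 312) (nat_lit 0) (nat_lit 0) (XT.nd (nat_lit 156) (nat_lit 76) (nat_lit 0) (XT.nd (nat_lit 78) (nat_lit 0) (nat_lit 0) (XT.lf (nat_lit 0) (nat_lit 4662386594848) (nat_lit 152) (nat_lit 6478327692314) (nat_lit 0) (nat_lit 704264460038) (nat_lit 5) (nat_lit 5) (nat_lit 7) (nat_lit 4) (nat_lit 5) (nat_lit 4) (nat_lit 284) (nat_lit 263) (nat_lit 113)) (XT.lf (nat_lit 0) (nat_lit 6822250696843) (nat_lit 152) (nat_lit 3621340696347) (nat_lit 0) (nat_lit 2864128561627) (nat_lit 5) (nat_lit 5) (nat_lit 7) (nat_lit 4) (nat_lit 5) (nat_lit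 4) (nat_lit 285) (nat_lit 263) (nat_lit 112))) (XT.nd (nat_lit 78) (nat_lit 76) (nat_lit 0) (XT.lf (nat_lit 0) (nat_lit 9306094413744) (nat_lit 152) (nat_lit 335805651719) (nat_lit 0) (nat_lit 5347972278175) (nat_lit 5) (nat_lit 5) (nat_lit 7) (nat_lit 4) (nat_lit 5) (nat_lit 4) (nat_lit 286) (nat_lit 263) (nat_lit 111)) (XT.lf (nat_lit 0) (nat_lit 3778991614658) (nat_lit 76) (nat_lit 8540003057223) (nat_lit 76) (nat_lit 4581880921347) (nat_lit 4) (nat_lit 4) (nat_lit 5) (nat_lit 5) (nat_lit 5) (nat_lit 4) (nat_lit 287) (nat_lit 263) (nat_lit 110)))) (XT.nd (nat_lit 156) (nat_lit 0) (nat_lit 0) (XT.nd (nat_lit 78) (nat_lit 0) (nat_lit 0) (XT.lf (nat_lit 0) (nat_lit 8548748446470) (nat_lit 76) (nat_lit 7252634999195) (nat_lit 76) (nat_lit 3294512863053) (nat_lit 4) (nat_lit 4) (nat_lit 5) (nat_lit 5) (nat_lit 5) (nat_lit 4) (nat_lit 288) (nat_lit 263) (nat_lit 109)) (XT.lf (nat_lit 0)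 (nat_lit 14033968802523) (nat_lit 76) (nat_lit 5772161732713) (nat_lit 76) (nat_lit 1814039596339) (nat_lit 4) (nat_lit 4) (nat_lit 5) (nat_lit 5) (nat_lit 5) (nat_lit 4) (nat_lit 289) (nat_lit 263) (nat_lit 108))) (XT.nd (nat_lit 32370) (nat_lit 0) (nat_lit 988) (XT.lf (nat_lit 0) (nat_lit 20341972211525) (nat_lit 76) (nat_lit 4069617476474) (nat_lit 76) (nat_lit 111495339898) (nat_lit 4) (nat_lit 4) (nat_lit 5) (nat_lit 5) (nat_lit 5) (nat_lit 4) (nat_lit 290) (nat_lit 263) (nat_lit 107)) (XT.lf (nat_lit 0) (nat_lit 28985130520) (nat_lit 380) (nat_lit 464587511879) (nat_lit 380) (nat_lit 464587511879) (nat_lit 17) (nat_lit 3) (nat_lit 22) (nat_lit 3) (nat_lit 22) (nat_lit 5) (nat_lit 264) (nat_lit 264) (nat_lit 132))))) (XT.nd (nat_lit 312) (nat_lit 304) (nat_lit 0) (XT.nd (nat_lit 156) (nat_lit 0) (nat_lit 76) (XT.nd (nat_lit 78) (nat_lit 0) (nat_lit 76) (XT.lf (nat_lit 0) (nat_lit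 62318046448) (nat_lit 380) (nat_lit 90764182933) (nat_lit 380) (nat_lit 1906962099826) (nat_lit 17) (nat_lit 3) (nat_lit 22) (nat_lit 3) (nat_lit 22) (nat_lit 5) (nat_lit 265) (nat_lit 264) (nat_lit 131)) (XT.lf (nat_lit 0) (nat_lit 142287347171) (nat_lit 304) (nat_lit 1295876778976) (nat_lit 380) (nat_lit 775917424701) (nat_lit 18) (nat_lit 5) (nat_lit 22) (nat_lit 5) (nat_lit 23) (nat_lit 5) (nat_lit 266) (nat_lit 264) (nat_lit 130))) (XT.nd (nat_lit 78) (nat_lit 0) (nat_lit 76) (XT.lf (nat_lit 0) (nat_lit 246512090038) (nat_lit 304) (nat_lit 309308515785) (nat_lit 380) (nat_lit 1833564742875) (nat_lit 18) (nat_lit 5) (nat_lit 22) (nat_lit 5) (nat_lit 23) (nat_lit 5) (nat_lit 267) (nat_lit 264) (nat_lit 129)) (XT.lf (nat_lit 0) (nat_lit 424668934560) (nat_lit 304) (nat_lit 1700251376019) (nat_lit 76) (nat_lit 457319647130) (nat_lit 19) (nat_lit 5) (nat_lit 23) (nat_lit 5) (nat_lit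 20) (nat_lit 5) (nat_lit 268) (nat_lit 264) (nat_lit 128)))) (XT.nd (nat_lit 156) (nat_lit 152) (nat_lit 0) (XT.nd (nat_lit 78) (nat_lit 304) (nat_lit 0) (XT.lf (nat_lit 0) (nat_lit 672955275211) (nat_lit 304) (nat_lit 542092768661) (nat_lit 76) (nat_lit 1582463818796) (nat_lit 19) (nat_lit 5) (nat_lit 23) (nat_lit 5) (nat_lit 20) (nat_lit 5) (nat_lit 269) (nat_lit 264) (nat_lit 127)) (XT.lf (nat_lit 0) (nat_lit 866973614468) (nat_lit 304) (nat_lit 127410479363) (nat_lit 380) (nat_lit 2045305530520) (nat_lit 15) (nat_lit 5) (nat_lit 19) (nat_lit 5) (nat_lit 20) (nat_lit 5) (nat_lit 270) (nat_lit 264) (nat_lit 126))) (XT.nd (nat_lit 78) (nat_lit 152) (nat_lit 0) (XT.lf (nat_lit 0) (nat_lit 1440229735014) (nat_lit 380) (nat_lit 813485595797) (nat_lit 76) (nat_lit 1053048344522) (nat_lit 15) (nat_lit 5) (nat_lit 20) (nat_lit 5) (nat_lit 16) (nat_lit 5) (nat_lit 271) (nat_lit 264) (nat_lit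 125)) (XT.nd (nat_lit 78) (nat_lit 0) (nat_lit 0) (XT.lf (nat_lit 0) (nat_lit 816228520280) (nat_lit 152) (nat_lit 1176589148860) (nat_lit 228) (nat_lit 1615101347816) (nat_lit 13) (nat_lit 5) (nat_lit 15) (nat_lit 5) (nat_lit 16) (nat_lit 5) (nat_lit 272) (nat_lit 264) (nat_lit 124)) (XT.lf (nat_lit 0) (nat_lit 2675413488251) (nat_lit 228) (nat_lit 1170641338608) (nat_lit 76) (nat_lit 101124878741) (nat_lit 13) (nat_lit 5) (nat_lit 16) (nat_lit 5) (nat_lit 14) (nat_lit 4) (nat_lit 273) (nat_lit 264) (nat_lit 123))))))))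
noncomputable def xc121 : XT := (XT.nd (nat_lit 33696) (nat_lit 0) (nat_lit 304) (XT.nd (nat_lit 624) (nat_lit 228) (nat_lit 0) (XT.nd (nat_lit 312) (nat_lit 152) (nat_lit 0) (XT.nd (nat_lit 156) (nat_lit 228) (nat_lit 0) (XT.nd (nat_lit 78) (nat_lit 0) (nat_lit 0) (XT.lf (nat_lit 0) (nat_lit 699841902614) (nat_lit 76) (nat_lit 2845563792017) (nat_lit 152) (nat_lit 779172750756) (nat_lit 12) (nat_lit 5) (nat_lit 13) (nat_lit 5) (nat_lit 14) (nat_lit 4) (nat_lit 274) (nat_lit 264) (nat_lit 122)) (XT.lf (nat_lit 0) (nat_lit 2982461751753) (nat_lit 76) (nat_lit 1624627594650) (nat_lit 152) (nat_lit 142318757580) (nat_lit 12) (nat_lit 5) (nat_lit 13) (nat_lit 5) (nat_lit 14) (nat_lit 4) (nat_lit 275) (nat_lit 264) (nat_lit 121))) (XT.nd (nat_lit 78) (nat_lit 0) (nat_lit 0) (XT.lf (nat_lit 0) (nat_lit 378802740611) (nat_lit 152) (nat_lit 174414488340) (nat_lit 228) (nat_lit 4678727180850)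 (nat_lit 9) (nat_lit 5) (nat_lit 11) (nat_lit 5) (nat_lit 12) (nat_lit 5) (nat_lit 276) (nat_lit 264) (nat_lit 120)) (XT.lf (nat_lit 0) (nat_lit 1497109865465) (nat_lit 228) (nat_lit 2801022786244) (nat_lit 76) (nat_lit 1463922399941) (nat_lit 9) (nat_lit 5) (nat_lit 12) (nat_lit 5) (nat_lit 10) (nat_lit 4) (nat_lit 277) (nat_lit 264) (nat_lit 119)))) (XT.nd (nat_lit 156) (nat_lit 76) (nat_lit 0) (XT.nd (nat_lit 78) (nat_lit 76) (nat_lit 0) (XT.lf (nat_lit 0) (nat_lit 2590891848531) (nat_lit 228) (nat_lit 449391523893) (nat_lit 76) (nat_lit 3330153099694) (nat_lit 9) (nat_lit 5) (nat_lit 12) (nat_lit 5) (nat_lit 10) (nat_lit 4) (nat_lit 278) (nat_lit 264) (nat_lit 118)) (XT.lf (nat_lit 0) (nat_lit 2475357904825) (nat_lit 76) (nat_lit 1475882515705) (nat_lit 152) (nat_lit 3103459791408) (nat_lit 8) (nat_lit 5) (nat_lit 9) (nat_lit 5) (nat_lit 10) (nat_lit 4) (nat_lit 279) (nat_lit 264)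 (nat_lit 117))) (XT.nd (nat_lit 78) (nat_lit 76) (nat_lit 0) (XT.lf (nat_lit 0) (nat_lit 5553632944779) (nat_lit 152) (nat_lit 1963255395167) (nat_lit 0) (nat_lit 319016422820) (nat_lit 8) (nat_lit 5) (nat_lit 10) (nat_lit 4) (nat_lit 8) (nat_lit 4) (nat_lit 280) (nat_lit 264) (nat_lit 116)) (XT.lf (nat_lit 0) (nat_lit 1070245047859) (nat_lit 76) (nat_lit 6440735984188) (nat_lit 76) (nat_lit 1206119461518) (nat_lit 7) (nat_lit 4) (nat_lit 8) (nat_lit 5) (nat_lit 8) (nat_lit 4) (nat_lit 281) (nat_lit 264) (nat_lit 115))))) (XT.nd (nat_lit 312) (nat_lit 76) (nat_lit 0) (XT.nd (nat_lit 156) (nat_lit 76) (nat_lit 0) (XT.nd (nat_lit 78) (nat_lit 0) (nat_lit 0) (XT.lf (nat_lit 0) (nat_lit 136166944614) (nat_lit 152) (nat_lit 4941857592365) (nat_lit 76) (nat_lit 4636128929019) (nat_lit 6) (nat_lit 5) (nat_lit 8) (nat_lit 5) (nat_lit 7) (nat_lit 4) (nat_lit 282) (nat_lit 264) (nat_lit 114))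 (XT.lf (nat_lit 0) (nat_lit 1556312652045) (nat_lit 152) (nat_lit 1888544321925) (nat_lit 76) (nat_lit 7407292271389) (nat_lit 6) (nat_lit 5) (nat_lit 8) (nat_lit 5) (nat_lit 7) (nat_lit 4) (nat_lit 283) (nat_lit 264) (nat_lit 113))) (XT.nd (nat_lit 78) (nat_lit 0) (nat_lit 0) (XT.lf (nat_lit 0) (nat_lit 1781354427791) (nat_lit 76) (nat_lit 1481887875502) (nat_lit 152) (nat_lit 8886537775176) (nat_lit 5) (nat_lit 5) (nat_lit 6) (nat_lit 5) (nat_lit 7) (nat_lit 4) (nat_lit 284) (nat_lit 264) (nat_lit 112)) (XT.lf (nat_lit 0) (nat_lit 5361744588314) (nat_lit 152) (nat_lit 7450076838261) (nat_lit 0) (nat_lit 809904132057) (nat_lit 5) (nat_lit 5) (nat_lit 7) (nat_lit 4) (nat_lit 5) (nat_lit 4) (nat_lit 285) (nat_lit 264) (nat_lit 111)))) (XT.nd (nat_lit 156) (nat_lit 76) (nat_lit 0) (XT.nd (nat_lit 78) (nat_lit 0) (nat_lit 0) (XT.lf (nat_lit 0) (nat_lit 7845588305056) (nat_lit 152) (nat_lit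 4164541793930) (nat_lit 0) (nat_lit 3293747848492) (nat_lit 5) (nat_lit 5) (nat_lit 7) (nat_lit 4) (nat_lit 5) (nat_lit 4) (nat_lit 286) (nat_lit 264) (nat_lit 110)) (XT.lf (nat_lit 0) (nat_lit 10702008579011) (nat_lit 152) (nat_lit 386176493504) (nat_lit 0) (nat_lit 6150168122180) (nat_lit 5) (nat_lit 5) (nat_lit 7) (nat_lit 4) (nat_lit 5) (nat_lit 4) (nat_lit 287) (nat_lit 264) (nat_lit 109))) (XT.nd (nat_lit 78) (nat_lit 0) (nat_lit 0) (XT.lf (nat_lit 0) (nat_lit 4345840362559) (nat_lit 76) (nat_lit 9821003513127) (nat_lit 76) (nat_lit 5269163056065) (nat_lit 4) (nat_lit 4) (nat_lit 5) (nat_lit 5) (nat_lit 5) (nat_lit 4) (nat_lit 288) (nat_lit 264) (nat_lit 108)) (XT.nd (nat_lit 78) (nat_lit 0) (nat_lit 0) (XT.lf (nat_lit 0) (nat_lit 9831060718398) (nat_lit 76) (nat_lit 8340530246745) (nat_lit 76) (nat_lit 3788689789481) (nat_lit 4) (nat_lit 4) (nat_lit 5) (nat_lit 5) (nat_lit 5)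 (nat_lit 4) (nat_lit 289) (nat_lit 264) (nat_lit 107)) (XT.lf (nat_lit 0) (nat_lit 16139064127214) (nat_lit 76) (nat_lit 6637985990594) (nat_lit 76) (nat_lit 2086145533155) (nat_lit 4) (nat_lit 4) (nat_lit 5) (nat_lit 5) (nat_lit 5) (nat_lit 4) (nat_lit 290) (nat_lit 264) (nat_lit 106))))))) (XT.nd (nat_lit 624) (nat_lit 532) (nat_lit 0) (XT.nd (nat_lit 312) (nat_lit 152) (nat_lit 0) (XT.nd (nat_lit 156) (nat_lit 0) (nat_lit 76) (XT.nd (nat_lit 78) (nat_lit 0) (nat_lit 0) (XT.lf (nat_lit 0) (nat_lit 33332915272) (nat_lit 380) (nat_lit 534275629879) (nat_lit 380) (nat_lit 534275629879) (nat_lit 17) (nat_lit 3) (nat_lit 22) (nat_lit 3) (nat_lit 22) (nat_lit 5) (nat_lit 265) (nat_lit 265) (nat_lit 130)) (XT.lf (nat_lit 0) (nat_lit 71665779806) (nat_lit 380) (nat_lit 104378795099) (nat_lit 380) (nat_lit 2193006399526) (nat_lit 17) (nat_lit 3) (nat_lit 22) (nat_lit 3) (nat_lit 22) (nat_lit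 5) (nat_lit 266) (nat_lit 265) (nat_lit 129))) (XT.nd (nat_lit 78) (nat_lit 0) (nat_lit 0) (XT.lf (nat_lit 0) (nat_lit 163630472427) (nat_lit 304) (nat_lit 1490258277166) (nat_lit 380) (nat_lit 892305030233) (nat_lit 18) (nat_lit 5) (nat_lit 22) (nat_lit 5) (nat_lit 23) (nat_lit 5) (nat_lit 267) (nat_lit 265) (nat_lit 128)) (XT.lf (nat_lit 0) (nat_lit 283488923701) (nat_lit 304) (nat_lit 355704776930) (nat_lit 380) (nat_lit 2108599447199) (nat_lit 18) (nat_lit 5) (nat_lit 22) (nat_lit 5) (nat_lit 23) (nat_lit 5) (nat_lit 268) (nat_lit 265) (nat_lit 127)))) (XT.nd (nat_lit 156) (nat_lit 304) (nat_lit 0) (XT.nd (nat_lit 78) (nat_lit 0) (nat_lit 0) (XT.lf (nat_lit 0) (nat_lit 488369292802) (nat_lit 304) (nat_lit 1955289063970) (nat_lit 76) (nat_lit 525917591755) (nat_lit 19) (nat_lit 5) (nat_lit 23) (nat_lit 5) (nat_lit 20) (nat_lit 5) (nat_lit 269) (nat_lit 265) (nat_lit 126)) (XT.lf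 (nat_lit 0) (nat_lit 773898582195) (nat_lit 304) (nat_lit 623406667915) (nat_lit 76) (nat_lit 1819833389490) (nat_lit 19) (nat_lit 5) (nat_lit 23) (nat_lit 5) (nat_lit 20) (nat_lit 5) (nat_lit 270) (nat_lit 265) (nat_lit 125))) (XT.nd (nat_lit 78) (nat_lit 0) (nat_lit 0) (XT.lf (nat_lit 0) (nat_lit 997019671954) (nat_lit 304) (nat_lit 146522050240) (nat_lit 380) (nat_lit 2352101343568) (nat_lit 15) (nat_lit 5) (nat_lit 19) (nat_lit 5) (nat_lit 20) (nat_lit 5) (nat_lit 271) (nat_lit 265) (nat_lit 124)) (XT.lf (nat_lit 0) (nat_lit 1656264207728) (nat_lit 380) (nat_lit 935508419936) (nat_lit 76) (nat_lit 1211005597014) (nat_lit 15) (nat_lit 5) (nat_lit 20) (nat_lit 5) (nat_lit 16) (nat_lit 5) (nat_lit 272) (nat_lit 265) (nat_lit 123))))) (XT.nd (nat_lit 312) (nat_lit 304) (nat_lit 0) (XT.nd (nat_lit 156) (nat_lit 76) (nat_lit 0) (XT.nd (nat_lit 78) (nat_lit 0) (nat_lit 0) (XT.lf (nat_lit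 0) (nat_lit 938662812860) (nat_lit 152) (nat_lit 1353077518089) (nat_lit 228) (nat_lit 1857366536759) (nat_lit 13) (nat_lit 5) (nat_lit 15) (nat_lit 5) (nat_lit 16) (nat_lit 5) (nat_lit 273) (nat_lit 265) (nat_lit 122)) (XT.lf (nat_lit 0) (nat_lit 3076725521546) (nat_lit 228) (nat_lit 1346237525312) (nat_lit 76) (nat_lit 116293613008) (nat_lit 13) (nat_lit 5) (nat_lit 16) (nat_lit 5) (nat_lit 14) (nat_lit 4) (nat_lit 274) (nat_lit 265) (nat_lit 121))) (XT.nd (nat_lit 78) (nat_lit 0) (nat_lit 0) (XT.lf (nat_lit 0) (nat_lit 804818201453) (nat_lit 76) (nat_lit 3272398356676) (nat_lit 152) (nat_lit 896048652615) (nat_lit 12) (nat_lit 5) (nat_lit 13) (nat_lit 5) (nat_lit 14) (nat_lit 4) (nat_lit 275) (nat_lit 265) (nat_lit 120)) (XT.lf (nat_lit 0) (nat_lit 3429831026209) (nat_lit 76) (nat_lit 1868321730244) (nat_lit 152) (nat_lit 163666561866) (nat_lit 12) (nat_lit 5) (nat_lit 13) (nat_lit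 5) (nat_lit 14) (nat_lit 4) (nat_lit 276) (nat_lit 265) (nat_lit 119)))) (XT.nd (nat_lit 156) (nat_lit 76) (nat_lit 0) (XT.nd (nat_lit 78) (nat_lit 0) (nat_lit 0) (XT.lf (nat_lit 0) (nat_lit 435623163700) (nat_lit 152) (nat_lit 200576657499) (nat_lit 228) (nat_lit 5380536248850) (nat_lit 9) (nat_lit 5) (nat_lit 11) (nat_lit 5) (nat_lit 12) (nat_lit 5) (nat_lit 277) (nat_lit 265) (nat_lit 118)) (XT.lf (nat_lit 0) (nat_lit 1721676352306) (nat_lit 228) (nat_lit 3221176192832) (nat_lit 76) (nat_lit 1683510763174) (nat_lit 9) (nat_lit 5) (nat_lit 12) (nat_lit 5) (nat_lit 10) (nat_lit 4) (nat_lit 278) (nat_lit 265) (nat_lit 117))) (XT.nd (nat_lit 78) (nat_lit 76) (nat_lit 0) (XT.lf (nat_lit 0) (nat_lit 2979525631916) (nat_lit 228) (nat_lit 516800242609) (nat_lit 76) (nat_lit 3829676067467) (nat_lit 9) (nat_lit 5) (nat_lit 12) (nat_lit 5) (nat_lit 10) (nat_lit 4) (nat_lit 279) (nat_lit 265)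 (nat_lit 116)) (XT.nd (nat_lit 78) (nat_lit 0) (nat_lit 0) (XT.lf (nat_lit 0) (nat_lit 2846661599968) (nat_lit 76) (nat_lit 1697264889340) (nat_lit 152) (nat_lit 3568978753542) (nat_lit 8) (nat_lit 5) (nat_lit 9) (nat_lit 5) (nat_lit 10) (nat_lit 4) (nat_lit 280) (nat_lit 265) (nat_lit 115)) (XT.lf (nat_lit 0) (nat_lit 6386677891586) (nat_lit 152) (nat_lit 2257743695621) (nat_lit 0) (nat_lit 366868889190) (nat_lit 8) (nat_lit 5) (nat_lit 10) (nat_lit 4) (nat_lit 8) (nat_lit 4) (nat_lit 281) (nat_lit 265) (nat_lit 114))))))))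
noncomputable def xc122 : XT := (XT.nd (nat_lit 33774) (nat_lit 0) (nat_lit 0) (XT.nd (nat_lit 624) (nat_lit 0) (nat_lit 0) (XT.nd (nat_lit 312) (nat_lit 76) (nat_lit 0) (XT.nd (nat_lit 156) (nat_lit 76) (nat_lit 0) (XT.nd (nat_lit 78) (nat_lit 76) (nat_lit 0) (XT.lf (nat_lit 0) (nat_lit 1230781813458) (nat_lit 76) (nat_lit 7406846378170) (nat_lit 76) (nat_lit 1387037375237) (nat_lit 7) (nat_lit 4) (nat_lit 8) (nat_lit 5) (nat_lit 8) (nat_lit 4) (nat_lit 282) (nat_lit 265) (nat_lit 113)) (XT.lf (nat_lit 0) (nat_lit 156591990670) (nat_lit 152) (nat_lit 5683136223458) (nat_lit 76) (nat_lit 5331548271102) (nat_lit 6) (nat_lit 5) (nat_lit 8) (nat_lit 5) (nat_lit 7) (nat_lit 4) (nat_lit 283) (nat_lit 265) (nat_lit 112))) (XT.nd (nat_lit 78) (nat_lit 76) (nat_lit 0) (XT.lf (nat_lit 0) (nat_lit 1789759553647) (nat_lit 152) (nat_lit 2171825963464) (nat_lit 76) (nat_lit 8518386114471) (nat_lit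 6) (nat_lit 5) (nat_lit 8) (nat_lit 5) (nat_lit 7) (nat_lit 4) (nat_lit 284) (nat_lit 265) (nat_lit 111)) (XT.lf (nat_lit 0) (nat_lit 2048557598403) (nat_lit 76) (nat_lit 1704171053950) (nat_lit 152) (nat_lit 10219518437340) (nat_lit 5) (nat_lit 5) (nat_lit 6) (nat_lit 5) (nat_lit 7) (nat_lit 4) (nat_lit 285) (nat_lit 265) (nat_lit 110)))) (XT.nd (nat_lit 156) (nat_lit 76) (nat_lit 0) (XT.nd (nat_lit 78) (nat_lit 0) (nat_lit 0) (XT.lf (nat_lit 0) (nat_lit 6166006279766) (nat_lit 152) (nat_lit 8567588358027) (nat_lit 0) (nat_lit 931389754145) (nat_lit 5) (nat_lit 5) (nat_lit 7) (nat_lit 4) (nat_lit 5) (nat_lit 4) (nat_lit 286) (nat_lit 265) (nat_lit 109)) (XT.lf (nat_lit 0) (nat_lit 9022426553601) (nat_lit 152) (nat_lit 4789223057825) (nat_lit 0) (nat_lit 3787810027747) (nat_lit 5) (nat_lit 5) (nat_lit 7) (nat_lit 4) (nat_lit 5) (nat_lit 4) (nat_lit 287) (nat_lit 265) (nat_lit 108)))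 (XT.nd (nat_lit 78) (nat_lit 76) (nat_lit 0) (XT.lf (nat_lit 0) (nat_lit 12307309868286) (nat_lit 152) (nat_lit 444102963013) (nat_lit 0) (nat_lit 7072693342231) (nat_lit 5) (nat_lit 5) (nat_lit 7) (nat_lit 4) (nat_lit 5) (nat_lit 4) (nat_lit 288) (nat_lit 265) (nat_lit 107)) (XT.lf (nat_lit 0) (nat_lit 4997716421254) (nat_lit 76) (nat_lit 11294154038071) (nat_lit 76) (nat_lit 6059537511840) (nat_lit 4) (nat_lit 4) (nat_lit 5) (nat_lit 5) (nat_lit 5) (nat_lit 4) (nat_lit 289) (nat_lit 265) (nat_lit 106))))) (XT.nd (nat_lit 32760) (nat_lit 0) (nat_lit 836) (XT.nd (nat_lit 32604) (nat_lit 0) (nat_lit 988) (XT.nd (nat_lit 32526) (nat_lit 0) (nat_lit 988) (XT.lf (nat_lit 0) (nat_lit 11305719829907) (nat_lit 76) (nat_lit 9591609781996) (nat_lit 76) (nat_lit 4356993255613) (nat_lit 4) (nat_lit 4) (nat_lit 5) (nat_lit 5) (nat_lit 5) (nat_lit 4) (nat_lit 290) (nat_lit 265) (nat_lit 105)) (XT.lf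 (nat_lit 0) (nat_lit 38332864037) (nat_lit 380) (nat_lit 614416967720) (nat_lit 380) (nat_lit 614416967720) (nat_lit 17) (nat_lit 3) (nat_lit 22) (nat_lit 3) (nat_lit 22) (nat_lit 5) (nat_lit 266) (nat_lit 266) (nat_lit 128))) (XT.nd (nat_lit 78) (nat_lit 0) (nat_lit 76) (XT.lf (nat_lit 0) (nat_lit 82415666732) (nat_lit 380) (nat_lit 120035602815) (nat_lit 380) (nat_lit 2521957347906) (nat_lit 17) (nat_lit 3) (nat_lit 22) (nat_lit 3) (nat_lit 22) (nat_lit 5) (nat_lit 267) (nat_lit 266) (nat_lit 127)) (XT.lf (nat_lit 0) (nat_lit 188175060819) (nat_lit 304) (nat_lit 1713797004635) (nat_lit 380) (nat_lit 1026150778587) (nat_lit 18) (nat_lit 5) (nat_lit 22) (nat_lit 5) (nat_lit 23) (nat_lit 5) (nat_lit 268) (nat_lit 266) (nat_lit 126)))) (XT.nd (nat_lit 156) (nat_lit 228) (nat_lit 0) (XT.nd (nat_lit 78) (nat_lit 0) (nat_lit 76) (XT.lf (nat_lit 0) (nat_lit 326012277498) (nat_lit 304) (nat_lit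 409060481203) (nat_lit 380) (nat_lit 2424889358905) (nat_lit 18) (nat_lit 5) (nat_lit 22) (nat_lit 5) (nat_lit 23) (nat_lit 5) (nat_lit 269) (nat_lit 266) (nat_lit 125)) (XT.lf (nat_lit 0) (nat_lit 561624700376) (nat_lit 304) (nat_lit 2248582409613) (nat_lit 76) (nat_lit 604805228670) (nat_lit 19) (nat_lit 5) (nat_lit 23) (nat_lit 5) (nat_lit 20) (nat_lit 5) (nat_lit 270) (nat_lit 266) (nat_lit 124))) (XT.nd (nat_lit 78) (nat_lit 304) (nat_lit 0) (XT.lf (nat_lit 0) (nat_lit 889983381397) (nat_lit 304) (nat_lit 716917655969) (nat_lit 76) (nat_lit 2092808396306) (nat_lit 19) (nat_lit 5) (nat_lit 23) (nat_lit 5) (nat_lit 20) (nat_lit 5) (nat_lit 271) (nat_lit 266) (nat_lit 123)) (XT.nd (nat_lit 78) (nat_lit 0) (nat_lit 0) (XT.lf (nat_lit 0) (nat_lit 1146572634328) (nat_lit 304) (nat_lit 168500357000) (nat_lit 380) (nat_lit 2704916532604) (nat_lit 15) (nat_lit 5) (nat_lit 19) (nat_lit 5)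 (nat_lit 20) (nat_lit 5) (nat_lit 272) (nat_lit 266) (nat_lit 122)) (XT.lf (nat_lit 0) (nat_lit 1904703848310) (nat_lit 380) (nat_lit 1075834671410) (nat_lit 76) (nat_lit 1392656437181) (nat_lit 15) (nat_lit 5) (nat_lit 20) (nat_lit 5) (nat_lit 16) (nat_lit 5) (nat_lit 273) (nat_lit 266) (nat_lit 121))))))) (XT.nd (nat_lit 624) (nat_lit 304) (nat_lit 0) (XT.nd (nat_lit 312) (nat_lit 304) (nat_lit 0) (XT.nd (nat_lit 156) (nat_lit 76) (nat_lit 0) (XT.nd (nat_lit 78) (nat_lit 0) (nat_lit 0) (XT.lf (nat_lit 0) (nat_lit 1079462245783) (nat_lit 152) (nat_lit 1556039143458) (nat_lit 228) (nat_lit 2135971507271) (nat_lit 13) (nat_lit 5) (nat_lit 15) (nat_lit 5) (nat_lit 16) (nat_lit 5) (nat_lit 274) (nat_lit 266) (nat_lit 120)) (XT.lf (nat_lit 0) (nat_lit 3538234357384) (nat_lit 228) (nat_lit 1548173143457) (nat_lit 76) (nat_lit 133737656816) (nat_lit 13) (nat_lit 5) (nat_lit 16) (nat_lit 5)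 (nat_lit 14) (nat_lit 4) (nat_lit 275) (nat_lit 266) (nat_lit 119))) (XT.nd (nat_lit 78) (nat_lit 0) (nat_lit 0) (XT.lf (nat_lit 0) (nat_lit 925540941839) (nat_lit 76) (nat_lit 3763258107044) (nat_lit 152) (nat_lit 1030455942375) (nat_lit 12) (nat_lit 5) (nat_lit 13) (nat_lit 5) (nat_lit 14) (nat_lit 4) (nat_lit 276) (nat_lit 266) (nat_lit 118)) (XT.lf (nat_lit 0) (nat_lit 3944305688982) (nat_lit 76) (nat_lit 2148569987056) (nat_lit 152) (nat_lit 188216539074) (nat_lit 12) (nat_lit 5) (nat_lit 13) (nat_lit 5) (nat_lit 14) (nat_lit 4) (nat_lit 277) (nat_lit 266) (nat_lit 117)))) (XT.nd (nat_lit 156) (nat_lit 76) (nat_lit 0) (XT.nd (nat_lit 78) (nat_lit 0) (nat_lit 0) (XT.lf (nat_lit 0) (nat_lit 500966647327) (nat_lit 152) (nat_lit 230663153030) (nat_lit 228) (nat_lit 6187616679275) (nat_lit 9) (nat_lit 5) (nat_lit 11) (nat_lit 5) (nat_lit 12) (nat_lit 5) (nat_lit 278) (nat_lit 266) (nat_lit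 116)) (XT.lf (nat_lit 0) (nat_lit 1979927810461) (nat_lit 228) (nat_lit 3704352613176) (nat_lit 76) (nat_lit 1936037380101) (nat_lit 9) (nat_lit 5) (nat_lit 12) (nat_lit 5) (nat_lit 10) (nat_lit 4) (nat_lit 279) (nat_lit 266) (nat_lit 115))) (XT.nd (nat_lit 78) (nat_lit 76) (nat_lit 0) (XT.lf (nat_lit 0) (nat_lit 3426454481320) (nat_lit 228) (nat_lit 594320271539) (nat_lit 76) (nat_lit 4404127479718) (nat_lit 9) (nat_lit 5) (nat_lit 12) (nat_lit 5) (nat_lit 10) (nat_lit 4) (nat_lit 280) (nat_lit 266) (nat_lit 114)) (XT.lf (nat_lit 0) (nat_lit 3273660847086) (nat_lit 76) (nat_lit 1951854619928) (nat_lit 152) (nat_lit 4104325561599) (nat_lit 8) (nat_lit 5) (nat_lit 9) (nat_lit 5) (nat_lit 10) (nat_lit 4) (nat_lit 281) (nat_lit 266) (nat_lit 113))))) (XT.nd (nat_lit 312) (nat_lit 152) (nat_lit 0) (XT.nd (nat_lit 156) (nat_lit 76) (nat_lit 0) (XT.nd (nat_lit 78) (nat_lit 76) (nat_lit 0)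 (XT.lf (nat_lit 0) (nat_lit 7344679579173) (nat_lit 152) (nat_lit 2596405243294) (nat_lit 0) (nat_lit 421899224797) (nat_lit 8) (nat_lit 5) (nat_lit 10) (nat_lit 4) (nat_lit 8) (nat_lit 4) (nat_lit 282) (nat_lit 266) (nat_lit 112)) (XT.lf (nat_lit 0) (nat_lit 1415399091844) (nat_lit 76) (nat_lit 8517873332139) (nat_lit 76) (nat_lit 1595092977357) (nat_lit 7) (nat_lit 4) (nat_lit 8) (nat_lit 5) (nat_lit 8) (nat_lit 4) (nat_lit 283) (nat_lit 266) (nat_lit 111))) (XT.nd (nat_lit 78) (nat_lit 0) (nat_lit 0) (XT.lf (nat_lit 0) (nat_lit 180080792570) (nat_lit 152) (nat_lit 6535606651107) (nat_lit 76) (nat_lit 6131280513832) (nat_lit 6) (nat_lit 5) (nat_lit 8) (nat_lit 5) (nat_lit 7) (nat_lit 4) (nat_lit 284) (nat_lit 266) (nat_lit 110)) (XT.lf (nat_lit 0) (nat_lit 2058223489563) (nat_lit 152) (nat_lit 2497599852879) (nat_lit 76) (nat_lit 9796144033437) (nat_lit 6) (nat_lit 5) (nat_lit 8)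 (nat_lit 5) (nat_lit 7) (nat_lit 4) (nat_lit 285) (nat_lit 266) (nat_lit 109)))) (XT.nd (nat_lit 156) (nat_lit 76) (nat_lit 0) (XT.nd (nat_lit 78) (nat_lit 0) (nat_lit 0) (XT.lf (nat_lit 0) (nat_lit 2355841243035) (nat_lit 76) (nat_lit 1959796709868) (nat_lit 152) (nat_lit 11752446199832) (nat_lit 5) (nat_lit 5) (nat_lit 6) (nat_lit 5) (nat_lit 7) (nat_lit 4) (nat_lit 286) (nat_lit 266) (nat_lit 108)) (XT.lf (nat_lit 0) (nat_lit 7090907224155) (nat_lit 152) (nat_lit 9852726607214) (nat_lit 0) (nat_lit 1071098218989) (nat_lit 5) (nat_lit 5) (nat_lit 7) (nat_lit 4) (nat_lit 5) (nat_lit 4) (nat_lit 287) (nat_lit 266) (nat_lit 107))) (XT.nd (nat_lit 78) (nat_lit 76) (nat_lit 0) (XT.lf (nat_lit 0) (nat_lit 10375790538748) (nat_lit 152) (nat_lit 5507606512572) (nat_lit 0) (nat_lit 4355981533408) (nat_lit 5) (nat_lit 5) (nat_lit 7) (nat_lit 4) (nat_lit 5) (nat_lit 4) (nat_lit 288) (nat_lit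 266) (nat_lit 106)) (XT.nd (nat_lit 78) (nat_lit 76) (nat_lit 0) (XT.lf (nat_lit 0) (nat_lit 14153406350361) (nat_lit 152) (nat_lit 510718404049) (nat_lit 0) (nat_lit 8133597344868) (nat_lit 5) (nat_lit 5) (nat_lit 7) (nat_lit 4) (nat_lit 5) (nat_lit 4) (nat_lit 289) (nat_lit 266) (nat_lit 105)) (XT.lf (nat_lit 0) (nat_lit 5747373887703) (nat_lit 76) (nat_lit 12988277142250) (nat_lit 76) (nat_lit 6968468136624) (nat_lit 4) (nat_lit 4) (nat_lit 5) (nat_lit 5) (nat_lit 5) (nat_lit 4) (nat_lit 290) (nat_lit 266) (nat_lit 104))))))))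
noncomputable def xc123 : XT := (XT.nd (nat_lit 1326) (nat_lit 228) (nat_lit 0) (XT.nd (nat_lit 624) (nat_lit 532) (nat_lit 0) (XT.nd (nat_lit 312) (nat_lit 152) (nat_lit 0) (XT.nd (nat_lit 156) (nat_lit 0) (nat_lit 76) (XT.nd (nat_lit 78) (nat_lit 0) (nat_lit 0) (XT.lf (nat_lit 0) (nat_lit 44082802319) (nat_lit 380) (nat_lit 706579507857) (nat_lit 380) (nat_lit 706579507857) (nat_lit 17) (nat_lit 3) (nat_lit 22) (nat_lit 3) (nat_lit 22) (nat_lit 5) (nat_lit 267) (nat_lit 267) (nat_lit 126)) (XT.lf (nat_lit 0) (nat_lit 94778031830) (nat_lit 380) (nat_lit 138040934504) (nat_lit 380) (nat_lit 2900250941359) (nat_lit 17) (nat_lit 3) (nat_lit 22) (nat_lit 3) (nat_lit 22) (nat_lit 5) (nat_lit 268) (nat_lit 267) (nat_lit 125))) (XT.nd (nat_lit 78) (nat_lit 0) (nat_lit 0) (XT.lf (nat_lit 0) (nat_lit 216401333195) (nat_lit 304) (nat_lit 1970866544663) (nat_lit 380) (nat_lit 1180073390702) (nat_lit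 18) (nat_lit 5) (nat_lit 22) (nat_lit 5) (nat_lit 23) (nat_lit 5) (nat_lit 269) (nat_lit 267) (nat_lit 124)) (XT.lf (nat_lit 0) (nat_lit 374914130647) (nat_lit 304) (nat_lit 470419544108) (nat_lit 380) (nat_lit 2788622758677) (nat_lit 18) (nat_lit 5) (nat_lit 22) (nat_lit 5) (nat_lit 23) (nat_lit 5) (nat_lit 270) (nat_lit 267) (nat_lit 123)))) (XT.nd (nat_lit 156) (nat_lit 304) (nat_lit 0) (XT.nd (nat_lit 78) (nat_lit 0) (nat_lit 0) (XT.lf (nat_lit 0) (nat_lit 645868415757) (nat_lit 304) (nat_lit 2585869760505) (nat_lit 76) (nat_lit 695526011573) (nat_lit 19) (nat_lit 5) (nat_lit 23) (nat_lit 5) (nat_lit 20) (nat_lit 5) (nat_lit 271) (nat_lit 267) (nat_lit 122)) (XT.lf (nat_lit 0) (nat_lit 1023480897585) (nat_lit 304) (nat_lit 824455295191) (nat_lit 76) (nat_lit 2406729654537) (nat_lit 19) (nat_lit 5) (nat_lit 23) (nat_lit 5) (nat_lit 20) (nat_lit 5) (nat_lit 272) (nat_lit 267) (nat_lit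 121))) (XT.nd (nat_lit 78) (nat_lit 0) (nat_lit 0) (XT.lf (nat_lit 0) (nat_lit 1318558538235) (nat_lit 304) (nat_lit 193775409962) (nat_lit 380) (nat_lit 3110654003044) (nat_lit 15) (nat_lit 5) (nat_lit 19) (nat_lit 5) (nat_lit 20) (nat_lit 5) (nat_lit 273) (nat_lit 267) (nat_lit 120)) (XT.lf (nat_lit 0) (nat_lit 2190409432682) (nat_lit 380) (nat_lit 1237209863413) (nat_lit 76) (nat_lit 1601554903224) (nat_lit 15) (nat_lit 5) (nat_lit 20) (nat_lit 5) (nat_lit 16) (nat_lit 5) (nat_lit 274) (nat_lit 267) (nat_lit 119))))) (XT.nd (nat_lit 312) (nat_lit 304) (nat_lit 0) (XT.nd (nat_lit 156) (nat_lit 76) (nat_lit 0) (XT.nd (nat_lit 78) (nat_lit 0) (nat_lit 0) (XT.lf (nat_lit 0) (nat_lit 1241381590963) (nat_lit 152) (nat_lit 1789445013205) (nat_lit 228) (nat_lit 2456367225798) (nat_lit 13) (nat_lit 5) (nat_lit 15) (nat_lit 5) (nat_lit 16) (nat_lit 5) (nat_lit 275) (nat_lit 267) (nat_lit 118))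 (XT.lf (nat_lit 0) (nat_lit 4068969516742) (nat_lit 228) (nat_lit 1780399106921) (nat_lit 76) (nat_lit 153798306743) (nat_lit 13) (nat_lit 5) (nat_lit 16) (nat_lit 5) (nat_lit 14) (nat_lit 4) (nat_lit 276) (nat_lit 267) (nat_lit 117))) (XT.nd (nat_lit 78) (nat_lit 0) (nat_lit 0) (XT.lf (nat_lit 0) (nat_lit 1064372090803) (nat_lit 76) (nat_lit 4327746820731) (nat_lit 152) (nat_lit 1185024327582) (nat_lit 12) (nat_lit 5) (nat_lit 13) (nat_lit 5) (nat_lit 14) (nat_lit 4) (nat_lit 277) (nat_lit 267) (nat_lit 116)) (XT.lf (nat_lit 0) (nat_lit 4535951549015) (nat_lit 76) (nat_lit 2470855483055) (nat_lit 152) (nat_lit 216449014588) (nat_lit 12) (nat_lit 5) (nat_lit 13) (nat_lit 5) (nat_lit 14) (nat_lit 4) (nat_lit 278) (nat_lit 267) (nat_lit 115)))) (XT.nd (nat_lit 156) (nat_lit 76) (nat_lit 0) (XT.nd (nat_lit 78) (nat_lit 0) (nat_lit 0) (XT.lf (nat_lit 0) (nat_lit 576111651285) (nat_lit 152)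 (nat_lit 265262623645) (nat_lit 228) (nat_lit 7115759175948) (nat_lit 9) (nat_lit 5) (nat_lit 11) (nat_lit 5) (nat_lit 12) (nat_lit 5) (nat_lit 279) (nat_lit 267) (nat_lit 114)) (XT.lf (nat_lit 0) (nat_lit 2276916986045) (nat_lit 228) (nat_lit 4260005498665) (nat_lit 76) (nat_lit 2226442988970) (nat_lit 9) (nat_lit 5) (nat_lit 12) (nat_lit 5) (nat_lit 10) (nat_lit 4) (nat_lit 280) (nat_lit 267) (nat_lit 113))) (XT.nd (nat_lit 78) (nat_lit 76) (nat_lit 0) (XT.lf (nat_lit 0) (nat_lit 3940422657009) (nat_lit 228) (nat_lit 683468306628) (nat_lit 76) (nat_lit 5064746603288) (nat_lit 9) (nat_lit 5) (nat_lit 12) (nat_lit 5) (nat_lit 10) (nat_lit 4) (nat_lit 281) (nat_lit 267) (nat_lit 112)) (XT.nd (nat_lit 78) (nat_lit 0) (nat_lit 0) (XT.lf (nat_lit 0) (nat_lit 3764709979534) (nat_lit 76) (nat_lit 2244632810790) (nat_lit 152) (nat_lit 4719974392078) (nat_lit 8) (nat_lit 5) (nat_lit 9) (nat_lit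 5) (nat_lit 10) (nat_lit 4) (nat_lit 282) (nat_lit 267) (nat_lit 111)) (XT.lf (nat_lit 0) (nat_lit 8446381518959) (nat_lit 152) (nat_lit 2985866024745) (nat_lit 0) (nat_lit 485184110201) (nat_lit 8) (nat_lit 5) (nat_lit 10) (nat_lit 4) (nat_lit 8) (nat_lit 4) (nat_lit 283) (nat_lit 267) (nat_lit 110))))))) (XT.nd (nat_lit 33228) (nat_lit 0) (nat_lit 608) (XT.nd (nat_lit 312) (nat_lit 0) (nat_lit 0) (XT.nd (nat_lit 156) (nat_lit 76) (nat_lit 0) (XT.nd (nat_lit 78) (nat_lit 76) (nat_lit 0) (XT.lf (nat_lit 0) (nat_lit 1627708960435) (nat_lit 76) (nat_lit 9795554329875) (nat_lit 76) (nat_lit 1834356920811) (nat_lit 7) (nat_lit 4) (nat_lit 8) (nat_lit 5) (nat_lit 8) (nat_lit 4) (nat_lit 284) (nat_lit 267) (nat_lit 109)) (XT.lf (nat_lit 0) (nat_lit 207092913951) (nat_lit 152) (nat_lit 7515947644335) (nat_lit 76) (nat_lit 7050972592468) (nat_lit 6) (nat_lit 5) (nat_lit 8) (nat_lit 5) (nat_lit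 7) (nat_lit 4) (nat_lit 285) (nat_lit 267) (nat_lit 108))) (XT.nd (nat_lit 78) (nat_lit 76) (nat_lit 0) (XT.lf (nat_lit 0) (nat_lit 2366957015167) (nat_lit 152) (nat_lit 2872239826952) (nat_lit 76) (nat_lit 11265565639809) (nat_lit 6) (nat_lit 5) (nat_lit 8) (nat_lit 5) (nat_lit 7) (nat_lit 4) (nat_lit 286) (nat_lit 267) (nat_lit 107)) (XT.lf (nat_lit 0) (nat_lit 2709217433174) (nat_lit 76) (nat_lit 2253766214704) (nat_lit 152) (nat_lit 13515313127455) (nat_lit 5) (nat_lit 5) (nat_lit 6) (nat_lit 5) (nat_lit 7) (nat_lit 4) (nat_lit 287) (nat_lit 267) (nat_lit 106)))) (XT.nd (nat_lit 156) (nat_lit 0) (nat_lit 0) (XT.nd (nat_lit 78) (nat_lit 0) (nat_lit 0) (XT.lf (nat_lit 0) (nat_lit 8154543309610) (nat_lit 152) (nat_lit 11330635594881) (nat_lit 0) (nat_lit 1231762953141) (nat_lit 5) (nat_lit 5) (nat_lit 7) (nat_lit 4) (nat_lit 5) (nat_lit 4) (nat_lit 288) (nat_lit 267) (nat_lit 105))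 (XT.lf (nat_lit 0) (nat_lit 11932159121154) (nat_lit 152) (nat_lit 6333747486487) (nat_lit 0) (nat_lit 5009378764552) (nat_lit 5) (nat_lit 5) (nat_lit 7) (nat_lit 4) (nat_lit 5) (nat_lit 4) (nat_lit 289) (nat_lit 267) (nat_lit 104))) (XT.nd (nat_lit 32682) (nat_lit 0) (nat_lit 912) (XT.lf (nat_lit 0) (nat_lit 16276417304301) (nat_lit 152) (nat_lit 587326162074) (nat_lit 0) (nat_lit 9353636947583) (nat_lit 5) (nat_lit 5) (nat_lit 7) (nat_lit 4) (nat_lit 5) (nat_lit 4) (nat_lit 290) (nat_lit 267) (nat_lit 103)) (XT.lf (nat_lit 0) (nat_lit 50695229227) (nat_lit 380) (nat_lit 812566430239) (nat_lit 380) (nat_lit 812566430239) (nat_lit 17) (nat_lit 3) (nat_lit 22) (nat_lit 3) (nat_lit 22) (nat_lit 5) (nat_lit 268) (nat_lit 268) (nat_lit 124))))) (XT.nd (nat_lit 312) (nat_lit 304) (nat_lit 0) (XT.nd (nat_lit 156) (nat_lit 0) (nat_lit 76) (XT.nd (nat_lit 78) (nat_lit 0) (nat_lit 76) (XT.lf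 (nat_lit 0) (nat_lit 108994748014) (nat_lit 380) (nat_lit 158747068077) (nat_lit 380) (nat_lit 3335288575960) (nat_lit 17) (nat_lit 3) (nat_lit 22) (nat_lit 3) (nat_lit 22) (nat_lit 5) (nat_lit 269) (nat_lit 268) (nat_lit 123)) (XT.lf (nat_lit 0) (nat_lit 248861543196) (nat_lit 304) (nat_lit 2266496518297) (nat_lit 380) (nat_lit 1357084395774) (nat_lit 18) (nat_lit 5) (nat_lit 22) (nat_lit 5) (nat_lit 23) (nat_lit 5) (nat_lit 270) (nat_lit 268) (nat_lit 122))) (XT.nd (nat_lit 78) (nat_lit 0) (nat_lit 76) (XT.lf (nat_lit 0) (nat_lit 431151258959) (nat_lit 304) (nat_lit 540982468711) (nat_lit 380) (nat_lit 3206916169405) (nat_lit 18) (nat_lit 5) (nat_lit 22) (nat_lit 5) (nat_lit 23) (nat_lit 5) (nat_lit 271) (nat_lit 268) (nat_lit 121)) (XT.lf (nat_lit 0) (nat_lit 742748685928) (nat_lit 304) (nat_lit 2973750216603) (nat_lit 76) (nat_lit 799854912252) (nat_lit 19) (nat_lit 5) (nat_lit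 23) (nat_lit 5) (nat_lit 20) (nat_lit 5) (nat_lit 272) (nat_lit 268) (nat_lit 120)))) (XT.nd (nat_lit 156) (nat_lit 152) (nat_lit 0) (XT.nd (nat_lit 78) (nat_lit 304) (nat_lit 0) (XT.lf (nat_lit 0) (nat_lit 1177003039011) (nat_lit 304) (nat_lit 948123582533) (nat_lit 76) (nat_lit 2767739101798) (nat_lit 19) (nat_lit 5) (nat_lit 23) (nat_lit 5) (nat_lit 20) (nat_lit 5) (nat_lit 273) (nat_lit 268) (nat_lit 119)) (XT.lf (nat_lit 0) (nat_lit 1516342325591) (nat_lit 304) (nat_lit 222841721012) (nat_lit 380) (nat_lit 3577252096354) (nat_lit 15) (nat_lit 5) (nat_lit 19) (nat_lit 5) (nat_lit 20) (nat_lit 5) (nat_lit 274) (nat_lit 268) (nat_lit 118))) (XT.nd (nat_lit 78) (nat_lit 152) (nat_lit 0) (XT.lf (nat_lit 0) (nat_lit 2518970852972) (nat_lit 380) (nat_lit 1422791336341) (nat_lit 76) (nat_lit 1841788139060) (nat_lit 15) (nat_lit 5) (nat_lit 20) (nat_lit 5) (nat_lit 16) (nat_lit 5) (nat_lit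 275) (nat_lit 268) (nat_lit 117)) (XT.nd (nat_lit 78) (nat_lit 0) (nat_lit 0) (XT.lf (nat_lit 0) (nat_lit 1427588835892) (nat_lit 152) (nat_lit 2057861763845) (nat_lit 228) (nat_lit 2824822303948) (nat_lit 13) (nat_lit 5) (nat_lit 15) (nat_lit 5) (nat_lit 16) (nat_lit 5) (nat_lit 276) (nat_lit 268) (nat_lit 116)) (XT.lf (nat_lit 0) (nat_lit 4679314948602) (nat_lit 228) (nat_lit 2047458966869) (nat_lit 76) (nat_lit 176868053816) (nat_lit 13) (nat_lit 5) (nat_lit 16) (nat_lit 5) (nat_lit 14) (nat_lit 4) (nat_lit 277) (nat_lit 268) (nat_lit 115))))))))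
noncomputable def xc124 : XT := (XT.nd (nat_lit 34086) (nat_lit 0) (nat_lit 0) (XT.nd (nat_lit 624) (nat_lit 152) (nat_lit 0) (XT.nd (nat_lit 312) (nat_lit 152) (nat_lit 0) (XT.nd (nat_lit 156) (nat_lit 228) (nat_lit 0) (XT.nd (nat_lit 78) (nat_lit 0) (nat_lit 0) (XT.lf (nat_lit 0) (nat_lit 1224027910237) (nat_lit 76) (nat_lit 4976908842050) (nat_lit 152) (nat_lit 1362777972070) (nat_lit 12) (nat_lit 5) (nat_lit 13) (nat_lit 5) (nat_lit 14) (nat_lit 4) (nat_lit 278) (nat_lit 268) (nat_lit 114)) (XT.lf (nat_lit 0) (nat_lit 5216344286422) (nat_lit 76) (nat_lit 2841483803955) (nat_lit 152) (nat_lit 248916362733) (nat_lit 12) (nat_lit 5) (nat_lit 13) (nat_lit 5) (nat_lit 14) (nat_lit 4) (nat_lit 279) (nat_lit 268) (nat_lit 113))) (XT.nd (nat_lit 78) (nat_lit 0) (nat_lit 0) (XT.lf (nat_lit 0) (nat_lit 662528404164) (nat_lit 152) (nat_lit 305052015423) (nat_lit 228) (nat_lit 8183123048394)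 (nat_lit 9) (nat_lit 5) (nat_lit 11) (nat_lit 5) (nat_lit 12) (nat_lit 5) (nat_lit 280) (nat_lit 268) (nat_lit 112)) (XT.lf (nat_lit 0) (nat_lit 2618454536987) (nat_lit 228) (nat_lit 4899006318558) (nat_lit 76) (nat_lit 2560409438716) (nat_lit 9) (nat_lit 5) (nat_lit 12) (nat_lit 5) (nat_lit 10) (nat_lit 4) (nat_lit 281) (nat_lit 268) (nat_lit 111)))) (XT.nd (nat_lit 156) (nat_lit 76) (nat_lit 0) (XT.nd (nat_lit 78) (nat_lit 76) (nat_lit 0) (XT.lf (nat_lit 0) (nat_lit 4531486058200) (nat_lit 228) (nat_lit 785988548356) (nat_lit 76) (nat_lit 5824458595000) (nat_lit 9) (nat_lit 5) (nat_lit 12) (nat_lit 5) (nat_lit 10) (nat_lit 4) (nat_lit 282) (nat_lit 268) (nat_lit 110)) (XT.lf (nat_lit 0) (nat_lit 4329416480537) (nat_lit 76) (nat_lit 2581327730801) (nat_lit 152) (nat_lit 5427970548045) (nat_lit 8) (nat_lit 5) (nat_lit 9) (nat_lit 5) (nat_lit 10) (nat_lit 4) (nat_lit 283) (nat_lit 268)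 (nat_lit 109))) (XT.nd (nat_lit 78) (nat_lit 76) (nat_lit 0) (XT.lf (nat_lit 0) (nat_lit 9713338749003) (nat_lit 152) (nat_lit 3433745924643) (nat_lit 0) (nat_lit 557961728005) (nat_lit 8) (nat_lit 5) (nat_lit 10) (nat_lit 4) (nat_lit 8) (nat_lit 4) (nat_lit 284) (nat_lit 268) (nat_lit 108)) (XT.lf (nat_lit 0) (nat_lit 1871865308140) (nat_lit 76) (nat_lit 11264887477780) (nat_lit 76) (nat_lit 2109510456551) (nat_lit 7) (nat_lit 4) (nat_lit 8) (nat_lit 5) (nat_lit 8) (nat_lit 4) (nat_lit 285) (nat_lit 268) (nat_lit 107))))) (XT.nd (nat_lit 33072) (nat_lit 0) (nat_lit 912) (XT.nd (nat_lit 156) (nat_lit 76) (nat_lit 0) (XT.nd (nat_lit 78) (nat_lit 0) (nat_lit 0) (XT.lf (nat_lit 0) (nat_lit 238156852930) (nat_lit 152) (nat_lit 8643339787629) (nat_lit 76) (nat_lit 8108618482518) (nat_lit 6) (nat_lit 5) (nat_lit 8) (nat_lit 5) (nat_lit 7) (nat_lit 4) (nat_lit 286) (nat_lit 268) (nat_lit 106))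 (XT.lf (nat_lit 0) (nat_lit 2722000569083) (nat_lit 152) (nat_lit 3303075798076) (nat_lit 76) (nat_lit 12955400486807) (nat_lit 6) (nat_lit 5) (nat_lit 8) (nat_lit 5) (nat_lit 7) (nat_lit 4) (nat_lit 287) (nat_lit 268) (nat_lit 105))) (XT.nd (nat_lit 78) (nat_lit 0) (nat_lit 0) (XT.lf (nat_lit 0) (nat_lit 3115600050936) (nat_lit 76) (nat_lit 2591831145666) (nat_lit 152) (nat_lit 15542610094796) (nat_lit 5) (nat_lit 5) (nat_lit 6) (nat_lit 5) (nat_lit 7) (nat_lit 4) (nat_lit 288) (nat_lit 268) (nat_lit 104)) (XT.lf (nat_lit 0) (nat_lit 9377724807437) (nat_lit 152) (nat_lit 13030230931531) (nat_lit 0) (nat_lit 1416527397097) (nat_lit 5) (nat_lit 5) (nat_lit 7) (nat_lit 4) (nat_lit 5) (nat_lit 4) (nat_lit 289) (nat_lit 268) (nat_lit 103)))) (XT.nd (nat_lit 156) (nat_lit 0) (nat_lit 76) (XT.nd (nat_lit 78) (nat_lit 0) (nat_lit 0) (XT.lf (nat_lit 0) (nat_lit 58299518572) (nat_lit 380) (nat_lit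 934451391903) (nat_lit 380) (nat_lit 934451391903) (nat_lit 17) (nat_lit 3) (nat_lit 22) (nat_lit 3) (nat_lit 22) (nat_lit 5) (nat_lit 269) (nat_lit 269) (nat_lit 122)) (XT.lf (nat_lit 0) (nat_lit 125343968844) (nat_lit 380) (nat_lit 182559123296) (nat_lit 380) (nat_lit 3835581857361) (nat_lit 17) (nat_lit 3) (nat_lit 22) (nat_lit 3) (nat_lit 22) (nat_lit 5) (nat_lit 270) (nat_lit 269) (nat_lit 121))) (XT.nd (nat_lit 78) (nat_lit 0) (nat_lit 0) (XT.lf (nat_lit 0) (nat_lit 286190782253) (nat_lit 304) (nat_lit 2606470989943) (nat_lit 380) (nat_lit 1560647052468) (nat_lit 18) (nat_lit 5) (nat_lit 22) (nat_lit 5) (nat_lit 23) (nat_lit 5) (nat_lit 271) (nat_lit 269) (nat_lit 120)) (XT.nd (nat_lit 78) (nat_lit 0) (nat_lit 76) (XT.lf (nat_lit 0) (nat_lit 495823954392) (nat_lit 304) (nat_lit 622129833714) (nat_lit 380) (nat_lit 3687953592493) (nat_lit 18) (nat_lit 5) (nat_lit 22) (nat_lit 5)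 (nat_lit 23) (nat_lit 5) (nat_lit 272) (nat_lit 269) (nat_lit 119)) (XT.lf (nat_lit 0) (nat_lit 854160994720) (nat_lit 304) (nat_lit 3419812743062) (nat_lit 76) (nat_lit 919833148291) (nat_lit 19) (nat_lit 5) (nat_lit 23) (nat_lit 5) (nat_lit 20) (nat_lit 5) (nat_lit 273) (nat_lit 269) (nat_lit 118))))))) (XT.nd (nat_lit 624) (nat_lit 304) (nat_lit 0) (XT.nd (nat_lit 312) (nat_lit 304) (nat_lit 0) (XT.nd (nat_lit 156) (nat_lit 152) (nat_lit 0) (XT.nd (nat_lit 78) (nat_lit 304) (nat_lit 0) (XT.lf (nat_lit 0) (nat_lit 1353553499996) (nat_lit 304) (nat_lit 1090342114667) (nat_lit 76) (nat_lit 3182899966373) (nat_lit 19) (nat_lit 5) (nat_lit 23) (nat_lit 5) (nat_lit 20) (nat_lit 5) (nat_lit 274) (nat_lit 269) (nat_lit 117)) (XT.lf (nat_lit 0) (nat_lit 1743793679437) (nat_lit 304) (nat_lit 256267978828) (nat_lit 380) (nat_lit 4113839905403) (nat_lit 15) (nat_lit 5) (nat_lit 19) (nat_lit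 5) (nat_lit 20) (nat_lit 5) (nat_lit 275) (nat_lit 269) (nat_lit 116))) (XT.nd (nat_lit 78) (nat_lit 152) (nat_lit 0) (XT.lf (nat_lit 0) (nat_lit 2896816484992) (nat_lit 380) (nat_lit 1636210031813) (nat_lit 76) (nat_lit 2118056360185) (nat_lit 15) (nat_lit 5) (nat_lit 20) (nat_lit 5) (nat_lit 16) (nat_lit 5) (nat_lit 276) (nat_lit 269) (nat_lit 115)) (XT.lf (nat_lit 0) (nat_lit 1641727166029) (nat_lit 152) (nat_lit 2366541027409) (nat_lit 228) (nat_lit 3248545645216) (nat_lit 13) (nat_lit 5) (nat_lit 15) (nat_lit 5) (nat_lit 16) (nat_lit 5) (nat_lit 277) (nat_lit 269) (nat_lit 114)))) (XT.nd (nat_lit 156) (nat_lit 228) (nat_lit 0) (XT.nd (nat_lit 78) (nat_lit 76) (nat_lit 0) (XT.lf (nat_lit 0) (nat_lit 5381212194180) (nat_lit 228) (nat_lit 2354577807295) (nat_lit 76) (nat_lit 203398262691) (nat_lit 13) (nat_lit 5) (nat_lit 16) (nat_lit 5) (nat_lit 14) (nat_lit 4) (nat_lit 278) (nat_lit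 269) (nat_lit 113)) (XT.lf (nat_lit 0) (nat_lit 1407632101168) (nat_lit 76) (nat_lit 5723445167002) (nat_lit 152) (nat_lit 1567194664365) (nat_lit 12) (nat_lit 5) (nat_lit 13) (nat_lit 5) (nat_lit 14) (nat_lit 4) (nat_lit 279) (nat_lit 269) (nat_lit 112))) (XT.nd (nat_lit 78) (nat_lit 228) (nat_lit 0) (XT.lf (nat_lit 0) (nat_lit 5998795933208) (nat_lit 76) (nat_lit 3267706373370) (nat_lit 152) (nat_lit 286253814086) (nat_lit 12) (nat_lit 5) (nat_lit 13) (nat_lit 5) (nat_lit 14) (nat_lit 4) (nat_lit 280) (nat_lit 269) (nat_lit 111)) (XT.lf (nat_lit 0) (nat_lit 761907668711) (nat_lit 152) (nat_lit 350809816398) (nat_lit 228) (nat_lit 9410591502669) (nat_lit 9) (nat_lit 5) (nat_lit 11) (nat_lit 5) (nat_lit 12) (nat_lit 5) (nat_lit 281) (nat_lit 269) (nat_lit 110))))) (XT.nd (nat_lit 312) (nat_lit 228) (nat_lit 0) (XT.nd (nat_lit 156) (nat_lit 76) (nat_lit 0) (XT.nd (nat_lit 78) (nat_lit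 0) (nat_lit 0) (XT.lf (nat_lit 0) (nat_lit 3011222719830) (nat_lit 228) (nat_lit 5633857262632) (nat_lit 76) (nat_lit 2944470855584) (nat_lit 9) (nat_lit 5) (nat_lit 12) (nat_lit 5) (nat_lit 10) (nat_lit 4) (nat_lit 282) (nat_lit 269) (nat_lit 109)) (XT.lf (nat_lit 0) (nat_lit 5211208968926) (nat_lit 228) (nat_lit 903886827384) (nat_lit 76) (nat_lit 6698127385171) (nat_lit 9) (nat_lit 5) (nat_lit 12) (nat_lit 5) (nat_lit 10) (nat_lit 4) (nat_lit 283) (nat_lit 269) (nat_lit 108))) (XT.nd (nat_lit 78) (nat_lit 0) (nat_lit 0) (XT.lf (nat_lit 0) (nat_lit 4978828955697) (nat_lit 76) (nat_lit 2968526889205) (nat_lit 152) (nat_lit 6242166128102) (nat_lit 8) (nat_lit 5) (nat_lit 9) (nat_lit 5) (nat_lit 10) (nat_lit 4) (nat_lit 284) (nat_lit 269) (nat_lit 107)) (XT.lf (nat_lit 0) (nat_lit 11170339563017) (nat_lit 152) (nat_lit 3948807810456) (nat_lit 0) (nat_lit 641655988170) (nat_lit 8) (nat_lit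 5) (nat_lit 10) (nat_lit 4) (nat_lit 8) (nat_lit 4) (nat_lit 285) (nat_lit 269) (nat_lit 106)))) (XT.nd (nat_lit 156) (nat_lit 76) (nat_lit 0) (XT.nd (nat_lit 78) (nat_lit 76) (nat_lit 0) (XT.lf (nat_lit 0) (nat_lit 2152645107114) (nat_lit 76) (nat_lit 12954620598255) (nat_lit 76) (nat_lit 2425937023232) (nat_lit 7) (nat_lit 4) (nat_lit 8) (nat_lit 5) (nat_lit 8) (nat_lit 4) (nat_lit 286) (nat_lit 269) (nat_lit 105)) (XT.lf (nat_lit 0) (nat_lit 273880382297) (nat_lit 152) (nat_lit 9939840753236) (nat_lit 76) (nat_lit 9324911255788) (nat_lit 6) (nat_lit 5) (nat_lit 8) (nat_lit 5) (nat_lit 7) (nat_lit 4) (nat_lit 287) (nat_lit 269) (nat_lit 104))) (XT.nd (nat_lit 78) (nat_lit 76) (nat_lit 0) (XT.lf (nat_lit 0) (nat_lit 3130300655686) (nat_lit 152) (nat_lit 3798537165581) (nat_lit 76) (nat_lit 14898710560604) (nat_lit 6) (nat_lit 5) (nat_lit 8) (nat_lit 5) (nat_lit 7) (nat_lit 4) (nat_lit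 288) (nat_lit 269) (nat_lit 103)) (XT.nd (nat_lit 32916) (nat_lit 0) (nat_lit 912) (XT.lf (nat_lit 0) (nat_lit 3582940060683) (nat_lit 76) (nat_lit 2980605816575) (nat_lit 152) (nat_lit 17874001607671) (nat_lit 5) (nat_lit 5) (nat_lit 6) (nat_lit 5) (nat_lit 7) (nat_lit 4) (nat_lit 289) (nat_lit 269) (nat_lit 102)) (XT.lf (nat_lit 0) (nat_lit 67044450109) (nat_lit 380) (nat_lit 1074619098518) (nat_lit 380) (nat_lit 1074619098518) (nat_lit 17) (nat_lit 3) (nat_lit 22) (nat_lit 3) (nat_lit 22) (nat_lit 5) (nat_lit 270) (nat_lit 270) (nat_lit 120))))))))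
noncomputable def xc125 : XT := (XT.nd (nat_lit 34398) (nat_lit 152) (nat_lit 0) (XT.nd (nat_lit 624) (nat_lit 456) (nat_lit 0) (XT.nd (nat_lit 312) (nat_lit 304) (nat_lit 0) (XT.nd (nat_lit 156) (nat_lit 0) (nat_lit 76) (XT.nd (nat_lit 78) (nat_lit 0) (nat_lit 76) (XT.lf (nat_lit 0) (nat_lit 144145570693) (nat_lit 380) (nat_lit 209942988015) (nat_lit 380) (nat_lit 4410919132190) (nat_lit 17) (nat_lit 3) (nat_lit 22) (nat_lit 3) (nat_lit 22) (nat_lit 5) (nat_lit 271) (nat_lit 270) (nat_lit 119)) (XT.lf (nat_lit 0) (nat_lit 329119405321) (nat_lit 304) (nat_lit 2997441633823) (nat_lit 380) (nat_lit 1794744108318) (nat_lit 18) (nat_lit 5) (nat_lit 22) (nat_lit 5) (nat_lit 23) (nat_lit 5) (nat_lit 272) (nat_lit 270) (nat_lit 118))) (XT.nd (nat_lit 78) (nat_lit 0) (nat_lit 76) (XT.lf (nat_lit 0) (nat_lit 570197552533) (nat_lit 304) (nat_lit 715449304761) (nat_lit 380) (nat_lit 4241146629610)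 (nat_lit 18) (nat_lit 5) (nat_lit 22) (nat_lit 5) (nat_lit 23) (nat_lit 5) (nat_lit 273) (nat_lit 270) (nat_lit 117)) (XT.lf (nat_lit 0) (nat_lit 982285148392) (nat_lit 304) (nat_lit 3932784649960) (nat_lit 76) (nat_lit 1057808119930) (nat_lit 19) (nat_lit 5) (nat_lit 23) (nat_lit 5) (nat_lit 20) (nat_lit 5) (nat_lit 274) (nat_lit 270) (nat_lit 116)))) (XT.nd (nat_lit 156) (nat_lit 152) (nat_lit 0) (XT.nd (nat_lit 78) (nat_lit 304) (nat_lit 0) (XT.lf (nat_lit 0) (nat_lit 1556586528877) (nat_lit 304) (nat_lit 1253893427901) (nat_lit 76) (nat_lit 3660334960804) (nat_lit 19) (nat_lit 5) (nat_lit 23) (nat_lit 5) (nat_lit 20) (nat_lit 5) (nat_lit 275) (nat_lit 270) (nat_lit 115)) (XT.lf (nat_lit 0) (nat_lit 2005362735139) (nat_lit 304) (nat_lit 294708175398) (nat_lit 380) (nat_lit 4730915887127) (nat_lit 15) (nat_lit 5) (nat_lit 19) (nat_lit 5) (nat_lit 20) (nat_lit 5) (nat_lit 276) (nat_lit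 270) (nat_lit 114))) (XT.nd (nat_lit 78) (nat_lit 152) (nat_lit 0) (XT.lf (nat_lit 0) (nat_lit 3331338960821) (nat_lit 380) (nat_lit 1881641532820) (nat_lit 76) (nat_lit 2435764814414) (nat_lit 15) (nat_lit 5) (nat_lit 20) (nat_lit 5) (nat_lit 16) (nat_lit 5) (nat_lit 277) (nat_lit 270) (nat_lit 113)) (XT.lf (nat_lit 0) (nat_lit 1887986244527) (nat_lit 152) (nat_lit 2721522180754) (nat_lit 228) (nat_lit 3735827488729) (nat_lit 13) (nat_lit 5) (nat_lit 15) (nat_lit 5) (nat_lit 16) (nat_lit 5) (nat_lit 278) (nat_lit 270) (nat_lit 112))))) (XT.nd (nat_lit 312) (nat_lit 152) (nat_lit 0) (XT.nd (nat_lit 156) (nat_lit 228) (nat_lit 0) (XT.nd (nat_lit 78) (nat_lit 76) (nat_lit 0) (XT.lf (nat_lit 0) (nat_lit 6188394025793) (nat_lit 228) (nat_lit 2707764474907) (nat_lit 76) (nat_lit 233908002702) (nat_lit 13) (nat_lit 5) (nat_lit 16) (nat_lit 5) (nat_lit 14) (nat_lit 4) (nat_lit 279) (nat_lit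 270) (nat_lit 111)) (XT.lf (nat_lit 0) (nat_lit 1618776919668) (nat_lit 76) (nat_lit 6581961941029) (nat_lit 152) (nat_lit 1802273861361) (nat_lit 12) (nat_lit 5) (nat_lit 13) (nat_lit 5) (nat_lit 14) (nat_lit 4) (nat_lit 280) (nat_lit 270) (nat_lit 110))) (XT.nd (nat_lit 78) (nat_lit 228) (nat_lit 0) (XT.lf (nat_lit 0) (nat_lit 6898615326080) (nat_lit 76) (nat_lit 3757862328485) (nat_lit 152) (nat_lit 329191883888) (nat_lit 12) (nat_lit 5) (nat_lit 13) (nat_lit 5) (nat_lit 14) (nat_lit 4) (nat_lit 281) (nat_lit 270) (nat_lit 109)) (XT.lf (nat_lit 0) (nat_lit 876193821983) (nat_lit 152) (nat_lit 403431287847) (nat_lit 228) (nat_lit 10822180225814) (nat_lit 9) (nat_lit 5) (nat_lit 11) (nat_lit 5) (nat_lit 12) (nat_lit 5) (nat_lit 282) (nat_lit 270) (nat_lit 108)))) (XT.nd (nat_lit 156) (nat_lit 152) (nat_lit 0) (XT.nd (nat_lit 78) (nat_lit 0) (nat_lit 0) (XT.lf (nat_lit 0) (nat_lit 3462906129540)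 (nat_lit 228) (nat_lit 6478935849222) (nat_lit 76) (nat_lit 3386141484722) (nat_lit 9) (nat_lit 5) (nat_lit 12) (nat_lit 5) (nat_lit 10) (nat_lit 4) (nat_lit 283) (nat_lit 270) (nat_lit 107)) (XT.lf (nat_lit 0) (nat_lit 5992890315774) (nat_lit 228) (nat_lit 1039469849052) (nat_lit 76) (nat_lit 7702846493643) (nat_lit 9) (nat_lit 5) (nat_lit 12) (nat_lit 5) (nat_lit 10) (nat_lit 4) (nat_lit 284) (nat_lit 270) (nat_lit 106))) (XT.nd (nat_lit 78) (nat_lit 76) (nat_lit 0) (XT.lf (nat_lit 0) (nat_lit 5725653301380) (nat_lit 76) (nat_lit 3413805921666) (nat_lit 152) (nat_lit 7178491045691) (nat_lit 8) (nat_lit 5) (nat_lit 9) (nat_lit 5) (nat_lit 10) (nat_lit 4) (nat_lit 285) (nat_lit 270) (nat_lit 105)) (XT.nd (nat_lit 78) (nat_lit 76) (nat_lit 0) (XT.lf (nat_lit 0) (nat_lit 12845890498728) (nat_lit 152) (nat_lit 4541128979844) (nat_lit 0) (nat_lit 737904387124) (nat_lit 8) (nat_lit 5) (nat_lit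 10) (nat_lit 4) (nat_lit 8) (nat_lit 4) (nat_lit 286) (nat_lit 270) (nat_lit 104)) (XT.lf (nat_lit 0) (nat_lit 2475541875263) (nat_lit 76) (nat_lit 14897813687092) (nat_lit 76) (nat_lit 2789827575355) (nat_lit 7) (nat_lit 4) (nat_lit 8) (nat_lit 5) (nat_lit 8) (nat_lit 4) (nat_lit 287) (nat_lit 270) (nat_lit 103))))))) (XT.nd (nat_lit 624) (nat_lit 760) (nat_lit 0) (XT.nd (nat_lit 312) (nat_lit 152) (nat_lit 0) (XT.nd (nat_lit 156) (nat_lit 0) (nat_lit 76) (XT.nd (nat_lit 78) (nat_lit 0) (nat_lit 0) (XT.lf (nat_lit 0) (nat_lit 77101120462) (nat_lit 380) (nat_lit 1235811961655) (nat_lit 380) (nat_lit 1235811961655) (nat_lit 17) (nat_lit 3) (nat_lit 22) (nat_lit 3) (nat_lit 22) (nat_lit 5) (nat_lit 271) (nat_lit 271) (nat_lit 118)) (XT.lf (nat_lit 0) (nat_lit 165767411230) (nat_lit 380) (nat_lit 241434433362) (nat_lit 380) (nat_lit 5072556999164) (nat_lit 17) (nat_lit 3) (nat_lit 22)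 (nat_lit 3) (nat_lit 22) (nat_lit 5) (nat_lit 272) (nat_lit 271) (nat_lit 117))) (XT.nd (nat_lit 78) (nat_lit 0) (nat_lit 0) (XT.lf (nat_lit 0) (nat_lit 378487320452) (nat_lit 304) (nat_lit 3447057875410) (nat_lit 380) (nat_lit 2063955723038) (nat_lit 18) (nat_lit 5) (nat_lit 22) (nat_lit 5) (nat_lit 23) (nat_lit 5) (nat_lit 273) (nat_lit 271) (nat_lit 116)) (XT.lf (nat_lit 0) (nat_lit 655727189181) (nat_lit 304) (nat_lit 822766697444) (nat_lit 380) (nat_lit 4877318622723) (nat_lit 18) (nat_lit 5) (nat_lit 22) (nat_lit 5) (nat_lit 23) (nat_lit 5) (nat_lit 274) (nat_lit 271) (nat_lit 115)))) (XT.nd (nat_lit 156) (nat_lit 304) (nat_lit 0) (XT.nd (nat_lit 78) (nat_lit 0) (nat_lit 0) (XT.lf (nat_lit 0) (nat_lit 1129627924026) (nat_lit 304) (nat_lit 4522702344005) (nat_lit 76) (nat_lit 1216479337463) (nat_lit 19) (nat_lit 5) (nat_lit 23) (nat_lit 5) (nat_lit 20) (nat_lit 5) (nat_lit 275)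 (nat_lit 271) (nat_lit 114)) (XT.lf (nat_lit 0) (nat_lit 1790074511144) (nat_lit 304) (nat_lit 1441977439088) (nat_lit 76) (nat_lit 4209385204527) (nat_lit 19) (nat_lit 5) (nat_lit 23) (nat_lit 5) (nat_lit 20) (nat_lit 5) (nat_lit 276) (nat_lit 271) (nat_lit 113))) (XT.nd (nat_lit 78) (nat_lit 0) (nat_lit 0) (XT.lf (nat_lit 0) (nat_lit 2306167148272) (nat_lit 304) (nat_lit 338914401516) (nat_lit 380) (nat_lit 5440553267107) (nat_lit 15) (nat_lit 5) (nat_lit 19) (nat_lit 5) (nat_lit 20) (nat_lit 5) (nat_lit 277) (nat_lit 271) (nat_lit 112)) (XT.lf (nat_lit 0) (nat_lit 3831039807273) (nat_lit 380) (nat_lit 2163887759896) (nat_lit 76) (nat_lit 2801129536728) (nat_lit 15) (nat_lit 5) (nat_lit 20) (nat_lit 5) (nat_lit 16) (nat_lit 5) (nat_lit 278) (nat_lit 271) (nat_lit 111))))) (XT.nd (nat_lit 1014) (nat_lit 304) (nat_lit 0) (XT.nd (nat_lit 234) (nat_lit 304) (nat_lit 0) (XT.nd (nat_lit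 78) (nat_lit 0) (nat_lit 0) (XT.lf (nat_lit 0) (nat_lit 2171184183924) (nat_lit 152) (nat_lit 3129750507287) (nat_lit 228) (nat_lit 4296201609566) (nat_lit 13) (nat_lit 5) (nat_lit 15) (nat_lit 5) (nat_lit 16) (nat_lit 5) (nat_lit 279) (nat_lit 271) (nat_lit 110)) (XT.lf (nat_lit 0) (nat_lit 7116653131542) (nat_lit 228) (nat_lit 3113929143510) (nat_lit 76) (nat_lit 268994203566) (nat_lit 13) (nat_lit 5) (nat_lit 16) (nat_lit 5) (nat_lit 14) (nat_lit 4) (nat_lit 280) (nat_lit 271) (nat_lit 109))) (XT.nd (nat_lit 78) (nat_lit 228) (nat_lit 0) (XT.lf (nat_lit 0) (nat_lit 7933407627177) (nat_lit 76) (nat_lit 4321541677085) (nat_lit 152) (nat_lit 378570664723) (nat_lit 12) (nat_lit 5) (nat_lit 13) (nat_lit 5) (nat_lit 14) (nat_lit 4) (nat_lit 282) (nat_lit 271) (nat_lit 107)) (XT.lf (nat_lit 0) (nat_lit 1007622897523) (nat_lit 152) (nat_lit 463945980259) (nat_lit 228) (nat_lit 12445507257980)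 (nat_lit 9) (nat_lit 5) (nat_lit 11) (nat_lit 5) (nat_lit 12) (nat_lit 5) (nat_lit 283) (nat_lit 271) (nat_lit 106)))) (XT.nd (nat_lit 32916) (nat_lit 0) (nat_lit 912) (XT.nd (nat_lit 32838) (nat_lit 0) (nat_lit 912) (XT.lf (nat_lit 0) (nat_lit 14262347219407) (nat_lit 152) (nat_lit 19817352462596) (nat_lit 0) (nat_lit 2154361107119) (nat_lit 5) (nat_lit 5) (nat_lit 7) (nat_lit 4) (nat_lit 5) (nat_lit 4) (nat_lit 292) (nat_lit 271) (nat_lit 97)) (XT.lf (nat_lit 0) (nat_lit 88666290675) (nat_lit 380) (nat_lit 1421183754662) (nat_lit 380) (nat_lit 1421183754662) (nat_lit 17) (nat_lit 3) (nat_lit 22) (nat_lit 3) (nat_lit 22) (nat_lit 5) (nat_lit 272) (nat_lit 272) (nat_lit 116))) (XT.nd (nat_lit 78) (nat_lit 0) (nat_lit 76) (XT.lf (nat_lit 0) (nat_lit 190632526644) (nat_lit 380) (nat_lit 277649596208) (nat_lit 380) (nat_lit 5833440546880) (nat_lit 17) (nat_lit 3) (nat_lit 22) (nat_lit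 3) (nat_lit 22) (nat_lit 5) (nat_lit 273) (nat_lit 272) (nat_lit 115)) (XT.nd (nat_lit 78) (nat_lit 0) (nat_lit 0) (XT.lf (nat_lit 0) (nat_lit 435260421796) (nat_lit 304) (nat_lit 3964116554084) (nat_lit 380) (nat_lit 2373549080338) (nat_lit 18) (nat_lit 5) (nat_lit 22) (nat_lit 5) (nat_lit 23) (nat_lit 5) (nat_lit 274) (nat_lit 272) (nat_lit 114)) (XT.lf (nat_lit 0) (nat_lit 754086270407) (nat_lit 304) (nat_lit 946181699768) (nat_lit 380) (nat_lit 5608916415127) (nat_lit 18) (nat_lit 5) (nat_lit 22) (nat_lit 5) (nat_lit 23) (nat_lit 5) (nat_lit 275) (nat_lit 272) (nat_lit 113))))))))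
noncomputable def xc126 : XT := (XT.nd (nat_lit 68640) (nat_lit 0) (nat_lit 532) (XT.nd (nat_lit 34164) (nat_lit 0) (nat_lit 532) (XT.nd (nat_lit 312) (nat_lit 684) (nat_lit 0) (XT.nd (nat_lit 156) (nat_lit 304) (nat_lit 0) (XT.nd (nat_lit 78) (nat_lit 0) (nat_lit 0) (XT.lf (nat_lit 0) (nat_lit 1299072115182) (nat_lit 304) (nat_lit 5201107692998) (nat_lit 76) (nat_lit 1398951237737) (nat_lit 19) (nat_lit 5) (nat_lit 23) (nat_lit 5) (nat_lit 20) (nat_lit 5) (nat_lit 276) (nat_lit 272) (nat_lit 112)) (XT.lf (nat_lit 0) (nat_lit 2058585690035) (nat_lit 304) (nat_lit 1658274052683) (nat_lit 76) (nat_lit 4840792984906) (nat_lit 19) (nat_lit 5) (nat_lit 23) (nat_lit 5) (nat_lit 20) (nat_lit 5) (nat_lit 277) (nat_lit 272) (nat_lit 111))) (XT.nd (nat_lit 78) (nat_lit 0) (nat_lit 0) (XT.lf (nat_lit 0) (nat_lit 2652092222678) (nat_lit 304) (nat_lit 389751561599) (nat_lit 380) (nat_lit 6256636254837)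 (nat_lit 15) (nat_lit 5) (nat_lit 19) (nat_lit 5) (nat_lit 20) (nat_lit 5) (nat_lit 278) (nat_lit 272) (nat_lit 110)) (XT.lf (nat_lit 0) (nat_lit 4405695780125) (nat_lit 380) (nat_lit 2488470921728) (nat_lit 76) (nat_lit 3221298967352) (nat_lit 15) (nat_lit 5) (nat_lit 20) (nat_lit 5) (nat_lit 16) (nat_lit 5) (nat_lit 279) (nat_lit 272) (nat_lit 109)))) (XT.nd (nat_lit 156) (nat_lit 532) (nat_lit 0) (XT.nd (nat_lit 78) (nat_lit 0) (nat_lit 0) (XT.lf (nat_lit 0) (nat_lit 2496861813567) (nat_lit 152) (nat_lit 3599213082942) (nat_lit 228) (nat_lit 4940631849131) (nat_lit 13) (nat_lit 5) (nat_lit 15) (nat_lit 5) (nat_lit 16) (nat_lit 5) (nat_lit 280) (nat_lit 272) (nat_lit 108)) (XT.lf (nat_lit 0) (nat_lit 8184151102695) (nat_lit 228) (nat_lit 3581018513046) (nat_lit 76) (nat_lit 309343334448) (nat_lit 13) (nat_lit 5) (nat_lit 16) (nat_lit 5) (nat_lit 14) (nat_lit 4) (nat_lit 281) (nat_lit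 272) (nat_lit 107))) (XT.nd (nat_lit 702) (nat_lit 456) (nat_lit 0) (XT.lf (nat_lit 0) (nat_lit 2140832481051) (nat_lit 76) (nat_lit 8704644665534) (nat_lit 152) (nat_lit 2383507177819) (nat_lit 12) (nat_lit 5) (nat_lit 13) (nat_lit 5) (nat_lit 14) (nat_lit 4) (nat_lit 282) (nat_lit 272) (nat_lit 106)) (XT.lf (nat_lit 0) (nat_lit 4760796012309) (nat_lit 152) (nat_lit 5777100207093) (nat_lit 76) (nat_lit 22659076425481) (nat_lit 6) (nat_lit 5) (nat_lit 8) (nat_lit 5) (nat_lit 7) (nat_lit 4) (nat_lit 291) (nat_lit 272) (nat_lit 97))))) (XT.nd (nat_lit 312) (nat_lit 304) (nat_lit 0) (XT.nd (nat_lit 156) (nat_lit 0) (nat_lit 76) (XT.nd (nat_lit 78) (nat_lit 0) (nat_lit 0) (XT.lf (nat_lit 0) (nat_lit 101966235898) (nat_lit 380) (nat_lit 1634361316922) (nat_lit 380) (nat_lit 1634361316922) (nat_lit 17) (nat_lit 3) (nat_lit 22) (nat_lit 3) (nat_lit 22) (nat_lit 5) (nat_lit 273) (nat_lit 273)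 (nat_lit 114)) (XT.lf (nat_lit 0) (nat_lit 219227408461) (nat_lit 380) (nat_lit 319297034007) (nat_lit 380) (nat_lit 6708456627280) (nat_lit 17) (nat_lit 3) (nat_lit 22) (nat_lit 3) (nat_lit 22) (nat_lit 5) (nat_lit 274) (nat_lit 273) (nat_lit 113))) (XT.nd (nat_lit 78) (nat_lit 0) (nat_lit 0) (XT.lf (nat_lit 0) (nat_lit 500549487542) (nat_lit 304) (nat_lit 4558734035203) (nat_lit 380) (nat_lit 2729581441516) (nat_lit 18) (nat_lit 5) (nat_lit 22) (nat_lit 5) (nat_lit 23) (nat_lit 5) (nat_lit 275) (nat_lit 273) (nat_lit 112)) (XT.lf (nat_lit 0) (nat_lit 867199213122) (nat_lit 304) (nat_lit 1088108952999) (nat_lit 380) (nat_lit 6450253876637) (nat_lit 18) (nat_lit 5) (nat_lit 22) (nat_lit 5) (nat_lit 23) (nat_lit 5) (nat_lit 276) (nat_lit 273) (nat_lit 111)))) (XT.nd (nat_lit 156) (nat_lit 456) (nat_lit 0) (XT.nd (nat_lit 78) (nat_lit 0) (nat_lit 0) (XT.lf (nat_lit 0) (nat_lit 1493932934389)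 (nat_lit 304) (nat_lit 5981273844976) (nat_lit 76) (nat_lit 1608793923137) (nat_lit 19) (nat_lit 5) (nat_lit 23) (nat_lit 5) (nat_lit 20) (nat_lit 5) (nat_lit 277) (nat_lit 273) (nat_lit 110)) (XT.lf (nat_lit 0) (nat_lit 2367373545218) (nat_lit 304) (nat_lit 1907015158871) (nat_lit 76) (nat_lit 5566911932415) (nat_lit 19) (nat_lit 5) (nat_lit 23) (nat_lit 5) (nat_lit 20) (nat_lit 5) (nat_lit 278) (nat_lit 273) (nat_lit 109))) (XT.nd (nat_lit 78) (nat_lit 152) (nat_lit 0) (XT.lf (nat_lit 0) (nat_lit 3049906057716) (nat_lit 304) (nat_lit 448214295729) (nat_lit 380) (nat_lit 7195131691296) (nat_lit 15) (nat_lit 5) (nat_lit 19) (nat_lit 5) (nat_lit 20) (nat_lit 5) (nat_lit 279) (nat_lit 273) (nat_lit 108)) (XT.nd (nat_lit 78) (nat_lit 152) (nat_lit 0) (XT.lf (nat_lit 0) (nat_lit 5066550148476) (nat_lit 380) (nat_lit 2861741558360) (nat_lit 76) (nat_lit 3704493812542) (nat_lit 15) (nat_lit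 5) (nat_lit 20) (nat_lit 5) (nat_lit 16) (nat_lit 5) (nat_lit 280) (nat_lit 273) (nat_lit 107)) (XT.lf (nat_lit 0) (nat_lit 2871391087156) (nat_lit 152) (nat_lit 4139095045053) (nat_lit 228) (nat_lit 5681726625087) (nat_lit 13) (nat_lit 5) (nat_lit 15) (nat_lit 5) (nat_lit 16) (nat_lit 5) (nat_lit 281) (nat_lit 273) (nat_lit 106))))))) (XT.nd (nat_lit 34476) (nat_lit 152) (nat_lit 0) (XT.nd (nat_lit 312) (nat_lit 152) (nat_lit 0) (XT.nd (nat_lit 156) (nat_lit 0) (nat_lit 76) (XT.nd (nat_lit 78) (nat_lit 0) (nat_lit 0) (XT.lf (nat_lit 0) (nat_lit 117261172509) (nat_lit 380) (nat_lit 1879515513751) (nat_lit 380) (nat_lit 1879515513751) (nat_lit 17) (nat_lit 3) (nat_lit 22) (nat_lit 3) (nat_lit 22) (nat_lit 5) (nat_lit 274) (nat_lit 274) (nat_lit 112)) (XT.lf (nat_lit 0) (nat_lit 252111521863) (nat_lit 380) (nat_lit 367191587874) (nat_lit 380) (nat_lit 7714725120138) (nat_lit 17) (nat_lit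 3) (nat_lit 22) (nat_lit 3) (nat_lit 22) (nat_lit 5) (nat_lit 275) (nat_lit 274) (nat_lit 111))) (XT.nd (nat_lit 78) (nat_lit 0) (nat_lit 0) (XT.lf (nat_lit 0) (nat_lit 575631912547) (nat_lit 304) (nat_lit 5242544138977) (nat_lit 380) (nat_lit 3139018657083) (nat_lit 18) (nat_lit 5) (nat_lit 22) (nat_lit 5) (nat_lit 23) (nat_lit 5) (nat_lit 276) (nat_lit 274) (nat_lit 110)) (XT.lf (nat_lit 0) (nat_lit 997279096719) (nat_lit 304) (nat_lit 1251325294638) (nat_lit 380) (nat_lit 7417791957558) (nat_lit 18) (nat_lit 5) (nat_lit 22) (nat_lit 5) (nat_lit 23) (nat_lit 5) (nat_lit 277) (nat_lit 274) (nat_lit 109)))) (XT.nd (nat_lit 156) (nat_lit 304) (nat_lit 0) (XT.nd (nat_lit 78) (nat_lit 0) (nat_lit 0) (XT.lf (nat_lit 0) (nat_lit 1718022876007) (nat_lit 304) (nat_lit 6878464920232) (nat_lit 76) (nat_lit 1850113011410) (nat_lit 19) (nat_lit 5) (nat_lit 23) (nat_lit 5) (nat_lit 20) (nat_lit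 5) (nat_lit 278) (nat_lit 274) (nat_lit 108)) (XT.lf (nat_lit 0) (nat_lit 2722479578270) (nat_lit 304) (nat_lit 2193067431405) (nat_lit 76) (nat_lit 6401948722105) (nat_lit 19) (nat_lit 5) (nat_lit 23) (nat_lit 5) (nat_lit 20) (nat_lit 5) (nat_lit 279) (nat_lit 274) (nat_lit 107))) (XT.nd (nat_lit 78) (nat_lit 0) (nat_lit 0) (XT.lf (nat_lit 0) (nat_lit 3507391967611) (nat_lit 304) (nat_lit 515446440005) (nat_lit 380) (nat_lit 8274401443655) (nat_lit 15) (nat_lit 5) (nat_lit 19) (nat_lit 5) (nat_lit 20) (nat_lit 5) (nat_lit 280) (nat_lit 274) (nat_lit 106)) (XT.lf (nat_lit 0) (nat_lit 5826532671754) (nat_lit 380) (nat_lit 3291002790883) (nat_lit 76) (nat_lit 4260167884490) (nat_lit 15) (nat_lit 5) (nat_lit 20) (nat_lit 5) (nat_lit 16) (nat_lit 5) (nat_lit 281) (nat_lit 274) (nat_lit 105))))) (XT.nd (nat_lit 312) (nat_lit 304) (nat_lit 0) (XT.nd (nat_lit 156) (nat_lit 0) (nat_lit 76)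 (XT.nd (nat_lit 78) (nat_lit 0) (nat_lit 0) (XT.lf (nat_lit 0) (nat_lit 134850349313) (nat_lit 380) (nat_lit 2161442840277) (nat_lit 380) (nat_lit 2161442840277) (nat_lit 17) (nat_lit 3) (nat_lit 22) (nat_lit 3) (nat_lit 22) (nat_lit 5) (nat_lit 275) (nat_lit 275) (nat_lit 110)) (XT.lf (nat_lit 0) (nat_lit 289928251755) (nat_lit 380) (nat_lit 422270325122) (nat_lit 380) (nat_lit 8871933887225) (nat_lit 17) (nat_lit 3) (nat_lit 22) (nat_lit 3) (nat_lit 22) (nat_lit 5) (nat_lit 276) (nat_lit 275) (nat_lit 109))) (XT.nd (nat_lit 78) (nat_lit 0) (nat_lit 0) (XT.lf (nat_lit 0) (nat_lit 661976700845) (nat_lit 304) (nat_lit 6028925758683) (nat_lit 380) (nat_lit 3609871455146) (nat_lit 18) (nat_lit 5) (nat_lit 22) (nat_lit 5) (nat_lit 23) (nat_lit 5) (nat_lit 277) (nat_lit 275) (nat_lit 108)) (XT.lf (nat_lit 0) (nat_lit 1146870962459) (nat_lit 304) (nat_lit 1439024087843) (nat_lit 380) (nat_lit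 8530460750757) (nat_lit 18) (nat_lit 5) (nat_lit 22) (nat_lit 5) (nat_lit 23) (nat_lit 5) (nat_lit 278) (nat_lit 275) (nat_lit 107)))) (XT.nd (nat_lit 156) (nat_lit 456) (nat_lit 0) (XT.nd (nat_lit 78) (nat_lit 0) (nat_lit 0) (XT.lf (nat_lit 0) (nat_lit 1975726308512) (nat_lit 304) (nat_lit 7910234657139) (nat_lit 76) (nat_lit 2127629962972) (nat_lit 19) (nat_lit 5) (nat_lit 23) (nat_lit 5) (nat_lit 20) (nat_lit 5) (nat_lit 279) (nat_lit 275) (nat_lit 106)) (XT.lf (nat_lit 0) (nat_lit 3130851515970) (nat_lit 304) (nat_lit 2522027545136) (nat_lit 76) (nat_lit 7362241030291) (nat_lit 19) (nat_lit 5) (nat_lit 23) (nat_lit 5) (nat_lit 20) (nat_lit 5) (nat_lit 280) (nat_lit 275) (nat_lit 105))) (XT.nd (nat_lit 78) (nat_lit 152) (nat_lit 0) (XT.lf (nat_lit 0) (nat_lit 4033500763689) (nat_lit 304) (nat_lit 592763405943) (nat_lit 380) (nat_lit 9515561659193) (nat_lit 15) (nat_lit 5) (nat_lit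 19) (nat_lit 5) (nat_lit 20) (nat_lit 5) (nat_lit 281) (nat_lit 275) (nat_lit 104)) (XT.nd (nat_lit 78) (nat_lit 152) (nat_lit 0) (XT.lf (nat_lit 0) (nat_lit 6700512573279) (nat_lit 380) (nat_lit 3784653208585) (nat_lit 76) (nat_lit 4899193067213) (nat_lit 15) (nat_lit 5) (nat_lit 20) (nat_lit 5) (nat_lit 16) (nat_lit 5) (nat_lit 282) (nat_lit 275) (nat_lit 103)) (XT.lf (nat_lit 0) (nat_lit 3797414715003) (nat_lit 152) (nat_lit 5473953196605) (nat_lit 228) (nat_lit 7514083459640) (nat_lit 13) (nat_lit 5) (nat_lit 15) (nat_lit 5) (nat_lit 16) (nat_lit 5) (nat_lit 283) (nat_lit 275) (nat_lit 102))))))))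
noncomputable def xc127 : XT := (XT.nd (nat_lit 69108) (nat_lit 0) (nat_lit 152) (XT.nd (nat_lit 34476) (nat_lit 0) (nat_lit 0) (XT.nd (nat_lit 312) (nat_lit 152) (nat_lit 0) (XT.nd (nat_lit 156) (nat_lit 0) (nat_lit 76) (XT.nd (nat_lit 78) (nat_lit 0) (nat_lit 0) (XT.lf (nat_lit 0) (nat_lit 155077902411) (nat_lit 380) (nat_lit 2485659265913) (nat_lit 380) (nat_lit 2485659265913) (nat_lit 17) (nat_lit 3) (nat_lit 22) (nat_lit 3) (nat_lit 22) (nat_lit 5) (nat_lit 276) (nat_lit 276) (nat_lit 108)) (XT.lf (nat_lit 0) (nat_lit 333417490738) (nat_lit 380) (nat_lit 485610873185) (nat_lit 380) (nat_lit 10202723969603) (nat_lit 17) (nat_lit 3) (nat_lit 22) (nat_lit 3) (nat_lit 22) (nat_lit 5) (nat_lit 277) (nat_lit 276) (nat_lit 107))) (XT.nd (nat_lit 78) (nat_lit 0) (nat_lit 0) (XT.lf (nat_lit 0) (nat_lit 761273207043) (nat_lit 304) (nat_lit 6933264621624) (nat_lit 380) (nat_lit 4151352173040)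 (nat_lit 18) (nat_lit 5) (nat_lit 22) (nat_lit 5) (nat_lit 23) (nat_lit 5) (nat_lit 278) (nat_lit 276) (nat_lit 106)) (XT.lf (nat_lit 0) (nat_lit 1318901607759) (nat_lit 304) (nat_lit 1654877700270) (nat_lit 380) (nat_lit 9810029863043) (nat_lit 18) (nat_lit 5) (nat_lit 22) (nat_lit 5) (nat_lit 23) (nat_lit 5) (nat_lit 279) (nat_lit 276) (nat_lit 105)))) (XT.nd (nat_lit 156) (nat_lit 304) (nat_lit 0) (XT.nd (nat_lit 78) (nat_lit 0) (nat_lit 0) (XT.lf (nat_lit 0) (nat_lit 2272085255623) (nat_lit 304) (nat_lit 9096769854858) (nat_lit 76) (nat_lit 2446774457305) (nat_lit 19) (nat_lit 5) (nat_lit 23) (nat_lit 5) (nat_lit 20) (nat_lit 5) (nat_lit 280) (nat_lit 276) (nat_lit 104)) (XT.lf (nat_lit 0) (nat_lit 3600479244091) (nat_lit 304) (nat_lit 2900331676165) (nat_lit 76) (nat_lit 8466577184737) (nat_lit 19) (nat_lit 5) (nat_lit 23) (nat_lit 5) (nat_lit 20) (nat_lit 5) (nat_lit 281) (nat_lit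 276) (nat_lit 103))) (XT.nd (nat_lit 78) (nat_lit 0) (nat_lit 0) (XT.lf (nat_lit 0) (nat_lit 4638525878950) (nat_lit 304) (nat_lit 681677916787) (nat_lit 380) (nat_lit 10942895907308) (nat_lit 15) (nat_lit 5) (nat_lit 19) (nat_lit 5) (nat_lit 20) (nat_lit 5) (nat_lit 282) (nat_lit 276) (nat_lit 102)) (XT.lf (nat_lit 0) (nat_lit 7705589459847) (nat_lit 380) (nat_lit 4352351189170) (nat_lit 76) (nat_lit 5634072027332) (nat_lit 15) (nat_lit 5) (nat_lit 20) (nat_lit 5) (nat_lit 16) (nat_lit 5) (nat_lit 283) (nat_lit 276) (nat_lit 101))))) (XT.nd (nat_lit 312) (nat_lit 152) (nat_lit 0) (XT.nd (nat_lit 156) (nat_lit 0) (nat_lit 76) (XT.nd (nat_lit 78) (nat_lit 0) (nat_lit 0) (XT.lf (nat_lit 0) (nat_lit 178339588303) (nat_lit 380) (nat_lit 2858508155493) (nat_lit 380) (nat_lit 2858508155493) (nat_lit 17) (nat_lit 3) (nat_lit 22) (nat_lit 3) (nat_lit 22) (nat_lit 5) (nat_lit 277) (nat_lit 277)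 (nat_lit 106)) (XT.lf (nat_lit 0) (nat_lit 383430115270) (nat_lit 380) (nat_lit 558452503629) (nat_lit 380) (nat_lit 11733132564510) (nat_lit 17) (nat_lit 3) (nat_lit 22) (nat_lit 3) (nat_lit 22) (nat_lit 5) (nat_lit 278) (nat_lit 277) (nat_lit 105))) (XT.nd (nat_lit 78) (nat_lit 0) (nat_lit 0) (XT.lf (nat_lit 0) (nat_lit 875464188909) (nat_lit 304) (nat_lit 7973254314216) (nat_lit 380) (nat_lit 4774054998711) (nat_lit 18) (nat_lit 5) (nat_lit 22) (nat_lit 5) (nat_lit 23) (nat_lit 5) (nat_lit 279) (nat_lit 277) (nat_lit 104)) (XT.lf (nat_lit 0) (nat_lit 1516736849627) (nat_lit 304) (nat_lit 1903109354744) (nat_lit 380) (nat_lit 11281534342251) (nat_lit 18) (nat_lit 5) (nat_lit 22) (nat_lit 5) (nat_lit 23) (nat_lit 5) (nat_lit 280) (nat_lit 277) (nat_lit 103)))) (XT.nd (nat_lit 156) (nat_lit 304) (nat_lit 0) (XT.nd (nat_lit 78) (nat_lit 0) (nat_lit 0) (XT.lf (nat_lit 0) (nat_lit 2612898044597)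 (nat_lit 304) (nat_lit 10461285332442) (nat_lit 76) (nat_lit 2813790625815) (nat_lit 19) (nat_lit 5) (nat_lit 23) (nat_lit 5) (nat_lit 20) (nat_lit 5) (nat_lit 281) (nat_lit 277) (nat_lit 102)) (XT.lf (nat_lit 0) (nat_lit 4140551131253) (nat_lit 304) (nat_lit 3335381427029) (nat_lit 76) (nat_lit 9736563762373) (nat_lit 19) (nat_lit 5) (nat_lit 23) (nat_lit 5) (nat_lit 20) (nat_lit 5) (nat_lit 282) (nat_lit 277) (nat_lit 101))) (XT.nd (nat_lit 34008) (nat_lit 0) (nat_lit 152) (XT.lf (nat_lit 0) (nat_lit 5334304761327) (nat_lit 304) (nat_lit 783929604269) (nat_lit 380) (nat_lit 12584330292827) (nat_lit 15) (nat_lit 5) (nat_lit 19) (nat_lit 5) (nat_lit 20) (nat_lit 5) (nat_lit 283) (nat_lit 277) (nat_lit 100)) (XT.nd (nat_lit 78) (nat_lit 0) (nat_lit 0) (XT.lf (nat_lit 0) (nat_lit 205090526949) (nat_lit 380) (nat_lit 3287284378586) (nat_lit 380) (nat_lit 3287284378586) (nat_lit 17) (nat_lit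 3) (nat_lit 22) (nat_lit 3) (nat_lit 22) (nat_lit 5) (nat_lit 278) (nat_lit 278) (nat_lit 104)) (XT.lf (nat_lit 0) (nat_lit 440944633258) (nat_lit 380) (nat_lit 642220378770) (nat_lit 380) (nat_lit 13493102448783) (nat_lit 17) (nat_lit 3) (nat_lit 22) (nat_lit 3) (nat_lit 22) (nat_lit 5) (nat_lit 279) (nat_lit 278) (nat_lit 103))))))) (XT.nd (nat_lit 34632) (nat_lit 0) (nat_lit 0) (XT.nd (nat_lit 34320) (nat_lit 76) (nat_lit 0) (XT.nd (nat_lit 156) (nat_lit 0) (nat_lit 76) (XT.nd (nat_lit 78) (nat_lit 0) (nat_lit 0) (XT.lf (nat_lit 0) (nat_lit 1006783817858) (nat_lit 304) (nat_lit 9169242460855) (nat_lit 380) (nat_lit 5490163248302) (nat_lit 18) (nat_lit 5) (nat_lit 22) (nat_lit 5) (nat_lit 23) (nat_lit 5) (nat_lit 280) (nat_lit 278) (nat_lit 102)) (XT.lf (nat_lit 0) (nat_lit 1744247377604) (nat_lit 304) (nat_lit 2188575757527) (nat_lit 380) (nat_lit 12973764493401) (nat_lit 18) (nat_lit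 5) (nat_lit 22) (nat_lit 5) (nat_lit 23) (nat_lit 5) (nat_lit 281) (nat_lit 278) (nat_lit 101))) (XT.nd (nat_lit 78) (nat_lit 0) (nat_lit 0) (XT.lf (nat_lit 0) (nat_lit 3004832751764) (nat_lit 304) (nat_lit 12030478131821) (nat_lit 76) (nat_lit 3235859219623) (nat_lit 19) (nat_lit 5) (nat_lit 23) (nat_lit 5) (nat_lit 20) (nat_lit 5) (nat_lit 282) (nat_lit 278) (nat_lit 100)) (XT.lf (nat_lit 0) (nat_lit 4761633801356) (nat_lit 304) (nat_lit 3835688640660) (nat_lit 76) (nat_lit 11197048326673) (nat_lit 19) (nat_lit 5) (nat_lit 23) (nat_lit 5) (nat_lit 20) (nat_lit 5) (nat_lit 283) (nat_lit 278) (nat_lit 99)))) (XT.nd (nat_lit 156) (nat_lit 0) (nat_lit 76) (XT.nd (nat_lit 78) (nat_lit 0) (nat_lit 0) (XT.lf (nat_lit 0) (nat_lit 235854106295) (nat_lit 380) (nat_lit 3780377035198) (nat_lit 380) (nat_lit 3780377035198) (nat_lit 17) (nat_lit 3) (nat_lit 22) (nat_lit 3) (nat_lit 22) (nat_lit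 5) (nat_lit 279) (nat_lit 279) (nat_lit 102)) (XT.lf (nat_lit 0) (nat_lit 507086328774) (nat_lit 380) (nat_lit 738553435280) (nat_lit 380) (nat_lit 15517067815796) (nat_lit 17) (nat_lit 3) (nat_lit 22) (nat_lit 3) (nat_lit 22) (nat_lit 5) (nat_lit 280) (nat_lit 279) (nat_lit 101))) (XT.nd (nat_lit 78) (nat_lit 0) (nat_lit 0) (XT.lf (nat_lit 0) (nat_lit 1157801391000) (nat_lit 304) (nat_lit 10544628829611) (nat_lit 380) (nat_lit 6313687735384) (nat_lit 18) (nat_lit 5) (nat_lit 22) (nat_lit 5) (nat_lit 23) (nat_lit 5) (nat_lit 281) (nat_lit 279) (nat_lit 100)) (XT.lf (nat_lit 0) (nat_lit 2005884484647) (nat_lit 304) (nat_lit 2516862120832) (nat_lit 380) (nat_lit 14919829167269) (nat_lit 18) (nat_lit 5) (nat_lit 22) (nat_lit 5) (nat_lit 23) (nat_lit 5) (nat_lit 282) (nat_lit 279) (nat_lit 99))))) (XT.nd (nat_lit 34398) (nat_lit 0) (nat_lit 0) (XT.nd (nat_lit 34242) (nat_lit 0) (nat_lit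 0) (XT.nd (nat_lit 34164) (nat_lit 152) (nat_lit 0) (XT.lf (nat_lit 0) (nat_lit 3455557664889) (nat_lit 304) (nat_lit 13835049851225) (nat_lit 76) (nat_lit 3721238102517) (nat_lit 19) (nat_lit 5) (nat_lit 23) (nat_lit 5) (nat_lit 20) (nat_lit 5) (nat_lit 283) (nat_lit 279) (nat_lit 98)) (XT.lf (nat_lit 0) (nat_lit 271232222469) (nat_lit 380) (nat_lit 4347433590345) (nat_lit 380) (nat_lit 4347433590345) (nat_lit 17) (nat_lit 3) (nat_lit 22) (nat_lit 3) (nat_lit 22) (nat_lit 5) (nat_lit 280) (nat_lit 280) (nat_lit 100))) (XT.nd (nat_lit 78) (nat_lit 0) (nat_lit 76) (XT.lf (nat_lit 0) (nat_lit 583149278489) (nat_lit 380) (nat_lit 849336450342) (nat_lit 380) (nat_lit 17844627987935) (nat_lit 17) (nat_lit 3) (nat_lit 22) (nat_lit 3) (nat_lit 22) (nat_lit 5) (nat_lit 281) (nat_lit 280) (nat_lit 99)) (XT.lf (nat_lit 0) (nat_lit 1331471600000) (nat_lit 304) (nat_lit 12126323153771) (nat_lit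 380) (nat_lit 7260740895568) (nat_lit 18) (nat_lit 5) (nat_lit 22) (nat_lit 5) (nat_lit 23) (nat_lit 5) (nat_lit 282) (nat_lit 280) (nat_lit 98)))) (XT.nd (nat_lit 34320) (nat_lit 0) (nat_lit 0) (XT.nd (nat_lit 34242) (nat_lit 76) (nat_lit 0) (XT.lf (nat_lit 0) (nat_lit 2306767157649) (nat_lit 304) (nat_lit 2894391438711) (nat_lit 380) (nat_lit 17157803542252) (nat_lit 18) (nat_lit 5) (nat_lit 22) (nat_lit 5) (nat_lit 23) (nat_lit 5) (nat_lit 283) (nat_lit 280) (nat_lit 97)) (XT.lf (nat_lit 0) (nat_lit 311917056012) (nat_lit 380) (nat_lit 4999548628797) (nat_lit 380) (nat_lit 4999548628797) (nat_lit 17) (nat_lit 3) (nat_lit 22) (nat_lit 3) (nat_lit 22) (nat_lit 5) (nat_lit 281) (nat_lit 281) (nat_lit 98))) (XT.nd (nat_lit 78) (nat_lit 0) (nat_lit 0) (XT.lf (nat_lit 0) (nat_lit 670621670563) (nat_lit 380) (nat_lit 976736917719) (nat_lit 380) (nat_lit 20521322185951) (nat_lit 17) (nat_lit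 3) (nat_lit 22) (nat_lit 3) (nat_lit 22) (nat_lit 5) (nat_lit 282) (nat_lit 281) (nat_lit 97)) (XT.nd (nat_lit 34320) (nat_lit 76) (nat_lit 0) (XT.lf (nat_lit 0) (nat_lit 1531192340265) (nat_lit 304) (nat_lit 13945271626624) (nat_lit 380) (nat_lit 8349852029810) (nat_lit 18) (nat_lit 5) (nat_lit 22) (nat_lit 5) (nat_lit 23) (nat_lit 5) (nat_lit 283) (nat_lit 281) (nat_lit 96)) (XT.lf (nat_lit 0) (nat_lit 358704614545) (nat_lit 380) (nat_lit 5749480923041) (nat_lit 380) (nat_lit 5749480923041) (nat_lit 17) (nat_lit 3) (nat_lit 22) (nat_lit 3) (nat_lit 22) (nat_lit 5) (nat_lit 282) (nat_lit 282) (nat_lit 96))))))))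

set_option maxRecDepth 10000000 in
noncomputable def Tp : PT := (PT.nd (nat_lit 3827070) (PT.nd (nat_lit 3689322) pc0 pc1) (PT.nd (nat_lit 102648) pc2 pc3))

set_option maxRecDepth 10000000 in
noncomputable def Tx : XT := (XT.nd (nat_lit 5975346) (nat_lit 0) (nat_lit 76) XT.nil (XT.nd (nat_lit 3746964) (nat_lit 0) (nat_lit 0) (XT.nd (nat_lit 1820130) (nat_lit 0) (nat_lit 0) (XT.nd (nat_lit 1336062) (nat_lit 0) (nat_lit 0) (XT.nd (nat_lit 994188) (nat_lit 0) (nat_lit 0) (XT.nd (nat_lit 754572) (nat_lit 0) (nat_lit 0) (XT.nd (nat_lit 549822) (nat_lit 0) (nat_lit 0) (XT.nd (nat_lit 445536) (nat_lit 0) (nat_lit 0) (XT.nd (nat_lit 342966) (nat_lit 0) (nat_lit 0) xc0 xc1) (XT.nd (nat_lit 68562) (nat_lit 0) (nat_lit 0) xc2 xc3)) (XT.nd (nat_lit 135174) (nat_lit 0) (nat_lit 0) (XT.nd (nat_lit 67314) (nat_lit 0) (nat_lit 0) xc4 xc5) (XT.nd (nat_lit 34866) (nat_lit 0) (nat_lit 0) xc6 xc7)))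 (XT.nd (nat_lit 136656) (nat_lit 0) (nat_lit 0) (XT.nd (nat_lit 68874) (nat_lit 0) (nat_lit 0) (XT.nd (nat_lit 34554) (nat_lit 0) (nat_lit 0) xc8 xc9) (XT.nd (nat_lit 34008) (nat_lit 0) (nat_lit 0) xc10 xc11)) (XT.nd (nat_lit 36192) (nat_lit 0) (nat_lit 0) (XT.nd (nat_lit 33540) (nat_lit 0) (nat_lit 0) xc12 xc13) (XT.nd (nat_lit 33462) (nat_lit 0) (nat_lit 0) xc14 xc15)))) (XT.nd (nat_lit 172692) (nat_lit 0) (nat_lit 0) (XT.nd (nat_lit 101790) (nat_lit 0) (nat_lit 0) (XT.nd (nat_lit 35880) (nat_lit 0) (nat_lit 0) (XT.nd (nat_lit 33228) (nat_lit 0) (nat_lit 0) xc16 xc17) (XT.nd (nat_lit 33072) (nat_lit 0) (nat_lit 0) xc18 xc19)) (XT.nd (nat_lit 35568) (nat_lit 0) (nat_lit 0) (XT.nd (nat_lit 2652) (nat_lit 0) (nat_lit 0) xc20 xc21) (XT.nd (nat_lit 32682) (nat_lit 0) (nat_lit 0) xc22 xc23))) (XT.nd (nat_lit 69966) (nat_lit 0) (nat_lit 0) (XT.nd (nat_lit 35100) (nat_lit 0) (nat_lit 0) (XT.nd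 (nat_lit 32448) (nat_lit 0) (nat_lit 0) xc24 xc25) (XT.nd (nat_lit 32214) (nat_lit 0) (nat_lit 0) xc26 xc27)) (XT.nd (nat_lit 64350) (nat_lit 0) (nat_lit 0) (XT.nd (nat_lit 32136) (nat_lit 0) (nat_lit 0) xc28 xc29) (XT.nd (nat_lit 2652) (nat_lit 0) (nat_lit 0) xc30 xc31))))) (XT.nd (nat_lit 244140) (nat_lit 0) (nat_lit 0) (XT.nd (nat_lit 137826) (nat_lit 0) (nat_lit 0) (XT.nd (nat_lit 69186) (nat_lit 0) (nat_lit 0) (XT.nd (nat_lit 34632) (nat_lit 0) (nat_lit 0) (XT.nd (nat_lit 2574) (nat_lit 0) (nat_lit 0) xc32 xc33) (XT.nd (nat_lit 2652) (nat_lit 0) (nat_lit 0) xc34 xc35)) (XT.nd (nat_lit 34398) (nat_lit 0) (nat_lit 0) (XT.nd (nat_lit 2652) (nat_lit 0) (nat_lit 0) xc36 xc37) (XT.nd (nat_lit 2652) (nat_lit 0) (nat_lit 0) xc38 xc39))) (XT.nd (nat_lit 67548) (nat_lit 0) (nat_lit 0) (XT.nd (nat_lit 33852) (nat_lit 0) (nat_lit 0) (XT.nd (nat_lit 2652) (nat_lit 0) (nat_lit 0) xc40 xc41)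 (XT.nd (nat_lit 2652) (nat_lit 0) (nat_lit 0) xc42 xc43)) (XT.nd (nat_lit 5460) (nat_lit 0) (nat_lit 0) (XT.nd (nat_lit 2652) (nat_lit 0) (nat_lit 0) xc44 xc45) (XT.nd (nat_lit 30654) (nat_lit 0) (nat_lit 0) xc46 xc47)))) (XT.nd (nat_lit 133224) (nat_lit 0) (nat_lit 0) (XT.nd (nat_lit 66456) (nat_lit 0) (nat_lit 0) (XT.nd (nat_lit 33228) (nat_lit 0) (nat_lit 0) (XT.nd (nat_lit 30576) (nat_lit 0) (nat_lit 0) xc48 xc49) (XT.nd (nat_lit 30576) (nat_lit 0) (nat_lit 76) xc50 xc51)) (XT.nd (nat_lit 33306) (nat_lit 0) (nat_lit 0) (XT.nd (nat_lit 2652) (nat_lit 0) (nat_lit 0) xc52 xc53) (XT.nd (nat_lit 2652) (nat_lit 0) (nat_lit 0) xc54 xc55))) (XT.nd (nat_lit 38922) (nat_lit 0) (nat_lit 0) (XT.nd (nat_lit 5304) (nat_lit 0) (nat_lit 0) (XT.nd (nat_lit 2652) (nat_lit 0) (nat_lit 0) xc56 xc57) (XT.nd (nat_lit 30966) (nat_lit 0) (nat_lit 0) xc58 xc59)) (XT.nd (nat_lit 33774) (nat_lit 0) (nat_lit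 0) (XT.nd (nat_lit 31122) (nat_lit 0) (nat_lit 0) xc60 xc61) (XT.nd (nat_lit 31356) (nat_lit 0) (nat_lit 0) xc62 xc63)))))) (XT.nd (nat_lit 584688) (nat_lit 0) (nat_lit 0) (XT.nd (nat_lit 274638) (nat_lit 0) (nat_lit 0) (XT.nd (nat_lit 136266) (nat_lit 0) (nat_lit 0) (XT.nd (nat_lit 68172) (nat_lit 0) (nat_lit 0) (XT.nd (nat_lit 34008) (nat_lit 0) (nat_lit 0) (XT.nd (nat_lit 31356) (nat_lit 0) (nat_lit 0) xc64 xc65) (XT.nd (nat_lit 31512) (nat_lit 0) (nat_lit 76) xc66 xc67)) (XT.nd (nat_lit 33930) (nat_lit 0) (nat_lit 0) (XT.nd (nat_lit 3120) (nat_lit 0) (nat_lit 0) xc68 xc69) (XT.nd (nat_lit 2652) (nat_lit 0) (nat_lit 0) xc70 xc71))) (XT.nd (nat_lit 69030) (nat_lit 0) (nat_lit 0) (XT.nd (nat_lit 34476) (nat_lit 0) (nat_lit 0) (XT.nd (nat_lit 2652) (nat_lit 0) (nat_lit 0) xc72 xc73) (XT.nd (nat_lit 2652) (nat_lit 0) (nat_lit 0) xc74 xc75)) (XT.nd (nat_lit 34632) (nat_lit 0) (nat_lit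 0) (XT.nd (nat_lit 2652) (nat_lit 0) (nat_lit 0) xc76 xc77) (XT.nd (nat_lit 32058) (nat_lit 0) (nat_lit 76) xc78 xc79)))) (XT.nd (nat_lit 139932) (nat_lit 0) (nat_lit 0) (XT.nd (nat_lit 69732) (nat_lit 0) (nat_lit 0) (XT.nd (nat_lit 34788) (nat_lit 0) (nat_lit 0) (XT.nd (nat_lit 32136) (nat_lit 0) (nat_lit 76) xc80 xc81) (XT.nd (nat_lit 32292) (nat_lit 0) (nat_lit 0) xc82 xc83)) (XT.nd (nat_lit 34866) (nat_lit 0) (nat_lit 0) (XT.nd (nat_lit 32214) (nat_lit 0) (nat_lit 0) xc84 xc85) (XT.nd (nat_lit 32292) (nat_lit 0) (nat_lit 0) xc86 xc87))) (XT.nd (nat_lit 99450) (nat_lit 0) (nat_lit 0) (XT.nd (nat_lit 64350) (nat_lit 0) (nat_lit 0) (XT.nd (nat_lit 31980) (nat_lit 0) (nat_lit 0) xc88 xc89) (XT.nd (nat_lit 2652) (nat_lit 76) (nat_lit 0) xc90 xc91)) (XT.nd (nat_lit 35256) (nat_lit 0) (nat_lit 0) (XT.nd (nat_lit 2652) (nat_lit 0) (nat_lit 0) xc92 xc93) (XT.nd (nat_lit 2964) (nat_lit 0)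 (nat_lit 0) xc94 xc95))))) (XT.nd (nat_lit 412698) (nat_lit 0) (nat_lit 0) (XT.nd (nat_lit 205686) (nat_lit 0) (nat_lit 0) (XT.nd (nat_lit 102414) (nat_lit 0) (nat_lit 0) (XT.nd (nat_lit 35568) (nat_lit 0) (nat_lit 0) (XT.nd (nat_lit 32916) (nat_lit 0) (nat_lit 0) xc96 xc97) (XT.nd (nat_lit 33384) (nat_lit 0) (nat_lit 0) xc98 xc99)) (XT.nd (nat_lit 36114) (nat_lit 0) (nat_lit 0) (XT.nd (nat_lit 33462) (nat_lit 0) (nat_lit 76) xc100 xc101) (XT.nd (nat_lit 33462) (nat_lit 0) (nat_lit 0) xc102 xc103))) (XT.nd (nat_lit 103350) (nat_lit 0) (nat_lit 0) (XT.nd (nat_lit 36270) (nat_lit 0) (nat_lit 0) (XT.nd (nat_lit 33618) (nat_lit 0) (nat_lit 76) xc104 xc105) (XT.nd (nat_lit 33540) (nat_lit 0) (nat_lit 0) xc106 xc107)) (XT.nd (nat_lit 36192) (nat_lit 0) (nat_lit 0) (XT.nd (nat_lit 33540) (nat_lit 0) (nat_lit 76) xc108 xc109) (XT.nd (nat_lit 33696) (nat_lit 0) (nat_lit 0) xc110 xc111)))) (XT.nd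 (nat_lit 274638) (nat_lit 0) (nat_lit 228) (XT.nd (nat_lit 136500) (nat_lit 0) (nat_lit 0) (XT.nd (nat_lit 67860) (nat_lit 0) (nat_lit 0) (XT.nd (nat_lit 33852) (nat_lit 0) (nat_lit 76) xc112 xc113) (XT.nd (nat_lit 34164) (nat_lit 0) (nat_lit 0) xc114 xc115)) (XT.nd (nat_lit 68952) (nat_lit 0) (nat_lit 76) (XT.nd (nat_lit 34476) (nat_lit 0) (nat_lit 0) xc116 xc117) (XT.nd (nat_lit 34632) (nat_lit 0) (nat_lit 0) xc118 xc119))) (XT.nd (nat_lit 172848) (nat_lit 0) (nat_lit 76) (XT.nd (nat_lit 69966) (nat_lit 0) (nat_lit 0) (XT.nd (nat_lit 34944) (nat_lit 0) (nat_lit 0) xc120 xc121) (XT.nd (nat_lit 67626) (nat_lit 0) (nat_lit 76) xc122 xc123)) (XT.nd (nat_lit 137436) (nat_lit 0) (nat_lit 76) (XT.nd (nat_lit 68250) (nat_lit 0) (nat_lit 0) xc124 xc125) (XT.nd (nat_lit 137592) (nat_lit 0) (nat_lit 684) xc126 xc127))))))) XT.nil))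

set_option maxRecDepth 10000000 in
noncomputable def Te : XT := XT.nil

set_option maxRecDepth 10000000 in
noncomputable def Tz : ZL := (ZL.cons (nat_lit 76) (nat_lit 3) (nat_lit 100744465516124100696) (ZL.cons (nat_lit 152) (nat_lit 6) (nat_lit 189470515116366615174) (ZL.cons (nat_lit 228) (nat_lit 6) (nat_lit 179239051219310121276) (ZL.cons (nat_lit 304) (nat_lit 3) (nat_lit 88784708305885914068) (ZL.cons (nat_lit 380) (nat_lit 6) (nat_lit 167472867737695153290) (ZL.cons (nat_lit 456) (nat_lit 6) (nat_lit 158983327320513351348) (ZL.cons (nat_lit 532) (nat_lit 3) (nat_lit 78765735570022635179) (ZL.cons (nat_lit 608) (nat_lit 6) (nat_lit 149220355840754279116) (ZL.cons (nat_lit 684) (nat_lit 6) (nat_lit 142376913062227355818) (ZL.cons (nat_lit 760) (nat_lit 3) (nat_lit 70557214713518860088) (ZL.cons (nat_lit 836) (nat_lit 6) (nat_lit 136867249358797669366) (ZL.cons (nat_lit 912) (nat_lit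 6) (nat_lit 134506953866921394030) (ZL.cons (nat_lit 988) (nat_lit 6) (nat_lit 129268652464663894298) (ZL.cons (nat_lit 1064) (nat_lit 3) (nat_lit 64085420303988627302) (ZL.cons (nat_lit 1140) (nat_lit 6) (nat_lit 125297036714568878594) (ZL.cons (nat_lit 1216) (nat_lit 6) (nat_lit 123244605852067769606) (ZL.cons (nat_lit 1292) (nat_lit 3) (nat_lit 60160248104228468906) (ZL.cons (nat_lit 1368) (nat_lit 6) (nat_lit 120866302723336155254) (ZL.cons (nat_lit 1444) (nat_lit 6) (nat_lit 122514401091091009652) (ZL.cons (nat_lit 1520) (nat_lit 6) (nat_lit 119631866745272970840) (ZL.cons (nat_lit 1596) (nat_lit 3) (nat_lit 59338623869729250773) (ZL.cons (nat_lit 1672) (nat_lit 6) (nat_lit 116088455254600033884) (ZL.cons (nat_lit 1748) (nat_lit 6) (nat_lit 117261939261590351380) (ZL.cons (nat_lit 1824) (nat_lit 6) (nat_lit 115477216772458952262) (ZL.cons (nat_lit 1900) (nat_lit 3) (nat_lit 56477113078714884825)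 (ZL.cons (nat_lit 1976) (nat_lit 6) (nat_lit 113581903649540869704) (ZL.cons (nat_lit 2052) (nat_lit 3) (nat_lit 56375900083111969940) (ZL.cons (nat_lit 2128) (nat_lit 6) (nat_lit 111402293558185074764) (ZL.cons (nat_lit 2204) (nat_lit 1) (nat_lit 18446744073709551617) ZL.nil)))))))))))))))))))))))))))))

noncomputable def vl : XL := ⟨(nat_lit 0), (nat_lit 76), (nat_lit 168404440), (nat_lit 152), (nat_lit 224073421), (nat_lit 152), (nat_lit 224073421), (nat_lit 1), (nat_lit 4), (nat_lit 2), (nat_lit 5), (nat_lit 2), (nat_lit 4), (nat_lit 0), (nat_lit 0), (nat_lit 0)⟩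

noncomputable def cp0 : Nat := (nat_lit 703265829906565158293792706770258404908901252124544839846952173568)

noncomputable def cp1 : Nat := (nat_lit 8720911592569541356185044705759701128426314478579311676629053411617283982078599572685929989439143203829378725057725662039755412589738612252993357880071400277249777130492147471944072642984877082453447186547177235606638870479345155335702642000386483830604201522532462822585559310406485313079200607071490554980266685915663104779554654728585681083511720750215851961074288711895489053680461538783189735487384592018380316106781301580366575813840313835125298026917345396341890320200336844283034396519283623994794360193997681303450282822306041419625558320777070655224144698411143748391676588585905713627561273984288161429878923965371820169510602341284338812959553032783209255232371727269888)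

noncomputable def rc0 : Nat := (nat_lit 8720911592569541356185044705759701128426314478579311676629053411617283982078599572685929989439143203829378725057725662039755412589738612252993357880071400277249777130492147471944072642984877082453447186547177235606638870479345155335702642000386483830604201522532462822585559310406485313079200607071490554980266685915663104779554654728585681083511720750215851961074288711895489053680461538783189735487384592018380316106781301580366575813840313835125298026917345396341890320200336844283034396519283623994794360193997681303450282822306041419625558320777070655224144698411143748391676588585905713627561273984288161429878923965371820169510602341284338812959553032783209255232371727269888)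

end Vale.Agent.Lib.P154.PChain.BQ.S0
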