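import Vale.Agent.Lib.P154.PChain.BQ.R0_0

set_option linter.all false

namespace Vale.Agent.Lib.P154.PChain.BQ.S1

open Vale.Agent.Lib.P154.Chain

noncomputable def pc0 : PT := (PT.nd (nat_lit 3551808) (PT.nd (nat_lit 3448692) (PT.nd (nat_lit 3380052) (PT.nd (nat_lit 3345732) (PT.nd (nat_lit 3345654) (PT.nd (nat_lit 3311334) PT.nil (PT.lf (nat_lit 76) (nat_lit 3) (nat_lit 1) (nat_lit 1) (nat_lit 117) (nat_lit 96) (nat_lit 117))) (PT.lf (nat_lit 152) (nat_lit 6) (nat_lit 2) (nat_lit 3) (nat_lit 116) (nat_lit 97) (nat_lit 117))) (PT.nd (nat_lit 34242) (PT.lf (nat_lit 152) (nat_lit 6) (nat_lit 2) (nat_lit 1) (nat_lit 117) (nat_lit 97) (nat_lit 116)) (PT.lf (nat_lit 228) (nat_lit 6) (nat_lit 3) (nat_lit 3) (nat_lit 115) (nat_lit 98) (nat_lit 117)))) (PT.nd (nat_lit 34320) (PT.nd (nat_lit 78) (PT.lf (nat_lit 304) (nat_lit 3) (nat_lit 4) (nat_lit 1) (nat_lit 116) (nat_lit 98) (nat_lit 116))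 (PT.lf (nat_lit 228) (nat_lit 6) (nat_lit 3) (nat_lit 1) (nat_lit 117) (nat_lit 98) (nat_lit 115))) (PT.nd (nat_lit 78) (PT.lf (nat_lit 380) (nat_lit 6) (nat_lit 5) (nat_lit 3) (nat_lit 115) (nat_lit 99) (nat_lit 116)) (PT.lf (nat_lit 380) (nat_lit 6) (nat_lit 5) (nat_lit 1) (nat_lit 116) (nat_lit 99) (nat_lit 115))))) (PT.nd (nat_lit 34476) (PT.nd (nat_lit 156) (PT.nd (nat_lit 78) (PT.lf (nat_lit 456) (nat_lit 6) (nat_lit 6) (nat_lit 3) (nat_lit 114) (nat_lit 100) (nat_lit 116)) (PT.lf (nat_lit 532) (nat_lit 3) (nat_lit 7) (nat_lit 1) (nat_lit 115) (nat_lit 100) (nat_lit 115))) (PT.nd (nat_lit 34242) (PT.lf (nat_lit 456) (nat_lit 6) (nat_lit 6) (nat_lit 1) (nat_lit 116) (nat_lit 100) (nat_lit 114)) (PT.lf (nat_lit 608) (nat_lit 6) (nat_lit 8) (nat_lit 3) (nat_lit 114) (nat_lit 101) (nat_lit 115)))) (PT.nd (nat_lit 34320) (PT.nd (nat_lit 34242) (PT.lf (nat_lit 608) (nat_lit 6) (nat_lit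 8) (nat_lit 1) (nat_lit 115) (nat_lit 101) (nat_lit 114)) (PT.lf (nat_lit 684) (nat_lit 6) (nat_lit 9) (nat_lit 3) (nat_lit 113) (nat_lit 102) (nat_lit 115))) (PT.nd (nat_lit 78) (PT.lf (nat_lit 760) (nat_lit 3) (nat_lit 10) (nat_lit 1) (nat_lit 114) (nat_lit 102) (nat_lit 114)) (PT.nd (nat_lit 34164) (PT.lf (nat_lit 684) (nat_lit 6) (nat_lit 9) (nat_lit 1) (nat_lit 115) (nat_lit 102) (nat_lit 113)) (PT.lf (nat_lit 836) (nat_lit 6) (nat_lit 11) (nat_lit 3) (nat_lit 112) (nat_lit 103) (nat_lit 115))))))) (PT.nd (nat_lit 68874) (PT.nd (nat_lit 34398) (PT.nd (nat_lit 156) (PT.nd (nat_lit 78) (PT.lf (nat_lit 912) (nat_lit 6) (nat_lit 12) (nat_lit 3) (nat_lit 113) (nat_lit 103) (nat_lit 114)) (PT.lf (nat_lit 912) (nat_lit 6) (nat_lit 12) (nat_lit 1) (nat_lit 114) (nat_lit 103) (nat_lit 113))) (PT.nd (nat_lit 34164) (PT.lf (nat_lit 836) (nat_lit 6) (nat_lit 11) (nat_lit 1) (nat_lit 115) (nat_lit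 103) (nat_lit 112)) (PT.lf (nat_lit 988) (nat_lit 6) (nat_lit 13) (nat_lit 3) (nat_lit 112) (nat_lit 104) (nat_lit 114)))) (PT.nd (nat_lit 34242) (PT.nd (nat_lit 78) (PT.lf (nat_lit 1064) (nat_lit 3) (nat_lit 14) (nat_lit 1) (nat_lit 113) (nat_lit 104) (nat_lit 113)) (PT.lf (nat_lit 988) (nat_lit 6) (nat_lit 13) (nat_lit 1) (nat_lit 114) (nat_lit 104) (nat_lit 112))) (PT.nd (nat_lit 78) (PT.lf (nat_lit 1140) (nat_lit 6) (nat_lit 15) (nat_lit 3) (nat_lit 111) (nat_lit 105) (nat_lit 114)) (PT.nd (nat_lit 78) (PT.lf (nat_lit 1216) (nat_lit 6) (nat_lit 16) (nat_lit 3) (nat_lit 112) (nat_lit 105) (nat_lit 113)) (PT.lf (nat_lit 1216) (nat_lit 6) (nat_lit 16) (nat_lit 1) (nat_lit 113) (nat_lit 105) (nat_lit 112)))))) (PT.nd (nat_lit 34320) (PT.nd (nat_lit 34164) (PT.nd (nat_lit 34086) (PT.lf (nat_lit 1140) (nat_lit 6) (nat_lit 15) (nat_lit 1) (nat_lit 114) (nat_lit 105) (nat_lit 111)) (PT.lf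 (nat_lit 1444) (nat_lit 6) (nat_lit 19) (nat_lit 3) (nat_lit 110) (nat_lit 106) (nat_lit 114))) (PT.nd (nat_lit 78) (PT.lf (nat_lit 1520) (nat_lit 6) (nat_lit 20) (nat_lit 3) (nat_lit 111) (nat_lit 106) (nat_lit 113)) (PT.lf (nat_lit 1596) (nat_lit 3) (nat_lit 21) (nat_lit 1) (nat_lit 112) (nat_lit 106) (nat_lit 112)))) (PT.nd (nat_lit 34086) (PT.nd (nat_lit 78) (PT.lf (nat_lit 1520) (nat_lit 6) (nat_lit 20) (nat_lit 1) (nat_lit 113) (nat_lit 106) (nat_lit 111)) (PT.lf (nat_lit 1444) (nat_lit 6) (nat_lit 19) (nat_lit 1) (nat_lit 114) (nat_lit 106) (nat_lit 110))) (PT.nd (nat_lit 78) (PT.lf (nat_lit 1368) (nat_lit 6) (nat_lit 18) (nat_lit 3) (nat_lit 109) (nat_lit 107) (nat_lit 114)) (PT.nd (nat_lit 78) (PT.lf (nat_lit 1748) (nat_lit 6) (nat_lit 23) (nat_lit 3) (nat_lit 110) (nat_lit 107) (nat_lit 113)) (PT.lf (nat_lit 1824) (nat_lit 6) (nat_lit 24) (nat_lit 3) (nat_lit 111) (nat_lit 107)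 (nat_lit 112))))))))
noncomputable def pc1 : PT := (PT.nd (nat_lit 102726) (PT.nd (nat_lit 34554) (PT.nd (nat_lit 34164) (PT.nd (nat_lit 156) (PT.nd (nat_lit 78) (PT.lf (nat_lit 1824) (nat_lit 6) (nat_lit 24) (nat_lit 1) (nat_lit 112) (nat_lit 107) (nat_lit 111)) (PT.lf (nat_lit 1748) (nat_lit 6) (nat_lit 23) (nat_lit 1) (nat_lit 113) (nat_lit 107) (nat_lit 110))) (PT.nd (nat_lit 33930) (PT.lf (nat_lit 1368) (nat_lit 6) (nat_lit 18) (nat_lit 1) (nat_lit 114) (nat_lit 107) (nat_lit 109)) (PT.lf (nat_lit 1292) (nat_lit 3) (nat_lit 17) (nat_lit 3) (nat_lit 108) (nat_lit 108) (nat_lit 114)))) (PT.nd (nat_lit 156) (PT.nd (nat_lit 78) (PT.lf (nat_lit 1672) (nat_lit 6) (nat_lit 22) (nat_lit 3) (nat_lit 109) (nat_lit 108) (nat_lit 113)) (PT.lf (nat_lit 1976) (nat_lit 6) (nat_lit 26) (nat_lit 3) (nat_lit 110) (nat_lit 108) (nat_lit 112))) (PT.nd (nat_lit 78) (PT.lf (nat_lit 2052) (nat_lit 3) (nat_lit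 27) (nat_lit 1) (nat_lit 111) (nat_lit 108) (nat_lit 111)) (PT.nd (nat_lit 78) (PT.lf (nat_lit 1976) (nat_lit 6) (nat_lit 26) (nat_lit 1) (nat_lit 112) (nat_lit 108) (nat_lit 110)) (PT.lf (nat_lit 1672) (nat_lit 6) (nat_lit 22) (nat_lit 1) (nat_lit 113) (nat_lit 108) (nat_lit 109)))))) (PT.nd (nat_lit 34086) (PT.nd (nat_lit 33930) (PT.nd (nat_lit 33852) (PT.lf (nat_lit 1292) (nat_lit 3) (nat_lit 17) (nat_lit 0) (nat_lit 114) (nat_lit 108) (nat_lit 108)) (PT.lf (nat_lit 1368) (nat_lit 6) (nat_lit 18) (nat_lit 5) (nat_lit 107) (nat_lit 109) (nat_lit 114))) (PT.nd (nat_lit 78) (PT.lf (nat_lit 1672) (nat_lit 6) (nat_lit 22) (nat_lit 5) (nat_lit 108) (nat_lit 109) (nat_lit 113)) (PT.lf (nat_lit 1900) (nat_lit 3) (nat_lit 25) (nat_lit 3) (nat_lit 109) (nat_lit 109) (nat_lit 112)))) (PT.nd (nat_lit 156) (PT.nd (nat_lit 78) (PT.lf (nat_lit 2128) (nat_lit 6) (nat_lit 28) (nat_lit 3) (nat_lit 110)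 (nat_lit 109) (nat_lit 111)) (PT.lf (nat_lit 2128) (nat_lit 6) (nat_lit 28) (nat_lit 1) (nat_lit 111) (nat_lit 109) (nat_lit 110))) (PT.nd (nat_lit 78) (PT.lf (nat_lit 1900) (nat_lit 3) (nat_lit 25) (nat_lit 0) (nat_lit 112) (nat_lit 109) (nat_lit 109)) (PT.nd (nat_lit 78) (PT.lf (nat_lit 1672) (nat_lit 6) (nat_lit 22) (nat_lit 0) (nat_lit 113) (nat_lit 109) (nat_lit 108)) (PT.lf (nat_lit 1368) (nat_lit 6) (nat_lit 18) (nat_lit 0) (nat_lit 114) (nat_lit 109) (nat_lit 107))))))) (PT.nd (nat_lit 34320) (PT.nd (nat_lit 312) (PT.nd (nat_lit 156) (PT.nd (nat_lit 78) (PT.lf (nat_lit 1444) (nat_lit 6) (nat_lit 19) (nat_lit 5) (nat_lit 106) (nat_lit 110) (nat_lit 114)) (PT.lf (nat_lit 1748) (nat_lit 6) (nat_lit 23) (nat_lit 5) (nat_lit 107) (nat_lit 110) (nat_lit 113))) (PT.nd (nat_lit 78) (PT.lf (nat_lit 1976) (nat_lit 6) (nat_lit 26) (nat_lit 5) (nat_lit 108) (nat_lit 110) (nat_lit 112)) (PT.lf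 (nat_lit 2128) (nat_lit 6) (nat_lit 28) (nat_lit 5) (nat_lit 109) (nat_lit 110) (nat_lit 111)))) (PT.nd (nat_lit 156) (PT.nd (nat_lit 78) (PT.lf (nat_lit 2204) (nat_lit 1) (nat_lit 29) (nat_lit 0) (nat_lit 110) (nat_lit 110) (nat_lit 110)) (PT.lf (nat_lit 2128) (nat_lit 6) (nat_lit 28) (nat_lit 0) (nat_lit 111) (nat_lit 110) (nat_lit 109))) (PT.nd (nat_lit 78) (PT.lf (nat_lit 1976) (nat_lit 6) (nat_lit 26) (nat_lit 0) (nat_lit 112) (nat_lit 110) (nat_lit 108)) (PT.nd (nat_lit 78) (PT.lf (nat_lit 1748) (nat_lit 6) (nat_lit 23) (nat_lit 0) (nat_lit 113) (nat_lit 110) (nat_lit 107)) (PT.lf (nat_lit 1444) (nat_lit 6) (nat_lit 19) (nat_lit 0) (nat_lit 114) (nat_lit 110) (nat_lit 106)))))) (PT.nd (nat_lit 312) (PT.nd (nat_lit 156) (PT.nd (nat_lit 78) (PT.lf (nat_lit 1140) (nat_lit 6) (nat_lit 15) (nat_lit 5) (nat_lit 105) (nat_lit 111) (nat_lit 114)) (PT.lf (nat_lit 1520) (nat_lit 6) (nat_lit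 20) (nat_lit 5) (nat_lit 106) (nat_lit 111) (nat_lit 113))) (PT.nd (nat_lit 78) (PT.lf (nat_lit 1824) (nat_lit 6) (nat_lit 24) (nat_lit 5) (nat_lit 107) (nat_lit 111) (nat_lit 112)) (PT.lf (nat_lit 2052) (nat_lit 3) (nat_lit 27) (nat_lit 4) (nat_lit 108) (nat_lit 111) (nat_lit 111)))) (PT.nd (nat_lit 156) (PT.nd (nat_lit 78) (PT.lf (nat_lit 2128) (nat_lit 6) (nat_lit 28) (nat_lit 4) (nat_lit 109) (nat_lit 111) (nat_lit 110)) (PT.lf (nat_lit 2128) (nat_lit 6) (nat_lit 28) (nat_lit 2) (nat_lit 110) (nat_lit 111) (nat_lit 109))) (PT.nd (nat_lit 78) (PT.lf (nat_lit 2052) (nat_lit 3) (nat_lit 27) (nat_lit 0) (nat_lit 111) (nat_lit 111) (nat_lit 108)) (PT.nd (nat_lit 78) (PT.lf (nat_lit 1824) (nat_lit 6) (nat_lit 24) (nat_lit 0) (nat_lit 112) (nat_lit 111) (nat_lit 107)) (PT.lf (nat_lit 1520) (nat_lit 6) (nat_lit 20) (nat_lit 0) (nat_lit 113) (nat_lit 111) (nat_lit 106))))))))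
noncomputable def pc2 : PT := (PT.nd (nat_lit 68094) (PT.nd (nat_lit 34086) (PT.nd (nat_lit 33774) (PT.nd (nat_lit 33618) (PT.nd (nat_lit 33540) (PT.lf (nat_lit 1140) (nat_lit 6) (nat_lit 15) (nat_lit 0) (nat_lit 114) (nat_lit 111) (nat_lit 105)) (PT.lf (nat_lit 836) (nat_lit 6) (nat_lit 11) (nat_lit 5) (nat_lit 103) (nat_lit 112) (nat_lit 115))) (PT.nd (nat_lit 78) (PT.lf (nat_lit 988) (nat_lit 6) (nat_lit 13) (nat_lit 5) (nat_lit 104) (nat_lit 112) (nat_lit 114)) (PT.lf (nat_lit 1216) (nat_lit 6) (nat_lit 16) (nat_lit 5) (nat_lit 105) (nat_lit 112) (nat_lit 113)))) (PT.nd (nat_lit 156) (PT.nd (nat_lit 78) (PT.lf (nat_lit 1596) (nat_lit 3) (nat_lit 21) (nat_lit 4) (nat_lit 106) (nat_lit 112) (nat_lit 112)) (PT.lf (nat_lit 1824) (nat_lit 6) (nat_lit 24) (nat_lit 4) (nat_lit 107) (nat_lit 112) (nat_lit 111))) (PT.nd (nat_lit 78) (PT.lf (nat_lit 1976) (nat_lit 6) (nat_lit 26) (nat_lit 4)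 (nat_lit 108) (nat_lit 112) (nat_lit 110)) (PT.lf (nat_lit 1900) (nat_lit 3) (nat_lit 25) (nat_lit 2) (nat_lit 109) (nat_lit 112) (nat_lit 109))))) (PT.nd (nat_lit 312) (PT.nd (nat_lit 156) (PT.nd (nat_lit 78) (PT.lf (nat_lit 1976) (nat_lit 6) (nat_lit 26) (nat_lit 2) (nat_lit 110) (nat_lit 112) (nat_lit 108)) (PT.lf (nat_lit 1824) (nat_lit 6) (nat_lit 24) (nat_lit 2) (nat_lit 111) (nat_lit 112) (nat_lit 107))) (PT.nd (nat_lit 78) (PT.lf (nat_lit 1596) (nat_lit 3) (nat_lit 21) (nat_lit 0) (nat_lit 112) (nat_lit 112) (nat_lit 106)) (PT.lf (nat_lit 1216) (nat_lit 6) (nat_lit 16) (nat_lit 0) (nat_lit 113) (nat_lit 112) (nat_lit 105)))) (PT.nd (nat_lit 33462) (PT.nd (nat_lit 78) (PT.lf (nat_lit 988) (nat_lit 6) (nat_lit 13) (nat_lit 0) (nat_lit 114) (nat_lit 112) (nat_lit 104)) (PT.lf (nat_lit 836) (nat_lit 6) (nat_lit 11) (nat_lit 0) (nat_lit 115) (nat_lit 112) (nat_lit 103))) (PT.nd (nat_lit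 78) (PT.lf (nat_lit 684) (nat_lit 6) (nat_lit 9) (nat_lit 5) (nat_lit 102) (nat_lit 113) (nat_lit 115)) (PT.nd (nat_lit 78) (PT.lf (nat_lit 912) (nat_lit 6) (nat_lit 12) (nat_lit 5) (nat_lit 103) (nat_lit 113) (nat_lit 114)) (PT.lf (nat_lit 1064) (nat_lit 3) (nat_lit 14) (nat_lit 4) (nat_lit 104) (nat_lit 113) (nat_lit 113))))))) (PT.nd (nat_lit 702) (PT.nd (nat_lit 312) (PT.nd (nat_lit 156) (PT.nd (nat_lit 78) (PT.lf (nat_lit 1216) (nat_lit 6) (nat_lit 16) (nat_lit 4) (nat_lit 105) (nat_lit 113) (nat_lit 112)) (PT.lf (nat_lit 1520) (nat_lit 6) (nat_lit 20) (nat_lit 4) (nat_lit 106) (nat_lit 113) (nat_lit 111))) (PT.nd (nat_lit 78) (PT.lf (nat_lit 1748) (nat_lit 6) (nat_lit 23) (nat_lit 4) (nat_lit 107) (nat_lit 113) (nat_lit 110)) (PT.lf (nat_lit 1672) (nat_lit 6) (nat_lit 22) (nat_lit 4) (nat_lit 108) (nat_lit 113) (nat_lit 109)))) (PT.nd (nat_lit 156) (PT.nd (nat_lit 78) (PT.lf (nat_lit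 1672) (nat_lit 6) (nat_lit 22) (nat_lit 2) (nat_lit 109) (nat_lit 113) (nat_lit 108)) (PT.lf (nat_lit 1748) (nat_lit 6) (nat_lit 23) (nat_lit 2) (nat_lit 110) (nat_lit 113) (nat_lit 107))) (PT.nd (nat_lit 78) (PT.lf (nat_lit 1520) (nat_lit 6) (nat_lit 20) (nat_lit 2) (nat_lit 111) (nat_lit 113) (nat_lit 106)) (PT.nd (nat_lit 78) (PT.lf (nat_lit 1216) (nat_lit 6) (nat_lit 16) (nat_lit 2) (nat_lit 112) (nat_lit 113) (nat_lit 105)) (PT.lf (nat_lit 1064) (nat_lit 3) (nat_lit 14) (nat_lit 0) (nat_lit 113) (nat_lit 113) (nat_lit 104)))))) (PT.nd (nat_lit 33462) (PT.nd (nat_lit 33306) (PT.nd (nat_lit 78) (PT.lf (nat_lit 912) (nat_lit 6) (nat_lit 12) (nat_lit 0) (nat_lit 114) (nat_lit 113) (nat_lit 103)) (PT.lf (nat_lit 684) (nat_lit 6) (nat_lit 9) (nat_lit 0) (nat_lit 115) (nat_lit 113) (nat_lit 102))) (PT.nd (nat_lit 78) (PT.lf (nat_lit 456) (nat_lit 6) (nat_lit 6) (nat_lit 5) (nat_lit 100)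 (nat_lit 114) (nat_lit 116)) (PT.lf (nat_lit 608) (nat_lit 6) (nat_lit 8) (nat_lit 5) (nat_lit 101) (nat_lit 114) (nat_lit 115)))) (PT.nd (nat_lit 156) (PT.nd (nat_lit 78) (PT.lf (nat_lit 760) (nat_lit 3) (nat_lit 10) (nat_lit 4) (nat_lit 102) (nat_lit 114) (nat_lit 114)) (PT.lf (nat_lit 912) (nat_lit 6) (nat_lit 12) (nat_lit 4) (nat_lit 103) (nat_lit 114) (nat_lit 113))) (PT.nd (nat_lit 78) (PT.lf (nat_lit 988) (nat_lit 6) (nat_lit 13) (nat_lit 4) (nat_lit 104) (nat_lit 114) (nat_lit 112)) (PT.nd (nat_lit 78) (PT.lf (nat_lit 1140) (nat_lit 6) (nat_lit 15) (nat_lit 4) (nat_lit 105) (nat_lit 114) (nat_lit 111)) (PT.lf (nat_lit 1444) (nat_lit 6) (nat_lit 19) (nat_lit 4) (nat_lit 106) (nat_lit 114) (nat_lit 110))))))))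
noncomputable def pc3 : PT := (PT.nd (nat_lit 34944) (PT.nd (nat_lit 702) (PT.nd (nat_lit 312) (PT.nd (nat_lit 156) (PT.nd (nat_lit 78) (PT.lf (nat_lit 1368) (nat_lit 6) (nat_lit 18) (nat_lit 4) (nat_lit 107) (nat_lit 114) (nat_lit 109)) (PT.lf (nat_lit 1292) (nat_lit 3) (nat_lit 17) (nat_lit 2) (nat_lit 108) (nat_lit 114) (nat_lit 108))) (PT.nd (nat_lit 78) (PT.lf (nat_lit 1368) (nat_lit 6) (nat_lit 18) (nat_lit 2) (nat_lit 109) (nat_lit 114) (nat_lit 107)) (PT.lf (nat_lit 1444) (nat_lit 6) (nat_lit 19) (nat_lit 2) (nat_lit 110) (nat_lit 114) (nat_lit 106)))) (PT.nd (nat_lit 156) (PT.nd (nat_lit 78) (PT.lf (nat_lit 1140) (nat_lit 6) (nat_lit 15) (nat_lit 2) (nat_lit 111) (nat_lit 114) (nat_lit 105)) (PT.lf (nat_lit 988) (nat_lit 6) (nat_lit 13) (nat_lit 2) (nat_lit 112) (nat_lit 114) (nat_lit 104))) (PT.nd (nat_lit 78) (PT.lf (nat_lit 912) (nat_lit 6) (nat_lit 12) (nat_lit 2) (nat_lit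 113) (nat_lit 114) (nat_lit 103)) (PT.nd (nat_lit 78) (PT.lf (nat_lit 760) (nat_lit 3) (nat_lit 10) (nat_lit 0) (nat_lit 114) (nat_lit 114) (nat_lit 102)) (PT.lf (nat_lit 608) (nat_lit 6) (nat_lit 8) (nat_lit 0) (nat_lit 115) (nat_lit 114) (nat_lit 101)))))) (PT.nd (nat_lit 33228) (PT.nd (nat_lit 33072) (PT.nd (nat_lit 32994) (PT.lf (nat_lit 456) (nat_lit 6) (nat_lit 6) (nat_lit 0) (nat_lit 116) (nat_lit 114) (nat_lit 100)) (PT.lf (nat_lit 228) (nat_lit 6) (nat_lit 3) (nat_lit 5) (nat_lit 98) (nat_lit 115) (nat_lit 117))) (PT.nd (nat_lit 78) (PT.lf (nat_lit 380) (nat_lit 6) (nat_lit 5) (nat_lit 5) (nat_lit 99) (nat_lit 115) (nat_lit 116)) (PT.lf (nat_lit 532) (nat_lit 3) (nat_lit 7) (nat_lit 4) (nat_lit 100) (nat_lit 115) (nat_lit 115)))) (PT.nd (nat_lit 156) (PT.nd (nat_lit 78) (PT.lf (nat_lit 608) (nat_lit 6) (nat_lit 8) (nat_lit 4) (nat_lit 101) (nat_lit 115) (nat_lit 114)) (PT.lf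 (nat_lit 684) (nat_lit 6) (nat_lit 9) (nat_lit 4) (nat_lit 102) (nat_lit 115) (nat_lit 113))) (PT.nd (nat_lit 702) (PT.lf (nat_lit 836) (nat_lit 6) (nat_lit 11) (nat_lit 4) (nat_lit 103) (nat_lit 115) (nat_lit 112)) (PT.nd (nat_lit 78) (PT.lf (nat_lit 836) (nat_lit 6) (nat_lit 11) (nat_lit 2) (nat_lit 112) (nat_lit 115) (nat_lit 103)) (PT.lf (nat_lit 684) (nat_lit 6) (nat_lit 9) (nat_lit 2) (nat_lit 113) (nat_lit 115) (nat_lit 102))))))) (PT.nd (nat_lit 34476) (PT.nd (nat_lit 33072) (PT.nd (nat_lit 156) (PT.nd (nat_lit 78) (PT.lf (nat_lit 608) (nat_lit 6) (nat_lit 8) (nat_lit 2) (nat_lit 114) (nat_lit 115) (nat_lit 101)) (PT.lf (nat_lit 532) (nat_lit 3) (nat_lit 7) (nat_lit 0) (nat_lit 115) (nat_lit 115) (nat_lit 100))) (PT.nd (nat_lit 78) (PT.lf (nat_lit 380) (nat_lit 6) (nat_lit 5) (nat_lit 0) (nat_lit 116) (nat_lit 115) (nat_lit 99)) (PT.lf (nat_lit 228) (nat_lit 6) (nat_lit 3) (nat_lit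 0) (nat_lit 117) (nat_lit 115) (nat_lit 98)))) (PT.nd (nat_lit 156) (PT.nd (nat_lit 78) (PT.lf (nat_lit 152) (nat_lit 6) (nat_lit 2) (nat_lit 5) (nat_lit 97) (nat_lit 116) (nat_lit 117)) (PT.lf (nat_lit 304) (nat_lit 3) (nat_lit 4) (nat_lit 4) (nat_lit 98) (nat_lit 116) (nat_lit 116))) (PT.nd (nat_lit 78) (PT.lf (nat_lit 380) (nat_lit 6) (nat_lit 5) (nat_lit 4) (nat_lit 99) (nat_lit 116) (nat_lit 115)) (PT.nd (nat_lit 1092) (PT.lf (nat_lit 456) (nat_lit 6) (nat_lit 6) (nat_lit 4) (nat_lit 100) (nat_lit 116) (nat_lit 114)) (PT.lf (nat_lit 456) (nat_lit 6) (nat_lit 6) (nat_lit 2) (nat_lit 114) (nat_lit 116) (nat_lit 100)))))) (PT.nd (nat_lit 32994) (PT.nd (nat_lit 156) (PT.nd (nat_lit 78) (PT.lf (nat_lit 380) (nat_lit 6) (nat_lit 5) (nat_lit 2) (nat_lit 115) (nat_lit 116) (nat_lit 99)) (PT.lf (nat_lit 304) (nat_lit 3) (nat_lit 4) (nat_lit 0) (nat_lit 116) (nat_lit 116) (nat_lit 98))) (PT.nd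 (nat_lit 32760) (PT.lf (nat_lit 152) (nat_lit 6) (nat_lit 2) (nat_lit 0) (nat_lit 117) (nat_lit 116) (nat_lit 97)) (PT.lf (nat_lit 76) (nat_lit 3) (nat_lit 1) (nat_lit 4) (nat_lit 96) (nat_lit 117) (nat_lit 117)))) (PT.nd (nat_lit 1404) (PT.nd (nat_lit 78) (PT.lf (nat_lit 152) (nat_lit 6) (nat_lit 2) (nat_lit 4) (nat_lit 97) (nat_lit 117) (nat_lit 116)) (PT.lf (nat_lit 228) (nat_lit 6) (nat_lit 3) (nat_lit 4) (nat_lit 98) (nat_lit 117) (nat_lit 115))) (PT.nd (nat_lit 78) (PT.lf (nat_lit 228) (nat_lit 6) (nat_lit 3) (nat_lit 2) (nat_lit 115) (nat_lit 117) (nat_lit 98)) (PT.nd (nat_lit 78) (PT.lf (nat_lit 152) (nat_lit 6) (nat_lit 2) (nat_lit 2) (nat_lit 116) (nat_lit 117) (nat_lit 97)) (PT.lf (nat_lit 76) (nat_lit 3) (nat_lit 1) (nat_lit 0) (nat_lit 117) (nat_lit 117) (nat_lit 96))))))))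
noncomputable def xc0 : XT := (XT.nd (nat_lit 137124) (nat_lit 0) (nat_lit 0) (XT.nd (nat_lit 68874) (nat_lit 0) (nat_lit 0) (XT.nd (nat_lit 34476) (nat_lit 0) (nat_lit 0) (XT.nd (nat_lit 34242) (nat_lit 0) (nat_lit 0) (XT.nd (nat_lit 78) (nat_lit 0) (nat_lit 0) (XT.lf (nat_lit 0) (nat_lit 255047904301) (nat_lit 152) (nat_lit 4226578298007) (nat_lit 0) (nat_lit 255047904301) (nat_lit 1) (nat_lit 5) (nat_lit 3) (nat_lit 4) (nat_lit 1) (nat_lit 4) (nat_lit 284) (nat_lit 188) (nat_lit 188)) (XT.lf (nat_lit 0) (nat_lit 587033719647) (nat_lit 152) (nat_lit 9720268425933) (nat_lit 0) (nat_lit 587012045102) (nat_lit 1) (nat_lit 5) (nat_lit 3) (nat_lit 4) (nat_lit 1) (nat_lit 4) (nat_lit 285) (nat_lit 188) (nat_lit 187))) (XT.nd (nat_lit 78) (nat_lit 0) (nat_lit 0) (XT.lf (nat_lit 0) (nat_lit 192475226767) (nat_lit 152) (nat_lit 3196688849828) (nat_lit 0) (nat_lit 192475226767) (nat_lit 1) (nat_lit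 5) (nat_lit 3) (nat_lit 4) (nat_lit 1) (nat_lit 4) (nat_lit 282) (nat_lit 189) (nat_lit 189)) (XT.nd (nat_lit 78) (nat_lit 0) (nat_lit 0) (XT.lf (nat_lit 0) (nat_lit 443180092282) (nat_lit 152) (nat_lit 7351393446199) (nat_lit 0) (nat_lit 443155166555) (nat_lit 1) (nat_lit 5) (nat_lit 3) (nat_lit 4) (nat_lit 1) (nat_lit 4) (nat_lit 283) (nat_lit 189) (nat_lit 188)) (XT.lf (nat_lit 0) (nat_lit 510100349534) (nat_lit 152) (nat_lit 8453195762354) (nat_lit 0) (nat_lit 510053749262) (nat_lit 1) (nat_lit 5) (nat_lit 3) (nat_lit 4) (nat_lit 1) (nat_lit 4) (nat_lit 284) (nat_lit 189) (nat_lit 187))))) (XT.nd (nat_lit 34164) (nat_lit 0) (nat_lit 0) (XT.nd (nat_lit 34008) (nat_lit 0) (nat_lit 0) (XT.lf (nat_lit 0) (nat_lit 587020534671) (nat_lit 152) (nat_lit 9720341649961) (nat_lit 0) (nat_lit 586955086968) (nat_lit 1) (nat_lit 5) (nat_lit 3) (nat_lit 4) (nat_lit 1) (nat_lit 4) (nat_lit 285) (nat_lit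 189) (nat_lit 186)) (XT.nd (nat_lit 78) (nat_lit 0) (nat_lit 0) (XT.lf (nat_lit 0) (nat_lit 145104648264) (nat_lit 152) (nat_lit 2418062730890) (nat_lit 0) (nat_lit 145104648264) (nat_lit 1) (nat_lit 5) (nat_lit 3) (nat_lit 4) (nat_lit 1) (nat_lit 4) (nat_lit 280) (nat_lit 190) (nat_lit 190)) (XT.lf (nat_lit 0) (nat_lit 334300822335) (nat_lit 152) (nat_lit 5560404736380) (nat_lit 0) (nat_lit 334272157749) (nat_lit 1) (nat_lit 5) (nat_lit 3) (nat_lit 4) (nat_lit 1) (nat_lit 4) (nat_lit 281) (nat_lit 190) (nat_lit 189)))) (XT.nd (nat_lit 78) (nat_lit 0) (nat_lit 0) (XT.lf (nat_lit 0) (nat_lit 384955675606) (nat_lit 152) (nat_lit 6393422740947) (nat_lit 0) (nat_lit 384902085293) (nat_lit 1) (nat_lit 5) (nat_lit 3) (nat_lit 4) (nat_lit 1) (nat_lit 4) (nat_lit 282) (nat_lit 190) (nat_lit 188)) (XT.nd (nat_lit 78) (nat_lit 0) (nat_lit 0) (XT.lf (nat_lit 0) (nat_lit 443164929560) (nat_lit 152)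 (nat_lit 7351477653830) (nat_lit 0) (nat_lit 443089664702) (nat_lit 1) (nat_lit 5) (nat_lit 3) (nat_lit 4) (nat_lit 1) (nat_lit 4) (nat_lit 283) (nat_lit 190) (nat_lit 187)) (XT.lf (nat_lit 0) (nat_lit 510067460903) (nat_lit 152) (nat_lit 8453314027673) (nat_lit 0) (nat_lit 509973348615) (nat_lit 1) (nat_lit 5) (nat_lit 3) (nat_lit 4) (nat_lit 1) (nat_lit 4) (nat_lit 284) (nat_lit 190) (nat_lit 186)))))) (XT.nd (nat_lit 34164) (nat_lit 0) (nat_lit 0) (XT.nd (nat_lit 33930) (nat_lit 0) (nat_lit 0) (XT.nd (nat_lit 33852) (nat_lit 0) (nat_lit 0) (XT.lf (nat_lit 0) (nat_lit 586972232207) (nat_lit 152) (nat_lit 9720489530659) (nat_lit 0) (nat_lit 586861730848) (nat_lit 1) (nat_lit 5) (nat_lit 3) (nat_lit 4) (nat_lit 1) (nat_lit 4) (nat_lit 285) (nat_lit 190) (nat_lit 185)) (XT.lf (nat_lit 0) (nat_lit 109220543979) (nat_lit 152) (nat_lit 1829445526979) (nat_lit 0) (nat_lit 109220543979) (nat_lit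 1) (nat_lit 5) (nat_lit 3) (nat_lit 4) (nat_lit 1) (nat_lit 4) (nat_lit 278) (nat_lit 191) (nat_lit 191))) (XT.nd (nat_lit 78) (nat_lit 0) (nat_lit 0) (XT.lf (nat_lit 0) (nat_lit 251851402176) (nat_lit 152) (nat_lit 4206414235686) (nat_lit 0) (nat_lit 251818437903) (nat_lit 1) (nat_lit 5) (nat_lit 3) (nat_lit 4) (nat_lit 1) (nat_lit 4) (nat_lit 279) (nat_lit 191) (nat_lit 190)) (XT.nd (nat_lit 78) (nat_lit 0) (nat_lit 0) (XT.lf (nat_lit 0) (nat_lit 290215301912) (nat_lit 152) (nat_lit 4836177259265) (nat_lit 0) (nat_lit 290153673053) (nat_lit 1) (nat_lit 5) (nat_lit 3) (nat_lit 4) (nat_lit 1) (nat_lit 4) (nat_lit 280) (nat_lit 191) (nat_lit 189)) (XT.lf (nat_lit 0) (nat_lit 334283385204) (nat_lit 152) (nat_lit 5560501575156) (nat_lit 0) (nat_lit 334196830617) (nat_lit 1) (nat_lit 5) (nat_lit 3) (nat_lit 4) (nat_lit 1) (nat_lit 4) (nat_lit 281) (nat_lit 191) (nat_lit 188))))) (XT.nd (nat_lit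 234) (nat_lit 0) (nat_lit 0) (XT.nd (nat_lit 78) (nat_lit 0) (nat_lit 0) (XT.lf (nat_lit 0) (nat_lit 384917853680) (nat_lit 152) (nat_lit 6393558746063) (nat_lit 0) (nat_lit 384809624549) (nat_lit 1) (nat_lit 5) (nat_lit 3) (nat_lit 4) (nat_lit 1) (nat_lit 4) (nat_lit 282) (nat_lit 191) (nat_lit 187)) (XT.nd (nat_lit 78) (nat_lit 0) (nat_lit 0) (XT.lf (nat_lit 0) (nat_lit 443109381726) (nat_lit 152) (nat_lit 7351647716633) (nat_lit 0) (nat_lit 442982305163) (nat_lit 1) (nat_lit 5) (nat_lit 3) (nat_lit 4) (nat_lit 1) (nat_lit 4) (nat_lit 283) (nat_lit 191) (nat_lit 186)) (XT.lf (nat_lit 0) (nat_lit 509996499236) (nat_lit 152) (nat_lit 8453513705856) (nat_lit 0) (nat_lit 509853033604) (nat_lit 1) (nat_lit 5) (nat_lit 3) (nat_lit 4) (nat_lit 1) (nat_lit 4) (nat_lit 284) (nat_lit 191) (nat_lit 185)))) (XT.nd (nat_lit 33696) (nat_lit 0) (nat_lit 0) (XT.lf (nat_lit 0) (nat_lit 586887867206)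 (nat_lit 152) (nat_lit 9720714961347) (nat_lit 0) (nat_lit 586730150209) (nat_lit 1) (nat_lit 5) (nat_lit 3) (nat_lit 4) (nat_lit 1) (nat_lit 4) (nat_lit 285) (nat_lit 191) (nat_lit 184)) (XT.nd (nat_lit 78) (nat_lit 0) (nat_lit 0) (XT.lf (nat_lit 0) (nat_lit 82012093231) (nat_lit 152) (nat_lit 1384522761663) (nat_lit 0) (nat_lit 82012093231) (nat_lit 1) (nat_lit 5) (nat_lit 3) (nat_lit 4) (nat_lit 1) (nat_lit 4) (nat_lit 276) (nat_lit 192) (nat_lit 192)) (XT.lf (nat_lit 0) (nat_lit 189368588111) (nat_lit 152) (nat_lit 3182895304005) (nat_lit 0) (nat_lit 189330679196) (nat_lit 1) (nat_lit 5) (nat_lit 3) (nat_lit 4) (nat_lit 1) (nat_lit 4) (nat_lit 277) (nat_lit 192) (nat_lit 191))))))) (XT.nd (nat_lit 34320) (nat_lit 0) (nat_lit 0) (XT.nd (nat_lit 390) (nat_lit 0) (nat_lit 0) (XT.nd (nat_lit 156) (nat_lit 0) (nat_lit 0) (XT.nd (nat_lit 78) (nat_lit 0) (nat_lit 0) (XT.lf (nat_lit 0) (nat_lit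 218447994148) (nat_lit 152) (nat_lit 3658950621066) (nat_lit 0) (nat_lit 218377120960) (nat_lit 1) (nat_lit 5) (nat_lit 3) (nat_lit 4) (nat_lit 1) (nat_lit 4) (nat_lit 278) (nat_lit 192) (nat_lit 190)) (XT.lf (nat_lit 0) (nat_lit 251831349476) (nat_lit 152) (nat_lit 4206525600278) (nat_lit 0) (nat_lit 251731811701) (nat_lit 1) (nat_lit 5) (nat_lit 3) (nat_lit 4) (nat_lit 1) (nat_lit 4) (nat_lit 279) (nat_lit 192) (nat_lit 189))) (XT.nd (nat_lit 78) (nat_lit 0) (nat_lit 0) (XT.lf (nat_lit 0) (nat_lit 290171806698) (nat_lit 152) (nat_lit 4836333665148) (nat_lit 0) (nat_lit 290047343196) (nat_lit 1) (nat_lit 5) (nat_lit 3) (nat_lit 4) (nat_lit 1) (nat_lit 4) (nat_lit 280) (nat_lit 192) (nat_lit 188)) (XT.nd (nat_lit 78) (nat_lit 0) (nat_lit 0) (XT.lf (nat_lit 0) (nat_lit 334219505195) (nat_lit 152) (nat_lit 5560697147380) (nat_lit 0) (nat_lit 334073367148) (nat_lit 1) (nat_lit 5) (nat_lit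 3) (nat_lit 4) (nat_lit 1) (nat_lit 4) (nat_lit 281) (nat_lit 192) (nat_lit 187)) (XT.lf (nat_lit 0) (nat_lit 384836247763) (nat_lit 152) (nat_lit 6393788375974) (nat_lit 0) (nat_lit 384671262286) (nat_lit 1) (nat_lit 5) (nat_lit 3) (nat_lit 4) (nat_lit 1) (nat_lit 4) (nat_lit 282) (nat_lit 192) (nat_lit 186))))) (XT.nd (nat_lit 33696) (nat_lit 0) (nat_lit 0) (XT.nd (nat_lit 78) (nat_lit 0) (nat_lit 0) (XT.lf (nat_lit 0) (nat_lit 443012361975) (nat_lit 152) (nat_lit 7351906961924) (nat_lit 0) (nat_lit 442830987428) (nat_lit 1) (nat_lit 5) (nat_lit 3) (nat_lit 4) (nat_lit 1) (nat_lit 4) (nat_lit 283) (nat_lit 192) (nat_lit 185)) (XT.nd (nat_lit 78) (nat_lit 0) (nat_lit 0) (XT.lf (nat_lit 0) (nat_lit 509886076152) (nat_lit 152) (nat_lit 8453798703651) (nat_lit 0) (nat_lit 509690450239) (nat_lit 1) (nat_lit 5) (nat_lit 3) (nat_lit 4) (nat_lit 1) (nat_lit 4) (nat_lit 284) (nat_lit 192) (nat_lit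 184)) (XT.lf (nat_lit 0) (nat_lit 586765789049) (nat_lit 152) (nat_lit 9721022352624) (nat_lit 0) (nat_lit 586557770646) (nat_lit 1) (nat_lit 5) (nat_lit 3) (nat_lit 4) (nat_lit 1) (nat_lit 4) (nat_lit 285) (nat_lit 192) (nat_lit 183)))) (XT.nd (nat_lit 78) (nat_lit 0) (nat_lit 0) (XT.lf (nat_lit 0) (nat_lit 61352446086) (nat_lit 152) (nat_lit 1048277097000) (nat_lit 0) (nat_lit 61352446086) (nat_lit 1) (nat_lit 5) (nat_lit 3) (nat_lit 4) (nat_lit 1) (nat_lit 4) (nat_lit 274) (nat_lit 193) (nat_lit 193)) (XT.nd (nat_lit 78) (nat_lit 0) (nat_lit 0) (XT.lf (nat_lit 0) (nat_lit 141962515729) (nat_lit 152) (nat_lit 2409304218106) (nat_lit 0) (nat_lit 141918920477) (nat_lit 1) (nat_lit 5) (nat_lit 3) (nat_lit 4) (nat_lit 1) (nat_lit 4) (nat_lit 275) (nat_lit 193) (nat_lit 192)) (XT.lf (nat_lit 0) (nat_lit 164032128582) (nat_lit 152) (nat_lit 2769114025501) (nat_lit 0) (nat_lit 163950624415)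 (nat_lit 1) (nat_lit 5) (nat_lit 3) (nat_lit 4) (nat_lit 1) (nat_lit 4) (nat_lit 276) (nat_lit 193) (nat_lit 191)))))) (XT.nd (nat_lit 390) (nat_lit 0) (nat_lit 0) (XT.nd (nat_lit 156) (nat_lit 0) (nat_lit 0) (XT.nd (nat_lit 78) (nat_lit 0) (nat_lit 0) (XT.lf (nat_lit 0) (nat_lit 189345527505) (nat_lit 152) (nat_lit 3183023373286) (nat_lit 0) (nat_lit 189231059065) (nat_lit 1) (nat_lit 5) (nat_lit 3) (nat_lit 4) (nat_lit 1) (nat_lit 4) (nat_lit 277) (nat_lit 193) (nat_lit 190)) (XT.lf (nat_lit 0) (nat_lit 218397974652) (nat_lit 152) (nat_lit 3659130487832) (nat_lit 0) (nat_lit 218254841625) (nat_lit 1) (nat_lit 5) (nat_lit 3) (nat_lit 4) (nat_lit 1) (nat_lit 4) (nat_lit 278) (nat_lit 193) (nat_lit 189))) (XT.nd (nat_lit 78) (nat_lit 0) (nat_lit 0) (XT.lf (nat_lit 0) (nat_lit 251757887466) (nat_lit 152) (nat_lit 4206750508335) (nat_lit 0) (nat_lit 251589828712) (nat_lit 1) (nat_lit 5)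 (nat_lit 3) (nat_lit 4) (nat_lit 1) (nat_lit 4) (nat_lit 279) (nat_lit 193) (nat_lit 188)) (XT.nd (nat_lit 78) (nat_lit 0) (nat_lit 0) (XT.lf (nat_lit 0) (nat_lit 290077959893) (nat_lit 152) (nat_lit 4836597739546) (nat_lit 0) (nat_lit 289888226594) (nat_lit 1) (nat_lit 5) (nat_lit 3) (nat_lit 4) (nat_lit 1) (nat_lit 4) (nat_lit 280) (nat_lit 193) (nat_lit 187)) (XT.lf (nat_lit 0) (nat_lit 334107932481) (nat_lit 152) (nat_lit 5560995279465) (nat_lit 0) (nat_lit 333899351752) (nat_lit 1) (nat_lit 5) (nat_lit 3) (nat_lit 4) (nat_lit 1) (nat_lit 4) (nat_lit 281) (nat_lit 193) (nat_lit 186))))) (XT.nd (nat_lit 234) (nat_lit 0) (nat_lit 0) (XT.nd (nat_lit 78) (nat_lit 0) (nat_lit 0) (XT.lf (nat_lit 0) (nat_lit 384709261216) (nat_lit 152) (nat_lit 6394116123439) (nat_lit 0) (nat_lit 384484291417) (nat_lit 1) (nat_lit 5) (nat_lit 3) (nat_lit 4) (nat_lit 1) (nat_lit 4) (nat_lit 282) (nat_lit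 193) (nat_lit 185)) (XT.nd (nat_lit 78) (nat_lit 0) (nat_lit 0) (XT.lf (nat_lit 0) (nat_lit 442871972095) (nat_lit 152) (nat_lit 7352260461893) (nat_lit 0) (nat_lit 442632750930) (nat_lit 1) (nat_lit 5) (nat_lit 3) (nat_lit 4) (nat_lit 1) (nat_lit 4) (nat_lit 283) (nat_lit 193) (nat_lit 184)) (XT.lf (nat_lit 0) (nat_lit 509734031199) (nat_lit 152) (nat_lit 8454174597102) (nat_lit 0) (nat_lit 509482417543) (nat_lit 1) (nat_lit 5) (nat_lit 3) (nat_lit 4) (nat_lit 1) (nat_lit 4) (nat_lit 284) (nat_lit 193) (nat_lit 183)))) (XT.nd (nat_lit 33384) (nat_lit 0) (nat_lit 0) (XT.lf (nat_lit 0) (nat_lit 586603609251) (nat_lit 152) (nat_lit 9721417718668) (nat_lit 0) (nat_lit 586341219516) (nat_lit 1) (nat_lit 5) (nat_lit 3) (nat_lit 4) (nat_lit 1) (nat_lit 4) (nat_lit 285) (nat_lit 193) (nat_lit 182)) (XT.nd (nat_lit 78) (nat_lit 0) (nat_lit 0) (XT.lf (nat_lit 0) (nat_lit 45631712901) (nat_lit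 152) (nat_lit 794233913790) (nat_lit 0) (nat_lit 45631712901) (nat_lit 1) (nat_lit 5) (nat_lit 3) (nat_lit 4) (nat_lit 1) (nat_lit 4) (nat_lit 272) (nat_lit 194) (nat_lit 194)) (XT.lf (nat_lit 0) (nat_lit 105932612862) (nat_lit 152) (nat_lit 1824744930973) (nat_lit 0) (nat_lit 105882478323) (nat_lit 1) (nat_lit 5) (nat_lit 3) (nat_lit 4) (nat_lit 1) (nat_lit 4) (nat_lit 273) (nat_lit 194) (nat_lit 193))))))))
noncomputable def xc1 : XT := (XT.nd (nat_lit 34866) (nat_lit 0) (nat_lit 0) (XT.nd (nat_lit 858) (nat_lit 0) (nat_lit 0) (XT.nd (nat_lit 390) (nat_lit 0) (nat_lit 0) (XT.nd (nat_lit 156) (nat_lit 0) (nat_lit 0) (XT.nd (nat_lit 78) (nat_lit 0) (nat_lit 0) (XT.lf (nat_lit 0) (nat_lit 122714025610) (nat_lit 152) (nat_lit 2096632971500) (nat_lit 0) (nat_lit 122620295818) (nat_lit 1) (nat_lit 5) (nat_lit 3) (nat_lit 4) (nat_lit 1) (nat_lit 4) (nat_lit 274) (nat_lit 194) (nat_lit 192))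 (XT.lf (nat_lit 0) (nat_lit 141935996032) (nat_lit 152) (nat_lit 2409451497779) (nat_lit 0) (nat_lit 141804357326) (nat_lit 1) (nat_lit 5) (nat_lit 3) (nat_lit 4) (nat_lit 1) (nat_lit 4) (nat_lit 275) (nat_lit 194) (nat_lit 191))) (XT.nd (nat_lit 78) (nat_lit 0) (nat_lit 0) (XT.lf (nat_lit 0) (nat_lit 163974606161) (nat_lit 152) (nat_lit 2769320872282) (nat_lit 0) (nat_lit 163810003180) (nat_lit 1) (nat_lit 5) (nat_lit 3) (nat_lit 4) (nat_lit 1) (nat_lit 4) (nat_lit 276) (nat_lit 194) (nat_lit 190)) (XT.nd (nat_lit 78) (nat_lit 0) (nat_lit 0) (XT.lf (nat_lit 0) (nat_lit 189261046194) (nat_lit 152) (nat_lit 3183282017552) (nat_lit 0) (nat_lit 189067778627) (nat_lit 1) (nat_lit 5) (nat_lit 3) (nat_lit 4) (nat_lit 1) (nat_lit 4) (nat_lit 277) (nat_lit 194) (nat_lit 189)) (XT.lf (nat_lit 0) (nat_lit 218290050826) (nat_lit 152) (nat_lit 3659434173389) (nat_lit 0) (nat_lit 218071857533) (nat_lit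 1) (nat_lit 5) (nat_lit 3) (nat_lit 4) (nat_lit 1) (nat_lit 4) (nat_lit 278) (nat_lit 194) (nat_lit 188))))) (XT.nd (nat_lit 234) (nat_lit 0) (nat_lit 0) (XT.nd (nat_lit 78) (nat_lit 0) (nat_lit 0) (XT.lf (nat_lit 0) (nat_lit 251629578845) (nat_lit 152) (nat_lit 4207093360232) (nat_lit 0) (nat_lit 251389711007) (nat_lit 1) (nat_lit 5) (nat_lit 3) (nat_lit 4) (nat_lit 1) (nat_lit 4) (nat_lit 279) (nat_lit 194) (nat_lit 187)) (XT.nd (nat_lit 78) (nat_lit 0) (nat_lit 0) (XT.lf (nat_lit 0) (nat_lit 289931925364) (nat_lit 152) (nat_lit 4836974649130) (nat_lit 0) (nat_lit 289673210095) (nat_lit 1) (nat_lit 5) (nat_lit 3) (nat_lit 4) (nat_lit 1) (nat_lit 4) (nat_lit 280) (nat_lit 194) (nat_lit 186)) (XT.lf (nat_lit 0) (nat_lit 333946484119) (nat_lit 152) (nat_lit 5561401804429) (nat_lit 0) (nat_lit 333671379780) (nat_lit 1) (nat_lit 5) (nat_lit 3) (nat_lit 4) (nat_lit 1) (nat_lit 4) (nat_lit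 281) (nat_lit 194) (nat_lit 185)))) (XT.nd (nat_lit 78) (nat_lit 0) (nat_lit 0) (XT.lf (nat_lit 0) (nat_lit 384534409521) (nat_lit 152) (nat_lit 6394548400907) (nat_lit 0) (nat_lit 384245053817) (nat_lit 1) (nat_lit 5) (nat_lit 3) (nat_lit 4) (nat_lit 1) (nat_lit 4) (nat_lit 282) (nat_lit 194) (nat_lit 184)) (XT.nd (nat_lit 78) (nat_lit 0) (nat_lit 0) (XT.lf (nat_lit 0) (nat_lit 442685465327) (nat_lit 152) (nat_lit 7352715132844) (nat_lit 0) (nat_lit 442383717131) (nat_lit 1) (nat_lit 5) (nat_lit 3) (nat_lit 4) (nat_lit 1) (nat_lit 4) (nat_lit 283) (nat_lit 194) (nat_lit 183)) (XT.lf (nat_lit 0) (nat_lit 509537389586) (nat_lit 152) (nat_lit 8454648740646) (nat_lit 0) (nat_lit 509224865310) (nat_lit 1) (nat_lit 5) (nat_lit 3) (nat_lit 4) (nat_lit 1) (nat_lit 4) (nat_lit 284) (nat_lit 194) (nat_lit 182)))))) (XT.nd (nat_lit 33540) (nat_lit 0) (nat_lit 0) (XT.nd (nat_lit 33306) (nat_lit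 0) (nat_lit 0) (XT.nd (nat_lit 33228) (nat_lit 0) (nat_lit 0) (XT.lf (nat_lit 0) (nat_lit 586398154728) (nat_lit 152) (nat_lit 9721908794902) (nat_lit 0) (nat_lit 586076259949) (nat_lit 1) (nat_lit 5) (nat_lit 3) (nat_lit 4) (nat_lit 1) (nat_lit 4) (nat_lit 285) (nat_lit 194) (nat_lit 181)) (XT.lf (nat_lit 0) (nat_lit 33630647456) (nat_lit 152) (nat_lit 602378643383) (nat_lit 0) (nat_lit 33630647456) (nat_lit 1) (nat_lit 5) (nat_lit 3) (nat_lit 4) (nat_lit 1) (nat_lit 4) (nat_lit 270) (nat_lit 195) (nat_lit 195))) (XT.nd (nat_lit 78) (nat_lit 0) (nat_lit 0) (XT.lf (nat_lit 0) (nat_lit 78477113317) (nat_lit 152) (nat_lit 1383178848427) (nat_lit 0) (nat_lit 78419458596) (nat_lit 1) (nat_lit 5) (nat_lit 3) (nat_lit 4) (nat_lit 1) (nat_lit 4) (nat_lit 271) (nat_lit 195) (nat_lit 194)) (XT.nd (nat_lit 78) (nat_lit 0) (nat_lit 0) (XT.lf (nat_lit 0) (nat_lit 91273929255) (nat_lit 152) (nat_lit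 1588558421705) (nat_lit 0) (nat_lit 91166139994) (nat_lit 1) (nat_lit 5) (nat_lit 3) (nat_lit 4) (nat_lit 1) (nat_lit 4) (nat_lit 272) (nat_lit 195) (nat_lit 193)) (XT.lf (nat_lit 0) (nat_lit 105902115211) (nat_lit 152) (nat_lit 1824914302598) (nat_lit 0) (nat_lit 105750730699) (nat_lit 1) (nat_lit 5) (nat_lit 3) (nat_lit 4) (nat_lit 1) (nat_lit 4) (nat_lit 273) (nat_lit 195) (nat_lit 192))))) (XT.nd (nat_lit 234) (nat_lit 0) (nat_lit 0) (XT.nd (nat_lit 78) (nat_lit 0) (nat_lit 0) (XT.lf (nat_lit 0) (nat_lit 122647874825) (nat_lit 152) (nat_lit 2096870845298) (nat_lit 0) (nat_lit 122458581398) (nat_lit 1) (nat_lit 5) (nat_lit 3) (nat_lit 4) (nat_lit 1) (nat_lit 4) (nat_lit 274) (nat_lit 195) (nat_lit 191)) (XT.nd (nat_lit 78) (nat_lit 0) (nat_lit 0) (XT.lf (nat_lit 0) (nat_lit 141838842524) (nat_lit 152) (nat_lit 2409748938685) (nat_lit 0) (nat_lit 141616584822) (nat_lit 1) (nat_lit 5)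 (nat_lit 3) (nat_lit 4) (nat_lit 1) (nat_lit 4) (nat_lit 275) (nat_lit 195) (nat_lit 190)) (XT.lf (nat_lit 0) (nat_lit 163850493761) (nat_lit 152) (nat_lit 2769670110672) (nat_lit 0) (nat_lit 163599571474) (nat_lit 1) (nat_lit 5) (nat_lit 3) (nat_lit 4) (nat_lit 1) (nat_lit 4) (nat_lit 276) (nat_lit 195) (nat_lit 189)))) (XT.nd (nat_lit 78) (nat_lit 0) (nat_lit 0) (XT.lf (nat_lit 0) (nat_lit 189113491280) (nat_lit 152) (nat_lit 3183676297234) (nat_lit 0) (nat_lit 188837643266) (nat_lit 1) (nat_lit 5) (nat_lit 3) (nat_lit 4) (nat_lit 1) (nat_lit 4) (nat_lit 277) (nat_lit 195) (nat_lit 188)) (XT.nd (nat_lit 78) (nat_lit 0) (nat_lit 0) (XT.lf (nat_lit 0) (nat_lit 218122111118) (nat_lit 152) (nat_lit 3659867619411) (nat_lit 0) (nat_lit 217824588559) (nat_lit 1) (nat_lit 5) (nat_lit 3) (nat_lit 4) (nat_lit 1) (nat_lit 4) (nat_lit 278) (nat_lit 195) (nat_lit 187)) (XT.lf (nat_lit 0) (nat_lit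 251443913229) (nat_lit 152) (nat_lit 4207560863941) (nat_lit 0) (nat_lit 251127543239) (nat_lit 1) (nat_lit 5) (nat_lit 3) (nat_lit 4) (nat_lit 1) (nat_lit 4) (nat_lit 279) (nat_lit 195) (nat_lit 186))))))) (XT.nd (nat_lit 33852) (nat_lit 0) (nat_lit 0) (XT.nd (nat_lit 390) (nat_lit 0) (nat_lit 0) (XT.nd (nat_lit 156) (nat_lit 0) (nat_lit 0) (XT.nd (nat_lit 78) (nat_lit 0) (nat_lit 0) (XT.lf (nat_lit 0) (nat_lit 289730845914) (nat_lit 152) (nat_lit 4837471768219) (nat_lit 0) (nat_lit 289398086855) (nat_lit 1) (nat_lit 5) (nat_lit 3) (nat_lit 4) (nat_lit 1) (nat_lit 4) (nat_lit 280) (nat_lit 195) (nat_lit 185)) (XT.lf (nat_lit 0) (nat_lit 333732001336) (nat_lit 152) (nat_lit 5561924676022) (nat_lit 0) (nat_lit 333384990911) (nat_lit 1) (nat_lit 5) (nat_lit 3) (nat_lit 4) (nat_lit 1) (nat_lit 4) (nat_lit 281) (nat_lit 195) (nat_lit 184))) (XT.nd (nat_lit 78) (nat_lit 0) (nat_lit 0) (XT.lf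 (nat_lit 0) (nat_lit 384308271665) (nat_lit 152) (nat_lit 6395093665983) (nat_lit 0) (nat_lit 383948868749) (nat_lit 1) (nat_lit 5) (nat_lit 3) (nat_lit 4) (nat_lit 1) (nat_lit 4) (nat_lit 282) (nat_lit 195) (nat_lit 183)) (XT.nd (nat_lit 78) (nat_lit 0) (nat_lit 0) (XT.lf (nat_lit 0) (nat_lit 442449192626) (nat_lit 152) (nat_lit 7353279870513) (nat_lit 0) (nat_lit 442079013629) (nat_lit 1) (nat_lit 5) (nat_lit 3) (nat_lit 4) (nat_lit 1) (nat_lit 4) (nat_lit 283) (nat_lit 195) (nat_lit 182)) (XT.lf (nat_lit 0) (nat_lit 509292303975) (nat_lit 152) (nat_lit 8455230411005) (nat_lit 0) (nat_lit 508912754475) (nat_lit 1) (nat_lit 5) (nat_lit 3) (nat_lit 4) (nat_lit 1) (nat_lit 4) (nat_lit 284) (nat_lit 195) (nat_lit 181))))) (XT.nd (nat_lit 33228) (nat_lit 0) (nat_lit 0) (XT.nd (nat_lit 33072) (nat_lit 0) (nat_lit 0) (XT.lf (nat_lit 0) (nat_lit 586145405719) (nat_lit 152) (nat_lit 9722505189338)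 (nat_lit 0) (nat_lit 585757707954) (nat_lit 1) (nat_lit 5) (nat_lit 3) (nat_lit 4) (nat_lit 1) (nat_lit 4) (nat_lit 285) (nat_lit 195) (nat_lit 180)) (XT.nd (nat_lit 78) (nat_lit 0) (nat_lit 0) (XT.lf (nat_lit 0) (nat_lit 24425095326) (nat_lit 152) (nat_lit 457582050496) (nat_lit 0) (nat_lit 24425095326) (nat_lit 1) (nat_lit 5) (nat_lit 3) (nat_lit 4) (nat_lit 1) (nat_lit 4) (nat_lit 268) (nat_lit 196) (nat_lit 196)) (XT.lf (nat_lit 0) (nat_lit 57473337044) (nat_lit 152) (nat_lit 1049802880083) (nat_lit 0) (nat_lit 57407034115) (nat_lit 1) (nat_lit 5) (nat_lit 3) (nat_lit 4) (nat_lit 1) (nat_lit 4) (nat_lit 269) (nat_lit 196) (nat_lit 195)))) (XT.nd (nat_lit 78) (nat_lit 0) (nat_lit 0) (XT.lf (nat_lit 0) (nat_lit 67273373882) (nat_lit 152) (nat_lit 1204861470011) (nat_lit 0) (nat_lit 67149416232) (nat_lit 1) (nat_lit 5) (nat_lit 3) (nat_lit 4) (nat_lit 1) (nat_lit 4) (nat_lit 270) (nat_lit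 196) (nat_lit 194)) (XT.nd (nat_lit 78) (nat_lit 0) (nat_lit 0) (XT.lf (nat_lit 0) (nat_lit 78442041018) (nat_lit 152) (nat_lit 1383373625796) (nat_lit 0) (nat_lit 78267948828) (nat_lit 1) (nat_lit 5) (nat_lit 3) (nat_lit 4) (nat_lit 1) (nat_lit 4) (nat_lit 271) (nat_lit 196) (nat_lit 193)) (XT.lf (nat_lit 0) (nat_lit 91197855853) (nat_lit 152) (nat_lit 1588831976572) (nat_lit 0) (nat_lit 90980168411) (nat_lit 1) (nat_lit 5) (nat_lit 3) (nat_lit 4) (nat_lit 1) (nat_lit 4) (nat_lit 272) (nat_lit 196) (nat_lit 192)))))) (XT.nd (nat_lit 390) (nat_lit 0) (nat_lit 0) (XT.nd (nat_lit 156) (nat_lit 0) (nat_lit 0) (XT.nd (nat_lit 78) (nat_lit 0) (nat_lit 0) (XT.lf (nat_lit 0) (nat_lit 105790388676) (nat_lit 152) (nat_lit 1825256359639) (nat_lit 0) (nat_lit 105534792320) (nat_lit 1) (nat_lit 5) (nat_lit 3) (nat_lit 4) (nat_lit 1) (nat_lit 4) (nat_lit 273) (nat_lit 196) (nat_lit 191)) (XT.lf (nat_lit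 0) (nat_lit 122505145566) (nat_lit 152) (nat_lit 2097272469447) (nat_lit 0) (nat_lit 122216584935) (nat_lit 1) (nat_lit 5) (nat_lit 3) (nat_lit 4) (nat_lit 1) (nat_lit 4) (nat_lit 274) (nat_lit 196) (nat_lit 190))) (XT.nd (nat_lit 78) (nat_lit 0) (nat_lit 0) (XT.lf (nat_lit 0) (nat_lit 141669154373) (nat_lit 152) (nat_lit 2410202360319) (nat_lit 0) (nat_lit 141351929157) (nat_lit 1) (nat_lit 5) (nat_lit 3) (nat_lit 4) (nat_lit 1) (nat_lit 4) (nat_lit 275) (nat_lit 196) (nat_lit 189)) (XT.nd (nat_lit 78) (nat_lit 0) (nat_lit 0) (XT.lf (nat_lit 0) (nat_lit 163657363097) (nat_lit 152) (nat_lit 2770168573598) (nat_lit 0) (nat_lit 163315212154) (nat_lit 1) (nat_lit 5) (nat_lit 3) (nat_lit 4) (nat_lit 1) (nat_lit 4) (nat_lit 276) (nat_lit 196) (nat_lit 188)) (XT.lf (nat_lit 0) (nat_lit 188899975821) (nat_lit 152) (nat_lit 3184213926499) (nat_lit 0) (nat_lit 188536150333) (nat_lit 1) (nat_lit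 5) (nat_lit 3) (nat_lit 4) (nat_lit 1) (nat_lit 4) (nat_lit 277) (nat_lit 196) (nat_lit 187))))) (XT.nd (nat_lit 234) (nat_lit 0) (nat_lit 0) (XT.nd (nat_lit 78) (nat_lit 0) (nat_lit 0) (XT.lf (nat_lit 0) (nat_lit 217890869751) (nat_lit 152) (nat_lit 3660439306363) (nat_lit 0) (nat_lit 217508196832) (nat_lit 1) (nat_lit 5) (nat_lit 3) (nat_lit 4) (nat_lit 1) (nat_lit 4) (nat_lit 278) (nat_lit 196) (nat_lit 186)) (XT.nd (nat_lit 78) (nat_lit 0) (nat_lit 0) (XT.lf (nat_lit 0) (nat_lit 251197258028) (nat_lit 152) (nat_lit 4208162166274) (nat_lit 0) (nat_lit 250798196039) (nat_lit 1) (nat_lit 5) (nat_lit 3) (nat_lit 4) (nat_lit 1) (nat_lit 4) (nat_lit 279) (nat_lit 196) (nat_lit 185)) (XT.lf (nat_lit 0) (nat_lit 289470787381) (nat_lit 152) (nat_lit 4838098823056) (nat_lit 0) (nat_lit 289057474026) (nat_lit 1) (nat_lit 5) (nat_lit 3) (nat_lit 4) (nat_lit 1) (nat_lit 4) (nat_lit 280) (nat_lit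 196) (nat_lit 184)))) (XT.nd (nat_lit 78) (nat_lit 0) (nat_lit 0) (XT.lf (nat_lit 0) (nat_lit 333460287730) (nat_lit 152) (nat_lit 5562574124341) (nat_lit 0) (nat_lit 333034581884) (nat_lit 1) (nat_lit 5) (nat_lit 3) (nat_lit 4) (nat_lit 1) (nat_lit 4) (nat_lit 281) (nat_lit 196) (nat_lit 183)) (XT.nd (nat_lit 78) (nat_lit 0) (nat_lit 0) (XT.lf (nat_lit 0) (nat_lit 384026423213) (nat_lit 152) (nat_lit 6395762586895) (nat_lit 0) (nat_lit 383589941288) (nat_lit 1) (nat_lit 5) (nat_lit 3) (nat_lit 4) (nat_lit 1) (nat_lit 4) (nat_lit 282) (nat_lit 196) (nat_lit 182)) (XT.lf (nat_lit 0) (nat_lit 442158531264) (nat_lit 152) (nat_lit 7353965724114) (nat_lit 0) (nat_lit 441712678835) (nat_lit 1) (nat_lit 5) (nat_lit 3) (nat_lit 4) (nat_lit 1) (nat_lit 4) (nat_lit 283) (nat_lit 196) (nat_lit 181))))))))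
noncomputable def xc2 : XT := (XT.nd (nat_lit 67236) (nat_lit 0) (nat_lit 0) (XT.nd (nat_lit 33696) (nat_lit 0) (nat_lit 0) (XT.nd (nat_lit 33228) (nat_lit 0) (nat_lit 0) (XT.nd (nat_lit 32994) (nat_lit 0) (nat_lit 0) (XT.nd (nat_lit 78) (nat_lit 0) (nat_lit 0) (XT.lf (nat_lit 0) (nat_lit 508993979215) (nat_lit 152) (nat_lit 8455930988684) (nat_lit 0) (nat_lit 508539978521) (nat_lit 1) (nat_lit 5) (nat_lit 3) (nat_lit 4) (nat_lit 1) (nat_lit 4) (nat_lit 284) (nat_lit 196) (nat_lit 180)) (XT.lf (nat_lit 0) (nat_lit 585840417132) (nat_lit 152) (nat_lit 9723218570564) (nat_lit 0) (nat_lit 585379330992) (nat_lit 1) (nat_lit 5) (nat_lit 3) (nat_lit 4) (nat_lit 1) (nat_lit 4) (nat_lit 285) (nat_lit 196) (nat_lit 179))) (XT.nd (nat_lit 78) (nat_lit 0) (nat_lit 0) (XT.lf (nat_lit 0) (nat_lit 17313699513) (nat_lit 152) (nat_lit 348409611836) (nat_lit 0) (nat_lit 17313699513) (nat_lit 1) (nat_lit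 5) (nat_lit 3) (nat_lit 4) (nat_lit 1) (nat_lit 4) (nat_lit 266) (nat_lit 197) (nat_lit 197)) (XT.nd (nat_lit 78) (nat_lit 0) (nat_lit 0) (XT.lf (nat_lit 0) (nat_lit 41311469343) (nat_lit 152) (nat_lit 798310895757) (nat_lit 0) (nat_lit 41235220975) (nat_lit 1) (nat_lit 5) (nat_lit 3) (nat_lit 4) (nat_lit 1) (nat_lit 4) (nat_lit 267) (nat_lit 197) (nat_lit 196)) (XT.lf (nat_lit 0) (nat_lit 48864081468) (nat_lit 152) (nat_lit 915283911723) (nat_lit 0) (nat_lit 48721530171) (nat_lit 1) (nat_lit 5) (nat_lit 3) (nat_lit 4) (nat_lit 1) (nat_lit 4) (nat_lit 268) (nat_lit 197) (nat_lit 195))))) (XT.nd (nat_lit 234) (nat_lit 0) (nat_lit 0) (XT.nd (nat_lit 78) (nat_lit 0) (nat_lit 0) (XT.lf (nat_lit 0) (nat_lit 57433003900) (nat_lit 152) (nat_lit 1050026874057) (nat_lit 0) (nat_lit 57232797882) (nat_lit 1) (nat_lit 5) (nat_lit 3) (nat_lit 4) (nat_lit 1) (nat_lit 4) (nat_lit 269) (nat_lit 197)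 (nat_lit 194)) (XT.nd (nat_lit 78) (nat_lit 0) (nat_lit 0) (XT.lf (nat_lit 0) (nat_lit 67185889470) (nat_lit 152) (nat_lit 1205176058109) (nat_lit 0) (nat_lit 66935548912) (nat_lit 1) (nat_lit 5) (nat_lit 3) (nat_lit 4) (nat_lit 1) (nat_lit 4) (nat_lit 270) (nat_lit 197) (nat_lit 193)) (XT.lf (nat_lit 0) (nat_lit 78313555503) (nat_lit 152) (nat_lit 1383766991393) (nat_lit 0) (nat_lit 78019619693) (nat_lit 1) (nat_lit 5) (nat_lit 3) (nat_lit 4) (nat_lit 1) (nat_lit 4) (nat_lit 271) (nat_lit 197) (nat_lit 192)))) (XT.nd (nat_lit 78) (nat_lit 0) (nat_lit 0) (XT.lf (nat_lit 0) (nat_lit 91033717204) (nat_lit 152) (nat_lit 1589293844344) (nat_lit 0) (nat_lit 90701872479) (nat_lit 1) (nat_lit 5) (nat_lit 3) (nat_lit 4) (nat_lit 1) (nat_lit 4) (nat_lit 272) (nat_lit 197) (nat_lit 191)) (XT.nd (nat_lit 78) (nat_lit 0) (nat_lit 0) (XT.lf (nat_lit 0) (nat_lit 105595247304) (nat_lit 152) (nat_lit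 1825777794518) (nat_lit 0) (nat_lit 105230438305) (nat_lit 1) (nat_lit 5) (nat_lit 3) (nat_lit 4) (nat_lit 1) (nat_lit 4) (nat_lit 273) (nat_lit 197) (nat_lit 190)) (XT.lf (nat_lit 0) (nat_lit 122283045302) (nat_lit 152) (nat_lit 2097845701811) (nat_lit 0) (nat_lit 121889571717) (nat_lit 1) (nat_lit 5) (nat_lit 3) (nat_lit 4) (nat_lit 1) (nat_lit 4) (nat_lit 274) (nat_lit 197) (nat_lit 189)))))) (XT.nd (nat_lit 390) (nat_lit 0) (nat_lit 0) (XT.nd (nat_lit 156) (nat_lit 0) (nat_lit 0) (XT.nd (nat_lit 78) (nat_lit 0) (nat_lit 0) (XT.lf (nat_lit 0) (nat_lit 141423611596) (nat_lit 152) (nat_lit 2410820633974) (nat_lit 0) (nat_lit 141005212284) (nat_lit 1) (nat_lit 5) (nat_lit 3) (nat_lit 4) (nat_lit 1) (nat_lit 4) (nat_lit 275) (nat_lit 197) (nat_lit 188)) (XT.lf (nat_lit 0) (nat_lit 163391435525) (nat_lit 152) (nat_lit 2770826013593) (nat_lit 0) (nat_lit 162951361668) (nat_lit 1) (nat_lit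 5) (nat_lit 3) (nat_lit 4) (nat_lit 1) (nat_lit 4) (nat_lit 276) (nat_lit 197) (nat_lit 187))) (XT.nd (nat_lit 78) (nat_lit 0) (nat_lit 0) (XT.lf (nat_lit 0) (nat_lit 188616322341) (nat_lit 152) (nat_lit 3184905424181) (nat_lit 0) (nat_lit 188157401053) (nat_lit 1) (nat_lit 5) (nat_lit 3) (nat_lit 4) (nat_lit 1) (nat_lit 4) (nat_lit 277) (nat_lit 197) (nat_lit 186)) (XT.nd (nat_lit 78) (nat_lit 0) (nat_lit 0) (XT.lf (nat_lit 0) (nat_lit 217591802437) (nat_lit 152) (nat_lit 3661160419425) (nat_lit 0) (nat_lit 217116492080) (nat_lit 1) (nat_lit 5) (nat_lit 3) (nat_lit 4) (nat_lit 1) (nat_lit 4) (nat_lit 278) (nat_lit 197) (nat_lit 185)) (XT.lf (nat_lit 0) (nat_lit 250884787381) (nat_lit 152) (nat_lit 4208909031841) (nat_lit 0) (nat_lit 250395225658) (nat_lit 1) (nat_lit 5) (nat_lit 3) (nat_lit 4) (nat_lit 1) (nat_lit 4) (nat_lit 279) (nat_lit 197) (nat_lit 184))))) (XT.nd (nat_lit 234)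 (nat_lit 0) (nat_lit 0) (XT.nd (nat_lit 78) (nat_lit 0) (nat_lit 0) (XT.lf (nat_lit 0) (nat_lit 289146661661) (nat_lit 152) (nat_lit 4838868082104) (nat_lit 0) (nat_lit 288644707447) (nat_lit 1) (nat_lit 5) (nat_lit 3) (nat_lit 4) (nat_lit 1) (nat_lit 4) (nat_lit 280) (nat_lit 197) (nat_lit 183)) (XT.nd (nat_lit 78) (nat_lit 0) (nat_lit 0) (XT.lf (nat_lit 0) (nat_lit 333126027164) (nat_lit 152) (nat_lit 5563362855983) (nat_lit 0) (nat_lit 332613296871) (nat_lit 1) (nat_lit 5) (nat_lit 3) (nat_lit 4) (nat_lit 1) (nat_lit 4) (nat_lit 281) (nat_lit 197) (nat_lit 182)) (XT.lf (nat_lit 0) (nat_lit 383683349739) (nat_lit 152) (nat_lit 6396568251226) (nat_lit 0) (nat_lit 383161248941) (nat_lit 1) (nat_lit 5) (nat_lit 3) (nat_lit 4) (nat_lit 1) (nat_lit 4) (nat_lit 282) (nat_lit 197) (nat_lit 181)))) (XT.nd (nat_lit 78) (nat_lit 0) (nat_lit 0) (XT.lf (nat_lit 0) (nat_lit 441807794390) (nat_lit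 152) (nat_lit 7354786112524) (nat_lit 0) (nat_lit 441277545328) (nat_lit 1) (nat_lit 5) (nat_lit 3) (nat_lit 4) (nat_lit 1) (nat_lit 4) (nat_lit 283) (nat_lit 197) (nat_lit 180)) (XT.nd (nat_lit 78) (nat_lit 0) (nat_lit 0) (XT.lf (nat_lit 0) (nat_lit 508636578515) (nat_lit 152) (nat_lit 8456764180640) (nat_lit 0) (nat_lit 508099244006) (nat_lit 1) (nat_lit 5) (nat_lit 3) (nat_lit 4) (nat_lit 1) (nat_lit 4) (nat_lit 284) (nat_lit 197) (nat_lit 179)) (XT.lf (nat_lit 0) (nat_lit 585477221802) (nat_lit 152) (nat_lit 9724062896038) (nat_lit 0) (nat_lit 584933726034) (nat_lit 1) (nat_lit 5) (nat_lit 3) (nat_lit 4) (nat_lit 1) (nat_lit 4) (nat_lit 285) (nat_lit 197) (nat_lit 178))))))) (XT.nd (nat_lit 858) (nat_lit 0) (nat_lit 0) (XT.nd (nat_lit 390) (nat_lit 0) (nat_lit 0) (XT.nd (nat_lit 156) (nat_lit 0) (nat_lit 0) (XT.nd (nat_lit 78) (nat_lit 0) (nat_lit 0) (XT.lf (nat_lit 0) (nat_lit 11763185357)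 (nat_lit 152) (nat_lit 266221340013) (nat_lit 0) (nat_lit 11763185357) (nat_lit 1) (nat_lit 5) (nat_lit 3) (nat_lit 4) (nat_lit 1) (nat_lit 4) (nat_lit 264) (nat_lit 198) (nat_lit 198)) (XT.lf (nat_lit 0) (nat_lit 28768780854) (nat_lit 152) (nat_lit 608823188844) (nat_lit 0) (nat_lit 28681095230) (nat_lit 1) (nat_lit 5) (nat_lit 3) (nat_lit 4) (nat_lit 1) (nat_lit 4) (nat_lit 265) (nat_lit 198) (nat_lit 197))) (XT.nd (nat_lit 78) (nat_lit 0) (nat_lit 0) (XT.lf (nat_lit 0) (nat_lit 34643373464) (nat_lit 152) (nat_lit 696957006013) (nat_lit 0) (nat_lit 34479439473) (nat_lit 1) (nat_lit 5) (nat_lit 3) (nat_lit 4) (nat_lit 1) (nat_lit 4) (nat_lit 266) (nat_lit 198) (nat_lit 196)) (XT.nd (nat_lit 78) (nat_lit 0) (nat_lit 0) (XT.lf (nat_lit 0) (nat_lit 41265086228) (nat_lit 152) (nat_lit 798568488826) (nat_lit 0) (nat_lit 41034849307) (nat_lit 1) (nat_lit 5) (nat_lit 3) (nat_lit 4) (nat_lit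 1) (nat_lit 4) (nat_lit 267) (nat_lit 198) (nat_lit 195)) (XT.lf (nat_lit 0) (nat_lit 48763474394) (nat_lit 152) (nat_lit 915645688036) (nat_lit 0) (nat_lit 48475582752) (nat_lit 1) (nat_lit 5) (nat_lit 3) (nat_lit 4) (nat_lit 1) (nat_lit 4) (nat_lit 268) (nat_lit 198) (nat_lit 194))))) (XT.nd (nat_lit 234) (nat_lit 0) (nat_lit 0) (XT.nd (nat_lit 78) (nat_lit 0) (nat_lit 0) (XT.lf (nat_lit 0) (nat_lit 57285245558) (nat_lit 152) (nat_lit 1050479244494) (nat_lit 0) (nat_lit 56947219376) (nat_lit 1) (nat_lit 5) (nat_lit 3) (nat_lit 4) (nat_lit 1) (nat_lit 4) (nat_lit 269) (nat_lit 198) (nat_lit 193)) (XT.nd (nat_lit 78) (nat_lit 0) (nat_lit 0) (XT.lf (nat_lit 0) (nat_lit 66997130024) (nat_lit 152) (nat_lit 1205707206046) (nat_lit 0) (nat_lit 66615508590) (nat_lit 1) (nat_lit 5) (nat_lit 3) (nat_lit 4) (nat_lit 1) (nat_lit 4) (nat_lit 270) (nat_lit 198) (nat_lit 192)) (XT.lf (nat_lit 0) (nat_lit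 78089142924) (nat_lit 152) (nat_lit 1384366641504) (nat_lit 0) (nat_lit 77669612575) (nat_lit 1) (nat_lit 5) (nat_lit 3) (nat_lit 4) (nat_lit 1) (nat_lit 4) (nat_lit 271) (nat_lit 198) (nat_lit 191)))) (XT.nd (nat_lit 78) (nat_lit 0) (nat_lit 0) (XT.lf (nat_lit 0) (nat_lit 90778301901) (nat_lit 152) (nat_lit 1589953061562) (nat_lit 0) (nat_lit 90325807278) (nat_lit 1) (nat_lit 5) (nat_lit 3) (nat_lit 4) (nat_lit 1) (nat_lit 4) (nat_lit 272) (nat_lit 198) (nat_lit 190)) (XT.nd (nat_lit 78) (nat_lit 0) (nat_lit 0) (XT.lf (nat_lit 0) (nat_lit 105312873109) (nat_lit 152) (nat_lit 1826488809222) (nat_lit 0) (nat_lit 104831713901) (nat_lit 1) (nat_lit 5) (nat_lit 3) (nat_lit 4) (nat_lit 1) (nat_lit 4) (nat_lit 273) (nat_lit 198) (nat_lit 189)) (XT.lf (nat_lit 0) (nat_lit 121977228594) (nat_lit 152) (nat_lit 2098601757806) (nat_lit 0) (nat_lit 121471143659) (nat_lit 1) (nat_lit 5) (nat_lit 3)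 (nat_lit 4) (nat_lit 1) (nat_lit 4) (nat_lit 274) (nat_lit 198) (nat_lit 188)))))) (XT.nd (nat_lit 390) (nat_lit 0) (nat_lit 0) (XT.nd (nat_lit 156) (nat_lit 0) (nat_lit 0) (XT.nd (nat_lit 78) (nat_lit 0) (nat_lit 0) (XT.lf (nat_lit 0) (nat_lit 141097410093) (nat_lit 152) (nat_lit 2411615856309) (nat_lit 0) (nat_lit 140569650613) (nat_lit 1) (nat_lit 5) (nat_lit 3) (nat_lit 4) (nat_lit 1) (nat_lit 4) (nat_lit 275) (nat_lit 198) (nat_lit 187)) (XT.lf (nat_lit 0) (nat_lit 163047508114) (nat_lit 152) (nat_lit 2771655293614) (nat_lit 0) (nat_lit 162500901203) (nat_lit 1) (nat_lit 5) (nat_lit 3) (nat_lit 4) (nat_lit 1) (nat_lit 4) (nat_lit 276) (nat_lit 198) (nat_lit 186))) (XT.nd (nat_lit 78) (nat_lit 0) (nat_lit 0) (XT.lf (nat_lit 0) (nat_lit 188256981096) (nat_lit 152) (nat_lit 3185764319583) (nat_lit 0) (nat_lit 187693985115) (nat_lit 1) (nat_lit 5) (nat_lit 3) (nat_lit 4) (nat_lit 1)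 (nat_lit 4) (nat_lit 277) (nat_lit 198) (nat_lit 185)) (XT.nd (nat_lit 78) (nat_lit 0) (nat_lit 0) (XT.lf (nat_lit 0) (nat_lit 217219057859) (nat_lit 152) (nat_lit 3662045067332) (nat_lit 0) (nat_lit 216641810513) (nat_lit 1) (nat_lit 5) (nat_lit 3) (nat_lit 4) (nat_lit 1) (nat_lit 4) (nat_lit 278) (nat_lit 198) (nat_lit 184)) (XT.lf (nat_lit 0) (nat_lit 250500387731) (nat_lit 152) (nat_lit 4209816073229) (nat_lit 0) (nat_lit 249910747893) (nat_lit 1) (nat_lit 5) (nat_lit 3) (nat_lit 4) (nat_lit 1) (nat_lit 4) (nat_lit 279) (nat_lit 198) (nat_lit 183))))) (XT.nd (nat_lit 234) (nat_lit 0) (nat_lit 0) (XT.nd (nat_lit 78) (nat_lit 0) (nat_lit 0) (XT.lf (nat_lit 0) (nat_lit 288752127165) (nat_lit 152) (nat_lit 4839794596086) (nat_lit 0) (nat_lit 288151711247) (nat_lit 1) (nat_lit 5) (nat_lit 3) (nat_lit 4) (nat_lit 1) (nat_lit 4) (nat_lit 280) (nat_lit 198) (nat_lit 182)) (XT.nd (nat_lit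 78) (nat_lit 0) (nat_lit 0) (XT.lf (nat_lit 0) (nat_lit 332722679759) (nat_lit 152) (nat_lit 5564306302654) (nat_lit 0) (nat_lit 332112893338) (nat_lit 1) (nat_lit 5) (nat_lit 3) (nat_lit 4) (nat_lit 1) (nat_lit 4) (nat_lit 281) (nat_lit 198) (nat_lit 181)) (XT.lf (nat_lit 0) (nat_lit 383272338934) (nat_lit 152) (nat_lit 6397526421976) (nat_lit 0) (nat_lit 382654404248) (nat_lit 1) (nat_lit 5) (nat_lit 3) (nat_lit 4) (nat_lit 1) (nat_lit 4) (nat_lit 282) (nat_lit 198) (nat_lit 180)))) (XT.nd (nat_lit 78) (nat_lit 0) (nat_lit 0) (XT.lf (nat_lit 0) (nat_lit 441390119760) (nat_lit 152) (nat_lit 7355757086819) (nat_lit 0) (nat_lit 440765099627) (nat_lit 1) (nat_lit 5) (nat_lit 3) (nat_lit 4) (nat_lit 1) (nat_lit 4) (nat_lit 283) (nat_lit 198) (nat_lit 179)) (XT.nd (nat_lit 78) (nat_lit 0) (nat_lit 0) (XT.lf (nat_lit 0) (nat_lit 508213109254) (nat_lit 152) (nat_lit 8457746288454) (nat_lit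 0) (nat_lit 507581927863) (nat_lit 1) (nat_lit 5) (nat_lit 3) (nat_lit 4) (nat_lit 1) (nat_lit 4) (nat_lit 284) (nat_lit 198) (nat_lit 178)) (XT.lf (nat_lit 0) (nat_lit 585048713731) (nat_lit 152) (nat_lit 9725054685172) (nat_lit 0) (nat_lit 584412174724) (nat_lit 1) (nat_lit 5) (nat_lit 3) (nat_lit 4) (nat_lit 1) (nat_lit 4) (nat_lit 285) (nat_lit 198) (nat_lit 177))))))))
noncomputable def xc3 : XT := (XT.nd (nat_lit 1716) (nat_lit 0) (nat_lit 0) (XT.nd (nat_lit 858) (nat_lit 0) (nat_lit 0) (XT.nd (nat_lit 390) (nat_lit 0) (nat_lit 0) (XT.nd (nat_lit 156) (nat_lit 0) (nat_lit 0) (XT.nd (nat_lit 78) (nat_lit 0) (nat_lit 0) (XT.lf (nat_lit 0) (nat_lit 7366930395) (nat_lit 152) (nat_lit 204491241508) (nat_lit 0) (nat_lit 7366930395) (nat_lit 1) (nat_lit 5) (nat_lit 3) (nat_lit 4) (nat_lit 1) (nat_lit 4) (nat_lit 262) (nat_lit 199) (nat_lit 199)) (XT.lf (nat_lit 0) (nat_lit 18914412621)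 (nat_lit 152) (nat_lit 466321078303) (nat_lit 0) (nat_lit 18813574154) (nat_lit 1) (nat_lit 5) (nat_lit 3) (nat_lit 4) (nat_lit 1) (nat_lit 4) (nat_lit 263) (nat_lit 199) (nat_lit 198))) (XT.nd (nat_lit 78) (nat_lit 0) (nat_lit 0) (XT.lf (nat_lit 0) (nat_lit 23544741319) (nat_lit 152) (nat_lit 532601129717) (nat_lit 0) (nat_lit 23356217228) (nat_lit 1) (nat_lit 5) (nat_lit 3) (nat_lit 4) (nat_lit 1) (nat_lit 4) (nat_lit 264) (nat_lit 199) (nat_lit 197)) (XT.nd (nat_lit 78) (nat_lit 0) (nat_lit 0) (XT.lf (nat_lit 0) (nat_lit 28715440272) (nat_lit 152) (nat_lit 609119420874) (nat_lit 0) (nat_lit 28450667813) (nat_lit 1) (nat_lit 5) (nat_lit 3) (nat_lit 4) (nat_lit 1) (nat_lit 4) (nat_lit 265) (nat_lit 199) (nat_lit 196)) (XT.lf (nat_lit 0) (nat_lit 34527675330) (nat_lit 152) (nat_lit 697373048772) (nat_lit 0) (nat_lit 34196599941) (nat_lit 1) (nat_lit 5) (nat_lit 3) (nat_lit 4) (nat_lit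 1) (nat_lit 4) (nat_lit 266) (nat_lit 199) (nat_lit 195))))) (XT.nd (nat_lit 234) (nat_lit 0) (nat_lit 0) (XT.nd (nat_lit 78) (nat_lit 0) (nat_lit 0) (XT.lf (nat_lit 0) (nat_lit 41095164134) (nat_lit 152) (nat_lit 799088714830) (nat_lit 0) (nat_lit 40706434025) (nat_lit 1) (nat_lit 5) (nat_lit 3) (nat_lit 4) (nat_lit 1) (nat_lit 4) (nat_lit 267) (nat_lit 199) (nat_lit 194)) (XT.nd (nat_lit 78) (nat_lit 0) (nat_lit 0) (XT.lf (nat_lit 0) (nat_lit 48546401032) (nat_lit 152) (nat_lit 916256508163) (nat_lit 0) (nat_lit 48107536383) (nat_lit 1) (nat_lit 5) (nat_lit 3) (nat_lit 4) (nat_lit 1) (nat_lit 4) (nat_lit 268) (nat_lit 199) (nat_lit 193)) (XT.lf (nat_lit 0) (nat_lit 57027171092) (nat_lit 152) (nat_lit 1051168842122) (nat_lit 0) (nat_lit 56544711191) (nat_lit 1) (nat_lit 5) (nat_lit 3) (nat_lit 4) (nat_lit 1) (nat_lit 4) (nat_lit 269) (nat_lit 199) (nat_lit 192)))) (XT.nd (nat_lit 78)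 (nat_lit 0) (nat_lit 0) (XT.lf (nat_lit 0) (nat_lit 66703402425) (nat_lit 152) (nat_lit 1206465305847) (nat_lit 0) (nat_lit 66183033609) (nat_lit 1) (nat_lit 5) (nat_lit 3) (nat_lit 4) (nat_lit 1) (nat_lit 4) (nat_lit 270) (nat_lit 199) (nat_lit 191)) (XT.nd (nat_lit 78) (nat_lit 0) (nat_lit 0) (XT.lf (nat_lit 0) (nat_lit 77764412600) (nat_lit 152) (nat_lit 1385184308413) (nat_lit 0) (nat_lit 77211079511) (nat_lit 1) (nat_lit 5) (nat_lit 3) (nat_lit 4) (nat_lit 1) (nat_lit 4) (nat_lit 271) (nat_lit 199) (nat_lit 190)) (XT.lf (nat_lit 0) (nat_lit 90426612687) (nat_lit 152) (nat_lit 1590822525956) (nat_lit 0) (nat_lit 89844615011) (nat_lit 1) (nat_lit 5) (nat_lit 3) (nat_lit 4) (nat_lit 1) (nat_lit 4) (nat_lit 272) (nat_lit 199) (nat_lit 189)))))) (XT.nd (nat_lit 390) (nat_lit 0) (nat_lit 0) (XT.nd (nat_lit 156) (nat_lit 0) (nat_lit 0) (XT.nd (nat_lit 78) (nat_lit 0) (nat_lit 0) (XT.lf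 (nat_lit 0) (nat_lit 104937741381) (nat_lit 152) (nat_lit 1827403314906) (nat_lit 0) (nat_lit 104330817979) (nat_lit 1) (nat_lit 5) (nat_lit 3) (nat_lit 4) (nat_lit 1) (nat_lit 4) (nat_lit 273) (nat_lit 199) (nat_lit 188)) (XT.lf (nat_lit 0) (nat_lit 121581712071) (nat_lit 152) (nat_lit 2099555429831) (nat_lit 0) (nat_lit 120953114124) (nat_lit 1) (nat_lit 5) (nat_lit 3) (nat_lit 4) (nat_lit 1) (nat_lit 4) (nat_lit 274) (nat_lit 199) (nat_lit 187))) (XT.nd (nat_lit 78) (nat_lit 0) (nat_lit 0) (XT.lf (nat_lit 0) (nat_lit 140684167662) (nat_lit 152) (nat_lit 2412603586021) (nat_lit 0) (nat_lit 140036722284) (nat_lit 1) (nat_lit 5) (nat_lit 3) (nat_lit 4) (nat_lit 1) (nat_lit 4) (nat_lit 275) (nat_lit 199) (nat_lit 186)) (XT.nd (nat_lit 78) (nat_lit 0) (nat_lit 0) (XT.lf (nat_lit 0) (nat_lit 162618851849) (nat_lit 152) (nat_lit 2772672638707) (nat_lit 0) (nat_lit 161955017401) (nat_lit 1)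 (nat_lit 5) (nat_lit 3) (nat_lit 4) (nat_lit 1) (nat_lit 4) (nat_lit 276) (nat_lit 199) (nat_lit 185)) (XT.lf (nat_lit 0) (nat_lit 187814921498) (nat_lit 152) (nat_lit 3186807417180) (nat_lit 0) (nat_lit 187136835685) (nat_lit 1) (nat_lit 5) (nat_lit 3) (nat_lit 4) (nat_lit 1) (nat_lit 4) (nat_lit 277) (nat_lit 199) (nat_lit 184))))) (XT.nd (nat_lit 234) (nat_lit 0) (nat_lit 0) (XT.nd (nat_lit 78) (nat_lit 0) (nat_lit 0) (XT.lf (nat_lit 0) (nat_lit 216765343189) (nat_lit 152) (nat_lit 3663110558410) (nat_lit 0) (nat_lit 216074864884) (nat_lit 1) (nat_lit 5) (nat_lit 3) (nat_lit 4) (nat_lit 1) (nat_lit 4) (nat_lit 278) (nat_lit 199) (nat_lit 183)) (XT.nd (nat_lit 78) (nat_lit 0) (nat_lit 0) (XT.lf (nat_lit 0) (nat_lit 250036538215) (nat_lit 152) (nat_lit 4210901036901) (nat_lit 0) (nat_lit 249335283830) (nat_lit 1) (nat_lit 5) (nat_lit 3) (nat_lit 4) (nat_lit 1) (nat_lit 4) (nat_lit 279)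 (nat_lit 199) (nat_lit 182)) (XT.lf (nat_lit 0) (nat_lit 288279464740) (nat_lit 152) (nat_lit 4840896492447) (nat_lit 0) (nat_lit 287568839851) (nat_lit 1) (nat_lit 5) (nat_lit 3) (nat_lit 4) (nat_lit 1) (nat_lit 4) (nat_lit 280) (nat_lit 199) (nat_lit 181)))) (XT.nd (nat_lit 78) (nat_lit 0) (nat_lit 0) (XT.lf (nat_lit 0) (nat_lit 332242353934) (nat_lit 152) (nat_lit 5565422923094) (nat_lit 0) (nat_lit 331523580782) (nat_lit 1) (nat_lit 5) (nat_lit 3) (nat_lit 4) (nat_lit 1) (nat_lit 4) (nat_lit 281) (nat_lit 199) (nat_lit 180)) (XT.nd (nat_lit 78) (nat_lit 0) (nat_lit 0) (XT.lf (nat_lit 0) (nat_lit 382785349284) (nat_lit 152) (nat_lit 6398655845961) (nat_lit 0) (nat_lit 382059490684) (nat_lit 1) (nat_lit 5) (nat_lit 3) (nat_lit 4) (nat_lit 1) (nat_lit 4) (nat_lit 282) (nat_lit 199) (nat_lit 179)) (XT.lf (nat_lit 0) (nat_lit 440897335479) (nat_lit 152) (nat_lit 7356897644323) (nat_lit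 0) (nat_lit 440165315621) (nat_lit 1) (nat_lit 5) (nat_lit 3) (nat_lit 4) (nat_lit 1) (nat_lit 4) (nat_lit 283) (nat_lit 199) (nat_lit 178))))))) (XT.nd (nat_lit 33228) (nat_lit 0) (nat_lit 0) (XT.nd (nat_lit 32760) (nat_lit 0) (nat_lit 0) (XT.nd (nat_lit 32526) (nat_lit 0) (nat_lit 0) (XT.nd (nat_lit 78) (nat_lit 0) (nat_lit 0) (XT.lf (nat_lit 0) (nat_lit 507715286164) (nat_lit 152) (nat_lit 8458896527278) (nat_lit 0) (nat_lit 506977908689) (nat_lit 1) (nat_lit 5) (nat_lit 3) (nat_lit 4) (nat_lit 1) (nat_lit 4) (nat_lit 284) (nat_lit 199) (nat_lit 177)) (XT.lf (nat_lit 0) (nat_lit 584546509068) (nat_lit 152) (nat_lit 9726213342535) (nat_lit 0) (nat_lit 583804472796) (nat_lit 1) (nat_lit 5) (nat_lit 3) (nat_lit 4) (nat_lit 1) (nat_lit 4) (nat_lit 285) (nat_lit 199) (nat_lit 176))) (XT.nd (nat_lit 78) (nat_lit 0) (nat_lit 0) (XT.lf (nat_lit 0) (nat_lit 3813570888) (nat_lit 152) (nat_lit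 158292867615) (nat_lit 0) (nat_lit 3813570888) (nat_lit 1) (nat_lit 5) (nat_lit 3) (nat_lit 4) (nat_lit 1) (nat_lit 4) (nat_lit 260) (nat_lit 200) (nat_lit 200)) (XT.nd (nat_lit 78) (nat_lit 0) (nat_lit 0) (XT.lf (nat_lit 0) (nat_lit 11037256661) (nat_lit 152) (nat_lit 359463501775) (nat_lit 0) (nat_lit 10921292423) (nat_lit 1) (nat_lit 5) (nat_lit 3) (nat_lit 4) (nat_lit 1) (nat_lit 4) (nat_lit 261) (nat_lit 200) (nat_lit 199)) (XT.lf (nat_lit 0) (nat_lit 14754986985) (nat_lit 152) (nat_lit 409164700160) (nat_lit 0) (nat_lit 14538184281) (nat_lit 1) (nat_lit 5) (nat_lit 3) (nat_lit 4) (nat_lit 1) (nat_lit 4) (nat_lit 262) (nat_lit 200) (nat_lit 198))))) (XT.nd (nat_lit 234) (nat_lit 0) (nat_lit 0) (XT.nd (nat_lit 78) (nat_lit 0) (nat_lit 0) (XT.lf (nat_lit 0) (nat_lit 18853070951) (nat_lit 152) (nat_lit 466661745137) (nat_lit 0) (nat_lit 18548582623) (nat_lit 1) (nat_lit 5) (nat_lit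 3) (nat_lit 4) (nat_lit 1) (nat_lit 4) (nat_lit 263) (nat_lit 200) (nat_lit 197)) (XT.nd (nat_lit 78) (nat_lit 0) (nat_lit 0) (XT.lf (nat_lit 0) (nat_lit 23411688464) (nat_lit 152) (nat_lit 533079578891) (nat_lit 0) (nat_lit 23030951767) (nat_lit 1) (nat_lit 5) (nat_lit 3) (nat_lit 4) (nat_lit 1) (nat_lit 4) (nat_lit 264) (nat_lit 200) (nat_lit 196)) (XT.lf (nat_lit 0) (nat_lit 28520029864) (nat_lit 152) (nat_lit 609717680777) (nat_lit 0) (nat_lit 28072990239) (nat_lit 1) (nat_lit 5) (nat_lit 3) (nat_lit 4) (nat_lit 1) (nat_lit 4) (nat_lit 265) (nat_lit 200) (nat_lit 195)))) (XT.nd (nat_lit 78) (nat_lit 0) (nat_lit 0) (XT.lf (nat_lit 0) (nat_lit 34278040963) (nat_lit 152) (nat_lit 698075491919) (nat_lit 0) (nat_lit 33773346616) (nat_lit 1) (nat_lit 5) (nat_lit 3) (nat_lit 4) (nat_lit 1) (nat_lit 4) (nat_lit 266) (nat_lit 200) (nat_lit 194)) (XT.nd (nat_lit 78) (nat_lit 0) (nat_lit 0)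 (XT.lf (nat_lit 0) (nat_lit 40798378499) (nat_lit 152) (nat_lit 799881752101) (nat_lit 0) (nat_lit 40243549612) (nat_lit 1) (nat_lit 5) (nat_lit 3) (nat_lit 4) (nat_lit 1) (nat_lit 4) (nat_lit 267) (nat_lit 200) (nat_lit 193)) (XT.lf (nat_lit 0) (nat_lit 48208614293) (nat_lit 152) (nat_lit 917128322935) (nat_lit 0) (nat_lit 47610190155) (nat_lit 1) (nat_lit 5) (nat_lit 3) (nat_lit 4) (nat_lit 1) (nat_lit 4) (nat_lit 268) (nat_lit 200) (nat_lit 192)))))) (XT.nd (nat_lit 390) (nat_lit 0) (nat_lit 0) (XT.nd (nat_lit 156) (nat_lit 0) (nat_lit 0) (XT.nd (nat_lit 78) (nat_lit 0) (nat_lit 0) (XT.lf (nat_lit 0) (nat_lit 56653731220) (nat_lit 152) (nat_lit 1052109159067) (nat_lit 0) (nat_lit 56017398167) (nat_lit 1) (nat_lit 5) (nat_lit 3) (nat_lit 4) (nat_lit 1) (nat_lit 4) (nat_lit 269) (nat_lit 200) (nat_lit 191)) (XT.lf (nat_lit 0) (nat_lit 66298959829) (nat_lit 152) (nat_lit 1207465189900)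 (nat_lit 0) (nat_lit 65629662502) (nat_lit 1) (nat_lit 5) (nat_lit 3) (nat_lit 4) (nat_lit 1) (nat_lit 4) (nat_lit 270) (nat_lit 200) (nat_lit 190))) (XT.nd (nat_lit 78) (nat_lit 0) (nat_lit 0) (XT.lf (nat_lit 0) (nat_lit 77333011113) (nat_lit 152) (nat_lit 1386235989951) (nat_lit 0) (nat_lit 76635049200) (nat_lit 1) (nat_lit 5) (nat_lit 3) (nat_lit 4) (nat_lit 1) (nat_lit 4) (nat_lit 271) (nat_lit 200) (nat_lit 189)) (XT.nd (nat_lit 78) (nat_lit 0) (nat_lit 0) (XT.lf (nat_lit 0) (nat_lit 89971768685) (nat_lit 152) (nat_lit 1591919248785) (nat_lit 0) (nat_lit 89248881046) (nat_lit 1) (nat_lit 5) (nat_lit 3) (nat_lit 4) (nat_lit 1) (nat_lit 4) (nat_lit 272) (nat_lit 200) (nat_lit 188)) (XT.lf (nat_lit 0) (nat_lit 104462512585) (nat_lit 152) (nat_lit 1828539204075) (nat_lit 0) (nat_lit 103717950400) (nat_lit 1) (nat_lit 5) (nat_lit 3) (nat_lit 4) (nat_lit 1) (nat_lit 4) (nat_lit 273) (nat_lit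 200) (nat_lit 187))))) (XT.nd (nat_lit 234) (nat_lit 0) (nat_lit 0) (XT.nd (nat_lit 78) (nat_lit 0) (nat_lit 0) (XT.lf (nat_lit 0) (nat_lit 121088757367) (nat_lit 152) (nat_lit 2100725376687) (nat_lit 0) (nat_lit 120325347752) (nat_lit 1) (nat_lit 5) (nat_lit 3) (nat_lit 4) (nat_lit 1) (nat_lit 4) (nat_lit 274) (nat_lit 200) (nat_lit 186)) (XT.nd (nat_lit 78) (nat_lit 0) (nat_lit 0) (XT.lf (nat_lit 0) (nat_lit 140175799124) (nat_lit 152) (nat_lit 2413803148257) (nat_lit 0) (nat_lit 139396000439) (nat_lit 1) (nat_lit 5) (nat_lit 3) (nat_lit 4) (nat_lit 1) (nat_lit 4) (nat_lit 275) (nat_lit 200) (nat_lit 185)) (XT.lf (nat_lit 0) (nat_lit 162097079978) (nat_lit 152) (nat_lit 2773897953447) (nat_lit 0) (nat_lit 161303029928) (nat_lit 1) (nat_lit 5) (nat_lit 3) (nat_lit 4) (nat_lit 1) (nat_lit 4) (nat_lit 276) (nat_lit 200) (nat_lit 184)))) (XT.nd (nat_lit 78) (nat_lit 0) (nat_lit 0) (XT.lf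 (nat_lit 0) (nat_lit 187281494555) (nat_lit 152) (nat_lit 3188055125402) (nat_lit 0) (nat_lit 186475052013) (nat_lit 1) (nat_lit 5) (nat_lit 3) (nat_lit 4) (nat_lit 1) (nat_lit 4) (nat_lit 277) (nat_lit 200) (nat_lit 183)) (XT.nd (nat_lit 78) (nat_lit 0) (nat_lit 0) (XT.lf (nat_lit 0) (nat_lit 216221781400) (nat_lit 152) (nat_lit 3664377739226) (nat_lit 0) (nat_lit 215404562778) (nat_lit 1) (nat_lit 5) (nat_lit 3) (nat_lit 4) (nat_lit 1) (nat_lit 4) (nat_lit 278) (nat_lit 200) (nat_lit 182)) (XT.lf (nat_lit 0) (nat_lit 249484163516) (nat_lit 152) (nat_lit 4212185150406) (nat_lit 0) (nat_lit 248657574391) (nat_lit 1) (nat_lit 5) (nat_lit 3) (nat_lit 4) (nat_lit 1) (nat_lit 4) (nat_lit 279) (nat_lit 200) (nat_lit 181))))))))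
noncomputable def xc4 : XT := (XT.nd (nat_lit 33930) (nat_lit 0) (nat_lit 0) (XT.nd (nat_lit 33072) (nat_lit 0) (nat_lit 0) (XT.nd (nat_lit 390) (nat_lit 0) (nat_lit 0) (XT.nd (nat_lit 156) (nat_lit 0) (nat_lit 0) (XT.nd (nat_lit 78) (nat_lit 0) (nat_lit 0) (XT.lf (nat_lit 0) (nat_lit 287719426642) (nat_lit 152) (nat_lit 4842195330031) (nat_lit 0) (nat_lit 286884689252) (nat_lit 1) (nat_lit 5) (nat_lit 3) (nat_lit 4) (nat_lit 1) (nat_lit 4) (nat_lit 280) (nat_lit 200) (nat_lit 180)) (XT.lf (nat_lit 0) (nat_lit 331675652011) (nat_lit 152) (nat_lit 5566734564223) (nat_lit 0) (nat_lit 330833829174) (nat_lit 1) (nat_lit 5) (nat_lit 3) (nat_lit 4) (nat_lit 1) (nat_lit 4) (nat_lit 281) (nat_lit 200) (nat_lit 179))) (XT.nd (nat_lit 78) (nat_lit 0) (nat_lit 0) (XT.lf (nat_lit 0) (nat_lit 382212852730) (nat_lit 152) (nat_lit 6399978620609) (nat_lit 0) (nat_lit 381364868634) (nat_lit 1) (nat_lit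 5) (nat_lit 3) (nat_lit 4) (nat_lit 1) (nat_lit 4) (nat_lit 282) (nat_lit 200) (nat_lit 178)) (XT.nd (nat_lit 78) (nat_lit 0) (nat_lit 0) (XT.lf (nat_lit 0) (nat_lit 440319800116) (nat_lit 152) (nat_lit 7358230100291) (nat_lit 0) (nat_lit 439466458404) (nat_lit 1) (nat_lit 5) (nat_lit 3) (nat_lit 4) (nat_lit 1) (nat_lit 4) (nat_lit 283) (nat_lit 200) (nat_lit 177)) (XT.lf (nat_lit 0) (nat_lit 507133369227) (nat_lit 152) (nat_lit 8460237401785) (nat_lit 0) (nat_lit 506275368718) (nat_lit 1) (nat_lit 5) (nat_lit 3) (nat_lit 4) (nat_lit 1) (nat_lit 4) (nat_lit 284) (nat_lit 200) (nat_lit 176))))) (XT.nd (nat_lit 32448) (nat_lit 0) (nat_lit 0) (XT.nd (nat_lit 32292) (nat_lit 0) (nat_lit 0) (XT.lf (nat_lit 0) (nat_lit 583960782067) (nat_lit 152) (nat_lit 9727561537512) (nat_lit 0) (nat_lit 583098730431) (nat_lit 1) (nat_lit 5) (nat_lit 3) (nat_lit 4) (nat_lit 1) (nat_lit 4) (nat_lit 285) (nat_lit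 200) (nat_lit 175)) (XT.nd (nat_lit 78) (nat_lit 0) (nat_lit 0) (XT.lf (nat_lit 0) (nat_lit 863187567) (nat_lit 152) (nat_lit 123910476306) (nat_lit 0) (nat_lit 863187567) (nat_lit 1) (nat_lit 5) (nat_lit 3) (nat_lit 4) (nat_lit 1) (nat_lit 4) (nat_lit 258) (nat_lit 201) (nat_lit 201)) (XT.lf (nat_lit 0) (nat_lit 4591281565) (nat_lit 152) (nat_lit 279692487703) (nat_lit 0) (nat_lit 4457922693) (nat_lit 1) (nat_lit 5) (nat_lit 3) (nat_lit 4) (nat_lit 1) (nat_lit 4) (nat_lit 259) (nat_lit 201) (nat_lit 200)))) (XT.nd (nat_lit 78) (nat_lit 0) (nat_lit 0) (XT.lf (nat_lit 0) (nat_lit 7651436899) (nat_lit 152) (nat_lit 316795284946) (nat_lit 0) (nat_lit 7402113789) (nat_lit 1) (nat_lit 5) (nat_lit 3) (nat_lit 4) (nat_lit 1) (nat_lit 4) (nat_lit 260) (nat_lit 201) (nat_lit 199)) (XT.nd (nat_lit 78) (nat_lit 0) (nat_lit 0) (XT.lf (nat_lit 0) (nat_lit 10966713741) (nat_lit 152) (nat_lit 359855268634)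 (nat_lit 0) (nat_lit 10616552164) (nat_lit 1) (nat_lit 5) (nat_lit 3) (nat_lit 4) (nat_lit 1) (nat_lit 4) (nat_lit 261) (nat_lit 201) (nat_lit 198)) (XT.lf (nat_lit 0) (nat_lit 14601976202) (nat_lit 152) (nat_lit 409714916710) (nat_lit 0) (nat_lit 14164129001) (nat_lit 1) (nat_lit 5) (nat_lit 3) (nat_lit 4) (nat_lit 1) (nat_lit 4) (nat_lit 262) (nat_lit 201) (nat_lit 197)))))) (XT.nd (nat_lit 390) (nat_lit 0) (nat_lit 0) (XT.nd (nat_lit 156) (nat_lit 0) (nat_lit 0) (XT.nd (nat_lit 78) (nat_lit 0) (nat_lit 0) (XT.lf (nat_lit 0) (nat_lit 18628348982) (nat_lit 152) (nat_lit 467349744026) (nat_lit 0) (nat_lit 18114253413) (nat_lit 1) (nat_lit 5) (nat_lit 3) (nat_lit 4) (nat_lit 1) (nat_lit 4) (nat_lit 263) (nat_lit 201) (nat_lit 196)) (XT.lf (nat_lit 0) (nat_lit 23124608942) (nat_lit 152) (nat_lit 533887388510) (nat_lit 0) (nat_lit 22544210443) (nat_lit 1) (nat_lit 5) (nat_lit 3) (nat_lit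 4) (nat_lit 1) (nat_lit 4) (nat_lit 264) (nat_lit 201) (nat_lit 195))) (XT.nd (nat_lit 78) (nat_lit 0) (nat_lit 0) (XT.lf (nat_lit 0) (nat_lit 28178726383) (nat_lit 152) (nat_lit 610629673640) (nat_lit 0) (nat_lit 27540673164) (nat_lit 1) (nat_lit 5) (nat_lit 3) (nat_lit 4) (nat_lit 1) (nat_lit 4) (nat_lit 265) (nat_lit 201) (nat_lit 194)) (XT.nd (nat_lit 78) (nat_lit 0) (nat_lit 0) (XT.lf (nat_lit 0) (nat_lit 33889586213) (nat_lit 152) (nat_lit 699078078907) (nat_lit 0) (nat_lit 33201398454) (nat_lit 1) (nat_lit 5) (nat_lit 3) (nat_lit 4) (nat_lit 1) (nat_lit 4) (nat_lit 266) (nat_lit 201) (nat_lit 193)) (XT.lf (nat_lit 0) (nat_lit 40368922646) (nat_lit 152) (nat_lit 800963116588) (nat_lit 0) (nat_lit 39637139635) (nat_lit 1) (nat_lit 5) (nat_lit 3) (nat_lit 4) (nat_lit 1) (nat_lit 4) (nat_lit 267) (nat_lit 201) (nat_lit 192))))) (XT.nd (nat_lit 234) (nat_lit 0) (nat_lit 0) (XT.nd (nat_lit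 78) (nat_lit 0) (nat_lit 0) (XT.lf (nat_lit 0) (nat_lit 47743505307) (nat_lit 152) (nat_lit 918278189596) (nat_lit 0) (nat_lit 46973813381) (nat_lit 1) (nat_lit 5) (nat_lit 3) (nat_lit 4) (nat_lit 1) (nat_lit 4) (nat_lit 268) (nat_lit 201) (nat_lit 191)) (XT.nd (nat_lit 78) (nat_lit 0) (nat_lit 0) (XT.lf (nat_lit 0) (nat_lit 56157619510) (nat_lit 152) (nat_lit 1053318592835) (nat_lit 0) (nat_lit 55354963310) (nat_lit 1) (nat_lit 5) (nat_lit 3) (nat_lit 4) (nat_lit 1) (nat_lit 4) (nat_lit 269) (nat_lit 201) (nat_lit 190)) (XT.lf (nat_lit 0) (nat_lit 65775889227) (nat_lit 152) (nat_lit 1208726421153) (nat_lit 0) (nat_lit 64944568442) (nat_lit 1) (nat_lit 5) (nat_lit 3) (nat_lit 4) (nat_lit 1) (nat_lit 4) (nat_lit 270) (nat_lit 201) (nat_lit 189)))) (XT.nd (nat_lit 78) (nat_lit 0) (nat_lit 0) (XT.lf (nat_lit 0) (nat_lit 76786497998) (nat_lit 152) (nat_lit 1387542262495) (nat_lit 0) (nat_lit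 75930251485) (nat_lit 1) (nat_lit 5) (nat_lit 3) (nat_lit 4) (nat_lit 1) (nat_lit 4) (nat_lit 271) (nat_lit 201) (nat_lit 188)) (XT.nd (nat_lit 78) (nat_lit 0) (nat_lit 0) (XT.lf (nat_lit 0) (nat_lit 89404870776) (nat_lit 152) (nat_lit 1593264687669) (nat_lit 0) (nat_lit 88526949718) (nat_lit 1) (nat_lit 5) (nat_lit 3) (nat_lit 4) (nat_lit 1) (nat_lit 4) (nat_lit 272) (nat_lit 201) (nat_lit 187)) (XT.lf (nat_lit 0) (nat_lit 103877888767) (nat_lit 152) (nat_lit 1829918700647) (nat_lit 0) (nat_lit 102981120279) (nat_lit 1) (nat_lit 5) (nat_lit 3) (nat_lit 4) (nat_lit 1) (nat_lit 4) (nat_lit 273) (nat_lit 201) (nat_lit 186))))))) (XT.nd (nat_lit 858) (nat_lit 0) (nat_lit 0) (XT.nd (nat_lit 390) (nat_lit 0) (nat_lit 0) (XT.nd (nat_lit 156) (nat_lit 0) (nat_lit 0) (XT.nd (nat_lit 78) (nat_lit 0) (nat_lit 0) (XT.lf (nat_lit 0) (nat_lit 120488719715) (nat_lit 152) (nat_lit 2102134488638) (nat_lit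 0) (nat_lit 119575562157) (nat_lit 1) (nat_lit 5) (nat_lit 3) (nat_lit 4) (nat_lit 1) (nat_lit 4) (nat_lit 274) (nat_lit 201) (nat_lit 185)) (XT.lf (nat_lit 0) (nat_lit 139562358139) (nat_lit 152) (nat_lit 2415238012713) (nat_lit 0) (nat_lit 138634949216) (nat_lit 1) (nat_lit 5) (nat_lit 3) (nat_lit 4) (nat_lit 1) (nat_lit 4) (nat_lit 275) (nat_lit 201) (nat_lit 184))) (XT.nd (nat_lit 78) (nat_lit 0) (nat_lit 0) (XT.lf (nat_lit 0) (nat_lit 161471983921) (nat_lit 152) (nat_lit 2775355211385) (nat_lit 0) (nat_lit 160532182506) (nat_lit 1) (nat_lit 5) (nat_lit 3) (nat_lit 4) (nat_lit 1) (nat_lit 4) (nat_lit 276) (nat_lit 201) (nat_lit 183)) (XT.nd (nat_lit 78) (nat_lit 0) (nat_lit 0) (XT.lf (nat_lit 0) (nat_lit 186646263652) (nat_lit 152) (nat_lit 3189531855933) (nat_lit 0) (nat_lit 185695686157) (nat_lit 1) (nat_lit 5) (nat_lit 3) (nat_lit 4) (nat_lit 1) (nat_lit 4) (nat_lit 277) (nat_lit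 201) (nat_lit 182)) (XT.lf (nat_lit 0) (nat_lit 215577737587) (nat_lit 152) (nat_lit 3665871402447) (nat_lit 0) (nat_lit 214617789589) (nat_lit 1) (nat_lit 5) (nat_lit 3) (nat_lit 4) (nat_lit 1) (nat_lit 4) (nat_lit 278) (nat_lit 201) (nat_lit 181))))) (XT.nd (nat_lit 234) (nat_lit 0) (nat_lit 0) (XT.nd (nat_lit 78) (nat_lit 0) (nat_lit 0) (XT.lf (nat_lit 0) (nat_lit 248832456305) (nat_lit 152) (nat_lit 4213693537705) (nat_lit 0) (nat_lit 247864360042) (nat_lit 1) (nat_lit 5) (nat_lit 3) (nat_lit 4) (nat_lit 1) (nat_lit 4) (nat_lit 279) (nat_lit 201) (nat_lit 180)) (XT.nd (nat_lit 78) (nat_lit 0) (nat_lit 0) (XT.lf (nat_lit 0) (nat_lit 287061055605) (nat_lit 152) (nat_lit 4843716520875) (nat_lit 0) (nat_lit 286085873895) (nat_lit 1) (nat_lit 5) (nat_lit 3) (nat_lit 4) (nat_lit 1) (nat_lit 4) (nat_lit 280) (nat_lit 201) (nat_lit 179)) (XT.lf (nat_lit 0) (nat_lit 331011486343) (nat_lit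 152) (nat_lit 5568266888586) (nat_lit 0) (nat_lit 330030143375) (nat_lit 1) (nat_lit 5) (nat_lit 3) (nat_lit 4) (nat_lit 1) (nat_lit 4) (nat_lit 281) (nat_lit 201) (nat_lit 178)))) (XT.nd (nat_lit 78) (nat_lit 0) (nat_lit 0) (XT.lf (nat_lit 0) (nat_lit 381543648252) (nat_lit 152) (nat_lit 6401520626292) (nat_lit 0) (nat_lit 380556947668) (nat_lit 1) (nat_lit 5) (nat_lit 3) (nat_lit 4) (nat_lit 1) (nat_lit 4) (nat_lit 282) (nat_lit 201) (nat_lit 177)) (XT.nd (nat_lit 78) (nat_lit 0) (nat_lit 0) (XT.lf (nat_lit 0) (nat_lit 439646214065) (nat_lit 152) (nat_lit 7359780524514) (nat_lit 0) (nat_lit 438654854684) (nat_lit 1) (nat_lit 5) (nat_lit 3) (nat_lit 4) (nat_lit 1) (nat_lit 4) (nat_lit 283) (nat_lit 201) (nat_lit 176)) (XT.lf (nat_lit 0) (nat_lit 506455973112) (nat_lit 152) (nat_lit 8461795146477) (nat_lit 0) (nat_lit 505460562603) (nat_lit 1) (nat_lit 5) (nat_lit 3) (nat_lit 4) (nat_lit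 1) (nat_lit 4) (nat_lit 284) (nat_lit 201) (nat_lit 175)))))) (XT.nd (nat_lit 32448) (nat_lit 0) (nat_lit 0) (XT.nd (nat_lit 32214) (nat_lit 0) (nat_lit 0) (XT.nd (nat_lit 32136) (nat_lit 0) (nat_lit 152) (XT.lf (nat_lit 0) (nat_lit 583280072853) (nat_lit 152) (nat_lit 9729125647829) (nat_lit 0) (nat_lit 582281139625) (nat_lit 1) (nat_lit 5) (nat_lit 3) (nat_lit 4) (nat_lit 1) (nat_lit 4) (nat_lit 285) (nat_lit 201) (nat_lit 174)) (XT.lf (nat_lit 0) (nat_lit 91933604275) (nat_lit 76) (nat_lit 1628490625) (nat_lit 76) (nat_lit 1628490625) (nat_lit 3) (nat_lit 4) (nat_lit 4) (nat_lit 5) (nat_lit 4) (nat_lit 4) (nat_lit 256) (nat_lit 202) (nat_lit 202))) (XT.nd (nat_lit 78) (nat_lit 152) (nat_lit 0) (XT.lf (nat_lit 0) (nat_lit 216906010742) (nat_lit 76) (nat_lit 982111100) (nat_lit 76) (nat_lit 816479380) (nat_lit 3) (nat_lit 4) (nat_lit 4) (nat_lit 5) (nat_lit 4) (nat_lit 4) (nat_lit 257)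 (nat_lit 202) (nat_lit 201)) (XT.nd (nat_lit 78) (nat_lit 0) (nat_lit 0) (XT.lf (nat_lit 0) (nat_lit 1754314526) (nat_lit 152) (nat_lit 248061934785) (nat_lit 0) (nat_lit 1467592950) (nat_lit 1) (nat_lit 5) (nat_lit 3) (nat_lit 4) (nat_lit 1) (nat_lit 4) (nat_lit 258) (nat_lit 202) (nat_lit 200)) (XT.lf (nat_lit 0) (nat_lit 4510157208) (nat_lit 152) (nat_lit 280143019592) (nat_lit 0) (nat_lit 4107471394) (nat_lit 1) (nat_lit 5) (nat_lit 3) (nat_lit 4) (nat_lit 1) (nat_lit 4) (nat_lit 259) (nat_lit 202) (nat_lit 199))))) (XT.nd (nat_lit 234) (nat_lit 0) (nat_lit 0) (XT.nd (nat_lit 78) (nat_lit 0) (nat_lit 0) (XT.lf (nat_lit 0) (nat_lit 7475474498) (nat_lit 152) (nat_lit 317428033978) (nat_lit 0) (nat_lit 6971950217) (nat_lit 1) (nat_lit 5) (nat_lit 3) (nat_lit 4) (nat_lit 1) (nat_lit 4) (nat_lit 260) (nat_lit 202) (nat_lit 198)) (XT.nd (nat_lit 78) (nat_lit 0) (nat_lit 0) (XT.lf (nat_lit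 0) (nat_lit 10708283476) (nat_lit 152) (nat_lit 360646467356) (nat_lit 0) (nat_lit 10117073572) (nat_lit 1) (nat_lit 5) (nat_lit 3) (nat_lit 4) (nat_lit 1) (nat_lit 4) (nat_lit 261) (nat_lit 202) (nat_lit 197)) (XT.lf (nat_lit 0) (nat_lit 14271834751) (nat_lit 152) (nat_lit 410643897772) (nat_lit 0) (nat_lit 13604376478) (nat_lit 1) (nat_lit 5) (nat_lit 3) (nat_lit 4) (nat_lit 1) (nat_lit 4) (nat_lit 262) (nat_lit 202) (nat_lit 196)))) (XT.nd (nat_lit 78) (nat_lit 0) (nat_lit 0) (XT.lf (nat_lit 0) (nat_lit 18235849979) (nat_lit 152) (nat_lit 468398535818) (nat_lit 0) (nat_lit 17502088777) (nat_lit 1) (nat_lit 5) (nat_lit 3) (nat_lit 4) (nat_lit 1) (nat_lit 4) (nat_lit 263) (nat_lit 202) (nat_lit 195)) (XT.nd (nat_lit 78) (nat_lit 0) (nat_lit 0) (XT.lf (nat_lit 0) (nat_lit 22677885980) (nat_lit 152) (nat_lit 535040363545) (nat_lit 0) (nat_lit 21886470057) (nat_lit 1) (nat_lit 5) (nat_lit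 3) (nat_lit 4) (nat_lit 1) (nat_lit 4) (nat_lit 264) (nat_lit 202) (nat_lit 194)) (XT.lf (nat_lit 0) (nat_lit 27684852152) (nat_lit 152) (nat_lit 611873242800) (nat_lit 0) (nat_lit 26843301690) (nat_lit 1) (nat_lit 5) (nat_lit 3) (nat_lit 4) (nat_lit 1) (nat_lit 4) (nat_lit 265) (nat_lit 202) (nat_lit 193))))))))
noncomputable def xc5 : XT := (XT.nd (nat_lit 33618) (nat_lit 0) (nat_lit 0) (XT.nd (nat_lit 858) (nat_lit 0) (nat_lit 0) (XT.nd (nat_lit 390) (nat_lit 0) (nat_lit 0) (XT.nd (nat_lit 156) (nat_lit 0) (nat_lit 0) (XT.nd (nat_lit 78) (nat_lit 0) (nat_lit 0) (XT.lf (nat_lit 0) (nat_lit 33354710879) (nat_lit 152) (nat_lit 700400425566) (nat_lit 0) (nat_lit 32469565164) (nat_lit 1) (nat_lit 5) (nat_lit 3) (nat_lit 4) (nat_lit 1) (nat_lit 4) (nat_lit 266) (nat_lit 202) (nat_lit 192)) (XT.lf (nat_lit 0) (nat_lit 39798394179) (nat_lit 152) (nat_lit 802353965422) (nat_lit 0) (nat_lit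 38875339549) (nat_lit 1) (nat_lit 5) (nat_lit 3) (nat_lit 4) (nat_lit 1) (nat_lit 4) (nat_lit 267) (nat_lit 202) (nat_lit 191))) (XT.nd (nat_lit 78) (nat_lit 0) (nat_lit 0) (XT.lf (nat_lit 0) (nat_lit 47141974115) (nat_lit 152) (nat_lit 919728605537) (nat_lit 0) (nat_lit 46185955212) (nat_lit 1) (nat_lit 5) (nat_lit 3) (nat_lit 4) (nat_lit 1) (nat_lit 4) (nat_lit 268) (nat_lit 202) (nat_lit 190)) (XT.nd (nat_lit 78) (nat_lit 0) (nat_lit 0) (XT.lf (nat_lit 0) (nat_lit 55529129427) (nat_lit 152) (nat_lit 1054820806261) (nat_lit 0) (nat_lit 54544445938) (nat_lit 1) (nat_lit 5) (nat_lit 3) (nat_lit 4) (nat_lit 1) (nat_lit 4) (nat_lit 269) (nat_lit 202) (nat_lit 189)) (XT.lf (nat_lit 0) (nat_lit 65123956631) (nat_lit 152) (nat_lit 1210273675870) (nat_lit 0) (nat_lit 64114347415) (nat_lit 1) (nat_lit 5) (nat_lit 3) (nat_lit 4) (nat_lit 1) (nat_lit 4) (nat_lit 270) (nat_lit 202) (nat_lit 188)))))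 (XT.nd (nat_lit 234) (nat_lit 0) (nat_lit 0) (XT.nd (nat_lit 78) (nat_lit 0) (nat_lit 0) (XT.lf (nat_lit 0) (nat_lit 76114180607) (nat_lit 152) (nat_lit 1389128683552) (nat_lit 0) (nat_lit 75082896846) (nat_lit 1) (nat_lit 5) (nat_lit 3) (nat_lit 4) (nat_lit 1) (nat_lit 4) (nat_lit 271) (nat_lit 202) (nat_lit 187)) (XT.nd (nat_lit 78) (nat_lit 0) (nat_lit 0) (XT.lf (nat_lit 0) (nat_lit 88714827476) (nat_lit 152) (nat_lit 1594885166413) (nat_lit 0) (nat_lit 87664696284) (nat_lit 1) (nat_lit 5) (nat_lit 3) (nat_lit 4) (nat_lit 1) (nat_lit 4) (nat_lit 272) (nat_lit 202) (nat_lit 186)) (XT.lf (nat_lit 0) (nat_lit 103172431634) (nat_lit 152) (nat_lit 1831568794771) (nat_lit 0) (nat_lit 102105911372) (nat_lit 1) (nat_lit 5) (nat_lit 3) (nat_lit 4) (nat_lit 1) (nat_lit 4) (nat_lit 273) (nat_lit 202) (nat_lit 185)))) (XT.nd (nat_lit 78) (nat_lit 0) (nat_lit 0) (XT.lf (nat_lit 0) (nat_lit 119769859249)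 (nat_lit 152) (nat_lit 2103810335267) (nat_lit 0) (nat_lit 118689087622) (nat_lit 1) (nat_lit 5) (nat_lit 3) (nat_lit 4) (nat_lit 1) (nat_lit 4) (nat_lit 274) (nat_lit 202) (nat_lit 184)) (XT.nd (nat_lit 78) (nat_lit 0) (nat_lit 0) (XT.lf (nat_lit 0) (nat_lit 138831842601) (nat_lit 152) (nat_lit 2416936252823) (nat_lit 0) (nat_lit 137738678482) (nat_lit 1) (nat_lit 5) (nat_lit 3) (nat_lit 4) (nat_lit 1) (nat_lit 4) (nat_lit 275) (nat_lit 202) (nat_lit 183)) (XT.lf (nat_lit 0) (nat_lit 160731333537) (nat_lit 152) (nat_lit 2777072924089) (nat_lit 0) (nat_lit 159627393339) (nat_lit 1) (nat_lit 5) (nat_lit 3) (nat_lit 4) (nat_lit 1) (nat_lit 4) (nat_lit 276) (nat_lit 202) (nat_lit 182)))))) (XT.nd (nat_lit 390) (nat_lit 0) (nat_lit 0) (XT.nd (nat_lit 156) (nat_lit 0) (nat_lit 0) (XT.nd (nat_lit 78) (nat_lit 0) (nat_lit 0) (XT.lf (nat_lit 0) (nat_lit 185896800359) (nat_lit 152) (nat_lit 3191266501327)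 (nat_lit 0) (nat_lit 184783489656) (nat_lit 1) (nat_lit 5) (nat_lit 3) (nat_lit 4) (nat_lit 1) (nat_lit 4) (nat_lit 277) (nat_lit 202) (nat_lit 181)) (XT.lf (nat_lit 0) (nat_lit 214820610895) (nat_lit 152) (nat_lit 3667620771918) (nat_lit 0) (nat_lit 213699151928) (nat_lit 1) (nat_lit 5) (nat_lit 3) (nat_lit 4) (nat_lit 1) (nat_lit 4) (nat_lit 278) (nat_lit 202) (nat_lit 180))) (XT.nd (nat_lit 78) (nat_lit 0) (nat_lit 0) (XT.lf (nat_lit 0) (nat_lit 248068665786) (nat_lit 152) (nat_lit 4215455710722) (nat_lit 0) (nat_lit 246940121373) (nat_lit 1) (nat_lit 5) (nat_lit 3) (nat_lit 4) (nat_lit 1) (nat_lit 4) (nat_lit 279) (nat_lit 202) (nat_lit 179)) (XT.nd (nat_lit 78) (nat_lit 0) (nat_lit 0) (XT.lf (nat_lit 0) (nat_lit 286291470456) (nat_lit 152) (nat_lit 4845489827411) (nat_lit 0) (nat_lit 285156764783) (nat_lit 1) (nat_lit 5) (nat_lit 3) (nat_lit 4) (nat_lit 1) (nat_lit 4) (nat_lit 280)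 (nat_lit 202) (nat_lit 178)) (XT.lf (nat_lit 0) (nat_lit 330236862385) (nat_lit 152) (nat_lit 5570049876442) (nat_lit 0) (nat_lit 329096799096) (nat_lit 1) (nat_lit 5) (nat_lit 3) (nat_lit 4) (nat_lit 1) (nat_lit 4) (nat_lit 281) (nat_lit 202) (nat_lit 177))))) (XT.nd (nat_lit 234) (nat_lit 0) (nat_lit 0) (XT.nd (nat_lit 78) (nat_lit 0) (nat_lit 0) (XT.lf (nat_lit 0) (nat_lit 380764642720) (nat_lit 152) (nat_lit 6403312032688) (nat_lit 0) (nat_lit 379619920635) (nat_lit 1) (nat_lit 5) (nat_lit 3) (nat_lit 4) (nat_lit 1) (nat_lit 4) (nat_lit 282) (nat_lit 202) (nat_lit 176)) (XT.nd (nat_lit 78) (nat_lit 0) (nat_lit 0) (XT.lf (nat_lit 0) (nat_lit 438863398469) (nat_lit 152) (nat_lit 7361579251378) (nat_lit 0) (nat_lit 437714625256) (nat_lit 1) (nat_lit 5) (nat_lit 3) (nat_lit 4) (nat_lit 1) (nat_lit 4) (nat_lit 283) (nat_lit 202) (nat_lit 175)) (XT.lf (nat_lit 0) (nat_lit 505669844417)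 (nat_lit 152) (nat_lit 8463600238967) (nat_lit 0) (nat_lit 504517548485) (nat_lit 1) (nat_lit 5) (nat_lit 3) (nat_lit 4) (nat_lit 1) (nat_lit 4) (nat_lit 284) (nat_lit 202) (nat_lit 174)))) (XT.nd (nat_lit 31980) (nat_lit 0) (nat_lit 152) (XT.lf (nat_lit 0) (nat_lit 582491063202) (nat_lit 152) (nat_lit 9730936275645) (nat_lit 0) (nat_lit 581335704036) (nat_lit 1) (nat_lit 5) (nat_lit 3) (nat_lit 4) (nat_lit 1) (nat_lit 4) (nat_lit 285) (nat_lit 202) (nat_lit 173)) (XT.nd (nat_lit 78) (nat_lit 0) (nat_lit 0) (XT.lf (nat_lit 0) (nat_lit 64520175174) (nat_lit 76) (nat_lit 3835732499) (nat_lit 76) (nat_lit 3835732499) (nat_lit 3) (nat_lit 4) (nat_lit 4) (nat_lit 5) (nat_lit 4) (nat_lit 4) (nat_lit 254) (nat_lit 203) (nat_lit 203)) (XT.lf (nat_lit 0) (nat_lit 154673931945) (nat_lit 76) (nat_lit 5644254809) (nat_lit 76) (nat_lit 5453778331) (nat_lit 3) (nat_lit 4) (nat_lit 4) (nat_lit 5) (nat_lit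 4) (nat_lit 4) (nat_lit 255) (nat_lit 203) (nat_lit 202))))))) (XT.nd (nat_lit 858) (nat_lit 0) (nat_lit 0) (XT.nd (nat_lit 390) (nat_lit 0) (nat_lit 0) (XT.nd (nat_lit 156) (nat_lit 152) (nat_lit 0) (XT.nd (nat_lit 78) (nat_lit 0) (nat_lit 0) (XT.lf (nat_lit 0) (nat_lit 183619084874) (nat_lit 76) (nat_lit 3564409585) (nat_lit 76) (nat_lit 3208301387) (nat_lit 3) (nat_lit 4) (nat_lit 4) (nat_lit 5) (nat_lit 4) (nat_lit 4) (nat_lit 256) (nat_lit 203) (nat_lit 201)) (XT.lf (nat_lit 0) (nat_lit 216442127345) (nat_lit 76) (nat_lit 1391236702) (nat_lit 76) (nat_lit 891100921) (nat_lit 3) (nat_lit 4) (nat_lit 4) (nat_lit 5) (nat_lit 4) (nat_lit 4) (nat_lit 257) (nat_lit 203) (nat_lit 200))) (XT.nd (nat_lit 78) (nat_lit 0) (nat_lit 0) (XT.lf (nat_lit 0) (nat_lit 1551957765) (nat_lit 152) (nat_lit 248789596172) (nat_lit 0) (nat_lit 972904842) (nat_lit 1) (nat_lit 5) (nat_lit 3) (nat_lit 4) (nat_lit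 1) (nat_lit 4) (nat_lit 258) (nat_lit 203) (nat_lit 199)) (XT.nd (nat_lit 78) (nat_lit 0) (nat_lit 0) (XT.lf (nat_lit 0) (nat_lit 4212962403) (nat_lit 152) (nat_lit 281052898122) (nat_lit 0) (nat_lit 3533071013) (nat_lit 1) (nat_lit 5) (nat_lit 3) (nat_lit 4) (nat_lit 1) (nat_lit 4) (nat_lit 259) (nat_lit 203) (nat_lit 198)) (XT.lf (nat_lit 0) (nat_lit 7095811831) (nat_lit 152) (nat_lit 318496362199) (nat_lit 0) (nat_lit 6328234817) (nat_lit 1) (nat_lit 5) (nat_lit 3) (nat_lit 4) (nat_lit 1) (nat_lit 4) (nat_lit 260) (nat_lit 203) (nat_lit 197))))) (XT.nd (nat_lit 234) (nat_lit 0) (nat_lit 0) (XT.nd (nat_lit 78) (nat_lit 0) (nat_lit 0) (XT.lf (nat_lit 0) (nat_lit 10256909623) (nat_lit 152) (nat_lit 361852577917) (nat_lit 0) (nat_lit 9413084240) (nat_lit 1) (nat_lit 5) (nat_lit 3) (nat_lit 4) (nat_lit 1) (nat_lit 4) (nat_lit 261) (nat_lit 203) (nat_lit 196)) (XT.nd (nat_lit 78) (nat_lit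 0) (nat_lit 0) (XT.lf (nat_lit 0) (nat_lit 13758103345) (nat_lit 152) (nat_lit 411969819062) (nat_lit 0) (nat_lit 12847975034) (nat_lit 1) (nat_lit 5) (nat_lit 3) (nat_lit 4) (nat_lit 1) (nat_lit 4) (nat_lit 262) (nat_lit 203) (nat_lit 195)) (XT.lf (nat_lit 0) (nat_lit 17667894614) (nat_lit 152) (nat_lit 469828640352) (nat_lit 0) (nat_lit 16700111582) (nat_lit 1) (nat_lit 5) (nat_lit 3) (nat_lit 4) (nat_lit 1) (nat_lit 4) (nat_lit 263) (nat_lit 203) (nat_lit 194)))) (XT.nd (nat_lit 78) (nat_lit 0) (nat_lit 0) (XT.lf (nat_lit 0) (nat_lit 22062779346) (nat_lit 152) (nat_lit 536561062204) (nat_lit 0) (nat_lit 21044861774) (nat_lit 1) (nat_lit 5) (nat_lit 3) (nat_lit 4) (nat_lit 1) (nat_lit 4) (nat_lit 264) (nat_lit 203) (nat_lit 193)) (XT.nd (nat_lit 78) (nat_lit 0) (nat_lit 0) (XT.lf (nat_lit 0) (nat_lit 27028744415) (nat_lit 152) (nat_lit 613472718958) (nat_lit 0) (nat_lit 25967231591)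 (nat_lit 1) (nat_lit 5) (nat_lit 3) (nat_lit 4) (nat_lit 1) (nat_lit 4) (nat_lit 265) (nat_lit 203) (nat_lit 192)) (XT.lf (nat_lit 0) (nat_lit 32662950009) (nat_lit 152) (nat_lit 702068403898) (nat_lit 0) (nat_lit 31563528270) (nat_lit 1) (nat_lit 5) (nat_lit 3) (nat_lit 4) (nat_lit 1) (nat_lit 4) (nat_lit 266) (nat_lit 203) (nat_lit 191)))))) (XT.nd (nat_lit 390) (nat_lit 0) (nat_lit 0) (XT.nd (nat_lit 156) (nat_lit 0) (nat_lit 0) (XT.nd (nat_lit 78) (nat_lit 0) (nat_lit 0) (XT.lf (nat_lit 0) (nat_lit 39075630584) (nat_lit 152) (nat_lit 804081510861) (nat_lit 0) (nat_lit 37943244571) (nat_lit 1) (nat_lit 5) (nat_lit 3) (nat_lit 4) (nat_lit 1) (nat_lit 4) (nat_lit 267) (nat_lit 203) (nat_lit 190)) (XT.lf (nat_lit 0) (nat_lit 46392251630) (nat_lit 152) (nat_lit 921507948461) (nat_lit 0) (nat_lit 45231201031) (nat_lit 1) (nat_lit 5) (nat_lit 3) (nat_lit 4) (nat_lit 1) (nat_lit 4) (nat_lit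 268) (nat_lit 203) (nat_lit 189))) (XT.nd (nat_lit 78) (nat_lit 0) (nat_lit 0) (XT.lf (nat_lit 0) (nat_lit 54755964428) (nat_lit 152) (nat_lit 1056645190477) (nat_lit 0) (nat_lit 53569988102) (nat_lit 1) (nat_lit 5) (nat_lit 3) (nat_lit 4) (nat_lit 1) (nat_lit 4) (nat_lit 269) (nat_lit 203) (nat_lit 188)) (XT.nd (nat_lit 78) (nat_lit 0) (nat_lit 0) (XT.lf (nat_lit 0) (nat_lit 64330406837) (nat_lit 152) (nat_lit 1212137226426) (nat_lit 0) (nat_lit 63122755966) (nat_lit 1) (nat_lit 5) (nat_lit 3) (nat_lit 4) (nat_lit 1) (nat_lit 4) (nat_lit 270) (nat_lit 203) (nat_lit 187)) (XT.lf (nat_lit 0) (nat_lit 75302904904) (nat_lit 152) (nat_lit 1391026291795) (nat_lit 0) (nat_lit 74076406603) (nat_lit 1) (nat_lit 5) (nat_lit 3) (nat_lit 4) (nat_lit 1) (nat_lit 4) (nat_lit 271) (nat_lit 203) (nat_lit 186))))) (XT.nd (nat_lit 234) (nat_lit 0) (nat_lit 0) (XT.nd (nat_lit 78) (nat_lit 0) (nat_lit 0)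 (XT.lf (nat_lit 0) (nat_lit 87888137940) (nat_lit 152) (nat_lit 1596812390036) (nat_lit 0) (nat_lit 86645250569) (nat_lit 1) (nat_lit 5) (nat_lit 3) (nat_lit 4) (nat_lit 1) (nat_lit 4) (nat_lit 272) (nat_lit 203) (nat_lit 185)) (XT.nd (nat_lit 78) (nat_lit 0) (nat_lit 0) (XT.lf (nat_lit 0) (nat_lit 102332338765) (nat_lit 152) (nat_lit 1833521770898) (nat_lit 0) (nat_lit 101075200029) (nat_lit 1) (nat_lit 5) (nat_lit 3) (nat_lit 4) (nat_lit 1) (nat_lit 4) (nat_lit 273) (nat_lit 203) (nat_lit 184)) (XT.lf (nat_lit 0) (nat_lit 118918111308) (nat_lit 152) (nat_lit 2105785704876) (nat_lit 0) (nat_lit 117648580080) (nat_lit 1) (nat_lit 5) (nat_lit 3) (nat_lit 4) (nat_lit 1) (nat_lit 4) (nat_lit 274) (nat_lit 203) (nat_lit 183)))) (XT.nd (nat_lit 78) (nat_lit 0) (nat_lit 0) (XT.lf (nat_lit 0) (nat_lit 137969959814) (nat_lit 152) (nat_lit 2418931095026) (nat_lit 0) (nat_lit 136689652506) (nat_lit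 1) (nat_lit 5) (nat_lit 3) (nat_lit 4) (nat_lit 1) (nat_lit 4) (nat_lit 275) (nat_lit 203) (nat_lit 182)) (XT.nd (nat_lit 78) (nat_lit 0) (nat_lit 0) (XT.lf (nat_lit 0) (nat_lit 159860637840) (nat_lit 152) (nat_lit 2779084698981) (nat_lit 0) (nat_lit 158570960029) (nat_lit 1) (nat_lit 5) (nat_lit 3) (nat_lit 4) (nat_lit 1) (nat_lit 4) (nat_lit 276) (nat_lit 203) (nat_lit 181)) (XT.lf (nat_lit 0) (nat_lit 185018441263) (nat_lit 152) (nat_lit 3193293000297) (nat_lit 0) (nat_lit 183720615187) (nat_lit 1) (nat_lit 5) (nat_lit 3) (nat_lit 4) (nat_lit 1) (nat_lit 4) (nat_lit 277) (nat_lit 203) (nat_lit 180))))))))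
noncomputable def xc6 : XT := (XT.nd (nat_lit 33540) (nat_lit 0) (nat_lit 0) (XT.nd (nat_lit 32682) (nat_lit 0) (nat_lit 0) (XT.nd (nat_lit 390) (nat_lit 0) (nat_lit 0) (XT.nd (nat_lit 156) (nat_lit 0) (nat_lit 0) (XT.nd (nat_lit 78) (nat_lit 0) (nat_lit 0) (XT.lf (nat_lit 0) (nat_lit 213935587973) (nat_lit 152) (nat_lit 3669660074434) (nat_lit 0) (nat_lit 212630676450) (nat_lit 1) (nat_lit 5) (nat_lit 3) (nat_lit 4) (nat_lit 1) (nat_lit 4) (nat_lit 278) (nat_lit 203) (nat_lit 179)) (XT.lf (nat_lit 0) (nat_lit 247177848234) (nat_lit 152) (nat_lit 4217506146757) (nat_lit 0) (nat_lit 245866775452) (nat_lit 1) (nat_lit 5) (nat_lit 3) (nat_lit 4) (nat_lit 1) (nat_lit 4) (nat_lit 279) (nat_lit 203) (nat_lit 178))) (XT.nd (nat_lit 78) (nat_lit 0) (nat_lit 0) (XT.lf (nat_lit 0) (nat_lit 285395614094) (nat_lit 152) (nat_lit 4847549944766) (nat_lit 0) (nat_lit 284079183696) (nat_lit 1) (nat_lit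 5) (nat_lit 3) (nat_lit 4) (nat_lit 1) (nat_lit 4) (nat_lit 280) (nat_lit 203) (nat_lit 177)) (XT.nd (nat_lit 78) (nat_lit 0) (nat_lit 0) (XT.lf (nat_lit 0) (nat_lit 329336624449) (nat_lit 152) (nat_lit 5572118412337) (nat_lit 0) (nat_lit 328015535255) (nat_lit 1) (nat_lit 5) (nat_lit 3) (nat_lit 4) (nat_lit 1) (nat_lit 4) (nat_lit 281) (nat_lit 203) (nat_lit 176)) (XT.lf (nat_lit 0) (nat_lit 379860594721) (nat_lit 152) (nat_lit 6405387889051) (nat_lit 0) (nat_lit 378535454399) (nat_lit 1) (nat_lit 5) (nat_lit 3) (nat_lit 4) (nat_lit 1) (nat_lit 4) (nat_lit 282) (nat_lit 203) (nat_lit 175))))) (XT.nd (nat_lit 32058) (nat_lit 0) (nat_lit 152) (XT.nd (nat_lit 78) (nat_lit 0) (nat_lit 0) (XT.lf (nat_lit 0) (nat_lit 437956037371) (nat_lit 152) (nat_lit 7363661473367) (nat_lit 0) (nat_lit 436627374329) (nat_lit 1) (nat_lit 5) (nat_lit 3) (nat_lit 4) (nat_lit 1) (nat_lit 4) (nat_lit 283) (nat_lit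 203) (nat_lit 174)) (XT.nd (nat_lit 31902) (nat_lit 0) (nat_lit 152) (XT.lf (nat_lit 0) (nat_lit 504759602363) (nat_lit 152) (nat_lit 8465687996281) (nat_lit 0) (nat_lit 503427876087) (nat_lit 1) (nat_lit 5) (nat_lit 3) (nat_lit 4) (nat_lit 1) (nat_lit 4) (nat_lit 284) (nat_lit 203) (nat_lit 173)) (XT.lf (nat_lit 0) (nat_lit 43042458733) (nat_lit 76) (nat_lit 5895378408) (nat_lit 76) (nat_lit 5895378408) (nat_lit 3) (nat_lit 4) (nat_lit 4) (nat_lit 5) (nat_lit 4) (nat_lit 4) (nat_lit 252) (nat_lit 204) (nat_lit 204)))) (XT.nd (nat_lit 78) (nat_lit 0) (nat_lit 0) (XT.lf (nat_lit 0) (nat_lit 106216813488) (nat_lit 76) (nat_lit 9904750909) (nat_lit 76) (nat_lit 9685702960) (nat_lit 3) (nat_lit 4) (nat_lit 4) (nat_lit 5) (nat_lit 4) (nat_lit 4) (nat_lit 253) (nat_lit 204) (nat_lit 203)) (XT.nd (nat_lit 78) (nat_lit 0) (nat_lit 0) (XT.lf (nat_lit 0) (nat_lit 128755008119) (nat_lit 76) (nat_lit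 8025007584) (nat_lit 76) (nat_lit 7615483156) (nat_lit 3) (nat_lit 4) (nat_lit 4) (nat_lit 5) (nat_lit 4) (nat_lit 4) (nat_lit 254) (nat_lit 204) (nat_lit 202)) (XT.lf (nat_lit 0) (nat_lit 154140466038) (nat_lit 76) (nat_lit 6114749252) (nat_lit 76) (nat_lit 5539593104) (nat_lit 3) (nat_lit 4) (nat_lit 4) (nat_lit 5) (nat_lit 4) (nat_lit 4) (nat_lit 255) (nat_lit 204) (nat_lit 201)))))) (XT.nd (nat_lit 390) (nat_lit 0) (nat_lit 0) (XT.nd (nat_lit 156) (nat_lit 152) (nat_lit 0) (XT.nd (nat_lit 78) (nat_lit 0) (nat_lit 0) (XT.lf (nat_lit 0) (nat_lit 182869859247) (nat_lit 76) (nat_lit 4136601295) (nat_lit 76) (nat_lit 3417417565) (nat_lit 3) (nat_lit 4) (nat_lit 4) (nat_lit 5) (nat_lit 4) (nat_lit 4) (nat_lit 256) (nat_lit 204) (nat_lit 200)) (XT.lf (nat_lit 0) (nat_lit 215505284571) (nat_lit 76) (nat_lit 2051860819) (nat_lit 76) (nat_lit 1207435712) (nat_lit 3) (nat_lit 4) (nat_lit 4)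 (nat_lit 5) (nat_lit 4) (nat_lit 4) (nat_lit 257) (nat_lit 204) (nat_lit 199))) (XT.nd (nat_lit 78) (nat_lit 0) (nat_lit 0) (XT.lf (nat_lit 0) (nat_lit 1115345697) (nat_lit 152) (nat_lit 250018173627) (nat_lit 0) (nat_lit 232632131) (nat_lit 1) (nat_lit 5) (nat_lit 3) (nat_lit 4) (nat_lit 1) (nat_lit 4) (nat_lit 258) (nat_lit 204) (nat_lit 198)) (XT.nd (nat_lit 78) (nat_lit 0) (nat_lit 0) (XT.lf (nat_lit 0) (nat_lit 3693882472) (nat_lit 152) (nat_lit 282439925267) (nat_lit 0) (nat_lit 2723483282) (nat_lit 1) (nat_lit 5) (nat_lit 3) (nat_lit 4) (nat_lit 1) (nat_lit 4) (nat_lit 259) (nat_lit 204) (nat_lit 197)) (XT.lf (nat_lit 0) (nat_lit 6505020713) (nat_lit 152) (nat_lit 320021171683) (nat_lit 0) (nat_lit 5458373155) (nat_lit 1) (nat_lit 5) (nat_lit 3) (nat_lit 4) (nat_lit 1) (nat_lit 4) (nat_lit 260) (nat_lit 204) (nat_lit 196))))) (XT.nd (nat_lit 234) (nat_lit 0) (nat_lit 0) (XT.nd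 (nat_lit 78) (nat_lit 0) (nat_lit 0) (XT.lf (nat_lit 0) (nat_lit 9603760953) (nat_lit 152) (nat_lit 363497198131) (nat_lit 0) (nat_lit 8490810466) (nat_lit 1) (nat_lit 5) (nat_lit 3) (nat_lit 4) (nat_lit 1) (nat_lit 4) (nat_lit 261) (nat_lit 204) (nat_lit 195)) (XT.nd (nat_lit 78) (nat_lit 0) (nat_lit 0) (XT.lf (nat_lit 0) (nat_lit 13050730716) (nat_lit 152) (nat_lit 413718622520) (nat_lit 0) (nat_lit 11880125508) (nat_lit 1) (nat_lit 5) (nat_lit 3) (nat_lit 4) (nat_lit 1) (nat_lit 4) (nat_lit 262) (nat_lit 204) (nat_lit 194)) (XT.lf (nat_lit 0) (nat_lit 16913370716) (nat_lit 152) (nat_lit 471668037934) (nat_lit 0) (nat_lit 15692630968) (nat_lit 1) (nat_lit 5) (nat_lit 3) (nat_lit 4) (nat_lit 1) (nat_lit 4) (nat_lit 263) (nat_lit 204) (nat_lit 193)))) (XT.nd (nat_lit 78) (nat_lit 0) (nat_lit 0) (XT.lf (nat_lit 0) (nat_lit 21267254345) (nat_lit 152) (nat_lit 538479237286) (nat_lit 0) (nat_lit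 20002919345) (nat_lit 1) (nat_lit 5) (nat_lit 3) (nat_lit 4) (nat_lit 1) (nat_lit 4) (nat_lit 264) (nat_lit 204) (nat_lit 192)) (XT.nd (nat_lit 78) (nat_lit 0) (nat_lit 0) (XT.lf (nat_lit 0) (nat_lit 26197566281) (nat_lit 152) (nat_lit 615459396214) (nat_lit 0) (nat_lit 24895322366) (nat_lit 1) (nat_lit 5) (nat_lit 3) (nat_lit 4) (nat_lit 1) (nat_lit 4) (nat_lit 265) (nat_lit 204) (nat_lit 191)) (XT.lf (nat_lit 0) (nat_lit 31800769150) (nat_lit 152) (nat_lit 704114648262) (nat_lit 0) (nat_lit 30465560962) (nat_lit 1) (nat_lit 5) (nat_lit 3) (nat_lit 4) (nat_lit 1) (nat_lit 4) (nat_lit 266) (nat_lit 204) (nat_lit 190))))))) (XT.nd (nat_lit 858) (nat_lit 0) (nat_lit 0) (XT.nd (nat_lit 390) (nat_lit 0) (nat_lit 0) (XT.nd (nat_lit 156) (nat_lit 0) (nat_lit 0) (XT.nd (nat_lit 78) (nat_lit 0) (nat_lit 0) (XT.lf (nat_lit 0) (nat_lit 38186490834) (nat_lit 152) (nat_lit 806179552709) (nat_lit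 0) (nat_lit 36822618060) (nat_lit 1) (nat_lit 5) (nat_lit 3) (nat_lit 4) (nat_lit 1) (nat_lit 4) (nat_lit 267) (nat_lit 204) (nat_lit 189)) (XT.lf (nat_lit 0) (nat_lit 45479669366) (nat_lit 152) (nat_lit 923651031600) (nat_lit 0) (nat_lit 44090870865) (nat_lit 1) (nat_lit 5) (nat_lit 3) (nat_lit 4) (nat_lit 1) (nat_lit 4) (nat_lit 268) (nat_lit 204) (nat_lit 188))) (XT.nd (nat_lit 78) (nat_lit 0) (nat_lit 0) (XT.lf (nat_lit 0) (nat_lit 53822997370) (nat_lit 152) (nat_lit 1058827439956) (nat_lit 0) (nat_lit 52412524323) (nat_lit 1) (nat_lit 5) (nat_lit 3) (nat_lit 4) (nat_lit 1) (nat_lit 4) (nat_lit 269) (nat_lit 204) (nat_lit 187)) (XT.nd (nat_lit 78) (nat_lit 0) (nat_lit 0) (XT.lf (nat_lit 0) (nat_lit 63379713871) (nat_lit 152) (nat_lit 1214353533592) (nat_lit 0) (nat_lit 61950393394) (nat_lit 1) (nat_lit 5) (nat_lit 3) (nat_lit 4) (nat_lit 1) (nat_lit 4) (nat_lit 270) (nat_lit 204)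 (nat_lit 186)) (XT.lf (nat_lit 0) (nat_lit 74336798105) (nat_lit 152) (nat_lit 1393272214341) (nat_lit 0) (nat_lit 72891088558) (nat_lit 1) (nat_lit 5) (nat_lit 3) (nat_lit 4) (nat_lit 1) (nat_lit 4) (nat_lit 271) (nat_lit 204) (nat_lit 185))))) (XT.nd (nat_lit 234) (nat_lit 0) (nat_lit 0) (XT.nd (nat_lit 78) (nat_lit 0) (nat_lit 0) (XT.lf (nat_lit 0) (nat_lit 86908627807) (nat_lit 152) (nat_lit 1599084065087) (nat_lit 0) (nat_lit 85448666895) (nat_lit 1) (nat_lit 5) (nat_lit 3) (nat_lit 4) (nat_lit 1) (nat_lit 4) (nat_lit 272) (nat_lit 204) (nat_lit 184)) (XT.nd (nat_lit 78) (nat_lit 0) (nat_lit 0) (XT.lf (nat_lit 0) (nat_lit 101341173560) (nat_lit 152) (nat_lit 1835815839431) (nat_lit 0) (nat_lit 99868820156) (nat_lit 1) (nat_lit 5) (nat_lit 3) (nat_lit 4) (nat_lit 1) (nat_lit 4) (nat_lit 273) (nat_lit 204) (nat_lit 183)) (XT.lf (nat_lit 0) (nat_lit 117916811257) (nat_lit 152) (nat_lit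 2108099246002) (nat_lit 0) (nat_lit 116433681773) (nat_lit 1) (nat_lit 5) (nat_lit 3) (nat_lit 4) (nat_lit 1) (nat_lit 4) (nat_lit 274) (nat_lit 204) (nat_lit 182)))) (XT.nd (nat_lit 78) (nat_lit 0) (nat_lit 0) (XT.lf (nat_lit 0) (nat_lit 136959846853) (nat_lit 152) (nat_lit 2421261568842) (nat_lit 0) (nat_lit 135467346866) (nat_lit 1) (nat_lit 5) (nat_lit 3) (nat_lit 4) (nat_lit 1) (nat_lit 4) (nat_lit 275) (nat_lit 204) (nat_lit 181)) (XT.nd (nat_lit 78) (nat_lit 0) (nat_lit 0) (XT.lf (nat_lit 0) (nat_lit 158842861481) (nat_lit 152) (nat_lit 2781429896875) (nat_lit 0) (nat_lit 157342213229) (nat_lit 1) (nat_lit 5) (nat_lit 3) (nat_lit 4) (nat_lit 1) (nat_lit 4) (nat_lit 276) (nat_lit 204) (nat_lit 180)) (XT.lf (nat_lit 0) (nat_lit 183994001077) (nat_lit 152) (nat_lit 3195651001737) (nat_lit 0) (nat_lit 182486267378) (nat_lit 1) (nat_lit 5) (nat_lit 3) (nat_lit 4) (nat_lit 1) (nat_lit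 4) (nat_lit 277) (nat_lit 204) (nat_lit 179)))))) (XT.nd (nat_lit 390) (nat_lit 0) (nat_lit 0) (XT.nd (nat_lit 156) (nat_lit 0) (nat_lit 0) (XT.nd (nat_lit 78) (nat_lit 0) (nat_lit 0) (XT.lf (nat_lit 0) (nat_lit 212905353157) (nat_lit 152) (nat_lit 3672029209393) (nat_lit 0) (nat_lit 211391458200) (nat_lit 1) (nat_lit 5) (nat_lit 3) (nat_lit 4) (nat_lit 1) (nat_lit 4) (nat_lit 278) (nat_lit 204) (nat_lit 178)) (XT.lf (nat_lit 0) (nat_lit 246142574608) (nat_lit 152) (nat_lit 4219884963035) (nat_lit 0) (nat_lit 244623322035) (nat_lit 1) (nat_lit 5) (nat_lit 3) (nat_lit 4) (nat_lit 1) (nat_lit 4) (nat_lit 279) (nat_lit 204) (nat_lit 177))) (XT.nd (nat_lit 78) (nat_lit 0) (nat_lit 0) (XT.lf (nat_lit 0) (nat_lit 284355958895) (nat_lit 152) (nat_lit 4849937179584) (nat_lit 0) (nat_lit 282832047525) (nat_lit 1) (nat_lit 5) (nat_lit 3) (nat_lit 4) (nat_lit 1) (nat_lit 4) (nat_lit 280) (nat_lit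 204) (nat_lit 176)) (XT.nd (nat_lit 78) (nat_lit 0) (nat_lit 0) (XT.lf (nat_lit 0) (nat_lit 328293159186) (nat_lit 152) (nat_lit 5574512967623) (nat_lit 0) (nat_lit 326765196689) (nat_lit 1) (nat_lit 5) (nat_lit 3) (nat_lit 4) (nat_lit 1) (nat_lit 4) (nat_lit 281) (nat_lit 204) (nat_lit 175)) (XT.lf (nat_lit 0) (nat_lit 378813816359) (nat_lit 152) (nat_lit 6407788809963) (nat_lit 0) (nat_lit 377282331142) (nat_lit 1) (nat_lit 5) (nat_lit 3) (nat_lit 4) (nat_lit 1) (nat_lit 4) (nat_lit 282) (nat_lit 204) (nat_lit 174))))) (XT.nd (nat_lit 31902) (nat_lit 0) (nat_lit 152) (XT.nd (nat_lit 78) (nat_lit 0) (nat_lit 0) (XT.lf (nat_lit 0) (nat_lit 436906378053) (nat_lit 152) (nat_lit 7366067929605) (nat_lit 0) (nat_lit 435371829602) (nat_lit 1) (nat_lit 5) (nat_lit 3) (nat_lit 4) (nat_lit 1) (nat_lit 4) (nat_lit 283) (nat_lit 204) (nat_lit 173)) (XT.nd (nat_lit 31746) (nat_lit 0) (nat_lit 152)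 (XT.lf (nat_lit 0) (nat_lit 503707437866) (nat_lit 152) (nat_lit 8468099265847) (nat_lit 0) (nat_lit 502170225733) (nat_lit 1) (nat_lit 5) (nat_lit 3) (nat_lit 4) (nat_lit 1) (nat_lit 4) (nat_lit 284) (nat_lit 204) (nat_lit 172)) (XT.lf (nat_lit 0) (nat_lit 25940609988) (nat_lit 76) (nat_lit 7902018654) (nat_lit 76) (nat_lit 7902018654) (nat_lit 3) (nat_lit 4) (nat_lit 4) (nat_lit 5) (nat_lit 4) (nat_lit 4) (nat_lit 250) (nat_lit 205) (nat_lit 205)))) (XT.nd (nat_lit 78) (nat_lit 0) (nat_lit 0) (XT.lf (nat_lit 0) (nat_lit 67965435134) (nat_lit 76) (nat_lit 13971830562) (nat_lit 76) (nat_lit 13719925420) (nat_lit 3) (nat_lit 4) (nat_lit 4) (nat_lit 5) (nat_lit 4) (nat_lit 4) (nat_lit 251) (nat_lit 205) (nat_lit 204)) (XT.nd (nat_lit 78) (nat_lit 0) (nat_lit 0) (XT.lf (nat_lit 0) (nat_lit 85756773904) (nat_lit 76) (nat_lit 12197330790) (nat_lit 76) (nat_lit 11726377698) (nat_lit 3) (nat_lit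 4) (nat_lit 4) (nat_lit 5) (nat_lit 4) (nat_lit 4) (nat_lit 252) (nat_lit 205) (nat_lit 203)) (XT.lf (nat_lit 0) (nat_lit 105603327695) (nat_lit 76) (nat_lit 10445819519) (nat_lit 76) (nat_lit 9784389949) (nat_lit 3) (nat_lit 4) (nat_lit 4) (nat_lit 5) (nat_lit 4) (nat_lit 4) (nat_lit 253) (nat_lit 205) (nat_lit 202))))))))
noncomputable def xc7 : XT := (XT.nd (nat_lit 1716) (nat_lit 0) (nat_lit 0) (XT.nd (nat_lit 858) (nat_lit 0) (nat_lit 0) (XT.nd (nat_lit 390) (nat_lit 76) (nat_lit 0) (XT.nd (nat_lit 156) (nat_lit 76) (nat_lit 0) (XT.nd (nat_lit 78) (nat_lit 0) (nat_lit 0) (XT.lf (nat_lit 0) (nat_lit 127893398649) (nat_lit 76) (nat_lit 8683028050) (nat_lit 76) (nat_lit 7855966760) (nat_lit 3) (nat_lit 4) (nat_lit 4) (nat_lit 5) (nat_lit 4) (nat_lit 4) (nat_lit 254) (nat_lit 205) (nat_lit 201)) (XT.lf (nat_lit 0) (nat_lit 153063096848) (nat_lit 76) (nat_lit 6874466986) (nat_lit 76)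 (nat_lit 5903378113) (nat_lit 3) (nat_lit 4) (nat_lit 4) (nat_lit 5) (nat_lit 4) (nat_lit 4) (nat_lit 255) (nat_lit 205) (nat_lit 200))) (XT.nd (nat_lit 78) (nat_lit 76) (nat_lit 0) (XT.lf (nat_lit 0) (nat_lit 181604872909) (nat_lit 76) (nat_lit 4984751435) (nat_lit 76) (nat_lit 3888421186) (nat_lit 3) (nat_lit 4) (nat_lit 4) (nat_lit 5) (nat_lit 4) (nat_lit 4) (nat_lit 256) (nat_lit 205) (nat_lit 199)) (XT.nd (nat_lit 78) (nat_lit 76) (nat_lit 0) (XT.lf (nat_lit 0) (nat_lit 214077152887) (nat_lit 76) (nat_lit 2976908703) (nat_lit 76) (nat_lit 1771672910) (nat_lit 3) (nat_lit 4) (nat_lit 4) (nat_lit 5) (nat_lit 4) (nat_lit 4) (nat_lit 257) (nat_lit 205) (nat_lit 198)) (XT.lf (nat_lit 0) (nat_lit 463855545) (nat_lit 152) (nat_lit 335116731) (nat_lit 76) (nat_lit 250638725819) (nat_lit 2) (nat_lit 5) (nat_lit 4) (nat_lit 5) (nat_lit 3) (nat_lit 4) (nat_lit 258) (nat_lit 205) (nat_lit 197)))))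 (XT.nd (nat_lit 234) (nat_lit 0) (nat_lit 0) (XT.nd (nat_lit 78) (nat_lit 0) (nat_lit 0) (XT.lf (nat_lit 0) (nat_lit 2942761501) (nat_lit 152) (nat_lit 284331238513) (nat_lit 0) (nat_lit 1662868441) (nat_lit 1) (nat_lit 5) (nat_lit 3) (nat_lit 4) (nat_lit 1) (nat_lit 4) (nat_lit 259) (nat_lit 205) (nat_lit 196)) (XT.nd (nat_lit 78) (nat_lit 0) (nat_lit 0) (XT.lf (nat_lit 0) (nat_lit 5691542190) (nat_lit 152) (nat_lit 322032295659) (nat_lit 0) (nat_lit 4345346201) (nat_lit 1) (nat_lit 5) (nat_lit 3) (nat_lit 4) (nat_lit 1) (nat_lit 4) (nat_lit 260) (nat_lit 205) (nat_lit 195)) (XT.lf (nat_lit 0) (nat_lit 8736058470) (nat_lit 152) (nat_lit 365612505351) (nat_lit 0) (nat_lit 7332207760) (nat_lit 1) (nat_lit 5) (nat_lit 3) (nat_lit 4) (nat_lit 1) (nat_lit 4) (nat_lit 261) (nat_lit 205) (nat_lit 194)))) (XT.nd (nat_lit 78) (nat_lit 0) (nat_lit 0) (XT.lf (nat_lit 0) (nat_lit 12135876965) (nat_lit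 152) (nat_lit 415924523864) (nat_lit 0) (nat_lit 10681891715) (nat_lit 1) (nat_lit 5) (nat_lit 3) (nat_lit 4) (nat_lit 1) (nat_lit 4) (nat_lit 262) (nat_lit 205) (nat_lit 193)) (XT.nd (nat_lit 78) (nat_lit 0) (nat_lit 0) (XT.lf (nat_lit 0) (nat_lit 15957515862) (nat_lit 152) (nat_lit 473952716778) (nat_lit 0) (nat_lit 14459935360) (nat_lit 1) (nat_lit 5) (nat_lit 3) (nat_lit 4) (nat_lit 1) (nat_lit 4) (nat_lit 263) (nat_lit 205) (nat_lit 192)) (XT.lf (nat_lit 0) (nat_lit 20275746357) (nat_lit 152) (nat_lit 540832418304) (nat_lit 0) (nat_lit 18740256941) (nat_lit 1) (nat_lit 5) (nat_lit 3) (nat_lit 4) (nat_lit 1) (nat_lit 4) (nat_lit 264) (nat_lit 205) (nat_lit 191)))))) (XT.nd (nat_lit 390) (nat_lit 0) (nat_lit 0) (XT.nd (nat_lit 156) (nat_lit 0) (nat_lit 0) (XT.nd (nat_lit 78) (nat_lit 0) (nat_lit 0) (XT.lf (nat_lit 0) (nat_lit 25175055569) (nat_lit 152) (nat_lit 617872144339) (nat_lit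 0) (nat_lit 23606601879) (nat_lit 1) (nat_lit 5) (nat_lit 3) (nat_lit 4) (nat_lit 1) (nat_lit 4) (nat_lit 265) (nat_lit 205) (nat_lit 190)) (XT.lf (nat_lit 0) (nat_lit 30751299548) (nat_lit 152) (nat_lit 706579193872) (nat_lit 0) (nat_lit 29154181271) (nat_lit 1) (nat_lit 5) (nat_lit 3) (nat_lit 4) (nat_lit 1) (nat_lit 4) (nat_lit 266) (nat_lit 205) (nat_lit 189))) (XT.nd (nat_lit 78) (nat_lit 0) (nat_lit 0) (XT.lf (nat_lit 0) (nat_lit 37113578718) (nat_lit 152) (nat_lit 808689139611) (nat_lit 0) (nat_lit 35491534714) (nat_lit 1) (nat_lit 5) (nat_lit 3) (nat_lit 4) (nat_lit 1) (nat_lit 4) (nat_lit 267) (nat_lit 205) (nat_lit 188)) (XT.nd (nat_lit 78) (nat_lit 0) (nat_lit 0) (XT.lf (nat_lit 0) (nat_lit 44386372455) (nat_lit 152) (nat_lit 926199784842) (nat_lit 0) (nat_lit 42742653907) (nat_lit 1) (nat_lit 5) (nat_lit 3) (nat_lit 4) (nat_lit 1) (nat_lit 4) (nat_lit 268) (nat_lit 205) (nat_lit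 187)) (XT.lf (nat_lit 0) (nat_lit 52711974550) (nat_lit 152) (nat_lit 1061410250884) (nat_lit 0) (nat_lit 51049408571) (nat_lit 1) (nat_lit 5) (nat_lit 3) (nat_lit 4) (nat_lit 1) (nat_lit 4) (nat_lit 269) (nat_lit 205) (nat_lit 186))))) (XT.nd (nat_lit 234) (nat_lit 0) (nat_lit 0) (XT.nd (nat_lit 78) (nat_lit 0) (nat_lit 0) (XT.lf (nat_lit 0) (nat_lit 62253277218) (nat_lit 152) (nat_lit 1216965959901) (nat_lit 0) (nat_lit 60574322169) (nat_lit 1) (nat_lit 5) (nat_lit 3) (nat_lit 4) (nat_lit 1) (nat_lit 4) (nat_lit 270) (nat_lit 205) (nat_lit 185)) (XT.nd (nat_lit 78) (nat_lit 0) (nat_lit 0) (XT.lf (nat_lit 0) (nat_lit 73196958118) (nat_lit 152) (nat_lit 1395910393154) (nat_lit 0) (nat_lit 71503751704) (nat_lit 1) (nat_lit 5) (nat_lit 3) (nat_lit 4) (nat_lit 1) (nat_lit 4) (nat_lit 271) (nat_lit 205) (nat_lit 184)) (XT.lf (nat_lit 0) (nat_lit 85757132749) (nat_lit 152) (nat_lit 1601744637382)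 (nat_lit 0) (nat_lit 84051533843) (nat_lit 1) (nat_lit 5) (nat_lit 3) (nat_lit 4) (nat_lit 1) (nat_lit 4) (nat_lit 272) (nat_lit 205) (nat_lit 183)))) (XT.nd (nat_lit 78) (nat_lit 0) (nat_lit 0) (XT.lf (nat_lit 0) (nat_lit 100179543655) (nat_lit 152) (nat_lit 1838495884319) (nat_lit 0) (nat_lit 98463168670) (nat_lit 1) (nat_lit 5) (nat_lit 3) (nat_lit 4) (nat_lit 1) (nat_lit 4) (nat_lit 273) (nat_lit 205) (nat_lit 182)) (XT.nd (nat_lit 78) (nat_lit 0) (nat_lit 0) (XT.lf (nat_lit 0) (nat_lit 116746368443) (nat_lit 152) (nat_lit 2110796223580) (nat_lit 0) (nat_lit 115020622954) (nat_lit 1) (nat_lit 5) (nat_lit 3) (nat_lit 4) (nat_lit 1) (nat_lit 4) (nat_lit 274) (nat_lit 205) (nat_lit 181)) (XT.lf (nat_lit 0) (nat_lit 135781740640) (nat_lit 152) (nat_lit 2423973270498) (nat_lit 0) (nat_lit 134047846886) (nat_lit 1) (nat_lit 5) (nat_lit 3) (nat_lit 4) (nat_lit 1) (nat_lit 4) (nat_lit 275)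 (nat_lit 205) (nat_lit 180))))))) (XT.nd (nat_lit 32370) (nat_lit 0) (nat_lit 0) (XT.nd (nat_lit 390) (nat_lit 0) (nat_lit 0) (XT.nd (nat_lit 156) (nat_lit 0) (nat_lit 0) (XT.nd (nat_lit 78) (nat_lit 0) (nat_lit 0) (XT.lf (nat_lit 0) (nat_lit 157658091442) (nat_lit 152) (nat_lit 2784154402077) (nat_lit 0) (nat_lit 155917112241) (nat_lit 1) (nat_lit 5) (nat_lit 3) (nat_lit 4) (nat_lit 1) (nat_lit 4) (nat_lit 276) (nat_lit 205) (nat_lit 179)) (XT.lf (nat_lit 0) (nat_lit 182803436408) (nat_lit 152) (nat_lit 3198386640457) (nat_lit 0) (nat_lit 181056295948) (nat_lit 1) (nat_lit 5) (nat_lit 3) (nat_lit 4) (nat_lit 1) (nat_lit 4) (nat_lit 277) (nat_lit 205) (nat_lit 178))) (XT.nd (nat_lit 78) (nat_lit 0) (nat_lit 0) (XT.lf (nat_lit 0) (nat_lit 211709749678) (nat_lit 152) (nat_lit 3674774529433) (nat_lit 0) (nat_lit 209957251603) (nat_lit 1) (nat_lit 5) (nat_lit 3) (nat_lit 4) (nat_lit 1) (nat_lit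 4) (nat_lit 278) (nat_lit 205) (nat_lit 177)) (XT.nd (nat_lit 78) (nat_lit 0) (nat_lit 0) (XT.lf (nat_lit 0) (nat_lit 244942589556) (nat_lit 152) (nat_lit 4222638701615) (nat_lit 0) (nat_lit 243185432684) (nat_lit 1) (nat_lit 5) (nat_lit 3) (nat_lit 4) (nat_lit 1) (nat_lit 4) (nat_lit 279) (nat_lit 205) (nat_lit 176)) (XT.lf (nat_lit 0) (nat_lit 283152163778) (nat_lit 152) (nat_lit 4852698238633) (nat_lit 0) (nat_lit 281390955779) (nat_lit 1) (nat_lit 5) (nat_lit 3) (nat_lit 4) (nat_lit 1) (nat_lit 4) (nat_lit 280) (nat_lit 205) (nat_lit 175))))) (XT.nd (nat_lit 234) (nat_lit 0) (nat_lit 0) (XT.nd (nat_lit 78) (nat_lit 0) (nat_lit 0) (XT.lf (nat_lit 0) (nat_lit 327086050971) (nat_lit 152) (nat_lit 5577280392297) (nat_lit 0) (nat_lit 325321320252) (nat_lit 1) (nat_lit 5) (nat_lit 3) (nat_lit 4) (nat_lit 1) (nat_lit 4) (nat_lit 281) (nat_lit 205) (nat_lit 174)) (XT.nd (nat_lit 78) (nat_lit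 0) (nat_lit 0) (XT.lf (nat_lit 0) (nat_lit 377603827188) (nat_lit 152) (nat_lit 6410561769963) (nat_lit 0) (nat_lit 375836033235) (nat_lit 1) (nat_lit 5) (nat_lit 3) (nat_lit 4) (nat_lit 1) (nat_lit 4) (nat_lit 282) (nat_lit 205) (nat_lit 173)) (XT.lf (nat_lit 0) (nat_lit 435693883703) (nat_lit 152) (nat_lit 7368845702933) (nat_lit 0) (nat_lit 433923426068) (nat_lit 1) (nat_lit 5) (nat_lit 3) (nat_lit 4) (nat_lit 1) (nat_lit 4) (nat_lit 283) (nat_lit 205) (nat_lit 172)))) (XT.nd (nat_lit 31590) (nat_lit 0) (nat_lit 152) (XT.lf (nat_lit 0) (nat_lit 502492765100) (nat_lit 152) (nat_lit 8470881224676) (nat_lit 0) (nat_lit 500719991220) (nat_lit 1) (nat_lit 5) (nat_lit 3) (nat_lit 4) (nat_lit 1) (nat_lit 4) (nat_lit 284) (nat_lit 205) (nat_lit 171)) (XT.nd (nat_lit 78) (nat_lit 0) (nat_lit 0) (XT.lf (nat_lit 0) (nat_lit 12018304469) (nat_lit 76) (nat_lit 9935966810) (nat_lit 76) (nat_lit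 9935966810) (nat_lit 3) (nat_lit 4) (nat_lit 4) (nat_lit 5) (nat_lit 4) (nat_lit 4) (nat_lit 248) (nat_lit 206) (nat_lit 206)) (XT.lf (nat_lit 0) (nat_lit 37189437265) (nat_lit 76) (nat_lit 18019489468) (nat_lit 76) (nat_lit 17729798555) (nat_lit 3) (nat_lit 4) (nat_lit 4) (nat_lit 5) (nat_lit 4) (nat_lit 4) (nat_lit 249) (nat_lit 206) (nat_lit 205)))))) (XT.nd (nat_lit 390) (nat_lit 152) (nat_lit 0) (XT.nd (nat_lit 156) (nat_lit 0) (nat_lit 0) (XT.nd (nat_lit 78) (nat_lit 0) (nat_lit 0) (XT.lf (nat_lit 0) (nat_lit 51503854879) (nat_lit 76) (nat_lit 16271597379) (nat_lit 76) (nat_lit 15730001323) (nat_lit 3) (nat_lit 4) (nat_lit 4) (nat_lit 5) (nat_lit 4) (nat_lit 4) (nat_lit 250) (nat_lit 206) (nat_lit 204)) (XT.lf (nat_lit 0) (nat_lit 67259926472) (nat_lit 76) (nat_lit 14594059463) (nat_lit 76) (nat_lit 13833415457) (nat_lit 3) (nat_lit 4) (nat_lit 4) (nat_lit 5) (nat_lit 4) (nat_lit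 4) (nat_lit 251) (nat_lit 206) (nat_lit 203))) (XT.nd (nat_lit 78) (nat_lit 0) (nat_lit 0) (XT.lf (nat_lit 0) (nat_lit 84765923012) (nat_lit 76) (nat_lit 12954054326) (nat_lit 76) (nat_lit 12002933843) (nat_lit 3) (nat_lit 4) (nat_lit 4) (nat_lit 5) (nat_lit 4) (nat_lit 4) (nat_lit 252) (nat_lit 206) (nat_lit 202)) (XT.nd (nat_lit 78) (nat_lit 0) (nat_lit 0) (XT.lf (nat_lit 0) (nat_lit 104364353126) (nat_lit 76) (nat_lit 11319494913) (nat_lit 76) (nat_lit 10202742709) (nat_lit 3) (nat_lit 4) (nat_lit 4) (nat_lit 5) (nat_lit 4) (nat_lit 4) (nat_lit 253) (nat_lit 206) (nat_lit 201)) (XT.lf (nat_lit 0) (nat_lit 126438664360) (nat_lit 76) (nat_lit 9658400711) (nat_lit 76) (nat_lit 8397620925) (nat_lit 3) (nat_lit 4) (nat_lit 4) (nat_lit 5) (nat_lit 4) (nat_lit 4) (nat_lit 254) (nat_lit 206) (nat_lit 200))))) (XT.nd (nat_lit 234) (nat_lit 152) (nat_lit 0) (XT.nd (nat_lit 78) (nat_lit 0) (nat_lit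 0) (XT.lf (nat_lit 0) (nat_lit 151420745412) (nat_lit 76) (nat_lit 7938272053) (nat_lit 76) (nat_lit 6552250891) (nat_lit 3) (nat_lit 4) (nat_lit 4) (nat_lit 5) (nat_lit 4) (nat_lit 4) (nat_lit 255) (nat_lit 206) (nat_lit 199)) (XT.nd (nat_lit 78) (nat_lit 0) (nat_lit 0) (XT.lf (nat_lit 0) (nat_lit 179799376128) (nat_lit 76) (nat_lit 6125454247) (nat_lit 76) (nat_lit 4630527540) (nat_lit 3) (nat_lit 4) (nat_lit 4) (nat_lit 5) (nat_lit 4) (nat_lit 4) (nat_lit 256) (nat_lit 206) (nat_lit 198)) (XT.lf (nat_lit 0) (nat_lit 212129790588) (nat_lit 76) (nat_lit 4184479119) (nat_lit 76) (nat_lit 2594851938) (nat_lit 3) (nat_lit 4) (nat_lit 4) (nat_lit 5) (nat_lit 4) (nat_lit 4) (nat_lit 257) (nat_lit 206) (nat_lit 197)))) (XT.nd (nat_lit 78) (nat_lit 152) (nat_lit 0) (XT.lf (nat_lit 0) (nat_lit 249044540378) (nat_lit 76) (nat_lit 2077371068) (nat_lit 76) (nat_lit 405395649) (nat_lit 3) (nat_lit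 4) (nat_lit 4) (nat_lit 5) (nat_lit 4) (nat_lit 4) (nat_lit 258) (nat_lit 206) (nat_lit 196)) (XT.nd (nat_lit 78) (nat_lit 0) (nat_lit 0) (XT.lf (nat_lit 0) (nat_lit 1944903647) (nat_lit 152) (nat_lit 286763841816) (nat_lit 0) (nat_lit 330475330) (nat_lit 1) (nat_lit 5) (nat_lit 3) (nat_lit 4) (nat_lit 1) (nat_lit 4) (nat_lit 259) (nat_lit 206) (nat_lit 195)) (XT.lf (nat_lit 0) (nat_lit 4639460376) (nat_lit 152) (nat_lit 324569082205) (nat_lit 0) (nat_lit 2967377339) (nat_lit 1) (nat_lit 5) (nat_lit 3) (nat_lit 4) (nat_lit 1) (nat_lit 4) (nat_lit 260) (nat_lit 206) (nat_lit 194))))))))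
noncomputable def xc8 : XT := (XT.nd (nat_lit 1716) (nat_lit 0) (nat_lit 0) (XT.nd (nat_lit 858) (nat_lit 0) (nat_lit 0) (XT.nd (nat_lit 390) (nat_lit 0) (nat_lit 0) (XT.nd (nat_lit 156) (nat_lit 0) (nat_lit 0) (XT.nd (nat_lit 78) (nat_lit 0) (nat_lit 0) (XT.lf (nat_lit 0) (nat_lit 7636825388) (nat_lit 152) (nat_lit 368239886021) (nat_lit 0) (nat_lit 5914607811) (nat_lit 1) (nat_lit 5) (nat_lit 3) (nat_lit 4) (nat_lit 1) (nat_lit 4) (nat_lit 261) (nat_lit 206) (nat_lit 193)) (XT.lf (nat_lit 0) (nat_lit 10995642780) (nat_lit 152) (nat_lit 418630682034) (nat_lit 0) (nat_lit 9229829950) (nat_lit 1) (nat_lit 5) (nat_lit 3) (nat_lit 4) (nat_lit 1) (nat_lit 4) (nat_lit 262) (nat_lit 206) (nat_lit 192))) (XT.nd (nat_lit 78) (nat_lit 0) (nat_lit 0) (XT.lf (nat_lit 0) (nat_lit 14781628543) (nat_lit 152) (nat_lit 476727377122) (nat_lit 0) (nat_lit 12977906799) (nat_lit 1) (nat_lit 5) (nat_lit 3)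 (nat_lit 4) (nat_lit 1) (nat_lit 4) (nat_lit 263) (nat_lit 206) (nat_lit 191)) (XT.nd (nat_lit 78) (nat_lit 0) (nat_lit 0) (XT.lf (nat_lit 0) (nat_lit 19068856314) (nat_lit 152) (nat_lit 543666645755) (nat_lit 0) (nat_lit 17232170296) (nat_lit 1) (nat_lit 5) (nat_lit 3) (nat_lit 4) (nat_lit 1) (nat_lit 4) (nat_lit 264) (nat_lit 206) (nat_lit 190)) (XT.lf (nat_lit 0) (nat_lit 23941206635) (nat_lit 152) (nat_lit 620758169275) (nat_lit 0) (nat_lit 22075856031) (nat_lit 1) (nat_lit 5) (nat_lit 3) (nat_lit 4) (nat_lit 1) (nat_lit 4) (nat_lit 265) (nat_lit 206) (nat_lit 189))))) (XT.nd (nat_lit 234) (nat_lit 0) (nat_lit 0) (XT.nd (nat_lit 78) (nat_lit 0) (nat_lit 0) (XT.lf (nat_lit 0) (nat_lit 29494008100) (nat_lit 152) (nat_lit 709510260099) (nat_lit 0) (nat_lit 27603731769) (nat_lit 1) (nat_lit 5) (nat_lit 3) (nat_lit 4) (nat_lit 1) (nat_lit 4) (nat_lit 266) (nat_lit 206) (nat_lit 188)) (XT.nd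 (nat_lit 78) (nat_lit 0) (nat_lit 0) (XT.lf (nat_lit 0) (nat_lit 35835902475) (nat_lit 152) (nat_lit 811659372178) (nat_lit 0) (nat_lit 33923951599) (nat_lit 1) (nat_lit 5) (nat_lit 3) (nat_lit 4) (nat_lit 1) (nat_lit 4) (nat_lit 267) (nat_lit 206) (nat_lit 187)) (XT.lf (nat_lit 0) (nat_lit 43090970304) (nat_lit 152) (nat_lit 929204075096) (nat_lit 0) (nat_lit 41160171998) (nat_lit 1) (nat_lit 5) (nat_lit 3) (nat_lit 4) (nat_lit 1) (nat_lit 4) (nat_lit 268) (nat_lit 206) (nat_lit 186)))) (XT.nd (nat_lit 78) (nat_lit 0) (nat_lit 0) (XT.lf (nat_lit 0) (nat_lit 51401158566) (nat_lit 152) (nat_lit 1064444156519) (nat_lit 0) (nat_lit 49453971189) (nat_lit 1) (nat_lit 5) (nat_lit 3) (nat_lit 4) (nat_lit 1) (nat_lit 4) (nat_lit 269) (nat_lit 206) (nat_lit 185)) (XT.nd (nat_lit 78) (nat_lit 0) (nat_lit 0) (XT.lf (nat_lit 0) (nat_lit 60929057900) (nat_lit 152) (nat_lit 1220025618040) (nat_lit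 0) (nat_lit 58967619158) (nat_lit 1) (nat_lit 5) (nat_lit 3) (nat_lit 4) (nat_lit 1) (nat_lit 4) (nat_lit 270) (nat_lit 206) (nat_lit 184)) (XT.lf (nat_lit 0) (nat_lit 71861083728) (nat_lit 152) (nat_lit 1398992444776) (nat_lit 0) (nat_lit 69887252495) (nat_lit 1) (nat_lit 5) (nat_lit 3) (nat_lit 4) (nat_lit 1) (nat_lit 4) (nat_lit 271) (nat_lit 206) (nat_lit 183)))))) (XT.nd (nat_lit 390) (nat_lit 0) (nat_lit 0) (XT.nd (nat_lit 156) (nat_lit 0) (nat_lit 0) (XT.nd (nat_lit 78) (nat_lit 0) (nat_lit 0) (XT.lf (nat_lit 0) (nat_lit 84411123513) (nat_lit 152) (nat_lit 1604846161597) (nat_lit 0) (nat_lit 82426516200) (nat_lit 1) (nat_lit 5) (nat_lit 3) (nat_lit 4) (nat_lit 1) (nat_lit 4) (nat_lit 272) (nat_lit 206) (nat_lit 182)) (XT.lf (nat_lit 0) (nat_lit 98824721510) (nat_lit 152) (nat_lit 1841614341224) (nat_lit 0) (nat_lit 96830743693) (nat_lit 1) (nat_lit 5) (nat_lit 3) (nat_lit 4) (nat_lit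 1) (nat_lit 4) (nat_lit 273) (nat_lit 206) (nat_lit 181))) (XT.nd (nat_lit 78) (nat_lit 0) (nat_lit 0) (XT.lf (nat_lit 0) (nat_lit 115383882899) (nat_lit 152) (nat_lit 2113929404562) (nat_lit 0) (nat_lit 113381756817) (nat_lit 1) (nat_lit 5) (nat_lit 3) (nat_lit 4) (nat_lit 1) (nat_lit 4) (nat_lit 274) (nat_lit 206) (nat_lit 180)) (XT.nd (nat_lit 78) (nat_lit 0) (nat_lit 0) (XT.lf (nat_lit 0) (nat_lit 134412591270) (nat_lit 152) (nat_lit 2427119255026) (nat_lit 0) (nat_lit 132403379742) (nat_lit 1) (nat_lit 5) (nat_lit 3) (nat_lit 4) (nat_lit 1) (nat_lit 4) (nat_lit 275) (nat_lit 206) (nat_lit 179)) (XT.lf (nat_lit 0) (nat_lit 156283147441) (nat_lit 152) (nat_lit 2787311520123) (nat_lit 0) (nat_lit 154267774654) (nat_lit 1) (nat_lit 5) (nat_lit 3) (nat_lit 4) (nat_lit 1) (nat_lit 4) (nat_lit 276) (nat_lit 206) (nat_lit 178))))) (XT.nd (nat_lit 234) (nat_lit 0) (nat_lit 0) (XT.nd (nat_lit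 78) (nat_lit 0) (nat_lit 0) (XT.lf (nat_lit 0) (nat_lit 181423453598) (nat_lit 152) (nat_lit 3201553439824) (nat_lit 0) (nat_lit 179402723195) (nat_lit 1) (nat_lit 5) (nat_lit 3) (nat_lit 4) (nat_lit 1) (nat_lit 4) (nat_lit 277) (nat_lit 206) (nat_lit 177)) (XT.nd (nat_lit 78) (nat_lit 0) (nat_lit 0) (XT.lf (nat_lit 0) (nat_lit 210325385294) (nat_lit 152) (nat_lit 3677949747339) (nat_lit 0) (nat_lit 208299996095) (nat_lit 1) (nat_lit 5) (nat_lit 3) (nat_lit 4) (nat_lit 1) (nat_lit 4) (nat_lit 278) (nat_lit 206) (nat_lit 176)) (XT.lf (nat_lit 0) (nat_lit 243554415109) (nat_lit 152) (nat_lit 4225821239990) (nat_lit 0) (nat_lit 241524974782) (nat_lit 1) (nat_lit 5) (nat_lit 3) (nat_lit 4) (nat_lit 1) (nat_lit 4) (nat_lit 279) (nat_lit 206) (nat_lit 175)))) (XT.nd (nat_lit 78) (nat_lit 0) (nat_lit 0) (XT.lf (nat_lit 0) (nat_lit 281760676232) (nat_lit 152) (nat_lit 4855887142633) (nat_lit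 0) (nat_lit 279727713185) (nat_lit 1) (nat_lit 5) (nat_lit 3) (nat_lit 4) (nat_lit 1) (nat_lit 4) (nat_lit 280) (nat_lit 206) (nat_lit 174)) (XT.nd (nat_lit 78) (nat_lit 0) (nat_lit 0) (XT.lf (nat_lit 0) (nat_lit 325691682469) (nat_lit 152) (nat_lit 5580474831624) (nat_lit 0) (nat_lit 323655656188) (nat_lit 1) (nat_lit 5) (nat_lit 3) (nat_lit 4) (nat_lit 1) (nat_lit 4) (nat_lit 281) (nat_lit 206) (nat_lit 173)) (XT.lf (nat_lit 0) (nat_lit 376206953507) (nat_lit 152) (nat_lit 6413761022617) (nat_lit 0) (nat_lit 374168263544) (nat_lit 1) (nat_lit 5) (nat_lit 3) (nat_lit 4) (nat_lit 1) (nat_lit 4) (nat_lit 282) (nat_lit 206) (nat_lit 172))))))) (XT.nd (nat_lit 32214) (nat_lit 0) (nat_lit 0) (XT.nd (nat_lit 31746) (nat_lit 0) (nat_lit 152) (XT.nd (nat_lit 31512) (nat_lit 0) (nat_lit 152) (XT.nd (nat_lit 78) (nat_lit 0) (nat_lit 0) (XT.lf (nat_lit 0) (nat_lit 434294831606) (nat_lit 152) (nat_lit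 7372049141088) (nat_lit 0) (nat_lit 432253825398) (nat_lit 1) (nat_lit 5) (nat_lit 3) (nat_lit 4) (nat_lit 1) (nat_lit 4) (nat_lit 283) (nat_lit 206) (nat_lit 171)) (XT.lf (nat_lit 0) (nat_lit 501091818728) (nat_lit 152) (nat_lit 8474088302399) (nat_lit 0) (nat_lit 499048798393) (nat_lit 1) (nat_lit 5) (nat_lit 3) (nat_lit 4) (nat_lit 1) (nat_lit 4) (nat_lit 284) (nat_lit 206) (nat_lit 170))) (XT.nd (nat_lit 78) (nat_lit 0) (nat_lit 0) (XT.lf (nat_lit 0) (nat_lit 351562792) (nat_lit 76) (nat_lit 12068059644) (nat_lit 76) (nat_lit 12068059644) (nat_lit 3) (nat_lit 4) (nat_lit 4) (nat_lit 5) (nat_lit 4) (nat_lit 4) (nat_lit 246) (nat_lit 207) (nat_lit 207)) (XT.nd (nat_lit 78) (nat_lit 0) (nat_lit 0) (XT.lf (nat_lit 0) (nat_lit 11788031955) (nat_lit 76) (nat_lit 22198317858) (nat_lit 76) (nat_lit 21865173308) (nat_lit 3) (nat_lit 4) (nat_lit 4) (nat_lit 5) (nat_lit 4) (nat_lit 4) (nat_lit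 247) (nat_lit 207) (nat_lit 206)) (XT.lf (nat_lit 0) (nat_lit 23602639076) (nat_lit 76) (nat_lit 20409627700) (nat_lit 76) (nat_lit 19786792236) (nat_lit 3) (nat_lit 4) (nat_lit 4) (nat_lit 5) (nat_lit 4) (nat_lit 4) (nat_lit 248) (nat_lit 207) (nat_lit 205))))) (XT.nd (nat_lit 234) (nat_lit 0) (nat_lit 0) (XT.nd (nat_lit 78) (nat_lit 0) (nat_lit 0) (XT.lf (nat_lit 0) (nat_lit 36378102304) (nat_lit 76) (nat_lit 18735052704) (nat_lit 76) (nat_lit 17860312098) (nat_lit 3) (nat_lit 4) (nat_lit 4) (nat_lit 5) (nat_lit 4) (nat_lit 4) (nat_lit 249) (nat_lit 207) (nat_lit 204)) (XT.nd (nat_lit 78) (nat_lit 0) (nat_lit 0) (XT.lf (nat_lit 0) (nat_lit 50364376354) (nat_lit 76) (nat_lit 17141829446) (nat_lit 76) (nat_lit 16048040890) (nat_lit 3) (nat_lit 4) (nat_lit 4) (nat_lit 5) (nat_lit 4) (nat_lit 4) (nat_lit 250) (nat_lit 207) (nat_lit 203)) (XT.lf (nat_lit 0) (nat_lit 65835105718) (nat_lit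 76) (nat_lit 15598786166) (nat_lit 76) (nat_lit 14314521131) (nat_lit 3) (nat_lit 4) (nat_lit 4) (nat_lit 5) (nat_lit 4) (nat_lit 4) (nat_lit 251) (nat_lit 207) (nat_lit 202)))) (XT.nd (nat_lit 78) (nat_lit 0) (nat_lit 0) (XT.lf (nat_lit 0) (nat_lit 83092978581) (nat_lit 76) (nat_lit 14075732886) (nat_lit 76) (nat_lit 12625836132) (nat_lit 3) (nat_lit 4) (nat_lit 4) (nat_lit 5) (nat_lit 4) (nat_lit 4) (nat_lit 252) (nat_lit 207) (nat_lit 201)) (XT.nd (nat_lit 78) (nat_lit 0) (nat_lit 0) (XT.lf (nat_lit 0) (nat_lit 102475648975) (nat_lit 76) (nat_lit 12542870740) (nat_lit 76) (nat_lit 10948946403) (nat_lit 3) (nat_lit 4) (nat_lit 4) (nat_lit 5) (nat_lit 4) (nat_lit 4) (nat_lit 253) (nat_lit 207) (nat_lit 200)) (XT.lf (nat_lit 0) (nat_lit 124362343061) (nat_lit 76) (nat_lit 10970208945) (nat_lit 76) (nat_lit 9251043232) (nat_lit 3) (nat_lit 4) (nat_lit 4) (nat_lit 5) (nat_lit 4) (nat_lit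 4) (nat_lit 254) (nat_lit 207) (nat_lit 199)))))) (XT.nd (nat_lit 390) (nat_lit 76) (nat_lit 0) (XT.nd (nat_lit 156) (nat_lit 76) (nat_lit 0) (XT.nd (nat_lit 78) (nat_lit 0) (nat_lit 0) (XT.lf (nat_lit 0) (nat_lit 149181278767) (nat_lit 76) (nat_lit 9326978031) (nat_lit 76) (nat_lit 7498906774) (nat_lit 3) (nat_lit 4) (nat_lit 4) (nat_lit 5) (nat_lit 4) (nat_lit 4) (nat_lit 255) (nat_lit 207) (nat_lit 198)) (XT.lf (nat_lit 0) (nat_lit 177418043965) (nat_lit 76) (nat_lit 7581027829) (nat_lit 76) (nat_lit 5658256098) (nat_lit 3) (nat_lit 4) (nat_lit 4) (nat_lit 5) (nat_lit 4) (nat_lit 4) (nat_lit 256) (nat_lit 207) (nat_lit 197))) (XT.nd (nat_lit 78) (nat_lit 76) (nat_lit 0) (XT.lf (nat_lit 0) (nat_lit 209625097105) (nat_lit 76) (nat_lit 5698198444) (nat_lit 76) (nat_lit 3693078475) (nat_lit 3) (nat_lit 4) (nat_lit 4) (nat_lit 5) (nat_lit 4) (nat_lit 4) (nat_lit 257) (nat_lit 207) (nat_lit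 196)) (XT.nd (nat_lit 78) (nat_lit 76) (nat_lit 0) (XT.lf (nat_lit 0) (nat_lit 246432576183) (nat_lit 76) (nat_lit 3641651908) (nat_lit 76) (nat_lit 1564924776) (nat_lit 3) (nat_lit 4) (nat_lit 4) (nat_lit 5) (nat_lit 4) (nat_lit 4) (nat_lit 258) (nat_lit 207) (nat_lit 195)) (XT.lf (nat_lit 0) (nat_lit 729432182) (nat_lit 152) (nat_lit 621775291) (nat_lit 76) (nat_lit 287811251377) (nat_lit 2) (nat_lit 5) (nat_lit 4) (nat_lit 5) (nat_lit 3) (nat_lit 4) (nat_lit 259) (nat_lit 207) (nat_lit 194))))) (XT.nd (nat_lit 234) (nat_lit 0) (nat_lit 0) (XT.nd (nat_lit 78) (nat_lit 0) (nat_lit 0) (XT.lf (nat_lit 0) (nat_lit 3328191063) (nat_lit 152) (nat_lit 327681164101) (nat_lit 0) (nat_lit 1297506309) (nat_lit 1) (nat_lit 5) (nat_lit 3) (nat_lit 4) (nat_lit 1) (nat_lit 4) (nat_lit 260) (nat_lit 207) (nat_lit 193)) (XT.nd (nat_lit 78) (nat_lit 0) (nat_lit 0) (XT.lf (nat_lit 0) (nat_lit 6284554971)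 (nat_lit 152) (nat_lit 371430745417) (nat_lit 0) (nat_lit 4210274966) (nat_lit 1) (nat_lit 5) (nat_lit 3) (nat_lit 4) (nat_lit 1) (nat_lit 4) (nat_lit 261) (nat_lit 207) (nat_lit 192)) (XT.lf (nat_lit 0) (nat_lit 9607719230) (nat_lit 152) (nat_lit 421890043603) (nat_lit 0) (nat_lit 7495530309) (nat_lit 1) (nat_lit 5) (nat_lit 3) (nat_lit 4) (nat_lit 1) (nat_lit 4) (nat_lit 262) (nat_lit 207) (nat_lit 191)))) (XT.nd (nat_lit 78) (nat_lit 0) (nat_lit 0) (XT.lf (nat_lit 0) (nat_lit 13362702269) (nat_lit 152) (nat_lit 480046305799) (nat_lit 0) (nat_lit 11217549075) (nat_lit 1) (nat_lit 5) (nat_lit 3) (nat_lit 4) (nat_lit 1) (nat_lit 4) (nat_lit 263) (nat_lit 207) (nat_lit 190)) (XT.nd (nat_lit 78) (nat_lit 0) (nat_lit 0) (XT.lf (nat_lit 0) (nat_lit 17622971149) (nat_lit 152) (nat_lit 547037371917) (nat_lit 0) (nat_lit 15449153369) (nat_lit 1) (nat_lit 5) (nat_lit 3) (nat_lit 4) (nat_lit 1)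 (nat_lit 4) (nat_lit 264) (nat_lit 207) (nat_lit 189)) (XT.lf (nat_lit 0) (nat_lit 22471878956) (nat_lit 152) (nat_lit 624173936728) (nat_lit 0) (nat_lit 20273135449) (nat_lit 1) (nat_lit 5) (nat_lit 3) (nat_lit 4) (nat_lit 1) (nat_lit 4) (nat_lit 265) (nat_lit 207) (nat_lit 188))))))))
noncomputable def xc9 : XT := (XT.nd (nat_lit 32916) (nat_lit 0) (nat_lit 0) (XT.nd (nat_lit 858) (nat_lit 0) (nat_lit 0) (XT.nd (nat_lit 390) (nat_lit 0) (nat_lit 0) (XT.nd (nat_lit 156) (nat_lit 0) (nat_lit 0) (XT.nd (nat_lit 78) (nat_lit 0) (nat_lit 0) (XT.lf (nat_lit 0) (nat_lit 28004295626) (nat_lit 152) (nat_lit 712965193892) (nat_lit 0) (nat_lit 25783877574) (nat_lit 1) (nat_lit 5) (nat_lit 3) (nat_lit 4) (nat_lit 1) (nat_lit 4) (nat_lit 266) (nat_lit 207) (nat_lit 187)) (XT.lf (nat_lit 0) (nat_lit 34328464093) (nat_lit 152) (nat_lit 815148363658) (nat_lit 0) (nat_lit 32089198610) (nat_lit 1) (nat_lit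 5) (nat_lit 3) (nat_lit 4) (nat_lit 1) (nat_lit 4) (nat_lit 267) (nat_lit 207) (nat_lit 186))) (XT.nd (nat_lit 78) (nat_lit 0) (nat_lit 0) (XT.lf (nat_lit 0) (nat_lit 41568118089) (nat_lit 152) (nat_lit 932722681957) (nat_lit 0) (nat_lit 39312463536) (nat_lit 1) (nat_lit 5) (nat_lit 3) (nat_lit 4) (nat_lit 1) (nat_lit 4) (nat_lit 268) (nat_lit 207) (nat_lit 185)) (XT.nd (nat_lit 78) (nat_lit 0) (nat_lit 0) (XT.lf (nat_lit 0) (nat_lit 49864903017) (nat_lit 152) (nat_lit 1067988515884) (nat_lit 0) (nat_lit 47594997099) (nat_lit 1) (nat_lit 5) (nat_lit 3) (nat_lit 4) (nat_lit 1) (nat_lit 4) (nat_lit 269) (nat_lit 207) (nat_lit 184)) (XT.lf (nat_lit 0) (nat_lit 59381147279) (nat_lit 152) (nat_lit 1223592370887) (nat_lit 0) (nat_lit 57098848869) (nat_lit 1) (nat_lit 5) (nat_lit 3) (nat_lit 4) (nat_lit 1) (nat_lit 4) (nat_lit 270) (nat_lit 207) (nat_lit 183))))) (XT.nd (nat_lit 234) (nat_lit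 0) (nat_lit 0) (XT.nd (nat_lit 78) (nat_lit 0) (nat_lit 0) (XT.lf (nat_lit 0) (nat_lit 70303038262) (nat_lit 152) (nat_lit 1402578670215) (nat_lit 0) (nat_lit 68009963772) (nat_lit 1) (nat_lit 5) (nat_lit 3) (nat_lit 4) (nat_lit 1) (nat_lit 4) (nat_lit 271) (nat_lit 207) (nat_lit 182)) (XT.nd (nat_lit 78) (nat_lit 0) (nat_lit 0) (XT.lf (nat_lit 0) (nat_lit 82844265137) (nat_lit 152) (nat_lit 1608449319726) (nat_lit 0) (nat_lit 80541820144) (nat_lit 1) (nat_lit 5) (nat_lit 3) (nat_lit 4) (nat_lit 1) (nat_lit 4) (nat_lit 272) (nat_lit 207) (nat_lit 181)) (XT.lf (nat_lit 0) (nat_lit 97250199735) (nat_lit 152) (nat_lit 1845232223431) (nat_lit 0) (nat_lit 94939606477) (nat_lit 1) (nat_lit 5) (nat_lit 3) (nat_lit 4) (nat_lit 1) (nat_lit 4) (nat_lit 273) (nat_lit 207) (nat_lit 180)))) (XT.nd (nat_lit 78) (nat_lit 0) (nat_lit 0) (XT.lf (nat_lit 0) (nat_lit 113802697298) (nat_lit 152) (nat_lit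 2117560090316) (nat_lit 0) (nat_lit 111485018593) (nat_lit 1) (nat_lit 5) (nat_lit 3) (nat_lit 4) (nat_lit 1) (nat_lit 4) (nat_lit 274) (nat_lit 207) (nat_lit 179)) (XT.nd (nat_lit 78) (nat_lit 0) (nat_lit 0) (XT.lf (nat_lit 0) (nat_lit 132825611038) (nat_lit 152) (nat_lit 2430761074298) (nat_lit 0) (nat_lit 130501771075) (nat_lit 1) (nat_lit 5) (nat_lit 3) (nat_lit 4) (nat_lit 1) (nat_lit 4) (nat_lit 275) (nat_lit 207) (nat_lit 178)) (XT.lf (nat_lit 0) (nat_lit 154691128400) (nat_lit 152) (nat_lit 2790963020715) (nat_lit 0) (nat_lit 152361930821) (nat_lit 1) (nat_lit 5) (nat_lit 3) (nat_lit 4) (nat_lit 1) (nat_lit 4) (nat_lit 276) (nat_lit 207) (nat_lit 177)))))) (XT.nd (nat_lit 390) (nat_lit 0) (nat_lit 0) (XT.nd (nat_lit 156) (nat_lit 0) (nat_lit 0) (XT.nd (nat_lit 78) (nat_lit 0) (nat_lit 0) (XT.lf (nat_lit 0) (nat_lit 179827052983) (nat_lit 152) (nat_lit 3205213358955) (nat_lit 0)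 (nat_lit 177493196607) (nat_lit 1) (nat_lit 5) (nat_lit 3) (nat_lit 4) (nat_lit 1) (nat_lit 4) (nat_lit 277) (nat_lit 207) (nat_lit 176)) (XT.lf (nat_lit 0) (nat_lit 208725174616) (nat_lit 152) (nat_lit 3681616986940) (nat_lit 0) (nat_lit 206387267113) (nat_lit 1) (nat_lit 5) (nat_lit 3) (nat_lit 4) (nat_lit 1) (nat_lit 4) (nat_lit 278) (nat_lit 207) (nat_lit 175))) (XT.nd (nat_lit 78) (nat_lit 0) (nat_lit 0) (XT.lf (nat_lit 0) (nat_lit 241950891331) (nat_lit 152) (nat_lit 4229494845216) (nat_lit 0) (nat_lit 239609461108) (nat_lit 1) (nat_lit 5) (nat_lit 3) (nat_lit 4) (nat_lit 1) (nat_lit 4) (nat_lit 279) (nat_lit 207) (nat_lit 174)) (XT.nd (nat_lit 78) (nat_lit 0) (nat_lit 0) (XT.lf (nat_lit 0) (nat_lit 280154271499) (nat_lit 152) (nat_lit 4859566283185) (nat_lit 0) (nat_lit 277809778041) (nat_lit 1) (nat_lit 5) (nat_lit 3) (nat_lit 4) (nat_lit 1) (nat_lit 4) (nat_lit 280) (nat_lit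 207) (nat_lit 173)) (XT.lf (nat_lit 0) (nat_lit 324082772557) (nat_lit 152) (nat_lit 5584158785503) (nat_lit 0) (nat_lit 321735615418) (nat_lit 1) (nat_lit 5) (nat_lit 3) (nat_lit 4) (nat_lit 1) (nat_lit 4) (nat_lit 281) (nat_lit 207) (nat_lit 172))))) (XT.nd (nat_lit 31434) (nat_lit 0) (nat_lit 152) (XT.nd (nat_lit 78) (nat_lit 0) (nat_lit 0) (XT.lf (nat_lit 0) (nat_lit 374595865179) (nat_lit 152) (nat_lit 6417449161998) (nat_lit 0) (nat_lit 372246391794) (nat_lit 1) (nat_lit 5) (nat_lit 3) (nat_lit 4) (nat_lit 1) (nat_lit 4) (nat_lit 282) (nat_lit 207) (nat_lit 171)) (XT.nd (nat_lit 78) (nat_lit 0) (nat_lit 0) (XT.lf (nat_lit 0) (nat_lit 432681849002) (nat_lit 152) (nat_lit 7375740920036) (nat_lit 0) (nat_lit 430330361491) (nat_lit 1) (nat_lit 5) (nat_lit 3) (nat_lit 4) (nat_lit 1) (nat_lit 4) (nat_lit 283) (nat_lit 207) (nat_lit 170)) (XT.lf (nat_lit 0) (nat_lit 499477188928) (nat_lit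 152) (nat_lit 8477783246188) (nat_lit 0) (nat_lit 497123950003) (nat_lit 1) (nat_lit 5) (nat_lit 3) (nat_lit 4) (nat_lit 1) (nat_lit 4) (nat_lit 284) (nat_lit 207) (nat_lit 169)))) (XT.nd (nat_lit 78) (nat_lit 76) (nat_lit 0) (XT.lf (nat_lit 0) (nat_lit 4818136933) (nat_lit 152) (nat_lit 9291306607) (nat_lit 0) (nat_lit 4818136933) (nat_lit 4) (nat_lit 5) (nat_lit 6) (nat_lit 4) (nat_lit 4) (nat_lit 4) (nat_lit 244) (nat_lit 208) (nat_lit 208)) (XT.nd (nat_lit 78) (nat_lit 76) (nat_lit 0) (XT.lf (nat_lit 0) (nat_lit 17012451788) (nat_lit 152) (nat_lit 9375273357) (nat_lit 0) (nat_lit 16629335555) (nat_lit 4) (nat_lit 5) (nat_lit 6) (nat_lit 4) (nat_lit 4) (nat_lit 4) (nat_lit 245) (nat_lit 208) (nat_lit 207)) (XT.lf (nat_lit 0) (nat_lit 204060243) (nat_lit 76) (nat_lit 24754467481) (nat_lit 76) (nat_lit 24038206697) (nat_lit 3) (nat_lit 4) (nat_lit 4) (nat_lit 5) (nat_lit 4) (nat_lit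 4) (nat_lit 246) (nat_lit 208) (nat_lit 206))))))) (XT.nd (nat_lit 858) (nat_lit 152) (nat_lit 0) (XT.nd (nat_lit 390) (nat_lit 0) (nat_lit 0) (XT.nd (nat_lit 156) (nat_lit 0) (nat_lit 0) (XT.nd (nat_lit 78) (nat_lit 0) (nat_lit 0) (XT.lf (nat_lit 0) (nat_lit 10854996750) (nat_lit 76) (nat_lit 23021215579) (nat_lit 76) (nat_lit 22015263882) (nat_lit 3) (nat_lit 4) (nat_lit 4) (nat_lit 5) (nat_lit 4) (nat_lit 4) (nat_lit 247) (nat_lit 208) (nat_lit 205)) (XT.lf (nat_lit 0) (nat_lit 22292238773) (nat_lit 76) (nat_lit 21410394578) (nat_lit 76) (nat_lit 20152537738) (nat_lit 3) (nat_lit 4) (nat_lit 4) (nat_lit 5) (nat_lit 4) (nat_lit 4) (nat_lit 248) (nat_lit 208) (nat_lit 204))) (XT.nd (nat_lit 78) (nat_lit 0) (nat_lit 0) (XT.lf (nat_lit 0) (nat_lit 34739558437) (nat_lit 76) (nat_lit 19890488413) (nat_lit 76) (nat_lit 18413583623) (nat_lit 3) (nat_lit 4) (nat_lit 4) (nat_lit 5) (nat_lit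 4) (nat_lit 4) (nat_lit 249) (nat_lit 208) (nat_lit 203)) (XT.nd (nat_lit 78) (nat_lit 0) (nat_lit 0) (XT.lf (nat_lit 0) (nat_lit 48440490257) (nat_lit 76) (nat_lit 18431759790) (nat_lit 76) (nat_lit 16764378522) (nat_lit 3) (nat_lit 4) (nat_lit 4) (nat_lit 5) (nat_lit 4) (nat_lit 4) (nat_lit 250) (nat_lit 208) (nat_lit 202)) (XT.lf (nat_lit 0) (nat_lit 63663095944) (nat_lit 76) (nat_lit 17005668367) (nat_lit 76) (nat_lit 15172655380) (nat_lit 3) (nat_lit 4) (nat_lit 4) (nat_lit 5) (nat_lit 4) (nat_lit 4) (nat_lit 251) (nat_lit 208) (nat_lit 201))))) (XT.nd (nat_lit 234) (nat_lit 0) (nat_lit 0) (XT.nd (nat_lit 78) (nat_lit 0) (nat_lit 0) (XT.lf (nat_lit 0) (nat_lit 80705209087) (nat_lit 76) (nat_lit 15584312355) (nat_lit 76) (nat_lit 13607271785) (nat_lit 3) (nat_lit 4) (nat_lit 4) (nat_lit 5) (nat_lit 4) (nat_lit 4) (nat_lit 252) (nat_lit 208) (nat_lit 200)) (XT.nd (nat_lit 78) (nat_lit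 0) (nat_lit 0) (XT.lf (nat_lit 0) (nat_lit 99900262333) (nat_lit 76) (nat_lit 14139882615) (nat_lit 76) (nat_lit 12037600668) (nat_lit 3) (nat_lit 4) (nat_lit 4) (nat_lit 5) (nat_lit 4) (nat_lit 4) (nat_lit 253) (nat_lit 208) (nat_lit 199)) (XT.lf (nat_lit 0) (nat_lit 121623811074) (nat_lit 76) (nat_lit 12644118564) (nat_lit 76) (nat_lit 10432931073) (nat_lit 3) (nat_lit 4) (nat_lit 4) (nat_lit 5) (nat_lit 4) (nat_lit 4) (nat_lit 254) (nat_lit 208) (nat_lit 198)))) (XT.nd (nat_lit 78) (nat_lit 0) (nat_lit 0) (XT.lf (nat_lit 0) (nat_lit 146300881262) (nat_lit 76) (nat_lit 11067755255) (nat_lit 76) (nat_lit 8761867290) (nat_lit 3) (nat_lit 4) (nat_lit 4) (nat_lit 5) (nat_lit 4) (nat_lit 4) (nat_lit 255) (nat_lit 208) (nat_lit 197)) (XT.nd (nat_lit 78) (nat_lit 0) (nat_lit 0) (XT.lf (nat_lit 0) (nat_lit 174414285140) (nat_lit 76) (nat_lit 9379950795) (nat_lit 76) (nat_lit 6991714593) (nat_lit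 3) (nat_lit 4) (nat_lit 4) (nat_lit 5) (nat_lit 4) (nat_lit 4) (nat_lit 256) (nat_lit 208) (nat_lit 196)) (XT.lf (nat_lit 0) (nat_lit 206514067567) (nat_lit 76) (nat_lit 7547682925) (nat_lit 76) (nat_lit 5087839559) (nat_lit 3) (nat_lit 4) (nat_lit 4) (nat_lit 5) (nat_lit 4) (nat_lit 4) (nat_lit 257) (nat_lit 208) (nat_lit 195)))))) (XT.nd (nat_lit 390) (nat_lit 0) (nat_lit 0) (XT.nd (nat_lit 156) (nat_lit 152) (nat_lit 0) (XT.nd (nat_lit 78) (nat_lit 0) (nat_lit 0) (XT.lf (nat_lit 0) (nat_lit 243228267764) (nat_lit 76) (nat_lit 5535102924) (nat_lit 76) (nat_lit 3012992460) (nat_lit 3) (nat_lit 4) (nat_lit 4) (nat_lit 5) (nat_lit 4) (nat_lit 4) (nat_lit 258) (nat_lit 208) (nat_lit 194)) (XT.lf (nat_lit 0) (nat_lit 285275207039) (nat_lit 76) (nat_lit 3302834228) (nat_lit 76) (nat_lit 726578461) (nat_lit 3) (nat_lit 4) (nat_lit 4) (nat_lit 5) (nat_lit 4) (nat_lit 4) (nat_lit 259) (nat_lit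 208) (nat_lit 193))) (XT.nd (nat_lit 78) (nat_lit 0) (nat_lit 0) (XT.lf (nat_lit 0) (nat_lit 1016085176) (nat_lit 76) (nat_lit 733637812) (nat_lit 152) (nat_lit 330713436101) (nat_lit 1) (nat_lit 5) (nat_lit 2) (nat_lit 5) (nat_lit 3) (nat_lit 4) (nat_lit 260) (nat_lit 208) (nat_lit 192)) (XT.nd (nat_lit 78) (nat_lit 0) (nat_lit 0) (XT.lf (nat_lit 0) (nat_lit 4652789756) (nat_lit 152) (nat_lit 375247513395) (nat_lit 0) (nat_lit 2185863583) (nat_lit 1) (nat_lit 5) (nat_lit 3) (nat_lit 4) (nat_lit 1) (nat_lit 4) (nat_lit 261) (nat_lit 208) (nat_lit 191)) (XT.lf (nat_lit 0) (nat_lit 7944951290) (nat_lit 152) (nat_lit 425766378689) (nat_lit 0) (nat_lit 5445060843) (nat_lit 1) (nat_lit 5) (nat_lit 3) (nat_lit 4) (nat_lit 1) (nat_lit 4) (nat_lit 262) (nat_lit 208) (nat_lit 190))))) (XT.nd (nat_lit 234) (nat_lit 0) (nat_lit 0) (XT.nd (nat_lit 78) (nat_lit 0) (nat_lit 0) (XT.lf (nat_lit 0) (nat_lit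 11672975438) (nat_lit 152) (nat_lit 483974438370) (nat_lit 0) (nat_lit 9144420405) (nat_lit 1) (nat_lit 5) (nat_lit 3) (nat_lit 4) (nat_lit 1) (nat_lit 4) (nat_lit 263) (nat_lit 208) (nat_lit 189)) (XT.nd (nat_lit 78) (nat_lit 0) (nat_lit 0) (XT.lf (nat_lit 0) (nat_lit 15909801805) (nat_lit 152) (nat_lit 551010545779) (nat_lit 0) (nat_lit 13356321044) (nat_lit 1) (nat_lit 5) (nat_lit 3) (nat_lit 4) (nat_lit 1) (nat_lit 4) (nat_lit 264) (nat_lit 208) (nat_lit 188)) (XT.lf (nat_lit 0) (nat_lit 20738324817) (nat_lit 152) (nat_lit 628186276930) (nat_lit 0) (nat_lit 18163169512) (nat_lit 1) (nat_lit 5) (nat_lit 3) (nat_lit 4) (nat_lit 1) (nat_lit 4) (nat_lit 265) (nat_lit 208) (nat_lit 187)))) (XT.nd (nat_lit 78) (nat_lit 0) (nat_lit 0) (XT.lf (nat_lit 0) (nat_lit 26253015579) (nat_lit 152) (nat_lit 717011591781) (nat_lit 0) (nat_lit 23659012843) (nat_lit 1) (nat_lit 5) (nat_lit 3) (nat_lit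 4) (nat_lit 1) (nat_lit 4) (nat_lit 266) (nat_lit 208) (nat_lit 186)) (XT.nd (nat_lit 78) (nat_lit 0) (nat_lit 0) (XT.lf (nat_lit 0) (nat_lit 32561770212) (nat_lit 152) (nat_lit 819224376928) (nat_lit 0) (nat_lit 29951378407) (nat_lit 1) (nat_lit 5) (nat_lit 3) (nat_lit 4) (nat_lit 1) (nat_lit 4) (nat_lit 267) (nat_lit 208) (nat_lit 185)) (XT.lf (nat_lit 0) (nat_lit 39788020875) (nat_lit 152) (nat_lit 936824447730) (nat_lit 0) (nat_lit 37163377704) (nat_lit 1) (nat_lit 5) (nat_lit 3) (nat_lit 4) (nat_lit 1) (nat_lit 4) (nat_lit 268) (nat_lit 208) (nat_lit 184))))))))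
noncomputable def xc10 : XT := (XT.nd (nat_lit 32760) (nat_lit 0) (nat_lit 0) (XT.nd (nat_lit 858) (nat_lit 0) (nat_lit 0) (XT.nd (nat_lit 390) (nat_lit 0) (nat_lit 0) (XT.nd (nat_lit 156) (nat_lit 0) (nat_lit 0) (XT.nd (nat_lit 78) (nat_lit 0) (nat_lit 0) (XT.lf (nat_lit 0) (nat_lit 48073150730) (nat_lit 152) (nat_lit 1072112675140) (nat_lit 0) (nat_lit 45436115068) (nat_lit 1) (nat_lit 5) (nat_lit 3) (nat_lit 4) (nat_lit 1) (nat_lit 4) (nat_lit 269) (nat_lit 208) (nat_lit 183)) (XT.lf (nat_lit 0) (nat_lit 57579260146) (nat_lit 152) (nat_lit 1227736002736) (nat_lit 0) (nat_lit 54931448404) (nat_lit 1) (nat_lit 5) (nat_lit 3) (nat_lit 4) (nat_lit 1) (nat_lit 4) (nat_lit 270) (nat_lit 208) (nat_lit 182))) (XT.nd (nat_lit 78) (nat_lit 0) (nat_lit 0) (XT.lf (nat_lit 0) (nat_lit 68492338220) (nat_lit 152) (nat_lit 1406739234754) (nat_lit 0) (nat_lit 65835155974) (nat_lit 1) (nat_lit 5) (nat_lit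 3) (nat_lit 4) (nat_lit 1) (nat_lit 4) (nat_lit 271) (nat_lit 208) (nat_lit 181)) (XT.nd (nat_lit 78) (nat_lit 0) (nat_lit 0) (XT.lf (nat_lit 0) (nat_lit 81025901696) (nat_lit 152) (nat_lit 1612624608343) (nat_lit 0) (nat_lit 78360571185) (nat_lit 1) (nat_lit 5) (nat_lit 3) (nat_lit 4) (nat_lit 1) (nat_lit 4) (nat_lit 272) (nat_lit 208) (nat_lit 180)) (XT.lf (nat_lit 0) (nat_lit 95425172468) (nat_lit 152) (nat_lit 1849420315594) (nat_lit 0) (nat_lit 92752756511) (nat_lit 1) (nat_lit 5) (nat_lit 3) (nat_lit 4) (nat_lit 1) (nat_lit 4) (nat_lit 273) (nat_lit 208) (nat_lit 179))))) (XT.nd (nat_lit 234) (nat_lit 0) (nat_lit 0) (XT.nd (nat_lit 78) (nat_lit 0) (nat_lit 0) (XT.lf (nat_lit 0) (nat_lit 111971875400) (nat_lit 152) (nat_lit 2121759315997) (nat_lit 0) (nat_lit 109293298184) (nat_lit 1) (nat_lit 5) (nat_lit 3) (nat_lit 4) (nat_lit 1) (nat_lit 4) (nat_lit 274) (nat_lit 208) (nat_lit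 178)) (XT.nd (nat_lit 78) (nat_lit 0) (nat_lit 0) (XT.lf (nat_lit 0) (nat_lit 130989750332) (nat_lit 152) (nat_lit 2434969981299) (nat_lit 0) (nat_lit 128305815499) (nat_lit 1) (nat_lit 5) (nat_lit 3) (nat_lit 4) (nat_lit 1) (nat_lit 4) (nat_lit 275) (nat_lit 208) (nat_lit 177)) (XT.lf (nat_lit 0) (nat_lit 152850886120) (nat_lit 152) (nat_lit 2795180346256) (nat_lit 0) (nat_lit 150162292491) (nat_lit 1) (nat_lit 5) (nat_lit 3) (nat_lit 4) (nat_lit 1) (nat_lit 4) (nat_lit 276) (nat_lit 208) (nat_lit 176)))) (XT.nd (nat_lit 78) (nat_lit 0) (nat_lit 0) (XT.lf (nat_lit 0) (nat_lit 177983000639) (nat_lit 152) (nat_lit 3209438004965) (nat_lit 0) (nat_lit 175290355882) (nat_lit 1) (nat_lit 5) (nat_lit 3) (nat_lit 4) (nat_lit 1) (nat_lit 4) (nat_lit 277) (nat_lit 208) (nat_lit 175)) (XT.nd (nat_lit 78) (nat_lit 0) (nat_lit 0) (XT.lf (nat_lit 0) (nat_lit 206877809173) (nat_lit 152) (nat_lit 3685847998574)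 (nat_lit 0) (nat_lit 204181641697) (nat_lit 1) (nat_lit 5) (nat_lit 3) (nat_lit 4) (nat_lit 1) (nat_lit 4) (nat_lit 278) (nat_lit 208) (nat_lit 174)) (XT.lf (nat_lit 0) (nat_lit 240100644932) (nat_lit 152) (nat_lit 4233731392177) (nat_lit 0) (nat_lit 237401414222) (nat_lit 1) (nat_lit 5) (nat_lit 3) (nat_lit 4) (nat_lit 1) (nat_lit 4) (nat_lit 279) (nat_lit 208) (nat_lit 173)))))) (XT.nd (nat_lit 31434) (nat_lit 0) (nat_lit 152) (XT.nd (nat_lit 156) (nat_lit 0) (nat_lit 0) (XT.nd (nat_lit 78) (nat_lit 0) (nat_lit 0) (XT.lf (nat_lit 0) (nat_lit 278301519921) (nat_lit 152) (nat_lit 4863807643474) (nat_lit 0) (nat_lit 275599625529) (nat_lit 1) (nat_lit 5) (nat_lit 3) (nat_lit 4) (nat_lit 1) (nat_lit 4) (nat_lit 280) (nat_lit 208) (nat_lit 172)) (XT.lf (nat_lit 0) (nat_lit 322227842563) (nat_lit 152) (nat_lit 5588404331294) (nat_lit 0) (nat_lit 319523631925) (nat_lit 1) (nat_lit 5) (nat_lit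 3) (nat_lit 4) (nat_lit 1) (nat_lit 4) (nat_lit 281) (nat_lit 208) (nat_lit 171))) (XT.nd (nat_lit 78) (nat_lit 0) (nat_lit 0) (XT.lf (nat_lit 0) (nat_lit 372739040909) (nat_lit 152) (nat_lit 6421698347356) (nat_lit 0) (nat_lit 370032816146) (nat_lit 1) (nat_lit 5) (nat_lit 3) (nat_lit 4) (nat_lit 1) (nat_lit 4) (nat_lit 282) (nat_lit 208) (nat_lit 170)) (XT.nd (nat_lit 78) (nat_lit 0) (nat_lit 0) (XT.lf (nat_lit 0) (nat_lit 430823377537) (nat_lit 152) (nat_lit 7379993270234) (nat_lit 0) (nat_lit 428115401359) (nat_lit 1) (nat_lit 5) (nat_lit 3) (nat_lit 4) (nat_lit 1) (nat_lit 4) (nat_lit 283) (nat_lit 208) (nat_lit 169)) (XT.lf (nat_lit 0) (nat_lit 497617285119) (nat_lit 152) (nat_lit 8482038348421) (nat_lit 0) (nat_lit 494907785972) (nat_lit 1) (nat_lit 5) (nat_lit 3) (nat_lit 4) (nat_lit 1) (nat_lit 4) (nat_lit 284) (nat_lit 208) (nat_lit 168))))) (XT.nd (nat_lit 234) (nat_lit 76)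 (nat_lit 0) (XT.nd (nat_lit 78) (nat_lit 152) (nat_lit 0) (XT.lf (nat_lit 0) (nat_lit 11636830853) (nat_lit 76) (nat_lit 1567542828) (nat_lit 76) (nat_lit 1567542828) (nat_lit 6) (nat_lit 4) (nat_lit 7) (nat_lit 5) (nat_lit 7) (nat_lit 4) (nat_lit 242) (nat_lit 209) (nat_lit 209)) (XT.nd (nat_lit 78) (nat_lit 0) (nat_lit 0) (XT.lf (nat_lit 0) (nat_lit 3121353448) (nat_lit 152) (nat_lit 27608310856) (nat_lit 0) (nat_lit 2680769780) (nat_lit 4) (nat_lit 5) (nat_lit 6) (nat_lit 4) (nat_lit 4) (nat_lit 4) (nat_lit 243) (nat_lit 209) (nat_lit 208)) (XT.lf (nat_lit 0) (nat_lit 9787252056) (nat_lit 152) (nat_lit 19127828298) (nat_lit 0) (nat_lit 8963552155) (nat_lit 4) (nat_lit 5) (nat_lit 6) (nat_lit 4) (nat_lit 4) (nat_lit 4) (nat_lit 244) (nat_lit 209) (nat_lit 207)))) (XT.nd (nat_lit 78) (nat_lit 76) (nat_lit 0) (XT.lf (nat_lit 0) (nat_lit 16911599128) (nat_lit 152) (nat_lit 10394588513)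 (nat_lit 0) (nat_lit 15754754676) (nat_lit 4) (nat_lit 5) (nat_lit 6) (nat_lit 4) (nat_lit 4) (nat_lit 4) (nat_lit 245) (nat_lit 209) (nat_lit 206)) (XT.nd (nat_lit 78) (nat_lit 76) (nat_lit 0) (XT.lf (nat_lit 0) (nat_lit 24633784063) (nat_lit 152) (nat_lit 1237723765) (nat_lit 0) (nat_lit 23187248697) (nat_lit 4) (nat_lit 5) (nat_lit 6) (nat_lit 4) (nat_lit 4) (nat_lit 4) (nat_lit 246) (nat_lit 209) (nat_lit 205)) (XT.lf (nat_lit 0) (nat_lit 8970671303) (nat_lit 76) (nat_lit 24349966644) (nat_lit 76) (nat_lit 22651526136) (nat_lit 3) (nat_lit 4) (nat_lit 4) (nat_lit 5) (nat_lit 4) (nat_lit 4) (nat_lit 247) (nat_lit 209) (nat_lit 204))))))) (XT.nd (nat_lit 858) (nat_lit 152) (nat_lit 0) (XT.nd (nat_lit 390) (nat_lit 0) (nat_lit 0) (XT.nd (nat_lit 156) (nat_lit 0) (nat_lit 0) (XT.nd (nat_lit 78) (nat_lit 0) (nat_lit 0) (XT.lf (nat_lit 0) (nat_lit 20079769762) (nat_lit 76) (nat_lit 22893814473)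 (nat_lit 76) (nat_lit 20976326016) (nat_lit 3) (nat_lit 4) (nat_lit 4) (nat_lit 5) (nat_lit 4) (nat_lit 4) (nat_lit 248) (nat_lit 209) (nat_lit 203)) (XT.lf (nat_lit 0) (nat_lit 32241747196) (nat_lit 76) (nat_lit 21508402944) (nat_lit 76) (nat_lit 19400438009) (nat_lit 3) (nat_lit 4) (nat_lit 4) (nat_lit 5) (nat_lit 4) (nat_lit 4) (nat_lit 249) (nat_lit 209) (nat_lit 202))) (XT.nd (nat_lit 78) (nat_lit 0) (nat_lit 0) (XT.lf (nat_lit 0) (nat_lit 45694555339) (nat_lit 76) (nat_lit 20166626179) (nat_lit 76) (nat_lit 17893029523) (nat_lit 3) (nat_lit 4) (nat_lit 4) (nat_lit 5) (nat_lit 4) (nat_lit 4) (nat_lit 250) (nat_lit 209) (nat_lit 201)) (XT.nd (nat_lit 78) (nat_lit 0) (nat_lit 0) (XT.lf (nat_lit 0) (nat_lit 60701401307) (nat_lit 76) (nat_lit 18842232023) (nat_lit 76) (nat_lit 16424607785) (nat_lit 3) (nat_lit 4) (nat_lit 4) (nat_lit 5) (nat_lit 4) (nat_lit 4) (nat_lit 251) (nat_lit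 209) (nat_lit 200)) (XT.lf (nat_lit 0) (nat_lit 77555897302) (nat_lit 76) (nat_lit 17509308417) (nat_lit 76) (nat_lit 14966442803) (nat_lit 3) (nat_lit 4) (nat_lit 4) (nat_lit 5) (nat_lit 4) (nat_lit 4) (nat_lit 252) (nat_lit 209) (nat_lit 199))))) (XT.nd (nat_lit 234) (nat_lit 0) (nat_lit 0) (XT.nd (nat_lit 78) (nat_lit 0) (nat_lit 0) (XT.lf (nat_lit 0) (nat_lit 96587805203) (nat_lit 76) (nat_lit 16141776422) (nat_lit 76) (nat_lit 13490005263) (nat_lit 3) (nat_lit 4) (nat_lit 4) (nat_lit 5) (nat_lit 4) (nat_lit 4) (nat_lit 253) (nat_lit 209) (nat_lit 198)) (XT.nd (nat_lit 78) (nat_lit 0) (nat_lit 0) (XT.lf (nat_lit 0) (nat_lit 118169488425) (nat_lit 76) (nat_lit 14712879975) (nat_lit 76) (nat_lit 11966408343) (nat_lit 3) (nat_lit 4) (nat_lit 4) (nat_lit 5) (nat_lit 4) (nat_lit 4) (nat_lit 254) (nat_lit 209) (nat_lit 197)) (XT.lf (nat_lit 0) (nat_lit 142723197293) (nat_lit 76) (nat_lit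 13194662408) (nat_lit 76) (nat_lit 10365842538) (nat_lit 3) (nat_lit 4) (nat_lit 4) (nat_lit 5) (nat_lit 4) (nat_lit 4) (nat_lit 255) (nat_lit 209) (nat_lit 196)))) (XT.nd (nat_lit 78) (nat_lit 0) (nat_lit 0) (XT.lf (nat_lit 0) (nat_lit 170729330458) (nat_lit 76) (nat_lit 11557419464) (nat_lit 76) (nat_lit 8656992430) (nat_lit 3) (nat_lit 4) (nat_lit 4) (nat_lit 5) (nat_lit 4) (nat_lit 4) (nat_lit 256) (nat_lit 209) (nat_lit 195)) (XT.nd (nat_lit 78) (nat_lit 0) (nat_lit 0) (XT.lf (nat_lit 0) (nat_lit 202735834004) (nat_lit 76) (nat_lit 9769118129) (nat_lit 76) (nat_lit 6806423996) (nat_lit 3) (nat_lit 4) (nat_lit 4) (nat_lit 5) (nat_lit 4) (nat_lit 4) (nat_lit 257) (nat_lit 209) (nat_lit 194)) (XT.lf (nat_lit 0) (nat_lit 239368922130) (nat_lit 76) (nat_lit 7794769898) (nat_lit 76) (nat_lit 4777930462) (nat_lit 3) (nat_lit 4) (nat_lit 4) (nat_lit 5) (nat_lit 4) (nat_lit 4) (nat_lit 258)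 (nat_lit 209) (nat_lit 193)))))) (XT.nd (nat_lit 390) (nat_lit 0) (nat_lit 0) (XT.nd (nat_lit 156) (nat_lit 152) (nat_lit 0) (XT.nd (nat_lit 78) (nat_lit 0) (nat_lit 0) (XT.lf (nat_lit 0) (nat_lit 281345329170) (nat_lit 76) (nat_lit 5595746219) (nat_lit 76) (nat_lit 2531823911) (nat_lit 3) (nat_lit 4) (nat_lit 4) (nat_lit 5) (nat_lit 4) (nat_lit 4) (nat_lit 259) (nat_lit 209) (nat_lit 192)) (XT.lf (nat_lit 0) (nat_lit 329486332653) (nat_lit 76) (nat_lit 3129022715) (nat_lit 76) (nat_lit 24158779) (nat_lit 3) (nat_lit 4) (nat_lit 4) (nat_lit 5) (nat_lit 4) (nat_lit 4) (nat_lit 260) (nat_lit 209) (nat_lit 191))) (XT.nd (nat_lit 78) (nat_lit 0) (nat_lit 0) (XT.lf (nat_lit 0) (nat_lit 2505949434) (nat_lit 76) (nat_lit 208673058) (nat_lit 152) (nat_lit 379561211385) (nat_lit 1) (nat_lit 5) (nat_lit 2) (nat_lit 5) (nat_lit 3) (nat_lit 4) (nat_lit 261) (nat_lit 209) (nat_lit 190)) (XT.nd (nat_lit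 78) (nat_lit 0) (nat_lit 0) (XT.lf (nat_lit 0) (nat_lit 5974806544) (nat_lit 152) (nat_lit 430335528631) (nat_lit 0) (nat_lit 3038303669) (nat_lit 1) (nat_lit 5) (nat_lit 3) (nat_lit 4) (nat_lit 1) (nat_lit 4) (nat_lit 262) (nat_lit 209) (nat_lit 189)) (XT.lf (nat_lit 0) (nat_lit 9679388178) (nat_lit 152) (nat_lit 488588629602) (nat_lit 0) (nat_lit 6717959577) (nat_lit 1) (nat_lit 5) (nat_lit 3) (nat_lit 4) (nat_lit 1) (nat_lit 4) (nat_lit 263) (nat_lit 209) (nat_lit 188))))) (XT.nd (nat_lit 234) (nat_lit 0) (nat_lit 0) (XT.nd (nat_lit 78) (nat_lit 0) (nat_lit 0) (XT.lf (nat_lit 0) (nat_lit 13895829750) (nat_lit 152) (nat_lit 555663903351) (nat_lit 0) (nat_lit 10912726604) (nat_lit 1) (nat_lit 5) (nat_lit 3) (nat_lit 4) (nat_lit 1) (nat_lit 4) (nat_lit 264) (nat_lit 209) (nat_lit 187)) (XT.nd (nat_lit 78) (nat_lit 0) (nat_lit 0) (XT.lf (nat_lit 0) (nat_lit 18706626854) (nat_lit 152) (nat_lit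 632873692190) (nat_lit 0) (nat_lit 15704676277) (nat_lit 1) (nat_lit 5) (nat_lit 3) (nat_lit 4) (nat_lit 1) (nat_lit 4) (nat_lit 265) (nat_lit 209) (nat_lit 186)) (XT.lf (nat_lit 0) (nat_lit 24205903782) (nat_lit 152) (nat_lit 721728622421) (nat_lit 0) (nat_lit 21187564135) (nat_lit 1) (nat_lit 5) (nat_lit 3) (nat_lit 4) (nat_lit 1) (nat_lit 4) (nat_lit 266) (nat_lit 209) (nat_lit 185)))) (XT.nd (nat_lit 78) (nat_lit 0) (nat_lit 0) (XT.lf (nat_lit 0) (nat_lit 30501255083) (nat_lit 152) (nat_lit 823967160072) (nat_lit 0) (nat_lit 27468664071) (nat_lit 1) (nat_lit 5) (nat_lit 3) (nat_lit 4) (nat_lit 1) (nat_lit 4) (nat_lit 267) (nat_lit 209) (nat_lit 184)) (XT.nd (nat_lit 78) (nat_lit 0) (nat_lit 0) (XT.lf (nat_lit 0) (nat_lit 37715850672) (nat_lit 152) (nat_lit 941589624356) (nat_lit 0) (nat_lit 34670867169) (nat_lit 1) (nat_lit 5) (nat_lit 3) (nat_lit 4) (nat_lit 1) (nat_lit 4) (nat_lit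 268) (nat_lit 209) (nat_lit 183)) (XT.lf (nat_lit 0) (nat_lit 45990845683) (nat_lit 152) (nat_lit 1076897324359) (nat_lit 0) (nat_lit 42935086099) (nat_lit 1) (nat_lit 5) (nat_lit 3) (nat_lit 4) (nat_lit 1) (nat_lit 4) (nat_lit 269) (nat_lit 209) (nat_lit 182))))))))
noncomputable def xc11 : XT := (XT.nd (nat_lit 32604) (nat_lit 0) (nat_lit 0) (XT.nd (nat_lit 858) (nat_lit 0) (nat_lit 0) (XT.nd (nat_lit 390) (nat_lit 0) (nat_lit 0) (XT.nd (nat_lit 156) (nat_lit 0) (nat_lit 0) (XT.nd (nat_lit 78) (nat_lit 0) (nat_lit 0) (XT.lf (nat_lit 0) (nat_lit 55488142189) (nat_lit 152) (nat_lit 1232537584645) (nat_lit 0) (nat_lit 52423012102) (nat_lit 1) (nat_lit 5) (nat_lit 3) (nat_lit 4) (nat_lit 1) (nat_lit 4) (nat_lit 270) (nat_lit 209) (nat_lit 181)) (XT.lf (nat_lit 0) (nat_lit 66393556863) (nat_lit 152) (nat_lit 1411555540741) (nat_lit 0) (nat_lit 63320278512) (nat_lit 1) (nat_lit 5) (nat_lit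 3) (nat_lit 4) (nat_lit 1) (nat_lit 4) (nat_lit 271) (nat_lit 209) (nat_lit 180))) (XT.nd (nat_lit 78) (nat_lit 0) (nat_lit 0) (XT.lf (nat_lit 0) (nat_lit 78920456514) (nat_lit 152) (nat_lit 1617453717876) (nat_lit 0) (nat_lit 75840092715) (nat_lit 1) (nat_lit 5) (nat_lit 3) (nat_lit 4) (nat_lit 1) (nat_lit 4) (nat_lit 272) (nat_lit 209) (nat_lit 179)) (XT.nd (nat_lit 78) (nat_lit 0) (nat_lit 0) (XT.lf (nat_lit 0) (nat_lit 93313932655) (nat_lit 152) (nat_lit 1854260558645) (nat_lit 0) (nat_lit 90227407598) (nat_lit 1) (nat_lit 5) (nat_lit 3) (nat_lit 4) (nat_lit 1) (nat_lit 4) (nat_lit 273) (nat_lit 209) (nat_lit 178)) (XT.lf (nat_lit 0) (nat_lit 109855596778) (nat_lit 152) (nat_lit 2126609240368) (nat_lit 0) (nat_lit 106763714105) (nat_lit 1) (nat_lit 5) (nat_lit 3) (nat_lit 4) (nat_lit 1) (nat_lit 4) (nat_lit 274) (nat_lit 209) (nat_lit 177))))) (XT.nd (nat_lit 234) (nat_lit 0) (nat_lit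 0) (XT.nd (nat_lit 78) (nat_lit 0) (nat_lit 0) (XT.lf (nat_lit 0) (nat_lit 128869090136) (nat_lit 152) (nat_lit 2439828324210) (nat_lit 0) (nat_lit 125772548666) (nat_lit 1) (nat_lit 5) (nat_lit 3) (nat_lit 4) (nat_lit 1) (nat_lit 4) (nat_lit 275) (nat_lit 209) (nat_lit 176)) (XT.nd (nat_lit 78) (nat_lit 0) (nat_lit 0) (XT.lf (nat_lit 0) (nat_lit 150726415860) (nat_lit 152) (nat_lit 2800046009636) (nat_lit 0) (nat_lit 147625823263) (nat_lit 1) (nat_lit 5) (nat_lit 3) (nat_lit 4) (nat_lit 1) (nat_lit 4) (nat_lit 276) (nat_lit 209) (nat_lit 175)) (XT.lf (nat_lit 0) (nat_lit 175855217280) (nat_lit 152) (nat_lit 3214310033970) (nat_lit 0) (nat_lit 172751101963) (nat_lit 1) (nat_lit 5) (nat_lit 3) (nat_lit 4) (nat_lit 1) (nat_lit 4) (nat_lit 277) (nat_lit 209) (nat_lit 174)))) (XT.nd (nat_lit 78) (nat_lit 0) (nat_lit 0) (XT.lf (nat_lit 0) (nat_lit 204747144858) (nat_lit 152) (nat_lit 3690725562906)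 (nat_lit 0) (nat_lit 201639966307) (nat_lit 1) (nat_lit 5) (nat_lit 3) (nat_lit 4) (nat_lit 1) (nat_lit 4) (nat_lit 278) (nat_lit 209) (nat_lit 173)) (XT.nd (nat_lit 78) (nat_lit 0) (nat_lit 0) (XT.lf (nat_lit 0) (nat_lit 237967475439) (nat_lit 152) (nat_lit 4238613769836) (nat_lit 0) (nat_lit 234857633206) (nat_lit 1) (nat_lit 5) (nat_lit 3) (nat_lit 4) (nat_lit 1) (nat_lit 4) (nat_lit 279) (nat_lit 209) (nat_lit 172)) (XT.lf (nat_lit 0) (nat_lit 276166172011) (nat_lit 152) (nat_lit 4868694206634) (nat_lit 0) (nat_lit 273054013533) (nat_lit 1) (nat_lit 5) (nat_lit 3) (nat_lit 4) (nat_lit 1) (nat_lit 4) (nat_lit 280) (nat_lit 209) (nat_lit 171)))))) (XT.nd (nat_lit 31278) (nat_lit 0) (nat_lit 228) (XT.nd (nat_lit 156) (nat_lit 0) (nat_lit 0) (XT.nd (nat_lit 78) (nat_lit 0) (nat_lit 0) (XT.lf (nat_lit 0) (nat_lit 320090600378) (nat_lit 152) (nat_lit 5593294534021) (nat_lit 0) (nat_lit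 316976427773) (nat_lit 1) (nat_lit 5) (nat_lit 3) (nat_lit 4) (nat_lit 1) (nat_lit 4) (nat_lit 281) (nat_lit 209) (nat_lit 170)) (XT.lf (nat_lit 0) (nat_lit 370600151529) (nat_lit 152) (nat_lit 6426591714924) (nat_lit 0) (nat_lit 367484227510) (nat_lit 1) (nat_lit 5) (nat_lit 3) (nat_lit 4) (nat_lit 1) (nat_lit 4) (nat_lit 282) (nat_lit 209) (nat_lit 169))) (XT.nd (nat_lit 78) (nat_lit 0) (nat_lit 0) (XT.lf (nat_lit 0) (nat_lit 428683055813) (nat_lit 152) (nat_lit 7384889389838) (nat_lit 0) (nat_lit 425565608825) (nat_lit 1) (nat_lit 5) (nat_lit 3) (nat_lit 4) (nat_lit 1) (nat_lit 4) (nat_lit 283) (nat_lit 209) (nat_lit 168)) (XT.nd (nat_lit 30966) (nat_lit 0) (nat_lit 456) (XT.lf (nat_lit 0) (nat_lit 495475717878) (nat_lit 152) (nat_lit 8486936861099) (nat_lit 0) (nat_lit 492356946569) (nat_lit 1) (nat_lit 5) (nat_lit 3) (nat_lit 4) (nat_lit 1) (nat_lit 4) (nat_lit 284) (nat_lit 209)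 (nat_lit 167)) (XT.lf (nat_lit 0) (nat_lit 4653943662) (nat_lit 152) (nat_lit 2353291349) (nat_lit 0) (nat_lit 4653943662) (nat_lit 7) (nat_lit 5) (nat_lit 9) (nat_lit 4) (nat_lit 7) (nat_lit 4) (nat_lit 240) (nat_lit 210) (nat_lit 210))))) (XT.nd (nat_lit 234) (nat_lit 0) (nat_lit 0) (XT.nd (nat_lit 78) (nat_lit 152) (nat_lit 0) (XT.lf (nat_lit 0) (nat_lit 8474540864) (nat_lit 76) (nat_lit 9140321895) (nat_lit 76) (nat_lit 8593116979) (nat_lit 6) (nat_lit 4) (nat_lit 7) (nat_lit 5) (nat_lit 7) (nat_lit 4) (nat_lit 241) (nat_lit 210) (nat_lit 209)) (XT.nd (nat_lit 78) (nat_lit 152) (nat_lit 0) (XT.lf (nat_lit 0) (nat_lit 22713498571) (nat_lit 76) (nat_lit 3939010818) (nat_lit 76) (nat_lit 2915975540) (nat_lit 6) (nat_lit 4) (nat_lit 7) (nat_lit 5) (nat_lit 7) (nat_lit 4) (nat_lit 242) (nat_lit 210) (nat_lit 208)) (XT.lf (nat_lit 0) (nat_lit 3005372889) (nat_lit 152) (nat_lit 28780523286)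 (nat_lit 0) (nat_lit 1675001769) (nat_lit 4) (nat_lit 5) (nat_lit 6) (nat_lit 4) (nat_lit 4) (nat_lit 4) (nat_lit 243) (nat_lit 210) (nat_lit 207)))) (XT.nd (nat_lit 78) (nat_lit 0) (nat_lit 0) (XT.lf (nat_lit 0) (nat_lit 9419440647) (nat_lit 152) (nat_lit 20774140801) (nat_lit 0) (nat_lit 7755924977) (nat_lit 4) (nat_lit 5) (nat_lit 6) (nat_lit 4) (nat_lit 4) (nat_lit 4) (nat_lit 244) (nat_lit 210) (nat_lit 206)) (XT.nd (nat_lit 78) (nat_lit 0) (nat_lit 0) (XT.lf (nat_lit 0) (nat_lit 16324804371) (nat_lit 152) (nat_lit 12453161948) (nat_lit 0) (nat_lit 14371597787) (nat_lit 4) (nat_lit 5) (nat_lit 6) (nat_lit 4) (nat_lit 4) (nat_lit 4) (nat_lit 245) (nat_lit 210) (nat_lit 205)) (XT.lf (nat_lit 0) (nat_lit 23856569003) (nat_lit 152) (nat_lit 3654784969) (nat_lit 0) (nat_lit 21651457277) (nat_lit 4) (nat_lit 5) (nat_lit 6) (nat_lit 4) (nat_lit 4) (nat_lit 4) (nat_lit 246) (nat_lit 210)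 (nat_lit 204))))))) (XT.nd (nat_lit 858) (nat_lit 152) (nat_lit 0) (XT.nd (nat_lit 390) (nat_lit 0) (nat_lit 0) (XT.nd (nat_lit 156) (nat_lit 0) (nat_lit 0) (XT.nd (nat_lit 78) (nat_lit 0) (nat_lit 0) (XT.lf (nat_lit 0) (nat_lit 6098188376) (nat_lit 76) (nat_lit 26210568355) (nat_lit 76) (nat_lit 23786408679) (nat_lit 3) (nat_lit 4) (nat_lit 4) (nat_lit 5) (nat_lit 4) (nat_lit 4) (nat_lit 247) (nat_lit 210) (nat_lit 203)) (XT.lf (nat_lit 0) (nat_lit 16921944606) (nat_lit 76) (nat_lit 24888910821) (nat_lit 76) (nat_lit 22274274667) (nat_lit 3) (nat_lit 4) (nat_lit 4) (nat_lit 5) (nat_lit 4) (nat_lit 4) (nat_lit 248) (nat_lit 210) (nat_lit 202))) (XT.nd (nat_lit 78) (nat_lit 0) (nat_lit 0) (XT.lf (nat_lit 0) (nat_lit 28835798363) (nat_lit 76) (nat_lit 23620451149) (nat_lit 76) (nat_lit 20840183275) (nat_lit 3) (nat_lit 4) (nat_lit 4) (nat_lit 5) (nat_lit 4) (nat_lit 4) (nat_lit 249) (nat_lit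 210) (nat_lit 201)) (XT.nd (nat_lit 78) (nat_lit 0) (nat_lit 0) (XT.lf (nat_lit 0) (nat_lit 42072846787) (nat_lit 76) (nat_lit 22380371651) (nat_lit 76) (nat_lit 19456076194) (nat_lit 3) (nat_lit 4) (nat_lit 4) (nat_lit 5) (nat_lit 4) (nat_lit 4) (nat_lit 250) (nat_lit 210) (nat_lit 200)) (XT.lf (nat_lit 0) (nat_lit 56892075606) (nat_lit 76) (nat_lit 21144409901) (nat_lit 76) (nat_lit 18094873068) (nat_lit 3) (nat_lit 4) (nat_lit 4) (nat_lit 5) (nat_lit 4) (nat_lit 4) (nat_lit 251) (nat_lit 210) (nat_lit 199))))) (XT.nd (nat_lit 234) (nat_lit 0) (nat_lit 0) (XT.nd (nat_lit 78) (nat_lit 0) (nat_lit 0) (XT.lf (nat_lit 0) (nat_lit 73583426255) (nat_lit 76) (nat_lit 19888384040) (nat_lit 76) (nat_lit 16729941663) (nat_lit 3) (nat_lit 4) (nat_lit 4) (nat_lit 5) (nat_lit 4) (nat_lit 4) (nat_lit 252) (nat_lit 210) (nat_lit 198)) (XT.nd (nat_lit 78) (nat_lit 0) (nat_lit 0) (XT.lf (nat_lit 0)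 (nat_lit 92473468639) (nat_lit 76) (nat_lit 18587719648) (nat_lit 76) (nat_lit 15334576797) (nat_lit 3) (nat_lit 4) (nat_lit 4) (nat_lit 5) (nat_lit 4) (nat_lit 4) (nat_lit 253) (nat_lit 210) (nat_lit 197)) (XT.lf (nat_lit 0) (nat_lit 113931790541) (nat_lit 76) (nat_lit 17216968944) (nat_lit 76) (nat_lit 13881477856) (nat_lit 3) (nat_lit 4) (nat_lit 4) (nat_lit 5) (nat_lit 4) (nat_lit 4) (nat_lit 254) (nat_lit 210) (nat_lit 196)))) (XT.nd (nat_lit 78) (nat_lit 0) (nat_lit 0) (XT.lf (nat_lit 0) (nat_lit 138378228696) (nat_lit 76) (nat_lit 15749312893) (nat_lit 76) (nat_lit 12342214641) (nat_lit 3) (nat_lit 4) (nat_lit 4) (nat_lit 5) (nat_lit 4) (nat_lit 4) (nat_lit 255) (nat_lit 210) (nat_lit 195)) (XT.nd (nat_lit 78) (nat_lit 0) (nat_lit 0) (XT.lf (nat_lit 0) (nat_lit 166291082980) (nat_lit 76) (nat_lit 14156036484) (nat_lit 76) (nat_lit 10686671133) (nat_lit 3) (nat_lit 4) (nat_lit 4)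 (nat_lit 5) (nat_lit 4) (nat_lit 4) (nat_lit 256) (nat_lit 210) (nat_lit 194)) (XT.lf (nat_lit 0) (nat_lit 198216474456) (nat_lit 76) (nat_lit 12405966918) (nat_lit 76) (nat_lit 8882456264) (nat_lit 3) (nat_lit 4) (nat_lit 4) (nat_lit 5) (nat_lit 4) (nat_lit 4) (nat_lit 257) (nat_lit 210) (nat_lit 193)))))) (XT.nd (nat_lit 390) (nat_lit 0) (nat_lit 0) (XT.nd (nat_lit 156) (nat_lit 152) (nat_lit 0) (XT.nd (nat_lit 78) (nat_lit 0) (nat_lit 0) (XT.lf (nat_lit 0) (nat_lit 234779030347) (nat_lit 76) (nat_lit 10464863704) (nat_lit 76) (nat_lit 6894270178) (nat_lit 3) (nat_lit 4) (nat_lit 4) (nat_lit 5) (nat_lit 4) (nat_lit 4) (nat_lit 258) (nat_lit 210) (nat_lit 192)) (XT.lf (nat_lit 0) (nat_lit 276694105009) (nat_lit 76) (nat_lit 8294748735) (nat_lit 76) (nat_lit 4683213581) (nat_lit 3) (nat_lit 4) (nat_lit 4) (nat_lit 5) (nat_lit 4) (nat_lit 4) (nat_lit 259) (nat_lit 210) (nat_lit 191)))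 (XT.nd (nat_lit 78) (nat_lit 152) (nat_lit 0) (XT.lf (nat_lit 0) (nat_lit 324781775988) (nat_lit 76) (nat_lit 5853163241) (nat_lit 76) (nat_lit 2206026671) (nat_lit 3) (nat_lit 4) (nat_lit 4) (nat_lit 5) (nat_lit 4) (nat_lit 4) (nat_lit 260) (nat_lit 210) (nat_lit 190)) (XT.nd (nat_lit 78) (nat_lit 76) (nat_lit 0) (XT.lf (nat_lit 0) (nat_lit 556455302) (nat_lit 152) (nat_lit 2520667293) (nat_lit 76) (nat_lit 379411219246) (nat_lit 2) (nat_lit 5) (nat_lit 4) (nat_lit 5) (nat_lit 3) (nat_lit 4) (nat_lit 261) (nat_lit 210) (nat_lit 189)) (XT.lf (nat_lit 0) (nat_lit 3658738681) (nat_lit 152) (nat_lit 435686889839) (nat_lit 0) (nat_lit 228170063) (nat_lit 1) (nat_lit 5) (nat_lit 3) (nat_lit 4) (nat_lit 1) (nat_lit 4) (nat_lit 262) (nat_lit 210) (nat_lit 188))))) (XT.nd (nat_lit 234) (nat_lit 0) (nat_lit 0) (XT.nd (nat_lit 78) (nat_lit 0) (nat_lit 0) (XT.lf (nat_lit 0) (nat_lit 7342935521)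 (nat_lit 152) (nat_lit 493979157151) (nat_lit 0) (nat_lit 3890692358) (nat_lit 1) (nat_lit 5) (nat_lit 3) (nat_lit 4) (nat_lit 1) (nat_lit 4) (nat_lit 263) (nat_lit 210) (nat_lit 187)) (XT.nd (nat_lit 78) (nat_lit 0) (nat_lit 0) (XT.lf (nat_lit 0) (nat_lit 11541651184) (nat_lit 152) (nat_lit 561088488587) (nat_lit 0) (nat_lit 8070560590) (nat_lit 1) (nat_lit 5) (nat_lit 3) (nat_lit 4) (nat_lit 1) (nat_lit 4) (nat_lit 264) (nat_lit 210) (nat_lit 186)) (XT.lf (nat_lit 0) (nat_lit 16337034455) (nat_lit 152) (nat_lit 638327892806) (nat_lit 0) (nat_lit 12849554791) (nat_lit 1) (nat_lit 5) (nat_lit 3) (nat_lit 4) (nat_lit 1) (nat_lit 4) (nat_lit 265) (nat_lit 210) (nat_lit 185)))) (XT.nd (nat_lit 78) (nat_lit 0) (nat_lit 0) (XT.lf (nat_lit 0) (nat_lit 21822908049) (nat_lit 152) (nat_lit 727208575541) (nat_lit 0) (nat_lit 18321177020) (nat_lit 1) (nat_lit 5) (nat_lit 3) (nat_lit 4) (nat_lit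 1) (nat_lit 4) (nat_lit 266) (nat_lit 210) (nat_lit 184)) (XT.nd (nat_lit 78) (nat_lit 0) (nat_lit 0) (XT.lf (nat_lit 0) (nat_lit 28106604278) (nat_lit 152) (nat_lit 829469506674) (nat_lit 0) (nat_lit 24592480757) (nat_lit 1) (nat_lit 5) (nat_lit 3) (nat_lit 4) (nat_lit 1) (nat_lit 4) (nat_lit 267) (nat_lit 210) (nat_lit 183)) (XT.lf (nat_lit 0) (nat_lit 35311065022) (nat_lit 152) (nat_lit 947111443552) (nat_lit 0) (nat_lit 31786165422) (nat_lit 1) (nat_lit 5) (nat_lit 3) (nat_lit 4) (nat_lit 1) (nat_lit 4) (nat_lit 268) (nat_lit 210) (nat_lit 182))))))))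
noncomputable def xc12 : XT := (XT.nd (nat_lit 32448) (nat_lit 0) (nat_lit 0) (XT.nd (nat_lit 858) (nat_lit 0) (nat_lit 0) (XT.nd (nat_lit 390) (nat_lit 0) (nat_lit 0) (XT.nd (nat_lit 156) (nat_lit 0) (nat_lit 0) (XT.nd (nat_lit 78) (nat_lit 0) (nat_lit 0) (XT.lf (nat_lit 0) (nat_lit 43577247123) (nat_lit 152) (nat_lit 1082436076244) (nat_lit 0) (nat_lit 40042977018) (nat_lit 1) (nat_lit 5) (nat_lit 3) (nat_lit 4) (nat_lit 1) (nat_lit 4) (nat_lit 269) (nat_lit 210) (nat_lit 181)) (XT.lf (nat_lit 0) (nat_lit 53066880230) (nat_lit 152) (nat_lit 1238091060608) (nat_lit 0) (nat_lit 49524461861) (nat_lit 1) (nat_lit 5) (nat_lit 3) (nat_lit 4) (nat_lit 1) (nat_lit 4) (nat_lit 270) (nat_lit 210) (nat_lit 180))) (XT.nd (nat_lit 78) (nat_lit 0) (nat_lit 0) (XT.lf (nat_lit 0) (nat_lit 63965631079) (nat_lit 152) (nat_lit 1417121820250) (nat_lit 0) (nat_lit 60416127263) (nat_lit 1) (nat_lit 5) (nat_lit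 3) (nat_lit 4) (nat_lit 1) (nat_lit 4) (nat_lit 271) (nat_lit 210) (nat_lit 179)) (XT.nd (nat_lit 78) (nat_lit 0) (nat_lit 0) (XT.lf (nat_lit 0) (nat_lit 76486736098) (nat_lit 152) (nat_lit 1623031130903) (nat_lit 0) (nat_lit 72931071024) (nat_lit 1) (nat_lit 5) (nat_lit 3) (nat_lit 4) (nat_lit 1) (nat_lit 4) (nat_lit 272) (nat_lit 210) (nat_lit 178)) (XT.lf (nat_lit 0) (nat_lit 90875173430) (nat_lit 152) (nat_lit 1859847652993) (nat_lit 0) (nat_lit 87314150740) (nat_lit 1) (nat_lit 5) (nat_lit 3) (nat_lit 4) (nat_lit 1) (nat_lit 4) (nat_lit 273) (nat_lit 210) (nat_lit 177))))) (XT.nd (nat_lit 234) (nat_lit 0) (nat_lit 0) (XT.nd (nat_lit 78) (nat_lit 0) (nat_lit 0) (XT.lf (nat_lit 0) (nat_lit 107412455979) (nat_lit 152) (nat_lit 2132204753255) (nat_lit 0) (nat_lit 103846774492) (nat_lit 1) (nat_lit 5) (nat_lit 3) (nat_lit 4) (nat_lit 1) (nat_lit 4) (nat_lit 274) (nat_lit 210) (nat_lit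 176)) (XT.nd (nat_lit 78) (nat_lit 0) (nat_lit 0) (XT.lf (nat_lit 0) (nat_lit 126422139273) (nat_lit 152) (nat_lit 2445431157566) (nat_lit 0) (nat_lit 122852406659) (nat_lit 1) (nat_lit 5) (nat_lit 3) (nat_lit 4) (nat_lit 1) (nat_lit 4) (nat_lit 275) (nat_lit 210) (nat_lit 175)) (XT.lf (nat_lit 0) (nat_lit 148276151898) (nat_lit 152) (nat_lit 2805655208617) (nat_lit 0) (nat_lit 144702896565) (nat_lit 1) (nat_lit 5) (nat_lit 3) (nat_lit 4) (nat_lit 1) (nat_lit 4) (nat_lit 276) (nat_lit 210) (nat_lit 174)))) (XT.nd (nat_lit 78) (nat_lit 0) (nat_lit 0) (XT.lf (nat_lit 0) (nat_lit 173402072363) (nat_lit 152) (nat_lit 3219924768278) (nat_lit 0) (nat_lit 169825753795) (nat_lit 1) (nat_lit 5) (nat_lit 3) (nat_lit 4) (nat_lit 1) (nat_lit 4) (nat_lit 277) (nat_lit 210) (nat_lit 173)) (XT.nd (nat_lit 78) (nat_lit 0) (nat_lit 0) (XT.lf (nat_lit 0) (nat_lit 202291494762) (nat_lit 152) (nat_lit 3696345110541)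 (nat_lit 0) (nat_lit 198712512512) (nat_lit 1) (nat_lit 5) (nat_lit 3) (nat_lit 4) (nat_lit 1) (nat_lit 4) (nat_lit 278) (nat_lit 210) (nat_lit 172)) (XT.lf (nat_lit 0) (nat_lit 235509646926) (nat_lit 152) (nat_lit 4244237502973) (nat_lit 0) (nat_lit 231928348431) (nat_lit 1) (nat_lit 5) (nat_lit 3) (nat_lit 4) (nat_lit 1) (nat_lit 4) (nat_lit 279) (nat_lit 210) (nat_lit 171)))))) (XT.nd (nat_lit 31122) (nat_lit 0) (nat_lit 228) (XT.nd (nat_lit 156) (nat_lit 0) (nat_lit 0) (XT.nd (nat_lit 78) (nat_lit 0) (nat_lit 0) (XT.lf (nat_lit 0) (nat_lit 273706449224) (nat_lit 152) (nat_lit 4874321579338) (nat_lit 0) (nat_lit 270123136602) (nat_lit 1) (nat_lit 5) (nat_lit 3) (nat_lit 4) (nat_lit 1) (nat_lit 4) (nat_lit 280) (nat_lit 210) (nat_lit 170)) (XT.lf (nat_lit 0) (nat_lit 317629230395) (nat_lit 152) (nat_lit 5598925071566) (nat_lit 0) (nat_lit 314044166359) (nat_lit 1) (nat_lit 5) (nat_lit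 3) (nat_lit 4) (nat_lit 1) (nat_lit 4) (nat_lit 281) (nat_lit 210) (nat_lit 169))) (XT.nd (nat_lit 78) (nat_lit 0) (nat_lit 0) (XT.lf (nat_lit 0) (nat_lit 368137349201) (nat_lit 152) (nat_lit 6432225004504) (nat_lit 0) (nat_lit 364550762197) (nat_lit 1) (nat_lit 5) (nat_lit 3) (nat_lit 4) (nat_lit 1) (nat_lit 4) (nat_lit 282) (nat_lit 210) (nat_lit 168)) (XT.nd (nat_lit 78) (nat_lit 0) (nat_lit 0) (XT.lf (nat_lit 0) (nat_lit 426219007968) (nat_lit 152) (nat_lit 7390525072492) (nat_lit 0) (nat_lit 422631096643) (nat_lit 1) (nat_lit 5) (nat_lit 3) (nat_lit 4) (nat_lit 1) (nat_lit 4) (nat_lit 283) (nat_lit 210) (nat_lit 167)) (XT.lf (nat_lit 0) (nat_lit 493010586976) (nat_lit 152) (nat_lit 8492574624688) (nat_lit 0) (nat_lit 489421524067) (nat_lit 1) (nat_lit 5) (nat_lit 3) (nat_lit 4) (nat_lit 1) (nat_lit 4) (nat_lit 284) (nat_lit 210) (nat_lit 166))))) (XT.nd (nat_lit 234) (nat_lit 228)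 (nat_lit 0) (XT.nd (nat_lit 78) (nat_lit 152) (nat_lit 0) (XT.lf (nat_lit 0) (nat_lit 4729443119) (nat_lit 76) (nat_lit 2307677365) (nat_lit 76) (nat_lit 2307677365) (nat_lit 9) (nat_lit 4) (nat_lit 10) (nat_lit 5) (nat_lit 10) (nat_lit 4) (nat_lit 238) (nat_lit 211) (nat_lit 211)) (XT.nd (nat_lit 78) (nat_lit 0) (nat_lit 0) (XT.lf (nat_lit 0) (nat_lit 2267507151) (nat_lit 152) (nat_lit 16943897987) (nat_lit 0) (nat_lit 1638221498) (nat_lit 7) (nat_lit 5) (nat_lit 9) (nat_lit 4) (nat_lit 7) (nat_lit 4) (nat_lit 239) (nat_lit 211) (nat_lit 210)) (XT.lf (nat_lit 0) (nat_lit 9603706383) (nat_lit 152) (nat_lit 5318545431) (nat_lit 0) (nat_lit 8427215814) (nat_lit 7) (nat_lit 5) (nat_lit 9) (nat_lit 4) (nat_lit 7) (nat_lit 4) (nat_lit 240) (nat_lit 211) (nat_lit 209)))) (XT.nd (nat_lit 78) (nat_lit 152) (nat_lit 0) (XT.lf (nat_lit 0) (nat_lit 7270190124) (nat_lit 76) (nat_lit 10321556078)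 (nat_lit 76) (nat_lit 8669235147) (nat_lit 6) (nat_lit 4) (nat_lit 7) (nat_lit 5) (nat_lit 7) (nat_lit 4) (nat_lit 241) (nat_lit 211) (nat_lit 208)) (XT.nd (nat_lit 78) (nat_lit 152) (nat_lit 0) (XT.lf (nat_lit 0) (nat_lit 21022049452) (nat_lit 76) (nat_lit 5343479998) (nat_lit 76) (nat_lit 3277393536) (nat_lit 6) (nat_lit 4) (nat_lit 7) (nat_lit 5) (nat_lit 7) (nat_lit 4) (nat_lit 242) (nat_lit 211) (nat_lit 207)) (XT.lf (nat_lit 0) (nat_lit 2330558919) (nat_lit 152) (nat_lit 31147882737) (nat_lit 0) (nat_lit 84371347) (nat_lit 4) (nat_lit 5) (nat_lit 6) (nat_lit 4) (nat_lit 4) (nat_lit 4) (nat_lit 243) (nat_lit 211) (nat_lit 206))))))) (XT.nd (nat_lit 858) (nat_lit 152) (nat_lit 0) (XT.nd (nat_lit 390) (nat_lit 0) (nat_lit 0) (XT.nd (nat_lit 156) (nat_lit 76) (nat_lit 0) (XT.nd (nat_lit 78) (nat_lit 0) (nat_lit 0) (XT.lf (nat_lit 0) (nat_lit 8525643329) (nat_lit 152) (nat_lit 23553761185)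 (nat_lit 0) (nat_lit 5989764844) (nat_lit 4) (nat_lit 5) (nat_lit 6) (nat_lit 4) (nat_lit 4) (nat_lit 4) (nat_lit 244) (nat_lit 211) (nat_lit 205)) (XT.lf (nat_lit 0) (nat_lit 15240586750) (nat_lit 152) (nat_lit 15591270100) (nat_lit 0) (nat_lit 12452803123) (nat_lit 4) (nat_lit 5) (nat_lit 6) (nat_lit 4) (nat_lit 4) (nat_lit 4) (nat_lit 245) (nat_lit 211) (nat_lit 204))) (XT.nd (nat_lit 78) (nat_lit 76) (nat_lit 0) (XT.lf (nat_lit 0) (nat_lit 22606768510) (nat_lit 152) (nat_lit 7104621613) (nat_lit 0) (nat_lit 19599936933) (nat_lit 4) (nat_lit 5) (nat_lit 6) (nat_lit 4) (nat_lit 4) (nat_lit 4) (nat_lit 246) (nat_lit 211) (nat_lit 203)) (XT.nd (nat_lit 78) (nat_lit 0) (nat_lit 0) (XT.lf (nat_lit 0) (nat_lit 2181347218) (nat_lit 76) (nat_lit 28639423791) (nat_lit 76) (nat_lit 25442115735) (nat_lit 3) (nat_lit 4) (nat_lit 4) (nat_lit 5) (nat_lit 4) (nat_lit 4) (nat_lit 247) (nat_lit 211)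 (nat_lit 202)) (XT.lf (nat_lit 0) (nat_lit 12756979770) (nat_lit 76) (nat_lit 27434718113) (nat_lit 76) (nat_lit 24071778338) (nat_lit 3) (nat_lit 4) (nat_lit 4) (nat_lit 5) (nat_lit 4) (nat_lit 4) (nat_lit 248) (nat_lit 211) (nat_lit 201))))) (XT.nd (nat_lit 234) (nat_lit 0) (nat_lit 0) (XT.nd (nat_lit 78) (nat_lit 0) (nat_lit 0) (XT.lf (nat_lit 0) (nat_lit 24455073808) (nat_lit 76) (nat_lit 26267955708) (nat_lit 76) (nat_lit 22760988351) (nat_lit 3) (nat_lit 4) (nat_lit 4) (nat_lit 5) (nat_lit 4) (nat_lit 4) (nat_lit 249) (nat_lit 211) (nat_lit 200)) (XT.nd (nat_lit 78) (nat_lit 0) (nat_lit 0) (XT.lf (nat_lit 0) (nat_lit 37504505083) (nat_lit 76) (nat_lit 25116308617) (nat_lit 76) (nat_lit 21484099882) (nat_lit 3) (nat_lit 4) (nat_lit 4) (nat_lit 5) (nat_lit 4) (nat_lit 4) (nat_lit 250) (nat_lit 211) (nat_lit 199)) (XT.lf (nat_lit 0) (nat_lit 52160588557) (nat_lit 76) (nat_lit 23957244612)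 (nat_lit 76) (nat_lit 20216130333) (nat_lit 3) (nat_lit 4) (nat_lit 4) (nat_lit 5) (nat_lit 4) (nat_lit 4) (nat_lit 251) (nat_lit 211) (nat_lit 198)))) (XT.nd (nat_lit 78) (nat_lit 0) (nat_lit 0) (XT.lf (nat_lit 0) (nat_lit 68710073689) (nat_lit 76) (nat_lit 22768086354) (nat_lit 76) (nat_lit 18932271602) (nat_lit 3) (nat_lit 4) (nat_lit 4) (nat_lit 5) (nat_lit 4) (nat_lit 4) (nat_lit 252) (nat_lit 211) (nat_lit 197)) (XT.nd (nat_lit 78) (nat_lit 0) (nat_lit 0) (XT.lf (nat_lit 0) (nat_lit 87476754752) (nat_lit 76) (nat_lit 21525567705) (nat_lit 76) (nat_lit 17607404715) (nat_lit 3) (nat_lit 4) (nat_lit 4) (nat_lit 5) (nat_lit 4) (nat_lit 4) (nat_lit 253) (nat_lit 211) (nat_lit 196)) (XT.lf (nat_lit 0) (nat_lit 108827805941) (nat_lit 76) (nat_lit 20205378517) (nat_lit 76) (nat_lit 16215608363) (nat_lit 3) (nat_lit 4) (nat_lit 4) (nat_lit 5) (nat_lit 4) (nat_lit 4) (nat_lit 254) (nat_lit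 211) (nat_lit 195)))))) (XT.nd (nat_lit 390) (nat_lit 152) (nat_lit 0) (XT.nd (nat_lit 156) (nat_lit 0) (nat_lit 0) (XT.nd (nat_lit 78) (nat_lit 0) (nat_lit 0) (XT.lf (nat_lit 0) (nat_lit 133180965215) (nat_lit 76) (nat_lit 18781689000) (nat_lit 76) (nat_lit 14729651748) (nat_lit 3) (nat_lit 4) (nat_lit 4) (nat_lit 5) (nat_lit 4) (nat_lit 4) (nat_lit 255) (nat_lit 211) (nat_lit 194)) (XT.lf (nat_lit 0) (nat_lit 161012707429) (nat_lit 76) (nat_lit 17226644361) (nat_lit 76) (nat_lit 13120461806) (nat_lit 3) (nat_lit 4) (nat_lit 4) (nat_lit 5) (nat_lit 4) (nat_lit 4) (nat_lit 256) (nat_lit 211) (nat_lit 193))) (XT.nd (nat_lit 78) (nat_lit 0) (nat_lit 0) (XT.lf (nat_lit 0) (nat_lit 192867566669) (nat_lit 76) (nat_lit 15509819812) (nat_lit 76) (nat_lit 11356554385) (nat_lit 3) (nat_lit 4) (nat_lit 4) (nat_lit 5) (nat_lit 4) (nat_lit 4) (nat_lit 257) (nat_lit 211) (nat_lit 192)) (XT.nd (nat_lit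 78) (nat_lit 0) (nat_lit 0) (XT.lf (nat_lit 0) (nat_lit 229368790182) (nat_lit 76) (nat_lit 13597625308) (nat_lit 76) (nat_lit 9403418253) (nat_lit 3) (nat_lit 4) (nat_lit 4) (nat_lit 5) (nat_lit 4) (nat_lit 4) (nat_lit 258) (nat_lit 211) (nat_lit 191)) (XT.lf (nat_lit 0) (nat_lit 271230532341) (nat_lit 76) (nat_lit 11452648349) (nat_lit 76) (nat_lit 7222839878) (nat_lit 3) (nat_lit 4) (nat_lit 4) (nat_lit 5) (nat_lit 4) (nat_lit 4) (nat_lit 259) (nat_lit 211) (nat_lit 190))))) (XT.nd (nat_lit 234) (nat_lit 76) (nat_lit 0) (XT.nd (nat_lit 78) (nat_lit 76) (nat_lit 0) (XT.lf (nat_lit 0) (nat_lit 319271827231) (nat_lit 76) (nat_lit 9032921993) (nat_lit 76) (nat_lit 4772155769) (nat_lit 3) (nat_lit 4) (nat_lit 4) (nat_lit 5) (nat_lit 4) (nat_lit 4) (nat_lit 260) (nat_lit 211) (nat_lit 189)) (XT.nd (nat_lit 78) (nat_lit 76) (nat_lit 0) (XT.lf (nat_lit 0) (nat_lit 374432613231) (nat_lit 76)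 (nat_lit 6291103768) (nat_lit 76) (nat_lit 2003417759) (nat_lit 3) (nat_lit 4) (nat_lit 4) (nat_lit 5) (nat_lit 4) (nat_lit 4) (nat_lit 261) (nat_lit 211) (nat_lit 188)) (XT.lf (nat_lit 0) (nat_lit 1080640498) (nat_lit 152) (nat_lit 2063362280) (nat_lit 76) (nat_lit 436681935986) (nat_lit 2) (nat_lit 5) (nat_lit 4) (nat_lit 5) (nat_lit 3) (nat_lit 4) (nat_lit 262) (nat_lit 211) (nat_lit 187)))) (XT.nd (nat_lit 78) (nat_lit 0) (nat_lit 0) (XT.lf (nat_lit 0) (nat_lit 4617904262) (nat_lit 152) (nat_lit 500251487859) (nat_lit 0) (nat_lit 607302648) (nat_lit 1) (nat_lit 5) (nat_lit 3) (nat_lit 4) (nat_lit 1) (nat_lit 4) (nat_lit 263) (nat_lit 211) (nat_lit 186)) (XT.nd (nat_lit 78) (nat_lit 0) (nat_lit 0) (XT.lf (nat_lit 0) (nat_lit 8801206091) (nat_lit 152) (nat_lit 567390434675) (nat_lit 0) (nat_lit 4774215408) (nat_lit 1) (nat_lit 5) (nat_lit 3) (nat_lit 4) (nat_lit 1) (nat_lit 4) (nat_lit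 264) (nat_lit 211) (nat_lit 185)) (XT.lf (nat_lit 0) (nat_lit 13583186029) (nat_lit 152) (nat_lit 644655591398) (nat_lit 0) (nat_lit 9541943980) (nat_lit 1) (nat_lit 5) (nat_lit 3) (nat_lit 4) (nat_lit 1) (nat_lit 4) (nat_lit 265) (nat_lit 211) (nat_lit 184))))))))
noncomputable def xc13 : XT := (XT.nd (nat_lit 32292) (nat_lit 0) (nat_lit 152) (XT.nd (nat_lit 858) (nat_lit 0) (nat_lit 0) (XT.nd (nat_lit 390) (nat_lit 0) (nat_lit 0) (XT.nd (nat_lit 156) (nat_lit 0) (nat_lit 0) (XT.nd (nat_lit 78) (nat_lit 0) (nat_lit 0) (XT.lf (nat_lit 0) (nat_lit 19057404551) (nat_lit 152) (nat_lit 733558667616) (nat_lit 0) (nat_lit 15003770011) (nat_lit 1) (nat_lit 5) (nat_lit 3) (nat_lit 4) (nat_lit 1) (nat_lit 4) (nat_lit 266) (nat_lit 211) (nat_lit 183)) (XT.lf (nat_lit 0) (nat_lit 25330965934) (nat_lit 152) (nat_lit 835839071342) (nat_lit 0) (nat_lit 21266555314) (nat_lit 1) (nat_lit 5) (nat_lit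 3) (nat_lit 4) (nat_lit 1) (nat_lit 4) (nat_lit 267) (nat_lit 211) (nat_lit 182))) (XT.nd (nat_lit 78) (nat_lit 0) (nat_lit 0) (XT.lf (nat_lit 0) (nat_lit 32526613768) (nat_lit 152) (nat_lit 953497940909) (nat_lit 0) (nat_lit 28452832645) (nat_lit 1) (nat_lit 5) (nat_lit 3) (nat_lit 4) (nat_lit 1) (nat_lit 4) (nat_lit 268) (nat_lit 211) (nat_lit 181)) (XT.nd (nat_lit 78) (nat_lit 0) (nat_lit 0) (XT.lf (nat_lit 0) (nat_lit 40785132470) (nat_lit 152) (nat_lit 1088837297679) (nat_lit 0) (nat_lit 36703203082) (nat_lit 1) (nat_lit 5) (nat_lit 3) (nat_lit 4) (nat_lit 1) (nat_lit 4) (nat_lit 269) (nat_lit 211) (nat_lit 180)) (XT.lf (nat_lit 0) (nat_lit 50268101752) (nat_lit 152) (nat_lit 1244505085589) (nat_lit 0) (nat_lit 46179086917) (nat_lit 1) (nat_lit 5) (nat_lit 3) (nat_lit 4) (nat_lit 1) (nat_lit 4) (nat_lit 270) (nat_lit 211) (nat_lit 179))))) (XT.nd (nat_lit 234) (nat_lit 0) (nat_lit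 0) (XT.nd (nat_lit 78) (nat_lit 0) (nat_lit 0) (XT.lf (nat_lit 0) (nat_lit 61161057970) (nat_lit 152) (nat_lit 1423546978750) (nat_lit 0) (nat_lit 57065881876) (nat_lit 1) (nat_lit 5) (nat_lit 3) (nat_lit 4) (nat_lit 1) (nat_lit 4) (nat_lit 271) (nat_lit 211) (nat_lit 178)) (XT.nd (nat_lit 78) (nat_lit 0) (nat_lit 0) (XT.lf (nat_lit 0) (nat_lit 73677124180) (nat_lit 152) (nat_lit 1629465970723) (nat_lit 0) (nat_lit 69576590470) (nat_lit 1) (nat_lit 5) (nat_lit 3) (nat_lit 4) (nat_lit 1) (nat_lit 4) (nat_lit 272) (nat_lit 211) (nat_lit 177)) (XT.lf (nat_lit 0) (nat_lit 88061179938) (nat_lit 152) (nat_lit 1866290911352) (nat_lit 0) (nat_lit 83955987432) (nat_lit 1) (nat_lit 5) (nat_lit 3) (nat_lit 4) (nat_lit 1) (nat_lit 4) (nat_lit 273) (nat_lit 211) (nat_lit 176)))) (XT.nd (nat_lit 78) (nat_lit 0) (nat_lit 0) (XT.lf (nat_lit 0) (nat_lit 104594652423) (nat_lit 152) (nat_lit 2138655332084)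 (nat_lit 0) (nat_lit 100485408790) (nat_lit 1) (nat_lit 5) (nat_lit 3) (nat_lit 4) (nat_lit 1) (nat_lit 4) (nat_lit 274) (nat_lit 211) (nat_lit 175)) (XT.nd (nat_lit 78) (nat_lit 0) (nat_lit 0) (XT.lf (nat_lit 0) (nat_lit 123601022618) (nat_lit 152) (nat_lit 2451888102020) (nat_lit 0) (nat_lit 119488256265) (nat_lit 1) (nat_lit 5) (nat_lit 3) (nat_lit 4) (nat_lit 1) (nat_lit 4) (nat_lit 275) (nat_lit 211) (nat_lit 174)) (XT.lf (nat_lit 0) (nat_lit 145452154288) (nat_lit 152) (nat_lit 2812117688397) (nat_lit 0) (nat_lit 141336324700) (nat_lit 1) (nat_lit 5) (nat_lit 3) (nat_lit 4) (nat_lit 1) (nat_lit 4) (nat_lit 276) (nat_lit 211) (nat_lit 173)))))) (XT.nd (nat_lit 390) (nat_lit 0) (nat_lit 0) (XT.nd (nat_lit 156) (nat_lit 0) (nat_lit 0) (XT.nd (nat_lit 78) (nat_lit 0) (nat_lit 0) (XT.lf (nat_lit 0) (nat_lit 170575569573) (nat_lit 152) (nat_lit 3226392061385) (nat_lit 0) (nat_lit 166457076304)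 (nat_lit 1) (nat_lit 5) (nat_lit 3) (nat_lit 4) (nat_lit 1) (nat_lit 4) (nat_lit 277) (nat_lit 211) (nat_lit 172)) (XT.lf (nat_lit 0) (nat_lit 199462813556) (nat_lit 152) (nat_lit 3702816589150) (nat_lit 0) (nat_lit 195342004041) (nat_lit 1) (nat_lit 5) (nat_lit 3) (nat_lit 4) (nat_lit 1) (nat_lit 4) (nat_lit 278) (nat_lit 211) (nat_lit 171))) (XT.nd (nat_lit 78) (nat_lit 0) (nat_lit 0) (XT.lf (nat_lit 0) (nat_lit 232679071446) (nat_lit 152) (nat_lit 4250712621149) (nat_lit 0) (nat_lit 228556247804) (nat_lit 1) (nat_lit 5) (nat_lit 3) (nat_lit 4) (nat_lit 1) (nat_lit 4) (nat_lit 279) (nat_lit 211) (nat_lit 170)) (XT.nd (nat_lit 78) (nat_lit 0) (nat_lit 0) (XT.lf (nat_lit 0) (nat_lit 270874226547) (nat_lit 152) (nat_lit 4880799862355) (nat_lit 0) (nat_lit 266749651491) (nat_lit 1) (nat_lit 5) (nat_lit 3) (nat_lit 4) (nat_lit 1) (nat_lit 4) (nat_lit 280) (nat_lit 211) (nat_lit 169)) (XT.lf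 (nat_lit 0) (nat_lit 314795575374) (nat_lit 152) (nat_lit 5605406106618) (nat_lit 0) (nat_lit 310669477349) (nat_lit 1) (nat_lit 5) (nat_lit 3) (nat_lit 4) (nat_lit 1) (nat_lit 4) (nat_lit 281) (nat_lit 211) (nat_lit 168))))) (XT.nd (nat_lit 30810) (nat_lit 0) (nat_lit 608) (XT.nd (nat_lit 78) (nat_lit 0) (nat_lit 0) (XT.lf (nat_lit 0) (nat_lit 365302448664) (nat_lit 152) (nat_lit 6438708432630) (nat_lit 0) (nat_lit 361175026319) (nat_lit 1) (nat_lit 5) (nat_lit 3) (nat_lit 4) (nat_lit 1) (nat_lit 4) (nat_lit 282) (nat_lit 211) (nat_lit 167)) (XT.nd (nat_lit 78) (nat_lit 0) (nat_lit 0) (XT.lf (nat_lit 0) (nat_lit 423383024373) (nat_lit 152) (nat_lit 7397010581553) (nat_lit 0) (nat_lit 419254450445) (nat_lit 1) (nat_lit 5) (nat_lit 3) (nat_lit 4) (nat_lit 1) (nat_lit 4) (nat_lit 283) (nat_lit 211) (nat_lit 166)) (XT.lf (nat_lit 0) (nat_lit 490173661591) (nat_lit 152) (nat_lit 8499061943256)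 (nat_lit 0) (nat_lit 486044086286) (nat_lit 1) (nat_lit 5) (nat_lit 3) (nat_lit 4) (nat_lit 1) (nat_lit 4) (nat_lit 284) (nat_lit 211) (nat_lit 165)))) (XT.nd (nat_lit 78) (nat_lit 228) (nat_lit 0) (XT.lf (nat_lit 0) (nat_lit 6674425172) (nat_lit 76) (nat_lit 472594746) (nat_lit 76) (nat_lit 472594746) (nat_lit 12) (nat_lit 4) (nat_lit 13) (nat_lit 5) (nat_lit 13) (nat_lit 4) (nat_lit 236) (nat_lit 212) (nat_lit 212)) (XT.nd (nat_lit 78) (nat_lit 76) (nat_lit 0) (XT.lf (nat_lit 0) (nat_lit 6464423145) (nat_lit 152) (nat_lit 4694661011) (nat_lit 0) (nat_lit 5682850364) (nat_lit 10) (nat_lit 5) (nat_lit 12) (nat_lit 4) (nat_lit 10) (nat_lit 4) (nat_lit 237) (nat_lit 212) (nat_lit 211)) (XT.lf (nat_lit 0) (nat_lit 8831886618) (nat_lit 76) (nat_lit 5673731859) (nat_lit 76) (nat_lit 4212530572) (nat_lit 9) (nat_lit 4) (nat_lit 10) (nat_lit 5) (nat_lit 10) (nat_lit 4) (nat_lit 238) (nat_lit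 212) (nat_lit 210))))))) (XT.nd (nat_lit 858) (nat_lit 0) (nat_lit 0) (XT.nd (nat_lit 390) (nat_lit 152) (nat_lit 0) (XT.nd (nat_lit 156) (nat_lit 152) (nat_lit 0) (XT.nd (nat_lit 78) (nat_lit 0) (nat_lit 0) (XT.lf (nat_lit 0) (nat_lit 2274232474) (nat_lit 152) (nat_lit 18259617862) (nat_lit 0) (nat_lit 374063404) (nat_lit 7) (nat_lit 5) (nat_lit 9) (nat_lit 4) (nat_lit 7) (nat_lit 4) (nat_lit 239) (nat_lit 212) (nat_lit 209)) (XT.lf (nat_lit 0) (nat_lit 9320460755) (nat_lit 152) (nat_lit 7166406812) (nat_lit 0) (nat_lit 6944461323) (nat_lit 7) (nat_lit 5) (nat_lit 9) (nat_lit 4) (nat_lit 7) (nat_lit 4) (nat_lit 240) (nat_lit 212) (nat_lit 208))) (XT.nd (nat_lit 78) (nat_lit 76) (nat_lit 0) (XT.lf (nat_lit 0) (nat_lit 4837925259) (nat_lit 76) (nat_lit 12159930632) (nat_lit 76) (nat_lit 9370165668) (nat_lit 6) (nat_lit 4) (nat_lit 7) (nat_lit 5) (nat_lit 7) (nat_lit 4) (nat_lit 241) (nat_lit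 212) (nat_lit 207)) (XT.nd (nat_lit 78) (nat_lit 76) (nat_lit 0) (XT.lf (nat_lit 0) (nat_lit 18166220780) (nat_lit 76) (nat_lit 7375971941) (nat_lit 76) (nat_lit 4226410863) (nat_lit 6) (nat_lit 4) (nat_lit 7) (nat_lit 5) (nat_lit 7) (nat_lit 4) (nat_lit 242) (nat_lit 212) (nat_lit 206)) (XT.lf (nat_lit 0) (nat_lit 1163808601) (nat_lit 152) (nat_lit 1041705374) (nat_lit 76) (nat_lit 31506251278) (nat_lit 5) (nat_lit 5) (nat_lit 7) (nat_lit 5) (nat_lit 6) (nat_lit 4) (nat_lit 243) (nat_lit 212) (nat_lit 205))))) (XT.nd (nat_lit 234) (nat_lit 76) (nat_lit 0) (XT.nd (nat_lit 78) (nat_lit 0) (nat_lit 0) (XT.lf (nat_lit 0) (nat_lit 7088372762) (nat_lit 152) (nat_lit 27521073326) (nat_lit 0) (nat_lit 3630516448) (nat_lit 4) (nat_lit 5) (nat_lit 6) (nat_lit 4) (nat_lit 4) (nat_lit 4) (nat_lit 244) (nat_lit 212) (nat_lit 204)) (XT.nd (nat_lit 78) (nat_lit 0) (nat_lit 0) (XT.lf (nat_lit 0) (nat_lit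 13637733311) (nat_lit 152) (nat_lit 19870310735) (nat_lit 0) (nat_lit 9960829048) (nat_lit 4) (nat_lit 5) (nat_lit 6) (nat_lit 4) (nat_lit 4) (nat_lit 4) (nat_lit 245) (nat_lit 212) (nat_lit 203)) (XT.lf (nat_lit 0) (nat_lit 20859929965) (nat_lit 152) (nat_lit 11654730504) (nat_lit 0) (nat_lit 16992549224) (nat_lit 4) (nat_lit 5) (nat_lit 6) (nat_lit 4) (nat_lit 4) (nat_lit 4) (nat_lit 246) (nat_lit 212) (nat_lit 202)))) (XT.nd (nat_lit 78) (nat_lit 76) (nat_lit 0) (XT.lf (nat_lit 0) (nat_lit 28896266572) (nat_lit 152) (nat_lit 2713593020) (nat_lit 0) (nat_lit 24863254110) (nat_lit 4) (nat_lit 5) (nat_lit 6) (nat_lit 4) (nat_lit 4) (nat_lit 4) (nat_lit 247) (nat_lit 212) (nat_lit 201)) (XT.nd (nat_lit 78) (nat_lit 0) (nat_lit 0) (XT.lf (nat_lit 0) (nat_lit 7503386812) (nat_lit 76) (nat_lit 30581045624) (nat_lit 76) (nat_lit 26404005580) (nat_lit 3) (nat_lit 4) (nat_lit 4) (nat_lit 5)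 (nat_lit 4) (nat_lit 4) (nat_lit 248) (nat_lit 212) (nat_lit 200)) (XT.lf (nat_lit 0) (nat_lit 19013863702) (nat_lit 76) (nat_lit 29502715626) (nat_lit 76) (nat_lit 25200434205) (nat_lit 3) (nat_lit 4) (nat_lit 4) (nat_lit 5) (nat_lit 4) (nat_lit 4) (nat_lit 249) (nat_lit 212) (nat_lit 199)))))) (XT.nd (nat_lit 390) (nat_lit 0) (nat_lit 0) (XT.nd (nat_lit 156) (nat_lit 0) (nat_lit 0) (XT.nd (nat_lit 78) (nat_lit 0) (nat_lit 0) (XT.lf (nat_lit 0) (nat_lit 31900149632) (nat_lit 76) (nat_lit 28427966278) (nat_lit 76) (nat_lit 24016779313) (nat_lit 3) (nat_lit 4) (nat_lit 4) (nat_lit 5) (nat_lit 4) (nat_lit 4) (nat_lit 250) (nat_lit 212) (nat_lit 198)) (XT.lf (nat_lit 0) (nat_lit 46414367588) (nat_lit 76) (nat_lit 27335769877) (nat_lit 76) (nat_lit 22829882439) (nat_lit 3) (nat_lit 4) (nat_lit 4) (nat_lit 5) (nat_lit 4) (nat_lit 4) (nat_lit 251) (nat_lit 212) (nat_lit 197))) (XT.nd (nat_lit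 78) (nat_lit 0) (nat_lit 0) (XT.lf (nat_lit 0) (nat_lit 62840491399) (nat_lit 76) (nat_lit 26204757363) (nat_lit 76) (nat_lit 21616521686) (nat_lit 3) (nat_lit 4) (nat_lit 4) (nat_lit 5) (nat_lit 4) (nat_lit 4) (nat_lit 252) (nat_lit 212) (nat_lit 196)) (XT.nd (nat_lit 78) (nat_lit 0) (nat_lit 0) (XT.lf (nat_lit 0) (nat_lit 81499901749) (nat_lit 76) (nat_lit 25012800229) (nat_lit 76) (nat_lit 20352957389) (nat_lit 3) (nat_lit 4) (nat_lit 4) (nat_lit 5) (nat_lit 4) (nat_lit 4) (nat_lit 253) (nat_lit 212) (nat_lit 195)) (XT.lf (nat_lit 0) (nat_lit 102757674058) (nat_lit 76) (nat_lit 23736577575) (nat_lit 76) (nat_lit 19014467637) (nat_lit 3) (nat_lit 4) (nat_lit 4) (nat_lit 5) (nat_lit 4) (nat_lit 4) (nat_lit 254) (nat_lit 212) (nat_lit 194))))) (XT.nd (nat_lit 234) (nat_lit 0) (nat_lit 0) (XT.nd (nat_lit 78) (nat_lit 0) (nat_lit 0) (XT.lf (nat_lit 0) (nat_lit 127029721261) (nat_lit 76)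 (nat_lit 22351119828) (nat_lit 76) (nat_lit 17574864587) (nat_lit 3) (nat_lit 4) (nat_lit 4) (nat_lit 5) (nat_lit 4) (nat_lit 4) (nat_lit 255) (nat_lit 212) (nat_lit 193)) (XT.nd (nat_lit 78) (nat_lit 0) (nat_lit 0) (XT.lf (nat_lit 0) (nat_lit 154790931240) (nat_lit 76) (nat_lit 20829320206) (nat_lit 76) (nat_lit 16005982092) (nat_lit 3) (nat_lit 4) (nat_lit 4) (nat_lit 5) (nat_lit 4) (nat_lit 4) (nat_lit 256) (nat_lit 212) (nat_lit 192)) (XT.lf (nat_lit 0) (nat_lit 186584458102) (nat_lit 76) (nat_lit 19141404367) (nat_lit 76) (nat_lit 14277124626) (nat_lit 3) (nat_lit 4) (nat_lit 4) (nat_lit 5) (nat_lit 4) (nat_lit 4) (nat_lit 257) (nat_lit 212) (nat_lit 191)))) (XT.nd (nat_lit 78) (nat_lit 0) (nat_lit 0) (XT.lf (nat_lit 0) (nat_lit 223032349112) (nat_lit 76) (nat_lit 17254347873) (nat_lit 76) (nat_lit 12354466716) (nat_lit 3) (nat_lit 4) (nat_lit 4) (nat_lit 5) (nat_lit 4) (nat_lit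 4) (nat_lit 258) (nat_lit 212) (nat_lit 190)) (XT.nd (nat_lit 78) (nat_lit 0) (nat_lit 0) (XT.lf (nat_lit 0) (nat_lit 264847715181) (nat_lit 76) (nat_lit 15131230052) (nat_lit 76) (nat_lit 10200391142) (nat_lit 3) (nat_lit 4) (nat_lit 4) (nat_lit 5) (nat_lit 4) (nat_lit 4) (nat_lit 259) (nat_lit 212) (nat_lit 189)) (XT.lf (nat_lit 0) (nat_lit 312848683037) (nat_lit 76) (nat_lit 12730511642) (nat_lit 76) (nat_lit 7772752947) (nat_lit 3) (nat_lit 4) (nat_lit 4) (nat_lit 5) (nat_lit 4) (nat_lit 4) (nat_lit 260) (nat_lit 212) (nat_lit 188))))))))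
noncomputable def xc14 : XT := (XT.nd (nat_lit 1716) (nat_lit 0) (nat_lit 0) (XT.nd (nat_lit 858) (nat_lit 0) (nat_lit 0) (XT.nd (nat_lit 390) (nat_lit 0) (nat_lit 0) (XT.nd (nat_lit 156) (nat_lit 152) (nat_lit 0) (XT.nd (nat_lit 78) (nat_lit 0) (nat_lit 0) (XT.lf (nat_lit 0) (nat_lit 367974402051) (nat_lit 76) (nat_lit 10005222066) (nat_lit 76) (nat_lit 5024054863) (nat_lit 3) (nat_lit 4) (nat_lit 4) (nat_lit 5) (nat_lit 4) (nat_lit 4) (nat_lit 261) (nat_lit 212) (nat_lit 187)) (XT.lf (nat_lit 0) (nat_lit 431303418898) (nat_lit 76) (nat_lit 6902040442) (nat_lit 76) (nat_lit 1900518013) (nat_lit 3) (nat_lit 4) (nat_lit 4) (nat_lit 5) (nat_lit 4) (nat_lit 4) (nat_lit 262) (nat_lit 212) (nat_lit 186))) (XT.nd (nat_lit 78) (nat_lit 76) (nat_lit 0) (XT.lf (nat_lit 0) (nat_lit 1575981866) (nat_lit 152) (nat_lit 1741180341) (nat_lit 76) (nat_lit 502455707558) (nat_lit 2) (nat_lit 5) (nat_lit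 4) (nat_lit 5) (nat_lit 3) (nat_lit 4) (nat_lit 263) (nat_lit 212) (nat_lit 185)) (XT.nd (nat_lit 78) (nat_lit 0) (nat_lit 0) (XT.lf (nat_lit 0) (nat_lit 5620877068) (nat_lit 152) (nat_lit 574693040561) (nat_lit 0) (nat_lit 959197347) (nat_lit 1) (nat_lit 5) (nat_lit 3) (nat_lit 4) (nat_lit 1) (nat_lit 4) (nat_lit 264) (nat_lit 212) (nat_lit 184)) (XT.lf (nat_lit 0) (nat_lit 10391201933) (nat_lit 152) (nat_lit 651980590766) (nat_lit 0) (nat_lit 5717129721) (nat_lit 1) (nat_lit 5) (nat_lit 3) (nat_lit 4) (nat_lit 1) (nat_lit 4) (nat_lit 265) (nat_lit 212) (nat_lit 183))))) (XT.nd (nat_lit 234) (nat_lit 0) (nat_lit 0) (XT.nd (nat_lit 78) (nat_lit 0) (nat_lit 0) (XT.lf (nat_lit 0) (nat_lit 15855285610) (nat_lit 152) (nat_lit 740903139577) (nat_lit 0) (nat_lit 11170437318) (nat_lit 1) (nat_lit 5) (nat_lit 3) (nat_lit 4) (nat_lit 1) (nat_lit 4) (nat_lit 266) (nat_lit 212) (nat_lit 182)) (XT.nd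 (nat_lit 78) (nat_lit 0) (nat_lit 0) (XT.lf (nat_lit 0) (nat_lit 22120034083) (nat_lit 152) (nat_lit 843200475993) (nat_lit 0) (nat_lit 17425815287) (nat_lit 1) (nat_lit 5) (nat_lit 3) (nat_lit 4) (nat_lit 1) (nat_lit 4) (nat_lit 267) (nat_lit 212) (nat_lit 181)) (XT.lf (nat_lit 0) (nat_lit 29308018519) (nat_lit 152) (nat_lit 960874069638) (nat_lit 0) (nat_lit 24605651458) (nat_lit 1) (nat_lit 5) (nat_lit 3) (nat_lit 4) (nat_lit 1) (nat_lit 4) (nat_lit 268) (nat_lit 212) (nat_lit 180)))) (XT.nd (nat_lit 78) (nat_lit 0) (nat_lit 0) (XT.lf (nat_lit 0) (nat_lit 37559873395) (nat_lit 152) (nat_lit 1096226229954) (nat_lit 0) (nat_lit 32850420887) (nat_lit 1) (nat_lit 5) (nat_lit 3) (nat_lit 4) (nat_lit 1) (nat_lit 4) (nat_lit 269) (nat_lit 212) (nat_lit 179)) (XT.nd (nat_lit 78) (nat_lit 0) (nat_lit 0) (XT.lf (nat_lit 0) (nat_lit 47037048046) (nat_lit 152) (nat_lit 1251905151382) (nat_lit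 0) (nat_lit 42321434279) (nat_lit 1) (nat_lit 5) (nat_lit 3) (nat_lit 4) (nat_lit 1) (nat_lit 4) (nat_lit 270) (nat_lit 212) (nat_lit 178)) (XT.lf (nat_lit 0) (nat_lit 57924965454) (nat_lit 152) (nat_lit 1430956725863) (nat_lit 0) (nat_lit 53203994072) (nat_lit 1) (nat_lit 5) (nat_lit 3) (nat_lit 4) (nat_lit 1) (nat_lit 4) (nat_lit 271) (nat_lit 212) (nat_lit 177)))))) (XT.nd (nat_lit 390) (nat_lit 0) (nat_lit 0) (XT.nd (nat_lit 156) (nat_lit 0) (nat_lit 0) (XT.nd (nat_lit 78) (nat_lit 0) (nat_lit 0) (XT.lf (nat_lit 0) (nat_lit 70436650090) (nat_lit 152) (nat_lit 1636884136376) (nat_lit 0) (nat_lit 65711019912) (nat_lit 1) (nat_lit 5) (nat_lit 3) (nat_lit 4) (nat_lit 1) (nat_lit 4) (nat_lit 272) (nat_lit 212) (nat_lit 176)) (XT.lf (nat_lit 0) (nat_lit 84816895785) (nat_lit 152) (nat_lit 1873716397474) (nat_lit 0) (nat_lit 80087214479) (nat_lit 1) (nat_lit 5) (nat_lit 3) (nat_lit 4) (nat_lit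 1) (nat_lit 4) (nat_lit 273) (nat_lit 212) (nat_lit 175))) (XT.nd (nat_lit 78) (nat_lit 0) (nat_lit 0) (XT.lf (nat_lit 0) (nat_lit 101347055171) (nat_lit 152) (nat_lit 2146087183831) (nat_lit 0) (nat_lit 96613851145) (nat_lit 1) (nat_lit 5) (nat_lit 3) (nat_lit 4) (nat_lit 1) (nat_lit 4) (nat_lit 274) (nat_lit 212) (nat_lit 174)) (XT.nd (nat_lit 78) (nat_lit 0) (nat_lit 0) (XT.lf (nat_lit 0) (nat_lit 120350544411) (nat_lit 152) (nat_lit 2459325489093) (nat_lit 0) (nat_lit 115614277150) (nat_lit 1) (nat_lit 5) (nat_lit 3) (nat_lit 4) (nat_lit 1) (nat_lit 4) (nat_lit 275) (nat_lit 212) (nat_lit 173)) (XT.lf (nat_lit 0) (nat_lit 142199170901) (nat_lit 152) (nat_lit 2819559888798) (nat_lit 0) (nat_lit 137460239959) (nat_lit 1) (nat_lit 5) (nat_lit 3) (nat_lit 4) (nat_lit 1) (nat_lit 4) (nat_lit 276) (nat_lit 212) (nat_lit 172))))) (XT.nd (nat_lit 234) (nat_lit 0) (nat_lit 0) (XT.nd (nat_lit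 78) (nat_lit 0) (nat_lit 0) (XT.lf (nat_lit 0) (nat_lit 167320407770) (nat_lit 152) (nat_lit 3233838447287) (nat_lit 0) (nat_lit 162579160583) (nat_lit 1) (nat_lit 5) (nat_lit 3) (nat_lit 4) (nat_lit 1) (nat_lit 4) (nat_lit 277) (nat_lit 212) (nat_lit 171)) (XT.nd (nat_lit 78) (nat_lit 0) (nat_lit 0) (XT.lf (nat_lit 0) (nat_lit 196205757478) (nat_lit 152) (nat_lit 3710266614619) (nat_lit 0) (nat_lit 191462496165) (nat_lit 1) (nat_lit 5) (nat_lit 3) (nat_lit 4) (nat_lit 1) (nat_lit 4) (nat_lit 278) (nat_lit 212) (nat_lit 170)) (XT.lf (nat_lit 0) (nat_lit 229420368172) (nat_lit 152) (nat_lit 4258165811459) (nat_lit 0) (nat_lit 224675355444) (nat_lit 1) (nat_lit 5) (nat_lit 3) (nat_lit 4) (nat_lit 1) (nat_lit 4) (nat_lit 279) (nat_lit 212) (nat_lit 169)))) (XT.nd (nat_lit 78) (nat_lit 0) (nat_lit 0) (XT.lf (nat_lit 0) (nat_lit 267614090929) (nat_lit 152) (nat_lit 4888255804700) (nat_lit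 0) (nat_lit 262867555232) (nat_lit 1) (nat_lit 5) (nat_lit 3) (nat_lit 4) (nat_lit 1) (nat_lit 4) (nat_lit 280) (nat_lit 212) (nat_lit 168)) (XT.nd (nat_lit 78) (nat_lit 0) (nat_lit 0) (XT.lf (nat_lit 0) (nat_lit 311534194239) (nat_lit 152) (nat_lit 5612864442038) (nat_lit 0) (nat_lit 306786334222) (nat_lit 1) (nat_lit 5) (nat_lit 3) (nat_lit 4) (nat_lit 1) (nat_lit 4) (nat_lit 281) (nat_lit 212) (nat_lit 167)) (XT.lf (nat_lit 0) (nat_lit 362039984472) (nat_lit 152) (nat_lit 6446168848984) (nat_lit 0) (nat_lit 357290972871) (nat_lit 1) (nat_lit 5) (nat_lit 3) (nat_lit 4) (nat_lit 1) (nat_lit 4) (nat_lit 282) (nat_lit 212) (nat_lit 166))))))) (XT.nd (nat_lit 31278) (nat_lit 0) (nat_lit 152) (XT.nd (nat_lit 30810) (nat_lit 0) (nat_lit 380) (XT.nd (nat_lit 30576) (nat_lit 0) (nat_lit 836) (XT.nd (nat_lit 78) (nat_lit 0) (nat_lit 0) (XT.lf (nat_lit 0) (nat_lit 420119618391) (nat_lit 152)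 (nat_lit 7404472807415) (nat_lit 0) (nat_lit 415369605413) (nat_lit 1) (nat_lit 5) (nat_lit 3) (nat_lit 4) (nat_lit 1) (nat_lit 4) (nat_lit 283) (nat_lit 212) (nat_lit 165)) (XT.lf (nat_lit 0) (nat_lit 486909436662) (nat_lit 152) (nat_lit 8506525742604) (nat_lit 0) (nat_lit 482158552922) (nat_lit 1) (nat_lit 5) (nat_lit 3) (nat_lit 4) (nat_lit 1) (nat_lit 4) (nat_lit 284) (nat_lit 212) (nat_lit 164))) (XT.nd (nat_lit 78) (nat_lit 228) (nat_lit 0) (XT.lf (nat_lit 0) (nat_lit 5835387723) (nat_lit 152) (nat_lit 246045947) (nat_lit 152) (nat_lit 246045947) (nat_lit 15) (nat_lit 4) (nat_lit 17) (nat_lit 5) (nat_lit 17) (nat_lit 4) (nat_lit 234) (nat_lit 213) (nat_lit 213)) (XT.nd (nat_lit 78) (nat_lit 76) (nat_lit 0) (XT.lf (nat_lit 0) (nat_lit 6861453836) (nat_lit 152) (nat_lit 1103971151) (nat_lit 0) (nat_lit 5890740442) (nat_lit 13) (nat_lit 5) (nat_lit 15) (nat_lit 4) (nat_lit 13) (nat_lit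 4) (nat_lit 235) (nat_lit 213) (nat_lit 212)) (XT.lf (nat_lit 0) (nat_lit 12740764617) (nat_lit 76) (nat_lit 2171088298) (nat_lit 76) (nat_lit 356276299) (nat_lit 12) (nat_lit 4) (nat_lit 13) (nat_lit 5) (nat_lit 13) (nat_lit 4) (nat_lit 236) (nat_lit 213) (nat_lit 211))))) (XT.nd (nat_lit 234) (nat_lit 76) (nat_lit 0) (XT.nd (nat_lit 78) (nat_lit 228) (nat_lit 0) (XT.lf (nat_lit 0) (nat_lit 6642732623) (nat_lit 152) (nat_lit 5975275313) (nat_lit 0) (nat_lit 4282722637) (nat_lit 10) (nat_lit 5) (nat_lit 12) (nat_lit 4) (nat_lit 10) (nat_lit 4) (nat_lit 237) (nat_lit 213) (nat_lit 210)) (XT.nd (nat_lit 78) (nat_lit 152) (nat_lit 0) (XT.lf (nat_lit 0) (nat_lit 6938620376) (nat_lit 76) (nat_lit 7408369335) (nat_lit 76) (nat_lit 4457378040) (nat_lit 9) (nat_lit 4) (nat_lit 10) (nat_lit 5) (nat_lit 10) (nat_lit 4) (nat_lit 238) (nat_lit 213) (nat_lit 209)) (XT.lf (nat_lit 0) (nat_lit 66456829)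 (nat_lit 76) (nat_lit 1631305148) (nat_lit 152) (nat_lit 19324727736) (nat_lit 7) (nat_lit 5) (nat_lit 8) (nat_lit 5) (nat_lit 9) (nat_lit 4) (nat_lit 239) (nat_lit 213) (nat_lit 208)))) (XT.nd (nat_lit 78) (nat_lit 76) (nat_lit 0) (XT.lf (nat_lit 0) (nat_lit 8452608677) (nat_lit 152) (nat_lit 10286320651) (nat_lit 0) (nat_lit 4830613437) (nat_lit 7) (nat_lit 5) (nat_lit 9) (nat_lit 4) (nat_lit 7) (nat_lit 4) (nat_lit 240) (nat_lit 213) (nat_lit 207)) (XT.nd (nat_lit 78) (nat_lit 0) (nat_lit 0) (XT.lf (nat_lit 0) (nat_lit 1130158478) (nat_lit 76) (nat_lit 14691413756) (nat_lit 76) (nat_lit 10709622401) (nat_lit 6) (nat_lit 4) (nat_lit 7) (nat_lit 5) (nat_lit 7) (nat_lit 4) (nat_lit 241) (nat_lit 213) (nat_lit 206)) (XT.lf (nat_lit 0) (nat_lit 14090137646) (nat_lit 76) (nat_lit 10076252794) (nat_lit 76) (nat_lit 5781595252) (nat_lit 6) (nat_lit 4) (nat_lit 7) (nat_lit 5) (nat_lit 7) (nat_lit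 4) (nat_lit 242) (nat_lit 213) (nat_lit 205)))))) (XT.nd (nat_lit 390) (nat_lit 76) (nat_lit 0) (XT.nd (nat_lit 156) (nat_lit 0) (nat_lit 0) (XT.nd (nat_lit 78) (nat_lit 152) (nat_lit 0) (XT.lf (nat_lit 0) (nat_lit 28305522244) (nat_lit 76) (nat_lit 5084396052) (nat_lit 76) (nat_lit 517680956) (nat_lit 6) (nat_lit 4) (nat_lit 7) (nat_lit 5) (nat_lit 7) (nat_lit 4) (nat_lit 243) (nat_lit 213) (nat_lit 204)) (XT.lf (nat_lit 0) (nat_lit 5079508436) (nat_lit 152) (nat_lit 32753698550) (nat_lit 0) (nat_lit 632020583) (nat_lit 4) (nat_lit 5) (nat_lit 6) (nat_lit 4) (nat_lit 4) (nat_lit 4) (nat_lit 244) (nat_lit 213) (nat_lit 203))) (XT.nd (nat_lit 78) (nat_lit 0) (nat_lit 0) (XT.lf (nat_lit 0) (nat_lit 11484883879) (nat_lit 152) (nat_lit 25374004214) (nat_lit 0) (nat_lit 6846919548) (nat_lit 4) (nat_lit 5) (nat_lit 6) (nat_lit 4) (nat_lit 4) (nat_lit 4) (nat_lit 245) (nat_lit 213) (nat_lit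 202)) (XT.nd (nat_lit 78) (nat_lit 0) (nat_lit 0) (XT.lf (nat_lit 0) (nat_lit 18581876093) (nat_lit 152) (nat_lit 17394135510) (nat_lit 0) (nat_lit 13778280042) (nat_lit 4) (nat_lit 5) (nat_lit 6) (nat_lit 4) (nat_lit 4) (nat_lit 4) (nat_lit 246) (nat_lit 213) (nat_lit 201)) (XT.lf (nat_lit 0) (nat_lit 26509339273) (nat_lit 152) (nat_lit 8657964570) (nat_lit 0) (nat_lit 21561715640) (nat_lit 4) (nat_lit 5) (nat_lit 6) (nat_lit 4) (nat_lit 4) (nat_lit 4) (nat_lit 247) (nat_lit 213) (nat_lit 200))))) (XT.nd (nat_lit 234) (nat_lit 0) (nat_lit 0) (XT.nd (nat_lit 78) (nat_lit 0) (nat_lit 0) (XT.lf (nat_lit 0) (nat_lit 1058378042) (nat_lit 76) (nat_lit 34389451935) (nat_lit 76) (nat_lit 29316586925) (nat_lit 3) (nat_lit 4) (nat_lit 4) (nat_lit 5) (nat_lit 4) (nat_lit 4) (nat_lit 248) (nat_lit 213) (nat_lit 199)) (XT.nd (nat_lit 78) (nat_lit 0) (nat_lit 0) (XT.lf (nat_lit 0) (nat_lit 12405709586)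 (nat_lit 76) (nat_lit 33388019681) (nat_lit 76) (nat_lit 28206249127) (nat_lit 3) (nat_lit 4) (nat_lit 4) (nat_lit 5) (nat_lit 4) (nat_lit 4) (nat_lit 249) (nat_lit 213) (nat_lit 198)) (XT.lf (nat_lit 0) (nat_lit 25150129998) (nat_lit 76) (nat_lit 32380137938) (nat_lit 76) (nat_lit 27103666910) (nat_lit 3) (nat_lit 4) (nat_lit 4) (nat_lit 5) (nat_lit 4) (nat_lit 4) (nat_lit 250) (nat_lit 213) (nat_lit 197)))) (XT.nd (nat_lit 78) (nat_lit 0) (nat_lit 0) (XT.lf (nat_lit 0) (nat_lit 39540986634) (nat_lit 76) (nat_lit 31346087279) (nat_lit 76) (nat_lit 25987268014) (nat_lit 3) (nat_lit 4) (nat_lit 4) (nat_lit 5) (nat_lit 4) (nat_lit 4) (nat_lit 251) (nat_lit 213) (nat_lit 196)) (XT.nd (nat_lit 78) (nat_lit 0) (nat_lit 0) (XT.lf (nat_lit 0) (nat_lit 55859839733) (nat_lit 76) (nat_lit 30265636280) (nat_lit 76) (nat_lit 24835209851) (nat_lit 3) (nat_lit 4) (nat_lit 4) (nat_lit 5) (nat_lit 4)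 (nat_lit 4) (nat_lit 252) (nat_lit 213) (nat_lit 195)) (XT.lf (nat_lit 0) (nat_lit 74425971202) (nat_lit 76) (nat_lit 29117645681) (nat_lit 76) (nat_lit 23624952154) (nat_lit 3) (nat_lit 4) (nat_lit 4) (nat_lit 5) (nat_lit 4) (nat_lit 4) (nat_lit 253) (nat_lit 213) (nat_lit 194))))))))
noncomputable def xc15 : XT := (XT.nd (nat_lit 1716) (nat_lit 0) (nat_lit 0) (XT.nd (nat_lit 858) (nat_lit 76) (nat_lit 0) (XT.nd (nat_lit 390) (nat_lit 76) (nat_lit 0) (XT.nd (nat_lit 156) (nat_lit 0) (nat_lit 0) (XT.nd (nat_lit 78) (nat_lit 0) (nat_lit 0) (XT.lf (nat_lit 0) (nat_lit 95602631440) (nat_lit 76) (nat_lit 27879654797) (nat_lit 76) (nat_lit 22332815967) (nat_lit 3) (nat_lit 4) (nat_lit 4) (nat_lit 5) (nat_lit 4) (nat_lit 4) (nat_lit 254) (nat_lit 213) (nat_lit 193)) (XT.lf (nat_lit 0) (nat_lit 119804146409) (nat_lit 76) (nat_lit 26527442067) (nat_lit 76) (nat_lit 20933520364) (nat_lit 3) (nat_lit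 4) (nat_lit 4) (nat_lit 5) (nat_lit 4) (nat_lit 4) (nat_lit 255) (nat_lit 213) (nat_lit 192))) (XT.nd (nat_lit 78) (nat_lit 0) (nat_lit 0) (XT.lf (nat_lit 0) (nat_lit 147504024009) (nat_lit 76) (nat_lit 25034551155) (nat_lit 76) (nat_lit 19399687824) (nat_lit 3) (nat_lit 4) (nat_lit 4) (nat_lit 5) (nat_lit 4) (nat_lit 4) (nat_lit 256) (nat_lit 213) (nat_lit 191)) (XT.nd (nat_lit 78) (nat_lit 0) (nat_lit 0) (XT.lf (nat_lit 0) (nat_lit 179244218368) (nat_lit 76) (nat_lit 23371773326) (nat_lit 76) (nat_lit 17701308579) (nat_lit 3) (nat_lit 4) (nat_lit 4) (nat_lit 5) (nat_lit 4) (nat_lit 4) (nat_lit 257) (nat_lit 213) (nat_lit 190)) (XT.lf (nat_lit 0) (nat_lit 215645733289) (nat_lit 76) (nat_lit 21506575970) (nat_lit 76) (nat_lit 15805153470) (nat_lit 3) (nat_lit 4) (nat_lit 4) (nat_lit 5) (nat_lit 4) (nat_lit 4) (nat_lit 258) (nat_lit 213) (nat_lit 189))))) (XT.nd (nat_lit 234) (nat_lit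 76) (nat_lit 0) (XT.nd (nat_lit 78) (nat_lit 0) (nat_lit 0) (XT.lf (nat_lit 0) (nat_lit 257420772324) (nat_lit 76) (nat_lit 19402466095) (nat_lit 76) (nat_lit 13674123811) (nat_lit 3) (nat_lit 4) (nat_lit 4) (nat_lit 5) (nat_lit 4) (nat_lit 4) (nat_lit 259) (nat_lit 213) (nat_lit 188)) (XT.nd (nat_lit 78) (nat_lit 0) (nat_lit 0) (XT.lf (nat_lit 0) (nat_lit 305386673193) (nat_lit 76) (nat_lit 17018276334) (nat_lit 76) (nat_lit 11266525541) (nat_lit 3) (nat_lit 4) (nat_lit 4) (nat_lit 5) (nat_lit 4) (nat_lit 4) (nat_lit 260) (nat_lit 213) (nat_lit 187)) (XT.lf (nat_lit 0) (nat_lit 360481899175) (nat_lit 76) (nat_lit 14307359497) (nat_lit 76) (nat_lit 8535253479) (nat_lit 3) (nat_lit 4) (nat_lit 4) (nat_lit 5) (nat_lit 4) (nat_lit 4) (nat_lit 261) (nat_lit 213) (nat_lit 186)))) (XT.nd (nat_lit 78) (nat_lit 76) (nat_lit 0) (XT.lf (nat_lit 0) (nat_lit 423784400343) (nat_lit 76) (nat_lit 11216675906)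 (nat_lit 76) (nat_lit 5426869692) (nat_lit 3) (nat_lit 4) (nat_lit 4) (nat_lit 5) (nat_lit 4) (nat_lit 4) (nat_lit 262) (nat_lit 213) (nat_lit 185)) (XT.nd (nat_lit 78) (nat_lit 76) (nat_lit 0) (XT.lf (nat_lit 0) (nat_lit 496532703894) (nat_lit 76) (nat_lit 7685755664) (nat_lit 76) (nat_lit 1880557976) (nat_lit 3) (nat_lit 4) (nat_lit 4) (nat_lit 5) (nat_lit 4) (nat_lit 4) (nat_lit 263) (nat_lit 213) (nat_lit 184)) (XT.lf (nat_lit 0) (nat_lit 2064360465) (nat_lit 152) (nat_lit 1524711811) (nat_lit 76) (nat_lit 578029342462) (nat_lit 2) (nat_lit 5) (nat_lit 4) (nat_lit 5) (nat_lit 3) (nat_lit 4) (nat_lit 264) (nat_lit 213) (nat_lit 183)))))) (XT.nd (nat_lit 390) (nat_lit 0) (nat_lit 0) (XT.nd (nat_lit 156) (nat_lit 0) (nat_lit 0) (XT.nd (nat_lit 78) (nat_lit 0) (nat_lit 0) (XT.lf (nat_lit 0) (nat_lit 6698630305) (nat_lit 152) (nat_lit 660446206114) (nat_lit 0) (nat_lit 1300278690) (nat_lit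 1) (nat_lit 5) (nat_lit 3) (nat_lit 4) (nat_lit 1) (nat_lit 4) (nat_lit 265) (nat_lit 213) (nat_lit 182)) (XT.lf (nat_lit 0) (nat_lit 12153901073) (nat_lit 152) (nat_lit 749385687615) (nat_lit 0) (nat_lit 6746178953) (nat_lit 1) (nat_lit 5) (nat_lit 3) (nat_lit 4) (nat_lit 1) (nat_lit 4) (nat_lit 266) (nat_lit 213) (nat_lit 181))) (XT.nd (nat_lit 78) (nat_lit 0) (nat_lit 0) (XT.lf (nat_lit 0) (nat_lit 18410986146) (nat_lit 152) (nat_lit 851697748109) (nat_lit 0) (nat_lit 12995115762) (nat_lit 1) (nat_lit 5) (nat_lit 3) (nat_lit 4) (nat_lit 1) (nat_lit 4) (nat_lit 267) (nat_lit 213) (nat_lit 180)) (XT.nd (nat_lit 78) (nat_lit 0) (nat_lit 0) (XT.lf (nat_lit 0) (nat_lit 25592306756) (nat_lit 152) (nat_lit 969384145300) (nat_lit 0) (nat_lit 20169350925) (nat_lit 1) (nat_lit 5) (nat_lit 3) (nat_lit 4) (nat_lit 1) (nat_lit 4) (nat_lit 268) (nat_lit 213) (nat_lit 179)) (XT.lf (nat_lit 0) (nat_lit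 33838367002) (nat_lit 152) (nat_lit 1104747439135) (nat_lit 0) (nat_lit 28409249912) (nat_lit 1) (nat_lit 5) (nat_lit 3) (nat_lit 4) (nat_lit 1) (nat_lit 4) (nat_lit 269) (nat_lit 213) (nat_lit 178))))) (XT.nd (nat_lit 234) (nat_lit 0) (nat_lit 0) (XT.nd (nat_lit 78) (nat_lit 0) (nat_lit 0) (XT.lf (nat_lit 0) (nat_lit 43310502843) (nat_lit 152) (nat_lit 1260436041883) (nat_lit 0) (nat_lit 37876028137) (nat_lit 1) (nat_lit 5) (nat_lit 3) (nat_lit 4) (nat_lit 1) (nat_lit 4) (nat_lit 270) (nat_lit 213) (nat_lit 177)) (XT.nd (nat_lit 78) (nat_lit 0) (nat_lit 0) (XT.lf (nat_lit 0) (nat_lit 54194038678) (nat_lit 152) (nat_lit 1439496034903) (nat_lit 0) (nat_lit 48754905176) (nat_lit 1) (nat_lit 5) (nat_lit 3) (nat_lit 4) (nat_lit 1) (nat_lit 4) (nat_lit 271) (nat_lit 213) (nat_lit 176)) (XT.lf (nat_lit 0) (nat_lit 66701913251) (nat_lit 152) (nat_lit 1645430765885) (nat_lit 0) (nat_lit 61258728621)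 (nat_lit 1) (nat_lit 5) (nat_lit 3) (nat_lit 4) (nat_lit 1) (nat_lit 4) (nat_lit 272) (nat_lit 213) (nat_lit 175)))) (XT.nd (nat_lit 78) (nat_lit 0) (nat_lit 0) (XT.lf (nat_lit 0) (nat_lit 81078845846) (nat_lit 152) (nat_lit 1882269392608) (nat_lit 0) (nat_lit 75632138497) (nat_lit 1) (nat_lit 5) (nat_lit 3) (nat_lit 4) (nat_lit 1) (nat_lit 4) (nat_lit 273) (nat_lit 213) (nat_lit 174)) (XT.nd (nat_lit 78) (nat_lit 0) (nat_lit 0) (XT.lf (nat_lit 0) (nat_lit 97606124277) (nat_lit 152) (nat_lit 2154645714291) (nat_lit 0) (nat_lit 92156353693) (nat_lit 1) (nat_lit 5) (nat_lit 3) (nat_lit 4) (nat_lit 1) (nat_lit 4) (nat_lit 274) (nat_lit 213) (nat_lit 173)) (XT.lf (nat_lit 0) (nat_lit 116607108337) (nat_lit 152) (nat_lit 2467888832881) (nat_lit 0) (nat_lit 111154674072) (nat_lit 1) (nat_lit 5) (nat_lit 3) (nat_lit 4) (nat_lit 1) (nat_lit 4) (nat_lit 275) (nat_lit 213) (nat_lit 172))))))) (XT.nd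 (nat_lit 31122) (nat_lit 0) (nat_lit 228) (XT.nd (nat_lit 390) (nat_lit 0) (nat_lit 0) (XT.nd (nat_lit 156) (nat_lit 0) (nat_lit 0) (XT.nd (nat_lit 78) (nat_lit 0) (nat_lit 0) (XT.lf (nat_lit 0) (nat_lit 138453556412) (nat_lit 152) (nat_lit 2828127418087) (nat_lit 0) (nat_lit 132998805901) (nat_lit 1) (nat_lit 5) (nat_lit 3) (nat_lit 4) (nat_lit 1) (nat_lit 4) (nat_lit 276) (nat_lit 213) (nat_lit 171)) (XT.lf (nat_lit 0) (nat_lit 163572899006) (nat_lit 152) (nat_lit 3242409616144) (nat_lit 0) (nat_lit 158116134368) (nat_lit 1) (nat_lit 5) (nat_lit 3) (nat_lit 4) (nat_lit 1) (nat_lit 4) (nat_lit 277) (nat_lit 213) (nat_lit 170))) (XT.nd (nat_lit 78) (nat_lit 0) (nat_lit 0) (XT.lf (nat_lit 0) (nat_lit 192456601518) (nat_lit 152) (nat_lit 3718840948317) (nat_lit 0) (nat_lit 186998085466) (nat_lit 1) (nat_lit 5) (nat_lit 3) (nat_lit 4) (nat_lit 1) (nat_lit 4) (nat_lit 278) (nat_lit 213) (nat_lit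 169)) (XT.nd (nat_lit 78) (nat_lit 0) (nat_lit 0) (XT.lf (nat_lit 0) (nat_lit 225669779867) (nat_lit 152) (nat_lit 4266742897192) (nat_lit 0) (nat_lit 220209740847) (nat_lit 1) (nat_lit 5) (nat_lit 3) (nat_lit 4) (nat_lit 1) (nat_lit 4) (nat_lit 279) (nat_lit 213) (nat_lit 168)) (XT.lf (nat_lit 0) (nat_lit 263862257108) (nat_lit 152) (nat_lit 4896835283507) (nat_lit 0) (nat_lit 258400893767) (nat_lit 1) (nat_lit 5) (nat_lit 3) (nat_lit 4) (nat_lit 1) (nat_lit 4) (nat_lit 280) (nat_lit 213) (nat_lit 167))))) (XT.nd (nat_lit 234) (nat_lit 0) (nat_lit 0) (XT.nd (nat_lit 78) (nat_lit 0) (nat_lit 0) (XT.lf (nat_lit 0) (nat_lit 307781277360) (nat_lit 152) (nat_lit 5621446001779) (nat_lit 0) (nat_lit 302318762436) (nat_lit 1) (nat_lit 5) (nat_lit 3) (nat_lit 4) (nat_lit 1) (nat_lit 4) (nat_lit 281) (nat_lit 213) (nat_lit 166)) (XT.nd (nat_lit 78) (nat_lit 0) (nat_lit 0) (XT.lf (nat_lit 0) (nat_lit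 358286125803) (nat_lit 152) (nat_lit 6454752218234) (nat_lit 0) (nat_lit 352822609502) (nat_lit 1) (nat_lit 5) (nat_lit 3) (nat_lit 4) (nat_lit 1) (nat_lit 4) (nat_lit 282) (nat_lit 213) (nat_lit 165)) (XT.lf (nat_lit 0) (nat_lit 416364940775) (nat_lit 152) (nat_lit 7413057750150) (nat_lit 0) (nat_lit 410900553711) (nat_lit 1) (nat_lit 5) (nat_lit 3) (nat_lit 4) (nat_lit 1) (nat_lit 4) (nat_lit 283) (nat_lit 213) (nat_lit 164)))) (XT.nd (nat_lit 30342) (nat_lit 0) (nat_lit 1216) (XT.lf (nat_lit 0) (nat_lit 483154046917) (nat_lit 152) (nat_lit 8515112053586) (nat_lit 0) (nat_lit 477688902669) (nat_lit 1) (nat_lit 5) (nat_lit 3) (nat_lit 4) (nat_lit 1) (nat_lit 4) (nat_lit 284) (nat_lit 213) (nat_lit 163)) (XT.nd (nat_lit 78) (nat_lit 152) (nat_lit 0) (XT.lf (nat_lit 0) (nat_lit 3727170349) (nat_lit 152) (nat_lit 814419178) (nat_lit 152) (nat_lit 814419178) (nat_lit 19) (nat_lit 4) (nat_lit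 21) (nat_lit 5) (nat_lit 21) (nat_lit 4) (nat_lit 232) (nat_lit 214) (nat_lit 214)) (XT.lf (nat_lit 0) (nat_lit 5377108825) (nat_lit 152) (nat_lit 2069403369) (nat_lit 0) (nat_lit 4171482789) (nat_lit 17) (nat_lit 5) (nat_lit 19) (nat_lit 4) (nat_lit 17) (nat_lit 4) (nat_lit 233) (nat_lit 214) (nat_lit 213)))))) (XT.nd (nat_lit 468) (nat_lit 304) (nat_lit 0) (XT.nd (nat_lit 234) (nat_lit 304) (nat_lit 0) (XT.nd (nat_lit 78) (nat_lit 152) (nat_lit 0) (XT.lf (nat_lit 0) (nat_lit 310355294) (nat_lit 228) (nat_lit 1608457489) (nat_lit 76) (nat_lit 10764940447) (nat_lit 14) (nat_lit 5) (nat_lit 17) (nat_lit 5) (nat_lit 15) (nat_lit 4) (nat_lit 234) (nat_lit 214) (nat_lit 212)) (XT.nd (nat_lit 78) (nat_lit 76) (nat_lit 0) (XT.lf (nat_lit 0) (nat_lit 7250481183) (nat_lit 152) (nat_lit 2345954806) (nat_lit 0) (nat_lit 4319348781) (nat_lit 13) (nat_lit 5) (nat_lit 15) (nat_lit 4) (nat_lit 13)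 (nat_lit 4) (nat_lit 235) (nat_lit 214) (nat_lit 211)) (XT.lf (nat_lit 0) (nat_lit 10904610106) (nat_lit 76) (nat_lit 4057957689) (nat_lit 76) (nat_lit 392826501) (nat_lit 12) (nat_lit 4) (nat_lit 13) (nat_lit 5) (nat_lit 13) (nat_lit 4) (nat_lit 236) (nat_lit 214) (nat_lit 210)))) (XT.nd (nat_lit 78) (nat_lit 152) (nat_lit 0) (XT.lf (nat_lit 0) (nat_lit 6221267460) (nat_lit 152) (nat_lit 8561559415) (nat_lit 0) (nat_lit 2236646162) (nat_lit 10) (nat_lit 5) (nat_lit 12) (nat_lit 4) (nat_lit 10) (nat_lit 4) (nat_lit 237) (nat_lit 214) (nat_lit 209)) (XT.nd (nat_lit 78) (nat_lit 76) (nat_lit 0) (XT.lf (nat_lit 0) (nat_lit 3742045345) (nat_lit 76) (nat_lit 9853205718) (nat_lit 76) (nat_lit 5354687630) (nat_lit 9) (nat_lit 4) (nat_lit 10) (nat_lit 5) (nat_lit 10) (nat_lit 4) (nat_lit 238) (nat_lit 214) (nat_lit 208)) (XT.lf (nat_lit 0) (nat_lit 607165450) (nat_lit 152) (nat_lit 3682480725)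 (nat_lit 76) (nat_lit 16899522200) (nat_lit 8) (nat_lit 5) (nat_lit 10) (nat_lit 5) (nat_lit 9) (nat_lit 4) (nat_lit 239) (nat_lit 214) (nat_lit 207))))) (XT.nd (nat_lit 234) (nat_lit 152) (nat_lit 0) (XT.nd (nat_lit 78) (nat_lit 76) (nat_lit 0) (XT.lf (nat_lit 0) (nat_lit 6983170435) (nat_lit 152) (nat_lit 14739328741) (nat_lit 0) (nat_lit 2044314262) (nat_lit 7) (nat_lit 5) (nat_lit 9) (nat_lit 4) (nat_lit 7) (nat_lit 4) (nat_lit 240) (nat_lit 214) (nat_lit 206)) (XT.nd (nat_lit 78) (nat_lit 76) (nat_lit 0) (XT.lf (nat_lit 0) (nat_lit 14134293046) (nat_lit 152) (nat_lit 3729276393) (nat_lit 0) (nat_lit 8882570686) (nat_lit 7) (nat_lit 5) (nat_lit 9) (nat_lit 4) (nat_lit 7) (nat_lit 4) (nat_lit 241) (nat_lit 214) (nat_lit 205)) (XT.lf (nat_lit 0) (nat_lit 8714050596) (nat_lit 76) (nat_lit 13497154138) (nat_lit 76) (nat_lit 7973374225) (nat_lit 6) (nat_lit 4) (nat_lit 7) (nat_lit 5) (nat_lit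 7) (nat_lit 4) (nat_lit 242) (nat_lit 214) (nat_lit 204)))) (XT.nd (nat_lit 78) (nat_lit 152) (nat_lit 0) (XT.lf (nat_lit 0) (nat_lit 22650935116) (nat_lit 76) (nat_lit 8632932729) (nat_lit 76) (nat_lit 2872581031) (nat_lit 6) (nat_lit 4) (nat_lit 7) (nat_lit 5) (nat_lit 7) (nat_lit 4) (nat_lit 243) (nat_lit 214) (nat_lit 203)) (XT.nd (nat_lit 78) (nat_lit 76) (nat_lit 0) (XT.lf (nat_lit 0) (nat_lit 2553882668) (nat_lit 152) (nat_lit 653990345) (nat_lit 76) (nat_lit 35533967906) (nat_lit 5) (nat_lit 5) (nat_lit 7) (nat_lit 5) (nat_lit 6) (nat_lit 4) (nat_lit 244) (nat_lit 214) (nat_lit 202)) (XT.lf (nat_lit 0) (nat_lit 8739917486) (nat_lit 152) (nat_lit 32210031497) (nat_lit 0) (nat_lit 3050150307) (nat_lit 4) (nat_lit 5) (nat_lit 6) (nat_lit 4) (nat_lit 4) (nat_lit 4) (nat_lit 245) (nat_lit 214) (nat_lit 201))))))))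
noncomputable def xc16 : XT := (XT.nd (nat_lit 1716) (nat_lit 0) (nat_lit 0) (XT.nd (nat_lit 858) (nat_lit 152) (nat_lit 0) (XT.nd (nat_lit 390) (nat_lit 0) (nat_lit 0) (XT.nd (nat_lit 156) (nat_lit 76) (nat_lit 0) (XT.nd (nat_lit 78) (nat_lit 0) (nat_lit 0) (XT.lf (nat_lit 0) (nat_lit 15728036274) (nat_lit 152) (nat_lit 24435129337) (nat_lit 0) (nat_lit 9894241513) (nat_lit 4) (nat_lit 5) (nat_lit 6) (nat_lit 4) (nat_lit 4) (nat_lit 4) (nat_lit 246) (nat_lit 214) (nat_lit 200)) (XT.lf (nat_lit 0) (nat_lit 23560826910) (nat_lit 152) (nat_lit 15877190176) (nat_lit 0) (nat_lit 17601790772) (nat_lit 4) (nat_lit 5) (nat_lit 6) (nat_lit 4) (nat_lit 4) (nat_lit 4) (nat_lit 247) (nat_lit 214) (nat_lit 199))) (XT.nd (nat_lit 78) (nat_lit 76) (nat_lit 0) (XT.lf (nat_lit 0) (nat_lit 32391539645) (nat_lit 152) (nat_lit 6368776073) (nat_lit 0) (nat_lit 26323597963) (nat_lit 4) (nat_lit 5) (nat_lit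 6) (nat_lit 4) (nat_lit 4) (nat_lit 4) (nat_lit 248) (nat_lit 214) (nat_lit 198)) (XT.nd (nat_lit 78) (nat_lit 0) (nat_lit 0) (XT.lf (nat_lit 0) (nat_lit 4501321490) (nat_lit 76) (nat_lit 37999884693) (nat_lit 76) (nat_lit 31837242538) (nat_lit 3) (nat_lit 4) (nat_lit 4) (nat_lit 5) (nat_lit 4) (nat_lit 4) (nat_lit 249) (nat_lit 214) (nat_lit 197)) (XT.lf (nat_lit 0) (nat_lit 17122380582) (nat_lit 76) (nat_lit 37050148692) (nat_lit 76) (nat_lit 30805158299) (nat_lit 3) (nat_lit 4) (nat_lit 4) (nat_lit 5) (nat_lit 4) (nat_lit 4) (nat_lit 250) (nat_lit 214) (nat_lit 196))))) (XT.nd (nat_lit 234) (nat_lit 0) (nat_lit 0) (XT.nd (nat_lit 78) (nat_lit 0) (nat_lit 0) (XT.lf (nat_lit 0) (nat_lit 31405966505) (nat_lit 76) (nat_lit 36066659549) (nat_lit 76) (nat_lit 29750061993) (nat_lit 3) (nat_lit 4) (nat_lit 4) (nat_lit 5) (nat_lit 4) (nat_lit 4) (nat_lit 251) (nat_lit 214) (nat_lit 195)) (XT.nd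 (nat_lit 78) (nat_lit 0) (nat_lit 0) (XT.lf (nat_lit 0) (nat_lit 47631540723) (nat_lit 76) (nat_lit 35030175085) (nat_lit 76) (nat_lit 28651310430) (nat_lit 3) (nat_lit 4) (nat_lit 4) (nat_lit 5) (nat_lit 4) (nat_lit 4) (nat_lit 252) (nat_lit 214) (nat_lit 194)) (XT.lf (nat_lit 0) (nat_lit 66116560121) (nat_lit 76) (nat_lit 33920416256) (nat_lit 76) (nat_lit 27487406298) (nat_lit 3) (nat_lit 4) (nat_lit 4) (nat_lit 5) (nat_lit 4) (nat_lit 4) (nat_lit 253) (nat_lit 214) (nat_lit 193)))) (XT.nd (nat_lit 78) (nat_lit 0) (nat_lit 0) (XT.lf (nat_lit 0) (nat_lit 87222688124) (nat_lit 76) (nat_lit 32715670389) (nat_lit 76) (nat_lit 26235577558) (nat_lit 3) (nat_lit 4) (nat_lit 4) (nat_lit 5) (nat_lit 4) (nat_lit 4) (nat_lit 254) (nat_lit 214) (nat_lit 192)) (XT.nd (nat_lit 78) (nat_lit 0) (nat_lit 0) (XT.lf (nat_lit 0) (nat_lit 111362870715) (nat_lit 76) (nat_lit 31392366369) (nat_lit 76) (nat_lit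 24871331911) (nat_lit 3) (nat_lit 4) (nat_lit 4) (nat_lit 5) (nat_lit 4) (nat_lit 4) (nat_lit 255) (nat_lit 214) (nat_lit 191)) (XT.lf (nat_lit 0) (nat_lit 139009415812) (nat_lit 76) (nat_lit 29924613467) (nat_lit 76) (nat_lit 23367977592) (nat_lit 3) (nat_lit 4) (nat_lit 4) (nat_lit 5) (nat_lit 4) (nat_lit 4) (nat_lit 256) (nat_lit 214) (nat_lit 190)))))) (XT.nd (nat_lit 390) (nat_lit 152) (nat_lit 0) (XT.nd (nat_lit 156) (nat_lit 0) (nat_lit 0) (XT.nd (nat_lit 78) (nat_lit 0) (nat_lit 0) (XT.lf (nat_lit 0) (nat_lit 170703234082) (nat_lit 76) (nat_lit 28283694776) (nat_lit 76) (nat_lit 21696101149) (nat_lit 3) (nat_lit 4) (nat_lit 4) (nat_lit 5) (nat_lit 4) (nat_lit 4) (nat_lit 257) (nat_lit 214) (nat_lit 189)) (XT.lf (nat_lit 0) (nat_lit 207064421968) (nat_lit 76) (nat_lit 26437505366) (nat_lit 76) (nat_lit 19822991954) (nat_lit 3) (nat_lit 4) (nat_lit 4) (nat_lit 5) (nat_lit 4) (nat_lit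 4) (nat_lit 258) (nat_lit 214) (nat_lit 188))) (XT.nd (nat_lit 78) (nat_lit 0) (nat_lit 0) (XT.lf (nat_lit 0) (nat_lit 248804394017) (nat_lit 76) (nat_lit 24349924140) (nat_lit 76) (nat_lit 17712002219) (nat_lit 3) (nat_lit 4) (nat_lit 4) (nat_lit 5) (nat_lit 4) (nat_lit 4) (nat_lit 259) (nat_lit 214) (nat_lit 187)) (XT.nd (nat_lit 78) (nat_lit 0) (nat_lit 0) (XT.lf (nat_lit 0) (nat_lit 296739801855) (nat_lit 76) (nat_lit 21980107118) (nat_lit 76) (nat_lit 15321829972) (nat_lit 3) (nat_lit 4) (nat_lit 4) (nat_lit 5) (nat_lit 4) (nat_lit 4) (nat_lit 260) (nat_lit 214) (nat_lit 186)) (XT.lf (nat_lit 0) (nat_lit 351808512157) (nat_lit 76) (nat_lit 19281688314) (nat_lit 76) (nat_lit 12605710972) (nat_lit 3) (nat_lit 4) (nat_lit 4) (nat_lit 5) (nat_lit 4) (nat_lit 4) (nat_lit 261) (nat_lit 214) (nat_lit 185))))) (XT.nd (nat_lit 234) (nat_lit 152) (nat_lit 0) (XT.nd (nat_lit 78) (nat_lit 0)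 (nat_lit 0) (XT.lf (nat_lit 0) (nat_lit 415087956212) (nat_lit 76) (nat_lit 16201872577) (nat_lit 76) (nat_lit 9510503762) (nat_lit 3) (nat_lit 4) (nat_lit 4) (nat_lit 5) (nat_lit 4) (nat_lit 4) (nat_lit 262) (nat_lit 214) (nat_lit 184)) (XT.nd (nat_lit 78) (nat_lit 0) (nat_lit 0) (XT.lf (nat_lit 0) (nat_lit 487816210099) (nat_lit 76) (nat_lit 12680402644) (nat_lit 76) (nat_lit 5975649938) (nat_lit 3) (nat_lit 4) (nat_lit 4) (nat_lit 5) (nat_lit 4) (nat_lit 4) (nat_lit 263) (nat_lit 214) (nat_lit 183)) (XT.lf (nat_lit 0) (nat_lit 571416217917) (nat_lit 76) (nat_lit 8648380190) (nat_lit 76) (nat_lit 1931989317) (nat_lit 3) (nat_lit 4) (nat_lit 4) (nat_lit 5) (nat_lit 4) (nat_lit 4) (nat_lit 264) (nat_lit 214) (nat_lit 182)))) (XT.nd (nat_lit 78) (nat_lit 76) (nat_lit 0) (XT.lf (nat_lit 0) (nat_lit 2564548613) (nat_lit 152) (nat_lit 1392249901) (nat_lit 76) (nat_lit 664888964074) (nat_lit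 2) (nat_lit 5) (nat_lit 4) (nat_lit 5) (nat_lit 3) (nat_lit 4) (nat_lit 265) (nat_lit 214) (nat_lit 181)) (XT.nd (nat_lit 78) (nat_lit 0) (nat_lit 0) (XT.lf (nat_lit 0) (nat_lit 7880832546) (nat_lit 152) (nat_lit 759172274626) (nat_lit 0) (nat_lit 1644433340) (nat_lit 1) (nat_lit 5) (nat_lit 3) (nat_lit 4) (nat_lit 1) (nat_lit 4) (nat_lit 266) (nat_lit 214) (nat_lit 180)) (XT.lf (nat_lit 0) (nat_lit 14131253794) (nat_lit 152) (nat_lit 861497138666) (nat_lit 0) (nat_lit 7887769141) (nat_lit 1) (nat_lit 5) (nat_lit 3) (nat_lit 4) (nat_lit 1) (nat_lit 4) (nat_lit 267) (nat_lit 214) (nat_lit 179))))))) (XT.nd (nat_lit 858) (nat_lit 0) (nat_lit 0) (XT.nd (nat_lit 390) (nat_lit 0) (nat_lit 0) (XT.nd (nat_lit 156) (nat_lit 0) (nat_lit 0) (XT.nd (nat_lit 78) (nat_lit 0) (nat_lit 0) (XT.lf (nat_lit 0) (nat_lit 21306779774) (nat_lit 152) (nat_lit 979194669376) (nat_lit 0) (nat_lit 15057133862)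 (nat_lit 1) (nat_lit 5) (nat_lit 3) (nat_lit 4) (nat_lit 1) (nat_lit 4) (nat_lit 268) (nat_lit 214) (nat_lit 178)) (XT.lf (nat_lit 0) (nat_lit 29547801209) (nat_lit 152) (nat_lit 1114567644531) (nat_lit 0) (nat_lit 23292797681) (nat_lit 1) (nat_lit 5) (nat_lit 3) (nat_lit 4) (nat_lit 1) (nat_lit 4) (nat_lit 269) (nat_lit 214) (nat_lit 177))) (XT.nd (nat_lit 78) (nat_lit 0) (nat_lit 0) (XT.lf (nat_lit 0) (nat_lit 39015555477) (nat_lit 152) (nat_lit 1270264665818) (nat_lit 0) (nat_lit 32755893153) (nat_lit 1) (nat_lit 5) (nat_lit 3) (nat_lit 4) (nat_lit 1) (nat_lit 4) (nat_lit 270) (nat_lit 214) (nat_lit 176)) (XT.nd (nat_lit 78) (nat_lit 0) (nat_lit 0) (XT.lf (nat_lit 0) (nat_lit 49895281248) (nat_lit 152) (nat_lit 1449331979308) (nat_lit 0) (nat_lit 43631567796) (nat_lit 1) (nat_lit 5) (nat_lit 3) (nat_lit 4) (nat_lit 1) (nat_lit 4) (nat_lit 271) (nat_lit 214) (nat_lit 175)) (XT.lf (nat_lit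 0) (nat_lit 62399842722) (nat_lit 152) (nat_lit 1655273075915) (nat_lit 0) (nat_lit 56132606551) (nat_lit 1) (nat_lit 5) (nat_lit 3) (nat_lit 4) (nat_lit 1) (nat_lit 4) (nat_lit 272) (nat_lit 214) (nat_lit 174))))) (XT.nd (nat_lit 234) (nat_lit 0) (nat_lit 0) (XT.nd (nat_lit 78) (nat_lit 0) (nat_lit 0) (XT.lf (nat_lit 0) (nat_lit 76773894362) (nat_lit 152) (nat_lit 1892117237964) (nat_lit 0) (nat_lit 70503594956) (nat_lit 1) (nat_lit 5) (nat_lit 3) (nat_lit 4) (nat_lit 1) (nat_lit 4) (nat_lit 273) (nat_lit 214) (nat_lit 173)) (XT.nd (nat_lit 78) (nat_lit 0) (nat_lit 0) (XT.lf (nat_lit 0) (nat_lit 93298667614) (nat_lit 152) (nat_lit 2164498372975) (nat_lit 0) (nat_lit 87025704526) (nat_lit 1) (nat_lit 5) (nat_lit 3) (nat_lit 4) (nat_lit 1) (nat_lit 4) (nat_lit 274) (nat_lit 214) (nat_lit 172)) (XT.lf (nat_lit 0) (nat_lit 112297473258) (nat_lit 152) (nat_lit 2477745677066) (nat_lit 0) (nat_lit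 106022193925) (nat_lit 1) (nat_lit 5) (nat_lit 3) (nat_lit 4) (nat_lit 1) (nat_lit 4) (nat_lit 275) (nat_lit 214) (nat_lit 171)))) (XT.nd (nat_lit 78) (nat_lit 0) (nat_lit 0) (XT.lf (nat_lit 0) (nat_lit 134142027057) (nat_lit 152) (nat_lit 2837987901839) (nat_lit 0) (nat_lit 127864733598) (nat_lit 1) (nat_lit 5) (nat_lit 3) (nat_lit 4) (nat_lit 1) (nat_lit 4) (nat_lit 276) (nat_lit 214) (nat_lit 170)) (XT.nd (nat_lit 78) (nat_lit 0) (nat_lit 0) (XT.lf (nat_lit 0) (nat_lit 159259722455) (nat_lit 152) (nat_lit 3252273264737) (nat_lit 0) (nat_lit 152980677582) (nat_lit 1) (nat_lit 5) (nat_lit 3) (nat_lit 4) (nat_lit 1) (nat_lit 4) (nat_lit 277) (nat_lit 214) (nat_lit 169)) (XT.lf (nat_lit 0) (nat_lit 188141992623) (nat_lit 152) (nat_lit 3728707348945) (nat_lit 0) (nat_lit 181861424781) (nat_lit 1) (nat_lit 5) (nat_lit 3) (nat_lit 4) (nat_lit 1) (nat_lit 4) (nat_lit 278) (nat_lit 214) (nat_lit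 168)))))) (XT.nd (nat_lit 390) (nat_lit 0) (nat_lit 0) (XT.nd (nat_lit 156) (nat_lit 0) (nat_lit 0) (XT.nd (nat_lit 78) (nat_lit 0) (nat_lit 0) (XT.lf (nat_lit 0) (nat_lit 221353925456) (nat_lit 152) (nat_lit 4276611690894) (nat_lit 0) (nat_lit 215072033293) (nat_lit 1) (nat_lit 5) (nat_lit 3) (nat_lit 4) (nat_lit 1) (nat_lit 4) (nat_lit 279) (nat_lit 214) (nat_lit 167)) (XT.lf (nat_lit 0) (nat_lit 259545319639) (nat_lit 152) (nat_lit 4906706158144) (nat_lit 0) (nat_lit 253262275892) (nat_lit 1) (nat_lit 5) (nat_lit 3) (nat_lit 4) (nat_lit 1) (nat_lit 4) (nat_lit 280) (nat_lit 214) (nat_lit 166))) (XT.nd (nat_lit 78) (nat_lit 0) (nat_lit 0) (XT.lf (nat_lit 0) (nat_lit 303463398101) (nat_lit 152) (nat_lit 5631318685924) (nat_lit 0) (nat_lit 297179352978) (nat_lit 1) (nat_lit 5) (nat_lit 3) (nat_lit 4) (nat_lit 1) (nat_lit 4) (nat_lit 281) (nat_lit 214) (nat_lit 165)) (XT.nd (nat_lit 78)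 (nat_lit 0) (nat_lit 0) (XT.lf (nat_lit 0) (nat_lit 353967427597) (nat_lit 152) (nat_lit 6464626475863) (nat_lit 0) (nat_lit 347682511711) (nat_lit 1) (nat_lit 5) (nat_lit 3) (nat_lit 4) (nat_lit 1) (nat_lit 4) (nat_lit 282) (nat_lit 214) (nat_lit 164)) (XT.lf (nat_lit 0) (nat_lit 412045530441) (nat_lit 152) (nat_lit 7422933376027) (nat_lit 0) (nat_lit 405759857370) (nat_lit 1) (nat_lit 5) (nat_lit 3) (nat_lit 4) (nat_lit 1) (nat_lit 4) (nat_lit 283) (nat_lit 214) (nat_lit 163))))) (XT.nd (nat_lit 30342) (nat_lit 0) (nat_lit 988) (XT.nd (nat_lit 30186) (nat_lit 0) (nat_lit 1520) (XT.lf (nat_lit 0) (nat_lit 478834017341) (nat_lit 152) (nat_lit 8524988869245) (nat_lit 0) (nat_lit 472547685849) (nat_lit 1) (nat_lit 5) (nat_lit 3) (nat_lit 4) (nat_lit 1) (nat_lit 4) (nat_lit 284) (nat_lit 214) (nat_lit 162)) (XT.nd (nat_lit 78) (nat_lit 228) (nat_lit 0) (XT.lf (nat_lit 0) (nat_lit 1263013237)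 (nat_lit 152) (nat_lit 1682117222) (nat_lit 152) (nat_lit 1682117222) (nat_lit 24) (nat_lit 4) (nat_lit 26) (nat_lit 5) (nat_lit 26) (nat_lit 4) (nat_lit 230) (nat_lit 215) (nat_lit 215)) (XT.lf (nat_lit 0) (nat_lit 3179131981) (nat_lit 228) (nat_lit 5077055678) (nat_lit 0) (nat_lit 1681744445) (nat_lit 21) (nat_lit 5) (nat_lit 24) (nat_lit 4) (nat_lit 21) (nat_lit 4) (nat_lit 231) (nat_lit 215) (nat_lit 214)))) (XT.nd (nat_lit 78) (nat_lit 380) (nat_lit 0) (XT.lf (nat_lit 0) (nat_lit 6891176897) (nat_lit 152) (nat_lit 3325233441) (nat_lit 152) (nat_lit 525769786) (nat_lit 19) (nat_lit 4) (nat_lit 21) (nat_lit 5) (nat_lit 21) (nat_lit 4) (nat_lit 232) (nat_lit 215) (nat_lit 213)) (XT.nd (nat_lit 78) (nat_lit 228) (nat_lit 0) (XT.lf (nat_lit 0) (nat_lit 6025491712) (nat_lit 152) (nat_lit 3268308346) (nat_lit 0) (nat_lit 2385025269) (nat_lit 17) (nat_lit 5) (nat_lit 19) (nat_lit 4) (nat_lit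 17) (nat_lit 4) (nat_lit 233) (nat_lit 215) (nat_lit 212)) (XT.lf (nat_lit 0) (nat_lit 517823533) (nat_lit 228) (nat_lit 3475019984) (nat_lit 76) (nat_lit 8779332868) (nat_lit 14) (nat_lit 5) (nat_lit 17) (nat_lit 5) (nat_lit 15) (nat_lit 4) (nat_lit 234) (nat_lit 215) (nat_lit 211))))))))
noncomputable def xc17 : XT := (XT.nd (nat_lit 1716) (nat_lit 152) (nat_lit 0) (XT.nd (nat_lit 858) (nat_lit 76) (nat_lit 0) (XT.nd (nat_lit 390) (nat_lit 380) (nat_lit 0) (XT.nd (nat_lit 156) (nat_lit 228) (nat_lit 0) (XT.nd (nat_lit 78) (nat_lit 76) (nat_lit 0) (XT.lf (nat_lit 0) (nat_lit 7065433885) (nat_lit 152) (nat_lit 4854221796) (nat_lit 0) (nat_lit 2116534233) (nat_lit 13) (nat_lit 5) (nat_lit 15) (nat_lit 4) (nat_lit 13) (nat_lit 4) (nat_lit 235) (nat_lit 215) (nat_lit 210)) (XT.lf (nat_lit 0) (nat_lit 7804462050) (nat_lit 76) (nat_lit 6642714678) (nat_lit 76) (nat_lit 1055555212) (nat_lit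 12) (nat_lit 4) (nat_lit 13) (nat_lit 5) (nat_lit 13) (nat_lit 4) (nat_lit 236) (nat_lit 215) (nat_lit 209))) (XT.nd (nat_lit 78) (nat_lit 76) (nat_lit 0) (XT.lf (nat_lit 0) (nat_lit 4682825193) (nat_lit 76) (nat_lit 521498457) (nat_lit 152) (nat_lit 11995158120) (nat_lit 10) (nat_lit 5) (nat_lit 11) (nat_lit 5) (nat_lit 12) (nat_lit 4) (nat_lit 237) (nat_lit 215) (nat_lit 208)) (XT.nd (nat_lit 78) (nat_lit 76) (nat_lit 0) (XT.lf (nat_lit 0) (nat_lit 12255424768) (nat_lit 152) (nat_lit 779341420) (nat_lit 0) (nat_lit 6121365401) (nat_lit 10) (nat_lit 5) (nat_lit 12) (nat_lit 4) (nat_lit 10) (nat_lit 4) (nat_lit 238) (nat_lit 215) (nat_lit 207)) (XT.lf (nat_lit 0) (nat_lit 12602374058) (nat_lit 76) (nat_lit 7667379985) (nat_lit 76) (nat_lit 1144740814) (nat_lit 9) (nat_lit 4) (nat_lit 10) (nat_lit 5) (nat_lit 10) (nat_lit 4) (nat_lit 239) (nat_lit 215) (nat_lit 206))))) (XT.nd (nat_lit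 234) (nat_lit 152) (nat_lit 0) (XT.nd (nat_lit 78) (nat_lit 76) (nat_lit 0) (XT.lf (nat_lit 0) (nat_lit 3374281683) (nat_lit 76) (nat_lit 1546303093) (nat_lit 152) (nat_lit 19103440687) (nat_lit 7) (nat_lit 5) (nat_lit 8) (nat_lit 5) (nat_lit 9) (nat_lit 4) (nat_lit 240) (nat_lit 215) (nat_lit 205)) (XT.nd (nat_lit 78) (nat_lit 76) (nat_lit 0) (XT.lf (nat_lit 0) (nat_lit 11868726928) (nat_lit 152) (nat_lit 9906756439) (nat_lit 0) (nat_lit 5244322475) (nat_lit 7) (nat_lit 5) (nat_lit 9) (nat_lit 4) (nat_lit 7) (nat_lit 4) (nat_lit 241) (nat_lit 215) (nat_lit 204)) (XT.lf (nat_lit 0) (nat_lit 1932775320) (nat_lit 76) (nat_lit 17705606652) (nat_lit 76) (nat_lit 10844630412) (nat_lit 6) (nat_lit 4) (nat_lit 7) (nat_lit 5) (nat_lit 7) (nat_lit 4) (nat_lit 242) (nat_lit 215) (nat_lit 203)))) (XT.nd (nat_lit 78) (nat_lit 152) (nat_lit 0) (XT.lf (nat_lit 0) (nat_lit 15627485858) (nat_lit 76)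 (nat_lit 12952372490) (nat_lit 76) (nat_lit 5885681655) (nat_lit 6) (nat_lit 4) (nat_lit 7) (nat_lit 5) (nat_lit 7) (nat_lit 4) (nat_lit 243) (nat_lit 215) (nat_lit 202)) (XT.nd (nat_lit 78) (nat_lit 152) (nat_lit 0) (XT.lf (nat_lit 0) (nat_lit 30923642924) (nat_lit 76) (nat_lit 7693651101) (nat_lit 76) (nat_lit 448078008) (nat_lit 6) (nat_lit 4) (nat_lit 7) (nat_lit 5) (nat_lit 7) (nat_lit 4) (nat_lit 244) (nat_lit 215) (nat_lit 201)) (XT.lf (nat_lit 0) (nat_lit 3804249425) (nat_lit 76) (nat_lit 1582948799) (nat_lit 152) (nat_lit 38967262101) (nat_lit 4) (nat_lit 5) (nat_lit 5) (nat_lit 5) (nat_lit 6) (nat_lit 4) (nat_lit 245) (nat_lit 215) (nat_lit 200)))))) (XT.nd (nat_lit 390) (nat_lit 0) (nat_lit 0) (XT.nd (nat_lit 156) (nat_lit 76) (nat_lit 0) (XT.nd (nat_lit 78) (nat_lit 0) (nat_lit 0) (XT.lf (nat_lit 0) (nat_lit 12242574512) (nat_lit 152) (nat_lit 32915470562) (nat_lit 0) (nat_lit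 5264441577) (nat_lit 4) (nat_lit 5) (nat_lit 6) (nat_lit 4) (nat_lit 4) (nat_lit 4) (nat_lit 246) (nat_lit 215) (nat_lit 199)) (XT.lf (nat_lit 0) (nat_lit 19993041196) (nat_lit 152) (nat_lit 24512515555) (nat_lit 0) (nat_lit 12906002717) (nat_lit 4) (nat_lit 5) (nat_lit 6) (nat_lit 4) (nat_lit 4) (nat_lit 4) (nat_lit 247) (nat_lit 215) (nat_lit 198))) (XT.nd (nat_lit 78) (nat_lit 76) (nat_lit 0) (XT.lf (nat_lit 0) (nat_lit 28752167886) (nat_lit 152) (nat_lit 15138870283) (nat_lit 0) (nat_lit 21570428934) (nat_lit 4) (nat_lit 5) (nat_lit 6) (nat_lit 4) (nat_lit 4) (nat_lit 4) (nat_lit 248) (nat_lit 215) (nat_lit 197)) (XT.nd (nat_lit 78) (nat_lit 76) (nat_lit 0) (XT.lf (nat_lit 0) (nat_lit 38691328800) (nat_lit 152) (nat_lit 4611137337) (nat_lit 0) (nat_lit 31427241610) (nat_lit 4) (nat_lit 5) (nat_lit 6) (nat_lit 4) (nat_lit 4) (nat_lit 4) (nat_lit 249) (nat_lit 215) (nat_lit 196)) (XT.lf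 (nat_lit 0) (nat_lit 7659836721) (nat_lit 76) (nat_lit 42529368318) (nat_lit 76) (nat_lit 35193673965) (nat_lit 3) (nat_lit 4) (nat_lit 4) (nat_lit 5) (nat_lit 4) (nat_lit 4) (nat_lit 250) (nat_lit 215) (nat_lit 195))))) (XT.nd (nat_lit 234) (nat_lit 0) (nat_lit 0) (XT.nd (nat_lit 78) (nat_lit 0) (nat_lit 0) (XT.lf (nat_lit 0) (nat_lit 21850143763) (nat_lit 76) (nat_lit 41589845710) (nat_lit 76) (nat_lit 34191884258) (nat_lit 3) (nat_lit 4) (nat_lit 4) (nat_lit 5) (nat_lit 4) (nat_lit 4) (nat_lit 251) (nat_lit 215) (nat_lit 194)) (XT.nd (nat_lit 78) (nat_lit 0) (nat_lit 0) (XT.lf (nat_lit 0) (nat_lit 37994605910) (nat_lit 76) (nat_lit 40591593016) (nat_lit 76) (nat_lit 33139486261) (nat_lit 3) (nat_lit 4) (nat_lit 4) (nat_lit 5) (nat_lit 4) (nat_lit 4) (nat_lit 252) (nat_lit 215) (nat_lit 193)) (XT.lf (nat_lit 0) (nat_lit 56409093073) (nat_lit 76) (nat_lit 39515079204) (nat_lit 76) (nat_lit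 32015889576) (nat_lit 3) (nat_lit 4) (nat_lit 4) (nat_lit 5) (nat_lit 4) (nat_lit 4) (nat_lit 253) (nat_lit 215) (nat_lit 192)))) (XT.nd (nat_lit 78) (nat_lit 0) (nat_lit 0) (XT.lf (nat_lit 0) (nat_lit 77453888698) (nat_lit 76) (nat_lit 38339242047) (nat_lit 76) (nat_lit 30799110792) (nat_lit 3) (nat_lit 4) (nat_lit 4) (nat_lit 5) (nat_lit 4) (nat_lit 4) (nat_lit 254) (nat_lit 215) (nat_lit 191)) (XT.nd (nat_lit 78) (nat_lit 0) (nat_lit 0) (XT.lf (nat_lit 0) (nat_lit 101540738785) (nat_lit 76) (nat_lit 37041076037) (nat_lit 76) (nat_lit 29465343366) (nat_lit 3) (nat_lit 4) (nat_lit 4) (nat_lit 5) (nat_lit 4) (nat_lit 4) (nat_lit 255) (nat_lit 215) (nat_lit 190)) (XT.lf (nat_lit 0) (nat_lit 129140907793) (nat_lit 76) (nat_lit 35595182272) (nat_lit 76) (nat_lit 27988491848) (nat_lit 3) (nat_lit 4) (nat_lit 4) (nat_lit 5) (nat_lit 4) (nat_lit 4) (nat_lit 256) (nat_lit 215) (nat_lit 189)))))))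 (XT.nd (nat_lit 858) (nat_lit 0) (nat_lit 0) (XT.nd (nat_lit 390) (nat_lit 152) (nat_lit 0) (XT.nd (nat_lit 156) (nat_lit 0) (nat_lit 0) (XT.nd (nat_lit 78) (nat_lit 0) (nat_lit 0) (XT.lf (nat_lit 0) (nat_lit 160794399029) (nat_lit 76) (nat_lit 33973271528) (nat_lit 76) (nat_lit 26339661319) (nat_lit 3) (nat_lit 4) (nat_lit 4) (nat_lit 5) (nat_lit 4) (nat_lit 4) (nat_lit 257) (nat_lit 215) (nat_lit 188)) (XT.lf (nat_lit 0) (nat_lit 197120519929) (nat_lit 76) (nat_lit 32143610767) (nat_lit 76) (nat_lit 24486592049) (nat_lit 3) (nat_lit 4) (nat_lit 4) (nat_lit 5) (nat_lit 4) (nat_lit 4) (nat_lit 258) (nat_lit 215) (nat_lit 187))) (XT.nd (nat_lit 78) (nat_lit 0) (nat_lit 0) (XT.lf (nat_lit 0) (nat_lit 238829998946) (nat_lit 76) (nat_lit 30070402279) (nat_lit 76) (nat_lit 22393028337) (nat_lit 3) (nat_lit 4) (nat_lit 4) (nat_lit 5) (nat_lit 4) (nat_lit 4) (nat_lit 259) (nat_lit 215) (nat_lit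 186)) (XT.nd (nat_lit 78) (nat_lit 0) (nat_lit 0) (XT.lf (nat_lit 0) (nat_lit 286738891104) (nat_lit 76) (nat_lit 27713083290) (nat_lit 76) (nat_lit 20018009152) (nat_lit 3) (nat_lit 4) (nat_lit 4) (nat_lit 5) (nat_lit 4) (nat_lit 4) (nat_lit 260) (nat_lit 215) (nat_lit 185)) (XT.lf (nat_lit 0) (nat_lit 341784544293) (nat_lit 76) (nat_lit 25025532341) (nat_lit 76) (nat_lit 17315066729) (nat_lit 3) (nat_lit 4) (nat_lit 4) (nat_lit 5) (nat_lit 4) (nat_lit 4) (nat_lit 261) (nat_lit 215) (nat_lit 184))))) (XT.nd (nat_lit 234) (nat_lit 152) (nat_lit 0) (XT.nd (nat_lit 78) (nat_lit 0) (nat_lit 0) (XT.lf (nat_lit 0) (nat_lit 405043938685) (nat_lit 76) (nat_lit 21955166914) (nat_lit 76) (nat_lit 14231317410) (nat_lit 3) (nat_lit 4) (nat_lit 4) (nat_lit 5) (nat_lit 4) (nat_lit 4) (nat_lit 262) (nat_lit 215) (nat_lit 183)) (XT.nd (nat_lit 78) (nat_lit 0) (nat_lit 0) (XT.lf (nat_lit 0) (nat_lit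 477754758083) (nat_lit 76) (nat_lit 18441914640) (nat_lit 76) (nat_lit 10706426971) (nat_lit 3) (nat_lit 4) (nat_lit 4) (nat_lit 5) (nat_lit 4) (nat_lit 4) (nat_lit 263) (nat_lit 215) (nat_lit 182)) (XT.lf (nat_lit 0) (nat_lit 561339605474) (nat_lit 76) (nat_lit 14417037977) (nat_lit 76) (nat_lit 6671430163) (nat_lit 3) (nat_lit 4) (nat_lit 4) (nat_lit 5) (nat_lit 4) (nat_lit 4) (nat_lit 264) (nat_lit 215) (nat_lit 181)))) (XT.nd (nat_lit 78) (nat_lit 152) (nat_lit 0) (XT.lf (nat_lit 0) (nat_lit 657433836569) (nat_lit 76) (nat_lit 9801789337) (nat_lit 76) (nat_lit 2047381397) (nat_lit 3) (nat_lit 4) (nat_lit 4) (nat_lit 5) (nat_lit 4) (nat_lit 4) (nat_lit 265) (nat_lit 215) (nat_lit 180)) (XT.nd (nat_lit 78) (nat_lit 76) (nat_lit 0) (XT.lf (nat_lit 0) (nat_lit 3093302041) (nat_lit 152) (nat_lit 1327991975) (nat_lit 76) (nat_lit 764739677489) (nat_lit 2) (nat_lit 5) (nat_lit 4) (nat_lit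 5) (nat_lit 3) (nat_lit 4) (nat_lit 266) (nat_lit 215) (nat_lit 179)) (XT.lf (nat_lit 0) (nat_lit 9197103133) (nat_lit 152) (nat_lit 872790374871) (nat_lit 0) (nat_lit 2003849076) (nat_lit 1) (nat_lit 5) (nat_lit 3) (nat_lit 4) (nat_lit 1) (nat_lit 4) (nat_lit 267) (nat_lit 215) (nat_lit 178)))))) (XT.nd (nat_lit 390) (nat_lit 0) (nat_lit 0) (XT.nd (nat_lit 156) (nat_lit 0) (nat_lit 0) (XT.nd (nat_lit 78) (nat_lit 0) (nat_lit 0) (XT.lf (nat_lit 0) (nat_lit 16367590303) (nat_lit 152) (nat_lit 990497586902) (nat_lit 0) (nat_lit 9168978630) (nat_lit 1) (nat_lit 5) (nat_lit 3) (nat_lit 4) (nat_lit 1) (nat_lit 4) (nat_lit 268) (nat_lit 215) (nat_lit 177)) (XT.lf (nat_lit 0) (nat_lit 24604230165) (nat_lit 152) (nat_lit 1125878980596) (nat_lit 0) (nat_lit 17400959696) (nat_lit 1) (nat_lit 5) (nat_lit 3) (nat_lit 4) (nat_lit 1) (nat_lit 4) (nat_lit 269) (nat_lit 215) (nat_lit 176))) (XT.nd (nat_lit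 78) (nat_lit 0) (nat_lit 0) (XT.lf (nat_lit 0) (nat_lit 34068174369) (nat_lit 152) (nat_lit 1281583322353) (nat_lit 0) (nat_lit 26860852772) (nat_lit 1) (nat_lit 5) (nat_lit 3) (nat_lit 4) (nat_lit 1) (nat_lit 4) (nat_lit 270) (nat_lit 215) (nat_lit 175)) (XT.nd (nat_lit 78) (nat_lit 0) (nat_lit 0) (XT.lf (nat_lit 0) (nat_lit 44944587041) (nat_lit 152) (nat_lit 1460657001467) (nat_lit 0) (nat_lit 37733742725) (nat_lit 1) (nat_lit 5) (nat_lit 3) (nat_lit 4) (nat_lit 1) (nat_lit 4) (nat_lit 271) (nat_lit 215) (nat_lit 174)) (XT.lf (nat_lit 0) (nat_lit 57446267559) (nat_lit 152) (nat_lit 1666603633400) (nat_lit 0) (nat_lit 50232360008) (nat_lit 1) (nat_lit 5) (nat_lit 3) (nat_lit 4) (nat_lit 1) (nat_lit 4) (nat_lit 272) (nat_lit 215) (nat_lit 173))))) (XT.nd (nat_lit 234) (nat_lit 0) (nat_lit 0) (XT.nd (nat_lit 78) (nat_lit 0) (nat_lit 0) (XT.lf (nat_lit 0) (nat_lit 71817814020) (nat_lit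 152) (nat_lit 1903452608777) (nat_lit 0) (nat_lit 64601242788) (nat_lit 1) (nat_lit 5) (nat_lit 3) (nat_lit 4) (nat_lit 1) (nat_lit 4) (nat_lit 273) (nat_lit 215) (nat_lit 172)) (XT.nd (nat_lit 78) (nat_lit 0) (nat_lit 0) (XT.lf (nat_lit 0) (nat_lit 88340408856) (nat_lit 152) (nat_lit 2175837929289) (nat_lit 0) (nat_lit 81121521377) (nat_lit 1) (nat_lit 5) (nat_lit 3) (nat_lit 4) (nat_lit 1) (nat_lit 4) (nat_lit 274) (nat_lit 215) (nat_lit 171)) (XT.lf (nat_lit 0) (nat_lit 107337320225) (nat_lit 152) (nat_lit 2489088872947) (nat_lit 0) (nat_lit 100116418620) (nat_lit 1) (nat_lit 5) (nat_lit 3) (nat_lit 4) (nat_lit 1) (nat_lit 4) (nat_lit 275) (nat_lit 215) (nat_lit 170)))) (XT.nd (nat_lit 78) (nat_lit 0) (nat_lit 0) (XT.lf (nat_lit 0) (nat_lit 129180226828) (nat_lit 152) (nat_lit 2849334262562) (nat_lit 0) (nat_lit 121957573809) (nat_lit 1) (nat_lit 5) (nat_lit 3) (nat_lit 4) (nat_lit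 1) (nat_lit 4) (nat_lit 276) (nat_lit 215) (nat_lit 169)) (XT.nd (nat_lit 78) (nat_lit 0) (nat_lit 0) (XT.lf (nat_lit 0) (nat_lit 154296489882) (nat_lit 152) (nat_lit 3263622377495) (nat_lit 0) (nat_lit 147072313895) (nat_lit 1) (nat_lit 5) (nat_lit 3) (nat_lit 4) (nat_lit 1) (nat_lit 4) (nat_lit 277) (nat_lit 215) (nat_lit 168)) (XT.lf (nat_lit 0) (nat_lit 183177514534) (nat_lit 152) (nat_lit 3740058854777) (nat_lit 0) (nat_lit 175952014225) (nat_lit 1) (nat_lit 5) (nat_lit 3) (nat_lit 4) (nat_lit 1) (nat_lit 4) (nat_lit 278) (nat_lit 215) (nat_lit 167))))))))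
noncomputable def xc18 : XT := (XT.nd (nat_lit 31668) (nat_lit 0) (nat_lit 152) (XT.nd (nat_lit 30810) (nat_lit 0) (nat_lit 380) (XT.nd (nat_lit 390) (nat_lit 0) (nat_lit 0) (XT.nd (nat_lit 156) (nat_lit 0) (nat_lit 0) (XT.nd (nat_lit 78) (nat_lit 0) (nat_lit 0) (XT.lf (nat_lit 0) (nat_lit 216388364308) (nat_lit 152) (nat_lit 4287965277660) (nat_lit 0) (nat_lit 209161712417) (nat_lit 1) (nat_lit 5) (nat_lit 3) (nat_lit 4) (nat_lit 1) (nat_lit 4) (nat_lit 279) (nat_lit 215) (nat_lit 166)) (XT.lf (nat_lit 0) (nat_lit 254578816701) (nat_lit 152) (nat_lit 4918061554418) (nat_lit 0) (nat_lit 247351163433) (nat_lit 1) (nat_lit 5) (nat_lit 3) (nat_lit 4) (nat_lit 1) (nat_lit 4) (nat_lit 280) (nat_lit 215) (nat_lit 165))) (XT.nd (nat_lit 78) (nat_lit 0) (nat_lit 0) (XT.lf (nat_lit 0) (nat_lit 298496076217) (nat_lit 152) (nat_lit 5642675655683) (nat_lit 0) (nat_lit 291267552186) (nat_lit 1) (nat_lit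 5) (nat_lit 3) (nat_lit 4) (nat_lit 1) (nat_lit 4) (nat_lit 281) (nat_lit 215) (nat_lit 164)) (XT.nd (nat_lit 78) (nat_lit 0) (nat_lit 0) (XT.lf (nat_lit 0) (nat_lit 348999393584) (nat_lit 152) (nat_lit 6475984813871) (nat_lit 0) (nat_lit 341770112369) (nat_lit 1) (nat_lit 5) (nat_lit 3) (nat_lit 4) (nat_lit 1) (nat_lit 4) (nat_lit 282) (nat_lit 215) (nat_lit 163)) (XT.lf (nat_lit 0) (nat_lit 407076877186) (nat_lit 152) (nat_lit 7434292903816) (nat_lit 0) (nat_lit 399846937549) (nat_lit 1) (nat_lit 5) (nat_lit 3) (nat_lit 4) (nat_lit 1) (nat_lit 4) (nat_lit 283) (nat_lit 215) (nat_lit 162))))) (XT.nd (nat_lit 30186) (nat_lit 0) (nat_lit 1292) (XT.nd (nat_lit 30030) (nat_lit 0) (nat_lit 1900) (XT.lf (nat_lit 0) (nat_lit 473864825615) (nat_lit 152) (nat_lit 8536349431625) (nat_lit 0) (nat_lit 466634313438) (nat_lit 1) (nat_lit 5) (nat_lit 3) (nat_lit 4) (nat_lit 1) (nat_lit 4) (nat_lit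 284) (nat_lit 215) (nat_lit 161)) (XT.nd (nat_lit 78) (nat_lit 456) (nat_lit 0) (XT.lf (nat_lit 0) (nat_lit 1560897583) (nat_lit 304) (nat_lit 963285157) (nat_lit 0) (nat_lit 1560897583) (nat_lit 32) (nat_lit 5) (nat_lit 36) (nat_lit 4) (nat_lit 32) (nat_lit 4) (nat_lit 228) (nat_lit 216) (nat_lit 216)) (XT.lf (nat_lit 0) (nat_lit 55989953) (nat_lit 152) (nat_lit 936570478) (nat_lit 228) (nat_lit 7690204038) (nat_lit 26) (nat_lit 5) (nat_lit 28) (nat_lit 5) (nat_lit 29) (nat_lit 4) (nat_lit 229) (nat_lit 216) (nat_lit 215)))) (XT.nd (nat_lit 78) (nat_lit 456) (nat_lit 0) (XT.lf (nat_lit 0) (nat_lit 1990127460) (nat_lit 152) (nat_lit 5386236726) (nat_lit 152) (nat_lit 1909302866) (nat_lit 24) (nat_lit 4) (nat_lit 26) (nat_lit 5) (nat_lit 26) (nat_lit 4) (nat_lit 230) (nat_lit 216) (nat_lit 214)) (XT.nd (nat_lit 78) (nat_lit 228) (nat_lit 0) (XT.lf (nat_lit 0) (nat_lit 3762933868) (nat_lit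 152) (nat_lit 393849754) (nat_lit 228) (nat_lit 5842910963) (nat_lit 21) (nat_lit 5) (nat_lit 23) (nat_lit 5) (nat_lit 24) (nat_lit 4) (nat_lit 231) (nat_lit 216) (nat_lit 213)) (XT.lf (nat_lit 0) (nat_lit 5276208) (nat_lit 228) (nat_lit 5642724911) (nat_lit 76) (nat_lit 5185246602) (nat_lit 18) (nat_lit 5) (nat_lit 21) (nat_lit 5) (nat_lit 19) (nat_lit 4) (nat_lit 232) (nat_lit 216) (nat_lit 212)))))) (XT.nd (nat_lit 390) (nat_lit 380) (nat_lit 0) (XT.nd (nat_lit 156) (nat_lit 228) (nat_lit 0) (XT.nd (nat_lit 78) (nat_lit 228) (nat_lit 0) (XT.lf (nat_lit 0) (nat_lit 6111630321) (nat_lit 76) (nat_lit 18122735) (nat_lit 152) (nat_lit 5671888255) (nat_lit 17) (nat_lit 5) (nat_lit 18) (nat_lit 5) (nat_lit 19) (nat_lit 4) (nat_lit 233) (nat_lit 216) (nat_lit 211)) (XT.lf (nat_lit 0) (nat_lit 158988413) (nat_lit 228) (nat_lit 6608556155) (nat_lit 76) (nat_lit 6155360938) (nat_lit 14) (nat_lit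 5) (nat_lit 17) (nat_lit 5) (nat_lit 15) (nat_lit 4) (nat_lit 234) (nat_lit 216) (nat_lit 210))) (XT.nd (nat_lit 78) (nat_lit 152) (nat_lit 0) (XT.lf (nat_lit 0) (nat_lit 5521088040) (nat_lit 76) (nat_lit 800864217) (nat_lit 152) (nat_lit 7896243496) (nat_lit 13) (nat_lit 5) (nat_lit 14) (nat_lit 5) (nat_lit 15) (nat_lit 4) (nat_lit 235) (nat_lit 216) (nat_lit 209)) (XT.nd (nat_lit 78) (nat_lit 76) (nat_lit 0) (XT.lf (nat_lit 0) (nat_lit 3379665377) (nat_lit 76) (nat_lit 9975930596) (nat_lit 76) (nat_lit 2357428863) (nat_lit 12) (nat_lit 4) (nat_lit 13) (nat_lit 5) (nat_lit 13) (nat_lit 4) (nat_lit 236) (nat_lit 216) (nat_lit 208)) (XT.lf (nat_lit 0) (nat_lit 3647577455) (nat_lit 152) (nat_lit 514156743) (nat_lit 76) (nat_lit 13276498644) (nat_lit 11) (nat_lit 5) (nat_lit 13) (nat_lit 5) (nat_lit 12) (nat_lit 4) (nat_lit 237) (nat_lit 216) (nat_lit 207))))) (XT.nd (nat_lit 234) (nat_lit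 152) (nat_lit 0) (XT.nd (nat_lit 78) (nat_lit 152) (nat_lit 0) (XT.lf (nat_lit 0) (nat_lit 10406172482) (nat_lit 152) (nat_lit 6495860482) (nat_lit 0) (nat_lit 2516557632) (nat_lit 10) (nat_lit 5) (nat_lit 12) (nat_lit 4) (nat_lit 10) (nat_lit 4) (nat_lit 238) (nat_lit 216) (nat_lit 206)) (XT.nd (nat_lit 78) (nat_lit 76) (nat_lit 0) (XT.lf (nat_lit 0) (nat_lit 6273103609) (nat_lit 76) (nat_lit 11828567204) (nat_lit 76) (nat_lit 3601056872) (nat_lit 9) (nat_lit 4) (nat_lit 10) (nat_lit 5) (nat_lit 10) (nat_lit 4) (nat_lit 239) (nat_lit 216) (nat_lit 205)) (XT.lf (nat_lit 0) (nat_lit 2350439671) (nat_lit 152) (nat_lit 3632417973) (nat_lit 76) (nat_lit 18353278172) (nat_lit 8) (nat_lit 5) (nat_lit 10) (nat_lit 5) (nat_lit 9) (nat_lit 4) (nat_lit 240) (nat_lit 216) (nat_lit 204)))) (XT.nd (nat_lit 78) (nat_lit 76) (nat_lit 0) (XT.lf (nat_lit 0) (nat_lit 8953367249) (nat_lit 152) (nat_lit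 17579680502) (nat_lit 0) (nat_lit 826672788) (nat_lit 7) (nat_lit 5) (nat_lit 9) (nat_lit 4) (nat_lit 7) (nat_lit 4) (nat_lit 241) (nat_lit 216) (nat_lit 203)) (XT.nd (nat_lit 78) (nat_lit 76) (nat_lit 0) (XT.lf (nat_lit 0) (nat_lit 16551176556) (nat_lit 152) (nat_lit 6066893449) (nat_lit 0) (nat_lit 8218767498) (nat_lit 7) (nat_lit 5) (nat_lit 9) (nat_lit 4) (nat_lit 7) (nat_lit 4) (nat_lit 242) (nat_lit 216) (nat_lit 202)) (XT.lf (nat_lit 0) (nat_lit 7097759159) (nat_lit 76) (nat_lit 18127226112) (nat_lit 76) (nat_lit 9615934797) (nat_lit 6) (nat_lit 4) (nat_lit 7) (nat_lit 5) (nat_lit 7) (nat_lit 4) (nat_lit 243) (nat_lit 216) (nat_lit 201))))))) (XT.nd (nat_lit 858) (nat_lit 0) (nat_lit 0) (XT.nd (nat_lit 390) (nat_lit 76) (nat_lit 0) (XT.nd (nat_lit 156) (nat_lit 76) (nat_lit 0) (XT.nd (nat_lit 78) (nat_lit 76) (nat_lit 0) (XT.lf (nat_lit 0) (nat_lit 22210797903) (nat_lit 76) (nat_lit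 12952427027) (nat_lit 76) (nat_lit 4285585922) (nat_lit 6) (nat_lit 4) (nat_lit 7) (nat_lit 5) (nat_lit 7) (nat_lit 4) (nat_lit 244) (nat_lit 216) (nat_lit 200)) (XT.lf (nat_lit 0) (nat_lit 1561566182) (nat_lit 152) (nat_lit 5554044130) (nat_lit 76) (nat_lit 37644178642) (nat_lit 5) (nat_lit 5) (nat_lit 7) (nat_lit 5) (nat_lit 6) (nat_lit 4) (nat_lit 245) (nat_lit 216) (nat_lit 199))) (XT.nd (nat_lit 78) (nat_lit 0) (nat_lit 0) (XT.lf (nat_lit 0) (nat_lit 7850079271) (nat_lit 76) (nat_lit 212324118) (nat_lit 152) (nat_lit 42793861185) (nat_lit 4) (nat_lit 5) (nat_lit 5) (nat_lit 5) (nat_lit 6) (nat_lit 4) (nat_lit 246) (nat_lit 216) (nat_lit 198)) (XT.nd (nat_lit 78) (nat_lit 0) (nat_lit 0) (XT.lf (nat_lit 0) (nat_lit 15736177628) (nat_lit 152) (nat_lit 34732892727) (nat_lit 0) (nat_lit 7382477359) (nat_lit 4) (nat_lit 5) (nat_lit 6) (nat_lit 4) (nat_lit 4) (nat_lit 4) (nat_lit 247) (nat_lit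 216) (nat_lit 197)) (XT.lf (nat_lit 0) (nat_lit 24433055583) (nat_lit 152) (nat_lit 25476437741) (nat_lit 0) (nat_lit 15997007077) (nat_lit 4) (nat_lit 5) (nat_lit 6) (nat_lit 4) (nat_lit 4) (nat_lit 4) (nat_lit 248) (nat_lit 216) (nat_lit 196))))) (XT.nd (nat_lit 234) (nat_lit 0) (nat_lit 0) (XT.nd (nat_lit 78) (nat_lit 76) (nat_lit 0) (XT.lf (nat_lit 0) (nat_lit 34318087163) (nat_lit 152) (nat_lit 15050609393) (nat_lit 0) (nat_lit 25810431493) (nat_lit 4) (nat_lit 5) (nat_lit 6) (nat_lit 4) (nat_lit 4) (nat_lit 4) (nat_lit 249) (nat_lit 216) (nat_lit 195)) (XT.nd (nat_lit 78) (nat_lit 76) (nat_lit 0) (XT.lf (nat_lit 0) (nat_lit 45584675159) (nat_lit 152) (nat_lit 3251424083) (nat_lit 0) (nat_lit 37014752390) (nat_lit 4) (nat_lit 5) (nat_lit 6) (nat_lit 4) (nat_lit 4) (nat_lit 4) (nat_lit 250) (nat_lit 216) (nat_lit 194)) (XT.lf (nat_lit 0) (nat_lit 10686556657) (nat_lit 76) (nat_lit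 48023708100) (nat_lit 76) (nat_lit 39399640029) (nat_lit 3) (nat_lit 4) (nat_lit 4) (nat_lit 5) (nat_lit 4) (nat_lit 4) (nat_lit 251) (nat_lit 216) (nat_lit 193)))) (XT.nd (nat_lit 78) (nat_lit 0) (nat_lit 0) (XT.lf (nat_lit 0) (nat_lit 26760486569) (nat_lit 76) (nat_lit 47058700423) (nat_lit 76) (nat_lit 38387549479) (nat_lit 3) (nat_lit 4) (nat_lit 4) (nat_lit 5) (nat_lit 4) (nat_lit 4) (nat_lit 252) (nat_lit 216) (nat_lit 192)) (XT.nd (nat_lit 78) (nat_lit 0) (nat_lit 0) (XT.lf (nat_lit 0) (nat_lit 45113641355) (nat_lit 76) (nat_lit 46011095321) (nat_lit 76) (nat_lit 37299002749) (nat_lit 3) (nat_lit 4) (nat_lit 4) (nat_lit 5) (nat_lit 4) (nat_lit 4) (nat_lit 253) (nat_lit 216) (nat_lit 191)) (XT.lf (nat_lit 0) (nat_lit 66105104477) (nat_lit 76) (nat_lit 44860396173) (nat_lit 76) (nat_lit 36112702186) (nat_lit 3) (nat_lit 4) (nat_lit 4) (nat_lit 5) (nat_lit 4) (nat_lit 4) (nat_lit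 254) (nat_lit 216) (nat_lit 190)))))) (XT.nd (nat_lit 390) (nat_lit 0) (nat_lit 0) (XT.nd (nat_lit 156) (nat_lit 0) (nat_lit 0) (XT.nd (nat_lit 78) (nat_lit 0) (nat_lit 0) (XT.lf (nat_lit 0) (nat_lit 90145578474) (nat_lit 76) (nat_lit 43584089301) (nat_lit 76) (nat_lit 34805437561) (nat_lit 3) (nat_lit 4) (nat_lit 4) (nat_lit 5) (nat_lit 4) (nat_lit 4) (nat_lit 255) (nat_lit 216) (nat_lit 189)) (XT.lf (nat_lit 0) (nat_lit 117705420448) (nat_lit 76) (nat_lit 42157203483) (nat_lit 76) (nat_lit 33351631958) (nat_lit 3) (nat_lit 4) (nat_lit 4) (nat_lit 5) (nat_lit 4) (nat_lit 4) (nat_lit 256) (nat_lit 216) (nat_lit 188))) (XT.nd (nat_lit 78) (nat_lit 0) (nat_lit 0) (XT.lf (nat_lit 0) (nat_lit 149323844697) (nat_lit 76) (nat_lit 40551821388) (nat_lit 76) (nat_lit 31722841354) (nat_lit 3) (nat_lit 4) (nat_lit 4) (nat_lit 5) (nat_lit 4) (nat_lit 4) (nat_lit 257) (nat_lit 216) (nat_lit 187))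 (XT.nd (nat_lit 78) (nat_lit 0) (nat_lit 0) (XT.lf (nat_lit 0) (nat_lit 185619472565) (nat_lit 76) (nat_lit 38736533365) (nat_lit 76) (nat_lit 29887198106) (nat_lit 3) (nat_lit 4) (nat_lit 4) (nat_lit 5) (nat_lit 4) (nat_lit 4) (nat_lit 258) (nat_lit 216) (nat_lit 186)) (XT.lf (nat_lit 0) (nat_lit 227302435903) (nat_lit 76) (nat_lit 36675822911) (nat_lit 76) (nat_lit 27808787457) (nat_lit 3) (nat_lit 4) (nat_lit 4) (nat_lit 5) (nat_lit 4) (nat_lit 4) (nat_lit 259) (nat_lit 216) (nat_lit 185))))) (XT.nd (nat_lit 234) (nat_lit 0) (nat_lit 0) (XT.nd (nat_lit 78) (nat_lit 0) (nat_lit 0) (XT.lf (nat_lit 0) (nat_lit 275188270948) (nat_lit 76) (nat_lit 34329371777) (nat_lit 76) (nat_lit 25446944848) (nat_lit 3) (nat_lit 4) (nat_lit 4) (nat_lit 5) (nat_lit 4) (nat_lit 4) (nat_lit 260) (nat_lit 216) (nat_lit 184)) (XT.nd (nat_lit 78) (nat_lit 0) (nat_lit 0) (XT.lf (nat_lit 0) (nat_lit 330213874474)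 (nat_lit 76) (nat_lit 31651271137) (nat_lit 76) (nat_lit 22755460317) (nat_lit 3) (nat_lit 4) (nat_lit 4) (nat_lit 5) (nat_lit 4) (nat_lit 4) (nat_lit 261) (nat_lit 216) (nat_lit 183)) (XT.lf (nat_lit 0) (nat_lit 393455834376) (nat_lit 76) (nat_lit 28589123369) (nat_lit 76) (nat_lit 19681674383) (nat_lit 3) (nat_lit 4) (nat_lit 4) (nat_lit 5) (nat_lit 4) (nat_lit 4) (nat_lit 262) (nat_lit 216) (nat_lit 182)))) (XT.nd (nat_lit 78) (nat_lit 0) (nat_lit 0) (XT.lf (nat_lit 0) (nat_lit 466151493348) (nat_lit 76) (nat_lit 25083016887) (nat_lit 76) (nat_lit 16165447757) (nat_lit 3) (nat_lit 4) (nat_lit 4) (nat_lit 5) (nat_lit 4) (nat_lit 4) (nat_lit 263) (nat_lit 216) (nat_lit 181)) (XT.nd (nat_lit 78) (nat_lit 0) (nat_lit 0) (XT.lf (nat_lit 0) (nat_lit 549723157760) (nat_lit 76) (nat_lit 21064353955) (nat_lit 76) (nat_lit 12137984699) (nat_lit 3) (nat_lit 4) (nat_lit 4) (nat_lit 5) (nat_lit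 4) (nat_lit 4) (nat_lit 264) (nat_lit 216) (nat_lit 180)) (XT.lf (nat_lit 0) (nat_lit 645805925396) (nat_lit 76) (nat_lit 16454508559) (nat_lit 76) (nat_lit 7520487021) (nat_lit 3) (nat_lit 4) (nat_lit 4) (nat_lit 5) (nat_lit 4) (nat_lit 4) (nat_lit 265) (nat_lit 216) (nat_lit 179))))))))
noncomputable def xc19 : XT := (XT.nd (nat_lit 31512) (nat_lit 0) (nat_lit 228) (XT.nd (nat_lit 858) (nat_lit 0) (nat_lit 0) (XT.nd (nat_lit 390) (nat_lit 0) (nat_lit 0) (XT.nd (nat_lit 156) (nat_lit 76) (nat_lit 0) (XT.nd (nat_lit 78) (nat_lit 76) (nat_lit 0) (XT.lf (nat_lit 0) (nat_lit 756279676490) (nat_lit 76) (nat_lit 11163288072) (nat_lit 76) (nat_lit 2222612375) (nat_lit 3) (nat_lit 4) (nat_lit 4) (nat_lit 5) (nat_lit 4) (nat_lit 4) (nat_lit 266) (nat_lit 216) (nat_lit 178)) (XT.lf (nat_lit 0) (nat_lit 3666235825) (nat_lit 152) (nat_lit 1320691405) (nat_lit 76) (nat_lit 879539376789) (nat_lit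 2) (nat_lit 5) (nat_lit 4) (nat_lit 5) (nat_lit 3) (nat_lit 4) (nat_lit 267) (nat_lit 216) (nat_lit 177))) (XT.nd (nat_lit 78) (nat_lit 0) (nat_lit 0) (XT.lf (nat_lit 0) (nat_lit 10678102029) (nat_lit 152) (nat_lit 1003514041916) (nat_lit 0) (nat_lit 2389682192) (nat_lit 1) (nat_lit 5) (nat_lit 3) (nat_lit 4) (nat_lit 1) (nat_lit 4) (nat_lit 268) (nat_lit 216) (nat_lit 176)) (XT.nd (nat_lit 78) (nat_lit 0) (nat_lit 0) (XT.lf (nat_lit 0) (nat_lit 18910931827) (nat_lit 152) (nat_lit 1138902756079) (nat_lit 0) (nat_lit 10618460863) (nat_lit 1) (nat_lit 5) (nat_lit 3) (nat_lit 4) (nat_lit 1) (nat_lit 4) (nat_lit 269) (nat_lit 216) (nat_lit 175)) (XT.lf (nat_lit 0) (nat_lit 28371562932) (nat_lit 152) (nat_lit 1294613463461) (nat_lit 0) (nat_lit 20075569249) (nat_lit 1) (nat_lit 5) (nat_lit 3) (nat_lit 4) (nat_lit 1) (nat_lit 4) (nat_lit 270) (nat_lit 216) (nat_lit 174))))) (XT.nd (nat_lit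 234) (nat_lit 0) (nat_lit 0) (XT.nd (nat_lit 78) (nat_lit 0) (nat_lit 0) (XT.lf (nat_lit 0) (nat_lit 39245094648) (nat_lit 152) (nat_lit 1473692677902) (nat_lit 0) (nat_lit 30946037731) (nat_lit 1) (nat_lit 5) (nat_lit 3) (nat_lit 4) (nat_lit 1) (nat_lit 4) (nat_lit 271) (nat_lit 216) (nat_lit 173)) (XT.nd (nat_lit 78) (nat_lit 0) (nat_lit 0) (XT.lf (nat_lit 0) (nat_lit 51744269988) (nat_lit 152) (nat_lit 1679644123162) (nat_lit 0) (nat_lit 43442549388) (nat_lit 1) (nat_lit 5) (nat_lit 3) (nat_lit 4) (nat_lit 1) (nat_lit 4) (nat_lit 272) (nat_lit 216) (nat_lit 172)) (XT.lf (nat_lit 0) (nat_lit 66113638032) (nat_lit 152) (nat_lit 1916497284041) (nat_lit 0) (nat_lit 57809601187) (nat_lit 1) (nat_lit 5) (nat_lit 3) (nat_lit 4) (nat_lit 1) (nat_lit 4) (nat_lit 273) (nat_lit 216) (nat_lit 171)))) (XT.nd (nat_lit 78) (nat_lit 0) (nat_lit 0) (XT.lf (nat_lit 0) (nat_lit 82634338592) (nat_lit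 152) (nat_lit 2188886244120) (nat_lit 0) (nat_lit 74328287621) (nat_lit 1) (nat_lit 5) (nat_lit 3) (nat_lit 4) (nat_lit 1) (nat_lit 4) (nat_lit 274) (nat_lit 216) (nat_lit 170)) (XT.nd (nat_lit 78) (nat_lit 0) (nat_lit 0) (XT.lf (nat_lit 0) (nat_lit 101629602766) (nat_lit 152) (nat_lit 2502140352619) (nat_lit 0) (nat_lit 93321800380) (nat_lit 1) (nat_lit 5) (nat_lit 3) (nat_lit 4) (nat_lit 1) (nat_lit 4) (nat_lit 275) (nat_lit 216) (nat_lit 169)) (XT.lf (nat_lit 0) (nat_lit 123471077025) (nat_lit 152) (nat_lit 2862388494269) (nat_lit 0) (nat_lit 115161751671) (nat_lit 1) (nat_lit 5) (nat_lit 3) (nat_lit 4) (nat_lit 1) (nat_lit 4) (nat_lit 276) (nat_lit 216) (nat_lit 168)))))) (XT.nd (nat_lit 390) (nat_lit 0) (nat_lit 0) (XT.nd (nat_lit 156) (nat_lit 0) (nat_lit 0) (XT.nd (nat_lit 78) (nat_lit 0) (nat_lit 0) (XT.lf (nat_lit 0) (nat_lit 148586094563) (nat_lit 152) (nat_lit 3276679002276)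 (nat_lit 0) (nat_lit 140275444887) (nat_lit 1) (nat_lit 5) (nat_lit 3) (nat_lit 4) (nat_lit 1) (nat_lit 4) (nat_lit 277) (nat_lit 216) (nat_lit 167)) (XT.lf (nat_lit 0) (nat_lit 177466036156) (nat_lit 152) (nat_lit 3753117560493) (nat_lit 0) (nat_lit 169154234897) (nat_lit 1) (nat_lit 5) (nat_lit 3) (nat_lit 4) (nat_lit 1) (nat_lit 4) (nat_lit 278) (nat_lit 216) (nat_lit 166))) (XT.nd (nat_lit 78) (nat_lit 0) (nat_lit 0) (XT.lf (nat_lit 0) (nat_lit 210675944141) (nat_lit 152) (nat_lit 4301025792884) (nat_lit 0) (nat_lit 202363141506) (nat_lit 1) (nat_lit 5) (nat_lit 3) (nat_lit 4) (nat_lit 1) (nat_lit 4) (nat_lit 279) (nat_lit 216) (nat_lit 165)) (XT.nd (nat_lit 78) (nat_lit 0) (nat_lit 0) (XT.lf (nat_lit 0) (nat_lit 248865577587) (nat_lit 152) (nat_lit 4931123643127) (nat_lit 0) (nat_lit 240551904189) (nat_lit 1) (nat_lit 5) (nat_lit 3) (nat_lit 4) (nat_lit 1) (nat_lit 4) (nat_lit 280)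 (nat_lit 216) (nat_lit 164)) (XT.lf (nat_lit 0) (nat_lit 292782124974) (nat_lit 152) (nat_lit 5655739112640) (nat_lit 0) (nat_lit 284467694392) (nat_lit 1) (nat_lit 5) (nat_lit 3) (nat_lit 4) (nat_lit 1) (nat_lit 4) (nat_lit 281) (nat_lit 216) (nat_lit 163))))) (XT.nd (nat_lit 30030) (nat_lit 0) (nat_lit 2356) (XT.nd (nat_lit 78) (nat_lit 0) (nat_lit 0) (XT.lf (nat_lit 0) (nat_lit 343284823099) (nat_lit 152) (nat_lit 6489049460609) (nat_lit 0) (nat_lit 334969734096) (nat_lit 1) (nat_lit 5) (nat_lit 3) (nat_lit 4) (nat_lit 1) (nat_lit 4) (nat_lit 282) (nat_lit 216) (nat_lit 162)) (XT.nd (nat_lit 78) (nat_lit 0) (nat_lit 0) (XT.lf (nat_lit 0) (nat_lit 401361768230) (nat_lit 152) (nat_lit 7447358585146) (nat_lit 0) (nat_lit 393046106686) (nat_lit 1) (nat_lit 5) (nat_lit 3) (nat_lit 4) (nat_lit 1) (nat_lit 4) (nat_lit 283) (nat_lit 216) (nat_lit 161)) (XT.lf (nat_lit 0) (nat_lit 468149248424)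 (nat_lit 152) (nat_lit 8549416012600) (nat_lit 0) (nat_lit 459833089018) (nat_lit 1) (nat_lit 5) (nat_lit 3) (nat_lit 4) (nat_lit 1) (nat_lit 4) (nat_lit 284) (nat_lit 216) (nat_lit 160)))) (XT.nd (nat_lit 78) (nat_lit 532) (nat_lit 0) (XT.lf (nat_lit 0) (nat_lit 524474105) (nat_lit 532) (nat_lit 2643642640) (nat_lit 0) (nat_lit 524474105) (nat_lit 39) (nat_lit 5) (nat_lit 46) (nat_lit 4) (nat_lit 39) (nat_lit 4) (nat_lit 226) (nat_lit 217) (nat_lit 217)) (XT.nd (nat_lit 78) (nat_lit 304) (nat_lit 0) (XT.lf (nat_lit 0) (nat_lit 3882270034) (nat_lit 228) (nat_lit 3181868323) (nat_lit 228) (nat_lit 687266927) (nat_lit 36) (nat_lit 4) (nat_lit 39) (nat_lit 5) (nat_lit 39) (nat_lit 4) (nat_lit 227) (nat_lit 217) (nat_lit 216)) (XT.lf (nat_lit 0) (nat_lit 5057189159) (nat_lit 304) (nat_lit 2405677125) (nat_lit 0) (nat_lit 738837305) (nat_lit 32) (nat_lit 5) (nat_lit 36) (nat_lit 4) (nat_lit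 32) (nat_lit 4) (nat_lit 228) (nat_lit 217) (nat_lit 215))))))) (XT.nd (nat_lit 858) (nat_lit 456) (nat_lit 0) (XT.nd (nat_lit 390) (nat_lit 532) (nat_lit 0) (XT.nd (nat_lit 156) (nat_lit 532) (nat_lit 0) (XT.nd (nat_lit 78) (nat_lit 304) (nat_lit 0) (XT.lf (nat_lit 0) (nat_lit 2441207145) (nat_lit 304) (nat_lit 987193814) (nat_lit 76) (nat_lit 5312320243) (nat_lit 28) (nat_lit 5) (nat_lit 32) (nat_lit 5) (nat_lit 29) (nat_lit 4) (nat_lit 229) (nat_lit 217) (nat_lit 214)) (XT.lf (nat_lit 0) (nat_lit 371945438) (nat_lit 152) (nat_lit 8014870626) (nat_lit 152) (nat_lit 992975939) (nat_lit 24) (nat_lit 4) (nat_lit 26) (nat_lit 5) (nat_lit 26) (nat_lit 4) (nat_lit 230) (nat_lit 217) (nat_lit 213))) (XT.nd (nat_lit 78) (nat_lit 304) (nat_lit 0) (XT.lf (nat_lit 0) (nat_lit 1493645105) (nat_lit 152) (nat_lit 3188258309) (nat_lit 228) (nat_lit 5438678446) (nat_lit 21) (nat_lit 5) (nat_lit 23)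 (nat_lit 5) (nat_lit 24) (nat_lit 4) (nat_lit 231) (nat_lit 217) (nat_lit 212)) (XT.nd (nat_lit 78) (nat_lit 152) (nat_lit 0) (XT.lf (nat_lit 0) (nat_lit 2319540377) (nat_lit 152) (nat_lit 8643022451) (nat_lit 152) (nat_lit 24471397) (nat_lit 19) (nat_lit 4) (nat_lit 21) (nat_lit 5) (nat_lit 21) (nat_lit 4) (nat_lit 232) (nat_lit 217) (nat_lit 211)) (XT.lf (nat_lit 0) (nat_lit 2524100828) (nat_lit 76) (nat_lit 3244547280) (nat_lit 152) (nat_lit 6214060516) (nat_lit 17) (nat_lit 5) (nat_lit 18) (nat_lit 5) (nat_lit 19) (nat_lit 4) (nat_lit 233) (nat_lit 217) (nat_lit 210))))) (XT.nd (nat_lit 234) (nat_lit 228) (nat_lit 0) (XT.nd (nat_lit 78) (nat_lit 152) (nat_lit 0) (XT.lf (nat_lit 0) (nat_lit 2047375466) (nat_lit 152) (nat_lit 10276063707) (nat_lit 152) (nat_lit 813884554) (nat_lit 15) (nat_lit 4) (nat_lit 17) (nat_lit 5) (nat_lit 17) (nat_lit 4) (nat_lit 234) (nat_lit 217) (nat_lit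 209)) (XT.nd (nat_lit 78) (nat_lit 0) (nat_lit 0) (XT.lf (nat_lit 0) (nat_lit 458920837) (nat_lit 76) (nat_lit 4599016281) (nat_lit 152) (nat_lit 9403230375) (nat_lit 13) (nat_lit 5) (nat_lit 14) (nat_lit 5) (nat_lit 15) (nat_lit 4) (nat_lit 235) (nat_lit 217) (nat_lit 208)) (XT.lf (nat_lit 0) (nat_lit 11725543843) (nat_lit 152) (nat_lit 2333475343) (nat_lit 0) (nat_lit 1926642200) (nat_lit 13) (nat_lit 5) (nat_lit 15) (nat_lit 4) (nat_lit 13) (nat_lit 4) (nat_lit 236) (nat_lit 217) (nat_lit 207)))) (XT.nd (nat_lit 78) (nat_lit 76) (nat_lit 0) (XT.lf (nat_lit 0) (nat_lit 1599132716) (nat_lit 152) (nat_lit 6892371782) (nat_lit 76) (nat_lit 9242608018) (nat_lit 11) (nat_lit 5) (nat_lit 13) (nat_lit 5) (nat_lit 12) (nat_lit 4) (nat_lit 237) (nat_lit 217) (nat_lit 206)) (XT.nd (nat_lit 78) (nat_lit 0) (nat_lit 0) (XT.lf (nat_lit 0) (nat_lit 5991747704) (nat_lit 76) (nat_lit 1977118957) (nat_lit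 152) (nat_lit 11776979842) (nat_lit 10) (nat_lit 5) (nat_lit 11) (nat_lit 5) (nat_lit 12) (nat_lit 4) (nat_lit 238) (nat_lit 217) (nat_lit 205)) (XT.lf (nat_lit 0) (nat_lit 15321067082) (nat_lit 152) (nat_lit 1508900255) (nat_lit 0) (nat_lit 5227712562) (nat_lit 10) (nat_lit 5) (nat_lit 12) (nat_lit 4) (nat_lit 10) (nat_lit 4) (nat_lit 239) (nat_lit 217) (nat_lit 204)))))) (XT.nd (nat_lit 390) (nat_lit 152) (nat_lit 0) (XT.nd (nat_lit 156) (nat_lit 76) (nat_lit 0) (XT.nd (nat_lit 78) (nat_lit 152) (nat_lit 0) (XT.lf (nat_lit 0) (nat_lit 12670810770) (nat_lit 76) (nat_lit 11193839978) (nat_lit 76) (nat_lit 844987928) (nat_lit 9) (nat_lit 4) (nat_lit 10) (nat_lit 5) (nat_lit 10) (nat_lit 4) (nat_lit 240) (nat_lit 217) (nat_lit 203)) (XT.lf (nat_lit 0) (nat_lit 752506612) (nat_lit 76) (nat_lit 4691498400) (nat_lit 152) (nat_lit 22319503258) (nat_lit 7) (nat_lit 5) (nat_lit 8) (nat_lit 5)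 (nat_lit 9) (nat_lit 4) (nat_lit 241) (nat_lit 217) (nat_lit 202))) (XT.nd (nat_lit 78) (nat_lit 76) (nat_lit 0) (XT.lf (nat_lit 0) (nat_lit 12819972848) (nat_lit 152) (nat_lit 15585435659) (nat_lit 0) (nat_lit 2853105578) (nat_lit 7) (nat_lit 5) (nat_lit 9) (nat_lit 4) (nat_lit 7) (nat_lit 4) (nat_lit 242) (nat_lit 217) (nat_lit 201)) (XT.nd (nat_lit 78) (nat_lit 76) (nat_lit 0) (XT.lf (nat_lit 0) (nat_lit 21228288267) (nat_lit 152) (nat_lit 2949799711) (nat_lit 0) (nat_lit 11105871208) (nat_lit 7) (nat_lit 5) (nat_lit 9) (nat_lit 4) (nat_lit 7) (nat_lit 4) (nat_lit 243) (nat_lit 217) (nat_lit 200)) (XT.lf (nat_lit 0) (nat_lit 11848674482) (nat_lit 76) (nat_lit 19156917561) (nat_lit 76) (nat_lit 8899239816) (nat_lit 6) (nat_lit 4) (nat_lit 7) (nat_lit 5) (nat_lit 7) (nat_lit 4) (nat_lit 244) (nat_lit 217) (nat_lit 199))))) (XT.nd (nat_lit 234) (nat_lit 0) (nat_lit 0) (XT.nd (nat_lit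 78) (nat_lit 152) (nat_lit 0) (XT.lf (nat_lit 0) (nat_lit 28747853631) (nat_lit 76) (nat_lit 13426254153) (nat_lit 76) (nat_lit 3050958419) (nat_lit 6) (nat_lit 4) (nat_lit 7) (nat_lit 5) (nat_lit 7) (nat_lit 4) (nat_lit 245) (nat_lit 217) (nat_lit 198)) (XT.nd (nat_lit 78) (nat_lit 76) (nat_lit 0) (XT.lf (nat_lit 0) (nat_lit 3346711517) (nat_lit 152) (nat_lit 3516412287) (nat_lit 76) (nat_lit 44484826080) (nat_lit 5) (nat_lit 5) (nat_lit 7) (nat_lit 5) (nat_lit 6) (nat_lit 4) (nat_lit 246) (nat_lit 217) (nat_lit 197)) (XT.lf (nat_lit 0) (nat_lit 10706949745) (nat_lit 152) (nat_lit 46738285591) (nat_lit 0) (nat_lit 923145725) (nat_lit 4) (nat_lit 5) (nat_lit 6) (nat_lit 4) (nat_lit 4) (nat_lit 4) (nat_lit 247) (nat_lit 217) (nat_lit 196)))) (XT.nd (nat_lit 78) (nat_lit 0) (nat_lit 0) (XT.lf (nat_lit 0) (nat_lit 19349698366) (nat_lit 152) (nat_lit 37583735203) (nat_lit 0) (nat_lit 9494287183)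 (nat_lit 4) (nat_lit 5) (nat_lit 6) (nat_lit 4) (nat_lit 4) (nat_lit 4) (nat_lit 248) (nat_lit 217) (nat_lit 195)) (XT.nd (nat_lit 78) (nat_lit 0) (nat_lit 0) (XT.lf (nat_lit 0) (nat_lit 29187660959) (nat_lit 152) (nat_lit 27246519548) (nat_lit 0) (nat_lit 19269982677) (nat_lit 4) (nat_lit 5) (nat_lit 6) (nat_lit 4) (nat_lit 4) (nat_lit 4) (nat_lit 249) (nat_lit 217) (nat_lit 194)) (XT.lf (nat_lit 0) (nat_lit 40413319402) (nat_lit 152) (nat_lit 15524388754) (nat_lit 0) (nat_lit 30441495816) (nat_lit 4) (nat_lit 5) (nat_lit 6) (nat_lit 4) (nat_lit 4) (nat_lit 4) (nat_lit 250) (nat_lit 217) (nat_lit 193))))))))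
noncomputable def xc20 : XT := (XT.nd (nat_lit 1716) (nat_lit 0) (nat_lit 0) (XT.nd (nat_lit 858) (nat_lit 152) (nat_lit 0) (XT.nd (nat_lit 390) (nat_lit 0) (nat_lit 0) (XT.nd (nat_lit 156) (nat_lit 0) (nat_lit 0) (XT.nd (nat_lit 78) (nat_lit 76) (nat_lit 0) (XT.lf (nat_lit 0) (nat_lit 53246306140) (nat_lit 152) (nat_lit 2187996785) (nat_lit 0) (nat_lit 43227399683) (nat_lit 4) (nat_lit 5) (nat_lit 6) (nat_lit 4) (nat_lit 4) (nat_lit 4) (nat_lit 251) (nat_lit 217) (nat_lit 192)) (XT.lf (nat_lit 0) (nat_lit 13709384715) (nat_lit 76) (nat_lit 54558027668) (nat_lit 76) (nat_lit 44498179582) (nat_lit 3) (nat_lit 4) (nat_lit 4) (nat_lit 5) (nat_lit 4) (nat_lit 4) (nat_lit 252) (nat_lit 217) (nat_lit 191))) (XT.nd (nat_lit 78) (nat_lit 0) (nat_lit 0) (XT.lf (nat_lit 0) (nat_lit 32009206997) (nat_lit 76) (nat_lit 53535560575) (nat_lit 76) (nat_lit 43440111074) (nat_lit 3) (nat_lit 4) (nat_lit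 4) (nat_lit 5) (nat_lit 4) (nat_lit 4) (nat_lit 253) (nat_lit 217) (nat_lit 190)) (XT.nd (nat_lit 78) (nat_lit 0) (nat_lit 0) (XT.lf (nat_lit 0) (nat_lit 52954294029) (nat_lit 76) (nat_lit 52406720566) (nat_lit 76) (nat_lit 42280313312) (nat_lit 3) (nat_lit 4) (nat_lit 4) (nat_lit 5) (nat_lit 4) (nat_lit 4) (nat_lit 254) (nat_lit 217) (nat_lit 189)) (XT.lf (nat_lit 0) (nat_lit 76954440993) (nat_lit 76) (nat_lit 51149421641) (nat_lit 76) (nat_lit 40996094601) (nat_lit 3) (nat_lit 4) (nat_lit 4) (nat_lit 5) (nat_lit 4) (nat_lit 4) (nat_lit 255) (nat_lit 217) (nat_lit 188))))) (XT.nd (nat_lit 234) (nat_lit 0) (nat_lit 0) (XT.nd (nat_lit 78) (nat_lit 0) (nat_lit 0) (XT.lf (nat_lit 0) (nat_lit 104479215980) (nat_lit 76) (nat_lit 49739064471) (nat_lit 76) (nat_lit 39562328924) (nat_lit 3) (nat_lit 4) (nat_lit 4) (nat_lit 5) (nat_lit 4) (nat_lit 4) (nat_lit 256) (nat_lit 217) (nat_lit 187))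 (XT.nd (nat_lit 78) (nat_lit 0) (nat_lit 0) (XT.lf (nat_lit 0) (nat_lit 136067147198) (nat_lit 76) (nat_lit 48148055114) (nat_lit 76) (nat_lit 37950964342) (nat_lit 3) (nat_lit 4) (nat_lit 4) (nat_lit 5) (nat_lit 4) (nat_lit 4) (nat_lit 257) (nat_lit 217) (nat_lit 186)) (XT.lf (nat_lit 0) (nat_lit 172336259386) (nat_lit 76) (nat_lit 46345265125) (nat_lit 76) (nat_lit 36130474157) (nat_lit 3) (nat_lit 4) (nat_lit 4) (nat_lit 5) (nat_lit 4) (nat_lit 4) (nat_lit 258) (nat_lit 217) (nat_lit 185)))) (XT.nd (nat_lit 78) (nat_lit 0) (nat_lit 0) (XT.lf (nat_lit 0) (nat_lit 213996165611) (nat_lit 76) (nat_lit 44295422526) (nat_lit 76) (nat_lit 34065240083) (nat_lit 3) (nat_lit 4) (nat_lit 4) (nat_lit 5) (nat_lit 4) (nat_lit 4) (nat_lit 259) (nat_lit 217) (nat_lit 184)) (XT.nd (nat_lit 78) (nat_lit 0) (nat_lit 0) (XT.lf (nat_lit 0) (nat_lit 261861950993) (nat_lit 76) (nat_lit 41958421701) (nat_lit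 76) (nat_lit 31714855367) (nat_lit 3) (nat_lit 4) (nat_lit 4) (nat_lit 5) (nat_lit 4) (nat_lit 4) (nat_lit 260) (nat_lit 217) (nat_lit 183)) (XT.lf (nat_lit 0) (nat_lit 316870120029) (nat_lit 76) (nat_lit 39288538720) (nat_lit 76) (nat_lit 29033334221) (nat_lit 3) (nat_lit 4) (nat_lit 4) (nat_lit 5) (nat_lit 4) (nat_lit 4) (nat_lit 261) (nat_lit 217) (nat_lit 182)))))) (XT.nd (nat_lit 390) (nat_lit 152) (nat_lit 0) (XT.nd (nat_lit 156) (nat_lit 0) (nat_lit 0) (XT.nd (nat_lit 78) (nat_lit 0) (nat_lit 0) (XT.lf (nat_lit 0) (nat_lit 380096919505) (nat_lit 76) (nat_lit 36233536743) (nat_lit 76) (nat_lit 25968212100) (nat_lit 3) (nat_lit 4) (nat_lit 4) (nat_lit 5) (nat_lit 4) (nat_lit 4) (nat_lit 262) (nat_lit 217) (nat_lit 181)) (XT.lf (nat_lit 0) (nat_lit 452779395498) (nat_lit 76) (nat_lit 32733643993) (nat_lit 76) (nat_lit 22459519223) (nat_lit 3) (nat_lit 4) (nat_lit 4) (nat_lit 5) (nat_lit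 4) (nat_lit 4) (nat_lit 263) (nat_lit 217) (nat_lit 180))) (XT.nd (nat_lit 78) (nat_lit 0) (nat_lit 0) (XT.lf (nat_lit 0) (nat_lit 536339596450) (nat_lit 76) (nat_lit 28720384305) (nat_lit 76) (nat_lit 18438607253) (nat_lit 3) (nat_lit 4) (nat_lit 4) (nat_lit 5) (nat_lit 4) (nat_lit 4) (nat_lit 264) (nat_lit 217) (nat_lit 179)) (XT.nd (nat_lit 78) (nat_lit 0) (nat_lit 0) (XT.lf (nat_lit 0) (nat_lit 632412395859) (nat_lit 76) (nat_lit 24115237383) (nat_lit 76) (nat_lit 13826806172) (nat_lit 3) (nat_lit 4) (nat_lit 4) (nat_lit 5) (nat_lit 4) (nat_lit 4) (nat_lit 265) (nat_lit 217) (nat_lit 178)) (XT.lf (nat_lit 0) (nat_lit 742877478931) (nat_lit 76) (nat_lit 18828102526) (nat_lit 76) (nat_lit 8533885089) (nat_lit 3) (nat_lit 4) (nat_lit 4) (nat_lit 5) (nat_lit 4) (nat_lit 4) (nat_lit 266) (nat_lit 217) (nat_lit 177))))) (XT.nd (nat_lit 234) (nat_lit 0) (nat_lit 0) (XT.nd (nat_lit 78) (nat_lit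 152) (nat_lit 0) (XT.lf (nat_lit 0) (nat_lit 869896119030) (nat_lit 76) (nat_lit 12755535790) (nat_lit 76) (nat_lit 2456286853) (nat_lit 3) (nat_lit 4) (nat_lit 4) (nat_lit 5) (nat_lit 4) (nat_lit 4) (nat_lit 267) (nat_lit 217) (nat_lit 176)) (XT.nd (nat_lit 78) (nat_lit 76) (nat_lit 0) (XT.lf (nat_lit 0) (nat_lit 4298544339) (nat_lit 152) (nat_lit 1362651928) (nat_lit 76) (nat_lit 1011537389302) (nat_lit 2) (nat_lit 5) (nat_lit 4) (nat_lit 5) (nat_lit 3) (nat_lit 4) (nat_lit 268) (nat_lit 217) (nat_lit 175)) (XT.lf (nat_lit 0) (nat_lit 12356515575) (nat_lit 152) (nat_lit 1153893783979) (nat_lit 0) (nat_lit 2812600120) (nat_lit 1) (nat_lit 5) (nat_lit 3) (nat_lit 4) (nat_lit 1) (nat_lit 4) (nat_lit 269) (nat_lit 217) (nat_lit 174)))) (XT.nd (nat_lit 78) (nat_lit 0) (nat_lit 0) (XT.lf (nat_lit 0) (nat_lit 21814265725) (nat_lit 152) (nat_lit 1309610026687) (nat_lit 0) (nat_lit 12267287035)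 (nat_lit 1) (nat_lit 5) (nat_lit 3) (nat_lit 4) (nat_lit 1) (nat_lit 4) (nat_lit 270) (nat_lit 217) (nat_lit 173)) (XT.nd (nat_lit 78) (nat_lit 0) (nat_lit 0) (XT.lf (nat_lit 0) (nat_lit 32685292262) (nat_lit 152) (nat_lit 1488694054455) (nat_lit 0) (nat_lit 23135649890) (nat_lit 1) (nat_lit 5) (nat_lit 3) (nat_lit 4) (nat_lit 1) (nat_lit 4) (nat_lit 271) (nat_lit 217) (nat_lit 172)) (XT.lf (nat_lit 0) (nat_lit 45182289185) (nat_lit 152) (nat_lit 1694649685218) (nat_lit 0) (nat_lit 35630330568) (nat_lit 1) (nat_lit 5) (nat_lit 3) (nat_lit 4) (nat_lit 1) (nat_lit 4) (nat_lit 272) (nat_lit 217) (nat_lit 171))))))) (XT.nd (nat_lit 858) (nat_lit 0) (nat_lit 0) (XT.nd (nat_lit 390) (nat_lit 0) (nat_lit 0) (XT.nd (nat_lit 156) (nat_lit 0) (nat_lit 0) (XT.nd (nat_lit 78) (nat_lit 0) (nat_lit 0) (XT.lf (nat_lit 0) (nat_lit 59549762955) (nat_lit 152) (nat_lit 1931506485663) (nat_lit 0) (nat_lit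 49995790211) (nat_lit 1) (nat_lit 5) (nat_lit 3) (nat_lit 4) (nat_lit 1) (nat_lit 4) (nat_lit 273) (nat_lit 217) (nat_lit 170)) (XT.lf (nat_lit 0) (nat_lit 76068816319) (nat_lit 152) (nat_lit 2203898610583) (nat_lit 0) (nat_lit 66513092161) (nat_lit 1) (nat_lit 5) (nat_lit 3) (nat_lit 4) (nat_lit 1) (nat_lit 4) (nat_lit 274) (nat_lit 217) (nat_lit 169))) (XT.nd (nat_lit 78) (nat_lit 0) (nat_lit 0) (XT.lf (nat_lit 0) (nat_lit 95062648148) (nat_lit 152) (nat_lit 2517155471118) (nat_lit 0) (nat_lit 85505401022) (nat_lit 1) (nat_lit 5) (nat_lit 3) (nat_lit 4) (nat_lit 1) (nat_lit 4) (nat_lit 275) (nat_lit 217) (nat_lit 168)) (XT.nd (nat_lit 78) (nat_lit 0) (nat_lit 0) (XT.lf (nat_lit 0) (nat_lit 116902876891) (nat_lit 152) (nat_lit 2877406005842) (nat_lit 0) (nat_lit 107344305443) (nat_lit 1) (nat_lit 5) (nat_lit 3) (nat_lit 4) (nat_lit 1) (nat_lit 4) (nat_lit 276) (nat_lit 217) (nat_lit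 167)) (XT.lf (nat_lit 0) (nat_lit 142016811370) (nat_lit 152) (nat_lit 3291698594783) (nat_lit 0) (nat_lit 132457088340) (nat_lit 1) (nat_lit 5) (nat_lit 3) (nat_lit 4) (nat_lit 1) (nat_lit 4) (nat_lit 277) (nat_lit 217) (nat_lit 166))))) (XT.nd (nat_lit 234) (nat_lit 0) (nat_lit 0) (XT.nd (nat_lit 78) (nat_lit 0) (nat_lit 0) (XT.lf (nat_lit 0) (nat_lit 170895811174) (nat_lit 152) (nat_lit 3768138962508) (nat_lit 0) (nat_lit 161335086767) (nat_lit 1) (nat_lit 5) (nat_lit 3) (nat_lit 4) (nat_lit 1) (nat_lit 4) (nat_lit 278) (nat_lit 217) (nat_lit 165)) (XT.nd (nat_lit 78) (nat_lit 0) (nat_lit 0) (XT.lf (nat_lit 0) (nat_lit 204104900212) (nat_lit 152) (nat_lit 4316048768384) (nat_lit 0) (nat_lit 194543305042) (nat_lit 1) (nat_lit 5) (nat_lit 3) (nat_lit 4) (nat_lit 1) (nat_lit 4) (nat_lit 279) (nat_lit 217) (nat_lit 164)) (XT.lf (nat_lit 0) (nat_lit 242293821530) (nat_lit 152) (nat_lit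 4946147986875) (nat_lit 0) (nat_lit 232731469175) (nat_lit 1) (nat_lit 5) (nat_lit 3) (nat_lit 4) (nat_lit 1) (nat_lit 4) (nat_lit 280) (nat_lit 217) (nat_lit 163)))) (XT.nd (nat_lit 78) (nat_lit 0) (nat_lit 0) (XT.lf (nat_lit 0) (nat_lit 286209749675) (nat_lit 152) (nat_lit 5670764646169) (nat_lit 0) (nat_lit 276646738899) (nat_lit 1) (nat_lit 5) (nat_lit 3) (nat_lit 4) (nat_lit 1) (nat_lit 4) (nat_lit 281) (nat_lit 217) (nat_lit 162)) (XT.nd (nat_lit 78) (nat_lit 0) (nat_lit 0) (XT.lf (nat_lit 0) (nat_lit 336711909329) (nat_lit 152) (nat_lit 6504076028730) (nat_lit 0) (nat_lit 327148326013) (nat_lit 1) (nat_lit 5) (nat_lit 3) (nat_lit 4) (nat_lit 1) (nat_lit 4) (nat_lit 282) (nat_lit 217) (nat_lit 161)) (XT.lf (nat_lit 0) (nat_lit 394788386224) (nat_lit 152) (nat_lit 7462386052912) (nat_lit 0) (nat_lit 385224305046) (nat_lit 1) (nat_lit 5) (nat_lit 3) (nat_lit 4) (nat_lit 1) (nat_lit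 4) (nat_lit 283) (nat_lit 217) (nat_lit 160)))))) (XT.nd (nat_lit 30030) (nat_lit 0) (nat_lit 1292) (XT.nd (nat_lit 29796) (nat_lit 0) (nat_lit 2584) (XT.nd (nat_lit 29718) (nat_lit 0) (nat_lit 4180) (XT.lf (nat_lit 0) (nat_lit 461575459256) (nat_lit 152) (nat_lit 8564444262667) (nat_lit 0) (nat_lit 452010945155) (nat_lit 1) (nat_lit 5) (nat_lit 3) (nat_lit 4) (nat_lit 1) (nat_lit 4) (nat_lit 284) (nat_lit 217) (nat_lit 159)) (XT.lf (nat_lit 0) (nat_lit 3202459084) (nat_lit 228) (nat_lit 111958944) (nat_lit 228) (nat_lit 111958944) (nat_lit 56) (nat_lit 4) (nat_lit 59) (nat_lit 5) (nat_lit 59) (nat_lit 4) (nat_lit 224) (nat_lit 218) (nat_lit 218))) (XT.nd (nat_lit 78) (nat_lit 836) (nat_lit 0) (XT.lf (nat_lit 0) (nat_lit 468783049) (nat_lit 380) (nat_lit 4862801874) (nat_lit 380) (nat_lit 1764506939) (nat_lit 46) (nat_lit 4) (nat_lit 51) (nat_lit 5) (nat_lit 51) (nat_lit 4) (nat_lit 225)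 (nat_lit 218) (nat_lit 217)) (XT.nd (nat_lit 78) (nat_lit 304) (nat_lit 0) (XT.lf (nat_lit 0) (nat_lit 1636987612) (nat_lit 456) (nat_lit 1934864337) (nat_lit 532) (nat_lit 3842974533) (nat_lit 39) (nat_lit 5) (nat_lit 45) (nat_lit 5) (nat_lit 46) (nat_lit 4) (nat_lit 226) (nat_lit 218) (nat_lit 216)) (XT.lf (nat_lit 0) (nat_lit 1294615401) (nat_lit 304) (nat_lit 4839811572) (nat_lit 76) (nat_lit 1678420217) (nat_lit 35) (nat_lit 5) (nat_lit 39) (nat_lit 5) (nat_lit 36) (nat_lit 4) (nat_lit 227) (nat_lit 218) (nat_lit 215))))) (XT.nd (nat_lit 234) (nat_lit 608) (nat_lit 0) (XT.nd (nat_lit 78) (nat_lit 456) (nat_lit 0) (XT.lf (nat_lit 0) (nat_lit 4386113055) (nat_lit 228) (nat_lit 2250906998) (nat_lit 304) (nat_lit 1655598752) (nat_lit 32) (nat_lit 5) (nat_lit 35) (nat_lit 5) (nat_lit 36) (nat_lit 4) (nat_lit 228) (nat_lit 218) (nat_lit 214)) (XT.nd (nat_lit 78) (nat_lit 152) (nat_lit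 0) (XT.lf (nat_lit 0) (nat_lit 3461502470) (nat_lit 304) (nat_lit 3040009647) (nat_lit 76) (nat_lit 2359903357) (nat_lit 28) (nat_lit 5) (nat_lit 32) (nat_lit 5) (nat_lit 29) (nat_lit 4) (nat_lit 229) (nat_lit 218) (nat_lit 213)) (XT.lf (nat_lit 0) (nat_lit 7245409299) (nat_lit 152) (nat_lit 1795931538) (nat_lit 228) (nat_lit 489374587) (nat_lit 26) (nat_lit 5) (nat_lit 28) (nat_lit 5) (nat_lit 29) (nat_lit 4) (nat_lit 230) (nat_lit 218) (nat_lit 212)))) (XT.nd (nat_lit 78) (nat_lit 380) (nat_lit 0) (XT.lf (nat_lit 0) (nat_lit 4768976718) (nat_lit 228) (nat_lit 1848089976) (nat_lit 76) (nat_lit 3685555518) (nat_lit 23) (nat_lit 5) (nat_lit 26) (nat_lit 5) (nat_lit 24) (nat_lit 4) (nat_lit 231) (nat_lit 218) (nat_lit 211)) (XT.nd (nat_lit 78) (nat_lit 228) (nat_lit 0) (XT.lf (nat_lit 0) (nat_lit 9483078677) (nat_lit 152) (nat_lit 1178107527) (nat_lit 228) (nat_lit 539641749) (nat_lit 21)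 (nat_lit 5) (nat_lit 23) (nat_lit 5) (nat_lit 24) (nat_lit 4) (nat_lit 232) (nat_lit 218) (nat_lit 210)) (XT.lf (nat_lit 0) (nat_lit 4931418530) (nat_lit 228) (nat_lit 2239142211) (nat_lit 76) (nat_lit 5055304607) (nat_lit 18) (nat_lit 5) (nat_lit 21) (nat_lit 5) (nat_lit 19) (nat_lit 4) (nat_lit 233) (nat_lit 218) (nat_lit 209))))))))
noncomputable def xc21 : XT := (XT.nd (nat_lit 1716) (nat_lit 152) (nat_lit 0) (XT.nd (nat_lit 858) (nat_lit 304) (nat_lit 0) (XT.nd (nat_lit 390) (nat_lit 304) (nat_lit 0) (XT.nd (nat_lit 156) (nat_lit 228) (nat_lit 0) (XT.nd (nat_lit 78) (nat_lit 228) (nat_lit 0) (XT.lf (nat_lit 0) (nat_lit 9976395163) (nat_lit 76) (nat_lit 1139109582) (nat_lit 152) (nat_lit 2295106350) (nat_lit 17) (nat_lit 5) (nat_lit 18) (nat_lit 5) (nat_lit 19) (nat_lit 4) (nat_lit 234) (nat_lit 218) (nat_lit 208)) (XT.lf (nat_lit 0) (nat_lit 3340473969) (nat_lit 228) (nat_lit 5743275389)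 (nat_lit 76) (nat_lit 5678764273) (nat_lit 14) (nat_lit 5) (nat_lit 17) (nat_lit 5) (nat_lit 15) (nat_lit 4) (nat_lit 235) (nat_lit 218) (nat_lit 207))) (XT.nd (nat_lit 78) (nat_lit 152) (nat_lit 0) (XT.lf (nat_lit 0) (nat_lit 6923943841) (nat_lit 76) (nat_lit 2724442971) (nat_lit 152) (nat_lit 6667728266) (nat_lit 13) (nat_lit 5) (nat_lit 14) (nat_lit 5) (nat_lit 15) (nat_lit 4) (nat_lit 236) (nat_lit 218) (nat_lit 206)) (XT.nd (nat_lit 78) (nat_lit 76) (nat_lit 0) (XT.lf (nat_lit 0) (nat_lit 3261150544) (nat_lit 76) (nat_lit 13687250083) (nat_lit 76) (nat_lit 1151303769) (nat_lit 12) (nat_lit 4) (nat_lit 13) (nat_lit 5) (nat_lit 13) (nat_lit 4) (nat_lit 237) (nat_lit 218) (nat_lit 205)) (XT.lf (nat_lit 0) (nat_lit 4995568633) (nat_lit 152) (nat_lit 2462491486) (nat_lit 76) (nat_lit 12678262203) (nat_lit 11) (nat_lit 5) (nat_lit 13) (nat_lit 5) (nat_lit 12) (nat_lit 4) (nat_lit 238)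 (nat_lit 218) (nat_lit 204))))) (XT.nd (nat_lit 234) (nat_lit 76) (nat_lit 0) (XT.nd (nat_lit 78) (nat_lit 152) (nat_lit 0) (XT.lf (nat_lit 0) (nat_lit 11891767878) (nat_lit 76) (nat_lit 137549167) (nat_lit 152) (nat_lit 10444516987) (nat_lit 10) (nat_lit 5) (nat_lit 11) (nat_lit 5) (nat_lit 12) (nat_lit 4) (nat_lit 239) (nat_lit 218) (nat_lit 203)) (XT.nd (nat_lit 78) (nat_lit 76) (nat_lit 0) (XT.lf (nat_lit 0) (nat_lit 2918383003) (nat_lit 76) (nat_lit 17307113537) (nat_lit 76) (nat_lit 4928264387) (nat_lit 9) (nat_lit 4) (nat_lit 10) (nat_lit 5) (nat_lit 10) (nat_lit 4) (nat_lit 240) (nat_lit 218) (nat_lit 202)) (XT.lf (nat_lit 0) (nat_lit 1444614569) (nat_lit 152) (nat_lit 9567243683) (nat_lit 76) (nat_lit 17213400114) (nat_lit 8) (nat_lit 5) (nat_lit 10) (nat_lit 5) (nat_lit 9) (nat_lit 4) (nat_lit 241) (nat_lit 218) (nat_lit 201)))) (XT.nd (nat_lit 78) (nat_lit 0) (nat_lit 0) (XT.lf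 (nat_lit 0) (nat_lit 4759337597) (nat_lit 76) (nat_lit 3653822670) (nat_lit 152) (nat_lit 23339820757) (nat_lit 7) (nat_lit 5) (nat_lit 8) (nat_lit 5) (nat_lit 9) (nat_lit 4) (nat_lit 242) (nat_lit 218) (nat_lit 200)) (XT.nd (nat_lit 78) (nat_lit 0) (nat_lit 0) (XT.lf (nat_lit 0) (nat_lit 16651173321) (nat_lit 152) (nat_lit 14421400786) (nat_lit 0) (nat_lit 4719583227) (nat_lit 7) (nat_lit 5) (nat_lit 9) (nat_lit 4) (nat_lit 7) (nat_lit 4) (nat_lit 243) (nat_lit 218) (nat_lit 199)) (XT.lf (nat_lit 0) (nat_lit 26071839807) (nat_lit 152) (nat_lit 347182518) (nat_lit 0) (nat_lit 14022631726) (nat_lit 7) (nat_lit 5) (nat_lit 9) (nat_lit 4) (nat_lit 7) (nat_lit 4) (nat_lit 244) (nat_lit 218) (nat_lit 198)))))) (XT.nd (nat_lit 390) (nat_lit 76) (nat_lit 0) (XT.nd (nat_lit 156) (nat_lit 152) (nat_lit 0) (XT.nd (nat_lit 78) (nat_lit 0) (nat_lit 0) (XT.lf (nat_lit 0) (nat_lit 16413311344) (nat_lit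 76) (nat_lit 20753031780) (nat_lit 76) (nat_lit 8601547187) (nat_lit 6) (nat_lit 4) (nat_lit 7) (nat_lit 5) (nat_lit 7) (nat_lit 4) (nat_lit 245) (nat_lit 218) (nat_lit 197)) (XT.lf (nat_lit 0) (nat_lit 35483801840) (nat_lit 76) (nat_lit 14329389306) (nat_lit 76) (nat_lit 2088968616) (nat_lit 6) (nat_lit 4) (nat_lit 7) (nat_lit 5) (nat_lit 7) (nat_lit 4) (nat_lit 246) (nat_lit 218) (nat_lit 196))) (XT.nd (nat_lit 78) (nat_lit 76) (nat_lit 0) (XT.lf (nat_lit 0) (nat_lit 5021429329) (nat_lit 152) (nat_lit 1873183422) (nat_lit 76) (nat_lit 52060401140) (nat_lit 5) (nat_lit 5) (nat_lit 7) (nat_lit 5) (nat_lit 6) (nat_lit 4) (nat_lit 247) (nat_lit 218) (nat_lit 195)) (XT.nd (nat_lit 78) (nat_lit 0) (nat_lit 0) (XT.lf (nat_lit 0) (nat_lit 13402639246) (nat_lit 152) (nat_lit 51697644575) (nat_lit 0) (nat_lit 1935042123) (nat_lit 4) (nat_lit 5) (nat_lit 6) (nat_lit 4) (nat_lit 4) (nat_lit 4)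 (nat_lit 248) (nat_lit 218) (nat_lit 194)) (XT.lf (nat_lit 0) (nat_lit 23199672285) (nat_lit 152) (nat_lit 41437483436) (nat_lit 0) (nat_lit 11677929859) (nat_lit 4) (nat_lit 5) (nat_lit 6) (nat_lit 4) (nat_lit 4) (nat_lit 4) (nat_lit 249) (nat_lit 218) (nat_lit 193))))) (XT.nd (nat_lit 234) (nat_lit 76) (nat_lit 0) (XT.nd (nat_lit 78) (nat_lit 0) (nat_lit 0) (XT.lf (nat_lit 0) (nat_lit 34389739811) (nat_lit 152) (nat_lit 29782356569) (nat_lit 0) (nat_lit 22820914513) (nat_lit 4) (nat_lit 5) (nat_lit 6) (nat_lit 4) (nat_lit 4) (nat_lit 4) (nat_lit 250) (nat_lit 218) (nat_lit 192)) (XT.nd (nat_lit 78) (nat_lit 0) (nat_lit 0) (XT.lf (nat_lit 0) (nat_lit 47191777927) (nat_lit 152) (nat_lit 16504228884) (nat_lit 0) (nat_lit 35582011001) (nat_lit 4) (nat_lit 5) (nat_lit 6) (nat_lit 4) (nat_lit 4) (nat_lit 4) (nat_lit 251) (nat_lit 218) (nat_lit 191)) (XT.lf (nat_lit 0) (nat_lit 61856261292)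 (nat_lit 152) (nat_lit 1343310926) (nat_lit 0) (nat_lit 50210892950) (nat_lit 4) (nat_lit 5) (nat_lit 6) (nat_lit 4) (nat_lit 4) (nat_lit 4) (nat_lit 252) (nat_lit 218) (nat_lit 190)))) (XT.nd (nat_lit 78) (nat_lit 0) (nat_lit 0) (XT.lf (nat_lit 0) (nat_lit 16839398893) (nat_lit 76) (nat_lit 62235692765) (nat_lit 76) (nat_lit 50559366670) (nat_lit 3) (nat_lit 4) (nat_lit 4) (nat_lit 5) (nat_lit 4) (nat_lit 4) (nat_lit 253) (nat_lit 218) (nat_lit 189)) (XT.nd (nat_lit 78) (nat_lit 0) (nat_lit 0) (XT.lf (nat_lit 0) (nat_lit 37744158891) (nat_lit 76) (nat_lit 61125860703) (nat_lit 76) (nat_lit 49422614823) (nat_lit 3) (nat_lit 4) (nat_lit 4) (nat_lit 5) (nat_lit 4) (nat_lit 4) (nat_lit 254) (nat_lit 218) (nat_lit 188)) (XT.lf (nat_lit 0) (nat_lit 61709238869) (nat_lit 76) (nat_lit 59885090426) (nat_lit 76) (nat_lit 48158436037) (nat_lit 3) (nat_lit 4) (nat_lit 4) (nat_lit 5) (nat_lit 4)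 (nat_lit 4) (nat_lit 255) (nat_lit 218) (nat_lit 187))))))) (XT.nd (nat_lit 858) (nat_lit 152) (nat_lit 0) (XT.nd (nat_lit 390) (nat_lit 0) (nat_lit 0) (XT.nd (nat_lit 156) (nat_lit 0) (nat_lit 0) (XT.nd (nat_lit 78) (nat_lit 0) (nat_lit 0) (XT.lf (nat_lit 0) (nat_lit 89203520824) (nat_lit 76) (nat_lit 58489105995) (nat_lit 76) (nat_lit 46742096382) (nat_lit 3) (nat_lit 4) (nat_lit 4) (nat_lit 5) (nat_lit 4) (nat_lit 4) (nat_lit 256) (nat_lit 218) (nat_lit 186)) (XT.lf (nat_lit 0) (nat_lit 120764936362) (nat_lit 76) (nat_lit 56910594671) (nat_lit 76) (nat_lit 45145884862) (nat_lit 3) (nat_lit 4) (nat_lit 4) (nat_lit 5) (nat_lit 4) (nat_lit 4) (nat_lit 257) (nat_lit 218) (nat_lit 185))) (XT.nd (nat_lit 78) (nat_lit 0) (nat_lit 0) (XT.lf (nat_lit 0) (nat_lit 157010991438) (nat_lit 76) (nat_lit 55118672537) (nat_lit 76) (nat_lit 43338571254) (nat_lit 3) (nat_lit 4) (nat_lit 4) (nat_lit 5)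 (nat_lit 4) (nat_lit 4) (nat_lit 258) (nat_lit 218) (nat_lit 184)) (XT.nd (nat_lit 78) (nat_lit 0) (nat_lit 0) (XT.lf (nat_lit 0) (nat_lit 198650847999) (nat_lit 76) (nat_lit 53078280247) (nat_lit 76) (nat_lit 41284795072) (nat_lit 3) (nat_lit 4) (nat_lit 4) (nat_lit 5) (nat_lit 4) (nat_lit 4) (nat_lit 259) (nat_lit 218) (nat_lit 183)) (XT.lf (nat_lit 0) (nat_lit 246499198891) (nat_lit 76) (nat_lit 50749497081) (nat_lit 76) (nat_lit 38944373741) (nat_lit 3) (nat_lit 4) (nat_lit 4) (nat_lit 5) (nat_lit 4) (nat_lit 4) (nat_lit 260) (nat_lit 218) (nat_lit 182))))) (XT.nd (nat_lit 234) (nat_lit 0) (nat_lit 0) (XT.nd (nat_lit 78) (nat_lit 0) (nat_lit 0) (XT.lf (nat_lit 0) (nat_lit 301492207502) (nat_lit 76) (nat_lit 48086759892) (nat_lit 76) (nat_lit 36271516407) (nat_lit 3) (nat_lit 4) (nat_lit 4) (nat_lit 5) (nat_lit 4) (nat_lit 4) (nat_lit 261) (nat_lit 218) (nat_lit 181)) (XT.nd (nat_lit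 78) (nat_lit 0) (nat_lit 0) (XT.lf (nat_lit 0) (nat_lit 364705823999) (nat_lit 76) (nat_lit 45037971647) (nat_lit 76) (nat_lit 33213928036) (nat_lit 3) (nat_lit 4) (nat_lit 4) (nat_lit 5) (nat_lit 4) (nat_lit 4) (nat_lit 262) (nat_lit 218) (nat_lit 180)) (XT.lf (nat_lit 0) (nat_lit 437376836531) (nat_lit 76) (nat_lit 41543482141) (nat_lit 76) (nat_lit 29711786247) (nat_lit 3) (nat_lit 4) (nat_lit 4) (nat_lit 5) (nat_lit 4) (nat_lit 4) (nat_lit 263) (nat_lit 218) (nat_lit 179)))) (XT.nd (nat_lit 78) (nat_lit 0) (nat_lit 0) (XT.lf (nat_lit 0) (nat_lit 520927069258) (nat_lit 76) (nat_lit 37534920927) (nat_lit 76) (nat_lit 25696570874) (nat_lit 3) (nat_lit 4) (nat_lit 4) (nat_lit 5) (nat_lit 4) (nat_lit 4) (nat_lit 264) (nat_lit 218) (nat_lit 178)) (XT.nd (nat_lit 78) (nat_lit 0) (nat_lit 0) (XT.lf (nat_lit 0) (nat_lit 616991200644) (nat_lit 76) (nat_lit 32933859634) (nat_lit 76) (nat_lit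 21089723356) (nat_lit 3) (nat_lit 4) (nat_lit 4) (nat_lit 5) (nat_lit 4) (nat_lit 4) (nat_lit 265) (nat_lit 218) (nat_lit 177)) (XT.lf (nat_lit 0) (nat_lit 727448746305) (nat_lit 76) (nat_lit 27650277498) (nat_lit 76) (nat_lit 15801109720) (nat_lit 3) (nat_lit 4) (nat_lit 4) (nat_lit 5) (nat_lit 4) (nat_lit 4) (nat_lit 266) (nat_lit 218) (nat_lit 176)))))) (XT.nd (nat_lit 390) (nat_lit 0) (nat_lit 0) (XT.nd (nat_lit 156) (nat_lit 152) (nat_lit 0) (XT.nd (nat_lit 78) (nat_lit 0) (nat_lit 0) (XT.lf (nat_lit 0) (nat_lit 854460832133) (nat_lit 76) (nat_lit 21580800085) (nat_lit 76) (nat_lit 9727257089) (nat_lit 3) (nat_lit 4) (nat_lit 4) (nat_lit 5) (nat_lit 4) (nat_lit 4) (nat_lit 267) (nat_lit 218) (nat_lit 175)) (XT.lf (nat_lit 0) (nat_lit 1000512477199) (nat_lit 76) (nat_lit 14606676750) (nat_lit 76) (nat_lit 2749329217) (nat_lit 3) (nat_lit 4) (nat_lit 4) (nat_lit 5) (nat_lit 4) (nat_lit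 4) (nat_lit 268) (nat_lit 218) (nat_lit 174))) (XT.nd (nat_lit 78) (nat_lit 76) (nat_lit 0) (XT.lf (nat_lit 0) (nat_lit 5005611918) (nat_lit 152) (nat_lit 1448983035) (nat_lit 76) (nat_lit 1163318739470) (nat_lit 2) (nat_lit 5) (nat_lit 4) (nat_lit 5) (nat_lit 3) (nat_lit 4) (nat_lit 269) (nat_lit 218) (nat_lit 173)) (XT.nd (nat_lit 78) (nat_lit 0) (nat_lit 0) (XT.lf (nat_lit 0) (nat_lit 14267987802) (nat_lit 152) (nat_lit 1326866423051) (nat_lit 0) (nat_lit 3283235392) (nat_lit 1) (nat_lit 5) (nat_lit 3) (nat_lit 4) (nat_lit 1) (nat_lit 4) (nat_lit 270) (nat_lit 218) (nat_lit 172)) (XT.lf (nat_lit 0) (nat_lit 25136835923) (nat_lit 152) (nat_lit 1505954636321) (nat_lit 0) (nat_lit 14149767268) (nat_lit 1) (nat_lit 5) (nat_lit 3) (nat_lit 4) (nat_lit 1) (nat_lit 4) (nat_lit 271) (nat_lit 218) (nat_lit 171))))) (XT.nd (nat_lit 234) (nat_lit 0) (nat_lit 0) (XT.nd (nat_lit 78) (nat_lit 0)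 (nat_lit 0) (XT.lf (nat_lit 0) (nat_lit 37631938570) (nat_lit 152) (nat_lit 1711913906650) (nat_lit 0) (nat_lit 26642855789) (nat_lit 1) (nat_lit 5) (nat_lit 3) (nat_lit 4) (nat_lit 1) (nat_lit 4) (nat_lit 272) (nat_lit 218) (nat_lit 170)) (XT.nd (nat_lit 78) (nat_lit 0) (nat_lit 0) (XT.lf (nat_lit 0) (nat_lit 51997765144) (nat_lit 152) (nat_lit 1948773871937) (nat_lit 0) (nat_lit 41006930949) (nat_lit 1) (nat_lit 5) (nat_lit 3) (nat_lit 4) (nat_lit 1) (nat_lit 4) (nat_lit 273) (nat_lit 218) (nat_lit 169)) (XT.lf (nat_lit 0) (nat_lit 68515386165) (nat_lit 152) (nat_lit 2221168748892) (nat_lit 0) (nat_lit 57523029000) (nat_lit 1) (nat_lit 5) (nat_lit 3) (nat_lit 4) (nat_lit 1) (nat_lit 4) (nat_lit 274) (nat_lit 218) (nat_lit 168)))) (XT.nd (nat_lit 78) (nat_lit 0) (nat_lit 0) (XT.lf (nat_lit 0) (nat_lit 87507972477) (nat_lit 152) (nat_lit 2534428002501) (nat_lit 0) (nat_lit 76514290992)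 (nat_lit 1) (nat_lit 5) (nat_lit 3) (nat_lit 4) (nat_lit 1) (nat_lit 4) (nat_lit 275) (nat_lit 218) (nat_lit 167)) (XT.nd (nat_lit 78) (nat_lit 0) (nat_lit 0) (XT.lf (nat_lit 0) (nat_lit 109347118162) (nat_lit 152) (nat_lit 2894680618159) (nat_lit 0) (nat_lit 98352285093) (nat_lit 1) (nat_lit 5) (nat_lit 3) (nat_lit 4) (nat_lit 1) (nat_lit 4) (nat_lit 276) (nat_lit 218) (nat_lit 166)) (XT.lf (nat_lit 0) (nat_lit 134460110852) (nat_lit 152) (nat_lit 3308975016608) (nat_lit 0) (nat_lit 123464276407) (nat_lit 1) (nat_lit 5) (nat_lit 3) (nat_lit 4) (nat_lit 1) (nat_lit 4) (nat_lit 277) (nat_lit 218) (nat_lit 165))))))))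
noncomputable def xc22 : XT := (XT.nd (nat_lit 31278) (nat_lit 0) (nat_lit 152) (XT.nd (nat_lit 30420) (nat_lit 0) (nat_lit 912) (XT.nd (nat_lit 390) (nat_lit 0) (nat_lit 0) (XT.nd (nat_lit 156) (nat_lit 0) (nat_lit 0) (XT.nd (nat_lit 78) (nat_lit 0) (nat_lit 0) (XT.lf (nat_lit 0) (nat_lit 163338291708) (nat_lit 152) (nat_lit 3785416957818) (nat_lit 0) (nat_lit 152341586501) (nat_lit 1) (nat_lit 5) (nat_lit 3) (nat_lit 4) (nat_lit 1) (nat_lit 4) (nat_lit 278) (nat_lit 218) (nat_lit 164)) (XT.lf (nat_lit 0) (nat_lit 196546668618) (nat_lit 152) (nat_lit 4333328131943) (nat_lit 0) (nat_lit 185549206226) (nat_lit 1) (nat_lit 5) (nat_lit 3) (nat_lit 4) (nat_lit 1) (nat_lit 4) (nat_lit 279) (nat_lit 218) (nat_lit 163))) (XT.nd (nat_lit 78) (nat_lit 0) (nat_lit 0) (XT.lf (nat_lit 0) (nat_lit 234734970694) (nat_lit 152) (nat_lit 4963428540215) (nat_lit 0) (nat_lit 223736849880) (nat_lit 1) (nat_lit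 5) (nat_lit 3) (nat_lit 4) (nat_lit 1) (nat_lit 4) (nat_lit 280) (nat_lit 218) (nat_lit 162)) (XT.nd (nat_lit 78) (nat_lit 0) (nat_lit 0) (XT.lf (nat_lit 0) (nat_lit 278650360368) (nat_lit 152) (nat_lit 5688046234100) (nat_lit 0) (nat_lit 267651667014) (nat_lit 1) (nat_lit 5) (nat_lit 3) (nat_lit 4) (nat_lit 1) (nat_lit 4) (nat_lit 281) (nat_lit 218) (nat_lit 161)) (XT.lf (nat_lit 0) (nat_lit 329152051786) (nat_lit 152) (nat_lit 6521358516306) (nat_lit 0) (nat_lit 318152860571) (nat_lit 1) (nat_lit 5) (nat_lit 3) (nat_lit 4) (nat_lit 1) (nat_lit 4) (nat_lit 282) (nat_lit 218) (nat_lit 160))))) (XT.nd (nat_lit 29796) (nat_lit 0) (nat_lit 2888) (XT.nd (nat_lit 29640) (nat_lit 0) (nat_lit 4408) (XT.lf (nat_lit 0) (nat_lit 387228121519) (nat_lit 152) (nat_lit 7479669322789) (nat_lit 0) (nat_lit 376228497381) (nat_lit 1) (nat_lit 5) (nat_lit 3) (nat_lit 4) (nat_lit 1) (nat_lit 4) (nat_lit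 283) (nat_lit 218) (nat_lit 159)) (XT.nd (nat_lit 78) (nat_lit 228) (nat_lit 0) (XT.lf (nat_lit 0) (nat_lit 2677473231) (nat_lit 76) (nat_lit 296640380) (nat_lit 76) (nat_lit 296640380) (nat_lit 62) (nat_lit 4) (nat_lit 63) (nat_lit 5) (nat_lit 63) (nat_lit 4) (nat_lit 222) (nat_lit 219) (nat_lit 219)) (XT.lf (nat_lit 0) (nat_lit 4683126866) (nat_lit 228) (nat_lit 1158368301) (nat_lit 0) (nat_lit 835044557) (nat_lit 59) (nat_lit 5) (nat_lit 62) (nat_lit 4) (nat_lit 59) (nat_lit 4) (nat_lit 223) (nat_lit 219) (nat_lit 218)))) (XT.nd (nat_lit 78) (nat_lit 1216) (nat_lit 0) (XT.lf (nat_lit 0) (nat_lit 3034623010) (nat_lit 304) (nat_lit 882224975) (nat_lit 76) (nat_lit 2964044141) (nat_lit 55) (nat_lit 5) (nat_lit 59) (nat_lit 5) (nat_lit 56) (nat_lit 4) (nat_lit 224) (nat_lit 219) (nat_lit 217)) (XT.nd (nat_lit 78) (nat_lit 836) (nat_lit 0) (XT.lf (nat_lit 0) (nat_lit 927544786) (nat_lit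 380) (nat_lit 362405910) (nat_lit 76) (nat_lit 5869405757) (nat_lit 50) (nat_lit 5) (nat_lit 55) (nat_lit 5) (nat_lit 51) (nat_lit 5) (nat_lit 225) (nat_lit 219) (nat_lit 216)) (XT.lf (nat_lit 0) (nat_lit 305286629) (nat_lit 456) (nat_lit 5465649111) (nat_lit 532) (nat_lit 1737852735) (nat_lit 39) (nat_lit 5) (nat_lit 45) (nat_lit 5) (nat_lit 46) (nat_lit 4) (nat_lit 226) (nat_lit 219) (nat_lit 215)))))) (XT.nd (nat_lit 390) (nat_lit 760) (nat_lit 0) (XT.nd (nat_lit 156) (nat_lit 684) (nat_lit 0) (XT.nd (nat_lit 78) (nat_lit 228) (nat_lit 0) (XT.lf (nat_lit 0) (nat_lit 1119247841) (nat_lit 228) (nat_lit 1781509799) (nat_lit 304) (nat_lit 5034877000) (nat_lit 35) (nat_lit 5) (nat_lit 38) (nat_lit 5) (nat_lit 39) (nat_lit 5) (nat_lit 227) (nat_lit 219) (nat_lit 214)) (XT.lf (nat_lit 0) (nat_lit 2010621653) (nat_lit 228) (nat_lit 5859023331) (nat_lit 304) (nat_lit 576844298) (nat_lit 32)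 (nat_lit 5) (nat_lit 35) (nat_lit 5) (nat_lit 36) (nat_lit 4) (nat_lit 228) (nat_lit 219) (nat_lit 213))) (XT.nd (nat_lit 78) (nat_lit 380) (nat_lit 0) (XT.lf (nat_lit 0) (nat_lit 2869899778) (nat_lit 228) (nat_lit 1231786873) (nat_lit 304) (nat_lit 4943259808) (nat_lit 28) (nat_lit 5) (nat_lit 31) (nat_lit 5) (nat_lit 32) (nat_lit 5) (nat_lit 229) (nat_lit 219) (nat_lit 212)) (XT.nd (nat_lit 78) (nat_lit 228) (nat_lit 0) (XT.lf (nat_lit 0) (nat_lit 3659428760) (nat_lit 152) (nat_lit 5678613084) (nat_lit 228) (nat_lit 404524527) (nat_lit 26) (nat_lit 5) (nat_lit 28) (nat_lit 5) (nat_lit 29) (nat_lit 4) (nat_lit 230) (nat_lit 219) (nat_lit 211)) (XT.lf (nat_lit 0) (nat_lit 4252743852) (nat_lit 152) (nat_lit 189491337) (nat_lit 228) (nat_lit 6105339864) (nat_lit 23) (nat_lit 5) (nat_lit 25) (nat_lit 5) (nat_lit 26) (nat_lit 5) (nat_lit 231) (nat_lit 219) (nat_lit 210))))) (XT.nd (nat_lit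 234) (nat_lit 304) (nat_lit 0) (XT.nd (nat_lit 78) (nat_lit 304) (nat_lit 0) (XT.lf (nat_lit 0) (nat_lit 4515292079) (nat_lit 152) (nat_lit 5503919279) (nat_lit 228) (nat_lit 1452377130) (nat_lit 21) (nat_lit 5) (nat_lit 23) (nat_lit 5) (nat_lit 24) (nat_lit 4) (nat_lit 232) (nat_lit 219) (nat_lit 209)) (XT.nd (nat_lit 78) (nat_lit 76) (nat_lit 0) (XT.lf (nat_lit 0) (nat_lit 3638000643) (nat_lit 228) (nat_lit 8195753530) (nat_lit 76) (nat_lit 699209371) (nat_lit 18) (nat_lit 5) (nat_lit 21) (nat_lit 5) (nat_lit 19) (nat_lit 4) (nat_lit 233) (nat_lit 219) (nat_lit 208)) (XT.lf (nat_lit 0) (nat_lit 3440416207) (nat_lit 76) (nat_lit 6062533078) (nat_lit 152) (nat_lit 4240703411) (nat_lit 17) (nat_lit 5) (nat_lit 18) (nat_lit 5) (nat_lit 19) (nat_lit 4) (nat_lit 234) (nat_lit 219) (nat_lit 207)))) (XT.nd (nat_lit 78) (nat_lit 76) (nat_lit 0) (XT.lf (nat_lit 0) (nat_lit 1036505084) (nat_lit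 228) (nat_lit 13413714746) (nat_lit 76) (nat_lit 685866654) (nat_lit 14) (nat_lit 5) (nat_lit 17) (nat_lit 5) (nat_lit 15) (nat_lit 4) (nat_lit 235) (nat_lit 219) (nat_lit 206)) (XT.nd (nat_lit 78) (nat_lit 76) (nat_lit 0) (XT.lf (nat_lit 0) (nat_lit 7039745697) (nat_lit 228) (nat_lit 1321095562) (nat_lit 76) (nat_lit 8353509185) (nat_lit 14) (nat_lit 5) (nat_lit 17) (nat_lit 5) (nat_lit 15) (nat_lit 4) (nat_lit 236) (nat_lit 219) (nat_lit 205)) (XT.lf (nat_lit 0) (nat_lit 12798970108) (nat_lit 76) (nat_lit 1194035125) (nat_lit 152) (nat_lit 4532925944) (nat_lit 13) (nat_lit 5) (nat_lit 14) (nat_lit 5) (nat_lit 15) (nat_lit 4) (nat_lit 237) (nat_lit 219) (nat_lit 204))))))) (XT.nd (nat_lit 858) (nat_lit 152) (nat_lit 0) (XT.nd (nat_lit 390) (nat_lit 228) (nat_lit 0) (XT.nd (nat_lit 156) (nat_lit 152) (nat_lit 0) (XT.nd (nat_lit 78) (nat_lit 76) (nat_lit 0) (XT.lf (nat_lit 0) (nat_lit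 1487072483) (nat_lit 152) (nat_lit 12281419878) (nat_lit 76) (nat_lit 6824448055) (nat_lit 11) (nat_lit 5) (nat_lit 13) (nat_lit 5) (nat_lit 12) (nat_lit 4) (nat_lit 238) (nat_lit 219) (nat_lit 203)) (XT.lf (nat_lit 0) (nat_lit 1367933802) (nat_lit 76) (nat_lit 6796686366) (nat_lit 152) (nat_lit 14794503799) (nat_lit 10) (nat_lit 5) (nat_lit 11) (nat_lit 5) (nat_lit 12) (nat_lit 4) (nat_lit 239) (nat_lit 219) (nat_lit 202))) (XT.nd (nat_lit 78) (nat_lit 152) (nat_lit 0) (XT.lf (nat_lit 0) (nat_lit 16035199214) (nat_lit 152) (nat_lit 8245894451) (nat_lit 0) (nat_lit 1384158090) (nat_lit 10) (nat_lit 5) (nat_lit 12) (nat_lit 4) (nat_lit 10) (nat_lit 4) (nat_lit 240) (nat_lit 219) (nat_lit 201)) (XT.nd (nat_lit 78) (nat_lit 76) (nat_lit 0) (XT.lf (nat_lit 0) (nat_lit 6944036645) (nat_lit 76) (nat_lit 18319215871) (nat_lit 76) (nat_lit 3500180975) (nat_lit 9) (nat_lit 4) (nat_lit 10) (nat_lit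 5) (nat_lit 10) (nat_lit 4) (nat_lit 241) (nat_lit 219) (nat_lit 200)) (XT.lf (nat_lit 0) (nat_lit 3451658748) (nat_lit 152) (nat_lit 7785666241) (nat_lit 76) (nat_lit 21076016472) (nat_lit 8) (nat_lit 5) (nat_lit 10) (nat_lit 5) (nat_lit 9) (nat_lit 4) (nat_lit 242) (nat_lit 219) (nat_lit 199))))) (XT.nd (nat_lit 234) (nat_lit 76) (nat_lit 0) (XT.nd (nat_lit 78) (nat_lit 76) (nat_lit 0) (XT.lf (nat_lit 0) (nat_lit 8417627645) (nat_lit 76) (nat_lit 2885147118) (nat_lit 152) (nat_lit 25080787830) (nat_lit 7) (nat_lit 5) (nat_lit 8) (nat_lit 5) (nat_lit 9) (nat_lit 4) (nat_lit 243) (nat_lit 219) (nat_lit 198)) (XT.nd (nat_lit 78) (nat_lit 76) (nat_lit 0) (XT.lf (nat_lit 0) (nat_lit 20591726102) (nat_lit 152) (nat_lit 13936709034) (nat_lit 0) (nat_lit 6515242309) (nat_lit 7) (nat_lit 5) (nat_lit 9) (nat_lit 4) (nat_lit 7) (nat_lit 4) (nat_lit 244) (nat_lit 219) (nat_lit 197)) (XT.lf (nat_lit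 0) (nat_lit 2003485949) (nat_lit 76) (nat_lit 29281989178) (nat_lit 76) (nat_lit 15116569288) (nat_lit 6) (nat_lit 4) (nat_lit 7) (nat_lit 5) (nat_lit 7) (nat_lit 4) (nat_lit 245) (nat_lit 219) (nat_lit 196)))) (XT.nd (nat_lit 78) (nat_lit 76) (nat_lit 0) (XT.lf (nat_lit 0) (nat_lit 20982934275) (nat_lit 76) (nat_lit 22900070921) (nat_lit 76) (nat_lit 8657315294) (nat_lit 6) (nat_lit 4) (nat_lit 7) (nat_lit 5) (nat_lit 7) (nat_lit 4) (nat_lit 246) (nat_lit 219) (nat_lit 195)) (XT.nd (nat_lit 78) (nat_lit 76) (nat_lit 0) (XT.lf (nat_lit 0) (nat_lit 42639090577) (nat_lit 76) (nat_lit 15638871070) (nat_lit 76) (nat_lit 1328866977) (nat_lit 6) (nat_lit 4) (nat_lit 7) (nat_lit 5) (nat_lit 7) (nat_lit 4) (nat_lit 247) (nat_lit 219) (nat_lit 194)) (XT.lf (nat_lit 0) (nat_lit 6661381787) (nat_lit 152) (nat_lit 512806902) (nat_lit 76) (nat_lit 60552146488) (nat_lit 5) (nat_lit 5) (nat_lit 7) (nat_lit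 5) (nat_lit 6) (nat_lit 4) (nat_lit 248) (nat_lit 219) (nat_lit 193)))))) (XT.nd (nat_lit 390) (nat_lit 76) (nat_lit 0) (XT.nd (nat_lit 156) (nat_lit 0) (nat_lit 0) (XT.nd (nat_lit 78) (nat_lit 0) (nat_lit 0) (XT.lf (nat_lit 0) (nat_lit 16236964840) (nat_lit 152) (nat_lit 57901150350) (nat_lit 0) (nat_lit 2885732875) (nat_lit 4) (nat_lit 5) (nat_lit 6) (nat_lit 4) (nat_lit 4) (nat_lit 4) (nat_lit 249) (nat_lit 219) (nat_lit 192)) (XT.lf (nat_lit 0) (nat_lit 27396083744) (nat_lit 152) (nat_lit 46304287768) (nat_lit 0) (nat_lit 14003910150) (nat_lit 4) (nat_lit 5) (nat_lit 6) (nat_lit 4) (nat_lit 4) (nat_lit 4) (nat_lit 250) (nat_lit 219) (nat_lit 191))) (XT.nd (nat_lit 78) (nat_lit 0) (nat_lit 0) (XT.lf (nat_lit 0) (nat_lit 40171210014) (nat_lit 152) (nat_lit 33076824678) (nat_lit 0) (nat_lit 26743435005) (nat_lit 4) (nat_lit 5) (nat_lit 6) (nat_lit 4) (nat_lit 4) (nat_lit 4) (nat_lit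 251) (nat_lit 219) (nat_lit 190)) (XT.nd (nat_lit 78) (nat_lit 0) (nat_lit 0) (XT.lf (nat_lit 0) (nat_lit 54812291774) (nat_lit 152) (nat_lit 17959962889) (nat_lit 0) (nat_lit 41353559012) (nat_lit 4) (nat_lit 5) (nat_lit 6) (nat_lit 4) (nat_lit 4) (nat_lit 4) (nat_lit 252) (nat_lit 219) (nat_lit 189)) (XT.lf (nat_lit 0) (nat_lit 71605784970) (nat_lit 152) (nat_lit 657937715) (nat_lit 0) (nat_lit 58120132424) (nat_lit 4) (nat_lit 5) (nat_lit 6) (nat_lit 4) (nat_lit 4) (nat_lit 4) (nat_lit 253) (nat_lit 219) (nat_lit 188))))) (XT.nd (nat_lit 234) (nat_lit 0) (nat_lit 0) (XT.nd (nat_lit 78) (nat_lit 0) (nat_lit 0) (XT.lf (nat_lit 0) (nat_lit 20177109462) (nat_lit 76) (nat_lit 71188408455) (nat_lit 76) (nat_lit 57679347399) (nat_lit 3) (nat_lit 4) (nat_lit 4) (nat_lit 5) (nat_lit 4) (nat_lit 4) (nat_lit 254) (nat_lit 219) (nat_lit 187)) (XT.nd (nat_lit 78) (nat_lit 0) (nat_lit 0) (XT.lf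 (nat_lit 0) (nat_lit 44111696407) (nat_lit 76) (nat_lit 69962010917) (nat_lit 76) (nat_lit 56432594636) (nat_lit 3) (nat_lit 4) (nat_lit 4) (nat_lit 5) (nat_lit 4) (nat_lit 4) (nat_lit 255) (nat_lit 219) (nat_lit 186)) (XT.lf (nat_lit 0) (nat_lit 71579462683) (nat_lit 76) (nat_lit 68578524519) (nat_lit 76) (nat_lit 55031408043) (nat_lit 3) (nat_lit 4) (nat_lit 4) (nat_lit 5) (nat_lit 4) (nat_lit 4) (nat_lit 256) (nat_lit 219) (nat_lit 185)))) (XT.nd (nat_lit 78) (nat_lit 0) (nat_lit 0) (XT.lf (nat_lit 0) (nat_lit 103117821108) (nat_lit 76) (nat_lit 67010881050) (nat_lit 76) (nat_lit 53448373100) (nat_lit 3) (nat_lit 4) (nat_lit 4) (nat_lit 5) (nat_lit 4) (nat_lit 4) (nat_lit 257) (nat_lit 219) (nat_lit 184)) (XT.nd (nat_lit 78) (nat_lit 0) (nat_lit 0) (XT.lf (nat_lit 0) (nat_lit 139343826521) (nat_lit 76) (nat_lit 65228409225) (nat_lit 76) (nat_lit 51652517384) (nat_lit 3) (nat_lit 4)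 (nat_lit 4) (nat_lit 5) (nat_lit 4) (nat_lit 4) (nat_lit 258) (nat_lit 219) (nat_lit 183)) (XT.lf (nat_lit 0) (nat_lit 180966248592) (nat_lit 76) (nat_lit 63196234594) (nat_lit 76) (nat_lit 49608704587) (nat_lit 3) (nat_lit 4) (nat_lit 4) (nat_lit 5) (nat_lit 4) (nat_lit 4) (nat_lit 259) (nat_lit 219) (nat_lit 182))))))))
noncomputable def xc23 : XT := (XT.nd (nat_lit 1716) (nat_lit 0) (nat_lit 0) (XT.nd (nat_lit 858) (nat_lit 76) (nat_lit 0) (XT.nd (nat_lit 390) (nat_lit 76) (nat_lit 0) (XT.nd (nat_lit 156) (nat_lit 0) (nat_lit 0) (XT.nd (nat_lit 78) (nat_lit 0) (nat_lit 0) (XT.lf (nat_lit 0) (nat_lit 228799439059) (nat_lit 76) (nat_lit 60874597220) (nat_lit 76) (nat_lit 47276947068) (nat_lit 3) (nat_lit 4) (nat_lit 4) (nat_lit 5) (nat_lit 4) (nat_lit 4) (nat_lit 260) (nat_lit 219) (nat_lit 181)) (XT.lf (nat_lit 0) (nat_lit 283779264690) (nat_lit 76) (nat_lit 58218073762) (nat_lit 76)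 (nat_lit 44611623485) (nat_lit 3) (nat_lit 4) (nat_lit 4) (nat_lit 5) (nat_lit 4) (nat_lit 4) (nat_lit 261) (nat_lit 219) (nat_lit 180))) (XT.nd (nat_lit 78) (nat_lit 0) (nat_lit 0) (XT.lf (nat_lit 0) (nat_lit 346981417727) (nat_lit 76) (nat_lit 55174688761) (nat_lit 76) (nat_lit 41560586201) (nat_lit 3) (nat_lit 4) (nat_lit 4) (nat_lit 5) (nat_lit 4) (nat_lit 4) (nat_lit 262) (nat_lit 219) (nat_lit 179)) (XT.nd (nat_lit 78) (nat_lit 0) (nat_lit 0) (XT.lf (nat_lit 0) (nat_lit 419642462034) (nat_lit 76) (nat_lit 51684897729) (nat_lit 76) (nat_lit 38064141009) (nat_lit 3) (nat_lit 4) (nat_lit 4) (nat_lit 5) (nat_lit 4) (nat_lit 4) (nat_lit 263) (nat_lit 219) (nat_lit 178)) (XT.lf (nat_lit 0) (nat_lit 503184026737) (nat_lit 76) (nat_lit 47680422144) (nat_lit 76) (nat_lit 34053879200) (nat_lit 3) (nat_lit 4) (nat_lit 4) (nat_lit 5) (nat_lit 4) (nat_lit 4) (nat_lit 264) (nat_lit 219) (nat_lit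 177))))) (XT.nd (nat_lit 234) (nat_lit 76) (nat_lit 0) (XT.nd (nat_lit 78) (nat_lit 0) (nat_lit 0) (XT.lf (nat_lit 0) (nat_lit 599240620713) (nat_lit 76) (nat_lit 43082913573) (nat_lit 76) (nat_lit 29451339128) (nat_lit 3) (nat_lit 4) (nat_lit 4) (nat_lit 5) (nat_lit 4) (nat_lit 4) (nat_lit 265) (nat_lit 219) (nat_lit 176)) (XT.nd (nat_lit 78) (nat_lit 0) (nat_lit 0) (XT.lf (nat_lit 0) (nat_lit 709691612103) (nat_lit 76) (nat_lit 37802420759) (nat_lit 76) (nat_lit 24166471096) (nat_lit 3) (nat_lit 4) (nat_lit 4) (nat_lit 5) (nat_lit 4) (nat_lit 4) (nat_lit 266) (nat_lit 219) (nat_lit 175)) (XT.lf (nat_lit 0) (nat_lit 836697998565) (nat_lit 76) (nat_lit 31735629713) (nat_lit 76) (nat_lit 18095875514) (nat_lit 3) (nat_lit 4) (nat_lit 4) (nat_lit 5) (nat_lit 4) (nat_lit 4) (nat_lit 267) (nat_lit 219) (nat_lit 174)))) (XT.nd (nat_lit 78) (nat_lit 76) (nat_lit 0) (XT.lf (nat_lit 0) (nat_lit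 982744687661) (nat_lit 76) (nat_lit 24763842350) (nat_lit 76) (nat_lit 11120779858) (nat_lit 3) (nat_lit 4) (nat_lit 4) (nat_lit 5) (nat_lit 4) (nat_lit 4) (nat_lit 268) (nat_lit 219) (nat_lit 173)) (XT.nd (nat_lit 78) (nat_lit 76) (nat_lit 0) (XT.lf (nat_lit 0) (nat_lit 1150689114612) (nat_lit 76) (nat_lit 16750654135) (nat_lit 76) (nat_lit 3104714865) (nat_lit 3) (nat_lit 4) (nat_lit 4) (nat_lit 5) (nat_lit 4) (nat_lit 4) (nat_lit 269) (nat_lit 219) (nat_lit 172)) (XT.lf (nat_lit 0) (nat_lit 5803550816) (nat_lit 152) (nat_lit 1577055116) (nat_lit 76) (nat_lit 1337854918461) (nat_lit 2) (nat_lit 5) (nat_lit 4) (nat_lit 5) (nat_lit 3) (nat_lit 4) (nat_lit 270) (nat_lit 219) (nat_lit 171)))))) (XT.nd (nat_lit 390) (nat_lit 0) (nat_lit 0) (XT.nd (nat_lit 156) (nat_lit 0) (nat_lit 0) (XT.nd (nat_lit 78) (nat_lit 0) (nat_lit 0) (XT.lf (nat_lit 0) (nat_lit 16452038441) (nat_lit 152) (nat_lit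 1525812130535) (nat_lit 0) (nat_lit 3812579116) (nat_lit 1) (nat_lit 5) (nat_lit 3) (nat_lit 4) (nat_lit 1) (nat_lit 4) (nat_lit 271) (nat_lit 219) (nat_lit 170)) (XT.lf (nat_lit 0) (nat_lit 28945493893) (nat_lit 152) (nat_lit 1731774565705) (nat_lit 0) (nat_lit 16304283154) (nat_lit 1) (nat_lit 5) (nat_lit 3) (nat_lit 4) (nat_lit 1) (nat_lit 4) (nat_lit 272) (nat_lit 219) (nat_lit 169))) (XT.nd (nat_lit 78) (nat_lit 0) (nat_lit 0) (XT.lf (nat_lit 0) (nat_lit 43309888123) (nat_lit 152) (nat_lit 1968637283027) (nat_lit 0) (nat_lit 30667154415) (nat_lit 1) (nat_lit 5) (nat_lit 3) (nat_lit 4) (nat_lit 1) (nat_lit 4) (nat_lit 273) (nat_lit 219) (nat_lit 168)) (XT.nd (nat_lit 78) (nat_lit 0) (nat_lit 0) (XT.lf (nat_lit 0) (nat_lit 59826263626) (nat_lit 152) (nat_lit 2241034553057) (nat_lit 0) (nat_lit 47182205598) (nat_lit 1) (nat_lit 5) (nat_lit 3) (nat_lit 4) (nat_lit 1) (nat_lit 4) (nat_lit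 274) (nat_lit 219) (nat_lit 167)) (XT.lf (nat_lit 0) (nat_lit 78817766881) (nat_lit 152) (nat_lit 2554295887600) (nat_lit 0) (nat_lit 66172557269) (nat_lit 1) (nat_lit 5) (nat_lit 3) (nat_lit 4) (nat_lit 1) (nat_lit 4) (nat_lit 275) (nat_lit 219) (nat_lit 166))))) (XT.nd (nat_lit 234) (nat_lit 0) (nat_lit 0) (XT.nd (nat_lit 78) (nat_lit 0) (nat_lit 0) (XT.lf (nat_lit 0) (nat_lit 100655970776) (nat_lit 152) (nat_lit 2914550312766) (nat_lit 0) (nat_lit 88009759787) (nat_lit 1) (nat_lit 5) (nat_lit 3) (nat_lit 4) (nat_lit 1) (nat_lit 4) (nat_lit 276) (nat_lit 219) (nat_lit 165)) (XT.nd (nat_lit 78) (nat_lit 0) (nat_lit 0) (XT.lf (nat_lit 0) (nat_lit 125768144519) (nat_lit 152) (nat_lit 3328846284701) (nat_lit 0) (nat_lit 113121062768) (nat_lit 1) (nat_lit 5) (nat_lit 3) (nat_lit 4) (nat_lit 1) (nat_lit 4) (nat_lit 277) (nat_lit 219) (nat_lit 164)) (XT.lf (nat_lit 0) (nat_lit 154645613247)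 (nat_lit 152) (nat_lit 3805289594158) (nat_lit 0) (nat_lit 141997774311) (nat_lit 1) (nat_lit 5) (nat_lit 3) (nat_lit 4) (nat_lit 1) (nat_lit 4) (nat_lit 278) (nat_lit 219) (nat_lit 163)))) (XT.nd (nat_lit 78) (nat_lit 0) (nat_lit 0) (XT.lf (nat_lit 0) (nat_lit 187853370915) (nat_lit 152) (nat_lit 4353201958064) (nat_lit 0) (nat_lit 175204873557) (nat_lit 1) (nat_lit 5) (nat_lit 3) (nat_lit 4) (nat_lit 1) (nat_lit 4) (nat_lit 279) (nat_lit 219) (nat_lit 162)) (XT.nd (nat_lit 78) (nat_lit 0) (nat_lit 0) (XT.lf (nat_lit 0) (nat_lit 226041134519) (nat_lit 152) (nat_lit 4983303400928) (nat_lit 0) (nat_lit 213392064622) (nat_lit 1) (nat_lit 5) (nat_lit 3) (nat_lit 4) (nat_lit 1) (nat_lit 4) (nat_lit 280) (nat_lit 219) (nat_lit 161)) (XT.lf (nat_lit 0) (nat_lit 269956055957) (nat_lit 152) (nat_lit 5707921994459) (nat_lit 0) (nat_lit 257306488199) (nat_lit 1) (nat_lit 5) (nat_lit 3) (nat_lit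 4) (nat_lit 1) (nat_lit 4) (nat_lit 281) (nat_lit 219) (nat_lit 160))))))) (XT.nd (nat_lit 30264) (nat_lit 0) (nat_lit 760) (XT.nd (nat_lit 29796) (nat_lit 0) (nat_lit 2508) (XT.nd (nat_lit 29562) (nat_lit 0) (nat_lit 4560) (XT.nd (nat_lit 78) (nat_lit 0) (nat_lit 0) (XT.lf (nat_lit 0) (nat_lit 320457340214) (nat_lit 152) (nat_lit 6541235058965) (nat_lit 0) (nat_lit 307807339532) (nat_lit 1) (nat_lit 5) (nat_lit 3) (nat_lit 4) (nat_lit 1) (nat_lit 4) (nat_lit 282) (nat_lit 219) (nat_lit 159)) (XT.lf (nat_lit 0) (nat_lit 378533055894) (nat_lit 152) (nat_lit 7499546545709) (nat_lit 0) (nat_lit 365882678758) (nat_lit 1) (nat_lit 5) (nat_lit 3) (nat_lit 4) (nat_lit 1) (nat_lit 4) (nat_lit 283) (nat_lit 219) (nat_lit 158))) (XT.nd (nat_lit 78) (nat_lit 228) (nat_lit 0) (XT.lf (nat_lit 0) (nat_lit 1073741823) (nat_lit 0) (nat_lit 0) (nat_lit 0) (nat_lit 0) (nat_lit 64) (nat_lit 0) (nat_lit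 1) (nat_lit 0) (nat_lit 1) (nat_lit 0) (nat_lit 220) (nat_lit 220) (nat_lit 220)) (XT.nd (nat_lit 78) (nat_lit 152) (nat_lit 0) (XT.lf (nat_lit 0) (nat_lit 5154836088) (nat_lit 76) (nat_lit 943188823) (nat_lit 0) (nat_lit 375517860) (nat_lit 63) (nat_lit 5) (nat_lit 64) (nat_lit 0) (nat_lit 63) (nat_lit 4) (nat_lit 221) (nat_lit 220) (nat_lit 219)) (XT.lf (nat_lit 0) (nat_lit 3534948307) (nat_lit 152) (nat_lit 1582554640) (nat_lit 76) (nat_lit 1454330657) (nat_lit 61) (nat_lit 5) (nat_lit 63) (nat_lit 5) (nat_lit 62) (nat_lit 4) (nat_lit 222) (nat_lit 220) (nat_lit 218))))) (XT.nd (nat_lit 234) (nat_lit 1216) (nat_lit 0) (XT.nd (nat_lit 78) (nat_lit 608) (nat_lit 0) (XT.lf (nat_lit 0) (nat_lit 1536524058) (nat_lit 228) (nat_lit 1942222697) (nat_lit 76) (nat_lit 3260280943) (nat_lit 58) (nat_lit 5) (nat_lit 61) (nat_lit 5) (nat_lit 59) (nat_lit 5) (nat_lit 223) (nat_lit 220) (nat_lit 217))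 (XT.nd (nat_lit 78) (nat_lit 380) (nat_lit 0) (XT.lf (nat_lit 0) (nat_lit 4912160379) (nat_lit 228) (nat_lit 1120611350) (nat_lit 304) (nat_lit 943470260) (nat_lit 55) (nat_lit 5) (nat_lit 58) (nat_lit 5) (nat_lit 59) (nat_lit 5) (nat_lit 224) (nat_lit 220) (nat_lit 216)) (XT.lf (nat_lit 0) (nat_lit 3302194469) (nat_lit 380) (nat_lit 2041550436) (nat_lit 76) (nat_lit 1937727878) (nat_lit 50) (nat_lit 5) (nat_lit 55) (nat_lit 5) (nat_lit 51) (nat_lit 5) (nat_lit 225) (nat_lit 220) (nat_lit 215)))) (XT.nd (nat_lit 78) (nat_lit 760) (nat_lit 0) (XT.lf (nat_lit 0) (nat_lit 86614685) (nat_lit 456) (nat_lit 1848598461) (nat_lit 76) (nat_lit 5728268864) (nat_lit 44) (nat_lit 5) (nat_lit 50) (nat_lit 5) (nat_lit 45) (nat_lit 5) (nat_lit 226) (nat_lit 220) (nat_lit 214)) (XT.nd (nat_lit 78) (nat_lit 304) (nat_lit 0) (XT.lf (nat_lit 0) (nat_lit 4251168380) (nat_lit 532) (nat_lit 1625974536) (nat_lit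 76) (nat_lit 2242013047) (nat_lit 38) (nat_lit 5) (nat_lit 45) (nat_lit 5) (nat_lit 39) (nat_lit 5) (nat_lit 227) (nat_lit 220) (nat_lit 213)) (XT.lf (nat_lit 0) (nat_lit 158294359) (nat_lit 304) (nat_lit 1328729313) (nat_lit 76) (nat_lit 7174997936) (nat_lit 34) (nat_lit 5) (nat_lit 38) (nat_lit 5) (nat_lit 35) (nat_lit 5) (nat_lit 228) (nat_lit 220) (nat_lit 212)))))) (XT.nd (nat_lit 390) (nat_lit 684) (nat_lit 0) (XT.nd (nat_lit 156) (nat_lit 608) (nat_lit 0) (XT.nd (nat_lit 78) (nat_lit 228) (nat_lit 0) (XT.lf (nat_lit 0) (nat_lit 4449258202) (nat_lit 304) (nat_lit 1147878371) (nat_lit 76) (nat_lit 3691770553) (nat_lit 31) (nat_lit 5) (nat_lit 35) (nat_lit 5) (nat_lit 32) (nat_lit 5) (nat_lit 229) (nat_lit 220) (nat_lit 211)) (XT.lf (nat_lit 0) (nat_lit 9009833921) (nat_lit 228) (nat_lit 261326503) (nat_lit 304) (nat_lit 749254424) (nat_lit 28) (nat_lit 5) (nat_lit 31) (nat_lit 5)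 (nat_lit 32) (nat_lit 5) (nat_lit 230) (nat_lit 220) (nat_lit 210))) (XT.nd (nat_lit 78) (nat_lit 380) (nat_lit 0) (XT.lf (nat_lit 0) (nat_lit 3796837533) (nat_lit 228) (nat_lit 1197836162) (nat_lit 76) (nat_lit 5857435129) (nat_lit 25) (nat_lit 5) (nat_lit 28) (nat_lit 5) (nat_lit 26) (nat_lit 5) (nat_lit 231) (nat_lit 220) (nat_lit 209)) (XT.nd (nat_lit 78) (nat_lit 228) (nat_lit 0) (XT.lf (nat_lit 0) (nat_lit 8952281998) (nat_lit 228) (nat_lit 1655795580) (nat_lit 76) (nat_lit 1202279416) (nat_lit 23) (nat_lit 5) (nat_lit 26) (nat_lit 5) (nat_lit 24) (nat_lit 4) (nat_lit 232) (nat_lit 220) (nat_lit 208)) (XT.lf (nat_lit 0) (nat_lit 1982946886) (nat_lit 228) (nat_lit 2656186495) (nat_lit 76) (nat_lit 8261289599) (nat_lit 20) (nat_lit 5) (nat_lit 23) (nat_lit 5) (nat_lit 21) (nat_lit 5) (nat_lit 233) (nat_lit 220) (nat_lit 207))))) (XT.nd (nat_lit 234) (nat_lit 228) (nat_lit 0) (XT.nd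 (nat_lit 78) (nat_lit 304) (nat_lit 0) (XT.lf (nat_lit 0) (nat_lit 7443766725) (nat_lit 228) (nat_lit 4343963344) (nat_lit 76) (nat_lit 2356070974) (nat_lit 18) (nat_lit 5) (nat_lit 21) (nat_lit 5) (nat_lit 19) (nat_lit 4) (nat_lit 234) (nat_lit 220) (nat_lit 206)) (XT.nd (nat_lit 78) (nat_lit 228) (nat_lit 0) (XT.lf (nat_lit 0) (nat_lit 8607537542) (nat_lit 76) (nat_lit 5267552201) (nat_lit 152) (nat_lit 1687156095) (nat_lit 17) (nat_lit 5) (nat_lit 18) (nat_lit 5) (nat_lit 19) (nat_lit 4) (nat_lit 235) (nat_lit 220) (nat_lit 205)) (XT.lf (nat_lit 0) (nat_lit 3973024875) (nat_lit 228) (nat_lit 10831275319) (nat_lit 76) (nat_lit 2373903410) (nat_lit 14) (nat_lit 5) (nat_lit 17) (nat_lit 5) (nat_lit 15) (nat_lit 4) (nat_lit 236) (nat_lit 220) (nat_lit 204)))) (XT.nd (nat_lit 78) (nat_lit 152) (nat_lit 0) (XT.lf (nat_lit 0) (nat_lit 2606333951) (nat_lit 76) (nat_lit 7970355148) (nat_lit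 152) (nat_lit 8441281186) (nat_lit 13) (nat_lit 5) (nat_lit 14) (nat_lit 5) (nat_lit 15) (nat_lit 4) (nat_lit 237) (nat_lit 220) (nat_lit 203)) (XT.nd (nat_lit 78) (nat_lit 152) (nat_lit 0) (XT.lf (nat_lit 0) (nat_lit 18285015272) (nat_lit 152) (nat_lit 2751543688) (nat_lit 0) (nat_lit 88422196) (nat_lit 13) (nat_lit 5) (nat_lit 15) (nat_lit 4) (nat_lit 13) (nat_lit 4) (nat_lit 238) (nat_lit 220) (nat_lit 202)) (XT.lf (nat_lit 0) (nat_lit 3785626746) (nat_lit 152) (nat_lit 10531137708) (nat_lit 76) (nat_lit 9195538939) (nat_lit 11) (nat_lit 5) (nat_lit 13) (nat_lit 5) (nat_lit 12) (nat_lit 4) (nat_lit 239) (nat_lit 220) (nat_lit 201))))))))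
noncomputable def xc24 : XT := (XT.nd (nat_lit 1716) (nat_lit 152) (nat_lit 0) (XT.nd (nat_lit 858) (nat_lit 76) (nat_lit 0) (XT.nd (nat_lit 390) (nat_lit 228) (nat_lit 0) (XT.nd (nat_lit 156) (nat_lit 228) (nat_lit 0) (XT.nd (nat_lit 78) (nat_lit 0) (nat_lit 0) (XT.lf (nat_lit 0) (nat_lit 4861532202) (nat_lit 76) (nat_lit 6411644152) (nat_lit 152) (nat_lit 14976030100) (nat_lit 10) (nat_lit 5) (nat_lit 11) (nat_lit 5) (nat_lit 12) (nat_lit 4) (nat_lit 240) (nat_lit 220) (nat_lit 200)) (XT.lf (nat_lit 0) (nat_lit 20107994318) (nat_lit 152) (nat_lit 6518939408) (nat_lit 0) (nat_lit 2752028874) (nat_lit 10) (nat_lit 5) (nat_lit 12) (nat_lit 4) (nat_lit 10) (nat_lit 4) (nat_lit 241) (nat_lit 220) (nat_lit 199))) (XT.nd (nat_lit 78) (nat_lit 152) (nat_lit 0) (XT.lf (nat_lit 0) (nat_lit 10698607126) (nat_lit 76) (nat_lit 19869393378) (nat_lit 76) (nat_lit 2386400507) (nat_lit 9) (nat_lit 4)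 (nat_lit 10) (nat_lit 5) (nat_lit 10) (nat_lit 4) (nat_lit 242) (nat_lit 220) (nat_lit 198)) (XT.nd (nat_lit 78) (nat_lit 76) (nat_lit 0) (XT.lf (nat_lit 0) (nat_lit 5323170882) (nat_lit 152) (nat_lit 6521256067) (nat_lit 76) (nat_lit 25205741319) (nat_lit 8) (nat_lit 5) (nat_lit 10) (nat_lit 5) (nat_lit 9) (nat_lit 4) (nat_lit 243) (nat_lit 220) (nat_lit 197)) (XT.lf (nat_lit 0) (nat_lit 11906653198) (nat_lit 76) (nat_lit 2322267804) (nat_lit 152) (nat_lit 27512088582) (nat_lit 7) (nat_lit 5) (nat_lit 8) (nat_lit 5) (nat_lit 9) (nat_lit 4) (nat_lit 244) (nat_lit 220) (nat_lit 196))))) (XT.nd (nat_lit 234) (nat_lit 152) (nat_lit 0) (XT.nd (nat_lit 78) (nat_lit 76) (nat_lit 0) (XT.lf (nat_lit 0) (nat_lit 24771507160) (nat_lit 152) (nat_lit 14025021160) (nat_lit 0) (nat_lit 8315002453) (nat_lit 7) (nat_lit 5) (nat_lit 9) (nat_lit 4) (nat_lit 7) (nat_lit 4) (nat_lit 245) (nat_lit 220) (nat_lit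 195)) (XT.nd (nat_lit 78) (nat_lit 0) (nat_lit 0) (XT.lf (nat_lit 0) (nat_lit 4136727302) (nat_lit 76) (nat_lit 32834360924) (nat_lit 76) (nat_lit 16310607750) (nat_lit 6) (nat_lit 4) (nat_lit 7) (nat_lit 5) (nat_lit 7) (nat_lit 4) (nat_lit 246) (nat_lit 220) (nat_lit 194)) (XT.lf (nat_lit 0) (nat_lit 25724042643) (nat_lit 76) (nat_lit 25604710576) (nat_lit 76) (nat_lit 9022480475) (nat_lit 6) (nat_lit 4) (nat_lit 7) (nat_lit 5) (nat_lit 7) (nat_lit 4) (nat_lit 247) (nat_lit 220) (nat_lit 193)))) (XT.nd (nat_lit 78) (nat_lit 152) (nat_lit 0) (XT.lf (nat_lit 0) (nat_lit 50420752621) (nat_lit 76) (nat_lit 17349596528) (nat_lit 76) (nat_lit 716516925) (nat_lit 6) (nat_lit 4) (nat_lit 7) (nat_lit 5) (nat_lit 7) (nat_lit 4) (nat_lit 248) (nat_lit 220) (nat_lit 192)) (XT.nd (nat_lit 78) (nat_lit 0) (nat_lit 0) (XT.lf (nat_lit 0) (nat_lit 685671590) (nat_lit 76) (nat_lit 7661909251) (nat_lit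 152) (nat_lit 69481995363) (nat_lit 4) (nat_lit 5) (nat_lit 5) (nat_lit 5) (nat_lit 6) (nat_lit 4) (nat_lit 249) (nat_lit 220) (nat_lit 191)) (XT.lf (nat_lit 0) (nat_lit 19295518797) (nat_lit 152) (nat_lit 65413437526) (nat_lit 0) (nat_lit 3817976121) (nat_lit 4) (nat_lit 5) (nat_lit 6) (nat_lit 4) (nat_lit 4) (nat_lit 4) (nat_lit 250) (nat_lit 220) (nat_lit 190)))))) (XT.nd (nat_lit 390) (nat_lit 0) (nat_lit 0) (XT.nd (nat_lit 156) (nat_lit 76) (nat_lit 0) (XT.nd (nat_lit 78) (nat_lit 0) (nat_lit 0) (XT.lf (nat_lit 0) (nat_lit 32047243462) (nat_lit 152) (nat_lit 52230030606) (nat_lit 0) (nat_lit 16538743033) (nat_lit 4) (nat_lit 5) (nat_lit 6) (nat_lit 4) (nat_lit 4) (nat_lit 4) (nat_lit 251) (nat_lit 220) (nat_lit 189)) (XT.lf (nat_lit 0) (nat_lit 46667976000) (nat_lit 152) (nat_lit 37151478530) (nat_lit 0) (nat_lit 31132555786) (nat_lit 4) (nat_lit 5) (nat_lit 6) (nat_lit 4) (nat_lit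 4) (nat_lit 4) (nat_lit 252) (nat_lit 220) (nat_lit 188))) (XT.nd (nat_lit 78) (nat_lit 76) (nat_lit 0) (XT.lf (nat_lit 0) (nat_lit 63443774222) (nat_lit 152) (nat_lit 19882766149) (nat_lit 0) (nat_lit 47884945499) (nat_lit 4) (nat_lit 5) (nat_lit 6) (nat_lit 4) (nat_lit 4) (nat_lit 4) (nat_lit 253) (nat_lit 220) (nat_lit 187)) (XT.nd (nat_lit 78) (nat_lit 76) (nat_lit 0) (XT.lf (nat_lit 0) (nat_lit 82702860266) (nat_lit 152) (nat_lit 86027351) (nat_lit 0) (nat_lit 67123676318) (nat_lit 4) (nat_lit 5) (nat_lit 6) (nat_lit 4) (nat_lit 4) (nat_lit 4) (nat_lit 254) (nat_lit 220) (nat_lit 186)) (XT.lf (nat_lit 0) (nat_lit 23817513866) (nat_lit 76) (nat_lit 81577340253) (nat_lit 76) (nat_lit 65980456109) (nat_lit 3) (nat_lit 4) (nat_lit 4) (nat_lit 5) (nat_lit 4) (nat_lit 4) (nat_lit 255) (nat_lit 220) (nat_lit 185))))) (XT.nd (nat_lit 234) (nat_lit 0) (nat_lit 0) (XT.nd (nat_lit 78) (nat_lit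 0) (nat_lit 0) (XT.lf (nat_lit 0) (nat_lit 51262223029) (nat_lit 76) (nat_lit 80204721710) (nat_lit 76) (nat_lit 64592446092) (nat_lit 3) (nat_lit 4) (nat_lit 4) (nat_lit 5) (nat_lit 4) (nat_lit 4) (nat_lit 256) (nat_lit 220) (nat_lit 184)) (XT.nd (nat_lit 78) (nat_lit 0) (nat_lit 0) (XT.lf (nat_lit 0) (nat_lit 82780531791) (nat_lit 76) (nat_lit 78646528550) (nat_lit 76) (nat_lit 63020869041) (nat_lit 3) (nat_lit 4) (nat_lit 4) (nat_lit 5) (nat_lit 4) (nat_lit 4) (nat_lit 257) (nat_lit 220) (nat_lit 183)) (XT.lf (nat_lit 0) (nat_lit 118989102714) (nat_lit 76) (nat_lit 76872274384) (nat_lit 76) (nat_lit 61234976710) (nat_lit 3) (nat_lit 4) (nat_lit 4) (nat_lit 5) (nat_lit 4) (nat_lit 4) (nat_lit 258) (nat_lit 220) (nat_lit 182)))) (XT.nd (nat_lit 78) (nat_lit 0) (nat_lit 0) (XT.lf (nat_lit 0) (nat_lit 160596364359) (nat_lit 76) (nat_lit 74847245545) (nat_lit 76) (nat_lit 59199827726) (nat_lit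 3) (nat_lit 4) (nat_lit 4) (nat_lit 5) (nat_lit 4) (nat_lit 4) (nat_lit 259) (nat_lit 220) (nat_lit 181)) (XT.nd (nat_lit 78) (nat_lit 0) (nat_lit 0) (XT.lf (nat_lit 0) (nat_lit 208416371846) (nat_lit 76) (nat_lit 72531821902) (nat_lit 76) (nat_lit 56875603958) (nat_lit 3) (nat_lit 4) (nat_lit 4) (nat_lit 5) (nat_lit 4) (nat_lit 4) (nat_lit 260) (nat_lit 220) (nat_lit 180)) (XT.lf (nat_lit 0) (nat_lit 263384734018) (nat_lit 76) (nat_lit 69880701689) (nat_lit 76) (nat_lit 54216831461) (nat_lit 3) (nat_lit 4) (nat_lit 4) (nat_lit 5) (nat_lit 4) (nat_lit 4) (nat_lit 261) (nat_lit 220) (nat_lit 179))))))) (XT.nd (nat_lit 858) (nat_lit 0) (nat_lit 0) (XT.nd (nat_lit 390) (nat_lit 152) (nat_lit 0) (XT.nd (nat_lit 156) (nat_lit 0) (nat_lit 0) (XT.nd (nat_lit 78) (nat_lit 0) (nat_lit 0) (XT.lf (nat_lit 0) (nat_lit 326576918829) (nat_lit 76) (nat_lit 66842015162) (nat_lit 76) (nat_lit 51171490775)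 (nat_lit 3) (nat_lit 4) (nat_lit 4) (nat_lit 5) (nat_lit 4) (nat_lit 4) (nat_lit 262) (nat_lit 220) (nat_lit 178)) (XT.lf (nat_lit 0) (nat_lit 399229295112) (nat_lit 76) (nat_lit 63356309758) (nat_lit 76) (nat_lit 47679999146) (nat_lit 3) (nat_lit 4) (nat_lit 4) (nat_lit 5) (nat_lit 4) (nat_lit 4) (nat_lit 263) (nat_lit 220) (nat_lit 177))) (XT.nd (nat_lit 78) (nat_lit 0) (nat_lit 0) (XT.lf (nat_lit 0) (nat_lit 482763322405) (nat_lit 76) (nat_lit 59355386895) (nat_lit 76) (nat_lit 43674044783) (nat_lit 3) (nat_lit 4) (nat_lit 4) (nat_lit 5) (nat_lit 4) (nat_lit 4) (nat_lit 264) (nat_lit 220) (nat_lit 176)) (XT.nd (nat_lit 78) (nat_lit 0) (nat_lit 0) (XT.lf (nat_lit 0) (nat_lit 578813362110) (nat_lit 76) (nat_lit 54760967646) (nat_lit 76) (nat_lit 39075250316) (nat_lit 3) (nat_lit 4) (nat_lit 4) (nat_lit 5) (nat_lit 4) (nat_lit 4) (nat_lit 265) (nat_lit 220) (nat_lit 175)) (XT.lf (nat_lit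 0) (nat_lit 689258654134) (nat_lit 76) (nat_lit 49483161200) (nat_lit 76) (nat_lit 33793639333) (nat_lit 3) (nat_lit 4) (nat_lit 4) (nat_lit 5) (nat_lit 4) (nat_lit 4) (nat_lit 266) (nat_lit 220) (nat_lit 174))))) (XT.nd (nat_lit 234) (nat_lit 152) (nat_lit 0) (XT.nd (nat_lit 78) (nat_lit 0) (nat_lit 0) (XT.lf (nat_lit 0) (nat_lit 816260084626) (nat_lit 76) (nat_lit 43418706126) (nat_lit 76) (nat_lit 27725875966) (nat_lit 3) (nat_lit 4) (nat_lit 4) (nat_lit 5) (nat_lit 4) (nat_lit 4) (nat_lit 267) (nat_lit 220) (nat_lit 173)) (XT.nd (nat_lit 78) (nat_lit 0) (nat_lit 0) (XT.lf (nat_lit 0) (nat_lit 962302464183) (nat_lit 76) (nat_lit 36448950043) (nat_lit 76) (nat_lit 20753243106) (nat_lit 3) (nat_lit 4) (nat_lit 4) (nat_lit 5) (nat_lit 4) (nat_lit 4) (nat_lit 268) (nat_lit 220) (nat_lit 172)) (XT.lf (nat_lit 0) (nat_lit 1130243143709) (nat_lit 76) (nat_lit 28437528157) (nat_lit 76) (nat_lit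 12739319676) (nat_lit 3) (nat_lit 4) (nat_lit 4) (nat_lit 5) (nat_lit 4) (nat_lit 4) (nat_lit 269) (nat_lit 220) (nat_lit 171)))) (XT.nd (nat_lit 78) (nat_lit 152) (nat_lit 0) (XT.lf (nat_lit 0) (nat_lit 1323367919107) (nat_lit 76) (nat_lit 19227695259) (nat_lit 76) (nat_lit 3527311521) (nat_lit 3) (nat_lit 4) (nat_lit 4) (nat_lit 5) (nat_lit 4) (nat_lit 4) (nat_lit 270) (nat_lit 220) (nat_lit 170)) (XT.nd (nat_lit 78) (nat_lit 76) (nat_lit 0) (XT.lf (nat_lit 0) (nat_lit 6709695620) (nat_lit 152) (nat_lit 1746108375) (nat_lit 76) (nat_lit 1538562168003) (nat_lit 2) (nat_lit 5) (nat_lit 4) (nat_lit 5) (nat_lit 3) (nat_lit 4) (nat_lit 271) (nat_lit 220) (nat_lit 169)) (XT.lf (nat_lit 0) (nat_lit 18953002974) (nat_lit 152) (nat_lit 1754620240495) (nat_lit 0) (nat_lit 4412336241) (nat_lit 1) (nat_lit 5) (nat_lit 3) (nat_lit 4) (nat_lit 1) (nat_lit 4) (nat_lit 272) (nat_lit 220) (nat_lit 168))))))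 (XT.nd (nat_lit 390) (nat_lit 0) (nat_lit 0) (XT.nd (nat_lit 156) (nat_lit 0) (nat_lit 0) (XT.nd (nat_lit 78) (nat_lit 0) (nat_lit 0) (XT.lf (nat_lit 0) (nat_lit 33316151687) (nat_lit 152) (nat_lit 1991485350891) (nat_lit 0) (nat_lit 18774160633) (nat_lit 1) (nat_lit 5) (nat_lit 3) (nat_lit 4) (nat_lit 1) (nat_lit 4) (nat_lit 273) (nat_lit 220) (nat_lit 167)) (XT.lf (nat_lit 0) (nat_lit 49831444133) (nat_lit 152) (nat_lit 2263884701855) (nat_lit 0) (nat_lit 35288301496) (nat_lit 1) (nat_lit 5) (nat_lit 3) (nat_lit 4) (nat_lit 1) (nat_lit 4) (nat_lit 274) (nat_lit 220) (nat_lit 166))) (XT.nd (nat_lit 78) (nat_lit 0) (nat_lit 0) (XT.lf (nat_lit 0) (nat_lit 68822005598) (nat_lit 152) (nat_lit 2577147845906) (nat_lit 0) (nat_lit 54277861584) (nat_lit 1) (nat_lit 5) (nat_lit 3) (nat_lit 4) (nat_lit 1) (nat_lit 4) (nat_lit 275) (nat_lit 220) (nat_lit 165)) (XT.nd (nat_lit 78) (nat_lit 0) (nat_lit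 0) (XT.lf (nat_lit 0) (nat_lit 90659390546) (nat_lit 152) (nat_lit 2937403844557) (nat_lit 0) (nat_lit 76114375769) (nat_lit 1) (nat_lit 5) (nat_lit 3) (nat_lit 4) (nat_lit 1) (nat_lit 4) (nat_lit 276) (nat_lit 220) (nat_lit 164)) (XT.lf (nat_lit 0) (nat_lit 115770852160) (nat_lit 152) (nat_lit 3351701184740) (nat_lit 0) (nat_lit 101225080199) (nat_lit 1) (nat_lit 5) (nat_lit 3) (nat_lit 4) (nat_lit 1) (nat_lit 4) (nat_lit 277) (nat_lit 220) (nat_lit 163))))) (XT.nd (nat_lit 234) (nat_lit 0) (nat_lit 0) (XT.nd (nat_lit 78) (nat_lit 0) (nat_lit 0) (XT.lf (nat_lit 0) (nat_lit 144647701646) (nat_lit 152) (nat_lit 3828145683979) (nat_lit 0) (nat_lit 130101271264) (nat_lit 1) (nat_lit 5) (nat_lit 3) (nat_lit 4) (nat_lit 1) (nat_lit 4) (nat_lit 278) (nat_lit 220) (nat_lit 162)) (XT.nd (nat_lit 78) (nat_lit 0) (nat_lit 0) (XT.lf (nat_lit 0) (nat_lit 177854920843) (nat_lit 152) (nat_lit 4376059082476)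 (nat_lit 0) (nat_lit 163307917920) (nat_lit 1) (nat_lit 5) (nat_lit 3) (nat_lit 4) (nat_lit 1) (nat_lit 4) (nat_lit 279) (nat_lit 220) (nat_lit 161)) (XT.lf (nat_lit 0) (nat_lit 216042216212) (nat_lit 152) (nat_lit 5006161424985) (nat_lit 0) (nat_lit 201494715428) (nat_lit 1) (nat_lit 5) (nat_lit 3) (nat_lit 4) (nat_lit 1) (nat_lit 4) (nat_lit 280) (nat_lit 220) (nat_lit 160)))) (XT.nd (nat_lit 78) (nat_lit 0) (nat_lit 0) (XT.lf (nat_lit 0) (nat_lit 259956730488) (nat_lit 152) (nat_lit 5730780800817) (nat_lit 0) (nat_lit 245408796781) (nat_lit 1) (nat_lit 5) (nat_lit 3) (nat_lit 4) (nat_lit 1) (nat_lit 4) (nat_lit 281) (nat_lit 220) (nat_lit 159)) (XT.nd (nat_lit 78) (nat_lit 0) (nat_lit 0) (XT.lf (nat_lit 0) (nat_lit 310457660691) (nat_lit 152) (nat_lit 6564094545584) (nat_lit 0) (nat_lit 295909350530) (nat_lit 1) (nat_lit 5) (nat_lit 3) (nat_lit 4) (nat_lit 1) (nat_lit 4) (nat_lit 282)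 (nat_lit 220) (nat_lit 158)) (XT.lf (nat_lit 0) (nat_lit 368533068498) (nat_lit 152) (nat_lit 7522406623859) (nat_lit 0) (nat_lit 353984430985) (nat_lit 1) (nat_lit 5) (nat_lit 3) (nat_lit 4) (nat_lit 1) (nat_lit 4) (nat_lit 283) (nat_lit 220) (nat_lit 157))))))))
noncomputable def xc25 : XT := (XT.nd (nat_lit 1716) (nat_lit 532) (nat_lit 0) (XT.nd (nat_lit 858) (nat_lit 1140) (nat_lit 0) (XT.nd (nat_lit 390) (nat_lit 1900) (nat_lit 0) (XT.nd (nat_lit 156) (nat_lit 532) (nat_lit 0) (XT.nd (nat_lit 78) (nat_lit 228) (nat_lit 0) (XT.lf (nat_lit 0) (nat_lit 1577440457) (nat_lit 228) (nat_lit 845565620) (nat_lit 228) (nat_lit 845565620) (nat_lit 60) (nat_lit 3) (nat_lit 63) (nat_lit 3) (nat_lit 63) (nat_lit 5) (nat_lit 221) (nat_lit 221) (nat_lit 218)) (XT.lf (nat_lit 0) (nat_lit 795145688) (nat_lit 228) (nat_lit 2711460285) (nat_lit 304) (nat_lit 3162143535) (nat_lit 57) (nat_lit 5) (nat_lit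 60) (nat_lit 3) (nat_lit 61) (nat_lit 5) (nat_lit 222) (nat_lit 221) (nat_lit 217))) (XT.nd (nat_lit 78) (nat_lit 532) (nat_lit 0) (XT.lf (nat_lit 76) (nat_lit 3358895049) (nat_lit 0) (nat_lit 1427784350) (nat_lit 304) (nat_lit 2079949547) (nat_lit 58) (nat_lit 5) (nat_lit 57) (nat_lit 5) (nat_lit 61) (nat_lit 5) (nat_lit 223) (nat_lit 221) (nat_lit 216)) (XT.nd (nat_lit 78) (nat_lit 304) (nat_lit 0) (XT.lf (nat_lit 0) (nat_lit 1674716848) (nat_lit 304) (nat_lit 4112444762) (nat_lit 76) (nat_lit 1345834201) (nat_lit 54) (nat_lit 5) (nat_lit 58) (nat_lit 5) (nat_lit 55) (nat_lit 5) (nat_lit 224) (nat_lit 221) (nat_lit 215)) (XT.lf (nat_lit 0) (nat_lit 2881569591) (nat_lit 304) (nat_lit 2605993262) (nat_lit 380) (nat_lit 1981190754) (nat_lit 50) (nat_lit 5) (nat_lit 54) (nat_lit 5) (nat_lit 55) (nat_lit 5) (nat_lit 225) (nat_lit 221) (nat_lit 214))))) (XT.nd (nat_lit 234) (nat_lit 684)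 (nat_lit 0) (XT.nd (nat_lit 78) (nat_lit 760) (nat_lit 0) (XT.lf (nat_lit 0) (nat_lit 1596568587) (nat_lit 456) (nat_lit 4954271414) (nat_lit 76) (nat_lit 1328334648) (nat_lit 44) (nat_lit 5) (nat_lit 50) (nat_lit 5) (nat_lit 45) (nat_lit 5) (nat_lit 226) (nat_lit 221) (nat_lit 213)) (XT.nd (nat_lit 78) (nat_lit 304) (nat_lit 0) (XT.lf (nat_lit 0) (nat_lit 3056569908) (nat_lit 456) (nat_lit 2338114051) (nat_lit 532) (nat_lit 2970524616) (nat_lit 38) (nat_lit 5) (nat_lit 44) (nat_lit 5) (nat_lit 45) (nat_lit 5) (nat_lit 227) (nat_lit 221) (nat_lit 212)) (XT.lf (nat_lit 0) (nat_lit 646421803) (nat_lit 304) (nat_lit 5661061598) (nat_lit 76) (nat_lit 2628860671) (nat_lit 34) (nat_lit 5) (nat_lit 38) (nat_lit 5) (nat_lit 35) (nat_lit 5) (nat_lit 228) (nat_lit 221) (nat_lit 211)))) (XT.nd (nat_lit 78) (nat_lit 456) (nat_lit 0) (XT.lf (nat_lit 0) (nat_lit 3462455228) (nat_lit 228) (nat_lit 1081689616)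 (nat_lit 304) (nat_lit 5051275582) (nat_lit 31) (nat_lit 5) (nat_lit 34) (nat_lit 5) (nat_lit 35) (nat_lit 5) (nat_lit 229) (nat_lit 221) (nat_lit 210)) (XT.nd (nat_lit 78) (nat_lit 228) (nat_lit 0) (XT.lf (nat_lit 0) (nat_lit 3575166260) (nat_lit 228) (nat_lit 5468253407) (nat_lit 304) (nat_lit 1309954825) (nat_lit 28) (nat_lit 5) (nat_lit 31) (nat_lit 5) (nat_lit 32) (nat_lit 5) (nat_lit 230) (nat_lit 221) (nat_lit 209)) (XT.lf (nat_lit 0) (nat_lit 2829932862) (nat_lit 228) (nat_lit 7688670112) (nat_lit 76) (nat_lit 702796702) (nat_lit 25) (nat_lit 5) (nat_lit 28) (nat_lit 5) (nat_lit 26) (nat_lit 5) (nat_lit 231) (nat_lit 221) (nat_lit 208)))))) (XT.nd (nat_lit 390) (nat_lit 456) (nat_lit 0) (XT.nd (nat_lit 156) (nat_lit 380) (nat_lit 0) (XT.nd (nat_lit 78) (nat_lit 152) (nat_lit 0) (XT.lf (nat_lit 0) (nat_lit 3155845384) (nat_lit 152) (nat_lit 4491534568) (nat_lit 228) (nat_lit 4559753074)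 (nat_lit 23) (nat_lit 5) (nat_lit 25) (nat_lit 5) (nat_lit 26) (nat_lit 5) (nat_lit 232) (nat_lit 221) (nat_lit 207)) (XT.lf (nat_lit 0) (nat_lit 2435450241) (nat_lit 152) (nat_lit 10828607669) (nat_lit 228) (nat_lit 71372050) (nat_lit 21) (nat_lit 5) (nat_lit 23) (nat_lit 5) (nat_lit 24) (nat_lit 4) (nat_lit 233) (nat_lit 221) (nat_lit 206))) (XT.nd (nat_lit 78) (nat_lit 152) (nat_lit 0) (XT.lf (nat_lit 0) (nat_lit 1005821964) (nat_lit 152) (nat_lit 3997909157) (nat_lit 228) (nat_lit 9606669013) (nat_lit 18) (nat_lit 5) (nat_lit 20) (nat_lit 5) (nat_lit 21) (nat_lit 5) (nat_lit 234) (nat_lit 221) (nat_lit 205)) (XT.nd (nat_lit 78) (nat_lit 152) (nat_lit 0) (XT.lf (nat_lit 0) (nat_lit 11025409983) (nat_lit 228) (nat_lit 1153476019) (nat_lit 76) (nat_lit 3883001619) (nat_lit 18) (nat_lit 5) (nat_lit 21) (nat_lit 5) (nat_lit 19) (nat_lit 4) (nat_lit 235) (nat_lit 221) (nat_lit 204)) (XT.lf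 (nat_lit 0) (nat_lit 448014620) (nat_lit 152) (nat_lit 4308679243) (nat_lit 76) (nat_lit 12955272776) (nat_lit 16) (nat_lit 5) (nat_lit 18) (nat_lit 5) (nat_lit 17) (nat_lit 5) (nat_lit 236) (nat_lit 221) (nat_lit 203))))) (XT.nd (nat_lit 234) (nat_lit 228) (nat_lit 0) (XT.nd (nat_lit 78) (nat_lit 76) (nat_lit 0) (XT.lf (nat_lit 0) (nat_lit 6671847436) (nat_lit 228) (nat_lit 8981867078) (nat_lit 76) (nat_lit 3928595166) (nat_lit 14) (nat_lit 5) (nat_lit 17) (nat_lit 5) (nat_lit 15) (nat_lit 4) (nat_lit 237) (nat_lit 221) (nat_lit 202)) (XT.nd (nat_lit 78) (nat_lit 0) (nat_lit 0) (XT.lf (nat_lit 0) (nat_lit 6177318360) (nat_lit 76) (nat_lit 7890935597) (nat_lit 152) (nat_lit 7646185249) (nat_lit 13) (nat_lit 5) (nat_lit 14) (nat_lit 5) (nat_lit 15) (nat_lit 4) (nat_lit 238) (nat_lit 221) (nat_lit 201)) (XT.lf (nat_lit 0) (nat_lit 22711006362) (nat_lit 152) (nat_lit 289842362) (nat_lit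 0) (nat_lit 1154897280) (nat_lit 13) (nat_lit 5) (nat_lit 15) (nat_lit 4) (nat_lit 13) (nat_lit 4) (nat_lit 239) (nat_lit 221) (nat_lit 200)))) (XT.nd (nat_lit 78) (nat_lit 76) (nat_lit 0) (XT.lf (nat_lit 0) (nat_lit 5922841941) (nat_lit 152) (nat_lit 9394365907) (nat_lit 76) (nat_lit 11593715660) (nat_lit 11) (nat_lit 5) (nat_lit 13) (nat_lit 5) (nat_lit 12) (nat_lit 4) (nat_lit 240) (nat_lit 221) (nat_lit 199)) (XT.nd (nat_lit 78) (nat_lit 0) (nat_lit 0) (XT.lf (nat_lit 0) (nat_lit 8077271167) (nat_lit 76) (nat_lit 6311352840) (nat_lit 152) (nat_lit 15681679025) (nat_lit 10) (nat_lit 5) (nat_lit 11) (nat_lit 5) (nat_lit 12) (nat_lit 4) (nat_lit 241) (nat_lit 221) (nat_lit 198)) (XT.lf (nat_lit 0) (nat_lit 24385074541) (nat_lit 152) (nat_lit 5255692069) (nat_lit 0) (nat_lit 4042146680) (nat_lit 10) (nat_lit 5) (nat_lit 12) (nat_lit 4) (nat_lit 10) (nat_lit 4) (nat_lit 242) (nat_lit 221)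 (nat_lit 197))))))) (XT.nd (nat_lit 858) (nat_lit 76) (nat_lit 0) (XT.nd (nat_lit 390) (nat_lit 152) (nat_lit 0) (XT.nd (nat_lit 156) (nat_lit 152) (nat_lit 0) (XT.nd (nat_lit 78) (nat_lit 76) (nat_lit 0) (XT.lf (nat_lit 0) (nat_lit 14354789487) (nat_lit 76) (nat_lit 21944165430) (nat_lit 76) (nat_lit 1505186583) (nat_lit 9) (nat_lit 4) (nat_lit 10) (nat_lit 5) (nat_lit 10) (nat_lit 4) (nat_lit 243) (nat_lit 221) (nat_lit 196)) (XT.lf (nat_lit 0) (nat_lit 7145286078) (nat_lit 152) (nat_lit 5660306398) (nat_lit 76) (nat_lit 29718793349) (nat_lit 8) (nat_lit 5) (nat_lit 10) (nat_lit 5) (nat_lit 9) (nat_lit 4) (nat_lit 244) (nat_lit 221) (nat_lit 195))) (XT.nd (nat_lit 78) (nat_lit 76) (nat_lit 0) (XT.lf (nat_lit 0) (nat_lit 15376115378) (nat_lit 76) (nat_lit 1917752488) (nat_lit 152) (nat_lit 30632612703) (nat_lit 7) (nat_lit 5) (nat_lit 8) (nat_lit 5) (nat_lit 9) (nat_lit 4) (nat_lit 245)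 (nat_lit 221) (nat_lit 194)) (XT.nd (nat_lit 78) (nat_lit 76) (nat_lit 0) (XT.lf (nat_lit 0) (nat_lit 29312202718) (nat_lit 152) (nat_lit 14614827846) (nat_lit 0) (nat_lit 10184161174) (nat_lit 7) (nat_lit 5) (nat_lit 9) (nat_lit 4) (nat_lit 7) (nat_lit 4) (nat_lit 246) (nat_lit 221) (nat_lit 193)) (XT.lf (nat_lit 0) (nat_lit 6143034855) (nat_lit 76) (nat_lit 37124409859) (nat_lit 76) (nat_lit 17945518814) (nat_lit 6) (nat_lit 4) (nat_lit 7) (nat_lit 5) (nat_lit 7) (nat_lit 4) (nat_lit 247) (nat_lit 221) (nat_lit 192))))) (XT.nd (nat_lit 234) (nat_lit 0) (nat_lit 0) (XT.nd (nat_lit 78) (nat_lit 152) (nat_lit 0) (XT.lf (nat_lit 0) (nat_lit 30787691177) (nat_lit 76) (nat_lit 28893151768) (nat_lit 76) (nat_lit 9670043764) (nat_lit 6) (nat_lit 4) (nat_lit 7) (nat_lit 5) (nat_lit 7) (nat_lit 4) (nat_lit 248) (nat_lit 221) (nat_lit 191)) (XT.nd (nat_lit 78) (nat_lit 152) (nat_lit 0) (XT.lf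 (nat_lit 0) (nat_lit 59031728243) (nat_lit 76) (nat_lit 19471805229) (nat_lit 76) (nat_lit 210247697) (nat_lit 6) (nat_lit 4) (nat_lit 7) (nat_lit 5) (nat_lit 7) (nat_lit 4) (nat_lit 249) (nat_lit 221) (nat_lit 190)) (XT.lf (nat_lit 0) (nat_lit 1776388911) (nat_lit 76) (nat_lit 8354082635) (nat_lit 152) (nat_lit 79330513766) (nat_lit 4) (nat_lit 5) (nat_lit 5) (nat_lit 5) (nat_lit 6) (nat_lit 4) (nat_lit 250) (nat_lit 221) (nat_lit 189)))) (XT.nd (nat_lit 78) (nat_lit 0) (nat_lit 0) (XT.lf (nat_lit 0) (nat_lit 22660931101) (nat_lit 152) (nat_lit 74338583305) (nat_lit 0) (nat_lit 4768278070) (nat_lit 4) (nat_lit 5) (nat_lit 6) (nat_lit 4) (nat_lit 4) (nat_lit 4) (nat_lit 251) (nat_lit 221) (nat_lit 188)) (XT.nd (nat_lit 78) (nat_lit 0) (nat_lit 0) (XT.lf (nat_lit 0) (nat_lit 37263968664) (nat_lit 152) (nat_lit 59293344023) (nat_lit 0) (nat_lit 19347907124) (nat_lit 4) (nat_lit 5) (nat_lit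 6) (nat_lit 4) (nat_lit 4) (nat_lit 4) (nat_lit 252) (nat_lit 221) (nat_lit 187)) (XT.lf (nat_lit 0) (nat_lit 54024379950) (nat_lit 152) (nat_lit 42053599289) (nat_lit 0) (nat_lit 36087963185) (nat_lit 4) (nat_lit 5) (nat_lit 6) (nat_lit 4) (nat_lit 4) (nat_lit 4) (nat_lit 253) (nat_lit 221) (nat_lit 186)))))) (XT.nd (nat_lit 390) (nat_lit 0) (nat_lit 0) (XT.nd (nat_lit 156) (nat_lit 0) (nat_lit 0) (XT.nd (nat_lit 78) (nat_lit 76) (nat_lit 0) (XT.lf (nat_lit 0) (nat_lit 73270086051) (nat_lit 152) (nat_lit 22282049749) (nat_lit 0) (nat_lit 55315969090) (nat_lit 4) (nat_lit 5) (nat_lit 6) (nat_lit 4) (nat_lit 4) (nat_lit 4) (nat_lit 254) (nat_lit 221) (nat_lit 185)) (XT.lf (nat_lit 0) (nat_lit 429631151) (nat_lit 76) (nat_lit 94958334877) (nat_lit 76) (nat_lit 76988826442) (nat_lit 3) (nat_lit 4) (nat_lit 4) (nat_lit 5) (nat_lit 4) (nat_lit 4) (nat_lit 255) (nat_lit 221) (nat_lit 184)))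 (XT.nd (nat_lit 78) (nat_lit 0) (nat_lit 0) (XT.lf (nat_lit 0) (nat_lit 27854290651) (nat_lit 76) (nat_lit 93595166643) (nat_lit 76) (nat_lit 75612274318) (nat_lit 3) (nat_lit 4) (nat_lit 4) (nat_lit 5) (nat_lit 4) (nat_lit 4) (nat_lit 256) (nat_lit 221) (nat_lit 183)) (XT.nd (nat_lit 78) (nat_lit 0) (nat_lit 0) (XT.lf (nat_lit 0) (nat_lit 59355164922) (nat_lit 76) (nat_lit 92045191143) (nat_lit 76) (nat_lit 74050660651) (nat_lit 3) (nat_lit 4) (nat_lit 4) (nat_lit 5) (nat_lit 4) (nat_lit 4) (nat_lit 257) (nat_lit 221) (nat_lit 182)) (XT.lf (nat_lit 0) (nat_lit 95548575419) (nat_lit 76) (nat_lit 90278082769) (nat_lit 76) (nat_lit 72273432133) (nat_lit 3) (nat_lit 4) (nat_lit 4) (nat_lit 5) (nat_lit 4) (nat_lit 4) (nat_lit 258) (nat_lit 221) (nat_lit 181))))) (XT.nd (nat_lit 234) (nat_lit 0) (nat_lit 0) (XT.nd (nat_lit 78) (nat_lit 0) (nat_lit 0) (XT.lf (nat_lit 0) (nat_lit 137142654086)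 (nat_lit 76) (nat_lit 88259267660) (nat_lit 76) (nat_lit 70245816899) (nat_lit 3) (nat_lit 4) (nat_lit 4) (nat_lit 5) (nat_lit 4) (nat_lit 4) (nat_lit 259) (nat_lit 221) (nat_lit 180)) (XT.nd (nat_lit 78) (nat_lit 0) (nat_lit 0) (XT.lf (nat_lit 0) (nat_lit 184951198113) (nat_lit 76) (nat_lit 85949247262) (nat_lit 76) (nat_lit 67928144218) (nat_lit 3) (nat_lit 4) (nat_lit 4) (nat_lit 5) (nat_lit 4) (nat_lit 4) (nat_lit 260) (nat_lit 221) (nat_lit 179)) (XT.lf (nat_lit 0) (nat_lit 239909592058) (nat_lit 76) (nat_lit 83302825522) (nat_lit 76) (nat_lit 65275068319) (nat_lit 3) (nat_lit 4) (nat_lit 4) (nat_lit 5) (nat_lit 4) (nat_lit 4) (nat_lit 261) (nat_lit 221) (nat_lit 178)))) (XT.nd (nat_lit 78) (nat_lit 0) (nat_lit 0) (XT.lf (nat_lit 0) (nat_lit 303093108847) (nat_lit 76) (nat_lit 80268224625) (nat_lit 76) (nat_lit 62234681196) (nat_lit 3) (nat_lit 4) (nat_lit 4) (nat_lit 5) (nat_lit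 4) (nat_lit 4) (nat_lit 262) (nat_lit 221) (nat_lit 177)) (XT.nd (nat_lit 78) (nat_lit 0) (nat_lit 0) (XT.lf (nat_lit 0) (nat_lit 375737947719) (nat_lit 76) (nat_lit 76786071943) (nat_lit 76) (nat_lit 58747497013) (nat_lit 3) (nat_lit 4) (nat_lit 4) (nat_lit 5) (nat_lit 4) (nat_lit 4) (nat_lit 263) (nat_lit 221) (nat_lit 176)) (XT.lf (nat_lit 0) (nat_lit 459265420741) (nat_lit 76) (nat_lit 72788238402) (nat_lit 76) (nat_lit 54745288255) (nat_lit 3) (nat_lit 4) (nat_lit 4) (nat_lit 5) (nat_lit 4) (nat_lit 4) (nat_lit 264) (nat_lit 221) (nat_lit 175))))))))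
noncomputable def xc26 : XT := (XT.nd (nat_lit 31278) (nat_lit 0) (nat_lit 456) (XT.nd (nat_lit 858) (nat_lit 0) (nat_lit 0) (XT.nd (nat_lit 390) (nat_lit 152) (nat_lit 0) (XT.nd (nat_lit 156) (nat_lit 0) (nat_lit 0) (XT.nd (nat_lit 78) (nat_lit 0) (nat_lit 0) (XT.lf (nat_lit 0) (nat_lit 555309761080) (nat_lit 76) (nat_lit 68196505520) (nat_lit 76) (nat_lit 50149750836) (nat_lit 3) (nat_lit 4) (nat_lit 4) (nat_lit 5) (nat_lit 4) (nat_lit 4) (nat_lit 265) (nat_lit 221) (nat_lit 174)) (XT.lf (nat_lit 0) (nat_lit 665750097135) (nat_lit 76) (nat_lit 62921035046) (nat_lit 76) (nat_lit 44870972069) (nat_lit 3) (nat_lit 4) (nat_lit 4) (nat_lit 5) (nat_lit 4) (nat_lit 4) (nat_lit 266) (nat_lit 221) (nat_lit 173))) (XT.nd (nat_lit 78) (nat_lit 0) (nat_lit 0) (XT.lf (nat_lit 0) (nat_lit 792747218088) (nat_lit 76) (nat_lit 56858611252) (nat_lit 76) (nat_lit 38805671498) (nat_lit 3) (nat_lit 4) (nat_lit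 4) (nat_lit 5) (nat_lit 4) (nat_lit 4) (nat_lit 267) (nat_lit 221) (nat_lit 172)) (XT.nd (nat_lit 78) (nat_lit 0) (nat_lit 0) (XT.lf (nat_lit 0) (nat_lit 938785850219) (nat_lit 76) (nat_lit 49890621499) (nat_lit 76) (nat_lit 31835180201) (nat_lit 3) (nat_lit 4) (nat_lit 4) (nat_lit 5) (nat_lit 4) (nat_lit 4) (nat_lit 268) (nat_lit 221) (nat_lit 171)) (XT.lf (nat_lit 0) (nat_lit 1106723271114) (nat_lit 76) (nat_lit 41880735553) (nat_lit 76) (nat_lit 23823118998) (nat_lit 3) (nat_lit 4) (nat_lit 4) (nat_lit 5) (nat_lit 4) (nat_lit 4) (nat_lit 269) (nat_lit 221) (nat_lit 170))))) (XT.nd (nat_lit 234) (nat_lit 76) (nat_lit 0) (XT.nd (nat_lit 78) (nat_lit 76) (nat_lit 0) (XT.lf (nat_lit 0) (nat_lit 1299845212920) (nat_lit 76) (nat_lit 32672238254) (nat_lit 76) (nat_lit 14612730171) (nat_lit 3) (nat_lit 4) (nat_lit 4) (nat_lit 5) (nat_lit 4) (nat_lit 4) (nat_lit 270) (nat_lit 221) (nat_lit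 169)) (XT.nd (nat_lit 78) (nat_lit 76) (nat_lit 0) (XT.lf (nat_lit 0) (nat_lit 1521930148412) (nat_lit 76) (nat_lit 22084963350) (nat_lit 76) (nat_lit 4023810461) (nat_lit 3) (nat_lit 4) (nat_lit 4) (nat_lit 5) (nat_lit 4) (nat_lit 4) (nat_lit 271) (nat_lit 221) (nat_lit 168)) (XT.lf (nat_lit 0) (nat_lit 7743077888) (nat_lit 152) (nat_lit 1956981146) (nat_lit 76) (nat_lit 1769368430272) (nat_lit 2) (nat_lit 5) (nat_lit 4) (nat_lit 5) (nat_lit 3) (nat_lit 4) (nat_lit 272) (nat_lit 221) (nat_lit 167)))) (XT.nd (nat_lit 78) (nat_lit 0) (nat_lit 0) (XT.lf (nat_lit 0) (nat_lit 21821026211) (nat_lit 152) (nat_lit 2017765102943) (nat_lit 0) (nat_lit 5095260596) (nat_lit 1) (nat_lit 5) (nat_lit 3) (nat_lit 4) (nat_lit 1) (nat_lit 4) (nat_lit 273) (nat_lit 221) (nat_lit 166)) (XT.nd (nat_lit 78) (nat_lit 0) (nat_lit 0) (XT.lf (nat_lit 0) (nat_lit 38335376868) (nat_lit 152) (nat_lit 2290166263415)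 (nat_lit 0) (nat_lit 21608609875) (nat_lit 1) (nat_lit 5) (nat_lit 3) (nat_lit 4) (nat_lit 1) (nat_lit 4) (nat_lit 274) (nat_lit 221) (nat_lit 165)) (XT.lf (nat_lit 0) (nat_lit 57325119385) (nat_lit 152) (nat_lit 2603430980951) (nat_lit 0) (nat_lit 40597481630) (nat_lit 1) (nat_lit 5) (nat_lit 3) (nat_lit 4) (nat_lit 1) (nat_lit 4) (nat_lit 275) (nat_lit 221) (nat_lit 164)))))) (XT.nd (nat_lit 390) (nat_lit 0) (nat_lit 0) (XT.nd (nat_lit 156) (nat_lit 0) (nat_lit 0) (XT.nd (nat_lit 78) (nat_lit 0) (nat_lit 0) (XT.lf (nat_lit 0) (nat_lit 79161792205) (nat_lit 152) (nat_lit 2963688347851) (nat_lit 0) (nat_lit 62433397265) (nat_lit 1) (nat_lit 5) (nat_lit 3) (nat_lit 4) (nat_lit 1) (nat_lit 4) (nat_lit 276) (nat_lit 221) (nat_lit 163)) (XT.lf (nat_lit 0) (nat_lit 104272634577) (nat_lit 152) (nat_lit 3377986877814) (nat_lit 0) (nat_lit 87543581216) (nat_lit 1) (nat_lit 5) (nat_lit 3) (nat_lit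 4) (nat_lit 1) (nat_lit 4) (nat_lit 277) (nat_lit 221) (nat_lit 162))) (XT.nd (nat_lit 78) (nat_lit 0) (nat_lit 0) (XT.lf (nat_lit 0) (nat_lit 133148945593) (nat_lit 152) (nat_lit 3854432411645) (nat_lit 0) (nat_lit 116419319691) (nat_lit 1) (nat_lit 5) (nat_lit 3) (nat_lit 4) (nat_lit 1) (nat_lit 4) (nat_lit 278) (nat_lit 221) (nat_lit 161)) (XT.nd (nat_lit 78) (nat_lit 0) (nat_lit 0) (XT.lf (nat_lit 0) (nat_lit 166355696553) (nat_lit 152) (nat_lit 4402346709787) (nat_lit 0) (nat_lit 149625572790) (nat_lit 1) (nat_lit 5) (nat_lit 3) (nat_lit 4) (nat_lit 1) (nat_lit 4) (nat_lit 279) (nat_lit 221) (nat_lit 160)) (XT.lf (nat_lit 0) (nat_lit 204542584760) (nat_lit 152) (nat_lit 5032449834597) (nat_lit 0) (nat_lit 187812028075) (nat_lit 1) (nat_lit 5) (nat_lit 3) (nat_lit 4) (nat_lit 1) (nat_lit 4) (nat_lit 280) (nat_lit 221) (nat_lit 159))))) (XT.nd (nat_lit 29796) (nat_lit 0) (nat_lit 3952)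 (XT.nd (nat_lit 78) (nat_lit 0) (nat_lit 0) (XT.lf (nat_lit 0) (nat_lit 248456744983) (nat_lit 152) (nat_lit 5757069890689) (nat_lit 0) (nat_lit 231725811843) (nat_lit 1) (nat_lit 5) (nat_lit 3) (nat_lit 4) (nat_lit 1) (nat_lit 4) (nat_lit 281) (nat_lit 221) (nat_lit 158)) (XT.nd (nat_lit 78) (nat_lit 0) (nat_lit 0) (XT.lf (nat_lit 0) (nat_lit 298957367314) (nat_lit 152) (nat_lit 6590384226988) (nat_lit 0) (nat_lit 282226106822) (nat_lit 1) (nat_lit 5) (nat_lit 3) (nat_lit 4) (nat_lit 1) (nat_lit 4) (nat_lit 282) (nat_lit 221) (nat_lit 157)) (XT.lf (nat_lit 0) (nat_lit 357032507406) (nat_lit 152) (nat_lit 7548696819638) (nat_lit 0) (nat_lit 340300962260) (nat_lit 1) (nat_lit 5) (nat_lit 3) (nat_lit 4) (nat_lit 1) (nat_lit 4) (nat_lit 283) (nat_lit 221) (nat_lit 156)))) (XT.nd (nat_lit 78) (nat_lit 304) (nat_lit 0) (XT.lf (nat_lit 0) (nat_lit 1093527077) (nat_lit 0) (nat_lit 1093527077)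 (nat_lit 228) (nat_lit 1228105782) (nat_lit 57) (nat_lit 5) (nat_lit 57) (nat_lit 3) (nat_lit 60) (nat_lit 3) (nat_lit 222) (nat_lit 222) (nat_lit 216)) (XT.nd (nat_lit 78) (nat_lit 0) (nat_lit 0) (XT.lf (nat_lit 0) (nat_lit 850350749) (nat_lit 304) (nat_lit 5896564294) (nat_lit 380) (nat_lit 314042346) (nat_lit 53) (nat_lit 5) (nat_lit 57) (nat_lit 5) (nat_lit 58) (nat_lit 5) (nat_lit 223) (nat_lit 222) (nat_lit 215)) (XT.lf (nat_lit 76) (nat_lit 296453644) (nat_lit 0) (nat_lit 3828034062) (nat_lit 380) (nat_lit 3230445716) (nat_lit 54) (nat_lit 5) (nat_lit 53) (nat_lit 5) (nat_lit 58) (nat_lit 5) (nat_lit 224) (nat_lit 222) (nat_lit 214))))))) (XT.nd (nat_lit 858) (nat_lit 836) (nat_lit 0) (XT.nd (nat_lit 390) (nat_lit 1216) (nat_lit 0) (XT.nd (nat_lit 156) (nat_lit 1140) (nat_lit 0) (XT.nd (nat_lit 78) (nat_lit 304) (nat_lit 0) (XT.lf (nat_lit 76) (nat_lit 7413524599) (nat_lit 0) (nat_lit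 123167347) (nat_lit 380) (nat_lit 187348386) (nat_lit 54) (nat_lit 5) (nat_lit 53) (nat_lit 5) (nat_lit 58) (nat_lit 5) (nat_lit 225) (nat_lit 222) (nat_lit 213)) (XT.lf (nat_lit 0) (nat_lit 2963303096) (nat_lit 380) (nat_lit 878783524) (nat_lit 76) (nat_lit 4316958111) (nat_lit 49) (nat_lit 5) (nat_lit 54) (nat_lit 5) (nat_lit 50) (nat_lit 5) (nat_lit 226) (nat_lit 222) (nat_lit 212))) (XT.nd (nat_lit 78) (nat_lit 760) (nat_lit 0) (XT.lf (nat_lit 0) (nat_lit 6376546478) (nat_lit 456) (nat_lit 1323885054) (nat_lit 76) (nat_lit 976345498) (nat_lit 44) (nat_lit 5) (nat_lit 50) (nat_lit 5) (nat_lit 45) (nat_lit 5) (nat_lit 227) (nat_lit 222) (nat_lit 211)) (XT.nd (nat_lit 78) (nat_lit 228) (nat_lit 0) (XT.lf (nat_lit 0) (nat_lit 921747286) (nat_lit 532) (nat_lit 1783086493) (nat_lit 76) (nat_lit 6571435693) (nat_lit 37) (nat_lit 5) (nat_lit 44) (nat_lit 5) (nat_lit 38) (nat_lit 5) (nat_lit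 228) (nat_lit 222) (nat_lit 210)) (XT.lf (nat_lit 0) (nat_lit 4464110465) (nat_lit 304) (nat_lit 2321274832) (nat_lit 76) (nat_lit 3179025470) (nat_lit 34) (nat_lit 5) (nat_lit 38) (nat_lit 5) (nat_lit 35) (nat_lit 5) (nat_lit 229) (nat_lit 222) (nat_lit 209))))) (XT.nd (nat_lit 234) (nat_lit 532) (nat_lit 0) (XT.nd (nat_lit 78) (nat_lit 456) (nat_lit 0) (XT.lf (nat_lit 0) (nat_lit 7816196103) (nat_lit 228) (nat_lit 737200605) (nat_lit 304) (nat_lit 2202320385) (nat_lit 31) (nat_lit 5) (nat_lit 34) (nat_lit 5) (nat_lit 35) (nat_lit 5) (nat_lit 230) (nat_lit 222) (nat_lit 208)) (XT.nd (nat_lit 78) (nat_lit 152) (nat_lit 0) (XT.lf (nat_lit 0) (nat_lit 1651741808) (nat_lit 304) (nat_lit 3832006636) (nat_lit 76) (nat_lit 6168593355) (nat_lit 27) (nat_lit 5) (nat_lit 31) (nat_lit 5) (nat_lit 28) (nat_lit 5) (nat_lit 231) (nat_lit 222) (nat_lit 207)) (XT.lf (nat_lit 0) (nat_lit 6041482472)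 (nat_lit 228) (nat_lit 5037197756) (nat_lit 76) (nat_lit 1593998731) (nat_lit 25) (nat_lit 5) (nat_lit 28) (nat_lit 5) (nat_lit 26) (nat_lit 5) (nat_lit 232) (nat_lit 222) (nat_lit 206)))) (XT.nd (nat_lit 78) (nat_lit 380) (nat_lit 0) (XT.lf (nat_lit 0) (nat_lit 7111939992) (nat_lit 152) (nat_lit 4189836557) (nat_lit 228) (nat_lit 2528046834) (nat_lit 23) (nat_lit 5) (nat_lit 25) (nat_lit 5) (nat_lit 26) (nat_lit 5) (nat_lit 233) (nat_lit 222) (nat_lit 205)) (XT.nd (nat_lit 78) (nat_lit 152) (nat_lit 0) (XT.lf (nat_lit 0) (nat_lit 2269116844) (nat_lit 228) (nat_lit 9045940837) (nat_lit 76) (nat_lit 3826800267) (nat_lit 20) (nat_lit 5) (nat_lit 23) (nat_lit 5) (nat_lit 21) (nat_lit 5) (nat_lit 234) (nat_lit 222) (nat_lit 204)) (XT.lf (nat_lit 0) (nat_lit 4348594707) (nat_lit 152) (nat_lit 3523408156) (nat_lit 228) (nat_lit 8755081789) (nat_lit 18) (nat_lit 5) (nat_lit 20) (nat_lit 5) (nat_lit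 21) (nat_lit 5) (nat_lit 235) (nat_lit 222) (nat_lit 203)))))) (XT.nd (nat_lit 390) (nat_lit 380) (nat_lit 0) (XT.nd (nat_lit 156) (nat_lit 304) (nat_lit 0) (XT.nd (nat_lit 78) (nat_lit 76) (nat_lit 0) (XT.lf (nat_lit 0) (nat_lit 1661798301) (nat_lit 76) (nat_lit 12921342776) (nat_lit 152) (nat_lit 3730969565) (nat_lit 17) (nat_lit 5) (nat_lit 18) (nat_lit 5) (nat_lit 19) (nat_lit 4) (nat_lit 236) (nat_lit 222) (nat_lit 202)) (XT.lf (nat_lit 0) (nat_lit 2247682591) (nat_lit 152) (nat_lit 2200672826) (nat_lit 76) (nat_lit 15777987253) (nat_lit 16) (nat_lit 5) (nat_lit 18) (nat_lit 5) (nat_lit 17) (nat_lit 5) (nat_lit 237) (nat_lit 222) (nat_lit 201))) (XT.nd (nat_lit 78) (nat_lit 152) (nat_lit 0) (XT.lf (nat_lit 0) (nat_lit 9262695500) (nat_lit 228) (nat_lit 7702228774) (nat_lit 76) (nat_lit 5424202962) (nat_lit 14) (nat_lit 5) (nat_lit 17) (nat_lit 5) (nat_lit 15) (nat_lit 4) (nat_lit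 238) (nat_lit 222) (nat_lit 200)) (XT.nd (nat_lit 78) (nat_lit 76) (nat_lit 0) (XT.lf (nat_lit 0) (nat_lit 9508478924) (nat_lit 76) (nat_lit 8110513311) (nat_lit 152) (nat_lit 7234483082) (nat_lit 13) (nat_lit 5) (nat_lit 14) (nat_lit 5) (nat_lit 15) (nat_lit 4) (nat_lit 239) (nat_lit 222) (nat_lit 199)) (XT.lf (nat_lit 0) (nat_lit 1937065355) (nat_lit 76) (nat_lit 25499948789) (nat_lit 76) (nat_lit 234032384) (nat_lit 12) (nat_lit 4) (nat_lit 13) (nat_lit 5) (nat_lit 13) (nat_lit 4) (nat_lit 240) (nat_lit 222) (nat_lit 198))))) (XT.nd (nat_lit 234) (nat_lit 228) (nat_lit 0) (XT.nd (nat_lit 78) (nat_lit 76) (nat_lit 0) (XT.lf (nat_lit 0) (nat_lit 7997938315) (nat_lit 152) (nat_lit 8749500030) (nat_lit 76) (nat_lit 14103166869) (nat_lit 11) (nat_lit 5) (nat_lit 13) (nat_lit 5) (nat_lit 12) (nat_lit 4) (nat_lit 241) (nat_lit 222) (nat_lit 197)) (XT.nd (nat_lit 78) (nat_lit 0) (nat_lit 0)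 (XT.lf (nat_lit 0) (nat_lit 11169019977) (nat_lit 76) (nat_lit 6455002507) (nat_lit 152) (nat_lit 16868898296) (nat_lit 10) (nat_lit 5) (nat_lit 11) (nat_lit 5) (nat_lit 12) (nat_lit 4) (nat_lit 242) (nat_lit 222) (nat_lit 196)) (XT.lf (nat_lit 0) (nat_lit 28996242963) (nat_lit 152) (nat_lit 4349461191) (nat_lit 0) (nat_lit 5311843710) (nat_lit 10) (nat_lit 5) (nat_lit 12) (nat_lit 4) (nat_lit 10) (nat_lit 4) (nat_lit 243) (nat_lit 222) (nat_lit 195)))) (XT.nd (nat_lit 78) (nat_lit 152) (nat_lit 0) (XT.lf (nat_lit 0) (nat_lit 18059154444) (nat_lit 76) (nat_lit 24550998595) (nat_lit 76) (nat_lit 793970998) (nat_lit 9) (nat_lit 4) (nat_lit 10) (nat_lit 5) (nat_lit 10) (nat_lit 4) (nat_lit 244) (nat_lit 222) (nat_lit 194)) (XT.nd (nat_lit 78) (nat_lit 76) (nat_lit 0) (XT.lf (nat_lit 0) (nat_lit 8991097563) (nat_lit 152) (nat_lit 5118699747) (nat_lit 76) (nat_lit 34730253812) (nat_lit 8)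 (nat_lit 5) (nat_lit 10) (nat_lit 5) (nat_lit 9) (nat_lit 4) (nat_lit 245) (nat_lit 222) (nat_lit 193)) (XT.lf (nat_lit 0) (nat_lit 18955473480) (nat_lit 76) (nat_lit 1636148452) (nat_lit 152) (nat_lit 34466605428) (nat_lit 7) (nat_lit 5) (nat_lit 8) (nat_lit 5) (nat_lit 9) (nat_lit 4) (nat_lit 246) (nat_lit 222) (nat_lit 192))))))))
noncomputable def xc27 : XT := (XT.nd (nat_lit 1716) (nat_lit 152) (nat_lit 0) (XT.nd (nat_lit 858) (nat_lit 0) (nat_lit 0) (XT.nd (nat_lit 390) (nat_lit 76) (nat_lit 0) (XT.nd (nat_lit 156) (nat_lit 152) (nat_lit 0) (XT.nd (nat_lit 78) (nat_lit 76) (nat_lit 0) (XT.lf (nat_lit 0) (nat_lit 34332828576) (nat_lit 152) (nat_lit 15662290974) (nat_lit 0) (nat_lit 12182037414) (nat_lit 7) (nat_lit 5) (nat_lit 9) (nat_lit 4) (nat_lit 7) (nat_lit 4) (nat_lit 247) (nat_lit 222) (nat_lit 191)) (XT.lf (nat_lit 0) (nat_lit 8112352812) (nat_lit 76) (nat_lit 42212840560)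 (nat_lit 76) (nat_lit 20023599869) (nat_lit 6) (nat_lit 4) (nat_lit 7) (nat_lit 5) (nat_lit 7) (nat_lit 4) (nat_lit 248) (nat_lit 222) (nat_lit 190))) (XT.nd (nat_lit 78) (nat_lit 152) (nat_lit 0) (XT.lf (nat_lit 0) (nat_lit 36317029835) (nat_lit 76) (nat_lit 32809532553) (nat_lit 76) (nat_lit 10586857488) (nat_lit 6) (nat_lit 4) (nat_lit 7) (nat_lit 5) (nat_lit 7) (nat_lit 4) (nat_lit 249) (nat_lit 222) (nat_lit 189)) (XT.nd (nat_lit 78) (nat_lit 76) (nat_lit 0) (XT.lf (nat_lit 0) (nat_lit 211175739) (nat_lit 152) (nat_lit 21812502894) (nat_lit 76) (nat_lit 68461872587) (nat_lit 5) (nat_lit 5) (nat_lit 7) (nat_lit 5) (nat_lit 6) (nat_lit 4) (nat_lit 250) (nat_lit 222) (nat_lit 188)) (XT.lf (nat_lit 0) (nat_lit 2789816309) (nat_lit 76) (nat_lit 9261551926) (nat_lit 152) (nat_lit 90796230036) (nat_lit 4) (nat_lit 5) (nat_lit 5) (nat_lit 5) (nat_lit 6) (nat_lit 4) (nat_lit 251) (nat_lit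 222) (nat_lit 187))))) (XT.nd (nat_lit 234) (nat_lit 76) (nat_lit 0) (XT.nd (nat_lit 78) (nat_lit 0) (nat_lit 0) (XT.lf (nat_lit 0) (nat_lit 26416278316) (nat_lit 152) (nat_lit 84818769780) (nat_lit 0) (nat_lit 5769043812) (nat_lit 4) (nat_lit 5) (nat_lit 6) (nat_lit 4) (nat_lit 4) (nat_lit 4) (nat_lit 252) (nat_lit 222) (nat_lit 186)) (XT.nd (nat_lit 78) (nat_lit 0) (nat_lit 0) (XT.lf (nat_lit 0) (nat_lit 43163309659) (nat_lit 152) (nat_lit 67604214304) (nat_lit 0) (nat_lit 22498374959) (nat_lit 4) (nat_lit 5) (nat_lit 6) (nat_lit 4) (nat_lit 4) (nat_lit 4) (nat_lit 253) (nat_lit 222) (nat_lit 185)) (XT.lf (nat_lit 0) (nat_lit 62397381026) (nat_lit 152) (nat_lit 47854568467) (nat_lit 0) (nat_lit 41717054851) (nat_lit 4) (nat_lit 5) (nat_lit 6) (nat_lit 4) (nat_lit 4) (nat_lit 4) (nat_lit 254) (nat_lit 222) (nat_lit 184)))) (XT.nd (nat_lit 78) (nat_lit 76) (nat_lit 0) (XT.lf (nat_lit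 0) (nat_lit 84494811204) (nat_lit 152) (nat_lit 25183426154) (nat_lit 0) (nat_lit 63801101139) (nat_lit 4) (nat_lit 5) (nat_lit 6) (nat_lit 4) (nat_lit 4) (nat_lit 4) (nat_lit 255) (nat_lit 222) (nat_lit 183)) (XT.nd (nat_lit 78) (nat_lit 0) (nat_lit 0) (XT.lf (nat_lit 0) (nat_lit 897684262) (nat_lit 76) (nat_lit 109011846285) (nat_lit 76) (nat_lit 88306498054) (nat_lit 3) (nat_lit 4) (nat_lit 4) (nat_lit 5) (nat_lit 4) (nat_lit 4) (nat_lit 256) (nat_lit 222) (nat_lit 182)) (XT.lf (nat_lit 0) (nat_lit 32383398108) (nat_lit 76) (nat_lit 107469016576) (nat_lit 76) (nat_lit 86753548200) (nat_lit 3) (nat_lit 4) (nat_lit 4) (nat_lit 5) (nat_lit 4) (nat_lit 4) (nat_lit 257) (nat_lit 222) (nat_lit 181)))))) (XT.nd (nat_lit 390) (nat_lit 0) (nat_lit 0) (XT.nd (nat_lit 156) (nat_lit 0) (nat_lit 0) (XT.nd (nat_lit 78) (nat_lit 0) (nat_lit 0) (XT.lf (nat_lit 0) (nat_lit 68563625626) (nat_lit 76)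 (nat_lit 105708121933) (nat_lit 76) (nat_lit 84983853432) (nat_lit 3) (nat_lit 4) (nat_lit 4) (nat_lit 5) (nat_lit 4) (nat_lit 4) (nat_lit 258) (nat_lit 222) (nat_lit 180)) (XT.lf (nat_lit 0) (nat_lit 110146240833) (nat_lit 76) (nat_lit 103694710069) (nat_lit 76) (nat_lit 82962789285) (nat_lit 3) (nat_lit 4) (nat_lit 4) (nat_lit 5) (nat_lit 4) (nat_lit 4) (nat_lit 259) (nat_lit 222) (nat_lit 179))) (XT.nd (nat_lit 78) (nat_lit 0) (nat_lit 0) (XT.lf (nat_lit 0) (nat_lit 157944816634) (nat_lit 76) (nat_lit 101389388145) (nat_lit 76) (nat_lit 80650813201) (nat_lit 3) (nat_lit 4) (nat_lit 4) (nat_lit 5) (nat_lit 4) (nat_lit 4) (nat_lit 260) (nat_lit 222) (nat_lit 178)) (XT.nd (nat_lit 78) (nat_lit 0) (nat_lit 0) (XT.lf (nat_lit 0) (nat_lit 212894542556) (nat_lit 76) (nat_lit 98747052034) (nat_lit 76) (nat_lit 78002690866) (nat_lit 3) (nat_lit 4) (nat_lit 4) (nat_lit 5) (nat_lit 4) (nat_lit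 4) (nat_lit 261) (nat_lit 222) (nat_lit 177)) (XT.lf (nat_lit 0) (nat_lit 276070521933) (nat_lit 76) (nat_lit 95716003858) (nat_lit 76) (nat_lit 74966611189) (nat_lit 3) (nat_lit 4) (nat_lit 4) (nat_lit 5) (nat_lit 4) (nat_lit 4) (nat_lit 262) (nat_lit 222) (nat_lit 176))))) (XT.nd (nat_lit 234) (nat_lit 0) (nat_lit 0) (XT.nd (nat_lit 78) (nat_lit 0) (nat_lit 0) (XT.lf (nat_lit 0) (nat_lit 348708806536) (nat_lit 76) (nat_lit 92236940498) (nat_lit 76) (nat_lit 71483172612) (nat_lit 3) (nat_lit 4) (nat_lit 4) (nat_lit 5) (nat_lit 4) (nat_lit 4) (nat_lit 263) (nat_lit 222) (nat_lit 175)) (XT.nd (nat_lit 78) (nat_lit 0) (nat_lit 0) (XT.lf (nat_lit 0) (nat_lit 432230580192) (nat_lit 76) (nat_lit 88241793325) (nat_lit 76) (nat_lit 67484220901) (nat_lit 3) (nat_lit 4) (nat_lit 4) (nat_lit 5) (nat_lit 4) (nat_lit 4) (nat_lit 264) (nat_lit 222) (nat_lit 174)) (XT.lf (nat_lit 0) (nat_lit 528269964561)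 (nat_lit 76) (nat_lit 83652396415) (nat_lit 76) (nat_lit 62891515699) (nat_lit 3) (nat_lit 4) (nat_lit 4) (nat_lit 5) (nat_lit 4) (nat_lit 4) (nat_lit 265) (nat_lit 222) (nat_lit 173)))) (XT.nd (nat_lit 78) (nat_lit 0) (nat_lit 0) (XT.lf (nat_lit 0) (nat_lit 638705991076) (nat_lit 76) (nat_lit 78378957221) (nat_lit 76) (nat_lit 57615199727) (nat_lit 3) (nat_lit 4) (nat_lit 4) (nat_lit 5) (nat_lit 4) (nat_lit 4) (nat_lit 266) (nat_lit 222) (nat_lit 172)) (XT.nd (nat_lit 78) (nat_lit 0) (nat_lit 0) (XT.lf (nat_lit 0) (nat_lit 765699364603) (nat_lit 76) (nat_lit 72318299757) (nat_lit 76) (nat_lit 51552040719) (nat_lit 3) (nat_lit 4) (nat_lit 4) (nat_lit 5) (nat_lit 4) (nat_lit 4) (nat_lit 267) (nat_lit 222) (nat_lit 171)) (XT.lf (nat_lit 0) (nat_lit 911734738104) (nat_lit 76) (nat_lit 65351845944) (nat_lit 76) (nat_lit 44583411649) (nat_lit 3) (nat_lit 4) (nat_lit 4) (nat_lit 5) (nat_lit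 4) (nat_lit 4) (nat_lit 268) (nat_lit 222) (nat_lit 170))))))) (XT.nd (nat_lit 858) (nat_lit 0) (nat_lit 0) (XT.nd (nat_lit 390) (nat_lit 76) (nat_lit 0) (XT.nd (nat_lit 156) (nat_lit 76) (nat_lit 0) (XT.nd (nat_lit 78) (nat_lit 0) (nat_lit 0) (XT.lf (nat_lit 0) (nat_lit 1079669325407) (nat_lit 76) (nat_lit 57343295597) (nat_lit 76) (nat_lit 36572969775) (nat_lit 3) (nat_lit 4) (nat_lit 4) (nat_lit 5) (nat_lit 4) (nat_lit 4) (nat_lit 269) (nat_lit 222) (nat_lit 169)) (XT.lf (nat_lit 0) (nat_lit 1272788803220) (nat_lit 76) (nat_lit 48135959688) (nat_lit 76) (nat_lit 27363989060) (nat_lit 3) (nat_lit 4) (nat_lit 4) (nat_lit 5) (nat_lit 4) (nat_lit 4) (nat_lit 270) (nat_lit 222) (nat_lit 168))) (XT.nd (nat_lit 78) (nat_lit 76) (nat_lit 0) (XT.lf (nat_lit 0) (nat_lit 1494871596109) (nat_lit 76) (nat_lit 37549694690) (nat_lit 76) (nat_lit 16776293795) (nat_lit 3) (nat_lit 4) (nat_lit 4) (nat_lit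 5) (nat_lit 4) (nat_lit 4) (nat_lit 271) (nat_lit 222) (nat_lit 167)) (XT.nd (nat_lit 78) (nat_lit 76) (nat_lit 0) (XT.lf (nat_lit 0) (nat_lit 1750262802197) (nat_lit 76) (nat_lit 25377378024) (nat_lit 76) (nat_lit 4602733419) (nat_lit 3) (nat_lit 4) (nat_lit 4) (nat_lit 5) (nat_lit 4) (nat_lit 4) (nat_lit 272) (nat_lit 222) (nat_lit 166)) (XT.lf (nat_lit 0) (nat_lit 8924900952) (nat_lit 152) (nat_lit 2211932110) (nat_lit 76) (nat_lit 2034790282388) (nat_lit 2) (nat_lit 5) (nat_lit 4) (nat_lit 5) (nat_lit 3) (nat_lit 4) (nat_lit 273) (nat_lit 222) (nat_lit 165))))) (XT.nd (nat_lit 234) (nat_lit 0) (nat_lit 0) (XT.nd (nat_lit 78) (nat_lit 0) (nat_lit 0) (XT.lf (nat_lit 0) (nat_lit 25113138776) (nat_lit 152) (nat_lit 2320393442202) (nat_lit 0) (nat_lit 5875484595) (nat_lit 1) (nat_lit 5) (nat_lit 3) (nat_lit 4) (nat_lit 1) (nat_lit 4) (nat_lit 274) (nat_lit 222) (nat_lit 164)) (XT.nd (nat_lit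 78) (nat_lit 0) (nat_lit 0) (XT.lf (nat_lit 0) (nat_lit 44102169165) (nat_lit 152) (nat_lit 2633659527986) (nat_lit 0) (nat_lit 24863757800) (nat_lit 1) (nat_lit 5) (nat_lit 3) (nat_lit 4) (nat_lit 1) (nat_lit 4) (nat_lit 275) (nat_lit 222) (nat_lit 163)) (XT.lf (nat_lit 0) (nat_lit 65938222743) (nat_lit 152) (nat_lit 2993918084667) (nat_lit 0) (nat_lit 46699152956) (nat_lit 1) (nat_lit 5) (nat_lit 3) (nat_lit 4) (nat_lit 1) (nat_lit 4) (nat_lit 276) (nat_lit 222) (nat_lit 162)))) (XT.nd (nat_lit 78) (nat_lit 0) (nat_lit 0) (XT.lf (nat_lit 0) (nat_lit 91048526644) (nat_lit 152) (nat_lit 3408217649222) (nat_lit 0) (nat_lit 71808884317) (nat_lit 1) (nat_lit 5) (nat_lit 3) (nat_lit 4) (nat_lit 1) (nat_lit 4) (nat_lit 277) (nat_lit 222) (nat_lit 161)) (XT.nd (nat_lit 78) (nat_lit 0) (nat_lit 0) (XT.lf (nat_lit 0) (nat_lit 119924369424) (nat_lit 152) (nat_lit 3884664082698) (nat_lit 0) (nat_lit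 100684229235) (nat_lit 1) (nat_lit 5) (nat_lit 3) (nat_lit 4) (nat_lit 1) (nat_lit 4) (nat_lit 278) (nat_lit 222) (nat_lit 160)) (XT.lf (nat_lit 0) (nat_lit 153130713223) (nat_lit 152) (nat_lit 4432579163141) (nat_lit 0) (nat_lit 133890140111) (nat_lit 1) (nat_lit 5) (nat_lit 3) (nat_lit 4) (nat_lit 1) (nat_lit 4) (nat_lit 279) (nat_lit 222) (nat_lit 159)))))) (XT.nd (nat_lit 30030) (nat_lit 0) (nat_lit 2508) (XT.nd (nat_lit 156) (nat_lit 0) (nat_lit 0) (XT.nd (nat_lit 78) (nat_lit 0) (nat_lit 0) (XT.lf (nat_lit 0) (nat_lit 191317247376) (nat_lit 152) (nat_lit 5062682968212) (nat_lit 0) (nat_lit 172076297810) (nat_lit 1) (nat_lit 5) (nat_lit 3) (nat_lit 4) (nat_lit 1) (nat_lit 4) (nat_lit 280) (nat_lit 222) (nat_lit 158)) (XT.lf (nat_lit 0) (nat_lit 235231099727) (nat_lit 152) (nat_lit 5787303615835) (nat_lit 0) (nat_lit 215989822809) (nat_lit 1) (nat_lit 5) (nat_lit 3) (nat_lit 4) (nat_lit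 1) (nat_lit 4) (nat_lit 281) (nat_lit 222) (nat_lit 157))) (XT.nd (nat_lit 78) (nat_lit 0) (nat_lit 0) (XT.lf (nat_lit 0) (nat_lit 285731454342) (nat_lit 152) (nat_lit 6620618466509) (nat_lit 0) (nat_lit 266489892770) (nat_lit 1) (nat_lit 5) (nat_lit 3) (nat_lit 4) (nat_lit 1) (nat_lit 4) (nat_lit 282) (nat_lit 222) (nat_lit 156)) (XT.nd (nat_lit 29718) (nat_lit 0) (nat_lit 3876) (XT.lf (nat_lit 0) (nat_lit 343806361637) (nat_lit 152) (nat_lit 7578931506442) (nat_lit 0) (nat_lit 324564552541) (nat_lit 1) (nat_lit 5) (nat_lit 3) (nat_lit 4) (nat_lit 1) (nat_lit 4) (nat_lit 283) (nat_lit 222) (nat_lit 155)) (XT.lf (nat_lit 0) (nat_lit 1843282088) (nat_lit 380) (nat_lit 907398937) (nat_lit 380) (nat_lit 907398937) (nat_lit 52) (nat_lit 3) (nat_lit 57) (nat_lit 3) (nat_lit 57) (nat_lit 5) (nat_lit 223) (nat_lit 223) (nat_lit 214))))) (XT.nd (nat_lit 234) (nat_lit 1064) (nat_lit 0) (XT.nd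 (nat_lit 78) (nat_lit 304) (nat_lit 0) (XT.lf (nat_lit 76) (nat_lit 4513331526) (nat_lit 0) (nat_lit 2070582742) (nat_lit 380) (nat_lit 1057662411) (nat_lit 53) (nat_lit 5) (nat_lit 52) (nat_lit 3) (nat_lit 57) (nat_lit 5) (nat_lit 224) (nat_lit 223) (nat_lit 213)) (XT.nd (nat_lit 78) (nat_lit 0) (nat_lit 0) (XT.lf (nat_lit 0) (nat_lit 1536255737) (nat_lit 380) (nat_lit 4347784967) (nat_lit 456) (nat_lit 2151856586) (nat_lit 48) (nat_lit 5) (nat_lit 53) (nat_lit 5) (nat_lit 54) (nat_lit 5) (nat_lit 225) (nat_lit 223) (nat_lit 212)) (XT.lf (nat_lit 76) (nat_lit 2998174216) (nat_lit 0) (nat_lit 1273979306) (nat_lit 456) (nat_lit 4231726863) (nat_lit 49) (nat_lit 5) (nat_lit 48) (nat_lit 5) (nat_lit 54) (nat_lit 5) (nat_lit 226) (nat_lit 223) (nat_lit 211)))) (XT.nd (nat_lit 78) (nat_lit 760) (nat_lit 0) (XT.lf (nat_lit 0) (nat_lit 2391992395) (nat_lit 380) (nat_lit 4950610919) (nat_lit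 456) (nat_lit 1707222957) (nat_lit 44) (nat_lit 5) (nat_lit 49) (nat_lit 5) (nat_lit 50) (nat_lit 5) (nat_lit 227) (nat_lit 223) (nat_lit 210)) (XT.nd (nat_lit 78) (nat_lit 228) (nat_lit 0) (XT.lf (nat_lit 0) (nat_lit 1070963444) (nat_lit 532) (nat_lit 7832708030) (nat_lit 76) (nat_lit 778272585) (nat_lit 37) (nat_lit 5) (nat_lit 44) (nat_lit 5) (nat_lit 38) (nat_lit 5) (nat_lit 228) (nat_lit 223) (nat_lit 209)) (XT.lf (nat_lit 0) (nat_lit 1216099982) (nat_lit 228) (nat_lit 3023979521) (nat_lit 304) (nat_lit 6160418795) (nat_lit 34) (nat_lit 5) (nat_lit 37) (nat_lit 5) (nat_lit 38) (nat_lit 5) (nat_lit 229) (nat_lit 223) (nat_lit 208))))))))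
noncomputable def xc28 : XT := (XT.nd (nat_lit 1716) (nat_lit 152) (nat_lit 0) (XT.nd (nat_lit 858) (nat_lit 608) (nat_lit 0) (XT.nd (nat_lit 390) (nat_lit 760) (nat_lit 0) (XT.nd (nat_lit 156) (nat_lit 532) (nat_lit 0) (XT.nd (nat_lit 78) (nat_lit 76) (nat_lit 0) (XT.lf (nat_lit 0) (nat_lit 524201625) (nat_lit 228) (nat_lit 7435535414) (nat_lit 304) (nat_lit 3262118903) (nat_lit 31) (nat_lit 5) (nat_lit 34) (nat_lit 5) (nat_lit 35) (nat_lit 5) (nat_lit 230) (nat_lit 223) (nat_lit 207)) (XT.lf (nat_lit 0) (nat_lit 184746091) (nat_lit 304) (nat_lit 274813222) (nat_lit 76) (nat_lit 11698164693) (nat_lit 30) (nat_lit 5) (nat_lit 34) (nat_lit 5) (nat_lit 31) (nat_lit 5) (nat_lit 231) (nat_lit 223) (nat_lit 206))) (XT.nd (nat_lit 78) (nat_lit 304) (nat_lit 0) (XT.lf (nat_lit 0) (nat_lit 4230566387) (nat_lit 304) (nat_lit 1437656237) (nat_lit 76) (nat_lit 7537688951) (nat_lit 27) (nat_lit 5)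 (nat_lit 31) (nat_lit 5) (nat_lit 28) (nat_lit 5) (nat_lit 232) (nat_lit 223) (nat_lit 205)) (XT.nd (nat_lit 78) (nat_lit 152) (nat_lit 0) (XT.lf (nat_lit 0) (nat_lit 9055122371) (nat_lit 228) (nat_lit 2915822505) (nat_lit 76) (nat_lit 2427263021) (nat_lit 25) (nat_lit 5) (nat_lit 28) (nat_lit 5) (nat_lit 26) (nat_lit 5) (nat_lit 233) (nat_lit 223) (nat_lit 204)) (XT.lf (nat_lit 0) (nat_lit 10812166000) (nat_lit 152) (nat_lit 4080748187) (nat_lit 228) (nat_lit 853817790) (nat_lit 23) (nat_lit 5) (nat_lit 25) (nat_lit 5) (nat_lit 26) (nat_lit 5) (nat_lit 234) (nat_lit 223) (nat_lit 203))))) (XT.nd (nat_lit 234) (nat_lit 304) (nat_lit 0) (XT.nd (nat_lit 78) (nat_lit 228) (nat_lit 0) (XT.lf (nat_lit 0) (nat_lit 4384220730) (nat_lit 228) (nat_lit 7766112215) (nat_lit 76) (nat_lit 5116078232) (nat_lit 20) (nat_lit 5) (nat_lit 23) (nat_lit 5) (nat_lit 21) (nat_lit 5) (nat_lit 235) (nat_lit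 223) (nat_lit 202)) (XT.nd (nat_lit 78) (nat_lit 76) (nat_lit 0) (XT.lf (nat_lit 0) (nat_lit 7414418467) (nat_lit 152) (nat_lit 3239679397) (nat_lit 228) (nat_lit 8334818481) (nat_lit 18) (nat_lit 5) (nat_lit 20) (nat_lit 5) (nat_lit 21) (nat_lit 5) (nat_lit 236) (nat_lit 223) (nat_lit 201)) (XT.lf (nat_lit 0) (nat_lit 4223466328) (nat_lit 76) (nat_lit 14012175636) (nat_lit 152) (nat_lit 2704793820) (nat_lit 17) (nat_lit 5) (nat_lit 18) (nat_lit 5) (nat_lit 19) (nat_lit 4) (nat_lit 237) (nat_lit 223) (nat_lit 200)))) (XT.nd (nat_lit 78) (nat_lit 228) (nat_lit 0) (XT.lf (nat_lit 0) (nat_lit 3894828007) (nat_lit 152) (nat_lit 448120968) (nat_lit 76) (nat_lit 18809655897) (nat_lit 16) (nat_lit 5) (nat_lit 18) (nat_lit 5) (nat_lit 17) (nat_lit 5) (nat_lit 238) (nat_lit 223) (nat_lit 199)) (XT.nd (nat_lit 78) (nat_lit 76) (nat_lit 0) (XT.lf (nat_lit 0) (nat_lit 11854421904) (nat_lit 228) (nat_lit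 6871235404) (nat_lit 76) (nat_lit 6923140417) (nat_lit 14) (nat_lit 5) (nat_lit 17) (nat_lit 5) (nat_lit 15) (nat_lit 4) (nat_lit 239) (nat_lit 223) (nat_lit 198)) (XT.lf (nat_lit 0) (nat_lit 12752945704) (nat_lit 76) (nat_lit 8598120458) (nat_lit 152) (nat_lit 7141107374) (nat_lit 13) (nat_lit 5) (nat_lit 14) (nat_lit 5) (nat_lit 15) (nat_lit 4) (nat_lit 240) (nat_lit 223) (nat_lit 197)))))) (XT.nd (nat_lit 390) (nat_lit 304) (nat_lit 0) (XT.nd (nat_lit 156) (nat_lit 152) (nat_lit 0) (XT.nd (nat_lit 78) (nat_lit 0) (nat_lit 0) (XT.lf (nat_lit 0) (nat_lit 776213120) (nat_lit 152) (nat_lit 27801500582) (nat_lit 76) (nat_lit 3160197348) (nat_lit 11) (nat_lit 5) (nat_lit 13) (nat_lit 5) (nat_lit 12) (nat_lit 4) (nat_lit 241) (nat_lit 223) (nat_lit 196)) (XT.lf (nat_lit 0) (nat_lit 10094922130) (nat_lit 152) (nat_lit 8508790243) (nat_lit 76) (nat_lit 16801170338) (nat_lit 11) (nat_lit 5)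 (nat_lit 13) (nat_lit 5) (nat_lit 12) (nat_lit 4) (nat_lit 242) (nat_lit 223) (nat_lit 195))) (XT.nd (nat_lit 78) (nat_lit 76) (nat_lit 0) (XT.lf (nat_lit 0) (nat_lit 14266042641) (nat_lit 76) (nat_lit 6816029247) (nat_lit 152) (nat_lit 18518301030) (nat_lit 10) (nat_lit 5) (nat_lit 11) (nat_lit 5) (nat_lit 12) (nat_lit 4) (nat_lit 243) (nat_lit 223) (nat_lit 194)) (XT.nd (nat_lit 78) (nat_lit 76) (nat_lit 0) (XT.lf (nat_lit 0) (nat_lit 34066592255) (nat_lit 152) (nat_lit 3720530889) (nat_lit 0) (nat_lit 6610227093) (nat_lit 10) (nat_lit 5) (nat_lit 12) (nat_lit 4) (nat_lit 10) (nat_lit 4) (nat_lit 244) (nat_lit 223) (nat_lit 193)) (XT.lf (nat_lit 0) (nat_lit 21940917240) (nat_lit 76) (nat_lit 27715847516) (nat_lit 76) (nat_lit 204564892) (nat_lit 9) (nat_lit 4) (nat_lit 10) (nat_lit 5) (nat_lit 10) (nat_lit 4) (nat_lit 245) (nat_lit 223) (nat_lit 192))))) (XT.nd (nat_lit 234) (nat_lit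 152) (nat_lit 0) (XT.nd (nat_lit 78) (nat_lit 76) (nat_lit 0) (XT.lf (nat_lit 0) (nat_lit 10925031440) (nat_lit 152) (nat_lit 4834971543) (nat_lit 76) (nat_lit 40358424369) (nat_lit 8) (nat_lit 5) (nat_lit 10) (nat_lit 5) (nat_lit 9) (nat_lit 4) (nat_lit 246) (nat_lit 223) (nat_lit 191)) (XT.nd (nat_lit 78) (nat_lit 0) (nat_lit 0) (XT.lf (nat_lit 0) (nat_lit 22761320623) (nat_lit 76) (nat_lit 1451123152) (nat_lit 152) (nat_lit 39061247146) (nat_lit 7) (nat_lit 5) (nat_lit 8) (nat_lit 5) (nat_lit 9) (nat_lit 4) (nat_lit 247) (nat_lit 223) (nat_lit 190)) (XT.lf (nat_lit 0) (nat_lit 39954431843) (nat_lit 152) (nat_lit 17146030802) (nat_lit 0) (nat_lit 14364921145) (nat_lit 7) (nat_lit 5) (nat_lit 9) (nat_lit 4) (nat_lit 7) (nat_lit 4) (nat_lit 248) (nat_lit 223) (nat_lit 189)))) (XT.nd (nat_lit 78) (nat_lit 76) (nat_lit 0) (XT.lf (nat_lit 0) (nat_lit 10121540500) (nat_lit 76) (nat_lit 48181643183)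 (nat_lit 76) (nat_lit 22563059118) (nat_lit 6) (nat_lit 4) (nat_lit 7) (nat_lit 5) (nat_lit 7) (nat_lit 4) (nat_lit 249) (nat_lit 223) (nat_lit 188)) (XT.nd (nat_lit 78) (nat_lit 76) (nat_lit 0) (XT.lf (nat_lit 0) (nat_lit 42453571063) (nat_lit 76) (nat_lit 37415202904) (nat_lit 76) (nat_lit 11771337649) (nat_lit 6) (nat_lit 4) (nat_lit 7) (nat_lit 5) (nat_lit 7) (nat_lit 4) (nat_lit 250) (nat_lit 223) (nat_lit 187)) (XT.lf (nat_lit 0) (nat_lit 576209781) (nat_lit 152) (nat_lit 24467332552) (nat_lit 76) (nat_lit 78987800120) (nat_lit 5) (nat_lit 5) (nat_lit 7) (nat_lit 5) (nat_lit 6) (nat_lit 4) (nat_lit 251) (nat_lit 223) (nat_lit 186))))))) (XT.nd (nat_lit 858) (nat_lit 0) (nat_lit 0) (XT.nd (nat_lit 390) (nat_lit 76) (nat_lit 0) (XT.nd (nat_lit 156) (nat_lit 0) (nat_lit 0) (XT.nd (nat_lit 78) (nat_lit 0) (nat_lit 0) (XT.lf (nat_lit 0) (nat_lit 3773104680) (nat_lit 76) (nat_lit 10389428872)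 (nat_lit 152) (nat_lit 104087603448) (nat_lit 4) (nat_lit 5) (nat_lit 5) (nat_lit 5) (nat_lit 6) (nat_lit 4) (nat_lit 252) (nat_lit 223) (nat_lit 185)) (XT.lf (nat_lit 0) (nat_lit 30648064147) (nat_lit 152) (nat_lit 97034514532) (nat_lit 0) (nat_lit 6850297572) (nat_lit 4) (nat_lit 5) (nat_lit 6) (nat_lit 4) (nat_lit 4) (nat_lit 4) (nat_lit 253) (nat_lit 223) (nat_lit 184))) (XT.nd (nat_lit 78) (nat_lit 0) (nat_lit 0) (XT.lf (nat_lit 0) (nat_lit 49872018354) (nat_lit 152) (nat_lit 77303915393) (nat_lit 0) (nat_lit 26060867888) (nat_lit 4) (nat_lit 5) (nat_lit 6) (nat_lit 4) (nat_lit 4) (nat_lit 4) (nat_lit 254) (nat_lit 223) (nat_lit 183)) (XT.nd (nat_lit 78) (nat_lit 0) (nat_lit 0) (XT.lf (nat_lit 0) (nat_lit 71960651002) (nat_lit 152) (nat_lit 54649335427) (nat_lit 0) (nat_lit 48137862370) (nat_lit 4) (nat_lit 5) (nat_lit 6) (nat_lit 4) (nat_lit 4) (nat_lit 4) (nat_lit 255) (nat_lit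 223) (nat_lit 182)) (XT.lf (nat_lit 0) (nat_lit 97346130992) (nat_lit 152) (nat_lit 28627532851) (nat_lit 0) (nat_lit 73513222215) (nat_lit 4) (nat_lit 5) (nat_lit 6) (nat_lit 4) (nat_lit 4) (nat_lit 4) (nat_lit 256) (nat_lit 223) (nat_lit 181))))) (XT.nd (nat_lit 234) (nat_lit 0) (nat_lit 0) (XT.nd (nat_lit 78) (nat_lit 0) (nat_lit 0) (XT.lf (nat_lit 0) (nat_lit 1337522867) (nat_lit 76) (nat_lit 125219775346) (nat_lit 76) (nat_lit 101378066445) (nat_lit 3) (nat_lit 4) (nat_lit 4) (nat_lit 5) (nat_lit 4) (nat_lit 4) (nat_lit 257) (nat_lit 223) (nat_lit 180)) (XT.nd (nat_lit 78) (nat_lit 0) (nat_lit 0) (XT.lf (nat_lit 0) (nat_lit 37506286925) (nat_lit 76) (nat_lit 123464283948) (nat_lit 76) (nat_lit 99614922763) (nat_lit 3) (nat_lit 4) (nat_lit 4) (nat_lit 5) (nat_lit 4) (nat_lit 4) (nat_lit 258) (nat_lit 223) (nat_lit 179)) (XT.lf (nat_lit 0) (nat_lit 79078933905) (nat_lit 76) (nat_lit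 121455570558) (nat_lit 76) (nat_lit 97599555214) (nat_lit 3) (nat_lit 4) (nat_lit 4) (nat_lit 5) (nat_lit 4) (nat_lit 4) (nat_lit 259) (nat_lit 223) (nat_lit 178)))) (XT.nd (nat_lit 78) (nat_lit 0) (nat_lit 0) (XT.lf (nat_lit 0) (nat_lit 126868841683) (nat_lit 76) (nat_lit 119154334263) (nat_lit 76) (nat_lit 95292532693) (nat_lit 3) (nat_lit 4) (nat_lit 4) (nat_lit 5) (nat_lit 4) (nat_lit 4) (nat_lit 260) (nat_lit 223) (nat_lit 177)) (XT.nd (nat_lit 78) (nat_lit 0) (nat_lit 0) (XT.lf (nat_lit 0) (nat_lit 181811030195) (nat_lit 76) (nat_lit 116515550873) (nat_lit 76) (nat_lit 92648717804) (nat_lit 3) (nat_lit 4) (nat_lit 4) (nat_lit 5) (nat_lit 4) (nat_lit 4) (nat_lit 261) (nat_lit 223) (nat_lit 176)) (XT.lf (nat_lit 0) (nat_lit 244980455302) (nat_lit 76) (nat_lit 113487592019) (nat_lit 76) (nat_lit 89616383732) (nat_lit 3) (nat_lit 4) (nat_lit 4) (nat_lit 5) (nat_lit 4) (nat_lit 4) (nat_lit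 262) (nat_lit 223) (nat_lit 175)))))) (XT.nd (nat_lit 390) (nat_lit 0) (nat_lit 0) (XT.nd (nat_lit 156) (nat_lit 0) (nat_lit 0) (XT.nd (nat_lit 78) (nat_lit 0) (nat_lit 0) (XT.lf (nat_lit 0) (nat_lit 317613040538) (nat_lit 76) (nat_lit 110011215027) (nat_lit 76) (nat_lit 86136202203) (nat_lit 3) (nat_lit 4) (nat_lit 4) (nat_lit 5) (nat_lit 4) (nat_lit 4) (nat_lit 263) (nat_lit 223) (nat_lit 174)) (XT.lf (nat_lit 0) (nat_lit 401129858224) (nat_lit 76) (nat_lit 106018403826) (nat_lit 76) (nat_lit 82140082709) (nat_lit 3) (nat_lit 4) (nat_lit 4) (nat_lit 5) (nat_lit 4) (nat_lit 4) (nat_lit 264) (nat_lit 223) (nat_lit 173))) (XT.nd (nat_lit 78) (nat_lit 0) (nat_lit 0) (XT.lf (nat_lit 0) (nat_lit 497164933054) (nat_lit 76) (nat_lit 101431038196) (nat_lit 76) (nat_lit 77549840302) (nat_lit 3) (nat_lit 4) (nat_lit 4) (nat_lit 5) (nat_lit 4) (nat_lit 4) (nat_lit 265) (nat_lit 223) (nat_lit 172))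 (XT.nd (nat_lit 78) (nat_lit 0) (nat_lit 0) (XT.lf (nat_lit 0) (nat_lit 607597212144) (nat_lit 76) (nat_lit 96159365332) (nat_lit 76) (nat_lit 72275665893) (nat_lit 3) (nat_lit 4) (nat_lit 4) (nat_lit 5) (nat_lit 4) (nat_lit 4) (nat_lit 266) (nat_lit 223) (nat_lit 171)) (XT.lf (nat_lit 0) (nat_lit 734587327040) (nat_lit 76) (nat_lit 90100243808) (nat_lit 76) (nat_lit 66214369112) (nat_lit 3) (nat_lit 4) (nat_lit 4) (nat_lit 5) (nat_lit 4) (nat_lit 4) (nat_lit 267) (nat_lit 223) (nat_lit 170))))) (XT.nd (nat_lit 234) (nat_lit 0) (nat_lit 0) (XT.nd (nat_lit 78) (nat_lit 0) (nat_lit 0) (XT.lf (nat_lit 0) (nat_lit 880619866949) (nat_lit 76) (nat_lit 83135125594) (nat_lit 76) (nat_lit 59247359371) (nat_lit 3) (nat_lit 4) (nat_lit 4) (nat_lit 5) (nat_lit 4) (nat_lit 4) (nat_lit 268) (nat_lit 223) (nat_lit 169)) (XT.nd (nat_lit 78) (nat_lit 0) (nat_lit 0) (XT.lf (nat_lit 0) (nat_lit 1048551990259)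 (nat_lit 76) (nat_lit 75127736638) (nat_lit 76) (nat_lit 51238325609) (nat_lit 3) (nat_lit 4) (nat_lit 4) (nat_lit 5) (nat_lit 4) (nat_lit 4) (nat_lit 269) (nat_lit 223) (nat_lit 168)) (XT.lf (nat_lit 0) (nat_lit 1241669325469) (nat_lit 76) (nat_lit 65921410634) (nat_lit 76) (nat_lit 42030569339) (nat_lit 3) (nat_lit 4) (nat_lit 4) (nat_lit 5) (nat_lit 4) (nat_lit 4) (nat_lit 270) (nat_lit 223) (nat_lit 167)))) (XT.nd (nat_lit 78) (nat_lit 0) (nat_lit 0) (XT.lf (nat_lit 0) (nat_lit 1463750255226) (nat_lit 76) (nat_lit 55336023814) (nat_lit 76) (nat_lit 31443938808) (nat_lit 3) (nat_lit 4) (nat_lit 4) (nat_lit 5) (nat_lit 4) (nat_lit 4) (nat_lit 271) (nat_lit 223) (nat_lit 166)) (XT.nd (nat_lit 78) (nat_lit 0) (nat_lit 0) (XT.lf (nat_lit 0) (nat_lit 1719139841198) (nat_lit 76) (nat_lit 43164470782) (nat_lit 76) (nat_lit 19271304289) (nat_lit 3) (nat_lit 4) (nat_lit 4) (nat_lit 5) (nat_lit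 4) (nat_lit 4) (nat_lit 272) (nat_lit 223) (nat_lit 165)) (XT.lf (nat_lit 0) (nat_lit 2012834836154) (nat_lit 76) (nat_lit 29168612457) (nat_lit 76) (nat_lit 5274505541) (nat_lit 3) (nat_lit 4) (nat_lit 4) (nat_lit 5) (nat_lit 4) (nat_lit 4) (nat_lit 273) (nat_lit 223) (nat_lit 164))))))))
noncomputable def xc29 : XT := (XT.nd (nat_lit 31434) (nat_lit 0) (nat_lit 228) (XT.nd (nat_lit 30576) (nat_lit 0) (nat_lit 1596) (XT.nd (nat_lit 390) (nat_lit 0) (nat_lit 0) (XT.nd (nat_lit 156) (nat_lit 0) (nat_lit 0) (XT.nd (nat_lit 78) (nat_lit 76) (nat_lit 0) (XT.lf (nat_lit 0) (nat_lit 10279032224) (nat_lit 152) (nat_lit 2514537648) (nat_lit 76) (nat_lit 2340021367337) (nat_lit 2) (nat_lit 5) (nat_lit 4) (nat_lit 5) (nat_lit 3) (nat_lit 4) (nat_lit 274) (nat_lit 223) (nat_lit 163)) (XT.lf (nat_lit 0) (nat_lit 28894445042) (nat_lit 152) (nat_lit 2668424915105) (nat_lit 0) (nat_lit 6768856366) (nat_lit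 1) (nat_lit 5) (nat_lit 3) (nat_lit 4) (nat_lit 1) (nat_lit 4) (nat_lit 275) (nat_lit 223) (nat_lit 162))) (XT.nd (nat_lit 78) (nat_lit 0) (nat_lit 0) (XT.lf (nat_lit 0) (nat_lit 50729960149) (nat_lit 152) (nat_lit 3028684506378) (nat_lit 0) (nat_lit 28603798932) (nat_lit 1) (nat_lit 5) (nat_lit 3) (nat_lit 4) (nat_lit 1) (nat_lit 4) (nat_lit 276) (nat_lit 223) (nat_lit 161)) (XT.nd (nat_lit 78) (nat_lit 0) (nat_lit 0) (XT.lf (nat_lit 0) (nat_lit 75839795814) (nat_lit 152) (nat_lit 3442984970579) (nat_lit 0) (nat_lit 53713136736) (nat_lit 1) (nat_lit 5) (nat_lit 3) (nat_lit 4) (nat_lit 1) (nat_lit 4) (nat_lit 277) (nat_lit 223) (nat_lit 160)) (XT.lf (nat_lit 0) (nat_lit 104715231432) (nat_lit 152) (nat_lit 3919432186355) (nat_lit 0) (nat_lit 82588139431) (nat_lit 1) (nat_lit 5) (nat_lit 3) (nat_lit 4) (nat_lit 1) (nat_lit 4) (nat_lit 278) (nat_lit 223) (nat_lit 159))))) (XT.nd (nat_lit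 234) (nat_lit 0) (nat_lit 0) (XT.nd (nat_lit 78) (nat_lit 0) (nat_lit 0) (XT.lf (nat_lit 0) (nat_lit 137921221177) (nat_lit 152) (nat_lit 4467347947059) (nat_lit 0) (nat_lit 115793752722) (nat_lit 1) (nat_lit 5) (nat_lit 3) (nat_lit 4) (nat_lit 1) (nat_lit 4) (nat_lit 279) (nat_lit 223) (nat_lit 158)) (XT.nd (nat_lit 78) (nat_lit 0) (nat_lit 0) (XT.lf (nat_lit 0) (nat_lit 176107447458) (nat_lit 152) (nat_lit 5097452343661) (nat_lit 0) (nat_lit 153979651651) (nat_lit 1) (nat_lit 5) (nat_lit 3) (nat_lit 4) (nat_lit 1) (nat_lit 4) (nat_lit 280) (nat_lit 223) (nat_lit 157)) (XT.lf (nat_lit 0) (nat_lit 220021032093) (nat_lit 152) (nat_lit 5822073505660) (nat_lit 0) (nat_lit 197892951632) (nat_lit 1) (nat_lit 5) (nat_lit 3) (nat_lit 4) (nat_lit 1) (nat_lit 4) (nat_lit 281) (nat_lit 223) (nat_lit 156)))) (XT.nd (nat_lit 78) (nat_lit 0) (nat_lit 0) (XT.lf (nat_lit 0) (nat_lit 270521153912) (nat_lit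 152) (nat_lit 6655388803616) (nat_lit 0) (nat_lit 248392825926) (nat_lit 1) (nat_lit 5) (nat_lit 3) (nat_lit 4) (nat_lit 1) (nat_lit 4) (nat_lit 282) (nat_lit 223) (nat_lit 155)) (XT.nd (nat_lit 29796) (nat_lit 0) (nat_lit 3496) (XT.lf (nat_lit 0) (nat_lit 328595858777) (nat_lit 152) (nat_lit 7613702232490) (nat_lit 0) (nat_lit 306467315552) (nat_lit 1) (nat_lit 5) (nat_lit 3) (nat_lit 4) (nat_lit 1) (nat_lit 4) (nat_lit 283) (nat_lit 223) (nat_lit 154)) (XT.lf (nat_lit 0) (nat_lit 256824230) (nat_lit 0) (nat_lit 256824230) (nat_lit 380) (nat_lit 3485362940) (nat_lit 47) (nat_lit 5) (nat_lit 47) (nat_lit 3) (nat_lit 52) (nat_lit 3) (nat_lit 224) (nat_lit 224) (nat_lit 212)))))) (XT.nd (nat_lit 390) (nat_lit 1140) (nat_lit 0) (XT.nd (nat_lit 156) (nat_lit 760) (nat_lit 0) (XT.nd (nat_lit 78) (nat_lit 0) (nat_lit 76) (XT.lf (nat_lit 0) (nat_lit 3222259053) (nat_lit 380) (nat_lit 923927080)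 (nat_lit 456) (nat_lit 4272714746) (nat_lit 47) (nat_lit 5) (nat_lit 52) (nat_lit 3) (nat_lit 53) (nat_lit 5) (nat_lit 225) (nat_lit 224) (nat_lit 211)) (XT.lf (nat_lit 0) (nat_lit 5596885656) (nat_lit 380) (nat_lit 2217252798) (nat_lit 456) (nat_lit 1102437314) (nat_lit 48) (nat_lit 5) (nat_lit 53) (nat_lit 5) (nat_lit 54) (nat_lit 5) (nat_lit 226) (nat_lit 224) (nat_lit 210))) (XT.nd (nat_lit 78) (nat_lit 836) (nat_lit 0) (XT.lf (nat_lit 76) (nat_lit 5995058575) (nat_lit 0) (nat_lit 2309778547) (nat_lit 456) (nat_lit 1187371440) (nat_lit 49) (nat_lit 5) (nat_lit 48) (nat_lit 5) (nat_lit 54) (nat_lit 5) (nat_lit 227) (nat_lit 224) (nat_lit 209)) (XT.nd (nat_lit 78) (nat_lit 456) (nat_lit 0) (XT.lf (nat_lit 0) (nat_lit 1220450683) (nat_lit 456) (nat_lit 4820917319) (nat_lit 76) (nat_lit 4110060064) (nat_lit 43) (nat_lit 5) (nat_lit 49) (nat_lit 5) (nat_lit 44) (nat_lit 5) (nat_lit 228)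 (nat_lit 224) (nat_lit 208)) (XT.lf (nat_lit 0) (nat_lit 3971453952) (nat_lit 532) (nat_lit 6219948840) (nat_lit 76) (nat_lit 712509557) (nat_lit 37) (nat_lit 5) (nat_lit 44) (nat_lit 5) (nat_lit 38) (nat_lit 5) (nat_lit 229) (nat_lit 224) (nat_lit 207))))) (XT.nd (nat_lit 234) (nat_lit 380) (nat_lit 0) (XT.nd (nat_lit 78) (nat_lit 532) (nat_lit 0) (XT.lf (nat_lit 0) (nat_lit 3950218383) (nat_lit 228) (nat_lit 3369716348) (nat_lit 304) (nat_lit 4435447682) (nat_lit 34) (nat_lit 5) (nat_lit 37) (nat_lit 5) (nat_lit 38) (nat_lit 5) (nat_lit 230) (nat_lit 224) (nat_lit 206)) (XT.nd (nat_lit 78) (nat_lit 304) (nat_lit 0) (XT.lf (nat_lit 0) (nat_lit 3123994088) (nat_lit 228) (nat_lit 8217674337) (nat_lit 304) (nat_lit 1380008098) (nat_lit 31) (nat_lit 5) (nat_lit 34) (nat_lit 5) (nat_lit 35) (nat_lit 5) (nat_lit 231) (nat_lit 224) (nat_lit 205)) (XT.lf (nat_lit 0) (nat_lit 2090804991) (nat_lit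 228) (nat_lit 130893598) (nat_lit 304) (nat_lit 11592165268) (nat_lit 27) (nat_lit 5) (nat_lit 30) (nat_lit 5) (nat_lit 31) (nat_lit 5) (nat_lit 232) (nat_lit 224) (nat_lit 204)))) (XT.nd (nat_lit 78) (nat_lit 228) (nat_lit 0) (XT.lf (nat_lit 0) (nat_lit 622963508) (nat_lit 152) (nat_lit 6019788882) (nat_lit 228) (nat_lit 8395942617) (nat_lit 25) (nat_lit 5) (nat_lit 27) (nat_lit 5) (nat_lit 28) (nat_lit 5) (nat_lit 233) (nat_lit 224) (nat_lit 203)) (XT.nd (nat_lit 78) (nat_lit 228) (nat_lit 0) (XT.lf (nat_lit 0) (nat_lit 12006901144) (nat_lit 228) (nat_lit 1177804642) (nat_lit 76) (nat_lit 3240626183) (nat_lit 25) (nat_lit 5) (nat_lit 28) (nat_lit 5) (nat_lit 26) (nat_lit 5) (nat_lit 234) (nat_lit 224) (nat_lit 202)) (XT.lf (nat_lit 0) (nat_lit 542248382) (nat_lit 228) (nat_lit 3578081764) (nat_lit 76) (nat_lit 13868171692) (nat_lit 22) (nat_lit 5) (nat_lit 25) (nat_lit 5) (nat_lit 23)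 (nat_lit 5) (nat_lit 235) (nat_lit 224) (nat_lit 201))))))) (XT.nd (nat_lit 858) (nat_lit 304) (nat_lit 0) (XT.nd (nat_lit 390) (nat_lit 456) (nat_lit 0) (XT.nd (nat_lit 156) (nat_lit 304) (nat_lit 0) (XT.nd (nat_lit 78) (nat_lit 152) (nat_lit 0) (XT.lf (nat_lit 0) (nat_lit 6383809499) (nat_lit 228) (nat_lit 6937290107) (nat_lit 76) (nat_lit 6424327717) (nat_lit 20) (nat_lit 5) (nat_lit 23) (nat_lit 5) (nat_lit 21) (nat_lit 5) (nat_lit 236) (nat_lit 224) (nat_lit 200)) (XT.lf (nat_lit 0) (nat_lit 10351560105) (nat_lit 152) (nat_lit 3111461189) (nat_lit 228) (nat_lit 8274246866) (nat_lit 18) (nat_lit 5) (nat_lit 20) (nat_lit 5) (nat_lit 21) (nat_lit 5) (nat_lit 237) (nat_lit 224) (nat_lit 199))) (XT.nd (nat_lit 78) (nat_lit 228) (nat_lit 0) (XT.lf (nat_lit 0) (nat_lit 6605491594) (nat_lit 76) (nat_lit 15473269613) (nat_lit 152) (nat_lit 1911404251) (nat_lit 17) (nat_lit 5) (nat_lit 18)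 (nat_lit 5) (nat_lit 19) (nat_lit 4) (nat_lit 238) (nat_lit 224) (nat_lit 198)) (XT.nd (nat_lit 78) (nat_lit 0) (nat_lit 0) (XT.lf (nat_lit 0) (nat_lit 1115234125) (nat_lit 152) (nat_lit 4381182422) (nat_lit 228) (nat_lit 21045504838) (nat_lit 14) (nat_lit 5) (nat_lit 16) (nat_lit 5) (nat_lit 17) (nat_lit 5) (nat_lit 239) (nat_lit 224) (nat_lit 197)) (XT.lf (nat_lit 0) (nat_lit 14541713415) (nat_lit 228) (nat_lit 6399971613) (nat_lit 76) (nat_lit 8479802036) (nat_lit 14) (nat_lit 5) (nat_lit 17) (nat_lit 5) (nat_lit 15) (nat_lit 4) (nat_lit 240) (nat_lit 224) (nat_lit 196))))) (XT.nd (nat_lit 234) (nat_lit 228) (nat_lit 0) (XT.nd (nat_lit 78) (nat_lit 152) (nat_lit 0) (XT.lf (nat_lit 0) (nat_lit 16040704151) (nat_lit 76) (nat_lit 9336632591) (nat_lit 152) (nat_lit 7321121745) (nat_lit 13) (nat_lit 5) (nat_lit 14) (nat_lit 5) (nat_lit 15) (nat_lit 4) (nat_lit 241) (nat_lit 224) (nat_lit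 195)) (XT.nd (nat_lit 78) (nat_lit 0) (nat_lit 0) (XT.lf (nat_lit 0) (nat_lit 1672899930) (nat_lit 152) (nat_lit 30621173676) (nat_lit 76) (nat_lit 4140773419) (nat_lit 11) (nat_lit 5) (nat_lit 13) (nat_lit 5) (nat_lit 12) (nat_lit 4) (nat_lit 242) (nat_lit 224) (nat_lit 194)) (XT.lf (nat_lit 0) (nat_lit 12287642921) (nat_lit 152) (nat_lit 8610715742) (nat_lit 76) (nat_lit 19761821078) (nat_lit 11) (nat_lit 5) (nat_lit 13) (nat_lit 5) (nat_lit 12) (nat_lit 4) (nat_lit 243) (nat_lit 224) (nat_lit 193)))) (XT.nd (nat_lit 78) (nat_lit 152) (nat_lit 0) (XT.lf (nat_lit 0) (nat_lit 17480935553) (nat_lit 76) (nat_lit 7379285327) (nat_lit 152) (nat_lit 20629935025) (nat_lit 10) (nat_lit 5) (nat_lit 11) (nat_lit 5) (nat_lit 12) (nat_lit 4) (nat_lit 244) (nat_lit 224) (nat_lit 192)) (XT.nd (nat_lit 78) (nat_lit 152) (nat_lit 0) (XT.lf (nat_lit 0) (nat_lit 39721694778) (nat_lit 152) (nat_lit 3309726227)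 (nat_lit 0) (nat_lit 7981047983) (nat_lit 10) (nat_lit 5) (nat_lit 12) (nat_lit 4) (nat_lit 10) (nat_lit 4) (nat_lit 245) (nat_lit 224) (nat_lit 191)) (XT.lf (nat_lit 0) (nat_lit 285448288) (nat_lit 152) (nat_lit 31188439845) (nat_lit 76) (nat_lit 25825674941) (nat_lit 8) (nat_lit 5) (nat_lit 10) (nat_lit 5) (nat_lit 9) (nat_lit 4) (nat_lit 246) (nat_lit 224) (nat_lit 190)))))) (XT.nd (nat_lit 390) (nat_lit 152) (nat_lit 0) (XT.nd (nat_lit 156) (nat_lit 76) (nat_lit 0) (XT.nd (nat_lit 78) (nat_lit 76) (nat_lit 0) (XT.lf (nat_lit 0) (nat_lit 13006333787) (nat_lit 152) (nat_lit 4765107130) (nat_lit 76) (nat_lit 46728734326) (nat_lit 8) (nat_lit 5) (nat_lit 10) (nat_lit 5) (nat_lit 9) (nat_lit 4) (nat_lit 247) (nat_lit 224) (nat_lit 189)) (XT.lf (nat_lit 0) (nat_lit 26903326747) (nat_lit 76) (nat_lit 1343311422) (nat_lit 152) (nat_lit 44485387642) (nat_lit 7) (nat_lit 5) (nat_lit 8) (nat_lit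 5) (nat_lit 9) (nat_lit 4) (nat_lit 248) (nat_lit 224) (nat_lit 188))) (XT.nd (nat_lit 78) (nat_lit 76) (nat_lit 0) (XT.lf (nat_lit 0) (nat_lit 46304253693) (nat_lit 152) (nat_lit 19063414577) (nat_lit 0) (nat_lit 16788527461) (nat_lit 7) (nat_lit 5) (nat_lit 9) (nat_lit 4) (nat_lit 7) (nat_lit 4) (nat_lit 249) (nat_lit 224) (nat_lit 187)) (XT.nd (nat_lit 78) (nat_lit 0) (nat_lit 0) (XT.lf (nat_lit 0) (nat_lit 12238890490) (nat_lit 76) (nat_lit 55134316155) (nat_lit 76) (nat_lit 25596606280) (nat_lit 6) (nat_lit 4) (nat_lit 7) (nat_lit 5) (nat_lit 7) (nat_lit 4) (nat_lit 250) (nat_lit 224) (nat_lit 186)) (XT.lf (nat_lit 0) (nat_lit 49342579693) (nat_lit 76) (nat_lit 42788723769) (nat_lit 76) (nat_lit 13231897683) (nat_lit 6) (nat_lit 4) (nat_lit 7) (nat_lit 5) (nat_lit 7) (nat_lit 4) (nat_lit 251) (nat_lit 224) (nat_lit 185))))) (XT.nd (nat_lit 234) (nat_lit 0) (nat_lit 0) (XT.nd (nat_lit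 78) (nat_lit 76) (nat_lit 0) (XT.lf (nat_lit 0) (nat_lit 914707548) (nat_lit 152) (nat_lit 27670857178) (nat_lit 76) (nat_lit 91030031873) (nat_lit 5) (nat_lit 5) (nat_lit 7) (nat_lit 5) (nat_lit 6) (nat_lit 4) (nat_lit 252) (nat_lit 224) (nat_lit 184)) (XT.nd (nat_lit 78) (nat_lit 0) (nat_lit 0) (XT.lf (nat_lit 0) (nat_lit 4766152367) (nat_lit 76) (nat_lit 11750220636) (nat_lit 152) (nat_lit 119452682647) (nat_lit 4) (nat_lit 5) (nat_lit 5) (nat_lit 5) (nat_lit 6) (nat_lit 4) (nat_lit 253) (nat_lit 224) (nat_lit 183)) (XT.lf (nat_lit 0) (nat_lit 35448936592) (nat_lit 152) (nat_lit 111206273402) (nat_lit 0) (nat_lit 8041091499) (nat_lit 4) (nat_lit 5) (nat_lit 6) (nat_lit 4) (nat_lit 4) (nat_lit 4) (nat_lit 254) (nat_lit 224) (nat_lit 182)))) (XT.nd (nat_lit 78) (nat_lit 0) (nat_lit 0) (XT.lf (nat_lit 0) (nat_lit 57529919214) (nat_lit 152) (nat_lit 88566095476) (nat_lit 0) (nat_lit 30111953977)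 (nat_lit 4) (nat_lit 5) (nat_lit 6) (nat_lit 4) (nat_lit 4) (nat_lit 4) (nat_lit 255) (nat_lit 224) (nat_lit 181)) (XT.nd (nat_lit 78) (nat_lit 0) (nat_lit 0) (XT.lf (nat_lit 0) (nat_lit 82908747007) (nat_lit 152) (nat_lit 62556816413) (nat_lit 0) (nat_lit 55481981644) (nat_lit 4) (nat_lit 5) (nat_lit 6) (nat_lit 4) (nat_lit 4) (nat_lit 4) (nat_lit 256) (nat_lit 224) (nat_lit 180)) (XT.lf (nat_lit 0) (nat_lit 112081962252) (nat_lit 152) (nat_lit 32669559016) (nat_lit 0) (nat_lit 84647544607) (nat_lit 4) (nat_lit 5) (nat_lit 6) (nat_lit 4) (nat_lit 4) (nat_lit 4) (nat_lit 257) (nat_lit 224) (nat_lit 179))))))))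
noncomputable def xc30 : XT := (XT.nd (nat_lit 1716) (nat_lit 0) (nat_lit 0) (XT.nd (nat_lit 858) (nat_lit 152) (nat_lit 0) (XT.nd (nat_lit 390) (nat_lit 0) (nat_lit 0) (XT.nd (nat_lit 156) (nat_lit 0) (nat_lit 0) (XT.nd (nat_lit 78) (nat_lit 0) (nat_lit 0) (XT.lf (nat_lit 0) (nat_lit 1768915732) (nat_lit 76) (nat_lit 143893971983) (nat_lit 76) (nat_lit 116452900179) (nat_lit 3) (nat_lit 4) (nat_lit 4) (nat_lit 5) (nat_lit 4) (nat_lit 4) (nat_lit 258) (nat_lit 224) (nat_lit 178)) (XT.lf (nat_lit 0) (nat_lit 43332894689) (nat_lit 76) (nat_lit 141889344223) (nat_lit 76) (nat_lit 114442486193) (nat_lit 3) (nat_lit 4) (nat_lit 4) (nat_lit 5) (nat_lit 4) (nat_lit 4) (nat_lit 259) (nat_lit 224) (nat_lit 177))) (XT.nd (nat_lit 78) (nat_lit 0) (nat_lit 0) (XT.lf (nat_lit 0) (nat_lit 91115265057) (nat_lit 76) (nat_lit 139591660649) (nat_lit 76) (nat_lit 112139771118) (nat_lit 3) (nat_lit 4) (nat_lit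 4) (nat_lit 5) (nat_lit 4) (nat_lit 4) (nat_lit 260) (nat_lit 224) (nat_lit 176)) (XT.nd (nat_lit 78) (nat_lit 0) (nat_lit 0) (XT.lf (nat_lit 0) (nat_lit 146050899298) (nat_lit 76) (nat_lit 136955966582) (nat_lit 76) (nat_lit 109499701834) (nat_lit 3) (nat_lit 4) (nat_lit 4) (nat_lit 5) (nat_lit 4) (nat_lit 4) (nat_lit 261) (nat_lit 224) (nat_lit 175)) (XT.lf (nat_lit 0) (nat_lit 209214625039) (nat_lit 76) (nat_lit 133930694095) (nat_lit 76) (nat_lit 106470624810) (nat_lit 3) (nat_lit 4) (nat_lit 4) (nat_lit 5) (nat_lit 4) (nat_lit 4) (nat_lit 262) (nat_lit 224) (nat_lit 174))))) (XT.nd (nat_lit 234) (nat_lit 0) (nat_lit 0) (XT.nd (nat_lit 78) (nat_lit 0) (nat_lit 0) (XT.lf (nat_lit 0) (nat_lit 281842254305) (nat_lit 76) (nat_lit 130456653075) (nat_lit 76) (nat_lit 102993275497) (nat_lit 3) (nat_lit 4) (nat_lit 4) (nat_lit 5) (nat_lit 4) (nat_lit 4) (nat_lit 263) (nat_lit 224) (nat_lit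 173)) (XT.nd (nat_lit 78) (nat_lit 0) (nat_lit 0) (XT.lf (nat_lit 0) (nat_lit 365354762452) (nat_lit 76) (nat_lit 126465873154) (nat_lit 76) (nat_lit 98999618799) (nat_lit 3) (nat_lit 4) (nat_lit 4) (nat_lit 5) (nat_lit 4) (nat_lit 4) (nat_lit 264) (nat_lit 224) (nat_lit 172)) (XT.lf (nat_lit 0) (nat_lit 461386089857) (nat_lit 76) (nat_lit 121880273854) (nat_lit 76) (nat_lit 94411517955) (nat_lit 3) (nat_lit 4) (nat_lit 4) (nat_lit 5) (nat_lit 4) (nat_lit 4) (nat_lit 265) (nat_lit 224) (nat_lit 171)))) (XT.nd (nat_lit 78) (nat_lit 0) (nat_lit 0) (XT.lf (nat_lit 0) (nat_lit 571815110315) (nat_lit 76) (nat_lit 116610136929) (nat_lit 76) (nat_lit 89139205773) (nat_lit 3) (nat_lit 4) (nat_lit 4) (nat_lit 5) (nat_lit 4) (nat_lit 4) (nat_lit 266) (nat_lit 224) (nat_lit 170)) (XT.nd (nat_lit 78) (nat_lit 0) (nat_lit 0) (XT.lf (nat_lit 0) (nat_lit 698802391620) (nat_lit 76) (nat_lit 110552351005)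 (nat_lit 76) (nat_lit 83079528321) (nat_lit 3) (nat_lit 4) (nat_lit 4) (nat_lit 5) (nat_lit 4) (nat_lit 4) (nat_lit 267) (nat_lit 224) (nat_lit 169)) (XT.lf (nat_lit 0) (nat_lit 844832467536) (nat_lit 76) (nat_lit 103588394181) (nat_lit 76) (nat_lit 76113926691) (nat_lit 3) (nat_lit 4) (nat_lit 4) (nat_lit 5) (nat_lit 4) (nat_lit 4) (nat_lit 268) (nat_lit 224) (nat_lit 168)))))) (XT.nd (nat_lit 390) (nat_lit 152) (nat_lit 0) (XT.nd (nat_lit 156) (nat_lit 0) (nat_lit 0) (XT.nd (nat_lit 78) (nat_lit 0) (nat_lit 0) (XT.lf (nat_lit 0) (nat_lit 1012762448243) (nat_lit 76) (nat_lit 95582015130) (nat_lit 76) (nat_lit 68106117374) (nat_lit 3) (nat_lit 4) (nat_lit 4) (nat_lit 5) (nat_lit 4) (nat_lit 4) (nat_lit 269) (nat_lit 224) (nat_lit 167)) (XT.lf (nat_lit 0) (nat_lit 1205877920320) (nat_lit 76) (nat_lit 86376567305) (nat_lit 76) (nat_lit 58899425839) (nat_lit 3) (nat_lit 4) (nat_lit 4) (nat_lit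 5) (nat_lit 4) (nat_lit 4) (nat_lit 270) (nat_lit 224) (nat_lit 166))) (XT.nd (nat_lit 78) (nat_lit 0) (nat_lit 0) (XT.lf (nat_lit 0) (nat_lit 1427957229962) (nat_lit 76) (nat_lit 75791944118) (nat_lit 76) (nat_lit 48313721165) (nat_lit 3) (nat_lit 4) (nat_lit 4) (nat_lit 5) (nat_lit 4) (nat_lit 4) (nat_lit 271) (nat_lit 224) (nat_lit 165)) (XT.nd (nat_lit 78) (nat_lit 0) (nat_lit 0) (XT.lf (nat_lit 0) (nat_lit 1683345407138) (nat_lit 76) (nat_lit 63621055115) (nat_lit 76) (nat_lit 36141891739) (nat_lit 3) (nat_lit 4) (nat_lit 4) (nat_lit 5) (nat_lit 4) (nat_lit 4) (nat_lit 272) (nat_lit 224) (nat_lit 164)) (XT.lf (nat_lit 0) (nat_lit 1977039177054) (nat_lit 76) (nat_lit 49625774207) (nat_lit 76) (nat_lit 22145793071) (nat_lit 3) (nat_lit 4) (nat_lit 4) (nat_lit 5) (nat_lit 4) (nat_lit 4) (nat_lit 273) (nat_lit 224) (nat_lit 163))))) (XT.nd (nat_lit 234) (nat_lit 0) (nat_lit 0) (XT.nd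 (nat_lit 78) (nat_lit 152) (nat_lit 0) (XT.lf (nat_lit 0) (nat_lit 2314784722166) (nat_lit 76) (nat_lit 33532280681) (nat_lit 76) (nat_lit 6051588449) (nat_lit 3) (nat_lit 4) (nat_lit 4) (nat_lit 5) (nat_lit 4) (nat_lit 4) (nat_lit 274) (nat_lit 224) (nat_lit 162)) (XT.nd (nat_lit 78) (nat_lit 76) (nat_lit 0) (XT.lf (nat_lit 0) (nat_lit 11832528743) (nat_lit 152) (nat_lit 2869650788) (nat_lit 76) (nat_lit 2691034056437) (nat_lit 2) (nat_lit 5) (nat_lit 4) (nat_lit 5) (nat_lit 3) (nat_lit 4) (nat_lit 275) (nat_lit 224) (nat_lit 161)) (XT.lf (nat_lit 0) (nat_lit 33239451458) (nat_lit 152) (nat_lit 3068667825583) (nat_lit 0) (nat_lit 7793295657) (nat_lit 1) (nat_lit 5) (nat_lit 3) (nat_lit 4) (nat_lit 1) (nat_lit 4) (nat_lit 276) (nat_lit 224) (nat_lit 160)))) (XT.nd (nat_lit 78) (nat_lit 0) (nat_lit 0) (XT.lf (nat_lit 0) (nat_lit 58348879962) (nat_lit 152) (nat_lit 3482969072084) (nat_lit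 0) (nat_lit 32902291238) (nat_lit 1) (nat_lit 5) (nat_lit 3) (nat_lit 4) (nat_lit 1) (nat_lit 4) (nat_lit 277) (nat_lit 224) (nat_lit 159)) (XT.nd (nat_lit 78) (nat_lit 0) (nat_lit 0) (XT.lf (nat_lit 0) (nat_lit 87223961526) (nat_lit 152) (nat_lit 3959416968122) (nat_lit 0) (nat_lit 61776996348) (nat_lit 1) (nat_lit 5) (nat_lit 3) (nat_lit 4) (nat_lit 1) (nat_lit 4) (nat_lit 278) (nat_lit 224) (nat_lit 158)) (XT.lf (nat_lit 0) (nat_lit 120429643399) (nat_lit 152) (nat_lit 4507333320357) (nat_lit 0) (nat_lit 94982350869) (nat_lit 1) (nat_lit 5) (nat_lit 3) (nat_lit 4) (nat_lit 1) (nat_lit 4) (nat_lit 279) (nat_lit 224) (nat_lit 157))))))) (XT.nd (nat_lit 30654) (nat_lit 0) (nat_lit 912) (XT.nd (nat_lit 30186) (nat_lit 0) (nat_lit 2508) (XT.nd (nat_lit 156) (nat_lit 0) (nat_lit 0) (XT.nd (nat_lit 78) (nat_lit 0) (nat_lit 0) (XT.lf (nat_lit 0) (nat_lit 158615601965) (nat_lit 152) (nat_lit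 5137438231334) (nat_lit 0) (nat_lit 133168024781) (nat_lit 1) (nat_lit 5) (nat_lit 3) (nat_lit 4) (nat_lit 1) (nat_lit 4) (nat_lit 280) (nat_lit 224) (nat_lit 156)) (XT.lf (nat_lit 0) (nat_lit 202528953804) (nat_lit 152) (nat_lit 5862059840616) (nat_lit 0) (nat_lit 177081129095) (nat_lit 1) (nat_lit 5) (nat_lit 3) (nat_lit 4) (nat_lit 1) (nat_lit 4) (nat_lit 281) (nat_lit 224) (nat_lit 155))) (XT.nd (nat_lit 78) (nat_lit 0) (nat_lit 0) (XT.lf (nat_lit 0) (nat_lit 253028873191) (nat_lit 152) (nat_lit 6695375527514) (nat_lit 0) (nat_lit 227580833243) (nat_lit 1) (nat_lit 5) (nat_lit 3) (nat_lit 4) (nat_lit 1) (nat_lit 4) (nat_lit 282) (nat_lit 224) (nat_lit 154)) (XT.nd (nat_lit 29874) (nat_lit 0) (nat_lit 3496) (XT.lf (nat_lit 0) (nat_lit 311103402029) (nat_lit 152) (nat_lit 7653689294598) (nat_lit 0) (nat_lit 285655174916) (nat_lit 1) (nat_lit 5) (nat_lit 3) (nat_lit 4) (nat_lit 1) (nat_lit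 4) (nat_lit 283) (nat_lit 224) (nat_lit 153)) (XT.lf (nat_lit 0) (nat_lit 1258610674) (nat_lit 0) (nat_lit 1258610674) (nat_lit 380) (nat_lit 1918374318) (nat_lit 47) (nat_lit 5) (nat_lit 47) (nat_lit 3) (nat_lit 52) (nat_lit 3) (nat_lit 225) (nat_lit 225) (nat_lit 210))))) (XT.nd (nat_lit 234) (nat_lit 608) (nat_lit 0) (XT.nd (nat_lit 78) (nat_lit 380) (nat_lit 0) (XT.lf (nat_lit 76) (nat_lit 986294927) (nat_lit 0) (nat_lit 6053213182) (nat_lit 456) (nat_lit 2359610052) (nat_lit 48) (nat_lit 5) (nat_lit 47) (nat_lit 5) (nat_lit 53) (nat_lit 5) (nat_lit 226) (nat_lit 225) (nat_lit 209)) (XT.nd (nat_lit 78) (nat_lit 456) (nat_lit 0) (XT.lf (nat_lit 0) (nat_lit 9332593595) (nat_lit 380) (nat_lit 445719800) (nat_lit 456) (nat_lit 230224266) (nat_lit 48) (nat_lit 5) (nat_lit 53) (nat_lit 5) (nat_lit 54) (nat_lit 5) (nat_lit 227) (nat_lit 225) (nat_lit 208)) (XT.lf (nat_lit 0) (nat_lit 1345604774)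 (nat_lit 456) (nat_lit 1912565665) (nat_lit 532) (nat_lit 7437938930) (nat_lit 42) (nat_lit 5) (nat_lit 48) (nat_lit 5) (nat_lit 49) (nat_lit 5) (nat_lit 228) (nat_lit 225) (nat_lit 207)))) (XT.nd (nat_lit 78) (nat_lit 684) (nat_lit 0) (XT.lf (nat_lit 0) (nat_lit 3736633255) (nat_lit 456) (nat_lit 3435643521) (nat_lit 76) (nat_lit 4305533138) (nat_lit 43) (nat_lit 5) (nat_lit 49) (nat_lit 5) (nat_lit 44) (nat_lit 5) (nat_lit 229) (nat_lit 225) (nat_lit 206)) (XT.nd (nat_lit 78) (nat_lit 228) (nat_lit 0) (XT.lf (nat_lit 0) (nat_lit 6638889241) (nat_lit 532) (nat_lit 5045065631) (nat_lit 76) (nat_lit 681386810) (nat_lit 37) (nat_lit 5) (nat_lit 44) (nat_lit 5) (nat_lit 38) (nat_lit 5) (nat_lit 230) (nat_lit 225) (nat_lit 205)) (XT.lf (nat_lit 0) (nat_lit 6472205510) (nat_lit 228) (nat_lit 3793616069) (nat_lit 304) (nat_lit 3097714601) (nat_lit 34) (nat_lit 5) (nat_lit 37) (nat_lit 5) (nat_lit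 38) (nat_lit 5) (nat_lit 231) (nat_lit 225) (nat_lit 204)))))) (XT.nd (nat_lit 390) (nat_lit 684) (nat_lit 0) (XT.nd (nat_lit 156) (nat_lit 380) (nat_lit 0) (XT.nd (nat_lit 78) (nat_lit 228) (nat_lit 0) (XT.lf (nat_lit 0) (nat_lit 195819906) (nat_lit 304) (nat_lit 8997210960) (nat_lit 76) (nat_lit 5297780077) (nat_lit 30) (nat_lit 5) (nat_lit 34) (nat_lit 5) (nat_lit 31) (nat_lit 5) (nat_lit 232) (nat_lit 225) (nat_lit 203)) (XT.lf (nat_lit 0) (nat_lit 4084045149) (nat_lit 304) (nat_lit 11525632265) (nat_lit 76) (nat_lit 148812402) (nat_lit 27) (nat_lit 5) (nat_lit 31) (nat_lit 5) (nat_lit 28) (nat_lit 5) (nat_lit 233) (nat_lit 225) (nat_lit 202))) (XT.nd (nat_lit 78) (nat_lit 228) (nat_lit 0) (XT.lf (nat_lit 0) (nat_lit 2503423744) (nat_lit 152) (nat_lit 6511512287) (nat_lit 228) (nat_lit 8165043931) (nat_lit 25) (nat_lit 5) (nat_lit 27) (nat_lit 5) (nat_lit 28) (nat_lit 5) (nat_lit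 234) (nat_lit 225) (nat_lit 201)) (XT.nd (nat_lit 78) (nat_lit 76) (nat_lit 0) (XT.lf (nat_lit 0) (nat_lit 305726655) (nat_lit 152) (nat_lit 14714485205) (nat_lit 228) (nat_lit 3768061658) (nat_lit 23) (nat_lit 5) (nat_lit 25) (nat_lit 5) (nat_lit 26) (nat_lit 5) (nat_lit 235) (nat_lit 225) (nat_lit 200)) (XT.lf (nat_lit 0) (nat_lit 1738913203) (nat_lit 228) (nat_lit 2547266905) (nat_lit 76) (nat_lit 16308249863) (nat_lit 22) (nat_lit 5) (nat_lit 25) (nat_lit 5) (nat_lit 23) (nat_lit 5) (nat_lit 236) (nat_lit 225) (nat_lit 199))))) (XT.nd (nat_lit 234) (nat_lit 304) (nat_lit 0) (XT.nd (nat_lit 78) (nat_lit 228) (nat_lit 0) (XT.lf (nat_lit 0) (nat_lit 8356092197) (nat_lit 228) (nat_lit 6470330550) (nat_lit 76) (nat_lit 7796927915) (nat_lit 20) (nat_lit 5) (nat_lit 23) (nat_lit 5) (nat_lit 21) (nat_lit 5) (nat_lit 237) (nat_lit 225) (nat_lit 198)) (XT.nd (nat_lit 78) (nat_lit 76) (nat_lit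 0) (XT.lf (nat_lit 0) (nat_lit 13284240336) (nat_lit 152) (nat_lit 3113779521) (nat_lit 228) (nat_lit 8524235021) (nat_lit 18) (nat_lit 5) (nat_lit 20) (nat_lit 5) (nat_lit 21) (nat_lit 5) (nat_lit 238) (nat_lit 225) (nat_lit 197)) (XT.lf (nat_lit 0) (nat_lit 8918436555) (nat_lit 76) (nat_lit 17309774332) (nat_lit 152) (nat_lit 1291416483) (nat_lit 17) (nat_lit 5) (nat_lit 18) (nat_lit 5) (nat_lit 19) (nat_lit 4) (nat_lit 239) (nat_lit 225) (nat_lit 196)))) (XT.nd (nat_lit 78) (nat_lit 76) (nat_lit 0) (XT.lf (nat_lit 0) (nat_lit 2535986227) (nat_lit 152) (nat_lit 4564031479) (nat_lit 228) (nat_lit 23359208566) (nat_lit 14) (nat_lit 5) (nat_lit 16) (nat_lit 5) (nat_lit 17) (nat_lit 5) (nat_lit 240) (nat_lit 225) (nat_lit 195)) (XT.nd (nat_lit 78) (nat_lit 76) (nat_lit 0) (XT.lf (nat_lit 0) (nat_lit 17410401978) (nat_lit 228) (nat_lit 6224278054) (nat_lit 76) (nat_lit 10143598848) (nat_lit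 14) (nat_lit 5) (nat_lit 17) (nat_lit 5) (nat_lit 15) (nat_lit 4) (nat_lit 241) (nat_lit 225) (nat_lit 194)) (XT.lf (nat_lit 0) (nat_lit 19486368632) (nat_lit 76) (nat_lit 10320336602) (nat_lit 152) (nat_lit 7745451266) (nat_lit 13) (nat_lit 5) (nat_lit 14) (nat_lit 5) (nat_lit 15) (nat_lit 4) (nat_lit 242) (nat_lit 225) (nat_lit 193))))))))
noncomputable def xc31 : XT := (XT.nd (nat_lit 1716) (nat_lit 152) (nat_lit 0) (XT.nd (nat_lit 858) (nat_lit 152) (nat_lit 0) (XT.nd (nat_lit 390) (nat_lit 228) (nat_lit 0) (XT.nd (nat_lit 156) (nat_lit 228) (nat_lit 0) (XT.nd (nat_lit 78) (nat_lit 0) (nat_lit 0) (XT.lf (nat_lit 0) (nat_lit 2513819676) (nat_lit 152) (nat_lit 34193138391) (nat_lit 76) (nat_lit 5144911336) (nat_lit 11) (nat_lit 5) (nat_lit 13) (nat_lit 5) (nat_lit 12) (nat_lit 4) (nat_lit 243) (nat_lit 225) (nat_lit 192)) (XT.lf (nat_lit 0) (nat_lit 14643819583) (nat_lit 152) (nat_lit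 9014313246) (nat_lit 76) (nat_lit 23059156765) (nat_lit 11) (nat_lit 5) (nat_lit 13) (nat_lit 5) (nat_lit 12) (nat_lit 4) (nat_lit 244) (nat_lit 225) (nat_lit 191))) (XT.nd (nat_lit 78) (nat_lit 152) (nat_lit 0) (XT.lf (nat_lit 0) (nat_lit 20915920133) (nat_lit 76) (nat_lit 8138996041) (nat_lit 152) (nat_lit 23220749543) (nat_lit 10) (nat_lit 5) (nat_lit 11) (nat_lit 5) (nat_lit 12) (nat_lit 4) (nat_lit 245) (nat_lit 225) (nat_lit 190)) (XT.nd (nat_lit 78) (nat_lit 152) (nat_lit 0) (XT.lf (nat_lit 0) (nat_lit 46092133255) (nat_lit 152) (nat_lit 3073569437) (nat_lit 0) (nat_lit 9465000511) (nat_lit 10) (nat_lit 5) (nat_lit 12) (nat_lit 4) (nat_lit 10) (nat_lit 4) (nat_lit 246) (nat_lit 225) (nat_lit 189)) (XT.lf (nat_lit 0) (nat_lit 713089559) (nat_lit 152) (nat_lit 35175305696) (nat_lit 76) (nat_lit 29974783836) (nat_lit 8) (nat_lit 5) (nat_lit 10) (nat_lit 5) (nat_lit 9) (nat_lit 4)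 (nat_lit 247) (nat_lit 225) (nat_lit 188))))) (XT.nd (nat_lit 234) (nat_lit 152) (nat_lit 0) (XT.nd (nat_lit 78) (nat_lit 76) (nat_lit 0) (XT.lf (nat_lit 0) (nat_lit 15291913444) (nat_lit 152) (nat_lit 4878655699) (nat_lit 76) (nat_lit 53977398957) (nat_lit 8) (nat_lit 5) (nat_lit 10) (nat_lit 5) (nat_lit 9) (nat_lit 4) (nat_lit 248) (nat_lit 225) (nat_lit 187)) (XT.nd (nat_lit 78) (nat_lit 0) (nat_lit 0) (XT.lf (nat_lit 0) (nat_lit 31489153192) (nat_lit 76) (nat_lit 1298698341) (nat_lit 152) (nat_lit 50829238075) (nat_lit 7) (nat_lit 5) (nat_lit 8) (nat_lit 5) (nat_lit 9) (nat_lit 4) (nat_lit 249) (nat_lit 225) (nat_lit 186)) (XT.lf (nat_lit 0) (nat_lit 53519575734) (nat_lit 152) (nat_lit 21428014971) (nat_lit 0) (nat_lit 19510109524) (nat_lit 7) (nat_lit 5) (nat_lit 9) (nat_lit 4) (nat_lit 7) (nat_lit 4) (nat_lit 250) (nat_lit 225) (nat_lit 185)))) (XT.nd (nat_lit 78) (nat_lit 76) (nat_lit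 0) (XT.lf (nat_lit 0) (nat_lit 14527744038) (nat_lit 76) (nat_lit 63196846561) (nat_lit 76) (nat_lit 29170757558) (nat_lit 6) (nat_lit 4) (nat_lit 7) (nat_lit 5) (nat_lit 7) (nat_lit 4) (nat_lit 251) (nat_lit 225) (nat_lit 184)) (XT.nd (nat_lit 78) (nat_lit 76) (nat_lit 0) (XT.lf (nat_lit 0) (nat_lit 57137897059) (nat_lit 76) (nat_lit 49026495798) (nat_lit 76) (nat_lit 14985952193) (nat_lit 6) (nat_lit 4) (nat_lit 7) (nat_lit 5) (nat_lit 7) (nat_lit 4) (nat_lit 252) (nat_lit 225) (nat_lit 183)) (XT.lf (nat_lit 0) (nat_lit 1242512016) (nat_lit 152) (nat_lit 31468687830) (nat_lit 76) (nat_lit 104831275206) (nat_lit 5) (nat_lit 5) (nat_lit 7) (nat_lit 5) (nat_lit 6) (nat_lit 4) (nat_lit 253) (nat_lit 225) (nat_lit 182)))))) (XT.nd (nat_lit 390) (nat_lit 76) (nat_lit 0) (XT.nd (nat_lit 156) (nat_lit 0) (nat_lit 0) (XT.nd (nat_lit 78) (nat_lit 0) (nat_lit 0) (XT.lf (nat_lit 0) (nat_lit 5804010561)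 (nat_lit 76) (nat_lit 13363322679) (nat_lit 152) (nat_lit 137183015050) (nat_lit 4) (nat_lit 5) (nat_lit 5) (nat_lit 5) (nat_lit 6) (nat_lit 4) (nat_lit 254) (nat_lit 225) (nat_lit 181)) (XT.lf (nat_lit 0) (nat_lit 40920275434) (nat_lit 152) (nat_lit 127597295085) (nat_lit 0) (nat_lit 9370695142) (nat_lit 4) (nat_lit 5) (nat_lit 6) (nat_lit 4) (nat_lit 4) (nat_lit 4) (nat_lit 255) (nat_lit 225) (nat_lit 180))) (XT.nd (nat_lit 78) (nat_lit 0) (nat_lit 0) (XT.lf (nat_lit 0) (nat_lit 66293318708) (nat_lit 152) (nat_lit 101598906034) (nat_lit 0) (nat_lit 34736086132) (nat_lit 4) (nat_lit 5) (nat_lit 6) (nat_lit 4) (nat_lit 4) (nat_lit 4) (nat_lit 256) (nat_lit 225) (nat_lit 179)) (XT.nd (nat_lit 78) (nat_lit 0) (nat_lit 0) (XT.lf (nat_lit 0) (nat_lit 95461503937) (nat_lit 152) (nat_lit 71721118212) (nat_lit 0) (nat_lit 63897617203) (nat_lit 4) (nat_lit 5) (nat_lit 6) (nat_lit 4) (nat_lit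 4) (nat_lit 4) (nat_lit 257) (nat_lit 225) (nat_lit 178)) (XT.lf (nat_lit 0) (nat_lit 128995513008) (nat_lit 152) (nat_lit 37379366205) (nat_lit 0) (nat_lit 97425840048) (nat_lit 4) (nat_lit 5) (nat_lit 6) (nat_lit 4) (nat_lit 4) (nat_lit 4) (nat_lit 258) (nat_lit 225) (nat_lit 177))))) (XT.nd (nat_lit 234) (nat_lit 0) (nat_lit 0) (XT.nd (nat_lit 78) (nat_lit 0) (nat_lit 0) (XT.lf (nat_lit 0) (nat_lit 2208744158) (nat_lit 76) (nat_lit 165395822288) (nat_lit 76) (nat_lit 133821117828) (nat_lit 3) (nat_lit 4) (nat_lit 4) (nat_lit 5) (nat_lit 4) (nat_lit 4) (nat_lit 259) (nat_lit 225) (nat_lit 176)) (XT.nd (nat_lit 78) (nat_lit 0) (nat_lit 0) (XT.lf (nat_lit 0) (nat_lit 49984560255) (nat_lit 76) (nat_lit 163101228036) (nat_lit 76) (nat_lit 131522148358) (nat_lit 3) (nat_lit 4) (nat_lit 4) (nat_lit 5) (nat_lit 4) (nat_lit 4) (nat_lit 260) (nat_lit 225) (nat_lit 175)) (XT.lf (nat_lit 0) (nat_lit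 104914495130) (nat_lit 76) (nat_lit 160468220337) (nat_lit 76) (nat_lit 128885336122) (nat_lit 3) (nat_lit 4) (nat_lit 4) (nat_lit 5) (nat_lit 4) (nat_lit 4) (nat_lit 261) (nat_lit 225) (nat_lit 174)))) (XT.nd (nat_lit 78) (nat_lit 0) (nat_lit 0) (XT.lf (nat_lit 0) (nat_lit 168073264901) (nat_lit 76) (nat_lit 157445283822) (nat_lit 76) (nat_lit 125859091314) (nat_lit 3) (nat_lit 4) (nat_lit 4) (nat_lit 5) (nat_lit 4) (nat_lit 4) (nat_lit 262) (nat_lit 225) (nat_lit 173)) (XT.nd (nat_lit 78) (nat_lit 0) (nat_lit 0) (XT.lf (nat_lit 0) (nat_lit 240696584628) (nat_lit 76) (nat_lit 153973274082) (nat_lit 76) (nat_lit 122384204797) (nat_lit 3) (nat_lit 4) (nat_lit 4) (nat_lit 5) (nat_lit 4) (nat_lit 4) (nat_lit 263) (nat_lit 225) (nat_lit 172)) (XT.lf (nat_lit 0) (nat_lit 324205345350) (nat_lit 76) (nat_lit 149984260491) (nat_lit 76) (nat_lit 118392689661) (nat_lit 3) (nat_lit 4) (nat_lit 4)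 (nat_lit 5) (nat_lit 4) (nat_lit 4) (nat_lit 264) (nat_lit 225) (nat_lit 171))))))) (XT.nd (nat_lit 858) (nat_lit 152) (nat_lit 0) (XT.nd (nat_lit 390) (nat_lit 0) (nat_lit 0) (XT.nd (nat_lit 156) (nat_lit 0) (nat_lit 0) (XT.nd (nat_lit 78) (nat_lit 0) (nat_lit 0) (XT.lf (nat_lit 0) (nat_lit 420233414123) (nat_lit 76) (nat_lit 145400197131) (nat_lit 76) (nat_lit 113806451045) (nat_lit 3) (nat_lit 4) (nat_lit 4) (nat_lit 5) (nat_lit 4) (nat_lit 4) (nat_lit 265) (nat_lit 225) (nat_lit 170)) (XT.lf (nat_lit 0) (nat_lit 530659600990) (nat_lit 76) (nat_lit 140131395805) (nat_lit 76) (nat_lit 108535758192) (nat_lit 3) (nat_lit 4) (nat_lit 4) (nat_lit 5) (nat_lit 4) (nat_lit 4) (nat_lit 266) (nat_lit 225) (nat_lit 169))) (XT.nd (nat_lit 78) (nat_lit 0) (nat_lit 0) (XT.lf (nat_lit 0) (nat_lit 657644418302) (nat_lit 76) (nat_lit 134074771271) (nat_lit 76) (nat_lit 102477488852) (nat_lit 3) (nat_lit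 4) (nat_lit 4) (nat_lit 5) (nat_lit 4) (nat_lit 4) (nat_lit 267) (nat_lit 225) (nat_lit 168)) (XT.nd (nat_lit 78) (nat_lit 0) (nat_lit 0) (XT.lf (nat_lit 0) (nat_lit 803672351615) (nat_lit 76) (nat_lit 127111824353) (nat_lit 76) (nat_lit 95513111667) (nat_lit 3) (nat_lit 4) (nat_lit 4) (nat_lit 5) (nat_lit 4) (nat_lit 4) (nat_lit 268) (nat_lit 225) (nat_lit 167)) (XT.lf (nat_lit 0) (nat_lit 971600469189) (nat_lit 76) (nat_lit 119106323480) (nat_lit 76) (nat_lit 87506367084) (nat_lit 3) (nat_lit 4) (nat_lit 4) (nat_lit 5) (nat_lit 4) (nat_lit 4) (nat_lit 269) (nat_lit 225) (nat_lit 166))))) (XT.nd (nat_lit 234) (nat_lit 0) (nat_lit 0) (XT.nd (nat_lit 78) (nat_lit 0) (nat_lit 0) (XT.lf (nat_lit 0) (nat_lit 1164714321151) (nat_lit 76) (nat_lit 109901639289) (nat_lit 76) (nat_lit 78300601406) (nat_lit 3) (nat_lit 4) (nat_lit 4) (nat_lit 5) (nat_lit 4) (nat_lit 4) (nat_lit 270) (nat_lit 225)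 (nat_lit 165)) (XT.nd (nat_lit 78) (nat_lit 0) (nat_lit 0) (XT.lf (nat_lit 0) (nat_lit 1386792221997) (nat_lit 76) (nat_lit 99317680130) (nat_lit 76) (nat_lit 67715701824) (nat_lit 3) (nat_lit 4) (nat_lit 4) (nat_lit 5) (nat_lit 4) (nat_lit 4) (nat_lit 271) (nat_lit 225) (nat_lit 164)) (XT.lf (nat_lit 0) (nat_lit 1642179174132) (nat_lit 76) (nat_lit 87147368544) (nat_lit 76) (nat_lit 55544572478) (nat_lit 3) (nat_lit 4) (nat_lit 4) (nat_lit 5) (nat_lit 4) (nat_lit 4) (nat_lit 272) (nat_lit 225) (nat_lit 163)))) (XT.nd (nat_lit 78) (nat_lit 0) (nat_lit 0) (XT.lf (nat_lit 0) (nat_lit 1935871878797) (nat_lit 76) (nat_lit 73152589737) (nat_lit 76) (nat_lit 41549082576) (nat_lit 3) (nat_lit 4) (nat_lit 4) (nat_lit 5) (nat_lit 4) (nat_lit 4) (nat_lit 273) (nat_lit 225) (nat_lit 162)) (XT.nd (nat_lit 78) (nat_lit 0) (nat_lit 0) (XT.lf (nat_lit 0) (nat_lit 2273616497602) (nat_lit 76) (nat_lit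 57059532821) (nat_lit 76) (nat_lit 25455407316) (nat_lit 3) (nat_lit 4) (nat_lit 4) (nat_lit 5) (nat_lit 4) (nat_lit 4) (nat_lit 274) (nat_lit 225) (nat_lit 161)) (XT.lf (nat_lit 0) (nat_lit 2662021077438) (nat_lit 76) (nat_lit 38553333637) (nat_lit 76) (nat_lit 6948670442) (nat_lit 3) (nat_lit 4) (nat_lit 4) (nat_lit 5) (nat_lit 4) (nat_lit 4) (nat_lit 275) (nat_lit 225) (nat_lit 160)))))) (XT.nd (nat_lit 468) (nat_lit 0) (nat_lit 0) (XT.nd (nat_lit 234) (nat_lit 0) (nat_lit 0) (XT.nd (nat_lit 78) (nat_lit 76) (nat_lit 0) (XT.lf (nat_lit 0) (nat_lit 13616210841) (nat_lit 152) (nat_lit 3283412201) (nat_lit 76) (nat_lit 3094696336170) (nat_lit 2) (nat_lit 5) (nat_lit 4) (nat_lit 5) (nat_lit 3) (nat_lit 4) (nat_lit 276) (nat_lit 225) (nat_lit 159)) (XT.nd (nat_lit 78) (nat_lit 0) (nat_lit 0) (XT.lf (nat_lit 0) (nat_lit 38233565517) (nat_lit 152) (nat_lit 3528952251377) (nat_lit 0) (nat_lit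 8969179107) (nat_lit 1) (nat_lit 5) (nat_lit 3) (nat_lit 4) (nat_lit 1) (nat_lit 4) (nat_lit 277) (nat_lit 225) (nat_lit 158)) (XT.lf (nat_lit 0) (nat_lit 67108339209) (nat_lit 152) (nat_lit 4005400738946) (nat_lit 0) (nat_lit 37843625447) (nat_lit 1) (nat_lit 5) (nat_lit 3) (nat_lit 4) (nat_lit 1) (nat_lit 4) (nat_lit 278) (nat_lit 225) (nat_lit 157)))) (XT.nd (nat_lit 78) (nat_lit 0) (nat_lit 0) (XT.lf (nat_lit 0) (nat_lit 100313753366) (nat_lit 152) (nat_lit 4553317605556) (nat_lit 0) (nat_lit 71048754951) (nat_lit 1) (nat_lit 5) (nat_lit 3) (nat_lit 4) (nat_lit 1) (nat_lit 4) (nat_lit 279) (nat_lit 225) (nat_lit 156)) (XT.nd (nat_lit 78) (nat_lit 0) (nat_lit 0) (XT.lf (nat_lit 0) (nat_lit 138499479135) (nat_lit 152) (nat_lit 5183422963816) (nat_lit 0) (nat_lit 109234233195) (nat_lit 1) (nat_lit 5) (nat_lit 3) (nat_lit 4) (nat_lit 1) (nat_lit 4) (nat_lit 280) (nat_lit 225) (nat_lit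 155)) (XT.lf (nat_lit 0) (nat_lit 182412628543) (nat_lit 152) (nat_lit 5908044962039) (nat_lit 0) (nat_lit 153147167364) (nat_lit 1) (nat_lit 5) (nat_lit 3) (nat_lit 4) (nat_lit 1) (nat_lit 4) (nat_lit 281) (nat_lit 225) (nat_lit 154))))) (XT.nd (nat_lit 30108) (nat_lit 0) (nat_lit 3040) (XT.nd (nat_lit 78) (nat_lit 0) (nat_lit 0) (XT.lf (nat_lit 0) (nat_lit 232912371904) (nat_lit 152) (nat_lit 6741360987147) (nat_lit 0) (nat_lit 203646723560) (nat_lit 1) (nat_lit 5) (nat_lit 3) (nat_lit 4) (nat_lit 1) (nat_lit 4) (nat_lit 282) (nat_lit 225) (nat_lit 153)) (XT.nd (nat_lit 29952) (nat_lit 0) (nat_lit 3496) (XT.lf (nat_lit 0) (nat_lit 290986747674) (nat_lit 152) (nat_lit 7699675048327) (nat_lit 0) (nat_lit 261720936579) (nat_lit 1) (nat_lit 5) (nat_lit 3) (nat_lit 4) (nat_lit 1) (nat_lit 4) (nat_lit 283) (nat_lit 225) (nat_lit 152)) (XT.lf (nat_lit 0) (nat_lit 2175767348) (nat_lit 0) (nat_lit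 2175767348) (nat_lit 380) (nat_lit 625946676) (nat_lit 47) (nat_lit 5) (nat_lit 47) (nat_lit 3) (nat_lit 52) (nat_lit 3) (nat_lit 226) (nat_lit 226) (nat_lit 208)))) (XT.nd (nat_lit 78) (nat_lit 0) (nat_lit 0) (XT.lf (nat_lit 0) (nat_lit 40877471) (nat_lit 456) (nat_lit 7868952806) (nat_lit 532) (nat_lit 2683745951) (nat_lit 41) (nat_lit 5) (nat_lit 47) (nat_lit 5) (nat_lit 48) (nat_lit 5) (nat_lit 227) (nat_lit 226) (nat_lit 207)) (XT.nd (nat_lit 78) (nat_lit 0) (nat_lit 76) (XT.lf (nat_lit 76) (nat_lit 1080554616) (nat_lit 0) (nat_lit 477224149) (nat_lit 532) (nat_lit 9760153659) (nat_lit 42) (nat_lit 5) (nat_lit 41) (nat_lit 5) (nat_lit 48) (nat_lit 5) (nat_lit 228) (nat_lit 226) (nat_lit 206)) (XT.lf (nat_lit 0) (nat_lit 3545763248) (nat_lit 456) (nat_lit 629456516) (nat_lit 532) (nat_lit 7957020446) (nat_lit 42) (nat_lit 5) (nat_lit 48) (nat_lit 5) (nat_lit 49) (nat_lit 5) (nat_lit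 229) (nat_lit 226) (nat_lit 205))))))))
noncomputable def xc32 : XT := (XT.nd (nat_lit 1716) (nat_lit 304) (nat_lit 0) (XT.nd (nat_lit 858) (nat_lit 760) (nat_lit 0) (XT.nd (nat_lit 390) (nat_lit 760) (nat_lit 0) (XT.nd (nat_lit 156) (nat_lit 760) (nat_lit 0) (XT.nd (nat_lit 78) (nat_lit 456) (nat_lit 0) (XT.lf (nat_lit 0) (nat_lit 6061298352) (nat_lit 456) (nat_lit 2356728123) (nat_lit 76) (nat_lit 4632999453) (nat_lit 43) (nat_lit 5) (nat_lit 49) (nat_lit 5) (nat_lit 44) (nat_lit 5) (nat_lit 230) (nat_lit 226) (nat_lit 204)) (XT.lf (nat_lit 0) (nat_lit 9201238465) (nat_lit 532) (nat_lit 4207968739) (nat_lit 76) (nat_lit 679247625) (nat_lit 37) (nat_lit 5) (nat_lit 44) (nat_lit 5) (nat_lit 38) (nat_lit 5) (nat_lit 231) (nat_lit 226) (nat_lit 203))) (XT.nd (nat_lit 78) (nat_lit 532) (nat_lit 0) (XT.lf (nat_lit 0) (nat_lit 8901981040) (nat_lit 228) (nat_lit 4300989117) (nat_lit 304) (nat_lit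 2047778042) (nat_lit 34) (nat_lit 5) (nat_lit 37) (nat_lit 5) (nat_lit 38) (nat_lit 5) (nat_lit 232) (nat_lit 226) (nat_lit 202)) (XT.nd (nat_lit 78) (nat_lit 228) (nat_lit 0) (XT.lf (nat_lit 0) (nat_lit 1513238705) (nat_lit 304) (nat_lit 8833026079) (nat_lit 76) (nat_lit 6210666503) (nat_lit 30) (nat_lit 5) (nat_lit 34) (nat_lit 5) (nat_lit 31) (nat_lit 5) (nat_lit 233) (nat_lit 226) (nat_lit 201)) (XT.lf (nat_lit 0) (nat_lit 5855602366) (nat_lit 304) (nat_lit 11778284108) (nat_lit 76) (nat_lit 391784575) (nat_lit 27) (nat_lit 5) (nat_lit 31) (nat_lit 5) (nat_lit 28) (nat_lit 5) (nat_lit 234) (nat_lit 226) (nat_lit 200))))) (XT.nd (nat_lit 234) (nat_lit 380) (nat_lit 0) (XT.nd (nat_lit 78) (nat_lit 228) (nat_lit 0) (XT.lf (nat_lit 0) (nat_lit 4230177917) (nat_lit 152) (nat_lit 7177278883) (nat_lit 228) (nat_lit 8262927115) (nat_lit 25) (nat_lit 5) (nat_lit 27) (nat_lit 5) (nat_lit 28)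 (nat_lit 5) (nat_lit 235) (nat_lit 226) (nat_lit 199)) (XT.nd (nat_lit 78) (nat_lit 76) (nat_lit 0) (XT.lf (nat_lit 0) (nat_lit 1660868274) (nat_lit 152) (nat_lit 16554958397) (nat_lit 228) (nat_lit 3312350266) (nat_lit 23) (nat_lit 5) (nat_lit 25) (nat_lit 5) (nat_lit 26) (nat_lit 5) (nat_lit 236) (nat_lit 226) (nat_lit 198)) (XT.lf (nat_lit 0) (nat_lit 2843098059) (nat_lit 228) (nat_lit 1744081234) (nat_lit 76) (nat_lit 19026587469) (nat_lit 22) (nat_lit 5) (nat_lit 25) (nat_lit 5) (nat_lit 23) (nat_lit 5) (nat_lit 237) (nat_lit 226) (nat_lit 197)))) (XT.nd (nat_lit 78) (nat_lit 228) (nat_lit 0) (XT.lf (nat_lit 0) (nat_lit 10376773531) (nat_lit 228) (nat_lit 6300953423) (nat_lit 76) (nat_lit 9275692841) (nat_lit 20) (nat_lit 5) (nat_lit 23) (nat_lit 5) (nat_lit 21) (nat_lit 5) (nat_lit 238) (nat_lit 226) (nat_lit 196)) (XT.nd (nat_lit 78) (nat_lit 76) (nat_lit 0) (XT.lf (nat_lit 0)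 (nat_lit 16320313977) (nat_lit 152) (nat_lit 3229692691) (nat_lit 228) (nat_lit 9053419329) (nat_lit 18) (nat_lit 5) (nat_lit 20) (nat_lit 5) (nat_lit 21) (nat_lit 5) (nat_lit 239) (nat_lit 226) (nat_lit 195)) (XT.lf (nat_lit 0) (nat_lit 11255915628) (nat_lit 76) (nat_lit 19539899671) (nat_lit 152) (nat_lit 799534697) (nat_lit 17) (nat_lit 5) (nat_lit 18) (nat_lit 5) (nat_lit 19) (nat_lit 4) (nat_lit 240) (nat_lit 226) (nat_lit 194)))))) (XT.nd (nat_lit 390) (nat_lit 304) (nat_lit 0) (XT.nd (nat_lit 156) (nat_lit 228) (nat_lit 0) (XT.nd (nat_lit 78) (nat_lit 0) (nat_lit 0) (XT.lf (nat_lit 0) (nat_lit 3864185282) (nat_lit 152) (nat_lit 4889975856) (nat_lit 228) (nat_lit 26225568492) (nat_lit 14) (nat_lit 5) (nat_lit 16) (nat_lit 5) (nat_lit 17) (nat_lit 5) (nat_lit 241) (nat_lit 226) (nat_lit 193)) (XT.lf (nat_lit 0) (nat_lit 20541759289) (nat_lit 228) (nat_lit 6299175489) (nat_lit 76)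 (nat_lit 11961415808) (nat_lit 14) (nat_lit 5) (nat_lit 17) (nat_lit 5) (nat_lit 15) (nat_lit 4) (nat_lit 242) (nat_lit 226) (nat_lit 192))) (XT.nd (nat_lit 78) (nat_lit 152) (nat_lit 0) (XT.lf (nat_lit 0) (nat_lit 23195379775) (nat_lit 76) (nat_lit 11553233310) (nat_lit 152) (nat_lit 8397750059) (nat_lit 13) (nat_lit 5) (nat_lit 14) (nat_lit 5) (nat_lit 15) (nat_lit 4) (nat_lit 243) (nat_lit 226) (nat_lit 191)) (XT.nd (nat_lit 78) (nat_lit 0) (nat_lit 0) (XT.lf (nat_lit 0) (nat_lit 3337005866) (nat_lit 152) (nat_lit 38549926664) (nat_lit 76) (nat_lit 6206267623) (nat_lit 11) (nat_lit 5) (nat_lit 13) (nat_lit 5) (nat_lit 12) (nat_lit 4) (nat_lit 244) (nat_lit 226) (nat_lit 190)) (XT.lf (nat_lit 0) (nat_lit 17228317075) (nat_lit 152) (nat_lit 9694997202) (nat_lit 76) (nat_lit 26769873399) (nat_lit 11) (nat_lit 5) (nat_lit 13) (nat_lit 5) (nat_lit 12) (nat_lit 4) (nat_lit 245) (nat_lit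 226) (nat_lit 189))))) (XT.nd (nat_lit 234) (nat_lit 76) (nat_lit 0) (XT.nd (nat_lit 78) (nat_lit 152) (nat_lit 0) (XT.lf (nat_lit 0) (nat_lit 24667935183) (nat_lit 76) (nat_lit 9097325912) (nat_lit 152) (nat_lit 26323010756) (nat_lit 10) (nat_lit 5) (nat_lit 11) (nat_lit 5) (nat_lit 12) (nat_lit 4) (nat_lit 246) (nat_lit 226) (nat_lit 188)) (XT.nd (nat_lit 78) (nat_lit 152) (nat_lit 0) (XT.lf (nat_lit 0) (nat_lit 53317623761) (nat_lit 152) (nat_lit 2980642112) (nat_lit 0) (nat_lit 11101609062) (nat_lit 10) (nat_lit 5) (nat_lit 12) (nat_lit 4) (nat_lit 10) (nat_lit 4) (nat_lit 247) (nat_lit 226) (nat_lit 187)) (XT.lf (nat_lit 0) (nat_lit 1111035244) (nat_lit 152) (nat_lit 39928803724) (nat_lit 76) (nat_lit 34679135744) (nat_lit 8) (nat_lit 5) (nat_lit 10) (nat_lit 5) (nat_lit 9) (nat_lit 4) (nat_lit 248) (nat_lit 226) (nat_lit 186)))) (XT.nd (nat_lit 78) (nat_lit 76) (nat_lit 0) (XT.lf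 (nat_lit 0) (nat_lit 17838728506) (nat_lit 152) (nat_lit 5155847249) (nat_lit 76) (nat_lit 62254995177) (nat_lit 8) (nat_lit 5) (nat_lit 10) (nat_lit 5) (nat_lit 9) (nat_lit 4) (nat_lit 249) (nat_lit 226) (nat_lit 185)) (XT.nd (nat_lit 78) (nat_lit 0) (nat_lit 0) (XT.lf (nat_lit 0) (nat_lit 36628652775) (nat_lit 76) (nat_lit 1307408730) (nat_lit 152) (nat_lit 58204884494) (nat_lit 7) (nat_lit 5) (nat_lit 8) (nat_lit 5) (nat_lit 9) (nat_lit 4) (nat_lit 250) (nat_lit 226) (nat_lit 184)) (XT.lf (nat_lit 0) (nat_lit 61751431934) (nat_lit 152) (nat_lit 24267992799) (nat_lit 0) (nat_lit 22590352186) (nat_lit 7) (nat_lit 5) (nat_lit 9) (nat_lit 4) (nat_lit 7) (nat_lit 4) (nat_lit 251) (nat_lit 226) (nat_lit 183))))))) (XT.nd (nat_lit 858) (nat_lit 0) (nat_lit 0) (XT.nd (nat_lit 390) (nat_lit 76) (nat_lit 0) (XT.nd (nat_lit 156) (nat_lit 152) (nat_lit 0) (XT.nd (nat_lit 78) (nat_lit 0) (nat_lit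 0) (XT.lf (nat_lit 0) (nat_lit 17049453829) (nat_lit 76) (nat_lit 72519385252) (nat_lit 76) (nat_lit 33345736285) (nat_lit 6) (nat_lit 4) (nat_lit 7) (nat_lit 5) (nat_lit 7) (nat_lit 4) (nat_lit 252) (nat_lit 226) (nat_lit 182)) (XT.lf (nat_lit 0) (nat_lit 66006449605) (nat_lit 76) (nat_lit 56243958608) (nat_lit 76) (nat_lit 17059379885) (nat_lit 6) (nat_lit 4) (nat_lit 7) (nat_lit 5) (nat_lit 7) (nat_lit 4) (nat_lit 253) (nat_lit 226) (nat_lit 181))) (XT.nd (nat_lit 78) (nat_lit 76) (nat_lit 0) (XT.lf (nat_lit 0) (nat_lit 1573008543) (nat_lit 152) (nat_lit 35922225087) (nat_lit 76) (nat_lit 120666921914) (nat_lit 5) (nat_lit 5) (nat_lit 7) (nat_lit 5) (nat_lit 6) (nat_lit 4) (nat_lit 254) (nat_lit 226) (nat_lit 180)) (XT.nd (nat_lit 78) (nat_lit 0) (nat_lit 0) (XT.lf (nat_lit 0) (nat_lit 6918797656) (nat_lit 76) (nat_lit 15254829738) (nat_lit 152) (nat_lit 157618637444) (nat_lit 4) (nat_lit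 5) (nat_lit 5) (nat_lit 5) (nat_lit 6) (nat_lit 4) (nat_lit 255) (nat_lit 226) (nat_lit 179)) (XT.lf (nat_lit 0) (nat_lit 47174761629) (nat_lit 152) (nat_lit 146517668685) (nat_lit 0) (nat_lit 10869637725) (nat_lit 4) (nat_lit 5) (nat_lit 6) (nat_lit 4) (nat_lit 4) (nat_lit 4) (nat_lit 256) (nat_lit 226) (nat_lit 178))))) (XT.nd (nat_lit 234) (nat_lit 76) (nat_lit 0) (XT.nd (nat_lit 78) (nat_lit 0) (nat_lit 0) (XT.lf (nat_lit 0) (nat_lit 76338572931) (nat_lit 152) (nat_lit 116648115276) (nat_lit 0) (nat_lit 40027662802) (nat_lit 4) (nat_lit 5) (nat_lit 6) (nat_lit 4) (nat_lit 4) (nat_lit 4) (nat_lit 257) (nat_lit 226) (nat_lit 177)) (XT.nd (nat_lit 78) (nat_lit 0) (nat_lit 0) (XT.lf (nat_lit 0) (nat_lit 109868778587) (nat_lit 152) (nat_lit 82313523628) (nat_lit 0) (nat_lit 73552836957) (nat_lit 4) (nat_lit 5) (nat_lit 6) (nat_lit 4) (nat_lit 4) (nat_lit 4) (nat_lit 258) (nat_lit 226)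 (nat_lit 176)) (XT.lf (nat_lit 0) (nat_lit 148421404358) (nat_lit 152) (nat_lit 42842129991) (nat_lit 0) (nat_lit 112101087510) (nat_lit 4) (nat_lit 5) (nat_lit 6) (nat_lit 4) (nat_lit 4) (nat_lit 4) (nat_lit 259) (nat_lit 226) (nat_lit 175)))) (XT.nd (nat_lit 78) (nat_lit 0) (nat_lit 0) (XT.lf (nat_lit 0) (nat_lit 2671996096) (nat_lit 76) (nat_lit 190143006222) (nat_lit 76) (nat_lit 153818884838) (nat_lit 3) (nat_lit 4) (nat_lit 4) (nat_lit 5) (nat_lit 4) (nat_lit 4) (nat_lit 260) (nat_lit 226) (nat_lit 174)) (XT.nd (nat_lit 78) (nat_lit 0) (nat_lit 0) (XT.lf (nat_lit 0) (nat_lit 57596975001) (nat_lit 76) (nat_lit 187512334495) (nat_lit 76) (nat_lit 151184904817) (nat_lit 3) (nat_lit 4) (nat_lit 4) (nat_lit 5) (nat_lit 4) (nat_lit 4) (nat_lit 261) (nat_lit 226) (nat_lit 173)) (XT.lf (nat_lit 0) (nat_lit 120751435233) (nat_lit 76) (nat_lit 184491429260) (nat_lit 76) (nat_lit 148161122806)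 (nat_lit 3) (nat_lit 4) (nat_lit 4) (nat_lit 5) (nat_lit 4) (nat_lit 4) (nat_lit 262) (nat_lit 226) (nat_lit 172)))))) (XT.nd (nat_lit 390) (nat_lit 0) (nat_lit 0) (XT.nd (nat_lit 156) (nat_lit 0) (nat_lit 0) (XT.nd (nat_lit 78) (nat_lit 0) (nat_lit 0) (XT.lf (nat_lit 0) (nat_lit 193371007535) (nat_lit 76) (nat_lit 181021185850) (nat_lit 76) (nat_lit 144688377851) (nat_lit 3) (nat_lit 4) (nat_lit 4) (nat_lit 5) (nat_lit 4) (nat_lit 4) (nat_lit 263) (nat_lit 226) (nat_lit 171)) (XT.lf (nat_lit 0) (nat_lit 276876509626) (nat_lit 76) (nat_lit 177033708198) (nat_lit 76) (nat_lit 140698724943) (nat_lit 3) (nat_lit 4) (nat_lit 4) (nat_lit 5) (nat_lit 4) (nat_lit 4) (nat_lit 264) (nat_lit 226) (nat_lit 170))) (XT.nd (nat_lit 78) (nat_lit 0) (nat_lit 0) (XT.lf (nat_lit 0) (nat_lit 372901744807) (nat_lit 76) (nat_lit 172450980437) (nat_lit 76) (nat_lit 136114105655) (nat_lit 3) (nat_lit 4) (nat_lit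 4) (nat_lit 5) (nat_lit 4) (nat_lit 4) (nat_lit 265) (nat_lit 226) (nat_lit 169)) (XT.nd (nat_lit 78) (nat_lit 0) (nat_lit 0) (XT.lf (nat_lit 0) (nat_lit 483325467681) (nat_lit 76) (nat_lit 167183340503) (nat_lit 76) (nat_lit 130844820914) (nat_lit 3) (nat_lit 4) (nat_lit 4) (nat_lit 5) (nat_lit 4) (nat_lit 4) (nat_lit 266) (nat_lit 226) (nat_lit 168)) (XT.lf (nat_lit 0) (nat_lit 610308142390) (nat_lit 76) (nat_lit 161127725874) (nat_lit 76) (nat_lit 124787776018) (nat_lit 3) (nat_lit 4) (nat_lit 4) (nat_lit 5) (nat_lit 4) (nat_lit 4) (nat_lit 267) (nat_lit 226) (nat_lit 167))))) (XT.nd (nat_lit 234) (nat_lit 0) (nat_lit 0) (XT.nd (nat_lit 78) (nat_lit 0) (nat_lit 0) (XT.lf (nat_lit 0) (nat_lit 756334212570) (nat_lit 76) (nat_lit 154165657134) (nat_lit 76) (nat_lit 117824463569) (nat_lit 3) (nat_lit 4) (nat_lit 4) (nat_lit 5) (nat_lit 4) (nat_lit 4) (nat_lit 268) (nat_lit 226) (nat_lit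 166)) (XT.nd (nat_lit 78) (nat_lit 0) (nat_lit 0) (XT.lf (nat_lit 0) (nat_lit 924260710029) (nat_lit 76) (nat_lit 146160919895) (nat_lit 76) (nat_lit 109818644842) (nat_lit 3) (nat_lit 4) (nat_lit 4) (nat_lit 5) (nat_lit 4) (nat_lit 4) (nat_lit 269) (nat_lit 226) (nat_lit 165)) (XT.lf (nat_lit 0) (nat_lit 1117373153195) (nat_lit 76) (nat_lit 136956899732) (nat_lit 76) (nat_lit 100613684256) (nat_lit 3) (nat_lit 4) (nat_lit 4) (nat_lit 5) (nat_lit 4) (nat_lit 4) (nat_lit 270) (nat_lit 226) (nat_lit 164)))) (XT.nd (nat_lit 78) (nat_lit 0) (nat_lit 0) (XT.lf (nat_lit 0) (nat_lit 1339449829000) (nat_lit 76) (nat_lit 126373517990) (nat_lit 76) (nat_lit 90029484755) (nat_lit 3) (nat_lit 4) (nat_lit 4) (nat_lit 5) (nat_lit 4) (nat_lit 4) (nat_lit 271) (nat_lit 226) (nat_lit 163)) (XT.nd (nat_lit 78) (nat_lit 0) (nat_lit 0) (XT.lf (nat_lit 0) (nat_lit 1594835715884) (nat_lit 76) (nat_lit 114203708505)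 (nat_lit 76) (nat_lit 77858964175) (nat_lit 3) (nat_lit 4) (nat_lit 4) (nat_lit 5) (nat_lit 4) (nat_lit 4) (nat_lit 272) (nat_lit 226) (nat_lit 162)) (XT.lf (nat_lit 0) (nat_lit 1888527494242) (nat_lit 76) (nat_lit 100209366308) (nat_lit 76) (nat_lit 63864003634) (nat_lit 3) (nat_lit 4) (nat_lit 4) (nat_lit 5) (nat_lit 4) (nat_lit 4) (nat_lit 273) (nat_lit 226) (nat_lit 161))))))))
noncomputable def xc33 : XT := (XT.nd (nat_lit 31668) (nat_lit 0) (nat_lit 228) (XT.nd (nat_lit 30810) (nat_lit 0) (nat_lit 1596) (XT.nd (nat_lit 390) (nat_lit 0) (nat_lit 0) (XT.nd (nat_lit 156) (nat_lit 152) (nat_lit 0) (XT.nd (nat_lit 78) (nat_lit 0) (nat_lit 0) (XT.lf (nat_lit 0) (nat_lit 2226271307564) (nat_lit 76) (nat_lit 84116689052) (nat_lit 76) (nat_lit 47770788688) (nat_lit 3) (nat_lit 4) (nat_lit 4) (nat_lit 5) (nat_lit 4) (nat_lit 4) (nat_lit 274) (nat_lit 226) (nat_lit 160)) (XT.lf (nat_lit 0)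 (nat_lit 2614675186979) (nat_lit 76) (nat_lit 65610820008) (nat_lit 76) (nat_lit 29264452088) (nat_lit 3) (nat_lit 4) (nat_lit 4) (nat_lit 5) (nat_lit 4) (nat_lit 4) (nat_lit 275) (nat_lit 226) (nat_lit 159))) (XT.nd (nat_lit 78) (nat_lit 152) (nat_lit 0) (XT.lf (nat_lit 0) (nat_lit 3061338338825) (nat_lit 76) (nat_lit 44329687826) (nat_lit 76) (nat_lit 7982913334) (nat_lit 3) (nat_lit 4) (nat_lit 4) (nat_lit 5) (nat_lit 4) (nat_lit 4) (nat_lit 276) (nat_lit 226) (nat_lit 158)) (XT.nd (nat_lit 78) (nat_lit 76) (nat_lit 0) (XT.lf (nat_lit 0) (nat_lit 15665298639) (nat_lit 152) (nat_lit 3763306862) (nat_lit 76) (nat_lit 3558906209103) (nat_lit 2) (nat_lit 5) (nat_lit 4) (nat_lit 5) (nat_lit 3) (nat_lit 4) (nat_lit 277) (nat_lit 226) (nat_lit 157)) (XT.lf (nat_lit 0) (nat_lit 43974797955) (nat_lit 152) (nat_lit 4058283181300) (nat_lit 0) (nat_lit 10319765124) (nat_lit 1) (nat_lit 5) (nat_lit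 3) (nat_lit 4) (nat_lit 1) (nat_lit 4) (nat_lit 278) (nat_lit 226) (nat_lit 156))))) (XT.nd (nat_lit 234) (nat_lit 0) (nat_lit 0) (XT.nd (nat_lit 78) (nat_lit 0) (nat_lit 0) (XT.lf (nat_lit 0) (nat_lit 77179979316) (nat_lit 152) (nat_lit 4606200495193) (nat_lit 0) (nat_lit 43524698960) (nat_lit 1) (nat_lit 5) (nat_lit 3) (nat_lit 4) (nat_lit 1) (nat_lit 4) (nat_lit 279) (nat_lit 226) (nat_lit 155)) (XT.nd (nat_lit 78) (nat_lit 0) (nat_lit 0) (XT.lf (nat_lit 0) (nat_lit 115365502655) (nat_lit 152) (nat_lit 5236306242394) (nat_lit 0) (nat_lit 81710007059) (nat_lit 1) (nat_lit 5) (nat_lit 3) (nat_lit 4) (nat_lit 1) (nat_lit 4) (nat_lit 280) (nat_lit 226) (nat_lit 154)) (XT.lf (nat_lit 0) (nat_lit 159278476035) (nat_lit 152) (nat_lit 5960928578827) (nat_lit 0) (nat_lit 125622793276) (nat_lit 1) (nat_lit 5) (nat_lit 3) (nat_lit 4) (nat_lit 1) (nat_lit 4) (nat_lit 281) (nat_lit 226) (nat_lit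 153)))) (XT.nd (nat_lit 78) (nat_lit 0) (nat_lit 0) (XT.lf (nat_lit 0) (nat_lit 209778066329) (nat_lit 152) (nat_lit 6794244898031) (nat_lit 0) (nat_lit 176122220817) (nat_lit 1) (nat_lit 5) (nat_lit 3) (nat_lit 4) (nat_lit 1) (nat_lit 4) (nat_lit 282) (nat_lit 226) (nat_lit 152)) (XT.nd (nat_lit 30030) (nat_lit 0) (nat_lit 2964) (XT.lf (nat_lit 0) (nat_lit 267852308997) (nat_lit 152) (nat_lit 7752559214946) (nat_lit 0) (nat_lit 234196321962) (nat_lit 1) (nat_lit 5) (nat_lit 3) (nat_lit 4) (nat_lit 1) (nat_lit 4) (nat_lit 283) (nat_lit 226) (nat_lit 151)) (XT.lf (nat_lit 0) (nat_lit 451245499) (nat_lit 532) (nat_lit 2589297736) (nat_lit 532) (nat_lit 2589297736) (nat_lit 40) (nat_lit 3) (nat_lit 47) (nat_lit 3) (nat_lit 47) (nat_lit 5) (nat_lit 227) (nat_lit 227) (nat_lit 206)))))) (XT.nd (nat_lit 390) (nat_lit 1140) (nat_lit 0) (XT.nd (nat_lit 156) (nat_lit 304) (nat_lit 0) (XT.nd (nat_lit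 78) (nat_lit 0) (nat_lit 0) (XT.lf (nat_lit 0) (nat_lit 2027112074) (nat_lit 456) (nat_lit 7733202772) (nat_lit 532) (nat_lit 2255469434) (nat_lit 41) (nat_lit 5) (nat_lit 47) (nat_lit 5) (nat_lit 48) (nat_lit 5) (nat_lit 228) (nat_lit 227) (nat_lit 205)) (XT.lf (nat_lit 76) (nat_lit 2447330050) (nat_lit 0) (nat_lit 1094917087) (nat_lit 532) (nat_lit 9325989162) (nat_lit 42) (nat_lit 5) (nat_lit 41) (nat_lit 5) (nat_lit 48) (nat_lit 5) (nat_lit 229) (nat_lit 227) (nat_lit 204))) (XT.nd (nat_lit 78) (nat_lit 380) (nat_lit 0) (XT.lf (nat_lit 76) (nat_lit 487660792) (nat_lit 0) (nat_lit 5112710513) (nat_lit 532) (nat_lit 8223518612) (nat_lit 43) (nat_lit 5) (nat_lit 42) (nat_lit 5) (nat_lit 49) (nat_lit 5) (nat_lit 230) (nat_lit 227) (nat_lit 203)) (XT.nd (nat_lit 78) (nat_lit 456) (nat_lit 0) (XT.lf (nat_lit 0) (nat_lit 8304459161) (nat_lit 456) (nat_lit 1504746283) (nat_lit 76) (nat_lit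 5087220708) (nat_lit 43) (nat_lit 5) (nat_lit 49) (nat_lit 5) (nat_lit 44) (nat_lit 5) (nat_lit 231) (nat_lit 227) (nat_lit 202)) (XT.lf (nat_lit 0) (nat_lit 11765935266) (nat_lit 532) (nat_lit 3633979372) (nat_lit 76) (nat_lit 702233290) (nat_lit 37) (nat_lit 5) (nat_lit 44) (nat_lit 5) (nat_lit 38) (nat_lit 5) (nat_lit 232) (nat_lit 227) (nat_lit 201))))) (XT.nd (nat_lit 234) (nat_lit 380) (nat_lit 0) (XT.nd (nat_lit 78) (nat_lit 532) (nat_lit 0) (XT.lf (nat_lit 0) (nat_lit 11340449994) (nat_lit 228) (nat_lit 4899506587) (nat_lit 304) (nat_lit 1209694277) (nat_lit 34) (nat_lit 5) (nat_lit 37) (nat_lit 5) (nat_lit 38) (nat_lit 5) (nat_lit 233) (nat_lit 227) (nat_lit 200)) (XT.nd (nat_lit 78) (nat_lit 228) (nat_lit 0) (XT.lf (nat_lit 0) (nat_lit 2714172194) (nat_lit 304) (nat_lit 9013355019) (nat_lit 76) (nat_lit 7231657340) (nat_lit 30) (nat_lit 5) (nat_lit 34) (nat_lit 5) (nat_lit 31)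 (nat_lit 5) (nat_lit 234) (nat_lit 227) (nat_lit 199)) (XT.lf (nat_lit 0) (nat_lit 7610275761) (nat_lit 304) (nat_lit 12428812738) (nat_lit 76) (nat_lit 617395598) (nat_lit 27) (nat_lit 5) (nat_lit 31) (nat_lit 5) (nat_lit 28) (nat_lit 5) (nat_lit 235) (nat_lit 227) (nat_lit 198)))) (XT.nd (nat_lit 78) (nat_lit 228) (nat_lit 0) (XT.lf (nat_lit 0) (nat_lit 5886436637) (nat_lit 152) (nat_lit 8018740094) (nat_lit 228) (nat_lit 8650287993) (nat_lit 25) (nat_lit 5) (nat_lit 27) (nat_lit 5) (nat_lit 28) (nat_lit 5) (nat_lit 236) (nat_lit 227) (nat_lit 197)) (XT.nd (nat_lit 78) (nat_lit 76) (nat_lit 0) (XT.lf (nat_lit 0) (nat_lit 2900004277) (nat_lit 152) (nat_lit 18760924585) (nat_lit 228) (nat_lit 3037240128) (nat_lit 23) (nat_lit 5) (nat_lit 25) (nat_lit 5) (nat_lit 26) (nat_lit 5) (nat_lit 237) (nat_lit 227) (nat_lit 196)) (XT.lf (nat_lit 0) (nat_lit 3907254922) (nat_lit 228) (nat_lit 1109454698)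 (nat_lit 76) (nat_lit 22086322378) (nat_lit 22) (nat_lit 5) (nat_lit 25) (nat_lit 5) (nat_lit 23) (nat_lit 5) (nat_lit 238) (nat_lit 227) (nat_lit 195))))))) (XT.nd (nat_lit 858) (nat_lit 304) (nat_lit 0) (XT.nd (nat_lit 390) (nat_lit 456) (nat_lit 0) (XT.nd (nat_lit 156) (nat_lit 304) (nat_lit 0) (XT.nd (nat_lit 78) (nat_lit 152) (nat_lit 0) (XT.lf (nat_lit 0) (nat_lit 12513454025) (nat_lit 228) (nat_lit 6384148074) (nat_lit 76) (nat_lit 10900865852) (nat_lit 20) (nat_lit 5) (nat_lit 23) (nat_lit 5) (nat_lit 21) (nat_lit 5) (nat_lit 239) (nat_lit 227) (nat_lit 194)) (XT.lf (nat_lit 0) (nat_lit 19557349801) (nat_lit 152) (nat_lit 3448623904) (nat_lit 228) (nat_lit 9844739643) (nat_lit 18) (nat_lit 5) (nat_lit 20) (nat_lit 5) (nat_lit 21) (nat_lit 5) (nat_lit 240) (nat_lit 227) (nat_lit 193))) (XT.nd (nat_lit 78) (nat_lit 228) (nat_lit 0) (XT.lf (nat_lit 0) (nat_lit 13700230073) (nat_lit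 76) (nat_lit 22193878337) (nat_lit 152) (nat_lit 401057146) (nat_lit 17) (nat_lit 5) (nat_lit 18) (nat_lit 5) (nat_lit 19) (nat_lit 4) (nat_lit 241) (nat_lit 227) (nat_lit 192)) (XT.nd (nat_lit 78) (nat_lit 0) (nat_lit 0) (XT.lf (nat_lit 0) (nat_lit 5160486890) (nat_lit 152) (nat_lit 5352273485) (nat_lit 228) (nat_lit 29677346028) (nat_lit 14) (nat_lit 5) (nat_lit 16) (nat_lit 5) (nat_lit 17) (nat_lit 5) (nat_lit 242) (nat_lit 227) (nat_lit 191)) (XT.lf (nat_lit 0) (nat_lit 24016064402) (nat_lit 228) (nat_lit 6594717768) (nat_lit 76) (nat_lit 13979656256) (nat_lit 14) (nat_lit 5) (nat_lit 17) (nat_lit 5) (nat_lit 15) (nat_lit 4) (nat_lit 243) (nat_lit 227) (nat_lit 190))))) (XT.nd (nat_lit 234) (nat_lit 228) (nat_lit 0) (XT.nd (nat_lit 78) (nat_lit 152) (nat_lit 0) (XT.lf (nat_lit 0) (nat_lit 27269057893) (nat_lit 76) (nat_lit 13047916770) (nat_lit 152) (nat_lit 9272143080) (nat_lit 13)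 (nat_lit 5) (nat_lit 14) (nat_lit 5) (nat_lit 15) (nat_lit 4) (nat_lit 244) (nat_lit 227) (nat_lit 189)) (XT.nd (nat_lit 78) (nat_lit 0) (nat_lit 0) (XT.lf (nat_lit 0) (nat_lit 4174882446) (nat_lit 152) (nat_lit 43748534768) (nat_lit 76) (nat_lit 7356201784) (nat_lit 11) (nat_lit 5) (nat_lit 13) (nat_lit 5) (nat_lit 12) (nat_lit 4) (nat_lit 245) (nat_lit 227) (nat_lit 188)) (XT.lf (nat_lit 0) (nat_lit 20105891332) (nat_lit 152) (nat_lit 10641524264) (nat_lit 76) (nat_lit 30975783989) (nat_lit 11) (nat_lit 5) (nat_lit 13) (nat_lit 5) (nat_lit 12) (nat_lit 4) (nat_lit 246) (nat_lit 227) (nat_lit 187)))) (XT.nd (nat_lit 78) (nat_lit 152) (nat_lit 0) (XT.lf (nat_lit 0) (nat_lit 28832871796) (nat_lit 76) (nat_lit 10263422315) (nat_lit 152) (nat_lit 29983484133) (nat_lit 10) (nat_lit 5) (nat_lit 11) (nat_lit 5) (nat_lit 12) (nat_lit 4) (nat_lit 247) (nat_lit 227) (nat_lit 186)) (XT.nd (nat_lit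 78) (nat_lit 152) (nat_lit 0) (XT.lf (nat_lit 0) (nat_lit 61550935014) (nat_lit 152) (nat_lit 3008863010) (nat_lit 0) (nat_lit 12930826582) (nat_lit 10) (nat_lit 5) (nat_lit 12) (nat_lit 4) (nat_lit 10) (nat_lit 4) (nat_lit 248) (nat_lit 227) (nat_lit 185)) (XT.lf (nat_lit 0) (nat_lit 1497714918) (nat_lit 152) (nat_lit 45522814017) (nat_lit 76) (nat_lit 40038385562) (nat_lit 8) (nat_lit 5) (nat_lit 10) (nat_lit 5) (nat_lit 9) (nat_lit 4) (nat_lit 249) (nat_lit 227) (nat_lit 184)))))) (XT.nd (nat_lit 390) (nat_lit 152) (nat_lit 0) (XT.nd (nat_lit 156) (nat_lit 76) (nat_lit 0) (XT.nd (nat_lit 78) (nat_lit 76) (nat_lit 0) (XT.lf (nat_lit 0) (nat_lit 20705863335) (nat_lit 152) (nat_lit 5585476279) (nat_lit 76) (nat_lit 71730096155) (nat_lit 8) (nat_lit 5) (nat_lit 10) (nat_lit 5) (nat_lit 9) (nat_lit 4) (nat_lit 250) (nat_lit 227) (nat_lit 183)) (XT.lf (nat_lit 0) (nat_lit 42437602188) (nat_lit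 76) (nat_lit 1362805966) (nat_lit 152) (nat_lit 66747534528) (nat_lit 7) (nat_lit 5) (nat_lit 8) (nat_lit 5) (nat_lit 9) (nat_lit 4) (nat_lit 251) (nat_lit 227) (nat_lit 182))) (XT.nd (nat_lit 78) (nat_lit 76) (nat_lit 0) (XT.lf (nat_lit 0) (nat_lit 71168339419) (nat_lit 152) (nat_lit 27625224296) (nat_lit 0) (nat_lit 26095144132) (nat_lit 7) (nat_lit 5) (nat_lit 9) (nat_lit 4) (nat_lit 7) (nat_lit 4) (nat_lit 252) (nat_lit 227) (nat_lit 181)) (XT.nd (nat_lit 78) (nat_lit 0) (nat_lit 0) (XT.lf (nat_lit 0) (nat_lit 19865887544) (nat_lit 76) (nat_lit 83278587336) (nat_lit 76) (nat_lit 38195887913) (nat_lit 6) (nat_lit 4) (nat_lit 7) (nat_lit 5) (nat_lit 7) (nat_lit 4) (nat_lit 253) (nat_lit 227) (nat_lit 180)) (XT.lf (nat_lit 0) (nat_lit 76132648038) (nat_lit 76) (nat_lit 64577330049) (nat_lit 76) (nat_lit 19486366160) (nat_lit 6) (nat_lit 4) (nat_lit 7) (nat_lit 5) (nat_lit 7) (nat_lit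 4) (nat_lit 254) (nat_lit 227) (nat_lit 179))))) (XT.nd (nat_lit 234) (nat_lit 0) (nat_lit 0) (XT.nd (nat_lit 78) (nat_lit 76) (nat_lit 0) (XT.lf (nat_lit 0) (nat_lit 1917935042) (nat_lit 152) (nat_lit 41108845491) (nat_lit 76) (nat_lit 138850858445) (nat_lit 5) (nat_lit 5) (nat_lit 7) (nat_lit 5) (nat_lit 6) (nat_lit 4) (nat_lit 255) (nat_lit 227) (nat_lit 178)) (XT.nd (nat_lit 78) (nat_lit 0) (nat_lit 0) (XT.lf (nat_lit 0) (nat_lit 8141256632) (nat_lit 76) (nat_lit 17457616510) (nat_lit 152) (nat_lit 181154189308) (nat_lit 4) (nat_lit 5) (nat_lit 5) (nat_lit 5) (nat_lit 6) (nat_lit 4) (nat_lit 256) (nat_lit 227) (nat_lit 177)) (XT.lf (nat_lit 0) (nat_lit 54339024932) (nat_lit 152) (nat_lit 168329556671) (nat_lit 0) (nat_lit 12570660558) (nat_lit 4) (nat_lit 5) (nat_lit 6) (nat_lit 4) (nat_lit 4) (nat_lit 4) (nat_lit 257) (nat_lit 227) (nat_lit 176)))) (XT.nd (nat_lit 78) (nat_lit 0)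 (nat_lit 0) (XT.lf (nat_lit 0) (nat_lit 87865923270) (nat_lit 152) (nat_lit 134001191423) (nat_lit 0) (nat_lit 46093183678) (nat_lit 4) (nat_lit 5) (nat_lit 6) (nat_lit 4) (nat_lit 4) (nat_lit 4) (nat_lit 258) (nat_lit 227) (nat_lit 175)) (XT.nd (nat_lit 78) (nat_lit 0) (nat_lit 0) (XT.lf (nat_lit 0) (nat_lit 126415673113) (nat_lit 152) (nat_lit 94535212046) (nat_lit 0) (nat_lit 84639128984) (nat_lit 4) (nat_lit 5) (nat_lit 6) (nat_lit 4) (nat_lit 4) (nat_lit 4) (nat_lit 259) (nat_lit 227) (nat_lit 174)) (XT.lf (nat_lit 0) (nat_lit 170742508696) (nat_lit 152) (nat_lit 49159458077) (nat_lit 0) (nat_lit 128962656274) (nat_lit 4) (nat_lit 5) (nat_lit 6) (nat_lit 4) (nat_lit 4) (nat_lit 4) (nat_lit 260) (nat_lit 227) (nat_lit 173))))))))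
noncomputable def xc34 : XT := (XT.nd (nat_lit 1716) (nat_lit 0) (nat_lit 0) (XT.nd (nat_lit 858) (nat_lit 152) (nat_lit 0) (XT.nd (nat_lit 390) (nat_lit 0) (nat_lit 0) (XT.nd (nat_lit 156) (nat_lit 0) (nat_lit 0) (XT.nd (nat_lit 78) (nat_lit 0) (nat_lit 0) (XT.lf (nat_lit 0) (nat_lit 3172561344) (nat_lit 76) (nat_lit 218617433028) (nat_lit 76) (nat_lit 176834703829) (nat_lit 3) (nat_lit 4) (nat_lit 4) (nat_lit 5) (nat_lit 4) (nat_lit 4) (nat_lit 261) (nat_lit 227) (nat_lit 172)) (XT.lf (nat_lit 0) (nat_lit 66323274150) (nat_lit 76) (nat_lit 215598294123) (nat_lit 76) (nat_lit 173813063380) (nat_lit 3) (nat_lit 4) (nat_lit 4) (nat_lit 5) (nat_lit 4) (nat_lit 4) (nat_lit 262) (nat_lit 227) (nat_lit 171))) (XT.nd (nat_lit 78) (nat_lit 0) (nat_lit 0) (XT.lf (nat_lit 0) (nat_lit 138939587821) (nat_lit 76) (nat_lit 212129586653) (nat_lit 76) (nat_lit 170342180653) (nat_lit 3) (nat_lit 4) (nat_lit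 4) (nat_lit 5) (nat_lit 4) (nat_lit 4) (nat_lit 263) (nat_lit 227) (nat_lit 170)) (XT.nd (nat_lit 78) (nat_lit 0) (nat_lit 0) (XT.lf (nat_lit 0) (nat_lit 222442256320) (nat_lit 76) (nat_lit 208143444600) (nat_lit 76) (nat_lit 166354147073) (nat_lit 3) (nat_lit 4) (nat_lit 4) (nat_lit 5) (nat_lit 4) (nat_lit 4) (nat_lit 264) (nat_lit 227) (nat_lit 169)) (XT.lf (nat_lit 0) (nat_lit 318465027508) (nat_lit 76) (nat_lit 203561878230) (nat_lit 76) (nat_lit 161770935897) (nat_lit 3) (nat_lit 4) (nat_lit 4) (nat_lit 5) (nat_lit 4) (nat_lit 4) (nat_lit 265) (nat_lit 227) (nat_lit 168))))) (XT.nd (nat_lit 234) (nat_lit 0) (nat_lit 0) (XT.nd (nat_lit 78) (nat_lit 0) (nat_lit 0) (XT.lf (nat_lit 0) (nat_lit 428886607780) (nat_lit 76) (nat_lit 198295248201) (nat_lit 76) (nat_lit 156502875601) (nat_lit 3) (nat_lit 4) (nat_lit 4) (nat_lit 5) (nat_lit 4) (nat_lit 4) (nat_lit 266) (nat_lit 227) (nat_lit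 167)) (XT.nd (nat_lit 78) (nat_lit 0) (nat_lit 0) (XT.lf (nat_lit 0) (nat_lit 555867419356) (nat_lit 76) (nat_lit 192240511750) (nat_lit 76) (nat_lit 150446895440) (nat_lit 3) (nat_lit 4) (nat_lit 4) (nat_lit 5) (nat_lit 4) (nat_lit 4) (nat_lit 267) (nat_lit 227) (nat_lit 166)) (XT.lf (nat_lit 0) (nat_lit 701891869421) (nat_lit 76) (nat_lit 185279206644) (nat_lit 76) (nat_lit 143484508847) (nat_lit 3) (nat_lit 4) (nat_lit 4) (nat_lit 5) (nat_lit 4) (nat_lit 4) (nat_lit 268) (nat_lit 227) (nat_lit 165)))) (XT.nd (nat_lit 78) (nat_lit 0) (nat_lit 0) (XT.lf (nat_lit 0) (nat_lit 869816958083) (nat_lit 76) (nat_lit 177275133433) (nat_lit 76) (nat_lit 135479495213) (nat_lit 3) (nat_lit 4) (nat_lit 4) (nat_lit 5) (nat_lit 4) (nat_lit 4) (nat_lit 269) (nat_lit 227) (nat_lit 164)) (XT.nd (nat_lit 78) (nat_lit 0) (nat_lit 0) (XT.lf (nat_lit 0) (nat_lit 1062928176210) (nat_lit 76) (nat_lit 168071690687)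 (nat_lit 76) (nat_lit 126275234707) (nat_lit 3) (nat_lit 4) (nat_lit 4) (nat_lit 5) (nat_lit 4) (nat_lit 4) (nat_lit 270) (nat_lit 227) (nat_lit 163)) (XT.lf (nat_lit 0) (nat_lit 1285003786763) (nat_lit 76) (nat_lit 157488811047) (nat_lit 76) (nat_lit 115691643971) (nat_lit 3) (nat_lit 4) (nat_lit 4) (nat_lit 5) (nat_lit 4) (nat_lit 4) (nat_lit 271) (nat_lit 227) (nat_lit 162)))))) (XT.nd (nat_lit 390) (nat_lit 152) (nat_lit 0) (XT.nd (nat_lit 156) (nat_lit 0) (nat_lit 0) (XT.nd (nat_lit 78) (nat_lit 0) (nat_lit 0) (XT.lf (nat_lit 0) (nat_lit 1540388747340) (nat_lit 76) (nat_lit 145319438171) (nat_lit 76) (nat_lit 103521652752) (nat_lit 3) (nat_lit 4) (nat_lit 4) (nat_lit 5) (nat_lit 4) (nat_lit 4) (nat_lit 272) (nat_lit 227) (nat_lit 161)) (XT.lf (nat_lit 0) (nat_lit 1834079720215) (nat_lit 76) (nat_lit 131325475635) (nat_lit 76) (nat_lit 89527152526) (nat_lit 3) (nat_lit 4) (nat_lit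 4) (nat_lit 5) (nat_lit 4) (nat_lit 4) (nat_lit 273) (nat_lit 227) (nat_lit 160))) (XT.nd (nat_lit 78) (nat_lit 0) (nat_lit 0) (XT.lf (nat_lit 0) (nat_lit 2171822833116) (nat_lit 76) (nat_lit 115233128519) (nat_lit 76) (nat_lit 73434337853) (nat_lit 3) (nat_lit 4) (nat_lit 4) (nat_lit 5) (nat_lit 4) (nat_lit 4) (nat_lit 274) (nat_lit 227) (nat_lit 159)) (XT.nd (nat_lit 78) (nat_lit 0) (nat_lit 0) (XT.lf (nat_lit 0) (nat_lit 2560226103470) (nat_lit 76) (nat_lit 96727546553) (nat_lit 76) (nat_lit 54928349317) (nat_lit 3) (nat_lit 4) (nat_lit 4) (nat_lit 5) (nat_lit 4) (nat_lit 4) (nat_lit 275) (nat_lit 227) (nat_lit 158)) (XT.lf (nat_lit 0) (nat_lit 3006888725697) (nat_lit 76) (nat_lit 75446664004) (nat_lit 76) (nat_lit 33647113227) (nat_lit 3) (nat_lit 4) (nat_lit 4) (nat_lit 5) (nat_lit 4) (nat_lit 4) (nat_lit 276) (nat_lit 227) (nat_lit 157))))) (XT.nd (nat_lit 234) (nat_lit 0) (nat_lit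 0) (XT.nd (nat_lit 78) (nat_lit 152) (nat_lit 0) (XT.lf (nat_lit 0) (nat_lit 3520549751102) (nat_lit 76) (nat_lit 50974115777) (nat_lit 76) (nat_lit 9174257575) (nat_lit 3) (nat_lit 4) (nat_lit 4) (nat_lit 5) (nat_lit 4) (nat_lit 4) (nat_lit 277) (nat_lit 227) (nat_lit 156)) (XT.nd (nat_lit 78) (nat_lit 76) (nat_lit 0) (XT.lf (nat_lit 0) (nat_lit 18020126456) (nat_lit 152) (nat_lit 4318262499) (nat_lit 76) (nat_lit 4092746240664) (nat_lit 2) (nat_lit 5) (nat_lit 4) (nat_lit 5) (nat_lit 3) (nat_lit 4) (nat_lit 278) (nat_lit 227) (nat_lit 155)) (XT.lf (nat_lit 0) (nat_lit 50575703932) (nat_lit 152) (nat_lit 4667016654500) (nat_lit 0) (nat_lit 11871668759) (nat_lit 1) (nat_lit 5) (nat_lit 3) (nat_lit 4) (nat_lit 1) (nat_lit 4) (nat_lit 279) (nat_lit 227) (nat_lit 154)))) (XT.nd (nat_lit 78) (nat_lit 0) (nat_lit 0) (XT.lf (nat_lit 0) (nat_lit 88761051244) (nat_lit 152) (nat_lit 5297122739911)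 (nat_lit 0) (nat_lit 50056828905) (nat_lit 1) (nat_lit 5) (nat_lit 3) (nat_lit 4) (nat_lit 1) (nat_lit 4) (nat_lit 280) (nat_lit 227) (nat_lit 153)) (XT.nd (nat_lit 78) (nat_lit 0) (nat_lit 0) (XT.lf (nat_lit 0) (nat_lit 132673871557) (nat_lit 152) (nat_lit 6021745370440) (nat_lit 0) (nat_lit 93969486467) (nat_lit 1) (nat_lit 5) (nat_lit 3) (nat_lit 4) (nat_lit 1) (nat_lit 4) (nat_lit 281) (nat_lit 227) (nat_lit 152)) (XT.lf (nat_lit 0) (nat_lit 183173328749) (nat_lit 152) (nat_lit 6855061945379) (nat_lit 0) (nat_lit 144468802135) (nat_lit 1) (nat_lit 5) (nat_lit 3) (nat_lit 4) (nat_lit 1) (nat_lit 4) (nat_lit 282) (nat_lit 227) (nat_lit 151))))))) (XT.nd (nat_lit 30888) (nat_lit 0) (nat_lit 684) (XT.nd (nat_lit 30420) (nat_lit 0) (nat_lit 1824) (XT.nd (nat_lit 30186) (nat_lit 0) (nat_lit 3040) (XT.nd (nat_lit 30108) (nat_lit 0) (nat_lit 2964) (XT.lf (nat_lit 0) (nat_lit 241247455676)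 (nat_lit 152) (nat_lit 7813376484672) (nat_lit 0) (nat_lit 202542805999) (nat_lit 1) (nat_lit 5) (nat_lit 3) (nat_lit 4) (nat_lit 1) (nat_lit 4) (nat_lit 283) (nat_lit 227) (nat_lit 150)) (XT.lf (nat_lit 0) (nat_lit 1377212046) (nat_lit 532) (nat_lit 2512390881) (nat_lit 532) (nat_lit 2512390881) (nat_lit 40) (nat_lit 3) (nat_lit 47) (nat_lit 3) (nat_lit 47) (nat_lit 5) (nat_lit 228) (nat_lit 228) (nat_lit 204))) (XT.nd (nat_lit 78) (nat_lit 0) (nat_lit 0) (XT.lf (nat_lit 0) (nat_lit 3828421215) (nat_lit 456) (nat_lit 7898027835) (nat_lit 532) (nat_lit 1965556648) (nat_lit 41) (nat_lit 5) (nat_lit 47) (nat_lit 5) (nat_lit 48) (nat_lit 5) (nat_lit 229) (nat_lit 228) (nat_lit 203)) (XT.nd (nat_lit 78) (nat_lit 0) (nat_lit 76) (XT.lf (nat_lit 76) (nat_lit 3725349967) (nat_lit 0) (nat_lit 1672091751) (nat_lit 532) (nat_lit 9289585044) (nat_lit 42) (nat_lit 5) (nat_lit 41) (nat_lit 5) (nat_lit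 48) (nat_lit 5) (nat_lit 230) (nat_lit 228) (nat_lit 202)) (XT.lf (nat_lit 76) (nat_lit 1505727690) (nat_lit 0) (nat_lit 6099969270) (nat_lit 532) (nat_lit 8193740604) (nat_lit 43) (nat_lit 5) (nat_lit 42) (nat_lit 5) (nat_lit 49) (nat_lit 5) (nat_lit 231) (nat_lit 228) (nat_lit 201))))) (XT.nd (nat_lit 234) (nat_lit 684) (nat_lit 0) (XT.nd (nat_lit 78) (nat_lit 684) (nat_lit 0) (XT.lf (nat_lit 0) (nat_lit 10558798021) (nat_lit 456) (nat_lit 818933795) (nat_lit 76) (nat_lit 5668278361) (nat_lit 43) (nat_lit 5) (nat_lit 49) (nat_lit 5) (nat_lit 44) (nat_lit 5) (nat_lit 232) (nat_lit 228) (nat_lit 200)) (XT.nd (nat_lit 78) (nat_lit 228) (nat_lit 0) (XT.lf (nat_lit 0) (nat_lit 14426486070) (nat_lit 532) (nat_lit 3267783515) (nat_lit 76) (nat_lit 747907429) (nat_lit 37) (nat_lit 5) (nat_lit 44) (nat_lit 5) (nat_lit 38) (nat_lit 5) (nat_lit 233) (nat_lit 228) (nat_lit 199)) (XT.lf (nat_lit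 0) (nat_lit 13875673862) (nat_lit 228) (nat_lit 5599172917) (nat_lit 304) (nat_lit 525174527) (nat_lit 34) (nat_lit 5) (nat_lit 37) (nat_lit 5) (nat_lit 38) (nat_lit 5) (nat_lit 234) (nat_lit 228) (nat_lit 198)))) (XT.nd (nat_lit 78) (nat_lit 380) (nat_lit 0) (XT.lf (nat_lit 0) (nat_lit 3857742397) (nat_lit 304) (nat_lit 9499857348) (nat_lit 76) (nat_lit 8383998274) (nat_lit 30) (nat_lit 5) (nat_lit 34) (nat_lit 5) (nat_lit 31) (nat_lit 5) (nat_lit 235) (nat_lit 228) (nat_lit 197)) (XT.nd (nat_lit 78) (nat_lit 152) (nat_lit 0) (XT.lf (nat_lit 0) (nat_lit 9414450804) (nat_lit 304) (nat_lit 13449116512) (nat_lit 76) (nat_lit 836162470) (nat_lit 27) (nat_lit 5) (nat_lit 31) (nat_lit 5) (nat_lit 28) (nat_lit 5) (nat_lit 236) (nat_lit 228) (nat_lit 196)) (XT.lf (nat_lit 0) (nat_lit 7541978338) (nat_lit 152) (nat_lit 9043758578) (nat_lit 228) (nat_lit 9303537664) (nat_lit 25) (nat_lit 5) (nat_lit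 27) (nat_lit 5) (nat_lit 28) (nat_lit 5) (nat_lit 237) (nat_lit 228) (nat_lit 195)))))) (XT.nd (nat_lit 390) (nat_lit 532) (nat_lit 0) (XT.nd (nat_lit 156) (nat_lit 380) (nat_lit 0) (XT.nd (nat_lit 78) (nat_lit 76) (nat_lit 0) (XT.lf (nat_lit 0) (nat_lit 4083591507) (nat_lit 152) (nat_lit 21365401593) (nat_lit 228) (nat_lit 2909111457) (nat_lit 23) (nat_lit 5) (nat_lit 25) (nat_lit 5) (nat_lit 26) (nat_lit 5) (nat_lit 238) (nat_lit 228) (nat_lit 194)) (XT.lf (nat_lit 0) (nat_lit 4975530045) (nat_lit 228) (nat_lit 598187670) (nat_lit 76) (nat_lit 25554844865) (nat_lit 22) (nat_lit 5) (nat_lit 25) (nat_lit 5) (nat_lit 23) (nat_lit 5) (nat_lit 239) (nat_lit 228) (nat_lit 193))) (XT.nd (nat_lit 78) (nat_lit 228) (nat_lit 0) (XT.lf (nat_lit 0) (nat_lit 14829159814) (nat_lit 228) (nat_lit 6690013489) (nat_lit 76) (nat_lit 12712796550) (nat_lit 20) (nat_lit 5) (nat_lit 23) (nat_lit 5) (nat_lit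 21) (nat_lit 5) (nat_lit 240) (nat_lit 228) (nat_lit 192)) (XT.nd (nat_lit 78) (nat_lit 76) (nat_lit 0) (XT.lf (nat_lit 0) (nat_lit 23087541101) (nat_lit 152) (nat_lit 3765144189) (nat_lit 228) (nat_lit 10892949579) (nat_lit 18) (nat_lit 5) (nat_lit 20) (nat_lit 5) (nat_lit 21) (nat_lit 5) (nat_lit 241) (nat_lit 228) (nat_lit 191)) (XT.lf (nat_lit 0) (nat_lit 16326854073) (nat_lit 76) (nat_lit 25313503540) (nat_lit 152) (nat_lit 69224975) (nat_lit 17) (nat_lit 5) (nat_lit 18) (nat_lit 5) (nat_lit 19) (nat_lit 4) (nat_lit 242) (nat_lit 228) (nat_lit 190))))) (XT.nd (nat_lit 234) (nat_lit 228) (nat_lit 0) (XT.nd (nat_lit 78) (nat_lit 76) (nat_lit 0) (XT.lf (nat_lit 0) (nat_lit 6476468290) (nat_lit 152) (nat_lit 5950049292) (nat_lit 228) (nat_lit 33764443025) (nat_lit 14) (nat_lit 5) (nat_lit 16) (nat_lit 5) (nat_lit 17) (nat_lit 5) (nat_lit 243) (nat_lit 228) (nat_lit 189)) (XT.nd (nat_lit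 78) (nat_lit 76) (nat_lit 0) (XT.lf (nat_lit 0) (nat_lit 27915669692) (nat_lit 228) (nat_lit 7092935608) (nat_lit 76) (nat_lit 16246002107) (nat_lit 14) (nat_lit 5) (nat_lit 17) (nat_lit 5) (nat_lit 15) (nat_lit 4) (nat_lit 244) (nat_lit 228) (nat_lit 188)) (XT.lf (nat_lit 0) (nat_lit 31808846559) (nat_lit 76) (nat_lit 14824914087) (nat_lit 152) (nat_lit 10371645460) (nat_lit 13) (nat_lit 5) (nat_lit 14) (nat_lit 5) (nat_lit 15) (nat_lit 4) (nat_lit 245) (nat_lit 228) (nat_lit 187)))) (XT.nd (nat_lit 78) (nat_lit 76) (nat_lit 0) (XT.lf (nat_lit 0) (nat_lit 5056181505) (nat_lit 152) (nat_lit 49869317141) (nat_lit 76) (nat_lit 8625222990) (nat_lit 11) (nat_lit 5) (nat_lit 13) (nat_lit 5) (nat_lit 12) (nat_lit 4) (nat_lit 246) (nat_lit 228) (nat_lit 186)) (XT.nd (nat_lit 78) (nat_lit 76) (nat_lit 0) (XT.lf (nat_lit 0) (nat_lit 23343572155) (nat_lit 152) (nat_lit 11853841736) (nat_lit 76)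 (nat_lit 35766143708) (nat_lit 11) (nat_lit 5) (nat_lit 13) (nat_lit 5) (nat_lit 12) (nat_lit 4) (nat_lit 247) (nat_lit 228) (nat_lit 185)) (XT.lf (nat_lit 0) (nat_lit 33509217565) (nat_lit 76) (nat_lit 11652839266) (nat_lit 152) (nat_lit 34263253833) (nat_lit 10) (nat_lit 5) (nat_lit 11) (nat_lit 5) (nat_lit 12) (nat_lit 4) (nat_lit 248) (nat_lit 228) (nat_lit 184))))))))
noncomputable def xc35 : XT := (XT.nd (nat_lit 1716) (nat_lit 152) (nat_lit 0) (XT.nd (nat_lit 858) (nat_lit 76) (nat_lit 0) (XT.nd (nat_lit 390) (nat_lit 228) (nat_lit 0) (XT.nd (nat_lit 156) (nat_lit 76) (nat_lit 0) (XT.nd (nat_lit 78) (nat_lit 152) (nat_lit 0) (XT.lf (nat_lit 0) (nat_lit 70961773896) (nat_lit 152) (nat_lit 3143462467) (nat_lit 0) (nat_lit 14994440106) (nat_lit 10) (nat_lit 5) (nat_lit 12) (nat_lit 4) (nat_lit 10) (nat_lit 4) (nat_lit 249) (nat_lit 228) (nat_lit 183)) (XT.lf (nat_lit 0) (nat_lit 1888742202)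 (nat_lit 152) (nat_lit 52052324766) (nat_lit 76) (nat_lit 46163144877) (nat_lit 8) (nat_lit 5) (nat_lit 10) (nat_lit 5) (nat_lit 9) (nat_lit 4) (nat_lit 250) (nat_lit 228) (nat_lit 182))) (XT.nd (nat_lit 78) (nat_lit 76) (nat_lit 0) (XT.lf (nat_lit 0) (nat_lit 23956412441) (nat_lit 152) (nat_lit 6163374804) (nat_lit 76) (nat_lit 82593090126) (nat_lit 8) (nat_lit 5) (nat_lit 10) (nat_lit 5) (nat_lit 9) (nat_lit 4) (nat_lit 251) (nat_lit 228) (nat_lit 181)) (XT.nd (nat_lit 78) (nat_lit 0) (nat_lit 0) (XT.lf (nat_lit 0) (nat_lit 49041164252) (nat_lit 76) (nat_lit 1460826806) (nat_lit 152) (nat_lit 76617447210) (nat_lit 7) (nat_lit 5) (nat_lit 8) (nat_lit 5) (nat_lit 9) (nat_lit 4) (nat_lit 252) (nat_lit 228) (nat_lit 180)) (XT.lf (nat_lit 0) (nat_lit 81960182162) (nat_lit 152) (nat_lit 31555043915) (nat_lit 0) (nat_lit 30097309225) (nat_lit 7) (nat_lit 5) (nat_lit 9) (nat_lit 4) (nat_lit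 7) (nat_lit 4) (nat_lit 253) (nat_lit 228) (nat_lit 179))))) (XT.nd (nat_lit 234) (nat_lit 76) (nat_lit 0) (XT.nd (nat_lit 78) (nat_lit 76) (nat_lit 0) (XT.lf (nat_lit 0) (nat_lit 23041623711) (nat_lit 76) (nat_lit 95680616871) (nat_lit 76) (nat_lit 43810557441) (nat_lit 6) (nat_lit 4) (nat_lit 7) (nat_lit 5) (nat_lit 7) (nat_lit 4) (nat_lit 254) (nat_lit 228) (nat_lit 178)) (XT.nd (nat_lit 78) (nat_lit 76) (nat_lit 0) (XT.lf (nat_lit 0) (nat_lit 87722852231) (nat_lit 76) (nat_lit 74185878629) (nat_lit 76) (nat_lit 22309570076) (nat_lit 6) (nat_lit 4) (nat_lit 7) (nat_lit 5) (nat_lit 7) (nat_lit 4) (nat_lit 255) (nat_lit 228) (nat_lit 177)) (XT.lf (nat_lit 0) (nat_lit 2288026219) (nat_lit 152) (nat_lit 47122648036) (nat_lit 76) (nat_lit 159741926337) (nat_lit 5) (nat_lit 5) (nat_lit 7) (nat_lit 5) (nat_lit 6) (nat_lit 4) (nat_lit 256) (nat_lit 228) (nat_lit 176)))) (XT.nd (nat_lit 78)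 (nat_lit 0) (nat_lit 0) (XT.lf (nat_lit 0) (nat_lit 9502058985) (nat_lit 76) (nat_lit 20011655819) (nat_lit 152) (nat_lit 208246226019) (nat_lit 4) (nat_lit 5) (nat_lit 5) (nat_lit 5) (nat_lit 6) (nat_lit 4) (nat_lit 257) (nat_lit 228) (nat_lit 175)) (XT.nd (nat_lit 78) (nat_lit 0) (nat_lit 0) (XT.lf (nat_lit 0) (nat_lit 62556456410) (nat_lit 152) (nat_lit 193453650046) (nat_lit 0) (nat_lit 14509626125) (nat_lit 4) (nat_lit 5) (nat_lit 6) (nat_lit 4) (nat_lit 4) (nat_lit 4) (nat_lit 258) (nat_lit 228) (nat_lit 174)) (XT.lf (nat_lit 0) (nat_lit 101103705446) (nat_lit 152) (nat_lit 153992378722) (nat_lit 0) (nat_lit 53053566867) (nat_lit 4) (nat_lit 5) (nat_lit 6) (nat_lit 4) (nat_lit 4) (nat_lit 4) (nat_lit 259) (nat_lit 228) (nat_lit 173)))))) (XT.nd (nat_lit 390) (nat_lit 0) (nat_lit 0) (XT.nd (nat_lit 156) (nat_lit 76) (nat_lit 0) (XT.nd (nat_lit 78) (nat_lit 0) (nat_lit 0) (XT.lf (nat_lit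 0) (nat_lit 145428366415) (nat_lit 152) (nat_lit 108620718711) (nat_lit 0) (nat_lit 97375351059) (nat_lit 4) (nat_lit 5) (nat_lit 6) (nat_lit 4) (nat_lit 4) (nat_lit 4) (nat_lit 260) (nat_lit 228) (nat_lit 172)) (XT.lf (nat_lit 0) (nat_lit 196397660944) (nat_lit 152) (nat_lit 56450963621) (nat_lit 0) (nat_lit 148342144044) (nat_lit 4) (nat_lit 5) (nat_lit 6) (nat_lit 4) (nat_lit 4) (nat_lit 4) (nat_lit 261) (nat_lit 228) (nat_lit 171))) (XT.nd (nat_lit 78) (nat_lit 0) (nat_lit 0) (XT.lf (nat_lit 0) (nat_lit 3723882849) (nat_lit 76) (nat_lit 251374490986) (nat_lit 76) (nat_lit 203316798829) (nat_lit 3) (nat_lit 4) (nat_lit 4) (nat_lit 5) (nat_lit 4) (nat_lit 4) (nat_lit 262) (nat_lit 228) (nat_lit 170)) (XT.nd (nat_lit 78) (nat_lit 0) (nat_lit 0) (XT.lf (nat_lit 0) (nat_lit 76337362928) (nat_lit 76) (nat_lit 247907119115) (nat_lit 76) (nat_lit 199847535431) (nat_lit 3) (nat_lit 4) (nat_lit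 4) (nat_lit 5) (nat_lit 4) (nat_lit 4) (nat_lit 263) (nat_lit 228) (nat_lit 169)) (XT.lf (nat_lit 0) (nat_lit 159837567434) (nat_lit 76) (nat_lit 243922138453) (nat_lit 76) (nat_lit 195860909963) (nat_lit 3) (nat_lit 4) (nat_lit 4) (nat_lit 5) (nat_lit 4) (nat_lit 4) (nat_lit 264) (nat_lit 228) (nat_lit 168))))) (XT.nd (nat_lit 234) (nat_lit 0) (nat_lit 0) (XT.nd (nat_lit 78) (nat_lit 0) (nat_lit 0) (XT.lf (nat_lit 0) (nat_lit 255858196019) (nat_lit 76) (nat_lit 239341581988) (nat_lit 76) (nat_lit 191278923231) (nat_lit 3) (nat_lit 4) (nat_lit 4) (nat_lit 5) (nat_lit 4) (nat_lit 4) (nat_lit 265) (nat_lit 228) (nat_lit 167)) (XT.nd (nat_lit 78) (nat_lit 0) (nat_lit 0) (XT.lf (nat_lit 0) (nat_lit 366277913158) (nat_lit 76) (nat_lit 234075830137) (nat_lit 76) (nat_lit 186011927670) (nat_lit 3) (nat_lit 4) (nat_lit 4) (nat_lit 5) (nat_lit 4) (nat_lit 4) (nat_lit 266) (nat_lit 228) (nat_lit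 166)) (XT.lf (nat_lit 0) (nat_lit 493257104619) (nat_lit 76) (nat_lit 228021857320) (nat_lit 76) (nat_lit 179956873366) (nat_lit 3) (nat_lit 4) (nat_lit 4) (nat_lit 5) (nat_lit 4) (nat_lit 4) (nat_lit 267) (nat_lit 228) (nat_lit 165)))) (XT.nd (nat_lit 78) (nat_lit 0) (nat_lit 0) (XT.lf (nat_lit 0) (nat_lit 639280145887) (nat_lit 76) (nat_lit 221061216242) (nat_lit 76) (nat_lit 172995291865) (nat_lit 3) (nat_lit 4) (nat_lit 4) (nat_lit 5) (nat_lit 4) (nat_lit 4) (nat_lit 268) (nat_lit 228) (nat_lit 164)) (XT.nd (nat_lit 78) (nat_lit 0) (nat_lit 0) (XT.lf (nat_lit 0) (nat_lit 807204009510) (nat_lit 76) (nat_lit 213057720448) (nat_lit 76) (nat_lit 164990978312) (nat_lit 3) (nat_lit 4) (nat_lit 4) (nat_lit 5) (nat_lit 4) (nat_lit 4) (nat_lit 269) (nat_lit 228) (nat_lit 163)) (XT.lf (nat_lit 0) (nat_lit 1000314162384) (nat_lit 76) (nat_lit 203854779803) (nat_lit 76) (nat_lit 155787326572)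 (nat_lit 3) (nat_lit 4) (nat_lit 4) (nat_lit 5) (nat_lit 4) (nat_lit 4) (nat_lit 270) (nat_lit 228) (nat_lit 162))))))) (XT.nd (nat_lit 858) (nat_lit 0) (nat_lit 0) (XT.nd (nat_lit 390) (nat_lit 152) (nat_lit 0) (XT.nd (nat_lit 156) (nat_lit 0) (nat_lit 0) (XT.nd (nat_lit 78) (nat_lit 0) (nat_lit 0) (XT.lf (nat_lit 0) (nat_lit 1222388846631) (nat_lit 76) (nat_lit 193272336773) (nat_lit 76) (nat_lit 145204265197) (nat_lit 3) (nat_lit 4) (nat_lit 4) (nat_lit 5) (nat_lit 4) (nat_lit 4) (nat_lit 271) (nat_lit 228) (nat_lit 161)) (XT.lf (nat_lit 0) (nat_lit 1477773001725) (nat_lit 76) (nat_lit 181103343558) (nat_lit 76) (nat_lit 133034734293) (nat_lit 3) (nat_lit 4) (nat_lit 4) (nat_lit 5) (nat_lit 4) (nat_lit 4) (nat_lit 272) (nat_lit 228) (nat_lit 160))) (XT.nd (nat_lit 78) (nat_lit 0) (nat_lit 0) (XT.lf (nat_lit 0) (nat_lit 1771463274179) (nat_lit 76) (nat_lit 167109711161) (nat_lit 76)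 (nat_lit 119040634340) (nat_lit 3) (nat_lit 4) (nat_lit 4) (nat_lit 5) (nat_lit 4) (nat_lit 4) (nat_lit 273) (nat_lit 228) (nat_lit 159)) (XT.nd (nat_lit 78) (nat_lit 0) (nat_lit 0) (XT.lf (nat_lit 0) (nat_lit 2109205778018) (nat_lit 76) (nat_lit 151017651123) (nat_lit 76) (nat_lit 102948167731) (nat_lit 3) (nat_lit 4) (nat_lit 4) (nat_lit 5) (nat_lit 4) (nat_lit 4) (nat_lit 274) (nat_lit 228) (nat_lit 158)) (XT.lf (nat_lit 0) (nat_lit 2497608518754) (nat_lit 76) (nat_lit 132512318791) (nat_lit 76) (nat_lit 84442481858) (nat_lit 3) (nat_lit 4) (nat_lit 4) (nat_lit 5) (nat_lit 4) (nat_lit 4) (nat_lit 275) (nat_lit 228) (nat_lit 157))))) (XT.nd (nat_lit 234) (nat_lit 152) (nat_lit 0) (XT.nd (nat_lit 78) (nat_lit 0) (nat_lit 0) (XT.lf (nat_lit 0) (nat_lit 2944270680443) (nat_lit 76) (nat_lit 111231653314) (nat_lit 76) (nat_lit 63161508955) (nat_lit 3) (nat_lit 4) (nat_lit 4) (nat_lit 5)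 (nat_lit 4) (nat_lit 4) (nat_lit 276) (nat_lit 228) (nat_lit 156)) (XT.nd (nat_lit 78) (nat_lit 0) (nat_lit 0) (XT.lf (nat_lit 0) (nat_lit 3457931305380) (nat_lit 76) (nat_lit 86759293846) (nat_lit 76) (nat_lit 38688882160) (nat_lit 3) (nat_lit 4) (nat_lit 4) (nat_lit 5) (nat_lit 4) (nat_lit 4) (nat_lit 277) (nat_lit 228) (nat_lit 155)) (XT.lf (nat_lit 0) (nat_lit 4048640275358) (nat_lit 76) (nat_lit 58616433354) (nat_lit 76) (nat_lit 10545789209) (nat_lit 3) (nat_lit 4) (nat_lit 4) (nat_lit 5) (nat_lit 4) (nat_lit 4) (nat_lit 278) (nat_lit 228) (nat_lit 154)))) (XT.nd (nat_lit 78) (nat_lit 76) (nat_lit 0) (XT.lf (nat_lit 0) (nat_lit 20726951112) (nat_lit 152) (nat_lit 4958787967) (nat_lit 76) (nat_lit 4706661277100) (nat_lit 2) (nat_lit 5) (nat_lit 4) (nat_lit 5) (nat_lit 3) (nat_lit 4) (nat_lit 279) (nat_lit 228) (nat_lit 153)) (XT.nd (nat_lit 78) (nat_lit 0) (nat_lit 0) (XT.lf (nat_lit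 0) (nat_lit 58165603026) (nat_lit 152) (nat_lit 5367062344361) (nat_lit 0) (nat_lit 13655397421) (nat_lit 1) (nat_lit 5) (nat_lit 3) (nat_lit 4) (nat_lit 1) (nat_lit 4) (nat_lit 280) (nat_lit 228) (nat_lit 152)) (XT.lf (nat_lit 0) (nat_lit 102078290238) (nat_lit 152) (nat_lit 6091685230625) (nat_lit 0) (nat_lit 57567943109) (nat_lit 1) (nat_lit 5) (nat_lit 3) (nat_lit 4) (nat_lit 1) (nat_lit 4) (nat_lit 281) (nat_lit 228) (nat_lit 151)))))) (XT.nd (nat_lit 30576) (nat_lit 0) (nat_lit 1824) (XT.nd (nat_lit 30342) (nat_lit 0) (nat_lit 3040) (XT.nd (nat_lit 30264) (nat_lit 0) (nat_lit 2964) (XT.lf (nat_lit 0) (nat_lit 152577631689) (nat_lit 152) (nat_lit 6925002027942) (nat_lit 0) (nat_lit 108067161497) (nat_lit 1) (nat_lit 5) (nat_lit 3) (nat_lit 4) (nat_lit 1) (nat_lit 4) (nat_lit 282) (nat_lit 228) (nat_lit 150)) (XT.lf (nat_lit 0) (nat_lit 2232776629) (nat_lit 532) (nat_lit 2537414719)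 (nat_lit 532) (nat_lit 2537414719) (nat_lit 40) (nat_lit 3) (nat_lit 47) (nat_lit 3) (nat_lit 47) (nat_lit 5) (nat_lit 229) (nat_lit 229) (nat_lit 202))) (XT.nd (nat_lit 78) (nat_lit 0) (nat_lit 0) (XT.lf (nat_lit 0) (nat_lit 5534814704) (nat_lit 456) (nat_lit 8330251591) (nat_lit 532) (nat_lit 1785355589) (nat_lit 41) (nat_lit 5) (nat_lit 47) (nat_lit 5) (nat_lit 48) (nat_lit 5) (nat_lit 230) (nat_lit 229) (nat_lit 201)) (XT.nd (nat_lit 78) (nat_lit 0) (nat_lit 76) (XT.lf (nat_lit 76) (nat_lit 4972939161) (nat_lit 0) (nat_lit 2235145287) (nat_lit 532) (nat_lit 9597727911) (nat_lit 42) (nat_lit 5) (nat_lit 41) (nat_lit 5) (nat_lit 48) (nat_lit 5) (nat_lit 231) (nat_lit 229) (nat_lit 200)) (XT.lf (nat_lit 76) (nat_lit 2446080437) (nat_lit 0) (nat_lit 7181582567) (nat_lit 532) (nat_lit 8467561014) (nat_lit 43) (nat_lit 5) (nat_lit 42) (nat_lit 5) (nat_lit 49) (nat_lit 5) (nat_lit 232) (nat_lit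 229) (nat_lit 199))))) (XT.nd (nat_lit 234) (nat_lit 608) (nat_lit 0) (XT.nd (nat_lit 78) (nat_lit 760) (nat_lit 0) (XT.lf (nat_lit 0) (nat_lit 12905317146) (nat_lit 456) (nat_lit 252530439) (nat_lit 76) (nat_lit 6380882721) (nat_lit 43) (nat_lit 5) (nat_lit 49) (nat_lit 5) (nat_lit 44) (nat_lit 5) (nat_lit 233) (nat_lit 229) (nat_lit 198)) (XT.nd (nat_lit 78) (nat_lit 304) (nat_lit 0) (XT.lf (nat_lit 0) (nat_lit 17267707007) (nat_lit 532) (nat_lit 3068882791) (nat_lit 76) (nat_lit 814981367) (nat_lit 37) (nat_lit 5) (nat_lit 44) (nat_lit 5) (nat_lit 38) (nat_lit 5) (nat_lit 234) (nat_lit 229) (nat_lit 197)) (XT.lf (nat_lit 0) (nat_lit 48306246) (nat_lit 304) (nat_lit 6362760462) (nat_lit 76) (nat_lit 16538139972) (nat_lit 33) (nat_lit 5) (nat_lit 37) (nat_lit 5) (nat_lit 34) (nat_lit 5) (nat_lit 235) (nat_lit 229) (nat_lit 196)))) (XT.nd (nat_lit 78) (nat_lit 380) (nat_lit 0) (XT.lf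 (nat_lit 0) (nat_lit 4993261506) (nat_lit 304) (nat_lit 10270392907) (nat_lit 76) (nat_lit 9692707531) (nat_lit 30) (nat_lit 5) (nat_lit 34) (nat_lit 5) (nat_lit 31) (nat_lit 5) (nat_lit 236) (nat_lit 229) (nat_lit 195)) (XT.nd (nat_lit 78) (nat_lit 152) (nat_lit 0) (XT.lf (nat_lit 0) (nat_lit 11327664684) (nat_lit 304) (nat_lit 14828285019) (nat_lit 76) (nat_lit 1056980060) (nat_lit 27) (nat_lit 5) (nat_lit 31) (nat_lit 5) (nat_lit 28) (nat_lit 5) (nat_lit 237) (nat_lit 229) (nat_lit 194)) (XT.lf (nat_lit 0) (nat_lit 9257453694) (nat_lit 152) (nat_lit 10265885668) (nat_lit 228) (nat_lit 10211889844) (nat_lit 25) (nat_lit 5) (nat_lit 27) (nat_lit 5) (nat_lit 28) (nat_lit 5) (nat_lit 238) (nat_lit 229) (nat_lit 193))))))))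
noncomputable def xc36 : XT := (XT.nd (nat_lit 1716) (nat_lit 228) (nat_lit 0) (XT.nd (nat_lit 858) (nat_lit 456) (nat_lit 0) (XT.nd (nat_lit 390) (nat_lit 456) (nat_lit 0) (XT.nd (nat_lit 156) (nat_lit 456) (nat_lit 0) (XT.nd (nat_lit 78) (nat_lit 76) (nat_lit 0) (XT.lf (nat_lit 0) (nat_lit 5262169241) (nat_lit 152) (nat_lit 24411677481) (nat_lit 228) (nat_lit 2904106010) (nat_lit 23) (nat_lit 5) (nat_lit 25) (nat_lit 5) (nat_lit 26) (nat_lit 5) (nat_lit 239) (nat_lit 229) (nat_lit 192)) (XT.lf (nat_lit 0) (nat_lit 6086462111) (nat_lit 228) (nat_lit 175488424) (nat_lit 76) (nat_lit 29505707988) (nat_lit 22) (nat_lit 5) (nat_lit 25) (nat_lit 5) (nat_lit 23) (nat_lit 5) (nat_lit 240) (nat_lit 229) (nat_lit 191))) (XT.nd (nat_lit 78) (nat_lit 304) (nat_lit 0) (XT.lf (nat_lit 0) (nat_lit 17385244701) (nat_lit 228) (nat_lit 7200693738) (nat_lit 76) (nat_lit 14753402853) (nat_lit 20) (nat_lit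 5) (nat_lit 23) (nat_lit 5) (nat_lit 21) (nat_lit 5) (nat_lit 241) (nat_lit 229) (nat_lit 190)) (XT.nd (nat_lit 78) (nat_lit 152) (nat_lit 0) (XT.lf (nat_lit 0) (nat_lit 27001779131) (nat_lit 152) (nat_lit 4178102357) (nat_lit 228) (nat_lit 12202883691) (nat_lit 18) (nat_lit 5) (nat_lit 20) (nat_lit 5) (nat_lit 21) (nat_lit 5) (nat_lit 242) (nat_lit 229) (nat_lit 189)) (XT.lf (nat_lit 0) (nat_lit 205947751) (nat_lit 152) (nat_lit 28740571100) (nat_lit 76) (nat_lit 18996507229) (nat_lit 16) (nat_lit 5) (nat_lit 18) (nat_lit 5) (nat_lit 17) (nat_lit 5) (nat_lit 243) (nat_lit 229) (nat_lit 188))))) (XT.nd (nat_lit 234) (nat_lit 228) (nat_lit 0) (XT.nd (nat_lit 78) (nat_lit 76) (nat_lit 0) (XT.lf (nat_lit 0) (nat_lit 7857699114) (nat_lit 152) (nat_lit 6687497921) (nat_lit 228) (nat_lit 38553491403) (nat_lit 14) (nat_lit 5) (nat_lit 16) (nat_lit 5) (nat_lit 17) (nat_lit 5) (nat_lit 244) (nat_lit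 229) (nat_lit 187)) (XT.nd (nat_lit 78) (nat_lit 76) (nat_lit 0) (XT.lf (nat_lit 0) (nat_lit 32327742739) (nat_lit 228) (nat_lit 7785617102) (nat_lit 76) (nat_lit 18810991203) (nat_lit 14) (nat_lit 5) (nat_lit 17) (nat_lit 5) (nat_lit 15) (nat_lit 4) (nat_lit 245) (nat_lit 229) (nat_lit 186)) (XT.lf (nat_lit 0) (nat_lit 36920007178) (nat_lit 76) (nat_lit 16912401523) (nat_lit 152) (nat_lit 11707113199) (nat_lit 13) (nat_lit 5) (nat_lit 14) (nat_lit 5) (nat_lit 15) (nat_lit 4) (nat_lit 246) (nat_lit 229) (nat_lit 185)))) (XT.nd (nat_lit 78) (nat_lit 76) (nat_lit 0) (XT.lf (nat_lit 0) (nat_lit 6007475794) (nat_lit 152) (nat_lit 57015878914) (nat_lit 76) (nat_lit 10044216979) (nat_lit 11) (nat_lit 5) (nat_lit 13) (nat_lit 5) (nat_lit 12) (nat_lit 4) (nat_lit 247) (nat_lit 229) (nat_lit 184)) (XT.nd (nat_lit 78) (nat_lit 76) (nat_lit 0) (XT.lf (nat_lit 0) (nat_lit 27012818469) (nat_lit 152)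 (nat_lit 13341625999) (nat_lit 76) (nat_lit 41239943995) (nat_lit 11) (nat_lit 5) (nat_lit 13) (nat_lit 5) (nat_lit 12) (nat_lit 4) (nat_lit 248) (nat_lit 229) (nat_lit 183)) (XT.lf (nat_lit 0) (nat_lit 38801320425) (nat_lit 76) (nat_lit 13287270717) (nat_lit 152) (nat_lit 39238089417) (nat_lit 10) (nat_lit 5) (nat_lit 11) (nat_lit 5) (nat_lit 12) (nat_lit 4) (nat_lit 249) (nat_lit 229) (nat_lit 182)))))) (XT.nd (nat_lit 390) (nat_lit 228) (nat_lit 0) (XT.nd (nat_lit 156) (nat_lit 76) (nat_lit 0) (XT.nd (nat_lit 78) (nat_lit 152) (nat_lit 0) (XT.lf (nat_lit 0) (nat_lit 81740783746) (nat_lit 152) (nat_lit 3375488457) (nat_lit 0) (nat_lit 17337360024) (nat_lit 10) (nat_lit 5) (nat_lit 12) (nat_lit 4) (nat_lit 10) (nat_lit 4) (nat_lit 250) (nat_lit 229) (nat_lit 181)) (XT.lf (nat_lit 0) (nat_lit 2297853189) (nat_lit 152) (nat_lit 59634153553) (nat_lit 76) (nat_lit 53177598824) (nat_lit 8)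 (nat_lit 5) (nat_lit 10) (nat_lit 5) (nat_lit 9) (nat_lit 4) (nat_lit 251) (nat_lit 229) (nat_lit 180))) (XT.nd (nat_lit 78) (nat_lit 76) (nat_lit 0) (XT.lf (nat_lit 0) (nat_lit 27659265313) (nat_lit 152) (nat_lit 6891341958) (nat_lit 76) (nat_lit 95060299050) (nat_lit 8) (nat_lit 5) (nat_lit 10) (nat_lit 5) (nat_lit 9) (nat_lit 4) (nat_lit 252) (nat_lit 229) (nat_lit 179)) (XT.nd (nat_lit 78) (nat_lit 0) (nat_lit 0) (XT.lf (nat_lit 0) (nat_lit 56577241904) (nat_lit 76) (nat_lit 1599497098) (nat_lit 152) (nat_lit 88002527432) (nat_lit 7) (nat_lit 5) (nat_lit 8) (nat_lit 5) (nat_lit 9) (nat_lit 4) (nat_lit 253) (nat_lit 229) (nat_lit 178)) (XT.lf (nat_lit 0) (nat_lit 94342369661) (nat_lit 152) (nat_lit 36126512959) (nat_lit 0) (nat_lit 34678365701) (nat_lit 7) (nat_lit 5) (nat_lit 9) (nat_lit 4) (nat_lit 7) (nat_lit 4) (nat_lit 254) (nat_lit 229) (nat_lit 177))))) (XT.nd (nat_lit 234)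 (nat_lit 76) (nat_lit 0) (XT.nd (nat_lit 78) (nat_lit 76) (nat_lit 0) (XT.lf (nat_lit 0) (nat_lit 26645960301) (nat_lit 76) (nat_lit 109964839030) (nat_lit 76) (nat_lit 50295401051) (nat_lit 6) (nat_lit 4) (nat_lit 7) (nat_lit 5) (nat_lit 7) (nat_lit 4) (nat_lit 255) (nat_lit 229) (nat_lit 176)) (XT.nd (nat_lit 78) (nat_lit 76) (nat_lit 0) (XT.lf (nat_lit 0) (nat_lit 101010056617) (nat_lit 76) (nat_lit 85254742710) (nat_lit 76) (nat_lit 25580579495) (nat_lit 6) (nat_lit 4) (nat_lit 7) (nat_lit 5) (nat_lit 7) (nat_lit 4) (nat_lit 256) (nat_lit 229) (nat_lit 175)) (XT.lf (nat_lit 0) (nat_lit 2693537086) (nat_lit 152) (nat_lit 54075714974) (nat_lit 76) (nat_lit 183751184381) (nat_lit 5) (nat_lit 5) (nat_lit 7) (nat_lit 5) (nat_lit 6) (nat_lit 4) (nat_lit 257) (nat_lit 229) (nat_lit 174)))) (XT.nd (nat_lit 78) (nat_lit 0) (nat_lit 0) (XT.lf (nat_lit 0) (nat_lit 11032935968) (nat_lit 76) (nat_lit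 22964554915) (nat_lit 152) (nat_lit 239421842958) (nat_lit 4) (nat_lit 5) (nat_lit 5) (nat_lit 5) (nat_lit 6) (nat_lit 4) (nat_lit 258) (nat_lit 229) (nat_lit 173)) (XT.nd (nat_lit 78) (nat_lit 0) (nat_lit 0) (XT.lf (nat_lit 0) (nat_lit 71990267207) (nat_lit 152) (nat_lit 222376922411) (nat_lit 0) (nat_lit 16726422772) (nat_lit 4) (nat_lit 5) (nat_lit 6) (nat_lit 4) (nat_lit 4) (nat_lit 4) (nat_lit 259) (nat_lit 229) (nat_lit 172)) (XT.lf (nat_lit 0) (nat_lit 116313037206) (nat_lit 152) (nat_lit 177008822364) (nat_lit 0) (nat_lit 61046691226) (nat_lit 4) (nat_lit 5) (nat_lit 6) (nat_lit 4) (nat_lit 4) (nat_lit 4) (nat_lit 260) (nat_lit 229) (nat_lit 171))))))) (XT.nd (nat_lit 858) (nat_lit 152) (nat_lit 0) (XT.nd (nat_lit 390) (nat_lit 0) (nat_lit 0) (XT.nd (nat_lit 156) (nat_lit 76) (nat_lit 0) (XT.nd (nat_lit 78) (nat_lit 0) (nat_lit 0) (XT.lf (nat_lit 0) (nat_lit 167280687415) (nat_lit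 152) (nat_lit 124842162894) (nat_lit 0) (nat_lit 112012166178) (nat_lit 4) (nat_lit 5) (nat_lit 6) (nat_lit 4) (nat_lit 4) (nat_lit 4) (nat_lit 261) (nat_lit 229) (nat_lit 170)) (XT.lf (nat_lit 0) (nat_lit 225890410989) (nat_lit 152) (nat_lit 64856291970) (nat_lit 0) (nat_lit 170619998225) (nat_lit 4) (nat_lit 5) (nat_lit 6) (nat_lit 4) (nat_lit 4) (nat_lit 4) (nat_lit 262) (nat_lit 229) (nat_lit 169))) (XT.nd (nat_lit 78) (nat_lit 0) (nat_lit 0) (XT.lf (nat_lit 0) (nat_lit 4339506715) (nat_lit 76) (nat_lit 289053778436) (nat_lit 76) (nat_lit 233781720866) (nat_lit 3) (nat_lit 4) (nat_lit 4) (nat_lit 5) (nat_lit 4) (nat_lit 4) (nat_lit 263) (nat_lit 229) (nat_lit 168)) (XT.nd (nat_lit 78) (nat_lit 0) (nat_lit 0) (XT.lf (nat_lit 0) (nat_lit 87837568618) (nat_lit 76) (nat_lit 285069807680) (nat_lit 76) (nat_lit 229796319843) (nat_lit 3) (nat_lit 4) (nat_lit 4) (nat_lit 5) (nat_lit 4) (nat_lit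 4) (nat_lit 264) (nat_lit 229) (nat_lit 167)) (XT.lf (nat_lit 0) (nat_lit 183856334071) (nat_lit 76) (nat_lit 280490129393) (nat_lit 76) (nat_lit 225215397847) (nat_lit 3) (nat_lit 4) (nat_lit 4) (nat_lit 5) (nat_lit 4) (nat_lit 4) (nat_lit 265) (nat_lit 229) (nat_lit 166))))) (XT.nd (nat_lit 234) (nat_lit 0) (nat_lit 0) (XT.nd (nat_lit 78) (nat_lit 0) (nat_lit 0) (XT.lf (nat_lit 0) (nat_lit 294274431094) (nat_lit 76) (nat_lit 275225141175) (nat_lit 76) (nat_lit 219949328142) (nat_lit 3) (nat_lit 4) (nat_lit 4) (nat_lit 5) (nat_lit 4) (nat_lit 4) (nat_lit 266) (nat_lit 229) (nat_lit 165)) (XT.nd (nat_lit 78) (nat_lit 0) (nat_lit 0) (XT.lf (nat_lit 0) (nat_lit 421252213759) (nat_lit 76) (nat_lit 269171832387) (nat_lit 76) (nat_lit 213895078930) (nat_lit 3) (nat_lit 4) (nat_lit 4) (nat_lit 5) (nat_lit 4) (nat_lit 4) (nat_lit 267) (nat_lit 229) (nat_lit 164)) (XT.lf (nat_lit 0) (nat_lit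 567274029988) (nat_lit 76) (nat_lit 262211768726) (nat_lit 76) (nat_lit 206934197509) (nat_lit 3) (nat_lit 4) (nat_lit 4) (nat_lit 5) (nat_lit 4) (nat_lit 4) (nat_lit 268) (nat_lit 229) (nat_lit 163)))) (XT.nd (nat_lit 78) (nat_lit 0) (nat_lit 0) (XT.lf (nat_lit 0) (nat_lit 735196828359) (nat_lit 76) (nat_lit 254208775033) (nat_lit 76) (nat_lit 198930492722) (nat_lit 3) (nat_lit 4) (nat_lit 4) (nat_lit 5) (nat_lit 4) (nat_lit 4) (nat_lit 269) (nat_lit 229) (nat_lit 162)) (XT.nd (nat_lit 78) (nat_lit 0) (nat_lit 0) (XT.lf (nat_lit 0) (nat_lit 928306054926) (nat_lit 76) (nat_lit 245006270998) (nat_lit 76) (nat_lit 189727370343) (nat_lit 3) (nat_lit 4) (nat_lit 4) (nat_lit 5) (nat_lit 4) (nat_lit 4) (nat_lit 270) (nat_lit 229) (nat_lit 161)) (XT.lf (nat_lit 0) (nat_lit 1150379933690) (nat_lit 76) (nat_lit 234424207628) (nat_lit 76) (nat_lit 179144769283) (nat_lit 3) (nat_lit 4) (nat_lit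 4) (nat_lit 5) (nat_lit 4) (nat_lit 4) (nat_lit 271) (nat_lit 229) (nat_lit 160)))))) (XT.nd (nat_lit 390) (nat_lit 152) (nat_lit 0) (XT.nd (nat_lit 156) (nat_lit 0) (nat_lit 0) (XT.nd (nat_lit 78) (nat_lit 0) (nat_lit 0) (XT.lf (nat_lit 0) (nat_lit 1405763388363) (nat_lit 76) (nat_lit 222255544553) (nat_lit 76) (nat_lit 166975638651) (nat_lit 3) (nat_lit 4) (nat_lit 4) (nat_lit 5) (nat_lit 4) (nat_lit 4) (nat_lit 272) (nat_lit 229) (nat_lit 159)) (XT.lf (nat_lit 0) (nat_lit 1699453051755) (nat_lit 76) (nat_lit 208262199235) (nat_lit 76) (nat_lit 152981886762) (nat_lit 3) (nat_lit 4) (nat_lit 4) (nat_lit 5) (nat_lit 4) (nat_lit 4) (nat_lit 273) (nat_lit 229) (nat_lit 158))) (XT.nd (nat_lit 78) (nat_lit 0) (nat_lit 0) (XT.lf (nat_lit 0) (nat_lit 2037195025976) (nat_lit 76) (nat_lit 192170388830) (nat_lit 76) (nat_lit 136889722817) (nat_lit 3) (nat_lit 4) (nat_lit 4) (nat_lit 5) (nat_lit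 4) (nat_lit 4) (nat_lit 274) (nat_lit 229) (nat_lit 157)) (XT.nd (nat_lit 78) (nat_lit 0) (nat_lit 0) (XT.lf (nat_lit 0) (nat_lit 2425597306174) (nat_lit 76) (nat_lit 173665273569) (nat_lit 76) (nat_lit 118384300131) (nat_lit 3) (nat_lit 4) (nat_lit 4) (nat_lit 5) (nat_lit 4) (nat_lit 4) (nat_lit 275) (nat_lit 229) (nat_lit 156)) (XT.lf (nat_lit 0) (nat_lit 2872259067395) (nat_lit 76) (nat_lit 152384796851) (nat_lit 76) (nat_lit 97103556085) (nat_lit 3) (nat_lit 4) (nat_lit 4) (nat_lit 5) (nat_lit 4) (nat_lit 4) (nat_lit 276) (nat_lit 229) (nat_lit 155))))) (XT.nd (nat_lit 234) (nat_lit 152) (nat_lit 0) (XT.nd (nat_lit 78) (nat_lit 0) (nat_lit 0) (XT.lf (nat_lit 0) (nat_lit 3385919344100) (nat_lit 76) (nat_lit 127912601520) (nat_lit 76) (nat_lit 72631128296) (nat_lit 3) (nat_lit 4) (nat_lit 4) (nat_lit 5) (nat_lit 4) (nat_lit 4) (nat_lit 277) (nat_lit 229) (nat_lit 154)) (XT.nd (nat_lit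 78) (nat_lit 0) (nat_lit 0) (XT.lf (nat_lit 0) (nat_lit 3976628011266) (nat_lit 76) (nat_lit 99769883757) (nat_lit 76) (nat_lit 44488208395) (nat_lit 3) (nat_lit 4) (nat_lit 4) (nat_lit 5) (nat_lit 4) (nat_lit 4) (nat_lit 278) (nat_lit 229) (nat_lit 153)) (XT.lf (nat_lit 0) (nat_lit 4655942412381) (nat_lit 76) (nat_lit 67406025169) (nat_lit 76) (nat_lit 12124174036) (nat_lit 3) (nat_lit 4) (nat_lit 4) (nat_lit 5) (nat_lit 4) (nat_lit 4) (nat_lit 279) (nat_lit 229) (nat_lit 152)))) (XT.nd (nat_lit 78) (nat_lit 76) (nat_lit 0) (XT.lf (nat_lit 0) (nat_lit 23838871426) (nat_lit 152) (nat_lit 5697151411) (nat_lit 76) (nat_lit 5412662812964) (nat_lit 2) (nat_lit 5) (nat_lit 4) (nat_lit 5) (nat_lit 3) (nat_lit 4) (nat_lit 280) (nat_lit 229) (nat_lit 151)) (XT.nd (nat_lit 78) (nat_lit 0) (nat_lit 0) (XT.lf (nat_lit 0) (nat_lit 66893122878) (nat_lit 152) (nat_lit 6172116547952) (nat_lit 0) (nat_lit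 15705959094) (nat_lit 1) (nat_lit 5) (nat_lit 3) (nat_lit 4) (nat_lit 1) (nat_lit 4) (nat_lit 281) (nat_lit 229) (nat_lit 150)) (XT.lf (nat_lit 0) (nat_lit 117392363685) (nat_lit 152) (nat_lit 7005433538642) (nat_lit 0) (nat_lit 66205092889) (nat_lit 1) (nat_lit 5) (nat_lit 3) (nat_lit 4) (nat_lit 1) (nat_lit 4) (nat_lit 282) (nat_lit 229) (nat_lit 149))))))))
noncomputable def xc37 : XT := (XT.nd (nat_lit 1716) (nat_lit 532) (nat_lit 0) (XT.nd (nat_lit 858) (nat_lit 988) (nat_lit 0) (XT.nd (nat_lit 390) (nat_lit 1064) (nat_lit 0) (XT.nd (nat_lit 156) (nat_lit 228) (nat_lit 0) (XT.nd (nat_lit 78) (nat_lit 0) (nat_lit 76) (XT.lf (nat_lit 0) (nat_lit 3058417340) (nat_lit 532) (nat_lit 2651989275) (nat_lit 532) (nat_lit 2651989275) (nat_lit 40) (nat_lit 3) (nat_lit 47) (nat_lit 3) (nat_lit 47) (nat_lit 5) (nat_lit 230) (nat_lit 230) (nat_lit 200)) (XT.lf (nat_lit 0) (nat_lit 7221090071)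 (nat_lit 456) (nat_lit 9010806027) (nat_lit 532) (nat_lit 1693964555) (nat_lit 41) (nat_lit 5) (nat_lit 47) (nat_lit 5) (nat_lit 48) (nat_lit 5) (nat_lit 231) (nat_lit 230) (nat_lit 199))) (XT.nd (nat_lit 78) (nat_lit 304) (nat_lit 0) (XT.lf (nat_lit 76) (nat_lit 6239701736) (nat_lit 0) (nat_lit 2806515208) (nat_lit 532) (nat_lit 10216748239) (nat_lit 42) (nat_lit 5) (nat_lit 41) (nat_lit 5) (nat_lit 48) (nat_lit 5) (nat_lit 232) (nat_lit 230) (nat_lit 198)) (XT.nd (nat_lit 78) (nat_lit 380) (nat_lit 0) (XT.lf (nat_lit 76) (nat_lit 3353252310) (nat_lit 0) (nat_lit 8384807026) (nat_lit 532) (nat_lit 9015395975) (nat_lit 43) (nat_lit 5) (nat_lit 42) (nat_lit 5) (nat_lit 49) (nat_lit 5) (nat_lit 233) (nat_lit 230) (nat_lit 197)) (XT.lf (nat_lit 0) (nat_lit 242908303) (nat_lit 456) (nat_lit 15180758703) (nat_lit 532) (nat_lit 6996875132) (nat_lit 37) (nat_lit 5) (nat_lit 43) (nat_lit 5) (nat_lit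 44) (nat_lit 5) (nat_lit 234) (nat_lit 230) (nat_lit 196))))) (XT.nd (nat_lit 234) (nat_lit 532) (nat_lit 0) (XT.nd (nat_lit 78) (nat_lit 532) (nat_lit 0) (XT.lf (nat_lit 0) (nat_lit 20369959864) (nat_lit 532) (nat_lit 3008180615) (nat_lit 76) (nat_lit 903117285) (nat_lit 37) (nat_lit 5) (nat_lit 44) (nat_lit 5) (nat_lit 38) (nat_lit 5) (nat_lit 235) (nat_lit 230) (nat_lit 195)) (XT.nd (nat_lit 78) (nat_lit 228) (nat_lit 0) (XT.lf (nat_lit 0) (nat_lit 525907489) (nat_lit 304) (nat_lit 6813799054) (nat_lit 76) (nat_lit 19012576925) (nat_lit 33) (nat_lit 5) (nat_lit 37) (nat_lit 5) (nat_lit 34) (nat_lit 5) (nat_lit 236) (nat_lit 230) (nat_lit 194)) (XT.lf (nat_lit 0) (nat_lit 6163315193) (nat_lit 304) (nat_lit 11316098881) (nat_lit 76) (nat_lit 11185259796) (nat_lit 30) (nat_lit 5) (nat_lit 34) (nat_lit 5) (nat_lit 31) (nat_lit 5) (nat_lit 237) (nat_lit 230) (nat_lit 193)))) (XT.nd (nat_lit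 78) (nat_lit 304) (nat_lit 0) (XT.lf (nat_lit 0) (nat_lit 13405677343) (nat_lit 304) (nat_lit 16569957663) (nat_lit 76) (nat_lit 1287658047) (nat_lit 27) (nat_lit 5) (nat_lit 31) (nat_lit 5) (nat_lit 28) (nat_lit 5) (nat_lit 238) (nat_lit 230) (nat_lit 192)) (XT.nd (nat_lit 78) (nat_lit 152) (nat_lit 0) (XT.lf (nat_lit 0) (nat_lit 11087794701) (nat_lit 152) (nat_lit 11704115062) (nat_lit 228) (nat_lit 11375296405) (nat_lit 25) (nat_lit 5) (nat_lit 27) (nat_lit 5) (nat_lit 28) (nat_lit 5) (nat_lit 239) (nat_lit 230) (nat_lit 191)) (XT.lf (nat_lit 0) (nat_lit 6479501438) (nat_lit 152) (nat_lit 27953554357) (nat_lit 228) (nat_lit 3005981143) (nat_lit 23) (nat_lit 5) (nat_lit 25) (nat_lit 5) (nat_lit 26) (nat_lit 5) (nat_lit 240) (nat_lit 230) (nat_lit 190)))))) (XT.nd (nat_lit 390) (nat_lit 304) (nat_lit 0) (XT.nd (nat_lit 156) (nat_lit 456) (nat_lit 0) (XT.nd (nat_lit 78) (nat_lit 0) (nat_lit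 0) (XT.lf (nat_lit 0) (nat_lit 195433414) (nat_lit 152) (nat_lit 7084390108) (nat_lit 228) (nat_lit 33829780965) (nat_lit 20) (nat_lit 5) (nat_lit 22) (nat_lit 5) (nat_lit 23) (nat_lit 5) (nat_lit 241) (nat_lit 230) (nat_lit 189)) (XT.lf (nat_lit 0) (nat_lit 20243852515) (nat_lit 228) (nat_lit 7908153736) (nat_lit 76) (nat_lit 17067499723) (nat_lit 20) (nat_lit 5) (nat_lit 23) (nat_lit 5) (nat_lit 21) (nat_lit 5) (nat_lit 242) (nat_lit 230) (nat_lit 188))) (XT.nd (nat_lit 78) (nat_lit 304) (nat_lit 0) (XT.lf (nat_lit 0) (nat_lit 31393147601) (nat_lit 152) (nat_lit 4690024924) (nat_lit 228) (nat_lit 13788319401) (nat_lit 18) (nat_lit 5) (nat_lit 20) (nat_lit 5) (nat_lit 21) (nat_lit 5) (nat_lit 243) (nat_lit 230) (nat_lit 187)) (XT.nd (nat_lit 78) (nat_lit 152) (nat_lit 0) (XT.lf (nat_lit 0) (nat_lit 449750404) (nat_lit 152) (nat_lit 32713167464) (nat_lit 76) (nat_lit 21954059620) (nat_lit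 16) (nat_lit 5) (nat_lit 18) (nat_lit 5) (nat_lit 17) (nat_lit 5) (nat_lit 244) (nat_lit 230) (nat_lit 186)) (XT.lf (nat_lit 0) (nat_lit 9346191849) (nat_lit 152) (nat_lit 7573375906) (nat_lit 228) (nat_lit 44128108250) (nat_lit 14) (nat_lit 5) (nat_lit 16) (nat_lit 5) (nat_lit 17) (nat_lit 5) (nat_lit 245) (nat_lit 230) (nat_lit 185))))) (XT.nd (nat_lit 234) (nat_lit 76) (nat_lit 0) (XT.nd (nat_lit 78) (nat_lit 228) (nat_lit 0) (XT.lf (nat_lit 0) (nat_lit 37346826716) (nat_lit 228) (nat_lit 8672734641) (nat_lit 76) (nat_lit 21729493404) (nat_lit 14) (nat_lit 5) (nat_lit 17) (nat_lit 5) (nat_lit 15) (nat_lit 4) (nat_lit 246) (nat_lit 230) (nat_lit 184)) (XT.nd (nat_lit 78) (nat_lit 152) (nat_lit 0) (XT.lf (nat_lit 0) (nat_lit 42714971306) (nat_lit 76) (nat_lit 19346237421) (nat_lit 152) (nat_lit 13296617548) (nat_lit 13) (nat_lit 5) (nat_lit 14) (nat_lit 5) (nat_lit 15) (nat_lit 4) (nat_lit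 247) (nat_lit 230) (nat_lit 183)) (XT.lf (nat_lit 0) (nat_lit 7054432372) (nat_lit 152) (nat_lit 65315832927) (nat_lit 76) (nat_lit 11645526682) (nat_lit 11) (nat_lit 5) (nat_lit 13) (nat_lit 5) (nat_lit 12) (nat_lit 4) (nat_lit 248) (nat_lit 230) (nat_lit 182)))) (XT.nd (nat_lit 78) (nat_lit 76) (nat_lit 0) (XT.lf (nat_lit 0) (nat_lit 31191554464) (nat_lit 152) (nat_lit 15123367443) (nat_lit 76) (nat_lit 47508263557) (nat_lit 11) (nat_lit 5) (nat_lit 13) (nat_lit 5) (nat_lit 12) (nat_lit 4) (nat_lit 249) (nat_lit 230) (nat_lit 181)) (XT.nd (nat_lit 78) (nat_lit 0) (nat_lit 0) (XT.lf (nat_lit 0) (nat_lit 44822441156) (nat_lit 76) (nat_lit 15194543223) (nat_lit 152) (nat_lit 44999301891) (nat_lit 10) (nat_lit 5) (nat_lit 11) (nat_lit 5) (nat_lit 12) (nat_lit 4) (nat_lit 250) (nat_lit 230) (nat_lit 180)) (XT.lf (nat_lit 0) (nat_lit 94103786954) (nat_lit 152) (nat_lit 3700720323) (nat_lit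 0) (nat_lit 20008855448) (nat_lit 10) (nat_lit 5) (nat_lit 12) (nat_lit 4) (nat_lit 10) (nat_lit 4) (nat_lit 251) (nat_lit 230) (nat_lit 179))))))) (XT.nd (nat_lit 858) (nat_lit 76) (nat_lit 0) (XT.nd (nat_lit 390) (nat_lit 152) (nat_lit 0) (XT.nd (nat_lit 156) (nat_lit 152) (nat_lit 0) (XT.nd (nat_lit 78) (nat_lit 0) (nat_lit 0) (XT.lf (nat_lit 0) (nat_lit 2737653782) (nat_lit 152) (nat_lit 68408373049) (nat_lit 76) (nat_lit 61222278130) (nat_lit 8) (nat_lit 5) (nat_lit 10) (nat_lit 5) (nat_lit 9) (nat_lit 4) (nat_lit 252) (nat_lit 230) (nat_lit 178)) (XT.lf (nat_lit 0) (nat_lit 31890870427) (nat_lit 152) (nat_lit 7776431480) (nat_lit 76) (nat_lit 109378508674) (nat_lit 8) (nat_lit 5) (nat_lit 10) (nat_lit 5) (nat_lit 9) (nat_lit 4) (nat_lit 253) (nat_lit 230) (nat_lit 177))) (XT.nd (nat_lit 78) (nat_lit 76) (nat_lit 0) (XT.lf (nat_lit 0) (nat_lit 65199860715) (nat_lit 76) (nat_lit 1778587086)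 (nat_lit 152) (nat_lit 101121593231) (nat_lit 7) (nat_lit 5) (nat_lit 8) (nat_lit 5) (nat_lit 9) (nat_lit 4) (nat_lit 254) (nat_lit 230) (nat_lit 176)) (XT.nd (nat_lit 78) (nat_lit 76) (nat_lit 0) (XT.lf (nat_lit 0) (nat_lit 108560386867) (nat_lit 152) (nat_lit 41423155277) (nat_lit 0) (nat_lit 39930373935) (nat_lit 7) (nat_lit 5) (nat_lit 9) (nat_lit 4) (nat_lit 7) (nat_lit 4) (nat_lit 255) (nat_lit 230) (nat_lit 175)) (XT.lf (nat_lit 0) (nat_lit 30754833956) (nat_lit 76) (nat_lit 126408245133) (nat_lit 76) (nat_lit 57774123302) (nat_lit 6) (nat_lit 4) (nat_lit 7) (nat_lit 5) (nat_lit 7) (nat_lit 4) (nat_lit 256) (nat_lit 230) (nat_lit 174))))) (XT.nd (nat_lit 234) (nat_lit 0) (nat_lit 0) (XT.nd (nat_lit 78) (nat_lit 152) (nat_lit 0) (XT.lf (nat_lit 0) (nat_lit 116258938682) (nat_lit 76) (nat_lit 97998328245) (nat_lit 76) (nat_lit 29360633457) (nat_lit 6) (nat_lit 4) (nat_lit 7) (nat_lit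 5) (nat_lit 7) (nat_lit 4) (nat_lit 257) (nat_lit 230) (nat_lit 173)) (XT.nd (nat_lit 78) (nat_lit 76) (nat_lit 0) (XT.lf (nat_lit 0) (nat_lit 3144680643) (nat_lit 152) (nat_lit 62099865968) (nat_lit 76) (nat_lit 211350133564) (nat_lit 5) (nat_lit 5) (nat_lit 7) (nat_lit 5) (nat_lit 6) (nat_lit 4) (nat_lit 258) (nat_lit 230) (nat_lit 172)) (XT.lf (nat_lit 0) (nat_lit 12767701040) (nat_lit 76) (nat_lit 26372301082) (nat_lit 152) (nat_lit 275288754968) (nat_lit 4) (nat_lit 5) (nat_lit 5) (nat_lit 5) (nat_lit 6) (nat_lit 4) (nat_lit 259) (nat_lit 230) (nat_lit 171)))) (XT.nd (nat_lit 78) (nat_lit 0) (nat_lit 0) (XT.lf (nat_lit 0) (nat_lit 82826873325) (nat_lit 152) (nat_lit 255661797149) (nat_lit 0) (nat_lit 19265898647) (nat_lit 4) (nat_lit 5) (nat_lit 6) (nat_lit 4) (nat_lit 4) (nat_lit 4) (nat_lit 260) (nat_lit 230) (nat_lit 170)) (XT.nd (nat_lit 78) (nat_lit 0) (nat_lit 0) (XT.lf (nat_lit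 0) (nat_lit 133793093689) (nat_lit 152) (nat_lit 203497829524) (nat_lit 0) (nat_lit 70230227484) (nat_lit 4) (nat_lit 5) (nat_lit 6) (nat_lit 4) (nat_lit 4) (nat_lit 4) (nat_lit 261) (nat_lit 230) (nat_lit 169)) (XT.lf (nat_lit 0) (nat_lit 192401573920) (nat_lit 152) (nat_lit 143514299333) (nat_lit 0) (nat_lit 128837062908) (nat_lit 4) (nat_lit 5) (nat_lit 6) (nat_lit 4) (nat_lit 4) (nat_lit 4) (nat_lit 262) (nat_lit 230) (nat_lit 168)))))) (XT.nd (nat_lit 390) (nat_lit 0) (nat_lit 0) (XT.nd (nat_lit 156) (nat_lit 0) (nat_lit 0) (XT.nd (nat_lit 78) (nat_lit 76) (nat_lit 0) (XT.lf (nat_lit 0) (nat_lit 259799001675) (nat_lit 152) (nat_lit 74537615769) (nat_lit 0) (nat_lit 196233060396) (nat_lit 4) (nat_lit 5) (nat_lit 6) (nat_lit 4) (nat_lit 4) (nat_lit 4) (nat_lit 263) (nat_lit 230) (nat_lit 167)) (XT.lf (nat_lit 0) (nat_lit 5033564246) (nat_lit 76) (nat_lit 332391515373) (nat_lit 76)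 (nat_lit 268824330385) (nat_lit 3) (nat_lit 4) (nat_lit 4) (nat_lit 5) (nat_lit 4) (nat_lit 4) (nat_lit 264) (nat_lit 230) (nat_lit 166))) (XT.nd (nat_lit 78) (nat_lit 0) (nat_lit 0) (XT.lf (nat_lit 0) (nat_lit 101050709583) (nat_lit 76) (nat_lit 327812600720) (nat_lit 76) (nat_lit 264244334245) (nat_lit 3) (nat_lit 4) (nat_lit 4) (nat_lit 5) (nat_lit 4) (nat_lit 4) (nat_lit 265) (nat_lit 230) (nat_lit 165)) (XT.nd (nat_lit 78) (nat_lit 0) (nat_lit 0) (XT.lf (nat_lit 0) (nat_lit 211467397810) (nat_lit 76) (nat_lit 322548276531) (nat_lit 76) (nat_lit 258979069633) (nat_lit 3) (nat_lit 4) (nat_lit 4) (nat_lit 5) (nat_lit 4) (nat_lit 4) (nat_lit 266) (nat_lit 230) (nat_lit 164)) (XT.lf (nat_lit 0) (nat_lit 338443955435) (nat_lit 76) (nat_lit 316495545159) (nat_lit 76) (nat_lit 252925520501) (nat_lit 3) (nat_lit 4) (nat_lit 4) (nat_lit 5) (nat_lit 4) (nat_lit 4) (nat_lit 267) (nat_lit 230)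 (nat_lit 163))))) (XT.nd (nat_lit 234) (nat_lit 0) (nat_lit 0) (XT.nd (nat_lit 78) (nat_lit 0) (nat_lit 0) (XT.lf (nat_lit 0) (nat_lit 484464706412) (nat_lit 76) (nat_lit 309535983600) (nat_lit 76) (nat_lit 245965247846) (nat_lit 3) (nat_lit 4) (nat_lit 4) (nat_lit 5) (nat_lit 4) (nat_lit 4) (nat_lit 268) (nat_lit 230) (nat_lit 162)) (XT.nd (nat_lit 78) (nat_lit 0) (nat_lit 0) (XT.lf (nat_lit 0) (nat_lit 652386578476) (nat_lit 76) (nat_lit 301533426517) (nat_lit 76) (nat_lit 237962072420) (nat_lit 3) (nat_lit 4) (nat_lit 4) (nat_lit 5) (nat_lit 4) (nat_lit 4) (nat_lit 269) (nat_lit 230) (nat_lit 161)) (XT.lf (nat_lit 0) (nat_lit 845494999560) (nat_lit 76) (nat_lit 292331302143) (nat_lit 76) (nat_lit 228759410355) (nat_lit 3) (nat_lit 4) (nat_lit 4) (nat_lit 5) (nat_lit 4) (nat_lit 4) (nat_lit 270) (nat_lit 230) (nat_lit 160)))) (XT.nd (nat_lit 78) (nat_lit 0) (nat_lit 0) (XT.lf (nat_lit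 0) (nat_lit 1067568177903) (nat_lit 76) (nat_lit 281749568912) (nat_lit 76) (nat_lit 218177209569) (nat_lit 3) (nat_lit 4) (nat_lit 4) (nat_lit 5) (nat_lit 4) (nat_lit 4) (nat_lit 271) (nat_lit 230) (nat_lit 159)) (XT.nd (nat_lit 78) (nat_lit 0) (nat_lit 0) (XT.lf (nat_lit 0) (nat_lit 1322951023514) (nat_lit 76) (nat_lit 269581192916) (nat_lit 76) (nat_lit 206008427001) (nat_lit 3) (nat_lit 4) (nat_lit 4) (nat_lit 5) (nat_lit 4) (nat_lit 4) (nat_lit 272) (nat_lit 230) (nat_lit 158)) (XT.lf (nat_lit 0) (nat_lit 1616640157288) (nat_lit 76) (nat_lit 255588097230) (nat_lit 76) (nat_lit 192014977776) (nat_lit 3) (nat_lit 4) (nat_lit 4) (nat_lit 5) (nat_lit 4) (nat_lit 4) (nat_lit 273) (nat_lit 230) (nat_lit 157))))))))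
noncomputable def xc38 : XT := (XT.nd (nat_lit 32058) (nat_lit 0) (nat_lit 152) (XT.nd (nat_lit 31200) (nat_lit 0) (nat_lit 1444) (XT.nd (nat_lit 390) (nat_lit 152) (nat_lit 0) (XT.nd (nat_lit 156) (nat_lit 0) (nat_lit 0) (XT.nd (nat_lit 78) (nat_lit 0) (nat_lit 0) (XT.lf (nat_lit 0) (nat_lit 1954381670971) (nat_lit 76) (nat_lit 239496503898) (nat_lit 76) (nat_lit 175923077017) (nat_lit 3) (nat_lit 4) (nat_lit 4) (nat_lit 5) (nat_lit 4) (nat_lit 4) (nat_lit 274) (nat_lit 230) (nat_lit 156)) (XT.lf (nat_lit 0) (nat_lit 2342783550701) (nat_lit 76) (nat_lit 220991577396) (nat_lit 76) (nat_lit 157417883188) (nat_lit 3) (nat_lit 4) (nat_lit 4) (nat_lit 5) (nat_lit 4) (nat_lit 4) (nat_lit 275) (nat_lit 230) (nat_lit 155))) (XT.nd (nat_lit 78) (nat_lit 0) (nat_lit 0) (XT.lf (nat_lit 0) (nat_lit 2789444963690) (nat_lit 76) (nat_lit 199711264815) (nat_lit 76) (nat_lit 136137338149) (nat_lit 3)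 (nat_lit 4) (nat_lit 4) (nat_lit 5) (nat_lit 4) (nat_lit 4) (nat_lit 276) (nat_lit 230) (nat_lit 154)) (XT.nd (nat_lit 78) (nat_lit 0) (nat_lit 0) (XT.lf (nat_lit 0) (nat_lit 3303104937583) (nat_lit 76) (nat_lit 175239212213) (nat_lit 76) (nat_lit 111665083409) (nat_lit 3) (nat_lit 4) (nat_lit 4) (nat_lit 5) (nat_lit 4) (nat_lit 4) (nat_lit 277) (nat_lit 230) (nat_lit 153)) (XT.lf (nat_lit 0) (nat_lit 3893813341435) (nat_lit 76) (nat_lit 147096618561) (nat_lit 76) (nat_lit 83522313986) (nat_lit 3) (nat_lit 4) (nat_lit 4) (nat_lit 5) (nat_lit 4) (nat_lit 4) (nat_lit 278) (nat_lit 230) (nat_lit 152))))) (XT.nd (nat_lit 234) (nat_lit 76) (nat_lit 0) (XT.nd (nat_lit 78) (nat_lit 76) (nat_lit 0) (XT.lf (nat_lit 0) (nat_lit 4573127513582) (nat_lit 76) (nat_lit 114732867897) (nat_lit 76) (nat_lit 51158410476) (nat_lit 3) (nat_lit 4) (nat_lit 4) (nat_lit 5) (nat_lit 4) (nat_lit 4) (nat_lit 279)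 (nat_lit 230) (nat_lit 151)) (XT.nd (nat_lit 78) (nat_lit 76) (nat_lit 0) (XT.lf (nat_lit 0) (nat_lit 5354338383479) (nat_lit 76) (nat_lit 77514756402) (nat_lit 76) (nat_lit 13940166073) (nat_lit 3) (nat_lit 4) (nat_lit 4) (nat_lit 5) (nat_lit 4) (nat_lit 4) (nat_lit 280) (nat_lit 230) (nat_lit 150)) (XT.lf (nat_lit 0) (nat_lit 27416878054) (nat_lit 152) (nat_lit 6547599548) (nat_lit 76) (nat_lit 6224564007537) (nat_lit 2) (nat_lit 5) (nat_lit 4) (nat_lit 5) (nat_lit 3) (nat_lit 4) (nat_lit 281) (nat_lit 230) (nat_lit 149)))) (XT.nd (nat_lit 30420) (nat_lit 0) (nat_lit 2964) (XT.lf (nat_lit 0) (nat_lit 76929117320) (nat_lit 152) (nat_lit 7097930137469) (nat_lit 0) (nat_lit 18063555838) (nat_lit 1) (nat_lit 5) (nat_lit 3) (nat_lit 4) (nat_lit 1) (nat_lit 4) (nat_lit 282) (nat_lit 230) (nat_lit 148)) (XT.nd (nat_lit 78) (nat_lit 0) (nat_lit 76) (XT.lf (nat_lit 0) (nat_lit 3888237949) (nat_lit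 532) (nat_lit 2848624981) (nat_lit 532) (nat_lit 2848624981) (nat_lit 40) (nat_lit 3) (nat_lit 47) (nat_lit 3) (nat_lit 47) (nat_lit 5) (nat_lit 231) (nat_lit 231) (nat_lit 198)) (XT.lf (nat_lit 0) (nat_lit 8951552759) (nat_lit 456) (nat_lit 9932193809) (nat_lit 532) (nat_lit 1676456689) (nat_lit 41) (nat_lit 5) (nat_lit 47) (nat_lit 5) (nat_lit 48) (nat_lit 5) (nat_lit 232) (nat_lit 231) (nat_lit 197)))))) (XT.nd (nat_lit 390) (nat_lit 988) (nat_lit 0) (XT.nd (nat_lit 156) (nat_lit 608) (nat_lit 0) (XT.nd (nat_lit 78) (nat_lit 0) (nat_lit 76) (XT.lf (nat_lit 76) (nat_lit 7569473027) (nat_lit 0) (nat_lit 3406016593) (nat_lit 532) (nat_lit 11128739599) (nat_lit 42) (nat_lit 5) (nat_lit 41) (nat_lit 5) (nat_lit 48) (nat_lit 5) (nat_lit 233) (nat_lit 231) (nat_lit 196)) (XT.lf (nat_lit 76) (nat_lit 4264754188) (nat_lit 0) (nat_lit 9737792408) (nat_lit 532) (nat_lit 9821543412) (nat_lit 43)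 (nat_lit 5) (nat_lit 42) (nat_lit 5) (nat_lit 49) (nat_lit 5) (nat_lit 234) (nat_lit 231) (nat_lit 195))) (XT.nd (nat_lit 78) (nat_lit 304) (nat_lit 0) (XT.lf (nat_lit 0) (nat_lit 694173119) (nat_lit 456) (nat_lit 17489096445) (nat_lit 532) (nat_lit 7562859842) (nat_lit 37) (nat_lit 5) (nat_lit 43) (nat_lit 5) (nat_lit 44) (nat_lit 5) (nat_lit 235) (nat_lit 231) (nat_lit 194)) (XT.nd (nat_lit 78) (nat_lit 304) (nat_lit 0) (XT.lf (nat_lit 0) (nat_lit 23812672601) (nat_lit 532) (nat_lit 3065430698) (nat_lit 76) (nat_lit 1012791845) (nat_lit 37) (nat_lit 5) (nat_lit 44) (nat_lit 5) (nat_lit 38) (nat_lit 5) (nat_lit 236) (nat_lit 231) (nat_lit 193)) (XT.lf (nat_lit 0) (nat_lit 960449799) (nat_lit 304) (nat_lit 7455244732) (nat_lit 76) (nat_lit 21859711825) (nat_lit 33) (nat_lit 5) (nat_lit 37) (nat_lit 5) (nat_lit 34) (nat_lit 5) (nat_lit 237) (nat_lit 231) (nat_lit 192))))) (XT.nd (nat_lit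 234) (nat_lit 380) (nat_lit 0) (XT.nd (nat_lit 78) (nat_lit 380) (nat_lit 0) (XT.lf (nat_lit 0) (nat_lit 7406197698) (nat_lit 304) (nat_lit 12639333780) (nat_lit 76) (nat_lit 12892270797) (nat_lit 30) (nat_lit 5) (nat_lit 34) (nat_lit 5) (nat_lit 31) (nat_lit 5) (nat_lit 238) (nat_lit 231) (nat_lit 191)) (XT.nd (nat_lit 78) (nat_lit 152) (nat_lit 0) (XT.lf (nat_lit 0) (nat_lit 15703003770) (nat_lit 304) (nat_lit 18690558980) (nat_lit 76) (nat_lit 1535348137) (nat_lit 27) (nat_lit 5) (nat_lit 31) (nat_lit 5) (nat_lit 28) (nat_lit 5) (nat_lit 239) (nat_lit 231) (nat_lit 190)) (XT.lf (nat_lit 0) (nat_lit 13084969920) (nat_lit 152) (nat_lit 13382867705) (nat_lit 228) (nat_lit 12803044994) (nat_lit 25) (nat_lit 5) (nat_lit 27) (nat_lit 5) (nat_lit 28) (nat_lit 5) (nat_lit 240) (nat_lit 231) (nat_lit 189)))) (XT.nd (nat_lit 78) (nat_lit 228) (nat_lit 0) (XT.lf (nat_lit 0) (nat_lit 7775061293)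 (nat_lit 152) (nat_lit 32055944980) (nat_lit 228) (nat_lit 3204522346) (nat_lit 23) (nat_lit 5) (nat_lit 25) (nat_lit 5) (nat_lit 26) (nat_lit 5) (nat_lit 241) (nat_lit 231) (nat_lit 188)) (XT.nd (nat_lit 78) (nat_lit 0) (nat_lit 0) (XT.lf (nat_lit 0) (nat_lit 533158368) (nat_lit 152) (nat_lit 8054518646) (nat_lit 228) (nat_lit 38670514424) (nat_lit 20) (nat_lit 5) (nat_lit 22) (nat_lit 5) (nat_lit 23) (nat_lit 5) (nat_lit 242) (nat_lit 231) (nat_lit 187)) (XT.lf (nat_lit 0) (nat_lit 23470087184) (nat_lit 228) (nat_lit 8812604348) (nat_lit 76) (nat_lit 19704060555) (nat_lit 20) (nat_lit 5) (nat_lit 23) (nat_lit 5) (nat_lit 21) (nat_lit 5) (nat_lit 243) (nat_lit 231) (nat_lit 186))))))) (XT.nd (nat_lit 858) (nat_lit 380) (nat_lit 0) (XT.nd (nat_lit 390) (nat_lit 380) (nat_lit 0) (XT.nd (nat_lit 156) (nat_lit 228) (nat_lit 0) (XT.nd (nat_lit 78) (nat_lit 152) (nat_lit 0) (XT.lf (nat_lit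 0) (nat_lit 36360041555) (nat_lit 152) (nat_lit 5306728824) (nat_lit 228) (nat_lit 15671314500) (nat_lit 18) (nat_lit 5) (nat_lit 20) (nat_lit 5) (nat_lit 21) (nat_lit 5) (nat_lit 244) (nat_lit 231) (nat_lit 185)) (XT.lf (nat_lit 0) (nat_lit 678203883) (nat_lit 152) (nat_lit 37364196043) (nat_lit 76) (nat_lit 25328889777) (nat_lit 16) (nat_lit 5) (nat_lit 18) (nat_lit 5) (nat_lit 17) (nat_lit 5) (nat_lit 245) (nat_lit 231) (nat_lit 184))) (XT.nd (nat_lit 78) (nat_lit 76) (nat_lit 0) (XT.lf (nat_lit 0) (nat_lit 10982402567) (nat_lit 152) (nat_lit 8620726940) (nat_lit 228) (nat_lit 50589738958) (nat_lit 14) (nat_lit 5) (nat_lit 16) (nat_lit 5) (nat_lit 17) (nat_lit 5) (nat_lit 246) (nat_lit 231) (nat_lit 183)) (XT.nd (nat_lit 78) (nat_lit 76) (nat_lit 0) (XT.lf (nat_lit 0) (nat_lit 43077336596) (nat_lit 228) (nat_lit 9761376386) (nat_lit 76) (nat_lit 25062152591) (nat_lit 14) (nat_lit 5)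 (nat_lit 17) (nat_lit 5) (nat_lit 15) (nat_lit 4) (nat_lit 247) (nat_lit 231) (nat_lit 182)) (XT.lf (nat_lit 0) (nat_lit 49316517985) (nat_lit 76) (nat_lit 22170271839) (nat_lit 152) (nat_lit 15165164901) (nat_lit 13) (nat_lit 5) (nat_lit 14) (nat_lit 5) (nat_lit 15) (nat_lit 4) (nat_lit 248) (nat_lit 231) (nat_lit 181))))) (XT.nd (nat_lit 234) (nat_lit 152) (nat_lit 0) (XT.nd (nat_lit 78) (nat_lit 76) (nat_lit 0) (XT.lf (nat_lit 0) (nat_lit 8222869598) (nat_lit 152) (nat_lit 74922336166) (nat_lit 76) (nat_lit 13463945217) (nat_lit 11) (nat_lit 5) (nat_lit 13) (nat_lit 5) (nat_lit 12) (nat_lit 4) (nat_lit 249) (nat_lit 231) (nat_lit 180)) (XT.nd (nat_lit 78) (nat_lit 76) (nat_lit 0) (XT.lf (nat_lit 0) (nat_lit 35966176651) (nat_lit 152) (nat_lit 17225897168) (nat_lit 76) (nat_lit 54696754858) (nat_lit 11) (nat_lit 5) (nat_lit 13) (nat_lit 5) (nat_lit 12) (nat_lit 4) (nat_lit 250) (nat_lit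 231) (nat_lit 179)) (XT.lf (nat_lit 0) (nat_lit 51697733731) (nat_lit 76) (nat_lit 17408833893) (nat_lit 152) (nat_lit 51655056578) (nat_lit 10) (nat_lit 5) (nat_lit 11) (nat_lit 5) (nat_lit 12) (nat_lit 4) (nat_lit 251) (nat_lit 231) (nat_lit 178)))) (XT.nd (nat_lit 78) (nat_lit 152) (nat_lit 0) (XT.lf (nat_lit 0) (nat_lit 108296395182) (nat_lit 152) (nat_lit 4118897255) (nat_lit 0) (nat_lit 23063787863) (nat_lit 10) (nat_lit 5) (nat_lit 12) (nat_lit 4) (nat_lit 10) (nat_lit 4) (nat_lit 252) (nat_lit 231) (nat_lit 177)) (XT.nd (nat_lit 78) (nat_lit 0) (nat_lit 0) (XT.lf (nat_lit 0) (nat_lit 3220228212) (nat_lit 152) (nat_lit 78540401380) (nat_lit 76) (nat_lit 70457067473) (nat_lit 8) (nat_lit 5) (nat_lit 10) (nat_lit 5) (nat_lit 9) (nat_lit 4) (nat_lit 253) (nat_lit 231) (nat_lit 176)) (XT.lf (nat_lit 0) (nat_lit 36737045654) (nat_lit 152) (nat_lit 8830524353) (nat_lit 76) (nat_lit 125830022040)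 (nat_lit 8) (nat_lit 5) (nat_lit 10) (nat_lit 5) (nat_lit 9) (nat_lit 4) (nat_lit 254) (nat_lit 231) (nat_lit 175)))))) (XT.nd (nat_lit 390) (nat_lit 152) (nat_lit 0) (XT.nd (nat_lit 156) (nat_lit 152) (nat_lit 0) (XT.nd (nat_lit 78) (nat_lit 0) (nat_lit 0) (XT.lf (nat_lit 0) (nat_lit 75082699954) (nat_lit 76) (nat_lit 1999375469) (nat_lit 152) (nat_lit 116228347667) (nat_lit 7) (nat_lit 5) (nat_lit 8) (nat_lit 5) (nat_lit 9) (nat_lit 4) (nat_lit 255) (nat_lit 231) (nat_lit 174)) (XT.lf (nat_lit 0) (nat_lit 124894850763) (nat_lit 152) (nat_lit 47544126016) (nat_lit 0) (nat_lit 45957928799) (nat_lit 7) (nat_lit 5) (nat_lit 9) (nat_lit 4) (nat_lit 7) (nat_lit 4) (nat_lit 256) (nat_lit 231) (nat_lit 173))) (XT.nd (nat_lit 78) (nat_lit 76) (nat_lit 0) (XT.lf (nat_lit 0) (nat_lit 35452731722) (nat_lit 76) (nat_lit 145330676798) (nat_lit 76) (nat_lit 66390647916) (nat_lit 6) (nat_lit 4) (nat_lit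 7) (nat_lit 5) (nat_lit 7) (nat_lit 4) (nat_lit 257) (nat_lit 231) (nat_lit 172)) (XT.nd (nat_lit 78) (nat_lit 76) (nat_lit 0) (XT.lf (nat_lit 0) (nat_lit 133771407896) (nat_lit 76) (nat_lit 112664333912) (nat_lit 76) (nat_lit 33721603362) (nat_lit 6) (nat_lit 4) (nat_lit 7) (nat_lit 5) (nat_lit 7) (nat_lit 4) (nat_lit 258) (nat_lit 231) (nat_lit 171)) (XT.lf (nat_lit 0) (nat_lit 3652006931) (nat_lit 152) (nat_lit 71348905409) (nat_lit 76) (nat_lit 243080080083) (nat_lit 5) (nat_lit 5) (nat_lit 7) (nat_lit 5) (nat_lit 6) (nat_lit 4) (nat_lit 259) (nat_lit 231) (nat_lit 170))))) (XT.nd (nat_lit 234) (nat_lit 76) (nat_lit 0) (XT.nd (nat_lit 78) (nat_lit 0) (nat_lit 0) (XT.lf (nat_lit 0) (nat_lit 14743215120) (nat_lit 76) (nat_lit 30300216513) (nat_lit 152) (nat_lit 316547010040) (nat_lit 4) (nat_lit 5) (nat_lit 5) (nat_lit 5) (nat_lit 6) (nat_lit 4) (nat_lit 260) (nat_lit 231) (nat_lit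 169)) (XT.nd (nat_lit 78) (nat_lit 0) (nat_lit 0) (XT.lf (nat_lit 0) (nat_lit 95279687718) (nat_lit 152) (nat_lit 293956878726) (nat_lit 0) (nat_lit 22178855248) (nat_lit 4) (nat_lit 5) (nat_lit 6) (nat_lit 4) (nat_lit 4) (nat_lit 4) (nat_lit 261) (nat_lit 231) (nat_lit 168)) (XT.lf (nat_lit 0) (nat_lit 153887086781) (nat_lit 152) (nat_lit 233975383956) (nat_lit 0) (nat_lit 80784824044) (nat_lit 4) (nat_lit 5) (nat_lit 6) (nat_lit 4) (nat_lit 4) (nat_lit 4) (nat_lit 262) (nat_lit 231) (nat_lit 167)))) (XT.nd (nat_lit 78) (nat_lit 76) (nat_lit 0) (XT.lf (nat_lit 0) (nat_lit 221283574389) (nat_lit 152) (nat_lit 165000470324) (nat_lit 0) (nat_lit 148180067943) (nat_lit 4) (nat_lit 5) (nat_lit 6) (nat_lit 4) (nat_lit 4) (nat_lit 4) (nat_lit 263) (nat_lit 231) (nat_lit 166)) (XT.nd (nat_lit 78) (nat_lit 76) (nat_lit 0) (XT.lf (nat_lit 0) (nat_lit 298787777474) (nat_lit 152) (nat_lit 85682628648)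 (nat_lit 0) (nat_lit 225683189541) (nat_lit 4) (nat_lit 5) (nat_lit 6) (nat_lit 4) (nat_lit 4) (nat_lit 4) (nat_lit 264) (nat_lit 231) (nat_lit 165)) (XT.lf (nat_lit 0) (nat_lit 5821212510) (nat_lit 76) (nat_lit 382234870409) (nat_lit 76) (nat_lit 309129342052) (nat_lit 3) (nat_lit 4) (nat_lit 4) (nat_lit 5) (nat_lit 4) (nat_lit 4) (nat_lit 265) (nat_lit 231) (nat_lit 164))))))))
noncomputable def xc39 : XT := (XT.nd (nat_lit 32136) (nat_lit 0) (nat_lit 304) (XT.nd (nat_lit 858) (nat_lit 76) (nat_lit 0) (XT.nd (nat_lit 390) (nat_lit 0) (nat_lit 0) (XT.nd (nat_lit 156) (nat_lit 0) (nat_lit 0) (XT.nd (nat_lit 78) (nat_lit 0) (nat_lit 0) (XT.lf (nat_lit 0) (nat_lit 116236675697) (nat_lit 76) (nat_lit 376971123636) (nat_lit 76) (nat_lit 303864777520) (nat_lit 3) (nat_lit 4) (nat_lit 4) (nat_lit 5) (nat_lit 4) (nat_lit 4) (nat_lit 266) (nat_lit 231) (nat_lit 163)) (XT.lf (nat_lit 0) (nat_lit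 243212168070) (nat_lit 76) (nat_lit 370918894366) (nat_lit 76) (nat_lit 297811837154) (nat_lit 3) (nat_lit 4) (nat_lit 4) (nat_lit 5) (nat_lit 4) (nat_lit 4) (nat_lit 267) (nat_lit 231) (nat_lit 162))) (XT.nd (nat_lit 78) (nat_lit 0) (nat_lit 0) (XT.lf (nat_lit 0) (nat_lit 389231992740) (nat_lit 76) (nat_lit 363959769416) (nat_lit 76) (nat_lit 290852093861) (nat_lit 3) (nat_lit 4) (nat_lit 4) (nat_lit 5) (nat_lit 4) (nat_lit 4) (nat_lit 268) (nat_lit 231) (nat_lit 161)) (XT.nd (nat_lit 78) (nat_lit 0) (nat_lit 0) (XT.lf (nat_lit 0) (nat_lit 557153059321) (nat_lit 76) (nat_lit 355957591994) (nat_lit 76) (nat_lit 282849378749) (nat_lit 3) (nat_lit 4) (nat_lit 4) (nat_lit 5) (nat_lit 4) (nat_lit 4) (nat_lit 269) (nat_lit 231) (nat_lit 160)) (XT.lf (nat_lit 0) (nat_lit 750260779984) (nat_lit 76) (nat_lit 346755797759) (nat_lit 76) (nat_lit 273647116957) (nat_lit 3) (nat_lit 4) (nat_lit 4)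 (nat_lit 5) (nat_lit 4) (nat_lit 4) (nat_lit 270) (nat_lit 231) (nat_lit 159))))) (XT.nd (nat_lit 234) (nat_lit 0) (nat_lit 0) (XT.nd (nat_lit 78) (nat_lit 0) (nat_lit 0) (XT.lf (nat_lit 0) (nat_lit 972333349266) (nat_lit 76) (nat_lit 336174351607) (nat_lit 76) (nat_lit 263065264234) (nat_lit 3) (nat_lit 4) (nat_lit 4) (nat_lit 5) (nat_lit 4) (nat_lit 4) (nat_lit 271) (nat_lit 231) (nat_lit 158)) (XT.nd (nat_lit 78) (nat_lit 0) (nat_lit 0) (XT.lf (nat_lit 0) (nat_lit 1227715665259) (nat_lit 76) (nat_lit 324006225243) (nat_lit 76) (nat_lit 250896784331) (nat_lit 3) (nat_lit 4) (nat_lit 4) (nat_lit 5) (nat_lit 4) (nat_lit 4) (nat_lit 272) (nat_lit 231) (nat_lit 157)) (XT.lf (nat_lit 0) (nat_lit 1521404338494) (nat_lit 76) (nat_lit 310013346630) (nat_lit 76) (nat_lit 236903598291) (nat_lit 3) (nat_lit 4) (nat_lit 4) (nat_lit 5) (nat_lit 4) (nat_lit 4) (nat_lit 273) (nat_lit 231) (nat_lit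 156)))) (XT.nd (nat_lit 78) (nat_lit 0) (nat_lit 0) (XT.lf (nat_lit 0) (nat_lit 1859145451710) (nat_lit 76) (nat_lit 293921942056) (nat_lit 76) (nat_lit 220811926390) (nat_lit 3) (nat_lit 4) (nat_lit 4) (nat_lit 5) (nat_lit 4) (nat_lit 4) (nat_lit 274) (nat_lit 231) (nat_lit 155)) (XT.nd (nat_lit 78) (nat_lit 0) (nat_lit 0) (XT.lf (nat_lit 0) (nat_lit 2247546983207) (nat_lit 76) (nat_lit 275417179692) (nat_lit 76) (nat_lit 202306931568) (nat_lit 3) (nat_lit 4) (nat_lit 4) (nat_lit 5) (nat_lit 4) (nat_lit 4) (nat_lit 275) (nat_lit 231) (nat_lit 154)) (XT.lf (nat_lit 0) (nat_lit 2694208093385) (nat_lit 76) (nat_lit 254137009840) (nat_lit 76) (nat_lit 181026559578) (nat_lit 3) (nat_lit 4) (nat_lit 4) (nat_lit 5) (nat_lit 4) (nat_lit 4) (nat_lit 276) (nat_lit 231) (nat_lit 153)))))) (XT.nd (nat_lit 390) (nat_lit 76) (nat_lit 0) (XT.nd (nat_lit 156) (nat_lit 0) (nat_lit 0) (XT.nd (nat_lit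 78) (nat_lit 0) (nat_lit 0) (XT.lf (nat_lit 0) (nat_lit 3207867803964) (nat_lit 76) (nat_lit 229665081350) (nat_lit 76) (nat_lit 156554455316) (nat_lit 3) (nat_lit 4) (nat_lit 4) (nat_lit 5) (nat_lit 4) (nat_lit 4) (nat_lit 277) (nat_lit 231) (nat_lit 152)) (XT.lf (nat_lit 0) (nat_lit 3798575978847) (nat_lit 76) (nat_lit 201522595621) (nat_lit 76) (nat_lit 128411816742) (nat_lit 3) (nat_lit 4) (nat_lit 4) (nat_lit 5) (nat_lit 4) (nat_lit 4) (nat_lit 278) (nat_lit 231) (nat_lit 151))) (XT.nd (nat_lit 78) (nat_lit 0) (nat_lit 0) (XT.lf (nat_lit 0) (nat_lit 4477889951891) (nat_lit 76) (nat_lit 169158938803) (nat_lit 76) (nat_lit 96048027016) (nat_lit 3) (nat_lit 4) (nat_lit 4) (nat_lit 5) (nat_lit 4) (nat_lit 4) (nat_lit 279) (nat_lit 231) (nat_lit 150)) (XT.nd (nat_lit 78) (nat_lit 0) (nat_lit 0) (XT.lf (nat_lit 0) (nat_lit 5259100648654) (nat_lit 76) (nat_lit 131940908914) (nat_lit 76)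 (nat_lit 58829881554) (nat_lit 3) (nat_lit 4) (nat_lit 4) (nat_lit 5) (nat_lit 4) (nat_lit 4) (nat_lit 280) (nat_lit 231) (nat_lit 149)) (XT.lf (nat_lit 0) (nat_lit 6157492626249) (nat_lit 76) (nat_lit 89140327109) (nat_lit 76) (nat_lit 16029199250) (nat_lit 3) (nat_lit 4) (nat_lit 4) (nat_lit 5) (nat_lit 4) (nat_lit 4) (nat_lit 281) (nat_lit 231) (nat_lit 148))))) (XT.nd (nat_lit 30654) (nat_lit 0) (nat_lit 2660) (XT.nd (nat_lit 30498) (nat_lit 0) (nat_lit 2888) (XT.lf (nat_lit 0) (nat_lit 31531055066) (nat_lit 152) (nat_lit 7526620709) (nat_lit 76) (nat_lit 7158249949028) (nat_lit 2) (nat_lit 5) (nat_lit 4) (nat_lit 5) (nat_lit 3) (nat_lit 4) (nat_lit 282) (nat_lit 231) (nat_lit 147)) (XT.nd (nat_lit 78) (nat_lit 0) (nat_lit 76) (XT.lf (nat_lit 0) (nat_lit 4752046805) (nat_lit 532) (nat_lit 3123810838) (nat_lit 532) (nat_lit 3123810838) (nat_lit 40) (nat_lit 3) (nat_lit 47) (nat_lit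 3) (nat_lit 47) (nat_lit 5) (nat_lit 232) (nat_lit 232) (nat_lit 196)) (XT.lf (nat_lit 0) (nat_lit 10783736846) (nat_lit 456) (nat_lit 11096704830) (nat_lit 532) (nat_lit 1722554645) (nat_lit 41) (nat_lit 5) (nat_lit 47) (nat_lit 5) (nat_lit 48) (nat_lit 5) (nat_lit 233) (nat_lit 232) (nat_lit 195)))) (XT.nd (nat_lit 78) (nat_lit 304) (nat_lit 0) (XT.lf (nat_lit 76) (nat_lit 9002675479) (nat_lit 0) (nat_lit 4051908953) (nat_lit 532) (nat_lit 12328847609) (nat_lit 42) (nat_lit 5) (nat_lit 41) (nat_lit 5) (nat_lit 48) (nat_lit 5) (nat_lit 234) (nat_lit 232) (nat_lit 194)) (XT.nd (nat_lit 78) (nat_lit 380) (nat_lit 0) (XT.lf (nat_lit 76) (nat_lit 5213362614) (nat_lit 0) (nat_lit 11270494788) (nat_lit 532) (nat_lit 10881798018) (nat_lit 43) (nat_lit 5) (nat_lit 42) (nat_lit 5) (nat_lit 49) (nat_lit 5) (nat_lit 235) (nat_lit 232) (nat_lit 193)) (XT.lf (nat_lit 0) (nat_lit 1111969084) (nat_lit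 456) (nat_lit 20136070693) (nat_lit 532) (nat_lit 8331658149) (nat_lit 37) (nat_lit 5) (nat_lit 43) (nat_lit 5) (nat_lit 44) (nat_lit 5) (nat_lit 236) (nat_lit 232) (nat_lit 192))))))) (XT.nd (nat_lit 858) (nat_lit 608) (nat_lit 0) (XT.nd (nat_lit 390) (nat_lit 836) (nat_lit 0) (XT.nd (nat_lit 156) (nat_lit 608) (nat_lit 0) (XT.nd (nat_lit 78) (nat_lit 304) (nat_lit 0) (XT.lf (nat_lit 0) (nat_lit 27677366502) (nat_lit 532) (nat_lit 3227342083) (nat_lit 76) (nat_lit 1145207382) (nat_lit 37) (nat_lit 5) (nat_lit 44) (nat_lit 5) (nat_lit 38) (nat_lit 5) (nat_lit 237) (nat_lit 232) (nat_lit 191)) (XT.lf (nat_lit 0) (nat_lit 1373444442) (nat_lit 304) (nat_lit 8285724879) (nat_lit 76) (nat_lit 25135075677) (nat_lit 33) (nat_lit 5) (nat_lit 37) (nat_lit 5) (nat_lit 34) (nat_lit 5) (nat_lit 238) (nat_lit 232) (nat_lit 190))) (XT.nd (nat_lit 78) (nat_lit 380) (nat_lit 0) (XT.lf (nat_lit 0) (nat_lit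 8757872325) (nat_lit 304) (nat_lit 14252300060) (nat_lit 76) (nat_lit 14848207470) (nat_lit 30) (nat_lit 5) (nat_lit 34) (nat_lit 5) (nat_lit 31) (nat_lit 5) (nat_lit 239) (nat_lit 232) (nat_lit 189)) (XT.nd (nat_lit 78) (nat_lit 152) (nat_lit 0) (XT.lf (nat_lit 0) (nat_lit 18275070460) (nat_lit 304) (nat_lit 21218231801) (nat_lit 76) (nat_lit 1806891479) (nat_lit 27) (nat_lit 5) (nat_lit 31) (nat_lit 5) (nat_lit 28) (nat_lit 5) (nat_lit 240) (nat_lit 232) (nat_lit 188)) (XT.lf (nat_lit 0) (nat_lit 15300271940) (nat_lit 152) (nat_lit 15332177167) (nat_lit 228) (nat_lit 14512881047) (nat_lit 25) (nat_lit 5) (nat_lit 27) (nat_lit 5) (nat_lit 28) (nat_lit 5) (nat_lit 241) (nat_lit 232) (nat_lit 187))))) (XT.nd (nat_lit 234) (nat_lit 456) (nat_lit 0) (XT.nd (nat_lit 78) (nat_lit 228) (nat_lit 0) (XT.lf (nat_lit 0) (nat_lit 9186034771) (nat_lit 152) (nat_lit 36795797952) (nat_lit 228) (nat_lit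 3494383330) (nat_lit 23) (nat_lit 5) (nat_lit 25) (nat_lit 5) (nat_lit 26) (nat_lit 5) (nat_lit 242) (nat_lit 232) (nat_lit 186)) (XT.nd (nat_lit 78) (nat_lit 0) (nat_lit 0) (XT.lf (nat_lit 0) (nat_lit 846334347) (nat_lit 152) (nat_lit 9192730485) (nat_lit 228) (nat_lit 44294355341) (nat_lit 20) (nat_lit 5) (nat_lit 22) (nat_lit 5) (nat_lit 23) (nat_lit 5) (nat_lit 243) (nat_lit 232) (nat_lit 185)) (XT.lf (nat_lit 0) (nat_lit 27134008044) (nat_lit 228) (nat_lit 9921434547) (nat_lit 76) (nat_lit 22717466140) (nat_lit 20) (nat_lit 5) (nat_lit 23) (nat_lit 5) (nat_lit 21) (nat_lit 5) (nat_lit 244) (nat_lit 232) (nat_lit 184)))) (XT.nd (nat_lit 78) (nat_lit 304) (nat_lit 0) (XT.lf (nat_lit 0) (nat_lit 42009073735) (nat_lit 152) (nat_lit 6037104999) (nat_lit 228) (nat_lit 17881933934) (nat_lit 18) (nat_lit 5) (nat_lit 20) (nat_lit 5) (nat_lit 21) (nat_lit 5) (nat_lit 245) (nat_lit 232) (nat_lit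 183)) (XT.nd (nat_lit 78) (nat_lit 152) (nat_lit 0) (XT.lf (nat_lit 0) (nat_lit 901666729) (nat_lit 152) (nat_lit 42775293093) (nat_lit 76) (nat_lit 29190016222) (nat_lit 16) (nat_lit 5) (nat_lit 18) (nat_lit 5) (nat_lit 17) (nat_lit 5) (nat_lit 246) (nat_lit 232) (nat_lit 182)) (XT.lf (nat_lit 0) (nat_lit 12806913759) (nat_lit 152) (nat_lit 9846799798) (nat_lit 228) (nat_lit 58059042501) (nat_lit 14) (nat_lit 5) (nat_lit 16) (nat_lit 5) (nat_lit 17) (nat_lit 5) (nat_lit 247) (nat_lit 232) (nat_lit 181)))))) (XT.nd (nat_lit 390) (nat_lit 304) (nat_lit 0) (XT.nd (nat_lit 156) (nat_lit 228) (nat_lit 0) (XT.nd (nat_lit 78) (nat_lit 76) (nat_lit 0) (XT.lf (nat_lit 0) (nat_lit 49636090864) (nat_lit 228) (nat_lit 11065077399) (nat_lit 76) (nat_lit 28876851794) (nat_lit 14) (nat_lit 5) (nat_lit 17) (nat_lit 5) (nat_lit 15) (nat_lit 4) (nat_lit 248) (nat_lit 232) (nat_lit 180)) (XT.lf (nat_lit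 0) (nat_lit 56860915141) (nat_lit 76) (nat_lit 25436908120) (nat_lit 152) (nat_lit 17344706911) (nat_lit 13) (nat_lit 5) (nat_lit 14) (nat_lit 5) (nat_lit 15) (nat_lit 4) (nat_lit 249) (nat_lit 232) (nat_lit 179))) (XT.nd (nat_lit 78) (nat_lit 76) (nat_lit 0) (XT.lf (nat_lit 0) (nat_lit 9539681791) (nat_lit 152) (nat_lit 86016360163) (nat_lit 76) (nat_lit 15537668972) (nat_lit 11) (nat_lit 5) (nat_lit 13) (nat_lit 5) (nat_lit 12) (nat_lit 4) (nat_lit 250) (nat_lit 232) (nat_lit 178)) (XT.nd (nat_lit 78) (nat_lit 76) (nat_lit 0) (XT.lf (nat_lit 0) (nat_lit 41433609022) (nat_lit 152) (nat_lit 19684280502) (nat_lit 76) (nat_lit 62948339366) (nat_lit 11) (nat_lit 5) (nat_lit 13) (nat_lit 5) (nat_lit 12) (nat_lit 4) (nat_lit 251) (nat_lit 232) (nat_lit 177)) (XT.lf (nat_lit 0) (nat_lit 59567271977) (nat_lit 76) (nat_lit 19971092199) (nat_lit 152) (nat_lit 59332131249) (nat_lit 10) (nat_lit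 5) (nat_lit 11) (nat_lit 5) (nat_lit 12) (nat_lit 4) (nat_lit 252) (nat_lit 232) (nat_lit 176))))) (XT.nd (nat_lit 234) (nat_lit 152) (nat_lit 0) (XT.nd (nat_lit 78) (nat_lit 152) (nat_lit 0) (XT.lf (nat_lit 0) (nat_lit 124599107908) (nat_lit 152) (nat_lit 4633192246) (nat_lit 0) (nat_lit 26563888442) (nat_lit 10) (nat_lit 5) (nat_lit 12) (nat_lit 4) (nat_lit 10) (nat_lit 4) (nat_lit 253) (nat_lit 232) (nat_lit 175)) (XT.nd (nat_lit 78) (nat_lit 0) (nat_lit 0) (XT.lf (nat_lit 0) (nat_lit 3757649107) (nat_lit 152) (nat_lit 90223746935) (nat_lit 76) (nat_lit 81064529389) (nat_lit 8) (nat_lit 5) (nat_lit 10) (nat_lit 5) (nat_lit 9) (nat_lit 4) (nat_lit 254) (nat_lit 232) (nat_lit 174)) (XT.lf (nat_lit 0) (nat_lit 42294895253) (nat_lit 152) (nat_lit 10070133744) (nat_lit 76) (nat_lit 144738352993) (nat_lit 8) (nat_lit 5) (nat_lit 10) (nat_lit 5) (nat_lit 9) (nat_lit 4) (nat_lit 255) (nat_lit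 232) (nat_lit 173)))) (XT.nd (nat_lit 78) (nat_lit 76) (nat_lit 0) (XT.lf (nat_lit 0) (nat_lit 86422881985) (nat_lit 76) (nat_lit 2264499422) (nat_lit 152) (nat_lit 133616108665) (nat_lit 7) (nat_lit 5) (nat_lit 8) (nat_lit 5) (nat_lit 9) (nat_lit 4) (nat_lit 256) (nat_lit 232) (nat_lit 172)) (XT.nd (nat_lit 78) (nat_lit 76) (nat_lit 0) (XT.lf (nat_lit 0) (nat_lit 143667192453) (nat_lit 152) (nat_lit 54605799699) (nat_lit 0) (nat_lit 52880350652) (nat_lit 7) (nat_lit 5) (nat_lit 9) (nat_lit 4) (nat_lit 7) (nat_lit 4) (nat_lit 257) (nat_lit 232) (nat_lit 171)) (XT.lf (nat_lit 0) (nat_lit 40834666185) (nat_lit 76) (nat_lit 167100936084) (nat_lit 76) (nat_lit 76311745005) (nat_lit 6) (nat_lit 4) (nat_lit 7) (nat_lit 5) (nat_lit 7) (nat_lit 4) (nat_lit 258) (nat_lit 232) (nat_lit 170))))))))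
noncomputable def xc40 : XT := (XT.nd (nat_lit 1716) (nat_lit 0) (nat_lit 0) (XT.nd (nat_lit 858) (nat_lit 0) (nat_lit 0) (XT.nd (nat_lit 390) (nat_lit 76) (nat_lit 0) (XT.nd (nat_lit 156) (nat_lit 76) (nat_lit 0) (XT.nd (nat_lit 78) (nat_lit 76) (nat_lit 0) (XT.lf (nat_lit 0) (nat_lit 153892792737) (nat_lit 76) (nat_lit 129538469013) (nat_lit 76) (nat_lit 38747235085) (nat_lit 6) (nat_lit 4) (nat_lit 7) (nat_lit 5) (nat_lit 7) (nat_lit 4) (nat_lit 259) (nat_lit 232) (nat_lit 169)) (XT.lf (nat_lit 0) (nat_lit 4226744978) (nat_lit 152) (nat_lit 82001380763) (nat_lit 76) (nat_lit 279562830459) (nat_lit 5) (nat_lit 5) (nat_lit 7) (nat_lit 5) (nat_lit 6) (nat_lit 4) (nat_lit 260) (nat_lit 232) (nat_lit 168))) (XT.nd (nat_lit 78) (nat_lit 0) (nat_lit 0) (XT.lf (nat_lit 0) (nat_lit 17000337406) (nat_lit 76) (nat_lit 34824130099) (nat_lit 152) (nat_lit 364002552530) (nat_lit 4) (nat_lit 5) (nat_lit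 5) (nat_lit 5) (nat_lit 6) (nat_lit 4) (nat_lit 261) (nat_lit 232) (nat_lit 167)) (XT.nd (nat_lit 78) (nat_lit 0) (nat_lit 0) (XT.lf (nat_lit 0) (nat_lit 109593405256) (nat_lit 152) (nat_lit 338009436625) (nat_lit 0) (nat_lit 25523129133) (nat_lit 4) (nat_lit 5) (nat_lit 6) (nat_lit 4) (nat_lit 4) (nat_lit 4) (nat_lit 262) (nat_lit 232) (nat_lit 166)) (XT.lf (nat_lit 0) (nat_lit 176989075346) (nat_lit 152) (nat_lit 269036062063) (nat_lit 0) (nat_lit 92917717736) (nat_lit 4) (nat_lit 5) (nat_lit 6) (nat_lit 4) (nat_lit 4) (nat_lit 4) (nat_lit 263) (nat_lit 232) (nat_lit 165))))) (XT.nd (nat_lit 234) (nat_lit 0) (nat_lit 0) (XT.nd (nat_lit 78) (nat_lit 76) (nat_lit 0) (XT.lf (nat_lit 0) (nat_lit 254492567546) (nat_lit 152) (nat_lit 189719558710) (nat_lit 0) (nat_lit 170420269512) (nat_lit 4) (nat_lit 5) (nat_lit 6) (nat_lit 4) (nat_lit 4) (nat_lit 4) (nat_lit 264) (nat_lit 232) (nat_lit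 164)) (XT.nd (nat_lit 78) (nat_lit 76) (nat_lit 0) (XT.lf (nat_lit 0) (nat_lit 343620254529) (nat_lit 152) (nat_lit 98508081935) (nat_lit 0) (nat_lit 259547138736) (nat_lit 4) (nat_lit 5) (nat_lit 6) (nat_lit 4) (nat_lit 4) (nat_lit 4) (nat_lit 265) (nat_lit 232) (nat_lit 163)) (XT.lf (nat_lit 0) (nat_lit 6719054975) (nat_lit 76) (nat_lit 439558477325) (nat_lit 76) (nat_lit 355484650437) (nat_lit 3) (nat_lit 4) (nat_lit 4) (nat_lit 5) (nat_lit 4) (nat_lit 4) (nat_lit 266) (nat_lit 232) (nat_lit 162)))) (XT.nd (nat_lit 78) (nat_lit 0) (nat_lit 0) (XT.lf (nat_lit 0) (nat_lit 133693621042) (nat_lit 76) (nat_lit 433506684664) (nat_lit 76) (nat_lit 349432239432) (nat_lit 3) (nat_lit 4) (nat_lit 4) (nat_lit 5) (nat_lit 4) (nat_lit 4) (nat_lit 267) (nat_lit 232) (nat_lit 161)) (XT.nd (nat_lit 78) (nat_lit 0) (nat_lit 0) (XT.lf (nat_lit 0) (nat_lit 279712640228) (nat_lit 76) (nat_lit 426547939375)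 (nat_lit 76) (nat_lit 342472956453) (nat_lit 3) (nat_lit 4) (nat_lit 4) (nat_lit 5) (nat_lit 4) (nat_lit 4) (nat_lit 268) (nat_lit 232) (nat_lit 160)) (XT.lf (nat_lit 0) (nat_lit 447633006388) (nat_lit 76) (nat_lit 418546092093) (nat_lit 76) (nat_lit 334470641614) (nat_lit 3) (nat_lit 4) (nat_lit 4) (nat_lit 5) (nat_lit 4) (nat_lit 4) (nat_lit 269) (nat_lit 232) (nat_lit 159)))))) (XT.nd (nat_lit 390) (nat_lit 0) (nat_lit 0) (XT.nd (nat_lit 156) (nat_lit 0) (nat_lit 0) (XT.nd (nat_lit 78) (nat_lit 0) (nat_lit 0) (XT.lf (nat_lit 0) (nat_lit 640740117990) (nat_lit 76) (nat_lit 409344584936) (nat_lit 76) (nat_lit 325268727887) (nat_lit 3) (nat_lit 4) (nat_lit 4) (nat_lit 5) (nat_lit 4) (nat_lit 4) (nat_lit 270) (nat_lit 232) (nat_lit 158)) (XT.lf (nat_lit 0) (nat_lit 862812157653) (nat_lit 76) (nat_lit 398763388417) (nat_lit 76) (nat_lit 314687177828) (nat_lit 3) (nat_lit 4) (nat_lit 4)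 (nat_lit 5) (nat_lit 4) (nat_lit 4) (nat_lit 271) (nat_lit 232) (nat_lit 157))) (XT.nd (nat_lit 78) (nat_lit 0) (nat_lit 0) (XT.lf (nat_lit 0) (nat_lit 1118194013108) (nat_lit 76) (nat_lit 386595479126) (nat_lit 76) (nat_lit 302518961110) (nat_lit 3) (nat_lit 4) (nat_lit 4) (nat_lit 5) (nat_lit 4) (nat_lit 4) (nat_lit 272) (nat_lit 232) (nat_lit 156)) (XT.nd (nat_lit 78) (nat_lit 0) (nat_lit 0) (XT.lf (nat_lit 0) (nat_lit 1411882285876) (nat_lit 76) (nat_lit 372602789271) (nat_lit 76) (nat_lit 288526003928) (nat_lit 3) (nat_lit 4) (nat_lit 4) (nat_lit 5) (nat_lit 4) (nat_lit 4) (nat_lit 273) (nat_lit 232) (nat_lit 155)) (XT.lf (nat_lit 0) (nat_lit 1749623050859) (nat_lit 76) (nat_lit 356511548835) (nat_lit 76) (nat_lit 272434531034) (nat_lit 3) (nat_lit 4) (nat_lit 4) (nat_lit 5) (nat_lit 4) (nat_lit 4) (nat_lit 274) (nat_lit 232) (nat_lit 154))))) (XT.nd (nat_lit 234) (nat_lit 0) (nat_lit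 0) (XT.nd (nat_lit 78) (nat_lit 0) (nat_lit 0) (XT.lf (nat_lit 0) (nat_lit 2138024279545) (nat_lit 76) (nat_lit 338006929199) (nat_lit 76) (nat_lit 253929709260) (nat_lit 3) (nat_lit 4) (nat_lit 4) (nat_lit 5) (nat_lit 4) (nat_lit 4) (nat_lit 275) (nat_lit 232) (nat_lit 153)) (XT.nd (nat_lit 78) (nat_lit 0) (nat_lit 0) (XT.lf (nat_lit 0) (nat_lit 2584685126408) (nat_lit 76) (nat_lit 316726883459) (nat_lit 76) (nat_lit 232649487748) (nat_lit 3) (nat_lit 4) (nat_lit 4) (nat_lit 5) (nat_lit 4) (nat_lit 4) (nat_lit 276) (nat_lit 232) (nat_lit 152)) (XT.lf (nat_lit 0) (nat_lit 3098344608019) (nat_lit 76) (nat_lit 292255062892) (nat_lit 76) (nat_lit 208177514336) (nat_lit 3) (nat_lit 4) (nat_lit 4) (nat_lit 5) (nat_lit 4) (nat_lit 4) (nat_lit 277) (nat_lit 232) (nat_lit 151)))) (XT.nd (nat_lit 78) (nat_lit 0) (nat_lit 0) (XT.lf (nat_lit 0) (nat_lit 3689052583799) (nat_lit 76) (nat_lit 264112671010)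 (nat_lit 76) (nat_lit 180034989545) (nat_lit 3) (nat_lit 4) (nat_lit 4) (nat_lit 5) (nat_lit 4) (nat_lit 4) (nat_lit 278) (nat_lit 232) (nat_lit 150)) (XT.nd (nat_lit 78) (nat_lit 0) (nat_lit 0) (XT.lf (nat_lit 0) (nat_lit 4368366383709) (nat_lit 76) (nat_lit 231749095797) (nat_lit 76) (nat_lit 147671298760) (nat_lit 3) (nat_lit 4) (nat_lit 4) (nat_lit 5) (nat_lit 4) (nat_lit 4) (nat_lit 279) (nat_lit 232) (nat_lit 149)) (XT.lf (nat_lit 0) (nat_lit 5149576929922) (nat_lit 76) (nat_lit 194531136870) (nat_lit 76) (nat_lit 110453239334) (nat_lit 3) (nat_lit 4) (nat_lit 4) (nat_lit 5) (nat_lit 4) (nat_lit 4) (nat_lit 280) (nat_lit 232) (nat_lit 148))))))) (XT.nd (nat_lit 31356) (nat_lit 0) (nat_lit 608) (XT.nd (nat_lit 30888) (nat_lit 0) (nat_lit 1824) (XT.nd (nat_lit 30654) (nat_lit 0) (nat_lit 2812) (XT.nd (nat_lit 78) (nat_lit 0) (nat_lit 0) (XT.lf (nat_lit 0) (nat_lit 6047968776603) (nat_lit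 76) (nat_lit 151730616770) (nat_lit 76) (nat_lit 67652631844) (nat_lit 3) (nat_lit 4) (nat_lit 4) (nat_lit 5) (nat_lit 4) (nat_lit 4) (nat_lit 281) (nat_lit 232) (nat_lit 147)) (XT.lf (nat_lit 0) (nat_lit 7081119155534) (nat_lit 76) (nat_lit 102510134017) (nat_lit 76) (nat_lit 18432073101) (nat_lit 3) (nat_lit 4) (nat_lit 4) (nat_lit 5) (nat_lit 4) (nat_lit 4) (nat_lit 282) (nat_lit 232) (nat_lit 146))) (XT.nd (nat_lit 78) (nat_lit 0) (nat_lit 76) (XT.lf (nat_lit 0) (nat_lit 5677007447) (nat_lit 532) (nat_lit 3477367045) (nat_lit 532) (nat_lit 3477367045) (nat_lit 40) (nat_lit 3) (nat_lit 47) (nat_lit 3) (nat_lit 47) (nat_lit 5) (nat_lit 233) (nat_lit 233) (nat_lit 194)) (XT.nd (nat_lit 78) (nat_lit 0) (nat_lit 0) (XT.lf (nat_lit 0) (nat_lit 12771392779) (nat_lit 456) (nat_lit 12515223371) (nat_lit 532) (nat_lit 1825648202) (nat_lit 41) (nat_lit 5) (nat_lit 47) (nat_lit 5) (nat_lit 48)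 (nat_lit 5) (nat_lit 234) (nat_lit 233) (nat_lit 193)) (XT.lf (nat_lit 76) (nat_lit 10578242395) (nat_lit 0) (nat_lit 4761767032) (nat_lit 532) (nat_lit 13823389925) (nat_lit 42) (nat_lit 5) (nat_lit 41) (nat_lit 5) (nat_lit 48) (nat_lit 5) (nat_lit 235) (nat_lit 233) (nat_lit 192))))) (XT.nd (nat_lit 234) (nat_lit 760) (nat_lit 0) (XT.nd (nat_lit 78) (nat_lit 380) (nat_lit 0) (XT.lf (nat_lit 76) (nat_lit 6228936229) (nat_lit 0) (nat_lit 13015536696) (nat_lit 532) (nat_lit 12201797847) (nat_lit 43) (nat_lit 5) (nat_lit 42) (nat_lit 5) (nat_lit 49) (nat_lit 5) (nat_lit 236) (nat_lit 233) (nat_lit 191)) (XT.nd (nat_lit 78) (nat_lit 0) (nat_lit 0) (XT.lf (nat_lit 0) (nat_lit 1515944028) (nat_lit 456) (nat_lit 23174333684) (nat_lit 532) (nat_lit 9304937556) (nat_lit 37) (nat_lit 5) (nat_lit 43) (nat_lit 5) (nat_lit 44) (nat_lit 5) (nat_lit 237) (nat_lit 233) (nat_lit 190)) (XT.lf (nat_lit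 0) (nat_lit 32050365059) (nat_lit 532) (nat_lit 3486185761) (nat_lit 76) (nat_lit 1302241239) (nat_lit 37) (nat_lit 5) (nat_lit 44) (nat_lit 5) (nat_lit 38) (nat_lit 5) (nat_lit 238) (nat_lit 233) (nat_lit 189)))) (XT.nd (nat_lit 78) (nat_lit 456) (nat_lit 0) (XT.lf (nat_lit 0) (nat_lit 1782808687) (nat_lit 304) (nat_lit 9310960500) (nat_lit 76) (nat_lit 28902620264) (nat_lit 33) (nat_lit 5) (nat_lit 37) (nat_lit 5) (nat_lit 34) (nat_lit 5) (nat_lit 239) (nat_lit 233) (nat_lit 188)) (XT.nd (nat_lit 78) (nat_lit 228) (nat_lit 0) (XT.lf (nat_lit 0) (nat_lit 10253590959) (nat_lit 304) (nat_lit 16176206477) (nat_lit 76) (nat_lit 17092146382) (nat_lit 30) (nat_lit 5) (nat_lit 34) (nat_lit 5) (nat_lit 31) (nat_lit 5) (nat_lit 240) (nat_lit 233) (nat_lit 187)) (XT.lf (nat_lit 0) (nat_lit 21180123940) (nat_lit 304) (nat_lit 24192338196) (nat_lit 76) (nat_lit 2109109414) (nat_lit 27) (nat_lit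 5) (nat_lit 31) (nat_lit 5) (nat_lit 28) (nat_lit 5) (nat_lit 241) (nat_lit 233) (nat_lit 186)))))) (XT.nd (nat_lit 390) (nat_lit 532) (nat_lit 0) (XT.nd (nat_lit 156) (nat_lit 380) (nat_lit 0) (XT.nd (nat_lit 78) (nat_lit 152) (nat_lit 0) (XT.lf (nat_lit 0) (nat_lit 17786281754) (nat_lit 152) (nat_lit 17588056147) (nat_lit 228) (nat_lit 16530553698) (nat_lit 25) (nat_lit 5) (nat_lit 27) (nat_lit 5) (nat_lit 28) (nat_lit 5) (nat_lit 242) (nat_lit 233) (nat_lit 185)) (XT.lf (nat_lit 0) (nat_lit 10748979142) (nat_lit 152) (nat_lit 42263342485) (nat_lit 228) (nat_lit 3874255486) (nat_lit 23) (nat_lit 5) (nat_lit 25) (nat_lit 5) (nat_lit 26) (nat_lit 5) (nat_lit 243) (nat_lit 233) (nat_lit 184))) (XT.nd (nat_lit 78) (nat_lit 152) (nat_lit 0) (XT.lf (nat_lit 0) (nat_lit 1149618885) (nat_lit 152) (nat_lit 10518735742) (nat_lit 228) (nat_lit 50804870649) (nat_lit 20) (nat_lit 5) (nat_lit 22)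 (nat_lit 5) (nat_lit 23) (nat_lit 5) (nat_lit 244) (nat_lit 233) (nat_lit 183)) (XT.nd (nat_lit 78) (nat_lit 152) (nat_lit 0) (XT.lf (nat_lit 0) (nat_lit 31312546138) (nat_lit 228) (nat_lit 11248545417) (nat_lit 76) (nat_lit 26168788520) (nat_lit 20) (nat_lit 5) (nat_lit 23) (nat_lit 5) (nat_lit 21) (nat_lit 5) (nat_lit 245) (nat_lit 233) (nat_lit 182)) (XT.lf (nat_lit 0) (nat_lit 48457902430) (nat_lit 152) (nat_lit 6893042660) (nat_lit 228) (nat_lit 20458305128) (nat_lit 18) (nat_lit 5) (nat_lit 20) (nat_lit 5) (nat_lit 21) (nat_lit 5) (nat_lit 246) (nat_lit 233) (nat_lit 181))))) (XT.nd (nat_lit 234) (nat_lit 228) (nat_lit 0) (XT.nd (nat_lit 78) (nat_lit 152) (nat_lit 0) (XT.lf (nat_lit 0) (nat_lit 1128963819) (nat_lit 152) (nat_lit 49045248791) (nat_lit 76) (nat_lit 33615243025) (nat_lit 16) (nat_lit 5) (nat_lit 18) (nat_lit 5) (nat_lit 17) (nat_lit 5) (nat_lit 247) (nat_lit 233) (nat_lit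 180)) (XT.nd (nat_lit 78) (nat_lit 0) (nat_lit 0) (XT.lf (nat_lit 0) (nat_lit 14861902283) (nat_lit 152) (nat_lit 11273130783) (nat_lit 228) (nat_lit 66677798838) (nat_lit 14) (nat_lit 5) (nat_lit 16) (nat_lit 5) (nat_lit 17) (nat_lit 5) (nat_lit 248) (nat_lit 233) (nat_lit 179)) (XT.lf (nat_lit 0) (nat_lit 57154966708) (nat_lit 228) (nat_lit 12603473833) (nat_lit 76) (nat_lit 33250252012) (nat_lit 14) (nat_lit 5) (nat_lit 17) (nat_lit 5) (nat_lit 15) (nat_lit 4) (nat_lit 249) (nat_lit 233) (nat_lit 178)))) (XT.nd (nat_lit 78) (nat_lit 152) (nat_lit 0) (XT.lf (nat_lit 0) (nat_lit 65501144631) (nat_lit 76) (nat_lit 29207904077) (nat_lit 152) (nat_lit 19874403326) (nat_lit 13) (nat_lit 5) (nat_lit 14) (nat_lit 5) (nat_lit 15) (nat_lit 4) (nat_lit 250) (nat_lit 233) (nat_lit 177)) (XT.nd (nat_lit 78) (nat_lit 0) (nat_lit 0) (XT.lf (nat_lit 0) (nat_lit 11033682645) (nat_lit 152) (nat_lit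 98809682673) (nat_lit 76) (nat_lit 17909250865) (nat_lit 11) (nat_lit 5) (nat_lit 13) (nat_lit 5) (nat_lit 12) (nat_lit 4) (nat_lit 251) (nat_lit 233) (nat_lit 176)) (XT.lf (nat_lit 0) (nat_lit 47703475232) (nat_lit 152) (nat_lit 22542025608) (nat_lit 76) (nat_lit 72426182922) (nat_lit 11) (nat_lit 5) (nat_lit 13) (nat_lit 5) (nat_lit 12) (nat_lit 4) (nat_lit 252) (nat_lit 233) (nat_lit 175))))))))
noncomputable def xc41 : XT := (XT.nd (nat_lit 1716) (nat_lit 0) (nat_lit 0) (XT.nd (nat_lit 858) (nat_lit 76) (nat_lit 0) (XT.nd (nat_lit 390) (nat_lit 228) (nat_lit 0) (XT.nd (nat_lit 156) (nat_lit 228) (nat_lit 0) (XT.nd (nat_lit 78) (nat_lit 0) (nat_lit 0) (XT.lf (nat_lit 0) (nat_lit 68589227187) (nat_lit 76) (nat_lit 22929654495) (nat_lit 152) (nat_lit 68178125745) (nat_lit 10) (nat_lit 5) (nat_lit 11) (nat_lit 5) (nat_lit 12) (nat_lit 4) (nat_lit 253) (nat_lit 233) (nat_lit 174)) (XT.lf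 (nat_lit 0) (nat_lit 143333022070) (nat_lit 152) (nat_lit 5249880272) (nat_lit 0) (nat_lit 30579120025) (nat_lit 10) (nat_lit 5) (nat_lit 12) (nat_lit 4) (nat_lit 10) (nat_lit 4) (nat_lit 254) (nat_lit 233) (nat_lit 173))) (XT.nd (nat_lit 78) (nat_lit 76) (nat_lit 0) (XT.lf (nat_lit 0) (nat_lit 4362420604) (nat_lit 152) (nat_lit 103683422660) (nat_lit 76) (nat_lit 93253624143) (nat_lit 8) (nat_lit 5) (nat_lit 10) (nat_lit 5) (nat_lit 9) (nat_lit 4) (nat_lit 255) (nat_lit 233) (nat_lit 172)) (XT.nd (nat_lit 78) (nat_lit 76) (nat_lit 0) (XT.lf (nat_lit 0) (nat_lit 48674889655) (nat_lit 152) (nat_lit 11516404835) (nat_lit 76) (nat_lit 166474684504) (nat_lit 8) (nat_lit 5) (nat_lit 10) (nat_lit 5) (nat_lit 9) (nat_lit 4) (nat_lit 256) (nat_lit 233) (nat_lit 171)) (XT.lf (nat_lit 0) (nat_lit 99445124898) (nat_lit 76) (nat_lit 2577873869) (nat_lit 152) (nat_lit 153623370974) (nat_lit 7) (nat_lit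 5) (nat_lit 8) (nat_lit 5) (nat_lit 9) (nat_lit 4) (nat_lit 257) (nat_lit 233) (nat_lit 170))))) (XT.nd (nat_lit 234) (nat_lit 152) (nat_lit 0) (XT.nd (nat_lit 78) (nat_lit 76) (nat_lit 0) (XT.lf (nat_lit 0) (nat_lit 165246091039) (nat_lit 152) (nat_lit 62743781020) (nat_lit 0) (nat_lit 60834129172) (nat_lit 7) (nat_lit 5) (nat_lit 9) (nat_lit 4) (nat_lit 7) (nat_lit 4) (nat_lit 258) (nat_lit 233) (nat_lit 169)) (XT.nd (nat_lit 78) (nat_lit 0) (nat_lit 0) (XT.lf (nat_lit 0) (nat_lit 47008277988) (nat_lit 76) (nat_lit 192143889552) (nat_lit 76) (nat_lit 87730151294) (nat_lit 6) (nat_lit 4) (nat_lit 7) (nat_lit 5) (nat_lit 7) (nat_lit 4) (nat_lit 259) (nat_lit 233) (nat_lit 168)) (XT.lf (nat_lit 0) (nat_lit 177018808930) (nat_lit 76) (nat_lit 148949946369) (nat_lit 76) (nat_lit 44534663424) (nat_lit 6) (nat_lit 4) (nat_lit 7) (nat_lit 5) (nat_lit 7) (nat_lit 4) (nat_lit 260) (nat_lit 233)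 (nat_lit 167)))) (XT.nd (nat_lit 78) (nat_lit 76) (nat_lit 0) (XT.lf (nat_lit 0) (nat_lit 4881124972) (nat_lit 152) (nat_lit 94263886208) (nat_lit 76) (nat_lit 321512936209) (nat_lit 5) (nat_lit 5) (nat_lit 7) (nat_lit 5) (nat_lit 6) (nat_lit 4) (nat_lit 261) (nat_lit 233) (nat_lit 166)) (XT.nd (nat_lit 78) (nat_lit 0) (nat_lit 0) (XT.lf (nat_lit 0) (nat_lit 19584898427) (nat_lit 76) (nat_lit 40031780699) (nat_lit 152) (nat_lit 418582890785) (nat_lit 4) (nat_lit 5) (nat_lit 5) (nat_lit 5) (nat_lit 6) (nat_lit 4) (nat_lit 262) (nat_lit 233) (nat_lit 165)) (XT.lf (nat_lit 0) (nat_lit 126048873043) (nat_lit 152) (nat_lit 388679869957) (nat_lit 0) (nat_lit 29364789881) (nat_lit 4) (nat_lit 5) (nat_lit 6) (nat_lit 4) (nat_lit 4) (nat_lit 4) (nat_lit 263) (nat_lit 233) (nat_lit 164)))))) (XT.nd (nat_lit 390) (nat_lit 0) (nat_lit 0) (XT.nd (nat_lit 156) (nat_lit 76) (nat_lit 0) (XT.nd (nat_lit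 78) (nat_lit 0) (nat_lit 0) (XT.lf (nat_lit 0) (nat_lit 203551747082) (nat_lit 152) (nat_lit 309364530362) (nat_lit 0) (nat_lit 106866846160) (nat_lit 4) (nat_lit 5) (nat_lit 6) (nat_lit 4) (nat_lit 4) (nat_lit 4) (nat_lit 264) (nat_lit 233) (nat_lit 163)) (XT.lf (nat_lit 0) (nat_lit 292678896533) (nat_lit 152) (nat_lit 218154065551) (nat_lit 0) (nat_lit 195993284517) (nat_lit 4) (nat_lit 5) (nat_lit 6) (nat_lit 4) (nat_lit 4) (nat_lit 4) (nat_lit 265) (nat_lit 233) (nat_lit 162))) (XT.nd (nat_lit 78) (nat_lit 76) (nat_lit 0) (XT.lf (nat_lit 0) (nat_lit 395174113452) (nat_lit 152) (nat_lit 113263922951) (nat_lit 0) (nat_lit 298487883092) (nat_lit 4) (nat_lit 5) (nat_lit 6) (nat_lit 4) (nat_lit 4) (nat_lit 4) (nat_lit 266) (nat_lit 233) (nat_lit 161)) (XT.nd (nat_lit 78) (nat_lit 0) (nat_lit 0) (XT.lf (nat_lit 0) (nat_lit 7745560169) (nat_lit 76) (nat_lit 505483459778) (nat_lit 76) (nat_lit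 408796691728) (nat_lit 3) (nat_lit 4) (nat_lit 4) (nat_lit 5) (nat_lit 4) (nat_lit 4) (nat_lit 267) (nat_lit 233) (nat_lit 160)) (XT.lf (nat_lit 0) (nat_lit 153763878935) (nat_lit 76) (nat_lit 498525044629) (nat_lit 76) (nat_lit 401837809021) (nat_lit 3) (nat_lit 4) (nat_lit 4) (nat_lit 5) (nat_lit 4) (nat_lit 4) (nat_lit 268) (nat_lit 233) (nat_lit 159))))) (XT.nd (nat_lit 234) (nat_lit 0) (nat_lit 0) (XT.nd (nat_lit 78) (nat_lit 0) (nat_lit 0) (XT.lf (nat_lit 0) (nat_lit 321683636034) (nat_lit 76) (nat_lit 490523484425) (nat_lit 76) (nat_lit 393835842246) (nat_lit 3) (nat_lit 4) (nat_lit 4) (nat_lit 5) (nat_lit 4) (nat_lit 4) (nat_lit 269) (nat_lit 233) (nat_lit 158)) (XT.nd (nat_lit 78) (nat_lit 0) (nat_lit 0) (XT.lf (nat_lit 0) (nat_lit 514790218017) (nat_lit 76) (nat_lit 481322226901) (nat_lit 76) (nat_lit 384634231183) (nat_lit 3) (nat_lit 4) (nat_lit 4) (nat_lit 5) (nat_lit 4)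 (nat_lit 4) (nat_lit 270) (nat_lit 233) (nat_lit 157)) (XT.lf (nat_lit 0) (nat_lit 736861797142) (nat_lit 76) (nat_lit 470741247454) (nat_lit 76) (nat_lit 374052944310) (nat_lit 3) (nat_lit 4) (nat_lit 4) (nat_lit 5) (nat_lit 4) (nat_lit 4) (nat_lit 271) (nat_lit 233) (nat_lit 156)))) (XT.nd (nat_lit 78) (nat_lit 0) (nat_lit 0) (XT.lf (nat_lit 0) (nat_lit 992243252129) (nat_lit 76) (nat_lit 458573526921) (nat_lit 76) (nat_lit 361884956450) (nat_lit 3) (nat_lit 4) (nat_lit 4) (nat_lit 5) (nat_lit 4) (nat_lit 4) (nat_lit 272) (nat_lit 233) (nat_lit 155)) (XT.nd (nat_lit 78) (nat_lit 0) (nat_lit 0) (XT.lf (nat_lit 0) (nat_lit 1285931176665) (nat_lit 76) (nat_lit 444581001204) (nat_lit 76) (nat_lit 347892198275) (nat_lit 3) (nat_lit 4) (nat_lit 4) (nat_lit 5) (nat_lit 4) (nat_lit 4) (nat_lit 273) (nat_lit 233) (nat_lit 154)) (XT.lf (nat_lit 0) (nat_lit 1623671638836) (nat_lit 76) (nat_lit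 428489903497) (nat_lit 76) (nat_lit 331800898429) (nat_lit 3) (nat_lit 4) (nat_lit 4) (nat_lit 5) (nat_lit 4) (nat_lit 4) (nat_lit 274) (nat_lit 233) (nat_lit 153))))))) (XT.nd (nat_lit 31434) (nat_lit 0) (nat_lit 1140) (XT.nd (nat_lit 390) (nat_lit 0) (nat_lit 0) (XT.nd (nat_lit 156) (nat_lit 0) (nat_lit 0) (XT.nd (nat_lit 78) (nat_lit 0) (nat_lit 0) (XT.lf (nat_lit 0) (nat_lit 2012072604208) (nat_lit 76) (nat_lit 409985407973) (nat_lit 76) (nat_lit 313296227134) (nat_lit 3) (nat_lit 4) (nat_lit 4) (nat_lit 5) (nat_lit 4) (nat_lit 4) (nat_lit 275) (nat_lit 233) (nat_lit 152)) (XT.lf (nat_lit 0) (nat_lit 2458733222103) (nat_lit 76) (nat_lit 388705470155) (nat_lit 76) (nat_lit 292016136471) (nat_lit 3) (nat_lit 4) (nat_lit 4) (nat_lit 5) (nat_lit 4) (nat_lit 4) (nat_lit 276) (nat_lit 233) (nat_lit 151))) (XT.nd (nat_lit 78) (nat_lit 0) (nat_lit 0) (XT.lf (nat_lit 0) (nat_lit 2972392504610)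 (nat_lit 76) (nat_lit 364233743435) (nat_lit 76) (nat_lit 267544276842) (nat_lit 3) (nat_lit 4) (nat_lit 4) (nat_lit 5) (nat_lit 4) (nat_lit 4) (nat_lit 277) (nat_lit 233) (nat_lit 150)) (XT.nd (nat_lit 78) (nat_lit 0) (nat_lit 0) (XT.lf (nat_lit 0) (nat_lit 3563100307257) (nat_lit 76) (nat_lit 336091433158) (nat_lit 76) (nat_lit 239401850993) (nat_lit 3) (nat_lit 4) (nat_lit 4) (nat_lit 5) (nat_lit 4) (nat_lit 4) (nat_lit 278) (nat_lit 233) (nat_lit 149)) (XT.lf (nat_lit 0) (nat_lit 4242413956616) (nat_lit 76) (nat_lit 303727928907) (nat_lit 76) (nat_lit 207038246243) (nat_lit 3) (nat_lit 4) (nat_lit 4) (nat_lit 5) (nat_lit 4) (nat_lit 4) (nat_lit 279) (nat_lit 233) (nat_lit 148))))) (XT.nd (nat_lit 30810) (nat_lit 0) (nat_lit 2812) (XT.nd (nat_lit 78) (nat_lit 0) (nat_lit 0) (XT.lf (nat_lit 0) (nat_lit 5023624371916) (nat_lit 76) (nat_lit 266510031685) (nat_lit 76) (nat_lit 169820261631)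 (nat_lit 3) (nat_lit 4) (nat_lit 4) (nat_lit 5) (nat_lit 4) (nat_lit 4) (nat_lit 280) (nat_lit 233) (nat_lit 147)) (XT.nd (nat_lit 78) (nat_lit 0) (nat_lit 0) (XT.lf (nat_lit 0) (nat_lit 5922016104759) (nat_lit 76) (nat_lit 223709565242) (nat_lit 76) (nat_lit 127019719197) (nat_lit 3) (nat_lit 4) (nat_lit 4) (nat_lit 5) (nat_lit 4) (nat_lit 4) (nat_lit 281) (nat_lit 233) (nat_lit 146)) (XT.lf (nat_lit 0) (nat_lit 6955166384701) (nat_lit 76) (nat_lit 174489129148) (nat_lit 76) (nat_lit 77799217024) (nat_lit 3) (nat_lit 4) (nat_lit 4) (nat_lit 5) (nat_lit 4) (nat_lit 4) (nat_lit 282) (nat_lit 233) (nat_lit 145)))) (XT.nd (nat_lit 78) (nat_lit 0) (nat_lit 76) (XT.lf (nat_lit 0) (nat_lit 6688977181) (nat_lit 532) (nat_lit 3912003921) (nat_lit 532) (nat_lit 3912003921) (nat_lit 40) (nat_lit 3) (nat_lit 47) (nat_lit 3) (nat_lit 47) (nat_lit 5) (nat_lit 234) (nat_lit 234) (nat_lit 192)) (XT.nd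 (nat_lit 78) (nat_lit 0) (nat_lit 0) (XT.lf (nat_lit 0) (nat_lit 14966946993) (nat_lit 456) (nat_lit 14206505226) (nat_lit 532) (nat_lit 1982074155) (nat_lit 41) (nat_lit 5) (nat_lit 47) (nat_lit 5) (nat_lit 48) (nat_lit 5) (nat_lit 235) (nat_lit 234) (nat_lit 191)) (XT.lf (nat_lit 76) (nat_lit 12335236292) (nat_lit 0) (nat_lit 5553212984) (nat_lit 532) (nat_lit 15628630116) (nat_lit 42) (nat_lit 5) (nat_lit 41) (nat_lit 5) (nat_lit 48) (nat_lit 5) (nat_lit 236) (nat_lit 234) (nat_lit 190)))))) (XT.nd (nat_lit 390) (nat_lit 912) (nat_lit 0) (XT.nd (nat_lit 156) (nat_lit 532) (nat_lit 0) (XT.nd (nat_lit 78) (nat_lit 380) (nat_lit 0) (XT.lf (nat_lit 76) (nat_lit 7339888553) (nat_lit 0) (nat_lit 15009052598) (nat_lit 532) (nat_lit 13795946638) (nat_lit 43) (nat_lit 5) (nat_lit 42) (nat_lit 5) (nat_lit 49) (nat_lit 5) (nat_lit 237) (nat_lit 234) (nat_lit 189)) (XT.lf (nat_lit 0) (nat_lit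 1922677471) (nat_lit 456) (nat_lit 26663982706) (nat_lit 532) (nat_lit 10491627667) (nat_lit 37) (nat_lit 5) (nat_lit 43) (nat_lit 5) (nat_lit 44) (nat_lit 5) (nat_lit 238) (nat_lit 234) (nat_lit 188))) (XT.nd (nat_lit 78) (nat_lit 532) (nat_lit 0) (XT.lf (nat_lit 0) (nat_lit 37025325172) (nat_lit 532) (nat_lit 3838786492) (nat_lit 76) (nat_lit 1486426385) (nat_lit 37) (nat_lit 5) (nat_lit 44) (nat_lit 5) (nat_lit 38) (nat_lit 5) (nat_lit 239) (nat_lit 234) (nat_lit 187)) (XT.nd (nat_lit 78) (nat_lit 228) (nat_lit 0) (XT.lf (nat_lit 0) (nat_lit 2203989974) (nat_lit 304) (nat_lit 10543050239) (nat_lit 76) (nat_lit 33235959039) (nat_lit 33) (nat_lit 5) (nat_lit 37) (nat_lit 5) (nat_lit 34) (nat_lit 5) (nat_lit 240) (nat_lit 234) (nat_lit 186)) (XT.lf (nat_lit 0) (nat_lit 11929276323) (nat_lit 304) (nat_lit 18440869138) (nat_lit 76) (nat_lit 19668601830) (nat_lit 30) (nat_lit 5) (nat_lit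 34) (nat_lit 5) (nat_lit 31) (nat_lit 5) (nat_lit 241) (nat_lit 234) (nat_lit 185))))) (XT.nd (nat_lit 234) (nat_lit 380) (nat_lit 0) (XT.nd (nat_lit 78) (nat_lit 304) (nat_lit 0) (XT.lf (nat_lit 0) (nat_lit 24480993504) (nat_lit 304) (nat_lit 27663435901) (nat_lit 76) (nat_lit 2449055571) (nat_lit 27) (nat_lit 5) (nat_lit 31) (nat_lit 5) (nat_lit 28) (nat_lit 5) (nat_lit 242) (nat_lit 234) (nat_lit 184)) (XT.nd (nat_lit 78) (nat_lit 152) (nat_lit 0) (XT.lf (nat_lit 0) (nat_lit 20598624034) (nat_lit 152) (nat_lit 20193033874) (nat_lit 228) (nat_lit 18889713685) (nat_lit 25) (nat_lit 5) (nat_lit 27) (nat_lit 5) (nat_lit 28) (nat_lit 5) (nat_lit 243) (nat_lit 234) (nat_lit 183)) (XT.lf (nat_lit 0) (nat_lit 12501242199) (nat_lit 152) (nat_lit 48563656590) (nat_lit 228) (nat_lit 4346293359) (nat_lit 23) (nat_lit 5) (nat_lit 25) (nat_lit 5) (nat_lit 26) (nat_lit 5) (nat_lit 244) (nat_lit 234)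 (nat_lit 182)))) (XT.nd (nat_lit 78) (nat_lit 152) (nat_lit 0) (XT.lf (nat_lit 0) (nat_lit 1455395846) (nat_lit 152) (nat_lit 12056542840) (nat_lit 228) (nat_lit 58324551724) (nat_lit 20) (nat_lit 5) (nat_lit 22) (nat_lit 5) (nat_lit 23) (nat_lit 5) (nat_lit 245) (nat_lit 234) (nat_lit 181)) (XT.nd (nat_lit 78) (nat_lit 152) (nat_lit 0) (XT.lf (nat_lit 0) (nat_lit 36091421924) (nat_lit 228) (nat_lit 12814009224) (nat_lit 76) (nat_lit 30127152136) (nat_lit 20) (nat_lit 5) (nat_lit 23) (nat_lit 5) (nat_lit 21) (nat_lit 5) (nat_lit 246) (nat_lit 234) (nat_lit 180)) (XT.lf (nat_lit 0) (nat_lit 55838094512) (nat_lit 152) (nat_lit 7889473094) (nat_lit 228) (nat_lit 23446960995) (nat_lit 18) (nat_lit 5) (nat_lit 20) (nat_lit 5) (nat_lit 21) (nat_lit 5) (nat_lit 247) (nat_lit 234) (nat_lit 179))))))))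
noncomputable def xc42 : XT := (XT.nd (nat_lit 1716) (nat_lit 0) (nat_lit 0) (XT.nd (nat_lit 858) (nat_lit 304) (nat_lit 0) (XT.nd (nat_lit 390) (nat_lit 304) (nat_lit 0) (XT.nd (nat_lit 156) (nat_lit 228) (nat_lit 0) (XT.nd (nat_lit 78) (nat_lit 152) (nat_lit 0) (XT.lf (nat_lit 0) (nat_lit 1367909209) (nat_lit 152) (nat_lit 56291383356) (nat_lit 76) (nat_lit 38692859815) (nat_lit 16) (nat_lit 5) (nat_lit 18) (nat_lit 5) (nat_lit 17) (nat_lit 5) (nat_lit 248) (nat_lit 234) (nat_lit 178)) (XT.lf (nat_lit 0) (nat_lit 17192474175) (nat_lit 152) (nat_lit 12925772245) (nat_lit 228) (nat_lit 76611340091) (nat_lit 14) (nat_lit 5) (nat_lit 16) (nat_lit 5) (nat_lit 17) (nat_lit 5) (nat_lit 249) (nat_lit 234) (nat_lit 177))) (XT.nd (nat_lit 78) (nat_lit 228) (nat_lit 0) (XT.lf (nat_lit 0) (nat_lit 65783759702) (nat_lit 228) (nat_lit 14402225399) (nat_lit 76) (nat_lit 38269451402) (nat_lit 14) (nat_lit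 5) (nat_lit 17) (nat_lit 5) (nat_lit 15) (nat_lit 4) (nat_lit 250) (nat_lit 234) (nat_lit 176)) (XT.nd (nat_lit 78) (nat_lit 152) (nat_lit 0) (XT.lf (nat_lit 0) (nat_lit 75410318003) (nat_lit 76) (nat_lit 33555410852) (nat_lit 152) (nat_lit 22801114205) (nat_lit 13) (nat_lit 5) (nat_lit 14) (nat_lit 5) (nat_lit 15) (nat_lit 4) (nat_lit 251) (nat_lit 234) (nat_lit 175)) (XT.lf (nat_lit 0) (nat_lit 12736408831) (nat_lit 152) (nat_lit 113548615971) (nat_lit 76) (nat_lit 20626588625) (nat_lit 11) (nat_lit 5) (nat_lit 13) (nat_lit 5) (nat_lit 12) (nat_lit 4) (nat_lit 252) (nat_lit 234) (nat_lit 174))))) (XT.nd (nat_lit 234) (nat_lit 228) (nat_lit 0) (XT.nd (nat_lit 78) (nat_lit 76) (nat_lit 0) (XT.lf (nat_lit 0) (nat_lit 54900451985) (nat_lit 152) (nat_lit 25851573707) (nat_lit 76) (nat_lit 83317023517) (nat_lit 11) (nat_lit 5) (nat_lit 13) (nat_lit 5) (nat_lit 12) (nat_lit 4) (nat_lit 253)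 (nat_lit 234) (nat_lit 173)) (XT.nd (nat_lit 78) (nat_lit 0) (nat_lit 0) (XT.lf (nat_lit 0) (nat_lit 78943293241) (nat_lit 76) (nat_lit 26341048579) (nat_lit 152) (nat_lit 78364145029) (nat_lit 10) (nat_lit 5) (nat_lit 11) (nat_lit 5) (nat_lit 12) (nat_lit 4) (nat_lit 254) (nat_lit 234) (nat_lit 172)) (XT.lf (nat_lit 0) (nat_lit 164866281979) (nat_lit 152) (nat_lit 5978163213) (nat_lit 0) (nat_lit 35189162560) (nat_lit 10) (nat_lit 5) (nat_lit 12) (nat_lit 4) (nat_lit 10) (nat_lit 4) (nat_lit 255) (nat_lit 234) (nat_lit 171)))) (XT.nd (nat_lit 78) (nat_lit 76) (nat_lit 0) (XT.lf (nat_lit 0) (nat_lit 5047879446) (nat_lit 152) (nat_lit 119180067390) (nat_lit 76) (nat_lit 107263909992) (nat_lit 8) (nat_lit 5) (nat_lit 10) (nat_lit 5) (nat_lit 9) (nat_lit 4) (nat_lit 256) (nat_lit 234) (nat_lit 170)) (XT.nd (nat_lit 78) (nat_lit 76) (nat_lit 0) (XT.lf (nat_lit 0) (nat_lit 56003162887) (nat_lit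 152) (nat_lit 13195284109) (nat_lit 76) (nat_lit 191465228247) (nat_lit 8) (nat_lit 5) (nat_lit 10) (nat_lit 5) (nat_lit 9) (nat_lit 4) (nat_lit 257) (nat_lit 234) (nat_lit 169)) (XT.lf (nat_lit 0) (nat_lit 114406362906) (nat_lit 76) (nat_lit 2944668018) (nat_lit 152) (nat_lit 176640295153) (nat_lit 7) (nat_lit 5) (nat_lit 8) (nat_lit 5) (nat_lit 9) (nat_lit 4) (nat_lit 258) (nat_lit 234) (nat_lit 168)))))) (XT.nd (nat_lit 390) (nat_lit 76) (nat_lit 0) (XT.nd (nat_lit 156) (nat_lit 152) (nat_lit 0) (XT.nd (nat_lit 78) (nat_lit 76) (nat_lit 0) (XT.lf (nat_lit 0) (nat_lit 190054796541) (nat_lit 152) (nat_lit 72115356767) (nat_lit 0) (nat_lit 69975676466) (nat_lit 7) (nat_lit 5) (nat_lit 9) (nat_lit 4) (nat_lit 7) (nat_lit 4) (nat_lit 259) (nat_lit 234) (nat_lit 167)) (XT.lf (nat_lit 0) (nat_lit 54096126019) (nat_lit 76) (nat_lit 220948696467) (nat_lit 76) (nat_lit 100868233185) (nat_lit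 6) (nat_lit 4) (nat_lit 7) (nat_lit 5) (nat_lit 7) (nat_lit 4) (nat_lit 260) (nat_lit 234) (nat_lit 166))) (XT.nd (nat_lit 78) (nat_lit 152) (nat_lit 0) (XT.lf (nat_lit 0) (nat_lit 203603461863) (nat_lit 76) (nat_lit 171277850048) (nat_lit 76) (nat_lit 51196218761) (nat_lit 6) (nat_lit 4) (nat_lit 7) (nat_lit 5) (nat_lit 7) (nat_lit 4) (nat_lit 261) (nat_lit 234) (nat_lit 165)) (XT.nd (nat_lit 78) (nat_lit 76) (nat_lit 0) (XT.lf (nat_lit 0) (nat_lit 5628695039) (nat_lit 152) (nat_lit 108374961261) (nat_lit 76) (nat_lit 369751733867) (nat_lit 5) (nat_lit 5) (nat_lit 7) (nat_lit 5) (nat_lit 6) (nat_lit 4) (nat_lit 262) (nat_lit 234) (nat_lit 164)) (XT.lf (nat_lit 0) (nat_lit 22548728020) (nat_lit 76) (nat_lit 46024473011) (nat_lit 152) (nat_lit 481355167787) (nat_lit 4) (nat_lit 5) (nat_lit 5) (nat_lit 5) (nat_lit 6) (nat_lit 4) (nat_lit 263) (nat_lit 234) (nat_lit 163))))) (XT.nd (nat_lit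 234) (nat_lit 76) (nat_lit 0) (XT.nd (nat_lit 78) (nat_lit 0) (nat_lit 0) (XT.lf (nat_lit 0) (nat_lit 144968647855) (nat_lit 152) (nat_lit 446958423485) (nat_lit 0) (nat_lit 33779482941) (nat_lit 4) (nat_lit 5) (nat_lit 6) (nat_lit 4) (nat_lit 4) (nat_lit 4) (nat_lit 264) (nat_lit 234) (nat_lit 162)) (XT.nd (nat_lit 78) (nat_lit 0) (nat_lit 0) (XT.lf (nat_lit 0) (nat_lit 234095329888) (nat_lit 152) (nat_lit 355748838642) (nat_lit 0) (nat_lit 122905546630) (nat_lit 4) (nat_lit 5) (nat_lit 6) (nat_lit 4) (nat_lit 4) (nat_lit 4) (nat_lit 265) (nat_lit 234) (nat_lit 161)) (XT.lf (nat_lit 0) (nat_lit 336590140356) (nat_lit 152) (nat_lit 250859461232) (nat_lit 0) (nat_lit 225399819408) (nat_lit 4) (nat_lit 5) (nat_lit 6) (nat_lit 4) (nat_lit 4) (nat_lit 4) (nat_lit 266) (nat_lit 234) (nat_lit 160)))) (XT.nd (nat_lit 78) (nat_lit 76) (nat_lit 0) (XT.lf (nat_lit 0) (nat_lit 454458412507) (nat_lit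 152) (nat_lit 130238107783) (nat_lit 0) (nat_lit 343267624002) (nat_lit 4) (nat_lit 5) (nat_lit 6) (nat_lit 4) (nat_lit 4) (nat_lit 4) (nat_lit 267) (nat_lit 234) (nat_lit 159)) (XT.nd (nat_lit 78) (nat_lit 0) (nat_lit 0) (XT.lf (nat_lit 0) (nat_lit 8921493966) (nat_lit 76) (nat_lit 581299332888) (nat_lit 76) (nat_lit 470108137812) (nat_lit 3) (nat_lit 4) (nat_lit 4) (nat_lit 5) (nat_lit 4) (nat_lit 4) (nat_lit 268) (nat_lit 234) (nat_lit 158)) (XT.lf (nat_lit 0) (nat_lit 176840721446) (nat_lit 76) (nat_lit 573298022317) (nat_lit 76) (nat_lit 462106473701) (nat_lit 3) (nat_lit 4) (nat_lit 4) (nat_lit 5) (nat_lit 4) (nat_lit 4) (nat_lit 269) (nat_lit 234) (nat_lit 157))))))) (XT.nd (nat_lit 858) (nat_lit 0) (nat_lit 0) (XT.nd (nat_lit 390) (nat_lit 0) (nat_lit 0) (XT.nd (nat_lit 156) (nat_lit 0) (nat_lit 0) (XT.nd (nat_lit 78) (nat_lit 0) (nat_lit 0) (XT.lf (nat_lit 0) (nat_lit 369946842892)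 (nat_lit 76) (nat_lit 564096981866) (nat_lit 76) (nat_lit 452905125824) (nat_lit 3) (nat_lit 4) (nat_lit 4) (nat_lit 5) (nat_lit 4) (nat_lit 4) (nat_lit 270) (nat_lit 234) (nat_lit 156)) (XT.lf (nat_lit 0) (nat_lit 592018021549) (nat_lit 76) (nat_lit 553516191177) (nat_lit 76) (nat_lit 442324067808) (nat_lit 3) (nat_lit 4) (nat_lit 4) (nat_lit 5) (nat_lit 4) (nat_lit 4) (nat_lit 271) (nat_lit 234) (nat_lit 155))) (XT.nd (nat_lit 78) (nat_lit 0) (nat_lit 0) (XT.lf (nat_lit 0) (nat_lit 847399128303) (nat_lit 76) (nat_lit 541348634782) (nat_lit 76) (nat_lit 430156278955) (nat_lit 3) (nat_lit 4) (nat_lit 4) (nat_lit 5) (nat_lit 4) (nat_lit 4) (nat_lit 272) (nat_lit 234) (nat_lit 154)) (XT.nd (nat_lit 78) (nat_lit 0) (nat_lit 0) (XT.lf (nat_lit 0) (nat_lit 1141086750027) (nat_lit 76) (nat_lit 527356251794) (nat_lit 76) (nat_lit 416163693829) (nat_lit 3) (nat_lit 4) (nat_lit 4) (nat_lit 5)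 (nat_lit 4) (nat_lit 4) (nat_lit 273) (nat_lit 234) (nat_lit 153)) (XT.lf (nat_lit 0) (nat_lit 1478826948885) (nat_lit 76) (nat_lit 511265278198) (nat_lit 76) (nat_lit 400072544461) (nat_lit 3) (nat_lit 4) (nat_lit 4) (nat_lit 5) (nat_lit 4) (nat_lit 4) (nat_lit 274) (nat_lit 234) (nat_lit 152))))) (XT.nd (nat_lit 234) (nat_lit 0) (nat_lit 0) (XT.nd (nat_lit 78) (nat_lit 0) (nat_lit 0) (XT.lf (nat_lit 0) (nat_lit 1867227685288) (nat_lit 76) (nat_lit 492760890597) (nat_lit 76) (nat_lit 381568004015) (nat_lit 3) (nat_lit 4) (nat_lit 4) (nat_lit 5) (nat_lit 4) (nat_lit 4) (nat_lit 275) (nat_lit 234) (nat_lit 151)) (XT.nd (nat_lit 78) (nat_lit 0) (nat_lit 0) (XT.lf (nat_lit 0) (nat_lit 2313888104079) (nat_lit 76) (nat_lit 471481046626) (nat_lit 76) (nat_lit 360288027136) (nat_lit 3) (nat_lit 4) (nat_lit 4) (nat_lit 5) (nat_lit 4) (nat_lit 4) (nat_lit 276) (nat_lit 234) (nat_lit 150)) (XT.lf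 (nat_lit 0) (nat_lit 2827547213453) (nat_lit 76) (nat_lit 447009401511) (nat_lit 76) (nat_lit 335816266448) (nat_lit 3) (nat_lit 4) (nat_lit 4) (nat_lit 5) (nat_lit 4) (nat_lit 4) (nat_lit 277) (nat_lit 234) (nat_lit 149)))) (XT.nd (nat_lit 78) (nat_lit 0) (nat_lit 0) (XT.lf (nat_lit 0) (nat_lit 3418254865549) (nat_lit 76) (nat_lit 418867162196) (nat_lit 76) (nat_lit 307673926635) (nat_lit 3) (nat_lit 4) (nat_lit 4) (nat_lit 5) (nat_lit 4) (nat_lit 4) (nat_lit 278) (nat_lit 234) (nat_lit 148)) (XT.nd (nat_lit 78) (nat_lit 0) (nat_lit 0) (XT.lf (nat_lit 0) (nat_lit 4097568383995) (nat_lit 76) (nat_lit 386503719650) (nat_lit 76) (nat_lit 275310396699) (nat_lit 3) (nat_lit 4) (nat_lit 4) (nat_lit 5) (nat_lit 4) (nat_lit 4) (nat_lit 279) (nat_lit 234) (nat_lit 147)) (XT.lf (nat_lit 0) (nat_lit 4878778685457) (nat_lit 76) (nat_lit 349285876085) (nat_lit 76) (nat_lit 238092477143) (nat_lit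 3) (nat_lit 4) (nat_lit 4) (nat_lit 5) (nat_lit 4) (nat_lit 4) (nat_lit 280) (nat_lit 234) (nat_lit 146)))))) (XT.nd (nat_lit 31044) (nat_lit 0) (nat_lit 1824) (XT.nd (nat_lit 30810) (nat_lit 0) (nat_lit 2812) (XT.nd (nat_lit 78) (nat_lit 0) (nat_lit 0) (XT.lf (nat_lit 0) (nat_lit 5777170319310) (nat_lit 76) (nat_lit 306485456300) (nat_lit 76) (nat_lit 195291991279) (nat_lit 3) (nat_lit 4) (nat_lit 4) (nat_lit 5) (nat_lit 4) (nat_lit 4) (nat_lit 281) (nat_lit 234) (nat_lit 145)) (XT.lf (nat_lit 0) (nat_lit 6810320513174) (nat_lit 76) (nat_lit 257265060778) (nat_lit 76) (nat_lit 146071538297) (nat_lit 3) (nat_lit 4) (nat_lit 4) (nat_lit 5) (nat_lit 4) (nat_lit 4) (nat_lit 282) (nat_lit 234) (nat_lit 144))) (XT.nd (nat_lit 78) (nat_lit 0) (nat_lit 76) (XT.lf (nat_lit 0) (nat_lit 7813623279) (nat_lit 532) (nat_lit 4433044071) (nat_lit 532) (nat_lit 4433044071) (nat_lit 40) (nat_lit 3) (nat_lit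 47) (nat_lit 3) (nat_lit 47) (nat_lit 5) (nat_lit 235) (nat_lit 235) (nat_lit 190)) (XT.nd (nat_lit 78) (nat_lit 0) (nat_lit 0) (XT.lf (nat_lit 0) (nat_lit 17423592291) (nat_lit 456) (nat_lit 16196837039) (nat_lit 532) (nat_lit 2190597924) (nat_lit 41) (nat_lit 5) (nat_lit 47) (nat_lit 5) (nat_lit 48) (nat_lit 5) (nat_lit 236) (nat_lit 235) (nat_lit 189)) (XT.lf (nat_lit 76) (nat_lit 14314260894) (nat_lit 0) (nat_lit 6444554777) (nat_lit 532) (nat_lit 17770075258) (nat_lit 42) (nat_lit 5) (nat_lit 41) (nat_lit 5) (nat_lit 48) (nat_lit 5) (nat_lit 237) (nat_lit 235) (nat_lit 188))))) (XT.nd (nat_lit 234) (nat_lit 760) (nat_lit 0) (XT.nd (nat_lit 78) (nat_lit 380) (nat_lit 0) (XT.lf (nat_lit 76) (nat_lit 8574415797) (nat_lit 0) (nat_lit 17291552566) (nat_lit 532) (nat_lit 15686797320) (nat_lit 43) (nat_lit 5) (nat_lit 42) (nat_lit 5) (nat_lit 49) (nat_lit 5) (nat_lit 238) (nat_lit 235)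 (nat_lit 187)) (XT.nd (nat_lit 78) (nat_lit 0) (nat_lit 0) (XT.lf (nat_lit 0) (nat_lit 2346687287) (nat_lit 456) (nat_lit 30673787273) (nat_lit 532) (nat_lit 11907299589) (nat_lit 37) (nat_lit 5) (nat_lit 43) (nat_lit 5) (nat_lit 44) (nat_lit 5) (nat_lit 239) (nat_lit 235) (nat_lit 186)) (XT.lf (nat_lit 0) (nat_lit 42705706446) (nat_lit 532) (nat_lit 4285812683) (nat_lit 76) (nat_lit 1700958554) (nat_lit 37) (nat_lit 5) (nat_lit 44) (nat_lit 5) (nat_lit 38) (nat_lit 5) (nat_lit 240) (nat_lit 235) (nat_lit 185)))) (XT.nd (nat_lit 78) (nat_lit 456) (nat_lit 0) (XT.lf (nat_lit 0) (nat_lit 2650853108) (nat_lit 304) (nat_lit 12000081055) (nat_lit 76) (nat_lit 38219799576) (nat_lit 33) (nat_lit 5) (nat_lit 37) (nat_lit 5) (nat_lit 34) (nat_lit 5) (nat_lit 241) (nat_lit 235) (nat_lit 184)) (XT.nd (nat_lit 78) (nat_lit 228) (nat_lit 0) (XT.lf (nat_lit 0) (nat_lit 13822748466) (nat_lit 304) (nat_lit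 21084679425) (nat_lit 76) (nat_lit 22628444839) (nat_lit 30) (nat_lit 5) (nat_lit 34) (nat_lit 5) (nat_lit 31) (nat_lit 5) (nat_lit 242) (nat_lit 235) (nat_lit 183)) (XT.lf (nat_lit 0) (nat_lit 28246791658) (nat_lit 304) (nat_lit 31693667336) (nat_lit 76) (nat_lit 2834243581) (nat_lit 27) (nat_lit 5) (nat_lit 31) (nat_lit 5) (nat_lit 28) (nat_lit 5) (nat_lit 243) (nat_lit 235) (nat_lit 182))))))))
noncomputable def xc43 : XT := (XT.nd (nat_lit 1716) (nat_lit 76) (nat_lit 0) (XT.nd (nat_lit 858) (nat_lit 532) (nat_lit 0) (XT.nd (nat_lit 390) (nat_lit 532) (nat_lit 0) (XT.nd (nat_lit 156) (nat_lit 380) (nat_lit 0) (XT.nd (nat_lit 78) (nat_lit 152) (nat_lit 0) (XT.lf (nat_lit 0) (nat_lit 23797604798) (nat_lit 152) (nat_lit 23196861776) (nat_lit 228) (nat_lit 21632113599) (nat_lit 25) (nat_lit 5) (nat_lit 27) (nat_lit 5) (nat_lit 28) (nat_lit 5) (nat_lit 244) (nat_lit 235) (nat_lit 181))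 (XT.lf (nat_lit 0) (nat_lit 14482225267) (nat_lit 152) (nat_lit 55818573875) (nat_lit 228) (nat_lit 4915741749) (nat_lit 23) (nat_lit 5) (nat_lit 25) (nat_lit 5) (nat_lit 26) (nat_lit 5) (nat_lit 245) (nat_lit 235) (nat_lit 180))) (XT.nd (nat_lit 78) (nat_lit 152) (nat_lit 0) (XT.lf (nat_lit 0) (nat_lit 1774524980) (nat_lit 152) (nat_lit 13834776052) (nat_lit 228) (nat_lit 66996826527) (nat_lit 20) (nat_lit 5) (nat_lit 22) (nat_lit 5) (nat_lit 23) (nat_lit 5) (nat_lit 246) (nat_lit 235) (nat_lit 179)) (XT.nd (nat_lit 78) (nat_lit 152) (nat_lit 0) (XT.lf (nat_lit 0) (nat_lit 41567134354) (nat_lit 228) (nat_lit 14643998695) (nat_lit 76) (nat_lit 34671211979) (nat_lit 20) (nat_lit 5) (nat_lit 23) (nat_lit 5) (nat_lit 21) (nat_lit 5) (nat_lit 247) (nat_lit 235) (nat_lit 178)) (XT.lf (nat_lit 0) (nat_lit 64298123788) (nat_lit 152) (nat_lit 9044519036) (nat_lit 228) (nat_lit 26903445671) (nat_lit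 18) (nat_lit 5) (nat_lit 20) (nat_lit 5) (nat_lit 21) (nat_lit 5) (nat_lit 248) (nat_lit 235) (nat_lit 177))))) (XT.nd (nat_lit 234) (nat_lit 228) (nat_lit 0) (XT.nd (nat_lit 78) (nat_lit 152) (nat_lit 0) (XT.lf (nat_lit 0) (nat_lit 1625723807) (nat_lit 152) (nat_lit 64651421482) (nat_lit 76) (nat_lit 44523503597) (nat_lit 16) (nat_lit 5) (nat_lit 18) (nat_lit 5) (nat_lit 17) (nat_lit 5) (nat_lit 249) (nat_lit 235) (nat_lit 176)) (XT.nd (nat_lit 78) (nat_lit 0) (nat_lit 0) (XT.lf (nat_lit 0) (nat_lit 19847932483) (nat_lit 152) (nat_lit 14835656490) (nat_lit 228) (nat_lit 88051526115) (nat_lit 14) (nat_lit 5) (nat_lit 16) (nat_lit 5) (nat_lit 17) (nat_lit 5) (nat_lit 250) (nat_lit 235) (nat_lit 175)) (XT.lf (nat_lit 0) (nat_lit 75693325917) (nat_lit 228) (nat_lit 16493168276) (nat_lit 76) (nat_lit 44033809821) (nat_lit 14) (nat_lit 5) (nat_lit 17) (nat_lit 5) (nat_lit 15) (nat_lit 4) (nat_lit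 251) (nat_lit 235) (nat_lit 174)))) (XT.nd (nat_lit 78) (nat_lit 152) (nat_lit 0) (XT.lf (nat_lit 0) (nat_lit 86785383039) (nat_lit 76) (nat_lit 38563256441) (nat_lit 152) (nat_lit 26180109601) (nat_lit 13) (nat_lit 5) (nat_lit 14) (nat_lit 5) (nat_lit 15) (nat_lit 4) (nat_lit 252) (nat_lit 235) (nat_lit 173)) (XT.nd (nat_lit 78) (nat_lit 0) (nat_lit 0) (XT.lf (nat_lit 0) (nat_lit 14682918389) (nat_lit 152) (nat_lit 130518512069) (nat_lit 76) (nat_lit 23743979664) (nat_lit 11) (nat_lit 5) (nat_lit 13) (nat_lit 5) (nat_lit 12) (nat_lit 4) (nat_lit 253) (nat_lit 235) (nat_lit 172)) (XT.lf (nat_lit 0) (nat_lit 63166866072) (nat_lit 152) (nat_lit 29675052113) (nat_lit 76) (nat_lit 95834927258) (nat_lit 11) (nat_lit 5) (nat_lit 13) (nat_lit 5) (nat_lit 12) (nat_lit 4) (nat_lit 254) (nat_lit 235) (nat_lit 171)))))) (XT.nd (nat_lit 390) (nat_lit 228) (nat_lit 0) (XT.nd (nat_lit 156) (nat_lit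 228) (nat_lit 0) (XT.nd (nat_lit 78) (nat_lit 0) (nat_lit 0) (XT.lf (nat_lit 0) (nat_lit 90834452237) (nat_lit 76) (nat_lit 30270992944) (nat_lit 152) (nat_lit 90087992055) (nat_lit 10) (nat_lit 5) (nat_lit 11) (nat_lit 5) (nat_lit 12) (nat_lit 4) (nat_lit 255) (nat_lit 235) (nat_lit 170)) (XT.lf (nat_lit 0) (nat_lit 189621408849) (nat_lit 152) (nat_lit 6830124669) (nat_lit 0) (nat_lit 40485060218) (nat_lit 10) (nat_lit 5) (nat_lit 12) (nat_lit 4) (nat_lit 10) (nat_lit 4) (nat_lit 256) (nat_lit 235) (nat_lit 169))) (XT.nd (nat_lit 78) (nat_lit 76) (nat_lit 0) (XT.lf (nat_lit 0) (nat_lit 5828574218) (nat_lit 152) (nat_lit 137014832758) (nat_lit 76) (nat_lit 123370314810) (nat_lit 8) (nat_lit 5) (nat_lit 10) (nat_lit 5) (nat_lit 9) (nat_lit 4) (nat_lit 257) (nat_lit 235) (nat_lit 168)) (XT.nd (nat_lit 78) (nat_lit 76) (nat_lit 0) (XT.lf (nat_lit 0) (nat_lit 64424083282) (nat_lit 152) (nat_lit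 15137842169) (nat_lit 76) (nat_lit 220199637110) (nat_lit 8) (nat_lit 5) (nat_lit 10) (nat_lit 5) (nat_lit 9) (nat_lit 4) (nat_lit 258) (nat_lit 235) (nat_lit 167)) (XT.lf (nat_lit 0) (nat_lit 131600942502) (nat_lit 76) (nat_lit 3371330844) (nat_lit 152) (nat_lit 203116240018) (nat_lit 7) (nat_lit 5) (nat_lit 8) (nat_lit 5) (nat_lit 9) (nat_lit 4) (nat_lit 259) (nat_lit 235) (nat_lit 166))))) (XT.nd (nat_lit 234) (nat_lit 152) (nat_lit 0) (XT.nd (nat_lit 78) (nat_lit 76) (nat_lit 0) (XT.lf (nat_lit 0) (nat_lit 218579493789) (nat_lit 152) (nat_lit 82902421033) (nat_lit 0) (nat_lit 80484449803) (nat_lit 7) (nat_lit 5) (nat_lit 9) (nat_lit 4) (nat_lit 7) (nat_lit 4) (nat_lit 260) (nat_lit 235) (nat_lit 165)) (XT.nd (nat_lit 78) (nat_lit 0) (nat_lit 0) (XT.lf (nat_lit 0) (nat_lit 62238224569) (nat_lit 76) (nat_lit 254078315479) (nat_lit 76) (nat_lit 115982255836) (nat_lit 6) (nat_lit 4) (nat_lit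 7) (nat_lit 5) (nat_lit 7) (nat_lit 4) (nat_lit 261) (nat_lit 235) (nat_lit 164)) (XT.lf (nat_lit 0) (nat_lit 234168050401) (nat_lit 76) (nat_lit 196958496723) (nat_lit 76) (nat_lit 58861553899) (nat_lit 6) (nat_lit 4) (nat_lit 7) (nat_lit 5) (nat_lit 7) (nat_lit 4) (nat_lit 262) (nat_lit 235) (nat_lit 163)))) (XT.nd (nat_lit 78) (nat_lit 76) (nat_lit 0) (XT.lf (nat_lit 0) (nat_lit 6484644907) (nat_lit 152) (nat_lit 124609649399) (nat_lit 76) (nat_lit 425223459713) (nat_lit 5) (nat_lit 5) (nat_lit 7) (nat_lit 5) (nat_lit 6) (nat_lit 4) (nat_lit 263) (nat_lit 235) (nat_lit 162)) (XT.nd (nat_lit 78) (nat_lit 0) (nat_lit 0) (XT.lf (nat_lit 0) (nat_lit 25950768662) (nat_lit 76) (nat_lit 52919013683) (nat_lit 152) (nat_lit 553546982377) (nat_lit 4) (nat_lit 5) (nat_lit 5) (nat_lit 5) (nat_lit 6) (nat_lit 4) (nat_lit 264) (nat_lit 235) (nat_lit 161)) (XT.lf (nat_lit 0) (nat_lit 166723354376)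 (nat_lit 152) (nat_lit 513984472856) (nat_lit 0) (nat_lit 38853947595) (nat_lit 4) (nat_lit 5) (nat_lit 6) (nat_lit 4) (nat_lit 4) (nat_lit 4) (nat_lit 265) (nat_lit 235) (nat_lit 160))))))) (XT.nd (nat_lit 858) (nat_lit 0) (nat_lit 0) (XT.nd (nat_lit 390) (nat_lit 0) (nat_lit 0) (XT.nd (nat_lit 156) (nat_lit 76) (nat_lit 0) (XT.nd (nat_lit 78) (nat_lit 0) (nat_lit 0) (XT.lf (nat_lit 0) (nat_lit 269217811408) (nat_lit 152) (nat_lit 409095760829) (nat_lit 0) (nat_lit 141347937071) (nat_lit 4) (nat_lit 5) (nat_lit 6) (nat_lit 4) (nat_lit 4) (nat_lit 4) (nat_lit 266) (nat_lit 235) (nat_lit 159)) (XT.lf (nat_lit 0) (nat_lit 387085776224) (nat_lit 152) (nat_lit 288474985973) (nat_lit 0) (nat_lit 259215495316) (nat_lit 4) (nat_lit 5) (nat_lit 6) (nat_lit 4) (nat_lit 4) (nat_lit 4) (nat_lit 267) (nat_lit 235) (nat_lit 158))) (XT.nd (nat_lit 78) (nat_lit 76) (nat_lit 0) (XT.lf (nat_lit 0) (nat_lit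 522633361179) (nat_lit 152) (nat_lit 149762176609) (nat_lit 0) (nat_lit 394762726730) (nat_lit 4) (nat_lit 5) (nat_lit 6) (nat_lit 4) (nat_lit 4) (nat_lit 4) (nat_lit 268) (nat_lit 235) (nat_lit 157)) (XT.nd (nat_lit 78) (nat_lit 0) (nat_lit 0) (XT.lf (nat_lit 0) (nat_lit 10270379514) (nat_lit 76) (nat_lit 668489207599) (nat_lit 76) (nat_lit 540618265724) (nat_lit 3) (nat_lit 4) (nat_lit 4) (nat_lit 5) (nat_lit 4) (nat_lit 4) (nat_lit 269) (nat_lit 235) (nat_lit 156)) (XT.lf (nat_lit 0) (nat_lit 203376100492) (nat_lit 76) (nat_lit 659288355906) (nat_lit 76) (nat_lit 531417146705) (nat_lit 3) (nat_lit 4) (nat_lit 4) (nat_lit 5) (nat_lit 4) (nat_lit 4) (nat_lit 270) (nat_lit 235) (nat_lit 155))))) (XT.nd (nat_lit 234) (nat_lit 0) (nat_lit 0) (XT.nd (nat_lit 78) (nat_lit 0) (nat_lit 0) (XT.lf (nat_lit 0) (nat_lit 425446930916) (nat_lit 76) (nat_lit 648707729355) (nat_lit 76) (nat_lit 520836287696)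 (nat_lit 3) (nat_lit 4) (nat_lit 4) (nat_lit 5) (nat_lit 4) (nat_lit 4) (nat_lit 271) (nat_lit 235) (nat_lit 154)) (XT.nd (nat_lit 78) (nat_lit 0) (nat_lit 0) (XT.lf (nat_lit 0) (nat_lit 680827734859) (nat_lit 76) (nat_lit 636540315689) (nat_lit 76) (nat_lit 508668671891) (nat_lit 3) (nat_lit 4) (nat_lit 4) (nat_lit 5) (nat_lit 4) (nat_lit 4) (nat_lit 272) (nat_lit 235) (nat_lit 153)) (XT.lf (nat_lit 0) (nat_lit 974515093269) (nat_lit 76) (nat_lit 622548056812) (nat_lit 76) (nat_lit 494676237243) (nat_lit 3) (nat_lit 4) (nat_lit 4) (nat_lit 5) (nat_lit 4) (nat_lit 4) (nat_lit 273) (nat_lit 235) (nat_lit 152)))) (XT.nd (nat_lit 78) (nat_lit 0) (nat_lit 0) (XT.lf (nat_lit 0) (nat_lit 1312255063158) (nat_lit 76) (nat_lit 606457191139) (nat_lit 76) (nat_lit 478585218725) (nat_lit 3) (nat_lit 4) (nat_lit 4) (nat_lit 5) (nat_lit 4) (nat_lit 4) (nat_lit 274) (nat_lit 235) (nat_lit 151)) (XT.nd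 (nat_lit 78) (nat_lit 0) (nat_lit 0) (XT.lf (nat_lit 0) (nat_lit 1700655600458) (nat_lit 76) (nat_lit 587952897385) (nat_lit 76) (nat_lit 460080792062) (nat_lit 3) (nat_lit 4) (nat_lit 4) (nat_lit 5) (nat_lit 4) (nat_lit 4) (nat_lit 275) (nat_lit 235) (nat_lit 150)) (XT.lf (nat_lit 0) (nat_lit 2147315846116) (nat_lit 76) (nat_lit 566673135020) (nat_lit 76) (nat_lit 438800914124) (nat_lit 3) (nat_lit 4) (nat_lit 4) (nat_lit 5) (nat_lit 4) (nat_lit 4) (nat_lit 276) (nat_lit 235) (nat_lit 149)))))) (XT.nd (nat_lit 31200) (nat_lit 0) (nat_lit 2584) (XT.nd (nat_lit 156) (nat_lit 0) (nat_lit 0) (XT.nd (nat_lit 78) (nat_lit 0) (nat_lit 0) (XT.lf (nat_lit 0) (nat_lit 2660974804939) (nat_lit 76) (nat_lit 542201560866) (nat_lit 76) (nat_lit 414329239472) (nat_lit 3) (nat_lit 4) (nat_lit 4) (nat_lit 5) (nat_lit 4) (nat_lit 4) (nat_lit 277) (nat_lit 235) (nat_lit 148)) (XT.lf (nat_lit 0) (nat_lit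 3251682326122) (nat_lit 76) (nat_lit 514059383256) (nat_lit 76) (nat_lit 386186974473) (nat_lit 3) (nat_lit 4) (nat_lit 4) (nat_lit 5) (nat_lit 4) (nat_lit 4) (nat_lit 278) (nat_lit 235) (nat_lit 147))) (XT.nd (nat_lit 78) (nat_lit 0) (nat_lit 0) (XT.lf (nat_lit 0) (nat_lit 3930995730730) (nat_lit 76) (nat_lit 481695994368) (nat_lit 76) (nat_lit 353823509593) (nat_lit 3) (nat_lit 4) (nat_lit 4) (nat_lit 5) (nat_lit 4) (nat_lit 4) (nat_lit 279) (nat_lit 235) (nat_lit 146)) (XT.nd (nat_lit 78) (nat_lit 0) (nat_lit 0) (XT.lf (nat_lit 0) (nat_lit 4712205933202) (nat_lit 76) (nat_lit 444478197460) (nat_lit 76) (nat_lit 316605646607) (nat_lit 3) (nat_lit 4) (nat_lit 4) (nat_lit 5) (nat_lit 4) (nat_lit 4) (nat_lit 280) (nat_lit 235) (nat_lit 145)) (XT.lf (nat_lit 0) (nat_lit 5610597480977) (nat_lit 76) (nat_lit 401677818248) (nat_lit 76) (nat_lit 273805209934) (nat_lit 3) (nat_lit 4) (nat_lit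 4) (nat_lit 5) (nat_lit 4) (nat_lit 4) (nat_lit 281) (nat_lit 235) (nat_lit 144))))) (XT.nd (nat_lit 234) (nat_lit 228) (nat_lit 0) (XT.nd (nat_lit 78) (nat_lit 0) (nat_lit 76) (XT.lf (nat_lit 0) (nat_lit 9077386636) (nat_lit 532) (nat_lit 5048276342) (nat_lit 532) (nat_lit 5048276342) (nat_lit 40) (nat_lit 3) (nat_lit 47) (nat_lit 3) (nat_lit 47) (nat_lit 5) (nat_lit 236) (nat_lit 236) (nat_lit 188)) (XT.nd (nat_lit 78) (nat_lit 0) (nat_lit 0) (XT.lf (nat_lit 0) (nat_lit 20197133592) (nat_lit 456) (nat_lit 18520015547) (nat_lit 532) (nat_lit 2452051616) (nat_lit 41) (nat_lit 5) (nat_lit 47) (nat_lit 5) (nat_lit 48) (nat_lit 5) (nat_lit 237) (nat_lit 236) (nat_lit 187)) (XT.lf (nat_lit 76) (nat_lit 16558745328) (nat_lit 0) (nat_lit 7455366422) (nat_lit 532) (nat_lit 20282203277) (nat_lit 42) (nat_lit 5) (nat_lit 41) (nat_lit 5) (nat_lit 48) (nat_lit 5) (nat_lit 238) (nat_lit 236) (nat_lit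 186)))) (XT.nd (nat_lit 78) (nat_lit 380) (nat_lit 0) (XT.lf (nat_lit 76) (nat_lit 9961556588) (nat_lit 0) (nat_lit 19908833336) (nat_lit 532) (nat_lit 17904814035) (nat_lit 43) (nat_lit 5) (nat_lit 42) (nat_lit 5) (nat_lit 49) (nat_lit 5) (nat_lit 239) (nat_lit 236) (nat_lit 185)) (XT.nd (nat_lit 78) (nat_lit 0) (nat_lit 0) (XT.lf (nat_lit 0) (nat_lit 2801229659) (nat_lit 456) (nat_lit 35282573443) (nat_lit 532) (nat_lit 13573869213) (nat_lit 37) (nat_lit 5) (nat_lit 43) (nat_lit 5) (nat_lit 44) (nat_lit 5) (nat_lit 240) (nat_lit 236) (nat_lit 184)) (XT.lf (nat_lit 0) (nat_lit 49207276968) (nat_lit 532) (nat_lit 4831299495) (nat_lit 76) (nat_lit 1949726694) (nat_lit 37) (nat_lit 5) (nat_lit 44) (nat_lit 5) (nat_lit 38) (nat_lit 5) (nat_lit 241) (nat_lit 236) (nat_lit 183))))))))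
noncomputable def xc44 : XT := (XT.nd (nat_lit 1716) (nat_lit 228) (nat_lit 0) (XT.nd (nat_lit 858) (nat_lit 608) (nat_lit 0) (XT.nd (nat_lit 390) (nat_lit 684) (nat_lit 0) (XT.nd (nat_lit 156) (nat_lit 532) (nat_lit 0) (XT.nd (nat_lit 78) (nat_lit 228) (nat_lit 0) (XT.lf (nat_lit 0) (nat_lit 3136393845) (nat_lit 304) (nat_lit 13706008737) (nat_lit 76) (nat_lit 43951594980) (nat_lit 33) (nat_lit 5) (nat_lit 37) (nat_lit 5) (nat_lit 34) (nat_lit 5) (nat_lit 242) (nat_lit 236) (nat_lit 182)) (XT.lf (nat_lit 0) (nat_lit 15974860694) (nat_lit 304) (nat_lit 24154889781) (nat_lit 76) (nat_lit 26029934804) (nat_lit 30) (nat_lit 5) (nat_lit 34) (nat_lit 5) (nat_lit 31) (nat_lit 5) (nat_lit 243) (nat_lit 236) (nat_lit 181))) (XT.nd (nat_lit 78) (nat_lit 304) (nat_lit 0) (XT.lf (nat_lit 0) (nat_lit 32554622602) (nat_lit 304) (nat_lit 36357521632) (nat_lit 76) (nat_lit 3272861914) (nat_lit 27) (nat_lit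 5) (nat_lit 31) (nat_lit 5) (nat_lit 28) (nat_lit 5) (nat_lit 244) (nat_lit 236) (nat_lit 180)) (XT.nd (nat_lit 78) (nat_lit 152) (nat_lit 0) (XT.lf (nat_lit 0) (nat_lit 27449806696) (nat_lit 152) (nat_lit 26657391284) (nat_lit 228) (nat_lit 24808078359) (nat_lit 25) (nat_lit 5) (nat_lit 27) (nat_lit 5) (nat_lit 28) (nat_lit 5) (nat_lit 245) (nat_lit 236) (nat_lit 179)) (XT.lf (nat_lit 0) (nat_lit 16734556591) (nat_lit 152) (nat_lit 64168954509) (nat_lit 228) (nat_lit 5590724476) (nat_lit 23) (nat_lit 5) (nat_lit 25) (nat_lit 5) (nat_lit 26) (nat_lit 5) (nat_lit 246) (nat_lit 236) (nat_lit 178))))) (XT.nd (nat_lit 234) (nat_lit 304) (nat_lit 0) (XT.nd (nat_lit 78) (nat_lit 152) (nat_lit 0) (XT.lf (nat_lit 0) (nat_lit 2116937948) (nat_lit 152) (nat_lit 15887120465) (nat_lit 228) (nat_lit 76988575114) (nat_lit 20) (nat_lit 5) (nat_lit 22) (nat_lit 5) (nat_lit 23) (nat_lit 5) (nat_lit 247)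 (nat_lit 236) (nat_lit 177)) (XT.nd (nat_lit 78) (nat_lit 152) (nat_lit 0) (XT.lf (nat_lit 0) (nat_lit 47849084766) (nat_lit 228) (nat_lit 16770948659) (nat_lit 76) (nat_lit 39890787555) (nat_lit 20) (nat_lit 5) (nat_lit 23) (nat_lit 5) (nat_lit 21) (nat_lit 5) (nat_lit 248) (nat_lit 236) (nat_lit 176)) (XT.lf (nat_lit 0) (nat_lit 74006596684) (nat_lit 152) (nat_lit 10379741299) (nat_lit 228) (nat_lit 30893170860) (nat_lit 18) (nat_lit 5) (nat_lit 20) (nat_lit 5) (nat_lit 21) (nat_lit 5) (nat_lit 249) (nat_lit 236) (nat_lit 175)))) (XT.nd (nat_lit 78) (nat_lit 152) (nat_lit 0) (XT.lf (nat_lit 0) (nat_lit 1909376871) (nat_lit 152) (nat_lit 74285868633) (nat_lit 76) (nat_lit 51222229371) (nat_lit 16) (nat_lit 5) (nat_lit 18) (nat_lit 5) (nat_lit 17) (nat_lit 5) (nat_lit 250) (nat_lit 236) (nat_lit 174)) (XT.nd (nat_lit 78) (nat_lit 0) (nat_lit 0) (XT.lf (nat_lit 0) (nat_lit 22883033269)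 (nat_lit 152) (nat_lit 17039090716) (nat_lit 228) (nat_lit 101220302300) (nat_lit 14) (nat_lit 5) (nat_lit 16) (nat_lit 5) (nat_lit 17) (nat_lit 5) (nat_lit 251) (nat_lit 236) (nat_lit 173)) (XT.lf (nat_lit 0) (nat_lit 87079084547) (nat_lit 228) (nat_lit 18914674003) (nat_lit 76) (nat_lit 50656983910) (nat_lit 14) (nat_lit 5) (nat_lit 17) (nat_lit 5) (nat_lit 15) (nat_lit 4) (nat_lit 252) (nat_lit 236) (nat_lit 172)))))) (XT.nd (nat_lit 390) (nat_lit 304) (nat_lit 0) (XT.nd (nat_lit 156) (nat_lit 76) (nat_lit 0) (XT.nd (nat_lit 78) (nat_lit 152) (nat_lit 0) (XT.lf (nat_lit 0) (nat_lit 99851218727) (nat_lit 76) (nat_lit 44328488923) (nat_lit 152) (nat_lit 30075994295) (nat_lit 13) (nat_lit 5) (nat_lit 14) (nat_lit 5) (nat_lit 15) (nat_lit 4) (nat_lit 253) (nat_lit 236) (nat_lit 171)) (XT.lf (nat_lit 0) (nat_lit 16912613790) (nat_lit 152) (nat_lit 150049108314) (nat_lit 76) (nat_lit 27323272452)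 (nat_lit 11) (nat_lit 5) (nat_lit 13) (nat_lit 5) (nat_lit 12) (nat_lit 4) (nat_lit 254) (nat_lit 236) (nat_lit 170))) (XT.nd (nat_lit 78) (nat_lit 76) (nat_lit 0) (XT.lf (nat_lit 0) (nat_lit 72665598282) (nat_lit 152) (nat_lit 34085283352) (nat_lit 76) (nat_lit 110225554031) (nat_lit 11) (nat_lit 5) (nat_lit 13) (nat_lit 5) (nat_lit 12) (nat_lit 4) (nat_lit 255) (nat_lit 236) (nat_lit 169)) (XT.nd (nat_lit 78) (nat_lit 0) (nat_lit 0) (XT.lf (nat_lit 0) (nat_lit 104497173956) (nat_lit 76) (nat_lit 34795601869) (nat_lit 152) (nat_lit 103577920748) (nat_lit 10) (nat_lit 5) (nat_lit 11) (nat_lit 5) (nat_lit 12) (nat_lit 4) (nat_lit 256) (nat_lit 236) (nat_lit 168)) (XT.lf (nat_lit 0) (nat_lit 218083663332) (nat_lit 152) (nat_lit 7820796092) (nat_lit 0) (nat_lit 46571069365) (nat_lit 10) (nat_lit 5) (nat_lit 12) (nat_lit 4) (nat_lit 10) (nat_lit 4) (nat_lit 257) (nat_lit 236) (nat_lit 167)))))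 (XT.nd (nat_lit 234) (nat_lit 76) (nat_lit 0) (XT.nd (nat_lit 78) (nat_lit 76) (nat_lit 0) (XT.lf (nat_lit 0) (nat_lit 6720639448) (nat_lit 152) (nat_lit 157535114579) (nat_lit 76) (nat_lit 141888579098) (nat_lit 8) (nat_lit 5) (nat_lit 10) (nat_lit 5) (nat_lit 9) (nat_lit 4) (nat_lit 258) (nat_lit 236) (nat_lit 166)) (XT.nd (nat_lit 78) (nat_lit 76) (nat_lit 0) (XT.lf (nat_lit 0) (nat_lit 74103155858) (nat_lit 152) (nat_lit 17380741891) (nat_lit 76) (nat_lit 253240640995) (nat_lit 8) (nat_lit 5) (nat_lit 10) (nat_lit 5) (nat_lit 9) (nat_lit 4) (nat_lit 259) (nat_lit 236) (nat_lit 165)) (XT.lf (nat_lit 0) (nat_lit 151366509329) (nat_lit 76) (nat_lit 3865660053) (nat_lit 152) (nat_lit 233568477981) (nat_lit 7) (nat_lit 5) (nat_lit 8) (nat_lit 5) (nat_lit 9) (nat_lit 4) (nat_lit 260) (nat_lit 236) (nat_lit 164)))) (XT.nd (nat_lit 78) (nat_lit 76) (nat_lit 0) (XT.lf (nat_lit 0) (nat_lit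 251378877417) (nat_lit 152) (nat_lit 95314918972) (nat_lit 0) (nat_lit 92566509989) (nat_lit 7) (nat_lit 5) (nat_lit 9) (nat_lit 4) (nat_lit 7) (nat_lit 4) (nat_lit 261) (nat_lit 236) (nat_lit 163)) (XT.nd (nat_lit 78) (nat_lit 0) (nat_lit 0) (XT.lf (nat_lit 0) (nat_lit 71594888044) (nat_lit 76) (nat_lit 292180470773) (nat_lit 76) (nat_lit 133367335362) (nat_lit 6) (nat_lit 4) (nat_lit 7) (nat_lit 5) (nat_lit 7) (nat_lit 4) (nat_lit 262) (nat_lit 236) (nat_lit 162)) (XT.lf (nat_lit 0) (nat_lit 269311457778) (nat_lit 76) (nat_lit 226493930337) (nat_lit 76) (nat_lit 67680127116) (nat_lit 6) (nat_lit 4) (nat_lit 7) (nat_lit 5) (nat_lit 7) (nat_lit 4) (nat_lit 263) (nat_lit 236) (nat_lit 161))))))) (XT.nd (nat_lit 858) (nat_lit 0) (nat_lit 0) (XT.nd (nat_lit 390) (nat_lit 76) (nat_lit 0) (XT.nd (nat_lit 156) (nat_lit 0) (nat_lit 0) (XT.nd (nat_lit 78) (nat_lit 76) (nat_lit 0) (XT.lf (nat_lit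 0) (nat_lit 7466147398) (nat_lit 152) (nat_lit 143284797337) (nat_lit 76) (nat_lit 489013758078) (nat_lit 5) (nat_lit 5) (nat_lit 7) (nat_lit 5) (nat_lit 6) (nat_lit 4) (nat_lit 264) (nat_lit 236) (nat_lit 160)) (XT.lf (nat_lit 0) (nat_lit 29858303764) (nat_lit 76) (nat_lit 60849961933) (nat_lit 152) (nat_lit 636570363889) (nat_lit 4) (nat_lit 5) (nat_lit 5) (nat_lit 5) (nat_lit 6) (nat_lit 4) (nat_lit 265) (nat_lit 236) (nat_lit 159))) (XT.nd (nat_lit 78) (nat_lit 0) (nat_lit 0) (XT.lf (nat_lit 0) (nat_lit 191738972347) (nat_lit 152) (nat_lit 591068749341) (nat_lit 0) (nat_lit 44687742731) (nat_lit 4) (nat_lit 5) (nat_lit 6) (nat_lit 4) (nat_lit 4) (nat_lit 4) (nat_lit 266) (nat_lit 236) (nat_lit 158)) (XT.nd (nat_lit 78) (nat_lit 0) (nat_lit 0) (XT.lf (nat_lit 0) (nat_lit 309606669915) (nat_lit 152) (nat_lit 470448477611) (nat_lit 0) (nat_lit 162555086759) (nat_lit 4) (nat_lit 5) (nat_lit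 6) (nat_lit 4) (nat_lit 4) (nat_lit 4) (nat_lit 267) (nat_lit 236) (nat_lit 157)) (XT.lf (nat_lit 0) (nat_lit 445154022480) (nat_lit 152) (nat_lit 331736105746) (nat_lit 0) (nat_lit 298102131898) (nat_lit 4) (nat_lit 5) (nat_lit 6) (nat_lit 4) (nat_lit 4) (nat_lit 4) (nat_lit 268) (nat_lit 236) (nat_lit 156))))) (XT.nd (nat_lit 234) (nat_lit 0) (nat_lit 0) (XT.nd (nat_lit 78) (nat_lit 76) (nat_lit 0) (XT.lf (nat_lit 0) (nat_lit 601033043462) (nat_lit 152) (nat_lit 172217696036) (nat_lit 0) (nat_lit 453980885553) (nat_lit 4) (nat_lit 5) (nat_lit 6) (nat_lit 4) (nat_lit 4) (nat_lit 4) (nat_lit 269) (nat_lit 236) (nat_lit 155)) (XT.nd (nat_lit 78) (nat_lit 0) (nat_lit 0) (XT.lf (nat_lit 0) (nat_lit 11818998031) (nat_lit 76) (nat_lit 768758788948) (nat_lit 76) (nat_lit 621706398582) (nat_lit 3) (nat_lit 4) (nat_lit 4) (nat_lit 5) (nat_lit 4) (nat_lit 4) (nat_lit 270) (nat_lit 236) (nat_lit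 154)) (XT.lf (nat_lit 0) (nat_lit 233889525644) (nat_lit 76) (nat_lit 758178305127) (nat_lit 76) (nat_lit 611125712622) (nat_lit 3) (nat_lit 4) (nat_lit 4) (nat_lit 5) (nat_lit 4) (nat_lit 4) (nat_lit 271) (nat_lit 236) (nat_lit 153)))) (XT.nd (nat_lit 78) (nat_lit 0) (nat_lit 0) (XT.lf (nat_lit 0) (nat_lit 489270066273) (nat_lit 76) (nat_lit 746011015572) (nat_lit 76) (nat_lit 598958247295) (nat_lit 3) (nat_lit 4) (nat_lit 4) (nat_lit 5) (nat_lit 4) (nat_lit 4) (nat_lit 272) (nat_lit 236) (nat_lit 152)) (XT.nd (nat_lit 78) (nat_lit 0) (nat_lit 0) (XT.lf (nat_lit 0) (nat_lit 782957195714) (nat_lit 76) (nat_lit 732018864618) (nat_lit 76) (nat_lit 584965943497) (nat_lit 3) (nat_lit 4) (nat_lit 4) (nat_lit 5) (nat_lit 4) (nat_lit 4) (nat_lit 273) (nat_lit 236) (nat_lit 151)) (XT.lf (nat_lit 0) (nat_lit 1120696966500) (nat_lit 76) (nat_lit 715928092792) (nat_lit 76) (nat_lit 568875038762)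 (nat_lit 3) (nat_lit 4) (nat_lit 4) (nat_lit 5) (nat_lit 4) (nat_lit 4) (nat_lit 274) (nat_lit 236) (nat_lit 150)))))) (XT.nd (nat_lit 390) (nat_lit 0) (nat_lit 0) (XT.nd (nat_lit 156) (nat_lit 0) (nat_lit 0) (XT.nd (nat_lit 78) (nat_lit 0) (nat_lit 0) (XT.lf (nat_lit 0) (nat_lit 1509097330666) (nat_lit 76) (nat_lit 697423880643) (nat_lit 76) (nat_lit 550370711040) (nat_lit 3) (nat_lit 4) (nat_lit 4) (nat_lit 5) (nat_lit 4) (nat_lit 4) (nat_lit 275) (nat_lit 236) (nat_lit 149)) (XT.lf (nat_lit 0) (nat_lit 1955757425774) (nat_lit 76) (nat_lit 676144189239) (nat_lit 76) (nat_lit 529090919138) (nat_lit 3) (nat_lit 4) (nat_lit 4) (nat_lit 5) (nat_lit 4) (nat_lit 4) (nat_lit 276) (nat_lit 236) (nat_lit 148))) (XT.nd (nat_lit 78) (nat_lit 0) (nat_lit 0) (XT.lf (nat_lit 0) (nat_lit 2469416253684) (nat_lit 76) (nat_lit 651672676791) (nat_lit 76) (nat_lit 504619319300) (nat_lit 3) (nat_lit 4)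 (nat_lit 4) (nat_lit 5) (nat_lit 4) (nat_lit 4) (nat_lit 277) (nat_lit 236) (nat_lit 147)) (XT.nd (nat_lit 78) (nat_lit 0) (nat_lit 0) (XT.lf (nat_lit 0) (nat_lit 3060123661028) (nat_lit 76) (nat_lit 623530552838) (nat_lit 76) (nat_lit 476477119356) (nat_lit 3) (nat_lit 4) (nat_lit 4) (nat_lit 5) (nat_lit 4) (nat_lit 4) (nat_lit 278) (nat_lit 236) (nat_lit 146)) (XT.lf (nat_lit 0) (nat_lit 3739436966647) (nat_lit 76) (nat_lit 591167210607) (nat_lit 76) (nat_lit 444113711046) (nat_lit 3) (nat_lit 4) (nat_lit 4) (nat_lit 5) (nat_lit 4) (nat_lit 4) (nat_lit 279) (nat_lit 236) (nat_lit 145))))) (XT.nd (nat_lit 31122) (nat_lit 0) (nat_lit 2888) (XT.nd (nat_lit 78) (nat_lit 0) (nat_lit 0) (XT.lf (nat_lit 0) (nat_lit 4520647083041) (nat_lit 76) (nat_lit 553949454273) (nat_lit 76) (nat_lit 406895897251) (nat_lit 3) (nat_lit 4) (nat_lit 4) (nat_lit 5) (nat_lit 4) (nat_lit 4) (nat_lit 280) (nat_lit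 236) (nat_lit 144)) (XT.nd (nat_lit 30966) (nat_lit 0) (nat_lit 2812) (XT.lf (nat_lit 0) (nat_lit 5419038555966) (nat_lit 76) (nat_lit 511149110340) (nat_lit 76) (nat_lit 364095503354) (nat_lit 3) (nat_lit 4) (nat_lit 4) (nat_lit 5) (nat_lit 4) (nat_lit 4) (nat_lit 281) (nat_lit 236) (nat_lit 143)) (XT.lf (nat_lit 0) (nat_lit 10508348027) (nat_lit 532) (nat_lit 5767919049) (nat_lit 532) (nat_lit 5767919049) (nat_lit 40) (nat_lit 3) (nat_lit 47) (nat_lit 3) (nat_lit 47) (nat_lit 5) (nat_lit 237) (nat_lit 237) (nat_lit 186)))) (XT.nd (nat_lit 78) (nat_lit 0) (nat_lit 0) (XT.lf (nat_lit 0) (nat_lit 23347688475) (nat_lit 456) (nat_lit 21217604233) (nat_lit 532) (nat_lit 2769094900) (nat_lit 41) (nat_lit 5) (nat_lit 47) (nat_lit 5) (nat_lit 48) (nat_lit 5) (nat_lit 238) (nat_lit 237) (nat_lit 185)) (XT.nd (nat_lit 78) (nat_lit 0) (nat_lit 76) (XT.lf (nat_lit 76) (nat_lit 19116164160) (nat_lit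 0) (nat_lit 8607038817) (nat_lit 532) (nat_lit 23208553980) (nat_lit 42) (nat_lit 5) (nat_lit 41) (nat_lit 5) (nat_lit 48) (nat_lit 5) (nat_lit 239) (nat_lit 237) (nat_lit 184)) (XT.lf (nat_lit 76) (nat_lit 11532144270) (nat_lit 0) (nat_lit 22912963921) (nat_lit 532) (nat_lit 20488454565) (nat_lit 43) (nat_lit 5) (nat_lit 42) (nat_lit 5) (nat_lit 49) (nat_lit 5) (nat_lit 240) (nat_lit 237) (nat_lit 183))))))))
noncomputable def xc45 : XT := (XT.nd (nat_lit 1716) (nat_lit 304) (nat_lit 0) (XT.nd (nat_lit 858) (nat_lit 684) (nat_lit 0) (XT.nd (nat_lit 390) (nat_lit 836) (nat_lit 0) (XT.nd (nat_lit 156) (nat_lit 760) (nat_lit 0) (XT.nd (nat_lit 78) (nat_lit 0) (nat_lit 0) (XT.lf (nat_lit 0) (nat_lit 3298948534) (nat_lit 456) (nat_lit 40580795436) (nat_lit 532) (nat_lit 15519571286) (nat_lit 37) (nat_lit 5) (nat_lit 43) (nat_lit 5) (nat_lit 44) (nat_lit 5) (nat_lit 241) (nat_lit 237) (nat_lit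 182)) (XT.lf (nat_lit 0) (nat_lit 56660742468) (nat_lit 532) (nat_lit 5482357299) (nat_lit 76) (nat_lit 2237364796) (nat_lit 37) (nat_lit 5) (nat_lit 44) (nat_lit 5) (nat_lit 38) (nat_lit 5) (nat_lit 242) (nat_lit 237) (nat_lit 181))) (XT.nd (nat_lit 78) (nat_lit 456) (nat_lit 0) (XT.lf (nat_lit 0) (nat_lit 3673327606) (nat_lit 304) (nat_lit 15690768667) (nat_lit 76) (nat_lit 50543446111) (nat_lit 33) (nat_lit 5) (nat_lit 37) (nat_lit 5) (nat_lit 34) (nat_lit 5) (nat_lit 243) (nat_lit 237) (nat_lit 180)) (XT.nd (nat_lit 78) (nat_lit 228) (nat_lit 0) (XT.lf (nat_lit 0) (nat_lit 18430598274) (nat_lit 304) (nat_lit 27708186344) (nat_lit 76) (nat_lit 29939886831) (nat_lit 30) (nat_lit 5) (nat_lit 34) (nat_lit 5) (nat_lit 31) (nat_lit 5) (nat_lit 244) (nat_lit 237) (nat_lit 179)) (XT.lf (nat_lit 0) (nat_lit 37491360185) (nat_lit 304) (nat_lit 41742948891) (nat_lit 76) (nat_lit 3773985376)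 (nat_lit 27) (nat_lit 5) (nat_lit 31) (nat_lit 5) (nat_lit 28) (nat_lit 5) (nat_lit 245) (nat_lit 237) (nat_lit 178))))) (XT.nd (nat_lit 234) (nat_lit 304) (nat_lit 0) (XT.nd (nat_lit 78) (nat_lit 380) (nat_lit 0) (XT.lf (nat_lit 0) (nat_lit 31629705812) (nat_lit 152) (nat_lit 30641633431) (nat_lit 228) (nat_lit 28477227898) (nat_lit 25) (nat_lit 5) (nat_lit 27) (nat_lit 5) (nat_lit 28) (nat_lit 5) (nat_lit 246) (nat_lit 237) (nat_lit 177)) (XT.nd (nat_lit 78) (nat_lit 228) (nat_lit 0) (XT.lf (nat_lit 0) (nat_lit 19305229708) (nat_lit 152) (nat_lit 73777355948) (nat_lit 228) (nat_lit 6382166012) (nat_lit 23) (nat_lit 5) (nat_lit 25) (nat_lit 5) (nat_lit 26) (nat_lit 5) (nat_lit 247) (nat_lit 237) (nat_lit 176)) (XT.lf (nat_lit 0) (nat_lit 2492122664) (nat_lit 152) (nat_lit 18252894020) (nat_lit 228) (nat_lit 88493174884) (nat_lit 20) (nat_lit 5) (nat_lit 22) (nat_lit 5) (nat_lit 23) (nat_lit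 5) (nat_lit 248) (nat_lit 237) (nat_lit 175)))) (XT.nd (nat_lit 78) (nat_lit 304) (nat_lit 0) (XT.lf (nat_lit 0) (nat_lit 55061895691) (nat_lit 228) (nat_lit 19233925673) (nat_lit 76) (nat_lit 45888692099) (nat_lit 20) (nat_lit 5) (nat_lit 23) (nat_lit 5) (nat_lit 21) (nat_lit 5) (nat_lit 249) (nat_lit 237) (nat_lit 174)) (XT.nd (nat_lit 78) (nat_lit 152) (nat_lit 0) (XT.lf (nat_lit 0) (nat_lit 85155793618) (nat_lit 152) (nat_lit 11920478984) (nat_lit 228) (nat_lit 35492521415) (nat_lit 18) (nat_lit 5) (nat_lit 20) (nat_lit 5) (nat_lit 21) (nat_lit 5) (nat_lit 250) (nat_lit 237) (nat_lit 173)) (XT.lf (nat_lit 0) (nat_lit 2225873756) (nat_lit 152) (nat_lit 85380910690) (nat_lit 76) (nat_lit 58920838056) (nat_lit 16) (nat_lit 5) (nat_lit 18) (nat_lit 5) (nat_lit 17) (nat_lit 5) (nat_lit 251) (nat_lit 237) (nat_lit 172)))))) (XT.nd (nat_lit 390) (nat_lit 304) (nat_lit 0) (XT.nd (nat_lit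 156) (nat_lit 228) (nat_lit 0) (XT.nd (nat_lit 78) (nat_lit 0) (nat_lit 0) (XT.lf (nat_lit 0) (nat_lit 26359277229) (nat_lit 152) (nat_lit 19578384005) (nat_lit 228) (nat_lit 116373893782) (nat_lit 14) (nat_lit 5) (nat_lit 16) (nat_lit 5) (nat_lit 17) (nat_lit 5) (nat_lit 252) (nat_lit 237) (nat_lit 171)) (XT.lf (nat_lit 0) (nat_lit 100164962158) (nat_lit 228) (nat_lit 21712200612) (nat_lit 76) (nat_lit 58269219674) (nat_lit 14) (nat_lit 5) (nat_lit 17) (nat_lit 5) (nat_lit 15) (nat_lit 4) (nat_lit 253) (nat_lit 237) (nat_lit 170))) (XT.nd (nat_lit 78) (nat_lit 152) (nat_lit 0) (XT.lf (nat_lit 0) (nat_lit 114865217779) (nat_lit 76) (nat_lit 50963201971) (nat_lit 152) (nat_lit 34563853366) (nat_lit 13) (nat_lit 5) (nat_lit 14) (nat_lit 5) (nat_lit 15) (nat_lit 4) (nat_lit 254) (nat_lit 237) (nat_lit 169)) (XT.nd (nat_lit 78) (nat_lit 0) (nat_lit 0) (XT.lf (nat_lit 0) (nat_lit 19470116553)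 (nat_lit 152) (nat_lit 172520799275) (nat_lit 76) (nat_lit 31435143915) (nat_lit 11) (nat_lit 5) (nat_lit 13) (nat_lit 5) (nat_lit 12) (nat_lit 4) (nat_lit 255) (nat_lit 237) (nat_lit 168)) (XT.lf (nat_lit 0) (nat_lit 83583360367) (nat_lit 152) (nat_lit 39167053867) (nat_lit 76) (nat_lit 126771022436) (nat_lit 11) (nat_lit 5) (nat_lit 13) (nat_lit 5) (nat_lit 12) (nat_lit 4) (nat_lit 256) (nat_lit 237) (nat_lit 167))))) (XT.nd (nat_lit 234) (nat_lit 76) (nat_lit 0) (XT.nd (nat_lit 78) (nat_lit 152) (nat_lit 0) (XT.lf (nat_lit 0) (nat_lit 120200146180) (nat_lit 76) (nat_lit 40002813592) (nat_lit 152) (nat_lit 119097013310) (nat_lit 10) (nat_lit 5) (nat_lit 11) (nat_lit 5) (nat_lit 12) (nat_lit 4) (nat_lit 257) (nat_lit 237) (nat_lit 166)) (XT.nd (nat_lit 78) (nat_lit 152) (nat_lit 0) (XT.lf (nat_lit 0) (nat_lit 250810612194) (nat_lit 152) (nat_lit 8968322101) (nat_lit 0) (nat_lit 53566748759)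 (nat_lit 10) (nat_lit 5) (nat_lit 12) (nat_lit 4) (nat_lit 10) (nat_lit 4) (nat_lit 258) (nat_lit 237) (nat_lit 165)) (XT.lf (nat_lit 0) (nat_lit 7742178916) (nat_lit 152) (nat_lit 181141228198) (nat_lit 76) (nat_lit 163181481891) (nat_lit 8) (nat_lit 5) (nat_lit 10) (nat_lit 5) (nat_lit 9) (nat_lit 4) (nat_lit 259) (nat_lit 237) (nat_lit 164)))) (XT.nd (nat_lit 78) (nat_lit 76) (nat_lit 0) (XT.lf (nat_lit 0) (nat_lit 85230319281) (nat_lit 152) (nat_lit 19966850073) (nat_lit 76) (nat_lit 291235098821) (nat_lit 8) (nat_lit 5) (nat_lit 10) (nat_lit 5) (nat_lit 9) (nat_lit 4) (nat_lit 260) (nat_lit 237) (nat_lit 163)) (XT.nd (nat_lit 78) (nat_lit 0) (nat_lit 0) (XT.lf (nat_lit 0) (nat_lit 174090711022) (nat_lit 76) (nat_lit 4436911392) (nat_lit 152) (nat_lit 268592257776) (nat_lit 7) (nat_lit 5) (nat_lit 8) (nat_lit 5) (nat_lit 9) (nat_lit 4) (nat_lit 261) (nat_lit 237) (nat_lit 162)) (XT.lf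 (nat_lit 0) (nat_lit 289095130246) (nat_lit 152) (nat_lit 109594867429) (nat_lit 0) (nat_lit 106458588730) (nat_lit 7) (nat_lit 5) (nat_lit 9) (nat_lit 4) (nat_lit 7) (nat_lit 4) (nat_lit 262) (nat_lit 237) (nat_lit 161))))))) (XT.nd (nat_lit 858) (nat_lit 0) (nat_lit 0) (XT.nd (nat_lit 390) (nat_lit 76) (nat_lit 0) (XT.nd (nat_lit 156) (nat_lit 152) (nat_lit 0) (XT.nd (nat_lit 78) (nat_lit 0) (nat_lit 0) (XT.lf (nat_lit 0) (nat_lit 82349947179) (nat_lit 76) (nat_lit 336000288437) (nat_lit 76) (nat_lit 153363166216) (nat_lit 6) (nat_lit 4) (nat_lit 7) (nat_lit 5) (nat_lit 7) (nat_lit 4) (nat_lit 263) (nat_lit 237) (nat_lit 160)) (XT.lf (nat_lit 0) (nat_lit 309721938121) (nat_lit 76) (nat_lit 260461712973) (nat_lit 76) (nat_lit 77824085791) (nat_lit 6) (nat_lit 4) (nat_lit 7) (nat_lit 5) (nat_lit 7) (nat_lit 4) (nat_lit 264) (nat_lit 237) (nat_lit 159))) (XT.nd (nat_lit 78) (nat_lit 76)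 (nat_lit 0) (XT.lf (nat_lit 0) (nat_lit 8592727924) (nat_lit 152) (nat_lit 164765192195) (nat_lit 76) (nat_lit 562370947996) (nat_lit 5) (nat_lit 5) (nat_lit 7) (nat_lit 5) (nat_lit 6) (nat_lit 4) (nat_lit 265) (nat_lit 237) (nat_lit 158)) (XT.nd (nat_lit 78) (nat_lit 0) (nat_lit 0) (XT.lf (nat_lit 0) (nat_lit 34348330844) (nat_lit 76) (nat_lit 69972235957) (nat_lit 152) (nat_lit 732049365849) (nat_lit 4) (nat_lit 5) (nat_lit 5) (nat_lit 5) (nat_lit 6) (nat_lit 4) (nat_lit 266) (nat_lit 237) (nat_lit 157)) (XT.lf (nat_lit 0) (nat_lit 220505198021) (nat_lit 152) (nat_lit 679718933618) (nat_lit 0) (nat_lit 51395216426) (nat_lit 4) (nat_lit 5) (nat_lit 6) (nat_lit 4) (nat_lit 4) (nat_lit 4) (nat_lit 267) (nat_lit 237) (nat_lit 156))))) (XT.nd (nat_lit 234) (nat_lit 76) (nat_lit 0) (XT.nd (nat_lit 78) (nat_lit 0) (nat_lit 0) (XT.lf (nat_lit 0) (nat_lit 356052348508) (nat_lit 152) (nat_lit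 541006942188) (nat_lit 0) (nat_lit 186942099586) (nat_lit 4) (nat_lit 5) (nat_lit 6) (nat_lit 4) (nat_lit 4) (nat_lit 4) (nat_lit 268) (nat_lit 237) (nat_lit 155)) (XT.nd (nat_lit 78) (nat_lit 0) (nat_lit 0) (XT.lf (nat_lit 0) (nat_lit 511931193770) (nat_lit 152) (nat_lit 381488863291) (nat_lit 0) (nat_lit 342820712390) (nat_lit 4) (nat_lit 5) (nat_lit 6) (nat_lit 4) (nat_lit 4) (nat_lit 4) (nat_lit 269) (nat_lit 237) (nat_lit 154)) (XT.lf (nat_lit 0) (nat_lit 691191537301) (nat_lit 152) (nat_lit 198043691035) (nat_lit 0) (nat_lit 522080853784) (nat_lit 4) (nat_lit 5) (nat_lit 6) (nat_lit 4) (nat_lit 4) (nat_lit 4) (nat_lit 270) (nat_lit 237) (nat_lit 153)))) (XT.nd (nat_lit 78) (nat_lit 0) (nat_lit 0) (XT.lf (nat_lit 0) (nat_lit 13597943456) (nat_lit 76) (nat_lit 884069734104) (nat_lit 76) (nat_lit 714958874814) (nat_lit 3) (nat_lit 4) (nat_lit 4) (nat_lit 5) (nat_lit 4) (nat_lit 4)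 (nat_lit 271) (nat_lit 237) (nat_lit 152)) (XT.nd (nat_lit 78) (nat_lit 0) (nat_lit 0) (XT.lf (nat_lit 0) (nat_lit 268978255117) (nat_lit 76) (nat_lit 871902552472) (nat_lit 76) (nat_lit 702791540337) (nat_lit 3) (nat_lit 4) (nat_lit 4) (nat_lit 5) (nat_lit 4) (nat_lit 4) (nat_lit 272) (nat_lit 237) (nat_lit 151)) (XT.lf (nat_lit 0) (nat_lit 562665185455) (nat_lit 76) (nat_lit 857910495365) (nat_lit 76) (nat_lit 688799350321) (nat_lit 3) (nat_lit 4) (nat_lit 4) (nat_lit 5) (nat_lit 4) (nat_lit 4) (nat_lit 273) (nat_lit 237) (nat_lit 150)))))) (XT.nd (nat_lit 390) (nat_lit 0) (nat_lit 0) (XT.nd (nat_lit 156) (nat_lit 0) (nat_lit 0) (XT.nd (nat_lit 78) (nat_lit 0) (nat_lit 0) (XT.lf (nat_lit 0) (nat_lit 900404783107) (nat_lit 76) (nat_lit 841819805144) (nat_lit 76) (nat_lit 672708544527) (nat_lit 3) (nat_lit 4) (nat_lit 4) (nat_lit 5) (nat_lit 4) (nat_lit 4) (nat_lit 274) (nat_lit 237)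 (nat_lit 149)) (XT.lf (nat_lit 0) (nat_lit 1288804996723) (nat_lit 76) (nat_lit 823315663957) (nat_lit 76) (nat_lit 654204302842) (nat_lit 3) (nat_lit 4) (nat_lit 4) (nat_lit 5) (nat_lit 4) (nat_lit 4) (nat_lit 275) (nat_lit 237) (nat_lit 148))) (XT.nd (nat_lit 78) (nat_lit 0) (nat_lit 0) (XT.lf (nat_lit 0) (nat_lit 1735464960917) (nat_lit 76) (nat_lit 802036034258) (nat_lit 76) (nat_lit 632924585754) (nat_lit 3) (nat_lit 4) (nat_lit 4) (nat_lit 5) (nat_lit 4) (nat_lit 4) (nat_lit 276) (nat_lit 237) (nat_lit 147)) (XT.nd (nat_lit 78) (nat_lit 0) (nat_lit 0) (XT.lf (nat_lit 0) (nat_lit 2249123674988) (nat_lit 76) (nat_lit 777564575467) (nat_lit 76) (nat_lit 608453050971) (nat_lit 3) (nat_lit 4) (nat_lit 4) (nat_lit 5) (nat_lit 4) (nat_lit 4) (nat_lit 277) (nat_lit 237) (nat_lit 146)) (XT.lf (nat_lit 0) (nat_lit 2839830983343) (nat_lit 76) (nat_lit 749422498172) (nat_lit 76) (nat_lit 580310907598)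 (nat_lit 3) (nat_lit 4) (nat_lit 4) (nat_lit 5) (nat_lit 4) (nat_lit 4) (nat_lit 278) (nat_lit 237) (nat_lit 145))))) (XT.nd (nat_lit 31200) (nat_lit 0) (nat_lit 2812) (XT.nd (nat_lit 78) (nat_lit 0) (nat_lit 0) (XT.lf (nat_lit 0) (nat_lit 3519144202884) (nat_lit 76) (nat_lit 717059196514) (nat_lit 76) (nat_lit 547947548479) (nat_lit 3) (nat_lit 4) (nat_lit 4) (nat_lit 5) (nat_lit 4) (nat_lit 4) (nat_lit 279) (nat_lit 237) (nat_lit 144)) (XT.nd (nat_lit 78) (nat_lit 0) (nat_lit 0) (XT.lf (nat_lit 0) (nat_lit 4300354244428) (nat_lit 76) (nat_lit 679841475459) (nat_lit 76) (nat_lit 510729777459) (nat_lit 3) (nat_lit 4) (nat_lit 4) (nat_lit 5) (nat_lit 4) (nat_lit 4) (nat_lit 280) (nat_lit 237) (nat_lit 143)) (XT.lf (nat_lit 0) (nat_lit 5198745652266) (nat_lit 76) (nat_lit 637041162206) (nat_lit 76) (nat_lit 467929420758) (nat_lit 3) (nat_lit 4) (nat_lit 4) (nat_lit 5) (nat_lit 4) (nat_lit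 4) (nat_lit 281) (nat_lit 237) (nat_lit 142)))) (XT.nd (nat_lit 78) (nat_lit 0) (nat_lit 76) (XT.lf (nat_lit 0) (nat_lit 12137041361) (nat_lit 532) (nat_lit 6604676854) (nat_lit 532) (nat_lit 6604676854) (nat_lit 40) (nat_lit 3) (nat_lit 47) (nat_lit 3) (nat_lit 47) (nat_lit 5) (nat_lit 238) (nat_lit 238) (nat_lit 184)) (XT.nd (nat_lit 78) (nat_lit 0) (nat_lit 0) (XT.lf (nat_lit 0) (nat_lit 26941323670) (nat_lit 456) (nat_lit 24339440598) (nat_lit 532) (nat_lit 3146073911) (nat_lit 41) (nat_lit 5) (nat_lit 47) (nat_lit 5) (nat_lit 48) (nat_lit 5) (nat_lit 239) (nat_lit 238) (nat_lit 183)) (XT.lf (nat_lit 76) (nat_lit 22039246275) (nat_lit 0) (nat_lit 9923325212) (nat_lit 532) (nat_lit 26602139694) (nat_lit 42) (nat_lit 5) (nat_lit 41) (nat_lit 5) (nat_lit 48) (nat_lit 5) (nat_lit 240) (nat_lit 238) (nat_lit 182))))))))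
noncomputable def xc46 : XT := (XT.nd (nat_lit 1716) (nat_lit 304) (nat_lit 0) (XT.nd (nat_lit 858) (nat_lit 836) (nat_lit 0) (XT.nd (nat_lit 390) (nat_lit 912) (nat_lit 0) (XT.nd (nat_lit 156) (nat_lit 532) (nat_lit 0) (XT.nd (nat_lit 78) (nat_lit 380) (nat_lit 0) (XT.lf (nat_lit 76) (nat_lit 13319700650) (nat_lit 0) (nat_lit 26363372088) (nat_lit 532) (nat_lit 23484534413) (nat_lit 43) (nat_lit 5) (nat_lit 42) (nat_lit 5) (nat_lit 49) (nat_lit 5) (nat_lit 241) (nat_lit 238) (nat_lit 181)) (XT.lf (nat_lit 0) (nat_lit 3852417979) (nat_lit 456) (nat_lit 46672327589) (nat_lit 532) (nat_lit 17779167992) (nat_lit 37) (nat_lit 5) (nat_lit 43) (nat_lit 5) (nat_lit 44) (nat_lit 5) (nat_lit 242) (nat_lit 238) (nat_lit 180))) (XT.nd (nat_lit 78) (nat_lit 532) (nat_lit 0) (XT.lf (nat_lit 0) (nat_lit 65214578945) (nat_lit 532) (nat_lit 6249030652) (nat_lit 76) (nat_lit 2569324221) (nat_lit 37) (nat_lit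 5) (nat_lit 44) (nat_lit 5) (nat_lit 38) (nat_lit 5) (nat_lit 243) (nat_lit 238) (nat_lit 179)) (XT.nd (nat_lit 78) (nat_lit 228) (nat_lit 0) (XT.lf (nat_lit 0) (nat_lit 4274591158) (nat_lit 304) (nat_lit 17990590863) (nat_lit 76) (nat_lit 58124291485) (nat_lit 33) (nat_lit 5) (nat_lit 37) (nat_lit 5) (nat_lit 34) (nat_lit 5) (nat_lit 244) (nat_lit 238) (nat_lit 178)) (XT.lf (nat_lit 0) (nat_lit 21240184972) (nat_lit 304) (nat_lit 31811531947) (nat_lit 76) (nat_lit 34434999766) (nat_lit 30) (nat_lit 5) (nat_lit 34) (nat_lit 5) (nat_lit 31) (nat_lit 5) (nat_lit 245) (nat_lit 238) (nat_lit 177))))) (XT.nd (nat_lit 234) (nat_lit 380) (nat_lit 0) (XT.nd (nat_lit 78) (nat_lit 304) (nat_lit 0) (XT.lf (nat_lit 0) (nat_lit 43155551316) (nat_lit 304) (nat_lit 47952821481) (nat_lit 76) (nat_lit 4347791443) (nat_lit 27) (nat_lit 5) (nat_lit 31) (nat_lit 5) (nat_lit 28) (nat_lit 5) (nat_lit 246)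 (nat_lit 238) (nat_lit 176)) (XT.nd (nat_lit 78) (nat_lit 152) (nat_lit 0) (XT.lf (nat_lit 0) (nat_lit 36421366306) (nat_lit 152) (nat_lit 35227015272) (nat_lit 228) (nat_lit 32709445569) (nat_lit 25) (nat_lit 5) (nat_lit 27) (nat_lit 5) (nat_lit 28) (nat_lit 5) (nat_lit 247) (nat_lit 238) (nat_lit 175)) (XT.lf (nat_lit 0) (nat_lit 22246753013) (nat_lit 152) (nat_lit 84831148954) (nat_lit 228) (nat_lit 7303825784) (nat_lit 23) (nat_lit 5) (nat_lit 25) (nat_lit 5) (nat_lit 26) (nat_lit 5) (nat_lit 248) (nat_lit 238) (nat_lit 174)))) (XT.nd (nat_lit 78) (nat_lit 152) (nat_lit 0) (XT.lf (nat_lit 0) (nat_lit 2909528227) (nat_lit 152) (nat_lit 20977750985) (nat_lit 228) (nat_lit 101734117848) (nat_lit 20) (nat_lit 5) (nat_lit 22) (nat_lit 5) (nat_lit 23) (nat_lit 5) (nat_lit 249) (nat_lit 238) (nat_lit 173)) (XT.nd (nat_lit 78) (nat_lit 152) (nat_lit 0) (XT.lf (nat_lit 0) (nat_lit 63347983985)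 (nat_lit 228) (nat_lit 22079192002) (nat_lit 76) (nat_lit 52782798494) (nat_lit 20) (nat_lit 5) (nat_lit 23) (nat_lit 5) (nat_lit 21) (nat_lit 5) (nat_lit 250) (nat_lit 238) (nat_lit 172)) (XT.lf (nat_lit 0) (nat_lit 97965614404) (nat_lit 152) (nat_lit 13696283527) (nat_lit 228) (nat_lit 40790218096) (nat_lit 18) (nat_lit 5) (nat_lit 20) (nat_lit 5) (nat_lit 21) (nat_lit 5) (nat_lit 251) (nat_lit 238) (nat_lit 171)))))) (XT.nd (nat_lit 390) (nat_lit 304) (nat_lit 0) (XT.nd (nat_lit 156) (nat_lit 228) (nat_lit 0) (XT.nd (nat_lit 78) (nat_lit 152) (nat_lit 0) (XT.lf (nat_lit 0) (nat_lit 2582507450) (nat_lit 152) (nat_lit 98151874712) (nat_lit 76) (nat_lit 67770513314) (nat_lit 16) (nat_lit 5) (nat_lit 18) (nat_lit 5) (nat_lit 17) (nat_lit 5) (nat_lit 252) (nat_lit 238) (nat_lit 170)) (XT.lf (nat_lit 0) (nat_lit 30346279566) (nat_lit 152) (nat_lit 22502612064) (nat_lit 228) (nat_lit 133807706498)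 (nat_lit 14) (nat_lit 5) (nat_lit 16) (nat_lit 5) (nat_lit 17) (nat_lit 5) (nat_lit 253) (nat_lit 238) (nat_lit 169))) (XT.nd (nat_lit 78) (nat_lit 228) (nat_lit 0) (XT.lf (nat_lit 0) (nat_lit 115207865217) (nat_lit 228) (nat_lit 24939031089) (nat_lit 76) (nat_lit 67019952854) (nat_lit 14) (nat_lit 5) (nat_lit 17) (nat_lit 5) (nat_lit 15) (nat_lit 4) (nat_lit 254) (nat_lit 238) (nat_lit 168)) (XT.nd (nat_lit 78) (nat_lit 152) (nat_lit 0) (XT.lf (nat_lit 0) (nat_lit 132122460743) (nat_lit 76) (nat_lit 58596672596) (nat_lit 152) (nat_lit 39730631694) (nat_lit 13) (nat_lit 5) (nat_lit 14) (nat_lit 5) (nat_lit 15) (nat_lit 4) (nat_lit 255) (nat_lit 238) (nat_lit 167)) (XT.lf (nat_lit 0) (nat_lit 22406218683) (nat_lit 152) (nat_lit 198371943525) (nat_lit 76) (nat_lit 36160533155) (nat_lit 11) (nat_lit 5) (nat_lit 13) (nat_lit 5) (nat_lit 12) (nat_lit 4) (nat_lit 256) (nat_lit 238) (nat_lit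 166))))) (XT.nd (nat_lit 234) (nat_lit 228) (nat_lit 0) (XT.nd (nat_lit 78) (nat_lit 76) (nat_lit 0) (XT.lf (nat_lit 0) (nat_lit 96134416288) (nat_lit 152) (nat_lit 45018654868) (nat_lit 76) (nat_lit 145795473761) (nat_lit 11) (nat_lit 5) (nat_lit 13) (nat_lit 5) (nat_lit 12) (nat_lit 4) (nat_lit 257) (nat_lit 238) (nat_lit 165)) (XT.nd (nat_lit 78) (nat_lit 0) (nat_lit 0) (XT.lf (nat_lit 0) (nat_lit 138251639661) (nat_lit 76) (nat_lit 45994064700) (nat_lit 152) (nat_lit 136948260542) (nat_lit 10) (nat_lit 5) (nat_lit 11) (nat_lit 5) (nat_lit 12) (nat_lit 4) (nat_lit 258) (nat_lit 238) (nat_lit 164)) (XT.lf (nat_lit 0) (nat_lit 288443092009) (nat_lit 152) (nat_lit 10294218125) (nat_lit 0) (nat_lit 61609336868) (nat_lit 10) (nat_lit 5) (nat_lit 12) (nat_lit 4) (nat_lit 10) (nat_lit 4) (nat_lit 259) (nat_lit 238) (nat_lit 163)))) (XT.nd (nat_lit 78) (nat_lit 76) (nat_lit 0) (XT.lf (nat_lit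 0) (nat_lit 8913671010) (nat_lit 152) (nat_lit 208294148861) (nat_lit 76) (nat_lit 187665975199) (nat_lit 8) (nat_lit 5) (nat_lit 10) (nat_lit 5) (nat_lit 9) (nat_lit 4) (nat_lit 260) (nat_lit 238) (nat_lit 162)) (XT.nd (nat_lit 78) (nat_lit 76) (nat_lit 0) (XT.lf (nat_lit 0) (nat_lit 98023706527) (nat_lit 152) (nat_lit 22945996221) (nat_lit 76) (nat_lit 334926686273) (nat_lit 8) (nat_lit 5) (nat_lit 10) (nat_lit 5) (nat_lit 9) (nat_lit 4) (nat_lit 261) (nat_lit 238) (nat_lit 161)) (XT.lf (nat_lit 0) (nat_lit 200218854760) (nat_lit 76) (nat_lit 5095947028) (nat_lit 152) (nat_lit 308872406914) (nat_lit 7) (nat_lit 5) (nat_lit 8) (nat_lit 5) (nat_lit 9) (nat_lit 4) (nat_lit 262) (nat_lit 238) (nat_lit 160))))))) (XT.nd (nat_lit 858) (nat_lit 0) (nat_lit 0) (XT.nd (nat_lit 390) (nat_lit 76) (nat_lit 0) (XT.nd (nat_lit 156) (nat_lit 152) (nat_lit 0) (XT.nd (nat_lit 78) (nat_lit 76) (nat_lit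 0) (XT.lf (nat_lit 0) (nat_lit 332466523576) (nat_lit 152) (nat_lit 126021024282) (nat_lit 0) (nat_lit 122432747355) (nat_lit 7) (nat_lit 5) (nat_lit 9) (nat_lit 4) (nat_lit 7) (nat_lit 4) (nat_lit 263) (nat_lit 238) (nat_lit 159)) (XT.lf (nat_lit 0) (nat_lit 94714405931) (nat_lit 76) (nat_lit 386394847429) (nat_lit 76) (nat_lit 176360632112) (nat_lit 6) (nat_lit 4) (nat_lit 7) (nat_lit 5) (nat_lit 7) (nat_lit 4) (nat_lit 264) (nat_lit 238) (nat_lit 158))) (XT.nd (nat_lit 78) (nat_lit 152) (nat_lit 0) (XT.lf (nat_lit 0) (nat_lit 356190634644) (nat_lit 76) (nat_lit 299526200986) (nat_lit 76) (nat_lit 89491603845) (nat_lit 6) (nat_lit 4) (nat_lit 7) (nat_lit 5) (nat_lit 7) (nat_lit 4) (nat_lit 265) (nat_lit 238) (nat_lit 157)) (XT.nd (nat_lit 78) (nat_lit 76) (nat_lit 0) (XT.lf (nat_lit 0) (nat_lit 9886671832) (nat_lit 152) (nat_lit 189470651748) (nat_lit 76) (nat_lit 646730466344) (nat_lit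 5) (nat_lit 5) (nat_lit 7) (nat_lit 5) (nat_lit 6) (nat_lit 4) (nat_lit 266) (nat_lit 238) (nat_lit 156)) (XT.lf (nat_lit 0) (nat_lit 39509110916) (nat_lit 76) (nat_lit 80464124079) (nat_lit 152) (nat_lit 841851816002) (nat_lit 4) (nat_lit 5) (nat_lit 5) (nat_lit 5) (nat_lit 6) (nat_lit 4) (nat_lit 267) (nat_lit 238) (nat_lit 155))))) (XT.nd (nat_lit 234) (nat_lit 76) (nat_lit 0) (XT.nd (nat_lit 78) (nat_lit 0) (nat_lit 0) (XT.lf (nat_lit 0) (nat_lit 253585045643) (nat_lit 152) (nat_lit 781669115345) (nat_lit 0) (nat_lit 59107759597) (nat_lit 4) (nat_lit 5) (nat_lit 6) (nat_lit 4) (nat_lit 4) (nat_lit 4) (nat_lit 268) (nat_lit 238) (nat_lit 154)) (XT.nd (nat_lit 78) (nat_lit 0) (nat_lit 0) (XT.lf (nat_lit 0) (nat_lit 409463738105) (nat_lit 152) (nat_lit 622151324111) (nat_lit 0) (nat_lit 214986249922) (nat_lit 4) (nat_lit 5) (nat_lit 6) (nat_lit 4) (nat_lit 4) (nat_lit 4) (nat_lit 269)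 (nat_lit 238) (nat_lit 153)) (XT.lf (nat_lit 0) (nat_lit 588723948766) (nat_lit 152) (nat_lit 438706401997) (nat_lit 0) (nat_lit 394246284811) (nat_lit 4) (nat_lit 5) (nat_lit 6) (nat_lit 4) (nat_lit 4) (nat_lit 4) (nat_lit 270) (nat_lit 238) (nat_lit 152)))) (XT.nd (nat_lit 78) (nat_lit 76) (nat_lit 0) (XT.lf (nat_lit 0) (nat_lit 794872942619) (nat_lit 152) (nat_lit 227745209223) (nat_lit 0) (nat_lit 600395125819) (nat_lit 4) (nat_lit 5) (nat_lit 6) (nat_lit 4) (nat_lit 4) (nat_lit 4) (nat_lit 271) (nat_lit 238) (nat_lit 151)) (XT.nd (nat_lit 78) (nat_lit 0) (nat_lit 0) (XT.lf (nat_lit 0) (nat_lit 15642244215) (nat_lit 76) (nat_lit 1016678021677) (nat_lit 76) (nat_lit 822200071968) (nat_lit 3) (nat_lit 4) (nat_lit 4) (nat_lit 5) (nat_lit 4) (nat_lit 4) (nat_lit 272) (nat_lit 238) (nat_lit 150)) (XT.lf (nat_lit 0) (nat_lit 309329001419) (nat_lit 76) (nat_lit 1002686046175) (nat_lit 76)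 (nat_lit 808207980894) (nat_lit 3) (nat_lit 4) (nat_lit 4) (nat_lit 5) (nat_lit 4) (nat_lit 4) (nat_lit 273) (nat_lit 238) (nat_lit 149)))))) (XT.nd (nat_lit 390) (nat_lit 0) (nat_lit 0) (XT.nd (nat_lit 156) (nat_lit 0) (nat_lit 0) (XT.nd (nat_lit 78) (nat_lit 0) (nat_lit 0) (XT.lf (nat_lit 0) (nat_lit 647068448521) (nat_lit 76) (nat_lit 986595426916) (nat_lit 76) (nat_lit 792117261136) (nat_lit 3) (nat_lit 4) (nat_lit 4) (nat_lit 5) (nat_lit 4) (nat_lit 4) (nat_lit 274) (nat_lit 238) (nat_lit 148)) (XT.lf (nat_lit 0) (nat_lit 1035468531223) (nat_lit 76) (nat_lit 968091347434) (nat_lit 76) (nat_lit 773613094264) (nat_lit 3) (nat_lit 4) (nat_lit 4) (nat_lit 5) (nat_lit 4) (nat_lit 4) (nat_lit 275) (nat_lit 238) (nat_lit 147))) (XT.nd (nat_lit 78) (nat_lit 0) (nat_lit 0) (XT.lf (nat_lit 0) (nat_lit 1482128381579) (nat_lit 76) (nat_lit 946811771392) (nat_lit 76) (nat_lit 752333442231) (nat_lit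 3) (nat_lit 4) (nat_lit 4) (nat_lit 5) (nat_lit 4) (nat_lit 4) (nat_lit 276) (nat_lit 238) (nat_lit 146)) (XT.nd (nat_lit 78) (nat_lit 0) (nat_lit 0) (XT.lf (nat_lit 0) (nat_lit 1995786996661) (nat_lit 76) (nat_lit 922340359259) (nat_lit 76) (nat_lit 727861964019) (nat_lit 3) (nat_lit 4) (nat_lit 4) (nat_lit 5) (nat_lit 4) (nat_lit 4) (nat_lit 277) (nat_lit 238) (nat_lit 145)) (XT.lf (nat_lit 0) (nat_lit 2586494218939) (nat_lit 76) (nat_lit 894198322537) (nat_lit 76) (nat_lit 699719869837) (nat_lit 3) (nat_lit 4) (nat_lit 4) (nat_lit 5) (nat_lit 4) (nat_lit 4) (nat_lit 278) (nat_lit 238) (nat_lit 144))))) (XT.nd (nat_lit 31278) (nat_lit 0) (nat_lit 2812) (XT.nd (nat_lit 78) (nat_lit 0) (nat_lit 0) (XT.lf (nat_lit 0) (nat_lit 3265807363629) (nat_lit 76) (nat_lit 861835056159) (nat_lit 76) (nat_lit 667356553494) (nat_lit 3) (nat_lit 4) (nat_lit 4) (nat_lit 5) (nat_lit 4) (nat_lit 4) (nat_lit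 279) (nat_lit 238) (nat_lit 143)) (XT.nd (nat_lit 78) (nat_lit 0) (nat_lit 0) (XT.lf (nat_lit 0) (nat_lit 4047017340086) (nat_lit 76) (nat_lit 824617365783) (nat_lit 76) (nat_lit 630138819670) (nat_lit 3) (nat_lit 4) (nat_lit 4) (nat_lit 5) (nat_lit 4) (nat_lit 4) (nat_lit 280) (nat_lit 238) (nat_lit 142)) (XT.lf (nat_lit 0) (nat_lit 4945408691326) (nat_lit 76) (nat_lit 781817079206) (nat_lit 76) (nat_lit 587338495312) (nat_lit 3) (nat_lit 4) (nat_lit 4) (nat_lit 5) (nat_lit 4) (nat_lit 4) (nat_lit 281) (nat_lit 238) (nat_lit 141)))) (XT.nd (nat_lit 78) (nat_lit 0) (nat_lit 76) (XT.lf (nat_lit 0) (nat_lit 13997250594) (nat_lit 532) (nat_lit 7573881179) (nat_lit 532) (nat_lit 7573881179) (nat_lit 40) (nat_lit 3) (nat_lit 47) (nat_lit 3) (nat_lit 47) (nat_lit 5) (nat_lit 239) (nat_lit 239) (nat_lit 182)) (XT.nd (nat_lit 78) (nat_lit 0) (nat_lit 0) (XT.lf (nat_lit 0) (nat_lit 31051695699)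 (nat_lit 456) (nat_lit 27944379924) (nat_lit 532) (nat_lit 3588960254) (nat_lit 41) (nat_lit 5) (nat_lit 47) (nat_lit 5) (nat_lit 48) (nat_lit 5) (nat_lit 240) (nat_lit 239) (nat_lit 181)) (XT.lf (nat_lit 76) (nat_lit 25387218276) (nat_lit 0) (nat_lit 11430901931) (nat_lit 532) (nat_lit 30526148828) (nat_lit 42) (nat_lit 5) (nat_lit 41) (nat_lit 5) (nat_lit 48) (nat_lit 5) (nat_lit 241) (nat_lit 239) (nat_lit 180))))))))
noncomputable def xc47 : XT := (XT.nd (nat_lit 1716) (nat_lit 304) (nat_lit 0) (XT.nd (nat_lit 858) (nat_lit 836) (nat_lit 0) (XT.nd (nat_lit 390) (nat_lit 912) (nat_lit 0) (XT.nd (nat_lit 156) (nat_lit 532) (nat_lit 0) (XT.nd (nat_lit 78) (nat_lit 380) (nat_lit 0) (XT.lf (nat_lit 76) (nat_lit 15361311505) (nat_lit 0) (nat_lit 30328058302) (nat_lit 532) (nat_lit 26948849103) (nat_lit 43) (nat_lit 5) (nat_lit 42) (nat_lit 5) (nat_lit 49) (nat_lit 5) (nat_lit 242) (nat_lit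 239) (nat_lit 179)) (XT.lf (nat_lit 0) (nat_lit 4474611236) (nat_lit 456) (nat_lit 53676513466) (nat_lit 532) (nat_lit 20394369099) (nat_lit 37) (nat_lit 5) (nat_lit 43) (nat_lit 5) (nat_lit 44) (nat_lit 5) (nat_lit 243) (nat_lit 239) (nat_lit 178))) (XT.nd (nat_lit 78) (nat_lit 532) (nat_lit 0) (XT.lf (nat_lit 0) (nat_lit 75038145831) (nat_lit 532) (nat_lit 7144282987) (nat_lit 76) (nat_lit 2951966487) (nat_lit 37) (nat_lit 5) (nat_lit 44) (nat_lit 5) (nat_lit 38) (nat_lit 5) (nat_lit 244) (nat_lit 239) (nat_lit 177)) (XT.nd (nat_lit 78) (nat_lit 228) (nat_lit 0) (XT.lf (nat_lit 0) (nat_lit 4953786948) (nat_lit 304) (nat_lit 20648504177) (nat_lit 76) (nat_lit 66842427425) (nat_lit 33) (nat_lit 5) (nat_lit 37) (nat_lit 5) (nat_lit 34) (nat_lit 5) (nat_lit 245) (nat_lit 239) (nat_lit 176)) (XT.lf (nat_lit 0) (nat_lit 24460236881) (nat_lit 304) (nat_lit 36543275087) (nat_lit 76) (nat_lit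 39603372537) (nat_lit 30) (nat_lit 5) (nat_lit 34) (nat_lit 5) (nat_lit 31) (nat_lit 5) (nat_lit 246) (nat_lit 239) (nat_lit 175))))) (XT.nd (nat_lit 234) (nat_lit 380) (nat_lit 0) (XT.nd (nat_lit 78) (nat_lit 304) (nat_lit 0) (XT.lf (nat_lit 0) (nat_lit 49659498080) (nat_lit 304) (nat_lit 55106750568) (nat_lit 76) (nat_lit 5005788711) (nat_lit 27) (nat_lit 5) (nat_lit 31) (nat_lit 5) (nat_lit 28) (nat_lit 5) (nat_lit 247) (nat_lit 239) (nat_lit 174)) (XT.nd (nat_lit 78) (nat_lit 152) (nat_lit 0) (XT.lf (nat_lit 0) (nat_lit 41920264727) (nat_lit 152) (nat_lit 40502853443) (nat_lit 228) (nat_lit 37586095664) (nat_lit 25) (nat_lit 5) (nat_lit 27) (nat_lit 5) (nat_lit 28) (nat_lit 5) (nat_lit 248) (nat_lit 239) (nat_lit 173)) (XT.lf (nat_lit 0) (nat_lit 25618351107) (nat_lit 152) (nat_lit 97546134804) (nat_lit 228) (nat_lit 8372431689) (nat_lit 23) (nat_lit 5) (nat_lit 25) (nat_lit 5) (nat_lit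 26) (nat_lit 5) (nat_lit 249) (nat_lit 239) (nat_lit 172)))) (XT.nd (nat_lit 78) (nat_lit 152) (nat_lit 0) (XT.lf (nat_lit 0) (nat_lit 3378915618) (nat_lit 152) (nat_lit 24114525438) (nat_lit 228) (nat_lit 116969257629) (nat_lit 20) (nat_lit 5) (nat_lit 22) (nat_lit 5) (nat_lit 23) (nat_lit 5) (nat_lit 250) (nat_lit 239) (nat_lit 171)) (XT.nd (nat_lit 78) (nat_lit 152) (nat_lit 0) (XT.lf (nat_lit 0) (nat_lit 72870449212) (nat_lit 228) (nat_lit 25360959254) (nat_lit 76) (nat_lit 60708386570) (nat_lit 20) (nat_lit 5) (nat_lit 23) (nat_lit 5) (nat_lit 21) (nat_lit 5) (nat_lit 251) (nat_lit 239) (nat_lit 170)) (XT.lf (nat_lit 0) (nat_lit 112688019321) (nat_lit 152) (nat_lit 15741450211) (nat_lit 228) (nat_lit 46888953811) (nat_lit 18) (nat_lit 5) (nat_lit 20) (nat_lit 5) (nat_lit 21) (nat_lit 5) (nat_lit 252) (nat_lit 239) (nat_lit 169)))))) (XT.nd (nat_lit 390) (nat_lit 304) (nat_lit 0)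 (XT.nd (nat_lit 156) (nat_lit 228) (nat_lit 0) (XT.nd (nat_lit 78) (nat_lit 152) (nat_lit 0) (XT.lf (nat_lit 0) (nat_lit 2987087825) (nat_lit 152) (nat_lit 112847304250) (nat_lit 76) (nat_lit 77944823430) (nat_lit 16) (nat_lit 5) (nat_lit 18) (nat_lit 5) (nat_lit 17) (nat_lit 5) (nat_lit 253) (nat_lit 239) (nat_lit 168)) (XT.lf (nat_lit 0) (nat_lit 34923257986) (nat_lit 152) (nat_lit 25868529739) (nat_lit 228) (nat_lit 153862022132) (nat_lit 14) (nat_lit 5) (nat_lit 16) (nat_lit 5) (nat_lit 17) (nat_lit 5) (nat_lit 254) (nat_lit 239) (nat_lit 167))) (XT.nd (nat_lit 78) (nat_lit 228) (nat_lit 0) (XT.lf (nat_lit 0) (nat_lit 132502775613) (nat_lit 228) (nat_lit 28657201733) (nat_lit 76) (nat_lit 77080772043) (nat_lit 14) (nat_lit 5) (nat_lit 17) (nat_lit 5) (nat_lit 15) (nat_lit 4) (nat_lit 255) (nat_lit 239) (nat_lit 166)) (XT.nd (nat_lit 78) (nat_lit 152) (nat_lit 0) (XT.lf (nat_lit 0)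 (nat_lit 151961593785) (nat_lit 76) (nat_lit 67377848592) (nat_lit 152) (nat_lit 45676767335) (nat_lit 13) (nat_lit 5) (nat_lit 14) (nat_lit 5) (nat_lit 15) (nat_lit 4) (nat_lit 256) (nat_lit 239) (nat_lit 165)) (XT.lf (nat_lit 0) (nat_lit 25778935716) (nat_lit 152) (nat_lit 228107337594) (nat_lit 76) (nat_lit 41592263527) (nat_lit 11) (nat_lit 5) (nat_lit 13) (nat_lit 5) (nat_lit 12) (nat_lit 4) (nat_lit 257) (nat_lit 239) (nat_lit 164))))) (XT.nd (nat_lit 234) (nat_lit 228) (nat_lit 0) (XT.nd (nat_lit 78) (nat_lit 76) (nat_lit 0) (XT.lf (nat_lit 0) (nat_lit 110564825889) (nat_lit 152) (nat_lit 51753716176) (nat_lit 76) (nat_lit 167671447346) (nat_lit 11) (nat_lit 5) (nat_lit 13) (nat_lit 5) (nat_lit 12) (nat_lit 4) (nat_lit 258) (nat_lit 239) (nat_lit 163)) (XT.nd (nat_lit 78) (nat_lit 0) (nat_lit 0) (XT.lf (nat_lit 0) (nat_lit 159005621191) (nat_lit 76) (nat_lit 52886239863) (nat_lit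 152) (nat_lit 157480439311) (nat_lit 10) (nat_lit 5) (nat_lit 11) (nat_lit 5) (nat_lit 12) (nat_lit 4) (nat_lit 259) (nat_lit 239) (nat_lit 162)) (XT.lf (nat_lit 0) (nat_lit 331717788692) (nat_lit 152) (nat_lit 11823717732) (nat_lit 0) (nat_lit 70856465787) (nat_lit 10) (nat_lit 5) (nat_lit 12) (nat_lit 4) (nat_lit 10) (nat_lit 4) (nat_lit 260) (nat_lit 239) (nat_lit 161)))) (XT.nd (nat_lit 78) (nat_lit 76) (nat_lit 0) (XT.lf (nat_lit 0) (nat_lit 10258408056) (nat_lit 152) (nat_lit 239524461309) (nat_lit 76) (nat_lit 215821369417) (nat_lit 8) (nat_lit 5) (nat_lit 10) (nat_lit 5) (nat_lit 9) (nat_lit 4) (nat_lit 261) (nat_lit 239) (nat_lit 160)) (XT.nd (nat_lit 78) (nat_lit 76) (nat_lit 0) (XT.lf (nat_lit 0) (nat_lit 112733946327) (nat_lit 152) (nat_lit 26375887063) (nat_lit 76) (nat_lit 385170470031) (nat_lit 8) (nat_lit 5) (nat_lit 10) (nat_lit 5) (nat_lit 9) (nat_lit 4) (nat_lit 262)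 (nat_lit 239) (nat_lit 159)) (XT.lf (nat_lit 0) (nat_lit 230262675098) (nat_lit 76) (nat_lit 5855423337) (nat_lit 152) (nat_lit 355196697419) (nat_lit 7) (nat_lit 5) (nat_lit 8) (nat_lit 5) (nat_lit 9) (nat_lit 4) (nat_lit 263) (nat_lit 239) (nat_lit 158))))))) (XT.nd (nat_lit 858) (nat_lit 0) (nat_lit 0) (XT.nd (nat_lit 390) (nat_lit 76) (nat_lit 0) (XT.nd (nat_lit 156) (nat_lit 152) (nat_lit 0) (XT.nd (nat_lit 78) (nat_lit 76) (nat_lit 0) (XT.lf (nat_lit 0) (nat_lit 382341888724) (nat_lit 152) (nat_lit 144914292660) (nat_lit 0) (nat_lit 140801720189) (nat_lit 7) (nat_lit 5) (nat_lit 9) (nat_lit 4) (nat_lit 7) (nat_lit 4) (nat_lit 264) (nat_lit 239) (nat_lit 157)) (XT.lf (nat_lit 0) (nat_lit 108930615346) (nat_lit 76) (nat_lit 444349927645) (nat_lit 76) (nat_lit 202809427090) (nat_lit 6) (nat_lit 4) (nat_lit 7) (nat_lit 5) (nat_lit 7) (nat_lit 4) (nat_lit 265) (nat_lit 239) (nat_lit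 156))) (XT.nd (nat_lit 78) (nat_lit 152) (nat_lit 0) (XT.lf (nat_lit 0) (nat_lit 409627098124) (nat_lit 76) (nat_lit 344451525135) (nat_lit 76) (nat_lit 102910735867) (nat_lit 6) (nat_lit 4) (nat_lit 7) (nat_lit 5) (nat_lit 7) (nat_lit 4) (nat_lit 266) (nat_lit 239) (nat_lit 155)) (XT.nd (nat_lit 78) (nat_lit 76) (nat_lit 0) (XT.lf (nat_lit 0) (nat_lit 11373479578) (nat_lit 152) (nat_lit 217884202799) (nat_lit 76) (nat_lit 743742967220) (nat_lit 5) (nat_lit 5) (nat_lit 7) (nat_lit 5) (nat_lit 6) (nat_lit 4) (nat_lit 267) (nat_lit 239) (nat_lit 154)) (XT.lf (nat_lit 0) (nat_lit 45441927796) (nat_lit 76) (nat_lit 92530757986) (nat_lit 152) (nat_lit 968125841919) (nat_lit 4) (nat_lit 5) (nat_lit 5) (nat_lit 5) (nat_lit 6) (nat_lit 4) (nat_lit 268) (nat_lit 239) (nat_lit 153))))) (XT.nd (nat_lit 234) (nat_lit 76) (nat_lit 0) (XT.nd (nat_lit 78) (nat_lit 0) (nat_lit 0) (XT.lf (nat_lit 0) (nat_lit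 291625878420) (nat_lit 152) (nat_lit 898913691859) (nat_lit 0) (nat_lit 67976389100) (nat_lit 4) (nat_lit 5) (nat_lit 6) (nat_lit 4) (nat_lit 4) (nat_lit 4) (nat_lit 269) (nat_lit 239) (nat_lit 152)) (XT.nd (nat_lit 78) (nat_lit 0) (nat_lit 0) (XT.lf (nat_lit 0) (nat_lit 470885973543) (nat_lit 152) (nat_lit 715468987260) (nat_lit 0) (nat_lit 247236331378) (nat_lit 4) (nat_lit 5) (nat_lit 6) (nat_lit 4) (nat_lit 4) (nat_lit 4) (nat_lit 270) (nat_lit 239) (nat_lit 151)) (XT.lf (nat_lit 0) (nat_lit 677034866927) (nat_lit 152) (nat_lit 504507983629) (nat_lit 0) (nat_lit 453385091853) (nat_lit 4) (nat_lit 5) (nat_lit 6) (nat_lit 4) (nat_lit 4) (nat_lit 4) (nat_lit 271) (nat_lit 239) (nat_lit 150)))) (XT.nd (nat_lit 78) (nat_lit 76) (nat_lit 0) (XT.lf (nat_lit 0) (nat_lit 914105906486) (nat_lit 152) (nat_lit 261903183070) (nat_lit 0) (nat_lit 690456015840) (nat_lit 4) (nat_lit 5) (nat_lit 6)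 (nat_lit 4) (nat_lit 4) (nat_lit 4) (nat_lit 272) (nat_lit 239) (nat_lit 149)) (XT.nd (nat_lit 78) (nat_lit 0) (nat_lit 0) (XT.lf (nat_lit 0) (nat_lit 17992066095) (nat_lit 76) (nat_lit 1169178082174) (nat_lit 76) (nat_lit 945528091029) (nat_lit 3) (nat_lit 4) (nat_lit 4) (nat_lit 5) (nat_lit 4) (nat_lit 4) (nat_lit 273) (nat_lit 239) (nat_lit 148)) (XT.lf (nat_lit 0) (nat_lit 355731382283) (nat_lit 76) (nat_lit 1153087524620) (nat_lit 76) (nat_lit 929437446085) (nat_lit 3) (nat_lit 4) (nat_lit 4) (nat_lit 5) (nat_lit 4) (nat_lit 4) (nat_lit 274) (nat_lit 239) (nat_lit 147)))))) (XT.nd (nat_lit 468) (nat_lit 0) (nat_lit 0) (XT.nd (nat_lit 234) (nat_lit 0) (nat_lit 0) (XT.nd (nat_lit 78) (nat_lit 0) (nat_lit 0) (XT.lf (nat_lit 0) (nat_lit 744131351147) (nat_lit 76) (nat_lit 1134583498795) (nat_lit 76) (nat_lit 910933344269) (nat_lit 3) (nat_lit 4) (nat_lit 4) (nat_lit 5) (nat_lit 4) (nat_lit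 4) (nat_lit 275) (nat_lit 239) (nat_lit 146)) (XT.nd (nat_lit 78) (nat_lit 0) (nat_lit 0) (XT.lf (nat_lit 0) (nat_lit 1190791102514) (nat_lit 76) (nat_lit 1113303969411) (nat_lit 76) (nat_lit 889653748806) (nat_lit 3) (nat_lit 4) (nat_lit 4) (nat_lit 5) (nat_lit 4) (nat_lit 4) (nat_lit 276) (nat_lit 239) (nat_lit 145)) (XT.lf (nat_lit 0) (nat_lit 1704449631518) (nat_lit 76) (nat_lit 1088832597851) (nat_lit 76) (nat_lit 865182319786) (nat_lit 3) (nat_lit 4) (nat_lit 4) (nat_lit 5) (nat_lit 4) (nat_lit 4) (nat_lit 277) (nat_lit 239) (nat_lit 144)))) (XT.nd (nat_lit 78) (nat_lit 0) (nat_lit 0) (XT.lf (nat_lit 0) (nat_lit 2295156778945) (nat_lit 76) (nat_lit 1060690596409) (nat_lit 76) (nat_lit 837040268378) (nat_lit 3) (nat_lit 4) (nat_lit 4) (nat_lit 5) (nat_lit 4) (nat_lit 4) (nat_lit 278) (nat_lit 239) (nat_lit 143)) (XT.nd (nat_lit 78) (nat_lit 0) (nat_lit 0) (XT.lf (nat_lit 0) (nat_lit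 2974469858548) (nat_lit 76) (nat_lit 1028327360709) (nat_lit 76) (nat_lit 804676989231) (nat_lit 3) (nat_lit 4) (nat_lit 4) (nat_lit 5) (nat_lit 4) (nat_lit 4) (nat_lit 279) (nat_lit 239) (nat_lit 142)) (XT.lf (nat_lit 0) (nat_lit 3755679778407) (nat_lit 76) (nat_lit 991109697010) (nat_lit 76) (nat_lit 767459287751) (nat_lit 3) (nat_lit 4) (nat_lit 4) (nat_lit 5) (nat_lit 4) (nat_lit 4) (nat_lit 280) (nat_lit 239) (nat_lit 141))))) (XT.nd (nat_lit 31356) (nat_lit 0) (nat_lit 2584) (XT.nd (nat_lit 31200) (nat_lit 0) (nat_lit 2812) (XT.lf (nat_lit 0) (nat_lit 4654071080433) (nat_lit 76) (nat_lit 948309433631) (nat_lit 76) (nat_lit 724658991519) (nat_lit 3) (nat_lit 4) (nat_lit 4) (nat_lit 5) (nat_lit 4) (nat_lit 4) (nat_lit 281) (nat_lit 239) (nat_lit 140)) (XT.nd (nat_lit 78) (nat_lit 0) (nat_lit 76) (XT.lf (nat_lit 0) (nat_lit 16126821570) (nat_lit 532) (nat_lit 8693708381) (nat_lit 532)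 (nat_lit 8693708381) (nat_lit 40) (nat_lit 3) (nat_lit 47) (nat_lit 3) (nat_lit 47) (nat_lit 5) (nat_lit 240) (nat_lit 240) (nat_lit 180)) (XT.lf (nat_lit 0) (nat_lit 35761755140) (nat_lit 456) (nat_lit 32101271875) (nat_lit 532) (nat_lit 4105357416) (nat_lit 41) (nat_lit 5) (nat_lit 47) (nat_lit 5) (nat_lit 48) (nat_lit 5) (nat_lit 241) (nat_lit 240) (nat_lit 179)))) (XT.nd (nat_lit 78) (nat_lit 304) (nat_lit 0) (XT.lf (nat_lit 76) (nat_lit 29227123368) (nat_lit 0) (nat_lit 13159962882) (nat_lit 532) (nat_lit 35054929889) (nat_lit 42) (nat_lit 5) (nat_lit 41) (nat_lit 5) (nat_lit 48) (nat_lit 5) (nat_lit 242) (nat_lit 240) (nat_lit 178)) (XT.nd (nat_lit 78) (nat_lit 380) (nat_lit 0) (XT.lf (nat_lit 76) (nat_lit 17698518256) (nat_lit 0) (nat_lit 34884964893) (nat_lit 532) (nat_lit 30947043786) (nat_lit 43) (nat_lit 5) (nat_lit 42) (nat_lit 5) (nat_lit 49) (nat_lit 5) (nat_lit 243) (nat_lit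 240) (nat_lit 177)) (XT.lf (nat_lit 0) (nat_lit 5179323193) (nat_lit 456) (nat_lit 61730513540) (nat_lit 532) (nat_lit 23414451427) (nat_lit 37) (nat_lit 5) (nat_lit 43) (nat_lit 5) (nat_lit 44) (nat_lit 5) (nat_lit 244) (nat_lit 240) (nat_lit 176))))))))
noncomputable def xc48 : XT := (XT.nd (nat_lit 1716) (nat_lit 228) (nat_lit 0) (XT.nd (nat_lit 858) (nat_lit 608) (nat_lit 0) (XT.nd (nat_lit 390) (nat_lit 836) (nat_lit 0) (XT.nd (nat_lit 156) (nat_lit 608) (nat_lit 0) (XT.nd (nat_lit 78) (nat_lit 304) (nat_lit 0) (XT.lf (nat_lit 0) (nat_lit 86325156963) (nat_lit 532) (nat_lit 8184090076) (nat_lit 76) (nat_lit 3392677251) (nat_lit 37) (nat_lit 5) (nat_lit 44) (nat_lit 5) (nat_lit 38) (nat_lit 5) (nat_lit 245) (nat_lit 240) (nat_lit 175)) (XT.lf (nat_lit 0) (nat_lit 5725593831) (nat_lit 304) (nat_lit 23715023422) (nat_lit 76) (nat_lit 76868407582) (nat_lit 33) (nat_lit 5) (nat_lit 37)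 (nat_lit 5) (nat_lit 34) (nat_lit 5) (nat_lit 246) (nat_lit 240) (nat_lit 174))) (XT.nd (nat_lit 78) (nat_lit 380) (nat_lit 0) (XT.lf (nat_lit 0) (nat_lit 28154999570) (nat_lit 304) (nat_lit 41994530696) (nat_lit 76) (nat_lit 45546239707) (nat_lit 30) (nat_lit 5) (nat_lit 34) (nat_lit 5) (nat_lit 31) (nat_lit 5) (nat_lit 247) (nat_lit 240) (nat_lit 173)) (XT.nd (nat_lit 78) (nat_lit 152) (nat_lit 0) (XT.lf (nat_lit 0) (nat_lit 57131571424) (nat_lit 304) (nat_lit 63343277985) (nat_lit 76) (nat_lit 5761064241) (nat_lit 27) (nat_lit 5) (nat_lit 31) (nat_lit 5) (nat_lit 28) (nat_lit 5) (nat_lit 248) (nat_lit 240) (nat_lit 172)) (XT.lf (nat_lit 0) (nat_lit 48235293832) (nat_lit 152) (nat_lit 46572070405) (nat_lit 228) (nat_lit 43201502081) (nat_lit 25) (nat_lit 5) (nat_lit 27) (nat_lit 5) (nat_lit 28) (nat_lit 5) (nat_lit 249) (nat_lit 240) (nat_lit 171))))) (XT.nd (nat_lit 234) (nat_lit 456)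 (nat_lit 0) (XT.nd (nat_lit 78) (nat_lit 228) (nat_lit 0) (XT.lf (nat_lit 0) (nat_lit 29487255108) (nat_lit 152) (nat_lit 112170730644) (nat_lit 228) (nat_lit 9607904789) (nat_lit 23) (nat_lit 5) (nat_lit 25) (nat_lit 5) (nat_lit 26) (nat_lit 5) (nat_lit 250) (nat_lit 240) (nat_lit 170)) (XT.nd (nat_lit 78) (nat_lit 0) (nat_lit 0) (XT.lf (nat_lit 0) (nat_lit 3910674063) (nat_lit 152) (nat_lit 27724227358) (nat_lit 228) (nat_lit 134495759395) (nat_lit 20) (nat_lit 5) (nat_lit 22) (nat_lit 5) (nat_lit 23) (nat_lit 5) (nat_lit 251) (nat_lit 240) (nat_lit 169)) (XT.lf (nat_lit 0) (nat_lit 83816341834) (nat_lit 228) (nat_lit 29142334486) (nat_lit 76) (nat_lit 69820820965) (nat_lit 20) (nat_lit 5) (nat_lit 23) (nat_lit 5) (nat_lit 21) (nat_lit 5) (nat_lit 252) (nat_lit 240) (nat_lit 168)))) (XT.nd (nat_lit 78) (nat_lit 304) (nat_lit 0) (XT.lf (nat_lit 0) (nat_lit 129612063622) (nat_lit 152)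 (nat_lit 18095653872) (nat_lit 228) (nat_lit 53907327507) (nat_lit 18) (nat_lit 5) (nat_lit 20) (nat_lit 5) (nat_lit 21) (nat_lit 5) (nat_lit 253) (nat_lit 240) (nat_lit 167)) (XT.nd (nat_lit 78) (nat_lit 152) (nat_lit 0) (XT.lf (nat_lit 0) (nat_lit 3448159889) (nat_lit 152) (nat_lit 129753718097) (nat_lit 76) (nat_lit 89643150437) (nat_lit 16) (nat_lit 5) (nat_lit 18) (nat_lit 5) (nat_lit 17) (nat_lit 5) (nat_lit 254) (nat_lit 240) (nat_lit 166)) (XT.lf (nat_lit 0) (nat_lit 40180677865) (nat_lit 152) (nat_lit 29741645394) (nat_lit 228) (nat_lit 176928591734) (nat_lit 14) (nat_lit 5) (nat_lit 16) (nat_lit 5) (nat_lit 17) (nat_lit 5) (nat_lit 255) (nat_lit 240) (nat_lit 165)))))) (XT.nd (nat_lit 390) (nat_lit 304) (nat_lit 0) (XT.nd (nat_lit 156) (nat_lit 228) (nat_lit 0) (XT.nd (nat_lit 78) (nat_lit 76) (nat_lit 0) (XT.lf (nat_lit 0) (nat_lit 152388574271) (nat_lit 228) (nat_lit 32938629616)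 (nat_lit 76) (nat_lit 88648805626) (nat_lit 14) (nat_lit 5) (nat_lit 17) (nat_lit 5) (nat_lit 15) (nat_lit 4) (nat_lit 256) (nat_lit 240) (nat_lit 164)) (XT.lf (nat_lit 0) (nat_lit 174771533367) (nat_lit 76) (nat_lit 77478231066) (nat_lit 152) (nat_lit 52518105412) (nat_lit 13) (nat_lit 5) (nat_lit 14) (nat_lit 5) (nat_lit 15) (nat_lit 4) (nat_lit 257) (nat_lit 240) (nat_lit 163))) (XT.nd (nat_lit 78) (nat_lit 76) (nat_lit 0) (XT.lf (nat_lit 0) (nat_lit 29654686646) (nat_lit 152) (nat_lit 262308014823) (nat_lit 76) (nat_lit 47836887857) (nat_lit 11) (nat_lit 5) (nat_lit 13) (nat_lit 5) (nat_lit 12) (nat_lit 4) (nat_lit 258) (nat_lit 240) (nat_lit 162)) (XT.nd (nat_lit 78) (nat_lit 76) (nat_lit 0) (XT.lf (nat_lit 0) (nat_lit 127157298096) (nat_lit 152) (nat_lit 59503361941) (nat_lit 76) (nat_lit 192827194709) (nat_lit 11) (nat_lit 5) (nat_lit 13) (nat_lit 5) (nat_lit 12) (nat_lit 4) (nat_lit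 259) (nat_lit 240) (nat_lit 161)) (XT.lf (nat_lit 0) (nat_lit 182868740800) (nat_lit 76) (nat_lit 60813932332) (nat_lit 152) (nat_lit 181094898165) (nat_lit 10) (nat_lit 5) (nat_lit 11) (nat_lit 5) (nat_lit 12) (nat_lit 4) (nat_lit 260) (nat_lit 240) (nat_lit 160))))) (XT.nd (nat_lit 234) (nat_lit 152) (nat_lit 0) (XT.nd (nat_lit 78) (nat_lit 152) (nat_lit 0) (XT.lf (nat_lit 0) (nat_lit 381481682237) (nat_lit 152) (nat_lit 13586210656) (nat_lit 0) (nat_lit 81489267141) (nat_lit 10) (nat_lit 5) (nat_lit 12) (nat_lit 4) (nat_lit 10) (nat_lit 4) (nat_lit 261) (nat_lit 240) (nat_lit 159)) (XT.nd (nat_lit 78) (nat_lit 0) (nat_lit 0) (XT.lf (nat_lit 0) (nat_lit 11802981282) (nat_lit 152) (nat_lit 275442688252) (nat_lit 76) (nat_lit 248198732061) (nat_lit 8) (nat_lit 5) (nat_lit 10) (nat_lit 5) (nat_lit 9) (nat_lit 4) (nat_lit 262) (nat_lit 240) (nat_lit 158)) (XT.lf (nat_lit 0) (nat_lit 129649092205)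 (nat_lit 152) (nat_lit 30323189902) (nat_lit 76) (nat_lit 442949655519) (nat_lit 8) (nat_lit 5) (nat_lit 10) (nat_lit 5) (nat_lit 9) (nat_lit 4) (nat_lit 263) (nat_lit 240) (nat_lit 157)))) (XT.nd (nat_lit 78) (nat_lit 76) (nat_lit 0) (XT.lf (nat_lit 0) (nat_lit 264810387988) (nat_lit 76) (nat_lit 6730019828) (nat_lit 152) (nat_lit 408471233765) (nat_lit 7) (nat_lit 5) (nat_lit 8) (nat_lit 5) (nat_lit 9) (nat_lit 4) (nat_lit 264) (nat_lit 240) (nat_lit 156)) (XT.nd (nat_lit 78) (nat_lit 76) (nat_lit 0) (XT.lf (nat_lit 0) (nat_lit 439697245085) (nat_lit 152) (nat_lit 166643961880) (nat_lit 0) (nat_lit 161925048713) (nat_lit 7) (nat_lit 5) (nat_lit 9) (nat_lit 4) (nat_lit 7) (nat_lit 4) (nat_lit 265) (nat_lit 240) (nat_lit 155)) (XT.lf (nat_lit 0) (nat_lit 125277049633) (nat_lit 76) (nat_lit 510999281141) (nat_lit 76) (nat_lit 233226833714) (nat_lit 6) (nat_lit 4) (nat_lit 7) (nat_lit 5)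 (nat_lit 7) (nat_lit 4) (nat_lit 266) (nat_lit 240) (nat_lit 154))))))) (XT.nd (nat_lit 858) (nat_lit 0) (nat_lit 0) (XT.nd (nat_lit 390) (nat_lit 76) (nat_lit 0) (XT.nd (nat_lit 156) (nat_lit 76) (nat_lit 0) (XT.nd (nat_lit 78) (nat_lit 76) (nat_lit 0) (XT.lf (nat_lit 0) (nat_lit 471077112395) (nat_lit 76) (nat_lit 396116527253) (nat_lit 76) (nat_lit 118343861517) (nat_lit 6) (nat_lit 4) (nat_lit 7) (nat_lit 5) (nat_lit 7) (nat_lit 4) (nat_lit 267) (nat_lit 240) (nat_lit 153)) (XT.lf (nat_lit 0) (nat_lit 13082380132) (nat_lit 152) (nat_lit 250561504893) (nat_lit 76) (nat_lit 855306628504) (nat_lit 5) (nat_lit 5) (nat_lit 7) (nat_lit 5) (nat_lit 6) (nat_lit 4) (nat_lit 268) (nat_lit 240) (nat_lit 152))) (XT.nd (nat_lit 78) (nat_lit 0) (nat_lit 0) (XT.lf (nat_lit 0) (nat_lit 52263094275) (nat_lit 76) (nat_lit 106408114819) (nat_lit 152) (nat_lit 1113341885327) (nat_lit 4) (nat_lit 5) (nat_lit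 5) (nat_lit 5) (nat_lit 6) (nat_lit 4) (nat_lit 269) (nat_lit 240) (nat_lit 151)) (XT.nd (nat_lit 78) (nat_lit 0) (nat_lit 0) (XT.lf (nat_lit 0) (nat_lit 335372086028) (nat_lit 152) (nat_lit 1033746366970) (nat_lit 0) (nat_lit 78174711785) (nat_lit 4) (nat_lit 5) (nat_lit 6) (nat_lit 4) (nat_lit 4) (nat_lit 4) (nat_lit 270) (nat_lit 240) (nat_lit 150)) (XT.lf (nat_lit 0) (nat_lit 541520892049) (nat_lit 152) (nat_lit 822785527812) (nat_lit 0) (nat_lit 284323402232) (nat_lit 4) (nat_lit 5) (nat_lit 6) (nat_lit 4) (nat_lit 4) (nat_lit 4) (nat_lit 271) (nat_lit 240) (nat_lit 149))))) (XT.nd (nat_lit 234) (nat_lit 0) (nat_lit 0) (XT.nd (nat_lit 78) (nat_lit 76) (nat_lit 0) (XT.lf (nat_lit 0) (nat_lit 778591855639) (nat_lit 152) (nat_lit 580180870272) (nat_lit 0) (nat_lit 521394265325) (nat_lit 4) (nat_lit 5) (nat_lit 6) (nat_lit 4) (nat_lit 4) (nat_lit 4) (nat_lit 272) (nat_lit 240) (nat_lit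 148)) (XT.nd (nat_lit 78) (nat_lit 76) (nat_lit 0) (XT.lf (nat_lit 0) (nat_lit 1051223321741) (nat_lit 152) (nat_lit 301185781486) (nat_lit 0) (nat_lit 794025644036) (nat_lit 4) (nat_lit 5) (nat_lit 6) (nat_lit 4) (nat_lit 4) (nat_lit 4) (nat_lit 273) (nat_lit 240) (nat_lit 147)) (XT.lf (nat_lit 0) (nat_lit 20693511357) (nat_lit 76) (nat_lit 1344553552342) (nat_lit 76) (nat_lit 1087355798647) (nat_lit 3) (nat_lit 4) (nat_lit 4) (nat_lit 5) (nat_lit 4) (nat_lit 4) (nat_lit 274) (nat_lit 240) (nat_lit 146)))) (XT.nd (nat_lit 78) (nat_lit 0) (nat_lit 0) (XT.lf (nat_lit 0) (nat_lit 409093381232) (nat_lit 76) (nat_lit 1326049573175) (nat_lit 76) (nat_lit 1068851753401) (nat_lit 3) (nat_lit 4) (nat_lit 4) (nat_lit 5) (nat_lit 4) (nat_lit 4) (nat_lit 275) (nat_lit 240) (nat_lit 145)) (XT.nd (nat_lit 78) (nat_lit 0) (nat_lit 0) (XT.lf (nat_lit 0) (nat_lit 855753046521) (nat_lit 76) (nat_lit 1304770084364)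 (nat_lit 76) (nat_lit 1047572207129) (nat_lit 3) (nat_lit 4) (nat_lit 4) (nat_lit 5) (nat_lit 4) (nat_lit 4) (nat_lit 276) (nat_lit 240) (nat_lit 144)) (XT.lf (nat_lit 0) (nat_lit 1369411500675) (nat_lit 76) (nat_lit 1280298748084) (nat_lit 76) (nat_lit 1023100820884) (nat_lit 3) (nat_lit 4) (nat_lit 4) (nat_lit 5) (nat_lit 4) (nat_lit 4) (nat_lit 277) (nat_lit 240) (nat_lit 143)))))) (XT.nd (nat_lit 31590) (nat_lit 0) (nat_lit 2280) (XT.nd (nat_lit 156) (nat_lit 0) (nat_lit 0) (XT.nd (nat_lit 78) (nat_lit 0) (nat_lit 0) (XT.lf (nat_lit 0) (nat_lit 1960118583015) (nat_lit 76) (nat_lit 1252156777320) (nat_lit 76) (nat_lit 994958806672) (nat_lit 3) (nat_lit 4) (nat_lit 4) (nat_lit 5) (nat_lit 4) (nat_lit 4) (nat_lit 278) (nat_lit 240) (nat_lit 142)) (XT.lf (nat_lit 0) (nat_lit 2639431606020) (nat_lit 76) (nat_lit 1219793568298) (nat_lit 76) (nat_lit 962595559869) (nat_lit 3) (nat_lit 4)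 (nat_lit 4) (nat_lit 5) (nat_lit 4) (nat_lit 4) (nat_lit 279) (nat_lit 240) (nat_lit 141))) (XT.nd (nat_lit 78) (nat_lit 0) (nat_lit 0) (XT.lf (nat_lit 0) (nat_lit 3420641476664) (nat_lit 76) (nat_lit 1182575927797) (nat_lit 76) (nat_lit 925377886514) (nat_lit 3) (nat_lit 4) (nat_lit 4) (nat_lit 5) (nat_lit 4) (nat_lit 4) (nat_lit 280) (nat_lit 240) (nat_lit 140)) (XT.nd (nat_lit 31278) (nat_lit 0) (nat_lit 2812) (XT.lf (nat_lit 0) (nat_lit 4319032735894) (nat_lit 76) (nat_lit 1139775684589) (nat_lit 76) (nat_lit 882577614739) (nat_lit 3) (nat_lit 4) (nat_lit 4) (nat_lit 5) (nat_lit 4) (nat_lit 4) (nat_lit 281) (nat_lit 240) (nat_lit 139)) (XT.lf (nat_lit 0) (nat_lit 18568516553) (nat_lit 532) (nat_lit 9985473542) (nat_lit 532) (nat_lit 9985473542) (nat_lit 40) (nat_lit 3) (nat_lit 47) (nat_lit 3) (nat_lit 47) (nat_lit 5) (nat_lit 241) (nat_lit 241) (nat_lit 178))))) (XT.nd (nat_lit 234)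 (nat_lit 608) (nat_lit 0) (XT.nd (nat_lit 78) (nat_lit 0) (nat_lit 0) (XT.lf (nat_lit 0) (nat_lit 41165568572) (nat_lit 456) (nat_lit 36890175292) (nat_lit 532) (nat_lit 4704566036) (nat_lit 41) (nat_lit 5) (nat_lit 47) (nat_lit 5) (nat_lit 48) (nat_lit 5) (nat_lit 242) (nat_lit 241) (nat_lit 177)) (XT.nd (nat_lit 78) (nat_lit 0) (nat_lit 76) (XT.lf (nat_lit 76) (nat_lit 33635254143) (nat_lit 0) (nat_lit 15144865187) (nat_lit 532) (nat_lit 40275255374) (nat_lit 42) (nat_lit 5) (nat_lit 41) (nat_lit 5) (nat_lit 48) (nat_lit 5) (nat_lit 243) (nat_lit 241) (nat_lit 176)) (XT.lf (nat_lit 76) (nat_lit 20378256316) (nat_lit 0) (nat_lit 40123530304) (nat_lit 532) (nat_lit 35555729706) (nat_lit 43) (nat_lit 5) (nat_lit 42) (nat_lit 5) (nat_lit 49) (nat_lit 5) (nat_lit 244) (nat_lit 241) (nat_lit 175)))) (XT.nd (nat_lit 78) (nat_lit 304) (nat_lit 0) (XT.lf (nat_lit 0) (nat_lit 5981567813) (nat_lit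 456) (nat_lit 70991998362) (nat_lit 532) (nat_lit 26897074311) (nat_lit 37) (nat_lit 5) (nat_lit 43) (nat_lit 5) (nat_lit 44) (nat_lit 5) (nat_lit 245) (nat_lit 241) (nat_lit 174)) (XT.nd (nat_lit 78) (nat_lit 304) (nat_lit 0) (XT.lf (nat_lit 0) (nat_lit 99297589682) (nat_lit 532) (nat_lit 9387631483) (nat_lit 76) (nat_lit 3900002878) (nat_lit 37) (nat_lit 5) (nat_lit 44) (nat_lit 5) (nat_lit 38) (nat_lit 5) (nat_lit 246) (nat_lit 241) (nat_lit 173)) (XT.lf (nat_lit 0) (nat_lit 6606163598) (nat_lit 304) (nat_lit 27249020692) (nat_lit 76) (nat_lit 88398378393) (nat_lit 33) (nat_lit 5) (nat_lit 37) (nat_lit 5) (nat_lit 34) (nat_lit 5) (nat_lit 247) (nat_lit 241) (nat_lit 172))))))))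
noncomputable def xc49 : XT := (XT.nd (nat_lit 1716) (nat_lit 152) (nat_lit 0) (XT.nd (nat_lit 858) (nat_lit 608) (nat_lit 0) (XT.nd (nat_lit 390) (nat_lit 532) (nat_lit 0) (XT.nd (nat_lit 156) (nat_lit 532) (nat_lit 0) (XT.nd (nat_lit 78) (nat_lit 228) (nat_lit 0) (XT.lf (nat_lit 0) (nat_lit 32397702931) (nat_lit 304) (nat_lit 48270847802) (nat_lit 76) (nat_lit 52379961137) (nat_lit 30) (nat_lit 5) (nat_lit 34) (nat_lit 5) (nat_lit 31) (nat_lit 5) (nat_lit 248) (nat_lit 241) (nat_lit 171)) (XT.lf (nat_lit 0) (nat_lit 65718810829) (nat_lit 304) (nat_lit 72822474660) (nat_lit 76) (nat_lit 6628556371) (nat_lit 27) (nat_lit 5) (nat_lit 31) (nat_lit 5) (nat_lit 28) (nat_lit 5) (nat_lit 249) (nat_lit 241) (nat_lit 170))) (XT.nd (nat_lit 78) (nat_lit 380) (nat_lit 0) (XT.lf (nat_lit 0) (nat_lit 55490995768) (nat_lit 152) (nat_lit 53553184516) (nat_lit 228) (nat_lit 49664708163) (nat_lit 25)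 (nat_lit 5) (nat_lit 27) (nat_lit 5) (nat_lit 28) (nat_lit 5) (nat_lit 250) (nat_lit 241) (nat_lit 169)) (XT.nd (nat_lit 78) (nat_lit 228) (nat_lit 0) (XT.lf (nat_lit 0) (nat_lit 33930117541) (nat_lit 152) (nat_lit 128990801957) (nat_lit 228) (nat_lit 11033671487) (nat_lit 23) (nat_lit 5) (nat_lit 25) (nat_lit 5) (nat_lit 26) (nat_lit 5) (nat_lit 251) (nat_lit 241) (nat_lit 168)) (XT.lf (nat_lit 0) (nat_lit 4516119106) (nat_lit 152) (nat_lit 31877207854) (nat_lit 228) (nat_lit 154655842111) (nat_lit 20) (nat_lit 5) (nat_lit 22) (nat_lit 5) (nat_lit 23) (nat_lit 5) (nat_lit 252) (nat_lit 241) (nat_lit 167))))) (XT.nd (nat_lit 234) (nat_lit 228) (nat_lit 0) (XT.nd (nat_lit 78) (nat_lit 304) (nat_lit 0) (XT.lf (nat_lit 0) (nat_lit 96400381192) (nat_lit 228) (nat_lit 33496468284) (nat_lit 76) (nat_lit 80298614363) (nat_lit 20) (nat_lit 5) (nat_lit 23) (nat_lit 5) (nat_lit 21) (nat_lit 5)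 (nat_lit 253) (nat_lit 241) (nat_lit 166)) (XT.nd (nat_lit 78) (nat_lit 152) (nat_lit 0) (XT.lf (nat_lit 0) (nat_lit 149069632260) (nat_lit 152) (nat_lit 20804698458) (nat_lit 228) (nat_lit 61982107635) (nat_lit 18) (nat_lit 5) (nat_lit 20) (nat_lit 5) (nat_lit 21) (nat_lit 5) (nat_lit 254) (nat_lit 241) (nat_lit 165)) (XT.lf (nat_lit 0) (nat_lit 3975220462) (nat_lit 152) (nat_lit 149201137407) (nat_lit 76) (nat_lit 103094616191) (nat_lit 16) (nat_lit 5) (nat_lit 18) (nat_lit 5) (nat_lit 17) (nat_lit 5) (nat_lit 255) (nat_lit 241) (nat_lit 164)))) (XT.nd (nat_lit 78) (nat_lit 76) (nat_lit 0) (XT.lf (nat_lit 0) (nat_lit 46222094236) (nat_lit 152) (nat_lit 34197475337) (nat_lit 228) (nat_lit 203458251975) (nat_lit 14) (nat_lit 5) (nat_lit 16) (nat_lit 5) (nat_lit 17) (nat_lit 5) (nat_lit 256) (nat_lit 241) (nat_lit 163)) (XT.nd (nat_lit 78) (nat_lit 76) (nat_lit 0) (XT.lf (nat_lit 0) (nat_lit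 175254710935) (nat_lit 228) (nat_lit 37866454397) (nat_lit 76) (nat_lit 101950601160) (nat_lit 14) (nat_lit 5) (nat_lit 17) (nat_lit 5) (nat_lit 15) (nat_lit 4) (nat_lit 257) (nat_lit 241) (nat_lit 162)) (XT.lf (nat_lit 0) (nat_lit 200999135216) (nat_lit 76) (nat_lit 89095205941) (nat_lit 152) (nat_lit 60388125932) (nat_lit 13) (nat_lit 5) (nat_lit 14) (nat_lit 5) (nat_lit 15) (nat_lit 4) (nat_lit 258) (nat_lit 241) (nat_lit 161)))))) (XT.nd (nat_lit 390) (nat_lit 228) (nat_lit 0) (XT.nd (nat_lit 156) (nat_lit 228) (nat_lit 0) (XT.nd (nat_lit 78) (nat_lit 0) (nat_lit 0) (XT.lf (nat_lit 0) (nat_lit 34109627315) (nat_lit 152) (nat_lit 301642554732) (nat_lit 76) (nat_lit 55016795176) (nat_lit 11) (nat_lit 5) (nat_lit 13) (nat_lit 5) (nat_lit 12) (nat_lit 4) (nat_lit 259) (nat_lit 241) (nat_lit 160)) (XT.lf (nat_lit 0) (nat_lit 146236751656) (nat_lit 152) (nat_lit 68418725090) (nat_lit 76)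 (nat_lit 221755077516) (nat_lit 11) (nat_lit 5) (nat_lit 13) (nat_lit 5) (nat_lit 12) (nat_lit 4) (nat_lit 260) (nat_lit 241) (nat_lit 159))) (XT.nd (nat_lit 78) (nat_lit 152) (nat_lit 0) (XT.lf (nat_lit 0) (nat_lit 210308334666) (nat_lit 76) (nat_lit 69932057336) (nat_lit 152) (nat_lit 208253380873) (nat_lit 10) (nat_lit 5) (nat_lit 11) (nat_lit 5) (nat_lit 12) (nat_lit 4) (nat_lit 261) (nat_lit 241) (nat_lit 158)) (XT.nd (nat_lit 78) (nat_lit 152) (nat_lit 0) (XT.lf (nat_lit 0) (nat_lit 438708641750) (nat_lit 152) (nat_lit 15615775725) (nat_lit 0) (nat_lit 93715932438) (nat_lit 10) (nat_lit 5) (nat_lit 12) (nat_lit 4) (nat_lit 10) (nat_lit 4) (nat_lit 262) (nat_lit 241) (nat_lit 157)) (XT.lf (nat_lit 0) (nat_lit 13577823196) (nat_lit 152) (nat_lit 316751195645) (nat_lit 76) (nat_lit 285431685334) (nat_lit 8) (nat_lit 5) (nat_lit 10) (nat_lit 5) (nat_lit 9) (nat_lit 4) (nat_lit 263)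 (nat_lit 241) (nat_lit 156))))) (XT.nd (nat_lit 234) (nat_lit 152) (nat_lit 0) (XT.nd (nat_lit 78) (nat_lit 76) (nat_lit 0) (XT.lf (nat_lit 0) (nat_lit 149100277532) (nat_lit 152) (nat_lit 34864802436) (nat_lit 76) (nat_lit 509394837294) (nat_lit 8) (nat_lit 5) (nat_lit 10) (nat_lit 5) (nat_lit 9) (nat_lit 4) (nat_lit 264) (nat_lit 241) (nat_lit 155)) (XT.nd (nat_lit 78) (nat_lit 0) (nat_lit 0) (XT.lf (nat_lit 0) (nat_lit 304538230969) (nat_lit 76) (nat_lit 7736712209) (nat_lit 152) (nat_lit 469738162107) (nat_lit 7) (nat_lit 5) (nat_lit 8) (nat_lit 5) (nat_lit 9) (nat_lit 4) (nat_lit 265) (nat_lit 241) (nat_lit 154)) (XT.lf (nat_lit 0) (nat_lit 505654911660) (nat_lit 152) (nat_lit 191634904230) (nat_lit 0) (nat_lit 186216127756) (nat_lit 7) (nat_lit 5) (nat_lit 9) (nat_lit 4) (nat_lit 7) (nat_lit 4) (nat_lit 266) (nat_lit 241) (nat_lit 153)))) (XT.nd (nat_lit 78) (nat_lit 76) (nat_lit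 0) (XT.lf (nat_lit 0) (nat_lit 144073780602) (nat_lit 76) (nat_lit 587646802309) (nat_lit 76) (nat_lit 268207828571) (nat_lit 6) (nat_lit 4) (nat_lit 7) (nat_lit 5) (nat_lit 7) (nat_lit 4) (nat_lit 267) (nat_lit 241) (nat_lit 152)) (XT.nd (nat_lit 78) (nat_lit 76) (nat_lit 0) (XT.lf (nat_lit 0) (nat_lit 541743177971) (nat_lit 76) (nat_lit 455531944599) (nat_lit 76) (nat_lit 136092805788) (nat_lit 6) (nat_lit 4) (nat_lit 7) (nat_lit 5) (nat_lit 7) (nat_lit 4) (nat_lit 268) (nat_lit 241) (nat_lit 151)) (XT.lf (nat_lit 0) (nat_lit 15046913800) (nat_lit 152) (nat_lit 288141701647) (nat_lit 76) (nat_lit 983604298545) (nat_lit 5) (nat_lit 5) (nat_lit 7) (nat_lit 5) (nat_lit 6) (nat_lit 4) (nat_lit 269) (nat_lit 241) (nat_lit 150))))))) (XT.nd (nat_lit 858) (nat_lit 0) (nat_lit 0) (XT.nd (nat_lit 390) (nat_lit 76) (nat_lit 0) (XT.nd (nat_lit 156) (nat_lit 0) (nat_lit 0) (XT.nd (nat_lit 78) (nat_lit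 0) (nat_lit 0) (XT.lf (nat_lit 0) (nat_lit 60106246364) (nat_lit 76) (nat_lit 122367625527) (nat_lit 152) (nat_lit 1280341026062) (nat_lit 4) (nat_lit 5) (nat_lit 5) (nat_lit 5) (nat_lit 6) (nat_lit 4) (nat_lit 270) (nat_lit 241) (nat_lit 149)) (XT.lf (nat_lit 0) (nat_lit 385679657606) (nat_lit 152) (nat_lit 1188805011114) (nat_lit 0) (nat_lit 89902328246) (nat_lit 4) (nat_lit 5) (nat_lit 6) (nat_lit 4) (nat_lit 4) (nat_lit 4) (nat_lit 271) (nat_lit 241) (nat_lit 148))) (XT.nd (nat_lit 78) (nat_lit 0) (nat_lit 0) (XT.lf (nat_lit 0) (nat_lit 622750555137) (nat_lit 152) (nat_lit 946200477939) (nat_lit 0) (nat_lit 326973138387) (nat_lit 4) (nat_lit 5) (nat_lit 6) (nat_lit 4) (nat_lit 4) (nat_lit 4) (nat_lit 272) (nat_lit 241) (nat_lit 147)) (XT.nd (nat_lit 78) (nat_lit 0) (nat_lit 0) (XT.lf (nat_lit 0) (nat_lit 895381963795) (nat_lit 152) (nat_lit 667205497296) (nat_lit 0) (nat_lit 599604471054)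 (nat_lit 4) (nat_lit 5) (nat_lit 6) (nat_lit 4) (nat_lit 4) (nat_lit 4) (nat_lit 273) (nat_lit 241) (nat_lit 146)) (XT.lf (nat_lit 0) (nat_lit 1208907976358) (nat_lit 152) (nat_lit 346361471737) (nat_lit 0) (nat_lit 913130417538) (nat_lit 4) (nat_lit 5) (nat_lit 6) (nat_lit 4) (nat_lit 4) (nat_lit 4) (nat_lit 274) (nat_lit 241) (nat_lit 145))))) (XT.nd (nat_lit 234) (nat_lit 0) (nat_lit 0) (XT.nd (nat_lit 78) (nat_lit 0) (nat_lit 0) (XT.lf (nat_lit 0) (nat_lit 23799530763) (nat_lit 76) (nat_lit 1546235645944) (nat_lit 76) (nat_lit 1250458029663) (nat_lit 3) (nat_lit 4) (nat_lit 4) (nat_lit 5) (nat_lit 4) (nat_lit 4) (nat_lit 275) (nat_lit 241) (nat_lit 144)) (XT.nd (nat_lit 78) (nat_lit 0) (nat_lit 0) (XT.lf (nat_lit 0) (nat_lit 470459121201) (nat_lit 76) (nat_lit 1524956192413) (nat_lit 76) (nat_lit 1229178526167) (nat_lit 3) (nat_lit 4) (nat_lit 4) (nat_lit 5) (nat_lit 4) (nat_lit 4)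 (nat_lit 276) (nat_lit 241) (nat_lit 143)) (XT.lf (nat_lit 0) (nat_lit 984117510268) (nat_lit 76) (nat_lit 1500484886811) (nat_lit 76) (nat_lit 1204707177117) (nat_lit 3) (nat_lit 4) (nat_lit 4) (nat_lit 5) (nat_lit 4) (nat_lit 4) (nat_lit 277) (nat_lit 241) (nat_lit 142)))) (XT.nd (nat_lit 78) (nat_lit 0) (nat_lit 0) (XT.lf (nat_lit 0) (nat_lit 1574824536010) (nat_lit 76) (nat_lit 1472342942724) (nat_lit 76) (nat_lit 1176565195250) (nat_lit 3) (nat_lit 4) (nat_lit 4) (nat_lit 5) (nat_lit 4) (nat_lit 4) (nat_lit 278) (nat_lit 241) (nat_lit 141)) (XT.nd (nat_lit 78) (nat_lit 0) (nat_lit 0) (XT.lf (nat_lit 0) (nat_lit 2254137509801) (nat_lit 76) (nat_lit 1439979756899) (nat_lit 76) (nat_lit 1144201976572) (nat_lit 3) (nat_lit 4) (nat_lit 4) (nat_lit 5) (nat_lit 4) (nat_lit 4) (nat_lit 279) (nat_lit 241) (nat_lit 140)) (XT.lf (nat_lit 0) (nat_lit 3035347337649) (nat_lit 76) (nat_lit 1402762136569)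 (nat_lit 76) (nat_lit 1106984327674) (nat_lit 3) (nat_lit 4) (nat_lit 4) (nat_lit 5) (nat_lit 4) (nat_lit 4) (nat_lit 280) (nat_lit 241) (nat_lit 139)))))) (XT.nd (nat_lit 31668) (nat_lit 0) (nat_lit 1672) (XT.nd (nat_lit 31434) (nat_lit 0) (nat_lit 2888) (XT.nd (nat_lit 31356) (nat_lit 0) (nat_lit 2812) (XT.lf (nat_lit 0) (nat_lit 3933738559664) (nat_lit 76) (nat_lit 1359961910902) (nat_lit 76) (nat_lit 1064184077165) (nat_lit 3) (nat_lit 4) (nat_lit 4) (nat_lit 5) (nat_lit 4) (nat_lit 4) (nat_lit 281) (nat_lit 241) (nat_lit 138)) (XT.lf (nat_lit 0) (nat_lit 21370937135) (nat_lit 532) (nat_lit 11474000738) (nat_lit 532) (nat_lit 11474000738) (nat_lit 40) (nat_lit 3) (nat_lit 47) (nat_lit 3) (nat_lit 47) (nat_lit 5) (nat_lit 242) (nat_lit 242) (nat_lit 176))) (XT.nd (nat_lit 78) (nat_lit 0) (nat_lit 0) (XT.lf (nat_lit 0) (nat_lit 47370309461) (nat_lit 456) (nat_lit 42403824562) (nat_lit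 532) (nat_lit 5397702744) (nat_lit 41) (nat_lit 5) (nat_lit 47) (nat_lit 5) (nat_lit 48) (nat_lit 5) (nat_lit 243) (nat_lit 242) (nat_lit 175)) (XT.nd (nat_lit 78) (nat_lit 0) (nat_lit 76) (XT.lf (nat_lit 76) (nat_lit 38698736797) (nat_lit 0) (nat_lit 17424842884) (nat_lit 532) (nat_lit 46287875250) (nat_lit 42) (nat_lit 5) (nat_lit 41) (nat_lit 5) (nat_lit 48) (nat_lit 5) (nat_lit 244) (nat_lit 242) (nat_lit 174)) (XT.lf (nat_lit 76) (nat_lit 23453868352) (nat_lit 0) (nat_lit 46146461118) (nat_lit 532) (nat_lit 40863856158) (nat_lit 43) (nat_lit 5) (nat_lit 42) (nat_lit 5) (nat_lit 49) (nat_lit 5) (nat_lit 245) (nat_lit 242) (nat_lit 173))))) (XT.nd (nat_lit 234) (nat_lit 608) (nat_lit 0) (XT.nd (nat_lit 78) (nat_lit 304) (nat_lit 0) (XT.lf (nat_lit 0) (nat_lit 6897968310) (nat_lit 456) (nat_lit 81642240681) (nat_lit 532) (nat_lit 30909295322) (nat_lit 37) (nat_lit 5) (nat_lit 43) (nat_lit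 5) (nat_lit 44) (nat_lit 5) (nat_lit 246) (nat_lit 242) (nat_lit 172)) (XT.nd (nat_lit 78) (nat_lit 304) (nat_lit 0) (XT.lf (nat_lit 0) (nat_lit 114210117869) (nat_lit 532) (nat_lit 10777574235) (nat_lit 76) (nat_lit 4483811656) (nat_lit 37) (nat_lit 5) (nat_lit 44) (nat_lit 5) (nat_lit 38) (nat_lit 5) (nat_lit 247) (nat_lit 242) (nat_lit 171)) (XT.lf (nat_lit 0) (nat_lit 7613519663) (nat_lit 304) (nat_lit 31318788734) (nat_lit 76) (nat_lit 101657915624) (nat_lit 33) (nat_lit 5) (nat_lit 37) (nat_lit 5) (nat_lit 34) (nat_lit 5) (nat_lit 248) (nat_lit 242) (nat_lit 170)))) (XT.nd (nat_lit 78) (nat_lit 380) (nat_lit 0) (XT.lf (nat_lit 0) (nat_lit 37272067956) (nat_lit 304) (nat_lit 55494187639) (nat_lit 76) (nat_lit 60238305383) (nat_lit 30) (nat_lit 5) (nat_lit 34) (nat_lit 5) (nat_lit 31) (nat_lit 5) (nat_lit 249) (nat_lit 242) (nat_lit 169)) (XT.nd (nat_lit 78) (nat_lit 152) (nat_lit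 0) (XT.lf (nat_lit 0) (nat_lit 75589867760) (nat_lit 304) (nat_lit 83728987618) (nat_lit 76) (nat_lit 7625359671) (nat_lit 27) (nat_lit 5) (nat_lit 31) (nat_lit 5) (nat_lit 28) (nat_lit 5) (nat_lit 250) (nat_lit 242) (nat_lit 168)) (XT.lf (nat_lit 0) (nat_lit 63830076407) (nat_lit 152) (nat_lit 61582611003) (nat_lit 228) (nat_lit 57101545404) (nat_lit 25) (nat_lit 5) (nat_lit 27) (nat_lit 5) (nat_lit 28) (nat_lit 5) (nat_lit 251) (nat_lit 242) (nat_lit 167))))))))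
noncomputable def xc50 : XT := (XT.nd (nat_lit 1716) (nat_lit 76) (nat_lit 0) (XT.nd (nat_lit 858) (nat_lit 456) (nat_lit 0) (XT.nd (nat_lit 390) (nat_lit 456) (nat_lit 0) (XT.nd (nat_lit 156) (nat_lit 304) (nat_lit 0) (XT.nd (nat_lit 78) (nat_lit 228) (nat_lit 0) (XT.lf (nat_lit 0) (nat_lit 39034587283) (nat_lit 152) (nat_lit 148335234512) (nat_lit 228) (nat_lit 12677063216) (nat_lit 23) (nat_lit 5) (nat_lit 25) (nat_lit 5) (nat_lit 26) (nat_lit 5) (nat_lit 252) (nat_lit 242) (nat_lit 166)) (XT.lf (nat_lit 0) (nat_lit 5207785693) (nat_lit 152) (nat_lit 36654514093) (nat_lit 228) (nat_lit 177843419794) (nat_lit 20) (nat_lit 5) (nat_lit 22) (nat_lit 5) (nat_lit 23) (nat_lit 5) (nat_lit 253) (nat_lit 242) (nat_lit 165))) (XT.nd (nat_lit 78) (nat_lit 304) (nat_lit 0) (XT.lf (nat_lit 0) (nat_lit 110869200626) (nat_lit 228) (nat_lit 38507920473) (nat_lit 76) (nat_lit 92346937900) (nat_lit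 20) (nat_lit 5) (nat_lit 23) (nat_lit 5) (nat_lit 21) (nat_lit 5) (nat_lit 254) (nat_lit 242) (nat_lit 164)) (XT.nd (nat_lit 78) (nat_lit 152) (nat_lit 0) (XT.lf (nat_lit 0) (nat_lit 171441993238) (nat_lit 152) (nat_lit 23921393023) (nat_lit 228) (nat_lit 71270864991) (nat_lit 18) (nat_lit 5) (nat_lit 20) (nat_lit 5) (nat_lit 21) (nat_lit 5) (nat_lit 255) (nat_lit 242) (nat_lit 163)) (XT.lf (nat_lit 0) (nat_lit 4578941407) (nat_lit 152) (nat_lit 171569483137) (nat_lit 76) (nat_lit 118562584188) (nat_lit 16) (nat_lit 5) (nat_lit 18) (nat_lit 5) (nat_lit 17) (nat_lit 5) (nat_lit 256) (nat_lit 242) (nat_lit 162))))) (XT.nd (nat_lit 234) (nat_lit 228) (nat_lit 0) (XT.nd (nat_lit 78) (nat_lit 76) (nat_lit 0) (XT.lf (nat_lit 0) (nat_lit 53166232336) (nat_lit 152) (nat_lit 39323000708) (nat_lit 228) (nat_lit 233969709227) (nat_lit 14) (nat_lit 5) (nat_lit 16) (nat_lit 5) (nat_lit 17) (nat_lit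 5) (nat_lit 257) (nat_lit 242) (nat_lit 161)) (XT.nd (nat_lit 78) (nat_lit 76) (nat_lit 0) (XT.lf (nat_lit 0) (nat_lit 201548853698) (nat_lit 228) (nat_lit 43536615629) (nat_lit 76) (nat_lit 117246574842) (nat_lit 14) (nat_lit 5) (nat_lit 17) (nat_lit 5) (nat_lit 15) (nat_lit 4) (nat_lit 258) (nat_lit 242) (nat_lit 160)) (XT.lf (nat_lit 0) (nat_lit 231157982319) (nat_lit 76) (nat_lit 102455887751) (nat_lit 152) (nat_lit 69440526075) (nat_lit 13) (nat_lit 5) (nat_lit 14) (nat_lit 5) (nat_lit 15) (nat_lit 4) (nat_lit 259) (nat_lit 242) (nat_lit 159)))) (XT.nd (nat_lit 78) (nat_lit 76) (nat_lit 0) (XT.lf (nat_lit 0) (nat_lit 39231166061) (nat_lit 152) (nat_lit 346880119557) (nat_lit 76) (nat_lit 63272621931) (nat_lit 11) (nat_lit 5) (nat_lit 13) (nat_lit 5) (nat_lit 12) (nat_lit 4) (nat_lit 260) (nat_lit 242) (nat_lit 158)) (XT.nd (nat_lit 78) (nat_lit 76) (nat_lit 0) (XT.lf (nat_lit 0)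 (nat_lit 168176694534) (nat_lit 152) (nat_lit 78673865692) (nat_lit 76) (nat_lit 255021215212) (nat_lit 11) (nat_lit 5) (nat_lit 13) (nat_lit 5) (nat_lit 12) (nat_lit 4) (nat_lit 261) (nat_lit 242) (nat_lit 157)) (XT.lf (nat_lit 0) (nat_lit 241861603955) (nat_lit 76) (nat_lit 80418867942) (nat_lit 152) (nat_lit 239487038653) (nat_lit 10) (nat_lit 5) (nat_lit 11) (nat_lit 5) (nat_lit 12) (nat_lit 4) (nat_lit 262) (nat_lit 242) (nat_lit 156)))))) (XT.nd (nat_lit 390) (nat_lit 228) (nat_lit 0) (XT.nd (nat_lit 156) (nat_lit 76) (nat_lit 0) (XT.nd (nat_lit 78) (nat_lit 152) (nat_lit 0) (XT.lf (nat_lit 0) (nat_lit 504518497314) (nat_lit 152) (nat_lit 17951815786) (nat_lit 0) (nat_lit 107775798844) (nat_lit 10) (nat_lit 5) (nat_lit 12) (nat_lit 4) (nat_lit 10) (nat_lit 4) (nat_lit 263) (nat_lit 242) (nat_lit 155)) (XT.lf (nat_lit 0) (nat_lit 15617819715) (nat_lit 152) (nat_lit 364257904600)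 (nat_lit 76) (nat_lit 328248815045) (nat_lit 8) (nat_lit 5) (nat_lit 10) (nat_lit 5) (nat_lit 9) (nat_lit 4) (nat_lit 264) (nat_lit 242) (nat_lit 154))) (XT.nd (nat_lit 78) (nat_lit 76) (nat_lit 0) (XT.lf (nat_lit 0) (nat_lit 171468208762) (nat_lit 152) (nat_lit 40089331155) (nat_lit 76) (nat_lit 585806129767) (nat_lit 8) (nat_lit 5) (nat_lit 10) (nat_lit 5) (nat_lit 9) (nat_lit 4) (nat_lit 265) (nat_lit 242) (nat_lit 153)) (XT.nd (nat_lit 78) (nat_lit 0) (nat_lit 0) (XT.lf (nat_lit 0) (nat_lit 350223717814) (nat_lit 76) (nat_lit 8895093828) (nat_lit 152) (nat_lit 540196045801) (nat_lit 7) (nat_lit 5) (nat_lit 8) (nat_lit 5) (nat_lit 9) (nat_lit 4) (nat_lit 266) (nat_lit 242) (nat_lit 152)) (XT.lf (nat_lit 0) (nat_lit 581505477190) (nat_lit 152) (nat_lit 220375866192) (nat_lit 0) (nat_lit 214150302485) (nat_lit 7) (nat_lit 5) (nat_lit 9) (nat_lit 4) (nat_lit 7) (nat_lit 4) (nat_lit 267)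 (nat_lit 242) (nat_lit 151))))) (XT.nd (nat_lit 234) (nat_lit 76) (nat_lit 0) (XT.nd (nat_lit 78) (nat_lit 76) (nat_lit 0) (XT.lf (nat_lit 0) (nat_lit 165688759620) (nat_lit 76) (nat_lit 675792029837) (nat_lit 76) (nat_lit 308436711590) (nat_lit 6) (nat_lit 4) (nat_lit 7) (nat_lit 5) (nat_lit 7) (nat_lit 4) (nat_lit 268) (nat_lit 242) (nat_lit 150)) (XT.nd (nat_lit 78) (nat_lit 76) (nat_lit 0) (XT.lf (nat_lit 0) (nat_lit 623008056343) (nat_lit 76) (nat_lit 523860177316) (nat_lit 76) (nat_lit 156504734251) (nat_lit 6) (nat_lit 4) (nat_lit 7) (nat_lit 5) (nat_lit 7) (nat_lit 4) (nat_lit 269) (nat_lit 242) (nat_lit 149)) (XT.lf (nat_lit 0) (nat_lit 17305596729) (nat_lit 152) (nat_lit 331359910406) (nat_lit 76) (nat_lit 1131146210447) (nat_lit 5) (nat_lit 5) (nat_lit 7) (nat_lit 5) (nat_lit 6) (nat_lit 4) (nat_lit 270) (nat_lit 242) (nat_lit 148)))) (XT.nd (nat_lit 78) (nat_lit 0) (nat_lit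 0) (XT.lf (nat_lit 0) (nat_lit 69124971936) (nat_lit 76) (nat_lit 140721478986) (nat_lit 152) (nat_lit 1472390560263) (nat_lit 4) (nat_lit 5) (nat_lit 5) (nat_lit 5) (nat_lit 6) (nat_lit 4) (nat_lit 271) (nat_lit 242) (nat_lit 147)) (XT.nd (nat_lit 78) (nat_lit 0) (nat_lit 0) (XT.lf (nat_lit 0) (nat_lit 443532936057) (nat_lit 152) (nat_lit 1367123259264) (nat_lit 0) (nat_lit 103388743414) (nat_lit 4) (nat_lit 5) (nat_lit 6) (nat_lit 4) (nat_lit 4) (nat_lit 4) (nat_lit 272) (nat_lit 242) (nat_lit 146)) (XT.lf (nat_lit 0) (nat_lit 716164294764) (nat_lit 152) (nat_lit 1088128372658) (nat_lit 0) (nat_lit 376020036042) (nat_lit 4) (nat_lit 5) (nat_lit 6) (nat_lit 4) (nat_lit 4) (nat_lit 4) (nat_lit 273) (nat_lit 242) (nat_lit 145))))))) (XT.nd (nat_lit 32292) (nat_lit 0) (nat_lit 988) (XT.nd (nat_lit 390) (nat_lit 0) (nat_lit 0) (XT.nd (nat_lit 156) (nat_lit 76) (nat_lit 0) (XT.nd (nat_lit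 78) (nat_lit 0) (nat_lit 0) (XT.lf (nat_lit 0) (nat_lit 1029690263892) (nat_lit 152) (nat_lit 767284428872) (nat_lit 0) (nat_lit 689545947709) (nat_lit 4) (nat_lit 5) (nat_lit 6) (nat_lit 4) (nat_lit 4) (nat_lit 4) (nat_lit 274) (nat_lit 242) (nat_lit 144)) (XT.lf (nat_lit 0) (nat_lit 1390245047183) (nat_lit 152) (nat_lit 398314046394) (nat_lit 0) (nat_lit 1050100681036) (nat_lit 4) (nat_lit 5) (nat_lit 6) (nat_lit 4) (nat_lit 4) (nat_lit 4) (nat_lit 275) (nat_lit 242) (nat_lit 143))) (XT.nd (nat_lit 78) (nat_lit 0) (nat_lit 0) (XT.lf (nat_lit 0) (nat_lit 27370967146) (nat_lit 76) (nat_lit 1778170282627) (nat_lit 76) (nat_lit 1438025873031) (nat_lit 3) (nat_lit 4) (nat_lit 4) (nat_lit 5) (nat_lit 4) (nat_lit 4) (nat_lit 276) (nat_lit 242) (nat_lit 142)) (XT.nd (nat_lit 78) (nat_lit 0) (nat_lit 0) (XT.lf (nat_lit 0) (nat_lit 541029299615) (nat_lit 76) (nat_lit 1753699003702) (nat_lit 76)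 (nat_lit 1413554556326) (nat_lit 3) (nat_lit 4) (nat_lit 4) (nat_lit 5) (nat_lit 4) (nat_lit 4) (nat_lit 277) (nat_lit 242) (nat_lit 141)) (XT.lf (nat_lit 0) (nat_lit 1131736276142) (nat_lit 76) (nat_lit 1725557082813) (nat_lit 76) (nat_lit 1385412602584) (nat_lit 3) (nat_lit 4) (nat_lit 4) (nat_lit 5) (nat_lit 4) (nat_lit 4) (nat_lit 278) (nat_lit 242) (nat_lit 140))))) (XT.nd (nat_lit 31668) (nat_lit 0) (nat_lit 2888) (XT.nd (nat_lit 78) (nat_lit 0) (nat_lit 0) (XT.lf (nat_lit 0) (nat_lit 1811049207137) (nat_lit 76) (nat_lit 1693193917160) (nat_lit 76) (nat_lit 1353049408362) (nat_lit 3) (nat_lit 4) (nat_lit 4) (nat_lit 5) (nat_lit 4) (nat_lit 4) (nat_lit 279) (nat_lit 242) (nat_lit 139)) (XT.nd (nat_lit 31512) (nat_lit 0) (nat_lit 2812) (XT.lf (nat_lit 0) (nat_lit 2592258997771) (nat_lit 76) (nat_lit 1655976314371) (nat_lit 76) (nat_lit 1315831780731) (nat_lit 3) (nat_lit 4) (nat_lit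 4) (nat_lit 5) (nat_lit 4) (nat_lit 4) (nat_lit 280) (nat_lit 242) (nat_lit 138)) (XT.lf (nat_lit 0) (nat_lit 24589540350) (nat_lit 532) (nat_lit 13188073375) (nat_lit 532) (nat_lit 13188073375) (nat_lit 40) (nat_lit 3) (nat_lit 47) (nat_lit 3) (nat_lit 47) (nat_lit 5) (nat_lit 243) (nat_lit 243) (nat_lit 174)))) (XT.nd (nat_lit 78) (nat_lit 0) (nat_lit 0) (XT.lf (nat_lit 0) (nat_lit 54498468813) (nat_lit 456) (nat_lit 48749368361) (nat_lit 532) (nat_lit 6197869916) (nat_lit 41) (nat_lit 5) (nat_lit 47) (nat_lit 5) (nat_lit 48) (nat_lit 5) (nat_lit 244) (nat_lit 243) (nat_lit 173)) (XT.nd (nat_lit 78) (nat_lit 0) (nat_lit 76) (XT.lf (nat_lit 76) (nat_lit 44517304997) (nat_lit 0) (nat_lit 20044805928) (nat_lit 532) (nat_lit 53209379086) (nat_lit 42) (nat_lit 5) (nat_lit 41) (nat_lit 5) (nat_lit 48) (nat_lit 5) (nat_lit 245) (nat_lit 243) (nat_lit 172)) (XT.lf (nat_lit 76) (nat_lit 26986219750)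 (nat_lit 0) (nat_lit 53071758277) (nat_lit 532) (nat_lit 46974354805) (nat_lit 43) (nat_lit 5) (nat_lit 42) (nat_lit 5) (nat_lit 49) (nat_lit 5) (nat_lit 246) (nat_lit 243) (nat_lit 171)))))) (XT.nd (nat_lit 390) (nat_lit 836) (nat_lit 0) (XT.nd (nat_lit 156) (nat_lit 760) (nat_lit 0) (XT.nd (nat_lit 78) (nat_lit 0) (nat_lit 0) (XT.lf (nat_lit 0) (nat_lit 7947155295) (nat_lit 456) (nat_lit 93889667569) (nat_lit 532) (nat_lit 35528797268) (nat_lit 37) (nat_lit 5) (nat_lit 43) (nat_lit 5) (nat_lit 44) (nat_lit 5) (nat_lit 247) (nat_lit 243) (nat_lit 170)) (XT.lf (nat_lit 0) (nat_lit 131355162759) (nat_lit 532) (nat_lit 12380447066) (nat_lit 76) (nat_lit 5155482344) (nat_lit 37) (nat_lit 5) (nat_lit 44) (nat_lit 5) (nat_lit 38) (nat_lit 5) (nat_lit 248) (nat_lit 243) (nat_lit 169))) (XT.nd (nat_lit 78) (nat_lit 456) (nat_lit 0) (XT.lf (nat_lit 0) (nat_lit 8767972206) (nat_lit 304) (nat_lit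 36003310212) (nat_lit 76) (nat_lit 116906436973) (nat_lit 33) (nat_lit 5) (nat_lit 37) (nat_lit 5) (nat_lit 34) (nat_lit 5) (nat_lit 249) (nat_lit 243) (nat_lit 168)) (XT.nd (nat_lit 78) (nat_lit 228) (nat_lit 0) (XT.lf (nat_lit 0) (nat_lit 42874000709) (nat_lit 304) (nat_lit 63805244078) (nat_lit 76) (nat_lit 69275072041) (nat_lit 30) (nat_lit 5) (nat_lit 34) (nat_lit 5) (nat_lit 31) (nat_lit 5) (nat_lit 250) (nat_lit 243) (nat_lit 167)) (XT.lf (nat_lit 0) (nat_lit 86938355716) (nat_lit 304) (nat_lit 96275588509) (nat_lit 76) (nat_lit 8771068986) (nat_lit 27) (nat_lit 5) (nat_lit 31) (nat_lit 5) (nat_lit 28) (nat_lit 5) (nat_lit 251) (nat_lit 243) (nat_lit 166))))) (XT.nd (nat_lit 234) (nat_lit 304) (nat_lit 0) (XT.nd (nat_lit 78) (nat_lit 380) (nat_lit 0) (XT.lf (nat_lit 0) (nat_lit 73416256129) (nat_lit 152) (nat_lit 70817317444) (nat_lit 228) (nat_lit 65657046414) (nat_lit 25) (nat_lit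 5) (nat_lit 27) (nat_lit 5) (nat_lit 28) (nat_lit 5) (nat_lit 252) (nat_lit 243) (nat_lit 165)) (XT.nd (nat_lit 78) (nat_lit 228) (nat_lit 0) (XT.lf (nat_lit 0) (nat_lit 44901081320) (nat_lit 152) (nat_lit 170582353157) (nat_lit 228) (nat_lit 14569806823) (nat_lit 23) (nat_lit 5) (nat_lit 25) (nat_lit 5) (nat_lit 26) (nat_lit 5) (nat_lit 253) (nat_lit 243) (nat_lit 164)) (XT.lf (nat_lit 0) (nat_lit 5999727627) (nat_lit 152) (nat_lit 42149458738) (nat_lit 228) (nat_lit 204511767444) (nat_lit 20) (nat_lit 5) (nat_lit 22) (nat_lit 5) (nat_lit 23) (nat_lit 5) (nat_lit 254) (nat_lit 243) (nat_lit 163)))) (XT.nd (nat_lit 78) (nat_lit 304) (nat_lit 0) (XT.lf (nat_lit 0) (nat_lit 127506206245) (nat_lit 228) (nat_lit 44274265026) (nat_lit 76) (nat_lit 106201648818) (nat_lit 20) (nat_lit 5) (nat_lit 23) (nat_lit 5) (nat_lit 21) (nat_lit 5) (nat_lit 255) (nat_lit 243) (nat_lit 162)) (XT.nd (nat_lit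 78) (nat_lit 152) (nat_lit 0) (XT.lf (nat_lit 0) (nat_lit 197167302538) (nat_lit 152) (nat_lit 27506569687) (nat_lit 228) (nat_lit 81955023066) (nat_lit 18) (nat_lit 5) (nat_lit 20) (nat_lit 5) (nat_lit 21) (nat_lit 5) (nat_lit 256) (nat_lit 243) (nat_lit 161)) (XT.lf (nat_lit 0) (nat_lit 5271406720) (nat_lit 152) (nat_lit 197295964299) (nat_lit 76) (nat_lit 136349826689) (nat_lit 16) (nat_lit 5) (nat_lit 18) (nat_lit 5) (nat_lit 17) (nat_lit 5) (nat_lit 257) (nat_lit 243) (nat_lit 160))))))))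
noncomputable def xc51 : XT := (XT.nd (nat_lit 1716) (nat_lit 0) (nat_lit 0) (XT.nd (nat_lit 858) (nat_lit 304) (nat_lit 0) (XT.nd (nat_lit 390) (nat_lit 304) (nat_lit 0) (XT.nd (nat_lit 156) (nat_lit 228) (nat_lit 0) (XT.nd (nat_lit 78) (nat_lit 0) (nat_lit 0) (XT.lf (nat_lit 0) (nat_lit 61149351658) (nat_lit 152) (nat_lit 45218353703) (nat_lit 228) (nat_lit 269059660473) (nat_lit 14) (nat_lit 5) (nat_lit 16) (nat_lit 5) (nat_lit 17) (nat_lit 5) (nat_lit 258) (nat_lit 243) (nat_lit 159)) (XT.lf (nat_lit 0) (nat_lit 231785670315) (nat_lit 228) (nat_lit 50059692527) (nat_lit 76) (nat_lit 134836119487) (nat_lit 14) (nat_lit 5) (nat_lit 17) (nat_lit 5) (nat_lit 15) (nat_lit 4) (nat_lit 259) (nat_lit 243) (nat_lit 158))) (XT.nd (nat_lit 78) (nat_lit 152) (nat_lit 0) (XT.lf (nat_lit 0) (nat_lit 265838467432) (nat_lit 76) (nat_lit 117821549491) (nat_lit 152) (nat_lit 79852205179) (nat_lit 13)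 (nat_lit 5) (nat_lit 14) (nat_lit 5) (nat_lit 15) (nat_lit 4) (nat_lit 260) (nat_lit 243) (nat_lit 157)) (XT.nd (nat_lit 78) (nat_lit 0) (nat_lit 0) (XT.lf (nat_lit 0) (nat_lit 45119693257) (nat_lit 152) (nat_lit 398905469525) (nat_lit 76) (nat_lit 72766016150) (nat_lit 11) (nat_lit 5) (nat_lit 13) (nat_lit 5) (nat_lit 12) (nat_lit 4) (nat_lit 261) (nat_lit 243) (nat_lit 156)) (XT.lf (nat_lit 0) (nat_lit 193406548528) (nat_lit 152) (nat_lit 90469147315) (nat_lit 76) (nat_lit 293276572214) (nat_lit 11) (nat_lit 5) (nat_lit 13) (nat_lit 5) (nat_lit 12) (nat_lit 4) (nat_lit 262) (nat_lit 243) (nat_lit 155))))) (XT.nd (nat_lit 234) (nat_lit 76) (nat_lit 0) (XT.nd (nat_lit 78) (nat_lit 152) (nat_lit 0) (XT.lf (nat_lit 0) (nat_lit 278146151988) (nat_lit 76) (nat_lit 92479431219) (nat_lit 152) (nat_lit 275406805717) (nat_lit 10) (nat_lit 5) (nat_lit 11) (nat_lit 5) (nat_lit 12) (nat_lit 4) (nat_lit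 263) (nat_lit 243) (nat_lit 154)) (XT.nd (nat_lit 78) (nat_lit 152) (nat_lit 0) (XT.lf (nat_lit 0) (nat_lit 580198963255) (nat_lit 152) (nat_lit 20639804563) (nat_lit 0) (nat_lit 123944041292) (nat_lit 10) (nat_lit 5) (nat_lit 12) (nat_lit 4) (nat_lit 10) (nat_lit 4) (nat_lit 264) (nat_lit 243) (nat_lit 153)) (XT.lf (nat_lit 0) (nat_lit 17963005369) (nat_lit 152) (nat_lit 418892075815) (nat_lit 76) (nat_lit 377487934587) (nat_lit 8) (nat_lit 5) (nat_lit 10) (nat_lit 5) (nat_lit 9) (nat_lit 4) (nat_lit 265) (nat_lit 243) (nat_lit 152)))) (XT.nd (nat_lit 78) (nat_lit 76) (nat_lit 0) (XT.lf (nat_lit 0) (nat_lit 197190625030) (nat_lit 152) (nat_lit 46098805199) (nat_lit 76) (nat_lit 673678612089) (nat_lit 8) (nat_lit 5) (nat_lit 10) (nat_lit 5) (nat_lit 9) (nat_lit 4) (nat_lit 266) (nat_lit 243) (nat_lit 151)) (XT.nd (nat_lit 78) (nat_lit 0) (nat_lit 0) (XT.lf (nat_lit 0) (nat_lit 402760868831)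 (nat_lit 76) (nat_lit 10227750937) (nat_lit 152) (nat_lit 621223304753) (nat_lit 7) (nat_lit 5) (nat_lit 8) (nat_lit 5) (nat_lit 9) (nat_lit 4) (nat_lit 267) (nat_lit 243) (nat_lit 150)) (XT.lf (nat_lit 0) (nat_lit 668733059661) (nat_lit 152) (nat_lit 253429014611) (nat_lit 0) (nat_lit 246274175317) (nat_lit 7) (nat_lit 5) (nat_lit 9) (nat_lit 4) (nat_lit 7) (nat_lit 4) (nat_lit 268) (nat_lit 243) (nat_lit 149)))))) (XT.nd (nat_lit 390) (nat_lit 76) (nat_lit 0) (XT.nd (nat_lit 156) (nat_lit 152) (nat_lit 0) (XT.nd (nat_lit 78) (nat_lit 0) (nat_lit 0) (XT.lf (nat_lit 0) (nat_lit 190545031542) (nat_lit 76) (nat_lit 777159478684) (nat_lit 76) (nat_lit 354700485802) (nat_lit 6) (nat_lit 4) (nat_lit 7) (nat_lit 5) (nat_lit 7) (nat_lit 4) (nat_lit 269) (nat_lit 243) (nat_lit 148)) (XT.lf (nat_lit 0) (nat_lit 716461836950) (nat_lit 76) (nat_lit 602438025106) (nat_lit 76) (nat_lit 179978937844)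 (nat_lit 6) (nat_lit 4) (nat_lit 7) (nat_lit 5) (nat_lit 7) (nat_lit 4) (nat_lit 270) (nat_lit 243) (nat_lit 147))) (XT.nd (nat_lit 78) (nat_lit 76) (nat_lit 0) (XT.lf (nat_lit 0) (nat_lit 19902680744) (nat_lit 152) (nat_lit 381061593384) (nat_lit 76) (nat_lit 1300819100138) (nat_lit 5) (nat_lit 5) (nat_lit 7) (nat_lit 5) (nat_lit 6) (nat_lit 4) (nat_lit 271) (nat_lit 243) (nat_lit 146)) (XT.nd (nat_lit 78) (nat_lit 0) (nat_lit 0) (XT.lf (nat_lit 0) (nat_lit 79495826322) (nat_lit 76) (nat_lit 161828725129) (nat_lit 152) (nat_lit 1693247919570) (nat_lit 4) (nat_lit 5) (nat_lit 5) (nat_lit 5) (nat_lit 6) (nat_lit 4) (nat_lit 272) (nat_lit 243) (nat_lit 145)) (XT.lf (nat_lit 0) (nat_lit 510063881993) (nat_lit 152) (nat_lit 1572189855135) (nat_lit 0) (nat_lit 118897860923) (nat_lit 4) (nat_lit 5) (nat_lit 6) (nat_lit 4) (nat_lit 4) (nat_lit 4) (nat_lit 273) (nat_lit 243) (nat_lit 144)))))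 (XT.nd (nat_lit 234) (nat_lit 76) (nat_lit 0) (XT.nd (nat_lit 78) (nat_lit 0) (nat_lit 0) (XT.lf (nat_lit 0) (nat_lit 823589813350) (nat_lit 152) (nat_lit 1251345982454) (nat_lit 0) (nat_lit 432423742315) (nat_lit 4) (nat_lit 5) (nat_lit 6) (nat_lit 4) (nat_lit 4) (nat_lit 4) (nat_lit 274) (nat_lit 243) (nat_lit 143)) (XT.nd (nat_lit 78) (nat_lit 0) (nat_lit 0) (XT.lf (nat_lit 0) (nat_lit 1184144563799) (nat_lit 152) (nat_lit 882375661808) (nat_lit 0) (nat_lit 792978449315) (nat_lit 4) (nat_lit 5) (nat_lit 6) (nat_lit 4) (nat_lit 4) (nat_lit 4) (nat_lit 275) (nat_lit 243) (nat_lit 142)) (XT.lf (nat_lit 0) (nat_lit 1598782465411) (nat_lit 152) (nat_lit 458059908663) (nat_lit 0) (nat_lit 1207616313147) (nat_lit 4) (nat_lit 5) (nat_lit 6) (nat_lit 4) (nat_lit 4) (nat_lit 4) (nat_lit 276) (nat_lit 243) (nat_lit 141)))) (XT.nd (nat_lit 78) (nat_lit 0) (nat_lit 0) (XT.lf (nat_lit 0) (nat_lit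 31477751551) (nat_lit 76) (nat_lit 2044895288002) (nat_lit 76) (nat_lit 1653729102885) (nat_lit 3) (nat_lit 4) (nat_lit 4) (nat_lit 5) (nat_lit 4) (nat_lit 4) (nat_lit 277) (nat_lit 243) (nat_lit 140)) (XT.nd (nat_lit 78) (nat_lit 0) (nat_lit 0) (XT.lf (nat_lit 0) (nat_lit 622184685282) (nat_lit 76) (nat_lit 2016753387285) (nat_lit 76) (nat_lit 1625587173600) (nat_lit 3) (nat_lit 4) (nat_lit 4) (nat_lit 5) (nat_lit 4) (nat_lit 4) (nat_lit 278) (nat_lit 243) (nat_lit 139)) (XT.lf (nat_lit 0) (nat_lit 1301497579063) (nat_lit 76) (nat_lit 1984390239172) (nat_lit 76) (nat_lit 1593224000645) (nat_lit 3) (nat_lit 4) (nat_lit 4) (nat_lit 5) (nat_lit 4) (nat_lit 4) (nat_lit 279) (nat_lit 243) (nat_lit 138))))))) (XT.nd (nat_lit 32370) (nat_lit 0) (nat_lit 532) (XT.nd (nat_lit 31902) (nat_lit 0) (nat_lit 1672) (XT.nd (nat_lit 31668) (nat_lit 0) (nat_lit 2888) (XT.nd (nat_lit 31590) (nat_lit 0)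 (nat_lit 2812) (XT.lf (nat_lit 0) (nat_lit 2082707337337) (nat_lit 76) (nat_lit 1947172651635) (nat_lit 76) (nat_lit 1556006391507) (nat_lit 3) (nat_lit 4) (nat_lit 4) (nat_lit 5) (nat_lit 4) (nat_lit 4) (nat_lit 280) (nat_lit 243) (nat_lit 137)) (XT.lf (nat_lit 0) (nat_lit 28287773025) (nat_lit 532) (nat_lit 15160970601) (nat_lit 532) (nat_lit 15160970601) (nat_lit 40) (nat_lit 3) (nat_lit 47) (nat_lit 3) (nat_lit 47) (nat_lit 5) (nat_lit 244) (nat_lit 244) (nat_lit 172))) (XT.nd (nat_lit 78) (nat_lit 0) (nat_lit 0) (XT.lf (nat_lit 0) (nat_lit 62690337760) (nat_lit 456) (nat_lit 56050408863) (nat_lit 532) (nat_lit 7120375930) (nat_lit 41) (nat_lit 5) (nat_lit 47) (nat_lit 5) (nat_lit 48) (nat_lit 5) (nat_lit 245) (nat_lit 244) (nat_lit 171)) (XT.nd (nat_lit 78) (nat_lit 0) (nat_lit 76) (XT.lf (nat_lit 76) (nat_lit 51205303530) (nat_lit 0) (nat_lit 23056242592) (nat_lit 532) (nat_lit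 61174394681) (nat_lit 42) (nat_lit 5) (nat_lit 41) (nat_lit 5) (nat_lit 48) (nat_lit 5) (nat_lit 246) (nat_lit 244) (nat_lit 170)) (XT.lf (nat_lit 76) (nat_lit 31044943748) (nat_lit 0) (nat_lit 61035038458) (nat_lit 532) (nat_lit 54006080974) (nat_lit 43) (nat_lit 5) (nat_lit 42) (nat_lit 5) (nat_lit 49) (nat_lit 5) (nat_lit 247) (nat_lit 244) (nat_lit 169))))) (XT.nd (nat_lit 234) (nat_lit 608) (nat_lit 0) (XT.nd (nat_lit 78) (nat_lit 304) (nat_lit 0) (XT.lf (nat_lit 0) (nat_lit 9150186426) (nat_lit 456) (nat_lit 107973942495) (nat_lit 532) (nat_lit 40845343813) (nat_lit 37) (nat_lit 5) (nat_lit 43) (nat_lit 5) (nat_lit 44) (nat_lit 5) (nat_lit 248) (nat_lit 244) (nat_lit 168)) (XT.nd (nat_lit 78) (nat_lit 304) (nat_lit 0) (XT.lf (nat_lit 0) (nat_lit 151068665686) (nat_lit 532) (nat_lit 14227107091) (nat_lit 76) (nat_lit 5928123363) (nat_lit 37) (nat_lit 5) (nat_lit 44) (nat_lit 5) (nat_lit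 38) (nat_lit 5) (nat_lit 249) (nat_lit 244) (nat_lit 167)) (XT.lf (nat_lit 0) (nat_lit 10092562815) (nat_lit 304) (nat_lit 41393752428) (nat_lit 76) (nat_lit 134442277002) (nat_lit 33) (nat_lit 5) (nat_lit 37) (nat_lit 5) (nat_lit 34) (nat_lit 5) (nat_lit 250) (nat_lit 244) (nat_lit 166)))) (XT.nd (nat_lit 78) (nat_lit 380) (nat_lit 0) (XT.lf (nat_lit 0) (nat_lit 49313511068) (nat_lit 304) (nat_lit 73366146601) (nat_lit 76) (nat_lit 79667104757) (nat_lit 30) (nat_lit 5) (nat_lit 34) (nat_lit 5) (nat_lit 31) (nat_lit 5) (nat_lit 251) (nat_lit 244) (nat_lit 165)) (XT.nd (nat_lit 78) (nat_lit 152) (nat_lit 0) (XT.lf (nat_lit 0) (nat_lit 99986676403) (nat_lit 304) (nat_lit 110707288032) (nat_lit 76) (nat_lit 10088170062) (nat_lit 27) (nat_lit 5) (nat_lit 31) (nat_lit 5) (nat_lit 28) (nat_lit 5) (nat_lit 252) (nat_lit 244) (nat_lit 164)) (XT.lf (nat_lit 0) (nat_lit 84437517430) (nat_lit 152)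 (nat_lit 81437884656) (nat_lit 228) (nat_lit 75498245493) (nat_lit 25) (nat_lit 5) (nat_lit 27) (nat_lit 5) (nat_lit 28) (nat_lit 5) (nat_lit 253) (nat_lit 244) (nat_lit 163)))))) (XT.nd (nat_lit 390) (nat_lit 456) (nat_lit 0) (XT.nd (nat_lit 156) (nat_lit 304) (nat_lit 0) (XT.nd (nat_lit 78) (nat_lit 228) (nat_lit 0) (XT.lf (nat_lit 0) (nat_lit 51644792436) (nat_lit 152) (nat_lit 196167311778) (nat_lit 228) (nat_lit 16748611779) (nat_lit 23) (nat_lit 5) (nat_lit 25) (nat_lit 5) (nat_lit 26) (nat_lit 5) (nat_lit 254) (nat_lit 244) (nat_lit 162)) (XT.lf (nat_lit 0) (nat_lit 6907833523) (nat_lit 152) (nat_lit 48469433339) (nat_lit 228) (nat_lit 235182358407) (nat_lit 20) (nat_lit 5) (nat_lit 22) (nat_lit 5) (nat_lit 23) (nat_lit 5) (nat_lit 255) (nat_lit 244) (nat_lit 161))) (XT.nd (nat_lit 78) (nat_lit 304) (nat_lit 0) (XT.lf (nat_lit 0) (nat_lit 146637147029) (nat_lit 228) (nat_lit 50907961666)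 (nat_lit 76) (nat_lit 122133915220) (nat_lit 20) (nat_lit 5) (nat_lit 23) (nat_lit 5) (nat_lit 21) (nat_lit 5) (nat_lit 256) (nat_lit 244) (nat_lit 160)) (XT.nd (nat_lit 78) (nat_lit 152) (nat_lit 0) (XT.lf (nat_lit 0) (nat_lit 226749211010) (nat_lit 152) (nat_lit 31630262293) (nat_lit 228) (nat_lit 94243383010) (nat_lit 18) (nat_lit 5) (nat_lit 20) (nat_lit 5) (nat_lit 21) (nat_lit 5) (nat_lit 257) (nat_lit 244) (nat_lit 159)) (XT.lf (nat_lit 0) (nat_lit 6066370358) (nat_lit 152) (nat_lit 226883598030) (nat_lit 76) (nat_lit 156804459386) (nat_lit 16) (nat_lit 5) (nat_lit 18) (nat_lit 5) (nat_lit 17) (nat_lit 5) (nat_lit 258) (nat_lit 244) (nat_lit 158))))) (XT.nd (nat_lit 234) (nat_lit 228) (nat_lit 0) (XT.nd (nat_lit 78) (nat_lit 76) (nat_lit 0) (XT.lf (nat_lit 0) (nat_lit 70327943043) (nat_lit 152) (nat_lit 51998764897) (nat_lit 228) (nat_lit 309414446870) (nat_lit 14) (nat_lit 5)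 (nat_lit 16) (nat_lit 5) (nat_lit 17) (nat_lit 5) (nat_lit 259) (nat_lit 244) (nat_lit 157)) (XT.nd (nat_lit 78) (nat_lit 76) (nat_lit 0) (XT.lf (nat_lit 0) (nat_lit 266556914859) (nat_lit 228) (nat_lit 57563039263) (nat_lit 76) (nat_lit 155063471942) (nat_lit 14) (nat_lit 5) (nat_lit 17) (nat_lit 5) (nat_lit 15) (nat_lit 4) (nat_lit 260) (nat_lit 244) (nat_lit 156)) (XT.lf (nat_lit 0) (nat_lit 305719370073) (nat_lit 76) (nat_lit 135492724129) (nat_lit 152) (nat_lit 91826709069) (nat_lit 13) (nat_lit 5) (nat_lit 14) (nat_lit 5) (nat_lit 15) (nat_lit 4) (nat_lit 261) (nat_lit 244) (nat_lit 155)))) (XT.nd (nat_lit 78) (nat_lit 76) (nat_lit 0) (XT.lf (nat_lit 0) (nat_lit 51890560127) (nat_lit 152) (nat_lit 458736248013) (nat_lit 76) (nat_lit 83682809634) (nat_lit 11) (nat_lit 5) (nat_lit 13) (nat_lit 5) (nat_lit 12) (nat_lit 4) (nat_lit 262) (nat_lit 244) (nat_lit 154)) (XT.nd (nat_lit 78)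 (nat_lit 76) (nat_lit 0) (XT.lf (nat_lit 0) (nat_lit 222420063748) (nat_lit 152) (nat_lit 104035135116) (nat_lit 76) (nat_lit 337269702448) (nat_lit 11) (nat_lit 5) (nat_lit 13) (nat_lit 5) (nat_lit 12) (nat_lit 4) (nat_lit 263) (nat_lit 244) (nat_lit 153)) (XT.lf (nat_lit 0) (nat_lit 319872087974) (nat_lit 76) (nat_lit 106349631790) (nat_lit 152) (nat_lit 316715339819) (nat_lit 10) (nat_lit 5) (nat_lit 11) (nat_lit 5) (nat_lit 12) (nat_lit 4) (nat_lit 264) (nat_lit 244) (nat_lit 152))))))))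
noncomputable def xc52 : XT := (XT.nd (nat_lit 33306) (nat_lit 0) (nat_lit 228) (XT.nd (nat_lit 858) (nat_lit 76) (nat_lit 0) (XT.nd (nat_lit 390) (nat_lit 228) (nat_lit 0) (XT.nd (nat_lit 156) (nat_lit 76) (nat_lit 0) (XT.nd (nat_lit 78) (nat_lit 152) (nat_lit 0) (XT.lf (nat_lit 0) (nat_lit 667230842786) (nat_lit 152) (nat_lit 23732158166) (nat_lit 0) (nat_lit 142537063456) (nat_lit 10) (nat_lit 5) (nat_lit 12) (nat_lit 4) (nat_lit 10) (nat_lit 4) (nat_lit 265) (nat_lit 244) (nat_lit 151)) (XT.lf (nat_lit 0) (nat_lit 20659356133) (nat_lit 152) (nat_lit 481722473597) (nat_lit 76) (nat_lit 434112483782) (nat_lit 8) (nat_lit 5) (nat_lit 10) (nat_lit 5) (nat_lit 9) (nat_lit 4) (nat_lit 266) (nat_lit 244) (nat_lit 150))) (XT.nd (nat_lit 78) (nat_lit 76) (nat_lit 0) (XT.lf (nat_lit 0) (nat_lit 226770870923) (nat_lit 152) (nat_lit 53010657638) (nat_lit 76) (nat_lit 774731585647) (nat_lit 8)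 (nat_lit 5) (nat_lit 10) (nat_lit 5) (nat_lit 9) (nat_lit 4) (nat_lit 267) (nat_lit 244) (nat_lit 149)) (XT.nd (nat_lit 78) (nat_lit 0) (nat_lit 0) (XT.lf (nat_lit 0) (nat_lit 463177716240) (nat_lit 76) (nat_lit 11760698480) (nat_lit 152) (nat_lit 714405176330) (nat_lit 7) (nat_lit 5) (nat_lit 8) (nat_lit 5) (nat_lit 9) (nat_lit 4) (nat_lit 268) (nat_lit 244) (nat_lit 148)) (XT.lf (nat_lit 0) (nat_lit 769044350098) (nat_lit 152) (nat_lit 291440923316) (nat_lit 0) (nat_lit 283216305365) (nat_lit 7) (nat_lit 5) (nat_lit 9) (nat_lit 4) (nat_lit 7) (nat_lit 4) (nat_lit 269) (nat_lit 244) (nat_lit 147))))) (XT.nd (nat_lit 234) (nat_lit 76) (nat_lit 0) (XT.nd (nat_lit 78) (nat_lit 76) (nat_lit 0) (XT.lf (nat_lit 0) (nat_lit 219129022930) (nat_lit 76) (nat_lit 893732375437) (nat_lit 76) (nat_lit 407904248634) (nat_lit 6) (nat_lit 4) (nat_lit 7) (nat_lit 5) (nat_lit 7) (nat_lit 4) (nat_lit 270)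 (nat_lit 244) (nat_lit 146)) (XT.nd (nat_lit 78) (nat_lit 76) (nat_lit 0) (XT.lf (nat_lit 0) (nat_lit 823933057412) (nat_lit 76) (nat_lit 692802837525) (nat_lit 76) (nat_lit 206974639356) (nat_lit 6) (nat_lit 4) (nat_lit 7) (nat_lit 5) (nat_lit 7) (nat_lit 4) (nat_lit 271) (nat_lit 244) (nat_lit 145)) (XT.lf (nat_lit 0) (nat_lit 22889023880) (nat_lit 152) (nat_lit 438219090553) (nat_lit 76) (nat_lit 1495942689639) (nat_lit 5) (nat_lit 5) (nat_lit 7) (nat_lit 5) (nat_lit 6) (nat_lit 4) (nat_lit 272) (nat_lit 244) (nat_lit 144)))) (XT.nd (nat_lit 78) (nat_lit 0) (nat_lit 0) (XT.lf (nat_lit 0) (nat_lit 91421794672) (nat_lit 76) (nat_lit 186102296125) (nat_lit 152) (nat_lit 1947234181433) (nat_lit 4) (nat_lit 5) (nat_lit 5) (nat_lit 5) (nat_lit 6) (nat_lit 4) (nat_lit 273) (nat_lit 244) (nat_lit 143)) (XT.nd (nat_lit 78) (nat_lit 0) (nat_lit 0) (XT.lf (nat_lit 0) (nat_lit 586574224615) (nat_lit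 152) (nat_lit 1808016902011) (nat_lit 0) (nat_lit 136733149511) (nat_lit 4) (nat_lit 5) (nat_lit 6) (nat_lit 4) (nat_lit 4) (nat_lit 4) (nat_lit 274) (nat_lit 244) (nat_lit 142)) (XT.lf (nat_lit 0) (nat_lit 947128946504) (nat_lit 152) (nat_lit 1439046635132) (nat_lit 0) (nat_lit 497287833619) (nat_lit 4) (nat_lit 5) (nat_lit 6) (nat_lit 4) (nat_lit 4) (nat_lit 4) (nat_lit 275) (nat_lit 244) (nat_lit 141)))))) (XT.nd (nat_lit 31980) (nat_lit 0) (nat_lit 2584) (XT.nd (nat_lit 156) (nat_lit 76) (nat_lit 0) (XT.nd (nat_lit 78) (nat_lit 0) (nat_lit 0) (XT.lf (nat_lit 0) (nat_lit 1361766823282) (nat_lit 152) (nat_lit 1014730928740) (nat_lit 0) (nat_lit 911925677544) (nat_lit 4) (nat_lit 5) (nat_lit 6) (nat_lit 4) (nat_lit 4) (nat_lit 4) (nat_lit 276) (nat_lit 244) (nat_lit 140)) (XT.lf (nat_lit 0) (nat_lit 1838600335148) (nat_lit 152) (nat_lit 526767953798) (nat_lit 0) (nat_lit 1388759160842)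 (nat_lit 4) (nat_lit 5) (nat_lit 6) (nat_lit 4) (nat_lit 4) (nat_lit 4) (nat_lit 277) (nat_lit 244) (nat_lit 139))) (XT.nd (nat_lit 78) (nat_lit 0) (nat_lit 0) (XT.lf (nat_lit 0) (nat_lit 36200275784) (nat_lit 76) (nat_lit 2351629175139) (nat_lit 76) (nat_lit 1901787975991) (nat_lit 3) (nat_lit 4) (nat_lit 4) (nat_lit 5) (nat_lit 4) (nat_lit 4) (nat_lit 278) (nat_lit 244) (nat_lit 138)) (XT.nd (nat_lit 78) (nat_lit 0) (nat_lit 0) (XT.lf (nat_lit 0) (nat_lit 715513137205) (nat_lit 76) (nat_lit 2319266042278) (nat_lit 76) (nat_lit 1869424821530) (nat_lit 3) (nat_lit 4) (nat_lit 4) (nat_lit 5) (nat_lit 4) (nat_lit 4) (nat_lit 279) (nat_lit 244) (nat_lit 137)) (XT.lf (nat_lit 0) (nat_lit 1496722867340) (nat_lit 76) (nat_lit 2282048468005) (nat_lit 76) (nat_lit 1832207228473) (nat_lit 3) (nat_lit 4) (nat_lit 4) (nat_lit 5) (nat_lit 4) (nat_lit 4) (nat_lit 280) (nat_lit 244) (nat_lit 136)))))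 (XT.nd (nat_lit 234) (nat_lit 228) (nat_lit 0) (XT.nd (nat_lit 78) (nat_lit 0) (nat_lit 76) (XT.lf (nat_lit 0) (nat_lit 32538350414) (nat_lit 532) (nat_lit 17431098211) (nat_lit 532) (nat_lit 17431098211) (nat_lit 40) (nat_lit 3) (nat_lit 47) (nat_lit 3) (nat_lit 47) (nat_lit 5) (nat_lit 245) (nat_lit 245) (nat_lit 170)) (XT.nd (nat_lit 78) (nat_lit 0) (nat_lit 0) (XT.lf (nat_lit 0) (nat_lit 72106817442) (nat_lit 456) (nat_lit 64449376806) (nat_lit 532) (nat_lit 8183007388) (nat_lit 41) (nat_lit 5) (nat_lit 47) (nat_lit 5) (nat_lit 48) (nat_lit 5) (nat_lit 246) (nat_lit 245) (nat_lit 169)) (XT.lf (nat_lit 76) (nat_lit 58893965058) (nat_lit 0) (nat_lit 26518244784) (nat_lit 532) (nat_lit 70338159730) (nat_lit 42) (nat_lit 5) (nat_lit 41) (nat_lit 5) (nat_lit 48) (nat_lit 5) (nat_lit 247) (nat_lit 245) (nat_lit 168)))) (XT.nd (nat_lit 78) (nat_lit 380) (nat_lit 0) (XT.lf (nat_lit 76) (nat_lit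 35709844884) (nat_lit 0) (nat_lit 70192197016) (nat_lit 532) (nat_lit 62096084196) (nat_lit 43) (nat_lit 5) (nat_lit 42) (nat_lit 5) (nat_lit 49) (nat_lit 5) (nat_lit 248) (nat_lit 245) (nat_lit 167)) (XT.nd (nat_lit 78) (nat_lit 0) (nat_lit 0) (XT.lf (nat_lit 0) (nat_lit 10531000088) (nat_lit 456) (nat_lit 124170657530) (nat_lit 532) (nat_lit 46962487128) (nat_lit 37) (nat_lit 5) (nat_lit 43) (nat_lit 5) (nat_lit 44) (nat_lit 5) (nat_lit 249) (nat_lit 245) (nat_lit 166)) (XT.lf (nat_lit 0) (nat_lit 173736699765) (nat_lit 532) (nat_lit 16353303941) (nat_lit 76) (nat_lit 6816826683) (nat_lit 37) (nat_lit 5) (nat_lit 44) (nat_lit 5) (nat_lit 38) (nat_lit 5) (nat_lit 250) (nat_lit 245) (nat_lit 165))))))) (XT.nd (nat_lit 858) (nat_lit 608) (nat_lit 0) (XT.nd (nat_lit 390) (nat_lit 684) (nat_lit 0) (XT.nd (nat_lit 156) (nat_lit 532) (nat_lit 0) (XT.nd (nat_lit 78) (nat_lit 228) (nat_lit 0)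 (XT.lf (nat_lit 0) (nat_lit 11613551039) (nat_lit 304) (nat_lit 47595212784) (nat_lit 76) (nat_lit 154608523645) (nat_lit 33) (nat_lit 5) (nat_lit 37) (nat_lit 5) (nat_lit 34) (nat_lit 5) (nat_lit 251) (nat_lit 245) (nat_lit 164)) (XT.lf (nat_lit 0) (nat_lit 56716897088) (nat_lit 304) (nat_lit 84363594800) (nat_lit 76) (nat_lit 91617754145) (nat_lit 30) (nat_lit 5) (nat_lit 34) (nat_lit 5) (nat_lit 31) (nat_lit 5) (nat_lit 252) (nat_lit 245) (nat_lit 163))) (XT.nd (nat_lit 78) (nat_lit 304) (nat_lit 0) (XT.lf (nat_lit 0) (nat_lit 114990399851) (nat_lit 304) (nat_lit 127306092954) (nat_lit 76) (nat_lit 11602484970) (nat_lit 27) (nat_lit 5) (nat_lit 31) (nat_lit 5) (nat_lit 28) (nat_lit 5) (nat_lit 253) (nat_lit 245) (nat_lit 162)) (XT.nd (nat_lit 78) (nat_lit 152) (nat_lit 0) (XT.lf (nat_lit 0) (nat_lit 97109816410) (nat_lit 152) (nat_lit 93652032076) (nat_lit 228) (nat_lit 86817418701)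 (nat_lit 25) (nat_lit 5) (nat_lit 27) (nat_lit 5) (nat_lit 28) (nat_lit 5) (nat_lit 254) (nat_lit 245) (nat_lit 161)) (XT.lf (nat_lit 0) (nat_lit 59397975512) (nat_lit 152) (nat_lit 225590598070) (nat_lit 228) (nat_lit 19255863041) (nat_lit 23) (nat_lit 5) (nat_lit 25) (nat_lit 5) (nat_lit 26) (nat_lit 5) (nat_lit 255) (nat_lit 245) (nat_lit 160))))) (XT.nd (nat_lit 234) (nat_lit 304) (nat_lit 0) (XT.nd (nat_lit 78) (nat_lit 152) (nat_lit 0) (XT.lf (nat_lit 0) (nat_lit 7950168667) (nat_lit 152) (nat_lit 55738000165) (nat_lit 228) (nat_lit 270455043621) (nat_lit 20) (nat_lit 5) (nat_lit 22) (nat_lit 5) (nat_lit 23) (nat_lit 5) (nat_lit 256) (nat_lit 245) (nat_lit 159)) (XT.nd (nat_lit 78) (nat_lit 152) (nat_lit 0) (XT.lf (nat_lit 0) (nat_lit 168636507249) (nat_lit 228) (nat_lit 58538527852) (nat_lit 76) (nat_lit 140455529217) (nat_lit 20) (nat_lit 5) (nat_lit 23) (nat_lit 5) (nat_lit 21)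 (nat_lit 5) (nat_lit 257) (nat_lit 245) (nat_lit 158)) (XT.lf (nat_lit 0) (nat_lit 260766744338) (nat_lit 152) (nat_lit 36373067915) (nat_lit 228) (nat_lit 108376190261) (nat_lit 18) (nat_lit 5) (nat_lit 20) (nat_lit 5) (nat_lit 21) (nat_lit 5) (nat_lit 258) (nat_lit 245) (nat_lit 157)))) (XT.nd (nat_lit 78) (nat_lit 152) (nat_lit 0) (XT.lf (nat_lit 0) (nat_lit 6979541510) (nat_lit 152) (nat_lit 260911025512) (nat_lit 76) (nat_lit 180326760576) (nat_lit 16) (nat_lit 5) (nat_lit 18) (nat_lit 5) (nat_lit 17) (nat_lit 5) (nat_lit 259) (nat_lit 245) (nat_lit 156)) (XT.nd (nat_lit 78) (nat_lit 0) (nat_lit 0) (XT.lf (nat_lit 0) (nat_lit 80881813997) (nat_lit 152) (nat_lit 59796808849) (nat_lit 228) (nat_lit 355823466320) (nat_lit 14) (nat_lit 5) (nat_lit 16) (nat_lit 5) (nat_lit 17) (nat_lit 5) (nat_lit 260) (nat_lit 245) (nat_lit 155)) (XT.lf (nat_lit 0) (nat_lit 306543018438) (nat_lit 228)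 (nat_lit 66193255348) (nat_lit 76) (nat_lit 178324455517) (nat_lit 14) (nat_lit 5) (nat_lit 17) (nat_lit 5) (nat_lit 15) (nat_lit 4) (nat_lit 261) (nat_lit 245) (nat_lit 154)))))) (XT.nd (nat_lit 390) (nat_lit 304) (nat_lit 0) (XT.nd (nat_lit 156) (nat_lit 76) (nat_lit 0) (XT.nd (nat_lit 78) (nat_lit 152) (nat_lit 0) (XT.lf (nat_lit 0) (nat_lit 351581156511) (nat_lit 76) (nat_lit 155815076766) (nat_lit 152) (nat_lit 105598199825) (nat_lit 13) (nat_lit 5) (nat_lit 14) (nat_lit 5) (nat_lit 15) (nat_lit 4) (nat_lit 262) (nat_lit 245) (nat_lit 153)) (XT.lf (nat_lit 0) (nat_lit 59676346703) (nat_lit 152) (nat_lit 527542872784) (nat_lit 76) (nat_lit 96236660993) (nat_lit 11) (nat_lit 5) (nat_lit 13) (nat_lit 5) (nat_lit 12) (nat_lit 4) (nat_lit 263) (nat_lit 245) (nat_lit 152))) (XT.nd (nat_lit 78) (nat_lit 76) (nat_lit 0) (XT.lf (nat_lit 0) (nat_lit 255784988577) (nat_lit 152) (nat_lit 119637090226)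 (nat_lit 76) (nat_lit 387861401219) (nat_lit 11) (nat_lit 5) (nat_lit 13) (nat_lit 5) (nat_lit 12) (nat_lit 4) (nat_lit 264) (nat_lit 245) (nat_lit 151)) (XT.nd (nat_lit 78) (nat_lit 0) (nat_lit 0) (XT.lf (nat_lit 0) (nat_lit 367855935716) (nat_lit 76) (nat_lit 122300780443) (nat_lit 152) (nat_lit 364220760448) (nat_lit 10) (nat_lit 5) (nat_lit 11) (nat_lit 5) (nat_lit 12) (nat_lit 4) (nat_lit 265) (nat_lit 245) (nat_lit 150)) (XT.lf (nat_lit 0) (nat_lit 767317007989) (nat_lit 152) (nat_lit 27289246858) (nat_lit 0) (nat_lit 163918693651) (nat_lit 10) (nat_lit 5) (nat_lit 12) (nat_lit 4) (nat_lit 10) (nat_lit 4) (nat_lit 266) (nat_lit 245) (nat_lit 149))))) (XT.nd (nat_lit 234) (nat_lit 76) (nat_lit 0) (XT.nd (nat_lit 78) (nat_lit 76) (nat_lit 0) (XT.lf (nat_lit 0) (nat_lit 23759696195) (nat_lit 152) (nat_lit 553978263471) (nat_lit 76) (nat_lit 499230383953) (nat_lit 8) (nat_lit 5) (nat_lit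 10) (nat_lit 5) (nat_lit 9) (nat_lit 4) (nat_lit 267) (nat_lit 245) (nat_lit 148)) (XT.nd (nat_lit 78) (nat_lit 76) (nat_lit 0) (XT.lf (nat_lit 0) (nat_lit 260787750815) (nat_lit 152) (nat_lit 60960011792) (nat_lit 76) (nat_lit 890942217063) (nat_lit 8) (nat_lit 5) (nat_lit 10) (nat_lit 5) (nat_lit 9) (nat_lit 4) (nat_lit 268) (nat_lit 245) (nat_lit 147)) (XT.lf (nat_lit 0) (nat_lit 532656428183) (nat_lit 76) (nat_lit 13523884464) (nat_lit 152) (nat_lit 821564724701) (nat_lit 7) (nat_lit 5) (nat_lit 8) (nat_lit 5) (nat_lit 9) (nat_lit 4) (nat_lit 269) (nat_lit 245) (nat_lit 146)))) (XT.nd (nat_lit 78) (nat_lit 76) (nat_lit 0) (XT.lf (nat_lit 0) (nat_lit 884402009409) (nat_lit 152) (nat_lit 335155214187) (nat_lit 0) (nat_lit 325699510150) (nat_lit 7) (nat_lit 5) (nat_lit 9) (nat_lit 4) (nat_lit 7) (nat_lit 4) (nat_lit 270) (nat_lit 245) (nat_lit 145)) (XT.nd (nat_lit 78) (nat_lit 0) (nat_lit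 0) (XT.lf (nat_lit 0) (nat_lit 252000067604) (nat_lit 76) (nat_lit 1027791456668) (nat_lit 76) (nat_lit 469088895351) (nat_lit 6) (nat_lit 4) (nat_lit 7) (nat_lit 5) (nat_lit 7) (nat_lit 4) (nat_lit 271) (nat_lit 245) (nat_lit 144)) (XT.lf (nat_lit 0) (nat_lit 947524486662) (nat_lit 76) (nat_lit 796722589166) (nat_lit 76) (nat_lit 238019973887) (nat_lit 6) (nat_lit 4) (nat_lit 7) (nat_lit 5) (nat_lit 7) (nat_lit 4) (nat_lit 272) (nat_lit 245) (nat_lit 143))))))))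
noncomputable def xc53 : XT := (XT.nd (nat_lit 33384) (nat_lit 0) (nat_lit 0) (XT.nd (nat_lit 32526) (nat_lit 0) (nat_lit 1140) (XT.nd (nat_lit 390) (nat_lit 76) (nat_lit 0) (XT.nd (nat_lit 156) (nat_lit 0) (nat_lit 0) (XT.nd (nat_lit 78) (nat_lit 76) (nat_lit 0) (XT.lf (nat_lit 0) (nat_lit 26323089013) (nat_lit 152) (nat_lit 503950637055) (nat_lit 76) (nat_lit 1720334640896) (nat_lit 5) (nat_lit 5) (nat_lit 7) (nat_lit 5) (nat_lit 6) (nat_lit 4) (nat_lit 273) (nat_lit 245) (nat_lit 142)) (XT.lf (nat_lit 0) (nat_lit 105136269470) (nat_lit 76) (nat_lit 214017082682) (nat_lit 152) (nat_lit 2239318608403) (nat_lit 4) (nat_lit 5) (nat_lit 5) (nat_lit 5) (nat_lit 6) (nat_lit 4) (nat_lit 274) (nat_lit 245) (nat_lit 141))) (XT.nd (nat_lit 78) (nat_lit 0) (nat_lit 0) (XT.lf (nat_lit 0) (nat_lit 674560933221) (nat_lit 152) (nat_lit 2079218354973) (nat_lit 0) (nat_lit 157243582769) (nat_lit 4)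 (nat_lit 5) (nat_lit 6) (nat_lit 4) (nat_lit 4) (nat_lit 4) (nat_lit 275) (nat_lit 245) (nat_lit 140)) (XT.nd (nat_lit 78) (nat_lit 0) (nat_lit 0) (XT.lf (nat_lit 0) (nat_lit 1089198788404) (nat_lit 152) (nat_lit 1654902689237) (nat_lit 0) (nat_lit 571881409385) (nat_lit 4) (nat_lit 5) (nat_lit 6) (nat_lit 4) (nat_lit 4) (nat_lit 4) (nat_lit 276) (nat_lit 245) (nat_lit 139)) (XT.lf (nat_lit 0) (nat_lit 1566032281491) (nat_lit 152) (nat_lit 1166939749647) (nat_lit 0) (nat_lit 1048714877630) (nat_lit 4) (nat_lit 5) (nat_lit 6) (nat_lit 4) (nat_lit 4) (nat_lit 4) (nat_lit 277) (nat_lit 245) (nat_lit 138))))) (XT.nd (nat_lit 31902) (nat_lit 0) (nat_lit 2812) (XT.nd (nat_lit 78) (nat_lit 76) (nat_lit 0) (XT.lf (nat_lit 0) (nat_lit 2114390763435) (nat_lit 152) (nat_lit 605782435212) (nat_lit 0) (nat_lit 1597073337973) (nat_lit 4) (nat_lit 5) (nat_lit 6) (nat_lit 4) (nat_lit 4) (nat_lit 4) (nat_lit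 278) (nat_lit 245) (nat_lit 137)) (XT.nd (nat_lit 78) (nat_lit 0) (nat_lit 0) (XT.lf (nat_lit 0) (nat_lit 41630968570) (nat_lit 76) (nat_lit 2704373244367) (nat_lit 76) (nat_lit 2187055800121) (nat_lit 3) (nat_lit 4) (nat_lit 4) (nat_lit 5) (nat_lit 4) (nat_lit 4) (nat_lit 279) (nat_lit 245) (nat_lit 136)) (XT.lf (nat_lit 0) (nat_lit 822840674236) (nat_lit 76) (nat_lit 2667155681627) (nat_lit 76) (nat_lit 2149838221047) (nat_lit 3) (nat_lit 4) (nat_lit 4) (nat_lit 5) (nat_lit 4) (nat_lit 4) (nat_lit 280) (nat_lit 245) (nat_lit 135)))) (XT.nd (nat_lit 78) (nat_lit 0) (nat_lit 76) (XT.lf (nat_lit 0) (nat_lit 37424707085) (nat_lit 532) (nat_lit 20042724771) (nat_lit 532) (nat_lit 20042724771) (nat_lit 40) (nat_lit 3) (nat_lit 47) (nat_lit 3) (nat_lit 47) (nat_lit 5) (nat_lit 246) (nat_lit 246) (nat_lit 168)) (XT.nd (nat_lit 78) (nat_lit 0) (nat_lit 0) (XT.lf (nat_lit 0) (nat_lit 82932616253)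 (nat_lit 456) (nat_lit 74110285493) (nat_lit 532) (nat_lit 9406356468) (nat_lit 41) (nat_lit 5) (nat_lit 47) (nat_lit 5) (nat_lit 48) (nat_lit 5) (nat_lit 247) (nat_lit 246) (nat_lit 167)) (XT.lf (nat_lit 76) (nat_lit 67734007642) (nat_lit 0) (nat_lit 30498677760) (nat_lit 532) (nat_lit 80879511929) (nat_lit 42) (nat_lit 5) (nat_lit 41) (nat_lit 5) (nat_lit 48) (nat_lit 5) (nat_lit 248) (nat_lit 246) (nat_lit 166)))))) (XT.nd (nat_lit 390) (nat_lit 912) (nat_lit 0) (XT.nd (nat_lit 156) (nat_lit 532) (nat_lit 0) (XT.nd (nat_lit 78) (nat_lit 380) (nat_lit 0) (XT.lf (nat_lit 76) (nat_lit 41072491426) (nat_lit 0) (nat_lit 80722465351) (nat_lit 532) (nat_lit 71402248112) (nat_lit 43) (nat_lit 5) (nat_lit 42) (nat_lit 5) (nat_lit 49) (nat_lit 5) (nat_lit 249) (nat_lit 246) (nat_lit 165)) (XT.lf (nat_lit 0) (nat_lit 12116915280) (nat_lit 456) (nat_lit 142796727737) (nat_lit 532) (nat_lit 53999557168)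 (nat_lit 37) (nat_lit 5) (nat_lit 43) (nat_lit 5) (nat_lit 44) (nat_lit 5) (nat_lit 250) (nat_lit 246) (nat_lit 164))) (XT.nd (nat_lit 78) (nat_lit 532) (nat_lit 0) (XT.lf (nat_lit 0) (nat_lit 199803052916) (nat_lit 532) (nat_lit 18800349276) (nat_lit 76) (nat_lit 7838961132) (nat_lit 37) (nat_lit 5) (nat_lit 44) (nat_lit 5) (nat_lit 38) (nat_lit 5) (nat_lit 251) (nat_lit 246) (nat_lit 163)) (XT.nd (nat_lit 78) (nat_lit 228) (nat_lit 0) (XT.lf (nat_lit 0) (nat_lit 13360955190) (nat_lit 304) (nat_lit 54728746114) (nat_lit 76) (nat_lit 177799730427) (nat_lit 33) (nat_lit 5) (nat_lit 37) (nat_lit 5) (nat_lit 34) (nat_lit 5) (nat_lit 252) (nat_lit 246) (nat_lit 162)) (XT.lf (nat_lit 0) (nat_lit 65229240241) (nat_lit 304) (nat_lit 97012482760) (nat_lit 76) (nat_lit 105360858609) (nat_lit 30) (nat_lit 5) (nat_lit 34) (nat_lit 5) (nat_lit 31) (nat_lit 5) (nat_lit 253) (nat_lit 246) (nat_lit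 161))))) (XT.nd (nat_lit 234) (nat_lit 380) (nat_lit 0) (XT.nd (nat_lit 78) (nat_lit 304) (nat_lit 0) (XT.lf (nat_lit 0) (nat_lit 132243286473) (nat_lit 304) (nat_lit 146396495909) (nat_lit 76) (nat_lit 13343681457) (nat_lit 27) (nat_lit 5) (nat_lit 31) (nat_lit 5) (nat_lit 28) (nat_lit 5) (nat_lit 254) (nat_lit 246) (nat_lit 160)) (XT.nd (nat_lit 78) (nat_lit 152) (nat_lit 0) (XT.lf (nat_lit 0) (nat_lit 111681333383) (nat_lit 152) (nat_lit 107698675997) (nat_lit 228) (nat_lit 99835824612) (nat_lit 25) (nat_lit 5) (nat_lit 27) (nat_lit 5) (nat_lit 28) (nat_lit 5) (nat_lit 255) (nat_lit 246) (nat_lit 159)) (XT.lf (nat_lit 0) (nat_lit 68312559710) (nat_lit 152) (nat_lit 259427818801) (nat_lit 228) (nat_lit 22140431151) (nat_lit 23) (nat_lit 5) (nat_lit 25) (nat_lit 5) (nat_lit 26) (nat_lit 5) (nat_lit 256) (nat_lit 246) (nat_lit 158)))) (XT.nd (nat_lit 78) (nat_lit 152) (nat_lit 0) (XT.lf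 (nat_lit 0) (nat_lit 9147351899) (nat_lit 152) (nat_lit 64097302705) (nat_lit 228) (nat_lit 311019770071) (nat_lit 20) (nat_lit 5) (nat_lit 22) (nat_lit 5) (nat_lit 23) (nat_lit 5) (nat_lit 257) (nat_lit 246) (nat_lit 157)) (XT.nd (nat_lit 78) (nat_lit 152) (nat_lit 0) (XT.lf (nat_lit 0) (nat_lit 193934847733) (nat_lit 228) (nat_lit 67315051405) (nat_lit 76) (nat_lit 161525013015) (nat_lit 20) (nat_lit 5) (nat_lit 23) (nat_lit 5) (nat_lit 21) (nat_lit 5) (nat_lit 258) (nat_lit 246) (nat_lit 156)) (XT.lf (nat_lit 0) (nat_lit 299885651396) (nat_lit 152) (nat_lit 41827717160) (nat_lit 228) (nat_lit 124629820917) (nat_lit 18) (nat_lit 5) (nat_lit 20) (nat_lit 5) (nat_lit 21) (nat_lit 5) (nat_lit 259) (nat_lit 246) (nat_lit 155))))))) (XT.nd (nat_lit 858) (nat_lit 304) (nat_lit 0) (XT.nd (nat_lit 390) (nat_lit 304) (nat_lit 0) (XT.nd (nat_lit 156) (nat_lit 228) (nat_lit 0) (XT.nd (nat_lit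 78) (nat_lit 152) (nat_lit 0) (XT.lf (nat_lit 0) (nat_lit 8028904191) (nat_lit 152) (nat_lit 300043813764) (nat_lit 76) (nat_lit 207377008902) (nat_lit 16) (nat_lit 5) (nat_lit 18) (nat_lit 5) (nat_lit 17) (nat_lit 5) (nat_lit 260) (nat_lit 246) (nat_lit 154)) (XT.lf (nat_lit 0) (nat_lit 93017624470) (nat_lit 152) (nat_lit 68764991210) (nat_lit 228) (nat_lit 409194606245) (nat_lit 14) (nat_lit 5) (nat_lit 16) (nat_lit 5) (nat_lit 17) (nat_lit 5) (nat_lit 261) (nat_lit 246) (nat_lit 153))) (XT.nd (nat_lit 78) (nat_lit 228) (nat_lit 0) (XT.lf (nat_lit 0) (nat_lit 352526411733) (nat_lit 228) (nat_lit 76119037748) (nat_lit 76) (nat_lit 205074229920) (nat_lit 14) (nat_lit 5) (nat_lit 17) (nat_lit 5) (nat_lit 15) (nat_lit 4) (nat_lit 262) (nat_lit 246) (nat_lit 152)) (XT.nd (nat_lit 78) (nat_lit 152) (nat_lit 0) (XT.lf (nat_lit 0) (nat_lit 404321264526) (nat_lit 76) (nat_lit 179186161735) (nat_lit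 152) (nat_lit 121436027640) (nat_lit 13) (nat_lit 5) (nat_lit 14) (nat_lit 5) (nat_lit 15) (nat_lit 4) (nat_lit 263) (nat_lit 246) (nat_lit 151)) (XT.lf (nat_lit 0) (nat_lit 68629464158) (nat_lit 152) (nat_lit 606671420956) (nat_lit 76) (nat_lit 110673241363) (nat_lit 11) (nat_lit 5) (nat_lit 13) (nat_lit 5) (nat_lit 12) (nat_lit 4) (nat_lit 264) (nat_lit 246) (nat_lit 150))))) (XT.nd (nat_lit 234) (nat_lit 228) (nat_lit 0) (XT.nd (nat_lit 78) (nat_lit 76) (nat_lit 0) (XT.lf (nat_lit 0) (nat_lit 294154185081) (nat_lit 152) (nat_lit 137580147025) (nat_lit 76) (nat_lit 446041551594) (nat_lit 11) (nat_lit 5) (nat_lit 13) (nat_lit 5) (nat_lit 12) (nat_lit 4) (nat_lit 265) (nat_lit 246) (nat_lit 149)) (XT.nd (nat_lit 78) (nat_lit 0) (nat_lit 0) (XT.lf (nat_lit 0) (nat_lit 423036620626) (nat_lit 76) (nat_lit 140644917460) (nat_lit 152) (nat_lit 418852452704) (nat_lit 10) (nat_lit 5) (nat_lit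 11) (nat_lit 5) (nat_lit 12) (nat_lit 4) (nat_lit 266) (nat_lit 246) (nat_lit 148)) (XT.lf (nat_lit 0) (nat_lit 882415722729) (nat_lit 152) (nat_lit 31380565809) (nat_lit 0) (nat_lit 188507307285) (nat_lit 10) (nat_lit 5) (nat_lit 12) (nat_lit 4) (nat_lit 10) (nat_lit 4) (nat_lit 267) (nat_lit 246) (nat_lit 147)))) (XT.nd (nat_lit 78) (nat_lit 76) (nat_lit 0) (XT.lf (nat_lit 0) (nat_lit 27324736932) (nat_lit 152) (nat_lit 637073051260) (nat_lit 76) (nat_lit 574115718563) (nat_lit 8) (nat_lit 5) (nat_lit 10) (nat_lit 5) (nat_lit 9) (nat_lit 4) (nat_lit 268) (nat_lit 246) (nat_lit 146)) (XT.nd (nat_lit 78) (nat_lit 76) (nat_lit 0) (XT.lf (nat_lit 0) (nat_lit 299906858053) (nat_lit 152) (nat_lit 70102316403) (nat_lit 76) (nat_lit 1024584225289) (nat_lit 8) (nat_lit 5) (nat_lit 10) (nat_lit 5) (nat_lit 9) (nat_lit 4) (nat_lit 269) (nat_lit 246) (nat_lit 145)) (XT.lf (nat_lit 0) (nat_lit 612556445913)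 (nat_lit 76) (nat_lit 15551772398) (nat_lit 152) (nat_lit 944798504801) (nat_lit 7) (nat_lit 5) (nat_lit 8) (nat_lit 5) (nat_lit 9) (nat_lit 4) (nat_lit 270) (nat_lit 246) (nat_lit 144)))))) (XT.nd (nat_lit 390) (nat_lit 76) (nat_lit 0) (XT.nd (nat_lit 156) (nat_lit 152) (nat_lit 0) (XT.nd (nat_lit 78) (nat_lit 76) (nat_lit 0) (XT.lf (nat_lit 0) (nat_lit 1017063072103) (nat_lit 152) (nat_lit 385427099244) (nat_lit 0) (nat_lit 374555010570) (nat_lit 7) (nat_lit 5) (nat_lit 9) (nat_lit 4) (nat_lit 7) (nat_lit 4) (nat_lit 271) (nat_lit 246) (nat_lit 143)) (XT.lf (nat_lit 0) (nat_lit 289801356561) (nat_lit 76) (nat_lit 1181959589092) (nat_lit 76) (nat_lit 539451480635) (nat_lit 6) (nat_lit 4) (nat_lit 7) (nat_lit 5) (nat_lit 7) (nat_lit 4) (nat_lit 272) (nat_lit 246) (nat_lit 142))) (XT.nd (nat_lit 78) (nat_lit 152) (nat_lit 0) (XT.lf (nat_lit 0) (nat_lit 1089654271675) (nat_lit 76) (nat_lit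 916230467910) (nat_lit 76) (nat_lit 273722318650) (nat_lit 6) (nat_lit 4) (nat_lit 7) (nat_lit 5) (nat_lit 7) (nat_lit 4) (nat_lit 273) (nat_lit 246) (nat_lit 141)) (XT.nd (nat_lit 78) (nat_lit 76) (nat_lit 0) (XT.lf (nat_lit 0) (nat_lit 30272090399) (nat_lit 152) (nat_lit 579542236711) (nat_lit 76) (nat_lit 1978385251254) (nat_lit 5) (nat_lit 5) (nat_lit 7) (nat_lit 5) (nat_lit 6) (nat_lit 4) (nat_lit 274) (nat_lit 246) (nat_lit 140)) (XT.lf (nat_lit 0) (nat_lit 120907621494) (nat_lit 76) (nat_lit 246119223260) (nat_lit 152) (nat_lit 2575215870178) (nat_lit 4) (nat_lit 5) (nat_lit 5) (nat_lit 5) (nat_lit 6) (nat_lit 4) (nat_lit 275) (nat_lit 246) (nat_lit 139))))) (XT.nd (nat_lit 234) (nat_lit 76) (nat_lit 0) (XT.nd (nat_lit 78) (nat_lit 0) (nat_lit 0) (XT.lf (nat_lit 0) (nat_lit 775745507921) (nat_lit 152) (nat_lit 2391100289815) (nat_lit 0) (nat_lit 180830468639) (nat_lit 4) (nat_lit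 5) (nat_lit 6) (nat_lit 4) (nat_lit 4) (nat_lit 4) (nat_lit 276) (nat_lit 246) (nat_lit 138)) (XT.nd (nat_lit 78) (nat_lit 0) (nat_lit 0) (XT.lf (nat_lit 0) (nat_lit 1252578984679) (nat_lit 152) (nat_lit 1903137380966) (nat_lit 0) (nat_lit 657663923796) (nat_lit 4) (nat_lit 5) (nat_lit 6) (nat_lit 4) (nat_lit 4) (nat_lit 4) (nat_lit 277) (nat_lit 246) (nat_lit 137)) (XT.lf (nat_lit 0) (nat_lit 1800937452424) (nat_lit 152) (nat_lit 1341980093263) (nat_lit 0) (nat_lit 1206022372757) (nat_lit 4) (nat_lit 5) (nat_lit 6) (nat_lit 4) (nat_lit 4) (nat_lit 4) (nat_lit 278) (nat_lit 246) (nat_lit 136)))) (XT.nd (nat_lit 78) (nat_lit 76) (nat_lit 0) (XT.lf (nat_lit 0) (nat_lit 2431549663784) (nat_lit 152) (nat_lit 696649262379) (nat_lit 0) (nat_lit 1836634567783) (nat_lit 4) (nat_lit 5) (nat_lit 6) (nat_lit 4) (nat_lit 4) (nat_lit 4) (nat_lit 279) (nat_lit 246) (nat_lit 135)) (XT.nd (nat_lit 31824)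 (nat_lit 0) (nat_lit 2812) (XT.lf (nat_lit 0) (nat_lit 47876106421) (nat_lit 76) (nat_lit 3110028998854) (nat_lit 76) (nat_lit 2515113888650) (nat_lit 3) (nat_lit 4) (nat_lit 4) (nat_lit 5) (nat_lit 4) (nat_lit 4) (nat_lit 280) (nat_lit 246) (nat_lit 134)) (XT.lf (nat_lit 0) (nat_lit 43042650660) (nat_lit 532) (nat_lit 23046836193) (nat_lit 532) (nat_lit 23046836193) (nat_lit 40) (nat_lit 3) (nat_lit 47) (nat_lit 3) (nat_lit 47) (nat_lit 5) (nat_lit 247) (nat_lit 247) (nat_lit 166))))))))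
noncomputable def xc54 : XT := (XT.nd (nat_lit 1716) (nat_lit 304) (nat_lit 0) (XT.nd (nat_lit 858) (nat_lit 912) (nat_lit 0) (XT.nd (nat_lit 390) (nat_lit 1292) (nat_lit 0) (XT.nd (nat_lit 156) (nat_lit 304) (nat_lit 0) (XT.nd (nat_lit 78) (nat_lit 0) (nat_lit 0) (XT.lf (nat_lit 0) (nat_lit 95379900899) (nat_lit 456) (nat_lit 85221915021) (nat_lit 532) (nat_lit 10814208215) (nat_lit 41) (nat_lit 5) (nat_lit 47) (nat_lit 5) (nat_lit 48) (nat_lit 5) (nat_lit 248) (nat_lit 247) (nat_lit 165)) (XT.lf (nat_lit 76) (nat_lit 77898606199) (nat_lit 0) (nat_lit 35075518184) (nat_lit 532) (nat_lit 93004352321) (nat_lit 42) (nat_lit 5) (nat_lit 41) (nat_lit 5) (nat_lit 48) (nat_lit 5) (nat_lit 249) (nat_lit 247) (nat_lit 164))) (XT.nd (nat_lit 78) (nat_lit 380) (nat_lit 0) (XT.lf (nat_lit 76) (nat_lit 47238030402) (nat_lit 0) (nat_lit 92831923080) (nat_lit 532) (nat_lit 82106348116) (nat_lit 43)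 (nat_lit 5) (nat_lit 42) (nat_lit 5) (nat_lit 49) (nat_lit 5) (nat_lit 250) (nat_lit 247) (nat_lit 163)) (XT.nd (nat_lit 78) (nat_lit 0) (nat_lit 0) (XT.lf (nat_lit 0) (nat_lit 13939189947) (nat_lit 456) (nat_lit 164216593477) (nat_lit 532) (nat_lit 62093968603) (nat_lit 37) (nat_lit 5) (nat_lit 43) (nat_lit 5) (nat_lit 44) (nat_lit 5) (nat_lit 251) (nat_lit 247) (nat_lit 162)) (XT.lf (nat_lit 0) (nat_lit 229777932922) (nat_lit 532) (nat_lit 21615902418) (nat_lit 76) (nat_lit 9014510744) (nat_lit 37) (nat_lit 5) (nat_lit 44) (nat_lit 5) (nat_lit 38) (nat_lit 5) (nat_lit 252) (nat_lit 247) (nat_lit 161))))) (XT.nd (nat_lit 234) (nat_lit 532) (nat_lit 0) (XT.nd (nat_lit 78) (nat_lit 456) (nat_lit 0) (XT.lf (nat_lit 0) (nat_lit 15369160090) (nat_lit 304) (nat_lit 62933711274) (nat_lit 76) (nat_lit 204469635727) (nat_lit 33) (nat_lit 5) (nat_lit 37) (nat_lit 5) (nat_lit 34) (nat_lit 5) (nat_lit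 253) (nat_lit 247) (nat_lit 160)) (XT.nd (nat_lit 78) (nat_lit 228) (nat_lit 0) (XT.lf (nat_lit 0) (nat_lit 75017262261) (nat_lit 304) (nat_lit 111560082009) (nat_lit 76) (nat_lit 121165321118) (nat_lit 30) (nat_lit 5) (nat_lit 34) (nat_lit 5) (nat_lit 31) (nat_lit 5) (nat_lit 254) (nat_lit 247) (nat_lit 159)) (XT.lf (nat_lit 0) (nat_lit 152083051010) (nat_lit 304) (nat_lit 168351803196) (nat_lit 76) (nat_lit 15345856543) (nat_lit 27) (nat_lit 5) (nat_lit 31) (nat_lit 5) (nat_lit 28) (nat_lit 5) (nat_lit 255) (nat_lit 247) (nat_lit 158)))) (XT.nd (nat_lit 78) (nat_lit 380) (nat_lit 0) (XT.lf (nat_lit 0) (nat_lit 128437347765) (nat_lit 152) (nat_lit 123852599597) (nat_lit 228) (nat_lit 114808017289) (nat_lit 25) (nat_lit 5) (nat_lit 27) (nat_lit 5) (nat_lit 28) (nat_lit 5) (nat_lit 256) (nat_lit 247) (nat_lit 157)) (XT.nd (nat_lit 78) (nat_lit 228) (nat_lit 0) (XT.lf (nat_lit 0) (nat_lit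 78563139600) (nat_lit 152) (nat_lit 298340956477) (nat_lit 228) (nat_lit 25458613899) (nat_lit 23) (nat_lit 5) (nat_lit 25) (nat_lit 5) (nat_lit 26) (nat_lit 5) (nat_lit 257) (nat_lit 247) (nat_lit 156)) (XT.lf (nat_lit 0) (nat_lit 10522976750) (nat_lit 152) (nat_lit 73710841411) (nat_lit 228) (nat_lit 357670066325) (nat_lit 20) (nat_lit 5) (nat_lit 22) (nat_lit 5) (nat_lit 23) (nat_lit 5) (nat_lit 258) (nat_lit 247) (nat_lit 155)))))) (XT.nd (nat_lit 390) (nat_lit 456) (nat_lit 0) (XT.nd (nat_lit 156) (nat_lit 304) (nat_lit 0) (XT.nd (nat_lit 78) (nat_lit 152) (nat_lit 0) (XT.lf (nat_lit 0) (nat_lit 223027240788) (nat_lit 228) (nat_lit 77409091253) (nat_lit 76) (nat_lit 185754637870) (nat_lit 20) (nat_lit 5) (nat_lit 23) (nat_lit 5) (nat_lit 21) (nat_lit 5) (nat_lit 259) (nat_lit 247) (nat_lit 154)) (XT.lf (nat_lit 0) (nat_lit 344871444593) (nat_lit 152) (nat_lit 48100883473) (nat_lit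 228) (nat_lit 143322178453) (nat_lit 18) (nat_lit 5) (nat_lit 20) (nat_lit 5) (nat_lit 21) (nat_lit 5) (nat_lit 260) (nat_lit 247) (nat_lit 153))) (XT.nd (nat_lit 78) (nat_lit 152) (nat_lit 0) (XT.lf (nat_lit 0) (nat_lit 9235078349) (nat_lit 152) (nat_lit 345047462899) (nat_lit 76) (nat_lit 238484493500) (nat_lit 16) (nat_lit 5) (nat_lit 18) (nat_lit 5) (nat_lit 17) (nat_lit 5) (nat_lit 261) (nat_lit 247) (nat_lit 152)) (XT.nd (nat_lit 78) (nat_lit 0) (nat_lit 0) (XT.lf (nat_lit 0) (nat_lit 106972943659) (nat_lit 152) (nat_lit 79078727440) (nat_lit 228) (nat_lit 470571997543) (nat_lit 14) (nat_lit 5) (nat_lit 16) (nat_lit 5) (nat_lit 17) (nat_lit 5) (nat_lit 262) (nat_lit 247) (nat_lit 151)) (XT.lf (nat_lit 0) (nat_lit 405406840812) (nat_lit 228) (nat_lit 87534469288) (nat_lit 76) (nat_lit 235836200760) (nat_lit 14) (nat_lit 5) (nat_lit 17) (nat_lit 5) (nat_lit 15) (nat_lit 4) (nat_lit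 263) (nat_lit 247) (nat_lit 150))))) (XT.nd (nat_lit 234) (nat_lit 228) (nat_lit 0) (XT.nd (nat_lit 78) (nat_lit 152) (nat_lit 0) (XT.lf (nat_lit 0) (nat_lit 464971673137) (nat_lit 76) (nat_lit 206063196358) (nat_lit 152) (nat_lit 139649993481) (nat_lit 13) (nat_lit 5) (nat_lit 14) (nat_lit 5) (nat_lit 15) (nat_lit 4) (nat_lit 264) (nat_lit 247) (nat_lit 149)) (XT.nd (nat_lit 78) (nat_lit 0) (nat_lit 0) (XT.lf (nat_lit 0) (nat_lit 78925143101) (nat_lit 152) (nat_lit 697669954329) (nat_lit 76) (nat_lit 127275045125) (nat_lit 11) (nat_lit 5) (nat_lit 13) (nat_lit 5) (nat_lit 12) (nat_lit 4) (nat_lit 265) (nat_lit 247) (nat_lit 148)) (XT.lf (nat_lit 0) (nat_lit 338278407904) (nat_lit 152) (nat_lit 158215273627) (nat_lit 76) (nat_lit 512948495253) (nat_lit 11) (nat_lit 5) (nat_lit 13) (nat_lit 5) (nat_lit 12) (nat_lit 4) (nat_lit 266) (nat_lit 247) (nat_lit 147)))) (XT.nd (nat_lit 78) (nat_lit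 152) (nat_lit 0) (XT.lf (nat_lit 0) (nat_lit 486493848731) (nat_lit 76) (nat_lit 161740914021) (nat_lit 152) (nat_lit 481679245517) (nat_lit 10) (nat_lit 5) (nat_lit 11) (nat_lit 5) (nat_lit 12) (nat_lit 4) (nat_lit 267) (nat_lit 247) (nat_lit 146)) (XT.nd (nat_lit 78) (nat_lit 152) (nat_lit 0) (XT.lf (nat_lit 0) (nat_lit 1014778960944) (nat_lit 152) (nat_lit 36086086916) (nat_lit 0) (nat_lit 216784015541) (nat_lit 10) (nat_lit 5) (nat_lit 12) (nat_lit 4) (nat_lit 10) (nat_lit 4) (nat_lit 268) (nat_lit 247) (nat_lit 145)) (XT.lf (nat_lit 0) (nat_lit 31424268877) (nat_lit 152) (nat_lit 732632533159) (nat_lit 76) (nat_lit 660233663883) (nat_lit 8) (nat_lit 5) (nat_lit 10) (nat_lit 5) (nat_lit 9) (nat_lit 4) (nat_lit 269) (nat_lit 247) (nat_lit 144))))))) (XT.nd (nat_lit 32760) (nat_lit 0) (nat_lit 1216) (XT.nd (nat_lit 390) (nat_lit 152) (nat_lit 0) (XT.nd (nat_lit 156) (nat_lit 76) (nat_lit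 0) (XT.nd (nat_lit 78) (nat_lit 76) (nat_lit 0) (XT.lf (nat_lit 0) (nat_lit 344893601026) (nat_lit 152) (nat_lit 80616380568) (nat_lit 76) (nat_lit 1178272369983) (nat_lit 8) (nat_lit 5) (nat_lit 10) (nat_lit 5) (nat_lit 9) (nat_lit 4) (nat_lit 270) (nat_lit 247) (nat_lit 143)) (XT.lf (nat_lit 0) (nat_lit 704441087471) (nat_lit 76) (nat_lit 17884012938) (nat_lit 152) (nat_lit 1086517578363) (nat_lit 7) (nat_lit 5) (nat_lit 8) (nat_lit 5) (nat_lit 9) (nat_lit 4) (nat_lit 271) (nat_lit 247) (nat_lit 142))) (XT.nd (nat_lit 78) (nat_lit 76) (nat_lit 0) (XT.lf (nat_lit 0) (nat_lit 1169623108558) (nat_lit 152) (nat_lit 443240107744) (nat_lit 0) (nat_lit 430738696105) (nat_lit 7) (nat_lit 5) (nat_lit 9) (nat_lit 4) (nat_lit 7) (nat_lit 4) (nat_lit 272) (nat_lit 247) (nat_lit 141)) (XT.nd (nat_lit 78) (nat_lit 0) (nat_lit 0) (XT.lf (nat_lit 0) (nat_lit 333272527014) (nat_lit 76) (nat_lit 1359253084299)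 (nat_lit 76) (nat_lit 620368636364) (nat_lit 6) (nat_lit 4) (nat_lit 7) (nat_lit 5) (nat_lit 7) (nat_lit 4) (nat_lit 273) (nat_lit 247) (nat_lit 140)) (XT.lf (nat_lit 0) (nat_lit 1253103253269) (nat_lit 76) (nat_lit 1053664652743) (nat_lit 76) (nat_lit 314780173955) (nat_lit 6) (nat_lit 4) (nat_lit 7) (nat_lit 5) (nat_lit 7) (nat_lit 4) (nat_lit 274) (nat_lit 247) (nat_lit 139))))) (XT.nd (nat_lit 234) (nat_lit 0) (nat_lit 0) (XT.nd (nat_lit 78) (nat_lit 76) (nat_lit 0) (XT.lf (nat_lit 0) (nat_lit 34813310790) (nat_lit 152) (nat_lit 666472819173) (nat_lit 76) (nat_lit 2275143352154) (nat_lit 5) (nat_lit 5) (nat_lit 7) (nat_lit 5) (nat_lit 6) (nat_lit 4) (nat_lit 275) (nat_lit 247) (nat_lit 138)) (XT.nd (nat_lit 78) (nat_lit 0) (nat_lit 0) (XT.lf (nat_lit 0) (nat_lit 139044454022) (nat_lit 76) (nat_lit 283036787789) (nat_lit 152) (nat_lit 2961497850338) (nat_lit 4) (nat_lit 5) (nat_lit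 5) (nat_lit 5) (nat_lit 6) (nat_lit 4) (nat_lit 276) (nat_lit 247) (nat_lit 137)) (XT.lf (nat_lit 0) (nat_lit 892107662818) (nat_lit 152) (nat_lit 2749764714456) (nat_lit 0) (nat_lit 207955302417) (nat_lit 4) (nat_lit 5) (nat_lit 6) (nat_lit 4) (nat_lit 4) (nat_lit 4) (nat_lit 277) (nat_lit 247) (nat_lit 136)))) (XT.nd (nat_lit 78) (nat_lit 0) (nat_lit 0) (XT.lf (nat_lit 0) (nat_lit 1440466118215) (nat_lit 152) (nat_lit 2188607449997) (nat_lit 0) (nat_lit 756313741481) (nat_lit 4) (nat_lit 5) (nat_lit 6) (nat_lit 4) (nat_lit 4) (nat_lit 4) (nat_lit 278) (nat_lit 247) (nat_lit 135)) (XT.nd (nat_lit 31980) (nat_lit 0) (nat_lit 2736) (XT.lf (nat_lit 0) (nat_lit 2071078318838) (nat_lit 152) (nat_lit 1543276639327) (nat_lit 0) (nat_lit 1386925927901) (nat_lit 4) (nat_lit 5) (nat_lit 6) (nat_lit 4) (nat_lit 4) (nat_lit 4) (nat_lit 279) (nat_lit 247) (nat_lit 134)) (XT.lf (nat_lit 0) (nat_lit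 49502252426) (nat_lit 532) (nat_lit 26502124538) (nat_lit 532) (nat_lit 26502124538) (nat_lit 40) (nat_lit 3) (nat_lit 47) (nat_lit 3) (nat_lit 47) (nat_lit 5) (nat_lit 248) (nat_lit 248) (nat_lit 164)))))) (XT.nd (nat_lit 390) (nat_lit 1292) (nat_lit 0) (XT.nd (nat_lit 156) (nat_lit 304) (nat_lit 0) (XT.nd (nat_lit 78) (nat_lit 0) (nat_lit 0) (XT.lf (nat_lit 0) (nat_lit 109692475605) (nat_lit 456) (nat_lit 98001487116) (nat_lit 532) (nat_lit 12433994100) (nat_lit 41) (nat_lit 5) (nat_lit 47) (nat_lit 5) (nat_lit 48) (nat_lit 5) (nat_lit 249) (nat_lit 248) (nat_lit 163)) (XT.lf (nat_lit 76) (nat_lit 89586797817) (nat_lit 0) (nat_lit 40338387507) (nat_lit 532) (nat_lit 106949646835) (nat_lit 42) (nat_lit 5) (nat_lit 41) (nat_lit 5) (nat_lit 48) (nat_lit 5) (nat_lit 250) (nat_lit 248) (nat_lit 162))) (XT.nd (nat_lit 78) (nat_lit 380) (nat_lit 0) (XT.lf (nat_lit 76) (nat_lit 54327262571)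 (nat_lit 0) (nat_lit 106757534170) (nat_lit 532) (nat_lit 94417584104) (nat_lit 43) (nat_lit 5) (nat_lit 42) (nat_lit 5) (nat_lit 49) (nat_lit 5) (nat_lit 251) (nat_lit 248) (nat_lit 161)) (XT.nd (nat_lit 78) (nat_lit 0) (nat_lit 0) (XT.lf (nat_lit 0) (nat_lit 16033650575) (nat_lit 456) (nat_lit 188849352124) (nat_lit 532) (nat_lit 71403888362) (nat_lit 37) (nat_lit 5) (nat_lit 43) (nat_lit 5) (nat_lit 44) (nat_lit 5) (nat_lit 252) (nat_lit 248) (nat_lit 160)) (XT.lf (nat_lit 0) (nat_lit 264247966580) (nat_lit 532) (nat_lit 24854885703) (nat_lit 76) (nat_lit 10366464627) (nat_lit 37) (nat_lit 5) (nat_lit 44) (nat_lit 5) (nat_lit 38) (nat_lit 5) (nat_lit 253) (nat_lit 248) (nat_lit 159))))) (XT.nd (nat_lit 234) (nat_lit 532) (nat_lit 0) (XT.nd (nat_lit 78) (nat_lit 456) (nat_lit 0) (XT.lf (nat_lit 0) (nat_lit 17677605273) (nat_lit 304) (nat_lit 72370481191) (nat_lit 76) (nat_lit 235140040055)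 (nat_lit 33) (nat_lit 5) (nat_lit 37) (nat_lit 5) (nat_lit 34) (nat_lit 5) (nat_lit 254) (nat_lit 248) (nat_lit 158)) (XT.nd (nat_lit 78) (nat_lit 228) (nat_lit 0) (XT.lf (nat_lit 0) (nat_lit 86272600927) (nat_lit 304) (nat_lit 128290863184) (nat_lit 76) (nat_lit 139340371625) (nat_lit 30) (nat_lit 5) (nat_lit 34) (nat_lit 5) (nat_lit 31) (nat_lit 5) (nat_lit 255) (nat_lit 248) (nat_lit 157)) (XT.lf (nat_lit 0) (nat_lit 174897982435) (nat_lit 304) (nat_lit 193601422749) (nat_lit 76) (nat_lit 17648206001) (nat_lit 27) (nat_lit 5) (nat_lit 31) (nat_lit 5) (nat_lit 28) (nat_lit 5) (nat_lit 256) (nat_lit 248) (nat_lit 156)))) (XT.nd (nat_lit 78) (nat_lit 380) (nat_lit 0) (XT.lf (nat_lit 0) (nat_lit 147705834146) (nat_lit 152) (nat_lit 142429825794) (nat_lit 228) (nat_lit 132026814577) (nat_lit 25) (nat_lit 5) (nat_lit 27) (nat_lit 5) (nat_lit 28) (nat_lit 5) (nat_lit 257) (nat_lit 248) (nat_lit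 155)) (XT.nd (nat_lit 78) (nat_lit 228) (nat_lit 0) (XT.lf (nat_lit 0) (nat_lit 90350405197) (nat_lit 152) (nat_lit 343091317230) (nat_lit 228) (nat_lit 29275226834) (nat_lit 23) (nat_lit 5) (nat_lit 25) (nat_lit 5) (nat_lit 26) (nat_lit 5) (nat_lit 258) (nat_lit 248) (nat_lit 154)) (XT.lf (nat_lit 0) (nat_lit 12104086451) (nat_lit 152) (nat_lit 84766668606) (nat_lit 228) (nat_lit 411318557932) (nat_lit 20) (nat_lit 5) (nat_lit 22) (nat_lit 5) (nat_lit 23) (nat_lit 5) (nat_lit 259) (nat_lit 248) (nat_lit 153))))))))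
noncomputable def xc55 : XT := (XT.nd (nat_lit 33696) (nat_lit 0) (nat_lit 304) (XT.nd (nat_lit 858) (nat_lit 304) (nat_lit 0) (XT.nd (nat_lit 390) (nat_lit 456) (nat_lit 0) (XT.nd (nat_lit 156) (nat_lit 304) (nat_lit 0) (XT.nd (nat_lit 78) (nat_lit 152) (nat_lit 0) (XT.lf (nat_lit 0) (nat_lit 256482964635) (nat_lit 228) (nat_lit 89018021774) (nat_lit 76) (nat_lit 213618493592) (nat_lit 20) (nat_lit 5) (nat_lit 23) (nat_lit 5) (nat_lit 21) (nat_lit 5) (nat_lit 260) (nat_lit 248) (nat_lit 152)) (XT.lf (nat_lit 0) (nat_lit 396604388494) (nat_lit 152) (nat_lit 55315266458) (nat_lit 228) (nat_lit 164818905522) (nat_lit 18) (nat_lit 5) (nat_lit 20) (nat_lit 5) (nat_lit 21) (nat_lit 5) (nat_lit 261) (nat_lit 248) (nat_lit 151))) (XT.nd (nat_lit 78) (nat_lit 152) (nat_lit 0) (XT.lf (nat_lit 0) (nat_lit 10621730293) (nat_lit 152) (nat_lit 396802372180) (nat_lit 76) (nat_lit 274257873206) (nat_lit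 16) (nat_lit 5) (nat_lit 18) (nat_lit 5) (nat_lit 17) (nat_lit 5) (nat_lit 262) (nat_lit 248) (nat_lit 150)) (XT.nd (nat_lit 78) (nat_lit 0) (nat_lit 0) (XT.lf (nat_lit 0) (nat_lit 123020908284) (nat_lit 152) (nat_lit 90939770997) (nat_lit 228) (nat_lit 541156436388) (nat_lit 14) (nat_lit 5) (nat_lit 16) (nat_lit 5) (nat_lit 17) (nat_lit 5) (nat_lit 263) (nat_lit 248) (nat_lit 149)) (XT.lf (nat_lit 0) (nat_lit 466218976438) (nat_lit 228) (nat_lit 100662806696) (nat_lit 76) (nat_lit 271212263276) (nat_lit 14) (nat_lit 5) (nat_lit 17) (nat_lit 5) (nat_lit 15) (nat_lit 4) (nat_lit 264) (nat_lit 248) (nat_lit 148))))) (XT.nd (nat_lit 234) (nat_lit 228) (nat_lit 0) (XT.nd (nat_lit 78) (nat_lit 152) (nat_lit 0) (XT.lf (nat_lit 0) (nat_lit 534719101940) (nat_lit 76) (nat_lit 236972003117) (nat_lit 152) (nat_lit 160596404938) (nat_lit 13) (nat_lit 5) (nat_lit 14) (nat_lit 5) (nat_lit 15) (nat_lit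 4) (nat_lit 265) (nat_lit 248) (nat_lit 147)) (XT.nd (nat_lit 78) (nat_lit 0) (nat_lit 0) (XT.lf (nat_lit 0) (nat_lit 90764866793) (nat_lit 152) (nat_lit 802318799260) (nat_lit 76) (nat_lit 146366920086) (nat_lit 11) (nat_lit 5) (nat_lit 13) (nat_lit 5) (nat_lit 12) (nat_lit 4) (nat_lit 266) (nat_lit 248) (nat_lit 146)) (XT.lf (nat_lit 0) (nat_lit 389020997112) (nat_lit 152) (nat_lit 181946131437) (nat_lit 76) (nat_lit 589891307099) (nat_lit 11) (nat_lit 5) (nat_lit 13) (nat_lit 5) (nat_lit 12) (nat_lit 4) (nat_lit 267) (nat_lit 248) (nat_lit 145)))) (XT.nd (nat_lit 78) (nat_lit 152) (nat_lit 0) (XT.lf (nat_lit 0) (nat_lit 559469237959) (nat_lit 76) (nat_lit 186001490777) (nat_lit 152) (nat_lit 553930319420) (nat_lit 10) (nat_lit 5) (nat_lit 11) (nat_lit 5) (nat_lit 12) (nat_lit 4) (nat_lit 268) (nat_lit 248) (nat_lit 144)) (XT.nd (nat_lit 78) (nat_lit 152) (nat_lit 0) (XT.lf (nat_lit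 0) (nat_lit 1166996470344) (nat_lit 152) (nat_lit 41497817523) (nat_lit 0) (nat_lit 249302080755) (nat_lit 10) (nat_lit 5) (nat_lit 12) (nat_lit 4) (nat_lit 10) (nat_lit 4) (nat_lit 269) (nat_lit 248) (nat_lit 143)) (XT.lf (nat_lit 0) (nat_lit 36138530309) (nat_lit 152) (nat_lit 842526297224) (nat_lit 76) (nat_lit 759269157727) (nat_lit 8) (nat_lit 5) (nat_lit 10) (nat_lit 5) (nat_lit 9) (nat_lit 4) (nat_lit 270) (nat_lit 248) (nat_lit 142)))))) (XT.nd (nat_lit 390) (nat_lit 152) (nat_lit 0) (XT.nd (nat_lit 156) (nat_lit 76) (nat_lit 0) (XT.nd (nat_lit 78) (nat_lit 76) (nat_lit 0) (XT.lf (nat_lit 0) (nat_lit 396628181267) (nat_lit 152) (nat_lit 92707867298) (nat_lit 76) (nat_lit 1355013611795) (nat_lit 8) (nat_lit 5) (nat_lit 10) (nat_lit 5) (nat_lit 9) (nat_lit 4) (nat_lit 271) (nat_lit 248) (nat_lit 141)) (XT.lf (nat_lit 0) (nat_lit 810108138811) (nat_lit 76) (nat_lit 20566217662) (nat_lit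 152) (nat_lit 1249494684185) (nat_lit 7) (nat_lit 5) (nat_lit 8) (nat_lit 5) (nat_lit 9) (nat_lit 4) (nat_lit 272) (nat_lit 248) (nat_lit 140))) (XT.nd (nat_lit 78) (nat_lit 76) (nat_lit 0) (XT.lf (nat_lit 0) (nat_lit 1345067010107) (nat_lit 152) (nat_lit 509725325126) (nat_lit 0) (nat_lit 495349828648) (nat_lit 7) (nat_lit 5) (nat_lit 9) (nat_lit 4) (nat_lit 7) (nat_lit 4) (nat_lit 273) (nat_lit 248) (nat_lit 139)) (XT.nd (nat_lit 78) (nat_lit 0) (nat_lit 0) (XT.lf (nat_lit 0) (nat_lit 383264137233) (nat_lit 76) (nat_lit 1563140711853) (nat_lit 76) (nat_lit 713423503565) (nat_lit 6) (nat_lit 4) (nat_lit 7) (nat_lit 5) (nat_lit 7) (nat_lit 4) (nat_lit 274) (nat_lit 248) (nat_lit 138)) (XT.lf (nat_lit 0) (nat_lit 1441069377056) (nat_lit 76) (nat_lit 1211714059271) (nat_lit 76) (nat_lit 361996827653) (nat_lit 6) (nat_lit 4) (nat_lit 7) (nat_lit 5) (nat_lit 7) (nat_lit 4) (nat_lit 275) (nat_lit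 248) (nat_lit 137))))) (XT.nd (nat_lit 234) (nat_lit 0) (nat_lit 0) (XT.nd (nat_lit 78) (nat_lit 76) (nat_lit 0) (XT.lf (nat_lit 0) (nat_lit 40035615031) (nat_lit 152) (nat_lit 766443172638) (nat_lit 76) (nat_lit 2616415091811) (nat_lit 5) (nat_lit 5) (nat_lit 7) (nat_lit 5) (nat_lit 6) (nat_lit 4) (nat_lit 276) (nat_lit 248) (nat_lit 136)) (XT.nd (nat_lit 78) (nat_lit 0) (nat_lit 0) (XT.lf (nat_lit 0) (nat_lit 159901643338) (nat_lit 76) (nat_lit 325492064778) (nat_lit 152) (nat_lit 3405722225153) (nat_lit 4) (nat_lit 5) (nat_lit 5) (nat_lit 5) (nat_lit 6) (nat_lit 4) (nat_lit 277) (nat_lit 248) (nat_lit 135)) (XT.lf (nat_lit 0) (nat_lit 1025924060791) (nat_lit 152) (nat_lit 3162228953700) (nat_lit 0) (nat_lit 239148797010) (nat_lit 4) (nat_lit 5) (nat_lit 6) (nat_lit 4) (nat_lit 4) (nat_lit 4) (nat_lit 278) (nat_lit 248) (nat_lit 134)))) (XT.nd (nat_lit 32058) (nat_lit 0) (nat_lit 2736)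 (XT.lf (nat_lit 0) (nat_lit 1656536252079) (nat_lit 152) (nat_lit 2516898160605) (nat_lit 0) (nat_lit 869760975946) (nat_lit 4) (nat_lit 5) (nat_lit 6) (nat_lit 4) (nat_lit 4) (nat_lit 4) (nat_lit 279) (nat_lit 248) (nat_lit 133)) (XT.nd (nat_lit 78) (nat_lit 0) (nat_lit 76) (XT.lf (nat_lit 0) (nat_lit 56930013102) (nat_lit 532) (nat_lit 30476129734) (nat_lit 532) (nat_lit 30476129734) (nat_lit 40) (nat_lit 3) (nat_lit 47) (nat_lit 3) (nat_lit 47) (nat_lit 5) (nat_lit 249) (nat_lit 249) (nat_lit 162)) (XT.lf (nat_lit 0) (nat_lit 126150573464) (nat_lit 456) (nat_lit 112698900991) (nat_lit 532) (nat_lit 14297319795) (nat_lit 41) (nat_lit 5) (nat_lit 47) (nat_lit 5) (nat_lit 48) (nat_lit 5) (nat_lit 250) (nat_lit 249) (nat_lit 161))))))) (XT.nd (nat_lit 858) (nat_lit 912) (nat_lit 0) (XT.nd (nat_lit 390) (nat_lit 988) (nat_lit 0) (XT.nd (nat_lit 156) (nat_lit 608) (nat_lit 0) (XT.nd (nat_lit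 78) (nat_lit 0) (nat_lit 76) (XT.lf (nat_lit 76) (nat_lit 103027388898) (nat_lit 0) (nat_lit 46390311300) (nat_lit 532) (nat_lit 122988042189) (nat_lit 42) (nat_lit 5) (nat_lit 41) (nat_lit 5) (nat_lit 48) (nat_lit 5) (nat_lit 251) (nat_lit 249) (nat_lit 160)) (XT.lf (nat_lit 76) (nat_lit 62479019336) (nat_lit 0) (nat_lit 122771786321) (nat_lit 532) (nat_lit 108576655573) (nat_lit 43) (nat_lit 5) (nat_lit 42) (nat_lit 5) (nat_lit 49) (nat_lit 5) (nat_lit 252) (nat_lit 249) (nat_lit 159))) (XT.nd (nat_lit 78) (nat_lit 304) (nat_lit 0) (XT.lf (nat_lit 0) (nat_lit 18441406771) (nat_lit 456) (nat_lit 217176958819) (nat_lit 532) (nat_lit 82111314315) (nat_lit 37) (nat_lit 5) (nat_lit 43) (nat_lit 5) (nat_lit 44) (nat_lit 5) (nat_lit 253) (nat_lit 249) (nat_lit 158)) (XT.nd (nat_lit 78) (nat_lit 304) (nat_lit 0) (XT.lf (nat_lit 0) (nat_lit 303887689899) (nat_lit 532) (nat_lit 28580546099) (nat_lit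 76) (nat_lit 11921265906) (nat_lit 37) (nat_lit 5) (nat_lit 44) (nat_lit 5) (nat_lit 38) (nat_lit 5) (nat_lit 254) (nat_lit 249) (nat_lit 157)) (XT.lf (nat_lit 0) (nat_lit 20331568310) (nat_lit 304) (nat_lit 83223568097) (nat_lit 76) (nat_lit 270411015038) (nat_lit 33) (nat_lit 5) (nat_lit 37) (nat_lit 5) (nat_lit 34) (nat_lit 5) (nat_lit 255) (nat_lit 249) (nat_lit 156))))) (XT.nd (nat_lit 234) (nat_lit 380) (nat_lit 0) (XT.nd (nat_lit 78) (nat_lit 380) (nat_lit 0) (XT.lf (nat_lit 0) (nat_lit 99215569952) (nat_lit 304) (nat_lit 147532049467) (nat_lit 76) (nat_lit 160241618173) (nat_lit 30) (nat_lit 5) (nat_lit 34) (nat_lit 5) (nat_lit 31) (nat_lit 5) (nat_lit 256) (nat_lit 249) (nat_lit 155)) (XT.nd (nat_lit 78) (nat_lit 152) (nat_lit 0) (XT.lf (nat_lit 0) (nat_lit 201134550328) (nat_lit 304) (nat_lit 222639253609) (nat_lit 76) (nat_lit 20295793027) (nat_lit 27) (nat_lit 5) (nat_lit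 31) (nat_lit 5) (nat_lit 28) (nat_lit 5) (nat_lit 257) (nat_lit 249) (nat_lit 154)) (XT.lf (nat_lit 0) (nat_lit 169863890149) (nat_lit 152) (nat_lit 163793797778) (nat_lit 228) (nat_lit 151829018007) (nat_lit 25) (nat_lit 5) (nat_lit 27) (nat_lit 5) (nat_lit 28) (nat_lit 5) (nat_lit 258) (nat_lit 249) (nat_lit 153)))) (XT.nd (nat_lit 78) (nat_lit 228) (nat_lit 0) (XT.lf (nat_lit 0) (nat_lit 103905079138) (nat_lit 152) (nat_lit 394554422967) (nat_lit 228) (nat_lit 33664863109) (nat_lit 23) (nat_lit 5) (nat_lit 25) (nat_lit 5) (nat_lit 26) (nat_lit 5) (nat_lit 259) (nat_lit 249) (nat_lit 152)) (XT.nd (nat_lit 78) (nat_lit 0) (nat_lit 0) (XT.lf (nat_lit 0) (nat_lit 13921713171) (nat_lit 152) (nat_lit 97481064725) (nat_lit 228) (nat_lit 473014815465) (nat_lit 20) (nat_lit 5) (nat_lit 22) (nat_lit 5) (nat_lit 23) (nat_lit 5) (nat_lit 260) (nat_lit 249) (nat_lit 151)) (XT.lf (nat_lit 0) (nat_lit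 294956647688) (nat_lit 228) (nat_lit 102368885216) (nat_lit 76) (nat_lit 245661766716) (nat_lit 20) (nat_lit 5) (nat_lit 23) (nat_lit 5) (nat_lit 21) (nat_lit 5) (nat_lit 261) (nat_lit 249) (nat_lit 150)))))) (XT.nd (nat_lit 390) (nat_lit 380) (nat_lit 0) (XT.nd (nat_lit 156) (nat_lit 228) (nat_lit 0) (XT.nd (nat_lit 78) (nat_lit 152) (nat_lit 0) (XT.lf (nat_lit 0) (nat_lit 456096730860) (nat_lit 152) (nat_lit 63611989670) (nat_lit 228) (nat_lit 189540531748) (nat_lit 18) (nat_lit 5) (nat_lit 20) (nat_lit 5) (nat_lit 21) (nat_lit 5) (nat_lit 262) (nat_lit 249) (nat_lit 149)) (XT.lf (nat_lit 0) (nat_lit 12216041022) (nat_lit 152) (nat_lit 456321056812) (nat_lit 76) (nat_lit 315397087783) (nat_lit 16) (nat_lit 5) (nat_lit 18) (nat_lit 5) (nat_lit 17) (nat_lit 5) (nat_lit 263) (nat_lit 249) (nat_lit 148))) (XT.nd (nat_lit 78) (nat_lit 76) (nat_lit 0) (XT.lf (nat_lit 0) (nat_lit 141475574263)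 (nat_lit 152) (nat_lit 104580157775) (nat_lit 228) (nat_lit 622328872897) (nat_lit 14) (nat_lit 5) (nat_lit 16) (nat_lit 5) (nat_lit 17) (nat_lit 5) (nat_lit 264) (nat_lit 249) (nat_lit 147)) (XT.nd (nat_lit 78) (nat_lit 76) (nat_lit 0) (XT.lf (nat_lit 0) (nat_lit 536152661848) (nat_lit 228) (nat_lit 115760841701) (nat_lit 76) (nat_lit 311894580954) (nat_lit 14) (nat_lit 5) (nat_lit 17) (nat_lit 5) (nat_lit 15) (nat_lit 4) (nat_lit 265) (nat_lit 249) (nat_lit 146)) (XT.lf (nat_lit 0) (nat_lit 614928235913) (nat_lit 76) (nat_lit 272517294932) (nat_lit 152) (nat_lit 184685043323) (nat_lit 13) (nat_lit 5) (nat_lit 14) (nat_lit 5) (nat_lit 15) (nat_lit 4) (nat_lit 266) (nat_lit 249) (nat_lit 145))))) (XT.nd (nat_lit 234) (nat_lit 152) (nat_lit 0) (XT.nd (nat_lit 78) (nat_lit 76) (nat_lit 0) (XT.lf (nat_lit 0) (nat_lit 104380316832) (nat_lit 152) (nat_lit 922665372858) (nat_lit 76) (nat_lit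 168322425540) (nat_lit 11) (nat_lit 5) (nat_lit 13) (nat_lit 5) (nat_lit 12) (nat_lit 4) (nat_lit 267) (nat_lit 249) (nat_lit 144)) (XT.nd (nat_lit 78) (nat_lit 76) (nat_lit 0) (XT.lf (nat_lit 0) (nat_lit 447374772783) (nat_lit 152) (nat_lit 209236967421) (nat_lit 76) (nat_lit 678375409634) (nat_lit 11) (nat_lit 5) (nat_lit 13) (nat_lit 5) (nat_lit 12) (nat_lit 4) (nat_lit 268) (nat_lit 249) (nat_lit 143)) (XT.lf (nat_lit 0) (nat_lit 643390615652) (nat_lit 76) (nat_lit 213901290692) (nat_lit 152) (nat_lit 637019252645) (nat_lit 10) (nat_lit 5) (nat_lit 11) (nat_lit 5) (nat_lit 12) (nat_lit 4) (nat_lit 269) (nat_lit 249) (nat_lit 142)))) (XT.nd (nat_lit 78) (nat_lit 152) (nat_lit 0) (XT.lf (nat_lit 0) (nat_lit 1342046443927) (nat_lit 152) (nat_lit 47721596064) (nat_lit 0) (nat_lit 286697742875) (nat_lit 10) (nat_lit 5) (nat_lit 12) (nat_lit 4) (nat_lit 10) (nat_lit 4) (nat_lit 270) (nat_lit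 249) (nat_lit 141)) (XT.nd (nat_lit 78) (nat_lit 0) (nat_lit 0) (XT.lf (nat_lit 0) (nat_lit 41559779496) (nat_lit 152) (nat_lit 968904398020) (nat_lit 76) (nat_lit 873159867312) (nat_lit 8) (nat_lit 5) (nat_lit 10) (nat_lit 5) (nat_lit 9) (nat_lit 4) (nat_lit 271) (nat_lit 249) (nat_lit 140)) (XT.lf (nat_lit 0) (nat_lit 456122816840) (nat_lit 152) (nat_lit 106613313665) (nat_lit 76) (nat_lit 1558265945674) (nat_lit 8) (nat_lit 5) (nat_lit 10) (nat_lit 5) (nat_lit 9) (nat_lit 4) (nat_lit 272) (nat_lit 249) (nat_lit 139))))))))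
noncomputable def xc56 : XT := (XT.nd (nat_lit 33774) (nat_lit 0) (nat_lit 0) (XT.nd (nat_lit 32916) (nat_lit 0) (nat_lit 912) (XT.nd (nat_lit 390) (nat_lit 76) (nat_lit 0) (XT.nd (nat_lit 156) (nat_lit 152) (nat_lit 0) (XT.nd (nat_lit 78) (nat_lit 0) (nat_lit 0) (XT.lf (nat_lit 0) (nat_lit 931625031255) (nat_lit 76) (nat_lit 23650849958) (nat_lit 152) (nat_lit 1436918485352) (nat_lit 7) (nat_lit 5) (nat_lit 8) (nat_lit 5) (nat_lit 9) (nat_lit 4) (nat_lit 273) (nat_lit 249) (nat_lit 138)) (XT.lf (nat_lit 0) (nat_lit 1546827390747) (nat_lit 152) (nat_lit 586183519903) (nat_lit 0) (nat_lit 569652551057) (nat_lit 7) (nat_lit 5) (nat_lit 9) (nat_lit 4) (nat_lit 7) (nat_lit 4) (nat_lit 274) (nat_lit 249) (nat_lit 137))) (XT.nd (nat_lit 78) (nat_lit 76) (nat_lit 0) (XT.lf (nat_lit 0) (nat_lit 440754310686) (nat_lit 76) (nat_lit 1797611565254) (nat_lit 76) (nat_lit 820436705278) (nat_lit 6)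 (nat_lit 4) (nat_lit 7) (nat_lit 5) (nat_lit 7) (nat_lit 4) (nat_lit 275) (nat_lit 249) (nat_lit 136)) (XT.nd (nat_lit 78) (nat_lit 76) (nat_lit 0) (XT.lf (nat_lit 0) (nat_lit 1657230264369) (nat_lit 76) (nat_lit 1393470947834) (nat_lit 76) (nat_lit 416296070217) (nat_lit 6) (nat_lit 4) (nat_lit 7) (nat_lit 5) (nat_lit 7) (nat_lit 4) (nat_lit 276) (nat_lit 249) (nat_lit 135)) (XT.lf (nat_lit 0) (nat_lit 46041189893) (nat_lit 152) (nat_lit 881409217978) (nat_lit 76) (nat_lit 3008877534664) (nat_lit 5) (nat_lit 5) (nat_lit 7) (nat_lit 5) (nat_lit 6) (nat_lit 4) (nat_lit 277) (nat_lit 249) (nat_lit 134))))) (XT.nd (nat_lit 32292) (nat_lit 0) (nat_lit 2812) (XT.nd (nat_lit 78) (nat_lit 0) (nat_lit 0) (XT.lf (nat_lit 0) (nat_lit 183887283950) (nat_lit 76) (nat_lit 374315692128) (nat_lit 152) (nat_lit 3916580330015) (nat_lit 4) (nat_lit 5) (nat_lit 5) (nat_lit 5) (nat_lit 6) (nat_lit 4) (nat_lit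 278) (nat_lit 249) (nat_lit 133)) (XT.nd (nat_lit 32136) (nat_lit 0) (nat_lit 2736) (XT.lf (nat_lit 0) (nat_lit 1179812857850) (nat_lit 152) (nat_lit 3636562942936) (nat_lit 0) (nat_lit 275021267208) (nat_lit 4) (nat_lit 5) (nat_lit 6) (nat_lit 4) (nat_lit 4) (nat_lit 4) (nat_lit 279) (nat_lit 249) (nat_lit 132)) (XT.lf (nat_lit 0) (nat_lit 65471347060) (nat_lit 532) (nat_lit 35046556011) (nat_lit 532) (nat_lit 35046556011) (nat_lit 40) (nat_lit 3) (nat_lit 47) (nat_lit 3) (nat_lit 47) (nat_lit 5) (nat_lit 250) (nat_lit 250) (nat_lit 160)))) (XT.nd (nat_lit 78) (nat_lit 0) (nat_lit 0) (XT.lf (nat_lit 0) (nat_lit 145076355339) (nat_lit 456) (nat_lit 129601611986) (nat_lit 532) (nat_lit 16440576804) (nat_lit 41) (nat_lit 5) (nat_lit 47) (nat_lit 5) (nat_lit 48) (nat_lit 5) (nat_lit 251) (nat_lit 250) (nat_lit 159)) (XT.nd (nat_lit 78) (nat_lit 0) (nat_lit 76) (XT.lf (nat_lit 76) (nat_lit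 118483441587) (nat_lit 0) (nat_lit 53349739407) (nat_lit 532) (nat_lit 141433184873) (nat_lit 42) (nat_lit 5) (nat_lit 41) (nat_lit 5) (nat_lit 48) (nat_lit 5) (nat_lit 252) (nat_lit 250) (nat_lit 158)) (XT.lf (nat_lit 76) (nat_lit 71852889158) (nat_lit 0) (nat_lit 141188024610) (nat_lit 532) (nat_lit 124860457390) (nat_lit 43) (nat_lit 5) (nat_lit 42) (nat_lit 5) (nat_lit 49) (nat_lit 5) (nat_lit 253) (nat_lit 250) (nat_lit 157)))))) (XT.nd (nat_lit 390) (nat_lit 836) (nat_lit 0) (XT.nd (nat_lit 156) (nat_lit 760) (nat_lit 0) (XT.nd (nat_lit 78) (nat_lit 0) (nat_lit 0) (XT.lf (nat_lit 0) (nat_lit 21209665885) (nat_lit 456) (nat_lit 249753656801) (nat_lit 532) (nat_lit 94425624089) (nat_lit 37) (nat_lit 5) (nat_lit 43) (nat_lit 5) (nat_lit 44) (nat_lit 5) (nat_lit 254) (nat_lit 250) (nat_lit 156)) (XT.lf (nat_lit 0) (nat_lit 349472755167) (nat_lit 532) (nat_lit 32865682864) (nat_lit 76)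 (nat_lit 13709328447) (nat_lit 37) (nat_lit 5) (nat_lit 44) (nat_lit 5) (nat_lit 38) (nat_lit 5) (nat_lit 255) (nat_lit 250) (nat_lit 155))) (XT.nd (nat_lit 78) (nat_lit 456) (nat_lit 0) (XT.lf (nat_lit 0) (nat_lit 23383059508) (nat_lit 304) (nat_lit 95705224088) (nat_lit 76) (nat_lit 310972643833) (nat_lit 33) (nat_lit 5) (nat_lit 37) (nat_lit 5) (nat_lit 34) (nat_lit 5) (nat_lit 256) (nat_lit 250) (nat_lit 154)) (XT.nd (nat_lit 78) (nat_lit 228) (nat_lit 0) (XT.lf (nat_lit 0) (nat_lit 114099477382) (nat_lit 304) (nat_lit 169660009480) (nat_lit 76) (nat_lit 184278005175) (nat_lit 30) (nat_lit 5) (nat_lit 34) (nat_lit 5) (nat_lit 31) (nat_lit 5) (nat_lit 257) (nat_lit 250) (nat_lit 153)) (XT.lf (nat_lit 0) (nat_lit 231306147265) (nat_lit 304) (nat_lit 256033340099) (nat_lit 76) (nat_lit 23340431264) (nat_lit 27) (nat_lit 5) (nat_lit 31) (nat_lit 5) (nat_lit 28) (nat_lit 5) (nat_lit 258)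 (nat_lit 250) (nat_lit 152))))) (XT.nd (nat_lit 234) (nat_lit 304) (nat_lit 0) (XT.nd (nat_lit 78) (nat_lit 380) (nat_lit 0) (XT.lf (nat_lit 0) (nat_lit 195345122731) (nat_lit 152) (nat_lit 188362487948) (nat_lit 228) (nat_lit 174601995468) (nat_lit 25) (nat_lit 5) (nat_lit 27) (nat_lit 5) (nat_lit 28) (nat_lit 5) (nat_lit 259) (nat_lit 250) (nat_lit 151)) (XT.nd (nat_lit 78) (nat_lit 228) (nat_lit 0) (XT.lf (nat_lit 0) (nat_lit 119492438863) (nat_lit 152) (nat_lit 453737138891) (nat_lit 228) (nat_lit 38713346640) (nat_lit 23) (nat_lit 5) (nat_lit 25) (nat_lit 5) (nat_lit 26) (nat_lit 5) (nat_lit 260) (nat_lit 250) (nat_lit 150)) (XT.lf (nat_lit 0) (nat_lit 16011492833) (nat_lit 152) (nat_lit 112102767593) (nat_lit 228) (nat_lit 543965883792) (nat_lit 20) (nat_lit 5) (nat_lit 22) (nat_lit 5) (nat_lit 23) (nat_lit 5) (nat_lit 261) (nat_lit 250) (nat_lit 149)))) (XT.nd (nat_lit 78) (nat_lit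 304) (nat_lit 0) (XT.lf (nat_lit 0) (nat_lit 339201081218) (nat_lit 228) (nat_lit 117722826827) (nat_lit 76) (nat_lit 282511409104) (nat_lit 20) (nat_lit 5) (nat_lit 23) (nat_lit 5) (nat_lit 21) (nat_lit 5) (nat_lit 262) (nat_lit 250) (nat_lit 148)) (XT.nd (nat_lit 78) (nat_lit 152) (nat_lit 0) (XT.lf (nat_lit 0) (nat_lit 524512513904) (nat_lit 152) (nat_lit 73153359571) (nat_lit 228) (nat_lit 217970696878) (nat_lit 18) (nat_lit 5) (nat_lit 20) (nat_lit 5) (nat_lit 21) (nat_lit 5) (nat_lit 263) (nat_lit 250) (nat_lit 147)) (XT.lf (nat_lit 0) (nat_lit 14049242023) (nat_lit 152) (nat_lit 524767951671) (nat_lit 76) (nat_lit 362707054426) (nat_lit 16) (nat_lit 5) (nat_lit 18) (nat_lit 5) (nat_lit 17) (nat_lit 5) (nat_lit 264) (nat_lit 250) (nat_lit 146))))))) (XT.nd (nat_lit 858) (nat_lit 228) (nat_lit 0) (XT.nd (nat_lit 390) (nat_lit 304) (nat_lit 0) (XT.nd (nat_lit 156) (nat_lit 228) (nat_lit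 0) (XT.nd (nat_lit 78) (nat_lit 0) (nat_lit 0) (XT.lf (nat_lit 0) (nat_lit 162698067103) (nat_lit 152) (nat_lit 120266743731) (nat_lit 228) (nat_lit 715677425798) (nat_lit 14) (nat_lit 5) (nat_lit 16) (nat_lit 5) (nat_lit 17) (nat_lit 5) (nat_lit 265) (nat_lit 250) (nat_lit 145)) (XT.lf (nat_lit 0) (nat_lit 616576195487) (nat_lit 228) (nat_lit 133123919941) (nat_lit 76) (nat_lit 358679129675) (nat_lit 14) (nat_lit 5) (nat_lit 17) (nat_lit 5) (nat_lit 15) (nat_lit 4) (nat_lit 266) (nat_lit 250) (nat_lit 144))) (XT.nd (nat_lit 78) (nat_lit 152) (nat_lit 0) (XT.lf (nat_lit 0) (nat_lit 707168430606) (nat_lit 76) (nat_lit 313394504557) (nat_lit 152) (nat_lit 212387178003) (nat_lit 13) (nat_lit 5) (nat_lit 14) (nat_lit 5) (nat_lit 15) (nat_lit 4) (nat_lit 267) (nat_lit 250) (nat_lit 143)) (XT.nd (nat_lit 78) (nat_lit 0) (nat_lit 0) (XT.lf (nat_lit 0) (nat_lit 120037908795) (nat_lit 152) (nat_lit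 1061064236412) (nat_lit 76) (nat_lit 193571142824) (nat_lit 11) (nat_lit 5) (nat_lit 13) (nat_lit 5) (nat_lit 12) (nat_lit 4) (nat_lit 268) (nat_lit 250) (nat_lit 142)) (XT.lf (nat_lit 0) (nat_lit 514481462125) (nat_lit 152) (nat_lit 240621693078) (nat_lit 76) (nat_lit 780132028430) (nat_lit 11) (nat_lit 5) (nat_lit 13) (nat_lit 5) (nat_lit 12) (nat_lit 4) (nat_lit 269) (nat_lit 250) (nat_lit 141))))) (XT.nd (nat_lit 234) (nat_lit 76) (nat_lit 0) (XT.nd (nat_lit 78) (nat_lit 152) (nat_lit 0) (XT.lf (nat_lit 0) (nat_lit 739899958093) (nat_lit 76) (nat_lit 245986163916) (nat_lit 152) (nat_lit 732571675750) (nat_lit 10) (nat_lit 5) (nat_lit 11) (nat_lit 5) (nat_lit 12) (nat_lit 4) (nat_lit 270) (nat_lit 250) (nat_lit 140)) (XT.nd (nat_lit 78) (nat_lit 152) (nat_lit 0) (XT.lf (nat_lit 0) (nat_lit 1543353790880) (nat_lit 152) (nat_lit 54879159415) (nat_lit 0) (nat_lit 329702668961) (nat_lit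 10) (nat_lit 5) (nat_lit 12) (nat_lit 4) (nat_lit 10) (nat_lit 4) (nat_lit 271) (nat_lit 250) (nat_lit 139)) (XT.lf (nat_lit 0) (nat_lit 47794101536) (nat_lit 152) (nat_lit 1114239419698) (nat_lit 76) (nat_lit 1004134101417) (nat_lit 8) (nat_lit 5) (nat_lit 10) (nat_lit 5) (nat_lit 9) (nat_lit 4) (nat_lit 272) (nat_lit 250) (nat_lit 138)))) (XT.nd (nat_lit 78) (nat_lit 76) (nat_lit 0) (XT.lf (nat_lit 0) (nat_lit 524541548163) (nat_lit 152) (nat_lit 122604755910) (nat_lit 76) (nat_lit 1792006058402) (nat_lit 8) (nat_lit 5) (nat_lit 10) (nat_lit 5) (nat_lit 9) (nat_lit 4) (nat_lit 273) (nat_lit 250) (nat_lit 137)) (XT.nd (nat_lit 78) (nat_lit 0) (nat_lit 0) (XT.lf (nat_lit 0) (nat_lit 1071369293786) (nat_lit 76) (nat_lit 27198250341) (nat_lit 152) (nat_lit 1652455954592) (nat_lit 7) (nat_lit 5) (nat_lit 8) (nat_lit 5) (nat_lit 9) (nat_lit 4) (nat_lit 274) (nat_lit 250) (nat_lit 136)) (XT.lf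 (nat_lit 0) (nat_lit 1778851748224) (nat_lit 152) (nat_lit 674110591183) (nat_lit 0) (nat_lit 655100621324) (nat_lit 7) (nat_lit 5) (nat_lit 9) (nat_lit 4) (nat_lit 7) (nat_lit 4) (nat_lit 275) (nat_lit 250) (nat_lit 135)))))) (XT.nd (nat_lit 32526) (nat_lit 0) (nat_lit 2204) (XT.nd (nat_lit 156) (nat_lit 152) (nat_lit 0) (XT.nd (nat_lit 78) (nat_lit 0) (nat_lit 0) (XT.lf (nat_lit 0) (nat_lit 506867875336) (nat_lit 76) (nat_lit 2067253108453) (nat_lit 76) (nat_lit 943501966214) (nat_lit 6) (nat_lit 4) (nat_lit 7) (nat_lit 5) (nat_lit 7) (nat_lit 4) (nat_lit 276) (nat_lit 250) (nat_lit 134)) (XT.lf (nat_lit 0) (nat_lit 1905815167544) (nat_lit 76) (nat_lit 1602491423410) (nat_lit 76) (nat_lit 478740267832) (nat_lit 6) (nat_lit 4) (nat_lit 7) (nat_lit 5) (nat_lit 7) (nat_lit 4) (nat_lit 277) (nat_lit 250) (nat_lit 133))) (XT.nd (nat_lit 78) (nat_lit 76) (nat_lit 0) (XT.lf (nat_lit 0) (nat_lit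 52947544261) (nat_lit 152) (nat_lit 1013620275113) (nat_lit 76) (nat_lit 3460209300274) (nat_lit 5) (nat_lit 5) (nat_lit 7) (nat_lit 5) (nat_lit 6) (nat_lit 4) (nat_lit 278) (nat_lit 250) (nat_lit 132)) (XT.nd (nat_lit 32214) (nat_lit 0) (nat_lit 2736) (XT.lf (nat_lit 0) (nat_lit 211470674548) (nat_lit 76) (nat_lit 430462908053) (nat_lit 152) (nat_lit 4504067206428) (nat_lit 4) (nat_lit 5) (nat_lit 5) (nat_lit 5) (nat_lit 6) (nat_lit 4) (nat_lit 279) (nat_lit 250) (nat_lit 131)) (XT.lf (nat_lit 0) (nat_lit 75293434369) (nat_lit 532) (nat_lit 40302788423) (nat_lit 532) (nat_lit 40302788423) (nat_lit 40) (nat_lit 3) (nat_lit 47) (nat_lit 3) (nat_lit 47) (nat_lit 5) (nat_lit 251) (nat_lit 251) (nat_lit 158))))) (XT.nd (nat_lit 234) (nat_lit 608) (nat_lit 0) (XT.nd (nat_lit 78) (nat_lit 0) (nat_lit 0) (XT.lf (nat_lit 0) (nat_lit 166840225166) (nat_lit 456) (nat_lit 149040247619) (nat_lit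 532) (nat_lit 18905649366) (nat_lit 41) (nat_lit 5) (nat_lit 47) (nat_lit 5) (nat_lit 48) (nat_lit 5) (nat_lit 252) (nat_lit 251) (nat_lit 157)) (XT.nd (nat_lit 78) (nat_lit 0) (nat_lit 76) (XT.lf (nat_lit 76) (nat_lit 136257428037) (nat_lit 0) (nat_lit 61352866792) (nat_lit 532) (nat_lit 162645846048) (nat_lit 42) (nat_lit 5) (nat_lit 41) (nat_lit 5) (nat_lit 48) (nat_lit 5) (nat_lit 253) (nat_lit 251) (nat_lit 156)) (XT.lf (nat_lit 76) (nat_lit 82632347615) (nat_lit 0) (nat_lit 162366583946) (nat_lit 532) (nat_lit 143587487043) (nat_lit 43) (nat_lit 5) (nat_lit 42) (nat_lit 5) (nat_lit 49) (nat_lit 5) (nat_lit 254) (nat_lit 251) (nat_lit 155)))) (XT.nd (nat_lit 78) (nat_lit 304) (nat_lit 0) (XT.lf (nat_lit 0) (nat_lit 24392664424) (nat_lit 456) (nat_lit 287216821888) (nat_lit 532) (nat_lit 108587662505) (nat_lit 37) (nat_lit 5) (nat_lit 43) (nat_lit 5) (nat_lit 44) (nat_lit 5) (nat_lit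 255) (nat_lit 251) (nat_lit 154)) (XT.nd (nat_lit 78) (nat_lit 304) (nat_lit 0) (XT.lf (nat_lit 0) (nat_lit 401895114024) (nat_lit 532) (nat_lit 37794064481) (nat_lit 76) (nat_lit 15765631422) (nat_lit 37) (nat_lit 5) (nat_lit 44) (nat_lit 5) (nat_lit 38) (nat_lit 5) (nat_lit 256) (nat_lit 251) (nat_lit 153)) (XT.lf (nat_lit 0) (nat_lit 26891846185) (nat_lit 304) (nat_lit 110059586738) (nat_lit 76) (nat_lit 357618522670) (nat_lit 33) (nat_lit 5) (nat_lit 37) (nat_lit 5) (nat_lit 34) (nat_lit 5) (nat_lit 257) (nat_lit 251) (nat_lit 152))))))))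
noncomputable def xc57 : XT := (XT.nd (nat_lit 34008) (nat_lit 0) (nat_lit 152) (XT.nd (nat_lit 858) (nat_lit 532) (nat_lit 0) (XT.nd (nat_lit 390) (nat_lit 532) (nat_lit 0) (XT.nd (nat_lit 156) (nat_lit 532) (nat_lit 0) (XT.nd (nat_lit 78) (nat_lit 228) (nat_lit 0) (XT.lf (nat_lit 0) (nat_lit 131215587599) (nat_lit 304) (nat_lit 195107613997) (nat_lit 76) (nat_lit 211919815044) (nat_lit 30) (nat_lit 5) (nat_lit 34) (nat_lit 5) (nat_lit 31) (nat_lit 5) (nat_lit 258) (nat_lit 251) (nat_lit 151)) (XT.lf (nat_lit 0) (nat_lit 266003138835) (nat_lit 304) (nat_lit 294436978882) (nat_lit 76) (nat_lit 26841699570) (nat_lit 27) (nat_lit 5) (nat_lit 31) (nat_lit 5) (nat_lit 28) (nat_lit 5) (nat_lit 259) (nat_lit 251) (nat_lit 150))) (XT.nd (nat_lit 78) (nat_lit 380) (nat_lit 0) (XT.lf (nat_lit 0) (nat_lit 224648138067) (nat_lit 152) (nat_lit 216616574185) (nat_lit 228) (nat_lit 200791254908) (nat_lit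 25) (nat_lit 5) (nat_lit 27) (nat_lit 5) (nat_lit 28) (nat_lit 5) (nat_lit 260) (nat_lit 251) (nat_lit 149)) (XT.nd (nat_lit 78) (nat_lit 228) (nat_lit 0) (XT.lf (nat_lit 0) (nat_lit 137417512899) (nat_lit 152) (nat_lit 521797371334) (nat_lit 228) (nat_lit 44519406530) (nat_lit 23) (nat_lit 5) (nat_lit 25) (nat_lit 5) (nat_lit 26) (nat_lit 5) (nat_lit 261) (nat_lit 251) (nat_lit 148)) (XT.lf (nat_lit 0) (nat_lit 18414368128) (nat_lit 152) (nat_lit 128917837296) (nat_lit 228) (nat_lit 625559893776) (nat_lit 20) (nat_lit 5) (nat_lit 22) (nat_lit 5) (nat_lit 23) (nat_lit 5) (nat_lit 262) (nat_lit 251) (nat_lit 147))))) (XT.nd (nat_lit 234) (nat_lit 228) (nat_lit 0) (XT.nd (nat_lit 78) (nat_lit 304) (nat_lit 0) (XT.lf (nat_lit 0) (nat_lit 390081951436) (nat_lit 228) (nat_lit 135380198926) (nat_lit 76) (nat_lit 324888405823) (nat_lit 20) (nat_lit 5) (nat_lit 23) (nat_lit 5) (nat_lit 21) (nat_lit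 5) (nat_lit 263) (nat_lit 251) (nat_lit 146)) (XT.nd (nat_lit 78) (nat_lit 152) (nat_lit 0) (XT.lf (nat_lit 0) (nat_lit 603190353875) (nat_lit 152) (nat_lit 84126039462) (nat_lit 228) (nat_lit 250665609815) (nat_lit 18) (nat_lit 5) (nat_lit 20) (nat_lit 5) (nat_lit 21) (nat_lit 5) (nat_lit 264) (nat_lit 251) (nat_lit 145)) (XT.lf (nat_lit 0) (nat_lit 16157229345) (nat_lit 152) (nat_lit 603482188910) (nat_lit 76) (nat_lit 417113417675) (nat_lit 16) (nat_lit 5) (nat_lit 18) (nat_lit 5) (nat_lit 17) (nat_lit 5) (nat_lit 265) (nat_lit 251) (nat_lit 144)))) (XT.nd (nat_lit 78) (nat_lit 76) (nat_lit 0) (XT.lf (nat_lit 0) (nat_lit 187103651800) (nat_lit 152) (nat_lit 138306424318) (nat_lit 228) (nat_lit 823028451363) (nat_lit 14) (nat_lit 5) (nat_lit 16) (nat_lit 5) (nat_lit 17) (nat_lit 5) (nat_lit 266) (nat_lit 251) (nat_lit 143)) (XT.nd (nat_lit 78) (nat_lit 76) (nat_lit 0) (XT.lf (nat_lit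 0) (nat_lit 709063104480) (nat_lit 228) (nat_lit 153091715482) (nat_lit 76) (nat_lit 412481272531) (nat_lit 14) (nat_lit 5) (nat_lit 17) (nat_lit 5) (nat_lit 15) (nat_lit 4) (nat_lit 267) (nat_lit 251) (nat_lit 142)) (XT.lf (nat_lit 0) (nat_lit 813244420570) (nat_lit 76) (nat_lit 360403389416) (nat_lit 152) (nat_lit 244244784519) (nat_lit 13) (nat_lit 5) (nat_lit 14) (nat_lit 5) (nat_lit 15) (nat_lit 4) (nat_lit 268) (nat_lit 251) (nat_lit 141)))))) (XT.nd (nat_lit 390) (nat_lit 152) (nat_lit 0) (XT.nd (nat_lit 156) (nat_lit 228) (nat_lit 0) (XT.nd (nat_lit 78) (nat_lit 0) (nat_lit 0) (XT.lf (nat_lit 0) (nat_lit 138044006788) (nat_lit 152) (nat_lit 1220223159304) (nat_lit 76) (nat_lit 222607081509) (nat_lit 11) (nat_lit 5) (nat_lit 13) (nat_lit 5) (nat_lit 12) (nat_lit 4) (nat_lit 269) (nat_lit 251) (nat_lit 140)) (XT.lf (nat_lit 0) (nat_lit 591654039421) (nat_lit 152) (nat_lit 276714327414)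 (nat_lit 76) (nat_lit 897152065096) (nat_lit 11) (nat_lit 5) (nat_lit 13) (nat_lit 5) (nat_lit 12) (nat_lit 4) (nat_lit 270) (nat_lit 251) (nat_lit 139))) (XT.nd (nat_lit 78) (nat_lit 152) (nat_lit 0) (XT.lf (nat_lit 0) (nat_lit 850885518985) (nat_lit 76) (nat_lit 282883846250) (nat_lit 152) (nat_lit 842457075662) (nat_lit 10) (nat_lit 5) (nat_lit 11) (nat_lit 5) (nat_lit 12) (nat_lit 4) (nat_lit 271) (nat_lit 251) (nat_lit 138)) (XT.nd (nat_lit 78) (nat_lit 152) (nat_lit 0) (XT.lf (nat_lit 0) (nat_lit 1774857147122) (nat_lit 152) (nat_lit 63110522131) (nat_lit 0) (nat_lit 379158269422) (nat_lit 10) (nat_lit 5) (nat_lit 12) (nat_lit 4) (nat_lit 10) (nat_lit 4) (nat_lit 272) (nat_lit 251) (nat_lit 137)) (XT.lf (nat_lit 0) (nat_lit 54963485285) (nat_lit 152) (nat_lit 1281374850215) (nat_lit 76) (nat_lit 1154754408696) (nat_lit 8) (nat_lit 5) (nat_lit 10) (nat_lit 5) (nat_lit 9) (nat_lit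 4) (nat_lit 273) (nat_lit 251) (nat_lit 136))))) (XT.nd (nat_lit 234) (nat_lit 76) (nat_lit 0) (XT.nd (nat_lit 78) (nat_lit 76) (nat_lit 0) (XT.lf (nat_lit 0) (nat_lit 603223013882) (nat_lit 152) (nat_lit 140995049785) (nat_lit 76) (nat_lit 2060807134176) (nat_lit 8) (nat_lit 5) (nat_lit 10) (nat_lit 5) (nat_lit 9) (nat_lit 4) (nat_lit 274) (nat_lit 251) (nat_lit 135)) (XT.nd (nat_lit 78) (nat_lit 0) (nat_lit 0) (XT.lf (nat_lit 0) (nat_lit 1232075071856) (nat_lit 76) (nat_lit 31277816164) (nat_lit 152) (nat_lit 1900324118244) (nat_lit 7) (nat_lit 5) (nat_lit 8) (nat_lit 5) (nat_lit 9) (nat_lit 4) (nat_lit 275) (nat_lit 251) (nat_lit 134)) (XT.lf (nat_lit 0) (nat_lit 2045679698635) (nat_lit 152) (nat_lit 775226834526) (nat_lit 0) (nat_lit 753365856381) (nat_lit 7) (nat_lit 5) (nat_lit 9) (nat_lit 4) (nat_lit 7) (nat_lit 4) (nat_lit 276) (nat_lit 251) (nat_lit 133)))) (XT.nd (nat_lit 78)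 (nat_lit 0) (nat_lit 0) (XT.lf (nat_lit 0) (nat_lit 582898372740) (nat_lit 76) (nat_lit 2377340929852) (nat_lit 76) (nat_lit 1085027076000) (nat_lit 6) (nat_lit 4) (nat_lit 7) (nat_lit 5) (nat_lit 7) (nat_lit 4) (nat_lit 277) (nat_lit 251) (nat_lit 132)) (XT.nd (nat_lit 32370) (nat_lit 0) (nat_lit 2584) (XT.lf (nat_lit 0) (nat_lit 2191687717549) (nat_lit 76) (nat_lit 1842865010949) (nat_lit 76) (nat_lit 550551147011) (nat_lit 6) (nat_lit 4) (nat_lit 7) (nat_lit 5) (nat_lit 7) (nat_lit 4) (nat_lit 278) (nat_lit 251) (nat_lit 131)) (XT.lf (nat_lit 0) (nat_lit 86588496973) (nat_lit 532) (nat_lit 46347638830) (nat_lit 532) (nat_lit 46347638830) (nat_lit 40) (nat_lit 3) (nat_lit 47) (nat_lit 3) (nat_lit 47) (nat_lit 5) (nat_lit 252) (nat_lit 252) (nat_lit 156))))))) (XT.nd (nat_lit 858) (nat_lit 912) (nat_lit 0) (XT.nd (nat_lit 390) (nat_lit 1292) (nat_lit 0) (XT.nd (nat_lit 156) (nat_lit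 304) (nat_lit 0) (XT.nd (nat_lit 78) (nat_lit 0) (nat_lit 0) (XT.lf (nat_lit 0) (nat_lit 191868086182) (nat_lit 456) (nat_lit 171395070270) (nat_lit 532) (nat_lit 21740730073) (nat_lit 41) (nat_lit 5) (nat_lit 47) (nat_lit 5) (nat_lit 48) (nat_lit 5) (nat_lit 253) (nat_lit 252) (nat_lit 155)) (XT.lf (nat_lit 76) (nat_lit 156697153934) (nat_lit 0) (nat_lit 70556300761) (nat_lit 532) (nat_lit 187040971306) (nat_lit 42) (nat_lit 5) (nat_lit 41) (nat_lit 5) (nat_lit 48) (nat_lit 5) (nat_lit 254) (nat_lit 252) (nat_lit 154))) (XT.nd (nat_lit 78) (nat_lit 380) (nat_lit 0) (XT.lf (nat_lit 76) (nat_lit 95028352939) (nat_lit 0) (nat_lit 186721840457) (nat_lit 532) (nat_lit 165124068356) (nat_lit 43) (nat_lit 5) (nat_lit 42) (nat_lit 5) (nat_lit 49) (nat_lit 5) (nat_lit 255) (nat_lit 252) (nat_lit 153)) (XT.nd (nat_lit 78) (nat_lit 0) (nat_lit 0) (XT.lf (nat_lit 0) (nat_lit 28052735094) (nat_lit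 456) (nat_lit 330299433312) (nat_lit 532) (nat_lit 124874446893) (nat_lit 37) (nat_lit 5) (nat_lit 43) (nat_lit 5) (nat_lit 44) (nat_lit 5) (nat_lit 256) (nat_lit 252) (nat_lit 152)) (XT.lf (nat_lit 0) (nat_lit 462180474195) (nat_lit 532) (nat_lit 43462062008) (nat_lit 76) (nat_lit 18130403325) (nat_lit 37) (nat_lit 5) (nat_lit 44) (nat_lit 5) (nat_lit 38) (nat_lit 5) (nat_lit 257) (nat_lit 252) (nat_lit 151))))) (XT.nd (nat_lit 234) (nat_lit 532) (nat_lit 0) (XT.nd (nat_lit 78) (nat_lit 456) (nat_lit 0) (XT.lf (nat_lit 0) (nat_lit 30926627084) (nat_lit 304) (nat_lit 126567450296) (nat_lit 76) (nat_lit 411261287657) (nat_lit 33) (nat_lit 5) (nat_lit 37) (nat_lit 5) (nat_lit 34) (nat_lit 5) (nat_lit 258) (nat_lit 252) (nat_lit 150)) (XT.nd (nat_lit 78) (nat_lit 228) (nat_lit 0) (XT.lf (nat_lit 0) (nat_lit 150898824498) (nat_lit 304) (nat_lit 224372699836) (nat_lit 76) (nat_lit 243707869791)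 (nat_lit 30) (nat_lit 5) (nat_lit 34) (nat_lit 5) (nat_lit 31) (nat_lit 5) (nat_lit 259) (nat_lit 252) (nat_lit 149)) (XT.lf (nat_lit 0) (nat_lit 305904418341) (nat_lit 304) (nat_lit 338601495671) (nat_lit 76) (nat_lit 30868108469) (nat_lit 27) (nat_lit 5) (nat_lit 31) (nat_lit 5) (nat_lit 28) (nat_lit 5) (nat_lit 260) (nat_lit 252) (nat_lit 148)))) (XT.nd (nat_lit 78) (nat_lit 380) (nat_lit 0) (XT.lf (nat_lit 0) (nat_lit 258346301632) (nat_lit 152) (nat_lit 249108843335) (nat_lit 228) (nat_lit 230909156846) (nat_lit 25) (nat_lit 5) (nat_lit 27) (nat_lit 5) (nat_lit 28) (nat_lit 5) (nat_lit 261) (nat_lit 252) (nat_lit 147)) (XT.nd (nat_lit 78) (nat_lit 228) (nat_lit 0) (XT.lf (nat_lit 0) (nat_lit 158031053412) (nat_lit 152) (nat_lit 600066721162) (nat_lit 228) (nat_lit 51196605141) (nat_lit 23) (nat_lit 5) (nat_lit 25) (nat_lit 5) (nat_lit 26) (nat_lit 5) (nat_lit 262) (nat_lit 252) (nat_lit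 146)) (XT.lf (nat_lit 0) (nat_lit 21177393948) (nat_lit 152) (nat_lit 148255251690) (nat_lit 228) (nat_lit 719393218043) (nat_lit 20) (nat_lit 5) (nat_lit 22) (nat_lit 5) (nat_lit 23) (nat_lit 5) (nat_lit 263) (nat_lit 252) (nat_lit 145)))))) (XT.nd (nat_lit 390) (nat_lit 456) (nat_lit 0) (XT.nd (nat_lit 156) (nat_lit 304) (nat_lit 0) (XT.nd (nat_lit 78) (nat_lit 152) (nat_lit 0) (XT.lf (nat_lit 0) (nat_lit 448594779527) (nat_lit 228) (nat_lit 155686433358) (nat_lit 76) (nat_lit 373621882465) (nat_lit 20) (nat_lit 5) (nat_lit 23) (nat_lit 5) (nat_lit 21) (nat_lit 5) (nat_lit 264) (nat_lit 252) (nat_lit 144)) (XT.lf (nat_lit 0) (nat_lit 693669635036) (nat_lit 152) (nat_lit 96744700357) (nat_lit 228) (nat_lit 288264928343) (nat_lit 18) (nat_lit 5) (nat_lit 20) (nat_lit 5) (nat_lit 21) (nat_lit 5) (nat_lit 265) (nat_lit 252) (nat_lit 143))) (XT.nd (nat_lit 78) (nat_lit 152) (nat_lit 0) (XT.lf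 (nat_lit 0) (nat_lit 18581268203) (nat_lit 152) (nat_lit 694003794744) (nat_lit 76) (nat_lit 479680661015) (nat_lit 16) (nat_lit 5) (nat_lit 18) (nat_lit 5) (nat_lit 17) (nat_lit 5) (nat_lit 266) (nat_lit 252) (nat_lit 142)) (XT.nd (nat_lit 78) (nat_lit 0) (nat_lit 0) (XT.lf (nat_lit 0) (nat_lit 215169860918) (nat_lit 152) (nat_lit 159052137704) (nat_lit 228) (nat_lit 946482274224) (nat_lit 14) (nat_lit 5) (nat_lit 16) (nat_lit 5) (nat_lit 17) (nat_lit 5) (nat_lit 267) (nat_lit 252) (nat_lit 141)) (XT.lf (nat_lit 0) (nat_lit 815422932851) (nat_lit 228) (nat_lit 176054873598) (nat_lit 76) (nat_lit 474353670144) (nat_lit 14) (nat_lit 5) (nat_lit 17) (nat_lit 5) (nat_lit 15) (nat_lit 4) (nat_lit 268) (nat_lit 252) (nat_lit 140))))) (XT.nd (nat_lit 234) (nat_lit 228) (nat_lit 0) (XT.nd (nat_lit 78) (nat_lit 152) (nat_lit 0) (XT.lf (nat_lit 0) (nat_lit 935231632141) (nat_lit 76) (nat_lit 414463677924)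 (nat_lit 152) (nat_lit 280881146670) (nat_lit 13) (nat_lit 5) (nat_lit 14) (nat_lit 5) (nat_lit 15) (nat_lit 4) (nat_lit 269) (nat_lit 252) (nat_lit 139)) (XT.nd (nat_lit 78) (nat_lit 0) (nat_lit 0) (XT.lf (nat_lit 0) (nat_lit 158750919091) (nat_lit 152) (nat_lit 1403256094393) (nat_lit 76) (nat_lit 255998345823) (nat_lit 11) (nat_lit 5) (nat_lit 13) (nat_lit 5) (nat_lit 12) (nat_lit 4) (nat_lit 270) (nat_lit 252) (nat_lit 138)) (XT.lf (nat_lit 0) (nat_lit 680402416017) (nat_lit 152) (nat_lit 318221007999) (nat_lit 76) (nat_lit 1031725050589) (nat_lit 11) (nat_lit 5) (nat_lit 13) (nat_lit 5) (nat_lit 12) (nat_lit 4) (nat_lit 271) (nat_lit 252) (nat_lit 137)))) (XT.nd (nat_lit 78) (nat_lit 152) (nat_lit 0) (XT.lf (nat_lit 0) (nat_lit 978518775701) (nat_lit 76) (nat_lit 325316240009) (nat_lit 152) (nat_lit 968825371265) (nat_lit 10) (nat_lit 5) (nat_lit 11) (nat_lit 5) (nat_lit 12) (nat_lit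 4) (nat_lit 272) (nat_lit 252) (nat_lit 136)) (XT.nd (nat_lit 78) (nat_lit 152) (nat_lit 0) (XT.lf (nat_lit 0) (nat_lit 2041085936665) (nat_lit 152) (nat_lit 72576713912) (nat_lit 0) (nat_lit 436032161153) (nat_lit 10) (nat_lit 5) (nat_lit 12) (nat_lit 4) (nat_lit 10) (nat_lit 4) (nat_lit 273) (nat_lit 252) (nat_lit 135)) (XT.lf (nat_lit 0) (nat_lit 63208211117) (nat_lit 152) (nat_lit 1473580712954) (nat_lit 76) (nat_lit 1327967715230) (nat_lit 8) (nat_lit 5) (nat_lit 10) (nat_lit 5) (nat_lit 9) (nat_lit 4) (nat_lit 274) (nat_lit 252) (nat_lit 134))))))))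
noncomputable def xc58 : XT := (XT.nd (nat_lit 34086) (nat_lit 0) (nat_lit 76) (XT.nd (nat_lit 33228) (nat_lit 0) (nat_lit 532) (XT.nd (nat_lit 32760) (nat_lit 0) (nat_lit 2052) (XT.nd (nat_lit 156) (nat_lit 76) (nat_lit 0) (XT.nd (nat_lit 78) (nat_lit 76) (nat_lit 0) (XT.lf (nat_lit 0) (nat_lit 693706642520) (nat_lit 152) (nat_lit 162143990042) (nat_lit 76) (nat_lit 2369928330590) (nat_lit 8) (nat_lit 5) (nat_lit 10) (nat_lit 5) (nat_lit 9) (nat_lit 4) (nat_lit 275) (nat_lit 252) (nat_lit 133)) (XT.lf (nat_lit 0) (nat_lit 1416886622995) (nat_lit 76) (nat_lit 35969358738) (nat_lit 152) (nat_lit 2185372562418) (nat_lit 7) (nat_lit 5) (nat_lit 8) (nat_lit 5) (nat_lit 9) (nat_lit 4) (nat_lit 276) (nat_lit 252) (nat_lit 132))) (XT.nd (nat_lit 78) (nat_lit 76) (nat_lit 0) (XT.lf (nat_lit 0) (nat_lit 2352531795719) (nat_lit 152) (nat_lit 891510598583) (nat_lit 0) (nat_lit 866370842104) (nat_lit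 7) (nat_lit 5) (nat_lit 9) (nat_lit 4) (nat_lit 7) (nat_lit 4) (nat_lit 277) (nat_lit 252) (nat_lit 131)) (XT.nd (nat_lit 32448) (nat_lit 0) (nat_lit 2584) (XT.lf (nat_lit 0) (nat_lit 670333367671) (nat_lit 76) (nat_lit 2733941959789) (nat_lit 76) (nat_lit 1247780997403) (nat_lit 6) (nat_lit 4) (nat_lit 7) (nat_lit 5) (nat_lit 7) (nat_lit 4) (nat_lit 278) (nat_lit 252) (nat_lit 130)) (XT.lf (nat_lit 0) (nat_lit 99577563540) (nat_lit 532) (nat_lit 53299355274) (nat_lit 532) (nat_lit 53299355274) (nat_lit 40) (nat_lit 3) (nat_lit 47) (nat_lit 3) (nat_lit 47) (nat_lit 5) (nat_lit 253) (nat_lit 253) (nat_lit 154))))) (XT.nd (nat_lit 234) (nat_lit 608) (nat_lit 0) (XT.nd (nat_lit 78) (nat_lit 0) (nat_lit 0) (XT.lf (nat_lit 0) (nat_lit 220649680766) (nat_lit 456) (nat_lit 197103412480) (nat_lit 532) (nat_lit 25001259850) (nat_lit 41) (nat_lit 5) (nat_lit 47) (nat_lit 5) (nat_lit 48) (nat_lit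 5) (nat_lit 254) (nat_lit 253) (nat_lit 153)) (XT.nd (nat_lit 78) (nat_lit 0) (nat_lit 76) (XT.lf (nat_lit 76) (nat_lit 180202567622) (nat_lit 0) (nat_lit 81140126934) (nat_lit 532) (nat_lit 215095792503) (nat_lit 42) (nat_lit 5) (nat_lit 41) (nat_lit 5) (nat_lit 48) (nat_lit 5) (nat_lit 255) (nat_lit 253) (nat_lit 152)) (XT.lf (nat_lit 76) (nat_lit 109283477850) (nat_lit 0) (nat_lit 214730319867) (nat_lit 532) (nat_lit 189891512830) (nat_lit 43) (nat_lit 5) (nat_lit 42) (nat_lit 5) (nat_lit 49) (nat_lit 5) (nat_lit 256) (nat_lit 253) (nat_lit 151)))) (XT.nd (nat_lit 78) (nat_lit 304) (nat_lit 0) (XT.lf (nat_lit 0) (nat_lit 32261530808) (nat_lit 456) (nat_lit 379844414956) (nat_lit 532) (nat_lit 143604581799) (nat_lit 37) (nat_lit 5) (nat_lit 43) (nat_lit 5) (nat_lit 44) (nat_lit 5) (nat_lit 257) (nat_lit 253) (nat_lit 150)) (XT.nd (nat_lit 78) (nat_lit 304) (nat_lit 0) (XT.lf (nat_lit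 0) (nat_lit 531508371841) (nat_lit 532) (nat_lit 49980530368) (nat_lit 76) (nat_lit 20849908769) (nat_lit 37) (nat_lit 5) (nat_lit 44) (nat_lit 5) (nat_lit 38) (nat_lit 5) (nat_lit 258) (nat_lit 253) (nat_lit 149)) (XT.lf (nat_lit 0) (nat_lit 35566380293) (nat_lit 304) (nat_lit 145551755401) (nat_lit 76) (nat_lit 472950470663) (nat_lit 33) (nat_lit 5) (nat_lit 37) (nat_lit 5) (nat_lit 34) (nat_lit 5) (nat_lit 259) (nat_lit 253) (nat_lit 148)))))) (XT.nd (nat_lit 390) (nat_lit 532) (nat_lit 0) (XT.nd (nat_lit 156) (nat_lit 532) (nat_lit 0) (XT.nd (nat_lit 78) (nat_lit 228) (nat_lit 0) (XT.lf (nat_lit 0) (nat_lit 173534327765) (nat_lit 304) (nat_lit 258027806126) (nat_lit 76) (nat_lit 280264112633) (nat_lit 30) (nat_lit 5) (nat_lit 34) (nat_lit 5) (nat_lit 31) (nat_lit 5) (nat_lit 260) (nat_lit 253) (nat_lit 147)) (XT.lf (nat_lit 0) (nat_lit 351790692572) (nat_lit 304) (nat_lit 389390941161)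 (nat_lit 76) (nat_lit 35498441157) (nat_lit 27) (nat_lit 5) (nat_lit 31) (nat_lit 5) (nat_lit 28) (nat_lit 5) (nat_lit 261) (nat_lit 253) (nat_lit 146))) (XT.nd (nat_lit 78) (nat_lit 380) (nat_lit 0) (XT.lf (nat_lit 0) (nat_lit 297098959811) (nat_lit 152) (nat_lit 286475005768) (nat_lit 228) (nat_lit 265544935818) (nat_lit 25) (nat_lit 5) (nat_lit 27) (nat_lit 5) (nat_lit 28) (nat_lit 5) (nat_lit 262) (nat_lit 253) (nat_lit 145)) (XT.nd (nat_lit 78) (nat_lit 228) (nat_lit 0) (XT.lf (nat_lit 0) (nat_lit 181736402220) (nat_lit 152) (nat_lit 690076535860) (nat_lit 228) (nat_lit 58875557260) (nat_lit 23) (nat_lit 5) (nat_lit 25) (nat_lit 5) (nat_lit 26) (nat_lit 5) (nat_lit 263) (nat_lit 253) (nat_lit 144)) (XT.lf (nat_lit 0) (nat_lit 24354661339) (nat_lit 152) (nat_lit 170493341939) (nat_lit 228) (nat_lit 827301701846) (nat_lit 20) (nat_lit 5) (nat_lit 22) (nat_lit 5) (nat_lit 23) (nat_lit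 5) (nat_lit 264) (nat_lit 253) (nat_lit 143))))) (XT.nd (nat_lit 234) (nat_lit 228) (nat_lit 0) (XT.nd (nat_lit 78) (nat_lit 304) (nat_lit 0) (XT.lf (nat_lit 0) (nat_lit 515884401278) (nat_lit 228) (nat_lit 179038796920) (nat_lit 76) (nat_lit 429665327987) (nat_lit 20) (nat_lit 5) (nat_lit 23) (nat_lit 5) (nat_lit 21) (nat_lit 5) (nat_lit 265) (nat_lit 253) (nat_lit 142)) (XT.nd (nat_lit 78) (nat_lit 152) (nat_lit 0) (XT.lf (nat_lit 0) (nat_lit 797720630824) (nat_lit 152) (nat_lit 111256220137) (nat_lit 228) (nat_lit 331504272174) (nat_lit 18) (nat_lit 5) (nat_lit 20) (nat_lit 5) (nat_lit 21) (nat_lit 5) (nat_lit 266) (nat_lit 253) (nat_lit 141)) (XT.lf (nat_lit 0) (nat_lit 21368802067) (nat_lit 152) (nat_lit 798103817639) (nat_lit 76) (nat_lit 551632934600) (nat_lit 16) (nat_lit 5) (nat_lit 18) (nat_lit 5) (nat_lit 17) (nat_lit 5) (nat_lit 267) (nat_lit 253) (nat_lit 140)))) (XT.nd (nat_lit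 78) (nat_lit 76) (nat_lit 0) (XT.lf (nat_lit 0) (nat_lit 247445840129) (nat_lit 152) (nat_lit 182909769125) (nat_lit 228) (nat_lit 1088454278992) (nat_lit 14) (nat_lit 5) (nat_lit 16) (nat_lit 5) (nat_lit 17) (nat_lit 5) (nat_lit 268) (nat_lit 253) (nat_lit 139)) (XT.nd (nat_lit 78) (nat_lit 76) (nat_lit 0) (XT.lf (nat_lit 0) (nat_lit 937736647031) (nat_lit 228) (nat_lit 202462651552) (nat_lit 76) (nat_lit 545506876985) (nat_lit 14) (nat_lit 5) (nat_lit 17) (nat_lit 5) (nat_lit 15) (nat_lit 4) (nat_lit 269) (nat_lit 253) (nat_lit 138)) (XT.lf (nat_lit 0) (nat_lit 1075516791697) (nat_lit 76) (nat_lit 476633063332) (nat_lit 152) (nat_lit 323013049841) (nat_lit 13) (nat_lit 5) (nat_lit 14) (nat_lit 5) (nat_lit 15) (nat_lit 4) (nat_lit 270) (nat_lit 253) (nat_lit 137))))))) (XT.nd (nat_lit 33306) (nat_lit 0) (nat_lit 836) (XT.nd (nat_lit 390) (nat_lit 76) (nat_lit 0) (XT.nd (nat_lit 156)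 (nat_lit 228) (nat_lit 0) (XT.nd (nat_lit 78) (nat_lit 0) (nat_lit 0) (XT.lf (nat_lit 0) (nat_lit 182563792330) (nat_lit 152) (nat_lit 1613744101138) (nat_lit 76) (nat_lit 294398250504) (nat_lit 11) (nat_lit 5) (nat_lit 13) (nat_lit 5) (nat_lit 12) (nat_lit 4) (nat_lit 271) (nat_lit 253) (nat_lit 136)) (XT.lf (nat_lit 0) (nat_lit 782462983094) (nat_lit 152) (nat_lit 365953804925) (nat_lit 76) (nat_lit 1186483941053) (nat_lit 11) (nat_lit 5) (nat_lit 13) (nat_lit 5) (nat_lit 12) (nat_lit 4) (nat_lit 272) (nat_lit 253) (nat_lit 135))) (XT.nd (nat_lit 78) (nat_lit 152) (nat_lit 0) (XT.lf (nat_lit 0) (nat_lit 1125296916342) (nat_lit 76) (nat_lit 374113537501) (nat_lit 152) (nat_lit 1114148976012) (nat_lit 10) (nat_lit 5) (nat_lit 11) (nat_lit 5) (nat_lit 12) (nat_lit 4) (nat_lit 273) (nat_lit 253) (nat_lit 134)) (XT.nd (nat_lit 78) (nat_lit 152) (nat_lit 0) (XT.lf (nat_lit 0) (nat_lit 2347248991607)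 (nat_lit 152) (nat_lit 83462928720) (nat_lit 0) (nat_lit 501437099743) (nat_lit 10) (nat_lit 5) (nat_lit 12) (nat_lit 4) (nat_lit 10) (nat_lit 4) (nat_lit 274) (nat_lit 253) (nat_lit 133)) (XT.lf (nat_lit 0) (nat_lit 72689596311) (nat_lit 152) (nat_lit 1694617544062) (nat_lit 76) (nat_lit 1527162982329) (nat_lit 8) (nat_lit 5) (nat_lit 10) (nat_lit 5) (nat_lit 9) (nat_lit 4) (nat_lit 275) (nat_lit 253) (nat_lit 132))))) (XT.nd (nat_lit 32682) (nat_lit 0) (nat_lit 2508) (XT.nd (nat_lit 78) (nat_lit 76) (nat_lit 0) (XT.lf (nat_lit 0) (nat_lit 797762772399) (nat_lit 152) (nat_lit 186465348692) (nat_lit 76) (nat_lit 2725417675669) (nat_lit 8) (nat_lit 5) (nat_lit 10) (nat_lit 5) (nat_lit 9) (nat_lit 4) (nat_lit 276) (nat_lit 253) (nat_lit 131)) (XT.nd (nat_lit 78) (nat_lit 0) (nat_lit 0) (XT.lf (nat_lit 0) (nat_lit 1629419835999) (nat_lit 76) (nat_lit 41364664363) (nat_lit 152) (nat_lit 2513178315542)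 (nat_lit 7) (nat_lit 5) (nat_lit 8) (nat_lit 5) (nat_lit 9) (nat_lit 4) (nat_lit 277) (nat_lit 253) (nat_lit 130)) (XT.lf (nat_lit 0) (nat_lit 2705411672668) (nat_lit 152) (nat_lit 1025236990924) (nat_lit 0) (nat_lit 996326549528) (nat_lit 7) (nat_lit 5) (nat_lit 9) (nat_lit 4) (nat_lit 7) (nat_lit 4) (nat_lit 278) (nat_lit 253) (nat_lit 129)))) (XT.nd (nat_lit 78) (nat_lit 0) (nat_lit 76) (XT.lf (nat_lit 0) (nat_lit 114514796953) (nat_lit 532) (nat_lit 61293933892) (nat_lit 532) (nat_lit 61293933892) (nat_lit 40) (nat_lit 3) (nat_lit 47) (nat_lit 3) (nat_lit 47) (nat_lit 5) (nat_lit 254) (nat_lit 254) (nat_lit 152)) (XT.nd (nat_lit 78) (nat_lit 0) (nat_lit 0) (XT.lf (nat_lit 0) (nat_lit 253748177612) (nat_lit 456) (nat_lit 226668229963) (nat_lit 532) (nat_lit 28751010465) (nat_lit 41) (nat_lit 5) (nat_lit 47) (nat_lit 5) (nat_lit 48) (nat_lit 5) (nat_lit 255) (nat_lit 254) (nat_lit 151))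 (XT.lf (nat_lit 76) (nat_lit 207233588378) (nat_lit 0) (nat_lit 93311434110) (nat_lit 532) (nat_lit 247359159868) (nat_lit 42) (nat_lit 5) (nat_lit 41) (nat_lit 5) (nat_lit 48) (nat_lit 5) (nat_lit 256) (nat_lit 254) (nat_lit 150)))))) (XT.nd (nat_lit 390) (nat_lit 912) (nat_lit 0) (XT.nd (nat_lit 156) (nat_lit 532) (nat_lit 0) (XT.nd (nat_lit 78) (nat_lit 380) (nat_lit 0) (XT.lf (nat_lit 76) (nat_lit 125676658863) (nat_lit 0) (nat_lit 246940021602) (nat_lit 532) (nat_lit 218374358257) (nat_lit 43) (nat_lit 5) (nat_lit 42) (nat_lit 5) (nat_lit 49) (nat_lit 5) (nat_lit 257) (nat_lit 254) (nat_lit 149)) (XT.lf (nat_lit 0) (nat_lit 37101429956) (nat_lit 456) (nat_lit 436821127594) (nat_lit 532) (nat_lit 165144488632) (nat_lit 37) (nat_lit 5) (nat_lit 43) (nat_lit 5) (nat_lit 44) (nat_lit 5) (nat_lit 258) (nat_lit 254) (nat_lit 148))) (XT.nd (nat_lit 78) (nat_lit 532) (nat_lit 0) (XT.lf (nat_lit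 0) (nat_lit 611235252582) (nat_lit 532) (nat_lit 57476974050) (nat_lit 76) (nat_lit 23977353455) (nat_lit 37) (nat_lit 5) (nat_lit 44) (nat_lit 5) (nat_lit 38) (nat_lit 5) (nat_lit 259) (nat_lit 254) (nat_lit 147)) (XT.nd (nat_lit 78) (nat_lit 228) (nat_lit 0) (XT.lf (nat_lit 0) (nat_lit 40901911360) (nat_lit 304) (nat_lit 167383904389) (nat_lit 76) (nat_lit 543893033593) (nat_lit 33) (nat_lit 5) (nat_lit 37) (nat_lit 5) (nat_lit 34) (nat_lit 5) (nat_lit 260) (nat_lit 254) (nat_lit 146)) (XT.lf (nat_lit 0) (nat_lit 199564990798) (nat_lit 304) (nat_lit 296731373124) (nat_lit 76) (nat_lit 322303776692) (nat_lit 30) (nat_lit 5) (nat_lit 34) (nat_lit 5) (nat_lit 31) (nat_lit 5) (nat_lit 261) (nat_lit 254) (nat_lit 145))))) (XT.nd (nat_lit 234) (nat_lit 380) (nat_lit 0) (XT.nd (nat_lit 78) (nat_lit 304) (nat_lit 0) (XT.lf (nat_lit 0) (nat_lit 404559758823) (nat_lit 304) (nat_lit 447798993404)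 (nat_lit 76) (nat_lit 40823295360) (nat_lit 27) (nat_lit 5) (nat_lit 31) (nat_lit 5) (nat_lit 28) (nat_lit 5) (nat_lit 262) (nat_lit 254) (nat_lit 144)) (XT.nd (nat_lit 78) (nat_lit 152) (nat_lit 0) (XT.lf (nat_lit 0) (nat_lit 341664342863) (nat_lit 152) (nat_lit 329446132575) (nat_lit 228) (nat_lit 305376226622) (nat_lit 25) (nat_lit 5) (nat_lit 27) (nat_lit 5) (nat_lit 28) (nat_lit 5) (nat_lit 263) (nat_lit 254) (nat_lit 143)) (XT.lf (nat_lit 0) (nat_lit 208997384895) (nat_lit 152) (nat_lit 793587869943) (nat_lit 228) (nat_lit 67706483551) (nat_lit 23) (nat_lit 5) (nat_lit 25) (nat_lit 5) (nat_lit 26) (nat_lit 5) (nat_lit 264) (nat_lit 254) (nat_lit 142)))) (XT.nd (nat_lit 78) (nat_lit 152) (nat_lit 0) (XT.lf (nat_lit 0) (nat_lit 28008358309) (nat_lit 152) (nat_lit 196067193888) (nat_lit 228) (nat_lit 951396579880) (nat_lit 20) (nat_lit 5) (nat_lit 22) (nat_lit 5) (nat_lit 23) (nat_lit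 5) (nat_lit 265) (nat_lit 254) (nat_lit 141)) (XT.nd (nat_lit 78) (nat_lit 152) (nat_lit 0) (XT.lf (nat_lit 0) (nat_lit 593267367573) (nat_lit 228) (nat_lit 205894161682) (nat_lit 76) (nat_lit 494115250552) (nat_lit 20) (nat_lit 5) (nat_lit 23) (nat_lit 5) (nat_lit 21) (nat_lit 5) (nat_lit 266) (nat_lit 254) (nat_lit 140)) (XT.lf (nat_lit 0) (nat_lit 917379141729) (nat_lit 152) (nat_lit 127944513064) (nat_lit 228) (nat_lit 381229614005) (nat_lit 18) (nat_lit 5) (nat_lit 20) (nat_lit 5) (nat_lit 21) (nat_lit 5) (nat_lit 267) (nat_lit 254) (nat_lit 139))))))))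
noncomputable def xc59 : XT := (XT.nd (nat_lit 34242) (nat_lit 0) (nat_lit 76) (XT.nd (nat_lit 33384) (nat_lit 0) (nat_lit 1216) (XT.nd (nat_lit 390) (nat_lit 304) (nat_lit 0) (XT.nd (nat_lit 156) (nat_lit 228) (nat_lit 0) (XT.nd (nat_lit 78) (nat_lit 152) (nat_lit 0) (XT.lf (nat_lit 0) (nat_lit 24574382214) (nat_lit 152) (nat_lit 917818977191) (nat_lit 76) (nat_lit 634378006687) (nat_lit 16) (nat_lit 5) (nat_lit 18) (nat_lit 5) (nat_lit 17) (nat_lit 5) (nat_lit 268) (nat_lit 254) (nat_lit 138)) (XT.lf (nat_lit 0) (nat_lit 284563094275) (nat_lit 152) (nat_lit 210346091405) (nat_lit 228) (nat_lit 1251722166500) (nat_lit 14) (nat_lit 5) (nat_lit 16) (nat_lit 5) (nat_lit 17) (nat_lit 5) (nat_lit 269) (nat_lit 254) (nat_lit 137))) (XT.nd (nat_lit 78) (nat_lit 228) (nat_lit 0) (XT.lf (nat_lit 0) (nat_lit 1078397351459) (nat_lit 228) (nat_lit 232831706687) (nat_lit 76) (nat_lit 627333026734)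 (nat_lit 14) (nat_lit 5) (nat_lit 17) (nat_lit 5) (nat_lit 15) (nat_lit 4) (nat_lit 270) (nat_lit 254) (nat_lit 136)) (XT.nd (nat_lit 78) (nat_lit 152) (nat_lit 0) (XT.lf (nat_lit 0) (nat_lit 1236844624050) (nat_lit 76) (nat_lit 548127897101) (nat_lit 152) (nat_lit 371464804044) (nat_lit 13) (nat_lit 5) (nat_lit 14) (nat_lit 5) (nat_lit 15) (nat_lit 4) (nat_lit 271) (nat_lit 254) (nat_lit 135)) (XT.lf (nat_lit 0) (nat_lit 209948539158) (nat_lit 152) (nat_lit 1855805408245) (nat_lit 76) (nat_lit 338558103624) (nat_lit 11) (nat_lit 5) (nat_lit 13) (nat_lit 5) (nat_lit 12) (nat_lit 4) (nat_lit 272) (nat_lit 254) (nat_lit 134))))) (XT.nd (nat_lit 234) (nat_lit 228) (nat_lit 0) (XT.nd (nat_lit 78) (nat_lit 76) (nat_lit 0) (XT.lf (nat_lit 0) (nat_lit 899832585321) (nat_lit 152) (nat_lit 420846607783) (nat_lit 76) (nat_lit 1364456632685) (nat_lit 11) (nat_lit 5) (nat_lit 13) (nat_lit 5) (nat_lit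 12) (nat_lit 4) (nat_lit 273) (nat_lit 254) (nat_lit 133)) (XT.nd (nat_lit 78) (nat_lit 0) (nat_lit 0) (XT.lf (nat_lit 0) (nat_lit 1294091699001) (nat_lit 76) (nat_lit 430230463394) (nat_lit 152) (nat_lit 1281271170473) (nat_lit 10) (nat_lit 5) (nat_lit 11) (nat_lit 5) (nat_lit 12) (nat_lit 4) (nat_lit 274) (nat_lit 254) (nat_lit 132)) (XT.lf (nat_lit 0) (nat_lit 2699336464689) (nat_lit 152) (nat_lit 95982147023) (nat_lit 0) (nat_lit 576652751221) (nat_lit 10) (nat_lit 5) (nat_lit 12) (nat_lit 4) (nat_lit 10) (nat_lit 4) (nat_lit 275) (nat_lit 254) (nat_lit 131)))) (XT.nd (nat_lit 78) (nat_lit 76) (nat_lit 0) (XT.lf (nat_lit 0) (nat_lit 83593151846) (nat_lit 152) (nat_lit 1948809967100) (nat_lit 76) (nat_lit 1756237512715) (nat_lit 8) (nat_lit 5) (nat_lit 10) (nat_lit 5) (nat_lit 9) (nat_lit 4) (nat_lit 276) (nat_lit 254) (nat_lit 130)) (XT.nd (nat_lit 78) (nat_lit 76) (nat_lit 0) (XT.lf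 (nat_lit 0) (nat_lit 917427289205) (nat_lit 152) (nat_lit 214434969629) (nat_lit 76) (nat_lit 3134230399225) (nat_lit 8) (nat_lit 5) (nat_lit 10) (nat_lit 5) (nat_lit 9) (nat_lit 4) (nat_lit 277) (nat_lit 254) (nat_lit 129)) (XT.lf (nat_lit 0) (nat_lit 1873832977414) (nat_lit 76) (nat_lit 47569289774) (nat_lit 152) (nat_lit 2890154963638) (nat_lit 7) (nat_lit 5) (nat_lit 8) (nat_lit 5) (nat_lit 9) (nat_lit 4) (nat_lit 278) (nat_lit 254) (nat_lit 128)))))) (XT.nd (nat_lit 390) (nat_lit 1064) (nat_lit 0) (XT.nd (nat_lit 156) (nat_lit 228) (nat_lit 0) (XT.nd (nat_lit 78) (nat_lit 0) (nat_lit 76) (XT.lf (nat_lit 0) (nat_lit 131692469337) (nat_lit 532) (nat_lit 70487778476) (nat_lit 532) (nat_lit 70487778476) (nat_lit 40) (nat_lit 3) (nat_lit 47) (nat_lit 3) (nat_lit 47) (nat_lit 5) (nat_lit 255) (nat_lit 255) (nat_lit 150)) (XT.lf (nat_lit 0) (nat_lit 291811194220) (nat_lit 456) (nat_lit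 260667939399) (nat_lit 532) (nat_lit 33063330570) (nat_lit 41) (nat_lit 5) (nat_lit 47) (nat_lit 5) (nat_lit 48) (nat_lit 5) (nat_lit 256) (nat_lit 255) (nat_lit 149))) (XT.nd (nat_lit 78) (nat_lit 304) (nat_lit 0) (XT.lf (nat_lit 76) (nat_lit 238319107250) (nat_lit 0) (nat_lit 107308367098) (nat_lit 532) (nat_lit 284462276562) (nat_lit 42) (nat_lit 5) (nat_lit 41) (nat_lit 5) (nat_lit 48) (nat_lit 5) (nat_lit 257) (nat_lit 255) (nat_lit 148)) (XT.nd (nat_lit 78) (nat_lit 380) (nat_lit 0) (XT.lf (nat_lit 76) (nat_lit 144528656245) (nat_lit 0) (nat_lit 283981141103) (nat_lit 532) (nat_lit 251129845458) (nat_lit 43) (nat_lit 5) (nat_lit 42) (nat_lit 5) (nat_lit 49) (nat_lit 5) (nat_lit 258) (nat_lit 255) (nat_lit 147)) (XT.lf (nat_lit 0) (nat_lit 42667150708) (nat_lit 456) (nat_lit 502344334839) (nat_lit 532) (nat_lit 189915571805) (nat_lit 37) (nat_lit 5) (nat_lit 43) (nat_lit 5) (nat_lit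 44) (nat_lit 5) (nat_lit 259) (nat_lit 255) (nat_lit 146))))) (XT.nd (nat_lit 234) (nat_lit 532) (nat_lit 0) (XT.nd (nat_lit 78) (nat_lit 532) (nat_lit 0) (XT.lf (nat_lit 0) (nat_lit 702921013033) (nat_lit 532) (nat_lit 66098039347) (nat_lit 76) (nat_lit 27573924995) (nat_lit 37) (nat_lit 5) (nat_lit 44) (nat_lit 5) (nat_lit 38) (nat_lit 5) (nat_lit 260) (nat_lit 255) (nat_lit 145)) (XT.nd (nat_lit 78) (nat_lit 228) (nat_lit 0) (XT.lf (nat_lit 0) (nat_lit 47037632108) (nat_lit 304) (nat_lit 192491025533) (nat_lit 76) (nat_lit 625476982834) (nat_lit 33) (nat_lit 5) (nat_lit 37) (nat_lit 5) (nat_lit 34) (nat_lit 5) (nat_lit 261) (nat_lit 255) (nat_lit 144)) (XT.lf (nat_lit 0) (nat_lit 229500127977) (nat_lit 304) (nat_lit 341240622442) (nat_lit 76) (nat_lit 370649378859) (nat_lit 30) (nat_lit 5) (nat_lit 34) (nat_lit 5) (nat_lit 31) (nat_lit 5) (nat_lit 262) (nat_lit 255) (nat_lit 143))))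 (XT.nd (nat_lit 78) (nat_lit 304) (nat_lit 0) (XT.lf (nat_lit 0) (nat_lit 465244072262) (nat_lit 304) (nat_lit 514968397099) (nat_lit 76) (nat_lit 46946856227) (nat_lit 27) (nat_lit 5) (nat_lit 31) (nat_lit 5) (nat_lit 28) (nat_lit 5) (nat_lit 263) (nat_lit 255) (nat_lit 142)) (XT.nd (nat_lit 78) (nat_lit 152) (nat_lit 0) (XT.lf (nat_lit 0) (nat_lit 392914401915) (nat_lit 152) (nat_lit 378862958655) (nat_lit 228) (nat_lit 351182320677) (nat_lit 25) (nat_lit 5) (nat_lit 27) (nat_lit 5) (nat_lit 28) (nat_lit 5) (nat_lit 264) (nat_lit 255) (nat_lit 141)) (XT.lf (nat_lit 0) (nat_lit 240347387594) (nat_lit 152) (nat_lit 912625939814) (nat_lit 228) (nat_lit 77862148107) (nat_lit 23) (nat_lit 5) (nat_lit 25) (nat_lit 5) (nat_lit 26) (nat_lit 5) (nat_lit 265) (nat_lit 255) (nat_lit 140))))))) (XT.nd (nat_lit 858) (nat_lit 152) (nat_lit 0) (XT.nd (nat_lit 390) (nat_lit 304) (nat_lit 0) (XT.nd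 (nat_lit 156) (nat_lit 456) (nat_lit 0) (XT.nd (nat_lit 78) (nat_lit 0) (nat_lit 0) (XT.lf (nat_lit 0) (nat_lit 32209988440) (nat_lit 152) (nat_lit 225477160047) (nat_lit 228) (nat_lit 1094105781613) (nat_lit 20) (nat_lit 5) (nat_lit 22) (nat_lit 5) (nat_lit 23) (nat_lit 5) (nat_lit 266) (nat_lit 255) (nat_lit 139)) (XT.lf (nat_lit 0) (nat_lit 682257704167) (nat_lit 228) (nat_lit 236777942058) (nat_lit 76) (nat_lit 568232631417) (nat_lit 20) (nat_lit 5) (nat_lit 23) (nat_lit 5) (nat_lit 21) (nat_lit 5) (nat_lit 267) (nat_lit 255) (nat_lit 138))) (XT.nd (nat_lit 78) (nat_lit 304) (nat_lit 0) (XT.lf (nat_lit 0) (nat_lit 1054986327758) (nat_lit 152) (nat_lit 147136084092) (nat_lit 228) (nat_lit 438413830022) (nat_lit 18) (nat_lit 5) (nat_lit 20) (nat_lit 5) (nat_lit 21) (nat_lit 5) (nat_lit 268) (nat_lit 255) (nat_lit 137)) (XT.nd (nat_lit 78) (nat_lit 152) (nat_lit 0) (XT.lf (nat_lit 0)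 (nat_lit 28260736021) (nat_lit 152) (nat_lit 1055491511411) (nat_lit 76) (nat_lit 729534807423) (nat_lit 16) (nat_lit 5) (nat_lit 18) (nat_lit 5) (nat_lit 17) (nat_lit 5) (nat_lit 269) (nat_lit 255) (nat_lit 136)) (XT.lf (nat_lit 0) (nat_lit 327247844336) (nat_lit 152) (nat_lit 241897896921) (nat_lit 228) (nat_lit 1439480299157) (nat_lit 14) (nat_lit 5) (nat_lit 16) (nat_lit 5) (nat_lit 17) (nat_lit 5) (nat_lit 270) (nat_lit 255) (nat_lit 135))))) (XT.nd (nat_lit 234) (nat_lit 76) (nat_lit 0) (XT.nd (nat_lit 78) (nat_lit 228) (nat_lit 0) (XT.lf (nat_lit 0) (nat_lit 1240157110983) (nat_lit 228) (nat_lit 267756203637) (nat_lit 76) (nat_lit 721433070120) (nat_lit 14) (nat_lit 5) (nat_lit 17) (nat_lit 5) (nat_lit 15) (nat_lit 4) (nat_lit 271) (nat_lit 255) (nat_lit 134)) (XT.nd (nat_lit 78) (nat_lit 152) (nat_lit 0) (XT.lf (nat_lit 0) (nat_lit 1422371554784) (nat_lit 76) (nat_lit 630346986595)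 (nat_lit 152) (nat_lit 427184370946) (nat_lit 13) (nat_lit 5) (nat_lit 14) (nat_lit 5) (nat_lit 15) (nat_lit 4) (nat_lit 272) (nat_lit 255) (nat_lit 133)) (XT.lf (nat_lit 0) (nat_lit 241440954608) (nat_lit 152) (nat_lit 2134175986541) (nat_lit 76) (nat_lit 389341906536) (nat_lit 11) (nat_lit 5) (nat_lit 13) (nat_lit 5) (nat_lit 12) (nat_lit 4) (nat_lit 273) (nat_lit 255) (nat_lit 132)))) (XT.nd (nat_lit 78) (nat_lit 76) (nat_lit 0) (XT.lf (nat_lit 0) (nat_lit 1034807590143) (nat_lit 152) (nat_lit 483973396393) (nat_lit 76) (nat_lit 1569125203560) (nat_lit 11) (nat_lit 5) (nat_lit 13) (nat_lit 5) (nat_lit 12) (nat_lit 4) (nat_lit 274) (nat_lit 255) (nat_lit 131)) (XT.nd (nat_lit 78) (nat_lit 0) (nat_lit 0) (XT.lf (nat_lit 0) (nat_lit 1488205639262) (nat_lit 76) (nat_lit 494764953710) (nat_lit 152) (nat_lit 1473461731154) (nat_lit 10) (nat_lit 5) (nat_lit 11) (nat_lit 5) (nat_lit 12) (nat_lit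 4) (nat_lit 275) (nat_lit 255) (nat_lit 130)) (XT.lf (nat_lit 0) (nat_lit 3104237028413) (nat_lit 152) (nat_lit 110379301965) (nat_lit 0) (nat_lit 663150729323) (nat_lit 10) (nat_lit 5) (nat_lit 12) (nat_lit 4) (nat_lit 10) (nat_lit 4) (nat_lit 276) (nat_lit 255) (nat_lit 129)))))) (XT.nd (nat_lit 33072) (nat_lit 0) (nat_lit 1292) (XT.nd (nat_lit 32838) (nat_lit 0) (nat_lit 2508) (XT.nd (nat_lit 32760) (nat_lit 0) (nat_lit 2432) (XT.lf (nat_lit 0) (nat_lit 96132212402) (nat_lit 152) (nat_lit 2241131304455) (nat_lit 76) (nat_lit 2019673202409) (nat_lit 8) (nat_lit 5) (nat_lit 10) (nat_lit 5) (nat_lit 9) (nat_lit 4) (nat_lit 277) (nat_lit 255) (nat_lit 128)) (XT.lf (nat_lit 0) (nat_lit 151446682150) (nat_lit 532) (nat_lit 81060759615) (nat_lit 532) (nat_lit 81060759615) (nat_lit 40) (nat_lit 3) (nat_lit 47) (nat_lit 3) (nat_lit 47) (nat_lit 5) (nat_lit 256) (nat_lit 256) (nat_lit 148)))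 (XT.nd (nat_lit 78) (nat_lit 0) (nat_lit 0) (XT.lf (nat_lit 0) (nat_lit 335583470681) (nat_lit 456) (nat_lit 299767733289) (nat_lit 532) (nat_lit 38022579520) (nat_lit 41) (nat_lit 5) (nat_lit 47) (nat_lit 5) (nat_lit 48) (nat_lit 5) (nat_lit 257) (nat_lit 256) (nat_lit 147)) (XT.nd (nat_lit 78) (nat_lit 0) (nat_lit 76) (XT.lf (nat_lit 76) (nat_lit 274067336751) (nat_lit 0) (nat_lit 123404786905) (nat_lit 532) (nat_lit 327131045429) (nat_lit 42) (nat_lit 5) (nat_lit 41) (nat_lit 5) (nat_lit 48) (nat_lit 5) (nat_lit 258) (nat_lit 256) (nat_lit 146)) (XT.lf (nat_lit 76) (nat_lit 166208331659) (nat_lit 0) (nat_lit 326578400179) (nat_lit 532) (nat_lit 288798818278) (nat_lit 43) (nat_lit 5) (nat_lit 42) (nat_lit 5) (nat_lit 49) (nat_lit 5) (nat_lit 259) (nat_lit 256) (nat_lit 145))))) (XT.nd (nat_lit 234) (nat_lit 608) (nat_lit 0) (XT.nd (nat_lit 78) (nat_lit 304) (nat_lit 0) (XT.lf (nat_lit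 0) (nat_lit 49067606118) (nat_lit 456) (nat_lit 577696013879) (nat_lit 532) (nat_lit 218402461359) (nat_lit 37) (nat_lit 5) (nat_lit 43) (nat_lit 5) (nat_lit 44) (nat_lit 5) (nat_lit 260) (nat_lit 256) (nat_lit 144)) (XT.nd (nat_lit 78) (nat_lit 304) (nat_lit 0) (XT.lf (nat_lit 0) (nat_lit 808359522314) (nat_lit 532) (nat_lit 76012381687) (nat_lit 76) (nat_lit 31709989942) (nat_lit 37) (nat_lit 5) (nat_lit 44) (nat_lit 5) (nat_lit 38) (nat_lit 5) (nat_lit 261) (nat_lit 256) (nat_lit 143)) (XT.lf (nat_lit 0) (nat_lit 54093605125) (nat_lit 304) (nat_lit 221364328122) (nat_lit 76) (nat_lit 719298525874) (nat_lit 33) (nat_lit 5) (nat_lit 37) (nat_lit 5) (nat_lit 34) (nat_lit 5) (nat_lit 262) (nat_lit 256) (nat_lit 142)))) (XT.nd (nat_lit 78) (nat_lit 380) (nat_lit 0) (XT.lf (nat_lit 0) (nat_lit 263925440979) (nat_lit 304) (nat_lit 392426370515) (nat_lit 76) (nat_lit 426246812654) (nat_lit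 30) (nat_lit 5) (nat_lit 34) (nat_lit 5) (nat_lit 31) (nat_lit 5) (nat_lit 263) (nat_lit 256) (nat_lit 141)) (XT.nd (nat_lit 78) (nat_lit 152) (nat_lit 0) (XT.lf (nat_lit 0) (nat_lit 535030947460) (nat_lit 304) (nat_lit 592213319941) (nat_lit 76) (nat_lit 53988934991) (nat_lit 27) (nat_lit 5) (nat_lit 31) (nat_lit 5) (nat_lit 28) (nat_lit 5) (nat_lit 264) (nat_lit 256) (nat_lit 140)) (XT.lf (nat_lit 0) (nat_lit 451851870423) (nat_lit 152) (nat_lit 435692331523) (nat_lit 228) (nat_lit 403859411737) (nat_lit 25) (nat_lit 5) (nat_lit 27) (nat_lit 5) (nat_lit 28) (nat_lit 5) (nat_lit 265) (nat_lit 256) (nat_lit 139))))))))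
noncomputable def xc60 : XT := (XT.nd (nat_lit 34476) (nat_lit 0) (nat_lit 0) (XT.nd (nat_lit 858) (nat_lit 0) (nat_lit 0) (XT.nd (nat_lit 390) (nat_lit 456) (nat_lit 0) (XT.nd (nat_lit 156) (nat_lit 304) (nat_lit 0) (XT.nd (nat_lit 78) (nat_lit 228) (nat_lit 0) (XT.lf (nat_lit 0) (nat_lit 276399794384) (nat_lit 152) (nat_lit 1049519747142) (nat_lit 228) (nat_lit 89541237449) (nat_lit 23) (nat_lit 5) (nat_lit 25) (nat_lit 5) (nat_lit 26) (nat_lit 5) (nat_lit 266) (nat_lit 256) (nat_lit 138)) (XT.lf (nat_lit 0) (nat_lit 37041771307) (nat_lit 152) (nat_lit 259298648668) (nat_lit 228) (nat_lit 1258221433165) (nat_lit 20) (nat_lit 5) (nat_lit 22) (nat_lit 5) (nat_lit 23) (nat_lit 5) (nat_lit 267) (nat_lit 256) (nat_lit 137))) (XT.nd (nat_lit 78) (nat_lit 304) (nat_lit 0) (XT.lf (nat_lit 0) (nat_lit 784596534807) (nat_lit 228) (nat_lit 272294373346) (nat_lit 76) (nat_lit 653467596665) (nat_lit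 20) (nat_lit 5) (nat_lit 23) (nat_lit 5) (nat_lit 21) (nat_lit 5) (nat_lit 268) (nat_lit 256) (nat_lit 136)) (XT.nd (nat_lit 78) (nat_lit 152) (nat_lit 0) (XT.lf (nat_lit 0) (nat_lit 1213234514932) (nat_lit 152) (nat_lit 169206416607) (nat_lit 228) (nat_lit 504175733574) (nat_lit 18) (nat_lit 5) (nat_lit 20) (nat_lit 5) (nat_lit 21) (nat_lit 5) (nat_lit 269) (nat_lit 256) (nat_lit 135)) (XT.lf (nat_lit 0) (nat_lit 32499994986) (nat_lit 152) (nat_lit 1213815001935) (nat_lit 76) (nat_lit 838965103949) (nat_lit 16) (nat_lit 5) (nat_lit 18) (nat_lit 5) (nat_lit 17) (nat_lit 5) (nat_lit 270) (nat_lit 256) (nat_lit 134))))) (XT.nd (nat_lit 234) (nat_lit 228) (nat_lit 0) (XT.nd (nat_lit 78) (nat_lit 76) (nat_lit 0) (XT.lf (nat_lit 0) (nat_lit 376335237182) (nat_lit 152) (nat_lit 278182499648) (nat_lit 228) (nat_lit 1655402198611) (nat_lit 14) (nat_lit 5) (nat_lit 16) (nat_lit 5) (nat_lit 17)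 (nat_lit 5) (nat_lit 271) (nat_lit 256) (nat_lit 133)) (XT.nd (nat_lit 78) (nat_lit 76) (nat_lit 0) (XT.lf (nat_lit 0) (nat_lit 1426180796198) (nat_lit 228) (nat_lit 307919438301) (nat_lit 76) (nat_lit 829648098220) (nat_lit 14) (nat_lit 5) (nat_lit 17) (nat_lit 5) (nat_lit 15) (nat_lit 4) (nat_lit 272) (nat_lit 256) (nat_lit 132)) (XT.lf (nat_lit 0) (nat_lit 1635727467303) (nat_lit 76) (nat_lit 724898962697) (nat_lit 152) (nat_lit 491261910366) (nat_lit 13) (nat_lit 5) (nat_lit 14) (nat_lit 5) (nat_lit 15) (nat_lit 4) (nat_lit 273) (nat_lit 256) (nat_lit 131)))) (XT.nd (nat_lit 78) (nat_lit 76) (nat_lit 0) (XT.lf (nat_lit 0) (nat_lit 277657199559) (nat_lit 152) (nat_lit 2454302208385) (nat_lit 76) (nat_lit 447743258579) (nat_lit 11) (nat_lit 5) (nat_lit 13) (nat_lit 5) (nat_lit 12) (nat_lit 4) (nat_lit 274) (nat_lit 256) (nat_lit 130)) (XT.nd (nat_lit 78) (nat_lit 76) (nat_lit 0) (XT.lf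 (nat_lit 0) (nat_lit 1190028817151) (nat_lit 152) (nat_lit 556569252690) (nat_lit 76) (nat_lit 1804494041540) (nat_lit 11) (nat_lit 5) (nat_lit 13) (nat_lit 5) (nat_lit 12) (nat_lit 4) (nat_lit 275) (nat_lit 256) (nat_lit 129)) (XT.lf (nat_lit 0) (nat_lit 1711436625350) (nat_lit 76) (nat_lit 568979636885) (nat_lit 152) (nat_lit 1694480903954) (nat_lit 10) (nat_lit 5) (nat_lit 11) (nat_lit 5) (nat_lit 12) (nat_lit 4) (nat_lit 276) (nat_lit 256) (nat_lit 128)))))) (XT.nd (nat_lit 33150) (nat_lit 0) (nat_lit 1140) (XT.nd (nat_lit 32916) (nat_lit 0) (nat_lit 2356) (XT.nd (nat_lit 32838) (nat_lit 0) (nat_lit 2280) (XT.lf (nat_lit 0) (nat_lit 3569872653768) (nat_lit 152) (nat_lit 126936070900) (nat_lit 0) (nat_lit 762623388188) (nat_lit 10) (nat_lit 5) (nat_lit 12) (nat_lit 4) (nat_lit 10) (nat_lit 4) (nat_lit 277) (nat_lit 256) (nat_lit 127)) (XT.lf (nat_lit 0) (nat_lit 174163943386) (nat_lit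 532) (nat_lit 93219733192) (nat_lit 532) (nat_lit 93219733192) (nat_lit 40) (nat_lit 3) (nat_lit 47) (nat_lit 3) (nat_lit 47) (nat_lit 5) (nat_lit 257) (nat_lit 257) (nat_lit 146))) (XT.nd (nat_lit 78) (nat_lit 0) (nat_lit 0) (XT.lf (nat_lit 0) (nat_lit 385921442949) (nat_lit 456) (nat_lit 344732593079) (nat_lit 532) (nat_lit 43725776932) (nat_lit 41) (nat_lit 5) (nat_lit 47) (nat_lit 5) (nat_lit 48) (nat_lit 5) (nat_lit 258) (nat_lit 257) (nat_lit 145)) (XT.nd (nat_lit 78) (nat_lit 0) (nat_lit 76) (XT.lf (nat_lit 76) (nat_lit 315177712057) (nat_lit 0) (nat_lit 141915629509) (nat_lit 532) (nat_lit 376200269263) (nat_lit 42) (nat_lit 5) (nat_lit 41) (nat_lit 5) (nat_lit 48) (nat_lit 5) (nat_lit 259) (nat_lit 257) (nat_lit 144)) (XT.lf (nat_lit 76) (nat_lit 191139866457) (nat_lit 0) (nat_lit 375565226678) (nat_lit 532) (nat_lit 332118259924) (nat_lit 43) (nat_lit 5) (nat_lit 42) (nat_lit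 5) (nat_lit 49) (nat_lit 5) (nat_lit 260) (nat_lit 257) (nat_lit 143))))) (XT.nd (nat_lit 234) (nat_lit 608) (nat_lit 0) (XT.nd (nat_lit 78) (nat_lit 304) (nat_lit 0) (XT.lf (nat_lit 0) (nat_lit 56428036491) (nat_lit 456) (nat_lit 664350437748) (nat_lit 532) (nat_lit 251162493158) (nat_lit 37) (nat_lit 5) (nat_lit 43) (nat_lit 5) (nat_lit 44) (nat_lit 5) (nat_lit 261) (nat_lit 257) (nat_lit 142)) (XT.nd (nat_lit 78) (nat_lit 304) (nat_lit 0) (XT.lf (nat_lit 0) (nat_lit 929613720851) (nat_lit 532) (nat_lit 87413964034) (nat_lit 76) (nat_lit 36466470436) (nat_lit 37) (nat_lit 5) (nat_lit 44) (nat_lit 5) (nat_lit 38) (nat_lit 5) (nat_lit 262) (nat_lit 257) (nat_lit 141)) (XT.lf (nat_lit 0) (nat_lit 62207894060) (nat_lit 304) (nat_lit 254568711752) (nat_lit 76) (nat_lit 827193301440) (nat_lit 33) (nat_lit 5) (nat_lit 37) (nat_lit 5) (nat_lit 34) (nat_lit 5) (nat_lit 263) (nat_lit 257) (nat_lit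 140)))) (XT.nd (nat_lit 78) (nat_lit 380) (nat_lit 0) (XT.lf (nat_lit 0) (nat_lit 303514479286) (nat_lit 304) (nat_lit 451290065001) (nat_lit 76) (nat_lit 490183854943) (nat_lit 30) (nat_lit 5) (nat_lit 34) (nat_lit 5) (nat_lit 31) (nat_lit 5) (nat_lit 264) (nat_lit 257) (nat_lit 139)) (XT.nd (nat_lit 78) (nat_lit 152) (nat_lit 0) (XT.lf (nat_lit 0) (nat_lit 615285789473) (nat_lit 304) (nat_lit 681045063321) (nat_lit 76) (nat_lit 62087313298) (nat_lit 27) (nat_lit 5) (nat_lit 31) (nat_lit 5) (nat_lit 28) (nat_lit 5) (nat_lit 265) (nat_lit 257) (nat_lit 138)) (XT.lf (nat_lit 0) (nat_lit 519629884046) (nat_lit 152) (nat_lit 501046127617) (nat_lit 228) (nat_lit 464438129136) (nat_lit 25) (nat_lit 5) (nat_lit 27) (nat_lit 5) (nat_lit 28) (nat_lit 5) (nat_lit 266) (nat_lit 257) (nat_lit 137))))))) (XT.nd (nat_lit 33696) (nat_lit 0) (nat_lit 988) (XT.nd (nat_lit 390) (nat_lit 456) (nat_lit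 0) (XT.nd (nat_lit 156) (nat_lit 304) (nat_lit 0) (XT.nd (nat_lit 78) (nat_lit 228) (nat_lit 0) (XT.lf (nat_lit 0) (nat_lit 317859989364) (nat_lit 152) (nat_lit 1206947645965) (nat_lit 228) (nat_lit 102972246980) (nat_lit 23) (nat_lit 5) (nat_lit 25) (nat_lit 5) (nat_lit 26) (nat_lit 5) (nat_lit 267) (nat_lit 257) (nat_lit 136)) (XT.lf (nat_lit 0) (nat_lit 42598252203) (nat_lit 152) (nat_lit 298193381403) (nat_lit 228) (nat_lit 1446954485048) (nat_lit 20) (nat_lit 5) (nat_lit 22) (nat_lit 5) (nat_lit 23) (nat_lit 5) (nat_lit 268) (nat_lit 257) (nat_lit 135))) (XT.nd (nat_lit 78) (nat_lit 304) (nat_lit 0) (XT.lf (nat_lit 0) (nat_lit 902286147365) (nat_lit 228) (nat_lit 313138332736) (nat_lit 76) (nat_lit 751487789500) (nat_lit 20) (nat_lit 5) (nat_lit 23) (nat_lit 5) (nat_lit 21) (nat_lit 5) (nat_lit 269) (nat_lit 257) (nat_lit 134)) (XT.nd (nat_lit 78) (nat_lit 152) (nat_lit 0) (XT.lf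 (nat_lit 0) (nat_lit 1395219872142) (nat_lit 152) (nat_lit 194587318532) (nat_lit 228) (nat_lit 579801964347) (nat_lit 18) (nat_lit 5) (nat_lit 20) (nat_lit 5) (nat_lit 21) (nat_lit 5) (nat_lit 270) (nat_lit 257) (nat_lit 133)) (XT.lf (nat_lit 0) (nat_lit 37375106569) (nat_lit 152) (nat_lit 1395887073634) (nat_lit 76) (nat_lit 964809926564) (nat_lit 16) (nat_lit 5) (nat_lit 18) (nat_lit 5) (nat_lit 17) (nat_lit 5) (nat_lit 271) (nat_lit 257) (nat_lit 132))))) (XT.nd (nat_lit 234) (nat_lit 228) (nat_lit 0) (XT.nd (nat_lit 78) (nat_lit 76) (nat_lit 0) (XT.lf (nat_lit 0) (nat_lit 432785686234) (nat_lit 152) (nat_lit 319909812734) (nat_lit 228) (nat_lit 1903712418444) (nat_lit 14) (nat_lit 5) (nat_lit 16) (nat_lit 5) (nat_lit 17) (nat_lit 5) (nat_lit 272) (nat_lit 257) (nat_lit 131)) (XT.nd (nat_lit 78) (nat_lit 76) (nat_lit 0) (XT.lf (nat_lit 0) (nat_lit 1640108005281) (nat_lit 228) (nat_lit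 354107205932) (nat_lit 76) (nat_lit 954095364054) (nat_lit 14) (nat_lit 5) (nat_lit 17) (nat_lit 5) (nat_lit 15) (nat_lit 4) (nat_lit 273) (nat_lit 257) (nat_lit 130)) (XT.lf (nat_lit 0) (nat_lit 1881086722975) (nat_lit 76) (nat_lit 833633752745) (nat_lit 152) (nat_lit 564951109040) (nat_lit 13) (nat_lit 5) (nat_lit 14) (nat_lit 5) (nat_lit 15) (nat_lit 4) (nat_lit 274) (nat_lit 257) (nat_lit 129)))) (XT.nd (nat_lit 78) (nat_lit 76) (nat_lit 0) (XT.lf (nat_lit 0) (nat_lit 319305856438) (nat_lit 152) (nat_lit 2822447406459) (nat_lit 76) (nat_lit 514904797319) (nat_lit 11) (nat_lit 5) (nat_lit 13) (nat_lit 5) (nat_lit 12) (nat_lit 4) (nat_lit 275) (nat_lit 257) (nat_lit 128)) (XT.nd (nat_lit 78) (nat_lit 76) (nat_lit 0) (XT.lf (nat_lit 0) (nat_lit 1368533206632) (nat_lit 152) (nat_lit 640054524781) (nat_lit 76) (nat_lit 2075168191208) (nat_lit 11) (nat_lit 5) (nat_lit 13) (nat_lit 5) (nat_lit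 12) (nat_lit 4) (nat_lit 276) (nat_lit 257) (nat_lit 127)) (XT.lf (nat_lit 0) (nat_lit 1968152225162) (nat_lit 76) (nat_lit 654326537139) (nat_lit 152) (nat_lit 1948652973859) (nat_lit 10) (nat_lit 5) (nat_lit 11) (nat_lit 5) (nat_lit 12) (nat_lit 4) (nat_lit 277) (nat_lit 257) (nat_lit 126)))))) (XT.nd (nat_lit 390) (nat_lit 1064) (nat_lit 0) (XT.nd (nat_lit 156) (nat_lit 228) (nat_lit 0) (XT.nd (nat_lit 78) (nat_lit 0) (nat_lit 76) (XT.lf (nat_lit 0) (nat_lit 200288730669) (nat_lit 532) (nat_lit 107202587034) (nat_lit 532) (nat_lit 107202587034) (nat_lit 40) (nat_lit 3) (nat_lit 47) (nat_lit 3) (nat_lit 47) (nat_lit 5) (nat_lit 258) (nat_lit 258) (nat_lit 144)) (XT.lf (nat_lit 0) (nat_lit 443810000916) (nat_lit 456) (nat_lit 396442255044) (nat_lit 532) (nat_lit 50284500171) (nat_lit 41) (nat_lit 5) (nat_lit 47) (nat_lit 5) (nat_lit 48) (nat_lit 5) (nat_lit 259) (nat_lit 258) (nat_lit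 143))) (XT.nd (nat_lit 78) (nat_lit 304) (nat_lit 0) (XT.lf (nat_lit 76) (nat_lit 362454576648) (nat_lit 0) (nat_lit 163203068127) (nat_lit 532) (nat_lit 432629982257) (nat_lit 42) (nat_lit 5) (nat_lit 41) (nat_lit 5) (nat_lit 48) (nat_lit 5) (nat_lit 260) (nat_lit 258) (nat_lit 142)) (XT.nd (nat_lit 78) (nat_lit 380) (nat_lit 0) (XT.lf (nat_lit 76) (nat_lit 219811061963) (nat_lit 0) (nat_lit 431900060943) (nat_lit 532) (nat_lit 381935710750) (nat_lit 43) (nat_lit 5) (nat_lit 42) (nat_lit 5) (nat_lit 49) (nat_lit 5) (nat_lit 261) (nat_lit 258) (nat_lit 141)) (XT.lf (nat_lit 0) (nat_lit 64892460835) (nat_lit 456) (nat_lit 764003019884) (nat_lit 532) (nat_lit 288836612006) (nat_lit 37) (nat_lit 5) (nat_lit 43) (nat_lit 5) (nat_lit 44) (nat_lit 5) (nat_lit 262) (nat_lit 258) (nat_lit 140))))) (XT.nd (nat_lit 234) (nat_lit 532) (nat_lit 0) (XT.nd (nat_lit 78) (nat_lit 532) (nat_lit 0) (XT.lf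 (nat_lit 0) (nat_lit 1069055983281) (nat_lit 532) (nat_lit 100525850772) (nat_lit 76) (nat_lit 41936427393) (nat_lit 37) (nat_lit 5) (nat_lit 44) (nat_lit 5) (nat_lit 38) (nat_lit 5) (nat_lit 263) (nat_lit 258) (nat_lit 139)) (XT.nd (nat_lit 78) (nat_lit 228) (nat_lit 0) (XT.lf (nat_lit 0) (nat_lit 71539265818) (nat_lit 304) (nat_lit 292753817693) (nat_lit 76) (nat_lit 951272294149) (nat_lit 33) (nat_lit 5) (nat_lit 37) (nat_lit 5) (nat_lit 34) (nat_lit 5) (nat_lit 264) (nat_lit 258) (nat_lit 138)) (XT.lf (nat_lit 0) (nat_lit 349041819164) (nat_lit 304) (nat_lit 518983377329) (nat_lit 76) (nat_lit 563711448602) (nat_lit 30) (nat_lit 5) (nat_lit 34) (nat_lit 5) (nat_lit 31) (nat_lit 5) (nat_lit 265) (nat_lit 258) (nat_lit 137)))) (XT.nd (nat_lit 78) (nat_lit 304) (nat_lit 0) (XT.lf (nat_lit 0) (nat_lit 707578809042) (nat_lit 304) (nat_lit 783201630297) (nat_lit 76) (nat_lit 71400439069)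 (nat_lit 27) (nat_lit 5) (nat_lit 31) (nat_lit 5) (nat_lit 28) (nat_lit 5) (nat_lit 266) (nat_lit 258) (nat_lit 136)) (XT.nd (nat_lit 78) (nat_lit 152) (nat_lit 0) (XT.lf (nat_lit 0) (nat_lit 597574542880) (nat_lit 152) (nat_lit 576203006205) (nat_lit 228) (nat_lit 534103701542) (nat_lit 25) (nat_lit 5) (nat_lit 27) (nat_lit 5) (nat_lit 28) (nat_lit 5) (nat_lit 267) (nat_lit 258) (nat_lit 135)) (XT.lf (nat_lit 0) (nat_lit 365539158523) (nat_lit 152) (nat_lit 1387989745036) (nat_lit 228) (nat_lit 118417950880) (nat_lit 23) (nat_lit 5) (nat_lit 25) (nat_lit 5) (nat_lit 26) (nat_lit 5) (nat_lit 268) (nat_lit 258) (nat_lit 134))))))))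
noncomputable def xc61 : XT := (XT.nd (nat_lit 34632) (nat_lit 0) (nat_lit 152) (XT.nd (nat_lit 33774) (nat_lit 0) (nat_lit 684) (XT.nd (nat_lit 390) (nat_lit 228) (nat_lit 0) (XT.nd (nat_lit 156) (nat_lit 456) (nat_lit 0) (XT.nd (nat_lit 78) (nat_lit 0) (nat_lit 0) (XT.lf (nat_lit 0) (nat_lit 48988152755) (nat_lit 152) (nat_lit 342922339793) (nat_lit 228) (nat_lit 1663997534484) (nat_lit 20) (nat_lit 5) (nat_lit 22) (nat_lit 5) (nat_lit 23) (nat_lit 5) (nat_lit 269) (nat_lit 258) (nat_lit 133)) (XT.lf (nat_lit 0) (nat_lit 1037629169536) (nat_lit 228) (nat_lit 360108933979) (nat_lit 76) (nat_lit 864210998253) (nat_lit 20) (nat_lit 5) (nat_lit 23) (nat_lit 5) (nat_lit 21) (nat_lit 5) (nat_lit 270) (nat_lit 258) (nat_lit 132))) (XT.nd (nat_lit 78) (nat_lit 304) (nat_lit 0) (XT.lf (nat_lit 0) (nat_lit 1604502989047) (nat_lit 152) (nat_lit 223775370515) (nat_lit 228) (nat_lit 666772161257)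 (nat_lit 18) (nat_lit 5) (nat_lit 20) (nat_lit 5) (nat_lit 21) (nat_lit 5) (nat_lit 271) (nat_lit 258) (nat_lit 131)) (XT.nd (nat_lit 78) (nat_lit 152) (nat_lit 0) (XT.lf (nat_lit 0) (nat_lit 42981457496) (nat_lit 152) (nat_lit 1605269999638) (nat_lit 76) (nat_lit 1109531458666) (nat_lit 16) (nat_lit 5) (nat_lit 18) (nat_lit 5) (nat_lit 17) (nat_lit 5) (nat_lit 272) (nat_lit 258) (nat_lit 130)) (XT.lf (nat_lit 0) (nat_lit 497703662779) (nat_lit 152) (nat_lit 367896237869) (nat_lit 228) (nat_lit 2189269198067) (nat_lit 14) (nat_lit 5) (nat_lit 16) (nat_lit 5) (nat_lit 17) (nat_lit 5) (nat_lit 273) (nat_lit 258) (nat_lit 129))))) (XT.nd (nat_lit 234) (nat_lit 0) (nat_lit 0) (XT.nd (nat_lit 78) (nat_lit 228) (nat_lit 0) (XT.lf (nat_lit 0) (nat_lit 1886124273864) (nat_lit 228) (nat_lit 407223174826) (nat_lit 76) (nat_lit 1097209707302) (nat_lit 14) (nat_lit 5) (nat_lit 17) (nat_lit 5) (nat_lit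 15) (nat_lit 4) (nat_lit 274) (nat_lit 258) (nat_lit 128)) (XT.nd (nat_lit 78) (nat_lit 152) (nat_lit 0) (XT.lf (nat_lit 0) (nat_lit 2163249833938) (nat_lit 76) (nat_lit 958678774555) (nat_lit 152) (nat_lit 649693708945) (nat_lit 13) (nat_lit 5) (nat_lit 14) (nat_lit 5) (nat_lit 15) (nat_lit 4) (nat_lit 275) (nat_lit 258) (nat_lit 127)) (XT.lf (nat_lit 0) (nat_lit 367201793085) (nat_lit 152) (nat_lit 3245814416721) (nat_lit 76) (nat_lit 592140554689) (nat_lit 11) (nat_lit 5) (nat_lit 13) (nat_lit 5) (nat_lit 12) (nat_lit 4) (nat_lit 276) (nat_lit 258) (nat_lit 126)))) (XT.nd (nat_lit 32994) (nat_lit 0) (nat_lit 2204) (XT.lf (nat_lit 0) (nat_lit 1573813238220) (nat_lit 152) (nat_lit 736062615927) (nat_lit 76) (nat_lit 2386443452734) (nat_lit 11) (nat_lit 5) (nat_lit 13) (nat_lit 5) (nat_lit 12) (nat_lit 4) (nat_lit 277) (nat_lit 258) (nat_lit 125)) (XT.nd (nat_lit 78) (nat_lit 0) (nat_lit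 76) (XT.lf (nat_lit 0) (nat_lit 230332188304) (nat_lit 532) (nat_lit 123282894835) (nat_lit 532) (nat_lit 123282894835) (nat_lit 40) (nat_lit 3) (nat_lit 47) (nat_lit 3) (nat_lit 47) (nat_lit 5) (nat_lit 259) (nat_lit 259) (nat_lit 142)) (XT.lf (nat_lit 0) (nat_lit 510381759295) (nat_lit 456) (nat_lit 455908421658) (nat_lit 532) (nat_lit 57827066840) (nat_lit 41) (nat_lit 5) (nat_lit 47) (nat_lit 5) (nat_lit 48) (nat_lit 5) (nat_lit 260) (nat_lit 259) (nat_lit 141)))))) (XT.nd (nat_lit 390) (nat_lit 988) (nat_lit 0) (XT.nd (nat_lit 156) (nat_lit 608) (nat_lit 0) (XT.nd (nat_lit 78) (nat_lit 0) (nat_lit 76) (XT.lf (nat_lit 76) (nat_lit 416822920260) (nat_lit 0) (nat_lit 187683599569) (nat_lit 532) (nat_lit 497524232037) (nat_lit 42) (nat_lit 5) (nat_lit 41) (nat_lit 5) (nat_lit 48) (nat_lit 5) (nat_lit 261) (nat_lit 259) (nat_lit 140)) (XT.lf (nat_lit 76) (nat_lit 252782884235) (nat_lit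 0) (nat_lit 496685108090) (nat_lit 532) (nat_lit 439225849470) (nat_lit 43) (nat_lit 5) (nat_lit 42) (nat_lit 5) (nat_lit 49) (nat_lit 5) (nat_lit 262) (nat_lit 259) (nat_lit 139))) (XT.nd (nat_lit 78) (nat_lit 304) (nat_lit 0) (XT.lf (nat_lit 0) (nat_lit 74626495457) (nat_lit 456) (nat_lit 878603485324) (nat_lit 532) (nat_lit 332161910895) (nat_lit 37) (nat_lit 5) (nat_lit 43) (nat_lit 5) (nat_lit 44) (nat_lit 5) (nat_lit 263) (nat_lit 259) (nat_lit 138)) (XT.nd (nat_lit 78) (nat_lit 304) (nat_lit 0) (XT.lf (nat_lit 0) (nat_lit 1229414535255) (nat_lit 532) (nat_lit 115604571209) (nat_lit 76) (nat_lit 48226881212) (nat_lit 37) (nat_lit 5) (nat_lit 44) (nat_lit 5) (nat_lit 38) (nat_lit 5) (nat_lit 264) (nat_lit 259) (nat_lit 137)) (XT.lf (nat_lit 0) (nat_lit 82270297581) (nat_lit 304) (nat_lit 336666738496) (nat_lit 76) (nat_lit 1093963136375) (nat_lit 33) (nat_lit 5) (nat_lit 37) (nat_lit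 5) (nat_lit 34) (nat_lit 5) (nat_lit 265) (nat_lit 259) (nat_lit 136))))) (XT.nd (nat_lit 234) (nat_lit 380) (nat_lit 0) (XT.nd (nat_lit 78) (nat_lit 380) (nat_lit 0) (XT.lf (nat_lit 0) (nat_lit 401398219059) (nat_lit 304) (nat_lit 596830734648) (nat_lit 76) (nat_lit 648268177551) (nat_lit 30) (nat_lit 5) (nat_lit 34) (nat_lit 5) (nat_lit 31) (nat_lit 5) (nat_lit 266) (nat_lit 259) (nat_lit 135)) (XT.nd (nat_lit 78) (nat_lit 152) (nat_lit 0) (XT.lf (nat_lit 0) (nat_lit 813715744689) (nat_lit 304) (nat_lit 900681729267) (nat_lit 76) (nat_lit 82110526689) (nat_lit 27) (nat_lit 5) (nat_lit 31) (nat_lit 5) (nat_lit 28) (nat_lit 5) (nat_lit 267) (nat_lit 259) (nat_lit 134)) (XT.lf (nat_lit 0) (nat_lit 687210857564) (nat_lit 152) (nat_lit 662633426471) (nat_lit 228) (nat_lit 614219145647) (nat_lit 25) (nat_lit 5) (nat_lit 27) (nat_lit 5) (nat_lit 28) (nat_lit 5) (nat_lit 268) (nat_lit 259)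 (nat_lit 133)))) (XT.nd (nat_lit 78) (nat_lit 228) (nat_lit 0) (XT.lf (nat_lit 0) (nat_lit 420370161416) (nat_lit 152) (nat_lit 1596188170629) (nat_lit 228) (nat_lit 136180542834) (nat_lit 23) (nat_lit 5) (nat_lit 25) (nat_lit 5) (nat_lit 26) (nat_lit 5) (nat_lit 269) (nat_lit 259) (nat_lit 132)) (XT.nd (nat_lit 78) (nat_lit 0) (nat_lit 0) (XT.lf (nat_lit 0) (nat_lit 56336498709) (nat_lit 152) (nat_lit 394360653847) (nat_lit 228) (nat_lit 1913597071408) (nat_lit 20) (nat_lit 5) (nat_lit 22) (nat_lit 5) (nat_lit 23) (nat_lit 5) (nat_lit 270) (nat_lit 259) (nat_lit 131)) (XT.lf (nat_lit 0) (nat_lit 1193273620630) (nat_lit 228) (nat_lit 414125161663) (nat_lit 76) (nat_lit 993842678486) (nat_lit 20) (nat_lit 5) (nat_lit 23) (nat_lit 5) (nat_lit 21) (nat_lit 5) (nat_lit 271) (nat_lit 259) (nat_lit 130))))))) (XT.nd (nat_lit 33930) (nat_lit 0) (nat_lit 76) (XT.nd (nat_lit 33462) (nat_lit 0)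 (nat_lit 1824) (XT.nd (nat_lit 156) (nat_lit 228) (nat_lit 0) (XT.nd (nat_lit 78) (nat_lit 152) (nat_lit 0) (XT.lf (nat_lit 0) (nat_lit 1845178540302) (nat_lit 152) (nat_lit 257341641463) (nat_lit 228) (nat_lit 766787911538) (nat_lit 18) (nat_lit 5) (nat_lit 20) (nat_lit 5) (nat_lit 21) (nat_lit 5) (nat_lit 272) (nat_lit 259) (nat_lit 129)) (XT.lf (nat_lit 0) (nat_lit 49428740348) (nat_lit 152) (nat_lit 1846060397473) (nat_lit 76) (nat_lit 1275961210069) (nat_lit 16) (nat_lit 5) (nat_lit 18) (nat_lit 5) (nat_lit 17) (nat_lit 5) (nat_lit 273) (nat_lit 259) (nat_lit 128))) (XT.nd (nat_lit 78) (nat_lit 76) (nat_lit 0) (XT.lf (nat_lit 0) (nat_lit 572359305664) (nat_lit 152) (nat_lit 423080638180) (nat_lit 228) (nat_lit 2517659514907) (nat_lit 14) (nat_lit 5) (nat_lit 16) (nat_lit 5) (nat_lit 17) (nat_lit 5) (nat_lit 274) (nat_lit 259) (nat_lit 127)) (XT.nd (nat_lit 78) (nat_lit 76) (nat_lit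 0) (XT.lf (nat_lit 0) (nat_lit 2169042966203) (nat_lit 228) (nat_lit 468306566365) (nat_lit 76) (nat_lit 1261791192615) (nat_lit 14) (nat_lit 5) (nat_lit 17) (nat_lit 5) (nat_lit 15) (nat_lit 4) (nat_lit 275) (nat_lit 259) (nat_lit 126)) (XT.lf (nat_lit 0) (nat_lit 2487737386545) (nat_lit 76) (nat_lit 1102480559660) (nat_lit 152) (nat_lit 747147715041) (nat_lit 13) (nat_lit 5) (nat_lit 14) (nat_lit 5) (nat_lit 15) (nat_lit 4) (nat_lit 276) (nat_lit 259) (nat_lit 125))))) (XT.nd (nat_lit 234) (nat_lit 228) (nat_lit 0) (XT.nd (nat_lit 78) (nat_lit 0) (nat_lit 76) (XT.lf (nat_lit 0) (nat_lit 264882128485) (nat_lit 532) (nat_lit 141775268377) (nat_lit 532) (nat_lit 141775268377) (nat_lit 40) (nat_lit 3) (nat_lit 47) (nat_lit 3) (nat_lit 47) (nat_lit 5) (nat_lit 260) (nat_lit 260) (nat_lit 140)) (XT.nd (nat_lit 78) (nat_lit 0) (nat_lit 0) (XT.lf (nat_lit 0) (nat_lit 586939218457) (nat_lit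 456) (nat_lit 524294555120) (nat_lit 532) (nat_lit 66501044933) (nat_lit 41) (nat_lit 5) (nat_lit 47) (nat_lit 5) (nat_lit 48) (nat_lit 5) (nat_lit 261) (nat_lit 260) (nat_lit 139)) (XT.lf (nat_lit 76) (nat_lit 479346477099) (nat_lit 0) (nat_lit 215836193359) (nat_lit 532) (nat_lit 572152679653) (nat_lit 42) (nat_lit 5) (nat_lit 41) (nat_lit 5) (nat_lit 48) (nat_lit 5) (nat_lit 262) (nat_lit 260) (nat_lit 138)))) (XT.nd (nat_lit 78) (nat_lit 380) (nat_lit 0) (XT.lf (nat_lit 76) (nat_lit 290700440105) (nat_lit 0) (nat_lit 571187903042) (nat_lit 532) (nat_lit 505109562133) (nat_lit 43) (nat_lit 5) (nat_lit 42) (nat_lit 5) (nat_lit 49) (nat_lit 5) (nat_lit 263) (nat_lit 260) (nat_lit 137)) (XT.nd (nat_lit 78) (nat_lit 0) (nat_lit 0) (XT.lf (nat_lit 0) (nat_lit 85820594915) (nat_lit 456) (nat_lit 1010394017542) (nat_lit 532) (nat_lit 381986051660) (nat_lit 37) (nat_lit 5) (nat_lit 43) (nat_lit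 5) (nat_lit 44) (nat_lit 5) (nat_lit 264) (nat_lit 260) (nat_lit 136)) (XT.lf (nat_lit 0) (nat_lit 1413826832353) (nat_lit 532) (nat_lit 132945138042) (nat_lit 76) (nat_lit 55460905613) (nat_lit 37) (nat_lit 5) (nat_lit 44) (nat_lit 5) (nat_lit 38) (nat_lit 5) (nat_lit 265) (nat_lit 260) (nat_lit 135)))))) (XT.nd (nat_lit 390) (nat_lit 684) (nat_lit 0) (XT.nd (nat_lit 156) (nat_lit 532) (nat_lit 0) (XT.nd (nat_lit 78) (nat_lit 228) (nat_lit 0) (XT.lf (nat_lit 0) (nat_lit 94610949507) (nat_lit 304) (nat_lit 387166634449) (nat_lit 76) (nat_lit 1258057605398) (nat_lit 33) (nat_lit 5) (nat_lit 37) (nat_lit 5) (nat_lit 34) (nat_lit 5) (nat_lit 266) (nat_lit 260) (nat_lit 134)) (XT.lf (nat_lit 0) (nat_lit 461608047963) (nat_lit 304) (nat_lit 686355231968) (nat_lit 76) (nat_lit 745508412998) (nat_lit 30) (nat_lit 5) (nat_lit 34) (nat_lit 5) (nat_lit 31) (nat_lit 5) (nat_lit 267) (nat_lit 260)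 (nat_lit 133))) (XT.nd (nat_lit 78) (nat_lit 304) (nat_lit 0) (XT.lf (nat_lit 0) (nat_lit 935773192812) (nat_lit 304) (nat_lit 1035783878582) (nat_lit 76) (nat_lit 94427122146) (nat_lit 27) (nat_lit 5) (nat_lit 31) (nat_lit 5) (nat_lit 28) (nat_lit 5) (nat_lit 268) (nat_lit 260) (nat_lit 132)) (XT.nd (nat_lit 78) (nat_lit 152) (nat_lit 0) (XT.lf (nat_lit 0) (nat_lit 790292586957) (nat_lit 152) (nat_lit 762028417254) (nat_lit 228) (nat_lit 706351933466) (nat_lit 25) (nat_lit 5) (nat_lit 27) (nat_lit 5) (nat_lit 28) (nat_lit 5) (nat_lit 269) (nat_lit 260) (nat_lit 131)) (XT.lf (nat_lit 0) (nat_lit 483425783258) (nat_lit 152) (nat_lit 1835616368880) (nat_lit 228) (nat_lit 156607548133) (nat_lit 23) (nat_lit 5) (nat_lit 25) (nat_lit 5) (nat_lit 26) (nat_lit 5) (nat_lit 270) (nat_lit 260) (nat_lit 130))))) (XT.nd (nat_lit 234) (nat_lit 304) (nat_lit 0) (XT.nd (nat_lit 78) (nat_lit 152) (nat_lit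 0) (XT.lf (nat_lit 0) (nat_lit 64787066552) (nat_lit 152) (nat_lit 453514724012) (nat_lit 228) (nat_lit 2200636561610) (nat_lit 20) (nat_lit 5) (nat_lit 22) (nat_lit 5) (nat_lit 23) (nat_lit 5) (nat_lit 271) (nat_lit 260) (nat_lit 129)) (XT.nd (nat_lit 78) (nat_lit 152) (nat_lit 0) (XT.lf (nat_lit 0) (nat_lit 1372264720938) (nat_lit 228) (nat_lit 476243850911) (nat_lit 76) (nat_lit 1142919103317) (nat_lit 20) (nat_lit 5) (nat_lit 23) (nat_lit 5) (nat_lit 21) (nat_lit 5) (nat_lit 272) (nat_lit 260) (nat_lit 128)) (XT.lf (nat_lit 0) (nat_lit 2121955399154) (nat_lit 152) (nat_lit 295942861499) (nat_lit 228) (nat_lit 881806042385) (nat_lit 18) (nat_lit 5) (nat_lit 20) (nat_lit 5) (nat_lit 21) (nat_lit 5) (nat_lit 273) (nat_lit 260) (nat_lit 127)))) (XT.nd (nat_lit 78) (nat_lit 152) (nat_lit 0) (XT.lf (nat_lit 0) (nat_lit 56843099965) (nat_lit 152) (nat_lit 2122969379884) (nat_lit 76) (nat_lit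 1467355416232) (nat_lit 16) (nat_lit 5) (nat_lit 18) (nat_lit 5) (nat_lit 17) (nat_lit 5) (nat_lit 274) (nat_lit 260) (nat_lit 126)) (XT.nd (nat_lit 78) (nat_lit 0) (nat_lit 0) (XT.lf (nat_lit 0) (nat_lit 658213272188) (nat_lit 152) (nat_lit 486542707163) (nat_lit 228) (nat_lit 2895308394606) (nat_lit 14) (nat_lit 5) (nat_lit 16) (nat_lit 5) (nat_lit 17) (nat_lit 5) (nat_lit 275) (nat_lit 260) (nat_lit 125)) (XT.lf (nat_lit 0) (nat_lit 2494399449894) (nat_lit 228) (nat_lit 538552487286) (nat_lit 76) (nat_lit 1451059893600) (nat_lit 14) (nat_lit 5) (nat_lit 17) (nat_lit 5) (nat_lit 15) (nat_lit 4) (nat_lit 276) (nat_lit 260) (nat_lit 124))))))))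
noncomputable def xc62 : XT := (XT.nd (nat_lit 35022) (nat_lit 0) (nat_lit 152) (XT.nd (nat_lit 858) (nat_lit 532) (nat_lit 0) (XT.nd (nat_lit 390) (nat_lit 1064) (nat_lit 0) (XT.nd (nat_lit 156) (nat_lit 228) (nat_lit 0) (XT.nd (nat_lit 78) (nat_lit 0) (nat_lit 76) (XT.lf (nat_lit 0) (nat_lit 304614532397) (nat_lit 532) (nat_lit 163041512748) (nat_lit 532) (nat_lit 163041512748) (nat_lit 40) (nat_lit 3) (nat_lit 47) (nat_lit 3) (nat_lit 47) (nat_lit 5) (nat_lit 261) (nat_lit 261) (nat_lit 138)) (XT.lf (nat_lit 0) (nat_lit 674980248876) (nat_lit 456) (nat_lit 602938640251) (nat_lit 532) (nat_lit 76476139720) (nat_lit 41) (nat_lit 5) (nat_lit 47) (nat_lit 5) (nat_lit 48) (nat_lit 5) (nat_lit 262) (nat_lit 261) (nat_lit 137))) (XT.nd (nat_lit 78) (nat_lit 304) (nat_lit 0) (XT.lf (nat_lit 76) (nat_lit 551248538495) (nat_lit 0) (nat_lit 248211663085) (nat_lit 532) (nat_lit 657975440059) (nat_lit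 42) (nat_lit 5) (nat_lit 41) (nat_lit 5) (nat_lit 48) (nat_lit 5) (nat_lit 263) (nat_lit 261) (nat_lit 136)) (XT.nd (nat_lit 78) (nat_lit 380) (nat_lit 0) (XT.lf (nat_lit 76) (nat_lit 334305599304) (nat_lit 0) (nat_lit 656866110228) (nat_lit 532) (nat_lit 580875871872) (nat_lit 43) (nat_lit 5) (nat_lit 42) (nat_lit 5) (nat_lit 49) (nat_lit 5) (nat_lit 264) (nat_lit 261) (nat_lit 135)) (XT.lf (nat_lit 0) (nat_lit 98693778775) (nat_lit 456) (nat_lit 1161953127296) (nat_lit 532) (nat_lit 439283849111) (nat_lit 37) (nat_lit 5) (nat_lit 43) (nat_lit 5) (nat_lit 44) (nat_lit 5) (nat_lit 265) (nat_lit 261) (nat_lit 134))))) (XT.nd (nat_lit 234) (nat_lit 532) (nat_lit 0) (XT.nd (nat_lit 78) (nat_lit 532) (nat_lit 0) (XT.lf (nat_lit 0) (nat_lit 1625900945532) (nat_lit 532) (nat_lit 152886818881) (nat_lit 76) (nat_lit 63780035571) (nat_lit 37) (nat_lit 5) (nat_lit 44) (nat_lit 5) (nat_lit 38) (nat_lit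 5) (nat_lit 266) (nat_lit 261) (nat_lit 133)) (XT.nd (nat_lit 78) (nat_lit 228) (nat_lit 0) (XT.lf (nat_lit 0) (nat_lit 108802673059) (nat_lit 304) (nat_lit 445241542795) (nat_lit 76) (nat_lit 1446766245124) (nat_lit 33) (nat_lit 5) (nat_lit 37) (nat_lit 5) (nat_lit 34) (nat_lit 5) (nat_lit 267) (nat_lit 261) (nat_lit 132)) (XT.lf (nat_lit 0) (nat_lit 530849327782) (nat_lit 304) (nat_lit 789308431412) (nat_lit 76) (nat_lit 857334681614) (nat_lit 30) (nat_lit 5) (nat_lit 34) (nat_lit 5) (nat_lit 31) (nat_lit 5) (nat_lit 268) (nat_lit 261) (nat_lit 131)))) (XT.nd (nat_lit 78) (nat_lit 304) (nat_lit 0) (XT.lf (nat_lit 0) (nat_lit 1076139237079) (nat_lit 304) (nat_lit 1191151377136) (nat_lit 76) (nat_lit 108591202909) (nat_lit 27) (nat_lit 5) (nat_lit 31) (nat_lit 5) (nat_lit 28) (nat_lit 5) (nat_lit 269) (nat_lit 261) (nat_lit 130)) (XT.nd (nat_lit 78) (nat_lit 152) (nat_lit 0) (XT.lf (nat_lit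 0) (nat_lit 908836551188) (nat_lit 152) (nat_lit 876332662309) (nat_lit 228) (nat_lit 812304659949) (nat_lit 25) (nat_lit 5) (nat_lit 27) (nat_lit 5) (nat_lit 28) (nat_lit 5) (nat_lit 270) (nat_lit 261) (nat_lit 129)) (XT.lf (nat_lit 0) (nat_lit 555939724568) (nat_lit 152) (nat_lit 2110958803537) (nat_lit 228) (nat_lit 180098622790) (nat_lit 23) (nat_lit 5) (nat_lit 25) (nat_lit 5) (nat_lit 26) (nat_lit 5) (nat_lit 271) (nat_lit 261) (nat_lit 128)))))) (XT.nd (nat_lit 33696) (nat_lit 0) (nat_lit 1292) (XT.nd (nat_lit 156) (nat_lit 304) (nat_lit 0) (XT.nd (nat_lit 78) (nat_lit 0) (nat_lit 0) (XT.lf (nat_lit 0) (nat_lit 74505196884) (nat_lit 152) (nat_lit 521541911507) (nat_lit 228) (nat_lit 2530731992536) (nat_lit 20) (nat_lit 5) (nat_lit 22) (nat_lit 5) (nat_lit 23) (nat_lit 5) (nat_lit 272) (nat_lit 261) (nat_lit 127)) (XT.lf (nat_lit 0) (nat_lit 1578104472340) (nat_lit 228) (nat_lit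 547680364275) (nat_lit 76) (nat_lit 1314356986249) (nat_lit 20) (nat_lit 5) (nat_lit 23) (nat_lit 5) (nat_lit 21) (nat_lit 5) (nat_lit 273) (nat_lit 261) (nat_lit 126))) (XT.nd (nat_lit 78) (nat_lit 152) (nat_lit 0) (XT.lf (nat_lit 0) (nat_lit 2440248767859) (nat_lit 152) (nat_lit 340334270924) (nat_lit 228) (nat_lit 1014076906486) (nat_lit 18) (nat_lit 5) (nat_lit 20) (nat_lit 5) (nat_lit 21) (nat_lit 5) (nat_lit 274) (nat_lit 261) (nat_lit 125)) (XT.nd (nat_lit 33384) (nat_lit 0) (nat_lit 1824) (XT.lf (nat_lit 0) (nat_lit 65369601682) (nat_lit 152) (nat_lit 2441414728485) (nat_lit 76) (nat_lit 1687458747308) (nat_lit 16) (nat_lit 5) (nat_lit 18) (nat_lit 5) (nat_lit 17) (nat_lit 5) (nat_lit 275) (nat_lit 261) (nat_lit 124)) (XT.lf (nat_lit 0) (nat_lit 350306776256) (nat_lit 532) (nat_lit 187497704964) (nat_lit 532) (nat_lit 187497704964) (nat_lit 40) (nat_lit 3) (nat_lit 47) (nat_lit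 3) (nat_lit 47) (nat_lit 5) (nat_lit 262) (nat_lit 262) (nat_lit 136))))) (XT.nd (nat_lit 234) (nat_lit 608) (nat_lit 0) (XT.nd (nat_lit 78) (nat_lit 0) (nat_lit 0) (XT.lf (nat_lit 0) (nat_lit 776227397853) (nat_lit 456) (nat_lit 693379362083) (nat_lit 532) (nat_lit 87947513833) (nat_lit 41) (nat_lit 5) (nat_lit 47) (nat_lit 5) (nat_lit 48) (nat_lit 5) (nat_lit 263) (nat_lit 262) (nat_lit 135)) (XT.nd (nat_lit 78) (nat_lit 0) (nat_lit 76) (XT.lf (nat_lit 76) (nat_lit 633935887193) (nat_lit 0) (nat_lit 285443443339) (nat_lit 532) (nat_lit 756671649042) (nat_lit 42) (nat_lit 5) (nat_lit 41) (nat_lit 5) (nat_lit 48) (nat_lit 5) (nat_lit 264) (nat_lit 262) (nat_lit 134)) (XT.lf (nat_lit 76) (nat_lit 384451509660) (nat_lit 0) (nat_lit 755396043193) (nat_lit 532) (nat_lit 668007158452) (nat_lit 43) (nat_lit 5) (nat_lit 42) (nat_lit 5) (nat_lit 49) (nat_lit 5) (nat_lit 265) (nat_lit 262) (nat_lit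 133)))) (XT.nd (nat_lit 78) (nat_lit 304) (nat_lit 0) (XT.lf (nat_lit 0) (nat_lit 113497917140) (nat_lit 456) (nat_lit 1336246101775) (nat_lit 532) (nat_lit 505176343077) (nat_lit 37) (nat_lit 5) (nat_lit 43) (nat_lit 5) (nat_lit 44) (nat_lit 5) (nat_lit 266) (nat_lit 262) (nat_lit 132)) (XT.nd (nat_lit 78) (nat_lit 304) (nat_lit 0) (XT.lf (nat_lit 0) (nat_lit 1869786154148) (nat_lit 532) (nat_lit 175819773761) (nat_lit 76) (nat_lit 73347036458) (nat_lit 37) (nat_lit 5) (nat_lit 44) (nat_lit 5) (nat_lit 38) (nat_lit 5) (nat_lit 267) (nat_lit 262) (nat_lit 131)) (XT.lf (nat_lit 0) (nat_lit 125123135361) (nat_lit 304) (nat_lit 512027708565) (nat_lit 76) (nat_lit 1663781181073) (nat_lit 33) (nat_lit 5) (nat_lit 37) (nat_lit 5) (nat_lit 34) (nat_lit 5) (nat_lit 268) (nat_lit 262) (nat_lit 130))))))) (XT.nd (nat_lit 34242) (nat_lit 0) (nat_lit 152) (XT.nd (nat_lit 390) (nat_lit 152) (nat_lit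 0) (XT.nd (nat_lit 156) (nat_lit 532) (nat_lit 0) (XT.nd (nat_lit 78) (nat_lit 228) (nat_lit 0) (XT.lf (nat_lit 0) (nat_lit 610476781864) (nat_lit 304) (nat_lit 907704631586) (nat_lit 76) (nat_lit 985934888896) (nat_lit 30) (nat_lit 5) (nat_lit 34) (nat_lit 5) (nat_lit 31) (nat_lit 5) (nat_lit 269) (nat_lit 262) (nat_lit 129)) (XT.lf (nat_lit 0) (nat_lit 1237560172051) (nat_lit 304) (nat_lit 1369824020771) (nat_lit 76) (nat_lit 124879892752) (nat_lit 27) (nat_lit 5) (nat_lit 31) (nat_lit 5) (nat_lit 28) (nat_lit 5) (nat_lit 270) (nat_lit 262) (nat_lit 128))) (XT.nd (nat_lit 78) (nat_lit 380) (nat_lit 0) (XT.lf (nat_lit 0) (nat_lit 1045162091475) (nat_lit 152) (nat_lit 1007782548398) (nat_lit 228) (nat_lit 934150310899) (nat_lit 25) (nat_lit 5) (nat_lit 27) (nat_lit 5) (nat_lit 28) (nat_lit 5) (nat_lit 271) (nat_lit 262) (nat_lit 127)) (XT.nd (nat_lit 78) (nat_lit 228) (nat_lit 0) (XT.lf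 (nat_lit 0) (nat_lit 639330739074) (nat_lit 152) (nat_lit 2427602608433) (nat_lit 228) (nat_lit 207113372682) (nat_lit 23) (nat_lit 5) (nat_lit 25) (nat_lit 5) (nat_lit 26) (nat_lit 5) (nat_lit 272) (nat_lit 262) (nat_lit 126)) (XT.lf (nat_lit 0) (nat_lit 85681029610) (nat_lit 152) (nat_lit 599773182274) (nat_lit 228) (nat_lit 2910341751102) (nat_lit 20) (nat_lit 5) (nat_lit 22) (nat_lit 5) (nat_lit 23) (nat_lit 5) (nat_lit 273) (nat_lit 262) (nat_lit 125))))) (XT.nd (nat_lit 33618) (nat_lit 0) (nat_lit 1748) (XT.nd (nat_lit 78) (nat_lit 152) (nat_lit 0) (XT.lf (nat_lit 0) (nat_lit 1814820175902) (nat_lit 228) (nat_lit 629832370317) (nat_lit 76) (nat_lit 1511510547370) (nat_lit 20) (nat_lit 5) (nat_lit 23) (nat_lit 5) (nat_lit 21) (nat_lit 5) (nat_lit 274) (nat_lit 262) (nat_lit 124)) (XT.nd (nat_lit 33462) (nat_lit 0) (nat_lit 1672) (XT.lf (nat_lit 0) (nat_lit 2806286127524) (nat_lit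 152) (nat_lit 391384396592) (nat_lit 228) (nat_lit 1166188410507) (nat_lit 18) (nat_lit 5) (nat_lit 20) (nat_lit 5) (nat_lit 21) (nat_lit 5) (nat_lit 275) (nat_lit 262) (nat_lit 123)) (XT.lf (nat_lit 0) (nat_lit 402852841087) (nat_lit 532) (nat_lit 215622334473) (nat_lit 532) (nat_lit 215622334473) (nat_lit 40) (nat_lit 3) (nat_lit 47) (nat_lit 3) (nat_lit 47) (nat_lit 5) (nat_lit 263) (nat_lit 263) (nat_lit 134)))) (XT.nd (nat_lit 78) (nat_lit 0) (nat_lit 0) (XT.lf (nat_lit 0) (nat_lit 892661591950) (nat_lit 456) (nat_lit 797386210285) (nat_lit 532) (nat_lit 101139605486) (nat_lit 41) (nat_lit 5) (nat_lit 47) (nat_lit 5) (nat_lit 48) (nat_lit 5) (nat_lit 264) (nat_lit 263) (nat_lit 133)) (XT.nd (nat_lit 78) (nat_lit 0) (nat_lit 76) (XT.lf (nat_lit 76) (nat_lit 729026321633) (nat_lit 0) (nat_lit 328259983123) (nat_lit 532) (nat_lit 870172315471) (nat_lit 42) (nat_lit 5) (nat_lit 41) (nat_lit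 5) (nat_lit 48) (nat_lit 5) (nat_lit 265) (nat_lit 263) (nat_lit 132)) (XT.lf (nat_lit 76) (nat_lit 442119289386) (nat_lit 0) (nat_lit 868705462097) (nat_lit 532) (nat_lit 768208160990) (nat_lit 43) (nat_lit 5) (nat_lit 42) (nat_lit 5) (nat_lit 49) (nat_lit 5) (nat_lit 266) (nat_lit 263) (nat_lit 131)))))) (XT.nd (nat_lit 390) (nat_lit 532) (nat_lit 0) (XT.nd (nat_lit 156) (nat_lit 760) (nat_lit 0) (XT.nd (nat_lit 78) (nat_lit 0) (nat_lit 0) (XT.lf (nat_lit 0) (nat_lit 130522658813) (nat_lit 456) (nat_lit 1536683021114) (nat_lit 532) (nat_lit 580952731475) (nat_lit 37) (nat_lit 5) (nat_lit 43) (nat_lit 5) (nat_lit 44) (nat_lit 5) (nat_lit 267) (nat_lit 263) (nat_lit 130)) (XT.lf (nat_lit 0) (nat_lit 2150254127771) (nat_lit 532) (nat_lit 202192688443) (nat_lit 76) (nat_lit 84349088563) (nat_lit 37) (nat_lit 5) (nat_lit 44) (nat_lit 5) (nat_lit 38) (nat_lit 5) (nat_lit 268) (nat_lit 263)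 (nat_lit 129))) (XT.nd (nat_lit 78) (nat_lit 456) (nat_lit 0) (XT.lf (nat_lit 0) (nat_lit 143891652049) (nat_lit 304) (nat_lit 588831815210) (nat_lit 76) (nat_lit 1913348357615) (nat_lit 33) (nat_lit 5) (nat_lit 37) (nat_lit 5) (nat_lit 34) (nat_lit 5) (nat_lit 269) (nat_lit 263) (nat_lit 128)) (XT.nd (nat_lit 78) (nat_lit 228) (nat_lit 0) (XT.lf (nat_lit 0) (nat_lit 702048340667) (nat_lit 304) (nat_lit 1043860277524) (nat_lit 76) (nat_lit 1133825126042) (nat_lit 30) (nat_lit 5) (nat_lit 34) (nat_lit 5) (nat_lit 31) (nat_lit 5) (nat_lit 270) (nat_lit 263) (nat_lit 127)) (XT.lf (nat_lit 0) (nat_lit 1423194235221) (nat_lit 304) (nat_lit 1575297576298) (nat_lit 76) (nat_lit 143611883778) (nat_lit 27) (nat_lit 5) (nat_lit 31) (nat_lit 5) (nat_lit 28) (nat_lit 5) (nat_lit 271) (nat_lit 263) (nat_lit 126))))) (XT.nd (nat_lit 33774) (nat_lit 0) (nat_lit 1520) (XT.nd (nat_lit 78) (nat_lit 380)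 (nat_lit 0) (XT.lf (nat_lit 0) (nat_lit 1201936448757) (nat_lit 152) (nat_lit 1158949920633) (nat_lit 228) (nat_lit 1074272821206) (nat_lit 25) (nat_lit 5) (nat_lit 27) (nat_lit 5) (nat_lit 28) (nat_lit 5) (nat_lit 272) (nat_lit 263) (nat_lit 125)) (XT.nd (nat_lit 156) (nat_lit 228) (nat_lit 0) (XT.lf (nat_lit 0) (nat_lit 735230392143) (nat_lit 152) (nat_lit 2791742987877) (nat_lit 228) (nat_lit 238180345673) (nat_lit 23) (nat_lit 5) (nat_lit 25) (nat_lit 5) (nat_lit 26) (nat_lit 5) (nat_lit 273) (nat_lit 263) (nat_lit 124)) (XT.lf (nat_lit 0) (nat_lit 2087043227023) (nat_lit 228) (nat_lit 724307189116) (nat_lit 76) (nat_lit 1738237139444) (nat_lit 20) (nat_lit 5) (nat_lit 23) (nat_lit 5) (nat_lit 21) (nat_lit 5) (nat_lit 275) (nat_lit 263) (nat_lit 122)))) (XT.nd (nat_lit 78) (nat_lit 0) (nat_lit 76) (XT.lf (nat_lit 0) (nat_lit 463280803842) (nat_lit 532) (nat_lit 247965664806) (nat_lit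 532) (nat_lit 247965664806) (nat_lit 40) (nat_lit 3) (nat_lit 47) (nat_lit 3) (nat_lit 47) (nat_lit 5) (nat_lit 264) (nat_lit 264) (nat_lit 132)) (XT.nd (nat_lit 78) (nat_lit 0) (nat_lit 0) (XT.lf (nat_lit 0) (nat_lit 1026560894576) (nat_lit 456) (nat_lit 916994099401) (nat_lit 532) (nat_lit 116310519525) (nat_lit 41) (nat_lit 5) (nat_lit 47) (nat_lit 5) (nat_lit 48) (nat_lit 5) (nat_lit 265) (nat_lit 264) (nat_lit 131)) (XT.lf (nat_lit 76) (nat_lit 838380308714) (nat_lit 0) (nat_lit 377498998196) (nat_lit 532) (nat_lit 1000698101599) (nat_lit 42) (nat_lit 5) (nat_lit 41) (nat_lit 5) (nat_lit 48) (nat_lit 5) (nat_lit 266) (nat_lit 264) (nat_lit 130))))))))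
noncomputable def xc63 : XT := (XT.nd (nat_lit 69108) (nat_lit 0) (nat_lit 152) (XT.nd (nat_lit 34554) (nat_lit 0) (nat_lit 0) (XT.nd (nat_lit 390) (nat_lit 380) (nat_lit 0) (XT.nd (nat_lit 156) (nat_lit 532) (nat_lit 0) (XT.nd (nat_lit 78) (nat_lit 380) (nat_lit 0) (XT.lf (nat_lit 76) (nat_lit 508437223080) (nat_lit 0) (nat_lit 999011290806) (nat_lit 532) (nat_lit 883439331279) (nat_lit 43) (nat_lit 5) (nat_lit 42) (nat_lit 5) (nat_lit 49) (nat_lit 5) (nat_lit 267) (nat_lit 264) (nat_lit 129)) (XT.lf (nat_lit 0) (nat_lit 150101098543) (nat_lit 456) (nat_lit 1767185477360) (nat_lit 532) (nat_lit 668095593511) (nat_lit 37) (nat_lit 5) (nat_lit 43) (nat_lit 5) (nat_lit 44) (nat_lit 5) (nat_lit 268) (nat_lit 264) (nat_lit 128))) (XT.nd (nat_lit 78) (nat_lit 532) (nat_lit 0) (XT.lf (nat_lit 0) (nat_lit 2472792285122) (nat_lit 532) (nat_lit 232521552858) (nat_lit 76) (nat_lit 97001449304)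 (nat_lit 37) (nat_lit 5) (nat_lit 44) (nat_lit 5) (nat_lit 38) (nat_lit 5) (nat_lit 269) (nat_lit 264) (nat_lit 127)) (XT.nd (nat_lit 78) (nat_lit 228) (nat_lit 0) (XT.lf (nat_lit 0) (nat_lit 165475434929) (nat_lit 304) (nat_lit 677156549956) (nat_lit 76) (nat_lit 2200350610788) (nat_lit 33) (nat_lit 5) (nat_lit 37) (nat_lit 5) (nat_lit 34) (nat_lit 5) (nat_lit 270) (nat_lit 264) (nat_lit 126)) (XT.lf (nat_lit 0) (nat_lit 807355623165) (nat_lit 304) (nat_lit 1200439282253) (nat_lit 76) (nat_lit 1303898897830) (nat_lit 30) (nat_lit 5) (nat_lit 34) (nat_lit 5) (nat_lit 31) (nat_lit 5) (nat_lit 271) (nat_lit 264) (nat_lit 125))))) (XT.nd (nat_lit 33930) (nat_lit 0) (nat_lit 1216) (XT.nd (nat_lit 78) (nat_lit 152) (nat_lit 0) (XT.lf (nat_lit 0) (nat_lit 1636673398755) (nat_lit 304) (nat_lit 1811592176759) (nat_lit 76) (nat_lit 165153671724) (nat_lit 27) (nat_lit 5) (nat_lit 31) (nat_lit 5)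 (nat_lit 28) (nat_lit 5) (nat_lit 272) (nat_lit 264) (nat_lit 124)) (XT.nd (nat_lit 33774) (nat_lit 0) (nat_lit 1140) (XT.lf (nat_lit 0) (nat_lit 1382226949009) (nat_lit 152) (nat_lit 1332792401148) (nat_lit 228) (nat_lit 1235413716919) (nat_lit 25) (nat_lit 5) (nat_lit 27) (nat_lit 5) (nat_lit 28) (nat_lit 5) (nat_lit 273) (nat_lit 264) (nat_lit 123)) (XT.lf (nat_lit 0) (nat_lit 532772952088) (nat_lit 532) (nat_lit 285160499527) (nat_lit 532) (nat_lit 285160499527) (nat_lit 40) (nat_lit 3) (nat_lit 47) (nat_lit 3) (nat_lit 47) (nat_lit 5) (nat_lit 265) (nat_lit 265) (nat_lit 130)))) (XT.nd (nat_lit 78) (nat_lit 0) (nat_lit 0) (XT.lf (nat_lit 0) (nat_lit 1180545077030) (nat_lit 456) (nat_lit 1054543182230) (nat_lit 532) (nat_lit 133757077201) (nat_lit 41) (nat_lit 5) (nat_lit 47) (nat_lit 5) (nat_lit 48) (nat_lit 5) (nat_lit 266) (nat_lit 265) (nat_lit 129)) (XT.nd (nat_lit 78) (nat_lit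 0) (nat_lit 76) (XT.lf (nat_lit 76) (nat_lit 964137384387) (nat_lit 0) (nat_lit 434123861238) (nat_lit 532) (nat_lit 1150802770568) (nat_lit 42) (nat_lit 5) (nat_lit 41) (nat_lit 5) (nat_lit 48) (nat_lit 5) (nat_lit 267) (nat_lit 265) (nat_lit 128)) (XT.lf (nat_lit 76) (nat_lit 584702837004) (nat_lit 0) (nat_lit 1148862991530) (nat_lit 532) (nat_lit 1015955190245) (nat_lit 43) (nat_lit 5) (nat_lit 42) (nat_lit 5) (nat_lit 49) (nat_lit 5) (nat_lit 268) (nat_lit 265) (nat_lit 127)))))) (XT.nd (nat_lit 390) (nat_lit 152) (nat_lit 0) (XT.nd (nat_lit 156) (nat_lit 760) (nat_lit 0) (XT.nd (nat_lit 78) (nat_lit 0) (nat_lit 0) (XT.lf (nat_lit 0) (nat_lit 172616294257) (nat_lit 456) (nat_lit 2032263301293) (nat_lit 532) (nat_lit 768309896482) (nat_lit 37) (nat_lit 5) (nat_lit 43) (nat_lit 5) (nat_lit 44) (nat_lit 5) (nat_lit 269) (nat_lit 265) (nat_lit 126)) (XT.lf (nat_lit 0) (nat_lit 2843711156765)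 (nat_lit 532) (nat_lit 267399756409) (nat_lit 76) (nat_lit 111551664777) (nat_lit 37) (nat_lit 5) (nat_lit 44) (nat_lit 5) (nat_lit 38) (nat_lit 5) (nat_lit 270) (nat_lit 265) (nat_lit 125))) (XT.nd (nat_lit 78) (nat_lit 456) (nat_lit 0) (XT.lf (nat_lit 0) (nat_lit 190296776689) (nat_lit 304) (nat_lit 778730004068) (nat_lit 76) (nat_lit 2530403202052) (nat_lit 33) (nat_lit 5) (nat_lit 37) (nat_lit 5) (nat_lit 34) (nat_lit 5) (nat_lit 271) (nat_lit 265) (nat_lit 124)) (XT.nd (nat_lit 78) (nat_lit 228) (nat_lit 0) (XT.lf (nat_lit 0) (nat_lit 928458990381) (nat_lit 304) (nat_lit 1380505146690) (nat_lit 76) (nat_lit 1499483734683) (nat_lit 30) (nat_lit 5) (nat_lit 34) (nat_lit 5) (nat_lit 31) (nat_lit 5) (nat_lit 272) (nat_lit 265) (nat_lit 123)) (XT.lf (nat_lit 0) (nat_lit 1882174429930) (nat_lit 304) (nat_lit 2083330976064) (nat_lit 76) (nat_lit 189926726549) (nat_lit 27) (nat_lit 5) (nat_lit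 31) (nat_lit 5) (nat_lit 28) (nat_lit 5) (nat_lit 273) (nat_lit 265) (nat_lit 122))))) (XT.nd (nat_lit 33930) (nat_lit 0) (nat_lit 912) (XT.nd (nat_lit 33774) (nat_lit 0) (nat_lit 1140) (XT.lf (nat_lit 0) (nat_lit 1589561016266) (nat_lit 152) (nat_lit 1532711255589) (nat_lit 228) (nat_lit 1420725753686) (nat_lit 25) (nat_lit 5) (nat_lit 27) (nat_lit 5) (nat_lit 28) (nat_lit 5) (nat_lit 274) (nat_lit 265) (nat_lit 121)) (XT.nd (nat_lit 78) (nat_lit 0) (nat_lit 76) (XT.lf (nat_lit 0) (nat_lit 612688915822) (nat_lit 532) (nat_lit 327934563114) (nat_lit 532) (nat_lit 327934563114) (nat_lit 40) (nat_lit 3) (nat_lit 47) (nat_lit 3) (nat_lit 47) (nat_lit 5) (nat_lit 266) (nat_lit 266) (nat_lit 128)) (XT.lf (nat_lit 0) (nat_lit 1357626875081) (nat_lit 456) (nat_lit 1212724635306) (nat_lit 532) (nat_lit 153820623467) (nat_lit 41) (nat_lit 5) (nat_lit 47) (nat_lit 5) (nat_lit 48) (nat_lit 5) (nat_lit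 267) (nat_lit 266) (nat_lit 127)))) (XT.nd (nat_lit 78) (nat_lit 304) (nat_lit 0) (XT.lf (nat_lit 76) (nat_lit 1108758014250) (nat_lit 0) (nat_lit 499242450490) (nat_lit 532) (nat_lit 1323423151166) (nat_lit 42) (nat_lit 5) (nat_lit 41) (nat_lit 5) (nat_lit 48) (nat_lit 5) (nat_lit 268) (nat_lit 266) (nat_lit 126)) (XT.nd (nat_lit 78) (nat_lit 380) (nat_lit 0) (XT.lf (nat_lit 76) (nat_lit 672408285588) (nat_lit 0) (nat_lit 1321192445631) (nat_lit 532) (nat_lit 1168348437987) (nat_lit 43) (nat_lit 5) (nat_lit 42) (nat_lit 5) (nat_lit 49) (nat_lit 5) (nat_lit 269) (nat_lit 266) (nat_lit 125)) (XT.lf (nat_lit 0) (nat_lit 198508761785) (nat_lit 456) (nat_lit 2337102798247) (nat_lit 532) (nat_lit 883556353690) (nat_lit 37) (nat_lit 5) (nat_lit 43) (nat_lit 5) (nat_lit 44) (nat_lit 5) (nat_lit 270) (nat_lit 266) (nat_lit 124))))))) (XT.nd (nat_lit 68718) (nat_lit 0) (nat_lit 760) (XT.nd (nat_lit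 34242) (nat_lit 0) (nat_lit 760) (XT.nd (nat_lit 234) (nat_lit 456) (nat_lit 0) (XT.nd (nat_lit 78) (nat_lit 304) (nat_lit 0) (XT.lf (nat_lit 0) (nat_lit 3270267852112) (nat_lit 532) (nat_lit 307509697657) (nat_lit 76) (nat_lit 128284413039) (nat_lit 37) (nat_lit 5) (nat_lit 44) (nat_lit 5) (nat_lit 38) (nat_lit 5) (nat_lit 271) (nat_lit 266) (nat_lit 123)) (XT.lf (nat_lit 0) (nat_lit 218841313245) (nat_lit 304) (nat_lit 895539483217) (nat_lit 76) (nat_lit 2909963682092) (nat_lit 33) (nat_lit 5) (nat_lit 37) (nat_lit 5) (nat_lit 34) (nat_lit 5) (nat_lit 272) (nat_lit 266) (nat_lit 122))) (XT.nd (nat_lit 33852) (nat_lit 0) (nat_lit 988) (XT.lf (nat_lit 0) (nat_lit 2164500610571) (nat_lit 304) (nat_lit 2395830601900) (nat_lit 76) (nat_lit 218415738607) (nat_lit 27) (nat_lit 5) (nat_lit 31) (nat_lit 5) (nat_lit 28) (nat_lit 5) (nat_lit 274) (nat_lit 266) (nat_lit 120)) (XT.nd (nat_lit 78)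 (nat_lit 0) (nat_lit 76) (XT.lf (nat_lit 0) (nat_lit 704592269015) (nat_lit 532) (nat_lit 377124739005) (nat_lit 532) (nat_lit 377124739005) (nat_lit 40) (nat_lit 3) (nat_lit 47) (nat_lit 3) (nat_lit 47) (nat_lit 5) (nat_lit 267) (nat_lit 267) (nat_lit 126)) (XT.lf (nat_lit 0) (nat_lit 1561270933941) (nat_lit 456) (nat_lit 1394633312260) (nat_lit 532) (nat_lit 176893705408) (nat_lit 41) (nat_lit 5) (nat_lit 47) (nat_lit 5) (nat_lit 48) (nat_lit 5) (nat_lit 268) (nat_lit 267) (nat_lit 125))))) (XT.nd (nat_lit 234) (nat_lit 0) (nat_lit 0) (XT.nd (nat_lit 78) (nat_lit 304) (nat_lit 0) (XT.lf (nat_lit 76) (nat_lit 1275071733178) (nat_lit 0) (nat_lit 574128825674) (nat_lit 532) (nat_lit 1521936597386) (nat_lit 42) (nat_lit 5) (nat_lit 41) (nat_lit 5) (nat_lit 48) (nat_lit 5) (nat_lit 269) (nat_lit 267) (nat_lit 124)) (XT.nd (nat_lit 78) (nat_lit 380) (nat_lit 0) (XT.lf (nat_lit 76) (nat_lit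 773269545843) (nat_lit 0) (nat_lit 1519371316538) (nat_lit 532) (nat_lit 1343600680401) (nat_lit 43) (nat_lit 5) (nat_lit 42) (nat_lit 5) (nat_lit 49) (nat_lit 5) (nat_lit 270) (nat_lit 267) (nat_lit 123)) (XT.lf (nat_lit 0) (nat_lit 228285093739) (nat_lit 456) (nat_lit 2687668219315) (nat_lit 532) (nat_lit 1016089786128) (nat_lit 37) (nat_lit 5) (nat_lit 43) (nat_lit 5) (nat_lit 44) (nat_lit 5) (nat_lit 271) (nat_lit 267) (nat_lit 122)))) (XT.nd (nat_lit 34086) (nat_lit 0) (nat_lit 228) (XT.lf (nat_lit 0) (nat_lit 3760808046438) (nat_lit 532) (nat_lit 353636135508) (nat_lit 76) (nat_lit 147527073895) (nat_lit 37) (nat_lit 5) (nat_lit 44) (nat_lit 5) (nat_lit 38) (nat_lit 5) (nat_lit 272) (nat_lit 267) (nat_lit 121)) (XT.nd (nat_lit 78) (nat_lit 0) (nat_lit 76) (XT.lf (nat_lit 0) (nat_lit 810281121330) (nat_lit 532) (nat_lit 433693443371) (nat_lit 532) (nat_lit 433693443371) (nat_lit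 40) (nat_lit 3) (nat_lit 47) (nat_lit 3) (nat_lit 47) (nat_lit 5) (nat_lit 268) (nat_lit 268) (nat_lit 124)) (XT.lf (nat_lit 0) (nat_lit 1795461594899) (nat_lit 456) (nat_lit 1603828295229) (nat_lit 532) (nat_lit 203427752463) (nat_lit 41) (nat_lit 5) (nat_lit 47) (nat_lit 5) (nat_lit 48) (nat_lit 5) (nat_lit 269) (nat_lit 268) (nat_lit 123)))))) (XT.nd (nat_lit 34476) (nat_lit 0) (nat_lit 0) (XT.nd (nat_lit 234) (nat_lit 0) (nat_lit 0) (XT.nd (nat_lit 78) (nat_lit 304) (nat_lit 0) (XT.lf (nat_lit 76) (nat_lit 1466332505850) (nat_lit 0) (nat_lit 660248155281) (nat_lit 532) (nat_lit 1750227066990) (nat_lit 42) (nat_lit 5) (nat_lit 41) (nat_lit 5) (nat_lit 48) (nat_lit 5) (nat_lit 270) (nat_lit 268) (nat_lit 122)) (XT.nd (nat_lit 78) (nat_lit 380) (nat_lit 0) (XT.lf (nat_lit 76) (nat_lit 889259990888) (nat_lit 0) (nat_lit 1747277017089) (nat_lit 532) (nat_lit 1545140764854) (nat_lit 43)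 (nat_lit 5) (nat_lit 42) (nat_lit 5) (nat_lit 49) (nat_lit 5) (nat_lit 271) (nat_lit 268) (nat_lit 121)) (XT.lf (nat_lit 0) (nat_lit 262527871172) (nat_lit 456) (nat_lit 3090818453219) (nat_lit 532) (nat_lit 1168503238459) (nat_lit 37) (nat_lit 5) (nat_lit 43) (nat_lit 5) (nat_lit 44) (nat_lit 5) (nat_lit 272) (nat_lit 268) (nat_lit 120)))) (XT.nd (nat_lit 34086) (nat_lit 0) (nat_lit 228) (XT.lf (nat_lit 0) (nat_lit 4324929265886) (nat_lit 532) (nat_lit 406681543134) (nat_lit 76) (nat_lit 169656134148) (nat_lit 37) (nat_lit 5) (nat_lit 44) (nat_lit 5) (nat_lit 38) (nat_lit 5) (nat_lit 273) (nat_lit 268) (nat_lit 119)) (XT.nd (nat_lit 78) (nat_lit 0) (nat_lit 76) (XT.lf (nat_lit 0) (nat_lit 931823298574) (nat_lit 532) (nat_lit 498747454973) (nat_lit 532) (nat_lit 498747454973) (nat_lit 40) (nat_lit 3) (nat_lit 47) (nat_lit 3) (nat_lit 47) (nat_lit 5) (nat_lit 269) (nat_lit 269) (nat_lit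 122)) (XT.lf (nat_lit 0) (nat_lit 2064780849913) (nat_lit 456) (nat_lit 1844402529026) (nat_lit 532) (nat_lit 233941908712) (nat_lit 41) (nat_lit 5) (nat_lit 47) (nat_lit 5) (nat_lit 48) (nat_lit 5) (nat_lit 270) (nat_lit 269) (nat_lit 121))))) (XT.nd (nat_lit 34398) (nat_lit 0) (nat_lit 304) (XT.nd (nat_lit 78) (nat_lit 304) (nat_lit 0) (XT.lf (nat_lit 76) (nat_lit 1686282391327) (nat_lit 0) (nat_lit 759285382925) (nat_lit 532) (nat_lit 2012761111913) (nat_lit 42) (nat_lit 5) (nat_lit 41) (nat_lit 5) (nat_lit 48) (nat_lit 5) (nat_lit 271) (nat_lit 269) (nat_lit 120)) (XT.nd (nat_lit 78) (nat_lit 380) (nat_lit 0) (XT.lf (nat_lit 76) (nat_lit 1022648999480) (nat_lit 0) (nat_lit 2009368571975) (nat_lit 532) (nat_lit 1776911866269) (nat_lit 43) (nat_lit 5) (nat_lit 42) (nat_lit 5) (nat_lit 49) (nat_lit 5) (nat_lit 272) (nat_lit 269) (nat_lit 119)) (XT.lf (nat_lit 0) (nat_lit 301907061960)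 (nat_lit 456) (nat_lit 3554441221964) (nat_lit 532) (nat_lit 1343778712441) (nat_lit 37) (nat_lit 5) (nat_lit 43) (nat_lit 5) (nat_lit 44) (nat_lit 5) (nat_lit 273) (nat_lit 269) (nat_lit 118)))) (XT.nd (nat_lit 78) (nat_lit 0) (nat_lit 0) (XT.lf (nat_lit 0) (nat_lit 2374497989330) (nat_lit 456) (nat_lit 2121062900451) (nat_lit 532) (nat_lit 269033190013) (nat_lit 41) (nat_lit 5) (nat_lit 47) (nat_lit 5) (nat_lit 48) (nat_lit 5) (nat_lit 271) (nat_lit 270) (nat_lit 119)) (XT.nd (nat_lit 34398) (nat_lit 0) (nat_lit 0) (XT.lf (nat_lit 76) (nat_lit 1939224757285) (nat_lit 0) (nat_lit 873178193654) (nat_lit 532) (nat_lit 2314675267263) (nat_lit 42) (nat_lit 5) (nat_lit 41) (nat_lit 5) (nat_lit 48) (nat_lit 5) (nat_lit 272) (nat_lit 270) (nat_lit 118)) (XT.lf (nat_lit 0) (nat_lit 2730672696752) (nat_lit 456) (nat_lit 2439222329522) (nat_lit 532) (nat_lit 309388164730) (nat_lit 41) (nat_lit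 5) (nat_lit 47) (nat_lit 5) (nat_lit 48) (nat_lit 5) (nat_lit 272) (nat_lit 271) (nat_lit 117))))))))

set_option maxRecDepth 10000000 in
noncomputable def Tp : PT := (PT.nd (nat_lit 3827070) (PT.nd (nat_lit 3689322) pc0 pc1) (PT.nd (nat_lit 102648) pc2 pc3))

set_option maxRecDepth 10000000 in
noncomputable def Tx : XT := (XT.nd (nat_lit 6488976) (nat_lit 0) (nat_lit 76) XT.nil (XT.nd (nat_lit 2854176) (nat_lit 0) (nat_lit 0) (XT.nd (nat_lit 1302912) (nat_lit 0) (nat_lit 0) (XT.nd (nat_lit 891384) (nat_lit 0) (nat_lit 0) (XT.nd (nat_lit 617370) (nat_lit 0) (nat_lit 0) (XT.nd (nat_lit 412464) (nat_lit 0) (nat_lit 0) (XT.nd (nat_lit 275184) (nat_lit 0) (nat_lit 0) (XT.nd (nat_lit 205608) (nat_lit 0) (nat_lit 0) xc0 xc1) (XT.nd (nat_lit 101478) (nat_lit 0) (nat_lit 0) xc2 xc3)) (XT.nd (nat_lit 103038) (nat_lit 0) (nat_lit 0) (XT.nd (nat_lit 67704) (nat_lit 0) (nat_lit 0) xc4 xc5) (XT.nd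 (nat_lit 66924) (nat_lit 0) (nat_lit 0) xc6 xc7))) (XT.nd (nat_lit 138216) (nat_lit 0) (nat_lit 0) (XT.nd (nat_lit 69420) (nat_lit 0) (nat_lit 0) (XT.nd (nat_lit 34788) (nat_lit 0) (nat_lit 0) xc8 xc9) (XT.nd (nat_lit 34476) (nat_lit 0) (nat_lit 0) xc10 xc11)) (XT.nd (nat_lit 68172) (nat_lit 0) (nat_lit 0) (XT.nd (nat_lit 34164) (nat_lit 0) (nat_lit 0) xc12 xc13) (XT.nd (nat_lit 33852) (nat_lit 0) (nat_lit 0) xc14 xc15)))) (XT.nd (nat_lit 205920) (nat_lit 0) (nat_lit 0) (XT.nd (nat_lit 103584) (nat_lit 0) (nat_lit 0) (XT.nd (nat_lit 36972) (nat_lit 0) (nat_lit 0) (XT.nd (nat_lit 33540) (nat_lit 0) (nat_lit 0) xc16 xc17) (XT.nd (nat_lit 33384) (nat_lit 0) (nat_lit 0) xc18 xc19)) (XT.nd (nat_lit 36504) (nat_lit 0) (nat_lit 0) (XT.nd (nat_lit 33072) (nat_lit 0) (nat_lit 0) xc20 xc21) (XT.nd (nat_lit 32994) (nat_lit 0) (nat_lit 0) xc22 xc23))) (XT.nd (nat_lit 102414) (nat_lit 0) (nat_lit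 0) (XT.nd (nat_lit 36348) (nat_lit 0) (nat_lit 0) (XT.nd (nat_lit 32916) (nat_lit 0) (nat_lit 152) xc24 xc25) (XT.nd (nat_lit 32994) (nat_lit 0) (nat_lit 0) xc26 xc27)) (XT.nd (nat_lit 36582) (nat_lit 0) (nat_lit 0) (XT.nd (nat_lit 3432) (nat_lit 152) (nat_lit 0) xc28 xc29) (XT.nd (nat_lit 33228) (nat_lit 0) (nat_lit 0) xc30 xc31))))) (XT.nd (nat_lit 482742) (nat_lit 0) (nat_lit 152) (XT.nd (nat_lit 208650) (nat_lit 0) (nat_lit 152) (XT.nd (nat_lit 103896) (nat_lit 0) (nat_lit 0) (XT.nd (nat_lit 36816) (nat_lit 0) (nat_lit 0) (XT.nd (nat_lit 3432) (nat_lit 152) (nat_lit 0) xc32 xc33) (XT.nd (nat_lit 33462) (nat_lit 0) (nat_lit 0) xc34 xc35)) (XT.nd (nat_lit 37128) (nat_lit 0) (nat_lit 0) (XT.nd (nat_lit 33696) (nat_lit 0) (nat_lit 152) xc36 xc37) (XT.nd (nat_lit 33774) (nat_lit 0) (nat_lit 76) xc38 xc39))) (XT.nd (nat_lit 136266) (nat_lit 0) (nat_lit 0) (XT.nd (nat_lit 67938) (nat_lit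 0) (nat_lit 0) (XT.nd (nat_lit 33930) (nat_lit 0) (nat_lit 0) xc40 xc41) (XT.nd (nat_lit 34086) (nat_lit 0) (nat_lit 0) xc42 xc43)) (XT.nd (nat_lit 68718) (nat_lit 0) (nat_lit 0) (XT.nd (nat_lit 34320) (nat_lit 0) (nat_lit 0) xc44 xc45) (XT.nd (nat_lit 34476) (nat_lit 0) (nat_lit 0) xc46 xc47)))) (XT.nd (nat_lit 311766) (nat_lit 0) (nat_lit 76) (XT.nd (nat_lit 139152) (nat_lit 0) (nat_lit 0) (XT.nd (nat_lit 69342) (nat_lit 0) (nat_lit 0) (XT.nd (nat_lit 34632) (nat_lit 0) (nat_lit 0) xc48 xc49) (XT.nd (nat_lit 34866) (nat_lit 0) (nat_lit 0) xc50 xc51)) (XT.nd (nat_lit 101868) (nat_lit 0) (nat_lit 76) (XT.nd (nat_lit 35022) (nat_lit 0) (nat_lit 0) xc52 xc53) (XT.nd (nat_lit 35334) (nat_lit 0) (nat_lit 0) xc54 xc55))) (XT.nd (nat_lit 240240) (nat_lit 0) (nat_lit 456) (XT.nd (nat_lit 103350) (nat_lit 0) (nat_lit 152) (XT.nd (nat_lit 67626) (nat_lit 0) (nat_lit 152) xc56 xc57) (XT.nd (nat_lit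 68250) (nat_lit 0) (nat_lit 76) xc58 xc59)) (XT.nd (nat_lit 171600) (nat_lit 0) (nat_lit 456) (XT.nd (nat_lit 69030) (nat_lit 0) (nat_lit 76) xc60 xc61) (XT.nd (nat_lit 103662) (nat_lit 0) (nat_lit 684) xc62 xc63)))))) XT.nil))

set_option maxRecDepth 10000000 in
noncomputable def Te : XT := XT.nil

set_option maxRecDepth 10000000 in
noncomputable def Tz : ZL := (ZL.cons (nat_lit 76) (nat_lit 3) (nat_lit 100744465516124100696) (ZL.cons (nat_lit 152) (nat_lit 6) (nat_lit 189470515116366615174) (ZL.cons (nat_lit 228) (nat_lit 6) (nat_lit 179239051219310121276) (ZL.cons (nat_lit 304) (nat_lit 3) (nat_lit 88784708305885914068) (ZL.cons (nat_lit 380) (nat_lit 6) (nat_lit 167472867737695153290) (ZL.cons (nat_lit 456) (nat_lit 6) (nat_lit 158983327320513351348) (ZL.cons (nat_lit 532) (nat_lit 3) (nat_lit 78765735570022635179) (ZL.cons (nat_lit 608) (nat_lit 6) (nat_lit 149220355840754279116)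 (ZL.cons (nat_lit 684) (nat_lit 6) (nat_lit 142376913062227355818) (ZL.cons (nat_lit 760) (nat_lit 3) (nat_lit 70557214713518860088) (ZL.cons (nat_lit 836) (nat_lit 6) (nat_lit 136867249358797669366) (ZL.cons (nat_lit 912) (nat_lit 6) (nat_lit 134506953866921394030) (ZL.cons (nat_lit 988) (nat_lit 6) (nat_lit 129268652464663894298) (ZL.cons (nat_lit 1064) (nat_lit 3) (nat_lit 64085420303988627302) (ZL.cons (nat_lit 1140) (nat_lit 6) (nat_lit 125297036714568878594) (ZL.cons (nat_lit 1216) (nat_lit 6) (nat_lit 123244605852067769606) (ZL.cons (nat_lit 1292) (nat_lit 3) (nat_lit 60160248104228468906) (ZL.cons (nat_lit 1368) (nat_lit 6) (nat_lit 120866302723336155254) (ZL.cons (nat_lit 1444) (nat_lit 6) (nat_lit 122514401091091009652) (ZL.cons (nat_lit 1520) (nat_lit 6) (nat_lit 119631866745272970840) (ZL.cons (nat_lit 1596) (nat_lit 3) (nat_lit 59338623869729250773) (ZL.cons (nat_lit 1672)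 (nat_lit 6) (nat_lit 116088455254600033884) (ZL.cons (nat_lit 1748) (nat_lit 6) (nat_lit 117261939261590351380) (ZL.cons (nat_lit 1824) (nat_lit 6) (nat_lit 115477216772458952262) (ZL.cons (nat_lit 1900) (nat_lit 3) (nat_lit 56477113078714884825) (ZL.cons (nat_lit 1976) (nat_lit 6) (nat_lit 113581903649540869704) (ZL.cons (nat_lit 2052) (nat_lit 3) (nat_lit 56375900083111969940) (ZL.cons (nat_lit 2128) (nat_lit 6) (nat_lit 111402293558185074764) (ZL.cons (nat_lit 2204) (nat_lit 1) (nat_lit 18446744073709551617) ZL.nil)))))))))))))))))))))))))))))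

noncomputable def vl : XL := ⟨(nat_lit 0), (nat_lit 76), (nat_lit 33387935), (nat_lit 228), (nat_lit 550961677), (nat_lit 76), (nat_lit 33387935), (nat_lit 1), (nat_lit 5), (nat_lit 3), (nat_lit 4), (nat_lit 1), (nat_lit 4), (nat_lit 0), (nat_lit 0), (nat_lit 0)⟩

noncomputable def cp0 : Nat := (nat_lit 8720911592569541356185044705759701128426314478579311676629053411617283982078599572685929989439143203829378725057725662039755412589738612252993357880071400277249777130492147471944072642984877082453447186547177235606638870479345155335702642000386483830604201522532462822585559310406485313079200607071490554980266685915663104779554654728585681083511720750215851961074288711895489053680461538783189735487384592018380316106781301580366575813840313835125298026917345396341890320200336844283034396519283623994794360193997681303450282822306041419625558320777070655224144698411143748391676588585905713627561273984288161429878923965371820169510602341284338812959553032783209255232371727269888)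

noncomputable def cp1 : Nat := (nat_lit 433877296775216873813884575327671995386996794286349294203963385240897908587740432829457199711522677984712363320724514242682144791804657183224210842489324445645645962943601700037265579468527571142642457465432148550925392966845664482020005599130820393652663804080108184283168945214999766083465982835668200625339374834370285885097468864874368028378944372028710602766991195472591691037589196490728486749892801293279488631514294058546817414565760824784204406916643681564733686683336041526898271919431733782716564579978145563987368128533489297819871814204102867270258078606802761842948113051766862175821695817924825772805965328568661952847486766458825171006414266929374105875326735100704236360459956483405838612318685997105927547236573028172339458649025862261131346081206852057967779812895877350307630162971461738197906487114369646777771835146621255370714360098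5519059928022431433961246035253738075003002298941205694038018117605150533036010221413579590464114334119368267758390866203005786830371629584254397133437874060757173492482905497928316948770899095817976103874375958905106042121392105982925476645836277495443864034925116709516485528665217877265910456698987971311223274001217847874011454829166009971490583340164600472292072391593160851824903155003487116267719456686106138241072904095992483263506599609359599203801767039700454889693249457689484512706980172808416148510161940581484727067868408424129425350139374294244459066355379481487837331696427588288527903826136406182905600486146048)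

noncomputable def rc0 : Nat := (nat_lit 433877296775216873813884575327671995386996794286349294203963385240897908587740432829457199711522677984712363320724514242682144791804657183224210842489324445645645962943601700037265579468527571142642457465432148550925392966845664482020005599130820393652663804080108184283168945214999766083465982835668200625339374834370285885097468864874368028378944372028710602766991195472591691037589196490728486749892801293279488631514294058546817414565760824784204406916643681564733686683336041526898271919431733782716564579978145563987368128533489297819871814204102867270258078606802761842948113051766862175821695817924825772805965328568661952847486766458825171006414266929374105875326735100704236360459956483405838612318685997105927547236573028172339458649025862261131346081206852057967779812895877350307630162971461738197906487114369646777771835146621255370714360098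5519059928022431433961246035253738075003002298941205694038018117605150533036010221413579590464114334119368267758390866203005786830371629584254397133437874060757173492482905497928316948770899095817976103874375958905106042121392105982925476645836277495443864034925116709516485528665217877265910456698987971311223274001217847874011454829166009971490583340164600472292072391593160851824903155003487116267719456686106138241072904095992483263506599609359599203801767039700454889693249457689484512706980172808416148510161940581484727067868408424129425350139374294244459066355379481487837331696427588288527903826136406182905600486146048)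

end Vale.Agent.Lib.P154.PChain.BQ.S1
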