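import Vale.Agent.Lib.P154.PChain.BQ.R1_0

set_option linter.all false

namespace Vale.Agent.Lib.P154.PChain.BQ.S2

open Vale.Agent.Lib.P154.Chain

noncomputable def pc0 : PT := (PT.nd (nat_lit 4602858) (PT.nd (nat_lit 4440462) (PT.nd (nat_lit 4359264) (PT.nd (nat_lit 4318626) (PT.nd (nat_lit 4278144) (PT.nd (nat_lit 4278066) PT.nil (PT.lf (nat_lit 76) (nat_lit 6) (nat_lit 1) (nat_lit 3) (nat_lit 142) (nat_lit 105) (nat_lit 143))) (PT.lf (nat_lit 76) (nat_lit 6) (nat_lit 1) (nat_lit 1) (nat_lit 143) (nat_lit 105) (nat_lit 142))) (PT.nd (nat_lit 78) (PT.lf (nat_lit 152) (nat_lit 6) (nat_lit 2) (nat_lit 3) (nat_lit 141) (nat_lit 106) (nat_lit 143)) (PT.nd (nat_lit 78) (PT.lf (nat_lit 228) (nat_lit 3) (nat_lit 3) (nat_lit 1) (nat_lit 142) (nat_lit 106) (nat_lit 142)) (PT.lf (nat_lit 152) (nat_lit 6) (nat_lit 2) (nat_lit 1) (nat_lit 143) (nat_lit 106) (nat_lit 141))))) (PT.nd (nat_lit 40560)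 (PT.nd (nat_lit 78) (PT.lf (nat_lit 304) (nat_lit 6) (nat_lit 4) (nat_lit 3) (nat_lit 141) (nat_lit 107) (nat_lit 142)) (PT.lf (nat_lit 304) (nat_lit 6) (nat_lit 4) (nat_lit 1) (nat_lit 142) (nat_lit 107) (nat_lit 141))) (PT.nd (nat_lit 78) (PT.lf (nat_lit 380) (nat_lit 6) (nat_lit 5) (nat_lit 3) (nat_lit 140) (nat_lit 108) (nat_lit 142)) (PT.nd (nat_lit 78) (PT.lf (nat_lit 456) (nat_lit 3) (nat_lit 6) (nat_lit 1) (nat_lit 141) (nat_lit 108) (nat_lit 141)) (PT.lf (nat_lit 380) (nat_lit 6) (nat_lit 5) (nat_lit 1) (nat_lit 142) (nat_lit 108) (nat_lit 140)))))) (PT.nd (nat_lit 81198) (PT.nd (nat_lit 40560) (PT.nd (nat_lit 78) (PT.lf (nat_lit 532) (nat_lit 6) (nat_lit 7) (nat_lit 3) (nat_lit 140) (nat_lit 109) (nat_lit 141)) (PT.lf (nat_lit 532) (nat_lit 6) (nat_lit 7) (nat_lit 1) (nat_lit 141) (nat_lit 109) (nat_lit 140))) (PT.nd (nat_lit 78) (PT.lf (nat_lit 608) (nat_lit 6) (nat_lit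 8) (nat_lit 3) (nat_lit 139) (nat_lit 110) (nat_lit 141)) (PT.nd (nat_lit 78) (PT.lf (nat_lit 684) (nat_lit 3) (nat_lit 9) (nat_lit 1) (nat_lit 140) (nat_lit 110) (nat_lit 140)) (PT.lf (nat_lit 608) (nat_lit 6) (nat_lit 8) (nat_lit 1) (nat_lit 141) (nat_lit 110) (nat_lit 139))))) (PT.nd (nat_lit 40560) (PT.nd (nat_lit 78) (PT.lf (nat_lit 760) (nat_lit 6) (nat_lit 10) (nat_lit 3) (nat_lit 139) (nat_lit 111) (nat_lit 140)) (PT.lf (nat_lit 760) (nat_lit 6) (nat_lit 10) (nat_lit 1) (nat_lit 140) (nat_lit 111) (nat_lit 139))) (PT.nd (nat_lit 78) (PT.lf (nat_lit 836) (nat_lit 6) (nat_lit 11) (nat_lit 3) (nat_lit 138) (nat_lit 112) (nat_lit 140)) (PT.nd (nat_lit 78) (PT.lf (nat_lit 912) (nat_lit 3) (nat_lit 12) (nat_lit 1) (nat_lit 139) (nat_lit 112) (nat_lit 139)) (PT.lf (nat_lit 836) (nat_lit 6) (nat_lit 11) (nat_lit 1) (nat_lit 140) (nat_lit 112) (nat_lit 138))))))) (PT.nd (nat_lit 121836)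 (PT.nd (nat_lit 81120) (PT.nd (nat_lit 40560) (PT.nd (nat_lit 78) (PT.lf (nat_lit 988) (nat_lit 6) (nat_lit 13) (nat_lit 3) (nat_lit 138) (nat_lit 113) (nat_lit 139)) (PT.lf (nat_lit 988) (nat_lit 6) (nat_lit 13) (nat_lit 1) (nat_lit 139) (nat_lit 113) (nat_lit 138))) (PT.nd (nat_lit 78) (PT.lf (nat_lit 1064) (nat_lit 6) (nat_lit 14) (nat_lit 3) (nat_lit 137) (nat_lit 114) (nat_lit 139)) (PT.nd (nat_lit 78) (PT.lf (nat_lit 1140) (nat_lit 3) (nat_lit 15) (nat_lit 1) (nat_lit 138) (nat_lit 114) (nat_lit 138)) (PT.lf (nat_lit 1064) (nat_lit 6) (nat_lit 14) (nat_lit 1) (nat_lit 139) (nat_lit 114) (nat_lit 137))))) (PT.nd (nat_lit 156) (PT.nd (nat_lit 78) (PT.lf (nat_lit 1216) (nat_lit 6) (nat_lit 16) (nat_lit 3) (nat_lit 136) (nat_lit 115) (nat_lit 139)) (PT.lf (nat_lit 1292) (nat_lit 6) (nat_lit 17) (nat_lit 3) (nat_lit 137) (nat_lit 115) (nat_lit 138))) (PT.nd (nat_lit 78) (PT.lf (nat_lit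 1292) (nat_lit 6) (nat_lit 17) (nat_lit 1) (nat_lit 138) (nat_lit 115) (nat_lit 137)) (PT.nd (nat_lit 40404) (PT.lf (nat_lit 1216) (nat_lit 6) (nat_lit 16) (nat_lit 1) (nat_lit 139) (nat_lit 115) (nat_lit 136)) (PT.lf (nat_lit 1368) (nat_lit 6) (nat_lit 18) (nat_lit 3) (nat_lit 136) (nat_lit 116) (nat_lit 138)))))) (PT.nd (nat_lit 40716) (PT.nd (nat_lit 40482) (PT.nd (nat_lit 78) (PT.lf (nat_lit 1444) (nat_lit 3) (nat_lit 19) (nat_lit 1) (nat_lit 137) (nat_lit 116) (nat_lit 137)) (PT.lf (nat_lit 1368) (nat_lit 6) (nat_lit 18) (nat_lit 1) (nat_lit 138) (nat_lit 116) (nat_lit 136))) (PT.nd (nat_lit 78) (PT.lf (nat_lit 1520) (nat_lit 6) (nat_lit 20) (nat_lit 3) (nat_lit 135) (nat_lit 117) (nat_lit 138)) (PT.nd (nat_lit 78) (PT.lf (nat_lit 1596) (nat_lit 6) (nat_lit 21) (nat_lit 3) (nat_lit 136) (nat_lit 117) (nat_lit 137)) (PT.lf (nat_lit 1596) (nat_lit 6) (nat_lit 21) (nat_lit 1) (nat_lit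 137) (nat_lit 117) (nat_lit 136))))) (PT.nd (nat_lit 40482) (PT.nd (nat_lit 40326) (PT.lf (nat_lit 1520) (nat_lit 6) (nat_lit 20) (nat_lit 1) (nat_lit 138) (nat_lit 117) (nat_lit 135)) (PT.nd (nat_lit 78) (PT.lf (nat_lit 1672) (nat_lit 6) (nat_lit 22) (nat_lit 3) (nat_lit 134) (nat_lit 118) (nat_lit 138)) (PT.lf (nat_lit 1748) (nat_lit 6) (nat_lit 23) (nat_lit 3) (nat_lit 135) (nat_lit 118) (nat_lit 137)))) (PT.nd (nat_lit 78) (PT.lf (nat_lit 1824) (nat_lit 3) (nat_lit 24) (nat_lit 1) (nat_lit 136) (nat_lit 118) (nat_lit 136)) (PT.nd (nat_lit 78) (PT.lf (nat_lit 1748) (nat_lit 6) (nat_lit 23) (nat_lit 1) (nat_lit 137) (nat_lit 118) (nat_lit 135)) (PT.lf (nat_lit 1672) (nat_lit 6) (nat_lit 22) (nat_lit 1) (nat_lit 138) (nat_lit 118) (nat_lit 134))))))))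
noncomputable def pc1 : PT := (PT.nd (nat_lit 122148) (PT.nd (nat_lit 81198) (PT.nd (nat_lit 40638) (PT.nd (nat_lit 156) (PT.nd (nat_lit 78) (PT.lf (nat_lit 1900) (nat_lit 6) (nat_lit 25) (nat_lit 3) (nat_lit 134) (nat_lit 119) (nat_lit 137)) (PT.lf (nat_lit 1976) (nat_lit 6) (nat_lit 26) (nat_lit 3) (nat_lit 135) (nat_lit 119) (nat_lit 136))) (PT.nd (nat_lit 78) (PT.lf (nat_lit 1976) (nat_lit 6) (nat_lit 26) (nat_lit 1) (nat_lit 136) (nat_lit 119) (nat_lit 135)) (PT.nd (nat_lit 40326) (PT.lf (nat_lit 1900) (nat_lit 6) (nat_lit 25) (nat_lit 1) (nat_lit 137) (nat_lit 119) (nat_lit 134)) (PT.lf (nat_lit 2052) (nat_lit 6) (nat_lit 27) (nat_lit 3) (nat_lit 133) (nat_lit 120) (nat_lit 137))))) (PT.nd (nat_lit 156) (PT.nd (nat_lit 78) (PT.lf (nat_lit 2128) (nat_lit 6) (nat_lit 28) (nat_lit 3) (nat_lit 134) (nat_lit 120) (nat_lit 136)) (PT.lf (nat_lit 2204) (nat_lit 3) (nat_lit 29) (nat_lit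 1) (nat_lit 135) (nat_lit 120) (nat_lit 135))) (PT.nd (nat_lit 78) (PT.lf (nat_lit 2128) (nat_lit 6) (nat_lit 28) (nat_lit 1) (nat_lit 136) (nat_lit 120) (nat_lit 134)) (PT.nd (nat_lit 40248) (PT.lf (nat_lit 2052) (nat_lit 6) (nat_lit 27) (nat_lit 1) (nat_lit 137) (nat_lit 120) (nat_lit 133)) (PT.lf (nat_lit 2280) (nat_lit 6) (nat_lit 30) (nat_lit 3) (nat_lit 132) (nat_lit 121) (nat_lit 137)))))) (PT.nd (nat_lit 40482) (PT.nd (nat_lit 156) (PT.nd (nat_lit 78) (PT.lf (nat_lit 2356) (nat_lit 6) (nat_lit 31) (nat_lit 3) (nat_lit 133) (nat_lit 121) (nat_lit 136)) (PT.lf (nat_lit 2432) (nat_lit 6) (nat_lit 32) (nat_lit 3) (nat_lit 134) (nat_lit 121) (nat_lit 135))) (PT.nd (nat_lit 78) (PT.lf (nat_lit 2432) (nat_lit 6) (nat_lit 32) (nat_lit 1) (nat_lit 135) (nat_lit 121) (nat_lit 134)) (PT.nd (nat_lit 78) (PT.lf (nat_lit 2356) (nat_lit 6) (nat_lit 31) (nat_lit 1) (nat_lit 136) (nat_lit 121)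 (nat_lit 133)) (PT.lf (nat_lit 2280) (nat_lit 6) (nat_lit 30) (nat_lit 1) (nat_lit 137) (nat_lit 121) (nat_lit 132))))) (PT.nd (nat_lit 234) (PT.nd (nat_lit 78) (PT.lf (nat_lit 2508) (nat_lit 6) (nat_lit 33) (nat_lit 3) (nat_lit 131) (nat_lit 122) (nat_lit 137)) (PT.nd (nat_lit 78) (PT.lf (nat_lit 2584) (nat_lit 6) (nat_lit 34) (nat_lit 3) (nat_lit 132) (nat_lit 122) (nat_lit 136)) (PT.lf (nat_lit 2660) (nat_lit 6) (nat_lit 35) (nat_lit 3) (nat_lit 133) (nat_lit 122) (nat_lit 135)))) (PT.nd (nat_lit 78) (PT.lf (nat_lit 2736) (nat_lit 3) (nat_lit 36) (nat_lit 1) (nat_lit 134) (nat_lit 122) (nat_lit 134)) (PT.nd (nat_lit 78) (PT.lf (nat_lit 2660) (nat_lit 6) (nat_lit 35) (nat_lit 1) (nat_lit 135) (nat_lit 122) (nat_lit 133)) (PT.lf (nat_lit 2584) (nat_lit 6) (nat_lit 34) (nat_lit 1) (nat_lit 136) (nat_lit 122) (nat_lit 132))))))) (PT.nd (nat_lit 80964) (PT.nd (nat_lit 40482) (PT.nd (nat_lit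 40248) (PT.nd (nat_lit 40170) (PT.lf (nat_lit 2508) (nat_lit 6) (nat_lit 33) (nat_lit 1) (nat_lit 137) (nat_lit 122) (nat_lit 131)) (PT.lf (nat_lit 2812) (nat_lit 6) (nat_lit 37) (nat_lit 3) (nat_lit 131) (nat_lit 123) (nat_lit 136))) (PT.nd (nat_lit 78) (PT.lf (nat_lit 2888) (nat_lit 6) (nat_lit 38) (nat_lit 3) (nat_lit 132) (nat_lit 123) (nat_lit 135)) (PT.nd (nat_lit 78) (PT.lf (nat_lit 2964) (nat_lit 6) (nat_lit 39) (nat_lit 3) (nat_lit 133) (nat_lit 123) (nat_lit 134)) (PT.lf (nat_lit 2964) (nat_lit 6) (nat_lit 39) (nat_lit 1) (nat_lit 134) (nat_lit 123) (nat_lit 133))))) (PT.nd (nat_lit 40248) (PT.nd (nat_lit 78) (PT.lf (nat_lit 2888) (nat_lit 6) (nat_lit 38) (nat_lit 1) (nat_lit 135) (nat_lit 123) (nat_lit 132)) (PT.lf (nat_lit 2812) (nat_lit 6) (nat_lit 37) (nat_lit 1) (nat_lit 136) (nat_lit 123) (nat_lit 131))) (PT.nd (nat_lit 78) (PT.lf (nat_lit 3268) (nat_lit 6) (nat_lit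 43) (nat_lit 3) (nat_lit 130) (nat_lit 124) (nat_lit 136)) (PT.nd (nat_lit 78) (PT.lf (nat_lit 3344) (nat_lit 6) (nat_lit 44) (nat_lit 3) (nat_lit 131) (nat_lit 124) (nat_lit 135)) (PT.lf (nat_lit 3420) (nat_lit 6) (nat_lit 45) (nat_lit 3) (nat_lit 132) (nat_lit 124) (nat_lit 134)))))) (PT.nd (nat_lit 40404) (PT.nd (nat_lit 156) (PT.nd (nat_lit 78) (PT.lf (nat_lit 3496) (nat_lit 3) (nat_lit 46) (nat_lit 1) (nat_lit 133) (nat_lit 124) (nat_lit 133)) (PT.lf (nat_lit 3420) (nat_lit 6) (nat_lit 45) (nat_lit 1) (nat_lit 134) (nat_lit 124) (nat_lit 132))) (PT.nd (nat_lit 78) (PT.lf (nat_lit 3344) (nat_lit 6) (nat_lit 44) (nat_lit 1) (nat_lit 135) (nat_lit 124) (nat_lit 131)) (PT.nd (nat_lit 40092) (PT.lf (nat_lit 3268) (nat_lit 6) (nat_lit 43) (nat_lit 1) (nat_lit 136) (nat_lit 124) (nat_lit 130)) (PT.lf (nat_lit 3192) (nat_lit 6) (nat_lit 42) (nat_lit 3) (nat_lit 129) (nat_lit 125) (nat_lit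 136))))) (PT.nd (nat_lit 234) (PT.nd (nat_lit 78) (PT.lf (nat_lit 3724) (nat_lit 6) (nat_lit 49) (nat_lit 3) (nat_lit 130) (nat_lit 125) (nat_lit 135)) (PT.nd (nat_lit 78) (PT.lf (nat_lit 3800) (nat_lit 6) (nat_lit 50) (nat_lit 3) (nat_lit 131) (nat_lit 125) (nat_lit 134)) (PT.lf (nat_lit 3876) (nat_lit 6) (nat_lit 51) (nat_lit 3) (nat_lit 132) (nat_lit 125) (nat_lit 133)))) (PT.nd (nat_lit 78) (PT.lf (nat_lit 3876) (nat_lit 6) (nat_lit 51) (nat_lit 1) (nat_lit 133) (nat_lit 125) (nat_lit 132)) (PT.nd (nat_lit 78) (PT.lf (nat_lit 3800) (nat_lit 6) (nat_lit 50) (nat_lit 1) (nat_lit 134) (nat_lit 125) (nat_lit 131)) (PT.lf (nat_lit 3724) (nat_lit 6) (nat_lit 49) (nat_lit 1) (nat_lit 135) (nat_lit 125) (nat_lit 130))))))))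
noncomputable def pc2 : PT := (PT.nd (nat_lit 121212) (PT.nd (nat_lit 80574) (PT.nd (nat_lit 40326) (PT.nd (nat_lit 40092) (PT.nd (nat_lit 40014) (PT.lf (nat_lit 3192) (nat_lit 6) (nat_lit 42) (nat_lit 1) (nat_lit 136) (nat_lit 125) (nat_lit 129)) (PT.lf (nat_lit 3116) (nat_lit 6) (nat_lit 41) (nat_lit 3) (nat_lit 128) (nat_lit 126) (nat_lit 136))) (PT.nd (nat_lit 78) (PT.lf (nat_lit 3648) (nat_lit 6) (nat_lit 48) (nat_lit 3) (nat_lit 129) (nat_lit 126) (nat_lit 135)) (PT.nd (nat_lit 78) (PT.lf (nat_lit 4104) (nat_lit 6) (nat_lit 54) (nat_lit 3) (nat_lit 130) (nat_lit 126) (nat_lit 134)) (PT.lf (nat_lit 4180) (nat_lit 6) (nat_lit 55) (nat_lit 3) (nat_lit 131) (nat_lit 126) (nat_lit 133))))) (PT.nd (nat_lit 156) (PT.nd (nat_lit 78) (PT.lf (nat_lit 4256) (nat_lit 3) (nat_lit 56) (nat_lit 1) (nat_lit 132) (nat_lit 126) (nat_lit 132)) (PT.lf (nat_lit 4180) (nat_lit 6) (nat_lit 55) (nat_lit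 1) (nat_lit 133) (nat_lit 126) (nat_lit 131))) (PT.nd (nat_lit 78) (PT.lf (nat_lit 4104) (nat_lit 6) (nat_lit 54) (nat_lit 1) (nat_lit 134) (nat_lit 126) (nat_lit 130)) (PT.nd (nat_lit 78) (PT.lf (nat_lit 3648) (nat_lit 6) (nat_lit 48) (nat_lit 1) (nat_lit 135) (nat_lit 126) (nat_lit 129)) (PT.lf (nat_lit 3116) (nat_lit 6) (nat_lit 41) (nat_lit 1) (nat_lit 136) (nat_lit 126) (nat_lit 128)))))) (PT.nd (nat_lit 390) (PT.nd (nat_lit 156) (PT.nd (nat_lit 78) (PT.lf (nat_lit 3040) (nat_lit 3) (nat_lit 40) (nat_lit 3) (nat_lit 127) (nat_lit 127) (nat_lit 136)) (PT.lf (nat_lit 3572) (nat_lit 6) (nat_lit 47) (nat_lit 3) (nat_lit 128) (nat_lit 127) (nat_lit 135))) (PT.nd (nat_lit 78) (PT.lf (nat_lit 4028) (nat_lit 6) (nat_lit 53) (nat_lit 3) (nat_lit 129) (nat_lit 127) (nat_lit 134)) (PT.nd (nat_lit 78) (PT.lf (nat_lit 4408) (nat_lit 6) (nat_lit 58) (nat_lit 3) (nat_lit 130) (nat_lit 127) (nat_lit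 133)) (PT.lf (nat_lit 4484) (nat_lit 6) (nat_lit 59) (nat_lit 3) (nat_lit 131) (nat_lit 127) (nat_lit 132))))) (PT.nd (nat_lit 234) (PT.nd (nat_lit 78) (PT.lf (nat_lit 4484) (nat_lit 6) (nat_lit 59) (nat_lit 1) (nat_lit 132) (nat_lit 127) (nat_lit 131)) (PT.nd (nat_lit 78) (PT.lf (nat_lit 4408) (nat_lit 6) (nat_lit 58) (nat_lit 1) (nat_lit 133) (nat_lit 127) (nat_lit 130)) (PT.lf (nat_lit 4028) (nat_lit 6) (nat_lit 53) (nat_lit 1) (nat_lit 134) (nat_lit 127) (nat_lit 129)))) (PT.nd (nat_lit 78) (PT.lf (nat_lit 3572) (nat_lit 6) (nat_lit 47) (nat_lit 1) (nat_lit 135) (nat_lit 127) (nat_lit 128)) (PT.nd (nat_lit 39858) (PT.lf (nat_lit 3040) (nat_lit 3) (nat_lit 40) (nat_lit 0) (nat_lit 136) (nat_lit 127) (nat_lit 127)) (PT.lf (nat_lit 3116) (nat_lit 6) (nat_lit 41) (nat_lit 5) (nat_lit 126) (nat_lit 128) (nat_lit 136))))))) (PT.nd (nat_lit 40482) (PT.nd (nat_lit 390) (PT.nd (nat_lit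 156) (PT.nd (nat_lit 78) (PT.lf (nat_lit 3572) (nat_lit 6) (nat_lit 47) (nat_lit 5) (nat_lit 127) (nat_lit 128) (nat_lit 135)) (PT.lf (nat_lit 3952) (nat_lit 3) (nat_lit 52) (nat_lit 3) (nat_lit 128) (nat_lit 128) (nat_lit 134))) (PT.nd (nat_lit 78) (PT.lf (nat_lit 4332) (nat_lit 6) (nat_lit 57) (nat_lit 3) (nat_lit 129) (nat_lit 128) (nat_lit 133)) (PT.nd (nat_lit 78) (PT.lf (nat_lit 4636) (nat_lit 6) (nat_lit 61) (nat_lit 3) (nat_lit 130) (nat_lit 128) (nat_lit 132)) (PT.lf (nat_lit 4712) (nat_lit 3) (nat_lit 62) (nat_lit 1) (nat_lit 131) (nat_lit 128) (nat_lit 131))))) (PT.nd (nat_lit 156) (PT.nd (nat_lit 78) (PT.lf (nat_lit 4636) (nat_lit 6) (nat_lit 61) (nat_lit 1) (nat_lit 132) (nat_lit 128) (nat_lit 130)) (PT.lf (nat_lit 4332) (nat_lit 6) (nat_lit 57) (nat_lit 1) (nat_lit 133) (nat_lit 128) (nat_lit 129))) (PT.nd (nat_lit 78) (PT.lf (nat_lit 3952) (nat_lit 3) (nat_lit 52) (nat_lit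 0) (nat_lit 134) (nat_lit 128) (nat_lit 128)) (PT.nd (nat_lit 78) (PT.lf (nat_lit 3572) (nat_lit 6) (nat_lit 47) (nat_lit 0) (nat_lit 135) (nat_lit 128) (nat_lit 127)) (PT.lf (nat_lit 3116) (nat_lit 6) (nat_lit 41) (nat_lit 0) (nat_lit 136) (nat_lit 128) (nat_lit 126)))))) (PT.nd (nat_lit 390) (PT.nd (nat_lit 156) (PT.nd (nat_lit 78) (PT.lf (nat_lit 3192) (nat_lit 6) (nat_lit 42) (nat_lit 5) (nat_lit 125) (nat_lit 129) (nat_lit 136)) (PT.lf (nat_lit 3648) (nat_lit 6) (nat_lit 48) (nat_lit 5) (nat_lit 126) (nat_lit 129) (nat_lit 135))) (PT.nd (nat_lit 78) (PT.lf (nat_lit 4028) (nat_lit 6) (nat_lit 53) (nat_lit 5) (nat_lit 127) (nat_lit 129) (nat_lit 134)) (PT.nd (nat_lit 78) (PT.lf (nat_lit 4332) (nat_lit 6) (nat_lit 57) (nat_lit 5) (nat_lit 128) (nat_lit 129) (nat_lit 133)) (PT.lf (nat_lit 4560) (nat_lit 3) (nat_lit 60) (nat_lit 3) (nat_lit 129) (nat_lit 129) (nat_lit 132))))) (PT.nd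 (nat_lit 234) (PT.nd (nat_lit 78) (PT.lf (nat_lit 4788) (nat_lit 6) (nat_lit 63) (nat_lit 3) (nat_lit 130) (nat_lit 129) (nat_lit 131)) (PT.nd (nat_lit 78) (PT.lf (nat_lit 4788) (nat_lit 6) (nat_lit 63) (nat_lit 1) (nat_lit 131) (nat_lit 129) (nat_lit 130)) (PT.lf (nat_lit 4560) (nat_lit 3) (nat_lit 60) (nat_lit 0) (nat_lit 132) (nat_lit 129) (nat_lit 129)))) (PT.nd (nat_lit 78) (PT.lf (nat_lit 4332) (nat_lit 6) (nat_lit 57) (nat_lit 0) (nat_lit 133) (nat_lit 129) (nat_lit 128)) (PT.nd (nat_lit 78) (PT.lf (nat_lit 4028) (nat_lit 6) (nat_lit 53) (nat_lit 0) (nat_lit 134) (nat_lit 129) (nat_lit 127)) (PT.lf (nat_lit 3648) (nat_lit 6) (nat_lit 48) (nat_lit 0) (nat_lit 135) (nat_lit 129) (nat_lit 126))))))))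
noncomputable def pc3 : PT := (PT.nd (nat_lit 80730) (PT.nd (nat_lit 40404) (PT.nd (nat_lit 40014) (PT.nd (nat_lit 39780) (PT.nd (nat_lit 39702) (PT.lf (nat_lit 3192) (nat_lit 6) (nat_lit 42) (nat_lit 0) (nat_lit 136) (nat_lit 129) (nat_lit 125)) (PT.lf (nat_lit 3268) (nat_lit 6) (nat_lit 43) (nat_lit 5) (nat_lit 124) (nat_lit 130) (nat_lit 136))) (PT.nd (nat_lit 78) (PT.lf (nat_lit 3724) (nat_lit 6) (nat_lit 49) (nat_lit 5) (nat_lit 125) (nat_lit 130) (nat_lit 135)) (PT.nd (nat_lit 78) (PT.lf (nat_lit 4104) (nat_lit 6) (nat_lit 54) (nat_lit 5) (nat_lit 126) (nat_lit 130) (nat_lit 134)) (PT.lf (nat_lit 4408) (nat_lit 6) (nat_lit 58) (nat_lit 5) (nat_lit 127) (nat_lit 130) (nat_lit 133))))) (PT.nd (nat_lit 156) (PT.nd (nat_lit 78) (PT.lf (nat_lit 4636) (nat_lit 6) (nat_lit 61) (nat_lit 5) (nat_lit 128) (nat_lit 130) (nat_lit 132)) (PT.lf (nat_lit 4788) (nat_lit 6) (nat_lit 63) (nat_lit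 5) (nat_lit 129) (nat_lit 130) (nat_lit 131))) (PT.nd (nat_lit 78) (PT.lf (nat_lit 4864) (nat_lit 1) (nat_lit 64) (nat_lit 0) (nat_lit 130) (nat_lit 130) (nat_lit 130)) (PT.nd (nat_lit 78) (PT.lf (nat_lit 4788) (nat_lit 6) (nat_lit 63) (nat_lit 0) (nat_lit 131) (nat_lit 130) (nat_lit 129)) (PT.lf (nat_lit 4636) (nat_lit 6) (nat_lit 61) (nat_lit 0) (nat_lit 132) (nat_lit 130) (nat_lit 128)))))) (PT.nd (nat_lit 39858) (PT.nd (nat_lit 156) (PT.nd (nat_lit 78) (PT.lf (nat_lit 4408) (nat_lit 6) (nat_lit 58) (nat_lit 0) (nat_lit 133) (nat_lit 130) (nat_lit 127)) (PT.lf (nat_lit 4104) (nat_lit 6) (nat_lit 54) (nat_lit 0) (nat_lit 134) (nat_lit 130) (nat_lit 126))) (PT.nd (nat_lit 78) (PT.lf (nat_lit 3724) (nat_lit 6) (nat_lit 49) (nat_lit 0) (nat_lit 135) (nat_lit 130) (nat_lit 125)) (PT.nd (nat_lit 39546) (PT.lf (nat_lit 3268) (nat_lit 6) (nat_lit 43) (nat_lit 0) (nat_lit 136) (nat_lit 130)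 (nat_lit 124)) (PT.lf (nat_lit 2508) (nat_lit 6) (nat_lit 33) (nat_lit 5) (nat_lit 122) (nat_lit 131) (nat_lit 137))))) (PT.nd (nat_lit 234) (PT.nd (nat_lit 78) (PT.lf (nat_lit 2812) (nat_lit 6) (nat_lit 37) (nat_lit 5) (nat_lit 123) (nat_lit 131) (nat_lit 136)) (PT.nd (nat_lit 78) (PT.lf (nat_lit 3344) (nat_lit 6) (nat_lit 44) (nat_lit 5) (nat_lit 124) (nat_lit 131) (nat_lit 135)) (PT.lf (nat_lit 3800) (nat_lit 6) (nat_lit 50) (nat_lit 5) (nat_lit 125) (nat_lit 131) (nat_lit 134)))) (PT.nd (nat_lit 78) (PT.lf (nat_lit 4180) (nat_lit 6) (nat_lit 55) (nat_lit 5) (nat_lit 126) (nat_lit 131) (nat_lit 133)) (PT.nd (nat_lit 78) (PT.lf (nat_lit 4484) (nat_lit 6) (nat_lit 59) (nat_lit 5) (nat_lit 127) (nat_lit 131) (nat_lit 132)) (PT.lf (nat_lit 4712) (nat_lit 3) (nat_lit 62) (nat_lit 4) (nat_lit 128) (nat_lit 131) (nat_lit 131))))))) (PT.nd (nat_lit 40092) (PT.nd (nat_lit 390) (PT.nd (nat_lit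 156) (PT.nd (nat_lit 78) (PT.lf (nat_lit 4788) (nat_lit 6) (nat_lit 63) (nat_lit 4) (nat_lit 129) (nat_lit 131) (nat_lit 130)) (PT.lf (nat_lit 4788) (nat_lit 6) (nat_lit 63) (nat_lit 2) (nat_lit 130) (nat_lit 131) (nat_lit 129))) (PT.nd (nat_lit 78) (PT.lf (nat_lit 4712) (nat_lit 3) (nat_lit 62) (nat_lit 0) (nat_lit 131) (nat_lit 131) (nat_lit 128)) (PT.nd (nat_lit 78) (PT.lf (nat_lit 4484) (nat_lit 6) (nat_lit 59) (nat_lit 0) (nat_lit 132) (nat_lit 131) (nat_lit 127)) (PT.lf (nat_lit 4180) (nat_lit 6) (nat_lit 55) (nat_lit 0) (nat_lit 133) (nat_lit 131) (nat_lit 126))))) (PT.nd (nat_lit 156) (PT.nd (nat_lit 78) (PT.lf (nat_lit 3800) (nat_lit 6) (nat_lit 50) (nat_lit 0) (nat_lit 134) (nat_lit 131) (nat_lit 125)) (PT.lf (nat_lit 3344) (nat_lit 6) (nat_lit 44) (nat_lit 0) (nat_lit 135) (nat_lit 131) (nat_lit 124))) (PT.nd (nat_lit 78) (PT.lf (nat_lit 2812) (nat_lit 6) (nat_lit 37) (nat_lit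 0) (nat_lit 136) (nat_lit 131) (nat_lit 123)) (PT.nd (nat_lit 39390) (PT.lf (nat_lit 2508) (nat_lit 6) (nat_lit 33) (nat_lit 0) (nat_lit 137) (nat_lit 131) (nat_lit 122)) (PT.lf (nat_lit 2280) (nat_lit 6) (nat_lit 30) (nat_lit 5) (nat_lit 121) (nat_lit 132) (nat_lit 137)))))) (PT.nd (nat_lit 390) (PT.nd (nat_lit 156) (PT.nd (nat_lit 78) (PT.lf (nat_lit 2584) (nat_lit 6) (nat_lit 34) (nat_lit 5) (nat_lit 122) (nat_lit 132) (nat_lit 136)) (PT.lf (nat_lit 2888) (nat_lit 6) (nat_lit 38) (nat_lit 5) (nat_lit 123) (nat_lit 132) (nat_lit 135))) (PT.nd (nat_lit 78) (PT.lf (nat_lit 3420) (nat_lit 6) (nat_lit 45) (nat_lit 5) (nat_lit 124) (nat_lit 132) (nat_lit 134)) (PT.nd (nat_lit 78) (PT.lf (nat_lit 3876) (nat_lit 6) (nat_lit 51) (nat_lit 5) (nat_lit 125) (nat_lit 132) (nat_lit 133)) (PT.lf (nat_lit 4256) (nat_lit 3) (nat_lit 56) (nat_lit 4) (nat_lit 126) (nat_lit 132) (nat_lit 132))))) (PT.nd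 (nat_lit 234) (PT.nd (nat_lit 78) (PT.lf (nat_lit 4484) (nat_lit 6) (nat_lit 59) (nat_lit 4) (nat_lit 127) (nat_lit 132) (nat_lit 131)) (PT.nd (nat_lit 78) (PT.lf (nat_lit 4636) (nat_lit 6) (nat_lit 61) (nat_lit 4) (nat_lit 128) (nat_lit 132) (nat_lit 130)) (PT.lf (nat_lit 4560) (nat_lit 3) (nat_lit 60) (nat_lit 2) (nat_lit 129) (nat_lit 132) (nat_lit 129)))) (PT.nd (nat_lit 78) (PT.lf (nat_lit 4636) (nat_lit 6) (nat_lit 61) (nat_lit 2) (nat_lit 130) (nat_lit 132) (nat_lit 128)) (PT.nd (nat_lit 78) (PT.lf (nat_lit 4484) (nat_lit 6) (nat_lit 59) (nat_lit 2) (nat_lit 131) (nat_lit 132) (nat_lit 127)) (PT.lf (nat_lit 4256) (nat_lit 3) (nat_lit 56) (nat_lit 0) (nat_lit 132) (nat_lit 132) (nat_lit 126))))))))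
noncomputable def pc4 : PT := (PT.nd (nat_lit 40794) (PT.nd (nat_lit 40014) (PT.nd (nat_lit 39624) (PT.nd (nat_lit 156) (PT.nd (nat_lit 78) (PT.lf (nat_lit 3876) (nat_lit 6) (nat_lit 51) (nat_lit 0) (nat_lit 133) (nat_lit 132) (nat_lit 125)) (PT.lf (nat_lit 3420) (nat_lit 6) (nat_lit 45) (nat_lit 0) (nat_lit 134) (nat_lit 132) (nat_lit 124))) (PT.nd (nat_lit 78) (PT.lf (nat_lit 2888) (nat_lit 6) (nat_lit 38) (nat_lit 0) (nat_lit 135) (nat_lit 132) (nat_lit 123)) (PT.nd (nat_lit 78) (PT.lf (nat_lit 2584) (nat_lit 6) (nat_lit 34) (nat_lit 0) (nat_lit 136) (nat_lit 132) (nat_lit 122)) (PT.lf (nat_lit 2280) (nat_lit 6) (nat_lit 30) (nat_lit 0) (nat_lit 137) (nat_lit 132) (nat_lit 121))))) (PT.nd (nat_lit 156) (PT.nd (nat_lit 78) (PT.lf (nat_lit 2052) (nat_lit 6) (nat_lit 27) (nat_lit 5) (nat_lit 120) (nat_lit 133) (nat_lit 137)) (PT.lf (nat_lit 2356) (nat_lit 6) (nat_lit 31) (nat_lit 5)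 (nat_lit 121) (nat_lit 133) (nat_lit 136))) (PT.nd (nat_lit 78) (PT.lf (nat_lit 2660) (nat_lit 6) (nat_lit 35) (nat_lit 5) (nat_lit 122) (nat_lit 133) (nat_lit 135)) (PT.nd (nat_lit 78) (PT.lf (nat_lit 2964) (nat_lit 6) (nat_lit 39) (nat_lit 5) (nat_lit 123) (nat_lit 133) (nat_lit 134)) (PT.lf (nat_lit 3496) (nat_lit 3) (nat_lit 46) (nat_lit 4) (nat_lit 124) (nat_lit 133) (nat_lit 133)))))) (PT.nd (nat_lit 390) (PT.nd (nat_lit 156) (PT.nd (nat_lit 78) (PT.lf (nat_lit 3876) (nat_lit 6) (nat_lit 51) (nat_lit 4) (nat_lit 125) (nat_lit 133) (nat_lit 132)) (PT.lf (nat_lit 4180) (nat_lit 6) (nat_lit 55) (nat_lit 4) (nat_lit 126) (nat_lit 133) (nat_lit 131))) (PT.nd (nat_lit 78) (PT.lf (nat_lit 4408) (nat_lit 6) (nat_lit 58) (nat_lit 4) (nat_lit 127) (nat_lit 133) (nat_lit 130)) (PT.nd (nat_lit 78) (PT.lf (nat_lit 4332) (nat_lit 6) (nat_lit 57) (nat_lit 4) (nat_lit 128) (nat_lit 133) (nat_lit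 129)) (PT.lf (nat_lit 4332) (nat_lit 6) (nat_lit 57) (nat_lit 2) (nat_lit 129) (nat_lit 133) (nat_lit 128))))) (PT.nd (nat_lit 156) (PT.nd (nat_lit 78) (PT.lf (nat_lit 4408) (nat_lit 6) (nat_lit 58) (nat_lit 2) (nat_lit 130) (nat_lit 133) (nat_lit 127)) (PT.lf (nat_lit 4180) (nat_lit 6) (nat_lit 55) (nat_lit 2) (nat_lit 131) (nat_lit 133) (nat_lit 126))) (PT.nd (nat_lit 78) (PT.lf (nat_lit 3876) (nat_lit 6) (nat_lit 51) (nat_lit 2) (nat_lit 132) (nat_lit 133) (nat_lit 125)) (PT.nd (nat_lit 78) (PT.lf (nat_lit 3496) (nat_lit 3) (nat_lit 46) (nat_lit 0) (nat_lit 133) (nat_lit 133) (nat_lit 124)) (PT.lf (nat_lit 2964) (nat_lit 6) (nat_lit 39) (nat_lit 0) (nat_lit 134) (nat_lit 133) (nat_lit 123))))))) (PT.nd (nat_lit 39858) (PT.nd (nat_lit 39468) (PT.nd (nat_lit 156) (PT.nd (nat_lit 78) (PT.lf (nat_lit 2660) (nat_lit 6) (nat_lit 35) (nat_lit 0) (nat_lit 135) (nat_lit 133) (nat_lit 122))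 (PT.lf (nat_lit 2356) (nat_lit 6) (nat_lit 31) (nat_lit 0) (nat_lit 136) (nat_lit 133) (nat_lit 121))) (PT.nd (nat_lit 39156) (PT.lf (nat_lit 2052) (nat_lit 6) (nat_lit 27) (nat_lit 0) (nat_lit 137) (nat_lit 133) (nat_lit 120)) (PT.nd (nat_lit 78) (PT.lf (nat_lit 1672) (nat_lit 6) (nat_lit 22) (nat_lit 5) (nat_lit 118) (nat_lit 134) (nat_lit 138)) (PT.lf (nat_lit 1900) (nat_lit 6) (nat_lit 25) (nat_lit 5) (nat_lit 119) (nat_lit 134) (nat_lit 137))))) (PT.nd (nat_lit 156) (PT.nd (nat_lit 78) (PT.lf (nat_lit 2128) (nat_lit 6) (nat_lit 28) (nat_lit 5) (nat_lit 120) (nat_lit 134) (nat_lit 136)) (PT.lf (nat_lit 2432) (nat_lit 6) (nat_lit 32) (nat_lit 5) (nat_lit 121) (nat_lit 134) (nat_lit 135))) (PT.nd (nat_lit 78) (PT.lf (nat_lit 2736) (nat_lit 3) (nat_lit 36) (nat_lit 4) (nat_lit 122) (nat_lit 134) (nat_lit 134)) (PT.nd (nat_lit 78) (PT.lf (nat_lit 2964) (nat_lit 6) (nat_lit 39) (nat_lit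 4) (nat_lit 123) (nat_lit 134) (nat_lit 133)) (PT.lf (nat_lit 3420) (nat_lit 6) (nat_lit 45) (nat_lit 4) (nat_lit 124) (nat_lit 134) (nat_lit 132)))))) (PT.nd (nat_lit 390) (PT.nd (nat_lit 156) (PT.nd (nat_lit 78) (PT.lf (nat_lit 3800) (nat_lit 6) (nat_lit 50) (nat_lit 4) (nat_lit 125) (nat_lit 134) (nat_lit 131)) (PT.lf (nat_lit 4104) (nat_lit 6) (nat_lit 54) (nat_lit 4) (nat_lit 126) (nat_lit 134) (nat_lit 130))) (PT.nd (nat_lit 78) (PT.lf (nat_lit 4028) (nat_lit 6) (nat_lit 53) (nat_lit 4) (nat_lit 127) (nat_lit 134) (nat_lit 129)) (PT.nd (nat_lit 78) (PT.lf (nat_lit 3952) (nat_lit 3) (nat_lit 52) (nat_lit 2) (nat_lit 128) (nat_lit 134) (nat_lit 128)) (PT.lf (nat_lit 4028) (nat_lit 6) (nat_lit 53) (nat_lit 2) (nat_lit 129) (nat_lit 134) (nat_lit 127))))) (PT.nd (nat_lit 234) (PT.nd (nat_lit 78) (PT.lf (nat_lit 4104) (nat_lit 6) (nat_lit 54) (nat_lit 2) (nat_lit 130) (nat_lit 134)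 (nat_lit 126)) (PT.nd (nat_lit 78) (PT.lf (nat_lit 3800) (nat_lit 6) (nat_lit 50) (nat_lit 2) (nat_lit 131) (nat_lit 134) (nat_lit 125)) (PT.lf (nat_lit 3420) (nat_lit 6) (nat_lit 45) (nat_lit 2) (nat_lit 132) (nat_lit 134) (nat_lit 124)))) (PT.nd (nat_lit 78) (PT.lf (nat_lit 2964) (nat_lit 6) (nat_lit 39) (nat_lit 2) (nat_lit 133) (nat_lit 134) (nat_lit 123)) (PT.nd (nat_lit 78) (PT.lf (nat_lit 2736) (nat_lit 3) (nat_lit 36) (nat_lit 0) (nat_lit 134) (nat_lit 134) (nat_lit 122)) (PT.lf (nat_lit 2432) (nat_lit 6) (nat_lit 32) (nat_lit 0) (nat_lit 135) (nat_lit 134) (nat_lit 121))))))))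
noncomputable def pc5 : PT := (PT.nd (nat_lit 40560) (PT.nd (nat_lit 39702) (PT.nd (nat_lit 39312) (PT.nd (nat_lit 156) (PT.nd (nat_lit 78) (PT.lf (nat_lit 2128) (nat_lit 6) (nat_lit 28) (nat_lit 0) (nat_lit 136) (nat_lit 134) (nat_lit 120)) (PT.lf (nat_lit 1900) (nat_lit 6) (nat_lit 25) (nat_lit 0) (nat_lit 137) (nat_lit 134) (nat_lit 119))) (PT.nd (nat_lit 39000) (PT.lf (nat_lit 1672) (nat_lit 6) (nat_lit 22) (nat_lit 0) (nat_lit 138) (nat_lit 134) (nat_lit 118)) (PT.nd (nat_lit 78) (PT.lf (nat_lit 1520) (nat_lit 6) (nat_lit 20) (nat_lit 5) (nat_lit 117) (nat_lit 135) (nat_lit 138)) (PT.lf (nat_lit 1748) (nat_lit 6) (nat_lit 23) (nat_lit 5) (nat_lit 118) (nat_lit 135) (nat_lit 137))))) (PT.nd (nat_lit 156) (PT.nd (nat_lit 78) (PT.lf (nat_lit 1976) (nat_lit 6) (nat_lit 26) (nat_lit 5) (nat_lit 119) (nat_lit 135) (nat_lit 136)) (PT.lf (nat_lit 2204) (nat_lit 3) (nat_lit 29) (nat_lit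 4) (nat_lit 120) (nat_lit 135) (nat_lit 135))) (PT.nd (nat_lit 78) (PT.lf (nat_lit 2432) (nat_lit 6) (nat_lit 32) (nat_lit 4) (nat_lit 121) (nat_lit 135) (nat_lit 134)) (PT.nd (nat_lit 78) (PT.lf (nat_lit 2660) (nat_lit 6) (nat_lit 35) (nat_lit 4) (nat_lit 122) (nat_lit 135) (nat_lit 133)) (PT.lf (nat_lit 2888) (nat_lit 6) (nat_lit 38) (nat_lit 4) (nat_lit 123) (nat_lit 135) (nat_lit 132)))))) (PT.nd (nat_lit 390) (PT.nd (nat_lit 156) (PT.nd (nat_lit 78) (PT.lf (nat_lit 3344) (nat_lit 6) (nat_lit 44) (nat_lit 4) (nat_lit 124) (nat_lit 135) (nat_lit 131)) (PT.lf (nat_lit 3724) (nat_lit 6) (nat_lit 49) (nat_lit 4) (nat_lit 125) (nat_lit 135) (nat_lit 130))) (PT.nd (nat_lit 78) (PT.lf (nat_lit 3648) (nat_lit 6) (nat_lit 48) (nat_lit 4) (nat_lit 126) (nat_lit 135) (nat_lit 129)) (PT.nd (nat_lit 78) (PT.lf (nat_lit 3572) (nat_lit 6) (nat_lit 47) (nat_lit 4) (nat_lit 127) (nat_lit 135) (nat_lit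 128)) (PT.lf (nat_lit 3572) (nat_lit 6) (nat_lit 47) (nat_lit 2) (nat_lit 128) (nat_lit 135) (nat_lit 127))))) (PT.nd (nat_lit 234) (PT.nd (nat_lit 78) (PT.lf (nat_lit 3648) (nat_lit 6) (nat_lit 48) (nat_lit 2) (nat_lit 129) (nat_lit 135) (nat_lit 126)) (PT.nd (nat_lit 78) (PT.lf (nat_lit 3724) (nat_lit 6) (nat_lit 49) (nat_lit 2) (nat_lit 130) (nat_lit 135) (nat_lit 125)) (PT.lf (nat_lit 3344) (nat_lit 6) (nat_lit 44) (nat_lit 2) (nat_lit 131) (nat_lit 135) (nat_lit 124)))) (PT.nd (nat_lit 78) (PT.lf (nat_lit 2888) (nat_lit 6) (nat_lit 38) (nat_lit 2) (nat_lit 132) (nat_lit 135) (nat_lit 123)) (PT.nd (nat_lit 78) (PT.lf (nat_lit 2660) (nat_lit 6) (nat_lit 35) (nat_lit 2) (nat_lit 133) (nat_lit 135) (nat_lit 122)) (PT.lf (nat_lit 2432) (nat_lit 6) (nat_lit 32) (nat_lit 2) (nat_lit 134) (nat_lit 135) (nat_lit 121))))))) (PT.nd (nat_lit 39546) (PT.nd (nat_lit 39156) (PT.nd (nat_lit 156)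 (PT.nd (nat_lit 78) (PT.lf (nat_lit 2204) (nat_lit 3) (nat_lit 29) (nat_lit 0) (nat_lit 135) (nat_lit 135) (nat_lit 120)) (PT.lf (nat_lit 1976) (nat_lit 6) (nat_lit 26) (nat_lit 0) (nat_lit 136) (nat_lit 135) (nat_lit 119))) (PT.nd (nat_lit 78) (PT.lf (nat_lit 1748) (nat_lit 6) (nat_lit 23) (nat_lit 0) (nat_lit 137) (nat_lit 135) (nat_lit 118)) (PT.nd (nat_lit 38844) (PT.lf (nat_lit 1520) (nat_lit 6) (nat_lit 20) (nat_lit 0) (nat_lit 138) (nat_lit 135) (nat_lit 117)) (PT.lf (nat_lit 1216) (nat_lit 6) (nat_lit 16) (nat_lit 5) (nat_lit 115) (nat_lit 136) (nat_lit 139))))) (PT.nd (nat_lit 156) (PT.nd (nat_lit 78) (PT.lf (nat_lit 1368) (nat_lit 6) (nat_lit 18) (nat_lit 5) (nat_lit 116) (nat_lit 136) (nat_lit 138)) (PT.lf (nat_lit 1596) (nat_lit 6) (nat_lit 21) (nat_lit 5) (nat_lit 117) (nat_lit 136) (nat_lit 137))) (PT.nd (nat_lit 78) (PT.lf (nat_lit 1824) (nat_lit 3) (nat_lit 24) (nat_lit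 4) (nat_lit 118) (nat_lit 136) (nat_lit 136)) (PT.nd (nat_lit 78) (PT.lf (nat_lit 1976) (nat_lit 6) (nat_lit 26) (nat_lit 4) (nat_lit 119) (nat_lit 136) (nat_lit 135)) (PT.lf (nat_lit 2128) (nat_lit 6) (nat_lit 28) (nat_lit 4) (nat_lit 120) (nat_lit 136) (nat_lit 134)))))) (PT.nd (nat_lit 390) (PT.nd (nat_lit 156) (PT.nd (nat_lit 78) (PT.lf (nat_lit 2356) (nat_lit 6) (nat_lit 31) (nat_lit 4) (nat_lit 121) (nat_lit 136) (nat_lit 133)) (PT.lf (nat_lit 2584) (nat_lit 6) (nat_lit 34) (nat_lit 4) (nat_lit 122) (nat_lit 136) (nat_lit 132))) (PT.nd (nat_lit 78) (PT.lf (nat_lit 2812) (nat_lit 6) (nat_lit 37) (nat_lit 4) (nat_lit 123) (nat_lit 136) (nat_lit 131)) (PT.nd (nat_lit 78) (PT.lf (nat_lit 3268) (nat_lit 6) (nat_lit 43) (nat_lit 4) (nat_lit 124) (nat_lit 136) (nat_lit 130)) (PT.lf (nat_lit 3192) (nat_lit 6) (nat_lit 42) (nat_lit 4) (nat_lit 125) (nat_lit 136) (nat_lit 129))))) (PT.nd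 (nat_lit 234) (PT.nd (nat_lit 78) (PT.lf (nat_lit 3116) (nat_lit 6) (nat_lit 41) (nat_lit 4) (nat_lit 126) (nat_lit 136) (nat_lit 128)) (PT.nd (nat_lit 78) (PT.lf (nat_lit 3040) (nat_lit 3) (nat_lit 40) (nat_lit 2) (nat_lit 127) (nat_lit 136) (nat_lit 127)) (PT.lf (nat_lit 3116) (nat_lit 6) (nat_lit 41) (nat_lit 2) (nat_lit 128) (nat_lit 136) (nat_lit 126)))) (PT.nd (nat_lit 78) (PT.lf (nat_lit 3192) (nat_lit 6) (nat_lit 42) (nat_lit 2) (nat_lit 129) (nat_lit 136) (nat_lit 125)) (PT.nd (nat_lit 78) (PT.lf (nat_lit 3268) (nat_lit 6) (nat_lit 43) (nat_lit 2) (nat_lit 130) (nat_lit 136) (nat_lit 124)) (PT.lf (nat_lit 2812) (nat_lit 6) (nat_lit 37) (nat_lit 2) (nat_lit 131) (nat_lit 136) (nat_lit 123))))))))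
noncomputable def pc6 : PT := (PT.nd (nat_lit 40872) (PT.nd (nat_lit 39390) (PT.nd (nat_lit 390) (PT.nd (nat_lit 156) (PT.nd (nat_lit 78) (PT.lf (nat_lit 2584) (nat_lit 6) (nat_lit 34) (nat_lit 2) (nat_lit 132) (nat_lit 136) (nat_lit 122)) (PT.lf (nat_lit 2356) (nat_lit 6) (nat_lit 31) (nat_lit 2) (nat_lit 133) (nat_lit 136) (nat_lit 121))) (PT.nd (nat_lit 78) (PT.lf (nat_lit 2128) (nat_lit 6) (nat_lit 28) (nat_lit 2) (nat_lit 134) (nat_lit 136) (nat_lit 120)) (PT.nd (nat_lit 78) (PT.lf (nat_lit 1976) (nat_lit 6) (nat_lit 26) (nat_lit 2) (nat_lit 135) (nat_lit 136) (nat_lit 119)) (PT.lf (nat_lit 1824) (nat_lit 3) (nat_lit 24) (nat_lit 0) (nat_lit 136) (nat_lit 136) (nat_lit 118))))) (PT.nd (nat_lit 156) (PT.nd (nat_lit 78) (PT.lf (nat_lit 1596) (nat_lit 6) (nat_lit 21) (nat_lit 0) (nat_lit 137) (nat_lit 136) (nat_lit 117)) (PT.lf (nat_lit 1368) (nat_lit 6) (nat_lit 18) (nat_lit 0)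 (nat_lit 138) (nat_lit 136) (nat_lit 116))) (PT.nd (nat_lit 38688) (PT.lf (nat_lit 1216) (nat_lit 6) (nat_lit 16) (nat_lit 0) (nat_lit 139) (nat_lit 136) (nat_lit 115)) (PT.nd (nat_lit 78) (PT.lf (nat_lit 1064) (nat_lit 6) (nat_lit 14) (nat_lit 5) (nat_lit 114) (nat_lit 137) (nat_lit 139)) (PT.lf (nat_lit 1292) (nat_lit 6) (nat_lit 17) (nat_lit 5) (nat_lit 115) (nat_lit 137) (nat_lit 138)))))) (PT.nd (nat_lit 390) (PT.nd (nat_lit 156) (PT.nd (nat_lit 78) (PT.lf (nat_lit 1444) (nat_lit 3) (nat_lit 19) (nat_lit 4) (nat_lit 116) (nat_lit 137) (nat_lit 137)) (PT.lf (nat_lit 1596) (nat_lit 6) (nat_lit 21) (nat_lit 4) (nat_lit 117) (nat_lit 137) (nat_lit 136))) (PT.nd (nat_lit 78) (PT.lf (nat_lit 1748) (nat_lit 6) (nat_lit 23) (nat_lit 4) (nat_lit 118) (nat_lit 137) (nat_lit 135)) (PT.nd (nat_lit 78) (PT.lf (nat_lit 1900) (nat_lit 6) (nat_lit 25) (nat_lit 4) (nat_lit 119) (nat_lit 137) (nat_lit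 134)) (PT.lf (nat_lit 2052) (nat_lit 6) (nat_lit 27) (nat_lit 4) (nat_lit 120) (nat_lit 137) (nat_lit 133))))) (PT.nd (nat_lit 858) (PT.nd (nat_lit 78) (PT.lf (nat_lit 2280) (nat_lit 6) (nat_lit 30) (nat_lit 4) (nat_lit 121) (nat_lit 137) (nat_lit 132)) (PT.nd (nat_lit 702) (PT.lf (nat_lit 2508) (nat_lit 6) (nat_lit 33) (nat_lit 4) (nat_lit 122) (nat_lit 137) (nat_lit 131)) (PT.lf (nat_lit 2508) (nat_lit 6) (nat_lit 33) (nat_lit 2) (nat_lit 131) (nat_lit 137) (nat_lit 122)))) (PT.nd (nat_lit 78) (PT.lf (nat_lit 2280) (nat_lit 6) (nat_lit 30) (nat_lit 2) (nat_lit 132) (nat_lit 137) (nat_lit 121)) (PT.nd (nat_lit 78) (PT.lf (nat_lit 2052) (nat_lit 6) (nat_lit 27) (nat_lit 2) (nat_lit 133) (nat_lit 137) (nat_lit 120)) (PT.lf (nat_lit 1900) (nat_lit 6) (nat_lit 25) (nat_lit 2) (nat_lit 134) (nat_lit 137) (nat_lit 119))))))) (PT.nd (nat_lit 39234) (PT.nd (nat_lit 38844) (PT.nd (nat_lit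 156) (PT.nd (nat_lit 78) (PT.lf (nat_lit 1748) (nat_lit 6) (nat_lit 23) (nat_lit 2) (nat_lit 135) (nat_lit 137) (nat_lit 118)) (PT.lf (nat_lit 1596) (nat_lit 6) (nat_lit 21) (nat_lit 2) (nat_lit 136) (nat_lit 137) (nat_lit 117))) (PT.nd (nat_lit 78) (PT.lf (nat_lit 1444) (nat_lit 3) (nat_lit 19) (nat_lit 0) (nat_lit 137) (nat_lit 137) (nat_lit 116)) (PT.nd (nat_lit 78) (PT.lf (nat_lit 1292) (nat_lit 6) (nat_lit 17) (nat_lit 0) (nat_lit 138) (nat_lit 137) (nat_lit 115)) (PT.lf (nat_lit 1064) (nat_lit 6) (nat_lit 14) (nat_lit 0) (nat_lit 139) (nat_lit 137) (nat_lit 114))))) (PT.nd (nat_lit 156) (PT.nd (nat_lit 78) (PT.lf (nat_lit 836) (nat_lit 6) (nat_lit 11) (nat_lit 5) (nat_lit 112) (nat_lit 138) (nat_lit 140)) (PT.lf (nat_lit 988) (nat_lit 6) (nat_lit 13) (nat_lit 5) (nat_lit 113) (nat_lit 138) (nat_lit 139))) (PT.nd (nat_lit 78) (PT.lf (nat_lit 1140) (nat_lit 3) (nat_lit 15) (nat_lit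 4) (nat_lit 114) (nat_lit 138) (nat_lit 138)) (PT.nd (nat_lit 78) (PT.lf (nat_lit 1292) (nat_lit 6) (nat_lit 17) (nat_lit 4) (nat_lit 115) (nat_lit 138) (nat_lit 137)) (PT.lf (nat_lit 1368) (nat_lit 6) (nat_lit 18) (nat_lit 4) (nat_lit 116) (nat_lit 138) (nat_lit 136)))))) (PT.nd (nat_lit 1560) (PT.nd (nat_lit 1326) (PT.nd (nat_lit 78) (PT.lf (nat_lit 1520) (nat_lit 6) (nat_lit 20) (nat_lit 4) (nat_lit 117) (nat_lit 138) (nat_lit 135)) (PT.lf (nat_lit 1672) (nat_lit 6) (nat_lit 22) (nat_lit 4) (nat_lit 118) (nat_lit 138) (nat_lit 134))) (PT.nd (nat_lit 78) (PT.lf (nat_lit 1672) (nat_lit 6) (nat_lit 22) (nat_lit 2) (nat_lit 134) (nat_lit 138) (nat_lit 118)) (PT.nd (nat_lit 78) (PT.lf (nat_lit 1520) (nat_lit 6) (nat_lit 20) (nat_lit 2) (nat_lit 135) (nat_lit 138) (nat_lit 117)) (PT.lf (nat_lit 1368) (nat_lit 6) (nat_lit 18) (nat_lit 2) (nat_lit 136) (nat_lit 138) (nat_lit 116))))) (PT.nd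 (nat_lit 234) (PT.nd (nat_lit 78) (PT.lf (nat_lit 1292) (nat_lit 6) (nat_lit 17) (nat_lit 2) (nat_lit 137) (nat_lit 138) (nat_lit 115)) (PT.nd (nat_lit 78) (PT.lf (nat_lit 1140) (nat_lit 3) (nat_lit 15) (nat_lit 0) (nat_lit 138) (nat_lit 138) (nat_lit 114)) (PT.lf (nat_lit 988) (nat_lit 6) (nat_lit 13) (nat_lit 0) (nat_lit 139) (nat_lit 138) (nat_lit 113)))) (PT.nd (nat_lit 38298) (PT.lf (nat_lit 836) (nat_lit 6) (nat_lit 11) (nat_lit 0) (nat_lit 140) (nat_lit 138) (nat_lit 112)) (PT.nd (nat_lit 78) (PT.lf (nat_lit 608) (nat_lit 6) (nat_lit 8) (nat_lit 5) (nat_lit 110) (nat_lit 139) (nat_lit 141)) (PT.lf (nat_lit 760) (nat_lit 6) (nat_lit 10) (nat_lit 5) (nat_lit 111) (nat_lit 139) (nat_lit 140))))))))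
noncomputable def pc7 : PT := (PT.nd (nat_lit 80886) (PT.nd (nat_lit 40326) (PT.nd (nat_lit 1950) (PT.nd (nat_lit 156) (PT.nd (nat_lit 78) (PT.lf (nat_lit 912) (nat_lit 3) (nat_lit 12) (nat_lit 4) (nat_lit 112) (nat_lit 139) (nat_lit 139)) (PT.lf (nat_lit 988) (nat_lit 6) (nat_lit 13) (nat_lit 4) (nat_lit 113) (nat_lit 139) (nat_lit 138))) (PT.nd (nat_lit 78) (PT.lf (nat_lit 1064) (nat_lit 6) (nat_lit 14) (nat_lit 4) (nat_lit 114) (nat_lit 139) (nat_lit 137)) (PT.nd (nat_lit 1638) (PT.lf (nat_lit 1216) (nat_lit 6) (nat_lit 16) (nat_lit 4) (nat_lit 115) (nat_lit 139) (nat_lit 136)) (PT.lf (nat_lit 1216) (nat_lit 6) (nat_lit 16) (nat_lit 2) (nat_lit 136) (nat_lit 139) (nat_lit 115))))) (PT.nd (nat_lit 156) (PT.nd (nat_lit 78) (PT.lf (nat_lit 1064) (nat_lit 6) (nat_lit 14) (nat_lit 2) (nat_lit 137) (nat_lit 139) (nat_lit 114)) (PT.lf (nat_lit 988) (nat_lit 6) (nat_lit 13) (nat_lit 2)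 (nat_lit 138) (nat_lit 139) (nat_lit 113))) (PT.nd (nat_lit 78) (PT.lf (nat_lit 912) (nat_lit 3) (nat_lit 12) (nat_lit 0) (nat_lit 139) (nat_lit 139) (nat_lit 112)) (PT.nd (nat_lit 78) (PT.lf (nat_lit 760) (nat_lit 6) (nat_lit 10) (nat_lit 0) (nat_lit 140) (nat_lit 139) (nat_lit 111)) (PT.lf (nat_lit 608) (nat_lit 6) (nat_lit 8) (nat_lit 0) (nat_lit 141) (nat_lit 139) (nat_lit 110)))))) (PT.nd (nat_lit 2340) (PT.nd (nat_lit 156) (PT.nd (nat_lit 78) (PT.lf (nat_lit 380) (nat_lit 6) (nat_lit 5) (nat_lit 5) (nat_lit 108) (nat_lit 140) (nat_lit 142)) (PT.lf (nat_lit 532) (nat_lit 6) (nat_lit 7) (nat_lit 5) (nat_lit 109) (nat_lit 140) (nat_lit 141))) (PT.nd (nat_lit 78) (PT.lf (nat_lit 684) (nat_lit 3) (nat_lit 9) (nat_lit 4) (nat_lit 110) (nat_lit 140) (nat_lit 140)) (PT.nd (nat_lit 78) (PT.lf (nat_lit 760) (nat_lit 6) (nat_lit 10) (nat_lit 4) (nat_lit 111) (nat_lit 140) (nat_lit 139))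 (PT.lf (nat_lit 836) (nat_lit 6) (nat_lit 11) (nat_lit 4) (nat_lit 112) (nat_lit 140) (nat_lit 138))))) (PT.nd (nat_lit 234) (PT.nd (nat_lit 78) (PT.lf (nat_lit 836) (nat_lit 6) (nat_lit 11) (nat_lit 2) (nat_lit 138) (nat_lit 140) (nat_lit 112)) (PT.nd (nat_lit 78) (PT.lf (nat_lit 760) (nat_lit 6) (nat_lit 10) (nat_lit 2) (nat_lit 139) (nat_lit 140) (nat_lit 111)) (PT.lf (nat_lit 684) (nat_lit 3) (nat_lit 9) (nat_lit 0) (nat_lit 140) (nat_lit 140) (nat_lit 110)))) (PT.nd (nat_lit 78) (PT.lf (nat_lit 532) (nat_lit 6) (nat_lit 7) (nat_lit 0) (nat_lit 141) (nat_lit 140) (nat_lit 109)) (PT.nd (nat_lit 37830) (PT.lf (nat_lit 380) (nat_lit 6) (nat_lit 5) (nat_lit 0) (nat_lit 142) (nat_lit 140) (nat_lit 108)) (PT.lf (nat_lit 152) (nat_lit 6) (nat_lit 2) (nat_lit 5) (nat_lit 106) (nat_lit 141) (nat_lit 143))))))) (PT.nd (nat_lit 40560) (PT.nd (nat_lit 2574) (PT.nd (nat_lit 156) (PT.nd (nat_lit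 78) (PT.lf (nat_lit 304) (nat_lit 6) (nat_lit 4) (nat_lit 5) (nat_lit 107) (nat_lit 141) (nat_lit 142)) (PT.lf (nat_lit 456) (nat_lit 3) (nat_lit 6) (nat_lit 4) (nat_lit 108) (nat_lit 141) (nat_lit 141))) (PT.nd (nat_lit 78) (PT.lf (nat_lit 532) (nat_lit 6) (nat_lit 7) (nat_lit 4) (nat_lit 109) (nat_lit 141) (nat_lit 140)) (PT.nd (nat_lit 2262) (PT.lf (nat_lit 608) (nat_lit 6) (nat_lit 8) (nat_lit 4) (nat_lit 110) (nat_lit 141) (nat_lit 139)) (PT.lf (nat_lit 608) (nat_lit 6) (nat_lit 8) (nat_lit 2) (nat_lit 139) (nat_lit 141) (nat_lit 110))))) (PT.nd (nat_lit 156) (PT.nd (nat_lit 78) (PT.lf (nat_lit 532) (nat_lit 6) (nat_lit 7) (nat_lit 2) (nat_lit 140) (nat_lit 141) (nat_lit 109)) (PT.lf (nat_lit 456) (nat_lit 3) (nat_lit 6) (nat_lit 0) (nat_lit 141) (nat_lit 141) (nat_lit 108))) (PT.nd (nat_lit 78) (PT.lf (nat_lit 304) (nat_lit 6) (nat_lit 4) (nat_lit 0) (nat_lit 142) (nat_lit 141)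 (nat_lit 107)) (PT.nd (nat_lit 37674) (PT.lf (nat_lit 152) (nat_lit 6) (nat_lit 2) (nat_lit 0) (nat_lit 143) (nat_lit 141) (nat_lit 106)) (PT.lf (nat_lit 76) (nat_lit 6) (nat_lit 1) (nat_lit 5) (nat_lit 105) (nat_lit 142) (nat_lit 143)))))) (PT.nd (nat_lit 2808) (PT.nd (nat_lit 156) (PT.nd (nat_lit 78) (PT.lf (nat_lit 228) (nat_lit 3) (nat_lit 3) (nat_lit 4) (nat_lit 106) (nat_lit 142) (nat_lit 142)) (PT.lf (nat_lit 304) (nat_lit 6) (nat_lit 4) (nat_lit 4) (nat_lit 107) (nat_lit 142) (nat_lit 141))) (PT.nd (nat_lit 2496) (PT.lf (nat_lit 380) (nat_lit 6) (nat_lit 5) (nat_lit 4) (nat_lit 108) (nat_lit 142) (nat_lit 140)) (PT.nd (nat_lit 78) (PT.lf (nat_lit 380) (nat_lit 6) (nat_lit 5) (nat_lit 2) (nat_lit 140) (nat_lit 142) (nat_lit 108)) (PT.lf (nat_lit 304) (nat_lit 6) (nat_lit 4) (nat_lit 2) (nat_lit 141) (nat_lit 142) (nat_lit 107))))) (PT.nd (nat_lit 37830) (PT.nd (nat_lit 78) (PT.lf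 (nat_lit 228) (nat_lit 3) (nat_lit 3) (nat_lit 0) (nat_lit 142) (nat_lit 142) (nat_lit 106)) (PT.nd (nat_lit 37674) (PT.lf (nat_lit 76) (nat_lit 6) (nat_lit 1) (nat_lit 0) (nat_lit 143) (nat_lit 142) (nat_lit 105)) (PT.lf (nat_lit 76) (nat_lit 6) (nat_lit 1) (nat_lit 4) (nat_lit 105) (nat_lit 143) (nat_lit 142)))) (PT.nd (nat_lit 2730) (PT.lf (nat_lit 152) (nat_lit 6) (nat_lit 2) (nat_lit 4) (nat_lit 106) (nat_lit 143) (nat_lit 141)) (PT.nd (nat_lit 78) (PT.lf (nat_lit 152) (nat_lit 6) (nat_lit 2) (nat_lit 2) (nat_lit 141) (nat_lit 143) (nat_lit 106)) (PT.lf (nat_lit 76) (nat_lit 6) (nat_lit 1) (nat_lit 2) (nat_lit 142) (nat_lit 143) (nat_lit 105))))))))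
noncomputable def xc0 : XT := (XT.nd (nat_lit 202644) (nat_lit 0) (nat_lit 0) (XT.nd (nat_lit 121836) (nat_lit 0) (nat_lit 0) (XT.nd (nat_lit 81198) (nat_lit 0) (nat_lit 0) (XT.nd (nat_lit 40638) (nat_lit 0) (nat_lit 0) (XT.nd (nat_lit 40482) (nat_lit 0) (nat_lit 0) (XT.lf (nat_lit 0) (nat_lit 115127731939) (nat_lit 152) (nat_lit 1926233412359) (nat_lit 0) (nat_lit 115127731939) (nat_lit 1) (nat_lit 5) (nat_lit 3) (nat_lit 4) (nat_lit 1) (nat_lit 4) (nat_lit 366) (nat_lit 207) (nat_lit 207)) (XT.nd (nat_lit 78) (nat_lit 0) (nat_lit 0) (XT.lf (nat_lit 0) (nat_lit 98387066888) (nat_lit 152) (nat_lit 1652095290657) (nat_lit 0) (nat_lit 98387066888) (nat_lit 1) (nat_lit 5) (nat_lit 3) (nat_lit 4) (nat_lit 1) (nat_lit 4) (nat_lit 364) (nat_lit 208) (nat_lit 208)) (XT.lf (nat_lit 0) (nat_lit 212885150661) (nat_lit 152) (nat_lit 3567775800239) (nat_lit 0) (nat_lit 212865448294) (nat_lit 1)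 (nat_lit 5) (nat_lit 3) (nat_lit 4) (nat_lit 1) (nat_lit 4) (nat_lit 365) (nat_lit 208) (nat_lit 207)))) (XT.nd (nat_lit 40404) (nat_lit 0) (nat_lit 0) (XT.nd (nat_lit 40326) (nat_lit 0) (nat_lit 0) (XT.lf (nat_lit 0) (nat_lit 230266015642) (nat_lit 152) (nat_lit 3852484406237) (nat_lit 0) (nat_lit 230228070342) (nat_lit 1) (nat_lit 5) (nat_lit 3) (nat_lit 4) (nat_lit 1) (nat_lit 4) (nat_lit 366) (nat_lit 208) (nat_lit 206)) (XT.lf (nat_lit 0) (nat_lit 84009332302) (nat_lit 152) (nat_lit 1417118885539) (nat_lit 0) (nat_lit 84009332302) (nat_lit 1) (nat_lit 5) (nat_lit 3) (nat_lit 4) (nat_lit 1) (nat_lit 4) (nat_lit 362) (nat_lit 209) (nat_lit 209))) (XT.nd (nat_lit 78) (nat_lit 0) (nat_lit 0) (XT.lf (nat_lit 0) (nat_lit 181858770850) (nat_lit 152) (nat_lit 3060166762979) (nat_lit 0) (nat_lit 181837492293) (nat_lit 1) (nat_lit 5) (nat_lit 3) (nat_lit 4) (nat_lit 1) (nat_lit 4) (nat_lit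 363) (nat_lit 209) (nat_lit 208)) (XT.lf (nat_lit 0) (nat_lit 196785529681) (nat_lit 152) (nat_lit 3304209569354) (nat_lit 0) (nat_lit 196744548757) (nat_lit 1) (nat_lit 5) (nat_lit 3) (nat_lit 4) (nat_lit 1) (nat_lit 4) (nat_lit 364) (nat_lit 209) (nat_lit 207))))) (XT.nd (nat_lit 40326) (nat_lit 0) (nat_lit 0) (XT.nd (nat_lit 78) (nat_lit 0) (nat_lit 0) (XT.lf (nat_lit 0) (nat_lit 212887395963) (nat_lit 152) (nat_lit 3567812369798) (nat_lit 0) (nat_lit 212828172106) (nat_lit 1) (nat_lit 5) (nat_lit 3) (nat_lit 4) (nat_lit 1) (nat_lit 4) (nat_lit 365) (nat_lit 209) (nat_lit 206)) (XT.nd (nat_lit 40170) (nat_lit 0) (nat_lit 0) (XT.lf (nat_lit 0) (nat_lit 230259788163) (nat_lit 152) (nat_lit 3852537254979) (nat_lit 0) (nat_lit 230183672702) (nat_lit 1) (nat_lit 5) (nat_lit 3) (nat_lit 4) (nat_lit 1) (nat_lit 4) (nat_lit 366) (nat_lit 209) (nat_lit 205)) (XT.lf (nat_lit 0) (nat_lit 71655404729)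 (nat_lit 152) (nat_lit 1215721568219) (nat_lit 0) (nat_lit 71655404729) (nat_lit 1) (nat_lit 5) (nat_lit 3) (nat_lit 4) (nat_lit 1) (nat_lit 4) (nat_lit 360) (nat_lit 210) (nat_lit 210)))) (XT.nd (nat_lit 156) (nat_lit 0) (nat_lit 0) (XT.nd (nat_lit 78) (nat_lit 0) (nat_lit 0) (XT.lf (nat_lit 0) (nat_lit 155206176339) (nat_lit 152) (nat_lit 2625083755184) (nat_lit 0) (nat_lit 155183195497) (nat_lit 1) (nat_lit 5) (nat_lit 3) (nat_lit 4) (nat_lit 1) (nat_lit 4) (nat_lit 361) (nat_lit 210) (nat_lit 209)) (XT.lf (nat_lit 0) (nat_lit 168030972181) (nat_lit 152) (nat_lit 2834258278162) (nat_lit 0) (nat_lit 167986712783) (nat_lit 1) (nat_lit 5) (nat_lit 3) (nat_lit 4) (nat_lit 1) (nat_lit 4) (nat_lit 362) (nat_lit 210) (nat_lit 208))) (XT.nd (nat_lit 78) (nat_lit 0) (nat_lit 0) (XT.lf (nat_lit 0) (nat_lit 181861195776) (nat_lit 152) (nat_lit 3060206258102) (nat_lit 0) (nat_lit 181797234011)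 (nat_lit 1) (nat_lit 5) (nat_lit 3) (nat_lit 4) (nat_lit 1) (nat_lit 4) (nat_lit 363) (nat_lit 210) (nat_lit 207)) (XT.lf (nat_lit 0) (nat_lit 196778804003) (nat_lit 152) (nat_lit 3304266645996) (nat_lit 0) (nat_lit 196696599305) (nat_lit 1) (nat_lit 5) (nat_lit 3) (nat_lit 4) (nat_lit 1) (nat_lit 4) (nat_lit 364) (nat_lit 210) (nat_lit 206)))))) (XT.nd (nat_lit 40482) (nat_lit 0) (nat_lit 0) (XT.nd (nat_lit 40170) (nat_lit 0) (nat_lit 0) (XT.nd (nat_lit 78) (nat_lit 0) (nat_lit 0) (XT.lf (nat_lit 0) (nat_lit 212872197504) (nat_lit 152) (nat_lit 3567885725623) (nat_lit 0) (nat_lit 212773101202) (nat_lit 1) (nat_lit 5) (nat_lit 3) (nat_lit 4) (nat_lit 1) (nat_lit 4) (nat_lit 365) (nat_lit 210) (nat_lit 205)) (XT.nd (nat_lit 40014) (nat_lit 0) (nat_lit 0) (XT.lf (nat_lit 0) (nat_lit 230236744537) (nat_lit 152) (nat_lit 3852625684123) (nat_lit 0) (nat_lit 230122007860) (nat_lit 1) (nat_lit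 5) (nat_lit 3) (nat_lit 4) (nat_lit 1) (nat_lit 4) (nat_lit 366) (nat_lit 210) (nat_lit 204)) (XT.lf (nat_lit 0) (nat_lit 61034378467) (nat_lit 152) (nat_lit 1043117472548) (nat_lit 0) (nat_lit 61034378467) (nat_lit 1) (nat_lit 5) (nat_lit 3) (nat_lit 4) (nat_lit 1) (nat_lit 4) (nat_lit 358) (nat_lit 211) (nat_lit 211)))) (XT.nd (nat_lit 156) (nat_lit 0) (nat_lit 0) (XT.nd (nat_lit 78) (nat_lit 0) (nat_lit 0) (XT.lf (nat_lit 0) (nat_lit 132299199784) (nat_lit 152) (nat_lit 2252188921962) (nat_lit 0) (nat_lit 132274380476) (nat_lit 1) (nat_lit 5) (nat_lit 3) (nat_lit 4) (nat_lit 1) (nat_lit 4) (nat_lit 359) (nat_lit 211) (nat_lit 210)) (XT.lf (nat_lit 0) (nat_lit 143324101641) (nat_lit 152) (nat_lit 2431465284088) (nat_lit 0) (nat_lit 143276301492) (nat_lit 1) (nat_lit 5) (nat_lit 3) (nat_lit 4) (nat_lit 1) (nat_lit 4) (nat_lit 360) (nat_lit 211) (nat_lit 209))) (XT.nd (nat_lit 78)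 (nat_lit 0) (nat_lit 0) (XT.lf (nat_lit 0) (nat_lit 155208795258) (nat_lit 152) (nat_lit 2625126409917) (nat_lit 0) (nat_lit 155139716552) (nat_lit 1) (nat_lit 5) (nat_lit 3) (nat_lit 4) (nat_lit 1) (nat_lit 4) (nat_lit 361) (nat_lit 211) (nat_lit 208)) (XT.lf (nat_lit 0) (nat_lit 168023708449) (nat_lit 152) (nat_lit 2834319920935) (nat_lit 0) (nat_lit 167934927376) (nat_lit 1) (nat_lit 5) (nat_lit 3) (nat_lit 4) (nat_lit 1) (nat_lit 4) (nat_lit 362) (nat_lit 211) (nat_lit 207))))) (XT.nd (nat_lit 234) (nat_lit 0) (nat_lit 0) (XT.nd (nat_lit 78) (nat_lit 0) (nat_lit 0) (XT.lf (nat_lit 0) (nat_lit 181844781441) (nat_lit 152) (nat_lit 3060285482394) (nat_lit 0) (nat_lit 181737757434) (nat_lit 1) (nat_lit 5) (nat_lit 3) (nat_lit 4) (nat_lit 1) (nat_lit 4) (nat_lit 363) (nat_lit 211) (nat_lit 206)) (XT.nd (nat_lit 78) (nat_lit 0) (nat_lit 0) (XT.lf (nat_lit 0) (nat_lit 196753916887) (nat_lit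 152) (nat_lit 3304362149471) (nat_lit 0) (nat_lit 196630001276) (nat_lit 1) (nat_lit 5) (nat_lit 3) (nat_lit 4) (nat_lit 1) (nat_lit 4) (nat_lit 364) (nat_lit 211) (nat_lit 205)) (XT.lf (nat_lit 0) (nat_lit 212839465220) (nat_lit 152) (nat_lit 3567996302417) (nat_lit 0) (nat_lit 212699909236) (nat_lit 1) (nat_lit 5) (nat_lit 3) (nat_lit 4) (nat_lit 1) (nat_lit 4) (nat_lit 365) (nat_lit 211) (nat_lit 204)))) (XT.nd (nat_lit 39936) (nat_lit 0) (nat_lit 0) (XT.nd (nat_lit 39858) (nat_lit 0) (nat_lit 0) (XT.lf (nat_lit 0) (nat_lit 230196748209) (nat_lit 152) (nat_lit 3852750217693) (nat_lit 0) (nat_lit 230042710396) (nat_lit 1) (nat_lit 5) (nat_lit 3) (nat_lit 4) (nat_lit 1) (nat_lit 4) (nat_lit 366) (nat_lit 211) (nat_lit 203)) (XT.lf (nat_lit 0) (nat_lit 51896673807) (nat_lit 152) (nat_lit 895203854982) (nat_lit 0) (nat_lit 51896673807) (nat_lit 1) (nat_lit 5) (nat_lit 3) (nat_lit 4)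 (nat_lit 1) (nat_lit 4) (nat_lit 356) (nat_lit 212) (nat_lit 212))) (XT.nd (nat_lit 78) (nat_lit 0) (nat_lit 0) (XT.lf (nat_lit 0) (nat_lit 112598953101) (nat_lit 152) (nat_lit 1932619922519) (nat_lit 0) (nat_lit 112572148248) (nat_lit 1) (nat_lit 5) (nat_lit 3) (nat_lit 4) (nat_lit 1) (nat_lit 4) (nat_lit 357) (nat_lit 212) (nat_lit 211)) (XT.lf (nat_lit 0) (nat_lit 122083112494) (nat_lit 152) (nat_lit 2086258864559) (nat_lit 0) (nat_lit 122031488332) (nat_lit 1) (nat_lit 5) (nat_lit 3) (nat_lit 4) (nat_lit 1) (nat_lit 4) (nat_lit 358) (nat_lit 212) (nat_lit 210))))))) (XT.nd (nat_lit 40716) (nat_lit 0) (nat_lit 0) (XT.nd (nat_lit 546) (nat_lit 0) (nat_lit 0) (XT.nd (nat_lit 234) (nat_lit 0) (nat_lit 0) (XT.nd (nat_lit 78) (nat_lit 0) (nat_lit 0) (XT.lf (nat_lit 0) (nat_lit 132302028218) (nat_lit 152) (nat_lit 2252234989074) (nat_lit 0) (nat_lit 132227423215) (nat_lit 1) (nat_lit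 5) (nat_lit 3) (nat_lit 4) (nat_lit 1) (nat_lit 4) (nat_lit 359) (nat_lit 212) (nat_lit 209)) (XT.nd (nat_lit 78) (nat_lit 0) (nat_lit 0) (XT.lf (nat_lit 0) (nat_lit 143316256811) (nat_lit 152) (nat_lit 2431531858283) (nat_lit 0) (nat_lit 143220373252) (nat_lit 1) (nat_lit 5) (nat_lit 3) (nat_lit 4) (nat_lit 1) (nat_lit 4) (nat_lit 360) (nat_lit 212) (nat_lit 208)) (XT.lf (nat_lit 0) (nat_lit 155191067776) (nat_lit 152) (nat_lit 2625211972152) (nat_lit 0) (nat_lit 155075481850) (nat_lit 1) (nat_lit 5) (nat_lit 3) (nat_lit 4) (nat_lit 1) (nat_lit 4) (nat_lit 361) (nat_lit 212) (nat_lit 207)))) (XT.nd (nat_lit 156) (nat_lit 0) (nat_lit 0) (XT.nd (nat_lit 78) (nat_lit 0) (nat_lit 0) (XT.lf (nat_lit 0) (nat_lit 167996830364) (nat_lit 152) (nat_lit 2834423064689) (nat_lit 0) (nat_lit 167863001505) (nat_lit 1) (nat_lit 5) (nat_lit 3) (nat_lit 4) (nat_lit 1) (nat_lit 4) (nat_lit 362) (nat_lit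 212) (nat_lit 206)) (XT.lf (nat_lit 0) (nat_lit 181809430574) (nat_lit 152) (nat_lit 3060404905331) (nat_lit 0) (nat_lit 181658710111) (nat_lit 1) (nat_lit 5) (nat_lit 3) (nat_lit 4) (nat_lit 1) (nat_lit 4) (nat_lit 363) (nat_lit 212) (nat_lit 205))) (XT.nd (nat_lit 78) (nat_lit 0) (nat_lit 0) (XT.lf (nat_lit 0) (nat_lit 196710720853) (nat_lit 152) (nat_lit 3304496645727) (nat_lit 0) (nat_lit 196544360015) (nat_lit 1) (nat_lit 5) (nat_lit 3) (nat_lit 4) (nat_lit 1) (nat_lit 4) (nat_lit 364) (nat_lit 212) (nat_lit 204)) (XT.lf (nat_lit 0) (nat_lit 212789005143) (nat_lit 152) (nat_lit 3568144755449) (nat_lit 0) (nat_lit 212608162477) (nat_lit 1) (nat_lit 5) (nat_lit 3) (nat_lit 4) (nat_lit 1) (nat_lit 4) (nat_lit 365) (nat_lit 212) (nat_lit 203))))) (XT.nd (nat_lit 39858) (nat_lit 0) (nat_lit 0) (XT.nd (nat_lit 39702) (nat_lit 0) (nat_lit 0) (XT.lf (nat_lit 0) (nat_lit 230139562165)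 (nat_lit 152) (nat_lit 3852911593666) (nat_lit 0) (nat_lit 229945310399) (nat_lit 1) (nat_lit 5) (nat_lit 3) (nat_lit 4) (nat_lit 1) (nat_lit 4) (nat_lit 366) (nat_lit 212) (nat_lit 202)) (XT.nd (nat_lit 78) (nat_lit 0) (nat_lit 0) (XT.lf (nat_lit 0) (nat_lit 44028127415) (nat_lit 152) (nat_lit 768463668722) (nat_lit 0) (nat_lit 44028127415) (nat_lit 1) (nat_lit 5) (nat_lit 3) (nat_lit 4) (nat_lit 1) (nat_lit 4) (nat_lit 354) (nat_lit 213) (nat_lit 213)) (XT.lf (nat_lit 0) (nat_lit 95643063909) (nat_lit 152) (nat_lit 1658779487857) (nat_lit 0) (nat_lit 95614114667) (nat_lit 1) (nat_lit 5) (nat_lit 3) (nat_lit 4) (nat_lit 1) (nat_lit 4) (nat_lit 355) (nat_lit 213) (nat_lit 212)))) (XT.nd (nat_lit 156) (nat_lit 0) (nat_lit 0) (XT.nd (nat_lit 78) (nat_lit 0) (nat_lit 0) (XT.lf (nat_lit 0) (nat_lit 103808851617) (nat_lit 152) (nat_lit 1790433542983) (nat_lit 0) (nat_lit 103753097523) (nat_lit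 1) (nat_lit 5) (nat_lit 3) (nat_lit 4) (nat_lit 1) (nat_lit 4) (nat_lit 356) (nat_lit 213) (nat_lit 211)) (XT.lf (nat_lit 0) (nat_lit 112602007809) (nat_lit 152) (nat_lit 1932669675000) (nat_lit 0) (nat_lit 112521434406) (nat_lit 1) (nat_lit 5) (nat_lit 3) (nat_lit 4) (nat_lit 1) (nat_lit 4) (nat_lit 357) (nat_lit 213) (nat_lit 210))) (XT.nd (nat_lit 78) (nat_lit 0) (nat_lit 0) (XT.lf (nat_lit 0) (nat_lit 122074640077) (nat_lit 152) (nat_lit 2086330764690) (nat_lit 0) (nat_lit 121971085833) (nat_lit 1) (nat_lit 5) (nat_lit 3) (nat_lit 4) (nat_lit 1) (nat_lit 4) (nat_lit 358) (nat_lit 213) (nat_lit 209)) (XT.lf (nat_lit 0) (nat_lit 132282882537) (nat_lit 152) (nat_lit 2252327396288) (nat_lit 0) (nat_lit 132158049736) (nat_lit 1) (nat_lit 5) (nat_lit 3) (nat_lit 4) (nat_lit 1) (nat_lit 4) (nat_lit 359) (nat_lit 213) (nat_lit 208)))))) (XT.nd (nat_lit 40014) (nat_lit 0) (nat_lit 0) (XT.nd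 (nat_lit 234) (nat_lit 0) (nat_lit 0) (XT.nd (nat_lit 78) (nat_lit 0) (nat_lit 0) (XT.lf (nat_lit 0) (nat_lit 143287228479) (nat_lit 152) (nat_lit 2431643253537) (nat_lit 0) (nat_lit 143142693311) (nat_lit 1) (nat_lit 5) (nat_lit 3) (nat_lit 4) (nat_lit 1) (nat_lit 4) (nat_lit 360) (nat_lit 213) (nat_lit 207)) (XT.nd (nat_lit 78) (nat_lit 0) (nat_lit 0) (XT.lf (nat_lit 0) (nat_lit 155152888841) (nat_lit 152) (nat_lit 2625340948924) (nat_lit 0) (nat_lit 154990110740) (nat_lit 1) (nat_lit 5) (nat_lit 3) (nat_lit 4) (nat_lit 1) (nat_lit 4) (nat_lit 361) (nat_lit 213) (nat_lit 206)) (XT.lf (nat_lit 0) (nat_lit 167950178648) (nat_lit 152) (nat_lit 2834568320645) (nat_lit 0) (nat_lit 167770508942) (nat_lit 1) (nat_lit 5) (nat_lit 3) (nat_lit 4) (nat_lit 1) (nat_lit 4) (nat_lit 362) (nat_lit 213) (nat_lit 205)))) (XT.nd (nat_lit 156) (nat_lit 0) (nat_lit 0) (XT.nd (nat_lit 78) (nat_lit 0)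 (nat_lit 0) (XT.lf (nat_lit 0) (nat_lit 181754933690) (nat_lit 152) (nat_lit 3060565234605) (nat_lit 0) (nat_lit 181559623611) (nat_lit 1) (nat_lit 5) (nat_lit 3) (nat_lit 4) (nat_lit 1) (nat_lit 4) (nat_lit 363) (nat_lit 213) (nat_lit 204)) (XT.lf (nat_lit 0) (nat_lit 196648959925) (nat_lit 152) (nat_lit 3304670931777) (nat_lit 0) (nat_lit 196439168018) (nat_lit 1) (nat_lit 5) (nat_lit 3) (nat_lit 4) (nat_lit 1) (nat_lit 4) (nat_lit 364) (nat_lit 213) (nat_lit 203))) (XT.nd (nat_lit 78) (nat_lit 0) (nat_lit 0) (XT.lf (nat_lit 0) (nat_lit 212720518248) (nat_lit 152) (nat_lit 3568331964440) (nat_lit 0) (nat_lit 212497317240) (nat_lit 1) (nat_lit 5) (nat_lit 3) (nat_lit 4) (nat_lit 1) (nat_lit 4) (nat_lit 365) (nat_lit 213) (nat_lit 202)) (XT.lf (nat_lit 0) (nat_lit 230064847523) (nat_lit 152) (nat_lit 3853110768344) (nat_lit 0) (nat_lit 229829230682) (nat_lit 1) (nat_lit 5) (nat_lit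 3) (nat_lit 4) (nat_lit 1) (nat_lit 4) (nat_lit 366) (nat_lit 213) (nat_lit 201))))) (XT.nd (nat_lit 234) (nat_lit 0) (nat_lit 0) (XT.nd (nat_lit 78) (nat_lit 0) (nat_lit 0) (XT.lf (nat_lit 0) (nat_lit 37244924679) (nat_lit 152) (nat_lit 659882039089) (nat_lit 0) (nat_lit 37244924679) (nat_lit 1) (nat_lit 5) (nat_lit 3) (nat_lit 4) (nat_lit 1) (nat_lit 4) (nat_lit 352) (nat_lit 214) (nat_lit 214)) (XT.nd (nat_lit 78) (nat_lit 0) (nat_lit 0) (XT.lf (nat_lit 0) (nat_lit 81034730695) (nat_lit 152) (nat_lit 1424155004925) (nat_lit 0) (nat_lit 81003465514) (nat_lit 1) (nat_lit 5) (nat_lit 3) (nat_lit 4) (nat_lit 1) (nat_lit 4) (nat_lit 353) (nat_lit 214) (nat_lit 213)) (XT.lf (nat_lit 0) (nat_lit 88072999154) (nat_lit 152) (nat_lit 1536955237104) (nat_lit 0) (nat_lit 88012784732) (nat_lit 1) (nat_lit 5) (nat_lit 3) (nat_lit 4) (nat_lit 1) (nat_lit 4) (nat_lit 354) (nat_lit 214) (nat_lit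 212)))) (XT.nd (nat_lit 156) (nat_lit 0) (nat_lit 0) (XT.nd (nat_lit 78) (nat_lit 0) (nat_lit 0) (XT.lf (nat_lit 0) (nat_lit 95646362994) (nat_lit 152) (nat_lit 1658833220536) (nat_lit 0) (nat_lit 95559343718) (nat_lit 1) (nat_lit 5) (nat_lit 3) (nat_lit 4) (nat_lit 1) (nat_lit 4) (nat_lit 355) (nat_lit 214) (nat_lit 211)) (XT.lf (nat_lit 0) (nat_lit 103799701407) (nat_lit 152) (nat_lit 1790511195124) (nat_lit 0) (nat_lit 103687862824) (nat_lit 1) (nat_lit 5) (nat_lit 3) (nat_lit 4) (nat_lit 1) (nat_lit 4) (nat_lit 356) (nat_lit 214) (nat_lit 210))) (XT.nd (nat_lit 78) (nat_lit 0) (nat_lit 0) (XT.lf (nat_lit 0) (nat_lit 112581330474) (nat_lit 152) (nat_lit 1932769474791) (nat_lit 0) (nat_lit 112446511049) (nat_lit 1) (nat_lit 5) (nat_lit 3) (nat_lit 4) (nat_lit 1) (nat_lit 4) (nat_lit 357) (nat_lit 214) (nat_lit 209)) (XT.lf (nat_lit 0) (nat_lit 122043289478) (nat_lit 152) (nat_lit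 2086451071564) (nat_lit 0) (nat_lit 121887191497) (nat_lit 1) (nat_lit 5) (nat_lit 3) (nat_lit 4) (nat_lit 1) (nat_lit 4) (nat_lit 358) (nat_lit 214) (nat_lit 208))))))))
noncomputable def xc1 : XT := (XT.nd (nat_lit 80652) (nat_lit 0) (nat_lit 0) (XT.nd (nat_lit 40404) (nat_lit 0) (nat_lit 0) (XT.nd (nat_lit 546) (nat_lit 0) (nat_lit 0) (XT.nd (nat_lit 234) (nat_lit 0) (nat_lit 0) (XT.nd (nat_lit 78) (nat_lit 0) (nat_lit 0) (XT.lf (nat_lit 0) (nat_lit 132241649287) (nat_lit 152) (nat_lit 2252466691202) (nat_lit 0) (nat_lit 132065848938) (nat_lit 1) (nat_lit 5) (nat_lit 3) (nat_lit 4) (nat_lit 1) (nat_lit 4) (nat_lit 359) (nat_lit 214) (nat_lit 207)) (XT.nd (nat_lit 78) (nat_lit 0) (nat_lit 0) (XT.lf (nat_lit 0) (nat_lit 143236844625) (nat_lit 152) (nat_lit 2431800129969) (nat_lit 0) (nat_lit 143042801344) (nat_lit 1) (nat_lit 5) (nat_lit 3) (nat_lit 4) (nat_lit 1) (nat_lit 4) (nat_lit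 360) (nat_lit 214) (nat_lit 206)) (XT.lf (nat_lit 0) (nat_lit 155094032206) (nat_lit 152) (nat_lit 2625514104540) (nat_lit 0) (nat_lit 154883097320) (nat_lit 1) (nat_lit 5) (nat_lit 3) (nat_lit 4) (nat_lit 1) (nat_lit 4) (nat_lit 361) (nat_lit 214) (nat_lit 205)))) (XT.nd (nat_lit 156) (nat_lit 0) (nat_lit 0) (XT.nd (nat_lit 78) (nat_lit 0) (nat_lit 0) (XT.lf (nat_lit 0) (nat_lit 167883476845) (nat_lit 152) (nat_lit 2834756549579) (nat_lit 0) (nat_lit 167656901585) (nat_lit 1) (nat_lit 5) (nat_lit 3) (nat_lit 4) (nat_lit 1) (nat_lit 4) (nat_lit 362) (nat_lit 214) (nat_lit 204)) (XT.lf (nat_lit 0) (nat_lit 181680967844) (nat_lit 152) (nat_lit 3060767420316) (nat_lit 0) (nat_lit 181439910756) (nat_lit 1) (nat_lit 5) (nat_lit 3) (nat_lit 4) (nat_lit 1) (nat_lit 4) (nat_lit 363) (nat_lit 214) (nat_lit 203))) (XT.nd (nat_lit 78) (nat_lit 0) (nat_lit 0) (XT.lf (nat_lit 0) (nat_lit 196568268112)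 (nat_lit 152) (nat_lit 3304886040429) (nat_lit 0) (nat_lit 196313801924) (nat_lit 1) (nat_lit 5) (nat_lit 3) (nat_lit 4) (nat_lit 1) (nat_lit 4) (nat_lit 364) (nat_lit 214) (nat_lit 202)) (XT.lf (nat_lit 0) (nat_lit 212633598688) (nat_lit 152) (nat_lit 3568559038778) (nat_lit 0) (nat_lit 212366716667) (nat_lit 1) (nat_lit 5) (nat_lit 3) (nat_lit 4) (nat_lit 1) (nat_lit 4) (nat_lit 365) (nat_lit 214) (nat_lit 201))))) (XT.nd (nat_lit 39546) (nat_lit 0) (nat_lit 0) (XT.nd (nat_lit 39390) (nat_lit 0) (nat_lit 0) (XT.lf (nat_lit 0) (nat_lit 229972161531) (nat_lit 152) (nat_lit 3853348922020) (nat_lit 0) (nat_lit 229693783367) (nat_lit 1) (nat_lit 5) (nat_lit 3) (nat_lit 4) (nat_lit 1) (nat_lit 4) (nat_lit 366) (nat_lit 214) (nat_lit 200)) (XT.nd (nat_lit 78) (nat_lit 0) (nat_lit 0) (XT.lf (nat_lit 0) (nat_lit 31389253797) (nat_lit 152) (nat_lit 566874657146) (nat_lit 0) (nat_lit 31389253797)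 (nat_lit 1) (nat_lit 5) (nat_lit 3) (nat_lit 4) (nat_lit 1) (nat_lit 4) (nat_lit 350) (nat_lit 215) (nat_lit 215)) (XT.lf (nat_lit 0) (nat_lit 68433337059) (nat_lit 152) (nat_lit 1223163843967) (nat_lit 0) (nat_lit 68399570664) (nat_lit 1) (nat_lit 5) (nat_lit 3) (nat_lit 4) (nat_lit 1) (nat_lit 4) (nat_lit 351) (nat_lit 215) (nat_lit 214)))) (XT.nd (nat_lit 156) (nat_lit 0) (nat_lit 0) (XT.nd (nat_lit 78) (nat_lit 0) (nat_lit 0) (XT.lf (nat_lit 0) (nat_lit 74507933228) (nat_lit 152) (nat_lit 1319794209812) (nat_lit 0) (nat_lit 74442901652) (nat_lit 1) (nat_lit 5) (nat_lit 3) (nat_lit 4) (nat_lit 1) (nat_lit 4) (nat_lit 352) (nat_lit 215) (nat_lit 213)) (XT.lf (nat_lit 0) (nat_lit 81038293706) (nat_lit 152) (nat_lit 1424213036218) (nat_lit 0) (nat_lit 80944312889) (nat_lit 1) (nat_lit 5) (nat_lit 3) (nat_lit 4) (nat_lit 1) (nat_lit 4) (nat_lit 353) (nat_lit 215) (nat_lit 212))) (XT.nd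 (nat_lit 78) (nat_lit 0) (nat_lit 0) (XT.lf (nat_lit 0) (nat_lit 88063116927) (nat_lit 152) (nat_lit 1537039101416) (nat_lit 0) (nat_lit 87942331256) (nat_lit 1) (nat_lit 5) (nat_lit 3) (nat_lit 4) (nat_lit 1) (nat_lit 4) (nat_lit 354) (nat_lit 215) (nat_lit 211)) (XT.lf (nat_lit 0) (nat_lit 95624031472) (nat_lit 152) (nat_lit 1658941004310) (nat_lit 0) (nat_lit 95478426493) (nat_lit 1) (nat_lit 5) (nat_lit 3) (nat_lit 4) (nat_lit 1) (nat_lit 4) (nat_lit 355) (nat_lit 215) (nat_lit 210)))))) (XT.nd (nat_lit 546) (nat_lit 0) (nat_lit 0) (XT.nd (nat_lit 234) (nat_lit 0) (nat_lit 0) (XT.nd (nat_lit 78) (nat_lit 0) (nat_lit 0) (XT.lf (nat_lit 0) (nat_lit 103765842761) (nat_lit 152) (nat_lit 1790641126548) (nat_lit 0) (nat_lit 103597256941) (nat_lit 1) (nat_lit 5) (nat_lit 3) (nat_lit 4) (nat_lit 1) (nat_lit 4) (nat_lit 356) (nat_lit 215) (nat_lit 209)) (XT.nd (nat_lit 78) (nat_lit 0) (nat_lit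 0) (XT.lf (nat_lit 0) (nat_lit 112536798564) (nat_lit 152) (nat_lit 1932919913298) (nat_lit 0) (nat_lit 112346934187) (nat_lit 1) (nat_lit 5) (nat_lit 3) (nat_lit 4) (nat_lit 1) (nat_lit 4) (nat_lit 357) (nat_lit 215) (nat_lit 208)) (XT.lf (nat_lit 0) (nat_lit 121988874916) (nat_lit 152) (nat_lit 2086620498111) (nat_lit 0) (nat_lit 121779308172) (nat_lit 1) (nat_lit 5) (nat_lit 3) (nat_lit 4) (nat_lit 1) (nat_lit 4) (nat_lit 358) (nat_lit 215) (nat_lit 207)))) (XT.nd (nat_lit 156) (nat_lit 0) (nat_lit 0) (XT.nd (nat_lit 78) (nat_lit 0) (nat_lit 0) (XT.lf (nat_lit 0) (nat_lit 132178084121) (nat_lit 152) (nat_lit 2252653699267) (nat_lit 0) (nat_lit 131950274445) (nat_lit 1) (nat_lit 5) (nat_lit 3) (nat_lit 4) (nat_lit 1) (nat_lit 4) (nat_lit 359) (nat_lit 215) (nat_lit 206)) (XT.lf (nat_lit 0) (nat_lit 143164806679) (nat_lit 152) (nat_lit 2432003417219) (nat_lit 0) (nat_lit 142920105398)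 (nat_lit 1) (nat_lit 5) (nat_lit 3) (nat_lit 4) (nat_lit 1) (nat_lit 4) (nat_lit 360) (nat_lit 215) (nat_lit 205))) (XT.nd (nat_lit 78) (nat_lit 0) (nat_lit 0) (XT.lf (nat_lit 0) (nat_lit 155014149092) (nat_lit 152) (nat_lit 2625732465108) (nat_lit 0) (nat_lit 154753807437) (nat_lit 1) (nat_lit 5) (nat_lit 3) (nat_lit 4) (nat_lit 1) (nat_lit 4) (nat_lit 361) (nat_lit 215) (nat_lit 204)) (XT.lf (nat_lit 0) (nat_lit 167796329687) (nat_lit 152) (nat_lit 2834988866924) (nat_lit 0) (nat_lit 167521506204) (nat_lit 1) (nat_lit 5) (nat_lit 3) (nat_lit 4) (nat_lit 1) (nat_lit 4) (nat_lit 362) (nat_lit 215) (nat_lit 203))))) (XT.nd (nat_lit 234) (nat_lit 0) (nat_lit 0) (XT.nd (nat_lit 78) (nat_lit 0) (nat_lit 0) (XT.lf (nat_lit 0) (nat_lit 181587094720) (nat_lit 152) (nat_lit 3061012660601) (nat_lit 0) (nat_lit 181298862136) (nat_lit 1) (nat_lit 5) (nat_lit 3) (nat_lit 4) (nat_lit 1) (nat_lit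 4) (nat_lit 363) (nat_lit 215) (nat_lit 202)) (XT.nd (nat_lit 78) (nat_lit 0) (nat_lit 0) (XT.lf (nat_lit 0) (nat_lit 196468167241) (nat_lit 152) (nat_lit 3305143246400) (nat_lit 0) (nat_lit 196167518824) (nat_lit 1) (nat_lit 5) (nat_lit 3) (nat_lit 4) (nat_lit 1) (nat_lit 4) (nat_lit 364) (nat_lit 215) (nat_lit 201)) (XT.lf (nat_lit 0) (nat_lit 212527731385) (nat_lit 152) (nat_lit 3568827324088) (nat_lit 0) (nat_lit 212215586826) (nat_lit 1) (nat_lit 5) (nat_lit 3) (nat_lit 4) (nat_lit 1) (nat_lit 4) (nat_lit 365) (nat_lit 215) (nat_lit 200)))) (XT.nd (nat_lit 39312) (nat_lit 0) (nat_lit 0) (XT.nd (nat_lit 39234) (nat_lit 0) (nat_lit 0) (XT.lf (nat_lit 0) (nat_lit 229860954938) (nat_lit 152) (nat_lit 3853627465978) (nat_lit 0) (nat_lit 229538165803) (nat_lit 1) (nat_lit 5) (nat_lit 3) (nat_lit 4) (nat_lit 1) (nat_lit 4) (nat_lit 366) (nat_lit 215) (nat_lit 199)) (XT.lf (nat_lit 0)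 (nat_lit 26325578551) (nat_lit 152) (nat_lit 487226391488) (nat_lit 0) (nat_lit 26325578551) (nat_lit 1) (nat_lit 5) (nat_lit 3) (nat_lit 4) (nat_lit 1) (nat_lit 4) (nat_lit 348) (nat_lit 216) (nat_lit 216))) (XT.nd (nat_lit 78) (nat_lit 0) (nat_lit 0) (XT.lf (nat_lit 0) (nat_lit 57546402437) (nat_lit 152) (nat_lit 1051020756909) (nat_lit 0) (nat_lit 57509934730) (nat_lit 1) (nat_lit 5) (nat_lit 3) (nat_lit 4) (nat_lit 1) (nat_lit 4) (nat_lit 349) (nat_lit 216) (nat_lit 215)) (XT.lf (nat_lit 0) (nat_lit 62798038172) (nat_lit 152) (nat_lit 1133781856456) (nat_lit 0) (nat_lit 62727804070) (nat_lit 1) (nat_lit 5) (nat_lit 3) (nat_lit 4) (nat_lit 1) (nat_lit 4) (nat_lit 350) (nat_lit 216) (nat_lit 214))))))) (XT.nd (nat_lit 1092) (nat_lit 0) (nat_lit 0) (XT.nd (nat_lit 546) (nat_lit 0) (nat_lit 0) (XT.nd (nat_lit 234) (nat_lit 0) (nat_lit 0) (XT.nd (nat_lit 78) (nat_lit 0) (nat_lit 0)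 (XT.lf (nat_lit 0) (nat_lit 68437185112) (nat_lit 152) (nat_lit 1223226517763) (nat_lit 0) (nat_lit 68335685829) (nat_lit 1) (nat_lit 5) (nat_lit 3) (nat_lit 4) (nat_lit 1) (nat_lit 4) (nat_lit 351) (nat_lit 216) (nat_lit 213)) (XT.nd (nat_lit 78) (nat_lit 0) (nat_lit 0) (XT.lf (nat_lit 0) (nat_lit 74497260423) (nat_lit 152) (nat_lit 1319884783269) (nat_lit 0) (nat_lit 74366811899) (nat_lit 1) (nat_lit 5) (nat_lit 3) (nat_lit 4) (nat_lit 1) (nat_lit 4) (nat_lit 352) (nat_lit 216) (nat_lit 212)) (XT.lf (nat_lit 0) (nat_lit 81014175663) (nat_lit 152) (nat_lit 1424329442694) (nat_lit 0) (nat_lit 80856922285) (nat_lit 1) (nat_lit 5) (nat_lit 3) (nat_lit 4) (nat_lit 1) (nat_lit 4) (nat_lit 353) (nat_lit 216) (nat_lit 211)))) (XT.nd (nat_lit 156) (nat_lit 0) (nat_lit 0) (XT.nd (nat_lit 78) (nat_lit 0) (nat_lit 0) (XT.lf (nat_lit 0) (nat_lit 88026549588) (nat_lit 152) (nat_lit 1537179427354)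 (nat_lit 0) (nat_lit 87844476903) (nat_lit 1) (nat_lit 5) (nat_lit 3) (nat_lit 4) (nat_lit 1) (nat_lit 4) (nat_lit 354) (nat_lit 216) (nat_lit 210)) (XT.lf (nat_lit 0) (nat_lit 95575937008) (nat_lit 152) (nat_lit 1659103477898) (nat_lit 0) (nat_lit 95370883482) (nat_lit 1) (nat_lit 5) (nat_lit 3) (nat_lit 4) (nat_lit 1) (nat_lit 4) (nat_lit 355) (nat_lit 216) (nat_lit 209))) (XT.nd (nat_lit 78) (nat_lit 0) (nat_lit 0) (XT.lf (nat_lit 0) (nat_lit 103707075034) (nat_lit 152) (nat_lit 1790824107219) (nat_lit 0) (nat_lit 103480742950) (nat_lit 1) (nat_lit 5) (nat_lit 3) (nat_lit 4) (nat_lit 1) (nat_lit 4) (nat_lit 356) (nat_lit 216) (nat_lit 208)) (XT.lf (nat_lit 0) (nat_lit 112468148185) (nat_lit 152) (nat_lit 1933121882009) (nat_lit 0) (nat_lit 112222113734) (nat_lit 1) (nat_lit 5) (nat_lit 3) (nat_lit 4) (nat_lit 1) (nat_lit 4) (nat_lit 357) (nat_lit 216) (nat_lit 207))))) (XT.nd (nat_lit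 234) (nat_lit 0) (nat_lit 0) (XT.nd (nat_lit 78) (nat_lit 0) (nat_lit 0) (XT.lf (nat_lit 0) (nat_lit 121911073934) (nat_lit 152) (nat_lit 2086840048340) (nat_lit 0) (nat_lit 121646796550) (nat_lit 1) (nat_lit 5) (nat_lit 3) (nat_lit 4) (nat_lit 1) (nat_lit 4) (nat_lit 358) (nat_lit 216) (nat_lit 206)) (XT.nd (nat_lit 78) (nat_lit 0) (nat_lit 0) (XT.lf (nat_lit 0) (nat_lit 132091810358) (nat_lit 152) (nat_lit 2252889528681) (nat_lit 0) (nat_lit 131810641371) (nat_lit 1) (nat_lit 5) (nat_lit 3) (nat_lit 4) (nat_lit 1) (nat_lit 4) (nat_lit 359) (nat_lit 216) (nat_lit 205)) (XT.lf (nat_lit 0) (nat_lit 143070687748) (nat_lit 152) (nat_lit 2432254319950) (nat_lit 0) (nat_lit 142773878386) (nat_lit 1) (nat_lit 5) (nat_lit 3) (nat_lit 4) (nat_lit 1) (nat_lit 4) (nat_lit 360) (nat_lit 216) (nat_lit 204)))) (XT.nd (nat_lit 156) (nat_lit 0) (nat_lit 0) (XT.nd (nat_lit 78) (nat_lit 0) (nat_lit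 0) (XT.lf (nat_lit 0) (nat_lit 154912766118) (nat_lit 152) (nat_lit 2625997324616) (nat_lit 0) (nat_lit 154601474928) (nat_lit 1) (nat_lit 5) (nat_lit 3) (nat_lit 4) (nat_lit 1) (nat_lit 4) (nat_lit 361) (nat_lit 216) (nat_lit 203)) (XT.lf (nat_lit 0) (nat_lit 167688220746) (nat_lit 152) (nat_lit 2835266649372) (nat_lit 0) (nat_lit 167363520456) (nat_lit 1) (nat_lit 5) (nat_lit 3) (nat_lit 4) (nat_lit 1) (nat_lit 4) (nat_lit 362) (nat_lit 216) (nat_lit 202))) (XT.nd (nat_lit 78) (nat_lit 0) (nat_lit 0) (XT.lf (nat_lit 0) (nat_lit 181472758032) (nat_lit 152) (nat_lit 3061302408736) (nat_lit 0) (nat_lit 181135641908) (nat_lit 1) (nat_lit 5) (nat_lit 3) (nat_lit 4) (nat_lit 1) (nat_lit 4) (nat_lit 363) (nat_lit 216) (nat_lit 201)) (XT.lf (nat_lit 0) (nat_lit 196348064121) (nat_lit 152) (nat_lit 3305444073874) (nat_lit 0) (nat_lit 195999451855) (nat_lit 1) (nat_lit 5) (nat_lit 3) (nat_lit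 4) (nat_lit 1) (nat_lit 4) (nat_lit 364) (nat_lit 216) (nat_lit 200)))))) (XT.nd (nat_lit 39546) (nat_lit 0) (nat_lit 0) (XT.nd (nat_lit 39234) (nat_lit 0) (nat_lit 0) (XT.nd (nat_lit 78) (nat_lit 0) (nat_lit 0) (XT.lf (nat_lit 0) (nat_lit 212402288975) (nat_lit 152) (nat_lit 3569138410209) (nat_lit 0) (nat_lit 212043032133) (nat_lit 1) (nat_lit 5) (nat_lit 3) (nat_lit 4) (nat_lit 1) (nat_lit 4) (nat_lit 365) (nat_lit 216) (nat_lit 199)) (XT.nd (nat_lit 39078) (nat_lit 0) (nat_lit 0) (XT.lf (nat_lit 0) (nat_lit 229730568743) (nat_lit 152) (nat_lit 3853948050846) (nat_lit 0) (nat_lit 229361455812) (nat_lit 1) (nat_lit 5) (nat_lit 3) (nat_lit 4) (nat_lit 1) (nat_lit 4) (nat_lit 366) (nat_lit 216) (nat_lit 198)) (XT.lf (nat_lit 0) (nat_lit 21937441408) (nat_lit 152) (nat_lit 419038660704) (nat_lit 0) (nat_lit 21937441408) (nat_lit 1) (nat_lit 5) (nat_lit 3) (nat_lit 4) (nat_lit 1) (nat_lit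 4) (nat_lit 346) (nat_lit 217) (nat_lit 217)))) (XT.nd (nat_lit 156) (nat_lit 0) (nat_lit 0) (XT.nd (nat_lit 78) (nat_lit 0) (nat_lit 0) (XT.lf (nat_lit 0) (nat_lit 48122678429) (nat_lit 152) (nat_lit 903624198519) (nat_lit 0) (nat_lit 48083293306) (nat_lit 1) (nat_lit 5) (nat_lit 3) (nat_lit 4) (nat_lit 1) (nat_lit 4) (nat_lit 347) (nat_lit 217) (nat_lit 216)) (XT.lf (nat_lit 0) (nat_lit 52672250127) (nat_lit 152) (nat_lit 974487928514) (nat_lit 0) (nat_lit 52596397297) (nat_lit 1) (nat_lit 5) (nat_lit 3) (nat_lit 4) (nat_lit 1) (nat_lit 4) (nat_lit 348) (nat_lit 217) (nat_lit 215))) (XT.nd (nat_lit 78) (nat_lit 0) (nat_lit 0) (XT.lf (nat_lit 0) (nat_lit 57550558334) (nat_lit 152) (nat_lit 1051088444610) (nat_lit 0) (nat_lit 57440939108) (nat_lit 1) (nat_lit 5) (nat_lit 3) (nat_lit 4) (nat_lit 1) (nat_lit 4) (nat_lit 349) (nat_lit 217) (nat_lit 214)) (XT.lf (nat_lit 0) (nat_lit 62786511543)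 (nat_lit 152) (nat_lit 1133879675790) (nat_lit 0) (nat_lit 62645627137) (nat_lit 1) (nat_lit 5) (nat_lit 3) (nat_lit 4) (nat_lit 1) (nat_lit 4) (nat_lit 350) (nat_lit 217) (nat_lit 213))))) (XT.nd (nat_lit 312) (nat_lit 0) (nat_lit 0) (XT.nd (nat_lit 156) (nat_lit 0) (nat_lit 0) (XT.nd (nat_lit 78) (nat_lit 0) (nat_lit 0) (XT.lf (nat_lit 0) (nat_lit 68411137625) (nat_lit 152) (nat_lit 1223352236758) (nat_lit 0) (nat_lit 68241303977) (nat_lit 1) (nat_lit 5) (nat_lit 3) (nat_lit 4) (nat_lit 1) (nat_lit 4) (nat_lit 351) (nat_lit 217) (nat_lit 212)) (XT.lf (nat_lit 0) (nat_lit 74457767697) (nat_lit 152) (nat_lit 1320036335282) (nat_lit 0) (nat_lit 74261129197) (nat_lit 1) (nat_lit 5) (nat_lit 3) (nat_lit 4) (nat_lit 1) (nat_lit 4) (nat_lit 352) (nat_lit 217) (nat_lit 211))) (XT.nd (nat_lit 78) (nat_lit 0) (nat_lit 0) (XT.lf (nat_lit 0) (nat_lit 80962233642) (nat_lit 152) (nat_lit 1424504914169)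 (nat_lit 0) (nat_lit 80740775833) (nat_lit 1) (nat_lit 5) (nat_lit 3) (nat_lit 4) (nat_lit 1) (nat_lit 4) (nat_lit 353) (nat_lit 217) (nat_lit 210)) (XT.lf (nat_lit 0) (nat_lit 87963080443) (nat_lit 152) (nat_lit 1537377046478) (nat_lit 0) (nat_lit 87718641793) (nat_lit 1) (nat_lit 5) (nat_lit 3) (nat_lit 4) (nat_lit 1) (nat_lit 4) (nat_lit 354) (nat_lit 217) (nat_lit 209)))) (XT.nd (nat_lit 156) (nat_lit 0) (nat_lit 0) (XT.nd (nat_lit 78) (nat_lit 0) (nat_lit 0) (XT.lf (nat_lit 0) (nat_lit 95501794599) (nat_lit 152) (nat_lit 1659321604106) (nat_lit 0) (nat_lit 95236077393) (nat_lit 1) (nat_lit 5) (nat_lit 3) (nat_lit 4) (nat_lit 1) (nat_lit 4) (nat_lit 355) (nat_lit 217) (nat_lit 208)) (XT.lf (nat_lit 0) (nat_lit 103623049973) (nat_lit 152) (nat_lit 1791061221467) (nat_lit 0) (nat_lit 103337630399) (nat_lit 1) (nat_lit 5) (nat_lit 3) (nat_lit 4) (nat_lit 1) (nat_lit 4) (nat_lit 356)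 (nat_lit 217) (nat_lit 207))) (XT.nd (nat_lit 78) (nat_lit 0) (nat_lit 0) (XT.lf (nat_lit 0) (nat_lit 112374972521) (nat_lit 152) (nat_lit 1933376577775) (nat_lit 0) (nat_lit 112071310014) (nat_lit 1) (nat_lit 5) (nat_lit 3) (nat_lit 4) (nat_lit 1) (nat_lit 4) (nat_lit 357) (nat_lit 217) (nat_lit 206)) (XT.lf (nat_lit 0) (nat_lit 121809425489) (nat_lit 152) (nat_lit 2087111023290) (nat_lit 0) (nat_lit 121488871378) (nat_lit 1) (nat_lit 5) (nat_lit 3) (nat_lit 4) (nat_lit 1) (nat_lit 4) (nat_lit 358) (nat_lit 217) (nat_lit 205))))))))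
noncomputable def xc2 : XT := (XT.nd (nat_lit 41028) (nat_lit 0) (nat_lit 0) (XT.nd (nat_lit 39936) (nat_lit 0) (nat_lit 0) (XT.nd (nat_lit 546) (nat_lit 0) (nat_lit 0) (XT.nd (nat_lit 234) (nat_lit 0) (nat_lit 0) (XT.nd (nat_lit 78) (nat_lit 0) (nat_lit 0) (XT.lf (nat_lit 0) (nat_lit 131982316746) (nat_lit 152) (nat_lit 2253175576949) (nat_lit 0) (nat_lit 131646122260) (nat_lit 1) (nat_lit 5) (nat_lit 3) (nat_lit 4) (nat_lit 1) (nat_lit 4) (nat_lit 359) (nat_lit 217) (nat_lit 204)) (XT.nd (nat_lit 78) (nat_lit 0) (nat_lit 0) (XT.lf (nat_lit 0) (nat_lit 142953930092) (nat_lit 152) (nat_lit 2432554324995) (nat_lit 0) (nat_lit 142603253778) (nat_lit 1) (nat_lit 5) (nat_lit 3) (nat_lit 4) (nat_lit 1) (nat_lit 4) (nat_lit 360) (nat_lit 217) (nat_lit 203)) (XT.lf (nat_lit 0) (nat_lit 154789282495) (nat_lit 152) (nat_lit 2626310252602) (nat_lit 0) (nat_lit 154425197081) (nat_lit 1) (nat_lit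 5) (nat_lit 3) (nat_lit 4) (nat_lit 1) (nat_lit 4) (nat_lit 361) (nat_lit 217) (nat_lit 202)))) (XT.nd (nat_lit 156) (nat_lit 0) (nat_lit 0) (XT.nd (nat_lit 78) (nat_lit 0) (nat_lit 0) (XT.lf (nat_lit 0) (nat_lit 167558509376) (nat_lit 152) (nat_lit 2835591543044) (nat_lit 0) (nat_lit 167182008129) (nat_lit 1) (nat_lit 5) (nat_lit 3) (nat_lit 4) (nat_lit 1) (nat_lit 4) (nat_lit 362) (nat_lit 217) (nat_lit 201)) (XT.lf (nat_lit 0) (nat_lit 181337280229) (nat_lit 152) (nat_lit 3061638381747) (nat_lit 0) (nat_lit 180949282840) (nat_lit 1) (nat_lit 5) (nat_lit 3) (nat_lit 4) (nat_lit 1) (nat_lit 4) (nat_lit 363) (nat_lit 217) (nat_lit 200))) (XT.nd (nat_lit 78) (nat_lit 0) (nat_lit 0) (XT.lf (nat_lit 0) (nat_lit 196207247029) (nat_lit 152) (nat_lit 3305790305532) (nat_lit 0) (nat_lit 195808605064) (nat_lit 1) (nat_lit 5) (nat_lit 3) (nat_lit 4) (nat_lit 1) (nat_lit 4) (nat_lit 364) (nat_lit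 217) (nat_lit 199)) (XT.lf (nat_lit 0) (nat_lit 212256528097) (nat_lit 152) (nat_lit 3569494140615) (nat_lit 0) (nat_lit 211848030043) (nat_lit 1) (nat_lit 5) (nat_lit 3) (nat_lit 4) (nat_lit 1) (nat_lit 4) (nat_lit 365) (nat_lit 217) (nat_lit 198))))) (XT.nd (nat_lit 39078) (nat_lit 0) (nat_lit 0) (XT.nd (nat_lit 38922) (nat_lit 0) (nat_lit 0) (XT.lf (nat_lit 0) (nat_lit 229580230285) (nat_lit 152) (nat_lit 3854312576388) (nat_lit 0) (nat_lit 229162606223) (nat_lit 1) (nat_lit 5) (nat_lit 3) (nat_lit 4) (nat_lit 1) (nat_lit 4) (nat_lit 366) (nat_lit 217) (nat_lit 197)) (XT.nd (nat_lit 78) (nat_lit 0) (nat_lit 0) (XT.lf (nat_lit 0) (nat_lit 18124721162) (nat_lit 152) (nat_lit 360684316915) (nat_lit 0) (nat_lit 18124721162) (nat_lit 1) (nat_lit 5) (nat_lit 3) (nat_lit 4) (nat_lit 1) (nat_lit 4) (nat_lit 344) (nat_lit 218) (nat_lit 218)) (XT.lf (nat_lit 0) (nat_lit 39946227098) (nat_lit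 152) (nat_lit 777458871246) (nat_lit 0) (nat_lit 39903691165) (nat_lit 1) (nat_lit 5) (nat_lit 3) (nat_lit 4) (nat_lit 1) (nat_lit 4) (nat_lit 345) (nat_lit 218) (nat_lit 217)))) (XT.nd (nat_lit 156) (nat_lit 0) (nat_lit 0) (XT.nd (nat_lit 78) (nat_lit 0) (nat_lit 0) (XT.lf (nat_lit 0) (nat_lit 43897663283) (nat_lit 152) (nat_lit 838115278589) (nat_lit 0) (nat_lit 43815742226) (nat_lit 1) (nat_lit 5) (nat_lit 3) (nat_lit 4) (nat_lit 1) (nat_lit 4) (nat_lit 346) (nat_lit 218) (nat_lit 216)) (XT.lf (nat_lit 0) (nat_lit 48127166798) (nat_lit 152) (nat_lit 903697301236) (nat_lit 0) (nat_lit 48008778034) (nat_lit 1) (nat_lit 5) (nat_lit 3) (nat_lit 4) (nat_lit 1) (nat_lit 4) (nat_lit 347) (nat_lit 218) (nat_lit 215))) (XT.nd (nat_lit 78) (nat_lit 0) (nat_lit 0) (XT.lf (nat_lit 0) (nat_lit 52659801367) (nat_lit 152) (nat_lit 974593573395) (nat_lit 0) (nat_lit 52507646209) (nat_lit 1) (nat_lit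 5) (nat_lit 3) (nat_lit 4) (nat_lit 1) (nat_lit 4) (nat_lit 348) (nat_lit 218) (nat_lit 214)) (XT.lf (nat_lit 0) (nat_lit 57522427048) (nat_lit 152) (nat_lit 1051224221123) (nat_lit 0) (nat_lit 57339006709) (nat_lit 1) (nat_lit 5) (nat_lit 3) (nat_lit 4) (nat_lit 1) (nat_lit 4) (nat_lit 349) (nat_lit 218) (nat_lit 213)))))) (XT.nd (nat_lit 546) (nat_lit 0) (nat_lit 0) (XT.nd (nat_lit 234) (nat_lit 0) (nat_lit 0) (XT.nd (nat_lit 78) (nat_lit 0) (nat_lit 0) (XT.lf (nat_lit 0) (nat_lit 62743859399) (nat_lit 152) (nat_lit 1134043351964) (nat_lit 0) (nat_lit 62531489819) (nat_lit 1) (nat_lit 5) (nat_lit 3) (nat_lit 4) (nat_lit 1) (nat_lit 4) (nat_lit 350) (nat_lit 218) (nat_lit 212)) (XT.nd (nat_lit 78) (nat_lit 0) (nat_lit 0) (XT.lf (nat_lit 0) (nat_lit 68355040243) (nat_lit 152) (nat_lit 1223541745950) (nat_lit 0) (nat_lit 68115865809) (nat_lit 1) (nat_lit 5) (nat_lit 3) (nat_lit 4) (nat_lit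 1) (nat_lit 4) (nat_lit 351) (nat_lit 218) (nat_lit 211)) (XT.lf (nat_lit 0) (nat_lit 74389221020) (nat_lit 152) (nat_lit 1320249763936) (nat_lit 0) (nat_lit 74125227278) (nat_lit 1) (nat_lit 5) (nat_lit 3) (nat_lit 4) (nat_lit 1) (nat_lit 4) (nat_lit 352) (nat_lit 218) (nat_lit 210)))) (XT.nd (nat_lit 156) (nat_lit 0) (nat_lit 0) (XT.nd (nat_lit 78) (nat_lit 0) (nat_lit 0) (XT.lf (nat_lit 0) (nat_lit 80882159840) (nat_lit 152) (nat_lit 1424740490473) (nat_lit 0) (nat_lit 80595185257) (nat_lit 1) (nat_lit 5) (nat_lit 3) (nat_lit 4) (nat_lit 1) (nat_lit 4) (nat_lit 353) (nat_lit 218) (nat_lit 209)) (XT.lf (nat_lit 0) (nat_lit 87872333378) (nat_lit 152) (nat_lit 1537633129866) (nat_lit 0) (nat_lit 87564080238) (nat_lit 1) (nat_lit 5) (nat_lit 3) (nat_lit 4) (nat_lit 1) (nat_lit 4) (nat_lit 354) (nat_lit 218) (nat_lit 208))) (XT.nd (nat_lit 78) (nat_lit 0) (nat_lit 0) (XT.lf (nat_lit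 0) (nat_lit 95401164882) (nat_lit 152) (nat_lit 1659596675534) (nat_lit 0) (nat_lit 95073209375) (nat_lit 1) (nat_lit 5) (nat_lit 3) (nat_lit 4) (nat_lit 1) (nat_lit 4) (nat_lit 355) (nat_lit 218) (nat_lit 207)) (XT.lf (nat_lit 0) (nat_lit 103513269652) (nat_lit 152) (nat_lit 1791353874413) (nat_lit 0) (nat_lit 103167071212) (nat_lit 1) (nat_lit 5) (nat_lit 3) (nat_lit 4) (nat_lit 1) (nat_lit 4) (nat_lit 356) (nat_lit 218) (nat_lit 206))))) (XT.nd (nat_lit 234) (nat_lit 0) (nat_lit 0) (XT.nd (nat_lit 78) (nat_lit 0) (nat_lit 0) (XT.lf (nat_lit 0) (nat_lit 112256719420) (nat_lit 152) (nat_lit 1933685509905) (nat_lit 0) (nat_lit 111893629375) (nat_lit 1) (nat_lit 5) (nat_lit 3) (nat_lit 4) (nat_lit 1) (nat_lit 4) (nat_lit 357) (nat_lit 218) (nat_lit 205)) (XT.nd (nat_lit 78) (nat_lit 0) (nat_lit 0) (XT.lf (nat_lit 0) (nat_lit 121683327220) (nat_lit 152) (nat_lit 2087435028739) (nat_lit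 0) (nat_lit 121304596801) (nat_lit 1) (nat_lit 5) (nat_lit 3) (nat_lit 4) (nat_lit 1) (nat_lit 4) (nat_lit 358) (nat_lit 218) (nat_lit 204)) (XT.lf (nat_lit 0) (nat_lit 131848954433) (nat_lit 152) (nat_lit 2253513539173) (nat_lit 0) (nat_lit 131455742186) (nat_lit 1) (nat_lit 5) (nat_lit 3) (nat_lit 4) (nat_lit 1) (nat_lit 4) (nat_lit 359) (nat_lit 218) (nat_lit 203)))) (XT.nd (nat_lit 156) (nat_lit 0) (nat_lit 0) (XT.nd (nat_lit 78) (nat_lit 0) (nat_lit 0) (XT.lf (nat_lit 0) (nat_lit 142813841812) (nat_lit 152) (nat_lit 2432905210160) (nat_lit 0) (nat_lit 142407220465) (nat_lit 1) (nat_lit 5) (nat_lit 3) (nat_lit 4) (nat_lit 1) (nat_lit 4) (nat_lit 360) (nat_lit 218) (nat_lit 202)) (XT.lf (nat_lit 0) (nat_lit 154642966468) (nat_lit 152) (nat_lit 2626673103453) (nat_lit 0) (nat_lit 154223929288) (nat_lit 1) (nat_lit 5) (nat_lit 3) (nat_lit 4) (nat_lit 1) (nat_lit 4) (nat_lit 361) (nat_lit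 218) (nat_lit 201))) (XT.nd (nat_lit 78) (nat_lit 0) (nat_lit 0) (XT.lf (nat_lit 0) (nat_lit 167406426918) (nat_lit 152) (nat_lit 2835965473235) (nat_lit 0) (nat_lit 166975893595) (nat_lit 1) (nat_lit 5) (nat_lit 3) (nat_lit 4) (nat_lit 1) (nat_lit 4) (nat_lit 362) (nat_lit 218) (nat_lit 200)) (XT.lf (nat_lit 0) (nat_lit 181179858481) (nat_lit 152) (nat_lit 3062022570585) (nat_lit 0) (nat_lit 180738680583) (nat_lit 1) (nat_lit 5) (nat_lit 3) (nat_lit 4) (nat_lit 1) (nat_lit 4) (nat_lit 363) (nat_lit 218) (nat_lit 199))))))) (XT.nd (nat_lit 39780) (nat_lit 0) (nat_lit 0) (XT.nd (nat_lit 39234) (nat_lit 0) (nat_lit 0) (XT.nd (nat_lit 38922) (nat_lit 0) (nat_lit 0) (XT.nd (nat_lit 78) (nat_lit 0) (nat_lit 0) (XT.lf (nat_lit 0) (nat_lit 196044881495) (nat_lit 152) (nat_lit 3306183993117) (nat_lit 0) (nat_lit 195593847508) (nat_lit 1) (nat_lit 5) (nat_lit 3) (nat_lit 4) (nat_lit 1) (nat_lit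 4) (nat_lit 364) (nat_lit 218) (nat_lit 198)) (XT.nd (nat_lit 78) (nat_lit 0) (nat_lit 0) (XT.lf (nat_lit 0) (nat_lit 212089584983) (nat_lit 152) (nat_lit 3569896623336) (nat_lit 0) (nat_lit 211629424988) (nat_lit 1) (nat_lit 5) (nat_lit 3) (nat_lit 4) (nat_lit 1) (nat_lit 4) (nat_lit 365) (nat_lit 218) (nat_lit 197)) (XT.lf (nat_lit 0) (nat_lit 229409048671) (nat_lit 152) (nat_lit 3854723202754) (nat_lit 0) (nat_lit 228940438668) (nat_lit 1) (nat_lit 5) (nat_lit 3) (nat_lit 4) (nat_lit 1) (nat_lit 4) (nat_lit 366) (nat_lit 218) (nat_lit 196)))) (XT.nd (nat_lit 156) (nat_lit 0) (nat_lit 0) (XT.nd (nat_lit 78) (nat_lit 0) (nat_lit 0) (XT.lf (nat_lit 0) (nat_lit 14801280167) (nat_lit 152) (nat_lit 310768969123) (nat_lit 0) (nat_lit 14801280167) (nat_lit 1) (nat_lit 5) (nat_lit 3) (nat_lit 4) (nat_lit 1) (nat_lit 4) (nat_lit 342) (nat_lit 219) (nat_lit 219)) (XT.lf (nat_lit 0) (nat_lit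 32831340898) (nat_lit 152) (nat_lit 669512179751) (nat_lit 0) (nat_lit 32785402091) (nat_lit 1) (nat_lit 5) (nat_lit 3) (nat_lit 4) (nat_lit 1) (nat_lit 4) (nat_lit 343) (nat_lit 219) (nat_lit 218))) (XT.nd (nat_lit 78) (nat_lit 0) (nat_lit 0) (XT.lf (nat_lit 0) (nat_lit 36274045229) (nat_lit 152) (nat_lit 721409627585) (nat_lit 0) (nat_lit 36185570488) (nat_lit 1) (nat_lit 5) (nat_lit 3) (nat_lit 4) (nat_lit 1) (nat_lit 4) (nat_lit 344) (nat_lit 219) (nat_lit 217)) (XT.lf (nat_lit 0) (nat_lit 39951074536) (nat_lit 152) (nat_lit 777537822180) (nat_lit 0) (nat_lit 39823214671) (nat_lit 1) (nat_lit 5) (nat_lit 3) (nat_lit 4) (nat_lit 1) (nat_lit 4) (nat_lit 345) (nat_lit 219) (nat_lit 216))))) (XT.nd (nat_lit 234) (nat_lit 0) (nat_lit 0) (XT.nd (nat_lit 78) (nat_lit 0) (nat_lit 0) (XT.lf (nat_lit 0) (nat_lit 43884218622) (nat_lit 152) (nat_lit 838229375060) (nat_lit 0) (nat_lit 43719891051)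 (nat_lit 1) (nat_lit 5) (nat_lit 3) (nat_lit 4) (nat_lit 1) (nat_lit 4) (nat_lit 346) (nat_lit 219) (nat_lit 215)) (XT.nd (nat_lit 78) (nat_lit 0) (nat_lit 0) (XT.lf (nat_lit 0) (nat_lit 48096785009) (nat_lit 152) (nat_lit 903843939870) (nat_lit 0) (nat_lit 47898691043) (nat_lit 1) (nat_lit 5) (nat_lit 3) (nat_lit 4) (nat_lit 1) (nat_lit 4) (nat_lit 347) (nat_lit 219) (nat_lit 214)) (XT.lf (nat_lit 0) (nat_lit 52613737052) (nat_lit 152) (nat_lit 974770343662) (nat_lit 0) (nat_lit 52384377905) (nat_lit 1) (nat_lit 5) (nat_lit 3) (nat_lit 4) (nat_lit 1) (nat_lit 4) (nat_lit 348) (nat_lit 219) (nat_lit 213)))) (XT.nd (nat_lit 156) (nat_lit 0) (nat_lit 0) (XT.nd (nat_lit 78) (nat_lit 0) (nat_lit 0) (XT.lf (nat_lit 0) (nat_lit 57461841875) (nat_lit 152) (nat_lit 1051428891051) (nat_lit 0) (nat_lit 57203533487) (nat_lit 1) (nat_lit 5) (nat_lit 3) (nat_lit 4) (nat_lit 1) (nat_lit 4) (nat_lit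 349) (nat_lit 219) (nat_lit 212)) (XT.lf (nat_lit 0) (nat_lit 62669828988) (nat_lit 152) (nat_lit 1134273854910) (nat_lit 0) (nat_lit 62384715747) (nat_lit 1) (nat_lit 5) (nat_lit 3) (nat_lit 4) (nat_lit 1) (nat_lit 4) (nat_lit 350) (nat_lit 219) (nat_lit 211))) (XT.nd (nat_lit 78) (nat_lit 0) (nat_lit 0) (XT.lf (nat_lit 0) (nat_lit 68268560537) (nat_lit 152) (nat_lit 1223796168359) (nat_lit 0) (nat_lit 67958627987) (nat_lit 1) (nat_lit 5) (nat_lit 3) (nat_lit 4) (nat_lit 1) (nat_lit 4) (nat_lit 351) (nat_lit 219) (nat_lit 210)) (XT.lf (nat_lit 0) (nat_lit 74291214190) (nat_lit 152) (nat_lit 1320526333995) (nat_lit 0) (nat_lit 73958300798) (nat_lit 1) (nat_lit 5) (nat_lit 3) (nat_lit 4) (nat_lit 1) (nat_lit 4) (nat_lit 352) (nat_lit 219) (nat_lit 209)))))) (XT.nd (nat_lit 546) (nat_lit 0) (nat_lit 0) (XT.nd (nat_lit 234) (nat_lit 0) (nat_lit 0) (XT.nd (nat_lit 78) (nat_lit 0) (nat_lit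 0) (XT.lf (nat_lit 0) (nat_lit 80773479746) (nat_lit 152) (nat_lit 1425037567615) (nat_lit 0) (nat_lit 80419287798) (nat_lit 1) (nat_lit 5) (nat_lit 3) (nat_lit 4) (nat_lit 1) (nat_lit 4) (nat_lit 353) (nat_lit 219) (nat_lit 208)) (XT.nd (nat_lit 78) (nat_lit 0) (nat_lit 0) (XT.lf (nat_lit 0) (nat_lit 87753770631) (nat_lit 152) (nat_lit 1537949195048) (nat_lit 0) (nat_lit 87379876316) (nat_lit 1) (nat_lit 5) (nat_lit 3) (nat_lit 4) (nat_lit 1) (nat_lit 4) (nat_lit 354) (nat_lit 219) (nat_lit 207)) (XT.lf (nat_lit 0) (nat_lit 95273451533) (nat_lit 152) (nat_lit 1659930322234) (nat_lit 0) (nat_lit 94881314285) (nat_lit 1) (nat_lit 5) (nat_lit 3) (nat_lit 4) (nat_lit 1) (nat_lit 4) (nat_lit 355) (nat_lit 219) (nat_lit 206)))) (XT.nd (nat_lit 156) (nat_lit 0) (nat_lit 0) (XT.nd (nat_lit 78) (nat_lit 0) (nat_lit 0) (XT.lf (nat_lit 0) (nat_lit 103377083522) (nat_lit 152) (nat_lit 1791703800297)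 (nat_lit 0) (nat_lit 102968054670) (nat_lit 1) (nat_lit 5) (nat_lit 3) (nat_lit 4) (nat_lit 1) (nat_lit 4) (nat_lit 356) (nat_lit 219) (nat_lit 205)) (XT.lf (nat_lit 0) (nat_lit 112112688122) (nat_lit 152) (nat_lit 1934050509107) (nat_lit 0) (nat_lit 111688018895) (nat_lit 1) (nat_lit 5) (nat_lit 3) (nat_lit 4) (nat_lit 1) (nat_lit 4) (nat_lit 357) (nat_lit 219) (nat_lit 204))) (XT.nd (nat_lit 78) (nat_lit 0) (nat_lit 0) (XT.lf (nat_lit 0) (nat_lit 121532031878) (nat_lit 152) (nat_lit 2087813984717) (nat_lit 0) (nat_lit 121092880824) (nat_lit 1) (nat_lit 5) (nat_lit 3) (nat_lit 4) (nat_lit 1) (nat_lit 4) (nat_lit 358) (nat_lit 219) (nat_lit 203)) (XT.lf (nat_lit 0) (nat_lit 131690933124) (nat_lit 152) (nat_lit 2253905418093) (nat_lit 0) (nat_lit 131238372970) (nat_lit 1) (nat_lit 5) (nat_lit 3) (nat_lit 4) (nat_lit 1) (nat_lit 4) (nat_lit 359) (nat_lit 219) (nat_lit 202))))) (XT.nd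 (nat_lit 234) (nat_lit 0) (nat_lit 0) (XT.nd (nat_lit 78) (nat_lit 0) (nat_lit 0) (XT.lf (nat_lit 0) (nat_lit 142649592757) (nat_lit 152) (nat_lit 2433309054766) (nat_lit 0) (nat_lit 142184616769) (nat_lit 1) (nat_lit 5) (nat_lit 3) (nat_lit 4) (nat_lit 1) (nat_lit 4) (nat_lit 360) (nat_lit 219) (nat_lit 201)) (XT.nd (nat_lit 78) (nat_lit 0) (nat_lit 0) (XT.lf (nat_lit 0) (nat_lit 154472950980) (nat_lit 152) (nat_lit 2627088027398) (nat_lit 0) (nat_lit 153996478850) (nat_lit 1) (nat_lit 5) (nat_lit 3) (nat_lit 4) (nat_lit 1) (nat_lit 4) (nat_lit 361) (nat_lit 219) (nat_lit 200)) (XT.lf (nat_lit 0) (nat_lit 167231072141) (nat_lit 152) (nat_lit 2836390655827) (nat_lit 0) (nat_lit 166743955435) (nat_lit 1) (nat_lit 5) (nat_lit 3) (nat_lit 4) (nat_lit 1) (nat_lit 4) (nat_lit 362) (nat_lit 219) (nat_lit 199)))) (XT.nd (nat_lit 156) (nat_lit 0) (nat_lit 0) (XT.nd (nat_lit 78) (nat_lit 0)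 (nat_lit 0) (XT.lf (nat_lit 0) (nat_lit 180999559918) (nat_lit 152) (nat_lit 3062457251924) (nat_lit 0) (nat_lit 180502587123) (nat_lit 1) (nat_lit 5) (nat_lit 3) (nat_lit 4) (nat_lit 1) (nat_lit 4) (nat_lit 363) (nat_lit 219) (nat_lit 198)) (XT.lf (nat_lit 0) (nat_lit 195860005352) (nat_lit 152) (nat_lit 3306627469593) (nat_lit 0) (nat_lit 195353906549) (nat_lit 1) (nat_lit 5) (nat_lit 3) (nat_lit 4) (nat_lit 1) (nat_lit 4) (nat_lit 364) (nat_lit 219) (nat_lit 197))) (XT.nd (nat_lit 78) (nat_lit 0) (nat_lit 0) (XT.lf (nat_lit 0) (nat_lit 211900470340) (nat_lit 152) (nat_lit 3570348243457) (nat_lit 0) (nat_lit 211385921529) (nat_lit 1) (nat_lit 5) (nat_lit 3) (nat_lit 4) (nat_lit 1) (nat_lit 4) (nat_lit 365) (nat_lit 219) (nat_lit 196)) (XT.lf (nat_lit 0) (nat_lit 229216009491) (nat_lit 152) (nat_lit 3855182363287) (nat_lit 0) (nat_lit 228693636599) (nat_lit 1) (nat_lit 5) (nat_lit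 3) (nat_lit 4) (nat_lit 1) (nat_lit 4) (nat_lit 366) (nat_lit 219) (nat_lit 195))))))))
noncomputable def xc3 : XT := (XT.nd (nat_lit 40560) (nat_lit 0) (nat_lit 0) (XT.nd (nat_lit 1092) (nat_lit 0) (nat_lit 0) (XT.nd (nat_lit 546) (nat_lit 0) (nat_lit 0) (XT.nd (nat_lit 234) (nat_lit 0) (nat_lit 0) (XT.nd (nat_lit 78) (nat_lit 0) (nat_lit 0) (XT.lf (nat_lit 0) (nat_lit 11892945433) (nat_lit 152) (nat_lit 268097827920) (nat_lit 0) (nat_lit 11892945433) (nat_lit 1) (nat_lit 5) (nat_lit 3) (nat_lit 4) (nat_lit 1) (nat_lit 4) (nat_lit 340) (nat_lit 220) (nat_lit 220)) (XT.nd (nat_lit 78) (nat_lit 0) (nat_lit 0) (XT.lf (nat_lit 0) (nat_lit 26618183932) (nat_lit 152) (nat_lit 577202611268) (nat_lit 0) (nat_lit 26568570020) (nat_lit 1) (nat_lit 5) (nat_lit 3) (nat_lit 4) (nat_lit 1) (nat_lit 4) (nat_lit 341) (nat_lit 220) (nat_lit 219)) (XT.lf (nat_lit 0) (nat_lit 29629131470) (nat_lit 152)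 (nat_lit 621582211500) (nat_lit 0) (nat_lit 29533578750) (nat_lit 1) (nat_lit 5) (nat_lit 3) (nat_lit 4) (nat_lit 1) (nat_lit 4) (nat_lit 342) (nat_lit 220) (nat_lit 218)))) (XT.nd (nat_lit 156) (nat_lit 0) (nat_lit 0) (XT.nd (nat_lit 78) (nat_lit 0) (nat_lit 0) (XT.lf (nat_lit 0) (nat_lit 32836576131) (nat_lit 152) (nat_lit 669597446760) (nat_lit 0) (nat_lit 32698487478) (nat_lit 1) (nat_lit 5) (nat_lit 3) (nat_lit 4) (nat_lit 1) (nat_lit 4) (nat_lit 343) (nat_lit 220) (nat_lit 217)) (XT.lf (nat_lit 0) (nat_lit 36259524995) (nat_lit 152) (nat_lit 721532851774) (nat_lit 0) (nat_lit 36082051218) (nat_lit 1) (nat_lit 5) (nat_lit 3) (nat_lit 4) (nat_lit 1) (nat_lit 4) (nat_lit 344) (nat_lit 220) (nat_lit 216))) (XT.nd (nat_lit 78) (nat_lit 0) (nat_lit 0) (XT.lf (nat_lit 0) (nat_lit 39918262204) (nat_lit 152) (nat_lit 777696191906) (nat_lit 0) (nat_lit 39704320720) (nat_lit 1) (nat_lit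 5) (nat_lit 3) (nat_lit 4) (nat_lit 1) (nat_lit 4) (nat_lit 345) (nat_lit 220) (nat_lit 215)) (XT.lf (nat_lit 0) (nat_lit 43834469162) (nat_lit 152) (nat_lit 838420286949) (nat_lit 0) (nat_lit 43586761283) (nat_lit 1) (nat_lit 5) (nat_lit 3) (nat_lit 4) (nat_lit 1) (nat_lit 4) (nat_lit 346) (nat_lit 220) (nat_lit 214))))) (XT.nd (nat_lit 234) (nat_lit 0) (nat_lit 0) (XT.nd (nat_lit 78) (nat_lit 0) (nat_lit 0) (XT.lf (nat_lit 0) (nat_lit 48031353022) (nat_lit 152) (nat_lit 904064983393) (nat_lit 0) (nat_lit 47752379963) (nat_lit 1) (nat_lit 5) (nat_lit 3) (nat_lit 4) (nat_lit 1) (nat_lit 4) (nat_lit 347) (nat_lit 220) (nat_lit 213)) (XT.nd (nat_lit 78) (nat_lit 0) (nat_lit 0) (XT.lf (nat_lit 0) (nat_lit 52533784208) (nat_lit 152) (nat_lit 975019286845) (nat_lit 0) (nat_lit 52225861907) (nat_lit 1) (nat_lit 5) (nat_lit 3) (nat_lit 4) (nat_lit 1) (nat_lit 4) (nat_lit 348) (nat_lit 220)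 (nat_lit 212)) (XT.lf (nat_lit 0) (nat_lit 57368443793) (nat_lit 152) (nat_lit 1051703667253) (nat_lit 0) (nat_lit 57033716639) (nat_lit 1) (nat_lit 5) (nat_lit 3) (nat_lit 4) (nat_lit 1) (nat_lit 4) (nat_lit 349) (nat_lit 220) (nat_lit 211)))) (XT.nd (nat_lit 156) (nat_lit 0) (nat_lit 0) (XT.nd (nat_lit 78) (nat_lit 0) (nat_lit 0) (XT.lf (nat_lit 0) (nat_lit 62563981611) (nat_lit 152) (nat_lit 1134572550574) (nat_lit 0) (nat_lit 62204435148) (nat_lit 1) (nat_lit 5) (nat_lit 3) (nat_lit 4) (nat_lit 1) (nat_lit 4) (nat_lit 350) (nat_lit 220) (nat_lit 210)) (XT.lf (nat_lit 0) (nat_lit 68151186035) (nat_lit 152) (nat_lit 1224117011672) (nat_lit 0) (nat_lit 67768658731) (nat_lit 1) (nat_lit 5) (nat_lit 3) (nat_lit 4) (nat_lit 1) (nat_lit 4) (nat_lit 351) (nat_lit 220) (nat_lit 209))) (XT.nd (nat_lit 78) (nat_lit 0) (nat_lit 0) (XT.lf (nat_lit 0) (nat_lit 74163166424) (nat_lit 152) (nat_lit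 1320867684391) (nat_lit 0) (nat_lit 73759360563) (nat_lit 1) (nat_lit 5) (nat_lit 3) (nat_lit 4) (nat_lit 1) (nat_lit 4) (nat_lit 352) (nat_lit 220) (nat_lit 208)) (XT.lf (nat_lit 0) (nat_lit 80635549328) (nat_lit 152) (nat_lit 1425397906051) (nat_lit 0) (nat_lit 80212041101) (nat_lit 1) (nat_lit 5) (nat_lit 3) (nat_lit 4) (nat_lit 1) (nat_lit 4) (nat_lit 353) (nat_lit 220) (nat_lit 207)))))) (XT.nd (nat_lit 546) (nat_lit 0) (nat_lit 0) (XT.nd (nat_lit 234) (nat_lit 0) (nat_lit 0) (XT.nd (nat_lit 78) (nat_lit 0) (nat_lit 0) (XT.lf (nat_lit 0) (nat_lit 87606689611) (nat_lit 152) (nat_lit 1538327115003) (nat_lit 0) (nat_lit 87164938450) (nat_lit 1) (nat_lit 5) (nat_lit 3) (nat_lit 4) (nat_lit 1) (nat_lit 4) (nat_lit 354) (nat_lit 220) (nat_lit 206)) (XT.nd (nat_lit 78) (nat_lit 0) (nat_lit 0) (XT.lf (nat_lit 0) (nat_lit 95117897731) (nat_lit 152) (nat_lit 1660324521373) (nat_lit 0) (nat_lit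 94659254966) (nat_lit 1) (nat_lit 5) (nat_lit 3) (nat_lit 4) (nat_lit 1) (nat_lit 4) (nat_lit 355) (nat_lit 220) (nat_lit 205)) (XT.lf (nat_lit 0) (nat_lit 103213684553) (nat_lit 152) (nat_lit 1792113072754) (nat_lit 0) (nat_lit 102739401414) (nat_lit 1) (nat_lit 5) (nat_lit 3) (nat_lit 4) (nat_lit 1) (nat_lit 4) (nat_lit 356) (nat_lit 220) (nat_lit 204)))) (XT.nd (nat_lit 156) (nat_lit 0) (nat_lit 0) (XT.nd (nat_lit 78) (nat_lit 0) (nat_lit 0) (XT.lf (nat_lit 0) (nat_lit 111942025108) (nat_lit 152) (nat_lit 1934473738341) (nat_lit 0) (nat_lit 111453260141) (nat_lit 1) (nat_lit 5) (nat_lit 3) (nat_lit 4) (nat_lit 1) (nat_lit 4) (nat_lit 357) (nat_lit 220) (nat_lit 203)) (XT.lf (nat_lit 0) (nat_lit 121354642898) (nat_lit 152) (nat_lit 2088250136892) (nat_lit 0) (nat_lit 120852468831) (nat_lit 1) (nat_lit 5) (nat_lit 3) (nat_lit 4) (nat_lit 1) (nat_lit 4) (nat_lit 358) (nat_lit 220)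 (nat_lit 202))) (XT.nd (nat_lit 78) (nat_lit 0) (nat_lit 0) (XT.lf (nat_lit 0) (nat_lit 131507316397) (nat_lit 152) (nat_lit 2254353535953) (nat_lit 0) (nat_lit 130992726497) (nat_lit 1) (nat_lit 5) (nat_lit 3) (nat_lit 4) (nat_lit 1) (nat_lit 4) (nat_lit 359) (nat_lit 220) (nat_lit 201)) (XT.lf (nat_lit 0) (nat_lit 142460209598) (nat_lit 152) (nat_lit 2433768251965) (nat_lit 0) (nat_lit 141934123555) (nat_lit 1) (nat_lit 5) (nat_lit 3) (nat_lit 4) (nat_lit 1) (nat_lit 4) (nat_lit 360) (nat_lit 220) (nat_lit 200))))) (XT.nd (nat_lit 234) (nat_lit 0) (nat_lit 0) (XT.nd (nat_lit 78) (nat_lit 0) (nat_lit 0) (XT.lf (nat_lit 0) (nat_lit 154278228532) (nat_lit 152) (nat_lit 2627557483244) (nat_lit 0) (nat_lit 153741497914) (nat_lit 1) (nat_lit 5) (nat_lit 3) (nat_lit 4) (nat_lit 1) (nat_lit 4) (nat_lit 361) (nat_lit 220) (nat_lit 199)) (XT.nd (nat_lit 78) (nat_lit 0) (nat_lit 0) (XT.lf (nat_lit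 0) (nat_lit 167031405906) (nat_lit 152) (nat_lit 2836869610420) (nat_lit 0) (nat_lit 166484819199) (nat_lit 1) (nat_lit 5) (nat_lit 3) (nat_lit 4) (nat_lit 1) (nat_lit 4) (nat_lit 362) (nat_lit 220) (nat_lit 198)) (XT.lf (nat_lit 0) (nat_lit 180795316104) (nat_lit 152) (nat_lit 3062945001654) (nat_lit 0) (nat_lit 180239603388) (nat_lit 1) (nat_lit 5) (nat_lit 3) (nat_lit 4) (nat_lit 1) (nat_lit 4) (nat_lit 363) (nat_lit 220) (nat_lit 197)))) (XT.nd (nat_lit 156) (nat_lit 0) (nat_lit 0) (XT.nd (nat_lit 78) (nat_lit 0) (nat_lit 0) (XT.lf (nat_lit 0) (nat_lit 195651523037) (nat_lit 152) (nat_lit 3307123362968) (nat_lit 0) (nat_lit 195087360314) (nat_lit 1) (nat_lit 5) (nat_lit 3) (nat_lit 4) (nat_lit 1) (nat_lit 4) (nat_lit 364) (nat_lit 220) (nat_lit 196)) (XT.lf (nat_lit 0) (nat_lit 211688063489) (nat_lit 152) (nat_lit 3570851677244) (nat_lit 0) (nat_lit 211116076684) (nat_lit 1) (nat_lit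 5) (nat_lit 3) (nat_lit 4) (nat_lit 1) (nat_lit 4) (nat_lit 365) (nat_lit 220) (nat_lit 195))) (XT.nd (nat_lit 38454) (nat_lit 0) (nat_lit 0) (XT.lf (nat_lit 0) (nat_lit 228999968809) (nat_lit 152) (nat_lit 3855692778937) (nat_lit 0) (nat_lit 228420737485) (nat_lit 1) (nat_lit 5) (nat_lit 3) (nat_lit 4) (nat_lit 1) (nat_lit 4) (nat_lit 366) (nat_lit 220) (nat_lit 194)) (XT.lf (nat_lit 0) (nat_lit 9335775831) (nat_lit 152) (nat_lit 231647284184) (nat_lit 0) (nat_lit 9335775831) (nat_lit 1) (nat_lit 5) (nat_lit 3) (nat_lit 4) (nat_lit 1) (nat_lit 4) (nat_lit 338) (nat_lit 221) (nat_lit 221))))))) (XT.nd (nat_lit 1092) (nat_lit 0) (nat_lit 0) (XT.nd (nat_lit 546) (nat_lit 0) (nat_lit 0) (XT.nd (nat_lit 234) (nat_lit 0) (nat_lit 0) (XT.nd (nat_lit 78) (nat_lit 0) (nat_lit 0) (XT.lf (nat_lit 0) (nat_lit 21169051337) (nat_lit 152) (nat_lit 498318341035) (nat_lit 0) (nat_lit 21115468312)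 (nat_lit 1) (nat_lit 5) (nat_lit 3) (nat_lit 4) (nat_lit 1) (nat_lit 4) (nat_lit 339) (nat_lit 221) (nat_lit 220)) (XT.nd (nat_lit 78) (nat_lit 0) (nat_lit 0) (XT.lf (nat_lit 0) (nat_lit 23814587693) (nat_lit 152) (nat_lit 536243470955) (nat_lit 0) (nat_lit 23711390755) (nat_lit 1) (nat_lit 5) (nat_lit 3) (nat_lit 4) (nat_lit 1) (nat_lit 4) (nat_lit 340) (nat_lit 221) (nat_lit 219)) (XT.lf (nat_lit 0) (nat_lit 26623837984) (nat_lit 152) (nat_lit 577294699638) (nat_lit 0) (nat_lit 26474702238) (nat_lit 1) (nat_lit 5) (nat_lit 3) (nat_lit 4) (nat_lit 1) (nat_lit 4) (nat_lit 341) (nat_lit 221) (nat_lit 218)))) (XT.nd (nat_lit 156) (nat_lit 0) (nat_lit 0) (XT.nd (nat_lit 78) (nat_lit 0) (nat_lit 0) (XT.lf (nat_lit 0) (nat_lit 29613449618) (nat_lit 152) (nat_lit 621715293624) (nat_lit 0) (nat_lit 29421777939) (nat_lit 1) (nat_lit 5) (nat_lit 3) (nat_lit 4) (nat_lit 1) (nat_lit 4) (nat_lit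 342) (nat_lit 221) (nat_lit 217)) (XT.lf (nat_lit 0) (nat_lit 32801138813) (nat_lit 152) (nat_lit 669768486063) (nat_lit 0) (nat_lit 32570082010) (nat_lit 1) (nat_lit 5) (nat_lit 3) (nat_lit 4) (nat_lit 1) (nat_lit 4) (nat_lit 343) (nat_lit 221) (nat_lit 216))) (XT.nd (nat_lit 78) (nat_lit 0) (nat_lit 0) (XT.lf (nat_lit 0) (nat_lit 36205795578) (nat_lit 152) (nat_lit 721739036614) (nat_lit 0) (nat_lit 35938271069) (nat_lit 1) (nat_lit 5) (nat_lit 3) (nat_lit 4) (nat_lit 1) (nat_lit 4) (nat_lit 344) (nat_lit 221) (nat_lit 215)) (XT.lf (nat_lit 0) (nat_lit 39847595658) (nat_lit 152) (nat_lit 777934918910) (nat_lit 0) (nat_lit 39546304754) (nat_lit 1) (nat_lit 5) (nat_lit 3) (nat_lit 4) (nat_lit 1) (nat_lit 4) (nat_lit 345) (nat_lit 221) (nat_lit 214))))) (XT.nd (nat_lit 234) (nat_lit 0) (nat_lit 0) (XT.nd (nat_lit 78) (nat_lit 0) (nat_lit 0) (XT.lf (nat_lit 0) (nat_lit 43748120090) (nat_lit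 152) (nat_lit 838689145586) (nat_lit 0) (nat_lit 43415564006) (nat_lit 1) (nat_lit 5) (nat_lit 3) (nat_lit 4) (nat_lit 1) (nat_lit 4) (nat_lit 346) (nat_lit 221) (nat_lit 213)) (XT.nd (nat_lit 78) (nat_lit 0) (nat_lit 0) (XT.lf (nat_lit 0) (nat_lit 47930483094) (nat_lit 152) (nat_lit 904361741690) (nat_lit 0) (nat_lit 47568977767) (nat_lit 1) (nat_lit 5) (nat_lit 3) (nat_lit 4) (nat_lit 1) (nat_lit 4) (nat_lit 347) (nat_lit 221) (nat_lit 212)) (XT.lf (nat_lit 0) (nat_lit 52419469041) (nat_lit 152) (nat_lit 975341878161) (nat_lit 0) (nat_lit 52031158861) (nat_lit 1) (nat_lit 5) (nat_lit 3) (nat_lit 4) (nat_lit 1) (nat_lit 4) (nat_lit 348) (nat_lit 221) (nat_lit 211)))) (XT.nd (nat_lit 156) (nat_lit 0) (nat_lit 0) (XT.nd (nat_lit 78) (nat_lit 0) (nat_lit 0) (XT.lf (nat_lit 0) (nat_lit 57241679331) (nat_lit 152) (nat_lit 1052050178031) (nat_lit 0) (nat_lit 56828549843) (nat_lit 1) (nat_lit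 5) (nat_lit 3) (nat_lit 4) (nat_lit 1) (nat_lit 4) (nat_lit 349) (nat_lit 221) (nat_lit 210)) (XT.lf (nat_lit 0) (nat_lit 62425690024) (nat_lit 152) (nat_lit 1134941209002) (nat_lit 0) (nat_lit 61989579695) (nat_lit 1) (nat_lit 5) (nat_lit 3) (nat_lit 4) (nat_lit 1) (nat_lit 4) (nat_lit 350) (nat_lit 221) (nat_lit 209))) (XT.nd (nat_lit 78) (nat_lit 0) (nat_lit 0) (XT.lf (nat_lit 0) (nat_lit 68002221184) (nat_lit 152) (nat_lit 1224506177183) (nat_lit 0) (nat_lit 67544832298) (nat_lit 1) (nat_lit 5) (nat_lit 3) (nat_lit 4) (nat_lit 1) (nat_lit 4) (nat_lit 351) (nat_lit 221) (nat_lit 208)) (XT.lf (nat_lit 0) (nat_lit 74004318921) (nat_lit 152) (nat_lit 1321275837943) (nat_lit 0) (nat_lit 73527227668) (nat_lit 1) (nat_lit 5) (nat_lit 3) (nat_lit 4) (nat_lit 1) (nat_lit 4) (nat_lit 352) (nat_lit 221) (nat_lit 207)))))) (XT.nd (nat_lit 546) (nat_lit 0) (nat_lit 0) (XT.nd (nat_lit 234) (nat_lit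 0) (nat_lit 0) (XT.nd (nat_lit 78) (nat_lit 0) (nat_lit 0) (XT.lf (nat_lit 0) (nat_lit 80467551223) (nat_lit 152) (nat_lit 1425823641121) (nat_lit 0) (nat_lit 79972217037) (nat_lit 1) (nat_lit 5) (nat_lit 3) (nat_lit 4) (nat_lit 1) (nat_lit 4) (nat_lit 353) (nat_lit 221) (nat_lit 206)) (XT.nd (nat_lit 78) (nat_lit 0) (nat_lit 0) (XT.lf (nat_lit 0) (nat_lit 87430218724) (nat_lit 152) (nat_lit 1538769129256) (nat_lit 0) (nat_lit 86917992934) (nat_lit 1) (nat_lit 5) (nat_lit 3) (nat_lit 4) (nat_lit 1) (nat_lit 4) (nat_lit 354) (nat_lit 221) (nat_lit 205)) (XT.lf (nat_lit 0) (nat_lit 94933581677) (nat_lit 152) (nat_lit 1660781608944) (nat_lit 0) (nat_lit 94405715512) (nat_lit 1) (nat_lit 5) (nat_lit 3) (nat_lit 4) (nat_lit 1) (nat_lit 4) (nat_lit 355) (nat_lit 221) (nat_lit 204)))) (XT.nd (nat_lit 156) (nat_lit 0) (nat_lit 0) (XT.nd (nat_lit 78) (nat_lit 0) (nat_lit 0) (XT.lf (nat_lit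 0) (nat_lit 103022104454) (nat_lit 152) (nat_lit 1792584117102) (nat_lit 0) (nat_lit 102479756462) (nat_lit 1) (nat_lit 5) (nat_lit 3) (nat_lit 4) (nat_lit 1) (nat_lit 4) (nat_lit 356) (nat_lit 221) (nat_lit 203)) (XT.lf (nat_lit 0) (nat_lit 111743719043) (nat_lit 152) (nat_lit 1934957705630) (nat_lit 0) (nat_lit 111187961951) (nat_lit 1) (nat_lit 5) (nat_lit 3) (nat_lit 4) (nat_lit 1) (nat_lit 4) (nat_lit 357) (nat_lit 221) (nat_lit 202))) (XT.nd (nat_lit 78) (nat_lit 0) (nat_lit 0) (XT.lf (nat_lit 0) (nat_lit 121150109086) (nat_lit 152) (nat_lit 2088746069867) (nat_lit 0) (nat_lit 120581936160) (nat_lit 1) (nat_lit 5) (nat_lit 3) (nat_lit 4) (nat_lit 1) (nat_lit 4) (nat_lit 358) (nat_lit 221) (nat_lit 201)) (XT.lf (nat_lit 0) (nat_lit 131297016153) (nat_lit 152) (nat_lit 2254860548268) (nat_lit 0) (nat_lit 130717347085) (nat_lit 1) (nat_lit 5) (nat_lit 3) (nat_lit 4) (nat_lit 1)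 (nat_lit 4) (nat_lit 359) (nat_lit 221) (nat_lit 200))))) (XT.nd (nat_lit 312) (nat_lit 0) (nat_lit 0) (XT.nd (nat_lit 156) (nat_lit 0) (nat_lit 0) (XT.nd (nat_lit 78) (nat_lit 0) (nat_lit 0) (XT.lf (nat_lit 0) (nat_lit 142244570064) (nat_lit 152) (nat_lit 2434285522927) (nat_lit 0) (nat_lit 141654256420) (nat_lit 1) (nat_lit 5) (nat_lit 3) (nat_lit 4) (nat_lit 1) (nat_lit 4) (nat_lit 360) (nat_lit 221) (nat_lit 199)) (XT.lf (nat_lit 0) (nat_lit 154057645213) (nat_lit 152) (nat_lit 2628084252953) (nat_lit 0) (nat_lit 153457475480) (nat_lit 1) (nat_lit 5) (nat_lit 3) (nat_lit 4) (nat_lit 1) (nat_lit 4) (nat_lit 361) (nat_lit 221) (nat_lit 198))) (XT.nd (nat_lit 78) (nat_lit 0) (nat_lit 0) (XT.lf (nat_lit 0) (nat_lit 166806245007) (nat_lit 152) (nat_lit 2837405175266) (nat_lit 0) (nat_lit 166196949265) (nat_lit 1) (nat_lit 5) (nat_lit 3) (nat_lit 4) (nat_lit 1) (nat_lit 4) (nat_lit 362)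 (nat_lit 221) (nat_lit 197)) (XT.lf (nat_lit 0) (nat_lit 180565916704) (nat_lit 152) (nat_lit 3063488710145) (nat_lit 0) (nat_lit 179948170956) (nat_lit 1) (nat_lit 5) (nat_lit 3) (nat_lit 4) (nat_lit 1) (nat_lit 4) (nat_lit 363) (nat_lit 221) (nat_lit 196)))) (XT.nd (nat_lit 156) (nat_lit 0) (nat_lit 0) (XT.nd (nat_lit 78) (nat_lit 0) (nat_lit 0) (XT.lf (nat_lit 0) (nat_lit 195418199101) (nat_lit 152) (nat_lit 3307674611870) (nat_lit 0) (nat_lit 194792629271) (nat_lit 1) (nat_lit 5) (nat_lit 3) (nat_lit 4) (nat_lit 1) (nat_lit 4) (nat_lit 364) (nat_lit 221) (nat_lit 195)) (XT.lf (nat_lit 0) (nat_lit 211451105722) (nat_lit 152) (nat_lit 3571409908009) (nat_lit 0) (nat_lit 210818291373) (nat_lit 1) (nat_lit 5) (nat_lit 3) (nat_lit 4) (nat_lit 1) (nat_lit 4) (nat_lit 365) (nat_lit 221) (nat_lit 194))) (XT.nd (nat_lit 38298) (nat_lit 0) (nat_lit 0) (XT.lf (nat_lit 0) (nat_lit 228759646384)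 (nat_lit 152) (nat_lit 3856257474390) (nat_lit 0) (nat_lit 228120124146) (nat_lit 1) (nat_lit 5) (nat_lit 3) (nat_lit 4) (nat_lit 1) (nat_lit 4) (nat_lit 366) (nat_lit 221) (nat_lit 193)) (XT.lf (nat_lit 0) (nat_lit 7074574424) (nat_lit 152) (nat_lit 200540546711) (nat_lit 0) (nat_lit 7074574424) (nat_lit 1) (nat_lit 5) (nat_lit 3) (nat_lit 4) (nat_lit 1) (nat_lit 4) (nat_lit 336) (nat_lit 222) (nat_lit 222))))))))
noncomputable def xc4 : XT := (XT.nd (nat_lit 2184) (nat_lit 0) (nat_lit 0) (XT.nd (nat_lit 1092) (nat_lit 0) (nat_lit 0) (XT.nd (nat_lit 546) (nat_lit 0) (nat_lit 0) (XT.nd (nat_lit 234) (nat_lit 0) (nat_lit 0) (XT.nd (nat_lit 78) (nat_lit 0) (nat_lit 0) (XT.lf (nat_lit 0) (nat_lit 16365158341) (nat_lit 152) (nat_lit 430964604670) (nat_lit 0) (nat_lit 16307288673) (nat_lit 1) (nat_lit 5) (nat_lit 3) (nat_lit 4) (nat_lit 1) (nat_lit 4) (nat_lit 337) (nat_lit 222) (nat_lit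 221)) (XT.nd (nat_lit 78) (nat_lit 0) (nat_lit 0) (XT.lf (nat_lit 0) (nat_lit 18702544237) (nat_lit 152) (nat_lit 463346208692) (nat_lit 0) (nat_lit 18591091544) (nat_lit 1) (nat_lit 5) (nat_lit 3) (nat_lit 4) (nat_lit 1) (nat_lit 4) (nat_lit 338) (nat_lit 222) (nat_lit 220)) (XT.lf (nat_lit 0) (nat_lit 21175157713) (nat_lit 152) (nat_lit 498417796474) (nat_lit 0) (nat_lit 21014091107) (nat_lit 1) (nat_lit 5) (nat_lit 3) (nat_lit 4) (nat_lit 1) (nat_lit 4) (nat_lit 339) (nat_lit 222) (nat_lit 219)))) (XT.nd (nat_lit 156) (nat_lit 0) (nat_lit 0) (XT.nd (nat_lit 78) (nat_lit 0) (nat_lit 0) (XT.lf (nat_lit 0) (nat_lit 23797651293) (nat_lit 152) (nat_lit 536387199648) (nat_lit 0) (nat_lit 23590645880) (nat_lit 1) (nat_lit 5) (nat_lit 3) (nat_lit 4) (nat_lit 1) (nat_lit 4) (nat_lit 340) (nat_lit 222) (nat_lit 218)) (XT.lf (nat_lit 0) (nat_lit 26585565680) (nat_lit 152) (nat_lit 577479422086)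 (nat_lit 0) (nat_lit 26336024333) (nat_lit 1) (nat_lit 5) (nat_lit 3) (nat_lit 4) (nat_lit 1) (nat_lit 4) (nat_lit 341) (nat_lit 222) (nat_lit 217))) (XT.nd (nat_lit 78) (nat_lit 0) (nat_lit 0) (XT.lf (nat_lit 0) (nat_lit 29555421847) (nat_lit 152) (nat_lit 621937973252) (nat_lit 0) (nat_lit 29266495378) (nat_lit 1) (nat_lit 5) (nat_lit 3) (nat_lit 4) (nat_lit 1) (nat_lit 4) (nat_lit 342) (nat_lit 222) (nat_lit 216)) (XT.lf (nat_lit 0) (nat_lit 32724818944) (nat_lit 152) (nat_lit 670026311228) (nat_lit 0) (nat_lit 32399424767) (nat_lit 1) (nat_lit 5) (nat_lit 3) (nat_lit 4) (nat_lit 1) (nat_lit 4) (nat_lit 343) (nat_lit 222) (nat_lit 215))))) (XT.nd (nat_lit 234) (nat_lit 0) (nat_lit 0) (XT.nd (nat_lit 78) (nat_lit 0) (nat_lit 0) (XT.lf (nat_lit 0) (nat_lit 36112538581) (nat_lit 152) (nat_lit 722029403942) (nat_lit 0) (nat_lit 35753378009) (nat_lit 1) (nat_lit 5) (nat_lit 3) (nat_lit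 4) (nat_lit 1) (nat_lit 4) (nat_lit 344) (nat_lit 222) (nat_lit 214)) (XT.nd (nat_lit 78) (nat_lit 0) (nat_lit 0) (XT.lf (nat_lit 0) (nat_lit 39738656135) (nat_lit 152) (nat_lit 778255417871) (nat_lit 0) (nat_lit 39348230383) (nat_lit 1) (nat_lit 5) (nat_lit 3) (nat_lit 4) (nat_lit 1) (nat_lit 4) (nat_lit 345) (nat_lit 222) (nat_lit 213)) (XT.lf (nat_lit 0) (nat_lit 43624659710) (nat_lit 152) (nat_lit 839037544208) (nat_lit 0) (nat_lit 43205284716) (nat_lit 1) (nat_lit 5) (nat_lit 3) (nat_lit 4) (nat_lit 1) (nat_lit 4) (nat_lit 346) (nat_lit 222) (nat_lit 212)))) (XT.nd (nat_lit 156) (nat_lit 0) (nat_lit 0) (XT.nd (nat_lit 78) (nat_lit 0) (nat_lit 0) (XT.lf (nat_lit 0) (nat_lit 47793577474) (nat_lit 152) (nat_lit 904735973331) (nat_lit 0) (nat_lit 47347397627) (nat_lit 1) (nat_lit 5) (nat_lit 3) (nat_lit 4) (nat_lit 1) (nat_lit 4) (nat_lit 347) (nat_lit 222) (nat_lit 211)) (XT.lf (nat_lit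 0) (nat_lit 52270114127) (nat_lit 152) (nat_lit 975740029264) (nat_lit 0) (nat_lit 51799114971) (nat_lit 1) (nat_lit 5) (nat_lit 3) (nat_lit 4) (nat_lit 1) (nat_lit 4) (nat_lit 348) (nat_lit 222) (nat_lit 210))) (XT.nd (nat_lit 78) (nat_lit 0) (nat_lit 0) (XT.lf (nat_lit 0) (nat_lit 57080797292) (nat_lit 152) (nat_lit 1052470476783) (nat_lit 0) (nat_lit 56586817295) (nat_lit 1) (nat_lit 5) (nat_lit 3) (nat_lit 4) (nat_lit 1) (nat_lit 4) (nat_lit 349) (nat_lit 222) (nat_lit 209)) (XT.lf (nat_lit 0) (nat_lit 62254134721) (nat_lit 152) (nat_lit 1135382014837) (nat_lit 0) (nat_lit 61738876168) (nat_lit 1) (nat_lit 5) (nat_lit 3) (nat_lit 4) (nat_lit 1) (nat_lit 4) (nat_lit 350) (nat_lit 222) (nat_lit 208)))))) (XT.nd (nat_lit 546) (nat_lit 0) (nat_lit 0) (XT.nd (nat_lit 234) (nat_lit 0) (nat_lit 0) (XT.nd (nat_lit 78) (nat_lit 0) (nat_lit 0) (XT.lf (nat_lit 0) (nat_lit 67820783229) (nat_lit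 152) (nat_lit 1224965971059) (nat_lit 0) (nat_lit 67285822309) (nat_lit 1) (nat_lit 5) (nat_lit 3) (nat_lit 4) (nat_lit 1) (nat_lit 4) (nat_lit 351) (nat_lit 222) (nat_lit 207)) (XT.nd (nat_lit 78) (nat_lit 0) (nat_lit 0) (XT.lf (nat_lit 0) (nat_lit 73813730363) (nat_lit 152) (nat_lit 1321753213336) (nat_lit 0) (nat_lit 73260526510) (nat_lit 1) (nat_lit 5) (nat_lit 3) (nat_lit 4) (nat_lit 1) (nat_lit 4) (nat_lit 352) (nat_lit 222) (nat_lit 206)) (XT.lf (nat_lit 0) (nat_lit 80268489884) (nat_lit 152) (nat_lit 1426317295699) (nat_lit 0) (nat_lit 79698394426) (nat_lit 1) (nat_lit 5) (nat_lit 3) (nat_lit 4) (nat_lit 1) (nat_lit 4) (nat_lit 353) (nat_lit 222) (nat_lit 205)))) (XT.nd (nat_lit 156) (nat_lit 0) (nat_lit 0) (XT.nd (nat_lit 78) (nat_lit 0) (nat_lit 0) (XT.lf (nat_lit 0) (nat_lit 87223312218) (nat_lit 152) (nat_lit 1539277857152) (nat_lit 0) (nat_lit 86637576386) (nat_lit 1)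 (nat_lit 5) (nat_lit 3) (nat_lit 4) (nat_lit 1) (nat_lit 4) (nat_lit 354) (nat_lit 222) (nat_lit 204)) (XT.lf (nat_lit 0) (nat_lit 94719411126) (nat_lit 152) (nat_lit 1661304293617) (nat_lit 0) (nat_lit 94119193466) (nat_lit 1) (nat_lit 5) (nat_lit 3) (nat_lit 4) (nat_lit 1) (nat_lit 4) (nat_lit 355) (nat_lit 222) (nat_lit 203))) (XT.nd (nat_lit 78) (nat_lit 0) (nat_lit 0) (XT.lf (nat_lit 0) (nat_lit 102801207937) (nat_lit 152) (nat_lit 1793119724716) (nat_lit 0) (nat_lit 102187581177) (nat_lit 1) (nat_lit 5) (nat_lit 3) (nat_lit 4) (nat_lit 1) (nat_lit 4) (nat_lit 356) (nat_lit 222) (nat_lit 202)) (XT.lf (nat_lit 0) (nat_lit 111516594780) (nat_lit 152) (nat_lit 1935505278929) (nat_lit 0) (nat_lit 110890552186) (nat_lit 1) (nat_lit 5) (nat_lit 3) (nat_lit 4) (nat_lit 1) (nat_lit 4) (nat_lit 357) (nat_lit 222) (nat_lit 201))))) (XT.nd (nat_lit 234) (nat_lit 0) (nat_lit 0) (XT.nd (nat_lit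 78) (nat_lit 0) (nat_lit 0) (XT.lf (nat_lit 0) (nat_lit 120917218390) (nat_lit 152) (nat_lit 2089304722505) (nat_lit 0) (nat_lit 120279679655) (nat_lit 1) (nat_lit 5) (nat_lit 3) (nat_lit 4) (nat_lit 1) (nat_lit 4) (nat_lit 358) (nat_lit 222) (nat_lit 200)) (XT.nd (nat_lit 78) (nat_lit 0) (nat_lit 0) (XT.lf (nat_lit 0) (nat_lit 131058786168) (nat_lit 152) (nat_lit 2255429459553) (nat_lit 0) (nat_lit 130410602857) (nat_lit 1) (nat_lit 5) (nat_lit 3) (nat_lit 4) (nat_lit 1) (nat_lit 4) (nat_lit 359) (nat_lit 222) (nat_lit 199)) (XT.lf (nat_lit 0) (nat_lit 142001396293) (nat_lit 152) (nat_lit 2434863932960) (nat_lit 0) (nat_lit 141343356892) (nat_lit 1) (nat_lit 5) (nat_lit 3) (nat_lit 4) (nat_lit 1) (nat_lit 4) (nat_lit 360) (nat_lit 222) (nat_lit 198)))) (XT.nd (nat_lit 156) (nat_lit 0) (nat_lit 0) (XT.nd (nat_lit 78) (nat_lit 0) (nat_lit 0) (XT.lf (nat_lit 0) (nat_lit 153809893861)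 (nat_lit 152) (nat_lit 2628671458123) (nat_lit 0) (nat_lit 153142728452) (nat_lit 1) (nat_lit 5) (nat_lit 3) (nat_lit 4) (nat_lit 1) (nat_lit 4) (nat_lit 361) (nat_lit 222) (nat_lit 197)) (XT.lf (nat_lit 0) (nat_lit 166554255155) (nat_lit 152) (nat_lit 2838000524080) (nat_lit 0) (nat_lit 165878639739) (nat_lit 1) (nat_lit 5) (nat_lit 3) (nat_lit 4) (nat_lit 1) (nat_lit 4) (nat_lit 362) (nat_lit 222) (nat_lit 196))) (XT.nd (nat_lit 78) (nat_lit 0) (nat_lit 0) (XT.lf (nat_lit 0) (nat_lit 180310002316) (nat_lit 152) (nat_lit 3064091599371) (nat_lit 0) (nat_lit 179626562819) (nat_lit 1) (nat_lit 5) (nat_lit 3) (nat_lit 4) (nat_lit 1) (nat_lit 4) (nat_lit 363) (nat_lit 222) (nat_lit 195)) (XT.lf (nat_lit 0) (nat_lit 195158650882) (nat_lit 152) (nat_lit 3308284482960) (nat_lit 0) (nat_lit 194467966865) (nat_lit 1) (nat_lit 5) (nat_lit 3) (nat_lit 4) (nat_lit 1) (nat_lit 4) (nat_lit 364)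 (nat_lit 222) (nat_lit 194))))))) (XT.nd (nat_lit 39156) (nat_lit 0) (nat_lit 0) (XT.nd (nat_lit 38610) (nat_lit 0) (nat_lit 0) (XT.nd (nat_lit 38298) (nat_lit 0) (nat_lit 0) (XT.nd (nat_lit 78) (nat_lit 0) (nat_lit 0) (XT.lf (nat_lit 0) (nat_lit 211188192845) (nat_lit 152) (nat_lit 3572026243786) (nat_lit 0) (nat_lit 210490800940) (nat_lit 1) (nat_lit 5) (nat_lit 3) (nat_lit 4) (nat_lit 1) (nat_lit 4) (nat_lit 365) (nat_lit 222) (nat_lit 193)) (XT.nd (nat_lit 38142) (nat_lit 0) (nat_lit 0) (XT.lf (nat_lit 0) (nat_lit 228493618084) (nat_lit 152) (nat_lit 3856879795989) (nat_lit 0) (nat_lit 227790015171) (nat_lit 1) (nat_lit 5) (nat_lit 3) (nat_lit 4) (nat_lit 1) (nat_lit 4) (nat_lit 366) (nat_lit 222) (nat_lit 192)) (XT.lf (nat_lit 0) (nat_lit 5061610788) (nat_lit 152) (nat_lit 174026760092) (nat_lit 0) (nat_lit 5061610788) (nat_lit 1) (nat_lit 5) (nat_lit 3) (nat_lit 4) (nat_lit 1)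 (nat_lit 4) (nat_lit 334) (nat_lit 223) (nat_lit 223)))) (XT.nd (nat_lit 156) (nat_lit 0) (nat_lit 0) (XT.nd (nat_lit 78) (nat_lit 0) (nat_lit 0) (XT.lf (nat_lit 0) (nat_lit 12103883093) (nat_lit 152) (nat_lit 373518587475) (nat_lit 0) (nat_lit 12041383852) (nat_lit 1) (nat_lit 5) (nat_lit 3) (nat_lit 4) (nat_lit 1) (nat_lit 4) (nat_lit 335) (nat_lit 223) (nat_lit 222)) (XT.lf (nat_lit 0) (nat_lit 14182620828) (nat_lit 152) (nat_lit 401136864973) (nat_lit 0) (nat_lit 14062251920) (nat_lit 1) (nat_lit 5) (nat_lit 3) (nat_lit 4) (nat_lit 1) (nat_lit 4) (nat_lit 336) (nat_lit 223) (nat_lit 221))) (XT.nd (nat_lit 78) (nat_lit 0) (nat_lit 0) (XT.lf (nat_lit 0) (nat_lit 16371753226) (nat_lit 152) (nat_lit 431072016544) (nat_lit 0) (nat_lit 16197801292) (nat_lit 1) (nat_lit 5) (nat_lit 3) (nat_lit 4) (nat_lit 1) (nat_lit 4) (nat_lit 337) (nat_lit 223) (nat_lit 220)) (XT.lf (nat_lit 0) (nat_lit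 18684252924) (nat_lit 152) (nat_lit 463501435681) (nat_lit 0) (nat_lit 18460687078) (nat_lit 1) (nat_lit 5) (nat_lit 3) (nat_lit 4) (nat_lit 1) (nat_lit 4) (nat_lit 338) (nat_lit 223) (nat_lit 219))))) (XT.nd (nat_lit 234) (nat_lit 0) (nat_lit 0) (XT.nd (nat_lit 78) (nat_lit 0) (nat_lit 0) (XT.lf (nat_lit 0) (nat_lit 21133823624) (nat_lit 152) (nat_lit 498617296718) (nat_lit 0) (nat_lit 20864318970) (nat_lit 1) (nat_lit 5) (nat_lit 3) (nat_lit 4) (nat_lit 1) (nat_lit 4) (nat_lit 339) (nat_lit 223) (nat_lit 218)) (XT.nd (nat_lit 78) (nat_lit 0) (nat_lit 0) (XT.lf (nat_lit 0) (nat_lit 23734981301) (nat_lit 152) (nat_lit 536627693646) (nat_lit 0) (nat_lit 23422940713) (nat_lit 1) (nat_lit 5) (nat_lit 3) (nat_lit 4) (nat_lit 1) (nat_lit 4) (nat_lit 340) (nat_lit 223) (nat_lit 217)) (XT.lf (nat_lit 0) (nat_lit 26503140221) (nat_lit 152) (nat_lit 577757873263) (nat_lit 0) (nat_lit 26151714511)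 (nat_lit 1) (nat_lit 5) (nat_lit 3) (nat_lit 4) (nat_lit 1) (nat_lit 4) (nat_lit 341) (nat_lit 223) (nat_lit 216)))) (XT.nd (nat_lit 156) (nat_lit 0) (nat_lit 0) (XT.nd (nat_lit 78) (nat_lit 0) (nat_lit 0) (XT.lf (nat_lit 0) (nat_lit 29454704291) (nat_lit 152) (nat_lit 622251569966) (nat_lit 0) (nat_lit 29066810873) (nat_lit 1) (nat_lit 5) (nat_lit 3) (nat_lit 4) (nat_lit 1) (nat_lit 4) (nat_lit 342) (nat_lit 223) (nat_lit 215)) (XT.lf (nat_lit 0) (nat_lit 32607164259) (nat_lit 152) (nat_lit 670372450106) (nat_lit 0) (nat_lit 32185504446) (nat_lit 1) (nat_lit 5) (nat_lit 3) (nat_lit 4) (nat_lit 1) (nat_lit 4) (nat_lit 343) (nat_lit 223) (nat_lit 214))) (XT.nd (nat_lit 78) (nat_lit 0) (nat_lit 0) (XT.lf (nat_lit 0) (nat_lit 35979201370) (nat_lit 152) (nat_lit 722405674454) (nat_lit 0) (nat_lit 35526276376) (nat_lit 1) (nat_lit 5) (nat_lit 3) (nat_lit 4) (nat_lit 1) (nat_lit 4) (nat_lit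 344) (nat_lit 223) (nat_lit 213)) (XT.lf (nat_lit 0) (nat_lit 39590798066) (nat_lit 152) (nat_lit 778659588043) (nat_lit 0) (nat_lit 39108923832) (nat_lit 1) (nat_lit 5) (nat_lit 3) (nat_lit 4) (nat_lit 1) (nat_lit 4) (nat_lit 345) (nat_lit 223) (nat_lit 212)))))) (XT.nd (nat_lit 546) (nat_lit 0) (nat_lit 0) (XT.nd (nat_lit 234) (nat_lit 0) (nat_lit 0) (XT.nd (nat_lit 78) (nat_lit 0) (nat_lit 0) (XT.lf (nat_lit 0) (nat_lit 43463356402) (nat_lit 152) (nat_lit 839467547398) (nat_lit 0) (nat_lit 42954677315) (nat_lit 1) (nat_lit 5) (nat_lit 3) (nat_lit 4) (nat_lit 1) (nat_lit 4) (nat_lit 346) (nat_lit 223) (nat_lit 211)) (XT.nd (nat_lit 78) (nat_lit 0) (nat_lit 0) (XT.lf (nat_lit 0) (nat_lit 47619824872) (nat_lit 152) (nat_lit 905189895983) (nat_lit 0) (nat_lit 47086326476) (nat_lit 1) (nat_lit 5) (nat_lit 3) (nat_lit 4) (nat_lit 1) (nat_lit 4) (nat_lit 347) (nat_lit 223) (nat_lit 210))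 (XT.lf (nat_lit 0) (nat_lit 52084834400) (nat_lit 152) (nat_lit 976216099566) (nat_lit 0) (nat_lit 51528355162) (nat_lit 1) (nat_lit 5) (nat_lit 3) (nat_lit 4) (nat_lit 1) (nat_lit 4) (nat_lit 348) (nat_lit 223) (nat_lit 209)))) (XT.nd (nat_lit 156) (nat_lit 0) (nat_lit 0) (XT.nd (nat_lit 78) (nat_lit 0) (nat_lit 0) (XT.lf (nat_lit 0) (nat_lit 56884844301) (nat_lit 152) (nat_lit 1052967054168) (nat_lit 0) (nat_lit 56307086507) (nat_lit 1) (nat_lit 5) (nat_lit 3) (nat_lit 4) (nat_lit 1) (nat_lit 4) (nat_lit 349) (nat_lit 223) (nat_lit 208)) (XT.lf (nat_lit 0) (nat_lit 62048299079) (nat_lit 152) (nat_lit 1135897580262) (nat_lit 0) (nat_lit 61450838917) (nat_lit 1) (nat_lit 5) (nat_lit 3) (nat_lit 4) (nat_lit 1) (nat_lit 4) (nat_lit 350) (nat_lit 223) (nat_lit 207))) (XT.nd (nat_lit 78) (nat_lit 0) (nat_lit 0) (XT.lf (nat_lit 0) (nat_lit 67605796984) (nat_lit 152) (nat_lit 1225499118003)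 (nat_lit 0) (nat_lit 66990093889) (nat_lit 1) (nat_lit 5) (nat_lit 3) (nat_lit 4) (nat_lit 1) (nat_lit 4) (nat_lit 351) (nat_lit 223) (nat_lit 206)) (XT.lf (nat_lit 0) (nat_lit 73590271337) (nat_lit 152) (nat_lit 1322302639464) (nat_lit 0) (nat_lit 72957676638) (nat_lit 1) (nat_lit 5) (nat_lit 3) (nat_lit 4) (nat_lit 1) (nat_lit 4) (nat_lit 352) (nat_lit 223) (nat_lit 205))))) (XT.nd (nat_lit 234) (nat_lit 0) (nat_lit 0) (XT.nd (nat_lit 78) (nat_lit 0) (nat_lit 0) (XT.lf (nat_lit 0) (nat_lit 80037185690) (nat_lit 152) (nat_lit 1426881795145) (nat_lit 0) (nat_lit 79388950617) (nat_lit 1) (nat_lit 5) (nat_lit 3) (nat_lit 4) (nat_lit 1) (nat_lit 4) (nat_lit 353) (nat_lit 223) (nat_lit 204)) (XT.nd (nat_lit 78) (nat_lit 0) (nat_lit 0) (XT.lf (nat_lit 0) (nat_lit 86984743979) (nat_lit 152) (nat_lit 1539856313375) (nat_lit 0) (nat_lit 86322027078) (nat_lit 1) (nat_lit 5) (nat_lit 3) (nat_lit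 4) (nat_lit 1) (nat_lit 4) (nat_lit 354) (nat_lit 223) (nat_lit 203)) (XT.lf (nat_lit 0) (nat_lit 94474116922) (nat_lit 152) (nat_lit 1661895672780) (nat_lit 0) (nat_lit 93797990921) (nat_lit 1) (nat_lit 5) (nat_lit 3) (nat_lit 4) (nat_lit 1) (nat_lit 4) (nat_lit 355) (nat_lit 223) (nat_lit 202)))) (XT.nd (nat_lit 156) (nat_lit 0) (nat_lit 0) (XT.nd (nat_lit 78) (nat_lit 0) (nat_lit 0) (XT.lf (nat_lit 0) (nat_lit 102549685986) (nat_lit 152) (nat_lit 1793723069565) (nat_lit 0) (nat_lit 101861144151) (nat_lit 1) (nat_lit 5) (nat_lit 3) (nat_lit 4) (nat_lit 1) (nat_lit 4) (nat_lit 356) (nat_lit 223) (nat_lit 201)) (XT.lf (nat_lit 0) (nat_lit 111259306396) (nat_lit 152) (nat_lit 1936119703118) (nat_lit 0) (nat_lit 110559268419) (nat_lit 1) (nat_lit 5) (nat_lit 3) (nat_lit 4) (nat_lit 1) (nat_lit 4) (nat_lit 357) (nat_lit 223) (nat_lit 200))) (XT.nd (nat_lit 78) (nat_lit 0) (nat_lit 0)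 (XT.lf (nat_lit 0) (nat_lit 120654590717) (nat_lit 152) (nat_lit 2089929405341) (nat_lit 0) (nat_lit 119943908165) (nat_lit 1) (nat_lit 5) (nat_lit 3) (nat_lit 4) (nat_lit 1) (nat_lit 4) (nat_lit 358) (nat_lit 223) (nat_lit 199)) (XT.lf (nat_lit 0) (nat_lit 130791214709) (nat_lit 152) (nat_lit 2256063641136) (nat_lit 0) (nat_lit 130070676067) (nat_lit 1) (nat_lit 5) (nat_lit 3) (nat_lit 4) (nat_lit 1) (nat_lit 4) (nat_lit 359) (nat_lit 223) (nat_lit 198))))))))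
noncomputable def xc5 : XT := (XT.nd (nat_lit 40092) (nat_lit 0) (nat_lit 0) (XT.nd (nat_lit 39000) (nat_lit 0) (nat_lit 0) (XT.nd (nat_lit 38454) (nat_lit 0) (nat_lit 0) (XT.nd (nat_lit 234) (nat_lit 0) (nat_lit 0) (XT.nd (nat_lit 78) (nat_lit 0) (nat_lit 0) (XT.lf (nat_lit 0) (nat_lit 141729247253) (nat_lit 152) (nat_lit 2435506909679) (nat_lit 0) (nat_lit 140999582604) (nat_lit 1) (nat_lit 5) (nat_lit 3) (nat_lit 4) (nat_lit 1) (nat_lit 4) (nat_lit 360) (nat_lit 223) (nat_lit 197)) (XT.nd (nat_lit 78) (nat_lit 0) (nat_lit 0) (XT.lf (nat_lit 0) (nat_lit 153533506322) (nat_lit 152) (nat_lit 2629322578487) (nat_lit 0) (nat_lit 152795391665) (nat_lit 1) (nat_lit 5) (nat_lit 3) (nat_lit 4) (nat_lit 1) (nat_lit 4) (nat_lit 361) (nat_lit 223) (nat_lit 196)) (XT.lf (nat_lit 0) (nat_lit 166273943079) (nat_lit 152) (nat_lit 2838659184856) (nat_lit 0) (nat_lit 165528004341) (nat_lit 1) (nat_lit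 5) (nat_lit 3) (nat_lit 4) (nat_lit 1) (nat_lit 4) (nat_lit 362) (nat_lit 223) (nat_lit 195)))) (XT.nd (nat_lit 156) (nat_lit 0) (nat_lit 0) (XT.nd (nat_lit 78) (nat_lit 0) (nat_lit 0) (XT.lf (nat_lit 0) (nat_lit 180026056409) (nat_lit 152) (nat_lit 3064757242010) (nat_lit 0) (nat_lit 179272873152) (nat_lit 1) (nat_lit 5) (nat_lit 3) (nat_lit 4) (nat_lit 1) (nat_lit 4) (nat_lit 363) (nat_lit 223) (nat_lit 194)) (XT.lf (nat_lit 0) (nat_lit 194871340318) (nat_lit 152) (nat_lit 3308956590287) (nat_lit 0) (nat_lit 194111449171) (nat_lit 1) (nat_lit 5) (nat_lit 3) (nat_lit 4) (nat_lit 1) (nat_lit 4) (nat_lit 364) (nat_lit 223) (nat_lit 193))) (XT.nd (nat_lit 78) (nat_lit 0) (nat_lit 0) (XT.lf (nat_lit 0) (nat_lit 210897766857) (nat_lit 152) (nat_lit 3572704336935) (nat_lit 0) (nat_lit 210131664703) (nat_lit 1) (nat_lit 5) (nat_lit 3) (nat_lit 4) (nat_lit 1) (nat_lit 4) (nat_lit 365) (nat_lit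 223) (nat_lit 192)) (XT.lf (nat_lit 0) (nat_lit 228200307444) (nat_lit 152) (nat_lit 3857563431566) (nat_lit 0) (nat_lit 227428454356) (nat_lit 1) (nat_lit 5) (nat_lit 3) (nat_lit 4) (nat_lit 1) (nat_lit 4) (nat_lit 366) (nat_lit 223) (nat_lit 191))))) (XT.nd (nat_lit 234) (nat_lit 0) (nat_lit 0) (XT.nd (nat_lit 78) (nat_lit 0) (nat_lit 0) (XT.lf (nat_lit 0) (nat_lit 3255523198) (nat_lit 152) (nat_lit 151463106698) (nat_lit 0) (nat_lit 3255523198) (nat_lit 1) (nat_lit 5) (nat_lit 3) (nat_lit 4) (nat_lit 1) (nat_lit 4) (nat_lit 332) (nat_lit 224) (nat_lit 224)) (XT.nd (nat_lit 78) (nat_lit 0) (nat_lit 0) (XT.lf (nat_lit 0) (nat_lit 8296398203) (nat_lit 152) (nat_lit 324590758999) (nat_lit 0) (nat_lit 8228899023) (nat_lit 1) (nat_lit 5) (nat_lit 3) (nat_lit 4) (nat_lit 1) (nat_lit 4) (nat_lit 333) (nat_lit 224) (nat_lit 223)) (XT.lf (nat_lit 0) (nat_lit 10159371314) (nat_lit 152) (nat_lit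 348113753458) (nat_lit 0) (nat_lit 10029372893) (nat_lit 1) (nat_lit 5) (nat_lit 3) (nat_lit 4) (nat_lit 1) (nat_lit 4) (nat_lit 334) (nat_lit 224) (nat_lit 222)))) (XT.nd (nat_lit 156) (nat_lit 0) (nat_lit 0) (XT.nd (nat_lit 78) (nat_lit 0) (nat_lit 0) (XT.lf (nat_lit 0) (nat_lit 12111005570) (nat_lit 152) (nat_lit 373634592299) (nat_lit 0) (nat_lit 11923137481) (nat_lit 1) (nat_lit 5) (nat_lit 3) (nat_lit 4) (nat_lit 1) (nat_lit 4) (nat_lit 335) (nat_lit 224) (nat_lit 221)) (XT.lf (nat_lit 0) (nat_lit 14162866211) (nat_lit 152) (nat_lit 401304510121) (nat_lit 0) (nat_lit 13921415096) (nat_lit 1) (nat_lit 5) (nat_lit 3) (nat_lit 4) (nat_lit 1) (nat_lit 4) (nat_lit 336) (nat_lit 224) (nat_lit 220))) (XT.nd (nat_lit 78) (nat_lit 0) (nat_lit 0) (XT.lf (nat_lit 0) (nat_lit 16327112411) (nat_lit 152) (nat_lit 431287476807) (nat_lit 0) (nat_lit 16036047384) (nat_lit 1) (nat_lit 5) (nat_lit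 3) (nat_lit 4) (nat_lit 1) (nat_lit 4) (nat_lit 337) (nat_lit 224) (nat_lit 219)) (XT.lf (nat_lit 0) (nat_lit 18616569333) (nat_lit 152) (nat_lit 463761169198) (nat_lit 0) (nat_lit 18279565499) (nat_lit 1) (nat_lit 5) (nat_lit 3) (nat_lit 4) (nat_lit 1) (nat_lit 4) (nat_lit 338) (nat_lit 224) (nat_lit 218)))))) (XT.nd (nat_lit 546) (nat_lit 0) (nat_lit 0) (XT.nd (nat_lit 234) (nat_lit 0) (nat_lit 0) (XT.nd (nat_lit 78) (nat_lit 0) (nat_lit 0) (XT.lf (nat_lit 0) (nat_lit 21044804129) (nat_lit 152) (nat_lit 498918023989) (nat_lit 0) (nat_lit 20665264362) (nat_lit 1) (nat_lit 5) (nat_lit 3) (nat_lit 4) (nat_lit 1) (nat_lit 4) (nat_lit 339) (nat_lit 224) (nat_lit 217)) (XT.nd (nat_lit 78) (nat_lit 0) (nat_lit 0) (XT.lf (nat_lit 0) (nat_lit 23626206339) (nat_lit 152) (nat_lit 536966378098) (nat_lit 0) (nat_lit 23207281448) (nat_lit 1) (nat_lit 5) (nat_lit 3) (nat_lit 4) (nat_lit 1) (nat_lit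 4) (nat_lit 340) (nat_lit 224) (nat_lit 216)) (XT.lf (nat_lit 0) (nat_lit 26376073161) (nat_lit 152) (nat_lit 578131703252) (nat_lit 0) (nat_lit 25920680564) (nat_lit 1) (nat_lit 5) (nat_lit 3) (nat_lit 4) (nat_lit 1) (nat_lit 4) (nat_lit 341) (nat_lit 224) (nat_lit 215)))) (XT.nd (nat_lit 156) (nat_lit 0) (nat_lit 0) (XT.nd (nat_lit 78) (nat_lit 0) (nat_lit 0) (XT.lf (nat_lit 0) (nat_lit 29310700102) (nat_lit 152) (nat_lit 622657942118) (nat_lit 0) (nat_lit 28821541110) (nat_lit 1) (nat_lit 5) (nat_lit 3) (nat_lit 4) (nat_lit 1) (nat_lit 4) (nat_lit 342) (nat_lit 224) (nat_lit 214)) (XT.lf (nat_lit 0) (nat_lit 32447477544) (nat_lit 152) (nat_lit 670808953891) (nat_lit 0) (nat_lit 31927053371) (nat_lit 1) (nat_lit 5) (nat_lit 3) (nat_lit 4) (nat_lit 1) (nat_lit 4) (nat_lit 343) (nat_lit 224) (nat_lit 213))) (XT.nd (nat_lit 78) (nat_lit 0) (nat_lit 0) (XT.lf (nat_lit 0) (nat_lit 35804993798)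 (nat_lit 152) (nat_lit 722870077900) (nat_lit 0) (nat_lit 35255620383) (nat_lit 1) (nat_lit 5) (nat_lit 3) (nat_lit 4) (nat_lit 1) (nat_lit 4) (nat_lit 344) (nat_lit 224) (nat_lit 212)) (XT.lf (nat_lit 0) (nat_lit 39403145256) (nat_lit 152) (nat_lit 779149824508) (nat_lit 0) (nat_lit 38826966988) (nat_lit 1) (nat_lit 5) (nat_lit 3) (nat_lit 4) (nat_lit 1) (nat_lit 4) (nat_lit 345) (nat_lit 224) (nat_lit 211))))) (XT.nd (nat_lit 234) (nat_lit 0) (nat_lit 0) (XT.nd (nat_lit 78) (nat_lit 0) (nat_lit 0) (XT.lf (nat_lit 0) (nat_lit 43263254297) (nat_lit 152) (nat_lit 839981703325) (nat_lit 0) (nat_lit 42662256721) (nat_lit 1) (nat_lit 5) (nat_lit 3) (nat_lit 4) (nat_lit 1) (nat_lit 4) (nat_lit 346) (nat_lit 224) (nat_lit 210)) (XT.nd (nat_lit 78) (nat_lit 0) (nat_lit 0) (XT.lf (nat_lit 0) (nat_lit 47408195642) (nat_lit 152) (nat_lit 905726199559) (nat_lit 0) (nat_lit 46784217224) (nat_lit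 1) (nat_lit 5) (nat_lit 3) (nat_lit 4) (nat_lit 1) (nat_lit 4) (nat_lit 347) (nat_lit 224) (nat_lit 209)) (XT.lf (nat_lit 0) (nat_lit 51862531906) (nat_lit 152) (nat_lit 976772910225) (nat_lit 0) (nat_lit 51217274932) (nat_lit 1) (nat_lit 5) (nat_lit 3) (nat_lit 4) (nat_lit 1) (nat_lit 4) (nat_lit 348) (nat_lit 224) (nat_lit 208)))) (XT.nd (nat_lit 156) (nat_lit 0) (nat_lit 0) (XT.nd (nat_lit 78) (nat_lit 0) (nat_lit 0) (XT.lf (nat_lit 0) (nat_lit 56652659155) (nat_lit 152) (nat_lit 1053542852868) (nat_lit 0) (nat_lit 55987699814) (nat_lit 1) (nat_lit 5) (nat_lit 3) (nat_lit 4) (nat_lit 1) (nat_lit 4) (nat_lit 349) (nat_lit 224) (nat_lit 207)) (XT.lf (nat_lit 0) (nat_lit 61806963330) (nat_lit 152) (nat_lit 1136490960480) (nat_lit 0) (nat_lit 61123761055) (nat_lit 1) (nat_lit 5) (nat_lit 3) (nat_lit 4) (nat_lit 1) (nat_lit 4) (nat_lit 350) (nat_lit 224) (nat_lit 206))) (XT.nd (nat_lit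 78) (nat_lit 0) (nat_lit 0) (XT.lf (nat_lit 0) (nat_lit 67355988454) (nat_lit 152) (nat_lit 1226108777404) (nat_lit 0) (nat_lit 66655894575) (nat_lit 1) (nat_lit 5) (nat_lit 3) (nat_lit 4) (nat_lit 1) (nat_lit 4) (nat_lit 351) (nat_lit 224) (nat_lit 205)) (XT.lf (nat_lit 0) (nat_lit 73332617640) (nat_lit 152) (nat_lit 1322927372184) (nat_lit 0) (nat_lit 72616883387) (nat_lit 1) (nat_lit 5) (nat_lit 3) (nat_lit 4) (nat_lit 1) (nat_lit 4) (nat_lit 352) (nat_lit 224) (nat_lit 204))))))) (XT.nd (nat_lit 38844) (nat_lit 0) (nat_lit 0) (XT.nd (nat_lit 546) (nat_lit 0) (nat_lit 0) (XT.nd (nat_lit 234) (nat_lit 0) (nat_lit 0) (XT.nd (nat_lit 78) (nat_lit 0) (nat_lit 0) (XT.lf (nat_lit 0) (nat_lit 79772267948) (nat_lit 152) (nat_lit 1427520484641) (nat_lit 0) (nat_lit 79042051867) (nat_lit 1) (nat_lit 5) (nat_lit 3) (nat_lit 4) (nat_lit 1) (nat_lit 4) (nat_lit 353) (nat_lit 224) (nat_lit 203))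 (XT.nd (nat_lit 78) (nat_lit 0) (nat_lit 0) (XT.lf (nat_lit 0) (nat_lit 86713100272) (nat_lit 152) (nat_lit 1540507925812) (nat_lit 0) (nat_lit 85969475090) (nat_lit 1) (nat_lit 5) (nat_lit 3) (nat_lit 4) (nat_lit 1) (nat_lit 4) (nat_lit 354) (nat_lit 224) (nat_lit 202)) (XT.lf (nat_lit 0) (nat_lit 94196245467) (nat_lit 152) (nat_lit 1662559250903) (nat_lit 0) (nat_lit 93440204452) (nat_lit 1) (nat_lit 5) (nat_lit 3) (nat_lit 4) (nat_lit 1) (nat_lit 4) (nat_lit 355) (nat_lit 224) (nat_lit 201)))) (XT.nd (nat_lit 156) (nat_lit 0) (nat_lit 0) (XT.nd (nat_lit 78) (nat_lit 0) (nat_lit 0) (XT.lf (nat_lit 0) (nat_lit 102266048099) (nat_lit 152) (nat_lit 1794397727027) (nat_lit 0) (nat_lit 101498510942) (nat_lit 1) (nat_lit 5) (nat_lit 3) (nat_lit 4) (nat_lit 1) (nat_lit 4) (nat_lit 356) (nat_lit 224) (nat_lit 200)) (XT.lf (nat_lit 0) (nat_lit 110970329220) (nat_lit 152) (nat_lit 1936804619227)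 (nat_lit 0) (nat_lit 110192147487) (nat_lit 1) (nat_lit 5) (nat_lit 3) (nat_lit 4) (nat_lit 1) (nat_lit 4) (nat_lit 357) (nat_lit 224) (nat_lit 199))) (XT.nd (nat_lit 78) (nat_lit 0) (nat_lit 0) (XT.lf (nat_lit 0) (nat_lit 120360669755) (nat_lit 152) (nat_lit 2090623820198) (nat_lit 0) (nat_lit 119572631933) (nat_lit 1) (nat_lit 5) (nat_lit 3) (nat_lit 4) (nat_lit 1) (nat_lit 4) (nat_lit 358) (nat_lit 224) (nat_lit 198)) (XT.lf (nat_lit 0) (nat_lit 130492716166) (nat_lit 152) (nat_lit 2256766851130) (nat_lit 0) (nat_lit 129695552336) (nat_lit 1) (nat_lit 5) (nat_lit 3) (nat_lit 4) (nat_lit 1) (nat_lit 4) (nat_lit 359) (nat_lit 224) (nat_lit 197))))) (XT.nd (nat_lit 234) (nat_lit 0) (nat_lit 0) (XT.nd (nat_lit 78) (nat_lit 0) (nat_lit 0) (XT.lf (nat_lit 0) (nat_lit 141426510211) (nat_lit 152) (nat_lit 2436218263317) (nat_lit 0) (nat_lit 140620896374) (nat_lit 1) (nat_lit 5) (nat_lit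 3) (nat_lit 4) (nat_lit 1) (nat_lit 4) (nat_lit 360) (nat_lit 224) (nat_lit 196)) (XT.nd (nat_lit 78) (nat_lit 0) (nat_lit 0) (XT.lf (nat_lit 0) (nat_lit 153226844743) (nat_lit 152) (nat_lit 2630041472537) (nat_lit 0) (nat_lit 152413406824) (nat_lit 1) (nat_lit 5) (nat_lit 3) (nat_lit 4) (nat_lit 1) (nat_lit 4) (nat_lit 361) (nat_lit 224) (nat_lit 195)) (XT.lf (nat_lit 0) (nat_lit 165963647669) (nat_lit 152) (nat_lit 2839385060769) (nat_lit 0) (nat_lit 165142965231) (nat_lit 1) (nat_lit 5) (nat_lit 3) (nat_lit 4) (nat_lit 1) (nat_lit 4) (nat_lit 362) (nat_lit 224) (nat_lit 194)))) (XT.nd (nat_lit 156) (nat_lit 0) (nat_lit 0) (XT.nd (nat_lit 78) (nat_lit 0) (nat_lit 0) (XT.lf (nat_lit 0) (nat_lit 179712396342) (nat_lit 152) (nat_lit 3065489582611) (nat_lit 0) (nat_lit 178885006015) (nat_lit 1) (nat_lit 5) (nat_lit 3) (nat_lit 4) (nat_lit 1) (nat_lit 4) (nat_lit 363) (nat_lit 224) (nat_lit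 193)) (XT.lf (nat_lit 0) (nat_lit 194554564826) (nat_lit 152) (nat_lit 3309694916710) (nat_lit 0) (nat_lit 193720963492) (nat_lit 1) (nat_lit 5) (nat_lit 3) (nat_lit 4) (nat_lit 1) (nat_lit 4) (nat_lit 364) (nat_lit 224) (nat_lit 192))) (XT.nd (nat_lit 78) (nat_lit 0) (nat_lit 0) (XT.lf (nat_lit 0) (nat_lit 210578106714) (nat_lit 152) (nat_lit 3573448205786) (nat_lit 0) (nat_lit 209738754446) (nat_lit 1) (nat_lit 5) (nat_lit 3) (nat_lit 4) (nat_lit 1) (nat_lit 4) (nat_lit 365) (nat_lit 224) (nat_lit 191)) (XT.lf (nat_lit 0) (nat_lit 227877976326) (nat_lit 152) (nat_lit 3858312432295) (nat_lit 0) (nat_lit 227033299121) (nat_lit 1) (nat_lit 5) (nat_lit 3) (nat_lit 4) (nat_lit 1) (nat_lit 4) (nat_lit 366) (nat_lit 224) (nat_lit 190)))))) (XT.nd (nat_lit 546) (nat_lit 0) (nat_lit 0) (XT.nd (nat_lit 234) (nat_lit 0) (nat_lit 0) (XT.nd (nat_lit 78) (nat_lit 0) (nat_lit 0) (XT.lf (nat_lit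 0) (nat_lit 1620374817) (nat_lit 152) (nat_lit 132299467476) (nat_lit 0) (nat_lit 1620374817) (nat_lit 1) (nat_lit 5) (nat_lit 3) (nat_lit 4) (nat_lit 1) (nat_lit 4) (nat_lit 330) (nat_lit 225) (nat_lit 225)) (XT.nd (nat_lit 78) (nat_lit 0) (nat_lit 0) (XT.lf (nat_lit 0) (nat_lit 4865635148) (nat_lit 152) (nat_lit 282991734161) (nat_lit 0) (nat_lit 4792736033) (nat_lit 1) (nat_lit 5) (nat_lit 3) (nat_lit 4) (nat_lit 1) (nat_lit 4) (nat_lit 331) (nat_lit 225) (nat_lit 224)) (XT.lf (nat_lit 0) (nat_lit 6550088114) (nat_lit 152) (nat_lit 302991265333) (nat_lit 0) (nat_lit 6409689820) (nat_lit 1) (nat_lit 5) (nat_lit 3) (nat_lit 4) (nat_lit 1) (nat_lit 4) (nat_lit 332) (nat_lit 225) (nat_lit 223)))) (XT.nd (nat_lit 156) (nat_lit 0) (nat_lit 0) (XT.nd (nat_lit 78) (nat_lit 0) (nat_lit 0) (XT.lf (nat_lit 0) (nat_lit 8304090478) (nat_lit 152) (nat_lit 324716044209) (nat_lit 0) (nat_lit 8101192942)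 (nat_lit 1) (nat_lit 5) (nat_lit 3) (nat_lit 4) (nat_lit 1) (nat_lit 4) (nat_lit 333) (nat_lit 225) (nat_lit 222)) (XT.lf (nat_lit 0) (nat_lit 10138036327) (nat_lit 152) (nat_lit 348294810218) (nat_lit 0) (nat_lit 9877269124) (nat_lit 1) (nat_lit 5) (nat_lit 3) (nat_lit 4) (nat_lit 1) (nat_lit 4) (nat_lit 334) (nat_lit 225) (nat_lit 221))) (XT.nd (nat_lit 78) (nat_lit 0) (nat_lit 0) (XT.lf (nat_lit 0) (nat_lit 12062793489) (nat_lit 152) (nat_lit 373867289383) (nat_lit 0) (nat_lit 11748443260) (nat_lit 1) (nat_lit 5) (nat_lit 3) (nat_lit 4) (nat_lit 1) (nat_lit 4) (nat_lit 335) (nat_lit 225) (nat_lit 220)) (XT.lf (nat_lit 0) (nat_lit 14089767932) (nat_lit 152) (nat_lit 401585022320) (nat_lit 0) (nat_lit 13725803791) (nat_lit 1) (nat_lit 5) (nat_lit 3) (nat_lit 4) (nat_lit 1) (nat_lit 4) (nat_lit 336) (nat_lit 225) (nat_lit 219))))) (XT.nd (nat_lit 312) (nat_lit 0) (nat_lit 0) (XT.nd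 (nat_lit 156) (nat_lit 0) (nat_lit 0) (XT.nd (nat_lit 78) (nat_lit 0) (nat_lit 0) (XT.lf (nat_lit 0) (nat_lit 16230971356) (nat_lit 152) (nat_lit 431612262261) (nat_lit 0) (nat_lit 15821068407) (nat_lit 1) (nat_lit 5) (nat_lit 3) (nat_lit 4) (nat_lit 1) (nat_lit 4) (nat_lit 337) (nat_lit 225) (nat_lit 218)) (XT.lf (nat_lit 0) (nat_lit 18499092375) (nat_lit 152) (nat_lit 464126948406) (nat_lit 0) (nat_lit 18046653492) (nat_lit 1) (nat_lit 5) (nat_lit 3) (nat_lit 4) (nat_lit 1) (nat_lit 4) (nat_lit 338) (nat_lit 225) (nat_lit 217))) (XT.nd (nat_lit 78) (nat_lit 0) (nat_lit 0) (XT.lf (nat_lit 0) (nat_lit 20907571705) (nat_lit 152) (nat_lit 499321760377) (nat_lit 0) (nat_lit 20415747699) (nat_lit 1) (nat_lit 5) (nat_lit 3) (nat_lit 4) (nat_lit 1) (nat_lit 4) (nat_lit 339) (nat_lit 225) (nat_lit 216)) (XT.lf (nat_lit 0) (nat_lit 23470681816) (nat_lit 152) (nat_lit 537405260022) (nat_lit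 0) (nat_lit 22942390104) (nat_lit 1) (nat_lit 5) (nat_lit 3) (nat_lit 4) (nat_lit 1) (nat_lit 4) (nat_lit 340) (nat_lit 225) (nat_lit 215)))) (XT.nd (nat_lit 156) (nat_lit 0) (nat_lit 0) (XT.nd (nat_lit 78) (nat_lit 0) (nat_lit 0) (XT.lf (nat_lit 0) (nat_lit 26203611510) (nat_lit 152) (nat_lit 578603127340) (nat_lit 0) (nat_lit 25641553403) (nat_lit 1) (nat_lit 5) (nat_lit 3) (nat_lit 4) (nat_lit 1) (nat_lit 4) (nat_lit 341) (nat_lit 225) (nat_lit 214)) (XT.lf (nat_lit 0) (nat_lit 29122555925) (nat_lit 152) (nat_lit 623159497840) (nat_lit 0) (nat_lit 28529232637) (nat_lit 1) (nat_lit 5) (nat_lit 3) (nat_lit 4) (nat_lit 1) (nat_lit 4) (nat_lit 342) (nat_lit 225) (nat_lit 213))) (XT.nd (nat_lit 78) (nat_lit 0) (nat_lit 0) (XT.lf (nat_lit 0) (nat_lit 32244812509) (nat_lit 152) (nat_lit 671338409273) (nat_lit 0) (nat_lit 31622539980) (nat_lit 1) (nat_lit 5) (nat_lit 3) (nat_lit 4) (nat_lit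 1) (nat_lit 4) (nat_lit 343) (nat_lit 225) (nat_lit 212)) (XT.lf (nat_lit 0) (nat_lit 35588883525) (nat_lit 152) (nat_lit 723425366300) (nat_lit 0) (nat_lit 34939806142) (nat_lit 1) (nat_lit 5) (nat_lit 3) (nat_lit 4) (nat_lit 1) (nat_lit 4) (nat_lit 344) (nat_lit 225) (nat_lit 211))))))))
noncomputable def xc6 : XT := (XT.nd (nat_lit 39780) (nat_lit 0) (nat_lit 0) (XT.nd (nat_lit 1092) (nat_lit 0) (nat_lit 0) (XT.nd (nat_lit 546) (nat_lit 0) (nat_lit 0) (XT.nd (nat_lit 234) (nat_lit 0) (nat_lit 0) (XT.nd (nat_lit 78) (nat_lit 0) (nat_lit 0) (XT.lf (nat_lit 0) (nat_lit 39174585688) (nat_lit 152) (nat_lit 779729032370) (nat_lit 0) (nat_lit 38500688996) (nat_lit 1) (nat_lit 5) (nat_lit 3) (nat_lit 4) (nat_lit 1) (nat_lit 4) (nat_lit 345) (nat_lit 225) (nat_lit 210)) (XT.nd (nat_lit 78) (nat_lit 0) (nat_lit 0) (XT.lf (nat_lit 0) (nat_lit 43023167604) (nat_lit 152) (nat_lit 840583058837)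 (nat_lit 0) (nat_lit 42326290072) (nat_lit 1) (nat_lit 5) (nat_lit 3) (nat_lit 4) (nat_lit 1) (nat_lit 4) (nat_lit 346) (nat_lit 225) (nat_lit 209)) (XT.lf (nat_lit 0) (nat_lit 47157435685) (nat_lit 152) (nat_lit 906348062154) (nat_lit 0) (nat_lit 46439279596) (nat_lit 1) (nat_lit 5) (nat_lit 3) (nat_lit 4) (nat_lit 1) (nat_lit 4) (nat_lit 347) (nat_lit 225) (nat_lit 208)))) (XT.nd (nat_lit 156) (nat_lit 0) (nat_lit 0) (XT.nd (nat_lit 78) (nat_lit 0) (nat_lit 0) (XT.lf (nat_lit 0) (nat_lit 51601889297) (nat_lit 152) (nat_lit 977413760861) (nat_lit 0) (nat_lit 50864030841) (nat_lit 1) (nat_lit 5) (nat_lit 3) (nat_lit 4) (nat_lit 1) (nat_lit 4) (nat_lit 348) (nat_lit 225) (nat_lit 207)) (XT.lf (nat_lit 0) (nat_lit 56382865943) (nat_lit 152) (nat_lit 1054201285022) (nat_lit 0) (nat_lit 55626764554) (nat_lit 1) (nat_lit 5) (nat_lit 3) (nat_lit 4) (nat_lit 1) (nat_lit 4) (nat_lit 349) (nat_lit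 225) (nat_lit 206))) (XT.nd (nat_lit 78) (nat_lit 0) (nat_lit 0) (XT.lf (nat_lit 0) (nat_lit 61528697337) (nat_lit 152) (nat_lit 1137165671818) (nat_lit 0) (nat_lit 60755704344) (nat_lit 1) (nat_lit 5) (nat_lit 3) (nat_lit 4) (nat_lit 1) (nat_lit 4) (nat_lit 350) (nat_lit 225) (nat_lit 205)) (XT.lf (nat_lit 0) (nat_lit 67069877293) (nat_lit 152) (nat_lit 1226798562060) (nat_lit 0) (nat_lit 66281243926) (nat_lit 1) (nat_lit 5) (nat_lit 3) (nat_lit 4) (nat_lit 1) (nat_lit 4) (nat_lit 351) (nat_lit 225) (nat_lit 204))))) (XT.nd (nat_lit 234) (nat_lit 0) (nat_lit 0) (XT.nd (nat_lit 78) (nat_lit 0) (nat_lit 0) (XT.lf (nat_lit 0) (nat_lit 73039242435) (nat_lit 152) (nat_lit 1323631113617) (nat_lit 0) (nat_lit 72236127239) (nat_lit 1) (nat_lit 5) (nat_lit 3) (nat_lit 4) (nat_lit 1) (nat_lit 4) (nat_lit 352) (nat_lit 225) (nat_lit 203)) (XT.nd (nat_lit 78) (nat_lit 0) (nat_lit 0) (XT.lf (nat_lit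 0) (nat_lit 79472166777) (nat_lit 152) (nat_lit 1428237149015) (nat_lit 0) (nat_lit 78655642482) (nat_lit 1) (nat_lit 5) (nat_lit 3) (nat_lit 4) (nat_lit 1) (nat_lit 4) (nat_lit 353) (nat_lit 225) (nat_lit 202)) (XT.lf (nat_lit 0) (nat_lit 86406771354) (nat_lit 152) (nat_lit 1541236555871) (nat_lit 0) (nat_lit 85577831224) (nat_lit 1) (nat_lit 5) (nat_lit 3) (nat_lit 4) (nat_lit 1) (nat_lit 4) (nat_lit 354) (nat_lit 225) (nat_lit 201)))) (XT.nd (nat_lit 156) (nat_lit 0) (nat_lit 0) (XT.nd (nat_lit 78) (nat_lit 0) (nat_lit 0) (XT.lf (nat_lit 0) (nat_lit 93884150117) (nat_lit 152) (nat_lit 1663298960302) (nat_lit 0) (nat_lit 93043713845) (nat_lit 1) (nat_lit 5) (nat_lit 3) (nat_lit 4) (nat_lit 1) (nat_lit 4) (nat_lit 355) (nat_lit 225) (nat_lit 200)) (XT.lf (nat_lit 0) (nat_lit 101948613459) (nat_lit 152) (nat_lit 1795147695073) (nat_lit 0) (nat_lit 101097532612) (nat_lit 1) (nat_lit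 5) (nat_lit 3) (nat_lit 4) (nat_lit 1) (nat_lit 4) (nat_lit 356) (nat_lit 225) (nat_lit 199))) (XT.nd (nat_lit 78) (nat_lit 0) (nat_lit 0) (XT.lf (nat_lit 0) (nat_lit 110647950794) (nat_lit 152) (nat_lit 1937564086020) (nat_lit 0) (nat_lit 109787013858) (nat_lit 1) (nat_lit 5) (nat_lit 3) (nat_lit 4) (nat_lit 1) (nat_lit 4) (nat_lit 357) (nat_lit 225) (nat_lit 198)) (XT.lf (nat_lit 0) (nat_lit 120033713749) (nat_lit 152) (nat_lit 2091392082127) (nat_lit 0) (nat_lit 119163650805) (nat_lit 1) (nat_lit 5) (nat_lit 3) (nat_lit 4) (nat_lit 1) (nat_lit 4) (nat_lit 358) (nat_lit 225) (nat_lit 197)))))) (XT.nd (nat_lit 546) (nat_lit 0) (nat_lit 0) (XT.nd (nat_lit 234) (nat_lit 0) (nat_lit 0) (XT.nd (nat_lit 78) (nat_lit 0) (nat_lit 0) (XT.lf (nat_lit 0) (nat_lit 130161521661) (nat_lit 152) (nat_lit 2257543256704) (nat_lit 0) (nat_lit 129283008709) (nat_lit 1) (nat_lit 5) (nat_lit 3) (nat_lit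 4) (nat_lit 1) (nat_lit 4) (nat_lit 359) (nat_lit 225) (nat_lit 196)) (XT.nd (nat_lit 78) (nat_lit 0) (nat_lit 0) (XT.lf (nat_lit 0) (nat_lit 141091391169) (nat_lit 152) (nat_lit 2437002209304) (nat_lit 0) (nat_lit 140205054136) (nat_lit 1) (nat_lit 5) (nat_lit 3) (nat_lit 4) (nat_lit 1) (nat_lit 4) (nat_lit 360) (nat_lit 225) (nat_lit 195)) (XT.lf (nat_lit 0) (nat_lit 152888091870) (nat_lit 152) (nat_lit 2630832400386) (nat_lit 0) (nat_lit 151994510317) (nat_lit 1) (nat_lit 5) (nat_lit 3) (nat_lit 4) (nat_lit 1) (nat_lit 4) (nat_lit 361) (nat_lit 225) (nat_lit 194)))) (XT.nd (nat_lit 156) (nat_lit 0) (nat_lit 0) (XT.nd (nat_lit 78) (nat_lit 0) (nat_lit 0) (XT.lf (nat_lit 0) (nat_lit 165621530138) (nat_lit 152) (nat_lit 2840182453306) (nat_lit 0) (nat_lit 164721240697) (nat_lit 1) (nat_lit 5) (nat_lit 3) (nat_lit 4) (nat_lit 1) (nat_lit 4) (nat_lit 362) (nat_lit 225) (nat_lit 193))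 (XT.lf (nat_lit 0) (nat_lit 179367163387) (nat_lit 152) (nat_lit 3066292960970) (nat_lit 0) (nat_lit 178460662938) (nat_lit 1) (nat_lit 5) (nat_lit 3) (nat_lit 4) (nat_lit 1) (nat_lit 4) (nat_lit 363) (nat_lit 225) (nat_lit 192))) (XT.nd (nat_lit 78) (nat_lit 0) (nat_lit 0) (XT.lf (nat_lit 0) (nat_lit 194206447220) (nat_lit 152) (nat_lit 3310503837497) (nat_lit 0) (nat_lit 193294195837) (nat_lit 1) (nat_lit 5) (nat_lit 3) (nat_lit 4) (nat_lit 1) (nat_lit 4) (nat_lit 364) (nat_lit 225) (nat_lit 191)) (XT.lf (nat_lit 0) (nat_lit 210227318133) (nat_lit 152) (nat_lit 3574262258451) (nat_lit 0) (nat_lit 209309741813) (nat_lit 1) (nat_lit 5) (nat_lit 3) (nat_lit 4) (nat_lit 1) (nat_lit 4) (nat_lit 365) (nat_lit 225) (nat_lit 190))))) (XT.nd (nat_lit 37830) (nat_lit 0) (nat_lit 0) (XT.nd (nat_lit 37674) (nat_lit 0) (nat_lit 0) (XT.lf (nat_lit 0) (nat_lit 227524714622) (nat_lit 152) (nat_lit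 3859131236698) (nat_lit 0) (nat_lit 226602207803) (nat_lit 1) (nat_lit 5) (nat_lit 3) (nat_lit 4) (nat_lit 1) (nat_lit 4) (nat_lit 366) (nat_lit 225) (nat_lit 189)) (XT.nd (nat_lit 78) (nat_lit 0) (nat_lit 0) (XT.lf (nat_lit 0) (nat_lit 124841705) (nat_lit 152) (nat_lit 116065276933) (nat_lit 0) (nat_lit 124841705) (nat_lit 1) (nat_lit 5) (nat_lit 3) (nat_lit 4) (nat_lit 1) (nat_lit 4) (nat_lit 328) (nat_lit 226) (nat_lit 226)) (XT.lf (nat_lit 0) (nat_lit 1744533669) (nat_lit 152) (nat_lit 247703873342) (nat_lit 0) (nat_lit 1665802625) (nat_lit 1) (nat_lit 5) (nat_lit 3) (nat_lit 4) (nat_lit 1) (nat_lit 4) (nat_lit 329) (nat_lit 226) (nat_lit 225)))) (XT.nd (nat_lit 156) (nat_lit 0) (nat_lit 0) (XT.nd (nat_lit 78) (nat_lit 0) (nat_lit 0) (XT.lf (nat_lit 0) (nat_lit 3282914689) (nat_lit 152) (nat_lit 264669191043) (nat_lit 0) (nat_lit 3131284531) (nat_lit 1) (nat_lit 5) (nat_lit 3)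 (nat_lit 4) (nat_lit 1) (nat_lit 4) (nat_lit 330) (nat_lit 226) (nat_lit 224)) (XT.lf (nat_lit 0) (nat_lit 4873942804) (nat_lit 152) (nat_lit 283127042188) (nat_lit 0) (nat_lit 4654813466) (nat_lit 1) (nat_lit 5) (nat_lit 3) (nat_lit 4) (nat_lit 1) (nat_lit 4) (nat_lit 331) (nat_lit 226) (nat_lit 223))) (XT.nd (nat_lit 78) (nat_lit 0) (nat_lit 0) (XT.lf (nat_lit 0) (nat_lit 6527046329) (nat_lit 152) (nat_lit 303186806634) (nat_lit 0) (nat_lit 6245417749) (nat_lit 1) (nat_lit 5) (nat_lit 3) (nat_lit 4) (nat_lit 1) (nat_lit 4) (nat_lit 332) (nat_lit 226) (nat_lit 222)) (XT.lf (nat_lit 0) (nat_lit 8252021431) (nat_lit 152) (nat_lit 324967357059) (nat_lit 0) (nat_lit 7912523184) (nat_lit 1) (nat_lit 5) (nat_lit 3) (nat_lit 4) (nat_lit 1) (nat_lit 4) (nat_lit 333) (nat_lit 226) (nat_lit 221))))))) (XT.nd (nat_lit 1092) (nat_lit 0) (nat_lit 0) (XT.nd (nat_lit 546) (nat_lit 0) (nat_lit 0)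 (XT.nd (nat_lit 234) (nat_lit 0) (nat_lit 0) (XT.nd (nat_lit 78) (nat_lit 0) (nat_lit 0) (XT.lf (nat_lit 0) (nat_lit 10059090186) (nat_lit 152) (nat_lit 348597763393) (nat_lit 0) (nat_lit 9666008914) (nat_lit 1) (nat_lit 5) (nat_lit 3) (nat_lit 4) (nat_lit 1) (nat_lit 4) (nat_lit 334) (nat_lit 226) (nat_lit 220)) (XT.nd (nat_lit 78) (nat_lit 0) (nat_lit 0) (XT.lf (nat_lit 0) (nat_lit 11958961150) (nat_lit 152) (nat_lit 374218057673) (nat_lit 0) (nat_lit 11516265965) (nat_lit 1) (nat_lit 5) (nat_lit 3) (nat_lit 4) (nat_lit 1) (nat_lit 4) (nat_lit 335) (nat_lit 226) (nat_lit 219)) (XT.lf (nat_lit 0) (nat_lit 13962892817) (nat_lit 152) (nat_lit 401980063864) (nat_lit 0) (nat_lit 13474258824) (nat_lit 1) (nat_lit 5) (nat_lit 3) (nat_lit 4) (nat_lit 1) (nat_lit 4) (nat_lit 336) (nat_lit 226) (nat_lit 218)))) (XT.nd (nat_lit 156) (nat_lit 0) (nat_lit 0) (XT.nd (nat_lit 78) (nat_lit 0) (nat_lit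 0) (XT.lf (nat_lit 0) (nat_lit 16082760337) (nat_lit 152) (nat_lit 432048297560) (nat_lit 0) (nat_lit 15551590411) (nat_lit 1) (nat_lit 5) (nat_lit 3) (nat_lit 4) (nat_lit 1) (nat_lit 4) (nat_lit 337) (nat_lit 226) (nat_lit 217)) (XT.lf (nat_lit 0) (nat_lit 18331125890) (nat_lit 152) (nat_lit 464600940885) (nat_lit 0) (nat_lit 17760570840) (nat_lit 1) (nat_lit 5) (nat_lit 3) (nat_lit 4) (nat_lit 1) (nat_lit 4) (nat_lit 338) (nat_lit 226) (nat_lit 216))) (XT.nd (nat_lit 78) (nat_lit 0) (nat_lit 0) (XT.lf (nat_lit 0) (nat_lit 20721313121) (nat_lit 152) (nat_lit 499830898392) (nat_lit 0) (nat_lit 20114290365) (nat_lit 1) (nat_lit 5) (nat_lit 3) (nat_lit 4) (nat_lit 1) (nat_lit 4) (nat_lit 339) (nat_lit 226) (nat_lit 215)) (XT.lf (nat_lit 0) (nat_lit 23267486104) (nat_lit 152) (nat_lit 537946940201) (nat_lit 0) (nat_lit 22626696953) (nat_lit 1) (nat_lit 5) (nat_lit 3) (nat_lit 4) (nat_lit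 1) (nat_lit 4) (nat_lit 340) (nat_lit 226) (nat_lit 214))))) (XT.nd (nat_lit 234) (nat_lit 0) (nat_lit 0) (XT.nd (nat_lit 78) (nat_lit 0) (nat_lit 0) (XT.lf (nat_lit 0) (nat_lit 25984733272) (nat_lit 152) (nat_lit 579174939152) (nat_lit 0) (nat_lit 25312678940) (nat_lit 1) (nat_lit 5) (nat_lit 3) (nat_lit 4) (nat_lit 1) (nat_lit 4) (nat_lit 341) (nat_lit 226) (nat_lit 213)) (XT.nd (nat_lit 78) (nat_lit 0) (nat_lit 0) (XT.lf (nat_lit 0) (nat_lit 28889156829) (nat_lit 152) (nat_lit 623759209312) (nat_lit 0) (nat_lit 28188153256) (nat_lit 1) (nat_lit 5) (nat_lit 3) (nat_lit 4) (nat_lit 1) (nat_lit 4) (nat_lit 342) (nat_lit 226) (nat_lit 212)) (XT.lf (nat_lit 0) (nat_lit 31997968175) (nat_lit 152) (nat_lit 671963953764) (nat_lit 0) (nat_lit 31270159749) (nat_lit 1) (nat_lit 5) (nat_lit 3) (nat_lit 4) (nat_lit 1) (nat_lit 4) (nat_lit 343) (nat_lit 226) (nat_lit 211)))) (XT.nd (nat_lit 156)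 (nat_lit 0) (nat_lit 0) (XT.nd (nat_lit 78) (nat_lit 0) (nat_lit 0) (XT.lf (nat_lit 0) (nat_lit 35329589896) (nat_lit 152) (nat_lit 724074830253) (nat_lit 0) (nat_lit 34576962161) (nat_lit 1) (nat_lit 5) (nat_lit 3) (nat_lit 4) (nat_lit 1) (nat_lit 4) (nat_lit 344) (nat_lit 226) (nat_lit 210)) (XT.lf (nat_lit 0) (nat_lit 38903764934) (nat_lit 152) (nat_lit 780400643973) (nat_lit 0) (nat_lit 38128156358) (nat_lit 1) (nat_lit 5) (nat_lit 3) (nat_lit 4) (nat_lit 1) (nat_lit 4) (nat_lit 345) (nat_lit 226) (nat_lit 209))) (XT.nd (nat_lit 78) (nat_lit 0) (nat_lit 0) (XT.lf (nat_lit 0) (nat_lit 42741673587) (nat_lit 152) (nat_lit 841275177523) (nat_lit 0) (nat_lit 41944786454) (nat_lit 1) (nat_lit 5) (nat_lit 3) (nat_lit 4) (nat_lit 1) (nat_lit 4) (nat_lit 346) (nat_lit 226) (nat_lit 208)) (XT.lf (nat_lit 0) (nat_lit 46866059016) (nat_lit 152) (nat_lit 907059168881) (nat_lit 0) (nat_lit 46049469516)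 (nat_lit 1) (nat_lit 5) (nat_lit 3) (nat_lit 4) (nat_lit 1) (nat_lit 4) (nat_lit 347) (nat_lit 226) (nat_lit 207)))))) (XT.nd (nat_lit 546) (nat_lit 0) (nat_lit 0) (XT.nd (nat_lit 234) (nat_lit 0) (nat_lit 0) (XT.nd (nat_lit 78) (nat_lit 0) (nat_lit 0) (XT.lf (nat_lit 0) (nat_lit 51301362025) (nat_lit 152) (nat_lit 978142449105) (nat_lit 0) (nat_lit 50466529592) (nat_lit 1) (nat_lit 5) (nat_lit 3) (nat_lit 4) (nat_lit 1) (nat_lit 4) (nat_lit 348) (nat_lit 226) (nat_lit 206)) (XT.nd (nat_lit 78) (nat_lit 0) (nat_lit 0) (XT.lf (nat_lit 0) (nat_lit 56073865890) (nat_lit 152) (nat_lit 1054946252450) (nat_lit 0) (nat_lit 55222141853) (nat_lit 1) (nat_lit 5) (nat_lit 3) (nat_lit 4) (nat_lit 1) (nat_lit 4) (nat_lit 349) (nat_lit 226) (nat_lit 205)) (XT.lf (nat_lit 0) (nat_lit 61211852116) (nat_lit 152) (nat_lit 1137925712565) (nat_lit 0) (nat_lit 60344487705) (nat_lit 1) (nat_lit 5) (nat_lit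 3) (nat_lit 4) (nat_lit 1) (nat_lit 4) (nat_lit 350) (nat_lit 226) (nat_lit 204)))) (XT.nd (nat_lit 156) (nat_lit 0) (nat_lit 0) (XT.nd (nat_lit 78) (nat_lit 0) (nat_lit 0) (XT.lf (nat_lit 0) (nat_lit 66745768029) (nat_lit 152) (nat_lit 1227572559584) (nat_lit 0) (nat_lit 65863921789) (nat_lit 1) (nat_lit 5) (nat_lit 3) (nat_lit 4) (nat_lit 1) (nat_lit 4) (nat_lit 351) (nat_lit 226) (nat_lit 203)) (XT.lf (nat_lit 0) (nat_lit 72708407204) (nat_lit 152) (nat_lit 1324418034081) (nat_lit 0) (nat_lit 71813151864) (nat_lit 1) (nat_lit 5) (nat_lit 3) (nat_lit 4) (nat_lit 1) (nat_lit 4) (nat_lit 352) (nat_lit 226) (nat_lit 202))) (XT.nd (nat_lit 78) (nat_lit 0) (nat_lit 0) (XT.lf (nat_lit 0) (nat_lit 79135103799) (nat_lit 152) (nat_lit 1429036035165) (nat_lit 0) (nat_lit 78227432626) (nat_lit 1) (nat_lit 5) (nat_lit 3) (nat_lit 4) (nat_lit 1) (nat_lit 4) (nat_lit 353) (nat_lit 226) (nat_lit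 201)) (XT.lf (nat_lit 0) (nat_lit 86063941943) (nat_lit 152) (nat_lit 1542046521360) (nat_lit 0) (nat_lit 85144774628) (nat_lit 1) (nat_lit 5) (nat_lit 3) (nat_lit 4) (nat_lit 1) (nat_lit 4) (nat_lit 354) (nat_lit 226) (nat_lit 200))))) (XT.nd (nat_lit 312) (nat_lit 0) (nat_lit 0) (XT.nd (nat_lit 156) (nat_lit 0) (nat_lit 0) (XT.nd (nat_lit 78) (nat_lit 0) (nat_lit 0) (XT.lf (nat_lit 0) (nat_lit 93535981417) (nat_lit 152) (nat_lit 1664119184438) (nat_lit 0) (nat_lit 92606169526) (nat_lit 1) (nat_lit 5) (nat_lit 3) (nat_lit 4) (nat_lit 1) (nat_lit 4) (nat_lit 355) (nat_lit 226) (nat_lit 199)) (XT.lf (nat_lit 0) (nat_lit 101595500973) (nat_lit 152) (nat_lit 1795977417956) (nat_lit 0) (nat_lit 100655832993) (nat_lit 1) (nat_lit 5) (nat_lit 3) (nat_lit 4) (nat_lit 1) (nat_lit 4) (nat_lit 356) (nat_lit 226) (nat_lit 198))) (XT.nd (nat_lit 78) (nat_lit 0) (nat_lit 0) (XT.lf (nat_lit 0) (nat_lit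 110290260728) (nat_lit 152) (nat_lit 1938402604040) (nat_lit 0) (nat_lit 109341466740) (nat_lit 1) (nat_lit 5) (nat_lit 3) (nat_lit 4) (nat_lit 1) (nat_lit 4) (nat_lit 357) (nat_lit 226) (nat_lit 197)) (XT.lf (nat_lit 0) (nat_lit 119671785183) (nat_lit 152) (nat_lit 2092238743792) (nat_lit 0) (nat_lit 118714541187) (nat_lit 1) (nat_lit 5) (nat_lit 3) (nat_lit 4) (nat_lit 1) (nat_lit 4) (nat_lit 358) (nat_lit 226) (nat_lit 196)))) (XT.nd (nat_lit 156) (nat_lit 0) (nat_lit 0) (XT.nd (nat_lit 78) (nat_lit 0) (nat_lit 0) (XT.lf (nat_lit 0) (nat_lit 129795668558) (nat_lit 152) (nat_lit 2258397458781) (nat_lit 0) (nat_lit 128830600481) (nat_lit 1) (nat_lit 5) (nat_lit 3) (nat_lit 4) (nat_lit 1) (nat_lit 4) (nat_lit 359) (nat_lit 226) (nat_lit 195)) (XT.lf (nat_lit 0) (nat_lit 140721904235) (nat_lit 152) (nat_lit 2437863393244) (nat_lit 0) (nat_lit 139749591639) (nat_lit 1) (nat_lit 5) (nat_lit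 3) (nat_lit 4) (nat_lit 1) (nat_lit 4) (nat_lit 360) (nat_lit 226) (nat_lit 194))) (XT.nd (nat_lit 78) (nat_lit 0) (nat_lit 0) (XT.lf (nat_lit 0) (nat_lit 152515240278) (nat_lit 152) (nat_lit 2631700049014) (nat_lit 0) (nat_lit 151536219794) (nat_lit 1) (nat_lit 5) (nat_lit 3) (nat_lit 4) (nat_lit 1) (nat_lit 4) (nat_lit 361) (nat_lit 226) (nat_lit 193)) (XT.lf (nat_lit 0) (nat_lit 165245563123) (nat_lit 152) (nat_lit 2841056087756) (nat_lit 0) (nat_lit 164260331631) (nat_lit 1) (nat_lit 5) (nat_lit 3) (nat_lit 4) (nat_lit 1) (nat_lit 4) (nat_lit 362) (nat_lit 226) (nat_lit 192))))))))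
noncomputable def xc7 : XT := (XT.nd (nat_lit 39624) (nat_lit 0) (nat_lit 0) (XT.nd (nat_lit 38532) (nat_lit 0) (nat_lit 0) (XT.nd (nat_lit 37986) (nat_lit 0) (nat_lit 0) (XT.nd (nat_lit 234) (nat_lit 0) (nat_lit 0) (XT.nd (nat_lit 78) (nat_lit 0) (nat_lit 0) (XT.lf (nat_lit 0) (nat_lit 178988311720) (nat_lit 152) (nat_lit 3067172137848) (nat_lit 0) (nat_lit 177997329294) (nat_lit 1) (nat_lit 5) (nat_lit 3) (nat_lit 4) (nat_lit 1) (nat_lit 4) (nat_lit 363) (nat_lit 226) (nat_lit 191)) (XT.nd (nat_lit 78) (nat_lit 0) (nat_lit 0) (XT.lf (nat_lit 0) (nat_lit 193824924579) (nat_lit 152) (nat_lit 3311388146252) (nat_lit 0) (nat_lit 192828617215) (nat_lit 1) (nat_lit 5) (nat_lit 3) (nat_lit 4) (nat_lit 1) (nat_lit 4) (nat_lit 364) (nat_lit 226) (nat_lit 190)) (XT.lf (nat_lit 0) (nat_lit 209843322368) (nat_lit 152) (nat_lit 3575151318945) (nat_lit 0) (nat_lit 208842084506) (nat_lit 1) (nat_lit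 5) (nat_lit 3) (nat_lit 4) (nat_lit 1) (nat_lit 4) (nat_lit 365) (nat_lit 226) (nat_lit 189)))) (XT.nd (nat_lit 37596) (nat_lit 0) (nat_lit 0) (XT.nd (nat_lit 37518) (nat_lit 0) (nat_lit 152) (XT.lf (nat_lit 0) (nat_lit 227138428927) (nat_lit 152) (nat_lit 3860024696950) (nat_lit 0) (nat_lit 226132625789) (nat_lit 1) (nat_lit 5) (nat_lit 3) (nat_lit 4) (nat_lit 1) (nat_lit 4) (nat_lit 366) (nat_lit 226) (nat_lit 188)) (XT.lf (nat_lit 0) (nat_lit 97378217389) (nat_lit 76) (nat_lit 1226625956) (nat_lit 76) (nat_lit 1226625956) (nat_lit 3) (nat_lit 4) (nat_lit 4) (nat_lit 5) (nat_lit 4) (nat_lit 4) (nat_lit 326) (nat_lit 227) (nat_lit 227))) (XT.nd (nat_lit 78) (nat_lit 152) (nat_lit 0) (XT.lf (nat_lit 0) (nat_lit 213235054060) (nat_lit 76) (nat_lit 1184326530) (nat_lit 76) (nat_lit 1092494641) (nat_lit 3) (nat_lit 4) (nat_lit 4) (nat_lit 5) (nat_lit 4) (nat_lit 4) (nat_lit 327) (nat_lit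 227) (nat_lit 226)) (XT.lf (nat_lit 0) (nat_lit 295221670) (nat_lit 152) (nat_lit 232206430446) (nat_lit 0) (nat_lit 131461099) (nat_lit 1) (nat_lit 5) (nat_lit 3) (nat_lit 4) (nat_lit 1) (nat_lit 4) (nat_lit 328) (nat_lit 227) (nat_lit 225))))) (XT.nd (nat_lit 234) (nat_lit 0) (nat_lit 0) (XT.nd (nat_lit 78) (nat_lit 0) (nat_lit 0) (XT.lf (nat_lit 0) (nat_lit 1753505938) (nat_lit 152) (nat_lit 247850006011) (nat_lit 0) (nat_lit 1516846252) (nat_lit 1) (nat_lit 5) (nat_lit 3) (nat_lit 4) (nat_lit 1) (nat_lit 4) (nat_lit 329) (nat_lit 227) (nat_lit 224)) (XT.nd (nat_lit 78) (nat_lit 0) (nat_lit 0) (XT.lf (nat_lit 0) (nat_lit 3258029561) (nat_lit 152) (nat_lit 264880375648) (nat_lit 0) (nat_lit 2953870695) (nat_lit 1) (nat_lit 5) (nat_lit 3) (nat_lit 4) (nat_lit 1) (nat_lit 4) (nat_lit 330) (nat_lit 227) (nat_lit 223)) (XT.lf (nat_lit 0) (nat_lit 4817708234) (nat_lit 152) (nat_lit 283398460067)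 (nat_lit 0) (nat_lit 4451050127) (nat_lit 1) (nat_lit 5) (nat_lit 3) (nat_lit 4) (nat_lit 1) (nat_lit 4) (nat_lit 331) (nat_lit 227) (nat_lit 222)))) (XT.nd (nat_lit 156) (nat_lit 0) (nat_lit 0) (XT.nd (nat_lit 78) (nat_lit 0) (nat_lit 0) (XT.lf (nat_lit 0) (nat_lit 6441784496) (nat_lit 152) (nat_lit 303513996063) (nat_lit 0) (nat_lit 6017256722) (nat_lit 1) (nat_lit 5) (nat_lit 3) (nat_lit 4) (nat_lit 1) (nat_lit 4) (nat_lit 332) (nat_lit 227) (nat_lit 221)) (XT.lf (nat_lit 0) (nat_lit 8139882505) (nat_lit 152) (nat_lit 325346186812) (nat_lit 0) (nat_lit 7661771705) (nat_lit 1) (nat_lit 5) (nat_lit 3) (nat_lit 4) (nat_lit 1) (nat_lit 4) (nat_lit 333) (nat_lit 227) (nat_lit 220))) (XT.nd (nat_lit 78) (nat_lit 0) (nat_lit 0) (XT.lf (nat_lit 0) (nat_lit 9922065062) (nat_lit 152) (nat_lit 349024408261) (nat_lit 0) (nat_lit 9394340350) (nat_lit 1) (nat_lit 5) (nat_lit 3) (nat_lit 4) (nat_lit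 1) (nat_lit 4) (nat_lit 334) (nat_lit 227) (nat_lit 219)) (XT.lf (nat_lit 0) (nat_lit 11798893250) (nat_lit 152) (nat_lit 374688975795) (nat_lit 0) (nat_lit 11225229730) (nat_lit 1) (nat_lit 5) (nat_lit 3) (nat_lit 4) (nat_lit 1) (nat_lit 4) (nat_lit 335) (nat_lit 227) (nat_lit 218)))))) (XT.nd (nat_lit 546) (nat_lit 0) (nat_lit 0) (XT.nd (nat_lit 234) (nat_lit 0) (nat_lit 0) (XT.nd (nat_lit 78) (nat_lit 0) (nat_lit 0) (XT.lf (nat_lit 0) (nat_lit 13781489013) (nat_lit 152) (nat_lit 402491975741) (nat_lit 0) (nat_lit 13165289560) (nat_lit 1) (nat_lit 5) (nat_lit 3) (nat_lit 4) (nat_lit 1) (nat_lit 4) (nat_lit 336) (nat_lit 227) (nat_lit 217)) (XT.nd (nat_lit 78) (nat_lit 0) (nat_lit 0) (XT.lf (nat_lit 0) (nat_lit 15881601067) (nat_lit 152) (nat_lit 432598166616) (nat_lit 0) (nat_lit 15226016491) (nat_lit 1) (nat_lit 5) (nat_lit 3) (nat_lit 4) (nat_lit 1) (nat_lit 4) (nat_lit 337) (nat_lit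 227) (nat_lit 216)) (XT.lf (nat_lit 0) (nat_lit 18111674521) (nat_lit 152) (nat_lit 465185955478) (nat_lit 0) (nat_lit 17419622238) (nat_lit 1) (nat_lit 5) (nat_lit 3) (nat_lit 4) (nat_lit 1) (nat_lit 4) (nat_lit 338) (nat_lit 227) (nat_lit 215)))) (XT.nd (nat_lit 156) (nat_lit 0) (nat_lit 0) (XT.nd (nat_lit 78) (nat_lit 0) (nat_lit 0) (XT.lf (nat_lit 0) (nat_lit 20484924624) (nat_lit 152) (nat_lit 500448455150) (nat_lit 0) (nat_lit 19759105946) (nat_lit 1) (nat_lit 5) (nat_lit 3) (nat_lit 4) (nat_lit 1) (nat_lit 4) (nat_lit 339) (nat_lit 227) (nat_lit 214)) (XT.lf (nat_lit 0) (nat_lit 23015415081) (nat_lit 152) (nat_lit 538594628592) (nat_lit 0) (nat_lit 22258331222) (nat_lit 1) (nat_lit 5) (nat_lit 3) (nat_lit 4) (nat_lit 1) (nat_lit 4) (nat_lit 340) (nat_lit 227) (nat_lit 213))) (XT.nd (nat_lit 78) (nat_lit 0) (nat_lit 0) (XT.lf (nat_lit 0) (nat_lit 25718141391) (nat_lit 152) (nat_lit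 579850527203) (nat_lit 0) (nat_lit 24932108291) (nat_lit 1) (nat_lit 5) (nat_lit 3) (nat_lit 4) (nat_lit 1) (nat_lit 4) (nat_lit 341) (nat_lit 227) (nat_lit 212)) (XT.lf (nat_lit 0) (nat_lit 28609119710) (nat_lit 152) (nat_lit 624460630382) (nat_lit 0) (nat_lit 27796281757) (nat_lit 1) (nat_lit 5) (nat_lit 3) (nat_lit 4) (nat_lit 1) (nat_lit 4) (nat_lit 342) (nat_lit 227) (nat_lit 211))))) (XT.nd (nat_lit 234) (nat_lit 0) (nat_lit 0) (XT.nd (nat_lit 78) (nat_lit 0) (nat_lit 0) (XT.lf (nat_lit 0) (nat_lit 31705481761) (nat_lit 152) (nat_lit 672689294296) (nat_lit 0) (nat_lit 30867824499) (nat_lit 1) (nat_lit 5) (nat_lit 3) (nat_lit 4) (nat_lit 1) (nat_lit 4) (nat_lit 343) (nat_lit 227) (nat_lit 210)) (XT.nd (nat_lit 78) (nat_lit 0) (nat_lit 0) (XT.lf (nat_lit 0) (nat_lit 35025576357) (nat_lit 152) (nat_lit 724822318434) (nat_lit 0) (nat_lit 34164938254) (nat_lit 1) (nat_lit 5) (nat_lit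 3) (nat_lit 4) (nat_lit 1) (nat_lit 4) (nat_lit 344) (nat_lit 227) (nat_lit 209)) (XT.lf (nat_lit 0) (nat_lit 38589078131) (nat_lit 152) (nat_lit 781168639237) (nat_lit 0) (nat_lit 37707161471) (nat_lit 1) (nat_lit 5) (nat_lit 3) (nat_lit 4) (nat_lit 1) (nat_lit 4) (nat_lit 345) (nat_lit 227) (nat_lit 208)))) (XT.nd (nat_lit 156) (nat_lit 0) (nat_lit 0) (XT.nd (nat_lit 78) (nat_lit 0) (nat_lit 0) (XT.lf (nat_lit 0) (nat_lit 42417104132) (nat_lit 152) (nat_lit 842062160827) (nat_lit 0) (nat_lit 41515485105) (nat_lit 1) (nat_lit 5) (nat_lit 3) (nat_lit 4) (nat_lit 1) (nat_lit 4) (nat_lit 346) (nat_lit 227) (nat_lit 207)) (XT.lf (nat_lit 0) (nat_lit 46532338958) (nat_lit 152) (nat_lit 907863733704) (nat_lit 0) (nat_lit 45612476999) (nat_lit 1) (nat_lit 5) (nat_lit 3) (nat_lit 4) (nat_lit 1) (nat_lit 4) (nat_lit 347) (nat_lit 227) (nat_lit 206))) (XT.nd (nat_lit 78) (nat_lit 0) (nat_lit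 0) (XT.lf (nat_lit 0) (nat_lit 50959169186) (nat_lit 152) (nat_lit 978963293112) (nat_lit 0) (nat_lit 50022415622) (nat_lit 1) (nat_lit 5) (nat_lit 3) (nat_lit 4) (nat_lit 1) (nat_lit 4) (nat_lit 348) (nat_lit 227) (nat_lit 205)) (XT.lf (nat_lit 0) (nat_lit 55723827884) (nat_lit 152) (nat_lit 1055782169775) (nat_lit 0) (nat_lit 54771433945) (nat_lit 1) (nat_lit 5) (nat_lit 3) (nat_lit 4) (nat_lit 1) (nat_lit 4) (nat_lit 349) (nat_lit 227) (nat_lit 204))))))) (XT.nd (nat_lit 1092) (nat_lit 0) (nat_lit 0) (XT.nd (nat_lit 546) (nat_lit 0) (nat_lit 0) (XT.nd (nat_lit 234) (nat_lit 0) (nat_lit 0) (XT.nd (nat_lit 78) (nat_lit 0) (nat_lit 0) (XT.lf (nat_lit 0) (nat_lit 60854550066) (nat_lit 152) (nat_lit 1138775586666) (nat_lit 0) (nat_lit 59887674299) (nat_lit 1) (nat_lit 5) (nat_lit 3) (nat_lit 4) (nat_lit 1) (nat_lit 4) (nat_lit 350) (nat_lit 227) (nat_lit 203)) (XT.nd (nat_lit 78) (nat_lit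 0) (nat_lit 0) (XT.lf (nat_lit 0) (nat_lit 66381740012) (nat_lit 152) (nat_lit 1228435356626) (nat_lit 0) (nat_lit 65401455145) (nat_lit 1) (nat_lit 5) (nat_lit 3) (nat_lit 4) (nat_lit 1) (nat_lit 4) (nat_lit 351) (nat_lit 227) (nat_lit 202)) (XT.lf (nat_lit 0) (nat_lit 72338151440) (nat_lit 152) (nat_lit 1325292796809) (nat_lit 0) (nat_lit 71345450740) (nat_lit 1) (nat_lit 5) (nat_lit 3) (nat_lit 4) (nat_lit 1) (nat_lit 4) (nat_lit 352) (nat_lit 227) (nat_lit 201)))) (XT.nd (nat_lit 156) (nat_lit 0) (nat_lit 0) (XT.nd (nat_lit 78) (nat_lit 0) (nat_lit 0) (XT.lf (nat_lit 0) (nat_lit 78759081603) (nat_lit 152) (nat_lit 1429921877232) (nat_lit 0) (nat_lit 77754884761) (nat_lit 1) (nat_lit 5) (nat_lit 3) (nat_lit 4) (nat_lit 1) (nat_lit 4) (nat_lit 353) (nat_lit 227) (nat_lit 200)) (XT.lf (nat_lit 0) (nat_lit 85682580458) (nat_lit 152) (nat_lit 1542942622075) (nat_lit 0) (nat_lit 84667739040)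 (nat_lit 1) (nat_lit 5) (nat_lit 3) (nat_lit 4) (nat_lit 1) (nat_lit 4) (nat_lit 354) (nat_lit 227) (nat_lit 199))) (XT.nd (nat_lit 78) (nat_lit 0) (nat_lit 0) (XT.lf (nat_lit 0) (nat_lit 93149676145) (nat_lit 152) (nat_lit 1665024783900) (nat_lit 0) (nat_lit 92124978638) (nat_lit 1) (nat_lit 5) (nat_lit 3) (nat_lit 4) (nat_lit 1) (nat_lit 4) (nat_lit 355) (nat_lit 227) (nat_lit 198)) (XT.lf (nat_lit 0) (nat_lit 101204618122) (nat_lit 152) (nat_lit 1796891812555) (nat_lit 0) (nat_lit 100170794607) (nat_lit 1) (nat_lit 5) (nat_lit 3) (nat_lit 4) (nat_lit 1) (nat_lit 4) (nat_lit 356) (nat_lit 227) (nat_lit 197))))) (XT.nd (nat_lit 234) (nat_lit 0) (nat_lit 0) (XT.nd (nat_lit 78) (nat_lit 0) (nat_lit 0) (XT.lf (nat_lit 0) (nat_lit 109895139377) (nat_lit 152) (nat_lit 1939325142283) (nat_lit 0) (nat_lit 108852865854) (nat_lit 1) (nat_lit 5) (nat_lit 3) (nat_lit 4) (nat_lit 1) (nat_lit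 4) (nat_lit 357) (nat_lit 227) (nat_lit 196)) (XT.nd (nat_lit 78) (nat_lit 0) (nat_lit 0) (XT.lf (nat_lit 0) (nat_lit 119272739295) (nat_lit 152) (nat_lit 2093168822447) (nat_lit 0) (nat_lit 118222641691) (nat_lit 1) (nat_lit 5) (nat_lit 3) (nat_lit 4) (nat_lit 1) (nat_lit 4) (nat_lit 358) (nat_lit 227) (nat_lit 195)) (XT.lf (nat_lit 0) (nat_lit 129392988839) (nat_lit 152) (nat_lit 2259334519299) (nat_lit 0) (nat_lit 128335646716) (nat_lit 1) (nat_lit 5) (nat_lit 3) (nat_lit 4) (nat_lit 1) (nat_lit 4) (nat_lit 359) (nat_lit 227) (nat_lit 194)))) (XT.nd (nat_lit 156) (nat_lit 0) (nat_lit 0) (XT.nd (nat_lit 78) (nat_lit 0) (nat_lit 0) (XT.lf (nat_lit 0) (nat_lit 140315859859) (nat_lit 152) (nat_lit 2438806918450) (nat_lit 0) (nat_lit 139251809847) (nat_lit 1) (nat_lit 5) (nat_lit 3) (nat_lit 4) (nat_lit 1) (nat_lit 4) (nat_lit 360) (nat_lit 227) (nat_lit 193)) (XT.lf (nat_lit 0) (nat_lit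 152106080478) (nat_lit 152) (nat_lit 2632649560042) (nat_lit 0) (nat_lit 151035819458) (nat_lit 1) (nat_lit 5) (nat_lit 3) (nat_lit 4) (nat_lit 1) (nat_lit 4) (nat_lit 361) (nat_lit 227) (nat_lit 192))) (XT.nd (nat_lit 78) (nat_lit 0) (nat_lit 0) (XT.lf (nat_lit 0) (nat_lit 164833518671) (nat_lit 152) (nat_lit 2842011141212) (nat_lit 0) (nat_lit 163757506718) (nat_lit 1) (nat_lit 5) (nat_lit 3) (nat_lit 4) (nat_lit 1) (nat_lit 4) (nat_lit 362) (nat_lit 227) (nat_lit 191)) (XT.lf (nat_lit 0) (nat_lit 178573596294) (nat_lit 152) (nat_lit 3068132323181) (nat_lit 0) (nat_lit 177492259403) (nat_lit 1) (nat_lit 5) (nat_lit 3) (nat_lit 4) (nat_lit 1) (nat_lit 4) (nat_lit 363) (nat_lit 227) (nat_lit 190)))))) (XT.nd (nat_lit 37830) (nat_lit 0) (nat_lit 0) (XT.nd (nat_lit 37518) (nat_lit 0) (nat_lit 152) (XT.nd (nat_lit 78) (nat_lit 0) (nat_lit 0) (XT.lf (nat_lit 0) (nat_lit 193407736029) (nat_lit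 152) (nat_lit 3312353083324) (nat_lit 0) (nat_lit 192321468639) (nat_lit 1) (nat_lit 5) (nat_lit 3) (nat_lit 4) (nat_lit 1) (nat_lit 4) (nat_lit 364) (nat_lit 227) (nat_lit 189)) (XT.nd (nat_lit 78) (nat_lit 0) (nat_lit 0) (XT.lf (nat_lit 0) (nat_lit 209423843889) (nat_lit 152) (nat_lit 3576120655775) (nat_lit 0) (nat_lit 208333011223) (nat_lit 1) (nat_lit 5) (nat_lit 3) (nat_lit 4) (nat_lit 1) (nat_lit 4) (nat_lit 365) (nat_lit 227) (nat_lit 188)) (XT.lf (nat_lit 0) (nat_lit 226716830143) (nat_lit 152) (nat_lit 3860998107630) (nat_lit 0) (nat_lit 225621770369) (nat_lit 1) (nat_lit 5) (nat_lit 3) (nat_lit 4) (nat_lit 1) (nat_lit 4) (nat_lit 366) (nat_lit 227) (nat_lit 187)))) (XT.nd (nat_lit 156) (nat_lit 0) (nat_lit 0) (XT.nd (nat_lit 78) (nat_lit 0) (nat_lit 0) (XT.lf (nat_lit 0) (nat_lit 80729326192) (nat_lit 76) (nat_lit 2489057820) (nat_lit 76) (nat_lit 2489057820) (nat_lit 3)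 (nat_lit 4) (nat_lit 4) (nat_lit 5) (nat_lit 4) (nat_lit 4) (nat_lit 324) (nat_lit 228) (nat_lit 228)) (XT.lf (nat_lit 0) (nat_lit 177505297436) (nat_lit 76) (nat_lit 3793964514) (nat_lit 76) (nat_lit 3694786073) (nat_lit 3) (nat_lit 4) (nat_lit 4) (nat_lit 5) (nat_lit 4) (nat_lit 4) (nat_lit 325) (nat_lit 228) (nat_lit 227))) (XT.nd (nat_lit 78) (nat_lit 0) (nat_lit 0) (XT.lf (nat_lit 0) (nat_lit 194683065043) (nat_lit 76) (nat_lit 2587012811) (nat_lit 76) (nat_lit 2396002481) (nat_lit 3) (nat_lit 4) (nat_lit 4) (nat_lit 5) (nat_lit 4) (nat_lit 4) (nat_lit 326) (nat_lit 228) (nat_lit 226)) (XT.lf (nat_lit 0) (nat_lit 213093749386) (nat_lit 76) (nat_lit 1350108224) (nat_lit 76) (nat_lit 1074068366) (nat_lit 3) (nat_lit 4) (nat_lit 4) (nat_lit 5) (nat_lit 4) (nat_lit 4) (nat_lit 327) (nat_lit 228) (nat_lit 225))))) (XT.nd (nat_lit 312) (nat_lit 0) (nat_lit 0) (XT.nd (nat_lit 156) (nat_lit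 0) (nat_lit 0) (XT.nd (nat_lit 78) (nat_lit 0) (nat_lit 0) (XT.lf (nat_lit 0) (nat_lit 206555393) (nat_lit 76) (nat_lit 63313017) (nat_lit 152) (nat_lit 232372719481) (nat_lit 1) (nat_lit 5) (nat_lit 2) (nat_lit 5) (nat_lit 3) (nat_lit 4) (nat_lit 328) (nat_lit 228) (nat_lit 224)) (XT.lf (nat_lit 0) (nat_lit 1692772602) (nat_lit 152) (nat_lit 248143137320) (nat_lit 0) (nat_lit 1296781846) (nat_lit 1) (nat_lit 5) (nat_lit 3) (nat_lit 4) (nat_lit 1) (nat_lit 4) (nat_lit 329) (nat_lit 228) (nat_lit 223))) (XT.nd (nat_lit 78) (nat_lit 0) (nat_lit 0) (XT.lf (nat_lit 0) (nat_lit 3165946782) (nat_lit 152) (nat_lit 265233740232) (nat_lit 0) (nat_lit 2707456786) (nat_lit 1) (nat_lit 5) (nat_lit 3) (nat_lit 4) (nat_lit 1) (nat_lit 4) (nat_lit 330) (nat_lit 228) (nat_lit 222)) (XT.lf (nat_lit 0) (nat_lit 4696598193) (nat_lit 152) (nat_lit 283807596200) (nat_lit 0) (nat_lit 4180238530) (nat_lit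 1) (nat_lit 5) (nat_lit 3) (nat_lit 4) (nat_lit 1) (nat_lit 4) (nat_lit 331) (nat_lit 228) (nat_lit 221)))) (XT.nd (nat_lit 156) (nat_lit 0) (nat_lit 0) (XT.nd (nat_lit 78) (nat_lit 0) (nat_lit 0) (XT.lf (nat_lit 0) (nat_lit 6293797362) (nat_lit 152) (nat_lit 303974772520) (nat_lit 0) (nat_lit 5723854673) (nat_lit 1) (nat_lit 5) (nat_lit 3) (nat_lit 4) (nat_lit 1) (nat_lit 4) (nat_lit 332) (nat_lit 228) (nat_lit 220)) (XT.lf (nat_lit 0) (nat_lit 7967009173) (nat_lit 152) (nat_lit 325854778385) (nat_lit 0) (nat_lit 7347452571) (nat_lit 1) (nat_lit 5) (nat_lit 3) (nat_lit 4) (nat_lit 1) (nat_lit 4) (nat_lit 333) (nat_lit 228) (nat_lit 219))) (XT.nd (nat_lit 78) (nat_lit 0) (nat_lit 0) (XT.lf (nat_lit 0) (nat_lit 9726148954) (nat_lit 152) (nat_lit 349577273088) (nat_lit 0) (nat_lit 9060653544) (nat_lit 1) (nat_lit 5) (nat_lit 3) (nat_lit 4) (nat_lit 1) (nat_lit 4) (nat_lit 334) (nat_lit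 228) (nat_lit 218)) (XT.lf (nat_lit 0) (nat_lit 11581641238) (nat_lit 152) (nat_lit 375282834376) (nat_lit 0) (nat_lit 10873609895) (nat_lit 1) (nat_lit 5) (nat_lit 3) (nat_lit 4) (nat_lit 1) (nat_lit 4) (nat_lit 335) (nat_lit 228) (nat_lit 217))))))))
noncomputable def xc8 : XT := (XT.nd (nat_lit 2184) (nat_lit 0) (nat_lit 0) (XT.nd (nat_lit 1092) (nat_lit 0) (nat_lit 0) (XT.nd (nat_lit 546) (nat_lit 0) (nat_lit 0) (XT.nd (nat_lit 234) (nat_lit 0) (nat_lit 0) (XT.nd (nat_lit 78) (nat_lit 0) (nat_lit 0) (XT.lf (nat_lit 0) (nat_lit 13544481535) (nat_lit 152) (nat_lit 403123791502) (nat_lit 0) (nat_lit 12797065069) (nat_lit 1) (nat_lit 5) (nat_lit 3) (nat_lit 4) (nat_lit 1) (nat_lit 4) (nat_lit 336) (nat_lit 228) (nat_lit 216)) (XT.nd (nat_lit 78) (nat_lit 0) (nat_lit 0) (XT.lf (nat_lit 0) (nat_lit 15626301490) (nat_lit 152) (nat_lit 433265127914) (nat_lit 0) (nat_lit 14842417318) (nat_lit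 1) (nat_lit 5) (nat_lit 3) (nat_lit 4) (nat_lit 1) (nat_lit 4) (nat_lit 337) (nat_lit 228) (nat_lit 215)) (XT.lf (nat_lit 0) (nat_lit 17839437816) (nat_lit 152) (nat_lit 465885458940) (nat_lit 0) (nat_lit 17021787248) (nat_lit 1) (nat_lit 5) (nat_lit 3) (nat_lit 4) (nat_lit 1) (nat_lit 4) (nat_lit 338) (nat_lit 228) (nat_lit 214)))) (XT.nd (nat_lit 156) (nat_lit 0) (nat_lit 0) (XT.nd (nat_lit 78) (nat_lit 0) (nat_lit 0) (XT.lf (nat_lit 0) (nat_lit 20197005393) (nat_lit 152) (nat_lit 501178090244) (nat_lit 0) (nat_lit 19348089644) (nat_lit 1) (nat_lit 5) (nat_lit 3) (nat_lit 4) (nat_lit 1) (nat_lit 4) (nat_lit 339) (nat_lit 228) (nat_lit 213)) (XT.lf (nat_lit 0) (nat_lit 22712974993) (nat_lit 152) (nat_lit 539352163347) (nat_lit 0) (nat_lit 21835110003) (nat_lit 1) (nat_lit 5) (nat_lit 3) (nat_lit 4) (nat_lit 1) (nat_lit 4) (nat_lit 340) (nat_lit 228) (nat_lit 212))) (XT.nd (nat_lit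 78) (nat_lit 0) (nat_lit 0) (XT.lf (nat_lit 0) (nat_lit 25402256064) (nat_lit 152) (nat_lit 580633894976) (nat_lit 0) (nat_lit 24497586221) (nat_lit 1) (nat_lit 5) (nat_lit 3) (nat_lit 4) (nat_lit 1) (nat_lit 4) (nat_lit 341) (nat_lit 228) (nat_lit 211)) (XT.lf (nat_lit 0) (nat_lit 28280785088) (nat_lit 152) (nat_lit 625267917617) (nat_lit 0) (nat_lit 27351295937) (nat_lit 1) (nat_lit 5) (nat_lit 3) (nat_lit 4) (nat_lit 1) (nat_lit 4) (nat_lit 342) (nat_lit 228) (nat_lit 210))))) (XT.nd (nat_lit 234) (nat_lit 0) (nat_lit 0) (XT.nd (nat_lit 78) (nat_lit 0) (nat_lit 0) (XT.lf (nat_lit 0) (nat_lit 31365620015) (nat_lit 152) (nat_lit 673518729181) (nat_lit 0) (nat_lit 30413150022) (nat_lit 1) (nat_lit 5) (nat_lit 3) (nat_lit 4) (nat_lit 1) (nat_lit 4) (nat_lit 343) (nat_lit 228) (nat_lit 209)) (XT.nd (nat_lit 78) (nat_lit 0) (nat_lit 0) (XT.lf (nat_lit 0) (nat_lit 34675041346) (nat_lit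 152) (nat_lit 725672260403) (nat_lit 0) (nat_lit 33701292797) (nat_lit 1) (nat_lit 5) (nat_lit 3) (nat_lit 4) (nat_lit 1) (nat_lit 4) (nat_lit 344) (nat_lit 228) (nat_lit 208)) (XT.lf (nat_lit 0) (nat_lit 38228660469) (nat_lit 152) (nat_lit 782037569246) (nat_lit 0) (nat_lit 37235209552) (nat_lit 1) (nat_lit 5) (nat_lit 3) (nat_lit 4) (nat_lit 1) (nat_lit 4) (nat_lit 345) (nat_lit 228) (nat_lit 207)))) (XT.nd (nat_lit 156) (nat_lit 0) (nat_lit 0) (XT.nd (nat_lit 78) (nat_lit 0) (nat_lit 0) (XT.lf (nat_lit 0) (nat_lit 42047535867) (nat_lit 152) (nat_lit 842948672355) (nat_lit 0) (nat_lit 41035842017) (nat_lit 1) (nat_lit 5) (nat_lit 3) (nat_lit 4) (nat_lit 1) (nat_lit 4) (nat_lit 346) (nat_lit 228) (nat_lit 206)) (XT.lf (nat_lit 0) (nat_lit 46154297912) (nat_lit 152) (nat_lit 908766524414) (nat_lit 0) (nat_lit 45125712458) (nat_lit 1) (nat_lit 5) (nat_lit 3) (nat_lit 4) (nat_lit 1)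 (nat_lit 4) (nat_lit 347) (nat_lit 228) (nat_lit 205))) (XT.nd (nat_lit 78) (nat_lit 0) (nat_lit 0) (XT.lf (nat_lit 0) (nat_lit 50573282972) (nat_lit 152) (nat_lit 979881157141) (nat_lit 0) (nat_lit 49529057144) (nat_lit 1) (nat_lit 5) (nat_lit 3) (nat_lit 4) (nat_lit 1) (nat_lit 4) (nat_lit 348) (nat_lit 228) (nat_lit 204)) (XT.lf (nat_lit 0) (nat_lit 55330677626) (nat_lit 152) (nat_lit 1056713990581) (nat_lit 0) (nat_lit 54271969970) (nat_lit 1) (nat_lit 5) (nat_lit 3) (nat_lit 4) (nat_lit 1) (nat_lit 4) (nat_lit 349) (nat_lit 228) (nat_lit 203)))))) (XT.nd (nat_lit 546) (nat_lit 0) (nat_lit 0) (XT.nd (nat_lit 234) (nat_lit 0) (nat_lit 0) (XT.nd (nat_lit 78) (nat_lit 0) (nat_lit 0) (XT.lf (nat_lit 0) (nat_lit 60454673841) (nat_lit 152) (nat_lit 1139720330413) (nat_lit 0) (nat_lit 59382557085) (nat_lit 1) (nat_lit 5) (nat_lit 3) (nat_lit 4) (nat_lit 1) (nat_lit 4) (nat_lit 350) (nat_lit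 228) (nat_lit 202)) (XT.nd (nat_lit 78) (nat_lit 0) (nat_lit 0) (XT.lf (nat_lit 0) (nat_lit 65975636040) (nat_lit 152) (nat_lit 1229392066058) (nat_lit 0) (nat_lit 64891103451) (nat_lit 1) (nat_lit 5) (nat_lit 3) (nat_lit 4) (nat_lit 1) (nat_lit 4) (nat_lit 351) (nat_lit 228) (nat_lit 201)) (XT.lf (nat_lit 0) (nat_lit 71926281036) (nat_lit 152) (nat_lit 1326260585581) (nat_lit 0) (nat_lit 70830252304) (nat_lit 1) (nat_lit 5) (nat_lit 3) (nat_lit 4) (nat_lit 1) (nat_lit 4) (nat_lit 352) (nat_lit 228) (nat_lit 200)))) (XT.nd (nat_lit 156) (nat_lit 0) (nat_lit 0) (XT.nd (nat_lit 78) (nat_lit 0) (nat_lit 0) (XT.lf (nat_lit 0) (nat_lit 78341871910) (nat_lit 152) (nat_lit 1430899924651) (nat_lit 0) (nat_lit 77235198602) (nat_lit 1) (nat_lit 5) (nat_lit 3) (nat_lit 4) (nat_lit 1) (nat_lit 4) (nat_lit 353) (nat_lit 228) (nat_lit 199)) (XT.lf (nat_lit 0) (nat_lit 85260426979) (nat_lit 152)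 (nat_lit 1543930168241) (nat_lit 0) (nat_lit 84143897582) (nat_lit 1) (nat_lit 5) (nat_lit 3) (nat_lit 4) (nat_lit 1) (nat_lit 4) (nat_lit 354) (nat_lit 228) (nat_lit 198))) (XT.nd (nat_lit 78) (nat_lit 0) (nat_lit 0) (XT.lf (nat_lit 0) (nat_lit 92722945086) (nat_lit 152) (nat_lit 1666021125203) (nat_lit 0) (nat_lit 91597289681) (nat_lit 1) (nat_lit 5) (nat_lit 3) (nat_lit 4) (nat_lit 1) (nat_lit 4) (nat_lit 355) (nat_lit 228) (nat_lit 197)) (XT.lf (nat_lit 0) (nat_lit 100773648563) (nat_lit 152) (nat_lit 1797896297502) (nat_lit 0) (nat_lit 99639543150) (nat_lit 1) (nat_lit 5) (nat_lit 3) (nat_lit 4) (nat_lit 1) (nat_lit 4) (nat_lit 356) (nat_lit 228) (nat_lit 196))))) (XT.nd (nat_lit 234) (nat_lit 0) (nat_lit 0) (XT.nd (nat_lit 78) (nat_lit 0) (nat_lit 0) (XT.lf (nat_lit 0) (nat_lit 109460245281) (nat_lit 152) (nat_lit 1940337167643) (nat_lit 0) (nat_lit 108318315787) (nat_lit 1)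 (nat_lit 5) (nat_lit 3) (nat_lit 4) (nat_lit 1) (nat_lit 4) (nat_lit 357) (nat_lit 228) (nat_lit 195)) (XT.nd (nat_lit 78) (nat_lit 0) (nat_lit 0) (XT.lf (nat_lit 0) (nat_lit 118834211368) (nat_lit 152) (nat_lit 2094187829670) (nat_lit 0) (nat_lit 117685037355) (nat_lit 1) (nat_lit 5) (nat_lit 3) (nat_lit 4) (nat_lit 1) (nat_lit 4) (nat_lit 358) (nat_lit 228) (nat_lit 194)) (XT.lf (nat_lit 0) (nat_lit 128951096255) (nat_lit 152) (nat_lit 2260359991209) (nat_lit 0) (nat_lit 127795214353) (nat_lit 1) (nat_lit 5) (nat_lit 3) (nat_lit 4) (nat_lit 1) (nat_lit 4) (nat_lit 359) (nat_lit 228) (nat_lit 193)))) (XT.nd (nat_lit 156) (nat_lit 0) (nat_lit 0) (XT.nd (nat_lit 78) (nat_lit 0) (nat_lit 0) (XT.lf (nat_lit 0) (nat_lit 139870851851) (nat_lit 152) (nat_lit 2439838376182) (nat_lit 0) (nat_lit 138708758941) (nat_lit 1) (nat_lit 5) (nat_lit 3) (nat_lit 4) (nat_lit 1) (nat_lit 4) (nat_lit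 360) (nat_lit 228) (nat_lit 192)) (XT.lf (nat_lit 0) (nat_lit 151658187818) (nat_lit 152) (nat_lit 2633686560202) (nat_lit 0) (nat_lit 150490343975) (nat_lit 1) (nat_lit 5) (nat_lit 3) (nat_lit 4) (nat_lit 1) (nat_lit 4) (nat_lit 361) (nat_lit 228) (nat_lit 191))) (XT.nd (nat_lit 78) (nat_lit 0) (nat_lit 0) (XT.lf (nat_lit 0) (nat_lit 164382955037) (nat_lit 152) (nat_lit 2843053273250) (nat_lit 0) (nat_lit 163209786256) (nat_lit 1) (nat_lit 5) (nat_lit 3) (nat_lit 4) (nat_lit 1) (nat_lit 4) (nat_lit 362) (nat_lit 228) (nat_lit 190)) (XT.lf (nat_lit 0) (nat_lit 178120559536) (nat_lit 152) (nat_lit 3069179206958) (nat_lit 0) (nat_lit 176942460257) (nat_lit 1) (nat_lit 5) (nat_lit 3) (nat_lit 4) (nat_lit 1) (nat_lit 4) (nat_lit 363) (nat_lit 228) (nat_lit 189))))))) (XT.nd (nat_lit 38220) (nat_lit 0) (nat_lit 0) (XT.nd (nat_lit 37674) (nat_lit 0) (nat_lit 0) (XT.nd (nat_lit 37362) (nat_lit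 0) (nat_lit 152) (XT.nd (nat_lit 78) (nat_lit 0) (nat_lit 0) (XT.lf (nat_lit 0) (nat_lit 192952409341) (nat_lit 152) (nat_lit 3313404366859) (nat_lit 0) (nat_lit 191769744786) (nat_lit 1) (nat_lit 5) (nat_lit 3) (nat_lit 4) (nat_lit 1) (nat_lit 4) (nat_lit 364) (nat_lit 228) (nat_lit 188)) (XT.nd (nat_lit 78) (nat_lit 0) (nat_lit 0) (XT.lf (nat_lit 0) (nat_lit 208966396896) (nat_lit 152) (nat_lit 3577176013159) (nat_lit 0) (nat_lit 207779505233) (nat_lit 1) (nat_lit 5) (nat_lit 3) (nat_lit 4) (nat_lit 1) (nat_lit 4) (nat_lit 365) (nat_lit 228) (nat_lit 187)) (XT.lf (nat_lit 0) (nat_lit 226257419904) (nat_lit 152) (nat_lit 3862057237098) (nat_lit 0) (nat_lit 225066614253) (nat_lit 1) (nat_lit 5) (nat_lit 3) (nat_lit 4) (nat_lit 1) (nat_lit 4) (nat_lit 366) (nat_lit 228) (nat_lit 186)))) (XT.nd (nat_lit 156) (nat_lit 0) (nat_lit 0) (XT.nd (nat_lit 78) (nat_lit 0) (nat_lit 0) (XT.lf (nat_lit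 0) (nat_lit 66235041469) (nat_lit 76) (nat_lit 3686383566) (nat_lit 76) (nat_lit 3686383566) (nat_lit 3) (nat_lit 4) (nat_lit 4) (nat_lit 5) (nat_lit 4) (nat_lit 4) (nat_lit 322) (nat_lit 229) (nat_lit 229)) (XT.lf (nat_lit 0) (nat_lit 146448038661) (nat_lit 76) (nat_lit 6253596096) (nat_lit 76) (nat_lit 6146483381) (nat_lit 3) (nat_lit 4) (nat_lit 4) (nat_lit 5) (nat_lit 4) (nat_lit 4) (nat_lit 323) (nat_lit 229) (nat_lit 228))) (XT.nd (nat_lit 78) (nat_lit 0) (nat_lit 0) (XT.lf (nat_lit 0) (nat_lit 161379413072) (nat_lit 76) (nat_lit 5122577411) (nat_lit 76) (nat_lit 4916286254) (nat_lit 3) (nat_lit 4) (nat_lit 4) (nat_lit 5) (nat_lit 4) (nat_lit 4) (nat_lit 324) (nat_lit 229) (nat_lit 227)) (XT.lf (nat_lit 0) (nat_lit 177352688389) (nat_lit 76) (nat_lit 3973008743) (nat_lit 76) (nat_lit 3674885697) (nat_lit 3) (nat_lit 4) (nat_lit 4) (nat_lit 5) (nat_lit 4) (nat_lit 4) (nat_lit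 325) (nat_lit 229) (nat_lit 226))))) (XT.nd (nat_lit 234) (nat_lit 76) (nat_lit 0) (XT.nd (nat_lit 78) (nat_lit 76) (nat_lit 0) (XT.lf (nat_lit 0) (nat_lit 194462521057) (nat_lit 76) (nat_lit 2798077834) (nat_lit 76) (nat_lit 2414925261) (nat_lit 3) (nat_lit 4) (nat_lit 4) (nat_lit 5) (nat_lit 4) (nat_lit 4) (nat_lit 326) (nat_lit 229) (nat_lit 225)) (XT.nd (nat_lit 78) (nat_lit 76) (nat_lit 0) (XT.lf (nat_lit 0) (nat_lit 212810302679) (nat_lit 76) (nat_lit 1590822131) (nat_lit 76) (nat_lit 1128938514) (nat_lit 3) (nat_lit 4) (nat_lit 4) (nat_lit 5) (nat_lit 4) (nat_lit 4) (nat_lit 327) (nat_lit 229) (nat_lit 224)) (XT.lf (nat_lit 0) (nat_lit 181155859) (nat_lit 152) (nat_lit 157978544) (nat_lit 76) (nat_lit 232318651867) (nat_lit 2) (nat_lit 5) (nat_lit 4) (nat_lit 5) (nat_lit 3) (nat_lit 4) (nat_lit 328) (nat_lit 229) (nat_lit 223)))) (XT.nd (nat_lit 156) (nat_lit 0) (nat_lit 0)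 (XT.nd (nat_lit 78) (nat_lit 0) (nat_lit 0) (XT.lf (nat_lit 0) (nat_lit 1561973758) (nat_lit 152) (nat_lit 248585004344) (nat_lit 0) (nat_lit 1004305321) (nat_lit 1) (nat_lit 5) (nat_lit 3) (nat_lit 4) (nat_lit 1) (nat_lit 4) (nat_lit 329) (nat_lit 229) (nat_lit 222)) (XT.lf (nat_lit 0) (nat_lit 3006120677) (nat_lit 152) (nat_lit 265731378806) (nat_lit 0) (nat_lit 2390582573) (nat_lit 1) (nat_lit 5) (nat_lit 3) (nat_lit 4) (nat_lit 1) (nat_lit 4) (nat_lit 330) (nat_lit 229) (nat_lit 221))) (XT.nd (nat_lit 78) (nat_lit 0) (nat_lit 0) (XT.lf (nat_lit 0) (nat_lit 4509894994) (nat_lit 152) (nat_lit 284356875098) (nat_lit 0) (nat_lit 3840773865) (nat_lit 1) (nat_lit 5) (nat_lit 3) (nat_lit 4) (nat_lit 1) (nat_lit 4) (nat_lit 331) (nat_lit 229) (nat_lit 220)) (XT.lf (nat_lit 0) (nat_lit 6082207965) (nat_lit 152) (nat_lit 304571866533) (nat_lit 0) (nat_lit 5363472923) (nat_lit 1) (nat_lit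 5) (nat_lit 3) (nat_lit 4) (nat_lit 1) (nat_lit 4) (nat_lit 332) (nat_lit 229) (nat_lit 219)))))) (XT.nd (nat_lit 546) (nat_lit 0) (nat_lit 0) (XT.nd (nat_lit 234) (nat_lit 0) (nat_lit 0) (XT.nd (nat_lit 78) (nat_lit 0) (nat_lit 0) (XT.lf (nat_lit 0) (nat_lit 7732377000) (nat_lit 152) (nat_lit 326496145652) (nat_lit 0) (nat_lit 6967703150) (nat_lit 1) (nat_lit 5) (nat_lit 3) (nat_lit 4) (nat_lit 1) (nat_lit 4) (nat_lit 333) (nat_lit 229) (nat_lit 218)) (XT.nd (nat_lit 78) (nat_lit 0) (nat_lit 0) (XT.lf (nat_lit 0) (nat_lit 9470180877) (nat_lit 152) (nat_lit 350259634110) (nat_lit 0) (nat_lit 8662971094) (nat_lit 1) (nat_lit 5) (nat_lit 3) (nat_lit 4) (nat_lit 1) (nat_lit 4) (nat_lit 334) (nat_lit 229) (nat_lit 217)) (XT.lf (nat_lit 0) (nat_lit 11305917695) (nat_lit 152) (nat_lit 376003152578) (nat_lit 0) (nat_lit 10459322789) (nat_lit 1) (nat_lit 5) (nat_lit 3) (nat_lit 4) (nat_lit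 1) (nat_lit 4) (nat_lit 335) (nat_lit 229) (nat_lit 216)))) (XT.nd (nat_lit 156) (nat_lit 0) (nat_lit 0) (XT.nd (nat_lit 78) (nat_lit 0) (nat_lit 0) (XT.lf (nat_lit 0) (nat_lit 13250465893) (nat_lit 152) (nat_lit 403879255240) (nat_lit 0) (nat_lit 12367403280) (nat_lit 1) (nat_lit 5) (nat_lit 3) (nat_lit 4) (nat_lit 1) (nat_lit 4) (nat_lit 336) (nat_lit 229) (nat_lit 215)) (XT.lf (nat_lit 0) (nat_lit 15315348721) (nat_lit 152) (nat_lit 434053133816) (nat_lit 0) (nat_lit 14398519712) (nat_lit 1) (nat_lit 5) (nat_lit 3) (nat_lit 4) (nat_lit 1) (nat_lit 4) (nat_lit 337) (nat_lit 229) (nat_lit 214))) (XT.nd (nat_lit 78) (nat_lit 0) (nat_lit 0) (XT.lf (nat_lit 0) (nat_lit 17512802520) (nat_lit 152) (nat_lit 466703596475) (nat_lit 0) (nat_lit 16564708331) (nat_lit 1) (nat_lit 5) (nat_lit 3) (nat_lit 4) (nat_lit 1) (nat_lit 4) (nat_lit 338) (nat_lit 229) (nat_lit 213)) (XT.lf (nat_lit 0)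 (nat_lit 19855849240) (nat_lit 152) (nat_lit 502024127440) (nat_lit 0) (nat_lit 18878805809) (nat_lit 1) (nat_lit 5) (nat_lit 3) (nat_lit 4) (nat_lit 1) (nat_lit 4) (nat_lit 339) (nat_lit 229) (nat_lit 212))))) (XT.nd (nat_lit 234) (nat_lit 0) (nat_lit 0) (XT.nd (nat_lit 78) (nat_lit 0) (nat_lit 0) (XT.lf (nat_lit 0) (nat_lit 22358373601) (nat_lit 152) (nat_lit 540224033561) (nat_lit 0) (nat_lit 21354525317) (nat_lit 1) (nat_lit 5) (nat_lit 3) (nat_lit 4) (nat_lit 1) (nat_lit 4) (nat_lit 340) (nat_lit 229) (nat_lit 211)) (XT.nd (nat_lit 78) (nat_lit 0) (nat_lit 0) (XT.lf (nat_lit 0) (nat_lit 25035205378) (nat_lit 152) (nat_lit 581529684653) (nat_lit 0) (nat_lit 24006537786) (nat_lit 1) (nat_lit 5) (nat_lit 3) (nat_lit 4) (nat_lit 1) (nat_lit 4) (nat_lit 341) (nat_lit 229) (nat_lit 210)) (XT.lf (nat_lit 0) (nat_lit 27902207277) (nat_lit 152) (nat_lit 626185854943) (nat_lit 0) (nat_lit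 26850558844) (nat_lit 1) (nat_lit 5) (nat_lit 3) (nat_lit 4) (nat_lit 1) (nat_lit 4) (nat_lit 342) (nat_lit 229) (nat_lit 209)))) (XT.nd (nat_lit 156) (nat_lit 0) (nat_lit 0) (XT.nd (nat_lit 78) (nat_lit 0) (nat_lit 0) (XT.lf (nat_lit 0) (nat_lit 30976368940) (nat_lit 152) (nat_lit 674457173590) (nat_lit 0) (nat_lit 29903441949) (nat_lit 1) (nat_lit 5) (nat_lit 3) (nat_lit 4) (nat_lit 1) (nat_lit 4) (nat_lit 343) (nat_lit 229) (nat_lit 208)) (XT.lf (nat_lit 0) (nat_lit 34275907620) (nat_lit 152) (nat_lit 726629692852) (nat_lit 0) (nat_lit 33183278262) (nat_lit 1) (nat_lit 5) (nat_lit 3) (nat_lit 4) (nat_lit 1) (nat_lit 4) (nat_lit 344) (nat_lit 229) (nat_lit 207))) (XT.nd (nat_lit 78) (nat_lit 0) (nat_lit 0) (XT.lf (nat_lit 0) (nat_lit 37820376139) (nat_lit 152) (nat_lit 783012583214) (nat_lit 0) (nat_lit 36709503849) (nat_lit 1) (nat_lit 5) (nat_lit 3) (nat_lit 4) (nat_lit 1) (nat_lit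 4) (nat_lit 345) (nat_lit 229) (nat_lit 206)) (XT.lf (nat_lit 0) (nat_lit 41630778756) (nat_lit 152) (nat_lit 843939965506) (nat_lit 0) (nat_lit 40503014861) (nat_lit 1) (nat_lit 5) (nat_lit 3) (nat_lit 4) (nat_lit 1) (nat_lit 4) (nat_lit 346) (nat_lit 229) (nat_lit 205))))))))
noncomputable def xc9 : XT := (XT.nd (nat_lit 39156) (nat_lit 0) (nat_lit 0) (XT.nd (nat_lit 1092) (nat_lit 0) (nat_lit 0) (XT.nd (nat_lit 546) (nat_lit 0) (nat_lit 0) (XT.nd (nat_lit 234) (nat_lit 0) (nat_lit 0) (XT.nd (nat_lit 78) (nat_lit 0) (nat_lit 0) (XT.lf (nat_lit 0) (nat_lit 45729695633) (nat_lit 152) (nat_lit 909772890885) (nat_lit 0) (nat_lit 44586291365) (nat_lit 1) (nat_lit 5) (nat_lit 3) (nat_lit 4) (nat_lit 1) (nat_lit 4) (nat_lit 347) (nat_lit 229) (nat_lit 204)) (XT.nd (nat_lit 78) (nat_lit 0) (nat_lit 0) (XT.lf (nat_lit 0) (nat_lit 50141416650) (nat_lit 152) (nat_lit 980901480388) (nat_lit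 0) (nat_lit 48983530553) (nat_lit 1) (nat_lit 5) (nat_lit 3) (nat_lit 4) (nat_lit 1) (nat_lit 4) (nat_lit 348) (nat_lit 229) (nat_lit 203)) (XT.lf (nat_lit 0) (nat_lit 54892085337) (nat_lit 152) (nat_lit 1057747236768) (nat_lit 0) (nat_lit 53720790140) (nat_lit 1) (nat_lit 5) (nat_lit 3) (nat_lit 4) (nat_lit 1) (nat_lit 4) (nat_lit 349) (nat_lit 229) (nat_lit 202)))) (XT.nd (nat_lit 156) (nat_lit 0) (nat_lit 0) (XT.nd (nat_lit 78) (nat_lit 0) (nat_lit 0) (XT.lf (nat_lit 0) (nat_lit 60009853805) (nat_lit 152) (nat_lit 1140765542286) (nat_lit 0) (nat_lit 58826142775) (nat_lit 1) (nat_lit 5) (nat_lit 3) (nat_lit 4) (nat_lit 1) (nat_lit 4) (nat_lit 350) (nat_lit 229) (nat_lit 201)) (XT.lf (nat_lit 0) (nat_lit 65525049572) (nat_lit 152) (nat_lit 1230448357271) (nat_lit 0) (nat_lit 64329842400) (nat_lit 1) (nat_lit 5) (nat_lit 3) (nat_lit 4) (nat_lit 1) (nat_lit 4) (nat_lit 351) (nat_lit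 229) (nat_lit 200))) (XT.nd (nat_lit 78) (nat_lit 0) (nat_lit 0) (XT.lf (nat_lit 0) (nat_lit 71470355279) (nat_lit 152) (nat_lit 1327327135440) (nat_lit 0) (nat_lit 70264503530) (nat_lit 1) (nat_lit 5) (nat_lit 3) (nat_lit 4) (nat_lit 1) (nat_lit 4) (nat_lit 352) (nat_lit 229) (nat_lit 199)) (XT.lf (nat_lit 0) (nat_lit 77881002366) (nat_lit 152) (nat_lit 1431975973258) (nat_lit 0) (nat_lit 76665294529) (nat_lit 1) (nat_lit 5) (nat_lit 3) (nat_lit 4) (nat_lit 1) (nat_lit 4) (nat_lit 353) (nat_lit 229) (nat_lit 198))))) (XT.nd (nat_lit 234) (nat_lit 0) (nat_lit 0) (XT.nd (nat_lit 78) (nat_lit 0) (nat_lit 0) (XT.lf (nat_lit 0) (nat_lit 84794979855) (nat_lit 152) (nat_lit 1545015011984) (nat_lit 0) (nat_lit 83570146009) (nat_lit 1) (nat_lit 5) (nat_lit 3) (nat_lit 4) (nat_lit 1) (nat_lit 4) (nat_lit 354) (nat_lit 229) (nat_lit 197)) (XT.nd (nat_lit 78) (nat_lit 0) (nat_lit 0) (XT.lf (nat_lit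 0) (nat_lit 92253259463) (nat_lit 152) (nat_lit 1667114112591) (nat_lit 0) (nat_lit 91019975610) (nat_lit 1) (nat_lit 5) (nat_lit 3) (nat_lit 4) (nat_lit 1) (nat_lit 4) (nat_lit 355) (nat_lit 229) (nat_lit 196)) (XT.lf (nat_lit 0) (nat_lit 100300038402) (nat_lit 152) (nat_lit 1798996825303) (nat_lit 0) (nat_lit 99058930468) (nat_lit 1) (nat_lit 5) (nat_lit 3) (nat_lit 4) (nat_lit 1) (nat_lit 4) (nat_lit 356) (nat_lit 229) (nat_lit 195)))) (XT.nd (nat_lit 156) (nat_lit 0) (nat_lit 0) (XT.nd (nat_lit 78) (nat_lit 0) (nat_lit 0) (XT.lf (nat_lit 0) (nat_lit 108983001290) (nat_lit 152) (nat_lit 1941444677306) (nat_lit 0) (nat_lit 107734648836) (nat_lit 1) (nat_lit 5) (nat_lit 3) (nat_lit 4) (nat_lit 1) (nat_lit 4) (nat_lit 357) (nat_lit 229) (nat_lit 194)) (XT.lf (nat_lit 0) (nat_lit 118353602720) (nat_lit 152) (nat_lit 2095301804021) (nat_lit 0) (nat_lit 117098542377) (nat_lit 1) (nat_lit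 5) (nat_lit 3) (nat_lit 4) (nat_lit 1) (nat_lit 4) (nat_lit 358) (nat_lit 229) (nat_lit 193))) (XT.nd (nat_lit 78) (nat_lit 0) (nat_lit 0) (XT.lf (nat_lit 0) (nat_lit 128467372182) (nat_lit 152) (nat_lit 2261479951382) (nat_lit 0) (nat_lit 127206100832) (nat_lit 1) (nat_lit 5) (nat_lit 3) (nat_lit 4) (nat_lit 1) (nat_lit 4) (nat_lit 359) (nat_lit 229) (nat_lit 192)) (XT.lf (nat_lit 0) (nat_lit 139384243126) (nat_lit 152) (nat_lit 2440963878783) (nat_lit 0) (nat_lit 138117220843) (nat_lit 1) (nat_lit 5) (nat_lit 3) (nat_lit 4) (nat_lit 1) (nat_lit 4) (nat_lit 360) (nat_lit 229) (nat_lit 191)))))) (XT.nd (nat_lit 37518) (nat_lit 0) (nat_lit 152) (XT.nd (nat_lit 234) (nat_lit 0) (nat_lit 0) (XT.nd (nat_lit 78) (nat_lit 0) (nat_lit 0) (XT.lf (nat_lit 0) (nat_lit 151168908119) (nat_lit 152) (nat_lit 2634817194681) (nat_lit 0) (nat_lit 149896560898) (nat_lit 1) (nat_lit 5) (nat_lit 3) (nat_lit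 4) (nat_lit 1) (nat_lit 4) (nat_lit 361) (nat_lit 229) (nat_lit 190)) (XT.nd (nat_lit 78) (nat_lit 0) (nat_lit 0) (XT.lf (nat_lit 0) (nat_lit 163891202215) (nat_lit 152) (nat_lit 2844188659467) (nat_lit 0) (nat_lit 162613924495) (nat_lit 1) (nat_lit 5) (nat_lit 3) (nat_lit 4) (nat_lit 1) (nat_lit 4) (nat_lit 362) (nat_lit 229) (nat_lit 189)) (XT.lf (nat_lit 0) (nat_lit 177626516784) (nat_lit 152) (nat_lit 3070318992933) (nat_lit 0) (nat_lit 176344673788) (nat_lit 1) (nat_lit 5) (nat_lit 3) (nat_lit 4) (nat_lit 1) (nat_lit 4) (nat_lit 363) (nat_lit 229) (nat_lit 188)))) (XT.nd (nat_lit 156) (nat_lit 0) (nat_lit 0) (XT.nd (nat_lit 78) (nat_lit 0) (nat_lit 0) (XT.lf (nat_lit 0) (nat_lit 192456246284) (nat_lit 152) (nat_lit 3314548226684) (nat_lit 0) (nat_lit 191170176180) (nat_lit 1) (nat_lit 5) (nat_lit 3) (nat_lit 4) (nat_lit 1) (nat_lit 4) (nat_lit 364) (nat_lit 229) (nat_lit 187))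 (XT.lf (nat_lit 0) (nat_lit 208468270593) (nat_lit 152) (nat_lit 3578323645068) (nat_lit 0) (nat_lit 207178286501) (nat_lit 1) (nat_lit 5) (nat_lit 3) (nat_lit 4) (nat_lit 1) (nat_lit 4) (nat_lit 365) (nat_lit 229) (nat_lit 186))) (XT.nd (nat_lit 37050) (nat_lit 0) (nat_lit 152) (XT.lf (nat_lit 0) (nat_lit 225757475781) (nat_lit 152) (nat_lit 3863208361676) (nat_lit 0) (nat_lit 224463867626) (nat_lit 1) (nat_lit 5) (nat_lit 3) (nat_lit 4) (nat_lit 1) (nat_lit 4) (nat_lit 366) (nat_lit 229) (nat_lit 185)) (XT.lf (nat_lit 0) (nat_lit 53570340997) (nat_lit 76) (nat_lit 4837090823) (nat_lit 76) (nat_lit 4837090823) (nat_lit 3) (nat_lit 4) (nat_lit 4) (nat_lit 5) (nat_lit 4) (nat_lit 4) (nat_lit 320) (nat_lit 230) (nat_lit 230))))) (XT.nd (nat_lit 234) (nat_lit 0) (nat_lit 0) (XT.nd (nat_lit 78) (nat_lit 0) (nat_lit 0) (XT.lf (nat_lit 0) (nat_lit 119362713571) (nat_lit 76) (nat_lit 8602404379)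 (nat_lit 76) (nat_lit 8486722645) (nat_lit 3) (nat_lit 4) (nat_lit 4) (nat_lit 5) (nat_lit 4) (nat_lit 4) (nat_lit 321) (nat_lit 230) (nat_lit 229)) (XT.nd (nat_lit 78) (nat_lit 0) (nat_lit 0) (XT.lf (nat_lit 0) (nat_lit 132384504480) (nat_lit 76) (nat_lit 7528785845) (nat_lit 76) (nat_lit 7305991396) (nat_lit 3) (nat_lit 4) (nat_lit 4) (nat_lit 5) (nat_lit 4) (nat_lit 4) (nat_lit 322) (nat_lit 230) (nat_lit 228)) (XT.lf (nat_lit 0) (nat_lit 146283220890) (nat_lit 76) (nat_lit 6446963863) (nat_lit 76) (nat_lit 6124990974) (nat_lit 3) (nat_lit 4) (nat_lit 4) (nat_lit 5) (nat_lit 4) (nat_lit 4) (nat_lit 323) (nat_lit 230) (nat_lit 227)))) (XT.nd (nat_lit 156) (nat_lit 0) (nat_lit 0) (XT.nd (nat_lit 78) (nat_lit 0) (nat_lit 0) (XT.lf (nat_lit 0) (nat_lit 161141225567) (nat_lit 76) (nat_lit 5350527636) (nat_lit 76) (nat_lit 4936722856) (nat_lit 3) (nat_lit 4) (nat_lit 4) (nat_lit 5) (nat_lit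 4) (nat_lit 4) (nat_lit 324) (nat_lit 230) (nat_lit 226)) (XT.lf (nat_lit 0) (nat_lit 177046565945) (nat_lit 76) (nat_lit 4232979762) (nat_lit 76) (nat_lit 3734145456) (nat_lit 3) (nat_lit 4) (nat_lit 4) (nat_lit 5) (nat_lit 4) (nat_lit 4) (nat_lit 325) (nat_lit 230) (nat_lit 225))) (XT.nd (nat_lit 78) (nat_lit 0) (nat_lit 0) (XT.lf (nat_lit 0) (nat_lit 194093495892) (nat_lit 76) (nat_lit 3087697737) (nat_lit 76) (nat_lit 2510132387) (nat_lit 3) (nat_lit 4) (nat_lit 4) (nat_lit 5) (nat_lit 4) (nat_lit 4) (nat_lit 326) (nat_lit 230) (nat_lit 224)) (XT.lf (nat_lit 0) (nat_lit 212383034253) (nat_lit 76) (nat_lit 1907894704) (nat_lit 76) (nat_lit 1257430239) (nat_lit 3) (nat_lit 4) (nat_lit 4) (nat_lit 5) (nat_lit 4) (nat_lit 4) (nat_lit 327) (nat_lit 230) (nat_lit 223))))))) (XT.nd (nat_lit 1092) (nat_lit 0) (nat_lit 0) (XT.nd (nat_lit 546) (nat_lit 0) (nat_lit 0) (XT.nd (nat_lit 234)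 (nat_lit 0) (nat_lit 0) (XT.nd (nat_lit 78) (nat_lit 76) (nat_lit 0) (XT.lf (nat_lit 0) (nat_lit 29814431) (nat_lit 152) (nat_lit 655949627) (nat_lit 76) (nat_lit 231992933867) (nat_lit 2) (nat_lit 5) (nat_lit 4) (nat_lit 5) (nat_lit 3) (nat_lit 4) (nat_lit 328) (nat_lit 230) (nat_lit 222)) (XT.nd (nat_lit 78) (nat_lit 0) (nat_lit 0) (XT.lf (nat_lit 0) (nat_lit 1360334303) (nat_lit 152) (nat_lit 249178225554) (nat_lit 0) (nat_lit 637683483) (nat_lit 1) (nat_lit 5) (nat_lit 3) (nat_lit 4) (nat_lit 1) (nat_lit 4) (nat_lit 329) (nat_lit 230) (nat_lit 221)) (XT.lf (nat_lit 0) (nat_lit 2777604129) (nat_lit 152) (nat_lit 266376240340) (nat_lit 0) (nat_lit 2001370283) (nat_lit 1) (nat_lit 5) (nat_lit 3) (nat_lit 4) (nat_lit 1) (nat_lit 4) (nat_lit 330) (nat_lit 230) (nat_lit 220)))) (XT.nd (nat_lit 156) (nat_lit 0) (nat_lit 0) (XT.nd (nat_lit 78) (nat_lit 0) (nat_lit 0) (XT.lf (nat_lit 0)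 (nat_lit 4256492248) (nat_lit 152) (nat_lit 285049551747) (nat_lit 0) (nat_lit 3430644490) (nat_lit 1) (nat_lit 5) (nat_lit 3) (nat_lit 4) (nat_lit 1) (nat_lit 4) (nat_lit 331) (nat_lit 230) (nat_lit 219)) (XT.lf (nat_lit 0) (nat_lit 5805762443) (nat_lit 152) (nat_lit 305308816437) (nat_lit 0) (nat_lit 4933975877) (nat_lit 1) (nat_lit 5) (nat_lit 3) (nat_lit 4) (nat_lit 1) (nat_lit 4) (nat_lit 332) (nat_lit 230) (nat_lit 218))) (XT.nd (nat_lit 78) (nat_lit 0) (nat_lit 0) (XT.lf (nat_lit 0) (nat_lit 7434595573) (nat_lit 152) (nat_lit 327274089310) (nat_lit 0) (nat_lit 6520273074) (nat_lit 1) (nat_lit 5) (nat_lit 3) (nat_lit 4) (nat_lit 1) (nat_lit 4) (nat_lit 333) (nat_lit 230) (nat_lit 217)) (XT.lf (nat_lit 0) (nat_lit 9152643985) (nat_lit 152) (nat_lit 351075534947) (nat_lit 0) (nat_lit 8198936362) (nat_lit 1) (nat_lit 5) (nat_lit 3) (nat_lit 4) (nat_lit 1) (nat_lit 4) (nat_lit 334)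 (nat_lit 230) (nat_lit 216))))) (XT.nd (nat_lit 234) (nat_lit 0) (nat_lit 0) (XT.nd (nat_lit 78) (nat_lit 0) (nat_lit 0) (XT.lf (nat_lit 0) (nat_lit 10970088704) (nat_lit 152) (nat_lit 376854198952) (nat_lit 0) (nat_lit 9979913375) (nat_lit 1) (nat_lit 5) (nat_lit 3) (nat_lit 4) (nat_lit 1) (nat_lit 4) (nat_lit 335) (nat_lit 230) (nat_lit 215)) (XT.nd (nat_lit 78) (nat_lit 0) (nat_lit 0) (XT.lf (nat_lit 0) (nat_lit 12897699774) (nat_lit 152) (nat_lit 404762843778) (nat_lit 0) (nat_lit 11873758050) (nat_lit 1) (nat_lit 5) (nat_lit 3) (nat_lit 4) (nat_lit 1) (nat_lit 4) (nat_lit 336) (nat_lit 230) (nat_lit 214)) (XT.lf (nat_lit 0) (nat_lit 14946900075) (nat_lit 152) (nat_lit 434966853987) (nat_lit 0) (nat_lit 13891693170) (nat_lit 1) (nat_lit 5) (nat_lit 3) (nat_lit 4) (nat_lit 1) (nat_lit 4) (nat_lit 337) (nat_lit 230) (nat_lit 213)))) (XT.nd (nat_lit 156) (nat_lit 0) (nat_lit 0) (XT.nd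 (nat_lit 78) (nat_lit 0) (nat_lit 0) (XT.lf (nat_lit 0) (nat_lit 17129833017) (nat_lit 152) (nat_lit 467645216306) (nat_lit 0) (nat_lit 16045676871) (nat_lit 1) (nat_lit 5) (nat_lit 3) (nat_lit 4) (nat_lit 1) (nat_lit 4) (nat_lit 338) (nat_lit 230) (nat_lit 212)) (XT.lf (nat_lit 0) (nat_lit 19459434498) (nat_lit 152) (nat_lit 502991580290) (nat_lit 0) (nat_lit 18348473499) (nat_lit 1) (nat_lit 5) (nat_lit 3) (nat_lit 4) (nat_lit 1) (nat_lit 4) (nat_lit 339) (nat_lit 230) (nat_lit 211))) (XT.nd (nat_lit 78) (nat_lit 0) (nat_lit 0) (XT.lf (nat_lit 0) (nat_lit 21949509565) (nat_lit 152) (nat_lit 541215405873) (nat_lit 0) (nat_lit 20813729257) (nat_lit 1) (nat_lit 5) (nat_lit 3) (nat_lit 4) (nat_lit 1) (nat_lit 4) (nat_lit 340) (nat_lit 230) (nat_lit 210)) (XT.lf (nat_lit 0) (nat_lit 24614814217) (nat_lit 152) (nat_lit 582543204615) (nat_lit 0) (nat_lit 23456053067) (nat_lit 1) (nat_lit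 5) (nat_lit 3) (nat_lit 4) (nat_lit 1) (nat_lit 4) (nat_lit 341) (nat_lit 230) (nat_lit 209)))))) (XT.nd (nat_lit 546) (nat_lit 0) (nat_lit 0) (XT.nd (nat_lit 234) (nat_lit 0) (nat_lit 0) (XT.nd (nat_lit 78) (nat_lit 0) (nat_lit 0) (XT.lf (nat_lit 0) (nat_lit 27471142852) (nat_lit 152) (nat_lit 627219881989) (nat_lit 0) (nat_lit 26291103146) (nat_lit 1) (nat_lit 5) (nat_lit 3) (nat_lit 4) (nat_lit 1) (nat_lit 4) (nat_lit 342) (nat_lit 230) (nat_lit 208)) (XT.nd (nat_lit 78) (nat_lit 0) (nat_lit 0) (XT.lf (nat_lit 0) (nat_lit 30535421863) (nat_lit 152) (nat_lit 675510188676) (nat_lit 0) (nat_lit 29335679790) (nat_lit 1) (nat_lit 5) (nat_lit 3) (nat_lit 4) (nat_lit 1) (nat_lit 4) (nat_lit 343) (nat_lit 230) (nat_lit 207)) (XT.lf (nat_lit 0) (nat_lit 33825809940) (nat_lit 152) (nat_lit 727700289456) (nat_lit 0) (nat_lit 32607824934) (nat_lit 1) (nat_lit 5) (nat_lit 3) (nat_lit 4) (nat_lit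 1) (nat_lit 4) (nat_lit 344) (nat_lit 230) (nat_lit 206)))) (XT.nd (nat_lit 156) (nat_lit 0) (nat_lit 0) (XT.nd (nat_lit 78) (nat_lit 0) (nat_lit 0) (XT.lf (nat_lit 0) (nat_lit 37361805678) (nat_lit 152) (nat_lit 784099459001) (nat_lit 0) (nat_lit 36126929068) (nat_lit 1) (nat_lit 5) (nat_lit 3) (nat_lit 4) (nat_lit 1) (nat_lit 4) (nat_lit 345) (nat_lit 230) (nat_lit 205)) (XT.lf (nat_lit 0) (nat_lit 41164363127) (nat_lit 152) (nat_lit 845041914612) (nat_lit 0) (nat_lit 39913846143) (nat_lit 1) (nat_lit 5) (nat_lit 3) (nat_lit 4) (nat_lit 1) (nat_lit 4) (nat_lit 346) (nat_lit 230) (nat_lit 204))) (XT.nd (nat_lit 78) (nat_lit 0) (nat_lit 0) (XT.lf (nat_lit 0) (nat_lit 45256015961) (nat_lit 152) (nat_lit 910888796767) (nat_lit 0) (nat_lit 43991017148) (nat_lit 1) (nat_lit 5) (nat_lit 3) (nat_lit 4) (nat_lit 1) (nat_lit 4) (nat_lit 347) (nat_lit 230) (nat_lit 203)) (XT.lf (nat_lit 0)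 (nat_lit 49661011011) (nat_lit 152) (nat_lit 982030309211) (nat_lit 0) (nat_lit 48382603098) (nat_lit 1) (nat_lit 5) (nat_lit 3) (nat_lit 4) (nat_lit 1) (nat_lit 4) (nat_lit 348) (nat_lit 230) (nat_lit 202))))) (XT.nd (nat_lit 312) (nat_lit 0) (nat_lit 0) (XT.nd (nat_lit 156) (nat_lit 0) (nat_lit 0) (XT.nd (nat_lit 78) (nat_lit 0) (nat_lit 0) (XT.lf (nat_lit 0) (nat_lit 54405451951) (nat_lit 152) (nat_lit 1058888031277) (nat_lit 0) (nat_lit 53114628205) (nat_lit 1) (nat_lit 5) (nat_lit 3) (nat_lit 4) (nat_lit 1) (nat_lit 4) (nat_lit 349) (nat_lit 230) (nat_lit 201)) (XT.lf (nat_lit 0) (nat_lit 59517453987) (nat_lit 152) (nat_lit 1141917416134) (nat_lit 0) (nat_lit 58215134099) (nat_lit 1) (nat_lit 5) (nat_lit 3) (nat_lit 4) (nat_lit 1) (nat_lit 4) (nat_lit 350) (nat_lit 230) (nat_lit 200))) (XT.nd (nat_lit 78) (nat_lit 0) (nat_lit 0) (XT.lf (nat_lit 0) (nat_lit 65027310465) (nat_lit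 152) (nat_lit 1231610489766) (nat_lit 0) (nat_lit 63714346000) (nat_lit 1) (nat_lit 5) (nat_lit 3) (nat_lit 4) (nat_lit 1) (nat_lit 4) (nat_lit 351) (nat_lit 230) (nat_lit 199)) (XT.lf (nat_lit 0) (nat_lit 70967672385) (nat_lit 152) (nat_lit 1328498766683) (nat_lit 0) (nat_lit 69644851832) (nat_lit 1) (nat_lit 5) (nat_lit 3) (nat_lit 4) (nat_lit 1) (nat_lit 4) (nat_lit 352) (nat_lit 230) (nat_lit 198)))) (XT.nd (nat_lit 156) (nat_lit 0) (nat_lit 0) (XT.nd (nat_lit 78) (nat_lit 0) (nat_lit 0) (XT.lf (nat_lit 0) (nat_lit 77373741893) (nat_lit 152) (nat_lit 1433156399637) (nat_lit 0) (nat_lit 76041795331) (nat_lit 1) (nat_lit 5) (nat_lit 3) (nat_lit 4) (nat_lit 1) (nat_lit 4) (nat_lit 353) (nat_lit 230) (nat_lit 197)) (XT.lf (nat_lit 0) (nat_lit 84283480881) (nat_lit 152) (nat_lit 1546203582009) (nat_lit 0) (nat_lit 82943084312) (nat_lit 1) (nat_lit 5) (nat_lit 3) (nat_lit 4) (nat_lit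 1) (nat_lit 4) (nat_lit 354) (nat_lit 230) (nat_lit 196))) (XT.nd (nat_lit 78) (nat_lit 0) (nat_lit 0) (XT.lf (nat_lit 0) (nat_lit 91737835952) (nat_lit 152) (nat_lit 1668310223027) (nat_lit 0) (nat_lit 90389615302) (nat_lit 1) (nat_lit 5) (nat_lit 3) (nat_lit 4) (nat_lit 1) (nat_lit 4) (nat_lit 355) (nat_lit 230) (nat_lit 195)) (XT.lf (nat_lit 0) (nat_lit 99780981061) (nat_lit 152) (nat_lit 1800199917602) (nat_lit 0) (nat_lit 98425515892) (nat_lit 1) (nat_lit 5) (nat_lit 3) (nat_lit 4) (nat_lit 1) (nat_lit 4) (nat_lit 356) (nat_lit 230) (nat_lit 194))))))))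
noncomputable def xc10 : XT := (XT.nd (nat_lit 39000) (nat_lit 0) (nat_lit 0) (XT.nd (nat_lit 37908) (nat_lit 0) (nat_lit 0) (XT.nd (nat_lit 546) (nat_lit 0) (nat_lit 0) (XT.nd (nat_lit 234) (nat_lit 0) (nat_lit 0) (XT.nd (nat_lit 78) (nat_lit 0) (nat_lit 0) (XT.lf (nat_lit 0) (nat_lit 108460579291) (nat_lit 152) (nat_lit 1942654234293) (nat_lit 0) (nat_lit 107098406233) (nat_lit 1) (nat_lit 5) (nat_lit 3) (nat_lit 4) (nat_lit 1) (nat_lit 4) (nat_lit 357) (nat_lit 230) (nat_lit 193)) (XT.nd (nat_lit 78) (nat_lit 0) (nat_lit 0) (XT.lf (nat_lit 0) (nat_lit 117828065297) (nat_lit 152) (nat_lit 2096517346830) (nat_lit 0) (nat_lit 116459681231) (nat_lit 1) (nat_lit 5) (nat_lit 3) (nat_lit 4) (nat_lit 1) (nat_lit 4) (nat_lit 358) (nat_lit 230) (nat_lit 192)) (XT.lf (nat_lit 0) (nat_lit 127938950108) (nat_lit 152) (nat_lit 2262701036619) (nat_lit 0) (nat_lit 126564815108) (nat_lit 1) (nat_lit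 5) (nat_lit 3) (nat_lit 4) (nat_lit 1) (nat_lit 4) (nat_lit 359) (nat_lit 230) (nat_lit 191)))) (XT.nd (nat_lit 156) (nat_lit 0) (nat_lit 0) (XT.nd (nat_lit 78) (nat_lit 0) (nat_lit 0) (XT.lf (nat_lit 0) (nat_lit 138853150077) (nat_lit 152) (nat_lit 2442190095897) (nat_lit 0) (nat_lit 137473690140) (nat_lit 1) (nat_lit 5) (nat_lit 3) (nat_lit 4) (nat_lit 1) (nat_lit 4) (nat_lit 360) (nat_lit 230) (nat_lit 190)) (XT.lf (nat_lit 0) (nat_lit 150635341947) (nat_lit 152) (nat_lit 2636048163534) (nat_lit 0) (nat_lit 149250951511) (nat_lit 1) (nat_lit 5) (nat_lit 3) (nat_lit 4) (nat_lit 1) (nat_lit 4) (nat_lit 361) (nat_lit 230) (nat_lit 189))) (XT.nd (nat_lit 78) (nat_lit 0) (nat_lit 0) (XT.lf (nat_lit 0) (nat_lit 163355346113) (nat_lit 152) (nat_lit 2845424028078) (nat_lit 0) (nat_lit 161966390401) (nat_lit 1) (nat_lit 5) (nat_lit 3) (nat_lit 4) (nat_lit 1) (nat_lit 4) (nat_lit 362) (nat_lit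 230) (nat_lit 188)) (XT.lf (nat_lit 0) (nat_lit 177088540377) (nat_lit 152) (nat_lit 3071558435394) (nat_lit 0) (nat_lit 175695357557) (nat_lit 1) (nat_lit 5) (nat_lit 3) (nat_lit 4) (nat_lit 1) (nat_lit 4) (nat_lit 363) (nat_lit 230) (nat_lit 187))))) (XT.nd (nat_lit 37050) (nat_lit 0) (nat_lit 152) (XT.nd (nat_lit 78) (nat_lit 0) (nat_lit 0) (XT.lf (nat_lit 0) (nat_lit 191916306631) (nat_lit 152) (nat_lit 3315791441228) (nat_lit 0) (nat_lit 190519209823) (nat_lit 1) (nat_lit 5) (nat_lit 3) (nat_lit 4) (nat_lit 1) (nat_lit 4) (nat_lit 364) (nat_lit 230) (nat_lit 186)) (XT.nd (nat_lit 78) (nat_lit 0) (nat_lit 0) (XT.lf (nat_lit 0) (nat_lit 207926513120) (nat_lit 152) (nat_lit 3579570352282) (nat_lit 0) (nat_lit 206525792249) (nat_lit 1) (nat_lit 5) (nat_lit 3) (nat_lit 4) (nat_lit 1) (nat_lit 4) (nat_lit 365) (nat_lit 230) (nat_lit 185)) (XT.lf (nat_lit 0) (nat_lit 225214035142) (nat_lit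 152) (nat_lit 3864458302843) (nat_lit 0) (nat_lit 223809958656) (nat_lit 1) (nat_lit 5) (nat_lit 3) (nat_lit 4) (nat_lit 1) (nat_lit 4) (nat_lit 366) (nat_lit 230) (nat_lit 184)))) (XT.nd (nat_lit 156) (nat_lit 0) (nat_lit 0) (XT.nd (nat_lit 78) (nat_lit 0) (nat_lit 0) (XT.lf (nat_lit 0) (nat_lit 42455159130) (nat_lit 76) (nat_lit 5957765712) (nat_lit 76) (nat_lit 5957765712) (nat_lit 3) (nat_lit 4) (nat_lit 4) (nat_lit 5) (nat_lit 4) (nat_lit 4) (nat_lit 318) (nat_lit 231) (nat_lit 231)) (XT.lf (nat_lit 0) (nat_lit 95645982899) (nat_lit 76) (nat_lit 10875405195) (nat_lit 76) (nat_lit 10750468923) (nat_lit 3) (nat_lit 4) (nat_lit 4) (nat_lit 5) (nat_lit 4) (nat_lit 4) (nat_lit 319) (nat_lit 231) (nat_lit 230))) (XT.nd (nat_lit 78) (nat_lit 0) (nat_lit 0) (XT.lf (nat_lit 0) (nat_lit 107048257261) (nat_lit 76) (nat_lit 9842681856) (nat_lit 76) (nat_lit 9602063851) (nat_lit 3) (nat_lit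 4) (nat_lit 4) (nat_lit 5) (nat_lit 4) (nat_lit 4) (nat_lit 320) (nat_lit 231) (nat_lit 229)) (XT.lf (nat_lit 0) (nat_lit 119184710378) (nat_lit 76) (nat_lit 8811241567) (nat_lit 76) (nat_lit 8463510846) (nat_lit 3) (nat_lit 4) (nat_lit 4) (nat_lit 5) (nat_lit 4) (nat_lit 4) (nat_lit 321) (nat_lit 231) (nat_lit 228)))))) (XT.nd (nat_lit 546) (nat_lit 152) (nat_lit 0) (XT.nd (nat_lit 234) (nat_lit 0) (nat_lit 0) (XT.nd (nat_lit 78) (nat_lit 0) (nat_lit 0) (XT.lf (nat_lit 0) (nat_lit 132127261974) (nat_lit 76) (nat_lit 7774972088) (nat_lit 76) (nat_lit 7328062927) (nat_lit 3) (nat_lit 4) (nat_lit 4) (nat_lit 5) (nat_lit 4) (nat_lit 4) (nat_lit 322) (nat_lit 231) (nat_lit 227)) (XT.nd (nat_lit 78) (nat_lit 0) (nat_lit 0) (XT.lf (nat_lit 0) (nat_lit 145952608651) (nat_lit 76) (nat_lit 6727732564) (nat_lit 76) (nat_lit 6188991514) (nat_lit 3) (nat_lit 4) (nat_lit 4) (nat_lit 5) (nat_lit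 4) (nat_lit 4) (nat_lit 323) (nat_lit 231) (nat_lit 226)) (XT.lf (nat_lit 0) (nat_lit 160742678388) (nat_lit 76) (nat_lit 5663317131) (nat_lit 76) (nat_lit 5039546553) (nat_lit 3) (nat_lit 4) (nat_lit 4) (nat_lit 5) (nat_lit 4) (nat_lit 4) (nat_lit 324) (nat_lit 231) (nat_lit 225)))) (XT.nd (nat_lit 156) (nat_lit 0) (nat_lit 0) (XT.nd (nat_lit 78) (nat_lit 0) (nat_lit 0) (XT.lf (nat_lit 0) (nat_lit 176585116045) (nat_lit 76) (nat_lit 4575418141) (nat_lit 76) (nat_lit 3872916520) (nat_lit 3) (nat_lit 4) (nat_lit 4) (nat_lit 5) (nat_lit 4) (nat_lit 4) (nat_lit 325) (nat_lit 231) (nat_lit 224)) (XT.lf (nat_lit 0) (nat_lit 193573802731) (nat_lit 76) (nat_lit 3457588787) (nat_lit 76) (nat_lit 2682188050) (nat_lit 3) (nat_lit 4) (nat_lit 4) (nat_lit 5) (nat_lit 4) (nat_lit 4) (nat_lit 326) (nat_lit 231) (nat_lit 223))) (XT.nd (nat_lit 78) (nat_lit 0) (nat_lit 0) (XT.lf (nat_lit 0) (nat_lit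 211809412148) (nat_lit 76) (nat_lit 2303204893) (nat_lit 76) (nat_lit 1460304976) (nat_lit 3) (nat_lit 4) (nat_lit 4) (nat_lit 5) (nat_lit 4) (nat_lit 4) (nat_lit 327) (nat_lit 231) (nat_lit 222)) (XT.lf (nat_lit 0) (nat_lit 231400007164) (nat_lit 76) (nat_lit 1105425666) (nat_lit 76) (nat_lit 200026509) (nat_lit 3) (nat_lit 4) (nat_lit 4) (nat_lit 5) (nat_lit 4) (nat_lit 4) (nat_lit 328) (nat_lit 231) (nat_lit 221))))) (XT.nd (nat_lit 234) (nat_lit 0) (nat_lit 0) (XT.nd (nat_lit 78) (nat_lit 0) (nat_lit 0) (XT.lf (nat_lit 0) (nat_lit 1086659337) (nat_lit 152) (nat_lit 249926316335) (nat_lit 0) (nat_lit 194743758) (nat_lit 1) (nat_lit 5) (nat_lit 3) (nat_lit 4) (nat_lit 1) (nat_lit 4) (nat_lit 329) (nat_lit 231) (nat_lit 220)) (XT.nd (nat_lit 78) (nat_lit 0) (nat_lit 0) (XT.lf (nat_lit 0) (nat_lit 2479042964) (nat_lit 152) (nat_lit 267172146235) (nat_lit 0) (nat_lit 1537513473) (nat_lit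 1) (nat_lit 5) (nat_lit 3) (nat_lit 4) (nat_lit 1) (nat_lit 4) (nat_lit 330) (nat_lit 231) (nat_lit 219)) (XT.lf (nat_lit 0) (nat_lit 3934888307) (nat_lit 152) (nat_lit 285889730897) (nat_lit 0) (nat_lit 2947420008) (nat_lit 1) (nat_lit 5) (nat_lit 3) (nat_lit 4) (nat_lit 1) (nat_lit 4) (nat_lit 331) (nat_lit 231) (nat_lit 218)))) (XT.nd (nat_lit 156) (nat_lit 0) (nat_lit 0) (XT.nd (nat_lit 78) (nat_lit 0) (nat_lit 0) (XT.lf (nat_lit 0) (nat_lit 5462822599) (nat_lit 152) (nat_lit 306189989341) (nat_lit 0) (nat_lit 4432818366) (nat_lit 1) (nat_lit 5) (nat_lit 3) (nat_lit 4) (nat_lit 1) (nat_lit 4) (nat_lit 332) (nat_lit 231) (nat_lit 217)) (XT.lf (nat_lit 0) (nat_lit 7071900263) (nat_lit 152) (nat_lit 328193219394) (nat_lit 0) (nat_lit 6002510908) (nat_lit 1) (nat_lit 5) (nat_lit 3) (nat_lit 4) (nat_lit 1) (nat_lit 4) (nat_lit 333) (nat_lit 231) (nat_lit 216))) (XT.nd (nat_lit 78) (nat_lit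 0) (nat_lit 0) (XT.lf (nat_lit 0) (nat_lit 8771656576) (nat_lit 152) (nat_lit 352029810569) (nat_lit 0) (nat_lit 7665799514) (nat_lit 1) (nat_lit 5) (nat_lit 3) (nat_lit 4) (nat_lit 1) (nat_lit 4) (nat_lit 334) (nat_lit 231) (nat_lit 215)) (XT.lf (nat_lit 0) (nat_lit 10572164167) (nat_lit 152) (nat_lit 377841016737) (nat_lit 0) (nat_lit 9432540709) (nat_lit 1) (nat_lit 5) (nat_lit 3) (nat_lit 4) (nat_lit 1) (nat_lit 4) (nat_lit 335) (nat_lit 231) (nat_lit 214))))))) (XT.nd (nat_lit 1092) (nat_lit 0) (nat_lit 0) (XT.nd (nat_lit 546) (nat_lit 0) (nat_lit 0) (XT.nd (nat_lit 234) (nat_lit 0) (nat_lit 0) (XT.nd (nat_lit 78) (nat_lit 0) (nat_lit 0) (XT.lf (nat_lit 0) (nat_lit 12484092711) (nat_lit 152) (nat_lit 405779793196) (nat_lit 0) (nat_lit 11313204073) (nat_lit 1) (nat_lit 5) (nat_lit 3) (nat_lit 4) (nat_lit 1) (nat_lit 4) (nat_lit 336) (nat_lit 231) (nat_lit 213)) (XT.nd (nat_lit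 78) (nat_lit 0) (nat_lit 0) (XT.lf (nat_lit 0) (nat_lit 14518772155) (nat_lit 152) (nat_lit 436011703066) (nat_lit 0) (nat_lit 13318934275) (nat_lit 1) (nat_lit 5) (nat_lit 3) (nat_lit 4) (nat_lit 1) (nat_lit 4) (nat_lit 337) (nat_lit 231) (nat_lit 212)) (XT.lf (nat_lit 0) (nat_lit 16688259858) (nat_lit 152) (nat_lit 468715898404) (nat_lit 0) (nat_lit 15461617125) (nat_lit 1) (nat_lit 5) (nat_lit 3) (nat_lit 4) (nat_lit 1) (nat_lit 4) (nat_lit 338) (nat_lit 231) (nat_lit 211)))) (XT.nd (nat_lit 156) (nat_lit 0) (nat_lit 0) (XT.nd (nat_lit 78) (nat_lit 0) (nat_lit 0) (XT.lf (nat_lit 0) (nat_lit 19005412044) (nat_lit 152) (nat_lit 504086181849) (nat_lit 0) (nat_lit 17753950003) (nat_lit 1) (nat_lit 5) (nat_lit 3) (nat_lit 4) (nat_lit 1) (nat_lit 4) (nat_lit 339) (nat_lit 231) (nat_lit 210)) (XT.lf (nat_lit 0) (nat_lit 21483959986) (nat_lit 152) (nat_lit 542332155082) (nat_lit 0) (nat_lit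 20209517103) (nat_lit 1) (nat_lit 5) (nat_lit 3) (nat_lit 4) (nat_lit 1) (nat_lit 4) (nat_lit 340) (nat_lit 231) (nat_lit 209))) (XT.nd (nat_lit 78) (nat_lit 0) (nat_lit 0) (XT.lf (nat_lit 0) (nat_lit 24138591374) (nat_lit 152) (nat_lit 583680460907) (nat_lit 0) (nat_lit 22842869935) (nat_lit 1) (nat_lit 5) (nat_lit 3) (nat_lit 4) (nat_lit 1) (nat_lit 4) (nat_lit 341) (nat_lit 231) (nat_lit 208)) (XT.lf (nat_lit 0) (nat_lit 26985037358) (nat_lit 152) (nat_lit 628376126321) (nat_lit 0) (nat_lit 25669613551) (nat_lit 1) (nat_lit 5) (nat_lit 3) (nat_lit 4) (nat_lit 1) (nat_lit 4) (nat_lit 342) (nat_lit 231) (nat_lit 207))))) (XT.nd (nat_lit 234) (nat_lit 0) (nat_lit 0) (XT.nd (nat_lit 78) (nat_lit 0) (nat_lit 0) (XT.lf (nat_lit 0) (nat_lit 30040165765) (nat_lit 152) (nat_lit 676684014526) (nat_lit 0) (nat_lit 28706499026) (nat_lit 1) (nat_lit 5) (nat_lit 3) (nat_lit 4) (nat_lit 1) (nat_lit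 4) (nat_lit 343) (nat_lit 231) (nat_lit 206)) (XT.nd (nat_lit 78) (nat_lit 0) (nat_lit 0) (XT.lf (nat_lit 0) (nat_lit 33322081061) (nat_lit 152) (nat_lit 728890394491) (nat_lit 0) (nat_lit 31971522718) (nat_lit 1) (nat_lit 5) (nat_lit 3) (nat_lit 4) (nat_lit 1) (nat_lit 4) (nat_lit 344) (nat_lit 231) (nat_lit 205)) (XT.lf (nat_lit 0) (nat_lit 36850231632) (nat_lit 152) (nat_lit 785304637354) (nat_lit 0) (nat_lit 35484032914) (nat_lit 1) (nat_lit 5) (nat_lit 3) (nat_lit 4) (nat_lit 1) (nat_lit 4) (nat_lit 345) (nat_lit 231) (nat_lit 204)))) (XT.nd (nat_lit 156) (nat_lit 0) (nat_lit 0) (XT.nd (nat_lit 78) (nat_lit 0) (nat_lit 0) (XT.lf (nat_lit 0) (nat_lit 40645525037) (nat_lit 152) (nat_lit 846261049741) (nat_lit 0) (nat_lit 39264844491) (nat_lit 1) (nat_lit 5) (nat_lit 3) (nat_lit 4) (nat_lit 1) (nat_lit 4) (nat_lit 346) (nat_lit 231) (nat_lit 203)) (XT.lf (nat_lit 0) (nat_lit 44730451904)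 (nat_lit 152) (nat_lit 912120854837) (nat_lit 0) (nat_lit 43336362258) (nat_lit 1) (nat_lit 5) (nat_lit 3) (nat_lit 4) (nat_lit 1) (nat_lit 4) (nat_lit 347) (nat_lit 231) (nat_lit 202))) (XT.nd (nat_lit 78) (nat_lit 0) (nat_lit 0) (XT.lf (nat_lit 0) (nat_lit 49129219207) (nat_lit 152) (nat_lit 983274332967) (nat_lit 0) (nat_lit 47722713728) (nat_lit 1) (nat_lit 5) (nat_lit 3) (nat_lit 4) (nat_lit 1) (nat_lit 4) (nat_lit 348) (nat_lit 231) (nat_lit 201)) (XT.lf (nat_lit 0) (nat_lit 53867893715) (nat_lit 152) (nat_lit 1060143134372) (nat_lit 0) (nat_lit 52449892094) (nat_lit 1) (nat_lit 5) (nat_lit 3) (nat_lit 4) (nat_lit 1) (nat_lit 4) (nat_lit 349) (nat_lit 231) (nat_lit 200)))))) (XT.nd (nat_lit 546) (nat_lit 0) (nat_lit 0) (XT.nd (nat_lit 234) (nat_lit 0) (nat_lit 0) (XT.nd (nat_lit 78) (nat_lit 0) (nat_lit 0) (XT.lf (nat_lit 0) (nat_lit 58974556462) (nat_lit 152) (nat_lit 1143182777877)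 (nat_lit 0) (nat_lit 57545910265) (nat_lit 1) (nat_lit 5) (nat_lit 3) (nat_lit 4) (nat_lit 1) (nat_lit 4) (nat_lit 350) (nat_lit 231) (nat_lit 199)) (XT.nd (nat_lit 78) (nat_lit 0) (nat_lit 0) (XT.lf (nat_lit 0) (nat_lit 64479469153) (nat_lit 152) (nat_lit 1232885350256) (nat_lit 0) (nat_lit 63040966867) (nat_lit 1) (nat_lit 5) (nat_lit 3) (nat_lit 4) (nat_lit 1) (nat_lit 4) (nat_lit 351) (nat_lit 231) (nat_lit 198)) (XT.lf (nat_lit 0) (nat_lit 70415253494) (nat_lit 152) (nat_lit 1329782422309) (nat_lit 0) (nat_lit 68967625199) (nat_lit 1) (nat_lit 5) (nat_lit 3) (nat_lit 4) (nat_lit 1) (nat_lit 4) (nat_lit 352) (nat_lit 231) (nat_lit 197)))) (XT.nd (nat_lit 156) (nat_lit 0) (nat_lit 0) (XT.nd (nat_lit 78) (nat_lit 0) (nat_lit 0) (XT.lf (nat_lit 0) (nat_lit 76817084502) (nat_lit 152) (nat_lit 1434448198908) (nat_lit 0) (nat_lit 75361006200) (nat_lit 1) (nat_lit 5) (nat_lit 3) (nat_lit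 4) (nat_lit 1) (nat_lit 4) (nat_lit 353) (nat_lit 231) (nat_lit 196)) (XT.lf (nat_lit 0) (nat_lit 83722898953) (nat_lit 152) (nat_lit 1547502921692) (nat_lit 0) (nat_lit 82258996570) (nat_lit 1) (nat_lit 5) (nat_lit 3) (nat_lit 4) (nat_lit 1) (nat_lit 4) (nat_lit 354) (nat_lit 231) (nat_lit 195))) (XT.nd (nat_lit 78) (nat_lit 0) (nat_lit 0) (XT.lf (nat_lit 0) (nat_lit 91173620194) (nat_lit 152) (nat_lit 1669616544573) (nat_lit 0) (nat_lit 89702473291) (nat_lit 1) (nat_lit 5) (nat_lit 3) (nat_lit 4) (nat_lit 1) (nat_lit 4) (nat_lit 355) (nat_lit 231) (nat_lit 194)) (XT.lf (nat_lit 0) (nat_lit 99213400645) (nat_lit 152) (nat_lit 1801512703835) (nat_lit 0) (nat_lit 97735545854) (nat_lit 1) (nat_lit 5) (nat_lit 3) (nat_lit 4) (nat_lit 1) (nat_lit 4) (nat_lit 356) (nat_lit 231) (nat_lit 193))))) (XT.nd (nat_lit 234) (nat_lit 0) (nat_lit 0) (XT.nd (nat_lit 78) (nat_lit 0) (nat_lit 0) (XT.lf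 (nat_lit 0) (nat_lit 107889883450) (nat_lit 152) (nat_lit 1943973006349) (nat_lit 0) (nat_lit 106405817651) (nat_lit 1) (nat_lit 5) (nat_lit 3) (nat_lit 4) (nat_lit 1) (nat_lit 4) (nat_lit 357) (nat_lit 231) (nat_lit 192)) (XT.nd (nat_lit 78) (nat_lit 0) (nat_lit 0) (XT.lf (nat_lit 0) (nat_lit 117254484805) (nat_lit 152) (nat_lit 2097841661313) (nat_lit 0) (nat_lit 115764668072) (nat_lit 1) (nat_lit 5) (nat_lit 3) (nat_lit 4) (nat_lit 1) (nat_lit 4) (nat_lit 358) (nat_lit 231) (nat_lit 191)) (XT.lf (nat_lit 0) (nat_lit 127362698641) (nat_lit 152) (nat_lit 2264030482980) (nat_lit 0) (nat_lit 125867556971) (nat_lit 1) (nat_lit 5) (nat_lit 3) (nat_lit 4) (nat_lit 1) (nat_lit 4) (nat_lit 359) (nat_lit 231) (nat_lit 190)))) (XT.nd (nat_lit 156) (nat_lit 0) (nat_lit 0) (XT.nd (nat_lit 78) (nat_lit 0) (nat_lit 0) (XT.lf (nat_lit 0) (nat_lit 138274425487) (nat_lit 152) (nat_lit 2443524293997)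 (nat_lit 0) (nat_lit 136774353319) (nat_lit 1) (nat_lit 5) (nat_lit 3) (nat_lit 4) (nat_lit 1) (nat_lit 4) (nat_lit 360) (nat_lit 231) (nat_lit 189)) (XT.lf (nat_lit 0) (nat_lit 150054327427) (nat_lit 152) (nat_lit 2637386761392) (nat_lit 0) (nat_lit 148549689982) (nat_lit 1) (nat_lit 5) (nat_lit 3) (nat_lit 4) (nat_lit 1) (nat_lit 4) (nat_lit 361) (nat_lit 231) (nat_lit 188))) (XT.nd (nat_lit 78) (nat_lit 0) (nat_lit 0) (XT.lf (nat_lit 0) (nat_lit 162772211288) (nat_lit 152) (nat_lit 2846766699786) (nat_lit 0) (nat_lit 161263346735) (nat_lit 1) (nat_lit 5) (nat_lit 3) (nat_lit 4) (nat_lit 1) (nat_lit 4) (nat_lit 362) (nat_lit 231) (nat_lit 187)) (XT.lf (nat_lit 0) (nat_lit 176503442306) (nat_lit 152) (nat_lit 3072904879185) (nat_lit 0) (nat_lit 174990663765) (nat_lit 1) (nat_lit 5) (nat_lit 3) (nat_lit 4) (nat_lit 1) (nat_lit 4) (nat_lit 363) (nat_lit 231) (nat_lit 186))))))))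
noncomputable def xc11 : XT := (XT.nd (nat_lit 38844) (nat_lit 0) (nat_lit 0) (XT.nd (nat_lit 37752) (nat_lit 0) (nat_lit 0) (XT.nd (nat_lit 37206) (nat_lit 0) (nat_lit 152) (XT.nd (nat_lit 36894) (nat_lit 0) (nat_lit 152) (XT.nd (nat_lit 78) (nat_lit 0) (nat_lit 0) (XT.lf (nat_lit 0) (nat_lit 191329390740) (nat_lit 152) (nat_lit 3317141377689) (nat_lit 0) (nat_lit 189812988136) (nat_lit 1) (nat_lit 5) (nat_lit 3) (nat_lit 4) (nat_lit 1) (nat_lit 4) (nat_lit 364) (nat_lit 231) (nat_lit 185)) (XT.nd (nat_lit 78) (nat_lit 0) (nat_lit 0) (XT.lf (nat_lit 0) (nat_lit 207337914063) (nat_lit 152) (nat_lit 3580923522696) (nat_lit 0) (nat_lit 205818155844) (nat_lit 1) (nat_lit 5) (nat_lit 3) (nat_lit 4) (nat_lit 1) (nat_lit 4) (nat_lit 365) (nat_lit 231) (nat_lit 184)) (XT.lf (nat_lit 0) (nat_lit 224623877597) (nat_lit 152) (nat_lit 3865814467659) (nat_lit 0) (nat_lit 223101012328) (nat_lit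 1) (nat_lit 5) (nat_lit 3) (nat_lit 4) (nat_lit 1) (nat_lit 4) (nat_lit 366) (nat_lit 231) (nat_lit 183)))) (XT.nd (nat_lit 156) (nat_lit 0) (nat_lit 0) (XT.nd (nat_lit 78) (nat_lit 0) (nat_lit 0) (XT.lf (nat_lit 0) (nat_lit 32647860315) (nat_lit 76) (nat_lit 7063422997) (nat_lit 76) (nat_lit 7063422997) (nat_lit 3) (nat_lit 4) (nat_lit 4) (nat_lit 5) (nat_lit 4) (nat_lit 4) (nat_lit 316) (nat_lit 232) (nat_lit 232)) (XT.lf (nat_lit 0) (nat_lit 74777644593) (nat_lit 76) (nat_lit 13104155431) (nat_lit 76) (nat_lit 12969224257) (nat_lit 3) (nat_lit 4) (nat_lit 4) (nat_lit 5) (nat_lit 4) (nat_lit 4) (nat_lit 317) (nat_lit 232) (nat_lit 231))) (XT.nd (nat_lit 78) (nat_lit 0) (nat_lit 0) (XT.lf (nat_lit 0) (nat_lit 84810499548) (nat_lit 76) (nat_lit 12097511650) (nat_lit 76) (nat_lit 11837644205) (nat_lit 3) (nat_lit 4) (nat_lit 4) (nat_lit 5) (nat_lit 4) (nat_lit 4) (nat_lit 318) (nat_lit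 232) (nat_lit 230)) (XT.lf (nat_lit 0) (nat_lit 95453739452) (nat_lit 76) (nat_lit 11100949358) (nat_lit 76) (nat_lit 10725400179) (nat_lit 3) (nat_lit 4) (nat_lit 4) (nat_lit 5) (nat_lit 4) (nat_lit 4) (nat_lit 319) (nat_lit 232) (nat_lit 229))))) (XT.nd (nat_lit 234) (nat_lit 0) (nat_lit 0) (XT.nd (nat_lit 78) (nat_lit 0) (nat_lit 0) (XT.lf (nat_lit 0) (nat_lit 106770435355) (nat_lit 76) (nat_lit 10108562998) (nat_lit 76) (nat_lit 9625901104) (nat_lit 3) (nat_lit 4) (nat_lit 4) (nat_lit 5) (nat_lit 4) (nat_lit 4) (nat_lit 320) (nat_lit 232) (nat_lit 228)) (XT.nd (nat_lit 78) (nat_lit 0) (nat_lit 0) (XT.lf (nat_lit 0) (nat_lit 118827649159) (nat_lit 76) (nat_lit 9114471764) (nat_lit 76) (nat_lit 8532631429) (nat_lit 3) (nat_lit 4) (nat_lit 4) (nat_lit 5) (nat_lit 4) (nat_lit 4) (nat_lit 321) (nat_lit 232) (nat_lit 227)) (XT.lf (nat_lit 0) (nat_lit 131696831021) (nat_lit 76) (nat_lit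 8112784744) (nat_lit 76) (nat_lit 7439112519) (nat_lit 3) (nat_lit 4) (nat_lit 4) (nat_lit 5) (nat_lit 4) (nat_lit 4) (nat_lit 322) (nat_lit 232) (nat_lit 226)))) (XT.nd (nat_lit 156) (nat_lit 0) (nat_lit 0) (XT.nd (nat_lit 78) (nat_lit 0) (nat_lit 0) (XT.lf (nat_lit 0) (nat_lit 145454242759) (nat_lit 76) (nat_lit 7097566014) (nat_lit 76) (nat_lit 6338864263) (nat_lit 3) (nat_lit 4) (nat_lit 4) (nat_lit 5) (nat_lit 4) (nat_lit 4) (nat_lit 323) (nat_lit 232) (nat_lit 225)) (XT.lf (nat_lit 0) (nat_lit 160181409775) (nat_lit 76) (nat_lit 6062799465) (nat_lit 76) (nat_lit 5225366669) (nat_lit 3) (nat_lit 4) (nat_lit 4) (nat_lit 5) (nat_lit 4) (nat_lit 4) (nat_lit 324) (nat_lit 232) (nat_lit 224))) (XT.nd (nat_lit 78) (nat_lit 0) (nat_lit 0) (XT.lf (nat_lit 0) (nat_lit 175965604171) (nat_lit 76) (nat_lit 5002353145) (nat_lit 76) (nat_lit 4092021235) (nat_lit 3) (nat_lit 4) (nat_lit 4) (nat_lit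 5) (nat_lit 4) (nat_lit 4) (nat_lit 325) (nat_lit 232) (nat_lit 223)) (XT.lf (nat_lit 0) (nat_lit 192900361913) (nat_lit 76) (nat_lit 3909942930) (nat_lit 76) (nat_lit 2932111839) (nat_lit 3) (nat_lit 4) (nat_lit 4) (nat_lit 5) (nat_lit 4) (nat_lit 4) (nat_lit 326) (nat_lit 232) (nat_lit 222)))))) (XT.nd (nat_lit 546) (nat_lit 0) (nat_lit 0) (XT.nd (nat_lit 234) (nat_lit 0) (nat_lit 0) (XT.nd (nat_lit 78) (nat_lit 152) (nat_lit 0) (XT.lf (nat_lit 0) (nat_lit 211086037121) (nat_lit 76) (nat_lit 2779095275) (nat_lit 76) (nat_lit 1738764944) (nat_lit 3) (nat_lit 4) (nat_lit 4) (nat_lit 5) (nat_lit 4) (nat_lit 4) (nat_lit 327) (nat_lit 232) (nat_lit 221)) (XT.nd (nat_lit 78) (nat_lit 152) (nat_lit 0) (XT.lf (nat_lit 0) (nat_lit 230630396759) (nat_lit 76) (nat_lit 1603108864) (nat_lit 76) (nat_lit 504908865) (nat_lit 3) (nat_lit 4) (nat_lit 4) (nat_lit 5) (nat_lit 4) (nat_lit 4) (nat_lit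 328) (nat_lit 232) (nat_lit 220)) (XT.lf (nat_lit 0) (nat_lit 403243849) (nat_lit 76) (nat_lit 344365224) (nat_lit 152) (nat_lit 250497626585) (nat_lit 1) (nat_lit 5) (nat_lit 2) (nat_lit 5) (nat_lit 3) (nat_lit 4) (nat_lit 329) (nat_lit 232) (nat_lit 219)))) (XT.nd (nat_lit 156) (nat_lit 0) (nat_lit 0) (XT.nd (nat_lit 78) (nat_lit 0) (nat_lit 0) (XT.lf (nat_lit 0) (nat_lit 2108667933) (nat_lit 152) (nat_lit 268123812972) (nat_lit 0) (nat_lit 996263362) (nat_lit 1) (nat_lit 5) (nat_lit 3) (nat_lit 4) (nat_lit 1) (nat_lit 4) (nat_lit 330) (nat_lit 232) (nat_lit 218)) (XT.lf (nat_lit 0) (nat_lit 3543177372) (nat_lit 152) (nat_lit 286882391388) (nat_lit 0) (nat_lit 2388236868) (nat_lit 1) (nat_lit 5) (nat_lit 3) (nat_lit 4) (nat_lit 1) (nat_lit 4) (nat_lit 331) (nat_lit 232) (nat_lit 217))) (XT.nd (nat_lit 78) (nat_lit 0) (nat_lit 0) (XT.lf (nat_lit 0) (nat_lit 5051356197) (nat_lit 152)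 (nat_lit 307220607012) (nat_lit 0) (nat_lit 3857030570) (nat_lit 1) (nat_lit 5) (nat_lit 3) (nat_lit 4) (nat_lit 1) (nat_lit 4) (nat_lit 332) (nat_lit 232) (nat_lit 216)) (XT.lf (nat_lit 0) (nat_lit 6642141763) (nat_lit 152) (nat_lit 329258982602) (nat_lit 0) (nat_lit 5411348429) (nat_lit 1) (nat_lit 5) (nat_lit 3) (nat_lit 4) (nat_lit 1) (nat_lit 4) (nat_lit 333) (nat_lit 232) (nat_lit 215))))) (XT.nd (nat_lit 234) (nat_lit 0) (nat_lit 0) (XT.nd (nat_lit 78) (nat_lit 0) (nat_lit 0) (XT.lf (nat_lit 0) (nat_lit 8324960948) (nat_lit 152) (nat_lit 353128115940) (nat_lit 0) (nat_lit 7060401218) (nat_lit 1) (nat_lit 5) (nat_lit 3) (nat_lit 4) (nat_lit 1) (nat_lit 4) (nat_lit 334) (nat_lit 232) (nat_lit 214)) (XT.nd (nat_lit 78) (nat_lit 0) (nat_lit 0) (XT.lf (nat_lit 0) (nat_lit 10109786012) (nat_lit 152) (nat_lit 378969453742) (nat_lit 0) (nat_lit 8813961103) (nat_lit 1) (nat_lit 5) (nat_lit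 3) (nat_lit 4) (nat_lit 1) (nat_lit 4) (nat_lit 335) (nat_lit 232) (nat_lit 213)) (XT.lf (nat_lit 0) (nat_lit 12007193699) (nat_lit 152) (nat_lit 406936129861) (nat_lit 0) (nat_lit 10682419548) (nat_lit 1) (nat_lit 5) (nat_lit 3) (nat_lit 4) (nat_lit 1) (nat_lit 4) (nat_lit 336) (nat_lit 232) (nat_lit 212)))) (XT.nd (nat_lit 156) (nat_lit 0) (nat_lit 0) (XT.nd (nat_lit 78) (nat_lit 0) (nat_lit 0) (XT.lf (nat_lit 0) (nat_lit 14028427904) (nat_lit 152) (nat_lit 437193872750) (nat_lit 0) (nat_lit 12676848900) (nat_lit 1) (nat_lit 5) (nat_lit 3) (nat_lit 4) (nat_lit 1) (nat_lit 4) (nat_lit 337) (nat_lit 232) (nat_lit 211)) (XT.lf (nat_lit 0) (nat_lit 16185466313) (nat_lit 152) (nat_lit 469921987549) (nat_lit 0) (nat_lit 14809068000) (nat_lit 1) (nat_lit 5) (nat_lit 3) (nat_lit 4) (nat_lit 1) (nat_lit 4) (nat_lit 338) (nat_lit 232) (nat_lit 210))) (XT.nd (nat_lit 78) (nat_lit 0) (nat_lit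 0) (XT.lf (nat_lit 0) (nat_lit 18491091374) (nat_lit 152) (nat_lit 505314418645) (nat_lit 0) (nat_lit 17091712220) (nat_lit 1) (nat_lit 5) (nat_lit 3) (nat_lit 4) (nat_lit 1) (nat_lit 4) (nat_lit 339) (nat_lit 232) (nat_lit 209)) (XT.lf (nat_lit 0) (nat_lit 20958966052) (nat_lit 152) (nat_lit 543580898961) (nat_lit 0) (nat_lit 19538308341) (nat_lit 1) (nat_lit 5) (nat_lit 3) (nat_lit 4) (nat_lit 1) (nat_lit 4) (nat_lit 340) (nat_lit 232) (nat_lit 208))))))) (XT.nd (nat_lit 1092) (nat_lit 0) (nat_lit 0) (XT.nd (nat_lit 546) (nat_lit 0) (nat_lit 0) (XT.nd (nat_lit 234) (nat_lit 0) (nat_lit 0) (XT.nd (nat_lit 78) (nat_lit 0) (nat_lit 0) (XT.lf (nat_lit 0) (nat_lit 23603714788) (nat_lit 152) (nat_lit 584948192826) (nat_lit 0) (nat_lit 22163354710) (nat_lit 1) (nat_lit 5) (nat_lit 3) (nat_lit 4) (nat_lit 1) (nat_lit 4) (nat_lit 341) (nat_lit 232) (nat_lit 207)) (XT.nd (nat_lit 78) (nat_lit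 0) (nat_lit 0) (XT.lf (nat_lit 0) (nat_lit 26441010169) (nat_lit 152) (nat_lit 629661439758) (nat_lit 0) (nat_lit 24982407158) (nat_lit 1) (nat_lit 5) (nat_lit 3) (nat_lit 4) (nat_lit 1) (nat_lit 4) (nat_lit 342) (nat_lit 232) (nat_lit 206)) (XT.lf (nat_lit 0) (nat_lit 29487665795) (nat_lit 152) (nat_lit 677985607147) (nat_lit 0) (nat_lit 28012171180) (nat_lit 1) (nat_lit 5) (nat_lit 3) (nat_lit 4) (nat_lit 1) (nat_lit 4) (nat_lit 343) (nat_lit 232) (nat_lit 205)))) (XT.nd (nat_lit 156) (nat_lit 0) (nat_lit 0) (XT.nd (nat_lit 78) (nat_lit 0) (nat_lit 0) (XT.lf (nat_lit 0) (nat_lit 32761735924) (nat_lit 152) (nat_lit 730207060430) (nat_lit 0) (nat_lit 31270600934) (nat_lit 1) (nat_lit 5) (nat_lit 3) (nat_lit 4) (nat_lit 1) (nat_lit 4) (nat_lit 344) (nat_lit 232) (nat_lit 204)) (XT.lf (nat_lit 0) (nat_lit 36282622451) (nat_lit 152) (nat_lit 786635260070) (nat_lit 0) (nat_lit 34777005633)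 (nat_lit 1) (nat_lit 5) (nat_lit 3) (nat_lit 4) (nat_lit 1) (nat_lit 4) (nat_lit 345) (nat_lit 232) (nat_lit 203))) (XT.nd (nat_lit 78) (nat_lit 0) (nat_lit 0) (XT.lf (nat_lit 0) (nat_lit 40071189889) (nat_lit 152) (nat_lit 847604595398) (nat_lit 0) (nat_lit 38552163972) (nat_lit 1) (nat_lit 5) (nat_lit 3) (nat_lit 4) (nat_lit 1) (nat_lit 4) (nat_lit 346) (nat_lit 232) (nat_lit 202)) (XT.lf (nat_lit 0) (nat_lit 44149889009) (nat_lit 152) (nat_lit 913476366179) (nat_lit 0) (nat_lit 42618447258) (nat_lit 1) (nat_lit 5) (nat_lit 3) (nat_lit 4) (nat_lit 1) (nat_lit 4) (nat_lit 347) (nat_lit 232) (nat_lit 201))))) (XT.nd (nat_lit 234) (nat_lit 0) (nat_lit 0) (XT.nd (nat_lit 78) (nat_lit 0) (nat_lit 0) (XT.lf (nat_lit 0) (nat_lit 48542889880) (nat_lit 152) (nat_lit 984640923648) (nat_lit 0) (nat_lit 46999951987) (nat_lit 1) (nat_lit 5) (nat_lit 3) (nat_lit 4) (nat_lit 1) (nat_lit 4) (nat_lit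 348) (nat_lit 232) (nat_lit 200)) (XT.nd (nat_lit 78) (nat_lit 0) (nat_lit 0) (XT.lf (nat_lit 0) (nat_lit 53276225099) (nat_lit 152) (nat_lit 1061519983701) (nat_lit 0) (nat_lit 51722642629) (nat_lit 1) (nat_lit 5) (nat_lit 3) (nat_lit 4) (nat_lit 1) (nat_lit 4) (nat_lit 349) (nat_lit 232) (nat_lit 199)) (XT.lf (nat_lit 0) (nat_lit 58377944059) (nat_lit 152) (nat_lit 1144569125953) (nat_lit 0) (nat_lit 56814505501) (nat_lit 1) (nat_lit 5) (nat_lit 3) (nat_lit 4) (nat_lit 1) (nat_lit 4) (nat_lit 350) (nat_lit 232) (nat_lit 198)))) (XT.nd (nat_lit 156) (nat_lit 0) (nat_lit 0) (XT.nd (nat_lit 78) (nat_lit 0) (nat_lit 0) (XT.lf (nat_lit 0) (nat_lit 63878279171) (nat_lit 152) (nat_lit 1234280493468) (nat_lit 0) (nat_lit 62305714605) (nat_lit 1) (nat_lit 5) (nat_lit 3) (nat_lit 4) (nat_lit 1) (nat_lit 4) (nat_lit 351) (nat_lit 232) (nat_lit 197)) (XT.lf (nat_lit 0) (nat_lit 69809825011)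 (nat_lit 152) (nat_lit 1331185709167) (nat_lit 0) (nat_lit 68228810437) (nat_lit 1) (nat_lit 5) (nat_lit 3) (nat_lit 4) (nat_lit 1) (nat_lit 4) (nat_lit 352) (nat_lit 232) (nat_lit 196))) (XT.nd (nat_lit 78) (nat_lit 0) (nat_lit 0) (XT.lf (nat_lit 0) (nat_lit 76207731482) (nat_lit 152) (nat_lit 1435859026177) (nat_lit 0) (nat_lit 74618892827) (nat_lit 1) (nat_lit 5) (nat_lit 3) (nat_lit 4) (nat_lit 1) (nat_lit 4) (nat_lit 353) (nat_lit 232) (nat_lit 195)) (XT.lf (nat_lit 0) (nat_lit 83109912103) (nat_lit 152) (nat_lit 1548920730824) (nat_lit 0) (nat_lit 81513828929) (nat_lit 1) (nat_lit 5) (nat_lit 3) (nat_lit 4) (nat_lit 1) (nat_lit 4) (nat_lit 354) (nat_lit 232) (nat_lit 194)))))) (XT.nd (nat_lit 546) (nat_lit 0) (nat_lit 0) (XT.nd (nat_lit 234) (nat_lit 0) (nat_lit 0) (XT.nd (nat_lit 78) (nat_lit 0) (nat_lit 0) (XT.lf (nat_lit 0) (nat_lit 90557268686) (nat_lit 152) (nat_lit 1671040818393)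 (nat_lit 0) (nat_lit 88954477623) (nat_lit 1) (nat_lit 5) (nat_lit 3) (nat_lit 4) (nat_lit 1) (nat_lit 4) (nat_lit 355) (nat_lit 232) (nat_lit 193)) (XT.nd (nat_lit 78) (nat_lit 0) (nat_lit 0) (XT.lf (nat_lit 0) (nat_lit 98593933713) (nat_lit 152) (nat_lit 1802942963478) (nat_lit 0) (nat_lit 96984931642) (nat_lit 1) (nat_lit 5) (nat_lit 3) (nat_lit 4) (nat_lit 1) (nat_lit 4) (nat_lit 356) (nat_lit 232) (nat_lit 192)) (XT.lf (nat_lit 0) (nat_lit 107267531867) (nat_lit 152) (nat_lit 1945408808419) (nat_lit 0) (nat_lit 105652778863) (nat_lit 1) (nat_lit 5) (nat_lit 3) (nat_lit 4) (nat_lit 1) (nat_lit 4) (nat_lit 357) (nat_lit 232) (nat_lit 191)))) (XT.nd (nat_lit 156) (nat_lit 0) (nat_lit 0) (XT.nd (nat_lit 78) (nat_lit 0) (nat_lit 0) (XT.lf (nat_lit 0) (nat_lit 116629462247) (nat_lit 152) (nat_lit 2099282595261) (nat_lit 0) (nat_lit 115009384305) (nat_lit 1) (nat_lit 5) (nat_lit 3) (nat_lit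 4) (nat_lit 1) (nat_lit 4) (nat_lit 358) (nat_lit 232) (nat_lit 190)) (XT.lf (nat_lit 0) (nat_lit 126735202960) (nat_lit 152) (nat_lit 2265476168667) (nat_lit 0) (nat_lit 125110194520) (nat_lit 1) (nat_lit 5) (nat_lit 3) (nat_lit 4) (nat_lit 1) (nat_lit 4) (nat_lit 359) (nat_lit 232) (nat_lit 189))) (XT.nd (nat_lit 78) (nat_lit 0) (nat_lit 0) (XT.lf (nat_lit 0) (nat_lit 137644639876) (nat_lit 152) (nat_lit 2444974379442) (nat_lit 0) (nat_lit 136015066160) (nat_lit 1) (nat_lit 5) (nat_lit 3) (nat_lit 4) (nat_lit 1) (nat_lit 4) (nat_lit 360) (nat_lit 232) (nat_lit 188)) (XT.lf (nat_lit 0) (nat_lit 149422421511) (nat_lit 152) (nat_lit 2638840920686) (nat_lit 0) (nat_lit 147788620687) (nat_lit 1) (nat_lit 5) (nat_lit 3) (nat_lit 4) (nat_lit 1) (nat_lit 4) (nat_lit 361) (nat_lit 232) (nat_lit 187))))) (XT.nd (nat_lit 36894) (nat_lit 0) (nat_lit 152) (XT.nd (nat_lit 156) (nat_lit 0) (nat_lit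 0) (XT.nd (nat_lit 78) (nat_lit 0) (nat_lit 0) (XT.lf (nat_lit 0) (nat_lit 162138342126) (nat_lit 152) (nat_lit 2848224631164) (nat_lit 0) (nat_lit 160500627313) (nat_lit 1) (nat_lit 5) (nat_lit 3) (nat_lit 4) (nat_lit 1) (nat_lit 4) (nat_lit 362) (nat_lit 232) (nat_lit 186)) (XT.lf (nat_lit 0) (nat_lit 175867755324) (nat_lit 152) (nat_lit 3074366303232) (nat_lit 0) (nat_lit 174226416448) (nat_lit 1) (nat_lit 5) (nat_lit 3) (nat_lit 4) (nat_lit 1) (nat_lit 4) (nat_lit 363) (nat_lit 232) (nat_lit 185))) (XT.nd (nat_lit 78) (nat_lit 0) (nat_lit 0) (XT.lf (nat_lit 0) (nat_lit 190692020592) (nat_lit 152) (nat_lit 3318606035690) (nat_lit 0) (nat_lit 189047326102) (nat_lit 1) (nat_lit 5) (nat_lit 3) (nat_lit 4) (nat_lit 1) (nat_lit 4) (nat_lit 364) (nat_lit 232) (nat_lit 184)) (XT.lf (nat_lit 0) (nat_lit 206698985427) (nat_lit 152) (nat_lit 3582391175098) (nat_lit 0) (nat_lit 205051183887)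 (nat_lit 1) (nat_lit 5) (nat_lit 3) (nat_lit 4) (nat_lit 1) (nat_lit 4) (nat_lit 365) (nat_lit 232) (nat_lit 183)))) (XT.nd (nat_lit 156) (nat_lit 0) (nat_lit 0) (XT.nd (nat_lit 78) (nat_lit 0) (nat_lit 0) (XT.lf (nat_lit 0) (nat_lit 23939634661) (nat_lit 76) (nat_lit 8167793843) (nat_lit 76) (nat_lit 8167793843) (nat_lit 3) (nat_lit 4) (nat_lit 4) (nat_lit 5) (nat_lit 4) (nat_lit 4) (nat_lit 314) (nat_lit 233) (nat_lit 233)) (XT.lf (nat_lit 0) (nat_lit 56308538484) (nat_lit 76) (nat_lit 15317369398) (nat_lit 76) (nat_lit 15171643731) (nat_lit 3) (nat_lit 4) (nat_lit 4) (nat_lit 5) (nat_lit 4) (nat_lit 4) (nat_lit 315) (nat_lit 233) (nat_lit 232))) (XT.nd (nat_lit 78) (nat_lit 0) (nat_lit 0) (XT.lf (nat_lit 0) (nat_lit 65187916421) (nat_lit 76) (nat_lit 14323384638) (nat_lit 76) (nat_lit 14042727798) (nat_lit 3) (nat_lit 4) (nat_lit 4) (nat_lit 5) (nat_lit 4) (nat_lit 4) (nat_lit 316)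 (nat_lit 233) (nat_lit 231)) (XT.lf (nat_lit 0) (nat_lit 74570021669) (nat_lit 76) (nat_lit 13347743127) (nat_lit 76) (nat_lit 12942150014) (nat_lit 3) (nat_lit 4) (nat_lit 4) (nat_lit 5) (nat_lit 4) (nat_lit 4) (nat_lit 317) (nat_lit 233) (nat_lit 230))))))))
noncomputable def xc12 : XT := (XT.nd (nat_lit 2184) (nat_lit 0) (nat_lit 0) (XT.nd (nat_lit 1092) (nat_lit 0) (nat_lit 0) (XT.nd (nat_lit 546) (nat_lit 152) (nat_lit 0) (XT.nd (nat_lit 234) (nat_lit 0) (nat_lit 0) (XT.nd (nat_lit 78) (nat_lit 0) (nat_lit 0) (XT.lf (nat_lit 0) (nat_lit 84510451890) (nat_lit 76) (nat_lit 12384663284) (nat_lit 76) (nat_lit 11863388439) (nat_lit 3) (nat_lit 4) (nat_lit 4) (nat_lit 5) (nat_lit 4) (nat_lit 4) (nat_lit 318) (nat_lit 233) (nat_lit 229)) (XT.nd (nat_lit 78) (nat_lit 0) (nat_lit 0) (XT.lf (nat_lit 0) (nat_lit 95068113335) (nat_lit 76) (nat_lit 11428437971) (nat_lit 76) (nat_lit 10800050409)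 (nat_lit 3) (nat_lit 4) (nat_lit 4) (nat_lit 5) (nat_lit 4) (nat_lit 4) (nat_lit 319) (nat_lit 233) (nat_lit 228)) (XT.lf (nat_lit 0) (nat_lit 106305569926) (nat_lit 76) (nat_lit 10473400666) (nat_lit 76) (nat_lit 9745834664) (nat_lit 3) (nat_lit 4) (nat_lit 4) (nat_lit 5) (nat_lit 4) (nat_lit 4) (nat_lit 320) (nat_lit 233) (nat_lit 227)))) (XT.nd (nat_lit 156) (nat_lit 0) (nat_lit 0) (XT.nd (nat_lit 78) (nat_lit 0) (nat_lit 0) (XT.lf (nat_lit 0) (nat_lit 118289413996) (nat_lit 76) (nat_lit 9513891890) (nat_lit 76) (nat_lit 8694493998) (nat_lit 3) (nat_lit 4) (nat_lit 4) (nat_lit 5) (nat_lit 4) (nat_lit 4) (nat_lit 321) (nat_lit 233) (nat_lit 226)) (XT.lf (nat_lit 0) (nat_lit 131090660919) (nat_lit 76) (nat_lit 8544225664) (nat_lit 76) (nat_lit 7639798245) (nat_lit 3) (nat_lit 4) (nat_lit 4) (nat_lit 5) (nat_lit 4) (nat_lit 4) (nat_lit 322) (nat_lit 233) (nat_lit 225))) (XT.nd (nat_lit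 78) (nat_lit 0) (nat_lit 0) (XT.lf (nat_lit 0) (nat_lit 144785169935) (nat_lit 76) (nat_lit 7558655818) (nat_lit 76) (nat_lit 6575497355) (nat_lit 3) (nat_lit 4) (nat_lit 4) (nat_lit 5) (nat_lit 4) (nat_lit 4) (nat_lit 323) (nat_lit 233) (nat_lit 224)) (XT.lf (nat_lit 0) (nat_lit 159454093691) (nat_lit 76) (nat_lit 6551341939) (nat_lit 76) (nat_lit 5495284362) (nat_lit 3) (nat_lit 4) (nat_lit 4) (nat_lit 5) (nat_lit 4) (nat_lit 4) (nat_lit 324) (nat_lit 233) (nat_lit 223))))) (XT.nd (nat_lit 234) (nat_lit 152) (nat_lit 0) (XT.nd (nat_lit 78) (nat_lit 0) (nat_lit 0) (XT.lf (nat_lit 0) (nat_lit 175184359142) (nat_lit 76) (nat_lit 5516314759) (nat_lit 76) (nat_lit 4392758001) (nat_lit 3) (nat_lit 4) (nat_lit 4) (nat_lit 5) (nat_lit 4) (nat_lit 4) (nat_lit 325) (nat_lit 233) (nat_lit 222)) (XT.nd (nat_lit 78) (nat_lit 0) (nat_lit 0) (XT.lf (nat_lit 0) (nat_lit 192069182675) (nat_lit 76)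 (nat_lit 4447440783) (nat_lit 76) (nat_lit 3261384784) (nat_lit 3) (nat_lit 4) (nat_lit 4) (nat_lit 5) (nat_lit 4) (nat_lit 4) (nat_lit 326) (nat_lit 233) (nat_lit 221)) (XT.lf (nat_lit 0) (nat_lit 210208622505) (nat_lit 76) (nat_lit 3338385943) (nat_lit 76) (nat_lit 2094460277) (nat_lit 3) (nat_lit 4) (nat_lit 4) (nat_lit 5) (nat_lit 4) (nat_lit 4) (nat_lit 327) (nat_lit 233) (nat_lit 220)))) (XT.nd (nat_lit 156) (nat_lit 76) (nat_lit 0) (XT.nd (nat_lit 78) (nat_lit 76) (nat_lit 0) (XT.lf (nat_lit 0) (nat_lit 229710171609) (nat_lit 76) (nat_lit 2182578064) (nat_lit 76) (nat_lit 885069372) (nat_lit 3) (nat_lit 4) (nat_lit 4) (nat_lit 5) (nat_lit 4) (nat_lit 4) (nat_lit 328) (nat_lit 233) (nat_lit 219)) (XT.lf (nat_lit 0) (nat_lit 355247963) (nat_lit 152) (nat_lit 608206840) (nat_lit 76) (nat_lit 250324433648) (nat_lit 2) (nat_lit 5) (nat_lit 4) (nat_lit 5) (nat_lit 3) (nat_lit 4) (nat_lit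 329) (nat_lit 233) (nat_lit 218))) (XT.nd (nat_lit 78) (nat_lit 0) (nat_lit 0) (XT.lf (nat_lit 0) (nat_lit 1664284219) (nat_lit 152) (nat_lit 269236880057) (nat_lit 0) (nat_lit 374412541) (nat_lit 1) (nat_lit 5) (nat_lit 3) (nat_lit 4) (nat_lit 1) (nat_lit 4) (nat_lit 330) (nat_lit 233) (nat_lit 217)) (XT.lf (nat_lit 0) (nat_lit 3079038192) (nat_lit 152) (nat_lit 288033415653) (nat_lit 0) (nat_lit 1749781391) (nat_lit 1) (nat_lit 5) (nat_lit 3) (nat_lit 4) (nat_lit 1) (nat_lit 4) (nat_lit 331) (nat_lit 233) (nat_lit 216)))))) (XT.nd (nat_lit 546) (nat_lit 0) (nat_lit 0) (XT.nd (nat_lit 234) (nat_lit 0) (nat_lit 0) (XT.nd (nat_lit 78) (nat_lit 0) (nat_lit 0) (XT.lf (nat_lit 0) (nat_lit 4568924919) (nat_lit 152) (nat_lit 308406776813) (nat_lit 0) (nat_lit 3203200411) (nat_lit 1) (nat_lit 5) (nat_lit 3) (nat_lit 4) (nat_lit 1) (nat_lit 4) (nat_lit 332) (nat_lit 233) (nat_lit 215)) (XT.nd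 (nat_lit 78) (nat_lit 0) (nat_lit 0) (XT.lf (nat_lit 0) (nat_lit 6142773356) (nat_lit 152) (nat_lit 330477694567) (nat_lit 0) (nat_lit 4743282453) (nat_lit 1) (nat_lit 5) (nat_lit 3) (nat_lit 4) (nat_lit 1) (nat_lit 4) (nat_lit 333) (nat_lit 233) (nat_lit 214)) (XT.lf (nat_lit 0) (nat_lit 7809910015) (nat_lit 152) (nat_lit 354376959538) (nat_lit 0) (nat_lit 6379153931) (nat_lit 1) (nat_lit 5) (nat_lit 3) (nat_lit 4) (nat_lit 1) (nat_lit 4) (nat_lit 334) (nat_lit 233) (nat_lit 213)))) (XT.nd (nat_lit 156) (nat_lit 0) (nat_lit 0) (XT.nd (nat_lit 78) (nat_lit 0) (nat_lit 0) (XT.lf (nat_lit 0) (nat_lit 9580214222) (nat_lit 152) (nat_lit 380246197000) (nat_lit 0) (nat_lit 8120508897) (nat_lit 1) (nat_lit 5) (nat_lit 3) (nat_lit 4) (nat_lit 1) (nat_lit 4) (nat_lit 335) (nat_lit 233) (nat_lit 212)) (XT.lf (nat_lit 0) (nat_lit 11464176670) (nat_lit 152) (nat_lit 408238706139) (nat_lit 0) (nat_lit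 9977666492) (nat_lit 1) (nat_lit 5) (nat_lit 3) (nat_lit 4) (nat_lit 1) (nat_lit 4) (nat_lit 336) (nat_lit 233) (nat_lit 211))) (XT.nd (nat_lit 78) (nat_lit 0) (nat_lit 0) (XT.lf (nat_lit 0) (nat_lit 13472961581) (nat_lit 152) (nat_lit 438520368489) (nat_lit 0) (nat_lit 11961632094) (nat_lit 1) (nat_lit 5) (nat_lit 3) (nat_lit 4) (nat_lit 1) (nat_lit 4) (nat_lit 337) (nat_lit 233) (nat_lit 210)) (XT.lf (nat_lit 0) (nat_lit 15618472864) (nat_lit 152) (nat_lit 471270630938) (nat_lit 0) (nat_lit 14084162536) (nat_lit 1) (nat_lit 5) (nat_lit 3) (nat_lit 4) (nat_lit 1) (nat_lit 4) (nat_lit 338) (nat_lit 233) (nat_lit 209))))) (XT.nd (nat_lit 234) (nat_lit 0) (nat_lit 0) (XT.nd (nat_lit 78) (nat_lit 0) (nat_lit 0) (XT.lf (nat_lit 0) (nat_lit 17913424662) (nat_lit 152) (nat_lit 506683569117) (nat_lit 0) (nat_lit 16357835777) (nat_lit 1) (nat_lit 5) (nat_lit 3) (nat_lit 4) (nat_lit 1) (nat_lit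 4) (nat_lit 339) (nat_lit 233) (nat_lit 208)) (XT.nd (nat_lit 78) (nat_lit 0) (nat_lit 0) (XT.lf (nat_lit 0) (nat_lit 20371416688) (nat_lit 152) (nat_lit 544969037473) (nat_lit 0) (nat_lit 18796125436) (nat_lit 1) (nat_lit 5) (nat_lit 3) (nat_lit 4) (nat_lit 1) (nat_lit 4) (nat_lit 340) (nat_lit 233) (nat_lit 207)) (XT.lf (nat_lit 0) (nat_lit 23007014821) (nat_lit 152) (nat_lit 586353912856) (nat_lit 0) (nat_lit 21413480637) (nat_lit 1) (nat_lit 5) (nat_lit 3) (nat_lit 4) (nat_lit 1) (nat_lit 4) (nat_lit 341) (nat_lit 233) (nat_lit 206)))) (XT.nd (nat_lit 156) (nat_lit 0) (nat_lit 0) (XT.nd (nat_lit 78) (nat_lit 0) (nat_lit 0) (XT.lf (nat_lit 0) (nat_lit 25835837420) (nat_lit 152) (nat_lit 631083438973) (nat_lit 0) (nat_lit 24225411632) (nat_lit 1) (nat_lit 5) (nat_lit 3) (nat_lit 4) (nat_lit 1) (nat_lit 4) (nat_lit 342) (nat_lit 233) (nat_lit 205)) (XT.lf (nat_lit 0) (nat_lit 28874647880)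 (nat_lit 152) (nat_lit 679422679680) (nat_lit 0) (nat_lit 27248581717) (nat_lit 1) (nat_lit 5) (nat_lit 3) (nat_lit 4) (nat_lit 1) (nat_lit 4) (nat_lit 343) (nat_lit 233) (nat_lit 204))) (XT.nd (nat_lit 78) (nat_lit 0) (nat_lit 0) (XT.lf (nat_lit 0) (nat_lit 32141453964) (nat_lit 152) (nat_lit 731658089739) (nat_lit 0) (nat_lit 30500905973) (nat_lit 1) (nat_lit 5) (nat_lit 3) (nat_lit 4) (nat_lit 1) (nat_lit 4) (nat_lit 344) (nat_lit 233) (nat_lit 203)) (XT.lf (nat_lit 0) (nat_lit 35655614524) (nat_lit 152) (nat_lit 788099212320) (nat_lit 0) (nat_lit 34001657433) (nat_lit 1) (nat_lit 5) (nat_lit 3) (nat_lit 4) (nat_lit 1) (nat_lit 4) (nat_lit 345) (nat_lit 233) (nat_lit 202))))))) (XT.nd (nat_lit 1092) (nat_lit 0) (nat_lit 0) (XT.nd (nat_lit 546) (nat_lit 0) (nat_lit 0) (XT.nd (nat_lit 234) (nat_lit 0) (nat_lit 0) (XT.nd (nat_lit 78) (nat_lit 0) (nat_lit 0) (XT.lf (nat_lit 0) (nat_lit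 39437954216) (nat_lit 152) (nat_lit 849080513334) (nat_lit 0) (nat_lit 37771581291) (nat_lit 1) (nat_lit 5) (nat_lit 3) (nat_lit 4) (nat_lit 1) (nat_lit 4) (nat_lit 346) (nat_lit 233) (nat_lit 201)) (XT.nd (nat_lit 78) (nat_lit 0) (nat_lit 0) (XT.lf (nat_lit 0) (nat_lit 43510886904) (nat_lit 152) (nat_lit 914963363455) (nat_lit 0) (nat_lit 41833017837) (nat_lit 1) (nat_lit 5) (nat_lit 3) (nat_lit 4) (nat_lit 1) (nat_lit 4) (nat_lit 347) (nat_lit 233) (nat_lit 200)) (XT.lf (nat_lit 0) (nat_lit 47898548485) (nat_lit 152) (nat_lit 986138179571) (nat_lit 0) (nat_lit 46210034842) (nat_lit 1) (nat_lit 5) (nat_lit 3) (nat_lit 4) (nat_lit 1) (nat_lit 4) (nat_lit 348) (nat_lit 233) (nat_lit 199)))) (XT.nd (nat_lit 156) (nat_lit 0) (nat_lit 0) (XT.nd (nat_lit 78) (nat_lit 0) (nat_lit 0) (XT.lf (nat_lit 0) (nat_lit 52626939917) (nat_lit 152) (nat_lit 1063026738371) (nat_lit 0) (nat_lit 50928570186)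 (nat_lit 1) (nat_lit 5) (nat_lit 3) (nat_lit 4) (nat_lit 1) (nat_lit 4) (nat_lit 349) (nat_lit 233) (nat_lit 198)) (XT.lf (nat_lit 0) (nat_lit 57724081298) (nat_lit 152) (nat_lit 1146084675759) (nat_lit 0) (nat_lit 56016585559) (nat_lit 1) (nat_lit 5) (nat_lit 3) (nat_lit 4) (nat_lit 1) (nat_lit 4) (nat_lit 350) (nat_lit 233) (nat_lit 197))) (XT.nd (nat_lit 78) (nat_lit 0) (nat_lit 0) (XT.lf (nat_lit 0) (nat_lit 63220177910) (nat_lit 152) (nat_lit 1235804186919) (nat_lit 0) (nat_lit 61504232162) (nat_lit 1) (nat_lit 5) (nat_lit 3) (nat_lit 4) (nat_lit 1) (nat_lit 4) (nat_lit 351) (nat_lit 233) (nat_lit 196)) (XT.lf (nat_lit 0) (nat_lit 69147799213) (nat_lit 152) (nat_lit 1332716943030) (nat_lit 0) (nat_lit 67424029385) (nat_lit 1) (nat_lit 5) (nat_lit 3) (nat_lit 4) (nat_lit 1) (nat_lit 4) (nat_lit 352) (nat_lit 233) (nat_lit 195))))) (XT.nd (nat_lit 234) (nat_lit 0) (nat_lit 0) (XT.nd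 (nat_lit 78) (nat_lit 0) (nat_lit 0) (XT.lf (nat_lit 0) (nat_lit 75542071854) (nat_lit 152) (nat_lit 1437397241903) (nat_lit 0) (nat_lit 73811057506) (nat_lit 1) (nat_lit 5) (nat_lit 3) (nat_lit 4) (nat_lit 1) (nat_lit 4) (nat_lit 353) (nat_lit 233) (nat_lit 194)) (XT.nd (nat_lit 78) (nat_lit 0) (nat_lit 0) (XT.lf (nat_lit 0) (nat_lit 82440887817) (nat_lit 152) (nat_lit 1550465411238) (nat_lit 0) (nat_lit 80703165581) (nat_lit 1) (nat_lit 5) (nat_lit 3) (nat_lit 4) (nat_lit 1) (nat_lit 4) (nat_lit 354) (nat_lit 233) (nat_lit 193)) (XT.lf (nat_lit 0) (nat_lit 89885128976) (nat_lit 152) (nat_lit 1672591484629) (nat_lit 0) (nat_lit 88141195731) (nat_lit 1) (nat_lit 5) (nat_lit 3) (nat_lit 4) (nat_lit 1) (nat_lit 4) (nat_lit 355) (nat_lit 233) (nat_lit 192)))) (XT.nd (nat_lit 156) (nat_lit 0) (nat_lit 0) (XT.nd (nat_lit 78) (nat_lit 0) (nat_lit 0) (XT.lf (nat_lit 0) (nat_lit 97918909351)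 (nat_lit 152) (nat_lit 1804499172141) (nat_lit 0) (nat_lit 96169225174) (nat_lit 1) (nat_lit 5) (nat_lit 3) (nat_lit 4) (nat_lit 1) (nat_lit 4) (nat_lit 356) (nat_lit 233) (nat_lit 191)) (XT.lf (nat_lit 0) (nat_lit 106589836531) (nat_lit 152) (nat_lit 1946970148960) (nat_lit 0) (nat_lit 104834827415) (nat_lit 1) (nat_lit 5) (nat_lit 3) (nat_lit 4) (nat_lit 1) (nat_lit 4) (nat_lit 357) (nat_lit 233) (nat_lit 190))) (XT.nd (nat_lit 78) (nat_lit 0) (nat_lit 0) (XT.lf (nat_lit 0) (nat_lit 115949293787) (nat_lit 152) (nat_lit 2100848687541) (nat_lit 0) (nat_lit 114189354173) (nat_lit 1) (nat_lit 5) (nat_lit 3) (nat_lit 4) (nat_lit 1) (nat_lit 4) (nat_lit 358) (nat_lit 233) (nat_lit 189)) (XT.lf (nat_lit 0) (nat_lit 126052744570) (nat_lit 152) (nat_lit 2267046660705) (nat_lit 0) (nat_lit 124288239680) (nat_lit 1) (nat_lit 5) (nat_lit 3) (nat_lit 4) (nat_lit 1) (nat_lit 4) (nat_lit 359) (nat_lit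 233) (nat_lit 188)))))) (XT.nd (nat_lit 36972) (nat_lit 0) (nat_lit 152) (XT.nd (nat_lit 234) (nat_lit 0) (nat_lit 0) (XT.nd (nat_lit 78) (nat_lit 0) (nat_lit 0) (XT.lf (nat_lit 0) (nat_lit 136960061182) (nat_lit 152) (nat_lit 2446548945330) (nat_lit 0) (nat_lit 135191329184) (nat_lit 1) (nat_lit 5) (nat_lit 3) (nat_lit 4) (nat_lit 1) (nat_lit 4) (nat_lit 360) (nat_lit 233) (nat_lit 187)) (XT.nd (nat_lit 78) (nat_lit 0) (nat_lit 0) (XT.lf (nat_lit 0) (nat_lit 148735879571) (nat_lit 152) (nat_lit 2640419258658) (nat_lit 0) (nat_lit 146963233585) (nat_lit 1) (nat_lit 5) (nat_lit 3) (nat_lit 4) (nat_lit 1) (nat_lit 4) (nat_lit 361) (nat_lit 233) (nat_lit 186)) (XT.lf (nat_lit 0) (nat_lit 161449982366) (nat_lit 152) (nat_lit 2849806461805) (nat_lit 0) (nat_lit 159673712316) (nat_lit 1) (nat_lit 5) (nat_lit 3) (nat_lit 4) (nat_lit 1) (nat_lit 4) (nat_lit 362) (nat_lit 233) (nat_lit 185))))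 (XT.nd (nat_lit 156) (nat_lit 0) (nat_lit 0) (XT.nd (nat_lit 78) (nat_lit 0) (nat_lit 0) (XT.lf (nat_lit 0) (nat_lit 175177712398) (nat_lit 152) (nat_lit 3075951367827) (nat_lit 0) (nat_lit 173398086734) (nat_lit 1) (nat_lit 5) (nat_lit 3) (nat_lit 4) (nat_lit 1) (nat_lit 4) (nat_lit 363) (nat_lit 233) (nat_lit 184)) (XT.lf (nat_lit 0) (nat_lit 190000419178) (nat_lit 152) (nat_lit 3320194094685) (nat_lit 0) (nat_lit 188217686464) (nat_lit 1) (nat_lit 5) (nat_lit 3) (nat_lit 4) (nat_lit 1) (nat_lit 4) (nat_lit 364) (nat_lit 233) (nat_lit 183))) (XT.nd (nat_lit 36504) (nat_lit 0) (nat_lit 152) (XT.lf (nat_lit 0) (nat_lit 206005940969) (nat_lit 152) (nat_lit 3583982006688) (nat_lit 0) (nat_lit 204220331356) (nat_lit 1) (nat_lit 5) (nat_lit 3) (nat_lit 4) (nat_lit 1) (nat_lit 4) (nat_lit 365) (nat_lit 233) (nat_lit 182)) (XT.lf (nat_lit 0) (nat_lit 16149683280) (nat_lit 76) (nat_lit 9283577609)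 (nat_lit 76) (nat_lit 9283577609) (nat_lit 3) (nat_lit 4) (nat_lit 4) (nat_lit 5) (nat_lit 4) (nat_lit 4) (nat_lit 312) (nat_lit 234) (nat_lit 234))))) (XT.nd (nat_lit 234) (nat_lit 0) (nat_lit 0) (XT.nd (nat_lit 78) (nat_lit 0) (nat_lit 0) (XT.lf (nat_lit 0) (nat_lit 39850157711) (nat_lit 76) (nat_lit 17541457110) (nat_lit 76) (nat_lit 17384073389) (nat_lit 3) (nat_lit 4) (nat_lit 4) (nat_lit 5) (nat_lit 4) (nat_lit 4) (nat_lit 313) (nat_lit 234) (nat_lit 233)) (XT.nd (nat_lit 78) (nat_lit 0) (nat_lit 0) (XT.lf (nat_lit 0) (nat_lit 47762840775) (nat_lit 76) (nat_lit 16547849422) (nat_lit 76) (nat_lit 16244740034) (nat_lit 3) (nat_lit 4) (nat_lit 4) (nat_lit 5) (nat_lit 4) (nat_lit 4) (nat_lit 314) (nat_lit 234) (nat_lit 232)) (XT.lf (nat_lit 0) (nat_lit 56084305726) (nat_lit 76) (nat_lit 15580444110) (nat_lit 76) (nat_lit 15142403549) (nat_lit 3) (nat_lit 4) (nat_lit 4) (nat_lit 5)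 (nat_lit 4) (nat_lit 4) (nat_lit 315) (nat_lit 234) (nat_lit 231)))) (XT.nd (nat_lit 156) (nat_lit 0) (nat_lit 0) (XT.nd (nat_lit 78) (nat_lit 0) (nat_lit 0) (XT.lf (nat_lit 0) (nat_lit 64863864950) (nat_lit 76) (nat_lit 14633508403) (nat_lit 76) (nat_lit 14070531570) (nat_lit 3) (nat_lit 4) (nat_lit 4) (nat_lit 5) (nat_lit 4) (nat_lit 4) (nat_lit 316) (nat_lit 234) (nat_lit 230)) (XT.lf (nat_lit 0) (nat_lit 74153545464) (nat_lit 76) (nat_lit 13701430829) (nat_lit 76) (nat_lit 13022772262) (nat_lit 3) (nat_lit 4) (nat_lit 4) (nat_lit 5) (nat_lit 4) (nat_lit 4) (nat_lit 317) (nat_lit 234) (nat_lit 229))) (XT.nd (nat_lit 78) (nat_lit 0) (nat_lit 0) (XT.lf (nat_lit 0) (nat_lit 84008397226) (nat_lit 76) (nat_lit 12778687965) (nat_lit 76) (nat_lit 11992916683) (nat_lit 3) (nat_lit 4) (nat_lit 4) (nat_lit 5) (nat_lit 4) (nat_lit 4) (nat_lit 318) (nat_lit 234) (nat_lit 228)) (XT.lf (nat_lit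 0) (nat_lit 94486819359) (nat_lit 76) (nat_lit 11859811707) (nat_lit 76) (nat_lit 10974861984) (nat_lit 3) (nat_lit 4) (nat_lit 4) (nat_lit 5) (nat_lit 4) (nat_lit 4) (nat_lit 319) (nat_lit 234) (nat_lit 227))))))))
noncomputable def xc13 : XT := (XT.nd (nat_lit 2184) (nat_lit 0) (nat_lit 0) (XT.nd (nat_lit 1092) (nat_lit 0) (nat_lit 0) (XT.nd (nat_lit 546) (nat_lit 152) (nat_lit 0) (XT.nd (nat_lit 234) (nat_lit 0) (nat_lit 0) (XT.nd (nat_lit 78) (nat_lit 0) (nat_lit 0) (XT.lf (nat_lit 0) (nat_lit 105650906215) (nat_lit 76) (nat_lit 10939356860) (nat_lit 76) (nat_lit 9962575247) (nat_lit 3) (nat_lit 4) (nat_lit 4) (nat_lit 5) (nat_lit 4) (nat_lit 4) (nat_lit 320) (nat_lit 234) (nat_lit 226)) (XT.nd (nat_lit 78) (nat_lit 0) (nat_lit 0) (XT.lf (nat_lit 0) (nat_lit 117566815346) (nat_lit 76) (nat_lit 10011868878) (nat_lit 76) (nat_lit 8950057738) (nat_lit 3) (nat_lit 4) (nat_lit 4) (nat_lit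 5) (nat_lit 4) (nat_lit 4) (nat_lit 321) (nat_lit 234) (nat_lit 225)) (XT.lf (nat_lit 0) (nat_lit 130305159548) (nat_lit 76) (nat_lit 9071851536) (nat_lit 76) (nat_lit 7931309353) (nat_lit 3) (nat_lit 4) (nat_lit 4) (nat_lit 5) (nat_lit 4) (nat_lit 4) (nat_lit 322) (nat_lit 234) (nat_lit 224)))) (XT.nd (nat_lit 156) (nat_lit 0) (nat_lit 0) (XT.nd (nat_lit 78) (nat_lit 0) (nat_lit 0) (XT.lf (nat_lit 0) (nat_lit 143941425304) (nat_lit 76) (nat_lit 8113734361) (nat_lit 76) (nat_lit 6900293062) (nat_lit 3) (nat_lit 4) (nat_lit 4) (nat_lit 5) (nat_lit 4) (nat_lit 4) (nat_lit 323) (nat_lit 234) (nat_lit 223)) (XT.lf (nat_lit 0) (nat_lit 158556420114) (nat_lit 76) (nat_lit 7131839620) (nat_lit 76) (nat_lit 5850899142) (nat_lit 3) (nat_lit 4) (nat_lit 4) (nat_lit 5) (nat_lit 4) (nat_lit 4) (nat_lit 324) (nat_lit 234) (nat_lit 222))) (XT.nd (nat_lit 78) (nat_lit 0) (nat_lit 0) (XT.lf (nat_lit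 0) (nat_lit 174236751357) (nat_lit 76) (nat_lit 6120348680) (nat_lit 76) (nat_lit 4776908961) (nat_lit 3) (nat_lit 4) (nat_lit 4) (nat_lit 5) (nat_lit 4) (nat_lit 4) (nat_lit 325) (nat_lit 234) (nat_lit 221)) (XT.lf (nat_lit 0) (nat_lit 191075339512) (nat_lit 76) (nat_lit 5073267519) (nat_lit 76) (nat_lit 3671958132) (nat_lit 3) (nat_lit 4) (nat_lit 4) (nat_lit 5) (nat_lit 4) (nat_lit 4) (nat_lit 326) (nat_lit 234) (nat_lit 220))))) (XT.nd (nat_lit 234) (nat_lit 152) (nat_lit 0) (XT.nd (nat_lit 78) (nat_lit 0) (nat_lit 0) (XT.lf (nat_lit 0) (nat_lit 209171968807) (nat_lit 76) (nat_lit 3984391212) (nat_lit 76) (nat_lit 2529498799) (nat_lit 3) (nat_lit 4) (nat_lit 4) (nat_lit 5) (nat_lit 4) (nat_lit 4) (nat_lit 327) (nat_lit 234) (nat_lit 219)) (XT.nd (nat_lit 78) (nat_lit 0) (nat_lit 0) (XT.lf (nat_lit 0) (nat_lit 228633878526) (nat_lit 76) (nat_lit 2847267158) (nat_lit 76) (nat_lit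 1342760833) (nat_lit 3) (nat_lit 4) (nat_lit 4) (nat_lit 5) (nat_lit 4) (nat_lit 4) (nat_lit 328) (nat_lit 234) (nat_lit 218)) (XT.lf (nat_lit 0) (nat_lit 249576398504) (nat_lit 76) (nat_lit 1655156845) (nat_lit 76) (nat_lit 104711712) (nat_lit 3) (nat_lit 4) (nat_lit 4) (nat_lit 5) (nat_lit 4) (nat_lit 4) (nat_lit 329) (nat_lit 234) (nat_lit 217)))) (XT.nd (nat_lit 156) (nat_lit 0) (nat_lit 0) (XT.nd (nat_lit 78) (nat_lit 0) (nat_lit 0) (XT.lf (nat_lit 0) (nat_lit 802464486) (nat_lit 76) (nat_lit 349192029) (nat_lit 152) (nat_lit 270177149490) (nat_lit 1) (nat_lit 5) (nat_lit 2) (nat_lit 5) (nat_lit 3) (nat_lit 4) (nat_lit 330) (nat_lit 234) (nat_lit 216)) (XT.lf (nat_lit 0) (nat_lit 2539720313) (nat_lit 152) (nat_lit 289349624575) (nat_lit 0) (nat_lit 1028270138) (nat_lit 1) (nat_lit 5) (nat_lit 3) (nat_lit 4) (nat_lit 1) (nat_lit 4) (nat_lit 331) (nat_lit 234) (nat_lit 215))) (XT.nd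 (nat_lit 78) (nat_lit 0) (nat_lit 0) (XT.lf (nat_lit 0) (nat_lit 4012669911) (nat_lit 152) (nat_lit 309755527899) (nat_lit 0) (nat_lit 2467453341) (nat_lit 1) (nat_lit 5) (nat_lit 3) (nat_lit 4) (nat_lit 1) (nat_lit 4) (nat_lit 332) (nat_lit 234) (nat_lit 214)) (XT.lf (nat_lit 0) (nat_lit 5570835823) (nat_lit 152) (nat_lit 331856577286) (nat_lit 0) (nat_lit 3994354072) (nat_lit 1) (nat_lit 5) (nat_lit 3) (nat_lit 4) (nat_lit 1) (nat_lit 4) (nat_lit 333) (nat_lit 234) (nat_lit 213)))))) (XT.nd (nat_lit 546) (nat_lit 0) (nat_lit 0) (XT.nd (nat_lit 234) (nat_lit 0) (nat_lit 0) (XT.nd (nat_lit 78) (nat_lit 0) (nat_lit 0) (XT.lf (nat_lit 0) (nat_lit 7223451623) (nat_lit 152) (nat_lit 355783741918) (nat_lit 0) (nat_lit 5618020631) (nat_lit 1) (nat_lit 5) (nat_lit 3) (nat_lit 4) (nat_lit 1) (nat_lit 4) (nat_lit 334) (nat_lit 234) (nat_lit 212)) (XT.nd (nat_lit 78) (nat_lit 0) (nat_lit 0)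 (XT.lf (nat_lit 0) (nat_lit 8980310592) (nat_lit 152) (nat_lit 381678812399) (nat_lit 0) (nat_lit 7348074747) (nat_lit 1) (nat_lit 5) (nat_lit 3) (nat_lit 4) (nat_lit 1) (nat_lit 4) (nat_lit 335) (nat_lit 234) (nat_lit 211)) (XT.lf (nat_lit 0) (nat_lit 10851823746) (nat_lit 152) (nat_lit 409695240999) (nat_lit 0) (nat_lit 9194768592) (nat_lit 1) (nat_lit 5) (nat_lit 3) (nat_lit 4) (nat_lit 1) (nat_lit 4) (nat_lit 336) (nat_lit 234) (nat_lit 210)))) (XT.nd (nat_lit 156) (nat_lit 0) (nat_lit 0) (XT.nd (nat_lit 78) (nat_lit 0) (nat_lit 0) (XT.lf (nat_lit 0) (nat_lit 12849081531) (nat_lit 152) (nat_lit 439999050999) (nat_lit 0) (nat_lit 11169045536) (nat_lit 1) (nat_lit 5) (nat_lit 3) (nat_lit 4) (nat_lit 1) (nat_lit 4) (nat_lit 337) (nat_lit 234) (nat_lit 209)) (XT.lf (nat_lit 0) (nat_lit 14983919551) (nat_lit 152) (nat_lit 472769820531) (nat_lit 0) (nat_lit 13282604999) (nat_lit 1) (nat_lit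 5) (nat_lit 3) (nat_lit 4) (nat_lit 1) (nat_lit 4) (nat_lit 338) (nat_lit 234) (nat_lit 208))) (XT.nd (nat_lit 78) (nat_lit 0) (nat_lit 0) (XT.lf (nat_lit 0) (nat_lit 17268988697) (nat_lit 152) (nat_lit 508201746750) (nat_lit 0) (nat_lit 15547971778) (nat_lit 1) (nat_lit 5) (nat_lit 3) (nat_lit 4) (nat_lit 1) (nat_lit 4) (nat_lit 339) (nat_lit 234) (nat_lit 207)) (XT.lf (nat_lit 0) (nat_lit 19717830120) (nat_lit 152) (nat_lit 546504796625) (nat_lit 0) (nat_lit 17978570268) (nat_lit 1) (nat_lit 5) (nat_lit 3) (nat_lit 4) (nat_lit 1) (nat_lit 4) (nat_lit 340) (nat_lit 234) (nat_lit 206))))) (XT.nd (nat_lit 234) (nat_lit 0) (nat_lit 0) (XT.nd (nat_lit 78) (nat_lit 0) (nat_lit 0) (XT.lf (nat_lit 0) (nat_lit 22344955472) (nat_lit 152) (nat_lit 587905951192) (nat_lit 0) (nat_lit 20588804016) (nat_lit 1) (nat_lit 5) (nat_lit 3) (nat_lit 4) (nat_lit 1) (nat_lit 4) (nat_lit 341) (nat_lit 234)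 (nat_lit 205)) (XT.nd (nat_lit 78) (nat_lit 0) (nat_lit 0) (XT.lf (nat_lit 0) (nat_lit 25165932904) (nat_lit 152) (nat_lit 632650550626) (nat_lit 0) (nat_lit 23394141074) (nat_lit 1) (nat_lit 5) (nat_lit 3) (nat_lit 4) (nat_lit 1) (nat_lit 4) (nat_lit 342) (nat_lit 234) (nat_lit 204)) (XT.lf (nat_lit 0) (nat_lit 28197479319) (nat_lit 152) (nat_lit 681003748110) (nat_lit 0) (nat_lit 26411205661) (nat_lit 1) (nat_lit 5) (nat_lit 3) (nat_lit 4) (nat_lit 1) (nat_lit 4) (nat_lit 343) (nat_lit 234) (nat_lit 203)))) (XT.nd (nat_lit 156) (nat_lit 0) (nat_lit 0) (XT.nd (nat_lit 78) (nat_lit 0) (nat_lit 0) (XT.lf (nat_lit 0) (nat_lit 31457559437) (nat_lit 152) (nat_lit 733252081110) (nat_lit 0) (nat_lit 29657876678) (nat_lit 1) (nat_lit 5) (nat_lit 3) (nat_lit 4) (nat_lit 1) (nat_lit 4) (nat_lit 344) (nat_lit 234) (nat_lit 202)) (XT.lf (nat_lit 0) (nat_lit 34965492250) (nat_lit 152) (nat_lit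 789705169377) (nat_lit 0) (nat_lit 33153393658) (nat_lit 1) (nat_lit 5) (nat_lit 3) (nat_lit 4) (nat_lit 1) (nat_lit 4) (nat_lit 345) (nat_lit 234) (nat_lit 201))) (XT.nd (nat_lit 78) (nat_lit 0) (nat_lit 0) (XT.lf (nat_lit 0) (nat_lit 38742065509) (nat_lit 152) (nat_lit 850697549730) (nat_lit 0) (nat_lit 36918470775) (nat_lit 1) (nat_lit 5) (nat_lit 3) (nat_lit 4) (nat_lit 1) (nat_lit 4) (nat_lit 346) (nat_lit 234) (nat_lit 200)) (XT.lf (nat_lit 0) (nat_lit 42809658908) (nat_lit 152) (nat_lit 916590658498) (nat_lit 0) (nat_lit 40975419598) (nat_lit 1) (nat_lit 5) (nat_lit 3) (nat_lit 4) (nat_lit 1) (nat_lit 4) (nat_lit 347) (nat_lit 234) (nat_lit 199))))))) (XT.nd (nat_lit 1092) (nat_lit 0) (nat_lit 0) (XT.nd (nat_lit 546) (nat_lit 0) (nat_lit 0) (XT.nd (nat_lit 234) (nat_lit 0) (nat_lit 0) (XT.nd (nat_lit 78) (nat_lit 0) (nat_lit 0) (XT.lf (nat_lit 0) (nat_lit 47192376703) (nat_lit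 152) (nat_lit 987774973361) (nat_lit 0) (nat_lit 45348281304) (nat_lit 1) (nat_lit 5) (nat_lit 3) (nat_lit 4) (nat_lit 1) (nat_lit 4) (nat_lit 348) (nat_lit 234) (nat_lit 198)) (XT.nd (nat_lit 78) (nat_lit 0) (nat_lit 0) (XT.lf (nat_lit 0) (nat_lit 51916190556) (nat_lit 152) (nat_lit 1064672327298) (nat_lit 0) (nat_lit 50062969149) (nat_lit 1) (nat_lit 5) (nat_lit 3) (nat_lit 4) (nat_lit 1) (nat_lit 4) (nat_lit 349) (nat_lit 234) (nat_lit 197)) (XT.lf (nat_lit 0) (nat_lit 57009093437) (nat_lit 152) (nat_lit 1147738408331) (nat_lit 0) (nat_lit 55147422022) (nat_lit 1) (nat_lit 5) (nat_lit 3) (nat_lit 4) (nat_lit 1) (nat_lit 4) (nat_lit 350) (nat_lit 234) (nat_lit 196)))) (XT.nd (nat_lit 156) (nat_lit 0) (nat_lit 0) (XT.nd (nat_lit 78) (nat_lit 0) (nat_lit 0) (XT.lf (nat_lit 0) (nat_lit 62501265511) (nat_lit 152) (nat_lit 1237465459903) (nat_lit 0) (nat_lit 60631770015) (nat_lit 1) (nat_lit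 5) (nat_lit 3) (nat_lit 4) (nat_lit 1) (nat_lit 4) (nat_lit 351) (nat_lit 234) (nat_lit 195)) (XT.lf (nat_lit 0) (nat_lit 68425252984) (nat_lit 152) (nat_lit 1334385197877) (nat_lit 0) (nat_lit 66548512969) (nat_lit 1) (nat_lit 5) (nat_lit 3) (nat_lit 4) (nat_lit 1) (nat_lit 4) (nat_lit 352) (nat_lit 234) (nat_lit 194))) (XT.nd (nat_lit 78) (nat_lit 0) (nat_lit 0) (XT.lf (nat_lit 0) (nat_lit 74816160967) (nat_lit 152) (nat_lit 1439071961438) (nat_lit 0) (nat_lit 72932713063) (nat_lit 1) (nat_lit 5) (nat_lit 3) (nat_lit 4) (nat_lit 1) (nat_lit 4) (nat_lit 353) (nat_lit 234) (nat_lit 193)) (XT.lf (nat_lit 0) (nat_lit 81711861506) (nat_lit 152) (nat_lit 1552146116595) (nat_lit 0) (nat_lit 79822202595) (nat_lit 1) (nat_lit 5) (nat_lit 3) (nat_lit 4) (nat_lit 1) (nat_lit 4) (nat_lit 354) (nat_lit 234) (nat_lit 192))))) (XT.nd (nat_lit 234) (nat_lit 0) (nat_lit 0) (XT.nd (nat_lit 78) (nat_lit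 0) (nat_lit 0) (XT.lf (nat_lit 0) (nat_lit 89153218013) (nat_lit 152) (nat_lit 1674277732414) (nat_lit 0) (nat_lit 87257808168) (nat_lit 1) (nat_lit 5) (nat_lit 3) (nat_lit 4) (nat_lit 1) (nat_lit 4) (nat_lit 355) (nat_lit 234) (nat_lit 191)) (XT.nd (nat_lit 78) (nat_lit 0) (nat_lit 0) (XT.lf (nat_lit 0) (nat_lit 97184327415) (nat_lit 152) (nat_lit 1806190551804) (nat_lit 0) (nat_lit 95283592632) (nat_lit 1) (nat_lit 5) (nat_lit 3) (nat_lit 4) (nat_lit 1) (nat_lit 4) (nat_lit 356) (nat_lit 234) (nat_lit 190)) (XT.lf (nat_lit 0) (nat_lit 105852781470) (nat_lit 152) (nat_lit 1948666280361) (nat_lit 0) (nat_lit 103947116189) (nat_lit 1) (nat_lit 5) (nat_lit 3) (nat_lit 4) (nat_lit 1) (nat_lit 4) (nat_lit 357) (nat_lit 234) (nat_lit 189)))) (XT.nd (nat_lit 156) (nat_lit 0) (nat_lit 0) (XT.nd (nat_lit 78) (nat_lit 0) (nat_lit 0) (XT.lf (nat_lit 0) (nat_lit 115209948797) (nat_lit 152) (nat_lit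 2102549218700) (nat_lit 0) (nat_lit 113299718240) (nat_lit 1) (nat_lit 5) (nat_lit 3) (nat_lit 4) (nat_lit 1) (nat_lit 4) (nat_lit 358) (nat_lit 234) (nat_lit 188)) (XT.lf (nat_lit 0) (nat_lit 125311279275) (nat_lit 152) (nat_lit 2268751265714) (nat_lit 0) (nat_lit 123396821610) (nat_lit 1) (nat_lit 5) (nat_lit 3) (nat_lit 4) (nat_lit 1) (nat_lit 4) (nat_lit 359) (nat_lit 234) (nat_lit 187))) (XT.nd (nat_lit 78) (nat_lit 0) (nat_lit 0) (XT.lf (nat_lit 0) (nat_lit 136216632641) (nat_lit 152) (nat_lit 2448257322422) (nat_lit 0) (nat_lit 134298260987) (nat_lit 1) (nat_lit 5) (nat_lit 3) (nat_lit 4) (nat_lit 1) (nat_lit 4) (nat_lit 360) (nat_lit 234) (nat_lit 186)) (XT.lf (nat_lit 0) (nat_lit 147990633210) (nat_lit 152) (nat_lit 2642131128419) (nat_lit 0) (nat_lit 146068637493) (nat_lit 1) (nat_lit 5) (nat_lit 3) (nat_lit 4) (nat_lit 1) (nat_lit 4) (nat_lit 361) (nat_lit 234) (nat_lit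 185)))))) (XT.nd (nat_lit 36816) (nat_lit 0) (nat_lit 152) (XT.nd (nat_lit 234) (nat_lit 0) (nat_lit 0) (XT.nd (nat_lit 78) (nat_lit 0) (nat_lit 0) (XT.lf (nat_lit 0) (nat_lit 160703052838) (nat_lit 152) (nat_lit 2851521565520) (nat_lit 0) (nat_lit 158777701507) (nat_lit 1) (nat_lit 5) (nat_lit 3) (nat_lit 4) (nat_lit 1) (nat_lit 4) (nat_lit 362) (nat_lit 234) (nat_lit 184)) (XT.nd (nat_lit 78) (nat_lit 0) (nat_lit 0) (XT.lf (nat_lit 0) (nat_lit 174429224382) (nat_lit 152) (nat_lit 3077669465943) (nat_lit 0) (nat_lit 172500766001) (nat_lit 1) (nat_lit 5) (nat_lit 3) (nat_lit 4) (nat_lit 1) (nat_lit 4) (nat_lit 363) (nat_lit 234) (nat_lit 183)) (XT.lf (nat_lit 0) (nat_lit 189250488118) (nat_lit 152) (nat_lit 3321914965396) (nat_lit 0) (nat_lit 187319152839) (nat_lit 1) (nat_lit 5) (nat_lit 3) (nat_lit 4) (nat_lit 1) (nat_lit 4) (nat_lit 364) (nat_lit 234) (nat_lit 182)))) (XT.nd (nat_lit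 36426) (nat_lit 0) (nat_lit 152) (XT.nd (nat_lit 36348) (nat_lit 0) (nat_lit 152) (XT.lf (nat_lit 0) (nat_lit 205254673757) (nat_lit 152) (nat_lit 3585705444615) (nat_lit 0) (nat_lit 203320674683) (nat_lit 1) (nat_lit 5) (nat_lit 3) (nat_lit 4) (nat_lit 1) (nat_lit 4) (nat_lit 365) (nat_lit 234) (nat_lit 181)) (XT.lf (nat_lit 0) (nat_lit 9121079964) (nat_lit 76) (nat_lit 10422663217) (nat_lit 76) (nat_lit 10422663217) (nat_lit 3) (nat_lit 4) (nat_lit 4) (nat_lit 5) (nat_lit 4) (nat_lit 4) (nat_lit 310) (nat_lit 235) (nat_lit 235))) (XT.nd (nat_lit 78) (nat_lit 0) (nat_lit 0) (XT.lf (nat_lit 0) (nat_lit 25065721895) (nat_lit 76) (nat_lit 19800996380) (nat_lit 76) (nat_lit 19631021962) (nat_lit 3) (nat_lit 4) (nat_lit 4) (nat_lit 5) (nat_lit 4) (nat_lit 4) (nat_lit 311) (nat_lit 235) (nat_lit 234)) (XT.lf (nat_lit 0) (nat_lit 32173623729) (nat_lit 76) (nat_lit 18796397894) (nat_lit 76)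 (nat_lit 18469039754) (nat_lit 3) (nat_lit 4) (nat_lit 4) (nat_lit 5) (nat_lit 4) (nat_lit 4) (nat_lit 312) (nat_lit 235) (nat_lit 233))))) (XT.nd (nat_lit 312) (nat_lit 0) (nat_lit 0) (XT.nd (nat_lit 156) (nat_lit 0) (nat_lit 0) (XT.nd (nat_lit 78) (nat_lit 0) (nat_lit 0) (XT.lf (nat_lit 0) (nat_lit 39607986332) (nat_lit 76) (nat_lit 17825577799) (nat_lit 76) (nat_lit 17352493992) (nat_lit 3) (nat_lit 4) (nat_lit 4) (nat_lit 5) (nat_lit 4) (nat_lit 4) (nat_lit 313) (nat_lit 235) (nat_lit 232)) (XT.lf (nat_lit 0) (nat_lit 47412865186) (nat_lit 76) (nat_lit 16882783088) (nat_lit 76) (nat_lit 16274768107) (nat_lit 3) (nat_lit 4) (nat_lit 4) (nat_lit 5) (nat_lit 4) (nat_lit 4) (nat_lit 314) (nat_lit 235) (nat_lit 231))) (XT.nd (nat_lit 78) (nat_lit 0) (nat_lit 0) (XT.lf (nat_lit 0) (nat_lit 55634511424) (nat_lit 76) (nat_lit 15962426829) (nat_lit 76) (nat_lit 15229475577) (nat_lit 3)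 (nat_lit 4) (nat_lit 4) (nat_lit 5) (nat_lit 4) (nat_lit 4) (nat_lit 315) (nat_lit 235) (nat_lit 230)) (XT.lf (nat_lit 0) (nat_lit 64321645913) (nat_lit 76) (nat_lit 15059055059) (nat_lit 76) (nat_lit 14210422074) (nat_lit 3) (nat_lit 4) (nat_lit 4) (nat_lit 5) (nat_lit 4) (nat_lit 4) (nat_lit 316) (nat_lit 235) (nat_lit 229)))) (XT.nd (nat_lit 156) (nat_lit 0) (nat_lit 0) (XT.nd (nat_lit 78) (nat_lit 0) (nat_lit 0) (XT.lf (nat_lit 0) (nat_lit 73525747969) (nat_lit 76) (nat_lit 14167314464) (nat_lit 76) (nat_lit 13211568763) (nat_lit 3) (nat_lit 4) (nat_lit 4) (nat_lit 5) (nat_lit 4) (nat_lit 4) (nat_lit 317) (nat_lit 235) (nat_lit 228)) (XT.lf (nat_lit 0) (nat_lit 83301360419) (nat_lit 76) (nat_lit 13281920655) (nat_lit 76) (nat_lit 12226996513) (nat_lit 3) (nat_lit 4) (nat_lit 4) (nat_lit 5) (nat_lit 4) (nat_lit 4) (nat_lit 318) (nat_lit 235) (nat_lit 227))) (XT.nd (nat_lit 78) (nat_lit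 0) (nat_lit 0) (XT.lf (nat_lit 0) (nat_lit 93706412817) (nat_lit 76) (nat_lit 12397626854) (nat_lit 76) (nat_lit 11250870823) (nat_lit 3) (nat_lit 4) (nat_lit 4) (nat_lit 5) (nat_lit 4) (nat_lit 4) (nat_lit 319) (nat_lit 235) (nat_lit 226)) (XT.lf (nat_lit 0) (nat_lit 104802564734) (nat_lit 76) (nat_lit 11509192802) (nat_lit 76) (nat_lit 10277407244) (nat_lit 3) (nat_lit 4) (nat_lit 4) (nat_lit 5) (nat_lit 4) (nat_lit 4) (nat_lit 320) (nat_lit 235) (nat_lit 225))))))))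
noncomputable def xc14 : XT := (XT.nd (nat_lit 2184) (nat_lit 0) (nat_lit 0) (XT.nd (nat_lit 1092) (nat_lit 0) (nat_lit 0) (XT.nd (nat_lit 546) (nat_lit 152) (nat_lit 0) (XT.nd (nat_lit 234) (nat_lit 0) (nat_lit 0) (XT.nd (nat_lit 78) (nat_lit 0) (nat_lit 0) (XT.lf (nat_lit 0) (nat_lit 116655571144) (nat_lit 76) (nat_lit 10611353704) (nat_lit 76) (nat_lit 9300837102) (nat_lit 3) (nat_lit 4) (nat_lit 4) (nat_lit 5) (nat_lit 4) (nat_lit 4) (nat_lit 321) (nat_lit 235) (nat_lit 224)) (XT.nd (nat_lit 78) (nat_lit 0) (nat_lit 0) (XT.lf (nat_lit 0) (nat_lit 129335672085) (nat_lit 76) (nat_lit 9698789032) (nat_lit 76) (nat_lit 8315373315) (nat_lit 3) (nat_lit 4) (nat_lit 4) (nat_lit 5) (nat_lit 4) (nat_lit 4) (nat_lit 322) (nat_lit 235) (nat_lit 223)) (XT.lf (nat_lit 0) (nat_lit 142918008896) (nat_lit 76) (nat_lit 8766090996) (nat_lit 76) (nat_lit 7315176099) (nat_lit 3) (nat_lit 4) (nat_lit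 4) (nat_lit 5) (nat_lit 4) (nat_lit 4) (nat_lit 323) (nat_lit 235) (nat_lit 222)))) (XT.nd (nat_lit 156) (nat_lit 0) (nat_lit 0) (XT.nd (nat_lit 78) (nat_lit 0) (nat_lit 0) (XT.lf (nat_lit 0) (nat_lit 157483069499) (nat_lit 76) (nat_lit 7807732495) (nat_lit 76) (nat_lit 6294318358) (nat_lit 3) (nat_lit 4) (nat_lit 4) (nat_lit 5) (nat_lit 4) (nat_lit 4) (nat_lit 324) (nat_lit 235) (nat_lit 221)) (XT.lf (nat_lit 0) (nat_lit 173117165363) (nat_lit 76) (nat_lit 6818034369) (nat_lit 76) (nat_lit 5246750564) (nat_lit 3) (nat_lit 4) (nat_lit 4) (nat_lit 5) (nat_lit 4) (nat_lit 4) (nat_lit 325) (nat_lit 235) (nat_lit 220))) (XT.nd (nat_lit 78) (nat_lit 0) (nat_lit 0) (XT.lf (nat_lit 0) (nat_lit 189912942984) (nat_lit 76) (nat_lit 5791131740) (nat_lit 76) (nat_lit 4166264910) (nat_lit 3) (nat_lit 4) (nat_lit 4) (nat_lit 5) (nat_lit 4) (nat_lit 4) (nat_lit 326) (nat_lit 235) (nat_lit 219)) (XT.lf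 (nat_lit 0) (nat_lit 207969932894) (nat_lit 76) (nat_lit 4720939259) (nat_lit 76) (nat_lit 3046458516) (nat_lit 3) (nat_lit 4) (nat_lit 4) (nat_lit 5) (nat_lit 4) (nat_lit 4) (nat_lit 327) (nat_lit 235) (nat_lit 218))))) (XT.nd (nat_lit 234) (nat_lit 76) (nat_lit 0) (XT.nd (nat_lit 78) (nat_lit 76) (nat_lit 0) (XT.lf (nat_lit 0) (nat_lit 227395139479) (nat_lit 76) (nat_lit 3601115045) (nat_lit 76) (nat_lit 1880695494) (nat_lit 3) (nat_lit 4) (nat_lit 4) (nat_lit 5) (nat_lit 4) (nat_lit 4) (nat_lit 328) (nat_lit 235) (nat_lit 217)) (XT.nd (nat_lit 78) (nat_lit 76) (nat_lit 0) (XT.lf (nat_lit 0) (nat_lit 248303675074) (nat_lit 76) (nat_lit 2425023101) (nat_lit 76) (nat_lit 662067617) (nat_lit 3) (nat_lit 4) (nat_lit 4) (nat_lit 5) (nat_lit 4) (nat_lit 4) (nat_lit 329) (nat_lit 235) (nat_lit 216)) (XT.lf (nat_lit 0) (nat_lit 585799451) (nat_lit 152) (nat_lit 583877749) (nat_lit 76) (nat_lit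 270217625866) (nat_lit 2) (nat_lit 5) (nat_lit 4) (nat_lit 5) (nat_lit 3) (nat_lit 4) (nat_lit 330) (nat_lit 235) (nat_lit 215)))) (XT.nd (nat_lit 156) (nat_lit 0) (nat_lit 0) (XT.nd (nat_lit 78) (nat_lit 0) (nat_lit 0) (XT.lf (nat_lit 0) (nat_lit 1922027777) (nat_lit 152) (nat_lit 290838817912) (nat_lit 0) (nat_lit 219427486) (nat_lit 1) (nat_lit 5) (nat_lit 3) (nat_lit 4) (nat_lit 1) (nat_lit 4) (nat_lit 331) (nat_lit 235) (nat_lit 214)) (XT.lf (nat_lit 0) (nat_lit 3379294848) (nat_lit 152) (nat_lit 311274852869) (nat_lit 0) (nat_lit 1645429377) (nat_lit 1) (nat_lit 5) (nat_lit 3) (nat_lit 4) (nat_lit 1) (nat_lit 4) (nat_lit 332) (nat_lit 235) (nat_lit 213))) (XT.nd (nat_lit 78) (nat_lit 0) (nat_lit 0) (XT.lf (nat_lit 0) (nat_lit 4922939903) (nat_lit 152) (nat_lit 333403801916) (nat_lit 0) (nat_lit 3160125190) (nat_lit 1) (nat_lit 5) (nat_lit 3) (nat_lit 4) (nat_lit 1) (nat_lit 4)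 (nat_lit 333) (nat_lit 235) (nat_lit 212)) (XT.lf (nat_lit 0) (nat_lit 6562110465) (nat_lit 152) (nat_lit 357356799567) (nat_lit 0) (nat_lit 4772490899) (nat_lit 1) (nat_lit 5) (nat_lit 3) (nat_lit 4) (nat_lit 1) (nat_lit 4) (nat_lit 334) (nat_lit 235) (nat_lit 211)))))) (XT.nd (nat_lit 546) (nat_lit 0) (nat_lit 0) (XT.nd (nat_lit 234) (nat_lit 0) (nat_lit 0) (XT.nd (nat_lit 78) (nat_lit 0) (nat_lit 0) (XT.lf (nat_lit 0) (nat_lit 8306520139) (nat_lit 152) (nat_lit 383275789509) (nat_lit 0) (nat_lit 6492081264) (nat_lit 1) (nat_lit 5) (nat_lit 3) (nat_lit 4) (nat_lit 1) (nat_lit 4) (nat_lit 335) (nat_lit 235) (nat_lit 210)) (XT.nd (nat_lit 78) (nat_lit 0) (nat_lit 0) (XT.lf (nat_lit 0) (nat_lit 10166506167) (nat_lit 152) (nat_lit 411314365759) (nat_lit 0) (nat_lit 8329086451) (nat_lit 1) (nat_lit 5) (nat_lit 3) (nat_lit 4) (nat_lit 1) (nat_lit 4) (nat_lit 336) (nat_lit 235) (nat_lit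 209)) (XT.lf (nat_lit 0) (nat_lit 12153090689) (nat_lit 152) (nat_lit 441638682842) (nat_lit 0) (nat_lit 10294392417) (nat_lit 1) (nat_lit 5) (nat_lit 3) (nat_lit 4) (nat_lit 1) (nat_lit 4) (nat_lit 337) (nat_lit 235) (nat_lit 208)))) (XT.nd (nat_lit 156) (nat_lit 0) (nat_lit 0) (XT.nd (nat_lit 78) (nat_lit 0) (nat_lit 0) (XT.lf (nat_lit 0) (nat_lit 14278046057) (nat_lit 152) (nat_lit 474428440415) (nat_lit 0) (nat_lit 12399645418) (nat_lit 1) (nat_lit 5) (nat_lit 3) (nat_lit 4) (nat_lit 1) (nat_lit 4) (nat_lit 338) (nat_lit 235) (nat_lit 207)) (XT.lf (nat_lit 0) (nat_lit 16553964600) (nat_lit 152) (nat_lit 509877948152) (nat_lit 0) (nat_lit 14657321028) (nat_lit 1) (nat_lit 5) (nat_lit 3) (nat_lit 4) (nat_lit 1) (nat_lit 4) (nat_lit 339) (nat_lit 235) (nat_lit 206))) (XT.nd (nat_lit 78) (nat_lit 0) (nat_lit 0) (XT.lf (nat_lit 0) (nat_lit 18994333242) (nat_lit 152) (nat_lit 548197277211)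 (nat_lit 0) (nat_lit 17080798065) (nat_lit 1) (nat_lit 5) (nat_lit 3) (nat_lit 4) (nat_lit 1) (nat_lit 4) (nat_lit 340) (nat_lit 235) (nat_lit 205)) (XT.lf (nat_lit 0) (nat_lit 21613613426) (nat_lit 152) (nat_lit 589613505096) (nat_lit 0) (nat_lit 19684437875) (nat_lit 1) (nat_lit 5) (nat_lit 3) (nat_lit 4) (nat_lit 1) (nat_lit 4) (nat_lit 341) (nat_lit 235) (nat_lit 204))))) (XT.nd (nat_lit 234) (nat_lit 0) (nat_lit 0) (XT.nd (nat_lit 78) (nat_lit 0) (nat_lit 0) (XT.lf (nat_lit 0) (nat_lit 24427326814) (nat_lit 152) (nat_lit 634372061307) (nat_lit 0) (nat_lit 22483669435) (nat_lit 1) (nat_lit 5) (nat_lit 3) (nat_lit 4) (nat_lit 1) (nat_lit 4) (nat_lit 342) (nat_lit 235) (nat_lit 203)) (XT.nd (nat_lit 78) (nat_lit 0) (nat_lit 0) (XT.lf (nat_lit 0) (nat_lit 27452147263) (nat_lit 152) (nat_lit 682738181732) (nat_lit 0) (nat_lit 25495080784) (nat_lit 1) (nat_lit 5) (nat_lit 3) (nat_lit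 4) (nat_lit 1) (nat_lit 4) (nat_lit 343) (nat_lit 235) (nat_lit 202)) (XT.lf (nat_lit 0) (nat_lit 30705999634) (nat_lit 152) (nat_lit 734998480418) (nat_lit 0) (nat_lit 28736517321) (nat_lit 1) (nat_lit 5) (nat_lit 3) (nat_lit 4) (nat_lit 1) (nat_lit 4) (nat_lit 344) (nat_lit 235) (nat_lit 201)))) (XT.nd (nat_lit 156) (nat_lit 0) (nat_lit 0) (XT.nd (nat_lit 78) (nat_lit 0) (nat_lit 0) (XT.lf (nat_lit 0) (nat_lit 34208166015) (nat_lit 152) (nat_lit 791462648024) (nat_lit 0) (nat_lit 32227187560) (nat_lit 1) (nat_lit 5) (nat_lit 3) (nat_lit 4) (nat_lit 1) (nat_lit 4) (nat_lit 345) (nat_lit 235) (nat_lit 200)) (XT.lf (nat_lit 0) (nat_lit 37979399985) (nat_lit 152) (nat_lit 852465287024) (nat_lit 0) (nat_lit 35987776954) (nat_lit 1) (nat_lit 5) (nat_lit 3) (nat_lit 4) (nat_lit 1) (nat_lit 4) (nat_lit 346) (nat_lit 235) (nat_lit 199))) (XT.nd (nat_lit 78) (nat_lit 0) (nat_lit 0) (XT.lf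 (nat_lit 0) (nat_lit 42042049597) (nat_lit 152) (nat_lit 918367894539) (nat_lit 0) (nat_lit 40040570478) (nat_lit 1) (nat_lit 5) (nat_lit 3) (nat_lit 4) (nat_lit 1) (nat_lit 4) (nat_lit 347) (nat_lit 235) (nat_lit 198)) (XT.lf (nat_lit 0) (nat_lit 46420189813) (nat_lit 152) (nat_lit 989561004539) (nat_lit 0) (nat_lit 44409584685) (nat_lit 1) (nat_lit 5) (nat_lit 3) (nat_lit 4) (nat_lit 1) (nat_lit 4) (nat_lit 348) (nat_lit 235) (nat_lit 197))))))) (XT.nd (nat_lit 1092) (nat_lit 0) (nat_lit 0) (XT.nd (nat_lit 546) (nat_lit 0) (nat_lit 0) (XT.nd (nat_lit 234) (nat_lit 0) (nat_lit 0) (XT.nd (nat_lit 78) (nat_lit 0) (nat_lit 0) (XT.lf (nat_lit 0) (nat_lit 51139765165) (nat_lit 152) (nat_lit 1066466502121) (nat_lit 0) (nat_lit 49120710030) (nat_lit 1) (nat_lit 5) (nat_lit 3) (nat_lit 4) (nat_lit 1) (nat_lit 4) (nat_lit 349) (nat_lit 235) (nat_lit 196)) (XT.nd (nat_lit 78) (nat_lit 0) (nat_lit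 0) (XT.lf (nat_lit 0) (nat_lit 56228743509) (nat_lit 152) (nat_lit 1149540123566) (nat_lit 0) (nat_lit 54201864293) (nat_lit 1) (nat_lit 5) (nat_lit 3) (nat_lit 4) (nat_lit 1) (nat_lit 4) (nat_lit 350) (nat_lit 235) (nat_lit 195)) (XT.lf (nat_lit 0) (nat_lit 61717281753) (nat_lit 152) (nat_lit 1239274157001) (nat_lit 0) (nat_lit 59683158017) (nat_lit 1) (nat_lit 5) (nat_lit 3) (nat_lit 4) (nat_lit 1) (nat_lit 4) (nat_lit 351) (nat_lit 235) (nat_lit 194)))) (XT.nd (nat_lit 156) (nat_lit 0) (nat_lit 0) (XT.nd (nat_lit 78) (nat_lit 0) (nat_lit 0) (XT.lf (nat_lit 0) (nat_lit 67637904568) (nat_lit 152) (nat_lit 1336200359662) (nat_lit 0) (nat_lit 65597072944) (nat_lit 1) (nat_lit 5) (nat_lit 3) (nat_lit 4) (nat_lit 1) (nat_lit 4) (nat_lit 352) (nat_lit 235) (nat_lit 193)) (XT.lf (nat_lit 0) (nat_lit 74025697127) (nat_lit 152) (nat_lit 1440893109046) (nat_lit 0) (nat_lit 71978654495) (nat_lit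 1) (nat_lit 5) (nat_lit 3) (nat_lit 4) (nat_lit 1) (nat_lit 4) (nat_lit 353) (nat_lit 235) (nat_lit 192))) (XT.nd (nat_lit 78) (nat_lit 0) (nat_lit 0) (XT.lf (nat_lit 0) (nat_lit 80918513015) (nat_lit 152) (nat_lit 1553972806630) (nat_lit 0) (nat_lit 78865719449) (nat_lit 1) (nat_lit 5) (nat_lit 3) (nat_lit 4) (nat_lit 1) (nat_lit 4) (nat_lit 354) (nat_lit 235) (nat_lit 191)) (XT.lf (nat_lit 0) (nat_lit 88357198547) (nat_lit 152) (nat_lit 1676109554327) (nat_lit 0) (nat_lit 86299080044) (nat_lit 1) (nat_lit 5) (nat_lit 3) (nat_lit 4) (nat_lit 1) (nat_lit 4) (nat_lit 355) (nat_lit 235) (nat_lit 190))))) (XT.nd (nat_lit 234) (nat_lit 0) (nat_lit 0) (XT.nd (nat_lit 78) (nat_lit 0) (nat_lit 0) (XT.lf (nat_lit 0) (nat_lit 96385834825) (nat_lit 152) (nat_lit 1808027125456) (nat_lit 0) (nat_lit 94322785823) (nat_lit 1) (nat_lit 5) (nat_lit 3) (nat_lit 4) (nat_lit 1) (nat_lit 4) (nat_lit 356)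 (nat_lit 235) (nat_lit 189)) (XT.nd (nat_lit 78) (nat_lit 0) (nat_lit 0) (XT.lf (nat_lit 0) (nat_lit 105051998951) (nat_lit 152) (nat_lit 1950507253771) (nat_lit 0) (nat_lit 102984384673) (nat_lit 1) (nat_lit 5) (nat_lit 3) (nat_lit 4) (nat_lit 1) (nat_lit 4) (nat_lit 357) (nat_lit 235) (nat_lit 188)) (XT.lf (nat_lit 0) (nat_lit 114407045973) (nat_lit 152) (nat_lit 2104394265960) (nat_lit 0) (nat_lit 112335204587) (nat_lit 1) (nat_lit 5) (nat_lit 3) (nat_lit 4) (nat_lit 1) (nat_lit 4) (nat_lit 358) (nat_lit 235) (nat_lit 187)))) (XT.nd (nat_lit 156) (nat_lit 0) (nat_lit 0) (XT.nd (nat_lit 78) (nat_lit 0) (nat_lit 0) (XT.lf (nat_lit 0) (nat_lit 124506413205) (nat_lit 152) (nat_lit 2270600085057) (nat_lit 0) (nat_lit 122430657831) (nat_lit 1) (nat_lit 5) (nat_lit 3) (nat_lit 4) (nat_lit 1) (nat_lit 4) (nat_lit 359) (nat_lit 235) (nat_lit 186)) (XT.lf (nat_lit 0) (nat_lit 135409948751)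 (nat_lit 152) (nat_lit 2450109634434) (nat_lit 0) (nat_lit 133330569313) (nat_lit 1) (nat_lit 5) (nat_lit 3) (nat_lit 4) (nat_lit 1) (nat_lit 4) (nat_lit 360) (nat_lit 235) (nat_lit 185))) (XT.nd (nat_lit 78) (nat_lit 0) (nat_lit 0) (XT.lf (nat_lit 0) (nat_lit 147182266153) (nat_lit 152) (nat_lit 2643986674385) (nat_lit 0) (nat_lit 145099531101) (nat_lit 1) (nat_lit 5) (nat_lit 3) (nat_lit 4) (nat_lit 1) (nat_lit 4) (nat_lit 361) (nat_lit 235) (nat_lit 184)) (XT.lf (nat_lit 0) (nat_lit 159893127294) (nat_lit 152) (nat_lit 2853380105887) (nat_lit 0) (nat_lit 157807285192) (nat_lit 1) (nat_lit 5) (nat_lit 3) (nat_lit 4) (nat_lit 1) (nat_lit 4) (nat_lit 362) (nat_lit 235) (nat_lit 183)))))) (XT.nd (nat_lit 36660) (nat_lit 0) (nat_lit 152) (XT.nd (nat_lit 36348) (nat_lit 0) (nat_lit 152) (XT.nd (nat_lit 78) (nat_lit 0) (nat_lit 0) (XT.lf (nat_lit 0) (nat_lit 173617855794) (nat_lit 152)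 (nat_lit 3079530778904) (nat_lit 0) (nat_lit 171529136794) (nat_lit 1) (nat_lit 5) (nat_lit 3) (nat_lit 4) (nat_lit 1) (nat_lit 4) (nat_lit 363) (nat_lit 235) (nat_lit 182)) (XT.nd (nat_lit 78) (nat_lit 0) (nat_lit 0) (XT.lf (nat_lit 0) (nat_lit 188437783378) (nat_lit 152) (nat_lit 3323778845573) (nat_lit 0) (nat_lit 186346400583) (nat_lit 1) (nat_lit 5) (nat_lit 3) (nat_lit 4) (nat_lit 1) (nat_lit 4) (nat_lit 364) (nat_lit 235) (nat_lit 181)) (XT.lf (nat_lit 0) (nat_lit 204440731840) (nat_lit 152) (nat_lit 3587571701844) (nat_lit 0) (nat_lit 202346882568) (nat_lit 1) (nat_lit 5) (nat_lit 3) (nat_lit 4) (nat_lit 1) (nat_lit 4) (nat_lit 365) (nat_lit 235) (nat_lit 180)))) (XT.nd (nat_lit 156) (nat_lit 0) (nat_lit 0) (XT.nd (nat_lit 78) (nat_lit 0) (nat_lit 0) (XT.lf (nat_lit 0) (nat_lit 2717211853) (nat_lit 76) (nat_lit 11596324868) (nat_lit 76) (nat_lit 11596324868) (nat_lit 3) (nat_lit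 4) (nat_lit 4) (nat_lit 5) (nat_lit 4) (nat_lit 4) (nat_lit 308) (nat_lit 236) (nat_lit 236)) (XT.lf (nat_lit 0) (nat_lit 11662501909) (nat_lit 76) (nat_lit 22119149052) (nat_lit 76) (nat_lit 21935576680) (nat_lit 3) (nat_lit 4) (nat_lit 4) (nat_lit 5) (nat_lit 4) (nat_lit 4) (nat_lit 309) (nat_lit 236) (nat_lit 235))) (XT.nd (nat_lit 78) (nat_lit 0) (nat_lit 0) (XT.lf (nat_lit 0) (nat_lit 18106357672) (nat_lit 76) (nat_lit 21092908523) (nat_lit 76) (nat_lit 20739361733) (nat_lit 3) (nat_lit 4) (nat_lit 4) (nat_lit 5) (nat_lit 4) (nat_lit 4) (nat_lit 310) (nat_lit 236) (nat_lit 234)) (XT.lf (nat_lit 0) (nat_lit 24804176806) (nat_lit 76) (nat_lit 20107846725) (nat_lit 76) (nat_lit 19596916213) (nat_lit 3) (nat_lit 4) (nat_lit 4) (nat_lit 5) (nat_lit 4) (nat_lit 4) (nat_lit 311) (nat_lit 236) (nat_lit 233))))) (XT.nd (nat_lit 312) (nat_lit 0) (nat_lit 0) (XT.nd (nat_lit 156) (nat_lit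 0) (nat_lit 0) (XT.nd (nat_lit 78) (nat_lit 0) (nat_lit 0) (XT.lf (nat_lit 0) (nat_lit 31795650094) (nat_lit 76) (nat_lit 19158126253) (nat_lit 76) (nat_lit 18501470074) (nat_lit 3) (nat_lit 4) (nat_lit 4) (nat_lit 5) (nat_lit 4) (nat_lit 4) (nat_lit 312) (nat_lit 236) (nat_lit 232)) (XT.lf (nat_lit 0) (nat_lit 39122208486) (nat_lit 76) (nat_lit 18238119134) (nat_lit 76) (nat_lit 17446531782) (nat_lit 3) (nat_lit 4) (nat_lit 4) (nat_lit 5) (nat_lit 4) (nat_lit 4) (nat_lit 313) (nat_lit 236) (nat_lit 231))) (XT.nd (nat_lit 78) (nat_lit 0) (nat_lit 0) (XT.lf (nat_lit 0) (nat_lit 46827268626) (nat_lit 76) (nat_lit 17342373476) (nat_lit 76) (nat_lit 16425849852) (nat_lit 3) (nat_lit 4) (nat_lit 4) (nat_lit 5) (nat_lit 4) (nat_lit 4) (nat_lit 314) (nat_lit 236) (nat_lit 230)) (XT.lf (nat_lit 0) (nat_lit 54956490130) (nat_lit 76) (nat_lit 16465581154) (nat_lit 76) (nat_lit 15433375797) (nat_lit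 3) (nat_lit 4) (nat_lit 4) (nat_lit 5) (nat_lit 4) (nat_lit 4) (nat_lit 315) (nat_lit 236) (nat_lit 229)))) (XT.nd (nat_lit 156) (nat_lit 0) (nat_lit 0) (XT.nd (nat_lit 78) (nat_lit 0) (nat_lit 0) (XT.lf (nat_lit 0) (nat_lit 63558046161) (nat_lit 76) (nat_lit 15602546363) (nat_lit 76) (nat_lit 14463228290) (nat_lit 3) (nat_lit 4) (nat_lit 4) (nat_lit 5) (nat_lit 4) (nat_lit 4) (nat_lit 316) (nat_lit 236) (nat_lit 228)) (XT.lf (nat_lit 0) (nat_lit 72682908904) (nat_lit 76) (nat_lit 14748154823) (nat_lit 76) (nat_lit 13509658309) (nat_lit 3) (nat_lit 4) (nat_lit 4) (nat_lit 5) (nat_lit 4) (nat_lit 4) (nat_lit 317) (nat_lit 236) (nat_lit 227))) (XT.nd (nat_lit 78) (nat_lit 0) (nat_lit 0) (XT.lf (nat_lit 0) (nat_lit 82385151620) (nat_lit 76) (nat_lit 13897343472) (nat_lit 76) (nat_lit 12567015069) (nat_lit 3) (nat_lit 4) (nat_lit 4) (nat_lit 5) (nat_lit 4) (nat_lit 4) (nat_lit 318) (nat_lit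 236) (nat_lit 226)) (XT.lf (nat_lit 0) (nat_lit 92722269079) (nat_lit 76) (nat_lit 13045070466) (nat_lit 76) (nat_lit 11629712536) (nat_lit 3) (nat_lit 4) (nat_lit 4) (nat_lit 5) (nat_lit 4) (nat_lit 4) (nat_lit 319) (nat_lit 236) (nat_lit 225))))))))
noncomputable def xc15 : XT := (XT.nd (nat_lit 2184) (nat_lit 0) (nat_lit 0) (XT.nd (nat_lit 1092) (nat_lit 0) (nat_lit 0) (XT.nd (nat_lit 546) (nat_lit 152) (nat_lit 0) (XT.nd (nat_lit 234) (nat_lit 0) (nat_lit 0) (XT.nd (nat_lit 78) (nat_lit 0) (nat_lit 0) (XT.lf (nat_lit 0) (nat_lit 103755518275) (nat_lit 76) (nat_lit 12186285298) (nat_lit 76) (nat_lit 10692196324) (nat_lit 3) (nat_lit 4) (nat_lit 4) (nat_lit 5) (nat_lit 4) (nat_lit 4) (nat_lit 320) (nat_lit 236) (nat_lit 224)) (XT.nd (nat_lit 78) (nat_lit 0) (nat_lit 0) (XT.lf (nat_lit 0) (nat_lit 115550281424) (nat_lit 76) (nat_lit 11315898870) (nat_lit 76) (nat_lit 9748910781) (nat_lit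 3) (nat_lit 4) (nat_lit 4) (nat_lit 5) (nat_lit 4) (nat_lit 4) (nat_lit 321) (nat_lit 236) (nat_lit 223)) (XT.lf (nat_lit 0) (nat_lit 128176453420) (nat_lit 76) (nat_lit 10428753337) (nat_lit 76) (nat_lit 8794266068) (nat_lit 3) (nat_lit 4) (nat_lit 4) (nat_lit 5) (nat_lit 4) (nat_lit 4) (nat_lit 322) (nat_lit 236) (nat_lit 222)))) (XT.nd (nat_lit 156) (nat_lit 0) (nat_lit 0) (XT.nd (nat_lit 78) (nat_lit 0) (nat_lit 0) (XT.lf (nat_lit 0) (nat_lit 141708856023) (nat_lit 76) (nat_lit 9519591540) (nat_lit 76) (nat_lit 7822605031) (nat_lit 3) (nat_lit 4) (nat_lit 4) (nat_lit 5) (nat_lit 4) (nat_lit 4) (nat_lit 323) (nat_lit 236) (nat_lit 221)) (XT.lf (nat_lit 0) (nat_lit 156227681247) (nat_lit 76) (nat_lit 8583025855) (nat_lit 76) (nat_lit 6828169678) (nat_lit 3) (nat_lit 4) (nat_lit 4) (nat_lit 5) (nat_lit 4) (nat_lit 4) (nat_lit 324) (nat_lit 236) (nat_lit 220))) (XT.nd (nat_lit 78)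 (nat_lit 0) (nat_lit 0) (XT.lf (nat_lit 0) (nat_lit 171818966577) (nat_lit 76) (nat_lit 7613506261) (nat_lit 76) (nat_lit 5805067059) (nat_lit 3) (nat_lit 4) (nat_lit 4) (nat_lit 5) (nat_lit 4) (nat_lit 4) (nat_lit 325) (nat_lit 236) (nat_lit 219)) (XT.lf (nat_lit 0) (nat_lit 188575104813) (nat_lit 76) (nat_lit 6605287458) (nat_lit 76) (nat_lit 4747234343) (nat_lit 3) (nat_lit 4) (nat_lit 4) (nat_lit 5) (nat_lit 4) (nat_lit 4) (nat_lit 326) (nat_lit 236) (nat_lit 218))))) (XT.nd (nat_lit 234) (nat_lit 152) (nat_lit 0) (XT.nd (nat_lit 78) (nat_lit 0) (nat_lit 0) (XT.lf (nat_lit 0) (nat_lit 206595391589) (nat_lit 76) (nat_lit 5552394816) (nat_lit 76) (nat_lit 3648402893) (nat_lit 3) (nat_lit 4) (nat_lit 4) (nat_lit 5) (nat_lit 4) (nat_lit 4) (nat_lit 327) (nat_lit 236) (nat_lit 217)) (XT.nd (nat_lit 78) (nat_lit 0) (nat_lit 0) (XT.lf (nat_lit 0) (nat_lit 225986613792) (nat_lit 76) (nat_lit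 4448588971) (nat_lit 76) (nat_lit 2502061115) (nat_lit 3) (nat_lit 4) (nat_lit 4) (nat_lit 5) (nat_lit 4) (nat_lit 4) (nat_lit 328) (nat_lit 236) (nat_lit 216)) (XT.lf (nat_lit 0) (nat_lit 246863682365) (nat_lit 76) (nat_lit 3287328851) (nat_lit 76) (nat_lit 1301415871) (nat_lit 3) (nat_lit 4) (nat_lit 4) (nat_lit 5) (nat_lit 4) (nat_lit 4) (nat_lit 329) (nat_lit 236) (nat_lit 215)))) (XT.nd (nat_lit 156) (nat_lit 0) (nat_lit 0) (XT.nd (nat_lit 78) (nat_lit 152) (nat_lit 0) (XT.lf (nat_lit 0) (nat_lit 269350313273) (nat_lit 76) (nat_lit 2061732914) (nat_lit 76) (nat_lit 39352228) (nat_lit 3) (nat_lit 4) (nat_lit 4) (nat_lit 5) (nat_lit 4) (nat_lit 4) (nat_lit 330) (nat_lit 236) (nat_lit 214)) (XT.lf (nat_lit 0) (nat_lit 522125973) (nat_lit 76) (nat_lit 717428379) (nat_lit 152) (nat_lit 291809646302) (nat_lit 1) (nat_lit 5) (nat_lit 2) (nat_lit 5) (nat_lit 3) (nat_lit 4) (nat_lit 331)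 (nat_lit 236) (nat_lit 213))) (XT.nd (nat_lit 78) (nat_lit 0) (nat_lit 0) (XT.lf (nat_lit 0) (nat_lit 2665046397) (nat_lit 152) (nat_lit 312973755130) (nat_lit 0) (nat_lit 732257266) (nat_lit 1) (nat_lit 5) (nat_lit 3) (nat_lit 4) (nat_lit 1) (nat_lit 4) (nat_lit 332) (nat_lit 236) (nat_lit 212)) (XT.lf (nat_lit 0) (nat_lit 4195246213) (nat_lit 152) (nat_lit 335128537196) (nat_lit 0) (nat_lit 2235652228) (nat_lit 1) (nat_lit 5) (nat_lit 3) (nat_lit 4) (nat_lit 1) (nat_lit 4) (nat_lit 333) (nat_lit 236) (nat_lit 211)))))) (XT.nd (nat_lit 546) (nat_lit 0) (nat_lit 0) (XT.nd (nat_lit 234) (nat_lit 0) (nat_lit 0) (XT.nd (nat_lit 78) (nat_lit 0) (nat_lit 0) (XT.lf (nat_lit 0) (nat_lit 5821967480) (nat_lit 152) (nat_lit 359105454308) (nat_lit 0) (nat_lit 3837554187) (nat_lit 1) (nat_lit 5) (nat_lit 3) (nat_lit 4) (nat_lit 1) (nat_lit 4) (nat_lit 334) (nat_lit 236) (nat_lit 210)) (XT.nd (nat_lit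 78) (nat_lit 0) (nat_lit 0) (XT.lf (nat_lit 0) (nat_lit 7554850030) (nat_lit 152) (nat_lit 385046591901) (nat_lit 0) (nat_lit 5547455895) (nat_lit 1) (nat_lit 5) (nat_lit 3) (nat_lit 4) (nat_lit 1) (nat_lit 4) (nat_lit 335) (nat_lit 236) (nat_lit 209)) (XT.lf (nat_lit 0) (nat_lit 9404162794) (nat_lit 152) (nat_lit 413105675234) (nat_lit 0) (nat_lit 7375490103) (nat_lit 1) (nat_lit 5) (nat_lit 3) (nat_lit 4) (nat_lit 1) (nat_lit 4) (nat_lit 336) (nat_lit 236) (nat_lit 208)))) (XT.nd (nat_lit 156) (nat_lit 0) (nat_lit 0) (XT.nd (nat_lit 78) (nat_lit 0) (nat_lit 0) (XT.lf (nat_lit 0) (nat_lit 11380864664) (nat_lit 152) (nat_lit 443448980357) (nat_lit 0) (nat_lit 9332489606) (nat_lit 1) (nat_lit 5) (nat_lit 3) (nat_lit 4) (nat_lit 1) (nat_lit 4) (nat_lit 337) (nat_lit 236) (nat_lit 207)) (XT.lf (nat_lit 0) (nat_lit 13496669429) (nat_lit 152) (nat_lit 476256319448) (nat_lit 0) (nat_lit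 11430051438) (nat_lit 1) (nat_lit 5) (nat_lit 3) (nat_lit 4) (nat_lit 1) (nat_lit 4) (nat_lit 338) (nat_lit 236) (nat_lit 206))) (XT.nd (nat_lit 78) (nat_lit 0) (nat_lit 0) (XT.lf (nat_lit 0) (nat_lit 15764115191) (nat_lit 152) (nat_lit 511722106369) (nat_lit 0) (nat_lit 13680605596) (nat_lit 1) (nat_lit 5) (nat_lit 3) (nat_lit 4) (nat_lit 1) (nat_lit 4) (nat_lit 339) (nat_lit 236) (nat_lit 205)) (XT.lf (nat_lit 0) (nat_lit 18196638665) (nat_lit 152) (nat_lit 550056508746) (nat_lit 0) (nat_lit 16097488696) (nat_lit 1) (nat_lit 5) (nat_lit 3) (nat_lit 4) (nat_lit 1) (nat_lit 4) (nat_lit 340) (nat_lit 236) (nat_lit 204))))) (XT.nd (nat_lit 234) (nat_lit 0) (nat_lit 0) (XT.nd (nat_lit 78) (nat_lit 0) (nat_lit 0) (XT.lf (nat_lit 0) (nat_lit 20808654806) (nat_lit 152) (nat_lit 591486693408) (nat_lit 0) (nat_lit 18695023008) (nat_lit 1) (nat_lit 5) (nat_lit 3) (nat_lit 4) (nat_lit 1) (nat_lit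 4) (nat_lit 341) (nat_lit 236) (nat_lit 203)) (XT.nd (nat_lit 78) (nat_lit 0) (nat_lit 0) (XT.lf (nat_lit 0) (nat_lit 23615642227) (nat_lit 152) (nat_lit 636258172560) (nat_lit 0) (nat_lit 21488601330) (nat_lit 1) (nat_lit 5) (nat_lit 3) (nat_lit 4) (nat_lit 1) (nat_lit 4) (nat_lit 342) (nat_lit 236) (nat_lit 202)) (XT.lf (nat_lit 0) (nat_lit 26634234929) (nat_lit 152) (nat_lit 684636258670) (nat_lit 0) (nat_lit 24494778198) (nat_lit 1) (nat_lit 5) (nat_lit 3) (nat_lit 4) (nat_lit 1) (nat_lit 4) (nat_lit 343) (nat_lit 236) (nat_lit 201)))) (XT.nd (nat_lit 156) (nat_lit 0) (nat_lit 0) (XT.nd (nat_lit 78) (nat_lit 0) (nat_lit 0) (XT.lf (nat_lit 0) (nat_lit 29882320867) (nat_lit 152) (nat_lit 736907636695) (nat_lit 0) (nat_lit 27731367994) (nat_lit 1) (nat_lit 5) (nat_lit 3) (nat_lit 4) (nat_lit 1) (nat_lit 4) (nat_lit 344) (nat_lit 236) (nat_lit 200)) (XT.lf (nat_lit 0) (nat_lit 33379147959)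 (nat_lit 152) (nat_lit 793382062948) (nat_lit 0) (nat_lit 31217550510) (nat_lit 1) (nat_lit 5) (nat_lit 3) (nat_lit 4) (nat_lit 1) (nat_lit 4) (nat_lit 345) (nat_lit 236) (nat_lit 199))) (XT.nd (nat_lit 78) (nat_lit 0) (nat_lit 0) (XT.lf (nat_lit 0) (nat_lit 37145438143) (nat_lit 152) (nat_lit 854394200696) (nat_lit 0) (nat_lit 34973984605) (nat_lit 1) (nat_lit 5) (nat_lit 3) (nat_lit 4) (nat_lit 1) (nat_lit 4) (nat_lit 346) (nat_lit 236) (nat_lit 198)) (XT.lf (nat_lit 0) (nat_lit 41203510176) (nat_lit 152) (nat_lit 920305603348) (nat_lit 0) (nat_lit 39022930629) (nat_lit 1) (nat_lit 5) (nat_lit 3) (nat_lit 4) (nat_lit 1) (nat_lit 4) (nat_lit 347) (nat_lit 236) (nat_lit 197))))))) (XT.nd (nat_lit 1092) (nat_lit 0) (nat_lit 0) (XT.nd (nat_lit 546) (nat_lit 0) (nat_lit 0) (XT.nd (nat_lit 234) (nat_lit 0) (nat_lit 0) (XT.nd (nat_lit 78) (nat_lit 0) (nat_lit 0) (XT.lf (nat_lit 0) (nat_lit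 45577411891) (nat_lit 152) (nat_lit 991506856993) (nat_lit 0) (nat_lit 43388382337) (nat_lit 1) (nat_lit 5) (nat_lit 3) (nat_lit 4) (nat_lit 1) (nat_lit 4) (nat_lit 348) (nat_lit 236) (nat_lit 196)) (XT.nd (nat_lit 78) (nat_lit 0) (nat_lit 0) (XT.lf (nat_lit 0) (nat_lit 50293062707) (nat_lit 152) (nat_lit 1068419894986) (nat_lit 0) (nat_lit 48096209072) (nat_lit 1) (nat_lit 5) (nat_lit 3) (nat_lit 4) (nat_lit 1) (nat_lit 4) (nat_lit 349) (nat_lit 236) (nat_lit 195)) (XT.lf (nat_lit 0) (nat_lit 55378407220) (nat_lit 152) (nat_lit 1151500498294) (nat_lit 0) (nat_lit 53174309066) (nat_lit 1) (nat_lit 5) (nat_lit 3) (nat_lit 4) (nat_lit 1) (nat_lit 4) (nat_lit 350) (nat_lit 236) (nat_lit 194)))) (XT.nd (nat_lit 156) (nat_lit 0) (nat_lit 0) (XT.nd (nat_lit 78) (nat_lit 0) (nat_lit 0) (XT.lf (nat_lit 0) (nat_lit 60863580806) (nat_lit 152) (nat_lit 1241240996417) (nat_lit 0) (nat_lit 58652774763)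 (nat_lit 1) (nat_lit 5) (nat_lit 3) (nat_lit 4) (nat_lit 1) (nat_lit 4) (nat_lit 351) (nat_lit 236) (nat_lit 193)) (XT.lf (nat_lit 0) (nat_lit 66781088198) (nat_lit 152) (nat_lit 1338173184900) (nat_lit 0) (nat_lit 64564071147) (nat_lit 1) (nat_lit 5) (nat_lit 3) (nat_lit 4) (nat_lit 1) (nat_lit 4) (nat_lit 352) (nat_lit 236) (nat_lit 192))) (XT.nd (nat_lit 78) (nat_lit 0) (nat_lit 0) (XT.lf (nat_lit 0) (nat_lit 73165996104) (nat_lit 152) (nat_lit 1442871476712) (nat_lit 0) (nat_lit 70943228120) (nat_lit 1) (nat_lit 5) (nat_lit 3) (nat_lit 4) (nat_lit 1) (nat_lit 4) (nat_lit 353) (nat_lit 236) (nat_lit 191)) (XT.lf (nat_lit 0) (nat_lit 80056141018) (nat_lit 152) (nat_lit 1555956306174) (nat_lit 0) (nat_lit 77828048096) (nat_lit 1) (nat_lit 5) (nat_lit 3) (nat_lit 4) (nat_lit 1) (nat_lit 4) (nat_lit 354) (nat_lit 236) (nat_lit 190))))) (XT.nd (nat_lit 234) (nat_lit 0) (nat_lit 0) (XT.nd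 (nat_lit 78) (nat_lit 0) (nat_lit 0) (XT.lf (nat_lit 0) (nat_lit 87492353427) (nat_lit 152) (nat_lit 1678097805609) (nat_lit 0) (nat_lit 85259330006) (nat_lit 1) (nat_lit 5) (nat_lit 3) (nat_lit 4) (nat_lit 1) (nat_lit 4) (nat_lit 355) (nat_lit 236) (nat_lit 189)) (XT.nd (nat_lit 78) (nat_lit 0) (nat_lit 0) (XT.lf (nat_lit 0) (nat_lit 95518699775) (nat_lit 152) (nat_lit 1810019776496) (nat_lit 0) (nat_lit 93281111078) (nat_lit 1) (nat_lit 5) (nat_lit 3) (nat_lit 4) (nat_lit 1) (nat_lit 4) (nat_lit 356) (nat_lit 236) (nat_lit 188)) (XT.lf (nat_lit 0) (nat_lit 104182743596) (nat_lit 152) (nat_lit 1952503978661) (nat_lit 0) (nat_lit 101940927792) (nat_lit 1) (nat_lit 5) (nat_lit 3) (nat_lit 4) (nat_lit 1) (nat_lit 4) (nat_lit 357) (nat_lit 236) (nat_lit 187)))) (XT.nd (nat_lit 156) (nat_lit 0) (nat_lit 0) (XT.nd (nat_lit 78) (nat_lit 0) (nat_lit 0) (XT.lf (nat_lit 0) (nat_lit 113535827372)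 (nat_lit 152) (nat_lit 2106394762933) (nat_lit 0) (nat_lit 111290097579) (nat_lit 1) (nat_lit 5) (nat_lit 3) (nat_lit 4) (nat_lit 1) (nat_lit 4) (nat_lit 358) (nat_lit 236) (nat_lit 186)) (XT.lf (nat_lit 0) (nat_lit 123633376784) (nat_lit 152) (nat_lit 2272604074700) (nat_lit 0) (nat_lit 121384022928) (nat_lit 1) (nat_lit 5) (nat_lit 3) (nat_lit 4) (nat_lit 1) (nat_lit 4) (nat_lit 359) (nat_lit 236) (nat_lit 185))) (XT.nd (nat_lit 78) (nat_lit 0) (nat_lit 0) (XT.lf (nat_lit 0) (nat_lit 134535229163) (nat_lit 152) (nat_lit 2452116858031) (nat_lit 0) (nat_lit 132282519693) (nat_lit 1) (nat_lit 5) (nat_lit 3) (nat_lit 4) (nat_lit 1) (nat_lit 4) (nat_lit 360) (nat_lit 236) (nat_lit 184)) (XT.lf (nat_lit 0) (nat_lit 146305988078) (nat_lit 152) (nat_lit 2645996892383) (nat_lit 0) (nat_lit 144050171558) (nat_lit 1) (nat_lit 5) (nat_lit 3) (nat_lit 4) (nat_lit 1) (nat_lit 4) (nat_lit 361)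 (nat_lit 236) (nat_lit 183)))))) (XT.nd (nat_lit 36504) (nat_lit 0) (nat_lit 152) (XT.nd (nat_lit 234) (nat_lit 0) (nat_lit 0) (XT.nd (nat_lit 78) (nat_lit 0) (nat_lit 0) (XT.lf (nat_lit 0) (nat_lit 159015406175) (nat_lit 152) (nat_lit 2855393096479) (nat_lit 0) (nat_lit 156756712756) (nat_lit 1) (nat_lit 5) (nat_lit 3) (nat_lit 4) (nat_lit 1) (nat_lit 4) (nat_lit 362) (nat_lit 236) (nat_lit 182)) (XT.nd (nat_lit 78) (nat_lit 0) (nat_lit 0) (XT.lf (nat_lit 0) (nat_lit 172738798523) (nat_lit 152) (nat_lit 3081546336713) (nat_lit 0) (nat_lit 170477441309) (nat_lit 1) (nat_lit 5) (nat_lit 3) (nat_lit 4) (nat_lit 1) (nat_lit 4) (nat_lit 363) (nat_lit 236) (nat_lit 181)) (XT.lf (nat_lit 0) (nat_lit 187557488930) (nat_lit 152) (nat_lit 3325796780434) (nat_lit 0) (nat_lit 185293665239) (nat_lit 1) (nat_lit 5) (nat_lit 3) (nat_lit 4) (nat_lit 1) (nat_lit 4) (nat_lit 364) (nat_lit 236) (nat_lit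 180)))) (XT.nd (nat_lit 36114) (nat_lit 0) (nat_lit 152) (XT.nd (nat_lit 36036) (nat_lit 0) (nat_lit 228) (XT.lf (nat_lit 0) (nat_lit 203559291856) (nat_lit 152) (nat_lit 3589591837679) (nat_lit 0) (nat_lit 201293184391) (nat_lit 1) (nat_lit 5) (nat_lit 3) (nat_lit 4) (nat_lit 1) (nat_lit 4) (nat_lit 365) (nat_lit 236) (nat_lit 179)) (XT.lf (nat_lit 0) (nat_lit 9710621811) (nat_lit 152) (nat_lit 3022143673) (nat_lit 0) (nat_lit 9710621811) (nat_lit 4) (nat_lit 5) (nat_lit 6) (nat_lit 4) (nat_lit 4) (nat_lit 4) (nat_lit 306) (nat_lit 237) (nat_lit 237))) (XT.nd (nat_lit 78) (nat_lit 76) (nat_lit 0) (XT.lf (nat_lit 0) (nat_lit 23918031731) (nat_lit 152) (nat_lit 584030074) (nat_lit 0) (nat_lit 23719773569) (nat_lit 4) (nat_lit 5) (nat_lit 6) (nat_lit 4) (nat_lit 4) (nat_lit 4) (nat_lit 307) (nat_lit 237) (nat_lit 236)) (XT.lf (nat_lit 0) (nat_lit 5287757269) (nat_lit 76) (nat_lit 23460038392)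 (nat_lit 76) (nat_lit 23078207858) (nat_lit 3) (nat_lit 4) (nat_lit 4) (nat_lit 5) (nat_lit 4) (nat_lit 4) (nat_lit 308) (nat_lit 237) (nat_lit 235))))) (XT.nd (nat_lit 312) (nat_lit 0) (nat_lit 0) (XT.nd (nat_lit 156) (nat_lit 0) (nat_lit 0) (XT.nd (nat_lit 78) (nat_lit 0) (nat_lit 0) (XT.lf (nat_lit 0) (nat_lit 11380033214) (nat_lit 76) (nat_lit 22450547424) (nat_lit 76) (nat_lit 21898742472) (nat_lit 3) (nat_lit 4) (nat_lit 4) (nat_lit 5) (nat_lit 4) (nat_lit 4) (nat_lit 309) (nat_lit 237) (nat_lit 234)) (XT.lf (nat_lit 0) (nat_lit 17698146145) (nat_lit 76) (nat_lit 21483575151) (nat_lit 76) (nat_lit 20774386478) (nat_lit 3) (nat_lit 4) (nat_lit 4) (nat_lit 5) (nat_lit 4) (nat_lit 4) (nat_lit 310) (nat_lit 237) (nat_lit 233))) (XT.nd (nat_lit 78) (nat_lit 0) (nat_lit 0) (XT.lf (nat_lit 0) (nat_lit 24279536732) (nat_lit 76) (nat_lit 20553391367) (nat_lit 76) (nat_lit 19698477027)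 (nat_lit 3) (nat_lit 4) (nat_lit 4) (nat_lit 5) (nat_lit 4) (nat_lit 4) (nat_lit 311) (nat_lit 237) (nat_lit 232)) (XT.lf (nat_lit 0) (nat_lit 31163205809) (nat_lit 76) (nat_lit 19654483872) (nat_lit 76) (nat_lit 18664638358) (nat_lit 3) (nat_lit 4) (nat_lit 4) (nat_lit 5) (nat_lit 4) (nat_lit 4) (nat_lit 312) (nat_lit 237) (nat_lit 231)))) (XT.nd (nat_lit 156) (nat_lit 0) (nat_lit 0) (XT.nd (nat_lit 78) (nat_lit 0) (nat_lit 0) (XT.lf (nat_lit 0) (nat_lit 38389945489) (nat_lit 76) (nat_lit 18781525806) (nat_lit 76) (nat_lit 17666744020) (nat_lit 3) (nat_lit 4) (nat_lit 4) (nat_lit 5) (nat_lit 4) (nat_lit 4) (nat_lit 313) (nat_lit 237) (nat_lit 230)) (XT.lf (nat_lit 0) (nat_lit 46002580894) (nat_lit 76) (nat_lit 17929344084) (nat_lit 76) (nat_lit 16698880566) (nat_lit 3) (nat_lit 4) (nat_lit 4) (nat_lit 5) (nat_lit 4) (nat_lit 4) (nat_lit 314) (nat_lit 237) (nat_lit 229))) (XT.nd (nat_lit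 78) (nat_lit 0) (nat_lit 0) (XT.lf (nat_lit 0) (nat_lit 54046223940) (nat_lit 76) (nat_lit 17092888742) (nat_lit 76) (nat_lit 15755312507) (nat_lit 3) (nat_lit 4) (nat_lit 4) (nat_lit 5) (nat_lit 4) (nat_lit 4) (nat_lit 315) (nat_lit 237) (nat_lit 228)) (XT.lf (nat_lit 0) (nat_lit 62568540658) (nat_lit 76) (nat_lit 16267203006) (nat_lit 76) (nat_lit 14830448331) (nat_lit 3) (nat_lit 4) (nat_lit 4) (nat_lit 5) (nat_lit 4) (nat_lit 4) (nat_lit 316) (nat_lit 237) (nat_lit 227))))))))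
noncomputable def xc16 : XT := (XT.nd (nat_lit 2184) (nat_lit 0) (nat_lit 0) (XT.nd (nat_lit 1092) (nat_lit 152) (nat_lit 0) (XT.nd (nat_lit 546) (nat_lit 0) (nat_lit 0) (XT.nd (nat_lit 234) (nat_lit 0) (nat_lit 0) (XT.nd (nat_lit 78) (nat_lit 0) (nat_lit 0) (XT.lf (nat_lit 0) (nat_lit 71620033667) (nat_lit 76) (nat_lit 15447393924) (nat_lit 76) (nat_lit 13918807359) (nat_lit 3) (nat_lit 4) (nat_lit 4) (nat_lit 5) (nat_lit 4) (nat_lit 4) (nat_lit 317) (nat_lit 237) (nat_lit 226)) (XT.nd (nat_lit 78) (nat_lit 0) (nat_lit 0) (XT.lf (nat_lit 0) (nat_lit 81254341443) (nat_lit 76) (nat_lit 14628603367) (nat_lit 76) (nat_lit 13014987276) (nat_lit 3) (nat_lit 4) (nat_lit 4) (nat_lit 5) (nat_lit 4) (nat_lit 4) (nat_lit 318) (nat_lit 237) (nat_lit 225)) (XT.lf (nat_lit 0) (nat_lit 91528556181) (nat_lit 76) (nat_lit 13805979245) (nat_lit 76) (nat_lit 12113632109) (nat_lit 3) (nat_lit 4) (nat_lit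 4) (nat_lit 5) (nat_lit 4) (nat_lit 4) (nat_lit 319) (nat_lit 237) (nat_lit 224)))) (XT.nd (nat_lit 156) (nat_lit 0) (nat_lit 0) (XT.nd (nat_lit 78) (nat_lit 0) (nat_lit 0) (XT.lf (nat_lit 0) (nat_lit 102503562117) (nat_lit 76) (nat_lit 12974646747) (nat_lit 76) (nat_lit 11209400497) (nat_lit 3) (nat_lit 4) (nat_lit 4) (nat_lit 5) (nat_lit 4) (nat_lit 4) (nat_lit 320) (nat_lit 237) (nat_lit 223)) (XT.lf (nat_lit 0) (nat_lit 114244396321) (nat_lit 76) (nat_lit 12129679458) (nat_lit 76) (nat_lit 10296934028) (nat_lit 3) (nat_lit 4) (nat_lit 4) (nat_lit 5) (nat_lit 4) (nat_lit 4) (nat_lit 321) (nat_lit 237) (nat_lit 222))) (XT.nd (nat_lit 78) (nat_lit 0) (nat_lit 0) (XT.lf (nat_lit 0) (nat_lit 126820634109) (nat_lit 76) (nat_lit 11266070165) (nat_lit 76) (nat_lit 9370825494) (nat_lit 3) (nat_lit 4) (nat_lit 4) (nat_lit 5) (nat_lit 4) (nat_lit 4) (nat_lit 322) (nat_lit 237) (nat_lit 221))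 (XT.lf (nat_lit 0) (nat_lit 140306801334) (nat_lit 76) (nat_lit 10378701183) (nat_lit 76) (nat_lit 8425586845) (nat_lit 3) (nat_lit 4) (nat_lit 4) (nat_lit 5) (nat_lit 4) (nat_lit 4) (nat_lit 323) (nat_lit 237) (nat_lit 220))))) (XT.nd (nat_lit 234) (nat_lit 0) (nat_lit 0) (XT.nd (nat_lit 78) (nat_lit 0) (nat_lit 0) (XT.lf (nat_lit 0) (nat_lit 154782816023) (nat_lit 76) (nat_lit 9462314030) (nat_lit 76) (nat_lit 7455616666) (nat_lit 3) (nat_lit 4) (nat_lit 4) (nat_lit 5) (nat_lit 4) (nat_lit 4) (nat_lit 324) (nat_lit 237) (nat_lit 219)) (XT.nd (nat_lit 78) (nat_lit 0) (nat_lit 0) (XT.lf (nat_lit 0) (nat_lit 170334461968) (nat_lit 76) (nat_lit 8511478262) (nat_lit 76) (nat_lit 6455166986) (nat_lit 3) (nat_lit 4) (nat_lit 4) (nat_lit 5) (nat_lit 4) (nat_lit 4) (nat_lit 325) (nat_lit 237) (nat_lit 218)) (XT.lf (nat_lit 0) (nat_lit 187053897070) (nat_lit 76) (nat_lit 7520559298) (nat_lit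 76) (nat_lit 5418309214) (nat_lit 3) (nat_lit 4) (nat_lit 4) (nat_lit 5) (nat_lit 4) (nat_lit 4) (nat_lit 326) (nat_lit 237) (nat_lit 217)))) (XT.nd (nat_lit 156) (nat_lit 0) (nat_lit 0) (XT.nd (nat_lit 78) (nat_lit 0) (nat_lit 0) (XT.lf (nat_lit 0) (nat_lit 205040199464) (nat_lit 76) (nat_lit 6483685025) (nat_lit 76) (nat_lit 4338899008) (nat_lit 3) (nat_lit 4) (nat_lit 4) (nat_lit 5) (nat_lit 4) (nat_lit 4) (nat_lit 327) (nat_lit 237) (nat_lit 216)) (XT.lf (nat_lit 0) (nat_lit 224399954644) (nat_lit 76) (nat_lit 5394711003) (nat_lit 76) (nat_lit 3210539862) (nat_lit 3) (nat_lit 4) (nat_lit 4) (nat_lit 5) (nat_lit 4) (nat_lit 4) (nat_lit 328) (nat_lit 237) (nat_lit 215))) (XT.nd (nat_lit 78) (nat_lit 0) (nat_lit 0) (XT.lf (nat_lit 0) (nat_lit 245247887087) (nat_lit 76) (nat_lit 4247184053) (nat_lit 76) (nat_lit 2026545206) (nat_lit 3) (nat_lit 4) (nat_lit 4) (nat_lit 5) (nat_lit 4)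 (nat_lit 4) (nat_lit 329) (nat_lit 237) (nat_lit 214)) (XT.lf (nat_lit 0) (nat_lit 267707540095) (nat_lit 76) (nat_lit 3034304015) (nat_lit 76) (nat_lit 779898772) (nat_lit 3) (nat_lit 4) (nat_lit 4) (nat_lit 5) (nat_lit 4) (nat_lit 4) (nat_lit 330) (nat_lit 237) (nat_lit 213)))))) (XT.nd (nat_lit 546) (nat_lit 0) (nat_lit 0) (XT.nd (nat_lit 234) (nat_lit 0) (nat_lit 0) (XT.nd (nat_lit 78) (nat_lit 76) (nat_lit 0) (XT.lf (nat_lit 0) (nat_lit 509934713) (nat_lit 152) (nat_lit 1225006220) (nat_lit 76) (nat_lit 291388130677) (nat_lit 2) (nat_lit 5) (nat_lit 4) (nat_lit 5) (nat_lit 3) (nat_lit 4) (nat_lit 331) (nat_lit 237) (nat_lit 212)) (XT.nd (nat_lit 78) (nat_lit 0) (nat_lit 0) (XT.lf (nat_lit 0) (nat_lit 1580630951) (nat_lit 76) (nat_lit 292085691) (nat_lit 152) (nat_lit 314577241227) (nat_lit 1) (nat_lit 5) (nat_lit 2) (nat_lit 5) (nat_lit 3) (nat_lit 4) (nat_lit 332) (nat_lit 237)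 (nat_lit 211)) (XT.lf (nat_lit 0) (nat_lit 3383442495) (nat_lit 152) (nat_lit 337041003779) (nat_lit 0) (nat_lit 1215456830) (nat_lit 1) (nat_lit 5) (nat_lit 3) (nat_lit 4) (nat_lit 1) (nat_lit 4) (nat_lit 333) (nat_lit 237) (nat_lit 210)))) (XT.nd (nat_lit 156) (nat_lit 0) (nat_lit 0) (XT.nd (nat_lit 78) (nat_lit 0) (nat_lit 0) (XT.lf (nat_lit 0) (nat_lit 4998636637) (nat_lit 152) (nat_lit 361040068541) (nat_lit 0) (nat_lit 2807670131) (nat_lit 1) (nat_lit 5) (nat_lit 3) (nat_lit 4) (nat_lit 1) (nat_lit 4) (nat_lit 334) (nat_lit 237) (nat_lit 209)) (XT.lf (nat_lit 0) (nat_lit 6720845923) (nat_lit 152) (nat_lit 387001713216) (nat_lit 0) (nat_lit 4508600860) (nat_lit 1) (nat_lit 5) (nat_lit 3) (nat_lit 4) (nat_lit 1) (nat_lit 4) (nat_lit 335) (nat_lit 237) (nat_lit 208))) (XT.nd (nat_lit 78) (nat_lit 0) (nat_lit 0) (XT.lf (nat_lit 0) (nat_lit 8560276036) (nat_lit 152) (nat_lit 415079784590)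 (nat_lit 0) (nat_lit 6328328606) (nat_lit 1) (nat_lit 5) (nat_lit 3) (nat_lit 4) (nat_lit 1) (nat_lit 4) (nat_lit 336) (nat_lit 237) (nat_lit 207)) (XT.lf (nat_lit 0) (nat_lit 10527827303) (nat_lit 152) (nat_lit 445440671231) (nat_lit 0) (nat_lit 8277636940) (nat_lit 1) (nat_lit 5) (nat_lit 3) (nat_lit 4) (nat_lit 1) (nat_lit 4) (nat_lit 337) (nat_lit 237) (nat_lit 206))))) (XT.nd (nat_lit 234) (nat_lit 0) (nat_lit 0) (XT.nd (nat_lit 78) (nat_lit 0) (nat_lit 0) (XT.lf (nat_lit 0) (nat_lit 12635159287) (nat_lit 152) (nat_lit 478264289506) (nat_lit 0) (nat_lit 10368077319) (nat_lit 1) (nat_lit 5) (nat_lit 3) (nat_lit 4) (nat_lit 1) (nat_lit 4) (nat_lit 338) (nat_lit 237) (nat_lit 205)) (XT.nd (nat_lit 78) (nat_lit 0) (nat_lit 0) (XT.lf (nat_lit 0) (nat_lit 14894759881) (nat_lit 152) (nat_lit 513745149746) (nat_lit 0) (nat_lit 12612037539) (nat_lit 1) (nat_lit 5) (nat_lit 3) (nat_lit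 4) (nat_lit 1) (nat_lit 4) (nat_lit 339) (nat_lit 237) (nat_lit 204)) (XT.lf (nat_lit 0) (nat_lit 17320019311) (nat_lit 152) (nat_lit 552093508899) (nat_lit 0) (nat_lit 15022815141) (nat_lit 1) (nat_lit 5) (nat_lit 3) (nat_lit 4) (nat_lit 1) (nat_lit 4) (nat_lit 340) (nat_lit 237) (nat_lit 203)))) (XT.nd (nat_lit 156) (nat_lit 0) (nat_lit 0) (XT.nd (nat_lit 78) (nat_lit 0) (nat_lit 0) (XT.lf (nat_lit 0) (nat_lit 19925309485) (nat_lit 152) (nat_lit 593536616501) (nat_lit 0) (nat_lit 17614696215) (nat_lit 1) (nat_lit 5) (nat_lit 3) (nat_lit 4) (nat_lit 1) (nat_lit 4) (nat_lit 341) (nat_lit 237) (nat_lit 202)) (XT.lf (nat_lit 0) (nat_lit 22726069160) (nat_lit 152) (nat_lit 638320061339) (nat_lit 0) (nat_lit 20403040057) (nat_lit 1) (nat_lit 5) (nat_lit 3) (nat_lit 4) (nat_lit 1) (nat_lit 4) (nat_lit 342) (nat_lit 237) (nat_lit 201))) (XT.nd (nat_lit 78) (nat_lit 0) (nat_lit 0) (XT.lf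 (nat_lit 0) (nat_lit 25738895429) (nat_lit 152) (nat_lit 686709226789) (nat_lit 0) (nat_lit 23404370184) (nat_lit 1) (nat_lit 5) (nat_lit 3) (nat_lit 4) (nat_lit 1) (nat_lit 4) (nat_lit 343) (nat_lit 237) (nat_lit 200)) (XT.lf (nat_lit 0) (nat_lit 28981642078) (nat_lit 152) (nat_lit 738990863461) (nat_lit 0) (nat_lit 26636472257) (nat_lit 1) (nat_lit 5) (nat_lit 3) (nat_lit 4) (nat_lit 1) (nat_lit 4) (nat_lit 344) (nat_lit 237) (nat_lit 199))))))) (XT.nd (nat_lit 1092) (nat_lit 0) (nat_lit 0) (XT.nd (nat_lit 546) (nat_lit 0) (nat_lit 0) (XT.nd (nat_lit 234) (nat_lit 0) (nat_lit 0) (XT.nd (nat_lit 78) (nat_lit 0) (nat_lit 0) (XT.lf (nat_lit 0) (nat_lit 32473525384) (nat_lit 152) (nat_lit 795474788462) (nat_lit 0) (nat_lit 30118499474) (nat_lit 1) (nat_lit 5) (nat_lit 3) (nat_lit 4) (nat_lit 1) (nat_lit 4) (nat_lit 345) (nat_lit 237) (nat_lit 198)) (XT.nd (nat_lit 78) (nat_lit 0) (nat_lit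 0) (XT.lf (nat_lit 0) (nat_lit 36235237988) (nat_lit 152) (nat_lit 856495721346) (nat_lit 0) (nat_lit 33871086070) (nat_lit 1) (nat_lit 5) (nat_lit 3) (nat_lit 4) (nat_lit 1) (nat_lit 4) (nat_lit 346) (nat_lit 237) (nat_lit 197)) (XT.lf (nat_lit 0) (nat_lit 40289071520) (nat_lit 152) (nat_lit 922415267642) (nat_lit 0) (nat_lit 37916469595) (nat_lit 1) (nat_lit 5) (nat_lit 3) (nat_lit 4) (nat_lit 1) (nat_lit 4) (nat_lit 347) (nat_lit 237) (nat_lit 196)))) (XT.nd (nat_lit 156) (nat_lit 0) (nat_lit 0) (XT.nd (nat_lit 78) (nat_lit 0) (nat_lit 0) (XT.lf (nat_lit 0) (nat_lit 44659048699) (nat_lit 152) (nat_lit 993624061699) (nat_lit 0) (nat_lit 42278622692) (nat_lit 1) (nat_lit 5) (nat_lit 3) (nat_lit 4) (nat_lit 1) (nat_lit 4) (nat_lit 348) (nat_lit 237) (nat_lit 195)) (XT.lf (nat_lit 0) (nat_lit 49371065684) (nat_lit 152) (nat_lit 1070544081556) (nat_lit 0) (nat_lit 46983395157) (nat_lit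 1) (nat_lit 5) (nat_lit 3) (nat_lit 4) (nat_lit 1) (nat_lit 4) (nat_lit 349) (nat_lit 237) (nat_lit 194))) (XT.nd (nat_lit 78) (nat_lit 0) (nat_lit 0) (XT.lf (nat_lit 0) (nat_lit 54453045540) (nat_lit 152) (nat_lit 1153631149551) (nat_lit 0) (nat_lit 52058667125) (nat_lit 1) (nat_lit 5) (nat_lit 3) (nat_lit 4) (nat_lit 1) (nat_lit 4) (nat_lit 350) (nat_lit 237) (nat_lit 193)) (XT.lf (nat_lit 0) (nat_lit 59935103702) (nat_lit 152) (nat_lit 1243377633497) (nat_lit 0) (nat_lit 57534514279) (nat_lit 1) (nat_lit 5) (nat_lit 3) (nat_lit 4) (nat_lit 1) (nat_lit 4) (nat_lit 351) (nat_lit 237) (nat_lit 192))))) (XT.nd (nat_lit 234) (nat_lit 0) (nat_lit 0) (XT.nd (nat_lit 78) (nat_lit 0) (nat_lit 0) (XT.lf (nat_lit 0) (nat_lit 65849726441) (nat_lit 152) (nat_lit 1340315364407) (nat_lit 0) (nat_lit 63443386085) (nat_lit 1) (nat_lit 5) (nat_lit 3) (nat_lit 4) (nat_lit 1) (nat_lit 4) (nat_lit 352)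 (nat_lit 237) (nat_lit 191)) (XT.nd (nat_lit 78) (nat_lit 0) (nat_lit 0) (XT.lf (nat_lit 0) (nat_lit 72231963374) (nat_lit 152) (nat_lit 1445018788097) (nat_lit 0) (nat_lit 69820298080) (nat_lit 1) (nat_lit 5) (nat_lit 3) (nat_lit 4) (nat_lit 1) (nat_lit 4) (nat_lit 353) (nat_lit 237) (nat_lit 190)) (XT.lf (nat_lit 0) (nat_lit 79119635164) (nat_lit 152) (nat_lit 1558108369297) (nat_lit 0) (nat_lit 76703039371) (nat_lit 1) (nat_lit 5) (nat_lit 3) (nat_lit 4) (nat_lit 1) (nat_lit 4) (nat_lit 354) (nat_lit 237) (nat_lit 189)))) (XT.nd (nat_lit 156) (nat_lit 0) (nat_lit 0) (XT.nd (nat_lit 78) (nat_lit 0) (nat_lit 0) (XT.lf (nat_lit 0) (nat_lit 86553557643) (nat_lit 152) (nat_lit 1680254268491) (nat_lit 0) (nat_lit 84132396574) (nat_lit 1) (nat_lit 5) (nat_lit 3) (nat_lit 4) (nat_lit 1) (nat_lit 4) (nat_lit 355) (nat_lit 237) (nat_lit 188)) (XT.lf (nat_lit 0) (nat_lit 94577783686) (nat_lit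 152) (nat_lit 1812180313227) (nat_lit 0) (nat_lit 92152395510) (nat_lit 1) (nat_lit 5) (nat_lit 3) (nat_lit 4) (nat_lit 1) (nat_lit 4) (nat_lit 356) (nat_lit 237) (nat_lit 187))) (XT.nd (nat_lit 78) (nat_lit 0) (nat_lit 0) (XT.lf (nat_lit 0) (nat_lit 103239864261) (nat_lit 152) (nat_lit 1954668287476) (nat_lit 0) (nat_lit 100810562097) (nat_lit 1) (nat_lit 5) (nat_lit 3) (nat_lit 4) (nat_lit 1) (nat_lit 4) (nat_lit 357) (nat_lit 237) (nat_lit 186)) (XT.lf (nat_lit 0) (nat_lit 112591130217) (nat_lit 152) (nat_lit 2108562564418) (nat_lit 0) (nat_lit 110158203989) (nat_lit 1) (nat_lit 5) (nat_lit 3) (nat_lit 4) (nat_lit 1) (nat_lit 4) (nat_lit 358) (nat_lit 237) (nat_lit 185)))))) (XT.nd (nat_lit 36348) (nat_lit 0) (nat_lit 152) (XT.nd (nat_lit 234) (nat_lit 0) (nat_lit 0) (XT.nd (nat_lit 78) (nat_lit 0) (nat_lit 0) (XT.lf (nat_lit 0) (nat_lit 122686996463) (nat_lit 152) (nat_lit 2274775110138)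 (nat_lit 0) (nat_lit 120250714621) (nat_lit 1) (nat_lit 5) (nat_lit 3) (nat_lit 4) (nat_lit 1) (nat_lit 4) (nat_lit 359) (nat_lit 237) (nat_lit 184)) (XT.nd (nat_lit 78) (nat_lit 0) (nat_lit 0) (XT.lf (nat_lit 0) (nat_lit 133587290355) (nat_lit 152) (nat_lit 2454290887870) (nat_lit 0) (nat_lit 131147901462) (nat_lit 1) (nat_lit 5) (nat_lit 3) (nat_lit 4) (nat_lit 1) (nat_lit 4) (nat_lit 360) (nat_lit 237) (nat_lit 183)) (XT.lf (nat_lit 0) (nat_lit 145356606226) (nat_lit 152) (nat_lit 2648173694816) (nat_lit 0) (nat_lit 142914340434) (nat_lit 1) (nat_lit 5) (nat_lit 3) (nat_lit 4) (nat_lit 1) (nat_lit 4) (nat_lit 361) (nat_lit 237) (nat_lit 182)))) (XT.nd (nat_lit 156) (nat_lit 0) (nat_lit 0) (XT.nd (nat_lit 78) (nat_lit 0) (nat_lit 0) (XT.lf (nat_lit 0) (nat_lit 158064688170) (nat_lit 152) (nat_lit 2857572466128) (nat_lit 0) (nat_lit 155619758584) (nat_lit 1) (nat_lit 5) (nat_lit 3)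 (nat_lit 4) (nat_lit 1) (nat_lit 4) (nat_lit 362) (nat_lit 237) (nat_lit 181)) (XT.lf (nat_lit 0) (nat_lit 171786843341) (nat_lit 152) (nat_lit 3083728083414) (nat_lit 0) (nat_lit 169339447278) (nat_lit 1) (nat_lit 5) (nat_lit 3) (nat_lit 4) (nat_lit 1) (nat_lit 4) (nat_lit 363) (nat_lit 237) (nat_lit 180))) (XT.nd (nat_lit 78) (nat_lit 0) (nat_lit 0) (XT.lf (nat_lit 0) (nat_lit 186604388212) (nat_lit 152) (nat_lit 3327980728110) (nat_lit 0) (nat_lit 184154708375) (nat_lit 1) (nat_lit 5) (nat_lit 3) (nat_lit 4) (nat_lit 1) (nat_lit 4) (nat_lit 364) (nat_lit 237) (nat_lit 179)) (XT.lf (nat_lit 0) (nat_lit 202605130458) (nat_lit 152) (nat_lit 3591777823295) (nat_lit 0) (nat_lit 200153336015) (nat_lit 1) (nat_lit 5) (nat_lit 3) (nat_lit 4) (nat_lit 1) (nat_lit 4) (nat_lit 365) (nat_lit 237) (nat_lit 178))))) (XT.nd (nat_lit 234) (nat_lit 76) (nat_lit 0) (XT.nd (nat_lit 78) (nat_lit 0)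 (nat_lit 0) (XT.lf (nat_lit 0) (nat_lit 5619998205) (nat_lit 152) (nat_lit 8244995808) (nat_lit 0) (nat_lit 5619998205) (nat_lit 4) (nat_lit 5) (nat_lit 6) (nat_lit 4) (nat_lit 4) (nat_lit 4) (nat_lit 304) (nat_lit 238) (nat_lit 238)) (XT.nd (nat_lit 78) (nat_lit 0) (nat_lit 0) (XT.lf (nat_lit 0) (nat_lit 15317731831) (nat_lit 152) (nat_lit 11389886664) (nat_lit 0) (nat_lit 15103613016) (nat_lit 4) (nat_lit 5) (nat_lit 6) (nat_lit 4) (nat_lit 4) (nat_lit 4) (nat_lit 305) (nat_lit 238) (nat_lit 237)) (XT.lf (nat_lit 0) (nat_lit 19555433136) (nat_lit 152) (nat_lit 6194763303) (nat_lit 0) (nat_lit 19143056160) (nat_lit 4) (nat_lit 5) (nat_lit 6) (nat_lit 4) (nat_lit 4) (nat_lit 4) (nat_lit 306) (nat_lit 238) (nat_lit 236)))) (XT.nd (nat_lit 156) (nat_lit 0) (nat_lit 0) (XT.nd (nat_lit 78) (nat_lit 76) (nat_lit 0) (XT.lf (nat_lit 0) (nat_lit 23978212630) (nat_lit 152) (nat_lit 873835619)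 (nat_lit 0) (nat_lit 23382263282) (nat_lit 4) (nat_lit 5) (nat_lit 6) (nat_lit 4) (nat_lit 4) (nat_lit 4) (nat_lit 307) (nat_lit 238) (nat_lit 235)) (XT.lf (nat_lit 0) (nat_lit 4846888821) (nat_lit 76) (nat_lit 23881958349) (nat_lit 76) (nat_lit 23116034583) (nat_lit 3) (nat_lit 4) (nat_lit 4) (nat_lit 5) (nat_lit 4) (nat_lit 4) (nat_lit 308) (nat_lit 238) (nat_lit 234))) (XT.nd (nat_lit 78) (nat_lit 0) (nat_lit 0) (XT.lf (nat_lit 0) (nat_lit 10813421934) (nat_lit 76) (nat_lit 22931735638) (nat_lit 76) (nat_lit 22008428150) (nat_lit 3) (nat_lit 4) (nat_lit 4) (nat_lit 5) (nat_lit 4) (nat_lit 4) (nat_lit 309) (nat_lit 238) (nat_lit 233)) (XT.lf (nat_lit 0) (nat_lit 17015106318) (nat_lit 76) (nat_lit 22019641380) (nat_lit 76) (nat_lit 20950608225) (nat_lit 3) (nat_lit 4) (nat_lit 4) (nat_lit 5) (nat_lit 4) (nat_lit 4) (nat_lit 310) (nat_lit 238) (nat_lit 232))))))))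
noncomputable def xc17 : XT := (XT.nd (nat_lit 2184) (nat_lit 0) (nat_lit 0) (XT.nd (nat_lit 1092) (nat_lit 152) (nat_lit 0) (XT.nd (nat_lit 546) (nat_lit 0) (nat_lit 0) (XT.nd (nat_lit 234) (nat_lit 0) (nat_lit 0) (XT.nd (nat_lit 78) (nat_lit 0) (nat_lit 0) (XT.lf (nat_lit 0) (nat_lit 23488692695) (nat_lit 76) (nat_lit 21140270572) (nat_lit 76) (nat_lit 19936306244) (nat_lit 3) (nat_lit 4) (nat_lit 4) (nat_lit 5) (nat_lit 4) (nat_lit 4) (nat_lit 311) (nat_lit 238) (nat_lit 231)) (XT.nd (nat_lit 78) (nat_lit 0) (nat_lit 0) (XT.lf (nat_lit 0) (nat_lit 30272543059) (nat_lit 76) (nat_lit 20288412129) (nat_lit 76) (nat_lit 18959511529) (nat_lit 3) (nat_lit 4) (nat_lit 4) (nat_lit 5) (nat_lit 4) (nat_lit 4) (nat_lit 312) (nat_lit 238) (nat_lit 230)) (XT.lf (nat_lit 0) (nat_lit 37406858003) (nat_lit 76) (nat_lit 19459018001) (nat_lit 76) (nat_lit 18014435668) (nat_lit 3) (nat_lit 4) (nat_lit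 4) (nat_lit 5) (nat_lit 4) (nat_lit 4) (nat_lit 313) (nat_lit 238) (nat_lit 229)))) (XT.nd (nat_lit 156) (nat_lit 0) (nat_lit 0) (XT.nd (nat_lit 78) (nat_lit 0) (nat_lit 0) (XT.lf (nat_lit 0) (nat_lit 44933914951) (nat_lit 76) (nat_lit 18647173259) (nat_lit 76) (nat_lit 17095478210) (nat_lit 3) (nat_lit 4) (nat_lit 4) (nat_lit 5) (nat_lit 4) (nat_lit 4) (nat_lit 314) (nat_lit 238) (nat_lit 228)) (XT.lf (nat_lit 0) (nat_lit 52898318684) (nat_lit 76) (nat_lit 17848066971) (nat_lit 76) (nat_lit 16197193481) (nat_lit 3) (nat_lit 4) (nat_lit 4) (nat_lit 5) (nat_lit 4) (nat_lit 4) (nat_lit 315) (nat_lit 238) (nat_lit 227))) (XT.nd (nat_lit 78) (nat_lit 0) (nat_lit 0) (XT.lf (nat_lit 0) (nat_lit 61347265668) (nat_lit 76) (nat_lit 17056963693) (nat_lit 76) (nat_lit 15314258314) (nat_lit 3) (nat_lit 4) (nat_lit 4) (nat_lit 5) (nat_lit 4) (nat_lit 4) (nat_lit 316) (nat_lit 238) (nat_lit 226))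 (XT.lf (nat_lit 0) (nat_lit 70330823738) (nat_lit 76) (nat_lit 16269175405) (nat_lit 76) (nat_lit 14441440499) (nat_lit 3) (nat_lit 4) (nat_lit 4) (nat_lit 5) (nat_lit 4) (nat_lit 4) (nat_lit 317) (nat_lit 238) (nat_lit 225))))) (XT.nd (nat_lit 234) (nat_lit 0) (nat_lit 0) (XT.nd (nat_lit 78) (nat_lit 0) (nat_lit 0) (XT.lf (nat_lit 0) (nat_lit 79902228793) (nat_lit 76) (nat_lit 15480033733) (nat_lit 76) (nat_lit 13573567782) (nat_lit 3) (nat_lit 4) (nat_lit 4) (nat_lit 5) (nat_lit 4) (nat_lit 4) (nat_lit 318) (nat_lit 238) (nat_lit 224)) (XT.nd (nat_lit 78) (nat_lit 0) (nat_lit 0) (XT.lf (nat_lit 0) (nat_lit 90118200270) (nat_lit 76) (nat_lit 14684862280) (nat_lit 76) (nat_lit 12705497216) (nat_lit 3) (nat_lit 4) (nat_lit 4) (nat_lit 5) (nat_lit 4) (nat_lit 4) (nat_lit 319) (nat_lit 238) (nat_lit 223)) (XT.lf (nat_lit 0) (nat_lit 101039277260) (nat_lit 76) (nat_lit 13878948921) (nat_lit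 76) (nat_lit 11832084676) (nat_lit 3) (nat_lit 4) (nat_lit 4) (nat_lit 5) (nat_lit 4) (nat_lit 4) (nat_lit 320) (nat_lit 238) (nat_lit 222)))) (XT.nd (nat_lit 156) (nat_lit 0) (nat_lit 0) (XT.nd (nat_lit 78) (nat_lit 0) (nat_lit 0) (XT.lf (nat_lit 0) (nat_lit 112730177257) (nat_lit 76) (nat_lit 13057517872) (nat_lit 76) (nat_lit 10948154387) (nat_lit 3) (nat_lit 4) (nat_lit 4) (nat_lit 5) (nat_lit 4) (nat_lit 4) (nat_lit 321) (nat_lit 238) (nat_lit 221)) (XT.lf (nat_lit 0) (nat_lit 125260179667) (nat_lit 76) (nat_lit 12215701394) (nat_lit 76) (nat_lit 10048468241) (nat_lit 3) (nat_lit 4) (nat_lit 4) (nat_lit 5) (nat_lit 4) (nat_lit 4) (nat_lit 322) (nat_lit 238) (nat_lit 220))) (XT.nd (nat_lit 78) (nat_lit 0) (nat_lit 0) (XT.lf (nat_lit 0) (nat_lit 138703536356) (nat_lit 76) (nat_lit 11348510944) (nat_lit 76) (nat_lit 9127694766) (nat_lit 3) (nat_lit 4) (nat_lit 4) (nat_lit 5) (nat_lit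 4) (nat_lit 4) (nat_lit 323) (nat_lit 238) (nat_lit 219)) (XT.lf (nat_lit 0) (nat_lit 153139911661) (nat_lit 76) (nat_lit 10450807617) (nat_lit 76) (nat_lit 8180377526) (nat_lit 3) (nat_lit 4) (nat_lit 4) (nat_lit 5) (nat_lit 4) (nat_lit 4) (nat_lit 324) (nat_lit 238) (nat_lit 218)))))) (XT.nd (nat_lit 546) (nat_lit 152) (nat_lit 0) (XT.nd (nat_lit 234) (nat_lit 0) (nat_lit 0) (XT.nd (nat_lit 78) (nat_lit 0) (nat_lit 0) (XT.lf (nat_lit 0) (nat_lit 168654854472) (nat_lit 76) (nat_lit 9517271688) (nat_lit 76) (nat_lit 7200902789) (nat_lit 3) (nat_lit 4) (nat_lit 4) (nat_lit 5) (nat_lit 4) (nat_lit 4) (nat_lit 325) (nat_lit 238) (nat_lit 217)) (XT.nd (nat_lit 78) (nat_lit 0) (nat_lit 0) (XT.lf (nat_lit 0) (nat_lit 185340305191) (nat_lit 76) (nat_lit 8542371094) (nat_lit 76) (nat_lit 6183466261) (nat_lit 3) (nat_lit 4) (nat_lit 4) (nat_lit 5) (nat_lit 4) (nat_lit 4) (nat_lit 326) (nat_lit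 238) (nat_lit 216)) (XT.lf (nat_lit 0) (nat_lit 203295140563) (nat_lit 76) (nat_lit 7520328644) (nat_lit 76) (nat_lit 5122038689) (nat_lit 3) (nat_lit 4) (nat_lit 4) (nat_lit 5) (nat_lit 4) (nat_lit 4) (nat_lit 327) (nat_lit 238) (nat_lit 215)))) (XT.nd (nat_lit 156) (nat_lit 0) (nat_lit 0) (XT.nd (nat_lit 78) (nat_lit 0) (nat_lit 0) (XT.lf (nat_lit 0) (nat_lit 222625759613) (nat_lit 76) (nat_lit 6445087792) (nat_lit 76) (nat_lit 4010330130) (nat_lit 3) (nat_lit 4) (nat_lit 4) (nat_lit 5) (nat_lit 4) (nat_lit 4) (nat_lit 328) (nat_lit 238) (nat_lit 214)) (XT.lf (nat_lit 0) (nat_lit 243446714157) (nat_lit 76) (nat_lit 5310276740) (nat_lit 76) (nat_lit 2841752683) (nat_lit 3) (nat_lit 4) (nat_lit 4) (nat_lit 5) (nat_lit 4) (nat_lit 4) (nat_lit 329) (nat_lit 238) (nat_lit 213))) (XT.nd (nat_lit 78) (nat_lit 0) (nat_lit 0) (XT.lf (nat_lit 0) (nat_lit 265881387629) (nat_lit 76) (nat_lit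 4109170682) (nat_lit 76) (nat_lit 1609381444) (nat_lit 3) (nat_lit 4) (nat_lit 4) (nat_lit 5) (nat_lit 4) (nat_lit 4) (nat_lit 330) (nat_lit 238) (nat_lit 212)) (XT.lf (nat_lit 0) (nat_lit 290062726243) (nat_lit 76) (nat_lit 2834651951) (nat_lit 76) (nat_lit 305913472) (nat_lit 3) (nat_lit 4) (nat_lit 4) (nat_lit 5) (nat_lit 4) (nat_lit 4) (nat_lit 331) (nat_lit 238) (nat_lit 211))))) (XT.nd (nat_lit 234) (nat_lit 0) (nat_lit 0) (XT.nd (nat_lit 78) (nat_lit 76) (nat_lit 0) (XT.lf (nat_lit 0) (nat_lit 1022530825) (nat_lit 152) (nat_lit 428679215) (nat_lit 76) (nat_lit 315083538189) (nat_lit 2) (nat_lit 5) (nat_lit 4) (nat_lit 5) (nat_lit 3) (nat_lit 4) (nat_lit 332) (nat_lit 238) (nat_lit 210)) (XT.nd (nat_lit 78) (nat_lit 0) (nat_lit 0) (XT.lf (nat_lit 0) (nat_lit 2482718060) (nat_lit 152) (nat_lit 339152534800) (nat_lit 0) (nat_lit 93493392) (nat_lit 1) (nat_lit 5) (nat_lit 3) (nat_lit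 4) (nat_lit 1) (nat_lit 4) (nat_lit 333) (nat_lit 238) (nat_lit 209)) (XT.lf (nat_lit 0) (nat_lit 4087238938) (nat_lit 152) (nat_lit 363172106645) (nat_lit 0) (nat_lit 1676735714) (nat_lit 1) (nat_lit 5) (nat_lit 3) (nat_lit 4) (nat_lit 1) (nat_lit 4) (nat_lit 334) (nat_lit 238) (nat_lit 208)))) (XT.nd (nat_lit 156) (nat_lit 0) (nat_lit 0) (XT.nd (nat_lit 78) (nat_lit 0) (nat_lit 0) (XT.lf (nat_lit 0) (nat_lit 5799565572) (nat_lit 152) (nat_lit 389152739361) (nat_lit 0) (nat_lit 3369359980) (nat_lit 1) (nat_lit 5) (nat_lit 3) (nat_lit 4) (nat_lit 1) (nat_lit 4) (nat_lit 335) (nat_lit 238) (nat_lit 207)) (XT.lf (nat_lit 0) (nat_lit 7629845082) (nat_lit 152) (nat_lit 417248392252) (nat_lit 0) (nat_lit 5181396557) (nat_lit 1) (nat_lit 5) (nat_lit 3) (nat_lit 4) (nat_lit 1) (nat_lit 4) (nat_lit 336) (nat_lit 238) (nat_lit 206))) (XT.nd (nat_lit 78) (nat_lit 0) (nat_lit 0) (XT.lf (nat_lit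 0) (nat_lit 9588923568) (nat_lit 152) (nat_lit 447625558078) (nat_lit 0) (nat_lit 7123583439) (nat_lit 1) (nat_lit 5) (nat_lit 3) (nat_lit 4) (nat_lit 1) (nat_lit 4) (nat_lit 337) (nat_lit 238) (nat_lit 205)) (XT.lf (nat_lit 0) (nat_lit 11688410384) (nat_lit 152) (nat_lit 480464249671) (nat_lit 0) (nat_lit 9207429881) (nat_lit 1) (nat_lit 5) (nat_lit 3) (nat_lit 4) (nat_lit 1) (nat_lit 4) (nat_lit 338) (nat_lit 238) (nat_lit 204))))))) (XT.nd (nat_lit 1092) (nat_lit 0) (nat_lit 0) (XT.nd (nat_lit 546) (nat_lit 0) (nat_lit 0) (XT.nd (nat_lit 234) (nat_lit 0) (nat_lit 0) (XT.nd (nat_lit 78) (nat_lit 0) (nat_lit 0) (XT.lf (nat_lit 0) (nat_lit 13940746934) (nat_lit 152) (nat_lit 515959066687) (nat_lit 0) (nat_lit 11445284603) (nat_lit 1) (nat_lit 5) (nat_lit 3) (nat_lit 4) (nat_lit 1) (nat_lit 4) (nat_lit 339) (nat_lit 238) (nat_lit 203)) (XT.nd (nat_lit 78) (nat_lit 0) (nat_lit 0) (XT.lf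 (nat_lit 0) (nat_lit 16359280398) (nat_lit 152) (nat_lit 554320348781) (nat_lit 0) (nat_lit 13850408967) (nat_lit 1) (nat_lit 5) (nat_lit 3) (nat_lit 4) (nat_lit 1) (nat_lit 4) (nat_lit 340) (nat_lit 238) (nat_lit 202)) (XT.lf (nat_lit 0) (nat_lit 18958342825) (nat_lit 152) (nat_lit 595775422069) (nat_lit 0) (nat_lit 16437055560) (nat_lit 1) (nat_lit 5) (nat_lit 3) (nat_lit 4) (nat_lit 1) (nat_lit 4) (nat_lit 341) (nat_lit 238) (nat_lit 201)))) (XT.nd (nat_lit 156) (nat_lit 0) (nat_lit 0) (XT.nd (nat_lit 78) (nat_lit 0) (nat_lit 0) (XT.lf (nat_lit 0) (nat_lit 21753336067) (nat_lit 152) (nat_lit 640569946246) (nat_lit 0) (nat_lit 19220552660) (nat_lit 1) (nat_lit 5) (nat_lit 3) (nat_lit 4) (nat_lit 1) (nat_lit 4) (nat_lit 342) (nat_lit 238) (nat_lit 200)) (XT.lf (nat_lit 0) (nat_lit 24760823047) (nat_lit 152) (nat_lit 688969370343) (nat_lit 0) (nat_lit 22217395064) (nat_lit 1) (nat_lit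 5) (nat_lit 3) (nat_lit 4) (nat_lit 1) (nat_lit 4) (nat_lit 343) (nat_lit 238) (nat_lit 199))) (XT.nd (nat_lit 78) (nat_lit 0) (nat_lit 0) (XT.lf (nat_lit 0) (nat_lit 27998625910) (nat_lit 152) (nat_lit 741260505763) (nat_lit 0) (nat_lit 25445341839) (nat_lit 1) (nat_lit 5) (nat_lit 3) (nat_lit 4) (nat_lit 1) (nat_lit 4) (nat_lit 344) (nat_lit 238) (nat_lit 198)) (XT.lf (nat_lit 0) (nat_lit 31485931636) (nat_lit 152) (nat_lit 797753225900) (nat_lit 0) (nat_lit 28923521556) (nat_lit 1) (nat_lit 5) (nat_lit 3) (nat_lit 4) (nat_lit 1) (nat_lit 4) (nat_lit 345) (nat_lit 238) (nat_lit 197))))) (XT.nd (nat_lit 234) (nat_lit 0) (nat_lit 0) (XT.nd (nat_lit 78) (nat_lit 0) (nat_lit 0) (XT.lf (nat_lit 0) (nat_lit 35243405740) (nat_lit 152) (nat_lit 858782302429) (nat_lit 0) (nat_lit 32672545653) (nat_lit 1) (nat_lit 5) (nat_lit 3) (nat_lit 4) (nat_lit 1) (nat_lit 4) (nat_lit 346) (nat_lit 238)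 (nat_lit 196)) (XT.nd (nat_lit 78) (nat_lit 0) (nat_lit 0) (XT.lf (nat_lit 0) (nat_lit 39293314736) (nat_lit 152) (nat_lit 924709389137) (nat_lit 0) (nat_lit 36714630567) (nat_lit 1) (nat_lit 5) (nat_lit 3) (nat_lit 4) (nat_lit 1) (nat_lit 4) (nat_lit 347) (nat_lit 238) (nat_lit 195)) (XT.lf (nat_lit 0) (nat_lit 43659658084) (nat_lit 152) (nat_lit 995925165057) (nat_lit 0) (nat_lit 41073729396) (nat_lit 1) (nat_lit 5) (nat_lit 3) (nat_lit 4) (nat_lit 1) (nat_lit 4) (nat_lit 348) (nat_lit 238) (nat_lit 194)))) (XT.nd (nat_lit 156) (nat_lit 0) (nat_lit 0) (XT.nd (nat_lit 78) (nat_lit 0) (nat_lit 0) (XT.lf (nat_lit 0) (nat_lit 48368310411) (nat_lit 152) (nat_lit 1072851649601) (nat_lit 0) (nat_lit 45775673834) (nat_lit 1) (nat_lit 5) (nat_lit 3) (nat_lit 4) (nat_lit 1) (nat_lit 4) (nat_lit 349) (nat_lit 238) (nat_lit 193)) (XT.lf (nat_lit 0) (nat_lit 53447174843) (nat_lit 152) (nat_lit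 1155944703419) (nat_lit 0) (nat_lit 50848327258) (nat_lit 1) (nat_lit 5) (nat_lit 3) (nat_lit 4) (nat_lit 1) (nat_lit 4) (nat_lit 350) (nat_lit 238) (nat_lit 192))) (XT.nd (nat_lit 78) (nat_lit 0) (nat_lit 0) (XT.lf (nat_lit 0) (nat_lit 58926348353) (nat_lit 152) (nat_lit 1245696729792) (nat_lit 0) (nat_lit 56321749835) (nat_lit 1) (nat_lit 5) (nat_lit 3) (nat_lit 4) (nat_lit 1) (nat_lit 4) (nat_lit 351) (nat_lit 238) (nat_lit 191)) (XT.lf (nat_lit 0) (nat_lit 64838300119) (nat_lit 152) (nat_lit 1342639592581) (nat_lit 0) (nat_lit 62228376663) (nat_lit 1) (nat_lit 5) (nat_lit 3) (nat_lit 4) (nat_lit 1) (nat_lit 4) (nat_lit 352) (nat_lit 238) (nat_lit 190)))))) (XT.nd (nat_lit 546) (nat_lit 0) (nat_lit 0) (XT.nd (nat_lit 234) (nat_lit 0) (nat_lit 0) (XT.nd (nat_lit 78) (nat_lit 0) (nat_lit 0) (XT.lf (nat_lit 0) (nat_lit 71218063928) (nat_lit 152) (nat_lit 1447347768009) (nat_lit 0)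 (nat_lit 68603209974) (nat_lit 1) (nat_lit 5) (nat_lit 3) (nat_lit 4) (nat_lit 1) (nat_lit 4) (nat_lit 353) (nat_lit 238) (nat_lit 189)) (XT.nd (nat_lit 78) (nat_lit 0) (nat_lit 0) (XT.lf (nat_lit 0) (nat_lit 78103445788) (nat_lit 152) (nat_lit 1560441748967) (nat_lit 0) (nat_lit 75484026557) (nat_lit 1) (nat_lit 5) (nat_lit 3) (nat_lit 4) (nat_lit 1) (nat_lit 4) (nat_lit 354) (nat_lit 238) (nat_lit 188)) (XT.lf (nat_lit 0) (nat_lit 85535247962) (nat_lit 152) (nat_lit 1682591722010) (nat_lit 0) (nat_lit 82911601624) (nat_lit 1) (nat_lit 5) (nat_lit 3) (nat_lit 4) (nat_lit 1) (nat_lit 4) (nat_lit 355) (nat_lit 238) (nat_lit 187)))) (XT.nd (nat_lit 156) (nat_lit 0) (nat_lit 0) (XT.nd (nat_lit 78) (nat_lit 0) (nat_lit 0) (XT.lf (nat_lit 0) (nat_lit 93557510759) (nat_lit 152) (nat_lit 1814521538830) (nat_lit 0) (nat_lit 90929950433) (nat_lit 1) (nat_lit 5) (nat_lit 3) (nat_lit 4) (nat_lit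 1) (nat_lit 4) (nat_lit 356) (nat_lit 238) (nat_lit 186)) (XT.lf (nat_lit 0) (nat_lit 102217773514) (nat_lit 152) (nat_lit 1957013005749) (nat_lit 0) (nat_lit 99586589125) (nat_lit 1) (nat_lit 5) (nat_lit 3) (nat_lit 4) (nat_lit 1) (nat_lit 4) (nat_lit 357) (nat_lit 238) (nat_lit 185))) (XT.nd (nat_lit 78) (nat_lit 0) (nat_lit 0) (XT.lf (nat_lit 0) (nat_lit 111567356304) (nat_lit 152) (nat_lit 2110910516644) (nat_lit 0) (nat_lit 108932816300) (nat_lit 1) (nat_lit 5) (nat_lit 3) (nat_lit 4) (nat_lit 1) (nat_lit 4) (nat_lit 358) (nat_lit 238) (nat_lit 184)) (XT.lf (nat_lit 0) (nat_lit 121661664062) (nat_lit 152) (nat_lit 2277126056765) (nat_lit 0) (nat_lit 119024017008) (nat_lit 1) (nat_lit 5) (nat_lit 3) (nat_lit 4) (nat_lit 1) (nat_lit 4) (nat_lit 359) (nat_lit 238) (nat_lit 183))))) (XT.nd (nat_lit 312) (nat_lit 0) (nat_lit 0) (XT.nd (nat_lit 156) (nat_lit 0) (nat_lit 0) (XT.nd (nat_lit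 78) (nat_lit 0) (nat_lit 0) (XT.lf (nat_lit 0) (nat_lit 132560514909) (nat_lit 152) (nat_lit 2456644607092) (nat_lit 0) (nat_lit 129919990957) (nat_lit 1) (nat_lit 5) (nat_lit 3) (nat_lit 4) (nat_lit 1) (nat_lit 4) (nat_lit 360) (nat_lit 238) (nat_lit 182)) (XT.lf (nat_lit 0) (nat_lit 144328494628) (nat_lit 152) (nat_lit 2650529981254) (nat_lit 0) (nat_lit 141685306881) (nat_lit 1) (nat_lit 5) (nat_lit 3) (nat_lit 4) (nat_lit 1) (nat_lit 4) (nat_lit 361) (nat_lit 238) (nat_lit 181))) (XT.nd (nat_lit 78) (nat_lit 0) (nat_lit 0) (XT.lf (nat_lit 0) (nat_lit 157035339395) (nat_lit 152) (nat_lit 2859931129619) (nat_lit 0) (nat_lit 154389685171) (nat_lit 1) (nat_lit 5) (nat_lit 3) (nat_lit 4) (nat_lit 1) (nat_lit 4) (nat_lit 362) (nat_lit 238) (nat_lit 180)) (XT.lf (nat_lit 0) (nat_lit 170756349031) (nat_lit 152) (nat_lit 3086088947879) (nat_lit 0) (nat_lit 168108411032) (nat_lit 1) (nat_lit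 5) (nat_lit 3) (nat_lit 4) (nat_lit 1) (nat_lit 4) (nat_lit 363) (nat_lit 238) (nat_lit 179)))) (XT.nd (nat_lit 35802) (nat_lit 0) (nat_lit 228) (XT.nd (nat_lit 78) (nat_lit 0) (nat_lit 0) (XT.lf (nat_lit 0) (nat_lit 185572833222) (nat_lit 152) (nat_lit 3330343630514) (nat_lit 0) (nat_lit 182922780617) (nat_lit 1) (nat_lit 5) (nat_lit 3) (nat_lit 4) (nat_lit 1) (nat_lit 4) (nat_lit 364) (nat_lit 238) (nat_lit 178)) (XT.lf (nat_lit 0) (nat_lit 201572593356) (nat_lit 152) (nat_lit 3594142612679) (nat_lit 0) (nat_lit 198920582782) (nat_lit 1) (nat_lit 5) (nat_lit 3) (nat_lit 4) (nat_lit 1) (nat_lit 4) (nat_lit 365) (nat_lit 238) (nat_lit 177))) (XT.nd (nat_lit 78) (nat_lit 0) (nat_lit 0) (XT.lf (nat_lit 0) (nat_lit 1896524201) (nat_lit 152) (nat_lit 13175069273) (nat_lit 0) (nat_lit 1896524201) (nat_lit 4) (nat_lit 5) (nat_lit 6) (nat_lit 4) (nat_lit 4) (nat_lit 4) (nat_lit 302) (nat_lit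 239) (nat_lit 239)) (XT.lf (nat_lit 0) (nat_lit 7529310838) (nat_lit 152) (nat_lit 21525301006) (nat_lit 0) (nat_lit 7298062518) (nat_lit 4) (nat_lit 5) (nat_lit 6) (nat_lit 4) (nat_lit 4) (nat_lit 4) (nat_lit 303) (nat_lit 239) (nat_lit 238))))))))
noncomputable def xc18 : XT := (XT.nd (nat_lit 2184) (nat_lit 152) (nat_lit 0) (XT.nd (nat_lit 1092) (nat_lit 0) (nat_lit 0) (XT.nd (nat_lit 546) (nat_lit 0) (nat_lit 0) (XT.nd (nat_lit 234) (nat_lit 76) (nat_lit 0) (XT.nd (nat_lit 78) (nat_lit 0) (nat_lit 0) (XT.lf (nat_lit 0) (nat_lit 11384921085) (nat_lit 152) (nat_lit 16652505649) (nat_lit 0) (nat_lit 10939553950) (nat_lit 4) (nat_lit 5) (nat_lit 6) (nat_lit 4) (nat_lit 4) (nat_lit 4) (nat_lit 304) (nat_lit 239) (nat_lit 237)) (XT.nd (nat_lit 78) (nat_lit 0) (nat_lit 0) (XT.lf (nat_lit 0) (nat_lit 15382727202) (nat_lit 152) (nat_lit 11702876652) (nat_lit 0) (nat_lit 14739101906) (nat_lit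 4) (nat_lit 5) (nat_lit 6) (nat_lit 4) (nat_lit 4) (nat_lit 4) (nat_lit 305) (nat_lit 239) (nat_lit 236)) (XT.lf (nat_lit 0) (nat_lit 19546419894) (nat_lit 152) (nat_lit 6647082881) (nat_lit 0) (nat_lit 18719222226) (nat_lit 4) (nat_lit 5) (nat_lit 6) (nat_lit 4) (nat_lit 4) (nat_lit 4) (nat_lit 306) (nat_lit 239) (nat_lit 235)))) (XT.nd (nat_lit 156) (nat_lit 0) (nat_lit 0) (XT.nd (nat_lit 78) (nat_lit 76) (nat_lit 0) (XT.lf (nat_lit 0) (nat_lit 23900672895) (nat_lit 152) (nat_lit 1455164075) (nat_lit 0) (nat_lit 22903500809) (nat_lit 4) (nat_lit 5) (nat_lit 6) (nat_lit 4) (nat_lit 4) (nat_lit 4) (nat_lit 307) (nat_lit 239) (nat_lit 234)) (XT.lf (nat_lit 0) (nat_lit 4109205807) (nat_lit 76) (nat_lit 24460909876) (nat_lit 76) (nat_lit 23306354069) (nat_lit 3) (nat_lit 4) (nat_lit 4) (nat_lit 5) (nat_lit 4) (nat_lit 4) (nat_lit 308) (nat_lit 239) (nat_lit 233))) (XT.nd (nat_lit 78)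 (nat_lit 0) (nat_lit 0) (XT.lf (nat_lit 0) (nat_lit 9959310373) (nat_lit 76) (nat_lit 23565565179) (nat_lit 76) (nat_lit 22265283705) (nat_lit 3) (nat_lit 4) (nat_lit 4) (nat_lit 5) (nat_lit 4) (nat_lit 4) (nat_lit 309) (nat_lit 239) (nat_lit 232)) (XT.lf (nat_lit 0) (nat_lit 16053190547) (nat_lit 76) (nat_lit 22704283898) (nat_lit 76) (nat_lit 21269071250) (nat_lit 3) (nat_lit 4) (nat_lit 4) (nat_lit 5) (nat_lit 4) (nat_lit 4) (nat_lit 310) (nat_lit 239) (nat_lit 231))))) (XT.nd (nat_lit 234) (nat_lit 0) (nat_lit 0) (XT.nd (nat_lit 78) (nat_lit 0) (nat_lit 0) (XT.lf (nat_lit 0) (nat_lit 22426958211) (nat_lit 76) (nat_lit 21871962143) (nat_lit 76) (nat_lit 20311813223) (nat_lit 3) (nat_lit 4) (nat_lit 4) (nat_lit 5) (nat_lit 4) (nat_lit 4) (nat_lit 311) (nat_lit 239) (nat_lit 230)) (XT.nd (nat_lit 78) (nat_lit 0) (nat_lit 0) (XT.lf (nat_lit 0) (nat_lit 29118383840) (nat_lit 76) (nat_lit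 21063667637) (nat_lit 76) (nat_lit 19387836984) (nat_lit 3) (nat_lit 4) (nat_lit 4) (nat_lit 5) (nat_lit 4) (nat_lit 4) (nat_lit 312) (nat_lit 239) (nat_lit 229)) (XT.lf (nat_lit 0) (nat_lit 36167120326) (nat_lit 76) (nat_lit 20274610488) (nat_lit 76) (nat_lit 18491667119) (nat_lit 3) (nat_lit 4) (nat_lit 4) (nat_lit 5) (nat_lit 4) (nat_lit 4) (nat_lit 313) (nat_lit 239) (nat_lit 228)))) (XT.nd (nat_lit 156) (nat_lit 0) (nat_lit 0) (XT.nd (nat_lit 78) (nat_lit 0) (nat_lit 0) (XT.lf (nat_lit 0) (nat_lit 43614937961) (nat_lit 76) (nat_lit 19500114800) (nat_lit 76) (nat_lit 17617992991) (nat_lit 3) (nat_lit 4) (nat_lit 4) (nat_lit 5) (nat_lit 4) (nat_lit 4) (nat_lit 314) (nat_lit 239) (nat_lit 227)) (XT.lf (nat_lit 0) (nat_lit 51505971960) (nat_lit 76) (nat_lit 18735590971) (nat_lit 76) (nat_lit 16761637272) (nat_lit 3) (nat_lit 4) (nat_lit 4) (nat_lit 5) (nat_lit 4) (nat_lit 4) (nat_lit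 315) (nat_lit 239) (nat_lit 226))) (XT.nd (nat_lit 78) (nat_lit 0) (nat_lit 0) (XT.lf (nat_lit 0) (nat_lit 59886984005) (nat_lit 76) (nat_lit 17976508487) (nat_lit 76) (nat_lit 15917525261) (nat_lit 3) (nat_lit 4) (nat_lit 4) (nat_lit 5) (nat_lit 4) (nat_lit 4) (nat_lit 316) (nat_lit 239) (nat_lit 225)) (XT.lf (nat_lit 0) (nat_lit 68807639354) (nat_lit 76) (nat_lit 17218369083) (nat_lit 76) (nat_lit 15080654813) (nat_lit 3) (nat_lit 4) (nat_lit 4) (nat_lit 5) (nat_lit 4) (nat_lit 4) (nat_lit 317) (nat_lit 239) (nat_lit 224)))))) (XT.nd (nat_lit 546) (nat_lit 0) (nat_lit 0) (XT.nd (nat_lit 234) (nat_lit 0) (nat_lit 0) (XT.nd (nat_lit 78) (nat_lit 0) (nat_lit 0) (XT.lf (nat_lit 0) (nat_lit 78320801148) (nat_lit 76) (nat_lit 16456680081) (nat_lit 76) (nat_lit 14246066697) (nat_lit 3) (nat_lit 4) (nat_lit 4) (nat_lit 5) (nat_lit 4) (nat_lit 4) (nat_lit 318) (nat_lit 239) (nat_lit 223))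 (XT.nd (nat_lit 78) (nat_lit 0) (nat_lit 0) (XT.lf (nat_lit 0) (nat_lit 88482843681) (nat_lit 76) (nat_lit 15686927768) (nat_lit 76) (nat_lit 13408815203) (nat_lit 3) (nat_lit 4) (nat_lit 4) (nat_lit 5) (nat_lit 4) (nat_lit 4) (nat_lit 319) (nat_lit 239) (nat_lit 222)) (XT.lf (nat_lit 0) (nat_lit 99353986463) (nat_lit 76) (nat_lit 14904550649) (nat_lit 76) (nat_lit 12563938843) (nat_lit 3) (nat_lit 4) (nat_lit 4) (nat_lit 5) (nat_lit 4) (nat_lit 4) (nat_lit 320) (nat_lit 239) (nat_lit 221)))) (XT.nd (nat_lit 156) (nat_lit 0) (nat_lit 0) (XT.nd (nat_lit 78) (nat_lit 0) (nat_lit 0) (XT.lf (nat_lit 0) (nat_lit 110998651081) (nat_lit 76) (nat_lit 14104912414) (nat_lit 76) (nat_lit 11706430941) (nat_lit 3) (nat_lit 4) (nat_lit 4) (nat_lit 5) (nat_lit 4) (nat_lit 4) (nat_lit 321) (nat_lit 239) (nat_lit 220)) (XT.lf (nat_lit 0) (nat_lit 123485842956) (nat_lit 76) (nat_lit 13283274468) (nat_lit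 76) (nat_lit 10831209970) (nat_lit 3) (nat_lit 4) (nat_lit 4) (nat_lit 5) (nat_lit 4) (nat_lit 4) (nat_lit 322) (nat_lit 239) (nat_lit 219))) (XT.nd (nat_lit 78) (nat_lit 0) (nat_lit 0) (XT.lf (nat_lit 0) (nat_lit 136889560261) (nat_lit 76) (nat_lit 12434767845) (nat_lit 76) (nat_lit 9933089434) (nat_lit 3) (nat_lit 4) (nat_lit 4) (nat_lit 5) (nat_lit 4) (nat_lit 4) (nat_lit 323) (nat_lit 239) (nat_lit 218)) (XT.lf (nat_lit 0) (nat_lit 151289232432) (nat_lit 76) (nat_lit 11554364356) (nat_lit 76) (nat_lit 9006747137) (nat_lit 3) (nat_lit 4) (nat_lit 4) (nat_lit 5) (nat_lit 4) (nat_lit 4) (nat_lit 324) (nat_lit 239) (nat_lit 217))))) (XT.nd (nat_lit 234) (nat_lit 0) (nat_lit 0) (XT.nd (nat_lit 78) (nat_lit 0) (nat_lit 0) (XT.lf (nat_lit 0) (nat_lit 166770190860) (nat_lit 76) (nat_lit 10636846797) (nat_lit 76) (nat_lit 8046693645) (nat_lit 3) (nat_lit 4) (nat_lit 4) (nat_lit 5) (nat_lit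 4) (nat_lit 4) (nat_lit 325) (nat_lit 239) (nat_lit 216)) (XT.nd (nat_lit 78) (nat_lit 0) (nat_lit 0) (XT.lf (nat_lit 0) (nat_lit 183424174557) (nat_lit 76) (nat_lit 9676778026) (nat_lit 76) (nat_lit 7047239750) (nat_lit 3) (nat_lit 4) (nat_lit 4) (nat_lit 5) (nat_lit 4) (nat_lit 4) (nat_lit 326) (nat_lit 239) (nat_lit 215)) (XT.lf (nat_lit 0) (nat_lit 201349873799) (nat_lit 76) (nat_lit 8668468746) (nat_lit 76) (nat_lit 6002462764) (nat_lit 3) (nat_lit 4) (nat_lit 4) (nat_lit 5) (nat_lit 4) (nat_lit 4) (nat_lit 327) (nat_lit 239) (nat_lit 214)))) (XT.nd (nat_lit 156) (nat_lit 0) (nat_lit 0) (XT.nd (nat_lit 78) (nat_lit 0) (nat_lit 0) (XT.lf (nat_lit 0) (nat_lit 220653514950) (nat_lit 76) (nat_lit 7605943793) (nat_lit 76) (nat_lit 4906171415) (nat_lit 3) (nat_lit 4) (nat_lit 4) (nat_lit 5) (nat_lit 4) (nat_lit 4) (nat_lit 328) (nat_lit 239) (nat_lit 213)) (XT.lf (nat_lit 0) (nat_lit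 241449489957) (nat_lit 76) (nat_lit 6482906720) (nat_lit 76) (nat_lit 3751869162) (nat_lit 3) (nat_lit 4) (nat_lit 4) (nat_lit 5) (nat_lit 4) (nat_lit 4) (nat_lit 329) (nat_lit 239) (nat_lit 212))) (XT.nd (nat_lit 78) (nat_lit 0) (nat_lit 0) (XT.lf (nat_lit 0) (nat_lit 263861034229) (nat_lit 76) (nat_lit 5292702495) (nat_lit 76) (nat_lit 2532715695) (nat_lit 3) (nat_lit 4) (nat_lit 4) (nat_lit 5) (nat_lit 4) (nat_lit 4) (nat_lit 330) (nat_lit 239) (nat_lit 211)) (XT.lf (nat_lit 0) (nat_lit 288020956917) (nat_lit 76) (nat_lit 4028278054) (nat_lit 76) (nat_lit 1241486402) (nat_lit 3) (nat_lit 4) (nat_lit 4) (nat_lit 5) (nat_lit 4) (nat_lit 4) (nat_lit 331) (nat_lit 239) (nat_lit 210))))))) (XT.nd (nat_lit 1092) (nat_lit 0) (nat_lit 0) (XT.nd (nat_lit 546) (nat_lit 0) (nat_lit 0) (XT.nd (nat_lit 234) (nat_lit 0) (nat_lit 0) (XT.nd (nat_lit 78) (nat_lit 76) (nat_lit 0) (XT.lf (nat_lit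 0) (nat_lit 122993811) (nat_lit 152) (nat_lit 2555783832) (nat_lit 76) (nat_lit 313946071252) (nat_lit 2) (nat_lit 5) (nat_lit 4) (nat_lit 5) (nat_lit 3) (nat_lit 4) (nat_lit 332) (nat_lit 239) (nat_lit 209)) (XT.nd (nat_lit 78) (nat_lit 0) (nat_lit 0) (XT.lf (nat_lit 0) (nat_lit 319764024) (nat_lit 76) (nat_lit 1196753199) (nat_lit 152) (nat_lit 340307671779) (nat_lit 1) (nat_lit 5) (nat_lit 2) (nat_lit 5) (nat_lit 3) (nat_lit 4) (nat_lit 333) (nat_lit 239) (nat_lit 208)) (XT.lf (nat_lit 0) (nat_lit 3082373508) (nat_lit 152) (nat_lit 365514202920) (nat_lit 0) (nat_lit 438049102) (nat_lit 1) (nat_lit 5) (nat_lit 3) (nat_lit 4) (nat_lit 1) (nat_lit 4) (nat_lit 334) (nat_lit 239) (nat_lit 207)))) (XT.nd (nat_lit 156) (nat_lit 0) (nat_lit 0) (XT.nd (nat_lit 78) (nat_lit 0) (nat_lit 0) (XT.lf (nat_lit 0) (nat_lit 4785549538) (nat_lit 152) (nat_lit 391512417155) (nat_lit 0) (nat_lit 2122982199)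 (nat_lit 1) (nat_lit 5) (nat_lit 3) (nat_lit 4) (nat_lit 1) (nat_lit 4) (nat_lit 335) (nat_lit 239) (nat_lit 206)) (XT.lf (nat_lit 0) (nat_lit 6607356267) (nat_lit 152) (nat_lit 419624349230) (nat_lit 0) (nat_lit 3927897324) (nat_lit 1) (nat_lit 5) (nat_lit 3) (nat_lit 4) (nat_lit 1) (nat_lit 4) (nat_lit 336) (nat_lit 239) (nat_lit 205))) (XT.nd (nat_lit 78) (nat_lit 0) (nat_lit 0) (XT.lf (nat_lit 0) (nat_lit 8558589585) (nat_lit 152) (nat_lit 450016588374) (nat_lit 0) (nat_lit 5863490268) (nat_lit 1) (nat_lit 5) (nat_lit 3) (nat_lit 4) (nat_lit 1) (nat_lit 4) (nat_lit 337) (nat_lit 239) (nat_lit 204)) (XT.lf (nat_lit 0) (nat_lit 10650812358) (nat_lit 152) (nat_lit 482869236744) (nat_lit 0) (nat_lit 7941231212) (nat_lit 1) (nat_lit 5) (nat_lit 3) (nat_lit 4) (nat_lit 1) (nat_lit 4) (nat_lit 338) (nat_lit 239) (nat_lit 203))))) (XT.nd (nat_lit 234) (nat_lit 0) (nat_lit 0) (XT.nd (nat_lit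 78) (nat_lit 0) (nat_lit 0) (XT.lf (nat_lit 0) (nat_lit 12896422941) (nat_lit 152) (nat_lit 518376976700) (nat_lit 0) (nat_lit 10173432696) (nat_lit 1) (nat_lit 5) (nat_lit 3) (nat_lit 4) (nat_lit 1) (nat_lit 4) (nat_lit 339) (nat_lit 239) (nat_lit 202)) (XT.nd (nat_lit 78) (nat_lit 0) (nat_lit 0) (XT.lf (nat_lit 0) (nat_lit 15308728658) (nat_lit 152) (nat_lit 556750224480) (nat_lit 0) (nat_lit 12573322579) (nat_lit 1) (nat_lit 5) (nat_lit 3) (nat_lit 4) (nat_lit 1) (nat_lit 4) (nat_lit 340) (nat_lit 239) (nat_lit 201)) (XT.lf (nat_lit 0) (nat_lit 17902024653) (nat_lit 152) (nat_lit 598216377108) (nat_lit 0) (nat_lit 15155122432) (nat_lit 1) (nat_lit 5) (nat_lit 3) (nat_lit 4) (nat_lit 1) (nat_lit 4) (nat_lit 341) (nat_lit 239) (nat_lit 200)))) (XT.nd (nat_lit 156) (nat_lit 0) (nat_lit 0) (XT.nd (nat_lit 78) (nat_lit 0) (nat_lit 0) (XT.lf (nat_lit 0) (nat_lit 20691678606) (nat_lit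 152) (nat_lit 643021159932) (nat_lit 0) (nat_lit 17934131809) (nat_lit 1) (nat_lit 5) (nat_lit 3) (nat_lit 4) (nat_lit 1) (nat_lit 4) (nat_lit 342) (nat_lit 239) (nat_lit 199)) (XT.lf (nat_lit 0) (nat_lit 23694221800) (nat_lit 152) (nat_lit 691430082777) (nat_lit 0) (nat_lit 20926818913) (nat_lit 1) (nat_lit 5) (nat_lit 3) (nat_lit 4) (nat_lit 1) (nat_lit 4) (nat_lit 343) (nat_lit 239) (nat_lit 198))) (XT.nd (nat_lit 78) (nat_lit 0) (nat_lit 0) (XT.lf (nat_lit 0) (nat_lit 26927447083) (nat_lit 152) (nat_lit 743730013332) (nat_lit 0) (nat_lit 24150918188) (nat_lit 1) (nat_lit 5) (nat_lit 3) (nat_lit 4) (nat_lit 1) (nat_lit 4) (nat_lit 344) (nat_lit 239) (nat_lit 197)) (XT.lf (nat_lit 0) (nat_lit 30410514309) (nat_lit 152) (nat_lit 800230877114) (nat_lit 0) (nat_lit 27625535407) (nat_lit 1) (nat_lit 5) (nat_lit 3) (nat_lit 4) (nat_lit 1) (nat_lit 4) (nat_lit 345) (nat_lit 239) (nat_lit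 196)))))) (XT.nd (nat_lit 546) (nat_lit 0) (nat_lit 0) (XT.nd (nat_lit 234) (nat_lit 0) (nat_lit 0) (XT.nd (nat_lit 78) (nat_lit 0) (nat_lit 0) (XT.lf (nat_lit 0) (nat_lit 34164063876) (nat_lit 152) (nat_lit 861267494055) (nat_lit 0) (nat_lit 31371260893) (nat_lit 1) (nat_lit 5) (nat_lit 3) (nat_lit 4) (nat_lit 1) (nat_lit 4) (nat_lit 346) (nat_lit 239) (nat_lit 195)) (XT.nd (nat_lit 78) (nat_lit 0) (nat_lit 0) (XT.lf (nat_lit 0) (nat_lit 38210339041) (nat_lit 152) (nat_lit 927201562627) (nat_lit 0) (nat_lit 35410291538) (nat_lit 1) (nat_lit 5) (nat_lit 3) (nat_lit 4) (nat_lit 1) (nat_lit 4) (nat_lit 347) (nat_lit 239) (nat_lit 194)) (XT.lf (nat_lit 0) (nat_lit 42573317731) (nat_lit 152) (nat_lit 998423803234) (nat_lit 0) (nat_lit 39766562340) (nat_lit 1) (nat_lit 5) (nat_lit 3) (nat_lit 4) (nat_lit 1) (nat_lit 4) (nat_lit 348) (nat_lit 239) (nat_lit 193)))) (XT.nd (nat_lit 156) (nat_lit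 0) (nat_lit 0) (XT.nd (nat_lit 78) (nat_lit 0) (nat_lit 0) (XT.lf (nat_lit 0) (nat_lit 47278854634) (nat_lit 152) (nat_lit 1075356273601) (nat_lit 0) (nat_lit 44465888235) (nat_lit 1) (nat_lit 5) (nat_lit 3) (nat_lit 4) (nat_lit 1) (nat_lit 4) (nat_lit 349) (nat_lit 239) (nat_lit 192)) (XT.lf (nat_lit 0) (nat_lit 52354834414) (nat_lit 152) (nat_lit 1158454869846) (nat_lit 0) (nat_lit 49536117082) (nat_lit 1) (nat_lit 5) (nat_lit 3) (nat_lit 4) (nat_lit 1) (nat_lit 4) (nat_lit 350) (nat_lit 239) (nat_lit 191))) (XT.nd (nat_lit 78) (nat_lit 0) (nat_lit 0) (XT.lf (nat_lit 0) (nat_lit 57831336951) (nat_lit 152) (nat_lit 1248212028097) (nat_lit 0) (nat_lit 55007294680) (nat_lit 1) (nat_lit 5) (nat_lit 3) (nat_lit 4) (nat_lit 1) (nat_lit 4) (nat_lit 351) (nat_lit 239) (nat_lit 190)) (XT.lf (nat_lit 0) (nat_lit 63740815592) (nat_lit 152) (nat_lit 1345159642624) (nat_lit 0) (nat_lit 60911842824)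 (nat_lit 1) (nat_lit 5) (nat_lit 3) (nat_lit 4) (nat_lit 1) (nat_lit 4) (nat_lit 352) (nat_lit 239) (nat_lit 189))))) (XT.nd (nat_lit 234) (nat_lit 0) (nat_lit 0) (XT.nd (nat_lit 78) (nat_lit 0) (nat_lit 0) (XT.lf (nat_lit 0) (nat_lit 70118289472) (nat_lit 152) (nat_lit 1449872217810) (nat_lit 0) (nat_lit 67284751427) (nat_lit 1) (nat_lit 5) (nat_lit 3) (nat_lit 4) (nat_lit 1) (nat_lit 4) (nat_lit 353) (nat_lit 239) (nat_lit 188)) (XT.nd (nat_lit 78) (nat_lit 0) (nat_lit 0) (XT.lf (nat_lit 0) (nat_lit 77001551027) (nat_lit 152) (nat_lit 1562970272619) (nat_lit 0) (nat_lit 74163785874) (nat_lit 1) (nat_lit 5) (nat_lit 3) (nat_lit 4) (nat_lit 1) (nat_lit 4) (nat_lit 354) (nat_lit 239) (nat_lit 187)) (XT.lf (nat_lit 0) (nat_lit 84431389955) (nat_lit 152) (nat_lit 1685124017745) (nat_lit 0) (nat_lit 81589710814) (nat_lit 1) (nat_lit 5) (nat_lit 3) (nat_lit 4) (nat_lit 1) (nat_lit 4) (nat_lit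 355) (nat_lit 239) (nat_lit 186)))) (XT.nd (nat_lit 156) (nat_lit 0) (nat_lit 0) (XT.nd (nat_lit 78) (nat_lit 0) (nat_lit 0) (XT.lf (nat_lit 0) (nat_lit 92451834932) (nat_lit 152) (nat_lit 1817057327235) (nat_lit 0) (nat_lit 89606531728) (nat_lit 1) (nat_lit 5) (nat_lit 3) (nat_lit 4) (nat_lit 1) (nat_lit 4) (nat_lit 356) (nat_lit 239) (nat_lit 185)) (XT.lf (nat_lit 0) (nat_lit 101110414521) (nat_lit 152) (nat_lit 1959552028107) (nat_lit 0) (nat_lit 98261755703) (nat_lit 1) (nat_lit 5) (nat_lit 3) (nat_lit 4) (nat_lit 1) (nat_lit 4) (nat_lit 357) (nat_lit 239) (nat_lit 184))) (XT.nd (nat_lit 78) (nat_lit 0) (nat_lit 0) (XT.lf (nat_lit 0) (nat_lit 110458438823) (nat_lit 152) (nat_lit 2113452533403) (nat_lit 0) (nat_lit 107606672954) (nat_lit 1) (nat_lit 5) (nat_lit 3) (nat_lit 4) (nat_lit 1) (nat_lit 4) (nat_lit 358) (nat_lit 239) (nat_lit 183)) (XT.lf (nat_lit 0) (nat_lit 120551303537)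 (nat_lit 152) (nat_lit 2279670846118) (nat_lit 0) (nat_lit 117696660770) (nat_lit 1) (nat_lit 5) (nat_lit 3) (nat_lit 4) (nat_lit 1) (nat_lit 4) (nat_lit 359) (nat_lit 239) (nat_lit 182))))))))
noncomputable def xc19 : XT := (XT.nd (nat_lit 37674) (nat_lit 0) (nat_lit 0) (XT.nd (nat_lit 36582) (nat_lit 0) (nat_lit 152) (XT.nd (nat_lit 36036) (nat_lit 0) (nat_lit 228) (XT.nd (nat_lit 234) (nat_lit 0) (nat_lit 0) (XT.nd (nat_lit 78) (nat_lit 0) (nat_lit 0) (XT.lf (nat_lit 0) (nat_lit 131448818233) (nat_lit 152) (nat_lit 2459191963661) (nat_lit 0) (nat_lit 128591511671) (nat_lit 1) (nat_lit 5) (nat_lit 3) (nat_lit 4) (nat_lit 1) (nat_lit 4) (nat_lit 360) (nat_lit 239) (nat_lit 181)) (XT.nd (nat_lit 78) (nat_lit 0) (nat_lit 0) (XT.lf (nat_lit 0) (nat_lit 143215560774) (nat_lit 152) (nat_lit 2653079714876) (nat_lit 0) (nat_lit 140355787735) (nat_lit 1) (nat_lit 5) (nat_lit 3) (nat_lit 4)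 (nat_lit 1) (nat_lit 4) (nat_lit 361) (nat_lit 239) (nat_lit 180)) (XT.lf (nat_lit 0) (nat_lit 155921260006) (nat_lit 152) (nat_lit 2862483064215) (nat_lit 0) (nat_lit 153059203192) (nat_lit 1) (nat_lit 5) (nat_lit 3) (nat_lit 4) (nat_lit 1) (nat_lit 4) (nat_lit 362) (nat_lit 239) (nat_lit 179)))) (XT.nd (nat_lit 156) (nat_lit 0) (nat_lit 0) (XT.nd (nat_lit 78) (nat_lit 0) (nat_lit 0) (XT.lf (nat_lit 0) (nat_lit 169641208961) (nat_lit 152) (nat_lit 3088642920414) (nat_lit 0) (nat_lit 166777037541) (nat_lit 1) (nat_lit 5) (nat_lit 3) (nat_lit 4) (nat_lit 1) (nat_lit 4) (nat_lit 363) (nat_lit 239) (nat_lit 178)) (XT.lf (nat_lit 0) (nat_lit 184456711040) (nat_lit 152) (nat_lit 3332899490030) (nat_lit 0) (nat_lit 181590581652) (nat_lit 1) (nat_lit 5) (nat_lit 3) (nat_lit 4) (nat_lit 1) (nat_lit 4) (nat_lit 364) (nat_lit 239) (nat_lit 177))) (XT.nd (nat_lit 35568) (nat_lit 0) (nat_lit 380)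 (XT.lf (nat_lit 0) (nat_lit 200455561812) (nat_lit 152) (nat_lit 3596700219400) (nat_lit 0) (nat_lit 197587619490) (nat_lit 1) (nat_lit 5) (nat_lit 3) (nat_lit 4) (nat_lit 1) (nat_lit 4) (nat_lit 365) (nat_lit 239) (nat_lit 176)) (XT.lf (nat_lit 0) (nat_lit 11837860187) (nat_lit 76) (nat_lit 1490770764) (nat_lit 76) (nat_lit 1490770764) (nat_lit 6) (nat_lit 4) (nat_lit 7) (nat_lit 5) (nat_lit 7) (nat_lit 4) (nat_lit 300) (nat_lit 240) (nat_lit 240))))) (XT.nd (nat_lit 234) (nat_lit 0) (nat_lit 0) (XT.nd (nat_lit 78) (nat_lit 0) (nat_lit 0) (XT.lf (nat_lit 0) (nat_lit 403741148) (nat_lit 152) (nat_lit 31155609901) (nat_lit 0) (nat_lit 153992963) (nat_lit 4) (nat_lit 5) (nat_lit 6) (nat_lit 4) (nat_lit 4) (nat_lit 4) (nat_lit 301) (nat_lit 240) (nat_lit 239)) (XT.nd (nat_lit 78) (nat_lit 0) (nat_lit 0) (XT.lf (nat_lit 0) (nat_lit 3949567050) (nat_lit 152) (nat_lit 26525653701) (nat_lit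 0) (nat_lit 3468570545) (nat_lit 4) (nat_lit 5) (nat_lit 6) (nat_lit 4) (nat_lit 4) (nat_lit 4) (nat_lit 302) (nat_lit 240) (nat_lit 238)) (XT.lf (nat_lit 0) (nat_lit 7599505839) (nat_lit 152) (nat_lit 21863330193) (nat_lit 0) (nat_lit 6904390520) (nat_lit 4) (nat_lit 5) (nat_lit 6) (nat_lit 4) (nat_lit 4) (nat_lit 4) (nat_lit 303) (nat_lit 240) (nat_lit 237)))) (XT.nd (nat_lit 156) (nat_lit 0) (nat_lit 0) (XT.nd (nat_lit 78) (nat_lit 0) (nat_lit 0) (XT.lf (nat_lit 0) (nat_lit 11375186784) (nat_lit 152) (nat_lit 17141010792) (nat_lit 0) (nat_lit 10481813302) (nat_lit 4) (nat_lit 5) (nat_lit 6) (nat_lit 4) (nat_lit 4) (nat_lit 4) (nat_lit 304) (nat_lit 240) (nat_lit 236)) (XT.lf (nat_lit 0) (nat_lit 15298984288) (nat_lit 152) (nat_lit 12330711385) (nat_lit 0) (nat_lit 14222038435) (nat_lit 4) (nat_lit 5) (nat_lit 6) (nat_lit 4) (nat_lit 4) (nat_lit 4) (nat_lit 305) (nat_lit 240) (nat_lit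 235))) (XT.nd (nat_lit 78) (nat_lit 0) (nat_lit 0) (XT.lf (nat_lit 0) (nat_lit 19394150487) (nat_lit 152) (nat_lit 7403926492) (nat_lit 0) (nat_lit 18147230215) (nat_lit 4) (nat_lit 5) (nat_lit 6) (nat_lit 4) (nat_lit 4) (nat_lit 4) (nat_lit 306) (nat_lit 240) (nat_lit 234)) (XT.lf (nat_lit 0) (nat_lit 23684953031) (nat_lit 152) (nat_lit 2331460351) (nat_lit 0) (nat_lit 22280649038) (nat_lit 4) (nat_lit 5) (nat_lit 6) (nat_lit 4) (nat_lit 4) (nat_lit 4) (nat_lit 307) (nat_lit 240) (nat_lit 233)))))) (XT.nd (nat_lit 546) (nat_lit 0) (nat_lit 0) (XT.nd (nat_lit 234) (nat_lit 0) (nat_lit 0) (XT.nd (nat_lit 78) (nat_lit 0) (nat_lit 0) (XT.lf (nat_lit 0) (nat_lit 3070336775) (nat_lit 76) (nat_lit 25200323796) (nat_lit 76) (nat_lit 23650294136) (nat_lit 3) (nat_lit 4) (nat_lit 4) (nat_lit 5) (nat_lit 4) (nat_lit 4) (nat_lit 308) (nat_lit 240) (nat_lit 232)) (XT.nd (nat_lit 78) (nat_lit 0)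 (nat_lit 0) (XT.lf (nat_lit 0) (nat_lit 8812637130) (nat_lit 76) (nat_lit 24355792076) (nat_lit 76) (nat_lit 22670831242) (nat_lit 3) (nat_lit 4) (nat_lit 4) (nat_lit 5) (nat_lit 4) (nat_lit 4) (nat_lit 309) (nat_lit 240) (nat_lit 231)) (XT.lf (nat_lit 0) (nat_lit 14806698591) (nat_lit 76) (nat_lit 23541559846) (nat_lit 76) (nat_lit 21731662741) (nat_lit 3) (nat_lit 4) (nat_lit 4) (nat_lit 5) (nat_lit 4) (nat_lit 4) (nat_lit 310) (nat_lit 240) (nat_lit 230)))) (XT.nd (nat_lit 156) (nat_lit 0) (nat_lit 0) (XT.nd (nat_lit 78) (nat_lit 0) (nat_lit 0) (XT.lf (nat_lit 0) (nat_lit 21088041520) (nat_lit 76) (nat_lit 22752802029) (nat_lit 76) (nat_lit 20827223191) (nat_lit 3) (nat_lit 4) (nat_lit 4) (nat_lit 5) (nat_lit 4) (nat_lit 4) (nat_lit 311) (nat_lit 240) (nat_lit 229)) (XT.lf (nat_lit 0) (nat_lit 27693888691) (nat_lit 76) (nat_lit 21984844503) (nat_lit 76) (nat_lit 19952152948) (nat_lit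 3) (nat_lit 4) (nat_lit 4) (nat_lit 5) (nat_lit 4) (nat_lit 4) (nat_lit 312) (nat_lit 240) (nat_lit 228))) (XT.nd (nat_lit 78) (nat_lit 0) (nat_lit 0) (XT.lf (nat_lit 0) (nat_lit 34663385865) (nat_lit 76) (nat_lit 21233136408) (nat_lit 76) (nat_lit 19101266413) (nat_lit 3) (nat_lit 4) (nat_lit 4) (nat_lit 5) (nat_lit 4) (nat_lit 4) (nat_lit 313) (nat_lit 240) (nat_lit 227)) (XT.lf (nat_lit 0) (nat_lit 42037833765) (nat_lit 76) (nat_lit 20493223178) (nat_lit 76) (nat_lit 18269521294) (nat_lit 3) (nat_lit 4) (nat_lit 4) (nat_lit 5) (nat_lit 4) (nat_lit 4) (nat_lit 314) (nat_lit 240) (nat_lit 226))))) (XT.nd (nat_lit 234) (nat_lit 0) (nat_lit 0) (XT.nd (nat_lit 78) (nat_lit 0) (nat_lit 0) (XT.lf (nat_lit 0) (nat_lit 49860932825) (nat_lit 76) (nat_lit 19760720143) (nat_lit 76) (nat_lit 17451988732) (nat_lit 3) (nat_lit 4) (nat_lit 4) (nat_lit 5) (nat_lit 4) (nat_lit 4) (nat_lit 315) (nat_lit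 240) (nat_lit 225)) (XT.nd (nat_lit 78) (nat_lit 0) (nat_lit 0) (XT.lf (nat_lit 0) (nat_lit 58179042149) (nat_lit 76) (nat_lit 19031286543) (nat_lit 76) (nat_lit 16643824088) (nat_lit 3) (nat_lit 4) (nat_lit 4) (nat_lit 5) (nat_lit 4) (nat_lit 4) (nat_lit 316) (nat_lit 240) (nat_lit 224)) (XT.lf (nat_lit 0) (nat_lit 67041454237) (nat_lit 76) (nat_lit 18300599810) (nat_lit 76) (nat_lit 15840238240) (nat_lit 3) (nat_lit 4) (nat_lit 4) (nat_lit 5) (nat_lit 4) (nat_lit 4) (nat_lit 317) (nat_lit 240) (nat_lit 223)))) (XT.nd (nat_lit 156) (nat_lit 0) (nat_lit 0) (XT.nd (nat_lit 78) (nat_lit 0) (nat_lit 0) (XT.lf (nat_lit 0) (nat_lit 76500687086) (nat_lit 76) (nat_lit 17564329947) (nat_lit 76) (nat_lit 15036469197) (nat_lit 3) (nat_lit 4) (nat_lit 4) (nat_lit 5) (nat_lit 4) (nat_lit 4) (nat_lit 318) (nat_lit 240) (nat_lit 222)) (XT.lf (nat_lit 0) (nat_lit 86612795411) (nat_lit 76) (nat_lit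 16818113873) (nat_lit 76) (nat_lit 14227753882) (nat_lit 3) (nat_lit 4) (nat_lit 4) (nat_lit 5) (nat_lit 4) (nat_lit 4) (nat_lit 319) (nat_lit 240) (nat_lit 221))) (XT.nd (nat_lit 78) (nat_lit 0) (nat_lit 0) (XT.lf (nat_lit 0) (nat_lit 97437702815) (nat_lit 76) (nat_lit 16057529569) (nat_lit 76) (nat_lit 13409299910) (nat_lit 3) (nat_lit 4) (nat_lit 4) (nat_lit 5) (nat_lit 4) (nat_lit 4) (nat_lit 320) (nat_lit 240) (nat_lit 220)) (XT.lf (nat_lit 0) (nat_lit 109039556898) (nat_lit 76) (nat_lit 15278069867) (nat_lit 76) (nat_lit 12576257183) (nat_lit 3) (nat_lit 4) (nat_lit 4) (nat_lit 5) (nat_lit 4) (nat_lit 4) (nat_lit 321) (nat_lit 240) (nat_lit 219))))))) (XT.nd (nat_lit 1092) (nat_lit 0) (nat_lit 0) (XT.nd (nat_lit 546) (nat_lit 152) (nat_lit 0) (XT.nd (nat_lit 234) (nat_lit 0) (nat_lit 0) (XT.nd (nat_lit 78) (nat_lit 0) (nat_lit 0) (XT.lf (nat_lit 0) (nat_lit 121487109388) (nat_lit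 76) (nat_lit 14475115747) (nat_lit 76) (nat_lit 11723689150) (nat_lit 3) (nat_lit 4) (nat_lit 4) (nat_lit 5) (nat_lit 4) (nat_lit 4) (nat_lit 322) (nat_lit 240) (nat_lit 218)) (XT.nd (nat_lit 78) (nat_lit 0) (nat_lit 0) (XT.lf (nat_lit 0) (nat_lit 134854123559) (nat_lit 76) (nat_lit 13643908962) (nat_lit 76) (nat_lit 10846543558) (nat_lit 3) (nat_lit 4) (nat_lit 4) (nat_lit 5) (nat_lit 4) (nat_lit 4) (nat_lit 323) (nat_lit 240) (nat_lit 217)) (XT.lf (nat_lit 0) (nat_lit 149219811347) (nat_lit 76) (nat_lit 12779523843) (nat_lit 76) (nat_lit 9939622505) (nat_lit 3) (nat_lit 4) (nat_lit 4) (nat_lit 5) (nat_lit 4) (nat_lit 4) (nat_lit 324) (nat_lit 240) (nat_lit 216)))) (XT.nd (nat_lit 156) (nat_lit 0) (nat_lit 0) (XT.nd (nat_lit 78) (nat_lit 0) (nat_lit 0) (XT.lf (nat_lit 0) (nat_lit 164669302754) (nat_lit 76) (nat_lit 11876838107) (nat_lit 76) (nat_lit 8997551646) (nat_lit 3) (nat_lit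 4) (nat_lit 4) (nat_lit 5) (nat_lit 4) (nat_lit 4) (nat_lit 325) (nat_lit 240) (nat_lit 215)) (XT.lf (nat_lit 0) (nat_lit 181294150321) (nat_lit 76) (nat_lit 10930502506) (nat_lit 76) (nat_lit 8014748338) (nat_lit 3) (nat_lit 4) (nat_lit 4) (nat_lit 5) (nat_lit 4) (nat_lit 4) (nat_lit 326) (nat_lit 240) (nat_lit 214))) (XT.nd (nat_lit 78) (nat_lit 0) (nat_lit 0) (XT.lf (nat_lit 0) (nat_lit 199192871663) (nat_lit 76) (nat_lit 9934909124) (nat_lit 76) (nat_lit 6985388562) (nat_lit 3) (nat_lit 4) (nat_lit 4) (nat_lit 5) (nat_lit 4) (nat_lit 4) (nat_lit 327) (nat_lit 240) (nat_lit 213)) (XT.lf (nat_lit 0) (nat_lit 218471533278) (nat_lit 76) (nat_lit 8884158150) (nat_lit 76) (nat_lit 5903372407) (nat_lit 3) (nat_lit 4) (nat_lit 4) (nat_lit 5) (nat_lit 4) (nat_lit 4) (nat_lit 328) (nat_lit 240) (nat_lit 212))))) (XT.nd (nat_lit 234) (nat_lit 152) (nat_lit 0) (XT.nd (nat_lit 78) (nat_lit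 0) (nat_lit 0) (XT.lf (nat_lit 0) (nat_lit 239244379085) (nat_lit 76) (nat_lit 7772022911) (nat_lit 76) (nat_lit 4762287926) (nat_lit 3) (nat_lit 4) (nat_lit 4) (nat_lit 5) (nat_lit 4) (nat_lit 4) (nat_lit 329) (nat_lit 240) (nat_lit 211)) (XT.nd (nat_lit 78) (nat_lit 0) (nat_lit 0) (XT.lf (nat_lit 0) (nat_lit 261634507431) (nat_lit 76) (nat_lit 6591912975) (nat_lit 76) (nat_lit 3555373137) (nat_lit 3) (nat_lit 4) (nat_lit 4) (nat_lit 5) (nat_lit 4) (nat_lit 4) (nat_lit 330) (nat_lit 240) (nat_lit 210)) (XT.lf (nat_lit 0) (nat_lit 285774600558) (nat_lit 76) (nat_lit 5336835100) (nat_lit 76) (nat_lit 2275475953) (nat_lit 3) (nat_lit 4) (nat_lit 4) (nat_lit 5) (nat_lit 4) (nat_lit 4) (nat_lit 331) (nat_lit 240) (nat_lit 209)))) (XT.nd (nat_lit 156) (nat_lit 76) (nat_lit 0) (XT.nd (nat_lit 78) (nat_lit 76) (nat_lit 0) (XT.lf (nat_lit 0) (nat_lit 311807710869) (nat_lit 76) (nat_lit 3999351785)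 (nat_lit 76) (nat_lit 915011797) (nat_lit 3) (nat_lit 4) (nat_lit 4) (nat_lit 5) (nat_lit 4) (nat_lit 4) (nat_lit 332) (nat_lit 240) (nat_lit 208)) (XT.lf (nat_lit 0) (nat_lit 507364427) (nat_lit 152) (nat_lit 2050300534) (nat_lit 76) (nat_lit 339366871977) (nat_lit 2) (nat_lit 5) (nat_lit 4) (nat_lit 5) (nat_lit 3) (nat_lit 4) (nat_lit 333) (nat_lit 240) (nat_lit 207))) (XT.nd (nat_lit 78) (nat_lit 0) (nat_lit 0) (XT.lf (nat_lit 0) (nat_lit 1037317835) (nat_lit 76) (nat_lit 963950792) (nat_lit 152) (nat_lit 367139468703) (nat_lit 1) (nat_lit 5) (nat_lit 2) (nat_lit 5) (nat_lit 3) (nat_lit 4) (nat_lit 334) (nat_lit 240) (nat_lit 206)) (XT.lf (nat_lit 0) (nat_lit 3672788838) (nat_lit 152) (nat_lit 394094729875) (nat_lit 0) (nat_lit 762081574) (nat_lit 1) (nat_lit 5) (nat_lit 3) (nat_lit 4) (nat_lit 1) (nat_lit 4) (nat_lit 335) (nat_lit 240) (nat_lit 205)))))) (XT.nd (nat_lit 546) (nat_lit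 0) (nat_lit 0) (XT.nd (nat_lit 234) (nat_lit 0) (nat_lit 0) (XT.nd (nat_lit 78) (nat_lit 0) (nat_lit 0) (XT.lf (nat_lit 0) (nat_lit 5486750399) (nat_lit 152) (nat_lit 422221735269) (nat_lit 0) (nat_lit 2560402761) (nat_lit 1) (nat_lit 5) (nat_lit 3) (nat_lit 4) (nat_lit 1) (nat_lit 4) (nat_lit 336) (nat_lit 240) (nat_lit 204)) (XT.nd (nat_lit 78) (nat_lit 0) (nat_lit 0) (XT.lf (nat_lit 0) (nat_lit 7430719673) (nat_lit 152) (nat_lit 452627931189) (nat_lit 0) (nat_lit 4489890208) (nat_lit 1) (nat_lit 5) (nat_lit 3) (nat_lit 4) (nat_lit 1) (nat_lit 4) (nat_lit 337) (nat_lit 240) (nat_lit 203)) (XT.lf (nat_lit 0) (nat_lit 9516216479) (nat_lit 152) (nat_lit 485493502499) (nat_lit 0) (nat_lit 6561977913) (nat_lit 1) (nat_lit 5) (nat_lit 3) (nat_lit 4) (nat_lit 1) (nat_lit 4) (nat_lit 338) (nat_lit 240) (nat_lit 202)))) (XT.nd (nat_lit 156) (nat_lit 0) (nat_lit 0) (XT.nd (nat_lit 78) (nat_lit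 0) (nat_lit 0) (XT.lf (nat_lit 0) (nat_lit 11755599316) (nat_lit 152) (nat_lit 521013208142) (nat_lit 0) (nat_lit 8788944917) (nat_lit 1) (nat_lit 5) (nat_lit 3) (nat_lit 4) (nat_lit 1) (nat_lit 4) (nat_lit 339) (nat_lit 240) (nat_lit 201)) (XT.lf (nat_lit 0) (nat_lit 14162138600) (nat_lit 152) (nat_lit 559397535261) (nat_lit 0) (nat_lit 11183988059) (nat_lit 1) (nat_lit 5) (nat_lit 3) (nat_lit 4) (nat_lit 1) (nat_lit 4) (nat_lit 340) (nat_lit 240) (nat_lit 200))) (XT.nd (nat_lit 78) (nat_lit 0) (nat_lit 0) (XT.lf (nat_lit 0) (nat_lit 16750095306) (nat_lit 152) (nat_lit 600873946536) (nat_lit 0) (nat_lit 13761300189) (nat_lit 1) (nat_lit 5) (nat_lit 3) (nat_lit 4) (nat_lit 1) (nat_lit 4) (nat_lit 341) (nat_lit 240) (nat_lit 199)) (XT.lf (nat_lit 0) (nat_lit 19534805472) (nat_lit 152) (nat_lit 645688228107) (nat_lit 0) (nat_lit 16536154266) (nat_lit 1) (nat_lit 5) (nat_lit 3) (nat_lit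 4) (nat_lit 1) (nat_lit 4) (nat_lit 342) (nat_lit 240) (nat_lit 198))))) (XT.nd (nat_lit 312) (nat_lit 0) (nat_lit 0) (XT.nd (nat_lit 156) (nat_lit 0) (nat_lit 0) (XT.nd (nat_lit 78) (nat_lit 0) (nat_lit 0) (XT.lf (nat_lit 0) (nat_lit 22532771086) (nat_lit 152) (nat_lit 694105946088) (nat_lit 0) (nat_lit 19524993872) (nat_lit 1) (nat_lit 5) (nat_lit 3) (nat_lit 4) (nat_lit 1) (nat_lit 4) (nat_lit 343) (nat_lit 240) (nat_lit 197)) (XT.lf (nat_lit 0) (nat_lit 25761757869) (nat_lit 152) (nat_lit 746414020289) (nat_lit 0) (nat_lit 22745530648) (nat_lit 1) (nat_lit 5) (nat_lit 3) (nat_lit 4) (nat_lit 1) (nat_lit 4) (nat_lit 344) (nat_lit 240) (nat_lit 196))) (XT.nd (nat_lit 78) (nat_lit 0) (nat_lit 0) (XT.lf (nat_lit 0) (nat_lit 29240900559) (nat_lit 152) (nat_lit 802922424483) (nat_lit 0) (nat_lit 26216849256) (nat_lit 1) (nat_lit 5) (nat_lit 3) (nat_lit 4) (nat_lit 1) (nat_lit 4) (nat_lit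 345) (nat_lit 240) (nat_lit 195)) (XT.lf (nat_lit 0) (nat_lit 32990816295) (nat_lit 152) (nat_lit 863966023287) (nat_lit 0) (nat_lit 29959520473) (nat_lit 1) (nat_lit 5) (nat_lit 3) (nat_lit 4) (nat_lit 1) (nat_lit 4) (nat_lit 346) (nat_lit 240) (nat_lit 194)))) (XT.nd (nat_lit 156) (nat_lit 0) (nat_lit 0) (XT.nd (nat_lit 78) (nat_lit 0) (nat_lit 0) (XT.lf (nat_lit 0) (nat_lit 37033726802) (nat_lit 152) (nat_lit 929906556546) (nat_lit 0) (nat_lit 33995723091) (nat_lit 1) (nat_lit 5) (nat_lit 3) (nat_lit 4) (nat_lit 1) (nat_lit 4) (nat_lit 347) (nat_lit 240) (nat_lit 193)) (XT.lf (nat_lit 0) (nat_lit 41393590068) (nat_lit 152) (nat_lit 1001134782976) (nat_lit 0) (nat_lit 38349375350) (nat_lit 1) (nat_lit 5) (nat_lit 3) (nat_lit 4) (nat_lit 1) (nat_lit 4) (nat_lit 348) (nat_lit 240) (nat_lit 192))) (XT.nd (nat_lit 78) (nat_lit 0) (nat_lit 0) (XT.lf (nat_lit 0) (nat_lit 46096242320) (nat_lit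 152) (nat_lit 1078072795770) (nat_lit 0) (nat_lit 43046276668) (nat_lit 1) (nat_lit 5) (nat_lit 3) (nat_lit 4) (nat_lit 1) (nat_lit 4) (nat_lit 349) (nat_lit 240) (nat_lit 191)) (XT.lf (nat_lit 0) (nat_lit 51169551126) (nat_lit 152) (nat_lit 1161176523893) (nat_lit 0) (nat_lit 48114260536) (nat_lit 1) (nat_lit 5) (nat_lit 3) (nat_lit 4) (nat_lit 1) (nat_lit 4) (nat_lit 350) (nat_lit 240) (nat_lit 190))))))))
noncomputable def xc20 : XT := (XT.nd (nat_lit 37518) (nat_lit 0) (nat_lit 0) (XT.nd (nat_lit 1092) (nat_lit 0) (nat_lit 0) (XT.nd (nat_lit 546) (nat_lit 0) (nat_lit 0) (XT.nd (nat_lit 234) (nat_lit 0) (nat_lit 0) (XT.nd (nat_lit 78) (nat_lit 0) (nat_lit 0) (XT.lf (nat_lit 0) (nat_lit 56643580539) (nat_lit 152) (nat_lit 1250938433883) (nat_lit 0) (nat_lit 53583359450) (nat_lit 1) (nat_lit 5) (nat_lit 3) (nat_lit 4) (nat_lit 1) (nat_lit 4) (nat_lit 351) (nat_lit 240) (nat_lit 189))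 (XT.nd (nat_lit 78) (nat_lit 0) (nat_lit 0) (XT.lf (nat_lit 0) (nat_lit 62550769251) (nat_lit 152) (nat_lit 1347890448168) (nat_lit 0) (nat_lit 59485982886) (nat_lit 1) (nat_lit 5) (nat_lit 3) (nat_lit 4) (nat_lit 1) (nat_lit 4) (nat_lit 352) (nat_lit 240) (nat_lit 188)) (XT.lf (nat_lit 0) (nat_lit 68926122825) (nat_lit 152) (nat_lit 1452607097204) (nat_lit 0) (nat_lit 65857109352) (nat_lit 1) (nat_lit 5) (nat_lit 3) (nat_lit 4) (nat_lit 1) (nat_lit 4) (nat_lit 353) (nat_lit 240) (nat_lit 187)))) (XT.nd (nat_lit 156) (nat_lit 0) (nat_lit 0) (XT.nd (nat_lit 78) (nat_lit 0) (nat_lit 0) (XT.lf (nat_lit 0) (nat_lit 75807421134) (nat_lit 152) (nat_lit 1565708924095) (nat_lit 0) (nat_lit 72734493673) (nat_lit 1) (nat_lit 5) (nat_lit 3) (nat_lit 4) (nat_lit 1) (nat_lit 4) (nat_lit 354) (nat_lit 240) (nat_lit 186)) (XT.lf (nat_lit 0) (nat_lit 83235442243) (nat_lit 152) (nat_lit 1687866161892)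 (nat_lit 0) (nat_lit 80158890718) (nat_lit 1) (nat_lit 5) (nat_lit 3) (nat_lit 4) (nat_lit 1) (nat_lit 4) (nat_lit 355) (nat_lit 240) (nat_lit 185))) (XT.nd (nat_lit 78) (nat_lit 0) (nat_lit 0) (XT.lf (nat_lit 0) (nat_lit 91254204053) (nat_lit 152) (nat_lit 1819802705335) (nat_lit 0) (nat_lit 88174296915) (nat_lit 1) (nat_lit 5) (nat_lit 3) (nat_lit 4) (nat_lit 1) (nat_lit 4) (nat_lit 356) (nat_lit 240) (nat_lit 184)) (XT.lf (nat_lit 0) (nat_lit 99911225154) (nat_lit 152) (nat_lit 1962300400608) (nat_lit 0) (nat_lit 96828210966) (nat_lit 1) (nat_lit 5) (nat_lit 3) (nat_lit 4) (nat_lit 1) (nat_lit 4) (nat_lit 357) (nat_lit 240) (nat_lit 183))))) (XT.nd (nat_lit 234) (nat_lit 0) (nat_lit 0) (XT.nd (nat_lit 78) (nat_lit 0) (nat_lit 0) (XT.lf (nat_lit 0) (nat_lit 109257806412) (nat_lit 152) (nat_lit 2116203678498) (nat_lit 0) (nat_lit 106171915325) (nat_lit 1) (nat_lit 5) (nat_lit 3) (nat_lit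 4) (nat_lit 1) (nat_lit 4) (nat_lit 358) (nat_lit 240) (nat_lit 182)) (XT.nd (nat_lit 78) (nat_lit 0) (nat_lit 0) (XT.lf (nat_lit 0) (nat_lit 119349334974) (nat_lit 152) (nat_lit 2282424558430) (nat_lit 0) (nat_lit 116260780093) (nat_lit 1) (nat_lit 5) (nat_lit 3) (nat_lit 4) (nat_lit 1) (nat_lit 4) (nat_lit 359) (nat_lit 240) (nat_lit 181)) (XT.lf (nat_lit 0) (nat_lit 130245612492) (nat_lit 152) (nat_lit 2461948053025) (nat_lit 0) (nat_lit 127154591133) (nat_lit 1) (nat_lit 5) (nat_lit 3) (nat_lit 4) (nat_lit 1) (nat_lit 4) (nat_lit 360) (nat_lit 240) (nat_lit 180)))) (XT.nd (nat_lit 156) (nat_lit 0) (nat_lit 0) (XT.nd (nat_lit 78) (nat_lit 0) (nat_lit 0) (XT.lf (nat_lit 0) (nat_lit 142011209498) (nat_lit 152) (nat_lit 2655838005214) (nat_lit 0) (nat_lit 138917904365) (nat_lit 1) (nat_lit 5) (nat_lit 3) (nat_lit 4) (nat_lit 1) (nat_lit 4) (nat_lit 361) (nat_lit 240) (nat_lit 179))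 (XT.lf (nat_lit 0) (nat_lit 154715848050) (nat_lit 152) (nat_lit 2865243392492) (nat_lit 0) (nat_lit 151620428310) (nat_lit 1) (nat_lit 5) (nat_lit 3) (nat_lit 4) (nat_lit 1) (nat_lit 4) (nat_lit 362) (nat_lit 240) (nat_lit 178))) (XT.nd (nat_lit 78) (nat_lit 0) (nat_lit 0) (XT.lf (nat_lit 0) (nat_lit 168434814893) (nat_lit 152) (nat_lit 3091405135673) (nat_lit 0) (nat_lit 165337437185) (nat_lit 1) (nat_lit 5) (nat_lit 3) (nat_lit 4) (nat_lit 1) (nat_lit 4) (nat_lit 363) (nat_lit 240) (nat_lit 177)) (XT.lf (nat_lit 0) (nat_lit 183249407610) (nat_lit 152) (nat_lit 3335663452493) (nat_lit 0) (nat_lit 180150216968) (nat_lit 1) (nat_lit 5) (nat_lit 3) (nat_lit 4) (nat_lit 1) (nat_lit 4) (nat_lit 364) (nat_lit 240) (nat_lit 176)))))) (XT.nd (nat_lit 35880) (nat_lit 0) (nat_lit 152) (XT.nd (nat_lit 35568) (nat_lit 0) (nat_lit 228) (XT.nd (nat_lit 35412) (nat_lit 0) (nat_lit 380) (XT.lf (nat_lit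 0) (nat_lit 199247416380) (nat_lit 152) (nat_lit 3599465799644) (nat_lit 0) (nat_lit 196146547095) (nat_lit 1) (nat_lit 5) (nat_lit 3) (nat_lit 4) (nat_lit 1) (nat_lit 4) (nat_lit 365) (nat_lit 240) (nat_lit 175)) (XT.nd (nat_lit 78) (nat_lit 0) (nat_lit 0) (XT.lf (nat_lit 0) (nat_lit 3785858369) (nat_lit 76) (nat_lit 4599712269) (nat_lit 76) (nat_lit 4599712269) (nat_lit 6) (nat_lit 4) (nat_lit 7) (nat_lit 5) (nat_lit 7) (nat_lit 4) (nat_lit 298) (nat_lit 241) (nat_lit 241)) (XT.lf (nat_lit 0) (nat_lit 15401958314) (nat_lit 76) (nat_lit 6309809902) (nat_lit 76) (nat_lit 6018503619) (nat_lit 6) (nat_lit 4) (nat_lit 7) (nat_lit 5) (nat_lit 7) (nat_lit 4) (nat_lit 299) (nat_lit 241) (nat_lit 240)))) (XT.nd (nat_lit 156) (nat_lit 0) (nat_lit 0) (XT.nd (nat_lit 78) (nat_lit 152) (nat_lit 0) (XT.lf (nat_lit 0) (nat_lit 23506369595) (nat_lit 76) (nat_lit 3350460513) (nat_lit 76) (nat_lit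 2789426189) (nat_lit 6) (nat_lit 4) (nat_lit 7) (nat_lit 5) (nat_lit 7) (nat_lit 4) (nat_lit 300) (nat_lit 241) (nat_lit 239)) (XT.lf (nat_lit 0) (nat_lit 200964610) (nat_lit 76) (nat_lit 285452274) (nat_lit 152) (nat_lit 31242094284) (nat_lit 4) (nat_lit 5) (nat_lit 5) (nat_lit 5) (nat_lit 6) (nat_lit 4) (nat_lit 301) (nat_lit 241) (nat_lit 238))) (XT.nd (nat_lit 78) (nat_lit 0) (nat_lit 0) (XT.lf (nat_lit 0) (nat_lit 3939054005) (nat_lit 152) (nat_lit 27053239256) (nat_lit 0) (nat_lit 2974210645) (nat_lit 4) (nat_lit 5) (nat_lit 6) (nat_lit 4) (nat_lit 4) (nat_lit 4) (nat_lit 302) (nat_lit 241) (nat_lit 237)) (XT.lf (nat_lit 0) (nat_lit 7509063492) (nat_lit 152) (nat_lit 22541391704) (nat_lit 0) (nat_lit 6345961971) (nat_lit 4) (nat_lit 5) (nat_lit 6) (nat_lit 4) (nat_lit 4) (nat_lit 4) (nat_lit 303) (nat_lit 241) (nat_lit 236))))) (XT.nd (nat_lit 234) (nat_lit 76) (nat_lit 0) (XT.nd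 (nat_lit 78) (nat_lit 0) (nat_lit 0) (XT.lf (nat_lit 0) (nat_lit 11210735824) (nat_lit 152) (nat_lit 17958401892) (nat_lit 0) (nat_lit 9864061930) (nat_lit 4) (nat_lit 5) (nat_lit 6) (nat_lit 4) (nat_lit 4) (nat_lit 4) (nat_lit 304) (nat_lit 241) (nat_lit 235)) (XT.nd (nat_lit 78) (nat_lit 0) (nat_lit 0) (XT.lf (nat_lit 0) (nat_lit 15066006835) (nat_lit 152) (nat_lit 13277111363) (nat_lit 0) (nat_lit 13549358523) (nat_lit 4) (nat_lit 5) (nat_lit 6) (nat_lit 4) (nat_lit 4) (nat_lit 4) (nat_lit 305) (nat_lit 241) (nat_lit 234)) (XT.lf (nat_lit 0) (nat_lit 19097722576) (nat_lit 152) (nat_lit 8469779135) (nat_lit 0) (nat_lit 17423690544) (nat_lit 4) (nat_lit 5) (nat_lit 6) (nat_lit 4) (nat_lit 4) (nat_lit 4) (nat_lit 306) (nat_lit 241) (nat_lit 233)))) (XT.nd (nat_lit 156) (nat_lit 0) (nat_lit 0) (XT.nd (nat_lit 78) (nat_lit 76) (nat_lit 0) (XT.lf (nat_lit 0) (nat_lit 23329774697) (nat_lit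 152) (nat_lit 3507917315) (nat_lit 0) (nat_lit 21510016997) (nat_lit 4) (nat_lit 5) (nat_lit 6) (nat_lit 4) (nat_lit 4) (nat_lit 4) (nat_lit 307) (nat_lit 241) (nat_lit 232)) (XT.lf (nat_lit 0) (nat_lit 1724125462) (nat_lit 76) (nat_lit 26104581821) (nat_lit 76) (nat_lit 24149892947) (nat_lit 3) (nat_lit 4) (nat_lit 4) (nat_lit 5) (nat_lit 4) (nat_lit 4) (nat_lit 308) (nat_lit 241) (nat_lit 231))) (XT.nd (nat_lit 78) (nat_lit 0) (nat_lit 0) (XT.lf (nat_lit 0) (nat_lit 7366607104) (nat_lit 76) (nat_lit 25307099153) (nat_lit 76) (nat_lit 23227474007) (nat_lit 3) (nat_lit 4) (nat_lit 4) (nat_lit 5) (nat_lit 4) (nat_lit 4) (nat_lit 309) (nat_lit 241) (nat_lit 230)) (XT.lf (nat_lit 0) (nat_lit 13268243830) (nat_lit 76) (nat_lit 24536430861) (nat_lit 76) (nat_lit 22341123982) (nat_lit 3) (nat_lit 4) (nat_lit 4) (nat_lit 5) (nat_lit 4) (nat_lit 4) (nat_lit 310) (nat_lit 241) (nat_lit 229)))))))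 (XT.nd (nat_lit 1092) (nat_lit 152) (nat_lit 0) (XT.nd (nat_lit 546) (nat_lit 0) (nat_lit 0) (XT.nd (nat_lit 234) (nat_lit 0) (nat_lit 0) (XT.nd (nat_lit 78) (nat_lit 0) (nat_lit 0) (XT.lf (nat_lit 0) (nat_lit 19464008301) (nat_lit 76) (nat_lit 23788010022) (nat_lit 76) (nat_lit 21485590428) (nat_lit 3) (nat_lit 4) (nat_lit 4) (nat_lit 5) (nat_lit 4) (nat_lit 4) (nat_lit 311) (nat_lit 241) (nat_lit 228)) (XT.nd (nat_lit 78) (nat_lit 0) (nat_lit 0) (XT.lf (nat_lit 0) (nat_lit 25990616159) (nat_lit 76) (nat_lit 23057401551) (nat_lit 76) (nat_lit 20655803516) (nat_lit 3) (nat_lit 4) (nat_lit 4) (nat_lit 5) (nat_lit 4) (nat_lit 4) (nat_lit 312) (nat_lit 241) (nat_lit 227)) (XT.lf (nat_lit 0) (nat_lit 32886743599) (nat_lit 76) (nat_lit 22340275914) (nat_lit 76) (nat_lit 19846845990) (nat_lit 3) (nat_lit 4) (nat_lit 4) (nat_lit 5) (nat_lit 4) (nat_lit 4) (nat_lit 313) (nat_lit 241) (nat_lit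 226)))) (XT.nd (nat_lit 156) (nat_lit 0) (nat_lit 0) (XT.nd (nat_lit 78) (nat_lit 0) (nat_lit 0) (XT.lf (nat_lit 0) (nat_lit 40193256561) (nat_lit 76) (nat_lit 21632383479) (nat_lit 76) (nat_lit 19053924028) (nat_lit 3) (nat_lit 4) (nat_lit 4) (nat_lit 5) (nat_lit 4) (nat_lit 4) (nat_lit 314) (nat_lit 241) (nat_lit 225)) (XT.lf (nat_lit 0) (nat_lit 47953452899) (nat_lit 76) (nat_lit 20929529328) (nat_lit 76) (nat_lit 18272338832) (nat_lit 3) (nat_lit 4) (nat_lit 4) (nat_lit 5) (nat_lit 4) (nat_lit 4) (nat_lit 315) (nat_lit 241) (nat_lit 224))) (XT.nd (nat_lit 78) (nat_lit 0) (nat_lit 0) (XT.lf (nat_lit 0) (nat_lit 56213318962) (nat_lit 76) (nat_lit 20227548398) (nat_lit 76) (nat_lit 17497458788) (nat_lit 3) (nat_lit 4) (nat_lit 4) (nat_lit 5) (nat_lit 4) (nat_lit 4) (nat_lit 316) (nat_lit 241) (nat_lit 223)) (XT.lf (nat_lit 0) (nat_lit 65021802105) (nat_lit 76) (nat_lit 19522280804)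 (nat_lit 76) (nat_lit 16724692013) (nat_lit 3) (nat_lit 4) (nat_lit 4) (nat_lit 5) (nat_lit 4) (nat_lit 4) (nat_lit 317) (nat_lit 241) (nat_lit 222))))) (XT.nd (nat_lit 234) (nat_lit 0) (nat_lit 0) (XT.nd (nat_lit 78) (nat_lit 0) (nat_lit 0) (XT.lf (nat_lit 0) (nat_lit 74431100747) (nat_lit 76) (nat_lit 18809547180) (nat_lit 76) (nat_lit 15949459149) (nat_lit 3) (nat_lit 4) (nat_lit 4) (nat_lit 5) (nat_lit 4) (nat_lit 4) (nat_lit 318) (nat_lit 241) (nat_lit 221)) (XT.nd (nat_lit 78) (nat_lit 0) (nat_lit 0) (XT.lf (nat_lit 0) (nat_lit 84496973693) (nat_lit 76) (nat_lit 18085123922) (nat_lit 76) (nat_lit 15167166223) (nat_lit 3) (nat_lit 4) (nat_lit 4) (nat_lit 5) (nat_lit 4) (nat_lit 4) (nat_lit 319) (nat_lit 241) (nat_lit 220)) (XT.lf (nat_lit 0) (nat_lit 95279070562) (nat_lit 76) (nat_lit 17344718149) (nat_lit 76) (nat_lit 14373177425) (nat_lit 3) (nat_lit 4) (nat_lit 4) (nat_lit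 5) (nat_lit 4) (nat_lit 4) (nat_lit 320) (nat_lit 241) (nat_lit 219)))) (XT.nd (nat_lit 156) (nat_lit 0) (nat_lit 0) (XT.nd (nat_lit 78) (nat_lit 0) (nat_lit 0) (XT.lf (nat_lit 0) (nat_lit 106841285260) (nat_lit 76) (nat_lit 16583942273) (nat_lit 76) (nat_lit 13562787637) (nat_lit 3) (nat_lit 4) (nat_lit 4) (nat_lit 5) (nat_lit 4) (nat_lit 4) (nat_lit 321) (nat_lit 241) (nat_lit 218)) (XT.lf (nat_lit 0) (nat_lit 119252134617) (nat_lit 76) (nat_lit 15798287992) (nat_lit 76) (nat_lit 12731194548) (nat_lit 3) (nat_lit 4) (nat_lit 4) (nat_lit 5) (nat_lit 4) (nat_lit 4) (nat_lit 322) (nat_lit 241) (nat_lit 217))) (XT.nd (nat_lit 78) (nat_lit 0) (nat_lit 0) (XT.lf (nat_lit 0) (nat_lit 132585164405) (nat_lit 76) (nat_lit 14983099577) (nat_lit 76) (nat_lit 11873470199) (nat_lit 3) (nat_lit 4) (nat_lit 4) (nat_lit 5) (nat_lit 4) (nat_lit 4) (nat_lit 323) (nat_lit 241) (nat_lit 216)) (XT.lf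 (nat_lit 0) (nat_lit 146919385172) (nat_lit 76) (nat_lit 14133546281) (nat_lit 76) (nat_lit 10984531780) (nat_lit 3) (nat_lit 4) (nat_lit 4) (nat_lit 5) (nat_lit 4) (nat_lit 4) (nat_lit 324) (nat_lit 241) (nat_lit 215)))))) (XT.nd (nat_lit 546) (nat_lit 152) (nat_lit 0) (XT.nd (nat_lit 234) (nat_lit 0) (nat_lit 0) (XT.nd (nat_lit 78) (nat_lit 0) (nat_lit 0) (XT.lf (nat_lit 0) (nat_lit 162339740447) (nat_lit 76) (nat_lit 13244593715) (nat_lit 76) (nat_lit 10059111508) (nat_lit 3) (nat_lit 4) (nat_lit 4) (nat_lit 5) (nat_lit 4) (nat_lit 4) (nat_lit 325) (nat_lit 241) (nat_lit 214)) (XT.nd (nat_lit 78) (nat_lit 0) (nat_lit 0) (XT.lf (nat_lit 0) (nat_lit 178937610115) (nat_lit 76) (nat_lit 12310974012) (nat_lit 76) (nat_lit 9091725409) (nat_lit 3) (nat_lit 4) (nat_lit 4) (nat_lit 5) (nat_lit 4) (nat_lit 4) (nat_lit 326) (nat_lit 241) (nat_lit 213)) (XT.lf (nat_lit 0) (nat_lit 196811351922)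 (nat_lit 76) (nat_lit 11327154611) (nat_lit 76) (nat_lit 8076640827) (nat_lit 3) (nat_lit 4) (nat_lit 4) (nat_lit 5) (nat_lit 4) (nat_lit 4) (nat_lit 327) (nat_lit 241) (nat_lit 212)))) (XT.nd (nat_lit 156) (nat_lit 0) (nat_lit 0) (XT.nd (nat_lit 78) (nat_lit 0) (nat_lit 0) (XT.lf (nat_lit 0) (nat_lit 216066884336) (nat_lit 76) (nat_lit 10287305469) (nat_lit 76) (nat_lit 7007842444) (nat_lit 3) (nat_lit 4) (nat_lit 4) (nat_lit 5) (nat_lit 4) (nat_lit 4) (nat_lit 328) (nat_lit 241) (nat_lit 211)) (XT.lf (nat_lit 0) (nat_lit 236818314218) (nat_lit 76) (nat_lit 9185264520) (nat_lit 76) (nat_lit 5878996642) (nat_lit 3) (nat_lit 4) (nat_lit 4) (nat_lit 5) (nat_lit 4) (nat_lit 4) (nat_lit 329) (nat_lit 241) (nat_lit 210))) (XT.nd (nat_lit 78) (nat_lit 0) (nat_lit 0) (XT.lf (nat_lit 0) (nat_lit 259188613003) (nat_lit 76) (nat_lit 8014501149) (nat_lit 76) (nat_lit 4683413962) (nat_lit 3) (nat_lit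 4) (nat_lit 4) (nat_lit 5) (nat_lit 4) (nat_lit 4) (nat_lit 330) (nat_lit 241) (nat_lit 209)) (XT.lf (nat_lit 0) (nat_lit 283310345425) (nat_lit 76) (nat_lit 6768077500) (nat_lit 76) (nat_lit 3414009472) (nat_lit 3) (nat_lit 4) (nat_lit 4) (nat_lit 5) (nat_lit 4) (nat_lit 4) (nat_lit 331) (nat_lit 241) (nat_lit 208))))) (XT.nd (nat_lit 234) (nat_lit 76) (nat_lit 0) (XT.nd (nat_lit 78) (nat_lit 76) (nat_lit 0) (XT.lf (nat_lit 0) (nat_lit 309326455083) (nat_lit 76) (nat_lit 5438607358) (nat_lit 76) (nat_lit 2063260773) (nat_lit 3) (nat_lit 4) (nat_lit 4) (nat_lit 5) (nat_lit 4) (nat_lit 4) (nat_lit 332) (nat_lit 241) (nat_lit 207)) (XT.nd (nat_lit 78) (nat_lit 76) (nat_lit 0) (XT.lf (nat_lit 0) (nat_lit 337391111517) (nat_lit 76) (nat_lit 4018212382) (nat_lit 76) (nat_lit 623163430) (nat_lit 3) (nat_lit 4) (nat_lit 4) (nat_lit 5) (nat_lit 4) (nat_lit 4) (nat_lit 333) (nat_lit 241) (nat_lit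 206)) (XT.lf (nat_lit 0) (nat_lit 869053643) (nat_lit 152) (nat_lit 1605660306) (nat_lit 76) (nat_lit 366777808690) (nat_lit 2) (nat_lit 5) (nat_lit 4) (nat_lit 5) (nat_lit 3) (nat_lit 4) (nat_lit 334) (nat_lit 241) (nat_lit 205)))) (XT.nd (nat_lit 156) (nat_lit 0) (nat_lit 0) (XT.nd (nat_lit 78) (nat_lit 0) (nat_lit 0) (XT.lf (nat_lit 0) (nat_lit 1713558311) (nat_lit 76) (nat_lit 759394477) (nat_lit 152) (nat_lit 396173849093) (nat_lit 1) (nat_lit 5) (nat_lit 2) (nat_lit 5) (nat_lit 3) (nat_lit 4) (nat_lit 335) (nat_lit 241) (nat_lit 204)) (XT.lf (nat_lit 0) (nat_lit 4261386849) (nat_lit 152) (nat_lit 425055942285) (nat_lit 0) (nat_lit 1070809198) (nat_lit 1) (nat_lit 5) (nat_lit 3) (nat_lit 4) (nat_lit 1) (nat_lit 4) (nat_lit 336) (nat_lit 241) (nat_lit 203))) (XT.nd (nat_lit 78) (nat_lit 0) (nat_lit 0) (XT.lf (nat_lit 0) (nat_lit 6198630157) (nat_lit 152) (nat_lit 455475061146)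 (nat_lit 0) (nat_lit 2994643406) (nat_lit 1) (nat_lit 5) (nat_lit 3) (nat_lit 4) (nat_lit 1) (nat_lit 4) (nat_lit 337) (nat_lit 241) (nat_lit 202)) (XT.lf (nat_lit 0) (nat_lit 8277899216) (nat_lit 152) (nat_lit 488352598142) (nat_lit 0) (nat_lit 5061496632) (nat_lit 1) (nat_lit 5) (nat_lit 3) (nat_lit 4) (nat_lit 1) (nat_lit 4) (nat_lit 338) (nat_lit 241) (nat_lit 201))))))))
noncomputable def xc21 : XT := (XT.nd (nat_lit 37362) (nat_lit 0) (nat_lit 152) (XT.nd (nat_lit 1092) (nat_lit 0) (nat_lit 0) (XT.nd (nat_lit 546) (nat_lit 0) (nat_lit 0) (XT.nd (nat_lit 234) (nat_lit 0) (nat_lit 0) (XT.nd (nat_lit 78) (nat_lit 0) (nat_lit 0) (XT.lf (nat_lit 0) (nat_lit 10511515621) (nat_lit 152) (nat_lit 523883383124) (nat_lit 0) (nat_lit 7283616894) (nat_lit 1) (nat_lit 5) (nat_lit 3) (nat_lit 4) (nat_lit 1) (nat_lit 4) (nat_lit 339) (nat_lit 241) (nat_lit 200)) (XT.nd (nat_lit 78) (nat_lit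 0) (nat_lit 0) (XT.lf (nat_lit 0) (nat_lit 12912715616) (nat_lit 152) (nat_lit 562277968890) (nat_lit 0) (nat_lit 9674172313) (nat_lit 1) (nat_lit 5) (nat_lit 3) (nat_lit 4) (nat_lit 1) (nat_lit 4) (nat_lit 340) (nat_lit 241) (nat_lit 199)) (XT.lf (nat_lit 0) (nat_lit 15495728535) (nat_lit 152) (nat_lit 603763878913) (nat_lit 0) (nat_lit 12247329144) (nat_lit 1) (nat_lit 5) (nat_lit 3) (nat_lit 4) (nat_lit 1) (nat_lit 4) (nat_lit 341) (nat_lit 241) (nat_lit 198)))) (XT.nd (nat_lit 156) (nat_lit 0) (nat_lit 0) (XT.nd (nat_lit 78) (nat_lit 0) (nat_lit 0) (XT.lf (nat_lit 0) (nat_lit 18275861122) (nat_lit 152) (nat_lit 648586955620) (nat_lit 0) (nat_lit 15018335722) (nat_lit 1) (nat_lit 5) (nat_lit 3) (nat_lit 4) (nat_lit 1) (nat_lit 4) (nat_lit 342) (nat_lit 241) (nat_lit 197)) (XT.lf (nat_lit 0) (nat_lit 21269588236) (nat_lit 152) (nat_lit 697012817246) (nat_lit 0) (nat_lit 18003612829)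 (nat_lit 1) (nat_lit 5) (nat_lit 3) (nat_lit 4) (nat_lit 1) (nat_lit 4) (nat_lit 343) (nat_lit 241) (nat_lit 196))) (XT.nd (nat_lit 78) (nat_lit 0) (nat_lit 0) (XT.lf (nat_lit 0) (nat_lit 24494650482) (nat_lit 152) (nat_lit 749328431859) (nat_lit 0) (nat_lit 21220850994) (nat_lit 1) (nat_lit 5) (nat_lit 3) (nat_lit 4) (nat_lit 1) (nat_lit 4) (nat_lit 344) (nat_lit 241) (nat_lit 195)) (XT.lf (nat_lit 0) (nat_lit 27970159341) (nat_lit 152) (nat_lit 805843817916) (nat_lit 0) (nat_lit 24689115333) (nat_lit 1) (nat_lit 5) (nat_lit 3) (nat_lit 4) (nat_lit 1) (nat_lit 4) (nat_lit 345) (nat_lit 241) (nat_lit 194))))) (XT.nd (nat_lit 234) (nat_lit 0) (nat_lit 0) (XT.nd (nat_lit 78) (nat_lit 0) (nat_lit 0) (XT.lf (nat_lit 0) (nat_lit 31716710420) (nat_lit 152) (nat_lit 866893881408) (nat_lit 0) (nat_lit 28428958523) (nat_lit 1) (nat_lit 5) (nat_lit 3) (nat_lit 4) (nat_lit 1) (nat_lit 4) (nat_lit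 346) (nat_lit 241) (nat_lit 193)) (XT.nd (nat_lit 78) (nat_lit 0) (nat_lit 0) (XT.lf (nat_lit 0) (nat_lit 35756505503) (nat_lit 152) (nat_lit 932840400489) (nat_lit 0) (nat_lit 32462542599) (nat_lit 1) (nat_lit 5) (nat_lit 3) (nat_lit 4) (nat_lit 1) (nat_lit 4) (nat_lit 347) (nat_lit 241) (nat_lit 192)) (XT.lf (nat_lit 0) (nat_lit 40113484117) (nat_lit 152) (nat_lit 1004074169347) (nat_lit 0) (nat_lit 36813770280) (nat_lit 1) (nat_lit 5) (nat_lit 3) (nat_lit 4) (nat_lit 1) (nat_lit 4) (nat_lit 348) (nat_lit 241) (nat_lit 191)))) (XT.nd (nat_lit 156) (nat_lit 0) (nat_lit 0) (XT.nd (nat_lit 78) (nat_lit 0) (nat_lit 0) (XT.lf (nat_lit 0) (nat_lit 44813465395) (nat_lit 152) (nat_lit 1081017314018) (nat_lit 0) (nat_lit 41508426619) (nat_lit 1) (nat_lit 5) (nat_lit 3) (nat_lit 4) (nat_lit 1) (nat_lit 4) (nat_lit 349) (nat_lit 241) (nat_lit 190)) (XT.lf (nat_lit 0) (nat_lit 49884301077) (nat_lit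 152) (nat_lit 1164125793880) (nat_lit 0) (nat_lit 46574331803) (nat_lit 1) (nat_lit 5) (nat_lit 3) (nat_lit 4) (nat_lit 1) (nat_lit 4) (nat_lit 350) (nat_lit 241) (nat_lit 189))) (XT.nd (nat_lit 78) (nat_lit 0) (nat_lit 0) (XT.lf (nat_lit 0) (nat_lit 55356040560) (nat_lit 152) (nat_lit 1253892103628) (nat_lit 0) (nat_lit 52041506010) (nat_lit 1) (nat_lit 5) (nat_lit 3) (nat_lit 4) (nat_lit 1) (nat_lit 4) (nat_lit 351) (nat_lit 241) (nat_lit 188)) (XT.lf (nat_lit 0) (nat_lit 61261108966) (nat_lit 152) (nat_lit 1350848191763) (nat_lit 0) (nat_lit 57942347309) (nat_lit 1) (nat_lit 5) (nat_lit 3) (nat_lit 4) (nat_lit 1) (nat_lit 4) (nat_lit 352) (nat_lit 241) (nat_lit 187)))))) (XT.nd (nat_lit 546) (nat_lit 0) (nat_lit 0) (XT.nd (nat_lit 234) (nat_lit 0) (nat_lit 0) (XT.nd (nat_lit 78) (nat_lit 0) (nat_lit 0) (XT.lf (nat_lit 0) (nat_lit 67634499295) (nat_lit 152) (nat_lit 1455568612882)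 (nat_lit 0) (nat_lit 64311823649) (nat_lit 1) (nat_lit 5) (nat_lit 3) (nat_lit 4) (nat_lit 1) (nat_lit 4) (nat_lit 353) (nat_lit 241) (nat_lit 186)) (XT.nd (nat_lit 78) (nat_lit 0) (nat_lit 0) (XT.lf (nat_lit 0) (nat_lit 74513979784) (nat_lit 152) (nat_lit 1568673932443) (nat_lit 0) (nat_lit 71187680075) (nat_lit 1) (nat_lit 5) (nat_lit 3) (nat_lit 4) (nat_lit 1) (nat_lit 4) (nat_lit 354) (nat_lit 241) (nat_lit 185)) (XT.lf (nat_lit 0) (nat_lit 81940317726) (nat_lit 152) (nat_lit 1690834404193) (nat_lit 0) (nat_lit 78610662403) (nat_lit 1) (nat_lit 5) (nat_lit 3) (nat_lit 4) (nat_lit 1) (nat_lit 4) (nat_lit 355) (nat_lit 241) (nat_lit 184)))) (XT.nd (nat_lit 156) (nat_lit 0) (nat_lit 0) (XT.nd (nat_lit 78) (nat_lit 0) (nat_lit 0) (XT.lf (nat_lit 0) (nat_lit 89957521049) (nat_lit 152) (nat_lit 1822773942037) (nat_lit 0) (nat_lit 86624758675) (nat_lit 1) (nat_lit 5) (nat_lit 3) (nat_lit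 4) (nat_lit 1) (nat_lit 4) (nat_lit 356) (nat_lit 241) (nat_lit 183)) (XT.lf (nat_lit 0) (nat_lit 98613099107) (nat_lit 152) (nat_lit 1965274409904) (nat_lit 0) (nat_lit 95277459834) (nat_lit 1) (nat_lit 5) (nat_lit 3) (nat_lit 4) (nat_lit 1) (nat_lit 4) (nat_lit 357) (nat_lit 241) (nat_lit 182))) (XT.nd (nat_lit 78) (nat_lit 0) (nat_lit 0) (XT.lf (nat_lit 0) (nat_lit 107958344212) (nat_lit 152) (nat_lit 2119180255011) (nat_lit 0) (nat_lit 104620041145) (nat_lit 1) (nat_lit 5) (nat_lit 3) (nat_lit 4) (nat_lit 1) (nat_lit 4) (nat_lit 358) (nat_lit 241) (nat_lit 181)) (XT.lf (nat_lit 0) (nat_lit 118048635597) (nat_lit 152) (nat_lit 2285403511995) (nat_lit 0) (nat_lit 114707866053) (nat_lit 1) (nat_lit 5) (nat_lit 3) (nat_lit 4) (nat_lit 1) (nat_lit 4) (nat_lit 359) (nat_lit 241) (nat_lit 180))))) (XT.nd (nat_lit 234) (nat_lit 0) (nat_lit 0) (XT.nd (nat_lit 78) (nat_lit 0) (nat_lit 0)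 (XT.lf (nat_lit 0) (nat_lit 128943767580) (nat_lit 152) (nat_lit 2464929207564) (nat_lit 0) (nat_lit 125600714261) (nat_lit 1) (nat_lit 5) (nat_lit 3) (nat_lit 4) (nat_lit 1) (nat_lit 4) (nat_lit 360) (nat_lit 241) (nat_lit 179)) (XT.nd (nat_lit 78) (nat_lit 0) (nat_lit 0) (XT.lf (nat_lit 0) (nat_lit 140708303905) (nat_lit 152) (nat_lit 2658821197693) (nat_lit 0) (nat_lit 137363135981) (nat_lit 1) (nat_lit 5) (nat_lit 3) (nat_lit 4) (nat_lit 1) (nat_lit 4) (nat_lit 361) (nat_lit 241) (nat_lit 178)) (XT.lf (nat_lit 0) (nat_lit 153411960345) (nat_lit 152) (nat_lit 2868228471952) (nat_lit 0) (nat_lit 150064834452) (nat_lit 1) (nat_lit 5) (nat_lit 3) (nat_lit 4) (nat_lit 1) (nat_lit 4) (nat_lit 362) (nat_lit 241) (nat_lit 177)))) (XT.nd (nat_lit 156) (nat_lit 0) (nat_lit 0) (XT.nd (nat_lit 78) (nat_lit 0) (nat_lit 0) (XT.lf (nat_lit 0) (nat_lit 167130017826) (nat_lit 152) (nat_lit 3094391962337)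 (nat_lit 0) (nat_lit 163781078999) (nat_lit 1) (nat_lit 5) (nat_lit 3) (nat_lit 4) (nat_lit 1) (nat_lit 4) (nat_lit 363) (nat_lit 241) (nat_lit 176)) (XT.lf (nat_lit 0) (nat_lit 181943768541) (nat_lit 152) (nat_lit 3338651896938) (nat_lit 0) (nat_lit 178593151071) (nat_lit 1) (nat_lit 5) (nat_lit 3) (nat_lit 4) (nat_lit 1) (nat_lit 4) (nat_lit 364) (nat_lit 241) (nat_lit 175))) (XT.nd (nat_lit 35256) (nat_lit 0) (nat_lit 456) (XT.lf (nat_lit 0) (nat_lit 197940997678) (nat_lit 152) (nat_lit 3602455742036) (nat_lit 0) (nat_lit 194588825910) (nat_lit 1) (nat_lit 5) (nat_lit 3) (nat_lit 4) (nat_lit 1) (nat_lit 4) (nat_lit 365) (nat_lit 241) (nat_lit 174)) (XT.lf (nat_lit 0) (nat_lit 3991583775) (nat_lit 152) (nat_lit 3445079487) (nat_lit 0) (nat_lit 3991583775) (nat_lit 7) (nat_lit 5) (nat_lit 9) (nat_lit 4) (nat_lit 7) (nat_lit 4) (nat_lit 296) (nat_lit 242) (nat_lit 242))))))) (XT.nd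 (nat_lit 1092) (nat_lit 0) (nat_lit 0) (XT.nd (nat_lit 546) (nat_lit 76) (nat_lit 0) (XT.nd (nat_lit 234) (nat_lit 152) (nat_lit 0) (XT.nd (nat_lit 78) (nat_lit 76) (nat_lit 0) (XT.lf (nat_lit 0) (nat_lit 12321021983) (nat_lit 152) (nat_lit 29217995) (nat_lit 0) (nat_lit 12006411197) (nat_lit 7) (nat_lit 5) (nat_lit 9) (nat_lit 4) (nat_lit 7) (nat_lit 4) (nat_lit 297) (nat_lit 242) (nat_lit 241)) (XT.nd (nat_lit 78) (nat_lit 0) (nat_lit 0) (XT.lf (nat_lit 0) (nat_lit 7388817897) (nat_lit 76) (nat_lit 9597857041) (nat_lit 76) (nat_lit 8991939972) (nat_lit 6) (nat_lit 4) (nat_lit 7) (nat_lit 5) (nat_lit 7) (nat_lit 4) (nat_lit 298) (nat_lit 242) (nat_lit 240)) (XT.lf (nat_lit 0) (nat_lit 15049708693) (nat_lit 76) (nat_lit 6785855106) (nat_lit 76) (nat_lit 5910209996) (nat_lit 6) (nat_lit 4) (nat_lit 7) (nat_lit 5) (nat_lit 7) (nat_lit 4) (nat_lit 299) (nat_lit 242) (nat_lit 239)))) (XT.nd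 (nat_lit 156) (nat_lit 76) (nat_lit 0) (XT.nd (nat_lit 78) (nat_lit 76) (nat_lit 0) (XT.lf (nat_lit 0) (nat_lit 22997313697) (nat_lit 76) (nat_lit 3898369328) (nat_lit 76) (nat_lit 2772976033) (nat_lit 6) (nat_lit 4) (nat_lit 7) (nat_lit 5) (nat_lit 7) (nat_lit 4) (nat_lit 300) (nat_lit 242) (nat_lit 238)) (XT.lf (nat_lit 0) (nat_lit 416424743) (nat_lit 152) (nat_lit 490478147) (nat_lit 76) (nat_lit 30850919293) (nat_lit 5) (nat_lit 5) (nat_lit 7) (nat_lit 5) (nat_lit 6) (nat_lit 4) (nat_lit 301) (nat_lit 242) (nat_lit 237))) (XT.nd (nat_lit 78) (nat_lit 0) (nat_lit 0) (XT.lf (nat_lit 0) (nat_lit 3761446968) (nat_lit 152) (nat_lit 27936021644) (nat_lit 0) (nat_lit 2307039163) (nat_lit 4) (nat_lit 5) (nat_lit 6) (nat_lit 4) (nat_lit 4) (nat_lit 4) (nat_lit 302) (nat_lit 242) (nat_lit 236)) (XT.lf (nat_lit 0) (nat_lit 7257447842) (nat_lit 152) (nat_lit 23563503681) (nat_lit 0) (nat_lit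 5619467665) (nat_lit 4) (nat_lit 5) (nat_lit 6) (nat_lit 4) (nat_lit 4) (nat_lit 4) (nat_lit 303) (nat_lit 242) (nat_lit 235))))) (XT.nd (nat_lit 234) (nat_lit 76) (nat_lit 0) (XT.nd (nat_lit 78) (nat_lit 0) (nat_lit 0) (XT.lf (nat_lit 0) (nat_lit 10890593680) (nat_lit 152) (nat_lit 19109522748) (nat_lit 0) (nat_lit 9082639085) (nat_lit 4) (nat_lit 5) (nat_lit 6) (nat_lit 4) (nat_lit 4) (nat_lit 4) (nat_lit 304) (nat_lit 242) (nat_lit 234)) (XT.nd (nat_lit 78) (nat_lit 0) (nat_lit 0) (XT.lf (nat_lit 0) (nat_lit 14682414234) (nat_lit 152) (nat_lit 14547684884) (nat_lit 0) (nat_lit 12717075918) (nat_lit 4) (nat_lit 5) (nat_lit 6) (nat_lit 4) (nat_lit 4) (nat_lit 4) (nat_lit 305) (nat_lit 242) (nat_lit 233)) (XT.lf (nat_lit 0) (nat_lit 18655379553) (nat_lit 152) (nat_lit 9850956976) (nat_lit 0) (nat_lit 16544315569) (nat_lit 4) (nat_lit 5) (nat_lit 6) (nat_lit 4) (nat_lit 4) (nat_lit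 4) (nat_lit 306) (nat_lit 242) (nat_lit 232)))) (XT.nd (nat_lit 156) (nat_lit 0) (nat_lit 0) (XT.nd (nat_lit 78) (nat_lit 76) (nat_lit 0) (XT.lf (nat_lit 0) (nat_lit 22833033133) (nat_lit 152) (nat_lit 4991506562) (nat_lit 0) (nat_lit 20587037976) (nat_lit 4) (nat_lit 5) (nat_lit 6) (nat_lit 4) (nat_lit 4) (nat_lit 4) (nat_lit 307) (nat_lit 242) (nat_lit 231)) (XT.lf (nat_lit 0) (nat_lit 62594321) (nat_lit 76) (nat_lit 27179042516) (nat_lit 76) (nat_lit 24808111087) (nat_lit 3) (nat_lit 4) (nat_lit 4) (nat_lit 5) (nat_lit 4) (nat_lit 4) (nat_lit 308) (nat_lit 242) (nat_lit 230))) (XT.nd (nat_lit 78) (nat_lit 0) (nat_lit 0) (XT.lf (nat_lit 0) (nat_lit 5612651228) (nat_lit 76) (nat_lit 26425123786) (nat_lit 76) (nat_lit 23938510624) (nat_lit 3) (nat_lit 4) (nat_lit 4) (nat_lit 5) (nat_lit 4) (nat_lit 4) (nat_lit 309) (nat_lit 242) (nat_lit 229)) (XT.lf (nat_lit 0) (nat_lit 11428709496)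 (nat_lit 76) (nat_lit 25694792473) (nat_lit 76) (nat_lit 23101066595) (nat_lit 3) (nat_lit 4) (nat_lit 4) (nat_lit 5) (nat_lit 4) (nat_lit 4) (nat_lit 310) (nat_lit 242) (nat_lit 228)))))) (XT.nd (nat_lit 546) (nat_lit 0) (nat_lit 0) (XT.nd (nat_lit 234) (nat_lit 0) (nat_lit 0) (XT.nd (nat_lit 78) (nat_lit 0) (nat_lit 0) (XT.lf (nat_lit 0) (nat_lit 17545234654) (nat_lit 76) (nat_lit 24983720689) (nat_lit 76) (nat_lit 22290816371) (nat_lit 3) (nat_lit 4) (nat_lit 4) (nat_lit 5) (nat_lit 4) (nat_lit 4) (nat_lit 311) (nat_lit 242) (nat_lit 227)) (XT.nd (nat_lit 78) (nat_lit 0) (nat_lit 0) (XT.lf (nat_lit 0) (nat_lit 23998472778) (nat_lit 76) (nat_lit 24287694676) (nat_lit 76) (nat_lit 21502958468) (nat_lit 3) (nat_lit 4) (nat_lit 4) (nat_lit 5) (nat_lit 4) (nat_lit 4) (nat_lit 312) (nat_lit 242) (nat_lit 226)) (XT.lf (nat_lit 0) (nat_lit 30826665279) (nat_lit 76) (nat_lit 23602589834)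 (nat_lit 76) (nat_lit 20732824099) (nat_lit 3) (nat_lit 4) (nat_lit 4) (nat_lit 5) (nat_lit 4) (nat_lit 4) (nat_lit 313) (nat_lit 242) (nat_lit 225)))) (XT.nd (nat_lit 156) (nat_lit 0) (nat_lit 0) (XT.nd (nat_lit 78) (nat_lit 0) (nat_lit 0) (XT.lf (nat_lit 0) (nat_lit 38070275519) (nat_lit 76) (nat_lit 22924346282) (nat_lit 76) (nat_lit 19975849504) (nat_lit 3) (nat_lit 4) (nat_lit 4) (nat_lit 5) (nat_lit 4) (nat_lit 4) (nat_lit 314) (nat_lit 242) (nat_lit 224)) (XT.lf (nat_lit 0) (nat_lit 45772228597) (nat_lit 76) (nat_lit 22248944801) (nat_lit 76) (nat_lit 19227548908) (nat_lit 3) (nat_lit 4) (nat_lit 4) (nat_lit 5) (nat_lit 4) (nat_lit 4) (nat_lit 315) (nat_lit 242) (nat_lit 223))) (XT.nd (nat_lit 78) (nat_lit 0) (nat_lit 0) (XT.lf (nat_lit 0) (nat_lit 53978165715) (nat_lit 76) (nat_lit 21572383011) (nat_lit 76) (nat_lit 18483487937) (nat_lit 3) (nat_lit 4) (nat_lit 4) (nat_lit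 5) (nat_lit 4) (nat_lit 4) (nat_lit 316) (nat_lit 242) (nat_lit 222)) (XT.lf (nat_lit 0) (nat_lit 62736714650) (nat_lit 76) (nat_lit 20890651656) (nat_lit 76) (nat_lit 17739257341) (nat_lit 3) (nat_lit 4) (nat_lit 4) (nat_lit 5) (nat_lit 4) (nat_lit 4) (nat_lit 317) (nat_lit 242) (nat_lit 221))))) (XT.nd (nat_lit 312) (nat_lit 0) (nat_lit 0) (XT.nd (nat_lit 156) (nat_lit 0) (nat_lit 0) (XT.nd (nat_lit 78) (nat_lit 0) (nat_lit 0) (XT.lf (nat_lit 0) (nat_lit 72099777913) (nat_lit 76) (nat_lit 20199710847) (nat_lit 76) (nat_lit 16990446865) (nat_lit 3) (nat_lit 4) (nat_lit 4) (nat_lit 5) (nat_lit 4) (nat_lit 4) (nat_lit 318) (nat_lit 242) (nat_lit 220)) (XT.lf (nat_lit 0) (nat_lit 82122840324) (nat_lit 76) (nat_lit 19495466121) (nat_lit 76) (nat_lit 16232619114) (nat_lit 3) (nat_lit 4) (nat_lit 4) (nat_lit 5) (nat_lit 4) (nat_lit 4) (nat_lit 319) (nat_lit 242) (nat_lit 219))) (XT.nd (nat_lit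 78) (nat_lit 0) (nat_lit 0) (XT.lf (nat_lit 0) (nat_lit 92865297809) (nat_lit 76) (nat_lit 18773744175) (nat_lit 76) (nat_lit 15461283255) (nat_lit 3) (nat_lit 4) (nat_lit 4) (nat_lit 5) (nat_lit 4) (nat_lit 4) (nat_lit 320) (nat_lit 242) (nat_lit 218)) (XT.lf (nat_lit 0) (nat_lit 104390809374) (nat_lit 76) (nat_lit 18030268138) (nat_lit 76) (nat_lit 14671868410) (nat_lit 3) (nat_lit 4) (nat_lit 4) (nat_lit 5) (nat_lit 4) (nat_lit 4) (nat_lit 321) (nat_lit 242) (nat_lit 217)))) (XT.nd (nat_lit 156) (nat_lit 0) (nat_lit 0) (XT.nd (nat_lit 78) (nat_lit 0) (nat_lit 0) (XT.lf (nat_lit 0) (nat_lit 116767674347) (nat_lit 76) (nat_lit 17260632226) (nat_lit 76) (nat_lit 13859696565) (nat_lit 3) (nat_lit 4) (nat_lit 4) (nat_lit 5) (nat_lit 4) (nat_lit 4) (nat_lit 322) (nat_lit 242) (nat_lit 216)) (XT.lf (nat_lit 0) (nat_lit 130069237114) (nat_lit 76) (nat_lit 16460275634) (nat_lit 76) (nat_lit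 13019954850) (nat_lit 3) (nat_lit 4) (nat_lit 4) (nat_lit 5) (nat_lit 4) (nat_lit 4) (nat_lit 323) (nat_lit 242) (nat_lit 215))) (XT.nd (nat_lit 78) (nat_lit 0) (nat_lit 0) (XT.lf (nat_lit 0) (nat_lit 144374321750) (nat_lit 76) (nat_lit 15624455508) (nat_lit 76) (nat_lit 12147667017) (nat_lit 3) (nat_lit 4) (nat_lit 4) (nat_lit 5) (nat_lit 4) (nat_lit 4) (nat_lit 324) (nat_lit 242) (nat_lit 214)) (XT.lf (nat_lit 0) (nat_lit 159767699126) (nat_lit 76) (nat_lit 14748218840) (nat_lit 76) (nat_lit 11237663954) (nat_lit 3) (nat_lit 4) (nat_lit 4) (nat_lit 5) (nat_lit 4) (nat_lit 4) (nat_lit 325) (nat_lit 242) (nat_lit 213))))))))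
noncomputable def xc22 : XT := (XT.nd (nat_lit 2184) (nat_lit 0) (nat_lit 0) (XT.nd (nat_lit 1092) (nat_lit 0) (nat_lit 0) (XT.nd (nat_lit 546) (nat_lit 152) (nat_lit 0) (XT.nd (nat_lit 234) (nat_lit 0) (nat_lit 0) (XT.nd (nat_lit 78) (nat_lit 0) (nat_lit 0) (XT.lf (nat_lit 0) (nat_lit 176340589258) (nat_lit 76) (nat_lit 13826373117) (nat_lit 76) (nat_lit 10284553050) (nat_lit 3) (nat_lit 4) (nat_lit 4) (nat_lit 5) (nat_lit 4) (nat_lit 4) (nat_lit 326) (nat_lit 242) (nat_lit 212)) (XT.nd (nat_lit 78) (nat_lit 0) (nat_lit 0) (XT.lf (nat_lit 0) (nat_lit 194191201864) (nat_lit 76) (nat_lit 12853455548) (nat_lit 76) (nat_lit 9282686240) (nat_lit 3) (nat_lit 4) (nat_lit 4) (nat_lit 5) (nat_lit 4) (nat_lit 4) (nat_lit 327) (nat_lit 242) (nat_lit 211)) (XT.lf (nat_lit 0) (nat_lit 213425318353) (nat_lit 76) (nat_lit 11823700697) (nat_lit 76) (nat_lit 8226126536) (nat_lit 3) (nat_lit 4) (nat_lit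 4) (nat_lit 5) (nat_lit 4) (nat_lit 4) (nat_lit 328) (nat_lit 242) (nat_lit 210)))) (XT.nd (nat_lit 156) (nat_lit 0) (nat_lit 0) (XT.nd (nat_lit 78) (nat_lit 0) (nat_lit 0) (XT.lf (nat_lit 0) (nat_lit 234156918673) (nat_lit 76) (nat_lit 10731006312) (nat_lit 76) (nat_lit 7108612842) (nat_lit 3) (nat_lit 4) (nat_lit 4) (nat_lit 5) (nat_lit 4) (nat_lit 4) (nat_lit 329) (nat_lit 242) (nat_lit 209)) (XT.lf (nat_lit 0) (nat_lit 256508856754) (nat_lit 76) (nat_lit 9568897168) (nat_lit 76) (nat_lit 5923522857) (nat_lit 3) (nat_lit 4) (nat_lit 4) (nat_lit 5) (nat_lit 4) (nat_lit 4) (nat_lit 330) (nat_lit 242) (nat_lit 208))) (XT.nd (nat_lit 78) (nat_lit 0) (nat_lit 0) (XT.lf (nat_lit 0) (nat_lit 280613588523) (nat_lit 76) (nat_lit 8330486691) (nat_lit 76) (nat_lit 4663833824) (nat_lit 3) (nat_lit 4) (nat_lit 4) (nat_lit 5) (nat_lit 4) (nat_lit 4) (nat_lit 331) (nat_lit 242) (nat_lit 207))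 (XT.lf (nat_lit 0) (nat_lit 306613956836) (nat_lit 76) (nat_lit 7008436154) (nat_lit 76) (nat_lit 3322080919) (nat_lit 3) (nat_lit 4) (nat_lit 4) (nat_lit 5) (nat_lit 4) (nat_lit 4) (nat_lit 332) (nat_lit 242) (nat_lit 206))))) (XT.nd (nat_lit 234) (nat_lit 76) (nat_lit 0) (XT.nd (nat_lit 78) (nat_lit 76) (nat_lit 0) (XT.lf (nat_lit 0) (nat_lit 334664037951) (nat_lit 76) (nat_lit 5594911182) (nat_lit 76) (nat_lit 1890313014) (nat_lit 3) (nat_lit 4) (nat_lit 4) (nat_lit 5) (nat_lit 4) (nat_lit 4) (nat_lit 333) (nat_lit 242) (nat_lit 205)) (XT.nd (nat_lit 78) (nat_lit 76) (nat_lit 0) (XT.lf (nat_lit 0) (nat_lit 364930054568) (nat_lit 76) (nat_lit 4081535331) (nat_lit 76) (nat_lit 360045559) (nat_lit 3) (nat_lit 4) (nat_lit 4) (nat_lit 5) (nat_lit 4) (nat_lit 4) (nat_lit 334) (nat_lit 242) (nat_lit 204)) (XT.lf (nat_lit 0) (nat_lit 1213869482) (nat_lit 152) (nat_lit 1212281622) (nat_lit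 76) (nat_lit 396344302037) (nat_lit 2) (nat_lit 5) (nat_lit 4) (nat_lit 5) (nat_lit 3) (nat_lit 4) (nat_lit 335) (nat_lit 242) (nat_lit 203)))) (XT.nd (nat_lit 156) (nat_lit 0) (nat_lit 0) (XT.nd (nat_lit 78) (nat_lit 0) (nat_lit 0) (XT.lf (nat_lit 0) (nat_lit 2359263559) (nat_lit 76) (nat_lit 578657370) (nat_lit 152) (nat_lit 427579024933) (nat_lit 1) (nat_lit 5) (nat_lit 2) (nat_lit 5) (nat_lit 3) (nat_lit 4) (nat_lit 336) (nat_lit 242) (nat_lit 202)) (XT.lf (nat_lit 0) (nat_lit 4855019767) (nat_lit 152) (nat_lit 458574850126) (nat_lit 0) (nat_lit 1368889142) (nat_lit 1) (nat_lit 5) (nat_lit 3) (nat_lit 4) (nat_lit 1) (nat_lit 4) (nat_lit 337) (nat_lit 242) (nat_lit 201))) (XT.nd (nat_lit 78) (nat_lit 0) (nat_lit 0) (XT.lf (nat_lit 0) (nat_lit 6928522393) (nat_lit 152) (nat_lit 491463466462) (nat_lit 0) (nat_lit 3430895626) (nat_lit 1) (nat_lit 5) (nat_lit 3) (nat_lit 4) (nat_lit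 1) (nat_lit 4) (nat_lit 338) (nat_lit 242) (nat_lit 200)) (XT.lf (nat_lit 0) (nat_lit 9156799508) (nat_lit 152) (nat_lit 527004510091) (nat_lit 0) (nat_lit 5648528166) (nat_lit 1) (nat_lit 5) (nat_lit 3) (nat_lit 4) (nat_lit 1) (nat_lit 4) (nat_lit 339) (nat_lit 242) (nat_lit 199)))))) (XT.nd (nat_lit 546) (nat_lit 0) (nat_lit 0) (XT.nd (nat_lit 234) (nat_lit 0) (nat_lit 0) (XT.nd (nat_lit 78) (nat_lit 0) (nat_lit 0) (XT.lf (nat_lit 0) (nat_lit 11553055717) (nat_lit 152) (nat_lit 565408594605) (nat_lit 0) (nat_lit 8034928286) (nat_lit 1) (nat_lit 5) (nat_lit 3) (nat_lit 4) (nat_lit 1) (nat_lit 4) (nat_lit 340) (nat_lit 242) (nat_lit 198)) (XT.nd (nat_lit 78) (nat_lit 0) (nat_lit 0) (XT.lf (nat_lit 0) (nat_lit 14131491057) (nat_lit 152) (nat_lit 606903299763) (nat_lit 0) (nat_lit 10604237617) (nat_lit 1) (nat_lit 5) (nat_lit 3) (nat_lit 4) (nat_lit 1) (nat_lit 4) (nat_lit 341) (nat_lit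 242) (nat_lit 197)) (XT.lf (nat_lit 0) (nat_lit 16907385144) (nat_lit 152) (nat_lit 651734520116) (nat_lit 0) (nat_lit 13371681696) (nat_lit 1) (nat_lit 5) (nat_lit 3) (nat_lit 4) (nat_lit 1) (nat_lit 4) (nat_lit 342) (nat_lit 242) (nat_lit 196)))) (XT.nd (nat_lit 156) (nat_lit 0) (nat_lit 0) (XT.nd (nat_lit 78) (nat_lit 0) (nat_lit 0) (XT.lf (nat_lit 0) (nat_lit 19897187721) (nat_lit 152) (nat_lit 700167922154) (nat_lit 0) (nat_lit 16353660192) (nat_lit 1) (nat_lit 5) (nat_lit 3) (nat_lit 4) (nat_lit 1) (nat_lit 4) (nat_lit 343) (nat_lit 242) (nat_lit 195)) (XT.lf (nat_lit 0) (nat_lit 23118616137) (nat_lit 152) (nat_lit 752490518630) (nat_lit 0) (nat_lit 19567844088) (nat_lit 1) (nat_lit 5) (nat_lit 3) (nat_lit 4) (nat_lit 1) (nat_lit 4) (nat_lit 344) (nat_lit 242) (nat_lit 194))) (XT.nd (nat_lit 78) (nat_lit 0) (nat_lit 0) (XT.lf (nat_lit 0) (nat_lit 26590760337) (nat_lit 152) (nat_lit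 809012369374) (nat_lit 0) (nat_lit 23033280401) (nat_lit 1) (nat_lit 5) (nat_lit 3) (nat_lit 4) (nat_lit 1) (nat_lit 4) (nat_lit 345) (nat_lit 242) (nat_lit 193)) (XT.lf (nat_lit 0) (nat_lit 30334195992) (nat_lit 152) (nat_lit 870068418688) (nat_lit 0) (nat_lit 26770505048) (nat_lit 1) (nat_lit 5) (nat_lit 3) (nat_lit 4) (nat_lit 1) (nat_lit 4) (nat_lit 346) (nat_lit 242) (nat_lit 192))))) (XT.nd (nat_lit 234) (nat_lit 0) (nat_lit 0) (XT.nd (nat_lit 78) (nat_lit 0) (nat_lit 0) (XT.lf (nat_lit 0) (nat_lit 34371106424) (nat_lit 152) (nat_lit 936020480197) (nat_lit 0) (nat_lit 30801664546) (nat_lit 1) (nat_lit 5) (nat_lit 3) (nat_lit 4) (nat_lit 1) (nat_lit 4) (nat_lit 347) (nat_lit 242) (nat_lit 191)) (XT.nd (nat_lit 78) (nat_lit 0) (nat_lit 0) (XT.lf (nat_lit 0) (nat_lit 38725414064) (nat_lit 152) (nat_lit 1007259380933) (nat_lit 0) (nat_lit 35150647248) (nat_lit 1) (nat_lit 5) (nat_lit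 3) (nat_lit 4) (nat_lit 1) (nat_lit 4) (nat_lit 348) (nat_lit 242) (nat_lit 190)) (XT.lf (nat_lit 0) (nat_lit 43422922218) (nat_lit 152) (nat_lit 1084207277343) (nat_lit 0) (nat_lit 39843224904) (nat_lit 1) (nat_lit 5) (nat_lit 3) (nat_lit 4) (nat_lit 1) (nat_lit 4) (nat_lit 349) (nat_lit 242) (nat_lit 189)))) (XT.nd (nat_lit 156) (nat_lit 0) (nat_lit 0) (XT.nd (nat_lit 78) (nat_lit 0) (nat_lit 0) (XT.lf (nat_lit 0) (nat_lit 48491467970) (nat_lit 152) (nat_lit 1167320156963) (nat_lit 0) (nat_lit 44907205380) (nat_lit 1) (nat_lit 5) (nat_lit 3) (nat_lit 4) (nat_lit 1) (nat_lit 4) (nat_lit 350) (nat_lit 242) (nat_lit 188)) (XT.lf (nat_lit 0) (nat_lit 53961087148) (nat_lit 152) (nat_lit 1257090540560) (nat_lit 0) (nat_lit 50372597450) (nat_lit 1) (nat_lit 5) (nat_lit 3) (nat_lit 4) (nat_lit 1) (nat_lit 4) (nat_lit 351) (nat_lit 242) (nat_lit 187))) (XT.nd (nat_lit 78) (nat_lit 0) (nat_lit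 0) (XT.lf (nat_lit 0) (nat_lit 59864192309) (nat_lit 152) (nat_lit 1354050400778) (nat_lit 0) (nat_lit 56271788623) (nat_lit 1) (nat_lit 5) (nat_lit 3) (nat_lit 4) (nat_lit 1) (nat_lit 4) (nat_lit 352) (nat_lit 242) (nat_lit 186)) (XT.lf (nat_lit 0) (nat_lit 66235764818) (nat_lit 152) (nat_lit 1458774314567) (nat_lit 0) (nat_lit 62639737068) (nat_lit 1) (nat_lit 5) (nat_lit 3) (nat_lit 4) (nat_lit 1) (nat_lit 4) (nat_lit 353) (nat_lit 242) (nat_lit 185))))))) (XT.nd (nat_lit 36114) (nat_lit 0) (nat_lit 152) (XT.nd (nat_lit 546) (nat_lit 0) (nat_lit 0) (XT.nd (nat_lit 234) (nat_lit 0) (nat_lit 0) (XT.nd (nat_lit 78) (nat_lit 0) (nat_lit 0) (XT.lf (nat_lit 0) (nat_lit 73113562140) (nat_lit 152) (nat_lit 1571882868082) (nat_lit 0) (nat_lit 69514178776) (nat_lit 1) (nat_lit 5) (nat_lit 3) (nat_lit 4) (nat_lit 1) (nat_lit 4) (nat_lit 354) (nat_lit 242) (nat_lit 184)) (XT.nd (nat_lit 78)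 (nat_lit 0) (nat_lit 0) (XT.lf (nat_lit 0) (nat_lit 80538341595) (nat_lit 152) (nat_lit 1694046334233) (nat_lit 0) (nat_lit 76935851180) (nat_lit 1) (nat_lit 5) (nat_lit 3) (nat_lit 4) (nat_lit 1) (nat_lit 4) (nat_lit 355) (nat_lit 242) (nat_lit 183)) (XT.lf (nat_lit 0) (nat_lit 88554101874) (nat_lit 152) (nat_lit 1825988644671) (nat_lit 0) (nat_lit 84948734561) (nat_lit 1) (nat_lit 5) (nat_lit 3) (nat_lit 4) (nat_lit 1) (nat_lit 4) (nat_lit 356) (nat_lit 242) (nat_lit 182)))) (XT.nd (nat_lit 156) (nat_lit 0) (nat_lit 0) (XT.nd (nat_lit 78) (nat_lit 0) (nat_lit 0) (XT.lf (nat_lit 0) (nat_lit 97208343779) (nat_lit 152) (nat_lit 1968491679755) (nat_lit 0) (nat_lit 93600312671) (nat_lit 1) (nat_lit 5) (nat_lit 3) (nat_lit 4) (nat_lit 1) (nat_lit 4) (nat_lit 357) (nat_lit 242) (nat_lit 181)) (XT.lf (nat_lit 0) (nat_lit 106552351707) (nat_lit 152) (nat_lit 2122399901914) (nat_lit 0) (nat_lit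 102941854123) (nat_lit 1) (nat_lit 5) (nat_lit 3) (nat_lit 4) (nat_lit 1) (nat_lit 4) (nat_lit 358) (nat_lit 242) (nat_lit 180))) (XT.nd (nat_lit 78) (nat_lit 0) (nat_lit 0) (XT.lf (nat_lit 0) (nat_lit 116641497557) (nat_lit 152) (nat_lit 2288625359872) (nat_lit 0) (nat_lit 113028716198) (nat_lit 1) (nat_lit 5) (nat_lit 3) (nat_lit 4) (nat_lit 1) (nat_lit 4) (nat_lit 359) (nat_lit 242) (nat_lit 179)) (XT.lf (nat_lit 0) (nat_lit 127535568859) (nat_lit 152) (nat_lit 2468153093381) (nat_lit 0) (nat_lit 123920672894) (nat_lit 1) (nat_lit 5) (nat_lit 3) (nat_lit 4) (nat_lit 1) (nat_lit 4) (nat_lit 360) (nat_lit 242) (nat_lit 178))))) (XT.nd (nat_lit 234) (nat_lit 0) (nat_lit 0) (XT.nd (nat_lit 78) (nat_lit 0) (nat_lit 0) (XT.lf (nat_lit 0) (nat_lit 139299123073) (nat_lit 152) (nat_lit 2662046970490) (nat_lit 0) (nat_lit 135682269139) (nat_lit 1) (nat_lit 5) (nat_lit 3) (nat_lit 4) (nat_lit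 1) (nat_lit 4) (nat_lit 361) (nat_lit 242) (nat_lit 177)) (XT.nd (nat_lit 78) (nat_lit 0) (nat_lit 0) (XT.lf (nat_lit 0) (nat_lit 152001870150) (nat_lit 152) (nat_lit 2871455991953) (nat_lit 0) (nat_lit 148383203283) (nat_lit 1) (nat_lit 5) (nat_lit 3) (nat_lit 4) (nat_lit 1) (nat_lit 4) (nat_lit 362) (nat_lit 242) (nat_lit 176)) (XT.lf (nat_lit 0) (nat_lit 165719085629) (nat_lit 152) (nat_lit 3097621100120) (nat_lit 0) (nat_lit 162098740119) (nat_lit 1) (nat_lit 5) (nat_lit 3) (nat_lit 4) (nat_lit 1) (nat_lit 4) (nat_lit 363) (nat_lit 242) (nat_lit 175)))) (XT.nd (nat_lit 35178) (nat_lit 0) (nat_lit 456) (XT.nd (nat_lit 78) (nat_lit 0) (nat_lit 0) (XT.lf (nat_lit 0) (nat_lit 180532056712) (nat_lit 152) (nat_lit 3341882532668) (nat_lit 0) (nat_lit 176910156903) (nat_lit 1) (nat_lit 5) (nat_lit 3) (nat_lit 4) (nat_lit 1) (nat_lit 4) (nat_lit 364) (nat_lit 242) (nat_lit 174)) (XT.lf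 (nat_lit 0) (nat_lit 196528563968) (nat_lit 152) (nat_lit 3605687764753) (nat_lit 0) (nat_lit 192905224994) (nat_lit 1) (nat_lit 5) (nat_lit 3) (nat_lit 4) (nat_lit 1) (nat_lit 4) (nat_lit 365) (nat_lit 242) (nat_lit 173))) (XT.nd (nat_lit 78) (nat_lit 0) (nat_lit 0) (XT.lf (nat_lit 0) (nat_lit 52938486) (nat_lit 152) (nat_lit 10004355119) (nat_lit 0) (nat_lit 52938486) (nat_lit 7) (nat_lit 5) (nat_lit 9) (nat_lit 4) (nat_lit 7) (nat_lit 4) (nat_lit 294) (nat_lit 243) (nat_lit 243)) (XT.lf (nat_lit 0) (nat_lit 4109484240) (nat_lit 152) (nat_lit 13604281064) (nat_lit 0) (nat_lit 3769704591) (nat_lit 7) (nat_lit 5) (nat_lit 9) (nat_lit 4) (nat_lit 7) (nat_lit 4) (nat_lit 295) (nat_lit 243) (nat_lit 242)))))) (XT.nd (nat_lit 546) (nat_lit 76) (nat_lit 0) (XT.nd (nat_lit 234) (nat_lit 152) (nat_lit 0) (XT.nd (nat_lit 78) (nat_lit 76) (nat_lit 0) (XT.lf (nat_lit 0) (nat_lit 8220694525)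 (nat_lit 152) (nat_lit 7077808434) (nat_lit 0) (nat_lit 7566304090) (nat_lit 7) (nat_lit 5) (nat_lit 9) (nat_lit 4) (nat_lit 7) (nat_lit 4) (nat_lit 296) (nat_lit 243) (nat_lit 241)) (XT.nd (nat_lit 78) (nat_lit 76) (nat_lit 0) (XT.lf (nat_lit 0) (nat_lit 12463870553) (nat_lit 152) (nat_lit 390616956) (nat_lit 0) (nat_lit 11518173835) (nat_lit 7) (nat_lit 5) (nat_lit 9) (nat_lit 4) (nat_lit 7) (nat_lit 4) (nat_lit 297) (nat_lit 243) (nat_lit 240)) (XT.lf (nat_lit 0) (nat_lit 6839037527) (nat_lit 76) (nat_lit 10189598562) (nat_lit 76) (nat_lit 8974173803) (nat_lit 6) (nat_lit 4) (nat_lit 7) (nat_lit 5) (nat_lit 7) (nat_lit 4) (nat_lit 298) (nat_lit 243) (nat_lit 239)))) (XT.nd (nat_lit 156) (nat_lit 152) (nat_lit 0) (XT.nd (nat_lit 78) (nat_lit 0) (nat_lit 0) (XT.lf (nat_lit 0) (nat_lit 14343122047) (nat_lit 76) (nat_lit 7449460238) (nat_lit 76) (nat_lit 5984287294) (nat_lit 6) (nat_lit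 4) (nat_lit 7) (nat_lit 5) (nat_lit 7) (nat_lit 4) (nat_lit 299) (nat_lit 243) (nat_lit 238)) (XT.lf (nat_lit 0) (nat_lit 22145536054) (nat_lit 76) (nat_lit 4628514842) (nat_lit 76) (nat_lit 2932093578) (nat_lit 6) (nat_lit 4) (nat_lit 7) (nat_lit 5) (nat_lit 7) (nat_lit 4) (nat_lit 300) (nat_lit 243) (nat_lit 237))) (XT.nd (nat_lit 78) (nat_lit 76) (nat_lit 0) (XT.lf (nat_lit 0) (nat_lit 190464875) (nat_lit 152) (nat_lit 1514373136) (nat_lit 76) (nat_lit 30096843552) (nat_lit 5) (nat_lit 5) (nat_lit 7) (nat_lit 5) (nat_lit 6) (nat_lit 4) (nat_lit 301) (nat_lit 243) (nat_lit 236)) (XT.lf (nat_lit 0) (nat_lit 3415693453) (nat_lit 152) (nat_lit 29179232168) (nat_lit 0) (nat_lit 1463102490) (nat_lit 4) (nat_lit 5) (nat_lit 6) (nat_lit 4) (nat_lit 4) (nat_lit 4) (nat_lit 302) (nat_lit 243) (nat_lit 235))))) (XT.nd (nat_lit 312) (nat_lit 76) (nat_lit 0) (XT.nd (nat_lit 156) (nat_lit 0)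 (nat_lit 0) (XT.nd (nat_lit 78) (nat_lit 0) (nat_lit 0) (XT.lf (nat_lit 0) (nat_lit 6843167834) (nat_lit 152) (nat_lit 24935723083) (nat_lit 0) (nat_lit 4720602452) (nat_lit 4) (nat_lit 5) (nat_lit 6) (nat_lit 4) (nat_lit 4) (nat_lit 4) (nat_lit 303) (nat_lit 243) (nat_lit 234)) (XT.lf (nat_lit 0) (nat_lit 10412863215) (nat_lit 152) (nat_lit 20601194815) (nat_lit 0) (nat_lit 8132914112) (nat_lit 4) (nat_lit 5) (nat_lit 6) (nat_lit 4) (nat_lit 4) (nat_lit 4) (nat_lit 304) (nat_lit 243) (nat_lit 233))) (XT.nd (nat_lit 78) (nat_lit 0) (nat_lit 0) (XT.lf (nat_lit 0) (nat_lit 14145933346) (nat_lit 152) (nat_lit 16149961271) (nat_lit 0) (nat_lit 11720258576) (nat_lit 4) (nat_lit 5) (nat_lit 6) (nat_lit 4) (nat_lit 4) (nat_lit 4) (nat_lit 305) (nat_lit 243) (nat_lit 232)) (XT.lf (nat_lit 0) (nat_lit 18064500124) (nat_lit 152) (nat_lit 11555644770) (nat_lit 0) (nat_lit 15503894181) (nat_lit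 4) (nat_lit 5) (nat_lit 6) (nat_lit 4) (nat_lit 4) (nat_lit 4) (nat_lit 306) (nat_lit 243) (nat_lit 231)))) (XT.nd (nat_lit 156) (nat_lit 76) (nat_lit 0) (XT.nd (nat_lit 78) (nat_lit 0) (nat_lit 0) (XT.lf (nat_lit 0) (nat_lit 22191784686) (nat_lit 152) (nat_lit 6791019734) (nat_lit 0) (nat_lit 19506242471) (nat_lit 4) (nat_lit 5) (nat_lit 6) (nat_lit 4) (nat_lit 4) (nat_lit 4) (nat_lit 307) (nat_lit 243) (nat_lit 230)) (XT.lf (nat_lit 0) (nat_lit 26552245015) (nat_lit 152) (nat_lit 1827851347) (nat_lit 0) (nat_lit 23751021067) (nat_lit 4) (nat_lit 5) (nat_lit 6) (nat_lit 4) (nat_lit 4) (nat_lit 4) (nat_lit 308) (nat_lit 243) (nat_lit 229))) (XT.nd (nat_lit 78) (nat_lit 0) (nat_lit 0) (XT.lf (nat_lit 0) (nat_lit 3540375690) (nat_lit 76) (nat_lit 27716491306) (nat_lit 76) (nat_lit 24808154642) (nat_lit 3) (nat_lit 4) (nat_lit 4) (nat_lit 5) (nat_lit 4) (nat_lit 4) (nat_lit 309) (nat_lit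 243) (nat_lit 228)) (XT.lf (nat_lit 0) (nat_lit 9277194644) (nat_lit 76) (nat_lit 27023509048) (nat_lit 76) (nat_lit 24015993943) (nat_lit 3) (nat_lit 4) (nat_lit 4) (nat_lit 5) (nat_lit 4) (nat_lit 4) (nat_lit 310) (nat_lit 243) (nat_lit 227))))))))
noncomputable def xc23 : XT := (XT.nd (nat_lit 2184) (nat_lit 0) (nat_lit 0) (XT.nd (nat_lit 1092) (nat_lit 152) (nat_lit 0) (XT.nd (nat_lit 546) (nat_lit 0) (nat_lit 0) (XT.nd (nat_lit 234) (nat_lit 0) (nat_lit 0) (XT.nd (nat_lit 78) (nat_lit 0) (nat_lit 0) (XT.lf (nat_lit 0) (nat_lit 15320350069) (nat_lit 76) (nat_lit 26347019722) (nat_lit 76) (nat_lit 23247672728) (nat_lit 3) (nat_lit 4) (nat_lit 4) (nat_lit 5) (nat_lit 4) (nat_lit 4) (nat_lit 311) (nat_lit 243) (nat_lit 226)) (XT.nd (nat_lit 78) (nat_lit 0) (nat_lit 0) (XT.lf (nat_lit 0) (nat_lit 21705653253) (nat_lit 76) (nat_lit 25683014503) (nat_lit 76) (nat_lit 22498637982) (nat_lit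 3) (nat_lit 4) (nat_lit 4) (nat_lit 5) (nat_lit 4) (nat_lit 4) (nat_lit 312) (nat_lit 243) (nat_lit 225)) (XT.lf (nat_lit 0) (nat_lit 28470943033) (nat_lit 76) (nat_lit 25027558545) (nat_lit 76) (nat_lit 21764450980) (nat_lit 3) (nat_lit 4) (nat_lit 4) (nat_lit 5) (nat_lit 4) (nat_lit 4) (nat_lit 313) (nat_lit 243) (nat_lit 224)))) (XT.nd (nat_lit 156) (nat_lit 0) (nat_lit 0) (XT.nd (nat_lit 78) (nat_lit 0) (nat_lit 0) (XT.lf (nat_lit 0) (nat_lit 35656310012) (nat_lit 76) (nat_lit 24376767664) (nat_lit 76) (nat_lit 21040760984) (nat_lit 3) (nat_lit 4) (nat_lit 4) (nat_lit 5) (nat_lit 4) (nat_lit 4) (nat_lit 314) (nat_lit 243) (nat_lit 223)) (XT.lf (nat_lit 0) (nat_lit 43304334145) (nat_lit 76) (nat_lit 23726785322) (nat_lit 76) (nat_lit 20323279462) (nat_lit 3) (nat_lit 4) (nat_lit 4) (nat_lit 5) (nat_lit 4) (nat_lit 4) (nat_lit 315) (nat_lit 243) (nat_lit 222))) (XT.nd (nat_lit 78)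 (nat_lit 0) (nat_lit 0) (XT.lf (nat_lit 0) (nat_lit 51460337055) (nat_lit 76) (nat_lit 23073759771) (nat_lit 76) (nat_lit 19607754671) (nat_lit 3) (nat_lit 4) (nat_lit 4) (nat_lit 5) (nat_lit 4) (nat_lit 4) (nat_lit 316) (nat_lit 243) (nat_lit 221)) (XT.lf (nat_lit 0) (nat_lit 60172650612) (nat_lit 76) (nat_lit 22413821231) (nat_lit 76) (nat_lit 18889946463) (nat_lit 3) (nat_lit 4) (nat_lit 4) (nat_lit 5) (nat_lit 4) (nat_lit 4) (nat_lit 317) (nat_lit 243) (nat_lit 220))))) (XT.nd (nat_lit 234) (nat_lit 0) (nat_lit 0) (XT.nd (nat_lit 78) (nat_lit 0) (nat_lit 0) (XT.lf (nat_lit 0) (nat_lit 69492903340) (nat_lit 76) (nat_lit 21743058955) (nat_lit 76) (nat_lit 18165601161) (nat_lit 3) (nat_lit 4) (nat_lit 4) (nat_lit 5) (nat_lit 4) (nat_lit 4) (nat_lit 318) (nat_lit 243) (nat_lit 219)) (XT.nd (nat_lit 78) (nat_lit 0) (nat_lit 0) (XT.lf (nat_lit 0) (nat_lit 79476326367) (nat_lit 76) (nat_lit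 21057498054) (nat_lit 76) (nat_lit 17430426348) (nat_lit 3) (nat_lit 4) (nat_lit 4) (nat_lit 5) (nat_lit 4) (nat_lit 4) (nat_lit 319) (nat_lit 243) (nat_lit 218)) (XT.lf (nat_lit 0) (nat_lit 90182080718) (nat_lit 76) (nat_lit 20353075947) (nat_lit 76) (nat_lit 16680065433) (nat_lit 3) (nat_lit 4) (nat_lit 4) (nat_lit 5) (nat_lit 4) (nat_lit 4) (nat_lit 320) (nat_lit 243) (nat_lit 217)))) (XT.nd (nat_lit 156) (nat_lit 0) (nat_lit 0) (XT.nd (nat_lit 78) (nat_lit 0) (nat_lit 0) (XT.lf (nat_lit 0) (nat_lit 101673607899) (nat_lit 76) (nat_lit 19625618279) (nat_lit 76) (nat_lit 15910071832) (nat_lit 3) (nat_lit 4) (nat_lit 4) (nat_lit 5) (nat_lit 4) (nat_lit 4) (nat_lit 321) (nat_lit 243) (nat_lit 216)) (XT.lf (nat_lit 0) (nat_lit 114019005851) (nat_lit 76) (nat_lit 18870814191) (nat_lit 76) (nat_lit 15115882621) (nat_lit 3) (nat_lit 4) (nat_lit 4) (nat_lit 5) (nat_lit 4) (nat_lit 4) (nat_lit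 322) (nat_lit 243) (nat_lit 215))) (XT.nd (nat_lit 78) (nat_lit 0) (nat_lit 0) (XT.lf (nat_lit 0) (nat_lit 127291432487) (nat_lit 76) (nat_lit 18084190769) (nat_lit 76) (nat_lit 14292791492) (nat_lit 3) (nat_lit 4) (nat_lit 4) (nat_lit 5) (nat_lit 4) (nat_lit 4) (nat_lit 323) (nat_lit 243) (nat_lit 214)) (XT.lf (nat_lit 0) (nat_lit 141569539224) (nat_lit 76) (nat_lit 17261086541) (nat_lit 76) (nat_lit 13435920869) (nat_lit 3) (nat_lit 4) (nat_lit 4) (nat_lit 5) (nat_lit 4) (nat_lit 4) (nat_lit 324) (nat_lit 243) (nat_lit 213)))))) (XT.nd (nat_lit 546) (nat_lit 152) (nat_lit 0) (XT.nd (nat_lit 234) (nat_lit 0) (nat_lit 0) (XT.nd (nat_lit 78) (nat_lit 0) (nat_lit 0) (XT.lf (nat_lit 0) (nat_lit 156937937065) (nat_lit 76) (nat_lit 16396623853) (nat_lit 76) (nat_lit 12540193000) (nat_lit 3) (nat_lit 4) (nat_lit 4) (nat_lit 5) (nat_lit 4) (nat_lit 4) (nat_lit 325) (nat_lit 243) (nat_lit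 212)) (XT.nd (nat_lit 78) (nat_lit 0) (nat_lit 0) (XT.lf (nat_lit 0) (nat_lit 173487697996) (nat_lit 76) (nat_lit 15485679963) (nat_lit 76) (nat_lit 11600299868) (nat_lit 3) (nat_lit 4) (nat_lit 4) (nat_lit 5) (nat_lit 4) (nat_lit 4) (nat_lit 326) (nat_lit 243) (nat_lit 211)) (XT.lf (nat_lit 0) (nat_lit 191316894677) (nat_lit 76) (nat_lit 14522856684) (nat_lit 76) (nat_lit 10610671736) (nat_lit 3) (nat_lit 4) (nat_lit 4) (nat_lit 5) (nat_lit 4) (nat_lit 4) (nat_lit 327) (nat_lit 243) (nat_lit 210)))) (XT.nd (nat_lit 156) (nat_lit 0) (nat_lit 0) (XT.nd (nat_lit 78) (nat_lit 0) (nat_lit 0) (XT.lf (nat_lit 0) (nat_lit 210531181604) (nat_lit 76) (nat_lit 13502448397) (nat_lit 76) (nat_lit 9565444141) (nat_lit 3) (nat_lit 4) (nat_lit 4) (nat_lit 5) (nat_lit 4) (nat_lit 4) (nat_lit 328) (nat_lit 243) (nat_lit 209)) (XT.lf (nat_lit 0) (nat_lit 231244421220) (nat_lit 76) (nat_lit 12418408239)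 (nat_lit 76) (nat_lit 8458423142) (nat_lit 3) (nat_lit 4) (nat_lit 4) (nat_lit 5) (nat_lit 4) (nat_lit 4) (nat_lit 329) (nat_lit 243) (nat_lit 208))) (XT.nd (nat_lit 78) (nat_lit 0) (nat_lit 0) (XT.lf (nat_lit 0) (nat_lit 253579358647) (nat_lit 76) (nat_lit 11264312268) (nat_lit 76) (nat_lit 7283048614) (nat_lit 3) (nat_lit 4) (nat_lit 4) (nat_lit 5) (nat_lit 4) (nat_lit 4) (nat_lit 330) (nat_lit 243) (nat_lit 207)) (XT.lf (nat_lit 0) (nat_lit 277668349072) (nat_lit 76) (nat_lit 10033321395) (nat_lit 76) (nat_lit 6032355374) (nat_lit 3) (nat_lit 4) (nat_lit 4) (nat_lit 5) (nat_lit 4) (nat_lit 4) (nat_lit 331) (nat_lit 243) (nat_lit 206))))) (XT.nd (nat_lit 234) (nat_lit 152) (nat_lit 0) (XT.nd (nat_lit 78) (nat_lit 0) (nat_lit 0) (XT.lf (nat_lit 0) (nat_lit 303654142066) (nat_lit 76) (nat_lit 8718140862) (nat_lit 76) (nat_lit 4698931908) (nat_lit 3) (nat_lit 4) (nat_lit 4) (nat_lit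 5) (nat_lit 4) (nat_lit 4) (nat_lit 332) (nat_lit 243) (nat_lit 205)) (XT.nd (nat_lit 78) (nat_lit 0) (nat_lit 0) (XT.lf (nat_lit 0) (nat_lit 331690727514) (nat_lit 76) (nat_lit 7310977005) (nat_lit 76) (nat_lit 3274876446) (nat_lit 3) (nat_lit 4) (nat_lit 4) (nat_lit 5) (nat_lit 4) (nat_lit 4) (nat_lit 333) (nat_lit 243) (nat_lit 204)) (XT.lf (nat_lit 0) (nat_lit 361944248145) (nat_lit 76) (nat_lit 5803491075) (nat_lit 76) (nat_lit 1751750142) (nat_lit 3) (nat_lit 4) (nat_lit 4) (nat_lit 5) (nat_lit 4) (nat_lit 4) (nat_lit 334) (nat_lit 243) (nat_lit 203)))) (XT.nd (nat_lit 156) (nat_lit 76) (nat_lit 0) (XT.nd (nat_lit 78) (nat_lit 76) (nat_lit 0) (XT.lf (nat_lit 0) (nat_lit 394593984080) (nat_lit 76) (nat_lit 4186749822) (nat_lit 76) (nat_lit 120527062) (nat_lit 3) (nat_lit 4) (nat_lit 4) (nat_lit 5) (nat_lit 4) (nat_lit 4) (nat_lit 335) (nat_lit 243) (nat_lit 202)) (XT.lf (nat_lit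 0) (nat_lit 1546997171) (nat_lit 152) (nat_lit 861877743) (nat_lit 76) (nat_lit 428244120421) (nat_lit 2) (nat_lit 5) (nat_lit 4) (nat_lit 5) (nat_lit 3) (nat_lit 4) (nat_lit 336) (nat_lit 243) (nat_lit 201))) (XT.nd (nat_lit 78) (nat_lit 0) (nat_lit 0) (XT.lf (nat_lit 0) (nat_lit 2984064815) (nat_lit 76) (nat_lit 417912352) (nat_lit 152) (nat_lit 461537805700) (nat_lit 1) (nat_lit 5) (nat_lit 2) (nat_lit 5) (nat_lit 3) (nat_lit 4) (nat_lit 337) (nat_lit 243) (nat_lit 200)) (XT.lf (nat_lit 0) (nat_lit 5460089703) (nat_lit 152) (nat_lit 494844542233) (nat_lit 0) (nat_lit 1660512077) (nat_lit 1) (nat_lit 5) (nat_lit 3) (nat_lit 4) (nat_lit 1) (nat_lit 4) (nat_lit 338) (nat_lit 243) (nat_lit 199))))))) (XT.nd (nat_lit 1092) (nat_lit 0) (nat_lit 0) (XT.nd (nat_lit 546) (nat_lit 0) (nat_lit 0) (XT.nd (nat_lit 234) (nat_lit 0) (nat_lit 0) (XT.nd (nat_lit 78) (nat_lit 0) (nat_lit 0) (XT.lf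 (nat_lit 0) (nat_lit 7683423032) (nat_lit 152) (nat_lit 530395084610) (nat_lit 0) (nat_lit 3873989317) (nat_lit 1) (nat_lit 5) (nat_lit 3) (nat_lit 4) (nat_lit 1) (nat_lit 4) (nat_lit 339) (nat_lit 243) (nat_lit 198)) (XT.nd (nat_lit 78) (nat_lit 0) (nat_lit 0) (XT.lf (nat_lit 0) (nat_lit 10075101661) (nat_lit 152) (nat_lit 568807964260) (nat_lit 0) (nat_lit 6256541938) (nat_lit 1) (nat_lit 5) (nat_lit 3) (nat_lit 4) (nat_lit 1) (nat_lit 4) (nat_lit 340) (nat_lit 243) (nat_lit 197)) (XT.lf (nat_lit 0) (nat_lit 12649298500) (nat_lit 152) (nat_lit 610310813063) (nat_lit 0) (nat_lit 8822288770) (nat_lit 1) (nat_lit 5) (nat_lit 3) (nat_lit 4) (nat_lit 1) (nat_lit 4) (nat_lit 341) (nat_lit 243) (nat_lit 196)))) (XT.nd (nat_lit 156) (nat_lit 0) (nat_lit 0) (XT.nd (nat_lit 78) (nat_lit 0) (nat_lit 0) (XT.lf (nat_lit 0) (nat_lit 15421268050) (nat_lit 152) (nat_lit 655149573828) (nat_lit 0)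 (nat_lit 11586434239) (nat_lit 1) (nat_lit 5) (nat_lit 3) (nat_lit 4) (nat_lit 1) (nat_lit 4) (nat_lit 342) (nat_lit 243) (nat_lit 195)) (XT.lf (nat_lit 0) (nat_lit 18407436797) (nat_lit 152) (nat_lit 703589957729) (nat_lit 0) (nat_lit 14565358466) (nat_lit 1) (nat_lit 5) (nat_lit 3) (nat_lit 4) (nat_lit 1) (nat_lit 4) (nat_lit 343) (nat_lit 243) (nat_lit 194))) (XT.nd (nat_lit 78) (nat_lit 0) (nat_lit 0) (XT.lf (nat_lit 0) (nat_lit 21625500555) (nat_lit 152) (nat_lit 755919018892) (nat_lit 0) (nat_lit 17776714335) (nat_lit 1) (nat_lit 5) (nat_lit 3) (nat_lit 4) (nat_lit 1) (nat_lit 4) (nat_lit 344) (nat_lit 243) (nat_lit 193)) (XT.lf (nat_lit 0) (nat_lit 25094529332) (nat_lit 152) (nat_lit 812446855459) (nat_lit 0) (nat_lit 21239532104) (nat_lit 1) (nat_lit 5) (nat_lit 3) (nat_lit 4) (nat_lit 1) (nat_lit 4) (nat_lit 345) (nat_lit 243) (nat_lit 192))))) (XT.nd (nat_lit 234) (nat_lit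 0) (nat_lit 0) (XT.nd (nat_lit 78) (nat_lit 0) (nat_lit 0) (XT.lf (nat_lit 0) (nat_lit 28835080335) (nat_lit 152) (nat_lit 873508447201) (nat_lit 0) (nat_lit 24974332174) (nat_lit 1) (nat_lit 5) (nat_lit 3) (nat_lit 4) (nat_lit 1) (nat_lit 4) (nat_lit 346) (nat_lit 243) (nat_lit 191)) (XT.nd (nat_lit 78) (nat_lit 0) (nat_lit 0) (XT.lf (nat_lit 0) (nat_lit 32869319792) (nat_lit 152) (nat_lit 939465640588) (nat_lit 0) (nat_lit 29003246693) (nat_lit 1) (nat_lit 5) (nat_lit 3) (nat_lit 4) (nat_lit 1) (nat_lit 4) (nat_lit 347) (nat_lit 243) (nat_lit 190)) (XT.lf (nat_lit 0) (nat_lit 37221154309) (nat_lit 152) (nat_lit 1010709293062) (nat_lit 0) (nat_lit 33350150711) (nat_lit 1) (nat_lit 5) (nat_lit 3) (nat_lit 4) (nat_lit 1) (nat_lit 4) (nat_lit 348) (nat_lit 243) (nat_lit 189)))) (XT.nd (nat_lit 156) (nat_lit 0) (nat_lit 0) (XT.nd (nat_lit 78) (nat_lit 0) (nat_lit 0) (XT.lf (nat_lit 0)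 (nat_lit 41916372533) (nat_lit 152) (nat_lit 1087661589230) (nat_lit 0) (nat_lit 38040803659) (nat_lit 1) (nat_lit 5) (nat_lit 3) (nat_lit 4) (nat_lit 1) (nat_lit 4) (nat_lit 349) (nat_lit 243) (nat_lit 188)) (XT.lf (nat_lit 0) (nat_lit 46982797980) (nat_lit 152) (nat_lit 1170778542700) (nat_lit 0) (nat_lit 43103001999) (nat_lit 1) (nat_lit 5) (nat_lit 3) (nat_lit 4) (nat_lit 1) (nat_lit 4) (nat_lit 350) (nat_lit 243) (nat_lit 187))) (XT.nd (nat_lit 78) (nat_lit 0) (nat_lit 0) (XT.lf (nat_lit 0) (nat_lit 52450453912) (nat_lit 152) (nat_lit 1260552698380) (nat_lit 0) (nat_lit 48566743942) (nat_lit 1) (nat_lit 5) (nat_lit 3) (nat_lit 4) (nat_lit 1) (nat_lit 4) (nat_lit 351) (nat_lit 243) (nat_lit 186)) (XT.lf (nat_lit 0) (nat_lit 58351741253) (nat_lit 152) (nat_lit 1357516051268) (nat_lit 0) (nat_lit 54464407220) (nat_lit 1) (nat_lit 5) (nat_lit 3) (nat_lit 4) (nat_lit 1) (nat_lit 4)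 (nat_lit 352) (nat_lit 243) (nat_lit 185)))))) (XT.nd (nat_lit 546) (nat_lit 0) (nat_lit 0) (XT.nd (nat_lit 234) (nat_lit 0) (nat_lit 0) (XT.nd (nat_lit 78) (nat_lit 0) (nat_lit 0) (XT.lf (nat_lit 0) (nat_lit 64721630595) (nat_lit 152) (nat_lit 1462243199010) (nat_lit 0) (nat_lit 60830940948) (nat_lit 1) (nat_lit 5) (nat_lit 3) (nat_lit 4) (nat_lit 1) (nat_lit 4) (nat_lit 353) (nat_lit 243) (nat_lit 184)) (XT.nd (nat_lit 78) (nat_lit 0) (nat_lit 0) (XT.lf (nat_lit 0) (nat_lit 71597869430) (nat_lit 152) (nat_lit 1575354746927) (nat_lit 0) (nat_lit 67704072733) (nat_lit 1) (nat_lit 5) (nat_lit 3) (nat_lit 4) (nat_lit 1) (nat_lit 4) (nat_lit 354) (nat_lit 243) (nat_lit 183)) (XT.lf (nat_lit 0) (nat_lit 79021205841) (nat_lit 152) (nat_lit 1697520985671) (nat_lit 0) (nat_lit 75124532245) (nat_lit 1) (nat_lit 5) (nat_lit 3) (nat_lit 4) (nat_lit 1) (nat_lit 4) (nat_lit 355) (nat_lit 243)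 (nat_lit 182)))) (XT.nd (nat_lit 156) (nat_lit 0) (nat_lit 0) (XT.nd (nat_lit 78) (nat_lit 0) (nat_lit 0) (XT.lf (nat_lit 0) (nat_lit 87035629968) (nat_lit 152) (nat_lit 1829465863326) (nat_lit 0) (nat_lit 83136292577) (nat_lit 1) (nat_lit 5) (nat_lit 3) (nat_lit 4) (nat_lit 1) (nat_lit 4) (nat_lit 356) (nat_lit 243) (nat_lit 181)) (XT.lf (nat_lit 0) (nat_lit 95688634695) (nat_lit 152) (nat_lit 1971971275462) (nat_lit 0) (nat_lit 91786830828) (nat_lit 1) (nat_lit 5) (nat_lit 3) (nat_lit 4) (nat_lit 1) (nat_lit 4) (nat_lit 357) (nat_lit 243) (nat_lit 180))) (XT.nd (nat_lit 78) (nat_lit 0) (nat_lit 0) (XT.lf (nat_lit 0) (nat_lit 105031497088) (nat_lit 152) (nat_lit 2125881698595) (nat_lit 0) (nat_lit 101127409446) (nat_lit 1) (nat_lit 5) (nat_lit 3) (nat_lit 4) (nat_lit 1) (nat_lit 4) (nat_lit 358) (nat_lit 243) (nat_lit 179)) (XT.lf (nat_lit 0) (nat_lit 115119582257) (nat_lit 152) (nat_lit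 2292109194493) (nat_lit 0) (nat_lit 111213380009) (nat_lit 1) (nat_lit 5) (nat_lit 3) (nat_lit 4) (nat_lit 1) (nat_lit 4) (nat_lit 359) (nat_lit 243) (nat_lit 178))))) (XT.nd (nat_lit 312) (nat_lit 0) (nat_lit 0) (XT.nd (nat_lit 156) (nat_lit 0) (nat_lit 0) (XT.nd (nat_lit 78) (nat_lit 0) (nat_lit 0) (XT.lf (nat_lit 0) (nat_lit 126012671448) (nat_lit 152) (nat_lit 2471638814982) (nat_lit 0) (nat_lit 122104511231) (nat_lit 1) (nat_lit 5) (nat_lit 3) (nat_lit 4) (nat_lit 1) (nat_lit 4) (nat_lit 360) (nat_lit 243) (nat_lit 177)) (XT.lf (nat_lit 0) (nat_lit 137775316300) (nat_lit 152) (nat_lit 2665534439296) (nat_lit 0) (nat_lit 133865343149) (nat_lit 1) (nat_lit 5) (nat_lit 3) (nat_lit 4) (nat_lit 1) (nat_lit 4) (nat_lit 361) (nat_lit 243) (nat_lit 176))) (XT.nd (nat_lit 78) (nat_lit 0) (nat_lit 0) (XT.lf (nat_lit 0) (nat_lit 150477221375) (nat_lit 152) (nat_lit 2874945078541) (nat_lit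 0) (nat_lit 146565569581) (nat_lit 1) (nat_lit 5) (nat_lit 3) (nat_lit 4) (nat_lit 1) (nat_lit 4) (nat_lit 362) (nat_lit 243) (nat_lit 175)) (XT.lf (nat_lit 0) (nat_lit 164193657222) (nat_lit 152) (nat_lit 3101111684654) (nat_lit 0) (nat_lit 160280451129) (nat_lit 1) (nat_lit 5) (nat_lit 3) (nat_lit 4) (nat_lit 1) (nat_lit 4) (nat_lit 363) (nat_lit 243) (nat_lit 174)))) (XT.nd (nat_lit 35022) (nat_lit 0) (nat_lit 608) (XT.nd (nat_lit 78) (nat_lit 0) (nat_lit 0) (XT.lf (nat_lit 0) (nat_lit 179005906423) (nat_lit 152) (nat_lit 3345374504189) (nat_lit 0) (nat_lit 175091261165) (nat_lit 1) (nat_lit 5) (nat_lit 3) (nat_lit 4) (nat_lit 1) (nat_lit 4) (nat_lit 364) (nat_lit 243) (nat_lit 173)) (XT.lf (nat_lit 0) (nat_lit 195001745271) (nat_lit 152) (nat_lit 3609181020522) (nat_lit 0) (nat_lit 191085767452) (nat_lit 1) (nat_lit 5) (nat_lit 3) (nat_lit 4) (nat_lit 1) (nat_lit 4) (nat_lit 365)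 (nat_lit 243) (nat_lit 172))) (XT.nd (nat_lit 78) (nat_lit 0) (nat_lit 0) (XT.lf (nat_lit 0) (nat_lit 1972441967) (nat_lit 76) (nat_lit 3502380203) (nat_lit 76) (nat_lit 3502380203) (nat_lit 9) (nat_lit 4) (nat_lit 10) (nat_lit 5) (nat_lit 10) (nat_lit 4) (nat_lit 292) (nat_lit 244) (nat_lit 244)) (XT.lf (nat_lit 0) (nat_lit 11963057689) (nat_lit 76) (nat_lit 3736622703) (nat_lit 76) (nat_lit 3340303720) (nat_lit 9) (nat_lit 4) (nat_lit 10) (nat_lit 5) (nat_lit 10) (nat_lit 4) (nat_lit 293) (nat_lit 244) (nat_lit 243))))))))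
noncomputable def xc24 : XT := (XT.nd (nat_lit 2184) (nat_lit 152) (nat_lit 0) (XT.nd (nat_lit 1092) (nat_lit 76) (nat_lit 0) (XT.nd (nat_lit 546) (nat_lit 152) (nat_lit 0) (XT.nd (nat_lit 234) (nat_lit 76) (nat_lit 0) (XT.nd (nat_lit 78) (nat_lit 0) (nat_lit 0) (XT.lf (nat_lit 0) (nat_lit 8655795) (nat_lit 76) (nat_lit 362467665) (nat_lit 152) (nat_lit 19857621346) (nat_lit 7) (nat_lit 5) (nat_lit 8) (nat_lit 5) (nat_lit 9) (nat_lit 4) (nat_lit 294) (nat_lit 244) (nat_lit 242)) (XT.nd (nat_lit 78) (nat_lit 0) (nat_lit 0) (XT.lf (nat_lit 0) (nat_lit 4263760697) (nat_lit 152) (nat_lit 13994591942) (nat_lit 0) (nat_lit 3242408241) (nat_lit 7) (nat_lit 5) (nat_lit 9) (nat_lit 4) (nat_lit 7) (nat_lit 4) (nat_lit 295) (nat_lit 244) (nat_lit 241)) (XT.lf (nat_lit 0) (nat_lit 8280292578) (nat_lit 152) (nat_lit 7641868813) (nat_lit 0) (nat_lit 6967633838) (nat_lit 7) (nat_lit 5) (nat_lit 9)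 (nat_lit 4) (nat_lit 7) (nat_lit 4) (nat_lit 296) (nat_lit 244) (nat_lit 240)))) (XT.nd (nat_lit 156) (nat_lit 0) (nat_lit 0) (XT.nd (nat_lit 78) (nat_lit 76) (nat_lit 0) (XT.lf (nat_lit 0) (nat_lit 12435803418) (nat_lit 152) (nat_lit 1115556502) (nat_lit 0) (nat_lit 10853416639) (nat_lit 7) (nat_lit 5) (nat_lit 9) (nat_lit 4) (nat_lit 7) (nat_lit 4) (nat_lit 297) (nat_lit 244) (nat_lit 239)) (XT.lf (nat_lit 0) (nat_lit 5919117673) (nat_lit 76) (nat_lit 10978155717) (nat_lit 76) (nat_lit 9146020752) (nat_lit 6) (nat_lit 4) (nat_lit 7) (nat_lit 5) (nat_lit 7) (nat_lit 4) (nat_lit 298) (nat_lit 244) (nat_lit 238))) (XT.nd (nat_lit 78) (nat_lit 0) (nat_lit 0) (XT.lf (nat_lit 0) (nat_lit 13278011195) (nat_lit 76) (nat_lit 8304557774) (nat_lit 76) (nat_lit 6241174490) (nat_lit 6) (nat_lit 4) (nat_lit 7) (nat_lit 5) (nat_lit 7) (nat_lit 4) (nat_lit 299) (nat_lit 244) (nat_lit 237)) (XT.lf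 (nat_lit 0) (nat_lit 20945989093) (nat_lit 76) (nat_lit 5545223842) (nat_lit 76) (nat_lit 3267721743) (nat_lit 6) (nat_lit 4) (nat_lit 7) (nat_lit 5) (nat_lit 7) (nat_lit 4) (nat_lit 300) (nat_lit 244) (nat_lit 236))))) (XT.nd (nat_lit 234) (nat_lit 0) (nat_lit 0) (XT.nd (nat_lit 78) (nat_lit 152) (nat_lit 0) (XT.lf (nat_lit 0) (nat_lit 28968491237) (nat_lit 76) (nat_lit 2683802312) (nat_lit 76) (nat_lit 208042051) (nat_lit 6) (nat_lit 4) (nat_lit 7) (nat_lit 5) (nat_lit 7) (nat_lit 4) (nat_lit 301) (nat_lit 244) (nat_lit 235)) (XT.nd (nat_lit 78) (nat_lit 0) (nat_lit 0) (XT.lf (nat_lit 0) (nat_lit 2899744550) (nat_lit 152) (nat_lit 30790238001) (nat_lit 0) (nat_lit 437399520) (nat_lit 4) (nat_lit 5) (nat_lit 6) (nat_lit 4) (nat_lit 4) (nat_lit 4) (nat_lit 302) (nat_lit 244) (nat_lit 234)) (XT.lf (nat_lit 0) (nat_lit 6263768474) (nat_lit 152) (nat_lit 26666181581) (nat_lit 0) (nat_lit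 3644039723) (nat_lit 4) (nat_lit 5) (nat_lit 6) (nat_lit 4) (nat_lit 4) (nat_lit 4) (nat_lit 303) (nat_lit 244) (nat_lit 233)))) (XT.nd (nat_lit 156) (nat_lit 0) (nat_lit 0) (XT.nd (nat_lit 78) (nat_lit 0) (nat_lit 0) (XT.lf (nat_lit 0) (nat_lit 9774713432) (nat_lit 152) (nat_lit 22442257633) (nat_lit 0) (nat_lit 7009259013) (nat_lit 4) (nat_lit 5) (nat_lit 6) (nat_lit 4) (nat_lit 4) (nat_lit 4) (nat_lit 304) (nat_lit 244) (nat_lit 232)) (XT.lf (nat_lit 0) (nat_lit 13453385023) (nat_lit 152) (nat_lit 18093435496) (nat_lit 0) (nat_lit 10552999431) (nat_lit 4) (nat_lit 5) (nat_lit 6) (nat_lit 4) (nat_lit 4) (nat_lit 4) (nat_lit 305) (nat_lit 244) (nat_lit 231))) (XT.nd (nat_lit 78) (nat_lit 0) (nat_lit 0) (XT.lf (nat_lit 0) (nat_lit 17321582783) (nat_lit 152) (nat_lit 13593944373) (nat_lit 0) (nat_lit 14296260919) (nat_lit 4) (nat_lit 5) (nat_lit 6) (nat_lit 4) (nat_lit 4) (nat_lit 4)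 (nat_lit 306) (nat_lit 244) (nat_lit 230)) (XT.lf (nat_lit 0) (nat_lit 21402229365) (nat_lit 152) (nat_lit 8917120611) (nat_lit 0) (nat_lit 18261225768) (nat_lit 4) (nat_lit 5) (nat_lit 6) (nat_lit 4) (nat_lit 4) (nat_lit 4) (nat_lit 307) (nat_lit 244) (nat_lit 229)))))) (XT.nd (nat_lit 546) (nat_lit 0) (nat_lit 0) (XT.nd (nat_lit 234) (nat_lit 0) (nat_lit 0) (XT.nd (nat_lit 78) (nat_lit 76) (nat_lit 0) (XT.lf (nat_lit 0) (nat_lit 25719506379) (nat_lit 152) (nat_lit 4035249701) (nat_lit 0) (nat_lit 22471390066) (nat_lit 4) (nat_lit 5) (nat_lit 6) (nat_lit 4) (nat_lit 4) (nat_lit 4) (nat_lit 308) (nat_lit 244) (nat_lit 228)) (XT.nd (nat_lit 78) (nat_lit 0) (nat_lit 0) (XT.lf (nat_lit 0) (nat_lit 1137500337) (nat_lit 76) (nat_lit 29188854261) (nat_lit 76) (nat_lit 25841559508) (nat_lit 3) (nat_lit 4) (nat_lit 4) (nat_lit 5) (nat_lit 4) (nat_lit 4) (nat_lit 309) (nat_lit 244) (nat_lit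 227)) (XT.lf (nat_lit 0) (nat_lit 6800949558) (nat_lit 76) (nat_lit 28530454462) (nat_lit 76) (nat_lit 25091327819) (nat_lit 3) (nat_lit 4) (nat_lit 4) (nat_lit 5) (nat_lit 4) (nat_lit 4) (nat_lit 310) (nat_lit 244) (nat_lit 226)))) (XT.nd (nat_lit 156) (nat_lit 0) (nat_lit 0) (XT.nd (nat_lit 78) (nat_lit 0) (nat_lit 0) (XT.lf (nat_lit 0) (nat_lit 12776170043) (nat_lit 76) (nat_lit 27885985930) (nat_lit 76) (nat_lit 24361829760) (nat_lit 3) (nat_lit 4) (nat_lit 4) (nat_lit 5) (nat_lit 4) (nat_lit 4) (nat_lit 311) (nat_lit 244) (nat_lit 225)) (XT.lf (nat_lit 0) (nat_lit 19098570506) (nat_lit 76) (nat_lit 27251629595) (nat_lit 76) (nat_lit 23648742381) (nat_lit 3) (nat_lit 4) (nat_lit 4) (nat_lit 5) (nat_lit 4) (nat_lit 4) (nat_lit 312) (nat_lit 244) (nat_lit 224))) (XT.nd (nat_lit 78) (nat_lit 0) (nat_lit 0) (XT.lf (nat_lit 0) (nat_lit 25805617025) (nat_lit 76) (nat_lit 26623626307)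 (nat_lit 76) (nat_lit 22947839979) (nat_lit 3) (nat_lit 4) (nat_lit 4) (nat_lit 5) (nat_lit 4) (nat_lit 4) (nat_lit 313) (nat_lit 244) (nat_lit 223)) (XT.lf (nat_lit 0) (nat_lit 32937055060) (nat_lit 76) (nat_lit 25998254565) (nat_lit 76) (nat_lit 22254969057) (nat_lit 3) (nat_lit 4) (nat_lit 4) (nat_lit 5) (nat_lit 4) (nat_lit 4) (nat_lit 314) (nat_lit 244) (nat_lit 222))))) (XT.nd (nat_lit 234) (nat_lit 0) (nat_lit 0) (XT.nd (nat_lit 78) (nat_lit 0) (nat_lit 0) (XT.lf (nat_lit 0) (nat_lit 40535144984) (nat_lit 76) (nat_lit 25371808463) (nat_lit 76) (nat_lit 21566023713) (nat_lit 3) (nat_lit 4) (nat_lit 4) (nat_lit 5) (nat_lit 4) (nat_lit 4) (nat_lit 315) (nat_lit 244) (nat_lit 221)) (XT.nd (nat_lit 78) (nat_lit 0) (nat_lit 0) (XT.lf (nat_lit 0) (nat_lit 48644912516) (nat_lit 76) (nat_lit 24740575727) (nat_lit 76) (nat_lit 20876921310) (nat_lit 3) (nat_lit 4) (nat_lit 4) (nat_lit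 5) (nat_lit 4) (nat_lit 4) (nat_lit 316) (nat_lit 244) (nat_lit 220)) (XT.lf (nat_lit 0) (nat_lit 57314415538) (nat_lit 76) (nat_lit 24100815719) (nat_lit 76) (nat_lit 20183578277) (nat_lit 3) (nat_lit 4) (nat_lit 4) (nat_lit 5) (nat_lit 4) (nat_lit 4) (nat_lit 317) (nat_lit 244) (nat_lit 219)))) (XT.nd (nat_lit 156) (nat_lit 0) (nat_lit 0) (XT.nd (nat_lit 78) (nat_lit 0) (nat_lit 0) (XT.lf (nat_lit 0) (nat_lit 66595028882) (nat_lit 76) (nat_lit 23448737269) (nat_lit 76) (nat_lit 19481885914) (nat_lit 3) (nat_lit 4) (nat_lit 4) (nat_lit 5) (nat_lit 4) (nat_lit 4) (nat_lit 318) (nat_lit 244) (nat_lit 218)) (XT.lf (nat_lit 0) (nat_lit 76541748775) (nat_lit 76) (nat_lit 22780476207) (nat_lit 76) (nat_lit 18767686044) (nat_lit 3) (nat_lit 4) (nat_lit 4) (nat_lit 5) (nat_lit 4) (nat_lit 4) (nat_lit 319) (nat_lit 244) (nat_lit 217))) (XT.nd (nat_lit 78) (nat_lit 0) (nat_lit 0) (XT.lf (nat_lit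 0) (nat_lit 87213518742) (nat_lit 76) (nat_lit 22092072469) (nat_lit 76) (nat_lit 18036746373) (nat_lit 3) (nat_lit 4) (nat_lit 4) (nat_lit 5) (nat_lit 4) (nat_lit 4) (nat_lit 320) (nat_lit 244) (nat_lit 216)) (XT.lf (nat_lit 0) (nat_lit 98673578903) (nat_lit 76) (nat_lit 21379446625) (nat_lit 76) (nat_lit 17284735406) (nat_lit 3) (nat_lit 4) (nat_lit 4) (nat_lit 5) (nat_lit 4) (nat_lit 4) (nat_lit 321) (nat_lit 244) (nat_lit 215))))))) (XT.nd (nat_lit 1092) (nat_lit 152) (nat_lit 0) (XT.nd (nat_lit 546) (nat_lit 0) (nat_lit 0) (XT.nd (nat_lit 234) (nat_lit 0) (nat_lit 0) (XT.nd (nat_lit 78) (nat_lit 0) (nat_lit 0) (XT.lf (nat_lit 0) (nat_lit 110989840724) (nat_lit 76) (nat_lit 20638375707) (nat_lit 76) (nat_lit 16507196780) (nat_lit 3) (nat_lit 4) (nat_lit 4) (nat_lit 5) (nat_lit 4) (nat_lit 4) (nat_lit 322) (nat_lit 244) (nat_lit 214)) (XT.nd (nat_lit 78) (nat_lit 0) (nat_lit 0)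 (XT.lf (nat_lit 0) (nat_lit 124235289461) (nat_lit 76) (nat_lit 19864468183) (nat_lit 76) (nat_lit 15699522862) (nat_lit 3) (nat_lit 4) (nat_lit 4) (nat_lit 5) (nat_lit 4) (nat_lit 4) (nat_lit 323) (nat_lit 244) (nat_lit 213)) (XT.lf (nat_lit 0) (nat_lit 138488416661) (nat_lit 76) (nat_lit 19053137935) (nat_lit 76) (nat_lit 14856927433) (nat_lit 3) (nat_lit 4) (nat_lit 4) (nat_lit 5) (nat_lit 4) (nat_lit 4) (nat_lit 324) (nat_lit 244) (nat_lit 212)))) (XT.nd (nat_lit 156) (nat_lit 0) (nat_lit 0) (XT.nd (nat_lit 78) (nat_lit 0) (nat_lit 0) (XT.lf (nat_lit 0) (nat_lit 153833685302) (nat_lit 76) (nat_lit 18199577080) (nat_lit 76) (nat_lit 13974417336) (nat_lit 3) (nat_lit 4) (nat_lit 4) (nat_lit 5) (nat_lit 4) (nat_lit 4) (nat_lit 325) (nat_lit 244) (nat_lit 211)) (XT.lf (nat_lit 0) (nat_lit 170362030308) (nat_lit 76) (nat_lit 17298727479) (nat_lit 76) (nat_lit 13046762883) (nat_lit 3)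 (nat_lit 4) (nat_lit 4) (nat_lit 5) (nat_lit 4) (nat_lit 4) (nat_lit 326) (nat_lit 244) (nat_lit 210))) (XT.nd (nat_lit 78) (nat_lit 0) (nat_lit 0) (XT.lf (nat_lit 0) (nat_lit 188171397427) (nat_lit 76) (nat_lit 16345250765) (nat_lit 76) (nat_lit 12068466860) (nat_lit 3) (nat_lit 4) (nat_lit 4) (nat_lit 5) (nat_lit 4) (nat_lit 4) (nat_lit 327) (nat_lit 244) (nat_lit 209)) (XT.lf (nat_lit 0) (nat_lit 207367323649) (nat_lit 76) (nat_lit 15333496705) (nat_lit 76) (nat_lit 11033731959) (nat_lit 3) (nat_lit 4) (nat_lit 4) (nat_lit 5) (nat_lit 4) (nat_lit 4) (nat_lit 328) (nat_lit 244) (nat_lit 208))))) (XT.nd (nat_lit 234) (nat_lit 0) (nat_lit 0) (XT.nd (nat_lit 78) (nat_lit 0) (nat_lit 0) (XT.lf (nat_lit 0) (nat_lit 228063562612) (nat_lit 76) (nat_lit 14257469720) (nat_lit 76) (nat_lit 9936426417) (nat_lit 3) (nat_lit 4) (nat_lit 4) (nat_lit 5) (nat_lit 4) (nat_lit 4) (nat_lit 329) (nat_lit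 244) (nat_lit 207)) (XT.nd (nat_lit 78) (nat_lit 0) (nat_lit 0) (XT.lf (nat_lit 0) (nat_lit 250382758695) (nat_lit 76) (nat_lit 13110793352) (nat_lit 76) (nat_lit 8770047682) (nat_lit 3) (nat_lit 4) (nat_lit 4) (nat_lit 5) (nat_lit 4) (nat_lit 4) (nat_lit 330) (nat_lit 244) (nat_lit 206)) (XT.lf (nat_lit 0) (nat_lit 274457173800) (nat_lit 76) (nat_lit 11886672484) (nat_lit 76) (nat_lit 7527683881) (nat_lit 3) (nat_lit 4) (nat_lit 4) (nat_lit 5) (nat_lit 4) (nat_lit 4) (nat_lit 331) (nat_lit 244) (nat_lit 205)))) (XT.nd (nat_lit 156) (nat_lit 0) (nat_lit 0) (XT.nd (nat_lit 78) (nat_lit 0) (nat_lit 0) (XT.lf (nat_lit 0) (nat_lit 300429471128) (nat_lit 76) (nat_lit 10577853066) (nat_lit 76) (nat_lit 6201972858) (nat_lit 3) (nat_lit 4) (nat_lit 4) (nat_lit 5) (nat_lit 4) (nat_lit 4) (nat_lit 332) (nat_lit 244) (nat_lit 204)) (XT.lf (nat_lit 0) (nat_lit 328453560589) (nat_lit 76) (nat_lit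 9176579129) (nat_lit 76) (nat_lit 4785058548) (nat_lit 3) (nat_lit 4) (nat_lit 4) (nat_lit 5) (nat_lit 4) (nat_lit 4) (nat_lit 333) (nat_lit 244) (nat_lit 203))) (XT.nd (nat_lit 78) (nat_lit 0) (nat_lit 0) (XT.lf (nat_lit 0) (nat_lit 358695510861) (nat_lit 76) (nat_lit 7674546830) (nat_lit 76) (nat_lit 3268544421) (nat_lit 3) (nat_lit 4) (nat_lit 4) (nat_lit 5) (nat_lit 4) (nat_lit 4) (nat_lit 334) (nat_lit 244) (nat_lit 202)) (XT.lf (nat_lit 0) (nat_lit 391334533502) (nat_lit 76) (nat_lit 6062855236) (nat_lit 76) (nat_lit 1643443726) (nat_lit 3) (nat_lit 4) (nat_lit 4) (nat_lit 5) (nat_lit 4) (nat_lit 4) (nat_lit 335) (nat_lit 244) (nat_lit 201)))))) (XT.nd (nat_lit 546) (nat_lit 0) (nat_lit 0) (XT.nd (nat_lit 234) (nat_lit 0) (nat_lit 0) (XT.nd (nat_lit 78) (nat_lit 76) (nat_lit 0) (XT.lf (nat_lit 0) (nat_lit 94877670) (nat_lit 152) (nat_lit 4234481787) (nat_lit 76) (nat_lit 426466573147)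 (nat_lit 2) (nat_lit 5) (nat_lit 4) (nat_lit 5) (nat_lit 3) (nat_lit 4) (nat_lit 336) (nat_lit 244) (nat_lit 200)) (XT.nd (nat_lit 78) (nat_lit 76) (nat_lit 0) (XT.lf (nat_lit 0) (nat_lit 1873104451) (nat_lit 152) (nat_lit 547266226) (nat_lit 76) (nat_lit 462668494209) (nat_lit 2) (nat_lit 5) (nat_lit 4) (nat_lit 5) (nat_lit 3) (nat_lit 4) (nat_lit 337) (nat_lit 244) (nat_lit 199)) (XT.lf (nat_lit 0) (nat_lit 3596641313) (nat_lit 76) (nat_lit 273843962) (nat_lit 152) (nat_lit 498248603452) (nat_lit 1) (nat_lit 5) (nat_lit 2) (nat_lit 5) (nat_lit 3) (nat_lit 4) (nat_lit 338) (nat_lit 244) (nat_lit 198)))) (XT.nd (nat_lit 156) (nat_lit 0) (nat_lit 0) (XT.nd (nat_lit 78) (nat_lit 0) (nat_lit 0) (XT.lf (nat_lit 0) (nat_lit 6082655071) (nat_lit 152) (nat_lit 534075198974) (nat_lit 0) (nat_lit 1949484562) (nat_lit 1) (nat_lit 5) (nat_lit 3) (nat_lit 4) (nat_lit 1) (nat_lit 4) (nat_lit 339)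 (nat_lit 244) (nat_lit 197)) (XT.lf (nat_lit 0) (nat_lit 8470095200) (nat_lit 152) (nat_lit 572496222269) (nat_lit 0) (nat_lit 4328474683) (nat_lit 1) (nat_lit 5) (nat_lit 3) (nat_lit 4) (nat_lit 1) (nat_lit 4) (nat_lit 340) (nat_lit 244) (nat_lit 196))) (XT.nd (nat_lit 78) (nat_lit 0) (nat_lit 0) (XT.lf (nat_lit 0) (nat_lit 11040367503) (nat_lit 152) (nat_lit 614006611484) (nat_lit 0) (nat_lit 6890922905) (nat_lit 1) (nat_lit 5) (nat_lit 3) (nat_lit 4) (nat_lit 1) (nat_lit 4) (nat_lit 341) (nat_lit 244) (nat_lit 195)) (XT.lf (nat_lit 0) (nat_lit 13808703222) (nat_lit 152) (nat_lit 658852354112) (nat_lit 0) (nat_lit 9652014105) (nat_lit 1) (nat_lit 5) (nat_lit 3) (nat_lit 4) (nat_lit 1) (nat_lit 4) (nat_lit 342) (nat_lit 244) (nat_lit 194))))) (XT.nd (nat_lit 234) (nat_lit 0) (nat_lit 0) (XT.nd (nat_lit 78) (nat_lit 0) (nat_lit 0) (XT.lf (nat_lit 0) (nat_lit 16791507311) (nat_lit 152)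 (nat_lit 707299202701) (nat_lit 0) (nat_lit 12628110305) (nat_lit 1) (nat_lit 5) (nat_lit 3) (nat_lit 4) (nat_lit 1) (nat_lit 4) (nat_lit 343) (nat_lit 244) (nat_lit 193)) (XT.nd (nat_lit 78) (nat_lit 0) (nat_lit 0) (XT.lf (nat_lit 0) (nat_lit 20006455645) (nat_lit 152) (nat_lit 759634249686) (nat_lit 0) (nat_lit 15836847631) (nat_lit 1) (nat_lit 5) (nat_lit 3) (nat_lit 4) (nat_lit 1) (nat_lit 4) (nat_lit 344) (nat_lit 244) (nat_lit 192)) (XT.lf (nat_lit 0) (nat_lit 23472599770) (nat_lit 152) (nat_lit 816167628681) (nat_lit 0) (nat_lit 19297240823) (nat_lit 1) (nat_lit 5) (nat_lit 3) (nat_lit 4) (nat_lit 1) (nat_lit 4) (nat_lit 345) (nat_lit 244) (nat_lit 191)))) (XT.nd (nat_lit 156) (nat_lit 0) (nat_lit 0) (XT.nd (nat_lit 78) (nat_lit 0) (nat_lit 0) (XT.lf (nat_lit 0) (nat_lit 27210479799) (nat_lit 152) (nat_lit 877234352300) (nat_lit 0) (nat_lit 23029795914) (nat_lit 1) (nat_lit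 5) (nat_lit 3) (nat_lit 4) (nat_lit 1) (nat_lit 4) (nat_lit 346) (nat_lit 244) (nat_lit 190)) (XT.lf (nat_lit 0) (nat_lit 31242246132) (nat_lit 152) (nat_lit 943196297426) (nat_lit 0) (nat_lit 27056631749) (nat_lit 1) (nat_lit 5) (nat_lit 3) (nat_lit 4) (nat_lit 1) (nat_lit 4) (nat_lit 347) (nat_lit 244) (nat_lit 189))) (XT.nd (nat_lit 78) (nat_lit 0) (nat_lit 0) (XT.lf (nat_lit 0) (nat_lit 35591790719) (nat_lit 152) (nat_lit 1014444349657) (nat_lit 0) (nat_lit 31401611060) (nat_lit 1) (nat_lit 5) (nat_lit 3) (nat_lit 4) (nat_lit 1) (nat_lit 4) (nat_lit 348) (nat_lit 244) (nat_lit 188)) (XT.lf (nat_lit 0) (nat_lit 40284888638) (nat_lit 152) (nat_lit 1091400719676) (nat_lit 0) (nat_lit 36090481871) (nat_lit 1) (nat_lit 5) (nat_lit 3) (nat_lit 4) (nat_lit 1) (nat_lit 4) (nat_lit 349) (nat_lit 244) (nat_lit 187))))))))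
noncomputable def xc25 : XT := (XT.nd (nat_lit 36894) (nat_lit 0) (nat_lit 152) (XT.nd (nat_lit 1092) (nat_lit 0) (nat_lit 0) (XT.nd (nat_lit 546) (nat_lit 0) (nat_lit 0) (XT.nd (nat_lit 234) (nat_lit 0) (nat_lit 0) (XT.nd (nat_lit 78) (nat_lit 0) (nat_lit 0) (XT.lf (nat_lit 0) (nat_lit 45349350840) (nat_lit 152) (nat_lit 1174521445229) (nat_lit 0) (nat_lit 41151030084) (nat_lit 1) (nat_lit 5) (nat_lit 3) (nat_lit 4) (nat_lit 1) (nat_lit 4) (nat_lit 350) (nat_lit 244) (nat_lit 186)) (XT.nd (nat_lit 78) (nat_lit 0) (nat_lit 0) (XT.lf (nat_lit 0) (nat_lit 50815188952) (nat_lit 152) (nat_lit 1264299093579) (nat_lit 0) (nat_lit 46613244133) (nat_lit 1) (nat_lit 5) (nat_lit 3) (nat_lit 4) (nat_lit 1) (nat_lit 4) (nat_lit 351) (nat_lit 244) (nat_lit 185)) (XT.lf (nat_lit 0) (nat_lit 56714793127) (nat_lit 152) (nat_lit 1361265680421) (nat_lit 0) (nat_lit 52509492693) (nat_lit 1) (nat_lit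 5) (nat_lit 3) (nat_lit 4) (nat_lit 1) (nat_lit 4) (nat_lit 352) (nat_lit 244) (nat_lit 184)))) (XT.nd (nat_lit 156) (nat_lit 0) (nat_lit 0) (XT.nd (nat_lit 78) (nat_lit 0) (nat_lit 0) (XT.lf (nat_lit 0) (nat_lit 63083123981) (nat_lit 152) (nat_lit 1465995822564) (nat_lit 0) (nat_lit 58874716497) (nat_lit 1) (nat_lit 5) (nat_lit 3) (nat_lit 4) (nat_lit 1) (nat_lit 4) (nat_lit 353) (nat_lit 244) (nat_lit 183)) (XT.lf (nat_lit 0) (nat_lit 69957919772) (nat_lit 152) (nat_lit 1579110143074) (nat_lit 0) (nat_lit 65746635390) (nat_lit 1) (nat_lit 5) (nat_lit 3) (nat_lit 4) (nat_lit 1) (nat_lit 4) (nat_lit 354) (nat_lit 244) (nat_lit 182))) (XT.nd (nat_lit 78) (nat_lit 0) (nat_lit 0) (XT.lf (nat_lit 0) (nat_lit 77379920030) (nat_lit 152) (nat_lit 1701278949035) (nat_lit 0) (nat_lit 73165971853) (nat_lit 1) (nat_lit 5) (nat_lit 3) (nat_lit 4) (nat_lit 1) (nat_lit 4) (nat_lit 355) (nat_lit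 244) (nat_lit 181)) (XT.lf (nat_lit 0) (nat_lit 85393106980) (nat_lit 152) (nat_lit 1833226203742) (nat_lit 0) (nat_lit 81176692326) (nat_lit 1) (nat_lit 5) (nat_lit 3) (nat_lit 4) (nat_lit 1) (nat_lit 4) (nat_lit 356) (nat_lit 244) (nat_lit 180))))) (XT.nd (nat_lit 234) (nat_lit 0) (nat_lit 0) (XT.nd (nat_lit 78) (nat_lit 0) (nat_lit 0) (XT.lf (nat_lit 0) (nat_lit 94044966172) (nat_lit 152) (nat_lit 1975733816853) (nat_lit 0) (nat_lit 89826267744) (nat_lit 1) (nat_lit 5) (nat_lit 3) (nat_lit 4) (nat_lit 1) (nat_lit 4) (nat_lit 357) (nat_lit 244) (nat_lit 179)) (XT.nd (nat_lit 78) (nat_lit 0) (nat_lit 0) (XT.lf (nat_lit 0) (nat_lit 103386767885) (nat_lit 152) (nat_lit 2129646277925) (nat_lit 0) (nat_lit 99165954850) (nat_lit 1) (nat_lit 5) (nat_lit 3) (nat_lit 4) (nat_lit 1) (nat_lit 4) (nat_lit 358) (nat_lit 244) (nat_lit 178)) (XT.lf (nat_lit 0) (nat_lit 113473870942) (nat_lit 152)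 (nat_lit 2295875660804) (nat_lit 0) (nat_lit 109251099939) (nat_lit 1) (nat_lit 5) (nat_lit 3) (nat_lit 4) (nat_lit 1) (nat_lit 4) (nat_lit 359) (nat_lit 244) (nat_lit 177)))) (XT.nd (nat_lit 156) (nat_lit 0) (nat_lit 0) (XT.nd (nat_lit 78) (nat_lit 0) (nat_lit 0) (XT.lf (nat_lit 0) (nat_lit 124366050771) (nat_lit 152) (nat_lit 2475407028497) (nat_lit 0) (nat_lit 120141466833) (nat_lit 1) (nat_lit 5) (nat_lit 3) (nat_lit 4) (nat_lit 1) (nat_lit 4) (nat_lit 360) (nat_lit 244) (nat_lit 176)) (XT.lf (nat_lit 0) (nat_lit 136127853620) (nat_lit 152) (nat_lit 2669304270593) (nat_lit 0) (nat_lit 131901591040) (nat_lit 1) (nat_lit 5) (nat_lit 3) (nat_lit 4) (nat_lit 1) (nat_lit 4) (nat_lit 361) (nat_lit 244) (nat_lit 175))) (XT.nd (nat_lit 78) (nat_lit 0) (nat_lit 0) (XT.lf (nat_lit 0) (nat_lit 148828979063) (nat_lit 152) (nat_lit 2878716407784) (nat_lit 0) (nat_lit 144601162185) (nat_lit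 1) (nat_lit 5) (nat_lit 3) (nat_lit 4) (nat_lit 1) (nat_lit 4) (nat_lit 362) (nat_lit 244) (nat_lit 174)) (XT.lf (nat_lit 0) (nat_lit 162544693029) (nat_lit 152) (nat_lit 3104884400884) (nat_lit 0) (nat_lit 158315436985) (nat_lit 1) (nat_lit 5) (nat_lit 3) (nat_lit 4) (nat_lit 1) (nat_lit 4) (nat_lit 363) (nat_lit 244) (nat_lit 173)))))) (XT.nd (nat_lit 35256) (nat_lit 0) (nat_lit 380) (XT.nd (nat_lit 34944) (nat_lit 0) (nat_lit 532) (XT.nd (nat_lit 78) (nat_lit 0) (nat_lit 0) (XT.lf (nat_lit 0) (nat_lit 177356273821) (nat_lit 152) (nat_lit 3349148504667) (nat_lit 0) (nat_lit 173125685217) (nat_lit 1) (nat_lit 5) (nat_lit 3) (nat_lit 4) (nat_lit 1) (nat_lit 4) (nat_lit 364) (nat_lit 244) (nat_lit 172)) (XT.nd (nat_lit 34788) (nat_lit 0) (nat_lit 684) (XT.lf (nat_lit 0) (nat_lit 193351493772) (nat_lit 152) (nat_lit 3612956210117) (nat_lit 0) (nat_lit 189119671315) (nat_lit 1) (nat_lit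 5) (nat_lit 3) (nat_lit 4) (nat_lit 1) (nat_lit 4) (nat_lit 365) (nat_lit 244) (nat_lit 171)) (XT.lf (nat_lit 0) (nat_lit 1332646215) (nat_lit 152) (nat_lit 5354038201) (nat_lit 0) (nat_lit 1332646215) (nat_lit 10) (nat_lit 5) (nat_lit 12) (nat_lit 4) (nat_lit 10) (nat_lit 4) (nat_lit 290) (nat_lit 245) (nat_lit 245)))) (XT.nd (nat_lit 156) (nat_lit 76) (nat_lit 0) (XT.nd (nat_lit 78) (nat_lit 76) (nat_lit 0) (XT.lf (nat_lit 0) (nat_lit 6862438395) (nat_lit 152) (nat_lit 3662072384) (nat_lit 0) (nat_lit 6434413894) (nat_lit 10) (nat_lit 5) (nat_lit 12) (nat_lit 4) (nat_lit 10) (nat_lit 4) (nat_lit 291) (nat_lit 245) (nat_lit 244)) (XT.lf (nat_lit 0) (nat_lit 3749881833) (nat_lit 76) (nat_lit 7518873365) (nat_lit 76) (nat_lit 6694529881) (nat_lit 9) (nat_lit 4) (nat_lit 10) (nat_lit 5) (nat_lit 10) (nat_lit 4) (nat_lit 292) (nat_lit 245) (nat_lit 243))) (XT.nd (nat_lit 78) (nat_lit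 76) (nat_lit 0) (XT.lf (nat_lit 0) (nat_lit 11587498085) (nat_lit 76) (nat_lit 4330447194) (nat_lit 76) (nat_lit 3139141690) (nat_lit 9) (nat_lit 4) (nat_lit 10) (nat_lit 5) (nat_lit 10) (nat_lit 4) (nat_lit 293) (nat_lit 245) (nat_lit 242)) (XT.lf (nat_lit 0) (nat_lit 466076928) (nat_lit 152) (nat_lit 561645142) (nat_lit 76) (nat_lit 19225562965) (nat_lit 8) (nat_lit 5) (nat_lit 10) (nat_lit 5) (nat_lit 9) (nat_lit 4) (nat_lit 294) (nat_lit 245) (nat_lit 241))))) (XT.nd (nat_lit 234) (nat_lit 76) (nat_lit 0) (XT.nd (nat_lit 78) (nat_lit 0) (nat_lit 0) (XT.lf (nat_lit 0) (nat_lit 4233448191) (nat_lit 152) (nat_lit 14777526652) (nat_lit 0) (nat_lit 2524470469) (nat_lit 7) (nat_lit 5) (nat_lit 9) (nat_lit 4) (nat_lit 7) (nat_lit 4) (nat_lit 295) (nat_lit 245) (nat_lit 240)) (XT.nd (nat_lit 78) (nat_lit 0) (nat_lit 0) (XT.lf (nat_lit 0) (nat_lit 8162314884) (nat_lit 152) (nat_lit 8585682690)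 (nat_lit 0) (nat_lit 6183609122) (nat_lit 7) (nat_lit 5) (nat_lit 9) (nat_lit 4) (nat_lit 7) (nat_lit 4) (nat_lit 296) (nat_lit 245) (nat_lit 239)) (XT.lf (nat_lit 0) (nat_lit 12236654254) (nat_lit 152) (nat_lit 2208332571) (nat_lit 0) (nat_lit 10008200306) (nat_lit 7) (nat_lit 5) (nat_lit 9) (nat_lit 4) (nat_lit 7) (nat_lit 4) (nat_lit 297) (nat_lit 245) (nat_lit 238)))) (XT.nd (nat_lit 156) (nat_lit 0) (nat_lit 0) (XT.nd (nat_lit 78) (nat_lit 0) (nat_lit 0) (XT.lf (nat_lit 0) (nat_lit 4623606955) (nat_lit 76) (nat_lit 11968201437) (nat_lit 76) (nat_lit 9508499170) (nat_lit 6) (nat_lit 4) (nat_lit 7) (nat_lit 5) (nat_lit 7) (nat_lit 4) (nat_lit 298) (nat_lit 245) (nat_lit 237)) (XT.lf (nat_lit 0) (nat_lit 11848064369) (nat_lit 76) (nat_lit 9356214959) (nat_lit 76) (nat_lit 6682393877) (nat_lit 6) (nat_lit 4) (nat_lit 7) (nat_lit 5) (nat_lit 7) (nat_lit 4) (nat_lit 299) (nat_lit 245)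 (nat_lit 236))) (XT.nd (nat_lit 78) (nat_lit 0) (nat_lit 0) (XT.lf (nat_lit 0) (nat_lit 19391564389) (nat_lit 76) (nat_lit 6653928679) (nat_lit 76) (nat_lit 3781849435) (nat_lit 6) (nat_lit 4) (nat_lit 7) (nat_lit 5) (nat_lit 7) (nat_lit 4) (nat_lit 300) (nat_lit 245) (nat_lit 235)) (XT.lf (nat_lit 0) (nat_lit 27298809238) (nat_lit 76) (nat_lit 3845329048) (nat_lit 76) (nat_lit 789677432) (nat_lit 6) (nat_lit 4) (nat_lit 7) (nat_lit 5) (nat_lit 7) (nat_lit 4) (nat_lit 301) (nat_lit 245) (nat_lit 234))))))) (XT.nd (nat_lit 1092) (nat_lit 0) (nat_lit 0) (XT.nd (nat_lit 546) (nat_lit 76) (nat_lit 0) (XT.nd (nat_lit 234) (nat_lit 0) (nat_lit 0) (XT.nd (nat_lit 78) (nat_lit 0) (nat_lit 0) (XT.lf (nat_lit 0) (nat_lit 1413173536) (nat_lit 76) (nat_lit 817018564) (nat_lit 152) (nat_lit 31981216596) (nat_lit 4) (nat_lit 5) (nat_lit 5) (nat_lit 5) (nat_lit 6) (nat_lit 4) (nat_lit 302) (nat_lit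 245) (nat_lit 233)) (XT.nd (nat_lit 78) (nat_lit 0) (nat_lit 0) (XT.lf (nat_lit 0) (nat_lit 5515816285) (nat_lit 152) (nat_lit 28765133745) (nat_lit 0) (nat_lit 2383399846) (nat_lit 4) (nat_lit 5) (nat_lit 6) (nat_lit 4) (nat_lit 4) (nat_lit 4) (nat_lit 303) (nat_lit 245) (nat_lit 232)) (XT.lf (nat_lit 0) (nat_lit 8972362703) (nat_lit 152) (nat_lit 24643621204) (nat_lit 0) (nat_lit 5705015090) (nat_lit 4) (nat_lit 5) (nat_lit 6) (nat_lit 4) (nat_lit 4) (nat_lit 4) (nat_lit 304) (nat_lit 245) (nat_lit 231)))) (XT.nd (nat_lit 156) (nat_lit 0) (nat_lit 0) (XT.nd (nat_lit 78) (nat_lit 0) (nat_lit 0) (XT.lf (nat_lit 0) (nat_lit 12600665276) (nat_lit 152) (nat_lit 20389624444) (nat_lit 0) (nat_lit 9208381391) (nat_lit 4) (nat_lit 5) (nat_lit 6) (nat_lit 4) (nat_lit 4) (nat_lit 4) (nat_lit 305) (nat_lit 245) (nat_lit 230)) (XT.lf (nat_lit 0) (nat_lit 16422225056) (nat_lit 152) (nat_lit 15977934595)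 (nat_lit 0) (nat_lit 12914259438) (nat_lit 4) (nat_lit 5) (nat_lit 6) (nat_lit 4) (nat_lit 4) (nat_lit 4) (nat_lit 306) (nat_lit 245) (nat_lit 229))) (XT.nd (nat_lit 78) (nat_lit 0) (nat_lit 0) (XT.lf (nat_lit 0) (nat_lit 20459688323) (nat_lit 152) (nat_lit 11382408311) (nat_lit 0) (nat_lit 16844609989) (nat_lit 4) (nat_lit 5) (nat_lit 6) (nat_lit 4) (nat_lit 4) (nat_lit 4) (nat_lit 307) (nat_lit 245) (nat_lit 228)) (XT.lf (nat_lit 0) (nat_lit 24736980786) (nat_lit 152) (nat_lit 6575812842) (nat_lit 0) (nat_lit 21022724012) (nat_lit 4) (nat_lit 5) (nat_lit 6) (nat_lit 4) (nat_lit 4) (nat_lit 4) (nat_lit 308) (nat_lit 245) (nat_lit 227))))) (XT.nd (nat_lit 234) (nat_lit 0) (nat_lit 0) (XT.nd (nat_lit 78) (nat_lit 76) (nat_lit 0) (XT.lf (nat_lit 0) (nat_lit 29279449363) (nat_lit 152) (nat_lit 1529664660) (nat_lit 0) (nat_lit 25473360699) (nat_lit 4) (nat_lit 5) (nat_lit 6) (nat_lit 4)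 (nat_lit 4) (nat_lit 4) (nat_lit 309) (nat_lit 245) (nat_lit 226)) (XT.nd (nat_lit 78) (nat_lit 0) (nat_lit 0) (XT.lf (nat_lit 0) (nat_lit 3985300190) (nat_lit 76) (nat_lit 30224558761) (nat_lit 76) (nat_lit 26333440570) (nat_lit 3) (nat_lit 4) (nat_lit 4) (nat_lit 5) (nat_lit 4) (nat_lit 4) (nat_lit 310) (nat_lit 245) (nat_lit 225)) (XT.lf (nat_lit 0) (nat_lit 9897617954) (nat_lit 76) (nat_lit 29609739114) (nat_lit 76) (nat_lit 25639889879) (nat_lit 3) (nat_lit 4) (nat_lit 4) (nat_lit 5) (nat_lit 4) (nat_lit 4) (nat_lit 311) (nat_lit 245) (nat_lit 224)))) (XT.nd (nat_lit 156) (nat_lit 0) (nat_lit 0) (XT.nd (nat_lit 78) (nat_lit 0) (nat_lit 0) (XT.lf (nat_lit 0) (nat_lit 16161775157) (nat_lit 76) (nat_lit 29002835449) (nat_lit 76) (nat_lit 24960087099) (nat_lit 3) (nat_lit 4) (nat_lit 4) (nat_lit 5) (nat_lit 4) (nat_lit 4) (nat_lit 312) (nat_lit 245) (nat_lit 223)) (XT.lf (nat_lit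 0) (nat_lit 22814892731) (nat_lit 76) (nat_lit 28400251300) (nat_lit 76) (nat_lit 24290003770) (nat_lit 3) (nat_lit 4) (nat_lit 4) (nat_lit 5) (nat_lit 4) (nat_lit 4) (nat_lit 313) (nat_lit 245) (nat_lit 222))) (XT.nd (nat_lit 78) (nat_lit 0) (nat_lit 0) (XT.lf (nat_lit 0) (nat_lit 29896396558) (nat_lit 76) (nat_lit 27798415798) (nat_lit 76) (nat_lit 23625669027) (nat_lit 3) (nat_lit 4) (nat_lit 4) (nat_lit 5) (nat_lit 4) (nat_lit 4) (nat_lit 314) (nat_lit 245) (nat_lit 221)) (XT.lf (nat_lit 0) (nat_lit 37448251104) (nat_lit 76) (nat_lit 27193762510) (nat_lit 76) (nat_lit 22963146072) (nat_lit 3) (nat_lit 4) (nat_lit 4) (nat_lit 5) (nat_lit 4) (nat_lit 4) (nat_lit 315) (nat_lit 245) (nat_lit 220)))))) (XT.nd (nat_lit 546) (nat_lit 0) (nat_lit 0) (XT.nd (nat_lit 234) (nat_lit 0) (nat_lit 0) (XT.nd (nat_lit 78) (nat_lit 0) (nat_lit 0) (XT.lf (nat_lit 0) (nat_lit 45515208101) (nat_lit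 76) (nat_lit 26582708306) (nat_lit 76) (nat_lit 22298508843) (nat_lit 3) (nat_lit 4) (nat_lit 4) (nat_lit 5) (nat_lit 4) (nat_lit 4) (nat_lit 316) (nat_lit 245) (nat_lit 219)) (XT.nd (nat_lit 78) (nat_lit 0) (nat_lit 0) (XT.lf (nat_lit 0) (nat_lit 54145071738) (nat_lit 76) (nat_lit 25961632124) (nat_lit 76) (nat_lit 21627818748) (nat_lit 3) (nat_lit 4) (nat_lit 4) (nat_lit 5) (nat_lit 4) (nat_lit 4) (nat_lit 317) (nat_lit 245) (nat_lit 218)) (XT.lf (nat_lit 0) (nat_lit 63388981948) (nat_lit 76) (nat_lit 25326853513) (nat_lit 76) (nat_lit 20947101329) (nat_lit 3) (nat_lit 4) (nat_lit 4) (nat_lit 5) (nat_lit 4) (nat_lit 4) (nat_lit 318) (nat_lit 245) (nat_lit 217)))) (XT.nd (nat_lit 156) (nat_lit 0) (nat_lit 0) (XT.nd (nat_lit 78) (nat_lit 0) (nat_lit 0) (XT.lf (nat_lit 0) (nat_lit 73301717458) (nat_lit 76) (nat_lit 24674610821) (nat_lit 76) (nat_lit 20252322704) (nat_lit 3) (nat_lit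 4) (nat_lit 4) (nat_lit 5) (nat_lit 4) (nat_lit 4) (nat_lit 319) (nat_lit 245) (nat_lit 216)) (XT.lf (nat_lit 0) (nat_lit 83942020404) (nat_lit 76) (nat_lit 24001038906) (nat_lit 76) (nat_lit 19539365666) (nat_lit 3) (nat_lit 4) (nat_lit 4) (nat_lit 5) (nat_lit 4) (nat_lit 4) (nat_lit 320) (nat_lit 245) (nat_lit 215))) (XT.nd (nat_lit 78) (nat_lit 0) (nat_lit 0) (XT.lf (nat_lit 0) (nat_lit 95372944434) (nat_lit 76) (nat_lit 23302146232) (nat_lit 76) (nat_lit 18804005285) (nat_lit 3) (nat_lit 4) (nat_lit 4) (nat_lit 5) (nat_lit 4) (nat_lit 4) (nat_lit 321) (nat_lit 245) (nat_lit 214)) (XT.lf (nat_lit 0) (nat_lit 107662228356) (nat_lit 76) (nat_lit 22573791212) (nat_lit 76) (nat_lit 18041883869) (nat_lit 3) (nat_lit 4) (nat_lit 4) (nat_lit 5) (nat_lit 4) (nat_lit 4) (nat_lit 322) (nat_lit 245) (nat_lit 213))))) (XT.nd (nat_lit 312) (nat_lit 0) (nat_lit 0) (XT.nd (nat_lit 156) (nat_lit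 0) (nat_lit 0) (XT.nd (nat_lit 78) (nat_lit 0) (nat_lit 0) (XT.lf (nat_lit 0) (nat_lit 120882697557) (nat_lit 76) (nat_lit 21811657667) (nat_lit 76) (nat_lit 17248485145) (nat_lit 3) (nat_lit 4) (nat_lit 4) (nat_lit 5) (nat_lit 4) (nat_lit 4) (nat_lit 323) (nat_lit 245) (nat_lit 212)) (XT.lf (nat_lit 0) (nat_lit 135112695557) (nat_lit 76) (nat_lit 21011229253) (nat_lit 76) (nat_lit 16419107488) (nat_lit 3) (nat_lit 4) (nat_lit 4) (nat_lit 5) (nat_lit 4) (nat_lit 4) (nat_lit 324) (nat_lit 245) (nat_lit 211))) (XT.nd (nat_lit 78) (nat_lit 0) (nat_lit 0) (XT.lf (nat_lit 0) (nat_lit 150436548272) (nat_lit 76) (nat_lit 20167762687) (nat_lit 76) (nat_lit 15548836070) (nat_lit 3) (nat_lit 4) (nat_lit 4) (nat_lit 5) (nat_lit 4) (nat_lit 4) (nat_lit 325) (nat_lit 245) (nat_lit 210)) (XT.lf (nat_lit 0) (nat_lit 166945063716) (nat_lit 76) (nat_lit 19276259651) (nat_lit 76) (nat_lit 14632513725)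 (nat_lit 3) (nat_lit 4) (nat_lit 4) (nat_lit 5) (nat_lit 4) (nat_lit 4) (nat_lit 326) (nat_lit 245) (nat_lit 209)))) (XT.nd (nat_lit 156) (nat_lit 0) (nat_lit 0) (XT.nd (nat_lit 78) (nat_lit 0) (nat_lit 0) (XT.lf (nat_lit 0) (nat_lit 184736070131) (nat_lit 76) (nat_lit 18331437164) (nat_lit 76) (nat_lit 13664710397) (nat_lit 3) (nat_lit 4) (nat_lit 4) (nat_lit 5) (nat_lit 4) (nat_lit 4) (nat_lit 327) (nat_lit 245) (nat_lit 208)) (XT.lf (nat_lit 0) (nat_lit 203914995701) (nat_lit 76) (nat_lit 17327696277) (nat_lit 76) (nat_lit 12639690953) (nat_lit 3) (nat_lit 4) (nat_lit 4) (nat_lit 5) (nat_lit 4) (nat_lit 4) (nat_lit 328) (nat_lit 245) (nat_lit 207))) (XT.nd (nat_lit 78) (nat_lit 0) (nat_lit 0) (XT.lf (nat_lit 0) (nat_lit 224595493319) (nat_lit 76) (nat_lit 16259088895) (nat_lit 76) (nat_lit 11551381204) (nat_lit 3) (nat_lit 4) (nat_lit 4) (nat_lit 5) (nat_lit 4) (nat_lit 4) (nat_lit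 329) (nat_lit 245) (nat_lit 206)) (XT.lf (nat_lit 0) (nat_lit 246900114082) (nat_lit 76) (nat_lit 15119282532) (nat_lit 76) (nat_lit 10393331909) (nat_lit 3) (nat_lit 4) (nat_lit 4) (nat_lit 5) (nat_lit 4) (nat_lit 4) (nat_lit 330) (nat_lit 245) (nat_lit 205))))))))
noncomputable def xc26 : XT := (XT.nd (nat_lit 2184) (nat_lit 0) (nat_lit 0) (XT.nd (nat_lit 1092) (nat_lit 0) (nat_lit 0) (XT.nd (nat_lit 546) (nat_lit 76) (nat_lit 0) (XT.nd (nat_lit 234) (nat_lit 76) (nat_lit 0) (XT.nd (nat_lit 78) (nat_lit 0) (nat_lit 0) (XT.lf (nat_lit 0) (nat_lit 270961033521) (nat_lit 76) (nat_lit 13901522779) (nat_lit 76) (nat_lit 9158680551) (nat_lit 3) (nat_lit 4) (nat_lit 4) (nat_lit 5) (nat_lit 4) (nat_lit 4) (nat_lit 331) (nat_lit 245) (nat_lit 204)) (XT.nd (nat_lit 78) (nat_lit 0) (nat_lit 0) (XT.lf (nat_lit 0) (nat_lit 296920834862) (nat_lit 76) (nat_lit 12598593282) (nat_lit 76) (nat_lit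 7840110679) (nat_lit 3) (nat_lit 4) (nat_lit 4) (nat_lit 5) (nat_lit 4) (nat_lit 4) (nat_lit 332) (nat_lit 245) (nat_lit 203)) (XT.lf (nat_lit 0) (nat_lit 324933353965) (nat_lit 76) (nat_lit 11202772976) (nat_lit 76) (nat_lit 6429808546) (nat_lit 3) (nat_lit 4) (nat_lit 4) (nat_lit 5) (nat_lit 4) (nat_lit 4) (nat_lit 333) (nat_lit 245) (nat_lit 202)))) (XT.nd (nat_lit 156) (nat_lit 76) (nat_lit 0) (XT.nd (nat_lit 78) (nat_lit 0) (nat_lit 0) (XT.lf (nat_lit 0) (nat_lit 355164590942) (nat_lit 76) (nat_lit 9705790335) (nat_lit 76) (nat_lit 4919416805) (nat_lit 3) (nat_lit 4) (nat_lit 4) (nat_lit 5) (nat_lit 4) (nat_lit 4) (nat_lit 334) (nat_lit 245) (nat_lit 201)) (XT.lf (nat_lit 0) (nat_lit 387793693865) (nat_lit 76) (nat_lit 8098774350) (nat_lit 76) (nat_lit 3299984986) (nat_lit 3) (nat_lit 4) (nat_lit 4) (nat_lit 5) (nat_lit 4) (nat_lit 4) (nat_lit 335) (nat_lit 245) (nat_lit 200)))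 (XT.nd (nat_lit 78) (nat_lit 76) (nat_lit 0) (XT.lf (nat_lit 0) (nat_lit 423014020381) (nat_lit 76) (nat_lit 6372201964) (nat_lit 76) (nat_lit 1561916458) (nat_lit 3) (nat_lit 4) (nat_lit 4) (nat_lit 5) (nat_lit 4) (nat_lit 4) (nat_lit 336) (nat_lit 245) (nat_lit 199)) (XT.lf (nat_lit 0) (nat_lit 289826686) (nat_lit 152) (nat_lit 4218090574) (nat_lit 76) (nat_lit 460736532475) (nat_lit 2) (nat_lit 5) (nat_lit 4) (nat_lit 5) (nat_lit 3) (nat_lit 4) (nat_lit 337) (nat_lit 245) (nat_lit 198))))) (XT.nd (nat_lit 234) (nat_lit 0) (nat_lit 0) (XT.nd (nat_lit 78) (nat_lit 76) (nat_lit 0) (XT.lf (nat_lit 0) (nat_lit 2196433179) (nat_lit 152) (nat_lit 262205157) (nat_lit 76) (nat_lit 499823301038) (nat_lit 2) (nat_lit 5) (nat_lit 4) (nat_lit 5) (nat_lit 3) (nat_lit 4) (nat_lit 338) (nat_lit 245) (nat_lit 197)) (XT.nd (nat_lit 78) (nat_lit 0) (nat_lit 0) (XT.lf (nat_lit 0) (nat_lit 4204889861)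 (nat_lit 76) (nat_lit 143572657) (nat_lit 152) (nat_lit 537926541536) (nat_lit 1) (nat_lit 5) (nat_lit 2) (nat_lit 5) (nat_lit 3) (nat_lit 4) (nat_lit 339) (nat_lit 245) (nat_lit 196)) (XT.lf (nat_lit 0) (nat_lit 6728525186) (nat_lit 152) (nat_lit 576495224975) (nat_lit 0) (nat_lit 2239300939) (nat_lit 1) (nat_lit 5) (nat_lit 3) (nat_lit 4) (nat_lit 1) (nat_lit 4) (nat_lit 340) (nat_lit 245) (nat_lit 195)))) (XT.nd (nat_lit 156) (nat_lit 0) (nat_lit 0) (XT.nd (nat_lit 78) (nat_lit 0) (nat_lit 0) (XT.lf (nat_lit 0) (nat_lit 9295163658) (nat_lit 152) (nat_lit 618012596054) (nat_lit 0) (nat_lit 4798694891) (nat_lit 1) (nat_lit 5) (nat_lit 3) (nat_lit 4) (nat_lit 1) (nat_lit 4) (nat_lit 341) (nat_lit 245) (nat_lit 194)) (XT.lf (nat_lit 0) (nat_lit 12060134719) (nat_lit 152) (nat_lit 662864803369) (nat_lit 0) (nat_lit 7556958064) (nat_lit 1) (nat_lit 5) (nat_lit 3) (nat_lit 4) (nat_lit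 1) (nat_lit 4) (nat_lit 342) (nat_lit 245) (nat_lit 193))) (XT.nd (nat_lit 78) (nat_lit 0) (nat_lit 0) (XT.lf (nat_lit 0) (nat_lit 15039823384) (nat_lit 152) (nat_lit 711317637780) (nat_lit 0) (nat_lit 10530435721) (nat_lit 1) (nat_lit 5) (nat_lit 3) (nat_lit 4) (nat_lit 1) (nat_lit 4) (nat_lit 343) (nat_lit 245) (nat_lit 192)) (XT.lf (nat_lit 0) (nat_lit 18251887066) (nat_lit 152) (nat_lit 763658227193) (nat_lit 0) (nat_lit 13736748470) (nat_lit 1) (nat_lit 5) (nat_lit 3) (nat_lit 4) (nat_lit 1) (nat_lit 4) (nat_lit 344) (nat_lit 245) (nat_lit 191)))))) (XT.nd (nat_lit 546) (nat_lit 0) (nat_lit 0) (XT.nd (nat_lit 234) (nat_lit 0) (nat_lit 0) (XT.nd (nat_lit 78) (nat_lit 0) (nat_lit 0) (XT.lf (nat_lit 0) (nat_lit 21715360217) (nat_lit 152) (nat_lit 820196738066) (nat_lit 0) (nat_lit 17194896683) (nat_lit 1) (nat_lit 5) (nat_lit 3) (nat_lit 4) (nat_lit 1) (nat_lit 4) (nat_lit 345) (nat_lit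 245) (nat_lit 190)) (XT.nd (nat_lit 78) (nat_lit 0) (nat_lit 0) (XT.lf (nat_lit 0) (nat_lit 25450767122) (nat_lit 152) (nat_lit 881268213424) (nat_lit 0) (nat_lit 20925373090) (nat_lit 1) (nat_lit 5) (nat_lit 3) (nat_lit 4) (nat_lit 1) (nat_lit 4) (nat_lit 346) (nat_lit 245) (nat_lit 189)) (XT.lf (nat_lit 0) (nat_lit 29480243526) (nat_lit 152) (nat_lit 947234558307) (nat_lit 0) (nat_lit 24950284218) (nat_lit 1) (nat_lit 5) (nat_lit 3) (nat_lit 4) (nat_lit 1) (nat_lit 4) (nat_lit 347) (nat_lit 245) (nat_lit 188)))) (XT.nd (nat_lit 156) (nat_lit 0) (nat_lit 0) (XT.nd (nat_lit 78) (nat_lit 0) (nat_lit 0) (XT.lf (nat_lit 0) (nat_lit 33827667808) (nat_lit 152) (nat_lit 1018486684389) (nat_lit 0) (nat_lit 29293481392) (nat_lit 1) (nat_lit 5) (nat_lit 3) (nat_lit 4) (nat_lit 1) (nat_lit 4) (nat_lit 348) (nat_lit 245) (nat_lit 187)) (XT.lf (nat_lit 0) (nat_lit 38518802481) (nat_lit 152) (nat_lit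 1095446826491) (nat_lit 0) (nat_lit 33980702077) (nat_lit 1) (nat_lit 5) (nat_lit 3) (nat_lit 4) (nat_lit 1) (nat_lit 4) (nat_lit 349) (nat_lit 245) (nat_lit 186))) (XT.nd (nat_lit 78) (nat_lit 0) (nat_lit 0) (XT.lf (nat_lit 0) (nat_lit 43581446863) (nat_lit 152) (nat_lit 1178571044713) (nat_lit 0) (nat_lit 39039722395) (nat_lit 1) (nat_lit 5) (nat_lit 3) (nat_lit 4) (nat_lit 1) (nat_lit 4) (nat_lit 350) (nat_lit 245) (nat_lit 185)) (XT.lf (nat_lit 0) (nat_lit 49045601809) (nat_lit 152) (nat_lit 1268351927017) (nat_lit 0) (nat_lit 44500521726) (nat_lit 1) (nat_lit 5) (nat_lit 3) (nat_lit 4) (nat_lit 1) (nat_lit 4) (nat_lit 351) (nat_lit 245) (nat_lit 184))))) (XT.nd (nat_lit 234) (nat_lit 0) (nat_lit 0) (XT.nd (nat_lit 78) (nat_lit 0) (nat_lit 0) (XT.lf (nat_lit 0) (nat_lit 54943647496) (nat_lit 152) (nat_lit 1365321508260) (nat_lit 0) (nat_lit 50395460363) (nat_lit 1) (nat_lit 5)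 (nat_lit 3) (nat_lit 4) (nat_lit 1) (nat_lit 4) (nat_lit 352) (nat_lit 245) (nat_lit 183)) (XT.nd (nat_lit 78) (nat_lit 0) (nat_lit 0) (XT.lf (nat_lit 0) (nat_lit 61310535306) (nat_lit 152) (nat_lit 1470054422997) (nat_lit 0) (nat_lit 56759471275) (nat_lit 1) (nat_lit 5) (nat_lit 3) (nat_lit 4) (nat_lit 1) (nat_lit 4) (nat_lit 353) (nat_lit 245) (nat_lit 182)) (XT.lf (nat_lit 0) (nat_lit 68183994945) (nat_lit 152) (nat_lit 1583171310724) (nat_lit 0) (nat_lit 63630267119) (nat_lit 1) (nat_lit 5) (nat_lit 3) (nat_lit 4) (nat_lit 1) (nat_lit 4) (nat_lit 354) (nat_lit 245) (nat_lit 181)))) (XT.nd (nat_lit 156) (nat_lit 0) (nat_lit 0) (XT.nd (nat_lit 78) (nat_lit 0) (nat_lit 0) (XT.lf (nat_lit 0) (nat_lit 75604758026) (nat_lit 152) (nat_lit 1705342493737) (nat_lit 0) (nat_lit 71048563723) (nat_lit 1) (nat_lit 5) (nat_lit 3) (nat_lit 4) (nat_lit 1) (nat_lit 4) (nat_lit 355) (nat_lit 245)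 (nat_lit 180)) (XT.lf (nat_lit 0) (nat_lit 83616799440) (nat_lit 152) (nat_lit 1837291949418) (nat_lit 0) (nat_lit 79058321363) (nat_lit 1) (nat_lit 5) (nat_lit 3) (nat_lit 4) (nat_lit 1) (nat_lit 4) (nat_lit 356) (nat_lit 245) (nat_lit 179))) (XT.nd (nat_lit 78) (nat_lit 0) (nat_lit 0) (XT.lf (nat_lit 0) (nat_lit 92267597952) (nat_lit 152) (nat_lit 1979801600468) (nat_lit 0) (nat_lit 87707005269) (nat_lit 1) (nat_lit 5) (nat_lit 3) (nat_lit 4) (nat_lit 1) (nat_lit 4) (nat_lit 357) (nat_lit 245) (nat_lit 178)) (XT.lf (nat_lit 0) (nat_lit 101608417553) (nat_lit 152) (nat_lit 2133715948521) (nat_lit 0) (nat_lit 97045866901) (nat_lit 1) (nat_lit 5) (nat_lit 3) (nat_lit 4) (nat_lit 1) (nat_lit 4) (nat_lit 358) (nat_lit 245) (nat_lit 177))))))) (XT.nd (nat_lit 35646) (nat_lit 0) (nat_lit 228) (XT.nd (nat_lit 35100) (nat_lit 0) (nat_lit 532) (XT.nd (nat_lit 234) (nat_lit 0) (nat_lit 0) (XT.nd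 (nat_lit 78) (nat_lit 0) (nat_lit 0) (XT.lf (nat_lit 0) (nat_lit 111694611248) (nat_lit 152) (nat_lit 2299947078604) (nat_lit 0) (nat_lit 107130247662) (nat_lit 1) (nat_lit 5) (nat_lit 3) (nat_lit 4) (nat_lit 1) (nat_lit 4) (nat_lit 359) (nat_lit 245) (nat_lit 176)) (XT.nd (nat_lit 78) (nat_lit 0) (nat_lit 0) (XT.lf (nat_lit 0) (nat_lit 122585949074) (nat_lit 152) (nat_lit 2479480064080) (nat_lit 0) (nat_lit 118019906845) (nat_lit 1) (nat_lit 5) (nat_lit 3) (nat_lit 4) (nat_lit 1) (nat_lit 4) (nat_lit 360) (nat_lit 245) (nat_lit 175)) (XT.lf (nat_lit 0) (nat_lit 134346972292) (nat_lit 152) (nat_lit 2673378804122) (nat_lit 0) (nat_lit 129779375764) (nat_lit 1) (nat_lit 5) (nat_lit 3) (nat_lit 4) (nat_lit 1) (nat_lit 4) (nat_lit 361) (nat_lit 245) (nat_lit 174)))) (XT.nd (nat_lit 156) (nat_lit 0) (nat_lit 0) (XT.nd (nat_lit 78) (nat_lit 0) (nat_lit 0) (XT.lf (nat_lit 0) (nat_lit 147047375853)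 (nat_lit 152) (nat_lit 2882792328300) (nat_lit 0) (nat_lit 142478340161) (nat_lit 1) (nat_lit 5) (nat_lit 3) (nat_lit 4) (nat_lit 1) (nat_lit 4) (nat_lit 362) (nat_lit 245) (nat_lit 173)) (XT.lf (nat_lit 0) (nat_lit 160762421410) (nat_lit 152) (nat_lit 3108961605648) (nat_lit 0) (nat_lit 156192053157) (nat_lit 1) (nat_lit 5) (nat_lit 3) (nat_lit 4) (nat_lit 1) (nat_lit 4) (nat_lit 363) (nat_lit 245) (nat_lit 172))) (XT.nd (nat_lit 78) (nat_lit 0) (nat_lit 0) (XT.lf (nat_lit 0) (nat_lit 175573383306) (nat_lit 152) (nat_lit 3353226898548) (nat_lit 0) (nat_lit 171001781200) (nat_lit 1) (nat_lit 5) (nat_lit 3) (nat_lit 4) (nat_lit 1) (nat_lit 4) (nat_lit 364) (nat_lit 245) (nat_lit 171)) (XT.lf (nat_lit 0) (nat_lit 191568030204) (nat_lit 152) (nat_lit 3617035705034) (nat_lit 0) (nat_lit 186995285642) (nat_lit 1) (nat_lit 5) (nat_lit 3) (nat_lit 4) (nat_lit 1) (nat_lit 4) (nat_lit 365)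 (nat_lit 245) (nat_lit 170))))) (XT.nd (nat_lit 234) (nat_lit 152) (nat_lit 0) (XT.nd (nat_lit 78) (nat_lit 152) (nat_lit 0) (XT.lf (nat_lit 0) (nat_lit 2437946181) (nat_lit 76) (nat_lit 2381706627) (nat_lit 76) (nat_lit 2381706627) (nat_lit 12) (nat_lit 4) (nat_lit 13) (nat_lit 5) (nat_lit 13) (nat_lit 4) (nat_lit 288) (nat_lit 246) (nat_lit 246)) (XT.nd (nat_lit 78) (nat_lit 152) (nat_lit 0) (XT.lf (nat_lit 0) (nat_lit 12842724822) (nat_lit 76) (nat_lit 1425683087) (nat_lit 76) (nat_lit 926435309) (nat_lit 12) (nat_lit 4) (nat_lit 13) (nat_lit 5) (nat_lit 13) (nat_lit 4) (nat_lit 289) (nat_lit 246) (nat_lit 245)) (XT.lf (nat_lit 0) (nat_lit 3014997144) (nat_lit 152) (nat_lit 10908143495) (nat_lit 0) (nat_lit 2124706182) (nat_lit 10) (nat_lit 5) (nat_lit 12) (nat_lit 4) (nat_lit 10) (nat_lit 4) (nat_lit 290) (nat_lit 246) (nat_lit 244)))) (XT.nd (nat_lit 156) (nat_lit 76) (nat_lit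 0) (XT.nd (nat_lit 78) (nat_lit 76) (nat_lit 0) (XT.lf (nat_lit 0) (nat_lit 7107919269) (nat_lit 152) (nat_lit 4047386783) (nat_lit 0) (nat_lit 5821309324) (nat_lit 10) (nat_lit 5) (nat_lit 12) (nat_lit 4) (nat_lit 10) (nat_lit 4) (nat_lit 291) (nat_lit 246) (nat_lit 243)) (XT.lf (nat_lit 0) (nat_lit 3163719958) (nat_lit 76) (nat_lit 8239915350) (nat_lit 76) (nat_lit 6586343384) (nat_lit 9) (nat_lit 4) (nat_lit 10) (nat_lit 5) (nat_lit 10) (nat_lit 4) (nat_lit 292) (nat_lit 246) (nat_lit 242))) (XT.nd (nat_lit 78) (nat_lit 76) (nat_lit 0) (XT.lf (nat_lit 0) (nat_lit 10834153338) (nat_lit 76) (nat_lit 5125296155) (nat_lit 76) (nat_lit 3131944540) (nat_lit 9) (nat_lit 4) (nat_lit 10) (nat_lit 5) (nat_lit 10) (nat_lit 4) (nat_lit 293) (nat_lit 246) (nat_lit 241)) (XT.lf (nat_lit 0) (nat_lit 384083073) (nat_lit 152) (nat_lit 1509069608) (nat_lit 76) (nat_lit 18401654974) (nat_lit 8) (nat_lit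 5) (nat_lit 10) (nat_lit 5) (nat_lit 9) (nat_lit 4) (nat_lit 294) (nat_lit 246) (nat_lit 240)))))) (XT.nd (nat_lit 546) (nat_lit 152) (nat_lit 0) (XT.nd (nat_lit 234) (nat_lit 76) (nat_lit 0) (XT.nd (nat_lit 78) (nat_lit 0) (nat_lit 0) (XT.lf (nat_lit 0) (nat_lit 4018367093) (nat_lit 152) (nat_lit 15957724806) (nat_lit 0) (nat_lit 1611636830) (nat_lit 7) (nat_lit 5) (nat_lit 9) (nat_lit 4) (nat_lit 7) (nat_lit 4) (nat_lit 295) (nat_lit 246) (nat_lit 239)) (XT.nd (nat_lit 78) (nat_lit 0) (nat_lit 0) (XT.lf (nat_lit 0) (nat_lit 7866062316) (nat_lit 152) (nat_lit 9914843037) (nat_lit 0) (nat_lit 5209583867) (nat_lit 7) (nat_lit 5) (nat_lit 9) (nat_lit 4) (nat_lit 7) (nat_lit 4) (nat_lit 296) (nat_lit 246) (nat_lit 238)) (XT.lf (nat_lit 0) (nat_lit 11865242917) (nat_lit 152) (nat_lit 3675420873) (nat_lit 0) (nat_lit 8977516149) (nat_lit 7) (nat_lit 5) (nat_lit 9) (nat_lit 4) (nat_lit 7)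 (nat_lit 4) (nat_lit 297) (nat_lit 246) (nat_lit 237)))) (XT.nd (nat_lit 156) (nat_lit 0) (nat_lit 0) (XT.nd (nat_lit 78) (nat_lit 0) (nat_lit 0) (XT.lf (nat_lit 0) (nat_lit 2944828275) (nat_lit 76) (nat_lit 13165602660) (nat_lit 76) (nat_lit 10063757077) (nat_lit 6) (nat_lit 4) (nat_lit 7) (nat_lit 5) (nat_lit 7) (nat_lit 4) (nat_lit 298) (nat_lit 246) (nat_lit 236)) (XT.lf (nat_lit 0) (nat_lit 10044807810) (nat_lit 76) (nat_lit 10610663834) (nat_lit 76) (nat_lit 7310560089) (nat_lit 6) (nat_lit 4) (nat_lit 7) (nat_lit 5) (nat_lit 7) (nat_lit 4) (nat_lit 299) (nat_lit 246) (nat_lit 235))) (XT.nd (nat_lit 78) (nat_lit 0) (nat_lit 0) (XT.lf (nat_lit 0) (nat_lit 17473050536) (nat_lit 76) (nat_lit 7961199454) (nat_lit 76) (nat_lit 4477523337) (nat_lit 6) (nat_lit 4) (nat_lit 7) (nat_lit 5) (nat_lit 7) (nat_lit 4) (nat_lit 300) (nat_lit 246) (nat_lit 234)) (XT.lf (nat_lit 0) (nat_lit 25273575667)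 (nat_lit 76) (nat_lit 5201508990) (nat_lit 76) (nat_lit 1547858455) (nat_lit 6) (nat_lit 4) (nat_lit 7) (nat_lit 5) (nat_lit 7) (nat_lit 4) (nat_lit 301) (nat_lit 246) (nat_lit 233))))) (XT.nd (nat_lit 312) (nat_lit 0) (nat_lit 0) (XT.nd (nat_lit 156) (nat_lit 0) (nat_lit 0) (XT.nd (nat_lit 78) (nat_lit 76) (nat_lit 0) (XT.lf (nat_lit 0) (nat_lit 1420969783) (nat_lit 152) (nat_lit 855417105) (nat_lit 76) (nat_lit 32032786923) (nat_lit 5) (nat_lit 5) (nat_lit 7) (nat_lit 5) (nat_lit 6) (nat_lit 4) (nat_lit 302) (nat_lit 246) (nat_lit 232)) (XT.lf (nat_lit 0) (nat_lit 4594878959) (nat_lit 152) (nat_lit 31245017808) (nat_lit 0) (nat_lit 931212363) (nat_lit 4) (nat_lit 5) (nat_lit 6) (nat_lit 4) (nat_lit 4) (nat_lit 4) (nat_lit 303) (nat_lit 246) (nat_lit 231))) (XT.nd (nat_lit 78) (nat_lit 0) (nat_lit 0) (XT.lf (nat_lit 0) (nat_lit 8001056358) (nat_lit 152) (nat_lit 27218330644) (nat_lit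 0) (nat_lit 4212453490) (nat_lit 4) (nat_lit 5) (nat_lit 6) (nat_lit 4) (nat_lit 4) (nat_lit 4) (nat_lit 304) (nat_lit 246) (nat_lit 230)) (XT.lf (nat_lit 0) (nat_lit 11582720950) (nat_lit 152) (nat_lit 23052135159) (nat_lit 0) (nat_lit 7678436350) (nat_lit 4) (nat_lit 5) (nat_lit 6) (nat_lit 4) (nat_lit 4) (nat_lit 4) (nat_lit 305) (nat_lit 246) (nat_lit 229)))) (XT.nd (nat_lit 156) (nat_lit 0) (nat_lit 0) (XT.nd (nat_lit 78) (nat_lit 0) (nat_lit 0) (XT.lf (nat_lit 0) (nat_lit 15361097415) (nat_lit 152) (nat_lit 18721742788) (nat_lit 0) (nat_lit 11349700099) (nat_lit 4) (nat_lit 5) (nat_lit 6) (nat_lit 4) (nat_lit 4) (nat_lit 4) (nat_lit 306) (nat_lit 246) (nat_lit 228)) (XT.lf (nat_lit 0) (nat_lit 19358576132) (nat_lit 152) (nat_lit 14201491945) (nat_lit 0) (nat_lit 15248000375) (nat_lit 4) (nat_lit 5) (nat_lit 6) (nat_lit 4) (nat_lit 4) (nat_lit 4) (nat_lit 307) (nat_lit 246) (nat_lit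 227))) (XT.nd (nat_lit 78) (nat_lit 0) (nat_lit 0) (XT.lf (nat_lit 0) (nat_lit 23598845863) (nat_lit 152) (nat_lit 9464595959) (nat_lit 0) (nat_lit 19396438216) (nat_lit 4) (nat_lit 5) (nat_lit 6) (nat_lit 4) (nat_lit 4) (nat_lit 4) (nat_lit 308) (nat_lit 246) (nat_lit 226)) (XT.lf (nat_lit 0) (nat_lit 28107034132) (nat_lit 152) (nat_lit 4482984335) (nat_lit 0) (nat_lit 23819596959) (nat_lit 4) (nat_lit 5) (nat_lit 6) (nat_lit 4) (nat_lit 4) (nat_lit 4) (nat_lit 309) (nat_lit 246) (nat_lit 225))))))))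
noncomputable def xc27 : XT := (XT.nd (nat_lit 2184) (nat_lit 152) (nat_lit 0) (XT.nd (nat_lit 1092) (nat_lit 0) (nat_lit 0) (XT.nd (nat_lit 546) (nat_lit 0) (nat_lit 0) (XT.nd (nat_lit 234) (nat_lit 0) (nat_lit 0) (XT.nd (nat_lit 78) (nat_lit 0) (nat_lit 0) (XT.lf (nat_lit 0) (nat_lit 813561214) (nat_lit 76) (nat_lit 32115861083) (nat_lit 76) (nat_lit 27749692865) (nat_lit 3) (nat_lit 4) (nat_lit 4) (nat_lit 5) (nat_lit 4) (nat_lit 4) (nat_lit 310) (nat_lit 246) (nat_lit 224)) (XT.nd (nat_lit 78) (nat_lit 0) (nat_lit 0) (XT.lf (nat_lit 0) (nat_lit 6667635717) (nat_lit 76) (nat_lit 31528494105) (nat_lit 76) (nat_lit 27089426774) (nat_lit 3) (nat_lit 4) (nat_lit 4) (nat_lit 5) (nat_lit 4) (nat_lit 4) (nat_lit 311) (nat_lit 246) (nat_lit 223)) (XT.lf (nat_lit 0) (nat_lit 12877863975) (nat_lit 76) (nat_lit 30947009579) (nat_lit 76) (nat_lit 26440443067) (nat_lit 3) (nat_lit 4) (nat_lit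 4) (nat_lit 5) (nat_lit 4) (nat_lit 4) (nat_lit 312) (nat_lit 246) (nat_lit 222)))) (XT.nd (nat_lit 156) (nat_lit 0) (nat_lit 0) (XT.nd (nat_lit 78) (nat_lit 0) (nat_lit 0) (XT.lf (nat_lit 0) (nat_lit 19481047341) (nat_lit 76) (nat_lit 30367961670) (nat_lit 76) (nat_lit 25798895917) (nat_lit 3) (nat_lit 4) (nat_lit 4) (nat_lit 5) (nat_lit 4) (nat_lit 4) (nat_lit 313) (nat_lit 246) (nat_lit 221)) (XT.lf (nat_lit 0) (nat_lit 26516315789) (nat_lit 76) (nat_lit 29787918983) (nat_lit 76) (nat_lit 25160983562) (nat_lit 3) (nat_lit 4) (nat_lit 4) (nat_lit 5) (nat_lit 4) (nat_lit 4) (nat_lit 314) (nat_lit 246) (nat_lit 220))) (XT.nd (nat_lit 78) (nat_lit 0) (nat_lit 0) (XT.lf (nat_lit 0) (nat_lit 34025359801) (nat_lit 76) (nat_lit 29203444228) (nat_lit 76) (nat_lit 24522925782) (nat_lit 3) (nat_lit 4) (nat_lit 4) (nat_lit 5) (nat_lit 4) (nat_lit 4) (nat_lit 315) (nat_lit 246) (nat_lit 219))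 (XT.lf (nat_lit 0) (nat_lit 42052677413) (nat_lit 76) (nat_lit 28611073850) (nat_lit 76) (nat_lit 23880941491) (nat_lit 3) (nat_lit 4) (nat_lit 4) (nat_lit 5) (nat_lit 4) (nat_lit 4) (nat_lit 316) (nat_lit 246) (nat_lit 218))))) (XT.nd (nat_lit 234) (nat_lit 0) (nat_lit 0) (XT.nd (nat_lit 78) (nat_lit 0) (nat_lit 0) (XT.lf (nat_lit 0) (nat_lit 50645837917) (nat_lit 76) (nat_lit 28007297507) (nat_lit 76) (nat_lit 23231226341) (nat_lit 3) (nat_lit 4) (nat_lit 4) (nat_lit 5) (nat_lit 4) (nat_lit 4) (nat_lit 317) (nat_lit 246) (nat_lit 217)) (XT.nd (nat_lit 78) (nat_lit 0) (nat_lit 0) (XT.lf (nat_lit 0) (nat_lit 59855763743) (nat_lit 76) (nat_lit 27388537265) (nat_lit 76) (nat_lit 22569930165) (nat_lit 3) (nat_lit 4) (nat_lit 4) (nat_lit 5) (nat_lit 4) (nat_lit 4) (nat_lit 318) (nat_lit 246) (nat_lit 216)) (XT.lf (nat_lit 0) (nat_lit 69737032232) (nat_lit 76) (nat_lit 26751126396) (nat_lit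 76) (nat_lit 21893134173) (nat_lit 3) (nat_lit 4) (nat_lit 4) (nat_lit 5) (nat_lit 4) (nat_lit 4) (nat_lit 319) (nat_lit 246) (nat_lit 215)))) (XT.nd (nat_lit 156) (nat_lit 0) (nat_lit 0) (XT.nd (nat_lit 78) (nat_lit 0) (nat_lit 0) (XT.lf (nat_lit 0) (nat_lit 80348199047) (nat_lit 76) (nat_lit 26091287652) (nat_lit 76) (nat_lit 21196827722) (nat_lit 3) (nat_lit 4) (nat_lit 4) (nat_lit 5) (nat_lit 4) (nat_lit 4) (nat_lit 320) (nat_lit 246) (nat_lit 214)) (XT.lf (nat_lit 0) (nat_lit 91752145178) (nat_lit 76) (nat_lit 25405110875) (nat_lit 76) (nat_lit 20476884551) (nat_lit 3) (nat_lit 4) (nat_lit 4) (nat_lit 5) (nat_lit 4) (nat_lit 4) (nat_lit 321) (nat_lit 246) (nat_lit 213))) (XT.nd (nat_lit 78) (nat_lit 0) (nat_lit 0) (XT.lf (nat_lit 0) (nat_lit 104016449564) (nat_lit 76) (nat_lit 24688529835) (nat_lit 76) (nat_lit 19729038329) (nat_lit 3) (nat_lit 4) (nat_lit 4) (nat_lit 5) (nat_lit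 4) (nat_lit 4) (nat_lit 322) (nat_lit 246) (nat_lit 212)) (XT.lf (nat_lit 0) (nat_lit 117213789564) (nat_lit 76) (nat_lit 23937298124) (nat_lit 76) (nat_lit 18948857377) (nat_lit 3) (nat_lit 4) (nat_lit 4) (nat_lit 5) (nat_lit 4) (nat_lit 4) (nat_lit 323) (nat_lit 246) (nat_lit 211)))))) (XT.nd (nat_lit 546) (nat_lit 0) (nat_lit 0) (XT.nd (nat_lit 234) (nat_lit 0) (nat_lit 0) (XT.nd (nat_lit 78) (nat_lit 0) (nat_lit 0) (XT.lf (nat_lit 0) (nat_lit 131422371639) (nat_lit 76) (nat_lit 23146963999) (nat_lit 76) (nat_lit 18131718399) (nat_lit 3) (nat_lit 4) (nat_lit 4) (nat_lit 5) (nat_lit 4) (nat_lit 4) (nat_lit 324) (nat_lit 246) (nat_lit 210)) (XT.nd (nat_lit 78) (nat_lit 0) (nat_lit 0) (XT.lf (nat_lit 0) (nat_lit 146726394792) (nat_lit 76) (nat_lit 22312843998) (nat_lit 76) (nat_lit 17272779090) (nat_lit 3) (nat_lit 4) (nat_lit 4) (nat_lit 5) (nat_lit 4) (nat_lit 4) (nat_lit 325) (nat_lit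 246) (nat_lit 209)) (XT.lf (nat_lit 0) (nat_lit 163216549532) (nat_lit 76) (nat_lit 21429995189) (nat_lit 76) (nat_lit 16366949439) (nat_lit 3) (nat_lit 4) (nat_lit 4) (nat_lit 5) (nat_lit 4) (nat_lit 4) (nat_lit 326) (nat_lit 246) (nat_lit 208)))) (XT.nd (nat_lit 156) (nat_lit 0) (nat_lit 0) (XT.nd (nat_lit 78) (nat_lit 0) (nat_lit 0) (XT.lf (nat_lit 0) (nat_lit 180990555294) (nat_lit 76) (nat_lit 20493185874) (nat_lit 76) (nat_lit 15408861568) (nat_lit 3) (nat_lit 4) (nat_lit 4) (nat_lit 5) (nat_lit 4) (nat_lit 4) (nat_lit 327) (nat_lit 246) (nat_lit 207)) (XT.lf (nat_lit 0) (nat_lit 200153739519) (nat_lit 76) (nat_lit 19496864591) (nat_lit 76) (nat_lit 14392837917) (nat_lit 3) (nat_lit 4) (nat_lit 4) (nat_lit 5) (nat_lit 4) (nat_lit 4) (nat_lit 328) (nat_lit 246) (nat_lit 206))) (XT.nd (nat_lit 78) (nat_lit 0) (nat_lit 0) (XT.lf (nat_lit 0) (nat_lit 220819661818) (nat_lit 76) (nat_lit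 18435127214) (nat_lit 76) (nat_lit 13312857608) (nat_lit 3) (nat_lit 4) (nat_lit 4) (nat_lit 5) (nat_lit 4) (nat_lit 4) (nat_lit 329) (nat_lit 246) (nat_lit 205)) (XT.lf (nat_lit 0) (nat_lit 243110786915) (nat_lit 76) (nat_lit 17301681966) (nat_lit 76) (nat_lit 12162520755) (nat_lit 3) (nat_lit 4) (nat_lit 4) (nat_lit 5) (nat_lit 4) (nat_lit 4) (nat_lit 330) (nat_lit 246) (nat_lit 204))))) (XT.nd (nat_lit 234) (nat_lit 0) (nat_lit 0) (XT.nd (nat_lit 78) (nat_lit 0) (nat_lit 0) (XT.lf (nat_lit 0) (nat_lit 267159210367) (nat_lit 76) (nat_lit 16089812134) (nat_lit 76) (nat_lit 10935010549) (nat_lit 3) (nat_lit 4) (nat_lit 4) (nat_lit 5) (nat_lit 4) (nat_lit 4) (nat_lit 331) (nat_lit 246) (nat_lit 203)) (XT.nd (nat_lit 78) (nat_lit 0) (nat_lit 0) (XT.lf (nat_lit 0) (nat_lit 293107441349) (nat_lit 76) (nat_lit 14792336267) (nat_lit 76) (nat_lit 9623052854) (nat_lit 3) (nat_lit 4) (nat_lit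 4) (nat_lit 5) (nat_lit 4) (nat_lit 4) (nat_lit 332) (nat_lit 246) (nat_lit 202)) (XT.lf (nat_lit 0) (nat_lit 321109247157) (nat_lit 76) (nat_lit 13401565619) (nat_lit 76) (nat_lit 8218873106) (nat_lit 3) (nat_lit 4) (nat_lit 4) (nat_lit 5) (nat_lit 4) (nat_lit 4) (nat_lit 333) (nat_lit 246) (nat_lit 201)))) (XT.nd (nat_lit 156) (nat_lit 0) (nat_lit 0) (XT.nd (nat_lit 78) (nat_lit 0) (nat_lit 0) (XT.lf (nat_lit 0) (nat_lit 351330564417) (nat_lit 76) (nat_lit 11909258588) (nat_lit 76) (nat_lit 6714150241) (nat_lit 3) (nat_lit 4) (nat_lit 4) (nat_lit 5) (nat_lit 4) (nat_lit 4) (nat_lit 334) (nat_lit 246) (nat_lit 200)) (XT.lf (nat_lit 0) (nat_lit 383950482416) (nat_lit 76) (nat_lit 10306571871) (nat_lit 76) (nat_lit 5099967382) (nat_lit 3) (nat_lit 4) (nat_lit 4) (nat_lit 5) (nat_lit 4) (nat_lit 4) (nat_lit 335) (nat_lit 246) (nat_lit 199))) (XT.nd (nat_lit 78) (nat_lit 0) (nat_lit 0)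 (XT.lf (nat_lit 0) (nat_lit 419162304374) (nat_lit 76) (nat_lit 8584008066) (nat_lit 76) (nat_lit 3366759001) (nat_lit 3) (nat_lit 4) (nat_lit 4) (nat_lit 5) (nat_lit 4) (nat_lit 4) (nat_lit 336) (nat_lit 246) (nat_lit 198)) (XT.lf (nat_lit 0) (nat_lit 457174692937) (nat_lit 76) (nat_lit 6731359387) (nat_lit 76) (nat_lit 1504254234) (nat_lit 3) (nat_lit 4) (nat_lit 4) (nat_lit 5) (nat_lit 4) (nat_lit 4) (nat_lit 337) (nat_lit 246) (nat_lit 197))))))) (XT.nd (nat_lit 1092) (nat_lit 0) (nat_lit 0) (XT.nd (nat_lit 546) (nat_lit 0) (nat_lit 0) (XT.nd (nat_lit 234) (nat_lit 0) (nat_lit 0) (XT.nd (nat_lit 78) (nat_lit 76) (nat_lit 0) (XT.lf (nat_lit 0) (nat_lit 473642794) (nat_lit 152) (nat_lit 4251054148) (nat_lit 76) (nat_lit 497726313677) (nat_lit 2) (nat_lit 5) (nat_lit 4) (nat_lit 5) (nat_lit 3) (nat_lit 4) (nat_lit 338) (nat_lit 246) (nat_lit 196)) (XT.nd (nat_lit 78) (nat_lit 76)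 (nat_lit 0) (XT.lf (nat_lit 0) (nat_lit 2520879291) (nat_lit 152) (nat_lit 1252243) (nat_lit 76) (nat_lit 539930330495) (nat_lit 2) (nat_lit 5) (nat_lit 4) (nat_lit 5) (nat_lit 3) (nat_lit 4) (nat_lit 339) (nat_lit 246) (nat_lit 195)) (XT.lf (nat_lit 0) (nat_lit 4816072926) (nat_lit 76) (nat_lit 24589658) (nat_lit 152) (nat_lit 580804671896) (nat_lit 1) (nat_lit 5) (nat_lit 2) (nat_lit 5) (nat_lit 3) (nat_lit 4) (nat_lit 340) (nat_lit 246) (nat_lit 194)))) (XT.nd (nat_lit 156) (nat_lit 0) (nat_lit 0) (XT.nd (nat_lit 78) (nat_lit 0) (nat_lit 0) (XT.lf (nat_lit 0) (nat_lit 7403345017) (nat_lit 152) (nat_lit 622352505940) (nat_lit 0) (nat_lit 2533206341) (nat_lit 1) (nat_lit 5) (nat_lit 3) (nat_lit 4) (nat_lit 1) (nat_lit 4) (nat_lit 341) (nat_lit 246) (nat_lit 193)) (XT.lf (nat_lit 0) (nat_lit 10165200654) (nat_lit 152) (nat_lit 667210699077) (nat_lit 0) (nat_lit 5288850971) (nat_lit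 1) (nat_lit 5) (nat_lit 3) (nat_lit 4) (nat_lit 1) (nat_lit 4) (nat_lit 342) (nat_lit 246) (nat_lit 192))) (XT.nd (nat_lit 78) (nat_lit 0) (nat_lit 0) (XT.lf (nat_lit 0) (nat_lit 13142004667) (nat_lit 152) (nat_lit 715669075916) (nat_lit 0) (nat_lit 8259904050) (nat_lit 1) (nat_lit 5) (nat_lit 3) (nat_lit 4) (nat_lit 1) (nat_lit 4) (nat_lit 343) (nat_lit 246) (nat_lit 191)) (XT.lf (nat_lit 0) (nat_lit 16351397376) (nat_lit 152) (nat_lit 768014797207) (nat_lit 0) (nat_lit 11463971821) (nat_lit 1) (nat_lit 5) (nat_lit 3) (nat_lit 4) (nat_lit 1) (nat_lit 4) (nat_lit 344) (nat_lit 246) (nat_lit 190))))) (XT.nd (nat_lit 234) (nat_lit 0) (nat_lit 0) (XT.nd (nat_lit 78) (nat_lit 0) (nat_lit 0) (XT.lf (nat_lit 0) (nat_lit 19812397403) (nat_lit 152) (nat_lit 824558059818) (nat_lit 0) (nat_lit 14920041349) (nat_lit 1) (nat_lit 5) (nat_lit 3) (nat_lit 4) (nat_lit 1) (nat_lit 4) (nat_lit 345)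 (nat_lit 246) (nat_lit 189)) (XT.nd (nat_lit 78) (nat_lit 0) (nat_lit 0) (XT.lf (nat_lit 0) (nat_lit 23545514378) (nat_lit 152) (nat_lit 885633934934) (nat_lit 0) (nat_lit 18648593049) (nat_lit 1) (nat_lit 5) (nat_lit 3) (nat_lit 4) (nat_lit 1) (nat_lit 4) (nat_lit 346) (nat_lit 246) (nat_lit 188)) (XT.lf (nat_lit 0) (nat_lit 27572870477) (nat_lit 152) (nat_lit 951604353667) (nat_lit 0) (nat_lit 22671722040) (nat_lit 1) (nat_lit 5) (nat_lit 3) (nat_lit 4) (nat_lit 1) (nat_lit 4) (nat_lit 347) (nat_lit 246) (nat_lit 187)))) (XT.nd (nat_lit 156) (nat_lit 0) (nat_lit 0) (XT.nd (nat_lit 78) (nat_lit 0) (nat_lit 0) (XT.lf (nat_lit 0) (nat_lit 31918331513) (nat_lit 152) (nat_lit 1022860251832) (nat_lit 0) (nat_lit 27013269087) (nat_lit 1) (nat_lit 5) (nat_lit 3) (nat_lit 4) (nat_lit 1) (nat_lit 4) (nat_lit 348) (nat_lit 246) (nat_lit 186)) (XT.lf (nat_lit 0) (nat_lit 36607648366) (nat_lit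 152) (nat_lit 1099823886603) (nat_lit 0) (nat_lit 31698961877) (nat_lit 1) (nat_lit 5) (nat_lit 3) (nat_lit 4) (nat_lit 1) (nat_lit 4) (nat_lit 349) (nat_lit 246) (nat_lit 185))) (XT.nd (nat_lit 78) (nat_lit 0) (nat_lit 0) (XT.lf (nat_lit 0) (nat_lit 41668609581) (nat_lit 152) (nat_lit 1182951338780) (nat_lit 0) (nat_lit 36756567478) (nat_lit 1) (nat_lit 5) (nat_lit 3) (nat_lit 4) (nat_lit 1) (nat_lit 4) (nat_lit 350) (nat_lit 246) (nat_lit 184)) (XT.lf (nat_lit 0) (nat_lit 47131206039) (nat_lit 152) (nat_lit 1272735215485) (nat_lit 0) (nat_lit 42216056886) (nat_lit 1) (nat_lit 5) (nat_lit 3) (nat_lit 4) (nat_lit 1) (nat_lit 4) (nat_lit 351) (nat_lit 246) (nat_lit 183)))))) (XT.nd (nat_lit 546) (nat_lit 0) (nat_lit 0) (XT.nd (nat_lit 234) (nat_lit 0) (nat_lit 0) (XT.nd (nat_lit 78) (nat_lit 0) (nat_lit 0) (XT.lf (nat_lit 0) (nat_lit 53027808682) (nat_lit 152) (nat_lit 1369707569321)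 (nat_lit 0) (nat_lit 48109782630) (nat_lit 1) (nat_lit 5) (nat_lit 3) (nat_lit 4) (nat_lit 1) (nat_lit 4) (nat_lit 352) (nat_lit 246) (nat_lit 182)) (XT.nd (nat_lit 78) (nat_lit 0) (nat_lit 0) (XT.lf (nat_lit 0) (nat_lit 59393360341) (nat_lit 152) (nat_lit 1474443051275) (nat_lit 0) (nat_lit 54472670494) (nat_lit 1) (nat_lit 5) (nat_lit 3) (nat_lit 4) (nat_lit 1) (nat_lit 4) (nat_lit 353) (nat_lit 246) (nat_lit 181)) (XT.lf (nat_lit 0) (nat_lit 66265582802) (nat_lit 152) (nat_lit 1587562316054) (nat_lit 0) (nat_lit 61342426479) (nat_lit 1) (nat_lit 5) (nat_lit 3) (nat_lit 4) (nat_lit 1) (nat_lit 4) (nat_lit 354) (nat_lit 246) (nat_lit 180)))) (XT.nd (nat_lit 156) (nat_lit 0) (nat_lit 0) (XT.nd (nat_lit 78) (nat_lit 0) (nat_lit 0) (XT.lf (nat_lit 0) (nat_lit 73685200348) (nat_lit 152) (nat_lit 1709735700042) (nat_lit 0) (nat_lit 68759760250) (nat_lit 1) (nat_lit 5) (nat_lit 3) (nat_lit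 4) (nat_lit 1) (nat_lit 4) (nat_lit 355) (nat_lit 246) (nat_lit 179)) (XT.lf (nat_lit 0) (nat_lit 81696181082) (nat_lit 152) (nat_lit 1841687193662) (nat_lit 0) (nat_lit 76768626377) (nat_lit 1) (nat_lit 5) (nat_lit 3) (nat_lit 4) (nat_lit 1) (nat_lit 4) (nat_lit 356) (nat_lit 246) (nat_lit 178))) (XT.nd (nat_lit 78) (nat_lit 0) (nat_lit 0) (XT.lf (nat_lit 0) (nat_lit 90345997482) (nat_lit 152) (nat_lit 1984198731693) (nat_lit 0) (nat_lit 85416484809) (nat_lit 1) (nat_lit 5) (nat_lit 3) (nat_lit 4) (nat_lit 1) (nat_lit 4) (nat_lit 357) (nat_lit 246) (nat_lit 177)) (XT.lf (nat_lit 0) (nat_lit 99685907721) (nat_lit 152) (nat_lit 2138114826950) (nat_lit 0) (nat_lit 94754582114) (nat_lit 1) (nat_lit 5) (nat_lit 3) (nat_lit 4) (nat_lit 1) (nat_lit 4) (nat_lit 358) (nat_lit 246) (nat_lit 176))))) (XT.nd (nat_lit 312) (nat_lit 0) (nat_lit 0) (XT.nd (nat_lit 156) (nat_lit 0) (nat_lit 0) (XT.nd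 (nat_lit 78) (nat_lit 0) (nat_lit 0) (XT.lf (nat_lit 0) (nat_lit 109771259413) (nat_lit 152) (nat_lit 2304347574815) (nat_lit 0) (nat_lit 104838255164) (nat_lit 1) (nat_lit 5) (nat_lit 3) (nat_lit 4) (nat_lit 1) (nat_lit 4) (nat_lit 359) (nat_lit 246) (nat_lit 175)) (XT.lf (nat_lit 0) (nat_lit 120661817607) (nat_lit 152) (nat_lit 2483882058237) (nat_lit 0) (nat_lit 115727259059) (nat_lit 1) (nat_lit 5) (nat_lit 3) (nat_lit 4) (nat_lit 1) (nat_lit 4) (nat_lit 360) (nat_lit 246) (nat_lit 174))) (XT.nd (nat_lit 78) (nat_lit 0) (nat_lit 0) (XT.lf (nat_lit 0) (nat_lit 132422118944) (nat_lit 152) (nat_lit 2677782185266) (nat_lit 0) (nat_lit 127486121230) (nat_lit 1) (nat_lit 5) (nat_lit 3) (nat_lit 4) (nat_lit 1) (nat_lit 4) (nat_lit 361) (nat_lit 246) (nat_lit 173)) (XT.lf (nat_lit 0) (nat_lit 145121854097) (nat_lit 152) (nat_lit 2887196993692) (nat_lit 0) (nat_lit 140184523823) (nat_lit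 1) (nat_lit 5) (nat_lit 3) (nat_lit 4) (nat_lit 1) (nat_lit 4) (nat_lit 362) (nat_lit 246) (nat_lit 172)))) (XT.nd (nat_lit 156) (nat_lit 0) (nat_lit 0) (XT.nd (nat_lit 78) (nat_lit 0) (nat_lit 0) (XT.lf (nat_lit 0) (nat_lit 158836280757) (nat_lit 152) (nat_lit 3113367460157) (nat_lit 0) (nat_lit 153897716630) (nat_lit 1) (nat_lit 5) (nat_lit 3) (nat_lit 4) (nat_lit 1) (nat_lit 4) (nat_lit 363) (nat_lit 246) (nat_lit 171)) (XT.lf (nat_lit 0) (nat_lit 173646669600) (nat_lit 152) (nat_lit 3357633854093) (nat_lit 0) (nat_lit 168706963017) (nat_lit 1) (nat_lit 5) (nat_lit 3) (nat_lit 4) (nat_lit 1) (nat_lit 4) (nat_lit 364) (nat_lit 246) (nat_lit 170))) (XT.nd (nat_lit 34476) (nat_lit 0) (nat_lit 912) (XT.lf (nat_lit 0) (nat_lit 189640785894) (nat_lit 152) (nat_lit 3621443680056) (nat_lit 0) (nat_lit 184700021482) (nat_lit 1) (nat_lit 5) (nat_lit 3) (nat_lit 4) (nat_lit 1) (nat_lit 4)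 (nat_lit 365) (nat_lit 246) (nat_lit 169)) (XT.lf (nat_lit 0) (nat_lit 822743820) (nat_lit 152) (nat_lit 4861207756) (nat_lit 0) (nat_lit 822743820) (nat_lit 13) (nat_lit 5) (nat_lit 15) (nat_lit 4) (nat_lit 13) (nat_lit 4) (nat_lit 286) (nat_lit 247) (nat_lit 247))))))))
noncomputable def xc28 : XT := (XT.nd (nat_lit 2184) (nat_lit 152) (nat_lit 0) (XT.nd (nat_lit 1092) (nat_lit 228) (nat_lit 0) (XT.nd (nat_lit 546) (nat_lit 228) (nat_lit 0) (XT.nd (nat_lit 234) (nat_lit 228) (nat_lit 0) (XT.nd (nat_lit 78) (nat_lit 76) (nat_lit 0) (XT.lf (nat_lit 0) (nat_lit 5746922133) (nat_lit 152) (nat_lit 2726648694) (nat_lit 0) (nat_lit 5207734533) (nat_lit 13) (nat_lit 5) (nat_lit 15) (nat_lit 4) (nat_lit 13) (nat_lit 4) (nat_lit 287) (nat_lit 247) (nat_lit 246)) (XT.nd (nat_lit 78) (nat_lit 0) (nat_lit 0) (XT.lf (nat_lit 0) (nat_lit 4684075627) (nat_lit 76) (nat_lit 5383097452) (nat_lit 76)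 (nat_lit 4344662074) (nat_lit 12) (nat_lit 4) (nat_lit 13) (nat_lit 5) (nat_lit 13) (nat_lit 4) (nat_lit 288) (nat_lit 247) (nat_lit 245)) (XT.lf (nat_lit 0) (nat_lit 12473299997) (nat_lit 76) (nat_lit 2119901172) (nat_lit 76) (nat_lit 619199333) (nat_lit 12) (nat_lit 4) (nat_lit 13) (nat_lit 5) (nat_lit 13) (nat_lit 4) (nat_lit 289) (nat_lit 247) (nat_lit 244)))) (XT.nd (nat_lit 156) (nat_lit 76) (nat_lit 0) (XT.nd (nat_lit 78) (nat_lit 0) (nat_lit 0) (XT.lf (nat_lit 0) (nat_lit 3175892647) (nat_lit 152) (nat_lit 11509530353) (nat_lit 0) (nat_lit 1390034924) (nat_lit 10) (nat_lit 5) (nat_lit 12) (nat_lit 4) (nat_lit 10) (nat_lit 4) (nat_lit 290) (nat_lit 247) (nat_lit 243)) (XT.lf (nat_lit 0) (nat_lit 7172311215) (nat_lit 152) (nat_lit 4820298926) (nat_lit 0) (nat_lit 5019491471) (nat_lit 10) (nat_lit 5) (nat_lit 12) (nat_lit 4) (nat_lit 10) (nat_lit 4) (nat_lit 291) (nat_lit 247)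 (nat_lit 242))) (XT.nd (nat_lit 78) (nat_lit 0) (nat_lit 0) (XT.lf (nat_lit 0) (nat_lit 2182924759) (nat_lit 76) (nat_lit 9172159203) (nat_lit 76) (nat_lit 6679559810) (nat_lit 9) (nat_lit 4) (nat_lit 10) (nat_lit 5) (nat_lit 10) (nat_lit 4) (nat_lit 292) (nat_lit 247) (nat_lit 241)) (XT.lf (nat_lit 0) (nat_lit 9698559183) (nat_lit 76) (nat_lit 6125879801) (nat_lit 76) (nat_lit 3318669622) (nat_lit 9) (nat_lit 4) (nat_lit 10) (nat_lit 5) (nat_lit 10) (nat_lit 4) (nat_lit 293) (nat_lit 247) (nat_lit 240))))) (XT.nd (nat_lit 234) (nat_lit 76) (nat_lit 0) (XT.nd (nat_lit 78) (nat_lit 76) (nat_lit 0) (XT.lf (nat_lit 0) (nat_lit 124447835) (nat_lit 152) (nat_lit 2839664965) (nat_lit 76) (nat_lit 17389462578) (nat_lit 8) (nat_lit 5) (nat_lit 10) (nat_lit 5) (nat_lit 9) (nat_lit 4) (nat_lit 294) (nat_lit 247) (nat_lit 239)) (XT.nd (nat_lit 78) (nat_lit 0) (nat_lit 0) (XT.lf (nat_lit 0) (nat_lit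 3617242850) (nat_lit 152) (nat_lit 17542180172) (nat_lit 0) (nat_lit 498497940) (nat_lit 7) (nat_lit 5) (nat_lit 9) (nat_lit 4) (nat_lit 7) (nat_lit 4) (nat_lit 295) (nat_lit 247) (nat_lit 238)) (XT.lf (nat_lit 0) (nat_lit 7389779303) (nat_lit 152) (nat_lit 11637226358) (nat_lit 0) (nat_lit 4039786074) (nat_lit 7) (nat_lit 5) (nat_lit 9) (nat_lit 4) (nat_lit 7) (nat_lit 4) (nat_lit 296) (nat_lit 247) (nat_lit 237)))) (XT.nd (nat_lit 156) (nat_lit 0) (nat_lit 0) (XT.nd (nat_lit 78) (nat_lit 76) (nat_lit 0) (XT.lf (nat_lit 0) (nat_lit 11319368452) (nat_lit 152) (nat_lit 5525515264) (nat_lit 0) (nat_lit 7755256408) (nat_lit 7) (nat_lit 5) (nat_lit 9) (nat_lit 4) (nat_lit 7) (nat_lit 4) (nat_lit 297) (nat_lit 247) (nat_lit 236)) (XT.lf (nat_lit 0) (nat_lit 872833313) (nat_lit 76) (nat_lit 14577455097) (nat_lit 76) (nat_lit 10815084892) (nat_lit 6) (nat_lit 4) (nat_lit 7) (nat_lit 5) (nat_lit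 7) (nat_lit 4) (nat_lit 298) (nat_lit 247) (nat_lit 235))) (XT.nd (nat_lit 78) (nat_lit 0) (nat_lit 0) (XT.lf (nat_lit 0) (nat_lit 7857555554) (nat_lit 76) (nat_lit 12075338171) (nat_lit 76) (nat_lit 8129395594) (nat_lit 6) (nat_lit 4) (nat_lit 7) (nat_lit 5) (nat_lit 7) (nat_lit 4) (nat_lit 299) (nat_lit 247) (nat_lit 234)) (XT.lf (nat_lit 0) (nat_lit 15179078562) (nat_lit 76) (nat_lit 9474782958) (nat_lit 76) (nat_lit 5358865962) (nat_lit 6) (nat_lit 4) (nat_lit 7) (nat_lit 5) (nat_lit 7) (nat_lit 4) (nat_lit 300) (nat_lit 247) (nat_lit 233)))))) (XT.nd (nat_lit 546) (nat_lit 76) (nat_lit 0) (XT.nd (nat_lit 234) (nat_lit 0) (nat_lit 0) (XT.nd (nat_lit 78) (nat_lit 152) (nat_lit 0) (XT.lf (nat_lit 0) (nat_lit 22880789141) (nat_lit 76) (nat_lit 6760378759) (nat_lit 76) (nat_lit 2487078042) (nat_lit 6) (nat_lit 4) (nat_lit 7) (nat_lit 5) (nat_lit 7) (nat_lit 4) (nat_lit 301) (nat_lit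 247) (nat_lit 232)) (XT.nd (nat_lit 78) (nat_lit 76) (nat_lit 0) (XT.lf (nat_lit 0) (nat_lit 477824761) (nat_lit 152) (nat_lit 3425150880) (nat_lit 76) (nat_lit 30517437719) (nat_lit 5) (nat_lit 5) (nat_lit 7) (nat_lit 5) (nat_lit 6) (nat_lit 4) (nat_lit 302) (nat_lit 247) (nat_lit 231)) (XT.lf (nat_lit 0) (nat_lit 2754653881) (nat_lit 76) (nat_lit 759101618) (nat_lit 152) (nat_lit 33379684175) (nat_lit 4) (nat_lit 5) (nat_lit 5) (nat_lit 5) (nat_lit 6) (nat_lit 4) (nat_lit 303) (nat_lit 247) (nat_lit 230)))) (XT.nd (nat_lit 156) (nat_lit 0) (nat_lit 0) (XT.nd (nat_lit 78) (nat_lit 0) (nat_lit 0) (XT.lf (nat_lit 0) (nat_lit 6855038506) (nat_lit 152) (nat_lit 30181643492) (nat_lit 0) (nat_lit 2522729405) (nat_lit 4) (nat_lit 5) (nat_lit 6) (nat_lit 4) (nat_lit 4) (nat_lit 4) (nat_lit 304) (nat_lit 247) (nat_lit 229)) (XT.lf (nat_lit 0) (nat_lit 10393519784) (nat_lit 152) (nat_lit 26096745484)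 (nat_lit 0) (nat_lit 5954097967) (nat_lit 4) (nat_lit 5) (nat_lit 6) (nat_lit 4) (nat_lit 4) (nat_lit 4) (nat_lit 305) (nat_lit 247) (nat_lit 228))) (XT.nd (nat_lit 78) (nat_lit 0) (nat_lit 0) (XT.lf (nat_lit 0) (nat_lit 14131911698) (nat_lit 152) (nat_lit 21841628554) (nat_lit 0) (nat_lit 9593311440) (nat_lit 4) (nat_lit 5) (nat_lit 6) (nat_lit 4) (nat_lit 4) (nat_lit 4) (nat_lit 306) (nat_lit 247) (nat_lit 227)) (XT.lf (nat_lit 0) (nat_lit 18092367682) (nat_lit 152) (nat_lit 17391077194) (nat_lit 0) (nat_lit 13461935535) (nat_lit 4) (nat_lit 5) (nat_lit 6) (nat_lit 4) (nat_lit 4) (nat_lit 4) (nat_lit 307) (nat_lit 247) (nat_lit 226))))) (XT.nd (nat_lit 234) (nat_lit 76) (nat_lit 0) (XT.nd (nat_lit 78) (nat_lit 0) (nat_lit 0) (XT.lf (nat_lit 0) (nat_lit 22298357106) (nat_lit 152) (nat_lit 12718717766) (nat_lit 0) (nat_lit 17582895431) (nat_lit 4) (nat_lit 5) (nat_lit 6) (nat_lit 4)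 (nat_lit 4) (nat_lit 4) (nat_lit 308) (nat_lit 247) (nat_lit 225)) (XT.nd (nat_lit 78) (nat_lit 0) (nat_lit 0) (XT.lf (nat_lit 0) (nat_lit 26774804350) (nat_lit 152) (nat_lit 7796862215) (nat_lit 0) (nat_lit 21980611631) (nat_lit 4) (nat_lit 5) (nat_lit 6) (nat_lit 4) (nat_lit 4) (nat_lit 4) (nat_lit 309) (nat_lit 247) (nat_lit 224)) (XT.lf (nat_lit 0) (nat_lit 31548236509) (nat_lit 152) (nat_lit 2596343989) (nat_lit 0) (nat_lit 26681144676) (nat_lit 4) (nat_lit 5) (nat_lit 6) (nat_lit 4) (nat_lit 4) (nat_lit 4) (nat_lit 310) (nat_lit 247) (nat_lit 223)))) (XT.nd (nat_lit 156) (nat_lit 0) (nat_lit 0) (XT.nd (nat_lit 78) (nat_lit 0) (nat_lit 0) (XT.lf (nat_lit 0) (nat_lit 3067082695) (nat_lit 76) (nat_lit 33653621306) (nat_lit 76) (nat_lit 28719030293) (nat_lit 3) (nat_lit 4) (nat_lit 4) (nat_lit 5) (nat_lit 4) (nat_lit 4) (nat_lit 311) (nat_lit 247) (nat_lit 222)) (XT.lf (nat_lit 0)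 (nat_lit 9227376745) (nat_lit 76) (nat_lit 33095673020) (nat_lit 76) (nat_lit 28098582766) (nat_lit 3) (nat_lit 4) (nat_lit 4) (nat_lit 5) (nat_lit 4) (nat_lit 4) (nat_lit 312) (nat_lit 247) (nat_lit 221))) (XT.nd (nat_lit 78) (nat_lit 0) (nat_lit 0) (XT.lf (nat_lit 0) (nat_lit 15784324733) (nat_lit 76) (nat_lit 32538417925) (nat_lit 76) (nat_lit 27483458004) (nat_lit 3) (nat_lit 4) (nat_lit 4) (nat_lit 5) (nat_lit 4) (nat_lit 4) (nat_lit 313) (nat_lit 247) (nat_lit 220)) (XT.lf (nat_lit 0) (nat_lit 22776782646) (nat_lit 76) (nat_lit 31978553770) (nat_lit 76) (nat_lit 26870010823) (nat_lit 3) (nat_lit 4) (nat_lit 4) (nat_lit 5) (nat_lit 4) (nat_lit 4) (nat_lit 314) (nat_lit 247) (nat_lit 219))))))) (XT.nd (nat_lit 1092) (nat_lit 152) (nat_lit 0) (XT.nd (nat_lit 546) (nat_lit 0) (nat_lit 0) (XT.nd (nat_lit 234) (nat_lit 0) (nat_lit 0) (XT.nd (nat_lit 78) (nat_lit 0) (nat_lit 0) (XT.lf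 (nat_lit 0) (nat_lit 30246187273) (nat_lit 76) (nat_lit 31412762841) (nat_lit 76) (nat_lit 26254605981) (nat_lit 3) (nat_lit 4) (nat_lit 4) (nat_lit 5) (nat_lit 4) (nat_lit 4) (nat_lit 315) (nat_lit 247) (nat_lit 218)) (XT.nd (nat_lit 78) (nat_lit 0) (nat_lit 0) (XT.lf (nat_lit 0) (nat_lit 38236801752) (nat_lit 76) (nat_lit 30837692302) (nat_lit 76) (nat_lit 25633596634) (nat_lit 3) (nat_lit 4) (nat_lit 4) (nat_lit 5) (nat_lit 4) (nat_lit 4) (nat_lit 316) (nat_lit 247) (nat_lit 217)) (XT.lf (nat_lit 0) (nat_lit 46795977872) (nat_lit 76) (nat_lit 30249934328) (nat_lit 76) (nat_lit 25003302728) (nat_lit 3) (nat_lit 4) (nat_lit 4) (nat_lit 5) (nat_lit 4) (nat_lit 4) (nat_lit 317) (nat_lit 247) (nat_lit 216)))) (XT.nd (nat_lit 156) (nat_lit 0) (nat_lit 0) (XT.nd (nat_lit 78) (nat_lit 0) (nat_lit 0) (XT.lf (nat_lit 0) (nat_lit 55974436678) (nat_lit 76) (nat_lit 29646005910) (nat_lit 76)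 (nat_lit 24359989186) (nat_lit 3) (nat_lit 4) (nat_lit 4) (nat_lit 5) (nat_lit 4) (nat_lit 4) (nat_lit 318) (nat_lit 247) (nat_lit 215)) (XT.lf (nat_lit 0) (nat_lit 65826569035) (nat_lit 76) (nat_lit 29022328211) (nat_lit 76) (nat_lit 23699843780) (nat_lit 3) (nat_lit 4) (nat_lit 4) (nat_lit 5) (nat_lit 4) (nat_lit 4) (nat_lit 319) (nat_lit 247) (nat_lit 214))) (XT.nd (nat_lit 78) (nat_lit 0) (nat_lit 0) (XT.lf (nat_lit 0) (nat_lit 76410757951) (nat_lit 76) (nat_lit 28375205365) (nat_lit 76) (nat_lit 23018954539) (nat_lit 3) (nat_lit 4) (nat_lit 4) (nat_lit 5) (nat_lit 4) (nat_lit 4) (nat_lit 320) (nat_lit 247) (nat_lit 213)) (XT.lf (nat_lit 0) (nat_lit 87789724546) (nat_lit 76) (nat_lit 27700802568) (nat_lit 76) (nat_lit 22313286561) (nat_lit 3) (nat_lit 4) (nat_lit 4) (nat_lit 5) (nat_lit 4) (nat_lit 4) (nat_lit 321) (nat_lit 247) (nat_lit 212))))) (XT.nd (nat_lit 234) (nat_lit 0)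 (nat_lit 0) (XT.nd (nat_lit 78) (nat_lit 0) (nat_lit 0) (XT.lf (nat_lit 0) (nat_lit 100030899732) (nat_lit 76) (nat_lit 26995123360) (nat_lit 76) (nat_lit 21578658112) (nat_lit 3) (nat_lit 4) (nat_lit 4) (nat_lit 5) (nat_lit 4) (nat_lit 4) (nat_lit 322) (nat_lit 247) (nat_lit 211)) (XT.nd (nat_lit 78) (nat_lit 0) (nat_lit 0) (XT.lf (nat_lit 0) (nat_lit 113206823806) (nat_lit 76) (nat_lit 26253985939) (nat_lit 76) (nat_lit 20810715838) (nat_lit 3) (nat_lit 4) (nat_lit 4) (nat_lit 5) (nat_lit 4) (nat_lit 4) (nat_lit 323) (nat_lit 247) (nat_lit 210)) (XT.lf (nat_lit 0) (nat_lit 127395576320) (nat_lit 76) (nat_lit 25472998379) (nat_lit 76) (nat_lit 20004908969) (nat_lit 3) (nat_lit 4) (nat_lit 4) (nat_lit 5) (nat_lit 4) (nat_lit 4) (nat_lit 324) (nat_lit 247) (nat_lit 209)))) (XT.nd (nat_lit 156) (nat_lit 0) (nat_lit 0) (XT.nd (nat_lit 78) (nat_lit 0) (nat_lit 0) (XT.lf (nat_lit 0) (nat_lit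 142681238769) (nat_lit 76) (nat_lit 24647532605) (nat_lit 76) (nat_lit 19156462354) (nat_lit 3) (nat_lit 4) (nat_lit 4) (nat_lit 5) (nat_lit 4) (nat_lit 4) (nat_lit 325) (nat_lit 247) (nat_lit 208)) (XT.lf (nat_lit 0) (nat_lit 159154392856) (nat_lit 76) (nat_lit 23772696968) (nat_lit 76) (nat_lit 18260348161) (nat_lit 3) (nat_lit 4) (nat_lit 4) (nat_lit 5) (nat_lit 4) (nat_lit 4) (nat_lit 326) (nat_lit 247) (nat_lit 207))) (XT.nd (nat_lit 78) (nat_lit 0) (nat_lit 0) (XT.lf (nat_lit 0) (nat_lit 176912657273) (nat_lit 76) (nat_lit 22843307258) (nat_lit 76) (nat_lit 17311256083) (nat_lit 3) (nat_lit 4) (nat_lit 4) (nat_lit 5) (nat_lit 4) (nat_lit 4) (nat_lit 327) (nat_lit 247) (nat_lit 206)) (XT.lf (nat_lit 0) (nat_lit 196061266178) (nat_lit 76) (nat_lit 21853855979) (nat_lit 76) (nat_lit 16303561872) (nat_lit 3) (nat_lit 4) (nat_lit 4) (nat_lit 5) (nat_lit 4) (nat_lit 4) (nat_lit 328)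 (nat_lit 247) (nat_lit 205)))))) (XT.nd (nat_lit 546) (nat_lit 152) (nat_lit 0) (XT.nd (nat_lit 234) (nat_lit 0) (nat_lit 0) (XT.nd (nat_lit 78) (nat_lit 0) (nat_lit 0) (XT.lf (nat_lit 0) (nat_lit 216713692811) (nat_lit 76) (nat_lit 20798479717) (nat_lit 76) (nat_lit 15231294005) (nat_lit 3) (nat_lit 4) (nat_lit 4) (nat_lit 5) (nat_lit 4) (nat_lit 4) (nat_lit 329) (nat_lit 247) (nat_lit 204)) (XT.nd (nat_lit 78) (nat_lit 0) (nat_lit 0) (XT.lf (nat_lit 0) (nat_lit 238992321921) (nat_lit 76) (nat_lit 19670924390) (nat_lit 76) (nat_lit 14088098304) (nat_lit 3) (nat_lit 4) (nat_lit 4) (nat_lit 5) (nat_lit 4) (nat_lit 4) (nat_lit 330) (nat_lit 247) (nat_lit 203)) (XT.lf (nat_lit 0) (nat_lit 263029175015) (nat_lit 76) (nat_lit 18464508188) (nat_lit 76) (nat_lit 12867200274) (nat_lit 3) (nat_lit 4) (nat_lit 4) (nat_lit 5) (nat_lit 4) (nat_lit 4) (nat_lit 331) (nat_lit 247) (nat_lit 202))))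 (XT.nd (nat_lit 156) (nat_lit 0) (nat_lit 0) (XT.nd (nat_lit 78) (nat_lit 0) (nat_lit 0) (XT.lf (nat_lit 0) (nat_lit 288966692702) (nat_lit 76) (nat_lit 17172081980) (nat_lit 76) (nat_lit 11561364965) (nat_lit 3) (nat_lit 4) (nat_lit 4) (nat_lit 5) (nat_lit 4) (nat_lit 4) (nat_lit 332) (nat_lit 247) (nat_lit 201)) (XT.lf (nat_lit 0) (nat_lit 316958578792) (nat_lit 76) (nat_lit 15785986942) (nat_lit 76) (nat_lit 10162854094) (nat_lit 3) (nat_lit 4) (nat_lit 4) (nat_lit 5) (nat_lit 4) (nat_lit 4) (nat_lit 333) (nat_lit 247) (nat_lit 200))) (XT.nd (nat_lit 78) (nat_lit 0) (nat_lit 0) (XT.lf (nat_lit 0) (nat_lit 347170711129) (nat_lit 76) (nat_lit 14298009178) (nat_lit 76) (nat_lit 8663380188) (nat_lit 3) (nat_lit 4) (nat_lit 4) (nat_lit 5) (nat_lit 4) (nat_lit 4) (nat_lit 334) (nat_lit 247) (nat_lit 199)) (XT.lf (nat_lit 0) (nat_lit 379782124569) (nat_lit 76) (nat_lit 12699331042) (nat_lit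 76) (nat_lit 7054057477) (nat_lit 3) (nat_lit 4) (nat_lit 4) (nat_lit 5) (nat_lit 4) (nat_lit 4) (nat_lit 335) (nat_lit 247) (nat_lit 198))))) (XT.nd (nat_lit 234) (nat_lit 152) (nat_lit 0) (XT.nd (nat_lit 78) (nat_lit 0) (nat_lit 0) (XT.lf (nat_lit 0) (nat_lit 414986071935) (nat_lit 76) (nat_lit 10980478887) (nat_lit 76) (nat_lit 5325349232) (nat_lit 3) (nat_lit 4) (nat_lit 4) (nat_lit 5) (nat_lit 4) (nat_lit 4) (nat_lit 336) (nat_lit 247) (nat_lit 197)) (XT.nd (nat_lit 78) (nat_lit 0) (nat_lit 0) (XT.lf (nat_lit 0) (nat_lit 452991169210) (nat_lit 76) (nat_lit 9131266920) (nat_lit 76) (nat_lit 3467011258) (nat_lit 3) (nat_lit 4) (nat_lit 4) (nat_lit 5) (nat_lit 4) (nat_lit 4) (nat_lit 337) (nat_lit 247) (nat_lit 196)) (XT.lf (nat_lit 0) (nat_lit 494022631785) (nat_lit 76) (nat_lit 7140736850) (nat_lit 76) (nat_lit 1468031180) (nat_lit 3) (nat_lit 4) (nat_lit 4) (nat_lit 5) (nat_lit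 4) (nat_lit 4) (nat_lit 338) (nat_lit 247) (nat_lit 195)))) (XT.nd (nat_lit 156) (nat_lit 0) (nat_lit 0) (XT.nd (nat_lit 78) (nat_lit 76) (nat_lit 0) (XT.lf (nat_lit 0) (nat_lit 649248530) (nat_lit 152) (nat_lit 4330092807) (nat_lit 76) (nat_lit 537656608932) (nat_lit 2) (nat_lit 5) (nat_lit 4) (nat_lit 5) (nat_lit 3) (nat_lit 4) (nat_lit 339) (nat_lit 247) (nat_lit 194)) (XT.lf (nat_lit 0) (nat_lit 253013282) (nat_lit 76) (nat_lit 2603134579) (nat_lit 152) (nat_lit 582981708407) (nat_lit 1) (nat_lit 5) (nat_lit 2) (nat_lit 5) (nat_lit 3) (nat_lit 4) (nat_lit 340) (nat_lit 247) (nat_lit 193))) (XT.nd (nat_lit 78) (nat_lit 0) (nat_lit 0) (XT.lf (nat_lit 0) (nat_lit 5353700803) (nat_lit 152) (nat_lit 627052059126) (nat_lit 0) (nat_lit 81032136) (nat_lit 1) (nat_lit 5) (nat_lit 3) (nat_lit 4) (nat_lit 1) (nat_lit 4) (nat_lit 341) (nat_lit 247) (nat_lit 192)) (XT.lf (nat_lit 0) (nat_lit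 8112671789) (nat_lit 152) (nat_lit 671915794692) (nat_lit 0) (nat_lit 2834252189) (nat_lit 1) (nat_lit 5) (nat_lit 3) (nat_lit 4) (nat_lit 1) (nat_lit 4) (nat_lit 342) (nat_lit 247) (nat_lit 191))))))))
noncomputable def xc29 : XT := (XT.nd (nat_lit 36426) (nat_lit 0) (nat_lit 152) (XT.nd (nat_lit 1092) (nat_lit 0) (nat_lit 0) (XT.nd (nat_lit 546) (nat_lit 0) (nat_lit 0) (XT.nd (nat_lit 234) (nat_lit 0) (nat_lit 0) (XT.nd (nat_lit 78) (nat_lit 0) (nat_lit 0) (XT.lf (nat_lit 0) (nat_lit 11086804828) (nat_lit 152) (nat_lit 720379303408) (nat_lit 0) (nat_lit 5803060290) (nat_lit 1) (nat_lit 5) (nat_lit 3) (nat_lit 4) (nat_lit 1) (nat_lit 4) (nat_lit 343) (nat_lit 247) (nat_lit 190)) (XT.nd (nat_lit 78) (nat_lit 0) (nat_lit 0) (XT.lf (nat_lit 0) (nat_lit 14293724412) (nat_lit 152) (nat_lit 772729776438) (nat_lit 0) (nat_lit 9005049376) (nat_lit 1) (nat_lit 5) (nat_lit 3) (nat_lit 4) (nat_lit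 1) (nat_lit 4) (nat_lit 344) (nat_lit 247) (nat_lit 189)) (XT.lf (nat_lit 0) (nat_lit 17752434509) (nat_lit 152) (nat_lit 829277438806) (nat_lit 0) (nat_lit 12459194197) (nat_lit 1) (nat_lit 5) (nat_lit 3) (nat_lit 4) (nat_lit 1) (nat_lit 4) (nat_lit 345) (nat_lit 247) (nat_lit 188)))) (XT.nd (nat_lit 156) (nat_lit 0) (nat_lit 0) (XT.nd (nat_lit 78) (nat_lit 0) (nat_lit 0) (XT.lf (nat_lit 0) (nat_lit 21483431180) (nat_lit 152) (nat_lit 890357387772) (nat_lit 0) (nat_lit 16185963760) (nat_lit 1) (nat_lit 5) (nat_lit 3) (nat_lit 4) (nat_lit 1) (nat_lit 4) (nat_lit 346) (nat_lit 247) (nat_lit 187)) (XT.lf (nat_lit 0) (nat_lit 25508824033) (nat_lit 152) (nat_lit 956331578589) (nat_lit 0) (nat_lit 20207442625) (nat_lit 1) (nat_lit 5) (nat_lit 3) (nat_lit 4) (nat_lit 1) (nat_lit 4) (nat_lit 347) (nat_lit 247) (nat_lit 186))) (XT.nd (nat_lit 78) (nat_lit 0) (nat_lit 0) (XT.lf (nat_lit 0)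 (nat_lit 29852467249) (nat_lit 152) (nat_lit 1027590969424) (nat_lit 0) (nat_lit 24547461777) (nat_lit 1) (nat_lit 5) (nat_lit 3) (nat_lit 4) (nat_lit 1) (nat_lit 4) (nat_lit 348) (nat_lit 247) (nat_lit 185)) (XT.lf (nat_lit 0) (nat_lit 34540100936) (nat_lit 152) (nat_lit 1104557838148) (nat_lit 0) (nat_lit 29231739850) (nat_lit 1) (nat_lit 5) (nat_lit 3) (nat_lit 4) (nat_lit 1) (nat_lit 4) (nat_lit 349) (nat_lit 247) (nat_lit 184))))) (XT.nd (nat_lit 234) (nat_lit 0) (nat_lit 0) (XT.nd (nat_lit 78) (nat_lit 0) (nat_lit 0) (XT.lf (nat_lit 0) (nat_lit 39599503663) (nat_lit 152) (nat_lit 1187688284726) (nat_lit 0) (nat_lit 34288035527) (nat_lit 1) (nat_lit 5) (nat_lit 3) (nat_lit 4) (nat_lit 1) (nat_lit 4) (nat_lit 350) (nat_lit 247) (nat_lit 183)) (XT.nd (nat_lit 78) (nat_lit 0) (nat_lit 0) (XT.lf (nat_lit 0) (nat_lit 45060657077) (nat_lit 152) (nat_lit 1277474934025) (nat_lit 0) (nat_lit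 39746312043) (nat_lit 1) (nat_lit 5) (nat_lit 3) (nat_lit 4) (nat_lit 1) (nat_lit 4) (nat_lit 351) (nat_lit 247) (nat_lit 182)) (XT.lf (nat_lit 0) (nat_lit 50955923568) (nat_lit 152) (nat_lit 1374449855078) (nat_lit 0) (nat_lit 45638914739) (nat_lit 1) (nat_lit 5) (nat_lit 3) (nat_lit 4) (nat_lit 1) (nat_lit 4) (nat_lit 352) (nat_lit 247) (nat_lit 181)))) (XT.nd (nat_lit 156) (nat_lit 0) (nat_lit 0) (XT.nd (nat_lit 78) (nat_lit 0) (nat_lit 0) (XT.lf (nat_lit 0) (nat_lit 57320238049) (nat_lit 152) (nat_lit 1479187714084) (nat_lit 0) (nat_lit 52000762743) (nat_lit 1) (nat_lit 5) (nat_lit 3) (nat_lit 4) (nat_lit 1) (nat_lit 4) (nat_lit 353) (nat_lit 247) (nat_lit 180)) (XT.lf (nat_lit 0) (nat_lit 64191314975) (nat_lit 152) (nat_lit 1592309179837) (nat_lit 0) (nat_lit 58869555894) (nat_lit 1) (nat_lit 5) (nat_lit 3) (nat_lit 4) (nat_lit 1) (nat_lit 4) (nat_lit 354) (nat_lit 247) (nat_lit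 179))) (XT.nd (nat_lit 78) (nat_lit 0) (nat_lit 0) (XT.lf (nat_lit 0) (nat_lit 71609871840) (nat_lit 152) (nat_lit 1714484601764) (nat_lit 0) (nat_lit 66285998153) (nat_lit 1) (nat_lit 5) (nat_lit 3) (nat_lit 4) (nat_lit 1) (nat_lit 4) (nat_lit 355) (nat_lit 247) (nat_lit 178)) (XT.lf (nat_lit 0) (nat_lit 79619870463) (nat_lit 152) (nat_lit 1846437982366) (nat_lit 0) (nat_lit 74294038807) (nat_lit 1) (nat_lit 5) (nat_lit 3) (nat_lit 4) (nat_lit 1) (nat_lit 4) (nat_lit 356) (nat_lit 247) (nat_lit 177)))))) (XT.nd (nat_lit 546) (nat_lit 0) (nat_lit 0) (XT.nd (nat_lit 234) (nat_lit 0) (nat_lit 0) (XT.nd (nat_lit 78) (nat_lit 0) (nat_lit 0) (XT.lf (nat_lit 0) (nat_lit 88268777501) (nat_lit 152) (nat_lit 1988951267600) (nat_lit 0) (nat_lit 82941132911) (nat_lit 1) (nat_lit 5) (nat_lit 3) (nat_lit 4) (nat_lit 1) (nat_lit 4) (nat_lit 357) (nat_lit 247) (nat_lit 176)) (XT.nd (nat_lit 78) (nat_lit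 0) (nat_lit 0) (XT.lf (nat_lit 0) (nat_lit 97607845737) (nat_lit 152) (nat_lit 2142868980640) (nat_lit 0) (nat_lit 92278522505) (nat_lit 1) (nat_lit 5) (nat_lit 3) (nat_lit 4) (nat_lit 1) (nat_lit 4) (nat_lit 358) (nat_lit 247) (nat_lit 175)) (XT.lf (nat_lit 0) (nat_lit 107692417798) (nat_lit 152) (nat_lit 2309103226451) (nat_lit 0) (nat_lit 102361540267) (nat_lit 1) (nat_lit 5) (nat_lit 3) (nat_lit 4) (nat_lit 1) (nat_lit 4) (nat_lit 359) (nat_lit 247) (nat_lit 174)))) (XT.nd (nat_lit 156) (nat_lit 0) (nat_lit 0) (XT.nd (nat_lit 78) (nat_lit 0) (nat_lit 0) (XT.lf (nat_lit 0) (nat_lit 118582254110) (nat_lit 152) (nat_lit 2488639096860) (nat_lit 0) (nat_lit 113249937414) (nat_lit 1) (nat_lit 5) (nat_lit 3) (nat_lit 4) (nat_lit 1) (nat_lit 4) (nat_lit 360) (nat_lit 247) (nat_lit 173)) (XT.lf (nat_lit 0) (nat_lit 130341887038) (nat_lit 152) (nat_lit 2682540508136) (nat_lit 0) (nat_lit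 125008237781) (nat_lit 1) (nat_lit 5) (nat_lit 3) (nat_lit 4) (nat_lit 1) (nat_lit 4) (nat_lit 361) (nat_lit 247) (nat_lit 172))) (XT.nd (nat_lit 78) (nat_lit 0) (nat_lit 0) (XT.lf (nat_lit 0) (nat_lit 143041003294) (nat_lit 152) (nat_lit 2891956505680) (nat_lit 0) (nat_lit 137706120185) (nat_lit 1) (nat_lit 5) (nat_lit 3) (nat_lit 4) (nat_lit 1) (nat_lit 4) (nat_lit 362) (nat_lit 247) (nat_lit 171)) (XT.lf (nat_lit 0) (nat_lit 156754856902) (nat_lit 152) (nat_lit 3118128073181) (nat_lit 0) (nat_lit 151418831336) (nat_lit 1) (nat_lit 5) (nat_lit 3) (nat_lit 4) (nat_lit 1) (nat_lit 4) (nat_lit 363) (nat_lit 247) (nat_lit 170))))) (XT.nd (nat_lit 34476) (nat_lit 0) (nat_lit 836) (XT.nd (nat_lit 78) (nat_lit 0) (nat_lit 0) (XT.lf (nat_lit 0) (nat_lit 171564715141) (nat_lit 152) (nat_lit 3362395486593) (nat_lit 0) (nat_lit 166227631746) (nat_lit 1) (nat_lit 5) (nat_lit 3) (nat_lit 4) (nat_lit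 1) (nat_lit 4) (nat_lit 364) (nat_lit 247) (nat_lit 169)) (XT.nd (nat_lit 34320) (nat_lit 0) (nat_lit 1064) (XT.lf (nat_lit 0) (nat_lit 187558340134) (nat_lit 152) (nat_lit 3626206256516) (nat_lit 0) (nat_lit 182220277267) (nat_lit 1) (nat_lit 5) (nat_lit 3) (nat_lit 4) (nat_lit 1) (nat_lit 4) (nat_lit 365) (nat_lit 247) (nat_lit 168)) (XT.lf (nat_lit 0) (nat_lit 425114441) (nat_lit 152) (nat_lit 2743167342) (nat_lit 152) (nat_lit 2743167342) (nat_lit 15) (nat_lit 4) (nat_lit 17) (nat_lit 5) (nat_lit 17) (nat_lit 4) (nat_lit 284) (nat_lit 248) (nat_lit 248)))) (XT.nd (nat_lit 156) (nat_lit 76) (nat_lit 0) (XT.nd (nat_lit 78) (nat_lit 152) (nat_lit 0) (XT.lf (nat_lit 0) (nat_lit 8336508818) (nat_lit 152) (nat_lit 2344647925) (nat_lit 152) (nat_lit 1715739508) (nat_lit 15) (nat_lit 4) (nat_lit 17) (nat_lit 5) (nat_lit 17) (nat_lit 4) (nat_lit 285) (nat_lit 248) (nat_lit 247)) (XT.lf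 (nat_lit 0) (nat_lit 2112566753) (nat_lit 152) (nat_lit 9919214501) (nat_lit 0) (nat_lit 991056545) (nat_lit 13) (nat_lit 5) (nat_lit 15) (nat_lit 4) (nat_lit 13) (nat_lit 4) (nat_lit 286) (nat_lit 248) (nat_lit 246))) (XT.nd (nat_lit 78) (nat_lit 76) (nat_lit 0) (XT.lf (nat_lit 0) (nat_lit 6107294305) (nat_lit 152) (nat_lit 3105668969) (nat_lit 0) (nat_lit 4486536318) (nat_lit 13) (nat_lit 5) (nat_lit 15) (nat_lit 4) (nat_lit 13) (nat_lit 4) (nat_lit 287) (nat_lit 248) (nat_lit 245)) (XT.lf (nat_lit 0) (nat_lit 4107488727) (nat_lit 76) (nat_lit 6207386872) (nat_lit 76) (nat_lit 4124362424) (nat_lit 12) (nat_lit 4) (nat_lit 13) (nat_lit 5) (nat_lit 13) (nat_lit 4) (nat_lit 288) (nat_lit 248) (nat_lit 244))))))) (XT.nd (nat_lit 1092) (nat_lit 228) (nat_lit 0) (XT.nd (nat_lit 546) (nat_lit 76) (nat_lit 0) (XT.nd (nat_lit 234) (nat_lit 228) (nat_lit 0) (XT.nd (nat_lit 78) (nat_lit 152)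 (nat_lit 0) (XT.lf (nat_lit 0) (nat_lit 11732261163) (nat_lit 76) (nat_lit 3013203451) (nat_lit 76) (nat_lit 502154501) (nat_lit 12) (nat_lit 4) (nat_lit 13) (nat_lit 5) (nat_lit 13) (nat_lit 4) (nat_lit 289) (nat_lit 248) (nat_lit 243)) (XT.nd (nat_lit 78) (nat_lit 0) (nat_lit 0) (XT.lf (nat_lit 0) (nat_lit 3148932393) (nat_lit 152) (nat_lit 12515800753) (nat_lit 0) (nat_lit 456925049) (nat_lit 10) (nat_lit 5) (nat_lit 12) (nat_lit 4) (nat_lit 10) (nat_lit 4) (nat_lit 290) (nat_lit 248) (nat_lit 242)) (XT.lf (nat_lit 0) (nat_lit 7055995818) (nat_lit 152) (nat_lit 5985389033) (nat_lit 0) (nat_lit 4024208824) (nat_lit 10) (nat_lit 5) (nat_lit 12) (nat_lit 4) (nat_lit 10) (nat_lit 4) (nat_lit 291) (nat_lit 248) (nat_lit 241)))) (XT.nd (nat_lit 156) (nat_lit 152) (nat_lit 0) (XT.nd (nat_lit 78) (nat_lit 0) (nat_lit 0) (XT.lf (nat_lit 0) (nat_lit 801684115) (nat_lit 76) (nat_lit 10321129333)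 (nat_lit 76) (nat_lit 6974731554) (nat_lit 9) (nat_lit 4) (nat_lit 10) (nat_lit 5) (nat_lit 10) (nat_lit 4) (nat_lit 292) (nat_lit 248) (nat_lit 240)) (XT.lf (nat_lit 0) (nat_lit 8173986173) (nat_lit 76) (nat_lit 7338127516) (nat_lit 76) (nat_lit 3700423453) (nat_lit 9) (nat_lit 4) (nat_lit 10) (nat_lit 5) (nat_lit 10) (nat_lit 4) (nat_lit 293) (nat_lit 248) (nat_lit 239))) (XT.nd (nat_lit 78) (nat_lit 152) (nat_lit 0) (XT.lf (nat_lit 0) (nat_lit 15860024874) (nat_lit 76) (nat_lit 4238353497) (nat_lit 76) (nat_lit 330921394) (nat_lit 9) (nat_lit 4) (nat_lit 10) (nat_lit 5) (nat_lit 10) (nat_lit 4) (nat_lit 294) (nat_lit 248) (nat_lit 238)) (XT.lf (nat_lit 0) (nat_lit 2183693417) (nat_lit 76) (nat_lit 864803556) (nat_lit 152) (nat_lit 18696277105) (nat_lit 7) (nat_lit 5) (nat_lit 8) (nat_lit 5) (nat_lit 9) (nat_lit 4) (nat_lit 295) (nat_lit 248) (nat_lit 237))))) (XT.nd (nat_lit 234)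 (nat_lit 76) (nat_lit 0) (XT.nd (nat_lit 78) (nat_lit 0) (nat_lit 0) (XT.lf (nat_lit 0) (nat_lit 6730643428) (nat_lit 152) (nat_lit 13763039371) (nat_lit 0) (nat_lit 2667283606) (nat_lit 7) (nat_lit 5) (nat_lit 9) (nat_lit 4) (nat_lit 7) (nat_lit 4) (nat_lit 296) (nat_lit 248) (nat_lit 236)) (XT.nd (nat_lit 78) (nat_lit 0) (nat_lit 0) (XT.lf (nat_lit 0) (nat_lit 10595796046) (nat_lit 152) (nat_lit 7769579267) (nat_lit 0) (nat_lit 6334178062) (nat_lit 7) (nat_lit 5) (nat_lit 9) (nat_lit 4) (nat_lit 7) (nat_lit 4) (nat_lit 297) (nat_lit 248) (nat_lit 235)) (XT.lf (nat_lit 0) (nat_lit 14646060889) (nat_lit 152) (nat_lit 1524385004) (nat_lit 0) (nat_lit 10200870534) (nat_lit 7) (nat_lit 5) (nat_lit 9) (nat_lit 4) (nat_lit 7) (nat_lit 4) (nat_lit 298) (nat_lit 248) (nat_lit 234)))) (XT.nd (nat_lit 156) (nat_lit 0) (nat_lit 0) (XT.nd (nat_lit 78) (nat_lit 0) (nat_lit 0) (XT.lf (nat_lit 0)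 (nat_lit 5273346105) (nat_lit 76) (nat_lit 13758917522) (nat_lit 76) (nat_lit 9143752748) (nat_lit 6) (nat_lit 4) (nat_lit 7) (nat_lit 5) (nat_lit 7) (nat_lit 4) (nat_lit 299) (nat_lit 248) (nat_lit 233)) (XT.lf (nat_lit 0) (nat_lit 12496054561) (nat_lit 76) (nat_lit 11203648574) (nat_lit 76) (nat_lit 6431100079) (nat_lit 6) (nat_lit 4) (nat_lit 7) (nat_lit 5) (nat_lit 7) (nat_lit 4) (nat_lit 300) (nat_lit 248) (nat_lit 232))) (XT.nd (nat_lit 78) (nat_lit 0) (nat_lit 0) (XT.lf (nat_lit 0) (nat_lit 20106270183) (nat_lit 76) (nat_lit 8531176103) (nat_lit 76) (nat_lit 3612901940) (nat_lit 6) (nat_lit 4) (nat_lit 7) (nat_lit 5) (nat_lit 7) (nat_lit 4) (nat_lit 301) (nat_lit 248) (nat_lit 231)) (XT.lf (nat_lit 0) (nat_lit 28149090546) (nat_lit 76) (nat_lit 5725663234) (nat_lit 76) (nat_lit 672457898) (nat_lit 6) (nat_lit 4) (nat_lit 7) (nat_lit 5) (nat_lit 7) (nat_lit 4) (nat_lit 302) (nat_lit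 248) (nat_lit 230)))))) (XT.nd (nat_lit 546) (nat_lit 76) (nat_lit 0) (XT.nd (nat_lit 234) (nat_lit 0) (nat_lit 0) (XT.nd (nat_lit 78) (nat_lit 76) (nat_lit 0) (XT.lf (nat_lit 0) (nat_lit 2287216150) (nat_lit 152) (nat_lit 420732014) (nat_lit 76) (nat_lit 34322424114) (nat_lit 5) (nat_lit 5) (nat_lit 7) (nat_lit 5) (nat_lit 6) (nat_lit 4) (nat_lit 303) (nat_lit 248) (nat_lit 229)) (XT.nd (nat_lit 78) (nat_lit 0) (nat_lit 0) (XT.lf (nat_lit 0) (nat_lit 5527517932) (nat_lit 152) (nat_lit 33551120119) (nat_lit 0) (nat_lit 625829653) (nat_lit 4) (nat_lit 5) (nat_lit 6) (nat_lit 4) (nat_lit 4) (nat_lit 4) (nat_lit 304) (nat_lit 248) (nat_lit 228)) (XT.lf (nat_lit 0) (nat_lit 9026014659) (nat_lit 152) (nat_lit 29541497553) (nat_lit 0) (nat_lit 4025147939) (nat_lit 4) (nat_lit 5) (nat_lit 6) (nat_lit 4) (nat_lit 4) (nat_lit 4) (nat_lit 305) (nat_lit 248) (nat_lit 227)))) (XT.nd (nat_lit 156)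 (nat_lit 0) (nat_lit 0) (XT.nd (nat_lit 78) (nat_lit 0) (nat_lit 0) (XT.lf (nat_lit 0) (nat_lit 12727383841) (nat_lit 152) (nat_lit 25356080106) (nat_lit 0) (nat_lit 7634685232) (nat_lit 4) (nat_lit 5) (nat_lit 6) (nat_lit 4) (nat_lit 4) (nat_lit 4) (nat_lit 306) (nat_lit 248) (nat_lit 226)) (XT.lf (nat_lit 0) (nat_lit 16653559517) (nat_lit 152) (nat_lit 20970065304) (nat_lit 0) (nat_lit 11475831381) (nat_lit 4) (nat_lit 5) (nat_lit 6) (nat_lit 4) (nat_lit 4) (nat_lit 4) (nat_lit 307) (nat_lit 248) (nat_lit 225))) (XT.nd (nat_lit 78) (nat_lit 0) (nat_lit 0) (XT.lf (nat_lit 0) (nat_lit 20827807915) (nat_lit 152) (nat_lit 16357461949) (nat_lit 0) (nat_lit 15571348735) (nat_lit 4) (nat_lit 5) (nat_lit 6) (nat_lit 4) (nat_lit 4) (nat_lit 4) (nat_lit 308) (nat_lit 248) (nat_lit 224)) (XT.lf (nat_lit 0) (nat_lit 25274865320) (nat_lit 152) (nat_lit 11490936094) (nat_lit 0) (nat_lit 19945507026)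 (nat_lit 4) (nat_lit 5) (nat_lit 6) (nat_lit 4) (nat_lit 4) (nat_lit 4) (nat_lit 309) (nat_lit 248) (nat_lit 223))))) (XT.nd (nat_lit 312) (nat_lit 0) (nat_lit 0) (XT.nd (nat_lit 156) (nat_lit 76) (nat_lit 0) (XT.nd (nat_lit 78) (nat_lit 0) (nat_lit 0) (XT.lf (nat_lit 0) (nat_lit 30021084666) (nat_lit 152) (nat_lit 6341649069) (nat_lit 0) (nat_lit 24624227192) (nat_lit 4) (nat_lit 5) (nat_lit 6) (nat_lit 4) (nat_lit 4) (nat_lit 4) (nat_lit 310) (nat_lit 248) (nat_lit 222)) (XT.lf (nat_lit 0) (nat_lit 35094591697) (nat_lit 152) (nat_lit 879086579) (nat_lit 0) (nat_lit 29635234982) (nat_lit 4) (nat_lit 5) (nat_lit 6) (nat_lit 4) (nat_lit 4) (nat_lit 4) (nat_lit 311) (nat_lit 248) (nat_lit 221))) (XT.nd (nat_lit 78) (nat_lit 0) (nat_lit 0) (XT.lf (nat_lit 0) (nat_lit 5188680951) (nat_lit 76) (nat_lit 35461558590) (nat_lit 76) (nat_lit 29944332207) (nat_lit 3) (nat_lit 4) (nat_lit 4) (nat_lit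 5) (nat_lit 4) (nat_lit 4) (nat_lit 312) (nat_lit 248) (nat_lit 220)) (XT.lf (nat_lit 0) (nat_lit 11702818403) (nat_lit 76) (nat_lit 34924482027) (nat_lit 76) (nat_lit 29353672619) (nat_lit 3) (nat_lit 4) (nat_lit 4) (nat_lit 5) (nat_lit 4) (nat_lit 4) (nat_lit 313) (nat_lit 248) (nat_lit 219)))) (XT.nd (nat_lit 156) (nat_lit 0) (nat_lit 0) (XT.nd (nat_lit 78) (nat_lit 0) (nat_lit 0) (XT.lf (nat_lit 0) (nat_lit 18655636932) (nat_lit 76) (nat_lit 34383301698) (nat_lit 76) (nat_lit 28762878378) (nat_lit 3) (nat_lit 4) (nat_lit 4) (nat_lit 5) (nat_lit 4) (nat_lit 4) (nat_lit 314) (nat_lit 248) (nat_lit 218)) (XT.lf (nat_lit 0) (nat_lit 26088338425) (nat_lit 76) (nat_lit 33834810608) (nat_lit 76) (nat_lit 28168448479) (nat_lit 3) (nat_lit 4) (nat_lit 4) (nat_lit 5) (nat_lit 4) (nat_lit 4) (nat_lit 315) (nat_lit 248) (nat_lit 217))) (XT.nd (nat_lit 78) (nat_lit 0) (nat_lit 0) (XT.lf (nat_lit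 0) (nat_lit 34044968521) (nat_lit 76) (nat_lit 33275758438) (nat_lit 76) (nat_lit 27566860377) (nat_lit 3) (nat_lit 4) (nat_lit 4) (nat_lit 5) (nat_lit 4) (nat_lit 4) (nat_lit 316) (nat_lit 248) (nat_lit 216)) (XT.lf (nat_lit 0) (nat_lit 42572677620) (nat_lit 76) (nat_lit 32702832288) (nat_lit 76) (nat_lit 26954549103) (nat_lit 3) (nat_lit 4) (nat_lit 4) (nat_lit 5) (nat_lit 4) (nat_lit 4) (nat_lit 317) (nat_lit 248) (nat_lit 215))))))))
noncomputable def xc30 : XT := (XT.nd (nat_lit 2184) (nat_lit 0) (nat_lit 0) (XT.nd (nat_lit 1092) (nat_lit 152) (nat_lit 0) (XT.nd (nat_lit 546) (nat_lit 0) (nat_lit 0) (XT.nd (nat_lit 234) (nat_lit 0) (nat_lit 0) (XT.nd (nat_lit 78) (nat_lit 0) (nat_lit 0) (XT.lf (nat_lit 0) (nat_lit 51722000294) (nat_lit 76) (nat_lit 32112637040) (nat_lit 76) (nat_lit 26327886148) (nat_lit 3) (nat_lit 4) (nat_lit 4) (nat_lit 5) (nat_lit 4) (nat_lit 4) (nat_lit 318)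 (nat_lit 248) (nat_lit 214)) (XT.nd (nat_lit 78) (nat_lit 0) (nat_lit 0) (XT.lf (nat_lit 0) (nat_lit 61547154753) (nat_lit 76) (nat_lit 31501675239) (nat_lit 76) (nat_lit 25683157952) (nat_lit 3) (nat_lit 4) (nat_lit 4) (nat_lit 5) (nat_lit 4) (nat_lit 4) (nat_lit 319) (nat_lit 248) (nat_lit 213)) (XT.lf (nat_lit 0) (nat_lit 72106364133) (nat_lit 76) (nat_lit 30866326372) (nat_lit 76) (nat_lit 25016543904) (nat_lit 3) (nat_lit 4) (nat_lit 4) (nat_lit 5) (nat_lit 4) (nat_lit 4) (nat_lit 320) (nat_lit 248) (nat_lit 212)))) (XT.nd (nat_lit 156) (nat_lit 0) (nat_lit 0) (XT.nd (nat_lit 78) (nat_lit 0) (nat_lit 0) (XT.lf (nat_lit 0) (nat_lit 83462201527) (nat_lit 76) (nat_lit 30202825409) (nat_lit 76) (nat_lit 24324093699) (nat_lit 3) (nat_lit 4) (nat_lit 4) (nat_lit 5) (nat_lit 4) (nat_lit 4) (nat_lit 321) (nat_lit 248) (nat_lit 211)) (XT.lf (nat_lit 0) (nat_lit 95681960787) (nat_lit 76)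 (nat_lit 29507240491) (nat_lit 76) (nat_lit 23601703929) (nat_lit 3) (nat_lit 4) (nat_lit 4) (nat_lit 5) (nat_lit 4) (nat_lit 4) (nat_lit 322) (nat_lit 248) (nat_lit 210))) (XT.nd (nat_lit 78) (nat_lit 0) (nat_lit 0) (XT.lf (nat_lit 0) (nat_lit 108838055301) (nat_lit 76) (nat_lit 28775449634) (nat_lit 76) (nat_lit 22845093764) (nat_lit 3) (nat_lit 4) (nat_lit 4) (nat_lit 5) (nat_lit 4) (nat_lit 4) (nat_lit 323) (nat_lit 248) (nat_lit 209)) (XT.lf (nat_lit 0) (nat_lit 123008447109) (nat_lit 76) (nat_lit 28003116301) (nat_lit 76) (nat_lit 22049779589) (nat_lit 3) (nat_lit 4) (nat_lit 4) (nat_lit 5) (nat_lit 4) (nat_lit 4) (nat_lit 324) (nat_lit 248) (nat_lit 208))))) (XT.nd (nat_lit 234) (nat_lit 0) (nat_lit 0) (XT.nd (nat_lit 78) (nat_lit 0) (nat_lit 0) (XT.lf (nat_lit 0) (nat_lit 138277108906) (nat_lit 76) (nat_lit 27185663699) (nat_lit 76) (nat_lit 21211048431) (nat_lit 3) (nat_lit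 4) (nat_lit 4) (nat_lit 5) (nat_lit 4) (nat_lit 4) (nat_lit 325) (nat_lit 248) (nat_lit 207)) (XT.nd (nat_lit 78) (nat_lit 0) (nat_lit 0) (XT.lf (nat_lit 0) (nat_lit 154734521648) (nat_lit 76) (nat_lit 26318247667) (nat_lit 76) (nat_lit 20323930031) (nat_lit 3) (nat_lit 4) (nat_lit 4) (nat_lit 5) (nat_lit 4) (nat_lit 4) (nat_lit 326) (nat_lit 248) (nat_lit 206)) (XT.lf (nat_lit 0) (nat_lit 172478210745) (nat_lit 76) (nat_lit 25395727961) (nat_lit 76) (nat_lit 19383167392) (nat_lit 3) (nat_lit 4) (nat_lit 4) (nat_lit 5) (nat_lit 4) (nat_lit 4) (nat_lit 327) (nat_lit 248) (nat_lit 205)))) (XT.nd (nat_lit 156) (nat_lit 0) (nat_lit 0) (XT.nd (nat_lit 78) (nat_lit 0) (nat_lit 0) (XT.lf (nat_lit 0) (nat_lit 191613323985) (nat_lit 76) (nat_lit 24412637797) (nat_lit 76) (nat_lit 18383185624) (nat_lit 3) (nat_lit 4) (nat_lit 4) (nat_lit 5) (nat_lit 4) (nat_lit 4) (nat_lit 328) (nat_lit 248)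 (nat_lit 204)) (XT.lf (nat_lit 0) (nat_lit 212253254631) (nat_lit 76) (nat_lit 23363151456) (nat_lit 76) (nat_lit 17318058909) (nat_lit 3) (nat_lit 4) (nat_lit 4) (nat_lit 5) (nat_lit 4) (nat_lit 4) (nat_lit 329) (nat_lit 248) (nat_lit 203))) (XT.nd (nat_lit 78) (nat_lit 0) (nat_lit 0) (XT.lf (nat_lit 0) (nat_lit 234520313382) (nat_lit 76) (nat_lit 22241049759) (nat_lit 76) (nat_lit 16181475384) (nat_lit 3) (nat_lit 4) (nat_lit 4) (nat_lit 5) (nat_lit 4) (nat_lit 4) (nat_lit 330) (nat_lit 248) (nat_lit 202)) (XT.lf (nat_lit 0) (nat_lit 258546453181) (nat_lit 76) (nat_lit 21039683216) (nat_lit 76) (nat_lit 14966699741) (nat_lit 3) (nat_lit 4) (nat_lit 4) (nat_lit 5) (nat_lit 4) (nat_lit 4) (nat_lit 331) (nat_lit 248) (nat_lit 201)))))) (XT.nd (nat_lit 546) (nat_lit 152) (nat_lit 0) (XT.nd (nat_lit 234) (nat_lit 0) (nat_lit 0) (XT.nd (nat_lit 78) (nat_lit 0) (nat_lit 0) (XT.lf (nat_lit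 0) (nat_lit 284474051151) (nat_lit 76) (nat_lit 19751932617) (nat_lit 76) (nat_lit 13666533308) (nat_lit 3) (nat_lit 4) (nat_lit 4) (nat_lit 5) (nat_lit 4) (nat_lit 4) (nat_lit 332) (nat_lit 248) (nat_lit 200)) (XT.nd (nat_lit 78) (nat_lit 0) (nat_lit 0) (XT.lf (nat_lit 0) (nat_lit 312456752317) (nat_lit 76) (nat_lit 18370166847) (nat_lit 76) (nat_lit 12273271396) (nat_lit 3) (nat_lit 4) (nat_lit 4) (nat_lit 5) (nat_lit 4) (nat_lit 4) (nat_lit 333) (nat_lit 248) (nat_lit 199)) (XT.lf (nat_lit 0) (nat_lit 342660380095) (nat_lit 76) (nat_lit 16886197664) (nat_lit 76) (nat_lit 10778657637) (nat_lit 3) (nat_lit 4) (nat_lit 4) (nat_lit 5) (nat_lit 4) (nat_lit 4) (nat_lit 334) (nat_lit 248) (nat_lit 198)))) (XT.nd (nat_lit 156) (nat_lit 0) (nat_lit 0) (XT.nd (nat_lit 78) (nat_lit 0) (nat_lit 0) (XT.lf (nat_lit 0) (nat_lit 375263918944) (nat_lit 76) (nat_lit 15291231178) (nat_lit 76) (nat_lit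 9173835062) (nat_lit 3) (nat_lit 4) (nat_lit 4) (nat_lit 5) (nat_lit 4) (nat_lit 4) (nat_lit 335) (nat_lit 248) (nat_lit 197)) (XT.lf (nat_lit 0) (nat_lit 410460575021) (nat_lit 76) (nat_lit 13575815735) (nat_lit 76) (nat_lit 7449293611) (nat_lit 3) (nat_lit 4) (nat_lit 4) (nat_lit 5) (nat_lit 4) (nat_lit 4) (nat_lit 336) (nat_lit 248) (nat_lit 196))) (XT.nd (nat_lit 78) (nat_lit 0) (nat_lit 0) (XT.lf (nat_lit 0) (nat_lit 448458921103) (nat_lit 76) (nat_lit 11729785910) (nat_lit 76) (nat_lit 5594813778) (nat_lit 3) (nat_lit 4) (nat_lit 4) (nat_lit 5) (nat_lit 4) (nat_lit 4) (nat_lit 337) (nat_lit 248) (nat_lit 195)) (XT.lf (nat_lit 0) (nat_lit 489484132573) (nat_lit 76) (nat_lit 9742202267) (nat_lit 76) (nat_lit 3599406054) (nat_lit 3) (nat_lit 4) (nat_lit 4) (nat_lit 5) (nat_lit 4) (nat_lit 4) (nat_lit 338) (nat_lit 248) (nat_lit 194))))) (XT.nd (nat_lit 234) (nat_lit 0) (nat_lit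 0) (XT.nd (nat_lit 78) (nat_lit 152) (nat_lit 0) (XT.lf (nat_lit 0) (nat_lit 533779321797) (nat_lit 76) (nat_lit 7601286533) (nat_lit 76) (nat_lit 1451245800) (nat_lit 3) (nat_lit 4) (nat_lit 4) (nat_lit 5) (nat_lit 4) (nat_lit 4) (nat_lit 339) (nat_lit 248) (nat_lit 193)) (XT.nd (nat_lit 78) (nat_lit 76) (nat_lit 0) (XT.lf (nat_lit 0) (nat_lit 819256239) (nat_lit 152) (nat_lit 4452695642) (nat_lit 76) (nat_lit 580765322627) (nat_lit 2) (nat_lit 5) (nat_lit 4) (nat_lit 5) (nat_lit 3) (nat_lit 4) (nat_lit 340) (nat_lit 248) (nat_lit 192)) (XT.lf (nat_lit 0) (nat_lit 491392994) (nat_lit 76) (nat_lit 2707814997) (nat_lit 152) (nat_lit 629496412836) (nat_lit 1) (nat_lit 5) (nat_lit 2) (nat_lit 5) (nat_lit 3) (nat_lit 4) (nat_lit 341) (nat_lit 248) (nat_lit 191)))) (XT.nd (nat_lit 156) (nat_lit 0) (nat_lit 0) (XT.nd (nat_lit 78) (nat_lit 0) (nat_lit 0) (XT.lf (nat_lit 0) (nat_lit 5890384988)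 (nat_lit 152) (nat_lit 677007972261) (nat_lit 0) (nat_lit 178615949) (nat_lit 1) (nat_lit 5) (nat_lit 3) (nat_lit 4) (nat_lit 1) (nat_lit 4) (nat_lit 342) (nat_lit 248) (nat_lit 190)) (XT.lf (nat_lit 0) (nat_lit 8862044903) (nat_lit 152) (nat_lit 725476232716) (nat_lit 0) (nat_lit 3145345366) (nat_lit 1) (nat_lit 5) (nat_lit 3) (nat_lit 4) (nat_lit 1) (nat_lit 4) (nat_lit 343) (nat_lit 248) (nat_lit 189))) (XT.nd (nat_lit 78) (nat_lit 0) (nat_lit 0) (XT.lf (nat_lit 0) (nat_lit 12066674557) (nat_lit 152) (nat_lit 777831105503) (nat_lit 0) (nat_lit 6345409744) (nat_lit 1) (nat_lit 5) (nat_lit 3) (nat_lit 4) (nat_lit 1) (nat_lit 4) (nat_lit 344) (nat_lit 248) (nat_lit 188)) (XT.lf (nat_lit 0) (nat_lit 15523264350) (nat_lit 152) (nat_lit 834382841722) (nat_lit 0) (nat_lit 9797772429) (nat_lit 1) (nat_lit 5) (nat_lit 3) (nat_lit 4) (nat_lit 1) (nat_lit 4) (nat_lit 345) (nat_lit 248) (nat_lit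 187))))))) (XT.nd (nat_lit 1092) (nat_lit 0) (nat_lit 0) (XT.nd (nat_lit 546) (nat_lit 0) (nat_lit 0) (XT.nd (nat_lit 234) (nat_lit 0) (nat_lit 0) (XT.nd (nat_lit 78) (nat_lit 0) (nat_lit 0) (XT.lf (nat_lit 0) (nat_lit 19252297774) (nat_lit 152) (nat_lit 895466562771) (nat_lit 0) (nat_lit 13522891865) (nat_lit 1) (nat_lit 5) (nat_lit 3) (nat_lit 4) (nat_lit 1) (nat_lit 4) (nat_lit 346) (nat_lit 248) (nat_lit 186)) (XT.nd (nat_lit 78) (nat_lit 0) (nat_lit 0) (XT.lf (nat_lit 0) (nat_lit 23275872808) (nat_lit 152) (nat_lit 961444246257) (nat_lit 0) (nat_lit 17542842835) (nat_lit 1) (nat_lit 5) (nat_lit 3) (nat_lit 4) (nat_lit 1) (nat_lit 4) (nat_lit 347) (nat_lit 248) (nat_lit 185)) (XT.lf (nat_lit 0) (nat_lit 27617832857) (nat_lit 152) (nat_lit 1032706871046) (nat_lit 0) (nat_lit 21881447270) (nat_lit 1) (nat_lit 5) (nat_lit 3) (nat_lit 4) (nat_lit 1) (nat_lit 4) (nat_lit 348) (nat_lit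 248) (nat_lit 184)))) (XT.nd (nat_lit 156) (nat_lit 0) (nat_lit 0) (XT.nd (nat_lit 78) (nat_lit 0) (nat_lit 0) (XT.lf (nat_lit 0) (nat_lit 32303908056) (nat_lit 152) (nat_lit 1109676734172) (nat_lit 0) (nat_lit 26564415419) (nat_lit 1) (nat_lit 5) (nat_lit 3) (nat_lit 4) (nat_lit 1) (nat_lit 4) (nat_lit 349) (nat_lit 248) (nat_lit 183)) (XT.lf (nat_lit 0) (nat_lit 37361867740) (nat_lit 152) (nat_lit 1192809953343) (nat_lit 0) (nat_lit 31619498204) (nat_lit 1) (nat_lit 5) (nat_lit 3) (nat_lit 4) (nat_lit 1) (nat_lit 4) (nat_lit 350) (nat_lit 248) (nat_lit 182))) (XT.nd (nat_lit 78) (nat_lit 0) (nat_lit 0) (XT.lf (nat_lit 0) (nat_lit 42821685002) (nat_lit 152) (nat_lit 1282599169858) (nat_lit 0) (nat_lit 37076651671) (nat_lit 1) (nat_lit 5) (nat_lit 3) (nat_lit 4) (nat_lit 1) (nat_lit 4) (nat_lit 351) (nat_lit 248) (nat_lit 181)) (XT.lf (nat_lit 0) (nat_lit 48715714315) (nat_lit 152)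 (nat_lit 1379576467964) (nat_lit 0) (nat_lit 42968214508) (nat_lit 1) (nat_lit 5) (nat_lit 3) (nat_lit 4) (nat_lit 1) (nat_lit 4) (nat_lit 352) (nat_lit 248) (nat_lit 180))))) (XT.nd (nat_lit 234) (nat_lit 0) (nat_lit 0) (XT.nd (nat_lit 78) (nat_lit 0) (nat_lit 0) (XT.lf (nat_lit 0) (nat_lit 55078883261) (nat_lit 152) (nat_lit 1484316527944) (nat_lit 0) (nat_lit 49329099679) (nat_lit 1) (nat_lit 5) (nat_lit 3) (nat_lit 4) (nat_lit 1) (nat_lit 4) (nat_lit 353) (nat_lit 248) (nat_lit 179)) (XT.nd (nat_lit 78) (nat_lit 0) (nat_lit 0) (XT.lf (nat_lit 0) (nat_lit 61948899507) (nat_lit 152) (nat_lit 1597440031637) (nat_lit 0) (nat_lit 56197001319) (nat_lit 1) (nat_lit 5) (nat_lit 3) (nat_lit 4) (nat_lit 1) (nat_lit 4) (nat_lit 354) (nat_lit 248) (nat_lit 178)) (XT.lf (nat_lit 0) (nat_lit 69366474260) (nat_lit 152) (nat_lit 1719617340545) (nat_lit 0) (nat_lit 63612618104) (nat_lit 1) (nat_lit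 5) (nat_lit 3) (nat_lit 4) (nat_lit 1) (nat_lit 4) (nat_lit 355) (nat_lit 248) (nat_lit 177)))) (XT.nd (nat_lit 156) (nat_lit 0) (nat_lit 0) (XT.nd (nat_lit 78) (nat_lit 0) (nat_lit 0) (XT.lf (nat_lit 0) (nat_lit 77375563520) (nat_lit 152) (nat_lit 1851572468351) (nat_lit 0) (nat_lit 71619894429) (nat_lit 1) (nat_lit 5) (nat_lit 3) (nat_lit 4) (nat_lit 1) (nat_lit 4) (nat_lit 356) (nat_lit 248) (nat_lit 176)) (XT.lf (nat_lit 0) (nat_lit 86023628556) (nat_lit 152) (nat_lit 1994087371367) (nat_lit 0) (nat_lit 80266280822) (nat_lit 1) (nat_lit 5) (nat_lit 3) (nat_lit 4) (nat_lit 1) (nat_lit 4) (nat_lit 357) (nat_lit 248) (nat_lit 175))) (XT.nd (nat_lit 78) (nat_lit 0) (nat_lit 0) (XT.lf (nat_lit 0) (nat_lit 95361917160) (nat_lit 152) (nat_lit 2148006582353) (nat_lit 0) (nat_lit 89603015128) (nat_lit 1) (nat_lit 5) (nat_lit 3) (nat_lit 4) (nat_lit 1) (nat_lit 4) (nat_lit 358) (nat_lit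 248) (nat_lit 174)) (XT.lf (nat_lit 0) (nat_lit 105445767340) (nat_lit 152) (nat_lit 2314242215151) (nat_lit 0) (nat_lit 99685426142) (nat_lit 1) (nat_lit 5) (nat_lit 3) (nat_lit 4) (nat_lit 1) (nat_lit 4) (nat_lit 359) (nat_lit 248) (nat_lit 173)))))) (XT.nd (nat_lit 34632) (nat_lit 0) (nat_lit 684) (XT.nd (nat_lit 234) (nat_lit 0) (nat_lit 0) (XT.nd (nat_lit 78) (nat_lit 0) (nat_lit 0) (XT.lf (nat_lit 0) (nat_lit 116334935244) (nat_lit 152) (nat_lit 2493779369807) (nat_lit 0) (nat_lit 110573261486) (nat_lit 1) (nat_lit 5) (nat_lit 3) (nat_lit 4) (nat_lit 1) (nat_lit 4) (nat_lit 360) (nat_lit 248) (nat_lit 172)) (XT.nd (nat_lit 78) (nat_lit 0) (nat_lit 0) (XT.lf (nat_lit 0) (nat_lit 128093949274) (nat_lit 152) (nat_lit 2687681970202) (nat_lit 0) (nat_lit 122331041664) (nat_lit 1) (nat_lit 5) (nat_lit 3) (nat_lit 4) (nat_lit 1) (nat_lit 4) (nat_lit 361) (nat_lit 248) (nat_lit 171))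 (XT.lf (nat_lit 0) (nat_lit 140792492478) (nat_lit 152) (nat_lit 2897099068781) (nat_lit 0) (nat_lit 135028442412) (nat_lit 1) (nat_lit 5) (nat_lit 3) (nat_lit 4) (nat_lit 1) (nat_lit 4) (nat_lit 362) (nat_lit 248) (nat_lit 170)))) (XT.nd (nat_lit 156) (nat_lit 0) (nat_lit 0) (XT.nd (nat_lit 78) (nat_lit 0) (nat_lit 0) (XT.lf (nat_lit 0) (nat_lit 154505815481) (nat_lit 152) (nat_lit 3123271655758) (nat_lit 0) (nat_lit 148740707585) (nat_lit 1) (nat_lit 5) (nat_lit 3) (nat_lit 4) (nat_lit 1) (nat_lit 4) (nat_lit 363) (nat_lit 248) (nat_lit 169)) (XT.lf (nat_lit 0) (nat_lit 169315182420) (nat_lit 152) (nat_lit 3367540013131) (nat_lit 0) (nat_lit 163549095052) (nat_lit 1) (nat_lit 5) (nat_lit 3) (nat_lit 4) (nat_lit 1) (nat_lit 4) (nat_lit 364) (nat_lit 248) (nat_lit 168))) (XT.nd (nat_lit 34164) (nat_lit 0) (nat_lit 1368) (XT.lf (nat_lit 0) (nat_lit 185308352505) (nat_lit 152) (nat_lit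 3631351657091) (nat_lit 0) (nat_lit 179541358219) (nat_lit 1) (nat_lit 5) (nat_lit 3) (nat_lit 4) (nat_lit 1) (nat_lit 4) (nat_lit 365) (nat_lit 248) (nat_lit 167)) (XT.lf (nat_lit 0) (nat_lit 4480865316) (nat_lit 152) (nat_lit 462189365) (nat_lit 152) (nat_lit 462189365) (nat_lit 19) (nat_lit 4) (nat_lit 21) (nat_lit 5) (nat_lit 21) (nat_lit 4) (nat_lit 282) (nat_lit 249) (nat_lit 249))))) (XT.nd (nat_lit 312) (nat_lit 228) (nat_lit 0) (XT.nd (nat_lit 156) (nat_lit 152) (nat_lit 0) (XT.nd (nat_lit 78) (nat_lit 152) (nat_lit 0) (XT.lf (nat_lit 0) (nat_lit 2927739762) (nat_lit 152) (nat_lit 6120893180) (nat_lit 0) (nat_lit 2248518672) (nat_lit 17) (nat_lit 5) (nat_lit 19) (nat_lit 4) (nat_lit 17) (nat_lit 4) (nat_lit 283) (nat_lit 249) (nat_lit 248)) (XT.lf (nat_lit 0) (nat_lit 662424790) (nat_lit 152) (nat_lit 6239008243) (nat_lit 152) (nat_lit 4930878735) (nat_lit 15) (nat_lit 4)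 (nat_lit 17) (nat_lit 5) (nat_lit 17) (nat_lit 4) (nat_lit 284) (nat_lit 249) (nat_lit 247))) (XT.nd (nat_lit 78) (nat_lit 152) (nat_lit 0) (XT.lf (nat_lit 0) (nat_lit 7974812049) (nat_lit 152) (nat_lit 3165333026) (nat_lit 152) (nat_lit 1274880910) (nat_lit 15) (nat_lit 4) (nat_lit 17) (nat_lit 5) (nat_lit 17) (nat_lit 4) (nat_lit 285) (nat_lit 249) (nat_lit 246)) (XT.lf (nat_lit 0) (nat_lit 2395061758) (nat_lit 152) (nat_lit 10510777683) (nat_lit 0) (nat_lit 145395354) (nat_lit 13) (nat_lit 5) (nat_lit 15) (nat_lit 4) (nat_lit 13) (nat_lit 4) (nat_lit 286) (nat_lit 249) (nat_lit 245)))) (XT.nd (nat_lit 156) (nat_lit 152) (nat_lit 0) (XT.nd (nat_lit 78) (nat_lit 76) (nat_lit 0) (XT.lf (nat_lit 0) (nat_lit 6290986587) (nat_lit 152) (nat_lit 3865955564) (nat_lit 0) (nat_lit 3579053722) (nat_lit 13) (nat_lit 5) (nat_lit 15) (nat_lit 4) (nat_lit 13) (nat_lit 4) (nat_lit 287) (nat_lit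 249) (nat_lit 244)) (XT.lf (nat_lit 0) (nat_lit 3142714853) (nat_lit 76) (nat_lit 7241166191) (nat_lit 76) (nat_lit 4101208825) (nat_lit 12) (nat_lit 4) (nat_lit 13) (nat_lit 5) (nat_lit 13) (nat_lit 4) (nat_lit 288) (nat_lit 249) (nat_lit 243))) (XT.nd (nat_lit 78) (nat_lit 152) (nat_lit 0) (XT.lf (nat_lit 0) (nat_lit 10615216979) (nat_lit 76) (nat_lit 4110883565) (nat_lit 76) (nat_lit 574607216) (nat_lit 12) (nat_lit 4) (nat_lit 13) (nat_lit 5) (nat_lit 13) (nat_lit 4) (nat_lit 289) (nat_lit 249) (nat_lit 242)) (XT.lf (nat_lit 0) (nat_lit 2235207049) (nat_lit 76) (nat_lit 715968632) (nat_lit 152) (nat_lit 13234168206) (nat_lit 10) (nat_lit 5) (nat_lit 11) (nat_lit 5) (nat_lit 12) (nat_lit 4) (nat_lit 290) (nat_lit 249) (nat_lit 241))))))))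
noncomputable def xc31 : XT := (XT.nd (nat_lit 2184) (nat_lit 152) (nat_lit 0) (XT.nd (nat_lit 1092) (nat_lit 76) (nat_lit 0) (XT.nd (nat_lit 546) (nat_lit 228) (nat_lit 0) (XT.nd (nat_lit 234) (nat_lit 152) (nat_lit 0) (XT.nd (nat_lit 78) (nat_lit 76) (nat_lit 0) (XT.lf (nat_lit 0) (nat_lit 6758283799) (nat_lit 152) (nat_lit 7549561342) (nat_lit 0) (nat_lit 2829563411) (nat_lit 10) (nat_lit 5) (nat_lit 12) (nat_lit 4) (nat_lit 10) (nat_lit 4) (nat_lit 291) (nat_lit 249) (nat_lit 240)) (XT.nd (nat_lit 78) (nat_lit 76) (nat_lit 0) (XT.lf (nat_lit 0) (nat_lit 10729213274) (nat_lit 152) (nat_lit 938753980) (nat_lit 0) (nat_lit 6509186602) (nat_lit 10) (nat_lit 5) (nat_lit 12) (nat_lit 4) (nat_lit 10) (nat_lit 4) (nat_lit 292) (nat_lit 249) (nat_lit 239)) (XT.lf (nat_lit 0) (nat_lit 6251399801) (nat_lit 76) (nat_lit 8769222992) (nat_lit 76) (nat_lit 4279468280) (nat_lit 9) (nat_lit 4)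 (nat_lit 10) (nat_lit 5) (nat_lit 10) (nat_lit 4) (nat_lit 293) (nat_lit 249) (nat_lit 238)))) (XT.nd (nat_lit 156) (nat_lit 76) (nat_lit 0) (XT.nd (nat_lit 78) (nat_lit 76) (nat_lit 0) (XT.lf (nat_lit 0) (nat_lit 13814554101) (nat_lit 76) (nat_lit 5723699303) (nat_lit 76) (nat_lit 984196406) (nat_lit 9) (nat_lit 4) (nat_lit 10) (nat_lit 5) (nat_lit 10) (nat_lit 4) (nat_lit 294) (nat_lit 249) (nat_lit 237)) (XT.lf (nat_lit 0) (nat_lit 2310090126) (nat_lit 152) (nat_lit 165763752) (nat_lit 76) (nat_lit 19372842403) (nat_lit 8) (nat_lit 5) (nat_lit 10) (nat_lit 5) (nat_lit 9) (nat_lit 4) (nat_lit 295) (nat_lit 249) (nat_lit 236))) (XT.nd (nat_lit 78) (nat_lit 0) (nat_lit 0) (XT.lf (nat_lit 0) (nat_lit 5884748700) (nat_lit 152) (nat_lit 16304879485) (nat_lit 0) (nat_lit 1083943115) (nat_lit 7) (nat_lit 5) (nat_lit 9) (nat_lit 4) (nat_lit 7) (nat_lit 4) (nat_lit 296) (nat_lit 249) (nat_lit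 235)) (XT.lf (nat_lit 0) (nat_lit 9690237864) (nat_lit 152) (nat_lit 10420911039) (nat_lit 0) (nat_lit 4705859908) (nat_lit 7) (nat_lit 5) (nat_lit 9) (nat_lit 4) (nat_lit 7) (nat_lit 4) (nat_lit 297) (nat_lit 249) (nat_lit 234))))) (XT.nd (nat_lit 234) (nat_lit 152) (nat_lit 0) (XT.nd (nat_lit 78) (nat_lit 76) (nat_lit 0) (XT.lf (nat_lit 0) (nat_lit 13685258768) (nat_lit 152) (nat_lit 4277097941) (nat_lit 0) (nat_lit 8530906394) (nat_lit 7) (nat_lit 5) (nat_lit 9) (nat_lit 4) (nat_lit 7) (nat_lit 4) (nat_lit 298) (nat_lit 249) (nat_lit 233)) (XT.nd (nat_lit 78) (nat_lit 0) (nat_lit 0) (XT.lf (nat_lit 0) (nat_lit 2276865631) (nat_lit 76) (nat_lit 15671378653) (nat_lit 76) (nat_lit 10359642558) (nat_lit 6) (nat_lit 4) (nat_lit 7) (nat_lit 5) (nat_lit 7) (nat_lit 4) (nat_lit 299) (nat_lit 249) (nat_lit 232)) (XT.lf (nat_lit 0) (nat_lit 9408079129) (nat_lit 76) (nat_lit 13158041432) (nat_lit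 76) (nat_lit 7700579669) (nat_lit 6) (nat_lit 4) (nat_lit 7) (nat_lit 5) (nat_lit 7) (nat_lit 4) (nat_lit 300) (nat_lit 249) (nat_lit 231)))) (XT.nd (nat_lit 156) (nat_lit 152) (nat_lit 0) (XT.nd (nat_lit 78) (nat_lit 0) (nat_lit 0) (XT.lf (nat_lit 0) (nat_lit 16933577199) (nat_lit 76) (nat_lit 10524394634) (nat_lit 76) (nat_lit 4932001698) (nat_lit 6) (nat_lit 4) (nat_lit 7) (nat_lit 5) (nat_lit 7) (nat_lit 4) (nat_lit 301) (nat_lit 249) (nat_lit 230)) (XT.lf (nat_lit 0) (nat_lit 24897955384) (nat_lit 76) (nat_lit 7754831464) (nat_lit 76) (nat_lit 2037502255) (nat_lit 6) (nat_lit 4) (nat_lit 7) (nat_lit 5) (nat_lit 7) (nat_lit 4) (nat_lit 302) (nat_lit 249) (nat_lit 229))) (XT.nd (nat_lit 78) (nat_lit 76) (nat_lit 0) (XT.lf (nat_lit 0) (nat_lit 950043633) (nat_lit 152) (nat_lit 3856920184) (nat_lit 76) (nat_lit 32372390489) (nat_lit 5) (nat_lit 5) (nat_lit 7) (nat_lit 5) (nat_lit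 6) (nat_lit 4) (nat_lit 303) (nat_lit 249) (nat_lit 228)) (XT.lf (nat_lit 0) (nat_lit 2480415990) (nat_lit 76) (nat_lit 1567920378) (nat_lit 152) (nat_lit 35816515939) (nat_lit 4) (nat_lit 5) (nat_lit 5) (nat_lit 5) (nat_lit 6) (nat_lit 4) (nat_lit 304) (nat_lit 249) (nat_lit 227)))))) (XT.nd (nat_lit 546) (nat_lit 76) (nat_lit 0) (XT.nd (nat_lit 234) (nat_lit 0) (nat_lit 0) (XT.nd (nat_lit 78) (nat_lit 0) (nat_lit 0) (XT.lf (nat_lit 0) (nat_lit 7472101840) (nat_lit 152) (nat_lit 33406804712) (nat_lit 0) (nat_lit 1880155453) (nat_lit 4) (nat_lit 5) (nat_lit 6) (nat_lit 4) (nat_lit 4) (nat_lit 4) (nat_lit 305) (nat_lit 249) (nat_lit 226)) (XT.nd (nat_lit 78) (nat_lit 0) (nat_lit 0) (XT.lf (nat_lit 0) (nat_lit 11139190715) (nat_lit 152) (nat_lit 29285923823) (nat_lit 0) (nat_lit 5462214800) (nat_lit 4) (nat_lit 5) (nat_lit 6) (nat_lit 4) (nat_lit 4) (nat_lit 4) (nat_lit 306) (nat_lit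 249) (nat_lit 225)) (XT.lf (nat_lit 0) (nat_lit 15033625366) (nat_lit 152) (nat_lit 24959665094) (nat_lit 0) (nat_lit 9277918408) (nat_lit 4) (nat_lit 5) (nat_lit 6) (nat_lit 4) (nat_lit 4) (nat_lit 4) (nat_lit 307) (nat_lit 249) (nat_lit 224)))) (XT.nd (nat_lit 156) (nat_lit 0) (nat_lit 0) (XT.nd (nat_lit 78) (nat_lit 0) (nat_lit 0) (XT.lf (nat_lit 0) (nat_lit 19178483925) (nat_lit 152) (nat_lit 20402391435) (nat_lit 0) (nat_lit 13349877852) (nat_lit 4) (nat_lit 5) (nat_lit 6) (nat_lit 4) (nat_lit 4) (nat_lit 4) (nat_lit 308) (nat_lit 249) (nat_lit 223)) (XT.lf (nat_lit 0) (nat_lit 23598328517) (nat_lit 152) (nat_lit 15587096781) (nat_lit 0) (nat_lit 17702223264) (nat_lit 4) (nat_lit 5) (nat_lit 6) (nat_lit 4) (nat_lit 4) (nat_lit 4) (nat_lit 309) (nat_lit 249) (nat_lit 222))) (XT.nd (nat_lit 78) (nat_lit 0) (nat_lit 0) (XT.lf (nat_lit 0) (nat_lit 28319350813) (nat_lit 152) (nat_lit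 10485246053) (nat_lit 0) (nat_lit 22360746320) (nat_lit 4) (nat_lit 5) (nat_lit 6) (nat_lit 4) (nat_lit 4) (nat_lit 4) (nat_lit 310) (nat_lit 249) (nat_lit 221)) (XT.lf (nat_lit 0) (nat_lit 33369527243) (nat_lit 152) (nat_lit 5066606060) (nat_lit 0) (nat_lit 27353053082) (nat_lit 4) (nat_lit 5) (nat_lit 6) (nat_lit 4) (nat_lit 4) (nat_lit 4) (nat_lit 311) (nat_lit 249) (nat_lit 220))))) (XT.nd (nat_lit 234) (nat_lit 0) (nat_lit 0) (XT.nd (nat_lit 78) (nat_lit 0) (nat_lit 0) (XT.lf (nat_lit 0) (nat_lit 737843579) (nat_lit 76) (nat_lit 38058686352) (nat_lit 76) (nat_lit 31988629166) (nat_lit 3) (nat_lit 4) (nat_lit 4) (nat_lit 5) (nat_lit 4) (nat_lit 4) (nat_lit 312) (nat_lit 249) (nat_lit 219)) (XT.nd (nat_lit 78) (nat_lit 0) (nat_lit 0) (XT.lf (nat_lit 0) (nat_lit 7212341647) (nat_lit 76) (nat_lit 37540293616) (nat_lit 76) (nat_lit 31420622517) (nat_lit 3) (nat_lit 4) (nat_lit 4) (nat_lit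 5) (nat_lit 4) (nat_lit 4) (nat_lit 313) (nat_lit 249) (nat_lit 218)) (XT.lf (nat_lit 0) (nat_lit 14128457042) (nat_lit 76) (nat_lit 37016413126) (nat_lit 76) (nat_lit 30850803219) (nat_lit 3) (nat_lit 4) (nat_lit 4) (nat_lit 5) (nat_lit 4) (nat_lit 4) (nat_lit 314) (nat_lit 249) (nat_lit 217)))) (XT.nd (nat_lit 156) (nat_lit 0) (nat_lit 0) (XT.nd (nat_lit 78) (nat_lit 0) (nat_lit 0) (XT.lf (nat_lit 0) (nat_lit 21527174152) (nat_lit 76) (nat_lit 36483940405) (nat_lit 76) (nat_lit 30275794565) (nat_lit 3) (nat_lit 4) (nat_lit 4) (nat_lit 5) (nat_lit 4) (nat_lit 4) (nat_lit 315) (nat_lit 249) (nat_lit 216)) (XT.lf (nat_lit 0) (nat_lit 29452337227) (nat_lit 76) (nat_lit 35939720059) (nat_lit 76) (nat_lit 29692189096) (nat_lit 3) (nat_lit 4) (nat_lit 4) (nat_lit 5) (nat_lit 4) (nat_lit 4) (nat_lit 316) (nat_lit 249) (nat_lit 215))) (XT.nd (nat_lit 78) (nat_lit 0) (nat_lit 0) (XT.lf (nat_lit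 0) (nat_lit 37950910195) (nat_lit 76) (nat_lit 35380527079) (nat_lit 76) (nat_lit 29096528409) (nat_lit 3) (nat_lit 4) (nat_lit 4) (nat_lit 5) (nat_lit 4) (nat_lit 4) (nat_lit 317) (nat_lit 249) (nat_lit 214)) (XT.lf (nat_lit 0) (nat_lit 47073254970) (nat_lit 76) (nat_lit 34803047728) (nat_lit 76) (nat_lit 28485282663) (nat_lit 3) (nat_lit 4) (nat_lit 4) (nat_lit 5) (nat_lit 4) (nat_lit 4) (nat_lit 318) (nat_lit 249) (nat_lit 213))))))) (XT.nd (nat_lit 1092) (nat_lit 152) (nat_lit 0) (XT.nd (nat_lit 546) (nat_lit 0) (nat_lit 0) (XT.nd (nat_lit 234) (nat_lit 0) (nat_lit 0) (XT.nd (nat_lit 78) (nat_lit 0) (nat_lit 0) (XT.lf (nat_lit 0) (nat_lit 56873429893) (nat_lit 76) (nat_lit 34203859907) (nat_lit 76) (nat_lit 27854829661) (nat_lit 3) (nat_lit 4) (nat_lit 4) (nat_lit 5) (nat_lit 4) (nat_lit 4) (nat_lit 319) (nat_lit 249) (nat_lit 212)) (XT.nd (nat_lit 78) (nat_lit 0) (nat_lit 0) (XT.lf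 (nat_lit 0) (nat_lit 67409510073) (nat_lit 76) (nat_lit 33579412873) (nat_lit 76) (nat_lit 27201433386) (nat_lit 3) (nat_lit 4) (nat_lit 4) (nat_lit 5) (nat_lit 4) (nat_lit 4) (nat_lit 320) (nat_lit 249) (nat_lit 211)) (XT.lf (nat_lit 0) (nat_lit 78743931541) (nat_lit 76) (nat_lit 32926006200) (nat_lit 76) (nat_lit 26521221859) (nat_lit 3) (nat_lit 4) (nat_lit 4) (nat_lit 5) (nat_lit 4) (nat_lit 4) (nat_lit 321) (nat_lit 249) (nat_lit 210)))) (XT.nd (nat_lit 156) (nat_lit 0) (nat_lit 0) (XT.nd (nat_lit 78) (nat_lit 0) (nat_lit 0) (XT.lf (nat_lit 0) (nat_lit 90943861240) (nat_lit 76) (nat_lit 32239767847) (nat_lit 76) (nat_lit 25810164198) (nat_lit 3) (nat_lit 4) (nat_lit 4) (nat_lit 5) (nat_lit 4) (nat_lit 4) (nat_lit 322) (nat_lit 249) (nat_lit 209)) (XT.lf (nat_lit 0) (nat_lit 104081595049) (nat_lit 76) (nat_lit 31516631217) (nat_lit 76) (nat_lit 25064046727) (nat_lit 3) (nat_lit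 4) (nat_lit 4) (nat_lit 5) (nat_lit 4) (nat_lit 4) (nat_lit 323) (nat_lit 249) (nat_lit 208))) (XT.nd (nat_lit 78) (nat_lit 0) (nat_lit 0) (XT.lf (nat_lit 0) (nat_lit 118234986205) (nat_lit 76) (nat_lit 30752311056) (nat_lit 76) (nat_lit 24278448009) (nat_lit 3) (nat_lit 4) (nat_lit 4) (nat_lit 5) (nat_lit 4) (nat_lit 4) (nat_lit 324) (nat_lit 249) (nat_lit 207)) (XT.lf (nat_lit 0) (nat_lit 133487906656) (nat_lit 76) (nat_lit 29942278059) (nat_lit 76) (nat_lit 23448712645) (nat_lit 3) (nat_lit 4) (nat_lit 4) (nat_lit 5) (nat_lit 4) (nat_lit 4) (nat_lit 325) (nat_lit 249) (nat_lit 206))))) (XT.nd (nat_lit 234) (nat_lit 0) (nat_lit 0) (XT.nd (nat_lit 78) (nat_lit 0) (nat_lit 0) (XT.lf (nat_lit 0) (nat_lit 149930744079) (nat_lit 76) (nat_lit 29081732031) (nat_lit 76) (nat_lit 22569923684) (nat_lit 3) (nat_lit 4) (nat_lit 4) (nat_lit 5) (nat_lit 4) (nat_lit 4) (nat_lit 326) (nat_lit 249)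 (nat_lit 205)) (XT.nd (nat_lit 78) (nat_lit 0) (nat_lit 0) (XT.lf (nat_lit 0) (nat_lit 167660937510) (nat_lit 76) (nat_lit 28165573439) (nat_lit 76) (nat_lit 21636873488) (nat_lit 3) (nat_lit 4) (nat_lit 4) (nat_lit 5) (nat_lit 4) (nat_lit 4) (nat_lit 327) (nat_lit 249) (nat_lit 204)) (XT.lf (nat_lit 0) (nat_lit 186783554763) (nat_lit 76) (nat_lit 27188373196) (nat_lit 76) (nat_lit 20644032871) (nat_lit 3) (nat_lit 4) (nat_lit 4) (nat_lit 5) (nat_lit 4) (nat_lit 4) (nat_lit 328) (nat_lit 249) (nat_lit 203)))) (XT.nd (nat_lit 156) (nat_lit 0) (nat_lit 0) (XT.nd (nat_lit 78) (nat_lit 0) (nat_lit 0) (XT.lf (nat_lit 0) (nat_lit 207411915050) (nat_lit 76) (nat_lit 26144340486) (nat_lit 76) (nat_lit 19585518332) (nat_lit 3) (nat_lit 4) (nat_lit 4) (nat_lit 5) (nat_lit 4) (nat_lit 4) (nat_lit 329) (nat_lit 249) (nat_lit 202)) (XT.lf (nat_lit 0) (nat_lit 229668260507) (nat_lit 76) (nat_lit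 25027288448) (nat_lit 76) (nat_lit 18455057194) (nat_lit 3) (nat_lit 4) (nat_lit 4) (nat_lit 5) (nat_lit 4) (nat_lit 4) (nat_lit 330) (nat_lit 249) (nat_lit 201))) (XT.nd (nat_lit 78) (nat_lit 0) (nat_lit 0) (XT.lf (nat_lit 0) (nat_lit 253684480588) (nat_lit 76) (nat_lit 23830597514) (nat_lit 76) (nat_lit 17245950427) (nat_lit 3) (nat_lit 4) (nat_lit 4) (nat_lit 5) (nat_lit 4) (nat_lit 4) (nat_lit 331) (nat_lit 249) (nat_lit 200)) (XT.lf (nat_lit 0) (nat_lit 279602893634) (nat_lit 76) (nat_lit 22547176182) (nat_lit 76) (nat_lit 15951032953) (nat_lit 3) (nat_lit 4) (nat_lit 4) (nat_lit 5) (nat_lit 4) (nat_lit 4) (nat_lit 332) (nat_lit 249) (nat_lit 199)))))) (XT.nd (nat_lit 546) (nat_lit 152) (nat_lit 0) (XT.nd (nat_lit 234) (nat_lit 0) (nat_lit 0) (XT.nd (nat_lit 78) (nat_lit 0) (nat_lit 0) (XT.lf (nat_lit 0) (nat_lit 307577090242) (nat_lit 76) (nat_lit 21169418994) (nat_lit 76) (nat_lit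 14562631189) (nat_lit 3) (nat_lit 4) (nat_lit 4) (nat_lit 5) (nat_lit 4) (nat_lit 4) (nat_lit 333) (nat_lit 249) (nat_lit 198)) (XT.nd (nat_lit 78) (nat_lit 0) (nat_lit 0) (XT.lf (nat_lit 0) (nat_lit 337772843428) (nat_lit 76) (nat_lit 19689161461) (nat_lit 76) (nat_lit 13072517567) (nat_lit 3) (nat_lit 4) (nat_lit 4) (nat_lit 5) (nat_lit 4) (nat_lit 4) (nat_lit 334) (nat_lit 249) (nat_lit 197)) (XT.lf (nat_lit 0) (nat_lit 370369090989) (nat_lit 76) (nat_lit 18097631687) (nat_lit 76) (nat_lit 11471861785) (nat_lit 3) (nat_lit 4) (nat_lit 4) (nat_lit 5) (nat_lit 4) (nat_lit 4) (nat_lit 335) (nat_lit 249) (nat_lit 196)))) (XT.nd (nat_lit 156) (nat_lit 0) (nat_lit 0) (XT.nd (nat_lit 78) (nat_lit 0) (nat_lit 0) (XT.lf (nat_lit 0) (nat_lit 405558995873) (nat_lit 76) (nat_lit 16385398385) (nat_lit 76) (nat_lit 9751178475) (nat_lit 3) (nat_lit 4) (nat_lit 4) (nat_lit 5) (nat_lit 4) (nat_lit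 4) (nat_lit 336) (nat_lit 249) (nat_lit 195)) (XT.lf (nat_lit 0) (nat_lit 443551090850) (nat_lit 76) (nat_lit 14542314987) (nat_lit 76) (nat_lit 7900270996) (nat_lit 3) (nat_lit 4) (nat_lit 4) (nat_lit 5) (nat_lit 4) (nat_lit 4) (nat_lit 337) (nat_lit 249) (nat_lit 194))) (XT.nd (nat_lit 78) (nat_lit 0) (nat_lit 0) (XT.lf (nat_lit 0) (nat_lit 484570514261) (nat_lit 76) (nat_lit 12557459517) (nat_lit 76) (nat_lit 5908171006) (nat_lit 3) (nat_lit 4) (nat_lit 4) (nat_lit 5) (nat_lit 4) (nat_lit 4) (nat_lit 338) (nat_lit 249) (nat_lit 193)) (XT.lf (nat_lit 0) (nat_lit 528860344170) (nat_lit 76) (nat_lit 10419069869) (nat_lit 76) (nat_lit 3763073470) (nat_lit 3) (nat_lit 4) (nat_lit 4) (nat_lit 5) (nat_lit 4) (nat_lit 4) (nat_lit 339) (nat_lit 249) (nat_lit 192))))) (XT.nd (nat_lit 312) (nat_lit 0) (nat_lit 0) (XT.nd (nat_lit 156) (nat_lit 76) (nat_lit 0) (XT.nd (nat_lit 78) (nat_lit 76)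 (nat_lit 0) (XT.lf (nat_lit 0) (nat_lit 576683038828) (nat_lit 76) (nat_lit 8114474104) (nat_lit 76) (nat_lit 1452266697) (nat_lit 3) (nat_lit 4) (nat_lit 4) (nat_lit 5) (nat_lit 4) (nat_lit 4) (nat_lit 340) (nat_lit 249) (nat_lit 191)) (XT.lf (nat_lit 0) (nat_lit 986020869) (nat_lit 152) (nat_lit 4617034931) (nat_lit 76) (nat_lit 627309011555) (nat_lit 2) (nat_lit 5) (nat_lit 4) (nat_lit 5) (nat_lit 3) (nat_lit 4) (nat_lit 341) (nat_lit 249) (nat_lit 190))) (XT.nd (nat_lit 78) (nat_lit 0) (nat_lit 0) (XT.lf (nat_lit 0) (nat_lit 717723167) (nat_lit 76) (nat_lit 2835645315) (nat_lit 152) (nat_lit 679749959674) (nat_lit 1) (nat_lit 5) (nat_lit 2) (nat_lit 5) (nat_lit 3) (nat_lit 4) (nat_lit 342) (nat_lit 249) (nat_lit 189)) (XT.lf (nat_lit 0) (nat_lit 6454541130) (nat_lit 152) (nat_lit 730990067865) (nat_lit 0) (nat_lit 271009856) (nat_lit 1) (nat_lit 5) (nat_lit 3) (nat_lit 4) (nat_lit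 1) (nat_lit 4) (nat_lit 343) (nat_lit 249) (nat_lit 188)))) (XT.nd (nat_lit 156) (nat_lit 0) (nat_lit 0) (XT.nd (nat_lit 78) (nat_lit 0) (nat_lit 0) (XT.lf (nat_lit 0) (nat_lit 9657050480) (nat_lit 152) (nat_lit 783349014502) (nat_lit 0) (nat_lit 3469292098) (nat_lit 1) (nat_lit 5) (nat_lit 3) (nat_lit 4) (nat_lit 1) (nat_lit 4) (nat_lit 344) (nat_lit 249) (nat_lit 187)) (XT.lf (nat_lit 0) (nat_lit 13111677026) (nat_lit 152) (nat_lit 839904522804) (nat_lit 0) (nat_lit 6920004656) (nat_lit 1) (nat_lit 5) (nat_lit 3) (nat_lit 4) (nat_lit 1) (nat_lit 4) (nat_lit 345) (nat_lit 249) (nat_lit 186))) (XT.nd (nat_lit 78) (nat_lit 0) (nat_lit 0) (XT.lf (nat_lit 0) (nat_lit 16838892631) (nat_lit 152) (nat_lit 900991736523) (nat_lit 0) (nat_lit 10643596197) (nat_lit 1) (nat_lit 5) (nat_lit 3) (nat_lit 4) (nat_lit 1) (nat_lit 4) (nat_lit 346) (nat_lit 249) (nat_lit 185)) (XT.lf (nat_lit 0) (nat_lit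 20860784498) (nat_lit 152) (nat_lit 966972653963) (nat_lit 0) (nat_lit 14662132450) (nat_lit 1) (nat_lit 5) (nat_lit 3) (nat_lit 4) (nat_lit 1) (nat_lit 4) (nat_lit 347) (nat_lit 249) (nat_lit 184))))))))
noncomputable def xc32 : XT := (XT.nd (nat_lit 36114) (nat_lit 0) (nat_lit 152) (XT.nd (nat_lit 1092) (nat_lit 0) (nat_lit 0) (XT.nd (nat_lit 546) (nat_lit 0) (nat_lit 0) (XT.nd (nat_lit 234) (nat_lit 0) (nat_lit 0) (XT.nd (nat_lit 78) (nat_lit 0) (nat_lit 0) (XT.lf (nat_lit 0) (nat_lit 25201186060) (nat_lit 152) (nat_lit 1038238273152) (nat_lit 0) (nat_lit 18999426961) (nat_lit 1) (nat_lit 5) (nat_lit 3) (nat_lit 4) (nat_lit 1) (nat_lit 4) (nat_lit 348) (nat_lit 249) (nat_lit 183)) (XT.nd (nat_lit 78) (nat_lit 0) (nat_lit 0) (XT.lf (nat_lit 0) (nat_lit 29885818215) (nat_lit 152) (nat_lit 1115210908872) (nat_lit 0) (nat_lit 23681182218) (nat_lit 1) (nat_lit 5) (nat_lit 3) (nat_lit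 4) (nat_lit 1) (nat_lit 4) (nat_lit 349) (nat_lit 249) (nat_lit 182)) (XT.lf (nat_lit 0) (nat_lit 34942441746) (nat_lit 152) (nat_lit 1198346695260) (nat_lit 0) (nat_lit 28735141955) (nat_lit 1) (nat_lit 5) (nat_lit 3) (nat_lit 4) (nat_lit 1) (nat_lit 4) (nat_lit 350) (nat_lit 249) (nat_lit 181)))) (XT.nd (nat_lit 156) (nat_lit 0) (nat_lit 0) (XT.nd (nat_lit 78) (nat_lit 0) (nat_lit 0) (XT.lf (nat_lit 0) (nat_lit 40401021831) (nat_lit 152) (nat_lit 1288138288828) (nat_lit 0) (nat_lit 34191255562) (nat_lit 1) (nat_lit 5) (nat_lit 3) (nat_lit 4) (nat_lit 1) (nat_lit 4) (nat_lit 351) (nat_lit 249) (nat_lit 180)) (XT.lf (nat_lit 0) (nat_lit 46293905609) (nat_lit 152) (nat_lit 1385117787907) (nat_lit 0) (nat_lit 40081855566) (nat_lit 1) (nat_lit 5) (nat_lit 3) (nat_lit 4) (nat_lit 1) (nat_lit 4) (nat_lit 352) (nat_lit 249) (nat_lit 179))) (XT.nd (nat_lit 78) (nat_lit 0) (nat_lit 0) (XT.lf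 (nat_lit 0) (nat_lit 52656013874) (nat_lit 152) (nat_lit 1489859885827) (nat_lit 0) (nat_lit 46441849225) (nat_lit 1) (nat_lit 5) (nat_lit 3) (nat_lit 4) (nat_lit 1) (nat_lit 4) (nat_lit 353) (nat_lit 249) (nat_lit 178)) (XT.lf (nat_lit 0) (nat_lit 59525048009) (nat_lit 152) (nat_lit 1602985276500) (nat_lit 0) (nat_lit 53308925391) (nat_lit 1) (nat_lit 5) (nat_lit 3) (nat_lit 4) (nat_lit 1) (nat_lit 4) (nat_lit 354) (nat_lit 249) (nat_lit 177))))) (XT.nd (nat_lit 234) (nat_lit 0) (nat_lit 0) (XT.nd (nat_lit 78) (nat_lit 0) (nat_lit 0) (XT.lf (nat_lit 0) (nat_lit 66941713400) (nat_lit 152) (nat_lit 1725164332613) (nat_lit 0) (nat_lit 60723777848) (nat_lit 1) (nat_lit 5) (nat_lit 3) (nat_lit 4) (nat_lit 1) (nat_lit 4) (nat_lit 355) (nat_lit 249) (nat_lit 176)) (XT.nd (nat_lit 78) (nat_lit 0) (nat_lit 0) (XT.lf (nat_lit 0) (nat_lit 74949960657) (nat_lit 152) (nat_lit 1857121078200) (nat_lit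 0) (nat_lit 68730346463) (nat_lit 1) (nat_lit 5) (nat_lit 3) (nat_lit 4) (nat_lit 1) (nat_lit 4) (nat_lit 356) (nat_lit 249) (nat_lit 175)) (XT.lf (nat_lit 0) (nat_lit 83597246061) (nat_lit 152) (nat_lit 1999637479163) (nat_lit 0) (nat_lit 77376077568) (nat_lit 1) (nat_lit 5) (nat_lit 3) (nat_lit 4) (nat_lit 1) (nat_lit 4) (nat_lit 357) (nat_lit 249) (nat_lit 174)))) (XT.nd (nat_lit 156) (nat_lit 0) (nat_lit 0) (XT.nd (nat_lit 78) (nat_lit 0) (nat_lit 0) (XT.lf (nat_lit 0) (nat_lit 92934812784) (nat_lit 152) (nat_lit 2153558077136) (nat_lit 0) (nat_lit 86712205125) (nat_lit 1) (nat_lit 5) (nat_lit 3) (nat_lit 4) (nat_lit 1) (nat_lit 4) (nat_lit 358) (nat_lit 249) (nat_lit 173)) (XT.lf (nat_lit 0) (nat_lit 103017994555) (nat_lit 152) (nat_lit 2319794994181) (nat_lit 0) (nat_lit 96794054336) (nat_lit 1) (nat_lit 5) (nat_lit 3) (nat_lit 4) (nat_lit 1) (nat_lit 4) (nat_lit 359) (nat_lit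 249) (nat_lit 172))) (XT.nd (nat_lit 78) (nat_lit 0) (nat_lit 0) (XT.lf (nat_lit 0) (nat_lit 113906543562) (nat_lit 152) (nat_lit 2499333337956) (nat_lit 0) (nat_lit 107681369490) (nat_lit 1) (nat_lit 5) (nat_lit 3) (nat_lit 4) (nat_lit 1) (nat_lit 4) (nat_lit 360) (nat_lit 249) (nat_lit 171)) (XT.lf (nat_lit 0) (nat_lit 125664984540) (nat_lit 152) (nat_lit 2693237039385) (nat_lit 0) (nat_lit 119438668012) (nat_lit 1) (nat_lit 5) (nat_lit 3) (nat_lit 4) (nat_lit 1) (nat_lit 4) (nat_lit 361) (nat_lit 249) (nat_lit 170)))))) (XT.nd (nat_lit 34476) (nat_lit 0) (nat_lit 836) (XT.nd (nat_lit 234) (nat_lit 0) (nat_lit 0) (XT.nd (nat_lit 78) (nat_lit 0) (nat_lit 0) (XT.lf (nat_lit 0) (nat_lit 138362997139) (nat_lit 152) (nat_lit 2902655157441) (nat_lit 0) (nat_lit 132135622782) (nat_lit 1) (nat_lit 5) (nat_lit 3) (nat_lit 4) (nat_lit 1) (nat_lit 4) (nat_lit 362) (nat_lit 249) (nat_lit 169))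 (XT.nd (nat_lit 78) (nat_lit 0) (nat_lit 0) (XT.lf (nat_lit 0) (nat_lit 152075828842) (nat_lit 152) (nat_lit 3128828688379) (nat_lit 0) (nat_lit 145847475013) (nat_lit 1) (nat_lit 5) (nat_lit 3) (nat_lit 4) (nat_lit 1) (nat_lit 4) (nat_lit 363) (nat_lit 249) (nat_lit 168)) (XT.lf (nat_lit 0) (nat_lit 166884740873) (nat_lit 152) (nat_lit 3373097919789) (nat_lit 0) (nat_lit 160655480126) (nat_lit 1) (nat_lit 5) (nat_lit 3) (nat_lit 4) (nat_lit 1) (nat_lit 4) (nat_lit 364) (nat_lit 249) (nat_lit 167)))) (XT.nd (nat_lit 34086) (nat_lit 0) (nat_lit 1368) (XT.nd (nat_lit 34008) (nat_lit 0) (nat_lit 1520) (XT.lf (nat_lit 0) (nat_lit 182877489748) (nat_lit 152) (nat_lit 3636910373043) (nat_lit 0) (nat_lit 176647389262) (nat_lit 1) (nat_lit 5) (nat_lit 3) (nat_lit 4) (nat_lit 1) (nat_lit 4) (nat_lit 365) (nat_lit 249) (nat_lit 166)) (XT.lf (nat_lit 0) (nat_lit 1289658528) (nat_lit 228) (nat_lit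 2390497455) (nat_lit 0) (nat_lit 1289658528) (nat_lit 21) (nat_lit 5) (nat_lit 24) (nat_lit 4) (nat_lit 21) (nat_lit 4) (nat_lit 280) (nat_lit 250) (nat_lit 250))) (XT.nd (nat_lit 78) (nat_lit 0) (nat_lit 0) (XT.lf (nat_lit 0) (nat_lit 1783224051) (nat_lit 152) (nat_lit 4683826341) (nat_lit 152) (nat_lit 3891582861) (nat_lit 19) (nat_lit 4) (nat_lit 21) (nat_lit 5) (nat_lit 21) (nat_lit 4) (nat_lit 281) (nat_lit 250) (nat_lit 249)) (XT.lf (nat_lit 0) (nat_lit 8792518303) (nat_lit 152) (nat_lit 1776417480) (nat_lit 152) (nat_lit 250615222) (nat_lit 19) (nat_lit 4) (nat_lit 21) (nat_lit 5) (nat_lit 21) (nat_lit 4) (nat_lit 282) (nat_lit 250) (nat_lit 248))))) (XT.nd (nat_lit 234) (nat_lit 228) (nat_lit 0) (XT.nd (nat_lit 78) (nat_lit 152) (nat_lit 0) (XT.lf (nat_lit 0) (nat_lit 3432841881) (nat_lit 152) (nat_lit 6491984670) (nat_lit 0) (nat_lit 1391153596) (nat_lit 17) (nat_lit 5) (nat_lit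 19) (nat_lit 4) (nat_lit 17) (nat_lit 4) (nat_lit 283) (nat_lit 250) (nat_lit 247)) (XT.nd (nat_lit 78) (nat_lit 0) (nat_lit 0) (XT.lf (nat_lit 0) (nat_lit 97899602) (nat_lit 152) (nat_lit 7193359695) (nat_lit 152) (nat_lit 4569348801) (nat_lit 15) (nat_lit 4) (nat_lit 17) (nat_lit 5) (nat_lit 17) (nat_lit 4) (nat_lit 284) (nat_lit 250) (nat_lit 246)) (XT.lf (nat_lit 0) (nat_lit 7249275122) (nat_lit 152) (nat_lit 4182658129) (nat_lit 152) (nat_lit 1019459635) (nat_lit 15) (nat_lit 4) (nat_lit 17) (nat_lit 5) (nat_lit 17) (nat_lit 4) (nat_lit 285) (nat_lit 250) (nat_lit 245)))) (XT.nd (nat_lit 156) (nat_lit 76) (nat_lit 0) (XT.nd (nat_lit 78) (nat_lit 0) (nat_lit 0) (XT.lf (nat_lit 0) (nat_lit 1573627348) (nat_lit 76) (nat_lit 943715738) (nat_lit 152) (nat_lit 10579591267) (nat_lit 13) (nat_lit 5) (nat_lit 14) (nat_lit 5) (nat_lit 15) (nat_lit 4) (nat_lit 286) (nat_lit 250) (nat_lit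 244)) (XT.lf (nat_lit 0) (nat_lit 6299087526) (nat_lit 152) (nat_lit 5012013883) (nat_lit 0) (nat_lit 2479909069) (nat_lit 13) (nat_lit 5) (nat_lit 15) (nat_lit 4) (nat_lit 13) (nat_lit 4) (nat_lit 287) (nat_lit 250) (nat_lit 243))) (XT.nd (nat_lit 78) (nat_lit 0) (nat_lit 0) (XT.lf (nat_lit 0) (nat_lit 1784036825) (nat_lit 76) (nat_lit 8490561509) (nat_lit 76) (nat_lit 4275064070) (nat_lit 12) (nat_lit 4) (nat_lit 13) (nat_lit 5) (nat_lit 13) (nat_lit 4) (nat_lit 288) (nat_lit 250) (nat_lit 242)) (XT.lf (nat_lit 0) (nat_lit 9115547924) (nat_lit 76) (nat_lit 5419446285) (nat_lit 76) (nat_lit 836986825) (nat_lit 12) (nat_lit 4) (nat_lit 13) (nat_lit 5) (nat_lit 13) (nat_lit 4) (nat_lit 289) (nat_lit 250) (nat_lit 241))))))) (XT.nd (nat_lit 1092) (nat_lit 228) (nat_lit 0) (XT.nd (nat_lit 546) (nat_lit 76) (nat_lit 0) (XT.nd (nat_lit 234) (nat_lit 228) (nat_lit 0) (XT.nd (nat_lit 78)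 (nat_lit 0) (nat_lit 0) (XT.lf (nat_lit 0) (nat_lit 446306581) (nat_lit 76) (nat_lit 2134725000) (nat_lit 152) (nat_lit 13685894342) (nat_lit 10) (nat_lit 5) (nat_lit 11) (nat_lit 5) (nat_lit 12) (nat_lit 4) (nat_lit 290) (nat_lit 250) (nat_lit 240)) (XT.nd (nat_lit 78) (nat_lit 0) (nat_lit 0) (XT.lf (nat_lit 0) (nat_lit 6277410939) (nat_lit 152) (nat_lit 9522085022) (nat_lit 0) (nat_lit 1428475851) (nat_lit 10) (nat_lit 5) (nat_lit 12) (nat_lit 4) (nat_lit 10) (nat_lit 4) (nat_lit 291) (nat_lit 250) (nat_lit 239)) (XT.lf (nat_lit 0) (nat_lit 10177407420) (nat_lit 152) (nat_lit 3037353864) (nat_lit 0) (nat_lit 5058744291) (nat_lit 10) (nat_lit 5) (nat_lit 12) (nat_lit 4) (nat_lit 10) (nat_lit 4) (nat_lit 292) (nat_lit 250) (nat_lit 238)))) (XT.nd (nat_lit 156) (nat_lit 152) (nat_lit 0) (XT.nd (nat_lit 78) (nat_lit 0) (nat_lit 0) (XT.lf (nat_lit 0) (nat_lit 3919406964) (nat_lit 76)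 (nat_lit 10427646793) (nat_lit 76) (nat_lit 5059235479) (nat_lit 9) (nat_lit 4) (nat_lit 10) (nat_lit 5) (nat_lit 10) (nat_lit 4) (nat_lit 293) (nat_lit 250) (nat_lit 237)) (XT.lf (nat_lit 0) (nat_lit 11368779410) (nat_lit 76) (nat_lit 7432354891) (nat_lit 76) (nat_lit 1832695258) (nat_lit 9) (nat_lit 4) (nat_lit 10) (nat_lit 5) (nat_lit 10) (nat_lit 4) (nat_lit 294) (nat_lit 250) (nat_lit 236))) (XT.nd (nat_lit 78) (nat_lit 76) (nat_lit 0) (XT.lf (nat_lit 0) (nat_lit 1443579756) (nat_lit 152) (nat_lit 2811132555) (nat_lit 76) (nat_lit 17711916444) (nat_lit 8) (nat_lit 5) (nat_lit 10) (nat_lit 5) (nat_lit 9) (nat_lit 4) (nat_lit 295) (nat_lit 250) (nat_lit 235)) (XT.lf (nat_lit 0) (nat_lit 4107788618) (nat_lit 76) (nat_lit 757511972) (nat_lit 152) (nat_lit 18538515666) (nat_lit 7) (nat_lit 5) (nat_lit 8) (nat_lit 5) (nat_lit 9) (nat_lit 4) (nat_lit 296) (nat_lit 250) (nat_lit 234)))))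 (XT.nd (nat_lit 234) (nat_lit 76) (nat_lit 0) (XT.nd (nat_lit 78) (nat_lit 0) (nat_lit 0) (XT.lf (nat_lit 0) (nat_lit 8597327634) (nat_lit 152) (nat_lit 13495222176) (nat_lit 0) (nat_lit 2860652651) (nat_lit 7) (nat_lit 5) (nat_lit 9) (nat_lit 4) (nat_lit 7) (nat_lit 4) (nat_lit 297) (nat_lit 250) (nat_lit 233)) (XT.nd (nat_lit 78) (nat_lit 0) (nat_lit 0) (XT.lf (nat_lit 0) (nat_lit 12541196744) (nat_lit 152) (nat_lit 7445280526) (nat_lit 0) (nat_lit 6647138040) (nat_lit 7) (nat_lit 5) (nat_lit 9) (nat_lit 4) (nat_lit 7) (nat_lit 4) (nat_lit 298) (nat_lit 250) (nat_lit 232)) (XT.lf (nat_lit 0) (nat_lit 16702060813) (nat_lit 152) (nat_lit 1092133002) (nat_lit 0) (nat_lit 10662276442) (nat_lit 7) (nat_lit 5) (nat_lit 9) (nat_lit 4) (nat_lit 7) (nat_lit 4) (nat_lit 299) (nat_lit 250) (nat_lit 231)))) (XT.nd (nat_lit 156) (nat_lit 0) (nat_lit 0) (XT.nd (nat_lit 78) (nat_lit 0) (nat_lit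 0) (XT.lf (nat_lit 0) (nat_lit 5896853154) (nat_lit 76) (nat_lit 15349543120) (nat_lit 76) (nat_lit 9174827575) (nat_lit 6) (nat_lit 4) (nat_lit 7) (nat_lit 5) (nat_lit 7) (nat_lit 4) (nat_lit 300) (nat_lit 250) (nat_lit 230)) (XT.lf (nat_lit 0) (nat_lit 13343909046) (nat_lit 76) (nat_lit 12751846020) (nat_lit 76) (nat_lit 6452194203) (nat_lit 6) (nat_lit 4) (nat_lit 7) (nat_lit 5) (nat_lit 7) (nat_lit 4) (nat_lit 301) (nat_lit 250) (nat_lit 229))) (XT.nd (nat_lit 78) (nat_lit 0) (nat_lit 0) (XT.lf (nat_lit 0) (nat_lit 21235655585) (nat_lit 76) (nat_lit 10015569606) (nat_lit 76) (nat_lit 3600236056) (nat_lit 6) (nat_lit 4) (nat_lit 7) (nat_lit 5) (nat_lit 7) (nat_lit 4) (nat_lit 302) (nat_lit 250) (nat_lit 228)) (XT.lf (nat_lit 0) (nat_lit 29618858675) (nat_lit 76) (nat_lit 7124498907) (nat_lit 76) (nat_lit 602052642) (nat_lit 6) (nat_lit 4) (nat_lit 7) (nat_lit 5) (nat_lit 7) (nat_lit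 4) (nat_lit 303) (nat_lit 250) (nat_lit 227)))))) (XT.nd (nat_lit 546) (nat_lit 76) (nat_lit 0) (XT.nd (nat_lit 234) (nat_lit 0) (nat_lit 0) (XT.nd (nat_lit 78) (nat_lit 76) (nat_lit 0) (XT.lf (nat_lit 0) (nat_lit 2432055329) (nat_lit 152) (nat_lit 1562949621) (nat_lit 76) (nat_lit 36044644527) (nat_lit 5) (nat_lit 5) (nat_lit 7) (nat_lit 5) (nat_lit 6) (nat_lit 4) (nat_lit 304) (nat_lit 250) (nat_lit 226)) (XT.nd (nat_lit 78) (nat_lit 0) (nat_lit 0) (XT.lf (nat_lit 0) (nat_lit 5215486758) (nat_lit 76) (nat_lit 519582161) (nat_lit 152) (nat_lit 37208486287) (nat_lit 4) (nat_lit 5) (nat_lit 5) (nat_lit 5) (nat_lit 6) (nat_lit 4) (nat_lit 305) (nat_lit 250) (nat_lit 225)) (XT.lf (nat_lit 0) (nat_lit 9357920805) (nat_lit 152) (nat_lit 33654447668) (nat_lit 0) (nat_lit 3063026247) (nat_lit 4) (nat_lit 5) (nat_lit 6) (nat_lit 4) (nat_lit 4) (nat_lit 4) (nat_lit 306) (nat_lit 250) (nat_lit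 224)))) (XT.nd (nat_lit 156) (nat_lit 0) (nat_lit 0) (XT.nd (nat_lit 78) (nat_lit 0) (nat_lit 0) (XT.lf (nat_lit 0) (nat_lit 13222965618) (nat_lit 152) (nat_lit 29383518636) (nat_lit 0) (nat_lit 6855171945) (nat_lit 4) (nat_lit 5) (nat_lit 6) (nat_lit 4) (nat_lit 4) (nat_lit 4) (nat_lit 307) (nat_lit 250) (nat_lit 223)) (XT.lf (nat_lit 0) (nat_lit 17340611364) (nat_lit 152) (nat_lit 24877476178) (nat_lit 0) (nat_lit 10905318511) (nat_lit 4) (nat_lit 5) (nat_lit 6) (nat_lit 4) (nat_lit 4) (nat_lit 4) (nat_lit 308) (nat_lit 250) (nat_lit 222))) (XT.nd (nat_lit 78) (nat_lit 0) (nat_lit 0) (XT.lf (nat_lit 0) (nat_lit 21735258906) (nat_lit 152) (nat_lit 20109617821) (nat_lit 0) (nat_lit 15237466812) (nat_lit 4) (nat_lit 5) (nat_lit 6) (nat_lit 4) (nat_lit 4) (nat_lit 4) (nat_lit 309) (nat_lit 250) (nat_lit 221)) (XT.lf (nat_lit 0) (nat_lit 26432950601) (nat_lit 152) (nat_lit 15051689590)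 (nat_lit 0) (nat_lit 19877288840) (nat_lit 4) (nat_lit 5) (nat_lit 6) (nat_lit 4) (nat_lit 4) (nat_lit 4) (nat_lit 310) (nat_lit 250) (nat_lit 220))))) (XT.nd (nat_lit 234) (nat_lit 0) (nat_lit 0) (XT.nd (nat_lit 78) (nat_lit 76) (nat_lit 0) (XT.lf (nat_lit 0) (nat_lit 31461524622) (nat_lit 152) (nat_lit 9673718576) (nat_lit 0) (nat_lit 24852279835) (nat_lit 4) (nat_lit 5) (nat_lit 6) (nat_lit 4) (nat_lit 4) (nat_lit 4) (nat_lit 311) (nat_lit 250) (nat_lit 219)) (XT.nd (nat_lit 78) (nat_lit 76) (nat_lit 0) (XT.lf (nat_lit 0) (nat_lit 36850779925) (nat_lit 152) (nat_lit 3943835321) (nat_lit 0) (nat_lit 30191921226) (nat_lit 4) (nat_lit 5) (nat_lit 6) (nat_lit 4) (nat_lit 4) (nat_lit 4) (nat_lit 312) (nat_lit 250) (nat_lit 218)) (XT.lf (nat_lit 0) (nat_lit 2286284233) (nat_lit 76) (nat_lit 40401353797) (nat_lit 76) (nat_lit 33696556289) (nat_lit 3) (nat_lit 4) (nat_lit 4) (nat_lit 5)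 (nat_lit 4) (nat_lit 4) (nat_lit 313) (nat_lit 250) (nat_lit 217)))) (XT.nd (nat_lit 156) (nat_lit 0) (nat_lit 0) (XT.nd (nat_lit 78) (nat_lit 0) (nat_lit 0) (XT.lf (nat_lit 0) (nat_lit 9168415245) (nat_lit 76) (nat_lit 39893491676) (nat_lit 76) (nat_lit 33146158235) (nat_lit 3) (nat_lit 4) (nat_lit 4) (nat_lit 5) (nat_lit 4) (nat_lit 4) (nat_lit 314) (nat_lit 250) (nat_lit 216)) (XT.lf (nat_lit 0) (nat_lit 16535665334) (nat_lit 76) (nat_lit 39375850778) (nat_lit 76) (nat_lit 32589132215) (nat_lit 3) (nat_lit 4) (nat_lit 4) (nat_lit 5) (nat_lit 4) (nat_lit 4) (nat_lit 315) (nat_lit 250) (nat_lit 215))) (XT.nd (nat_lit 78) (nat_lit 0) (nat_lit 0) (XT.lf (nat_lit 0) (nat_lit 24431692277) (nat_lit 76) (nat_lit 38845363602) (nat_lit 76) (nat_lit 32022177332) (nat_lit 3) (nat_lit 4) (nat_lit 4) (nat_lit 5) (nat_lit 4) (nat_lit 4) (nat_lit 316) (nat_lit 250) (nat_lit 214)) (XT.lf (nat_lit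 0) (nat_lit 32903287346) (nat_lit 76) (nat_lit 38298886520) (nat_lit 76) (nat_lit 31441933855) (nat_lit 3) (nat_lit 4) (nat_lit 4) (nat_lit 5) (nat_lit 4) (nat_lit 4) (nat_lit 317) (nat_lit 250) (nat_lit 213))))))))
noncomputable def xc33 : XT := (XT.nd (nat_lit 2184) (nat_lit 0) (nat_lit 0) (XT.nd (nat_lit 1092) (nat_lit 152) (nat_lit 0) (XT.nd (nat_lit 546) (nat_lit 0) (nat_lit 0) (XT.nd (nat_lit 234) (nat_lit 0) (nat_lit 0) (XT.nd (nat_lit 78) (nat_lit 0) (nat_lit 0) (XT.lf (nat_lit 0) (nat_lit 42000652585) (nat_lit 76) (nat_lit 37733181149) (nat_lit 76) (nat_lit 30844963303) (nat_lit 3) (nat_lit 4) (nat_lit 4) (nat_lit 5) (nat_lit 4) (nat_lit 4) (nat_lit 318) (nat_lit 250) (nat_lit 212)) (XT.nd (nat_lit 78) (nat_lit 0) (nat_lit 0) (XT.lf (nat_lit 0) (nat_lit 51777698308) (nat_lit 76) (nat_lit 37144895161) (nat_lit 76) (nat_lit 30227728074) (nat_lit 3) (nat_lit 4) (nat_lit 4) (nat_lit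 5) (nat_lit 4) (nat_lit 4) (nat_lit 319) (nat_lit 250) (nat_lit 211)) (XT.lf (nat_lit 0) (nat_lit 62292362562) (nat_lit 76) (nat_lit 36530542417) (nat_lit 76) (nat_lit 29586570476) (nat_lit 3) (nat_lit 4) (nat_lit 4) (nat_lit 5) (nat_lit 4) (nat_lit 4) (nat_lit 320) (nat_lit 250) (nat_lit 210)))) (XT.nd (nat_lit 156) (nat_lit 0) (nat_lit 0) (XT.nd (nat_lit 78) (nat_lit 0) (nat_lit 0) (XT.lf (nat_lit 0) (nat_lit 73606954469) (nat_lit 76) (nat_lit 35886482308) (nat_lit 76) (nat_lit 28917691059) (nat_lit 3) (nat_lit 4) (nat_lit 4) (nat_lit 5) (nat_lit 4) (nat_lit 4) (nat_lit 321) (nat_lit 250) (nat_lit 209)) (XT.lf (nat_lit 0) (nat_lit 85788523463) (nat_lit 76) (nat_lit 35208898182) (nat_lit 76) (nat_lit 28217126091) (nat_lit 3) (nat_lit 4) (nat_lit 4) (nat_lit 5) (nat_lit 4) (nat_lit 4) (nat_lit 322) (nat_lit 250) (nat_lit 208))) (XT.nd (nat_lit 78) (nat_lit 0) (nat_lit 0) (XT.lf (nat_lit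 0) (nat_lit 98909256619) (nat_lit 76) (nat_lit 34493774725) (nat_lit 76) (nat_lit 27480724078) (nat_lit 3) (nat_lit 4) (nat_lit 4) (nat_lit 5) (nat_lit 4) (nat_lit 4) (nat_lit 323) (nat_lit 250) (nat_lit 207)) (XT.lf (nat_lit 0) (nat_lit 113046906431) (nat_lit 76) (nat_lit 33736874168) (nat_lit 76) (nat_lit 26704121154) (nat_lit 3) (nat_lit 4) (nat_lit 4) (nat_lit 5) (nat_lit 4) (nat_lit 4) (nat_lit 324) (nat_lit 250) (nat_lit 206))))) (XT.nd (nat_lit 234) (nat_lit 0) (nat_lit 0) (XT.nd (nat_lit 78) (nat_lit 0) (nat_lit 0) (XT.lf (nat_lit 0) (nat_lit 128285251562) (nat_lit 76) (nat_lit 32933711175) (nat_lit 76) (nat_lit 25882715228) (nat_lit 3) (nat_lit 4) (nat_lit 4) (nat_lit 5) (nat_lit 4) (nat_lit 4) (nat_lit 325) (nat_lit 250) (nat_lit 205)) (XT.nd (nat_lit 78) (nat_lit 0) (nat_lit 0) (XT.lf (nat_lit 0) (nat_lit 144714593319) (nat_lit 76) (nat_lit 32079526262) (nat_lit 76) (nat_lit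 25011638710) (nat_lit 3) (nat_lit 4) (nat_lit 4) (nat_lit 5) (nat_lit 4) (nat_lit 4) (nat_lit 326) (nat_lit 250) (nat_lit 204)) (XT.lf (nat_lit 0) (nat_lit 162432290763) (nat_lit 76) (nat_lit 31169257592) (nat_lit 76) (nat_lit 24085729666) (nat_lit 3) (nat_lit 4) (nat_lit 4) (nat_lit 5) (nat_lit 4) (nat_lit 4) (nat_lit 327) (nat_lit 250) (nat_lit 203)))) (XT.nd (nat_lit 156) (nat_lit 0) (nat_lit 0) (XT.nd (nat_lit 78) (nat_lit 0) (nat_lit 0) (XT.lf (nat_lit 0) (nat_lit 181543337657) (nat_lit 76) (nat_lit 30197510980) (nat_lit 76) (nat_lit 23099501226) (nat_lit 3) (nat_lit 4) (nat_lit 4) (nat_lit 5) (nat_lit 4) (nat_lit 4) (nat_lit 328) (nat_lit 250) (nat_lit 202)) (XT.lf (nat_lit 0) (nat_lit 202160984650) (nat_lit 76) (nat_lit 29158527927) (nat_lit 76) (nat_lit 22047109073) (nat_lit 3) (nat_lit 4) (nat_lit 4) (nat_lit 5) (nat_lit 4) (nat_lit 4) (nat_lit 329) (nat_lit 250) (nat_lit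 201))) (XT.nd (nat_lit 78) (nat_lit 0) (nat_lit 0) (XT.lf (nat_lit 0) (nat_lit 224407410389) (nat_lit 76) (nat_lit 28046151498) (nat_lit 76) (nat_lit 20922316811) (nat_lit 3) (nat_lit 4) (nat_lit 4) (nat_lit 5) (nat_lit 4) (nat_lit 4) (nat_lit 330) (nat_lit 250) (nat_lit 200)) (XT.lf (nat_lit 0) (nat_lit 248414445546) (nat_lit 76) (nat_lit 26853789832) (nat_lit 76) (nat_lit 19718459003) (nat_lit 3) (nat_lit 4) (nat_lit 4) (nat_lit 5) (nat_lit 4) (nat_lit 4) (nat_lit 331) (nat_lit 250) (nat_lit 199)))))) (XT.nd (nat_lit 546) (nat_lit 152) (nat_lit 0) (XT.nd (nat_lit 234) (nat_lit 0) (nat_lit 0) (XT.nd (nat_lit 78) (nat_lit 0) (nat_lit 0) (XT.lf (nat_lit 0) (nat_lit 274324354034) (nat_lit 76) (nat_lit 25574377082) (nat_lit 76) (nat_lit 18428401677) (nat_lit 3) (nat_lit 4) (nat_lit 4) (nat_lit 5) (nat_lit 4) (nat_lit 4) (nat_lit 332) (nat_lit 250) (nat_lit 198)) (XT.nd (nat_lit 78) (nat_lit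 0) (nat_lit 0) (XT.lf (nat_lit 0) (nat_lit 302290676050) (nat_lit 76) (nat_lit 24200331543) (nat_lit 76) (nat_lit 17044500049) (nat_lit 3) (nat_lit 4) (nat_lit 4) (nat_lit 5) (nat_lit 4) (nat_lit 4) (nat_lit 333) (nat_lit 250) (nat_lit 197)) (XT.lf (nat_lit 0) (nat_lit 332479137948) (nat_lit 76) (nat_lit 22723510722) (nat_lit 76) (nat_lit 15558553220) (nat_lit 3) (nat_lit 4) (nat_lit 4) (nat_lit 5) (nat_lit 4) (nat_lit 4) (nat_lit 334) (nat_lit 250) (nat_lit 196)))) (XT.nd (nat_lit 156) (nat_lit 0) (nat_lit 0) (XT.nd (nat_lit 78) (nat_lit 0) (nat_lit 0) (XT.lf (nat_lit 0) (nat_lit 365068634315) (nat_lit 76) (nat_lit 21135163090) (nat_lit 76) (nat_lit 13961755580) (nat_lit 3) (nat_lit 4) (nat_lit 4) (nat_lit 5) (nat_lit 4) (nat_lit 4) (nat_lit 335) (nat_lit 250) (nat_lit 195)) (XT.lf (nat_lit 0) (nat_lit 400252288095) (nat_lit 76) (nat_lit 19425876215) (nat_lit 76) (nat_lit 12244644623)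 (nat_lit 3) (nat_lit 4) (nat_lit 4) (nat_lit 5) (nat_lit 4) (nat_lit 4) (nat_lit 336) (nat_lit 250) (nat_lit 194))) (XT.nd (nat_lit 78) (nat_lit 0) (nat_lit 0) (XT.lf (nat_lit 0) (nat_lit 438238595012) (nat_lit 76) (nat_lit 17585520990) (nat_lit 76) (nat_lit 10397044879) (nat_lit 3) (nat_lit 4) (nat_lit 4) (nat_lit 5) (nat_lit 4) (nat_lit 4) (nat_lit 337) (nat_lit 250) (nat_lit 193)) (XT.lf (nat_lit 0) (nat_lit 479252659108) (nat_lit 76) (nat_lit 15603191606) (nat_lit 76) (nat_lit 8408007607) (nat_lit 3) (nat_lit 4) (nat_lit 4) (nat_lit 5) (nat_lit 4) (nat_lit 4) (nat_lit 338) (nat_lit 250) (nat_lit 192))))) (XT.nd (nat_lit 234) (nat_lit 152) (nat_lit 0) (XT.nd (nat_lit 78) (nat_lit 0) (nat_lit 0) (XT.lf (nat_lit 0) (nat_lit 523537526689) (nat_lit 76) (nat_lit 13467140927) (nat_lit 76) (nat_lit 6265745920) (nat_lit 3) (nat_lit 4) (nat_lit 4) (nat_lit 5) (nat_lit 4) (nat_lit 4) (nat_lit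 339) (nat_lit 250) (nat_lit 191)) (XT.nd (nat_lit 78) (nat_lit 0) (nat_lit 0) (XT.lf (nat_lit 0) (nat_lit 571355626599) (nat_lit 76) (nat_lit 11164710874) (nat_lit 76) (nat_lit 3957564933) (nat_lit 3) (nat_lit 4) (nat_lit 4) (nat_lit 5) (nat_lit 4) (nat_lit 4) (nat_lit 340) (nat_lit 250) (nat_lit 190)) (XT.lf (nat_lit 0) (nat_lit 622990325356) (nat_lit 76) (nat_lit 8682257417) (nat_lit 76) (nat_lit 1469786538) (nat_lit 3) (nat_lit 4) (nat_lit 4) (nat_lit 5) (nat_lit 4) (nat_lit 4) (nat_lit 341) (nat_lit 250) (nat_lit 189)))) (XT.nd (nat_lit 156) (nat_lit 0) (nat_lit 0) (XT.nd (nat_lit 78) (nat_lit 76) (nat_lit 0) (XT.lf (nat_lit 0) (nat_lit 1151685915) (nat_lit 152) (nat_lit 4821894671) (nat_lit 76) (nat_lit 677564431312) (nat_lit 2) (nat_lit 5) (nat_lit 4) (nat_lit 5) (nat_lit 3) (nat_lit 4) (nat_lit 342) (nat_lit 250) (nat_lit 188)) (XT.lf (nat_lit 0) (nat_lit 935479440) (nat_lit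 76) (nat_lit 2986369642) (nat_lit 152) (nat_lit 734038936052) (nat_lit 1) (nat_lit 5) (nat_lit 2) (nat_lit 5) (nat_lit 3) (nat_lit 4) (nat_lit 343) (nat_lit 250) (nat_lit 187))) (XT.nd (nat_lit 78) (nat_lit 0) (nat_lit 0) (XT.lf (nat_lit 0) (nat_lit 7050572925) (nat_lit 152) (nat_lit 789316202154) (nat_lit 0) (nat_lit 359652777) (nat_lit 1) (nat_lit 5) (nat_lit 3) (nat_lit 4) (nat_lit 1) (nat_lit 4) (nat_lit 344) (nat_lit 250) (nat_lit 186)) (XT.lf (nat_lit 0) (nat_lit 10503381652) (nat_lit 152) (nat_lit 845875203126) (nat_lit 0) (nat_lit 3808837440) (nat_lit 1) (nat_lit 5) (nat_lit 3) (nat_lit 4) (nat_lit 1) (nat_lit 4) (nat_lit 345) (nat_lit 250) (nat_lit 185))))))) (XT.nd (nat_lit 1092) (nat_lit 0) (nat_lit 0) (XT.nd (nat_lit 546) (nat_lit 0) (nat_lit 0) (XT.nd (nat_lit 234) (nat_lit 0) (nat_lit 0) (XT.nd (nat_lit 78) (nat_lit 0) (nat_lit 0) (XT.lf (nat_lit 0) (nat_lit 14228914090)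 (nat_lit 152) (nat_lit 906965650798) (nat_lit 0) (nat_lit 7531014264) (nat_lit 1) (nat_lit 5) (nat_lit 3) (nat_lit 4) (nat_lit 1) (nat_lit 4) (nat_lit 346) (nat_lit 250) (nat_lit 184)) (XT.nd (nat_lit 78) (nat_lit 0) (nat_lit 0) (XT.lf (nat_lit 0) (nat_lit 18249247469) (nat_lit 152) (nat_lit 972949562639) (nat_lit 0) (nat_lit 11548240593) (nat_lit 1) (nat_lit 5) (nat_lit 3) (nat_lit 4) (nat_lit 1) (nat_lit 4) (nat_lit 347) (nat_lit 250) (nat_lit 183)) (XT.lf (nat_lit 0) (nat_lit 22588205987) (nat_lit 152) (nat_lit 1044217954423) (nat_lit 0) (nat_lit 15884322212) (nat_lit 1) (nat_lit 5) (nat_lit 3) (nat_lit 4) (nat_lit 1) (nat_lit 4) (nat_lit 348) (nat_lit 250) (nat_lit 182)))) (XT.nd (nat_lit 156) (nat_lit 0) (nat_lit 0) (XT.nd (nat_lit 78) (nat_lit 0) (nat_lit 0) (XT.lf (nat_lit 0) (nat_lit 27271501990) (nat_lit 152) (nat_lit 1121193157359) (nat_lit 0) (nat_lit 20564954420) (nat_lit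 1) (nat_lit 5) (nat_lit 3) (nat_lit 4) (nat_lit 1) (nat_lit 4) (nat_lit 349) (nat_lit 250) (nat_lit 181)) (XT.lf (nat_lit 0) (nat_lit 32326888344) (nat_lit 152) (nat_lit 1204331320799) (nat_lit 0) (nat_lit 25617874297) (nat_lit 1) (nat_lit 5) (nat_lit 3) (nat_lit 4) (nat_lit 1) (nat_lit 4) (nat_lit 350) (nat_lit 250) (nat_lit 180))) (XT.nd (nat_lit 78) (nat_lit 0) (nat_lit 0) (XT.lf (nat_lit 0) (nat_lit 37784322893) (nat_lit 152) (nat_lit 1294125115341) (nat_lit 0) (nat_lit 31073025072) (nat_lit 1) (nat_lit 5) (nat_lit 3) (nat_lit 4) (nat_lit 1) (nat_lit 4) (nat_lit 351) (nat_lit 250) (nat_lit 179)) (XT.lf (nat_lit 0) (nat_lit 43676145991) (nat_lit 152) (nat_lit 1391106652360) (nat_lit 0) (nat_lit 36962733564) (nat_lit 1) (nat_lit 5) (nat_lit 3) (nat_lit 4) (nat_lit 1) (nat_lit 4) (nat_lit 352) (nat_lit 250) (nat_lit 178))))) (XT.nd (nat_lit 234) (nat_lit 0) (nat_lit 0) (XT.nd (nat_lit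 78) (nat_lit 0) (nat_lit 0) (XT.lf (nat_lit 0) (nat_lit 50037272145) (nat_lit 152) (nat_lit 1495850637261) (nat_lit 0) (nat_lit 43321901749) (nat_lit 1) (nat_lit 5) (nat_lit 3) (nat_lit 4) (nat_lit 1) (nat_lit 4) (nat_lit 353) (nat_lit 250) (nat_lit 177)) (XT.nd (nat_lit 78) (nat_lit 0) (nat_lit 0) (XT.lf (nat_lit 0) (nat_lit 56905396917) (nat_lit 152) (nat_lit 1608977775138) (nat_lit 0) (nat_lit 50188213587) (nat_lit 1) (nat_lit 5) (nat_lit 3) (nat_lit 4) (nat_lit 1) (nat_lit 4) (nat_lit 354) (nat_lit 250) (nat_lit 176)) (XT.lf (nat_lit 0) (nat_lit 64321220305) (nat_lit 152) (nat_lit 1731158449033) (nat_lit 0) (nat_lit 57602358333) (nat_lit 1) (nat_lit 5) (nat_lit 3) (nat_lit 4) (nat_lit 1) (nat_lit 4) (nat_lit 355) (nat_lit 250) (nat_lit 175)))) (XT.nd (nat_lit 156) (nat_lit 0) (nat_lit 0) (XT.nd (nat_lit 78) (nat_lit 0) (nat_lit 0) (XT.lf (nat_lit 0) (nat_lit 72328687931) (nat_lit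 152) (nat_lit 1863116692566) (nat_lit 0) (nat_lit 65608271660) (nat_lit 1) (nat_lit 5) (nat_lit 3) (nat_lit 4) (nat_lit 1) (nat_lit 4) (nat_lit 356) (nat_lit 250) (nat_lit 174)) (XT.lf (nat_lit 0) (nat_lit 80975251453) (nat_lit 152) (nat_lit 2005634480516) (nat_lit 0) (nat_lit 74253396017) (nat_lit 1) (nat_lit 5) (nat_lit 3) (nat_lit 4) (nat_lit 1) (nat_lit 4) (nat_lit 357) (nat_lit 250) (nat_lit 173))) (XT.nd (nat_lit 78) (nat_lit 0) (nat_lit 0) (XT.lf (nat_lit 0) (nat_lit 90312149768) (nat_lit 152) (nat_lit 2159556362737) (nat_lit 0) (nat_lit 83588961770) (nat_lit 1) (nat_lit 5) (nat_lit 3) (nat_lit 4) (nat_lit 1) (nat_lit 4) (nat_lit 358) (nat_lit 250) (nat_lit 172)) (XT.lf (nat_lit 0) (nat_lit 100394712642) (nat_lit 152) (nat_lit 2325794468900) (nat_lit 0) (nat_lit 93670290792) (nat_lit 1) (nat_lit 5) (nat_lit 3) (nat_lit 4) (nat_lit 1) (nat_lit 4) (nat_lit 359) (nat_lit 250) (nat_lit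 171)))))) (XT.nd (nat_lit 34398) (nat_lit 0) (nat_lit 912) (XT.nd (nat_lit 234) (nat_lit 0) (nat_lit 0) (XT.nd (nat_lit 78) (nat_lit 0) (nat_lit 0) (XT.lf (nat_lit 0) (nat_lit 111282688596) (nat_lit 152) (nat_lit 2505333913710) (nat_lit 0) (nat_lit 104557124291) (nat_lit 1) (nat_lit 5) (nat_lit 3) (nat_lit 4) (nat_lit 1) (nat_lit 4) (nat_lit 360) (nat_lit 250) (nat_lit 170)) (XT.nd (nat_lit 78) (nat_lit 0) (nat_lit 0) (XT.lf (nat_lit 0) (nat_lit 123040598970) (nat_lit 152) (nat_lit 2699238634616) (nat_lit 0) (nat_lit 116313976835) (nat_lit 1) (nat_lit 5) (nat_lit 3) (nat_lit 4) (nat_lit 1) (nat_lit 4) (nat_lit 361) (nat_lit 250) (nat_lit 169)) (XT.lf (nat_lit 0) (nat_lit 135738120269) (nat_lit 152) (nat_lit 2908657696632) (nat_lit 0) (nat_lit 129010518662) (nat_lit 1) (nat_lit 5) (nat_lit 3) (nat_lit 4) (nat_lit 1) (nat_lit 4) (nat_lit 362) (nat_lit 250) (nat_lit 168)))) (XT.nd (nat_lit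 34008) (nat_lit 0) (nat_lit 1748) (XT.nd (nat_lit 78) (nat_lit 0) (nat_lit 0) (XT.lf (nat_lit 0) (nat_lit 149450497064) (nat_lit 152) (nat_lit 3134832101607) (nat_lit 0) (nat_lit 142721988539) (nat_lit 1) (nat_lit 5) (nat_lit 3) (nat_lit 4) (nat_lit 1) (nat_lit 4) (nat_lit 363) (nat_lit 250) (nat_lit 167)) (XT.lf (nat_lit 0) (nat_lit 164258987884) (nat_lit 152) (nat_lit 3379102142311) (nat_lit 0) (nat_lit 157529639620) (nat_lit 1) (nat_lit 5) (nat_lit 3) (nat_lit 4) (nat_lit 1) (nat_lit 4) (nat_lit 364) (nat_lit 250) (nat_lit 166))) (XT.nd (nat_lit 78) (nat_lit 0) (nat_lit 0) (XT.lf (nat_lit 0) (nat_lit 742894574) (nat_lit 152) (nat_lit 1928523109) (nat_lit 152) (nat_lit 1928523109) (nat_lit 24) (nat_lit 4) (nat_lit 26) (nat_lit 5) (nat_lit 26) (nat_lit 4) (nat_lit 278) (nat_lit 251) (nat_lit 251)) (XT.lf (nat_lit 0) (nat_lit 8055651608) (nat_lit 152) (nat_lit 1214528697) (nat_lit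 152) (nat_lit 290455902) (nat_lit 24) (nat_lit 4) (nat_lit 26) (nat_lit 5) (nat_lit 26) (nat_lit 4) (nat_lit 279) (nat_lit 251) (nat_lit 250))))) (XT.nd (nat_lit 312) (nat_lit 304) (nat_lit 0) (XT.nd (nat_lit 156) (nat_lit 152) (nat_lit 0) (XT.nd (nat_lit 78) (nat_lit 152) (nat_lit 0) (XT.lf (nat_lit 0) (nat_lit 3321164715) (nat_lit 228) (nat_lit 4954602365) (nat_lit 0) (nat_lit 1673298277) (nat_lit 21) (nat_lit 5) (nat_lit 24) (nat_lit 4) (nat_lit 21) (nat_lit 4) (nat_lit 280) (nat_lit 251) (nat_lit 249)) (XT.lf (nat_lit 0) (nat_lit 1431262406) (nat_lit 152) (nat_lit 5663823458) (nat_lit 152) (nat_lit 3282398243) (nat_lit 19) (nat_lit 4) (nat_lit 21) (nat_lit 5) (nat_lit 21) (nat_lit 4) (nat_lit 281) (nat_lit 251) (nat_lit 248))) (XT.nd (nat_lit 78) (nat_lit 76) (nat_lit 0) (XT.lf (nat_lit 0) (nat_lit 236416447) (nat_lit 228) (nat_lit 2568900095) (nat_lit 76) (nat_lit 8040998082)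 (nat_lit 18) (nat_lit 5) (nat_lit 21) (nat_lit 5) (nat_lit 19) (nat_lit 4) (nat_lit 282) (nat_lit 251) (nat_lit 247)) (XT.lf (nat_lit 0) (nat_lit 3766818227) (nat_lit 152) (nat_lit 7236366712) (nat_lit 0) (nat_lit 350563854) (nat_lit 17) (nat_lit 5) (nat_lit 19) (nat_lit 4) (nat_lit 17) (nat_lit 4) (nat_lit 283) (nat_lit 251) (nat_lit 246)))) (XT.nd (nat_lit 156) (nat_lit 152) (nat_lit 0) (XT.nd (nat_lit 78) (nat_lit 152) (nat_lit 0) (XT.lf (nat_lit 0) (nat_lit 7528715405) (nat_lit 152) (nat_lit 804337053) (nat_lit 0) (nat_lit 3573273431) (nat_lit 17) (nat_lit 5) (nat_lit 19) (nat_lit 4) (nat_lit 17) (nat_lit 4) (nat_lit 284) (nat_lit 251) (nat_lit 245)) (XT.lf (nat_lit 0) (nat_lit 6155598559) (nat_lit 152) (nat_lit 5402651829) (nat_lit 152) (nat_lit 947962077) (nat_lit 15) (nat_lit 4) (nat_lit 17) (nat_lit 5) (nat_lit 17) (nat_lit 4) (nat_lit 285) (nat_lit 251) (nat_lit 244))) (XT.nd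 (nat_lit 78) (nat_lit 0) (nat_lit 0) (XT.lf (nat_lit 0) (nat_lit 212552225) (nat_lit 76) (nat_lit 2253557600) (nat_lit 152) (nat_lit 10695219500) (nat_lit 13) (nat_lit 5) (nat_lit 14) (nat_lit 5) (nat_lit 15) (nat_lit 4) (nat_lit 286) (nat_lit 251) (nat_lit 243)) (XT.lf (nat_lit 0) (nat_lit 6131645128) (nat_lit 152) (nat_lit 6550635381) (nat_lit 0) (nat_lit 1182588911) (nat_lit 13) (nat_lit 5) (nat_lit 15) (nat_lit 4) (nat_lit 13) (nat_lit 4) (nat_lit 287) (nat_lit 251) (nat_lit 242))))))))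
noncomputable def xc34 : XT := (XT.nd (nat_lit 2184) (nat_lit 76) (nat_lit 0) (XT.nd (nat_lit 1092) (nat_lit 228) (nat_lit 0) (XT.nd (nat_lit 546) (nat_lit 228) (nat_lit 0) (XT.nd (nat_lit 234) (nat_lit 152) (nat_lit 0) (XT.nd (nat_lit 78) (nat_lit 76) (nat_lit 0) (XT.lf (nat_lit 0) (nat_lit 23403218) (nat_lit 76) (nat_lit 9962976650) (nat_lit 76) (nat_lit 4646958412) (nat_lit 12) (nat_lit 4) (nat_lit 13) (nat_lit 5) (nat_lit 13) (nat_lit 4) (nat_lit 288) (nat_lit 251) (nat_lit 241)) (XT.nd (nat_lit 78) (nat_lit 76) (nat_lit 0) (XT.lf (nat_lit 0) (nat_lit 7224367070) (nat_lit 76) (nat_lit 6946646058) (nat_lit 76) (nat_lit 1290848171) (nat_lit 12) (nat_lit 4) (nat_lit 13) (nat_lit 5) (nat_lit 13) (nat_lit 4) (nat_lit 289) (nat_lit 251) (nat_lit 240)) (XT.lf (nat_lit 0) (nat_lit 2067041754) (nat_lit 152) (nat_lit 1670961824) (nat_lit 76) (nat_lit 12626425363) (nat_lit 11) (nat_lit 5)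 (nat_lit 13) (nat_lit 5) (nat_lit 12) (nat_lit 4) (nat_lit 290) (nat_lit 251) (nat_lit 239)))) (XT.nd (nat_lit 156) (nat_lit 76) (nat_lit 0) (XT.nd (nat_lit 78) (nat_lit 0) (nat_lit 0) (XT.lf (nat_lit 0) (nat_lit 5418048366) (nat_lit 76) (nat_lit 197222461) (nat_lit 152) (nat_lit 11722169845) (nat_lit 10) (nat_lit 5) (nat_lit 11) (nat_lit 5) (nat_lit 12) (nat_lit 4) (nat_lit 291) (nat_lit 251) (nat_lit 238)) (XT.lf (nat_lit 0) (nat_lit 9444845405) (nat_lit 152) (nat_lit 5546655170) (nat_lit 0) (nat_lit 3397213000) (nat_lit 10) (nat_lit 5) (nat_lit 12) (nat_lit 4) (nat_lit 10) (nat_lit 4) (nat_lit 292) (nat_lit 251) (nat_lit 237))) (XT.nd (nat_lit 78) (nat_lit 0) (nat_lit 0) (XT.lf (nat_lit 0) (nat_lit 1164188444) (nat_lit 76) (nat_lit 12323226616) (nat_lit 76) (nat_lit 6044345892) (nat_lit 9) (nat_lit 4) (nat_lit 10) (nat_lit 5) (nat_lit 10) (nat_lit 4) (nat_lit 293) (nat_lit 251)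 (nat_lit 236)) (XT.lf (nat_lit 0) (nat_lit 8508207322) (nat_lit 76) (nat_lit 9374445629) (nat_lit 76) (nat_lit 2881446090) (nat_lit 9) (nat_lit 4) (nat_lit 10) (nat_lit 5) (nat_lit 10) (nat_lit 4) (nat_lit 294) (nat_lit 251) (nat_lit 235))))) (XT.nd (nat_lit 234) (nat_lit 76) (nat_lit 0) (XT.nd (nat_lit 78) (nat_lit 76) (nat_lit 0) (XT.lf (nat_lit 0) (nat_lit 391313106) (nat_lit 152) (nat_lit 5877326439) (nat_lit 76) (nat_lit 15834832241) (nat_lit 8) (nat_lit 5) (nat_lit 10) (nat_lit 5) (nat_lit 9) (nat_lit 4) (nat_lit 295) (nat_lit 251) (nat_lit 234)) (XT.nd (nat_lit 78) (nat_lit 0) (nat_lit 0) (XT.lf (nat_lit 0) (nat_lit 782105799) (nat_lit 76) (nat_lit 2899113369) (nat_lit 152) (nat_lit 19870057025) (nat_lit 7) (nat_lit 5) (nat_lit 8) (nat_lit 5) (nat_lit 9) (nat_lit 4) (nat_lit 296) (nat_lit 251) (nat_lit 233)) (XT.lf (nat_lit 0) (nat_lit 7310588852) (nat_lit 152) (nat_lit 17010730817)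 (nat_lit 0) (nat_lit 787621731) (nat_lit 7) (nat_lit 5) (nat_lit 9) (nat_lit 4) (nat_lit 7) (nat_lit 4) (nat_lit 297) (nat_lit 251) (nat_lit 232)))) (XT.nd (nat_lit 156) (nat_lit 76) (nat_lit 0) (XT.nd (nat_lit 78) (nat_lit 0) (nat_lit 0) (XT.lf (nat_lit 0) (nat_lit 11207095188) (nat_lit 152) (nat_lit 11047707176) (nat_lit 0) (nat_lit 4538402400) (nat_lit 7) (nat_lit 5) (nat_lit 9) (nat_lit 4) (nat_lit 7) (nat_lit 4) (nat_lit 298) (nat_lit 251) (nat_lit 231)) (XT.lf (nat_lit 0) (nat_lit 15324104838) (nat_lit 152) (nat_lit 4775039289) (nat_lit 0) (nat_lit 8520480876) (nat_lit 7) (nat_lit 5) (nat_lit 9) (nat_lit 4) (nat_lit 7) (nat_lit 4) (nat_lit 299) (nat_lit 251) (nat_lit 230))) (XT.nd (nat_lit 78) (nat_lit 0) (nat_lit 0) (XT.lf (nat_lit 0) (nat_lit 1941569371) (nat_lit 76) (nat_lit 17791140314) (nat_lit 76) (nat_lit 10862580080) (nat_lit 6) (nat_lit 4) (nat_lit 7) (nat_lit 5) (nat_lit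 7) (nat_lit 4) (nat_lit 300) (nat_lit 251) (nat_lit 229)) (XT.lf (nat_lit 0) (nat_lit 9315993617) (nat_lit 76) (nat_lit 15226729970) (nat_lit 76) (nat_lit 8182488003) (nat_lit 6) (nat_lit 4) (nat_lit 7) (nat_lit 5) (nat_lit 7) (nat_lit 4) (nat_lit 301) (nat_lit 251) (nat_lit 228)))))) (XT.nd (nat_lit 546) (nat_lit 76) (nat_lit 0) (XT.nd (nat_lit 234) (nat_lit 76) (nat_lit 0) (XT.nd (nat_lit 78) (nat_lit 76) (nat_lit 0) (XT.lf (nat_lit 0) (nat_lit 17140488631) (nat_lit 76) (nat_lit 12521274628) (nat_lit 76) (nat_lit 5369919945) (nat_lit 6) (nat_lit 4) (nat_lit 7) (nat_lit 5) (nat_lit 7) (nat_lit 4) (nat_lit 302) (nat_lit 251) (nat_lit 227)) (XT.nd (nat_lit 78) (nat_lit 76) (nat_lit 0) (XT.lf (nat_lit 0) (nat_lit 25461421792) (nat_lit 76) (nat_lit 9658741958) (nat_lit 76) (nat_lit 2408208835) (nat_lit 6) (nat_lit 4) (nat_lit 7) (nat_lit 5) (nat_lit 7) (nat_lit 4) (nat_lit 303) (nat_lit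 251) (nat_lit 226)) (XT.lf (nat_lit 0) (nat_lit 684169076) (nat_lit 152) (nat_lit 5919293333) (nat_lit 76) (nat_lit 33625226861) (nat_lit 5) (nat_lit 5) (nat_lit 7) (nat_lit 5) (nat_lit 6) (nat_lit 4) (nat_lit 304) (nat_lit 251) (nat_lit 225)))) (XT.nd (nat_lit 156) (nat_lit 0) (nat_lit 0) (XT.nd (nat_lit 78) (nat_lit 0) (nat_lit 0) (XT.lf (nat_lit 0) (nat_lit 571866495) (nat_lit 76) (nat_lit 3273932079) (nat_lit 152) (nat_lit 39298140376) (nat_lit 4) (nat_lit 5) (nat_lit 5) (nat_lit 5) (nat_lit 6) (nat_lit 4) (nat_lit 305) (nat_lit 251) (nat_lit 224)) (XT.lf (nat_lit 0) (nat_lit 7373018439) (nat_lit 152) (nat_lit 38487539191) (nat_lit 0) (nat_lit 422902158) (nat_lit 4) (nat_lit 5) (nat_lit 6) (nat_lit 4) (nat_lit 4) (nat_lit 4) (nat_lit 306) (nat_lit 251) (nat_lit 223))) (XT.nd (nat_lit 78) (nat_lit 0) (nat_lit 0) (XT.lf (nat_lit 0) (nat_lit 11210850438) (nat_lit 152) (nat_lit 34267841359)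 (nat_lit 0) (nat_lit 4193234977) (nat_lit 4) (nat_lit 5) (nat_lit 6) (nat_lit 4) (nat_lit 4) (nat_lit 4) (nat_lit 307) (nat_lit 251) (nat_lit 222)) (XT.lf (nat_lit 0) (nat_lit 15303299135) (nat_lit 152) (nat_lit 29809235198) (nat_lit 0) (nat_lit 8223184432) (nat_lit 4) (nat_lit 5) (nat_lit 6) (nat_lit 4) (nat_lit 4) (nat_lit 4) (nat_lit 308) (nat_lit 251) (nat_lit 221))))) (XT.nd (nat_lit 234) (nat_lit 76) (nat_lit 0) (XT.nd (nat_lit 78) (nat_lit 0) (nat_lit 0) (XT.lf (nat_lit 0) (nat_lit 19674616076) (nat_lit 152) (nat_lit 25085299338) (nat_lit 0) (nat_lit 12536631706) (nat_lit 4) (nat_lit 5) (nat_lit 6) (nat_lit 4) (nat_lit 4) (nat_lit 4) (nat_lit 309) (nat_lit 251) (nat_lit 220)) (XT.nd (nat_lit 78) (nat_lit 0) (nat_lit 0) (XT.lf (nat_lit 0) (nat_lit 24350705362) (nat_lit 152) (nat_lit 20068040085) (nat_lit 0) (nat_lit 17159137967) (nat_lit 4) (nat_lit 5) (nat_lit 6) (nat_lit 4)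 (nat_lit 4) (nat_lit 4) (nat_lit 310) (nat_lit 251) (nat_lit 219)) (XT.lf (nat_lit 0) (nat_lit 29359277153) (nat_lit 152) (nat_lit 14727725533) (nat_lit 0) (nat_lit 22118095845) (nat_lit 4) (nat_lit 5) (nat_lit 6) (nat_lit 4) (nat_lit 4) (nat_lit 4) (nat_lit 311) (nat_lit 251) (nat_lit 218)))) (XT.nd (nat_lit 156) (nat_lit 76) (nat_lit 0) (XT.nd (nat_lit 78) (nat_lit 0) (nat_lit 0) (XT.lf (nat_lit 0) (nat_lit 34730011872) (nat_lit 152) (nat_lit 9032709373) (nat_lit 0) (nat_lit 27442891757) (nat_lit 4) (nat_lit 5) (nat_lit 6) (nat_lit 4) (nat_lit 4) (nat_lit 4) (nat_lit 312) (nat_lit 251) (nat_lit 217)) (XT.lf (nat_lit 0) (nat_lit 40494736098) (nat_lit 152) (nat_lit 2949243362) (nat_lit 0) (nat_lit 33165080049) (nat_lit 4) (nat_lit 5) (nat_lit 6) (nat_lit 4) (nat_lit 4) (nat_lit 4) (nat_lit 313) (nat_lit 251) (nat_lit 216))) (XT.nd (nat_lit 78) (nat_lit 0) (nat_lit 0) (XT.lf (nat_lit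 0) (nat_lit 3746118699) (nat_lit 76) (nat_lit 43031586703) (nat_lit 76) (nat_lit 35662545531) (nat_lit 3) (nat_lit 4) (nat_lit 4) (nat_lit 5) (nat_lit 4) (nat_lit 4) (nat_lit 314) (nat_lit 251) (nat_lit 215)) (XT.lf (nat_lit 0) (nat_lit 11084232657) (nat_lit 76) (nat_lit 42527678975) (nat_lit 76) (nat_lit 35122170096) (nat_lit 3) (nat_lit 4) (nat_lit 4) (nat_lit 5) (nat_lit 4) (nat_lit 4) (nat_lit 315) (nat_lit 251) (nat_lit 214))))))) (XT.nd (nat_lit 1092) (nat_lit 76) (nat_lit 0) (XT.nd (nat_lit 546) (nat_lit 0) (nat_lit 0) (XT.nd (nat_lit 234) (nat_lit 0) (nat_lit 0) (XT.nd (nat_lit 78) (nat_lit 0) (nat_lit 0) (XT.lf (nat_lit 0) (nat_lit 18953281701) (nat_lit 76) (nat_lit 42009907697) (nat_lit 76) (nat_lit 34570632423) (nat_lit 3) (nat_lit 4) (nat_lit 4) (nat_lit 5) (nat_lit 4) (nat_lit 4) (nat_lit 316) (nat_lit 251) (nat_lit 213)) (XT.nd (nat_lit 78) (nat_lit 0) (nat_lit 0) (XT.lf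 (nat_lit 0) (nat_lit 27399897234) (nat_lit 76) (nat_lit 41475204595) (nat_lit 76) (nat_lit 34004664140) (nat_lit 3) (nat_lit 4) (nat_lit 4) (nat_lit 5) (nat_lit 4) (nat_lit 4) (nat_lit 317) (nat_lit 251) (nat_lit 212)) (XT.lf (nat_lit 0) (nat_lit 36474133274) (nat_lit 76) (nat_lit 40920401057) (nat_lit 76) (nat_lit 33420911361) (nat_lit 3) (nat_lit 4) (nat_lit 4) (nat_lit 5) (nat_lit 4) (nat_lit 4) (nat_lit 318) (nat_lit 251) (nat_lit 211)))) (XT.nd (nat_lit 156) (nat_lit 0) (nat_lit 0) (XT.nd (nat_lit 78) (nat_lit 0) (nat_lit 0) (XT.lf (nat_lit 0) (nat_lit 46229763070) (nat_lit 76) (nat_lit 40342209359) (nat_lit 76) (nat_lit 32815914810) (nat_lit 3) (nat_lit 4) (nat_lit 4) (nat_lit 5) (nat_lit 4) (nat_lit 4) (nat_lit 319) (nat_lit 251) (nat_lit 210)) (XT.lf (nat_lit 0) (nat_lit 56724597763) (nat_lit 76) (nat_lit 39737203180) (nat_lit 76) (nat_lit 32186089322) (nat_lit 3) (nat_lit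 4) (nat_lit 4) (nat_lit 5) (nat_lit 4) (nat_lit 4) (nat_lit 320) (nat_lit 251) (nat_lit 209))) (XT.nd (nat_lit 78) (nat_lit 0) (nat_lit 0) (XT.lf (nat_lit 0) (nat_lit 68020828965) (nat_lit 76) (nat_lit 39101797297) (nat_lit 76) (nat_lit 31527702598) (nat_lit 3) (nat_lit 4) (nat_lit 4) (nat_lit 5) (nat_lit 4) (nat_lit 4) (nat_lit 321) (nat_lit 251) (nat_lit 208)) (XT.lf (nat_lit 0) (nat_lit 80185397307) (nat_lit 76) (nat_lit 38432226343) (nat_lit 76) (nat_lit 30836853088) (nat_lit 3) (nat_lit 4) (nat_lit 4) (nat_lit 5) (nat_lit 4) (nat_lit 4) (nat_lit 322) (nat_lit 251) (nat_lit 207))))) (XT.nd (nat_lit 234) (nat_lit 0) (nat_lit 0) (XT.nd (nat_lit 78) (nat_lit 0) (nat_lit 0) (XT.lf (nat_lit 0) (nat_lit 93290389118) (nat_lit 76) (nat_lit 37724522491) (nat_lit 76) (nat_lit 30109446868) (nat_lit 3) (nat_lit 4) (nat_lit 4) (nat_lit 5) (nat_lit 4) (nat_lit 4) (nat_lit 323) (nat_lit 251)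 (nat_lit 206)) (XT.nd (nat_lit 78) (nat_lit 0) (nat_lit 0) (XT.lf (nat_lit 0) (nat_lit 107413463610) (nat_lit 76) (nat_lit 36974491938) (nat_lit 76) (nat_lit 29341173382) (nat_lit 3) (nat_lit 4) (nat_lit 4) (nat_lit 5) (nat_lit 4) (nat_lit 4) (nat_lit 324) (nat_lit 251) (nat_lit 205)) (XT.lf (nat_lit 0) (nat_lit 122638313076) (nat_lit 76) (nat_lit 36177690060) (nat_lit 76) (nat_lit 28527479900) (nat_lit 3) (nat_lit 4) (nat_lit 4) (nat_lit 5) (nat_lit 4) (nat_lit 4) (nat_lit 325) (nat_lit 251) (nat_lit 204)))) (XT.nd (nat_lit 156) (nat_lit 0) (nat_lit 0) (XT.nd (nat_lit 78) (nat_lit 0) (nat_lit 0) (XT.lf (nat_lit 0) (nat_lit 139055158845) (nat_lit 76) (nat_lit 35329395068) (nat_lit 76) (nat_lit 27663544534) (nat_lit 3) (nat_lit 4) (nat_lit 4) (nat_lit 5) (nat_lit 4) (nat_lit 4) (nat_lit 326) (nat_lit 251) (nat_lit 203)) (XT.lf (nat_lit 0) (nat_lit 156761285931) (nat_lit 76) (nat_lit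 34424580028) (nat_lit 76) (nat_lit 26744247666) (nat_lit 3) (nat_lit 4) (nat_lit 4) (nat_lit 5) (nat_lit 4) (nat_lit 4) (nat_lit 327) (nat_lit 251) (nat_lit 202))) (XT.nd (nat_lit 78) (nat_lit 0) (nat_lit 0) (XT.lf (nat_lit 0) (nat_lit 175861619530) (nat_lit 76) (nat_lit 33457883074) (nat_lit 76) (nat_lit 25764141612) (nat_lit 3) (nat_lit 4) (nat_lit 4) (nat_lit 5) (nat_lit 4) (nat_lit 4) (nat_lit 328) (nat_lit 251) (nat_lit 201)) (XT.lf (nat_lit 0) (nat_lit 196469346805) (nat_lit 76) (nat_lit 32423575631) (nat_lit 76) (nat_lit 24717418336) (nat_lit 3) (nat_lit 4) (nat_lit 4) (nat_lit 5) (nat_lit 4) (nat_lit 4) (nat_lit 329) (nat_lit 251) (nat_lit 200)))))) (XT.nd (nat_lit 546) (nat_lit 76) (nat_lit 0) (XT.nd (nat_lit 234) (nat_lit 0) (nat_lit 0) (XT.nd (nat_lit 78) (nat_lit 0) (nat_lit 0) (XT.lf (nat_lit 0) (nat_lit 218706587621) (nat_lit 76) (nat_lit 31315528470) (nat_lit 76) (nat_lit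 23597875032) (nat_lit 3) (nat_lit 4) (nat_lit 4) (nat_lit 5) (nat_lit 4) (nat_lit 4) (nat_lit 330) (nat_lit 251) (nat_lit 199)) (XT.nd (nat_lit 78) (nat_lit 0) (nat_lit 0) (XT.lf (nat_lit 0) (nat_lit 242705118219) (nat_lit 76) (nat_lit 30127175386) (nat_lit 76) (nat_lit 22398877372) (nat_lit 3) (nat_lit 4) (nat_lit 4) (nat_lit 5) (nat_lit 4) (nat_lit 4) (nat_lit 331) (nat_lit 251) (nat_lit 198)) (XT.lf (nat_lit 0) (nat_lit 268607152115) (nat_lit 76) (nat_lit 28851474285) (nat_lit 76) (nat_lit 21113320182) (nat_lit 3) (nat_lit 4) (nat_lit 4) (nat_lit 5) (nat_lit 4) (nat_lit 4) (nat_lit 332) (nat_lit 251) (nat_lit 197)))) (XT.nd (nat_lit 156) (nat_lit 0) (nat_lit 0) (XT.nd (nat_lit 78) (nat_lit 0) (nat_lit 0) (XT.lf (nat_lit 0) (nat_lit 296566182843) (nat_lit 76) (nat_lit 27480865458) (nat_lit 76) (nat_lit 19733585347) (nat_lit 3) (nat_lit 4) (nat_lit 4) (nat_lit 5) (nat_lit 4) (nat_lit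 4) (nat_lit 333) (nat_lit 251) (nat_lit 196)) (XT.lf (nat_lit 0) (nat_lit 326747893547) (nat_lit 76) (nat_lit 26007226779) (nat_lit 76) (nat_lit 18251496660) (nat_lit 3) (nat_lit 4) (nat_lit 4) (nat_lit 5) (nat_lit 4) (nat_lit 4) (nat_lit 334) (nat_lit 251) (nat_lit 195))) (XT.nd (nat_lit 78) (nat_lit 0) (nat_lit 0) (XT.lf (nat_lit 0) (nat_lit 359331138810) (nat_lit 76) (nat_lit 24421825573) (nat_lit 76) (nat_lit 16658271373) (nat_lit 3) (nat_lit 4) (nat_lit 4) (nat_lit 5) (nat_lit 4) (nat_lit 4) (nat_lit 335) (nat_lit 251) (nat_lit 194)) (XT.lf (nat_lit 0) (nat_lit 394509004530) (nat_lit 76) (nat_lit 22715266871) (nat_lit 76) (nat_lit 14944468152) (nat_lit 3) (nat_lit 4) (nat_lit 4) (nat_lit 5) (nat_lit 4) (nat_lit 4) (nat_lit 336) (nat_lit 251) (nat_lit 193))))) (XT.nd (nat_lit 234) (nat_lit 76) (nat_lit 0) (XT.nd (nat_lit 78) (nat_lit 0) (nat_lit 0) (XT.lf (nat_lit 0) (nat_lit 432489952133)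 (nat_lit 76) (nat_lit 20877437733) (nat_lit 76) (nat_lit 13099931125) (nat_lit 3) (nat_lit 4) (nat_lit 4) (nat_lit 5) (nat_lit 4) (nat_lit 4) (nat_lit 337) (nat_lit 251) (nat_lit 192)) (XT.nd (nat_lit 78) (nat_lit 0) (nat_lit 0) (XT.lf (nat_lit 0) (nat_lit 473499053900) (nat_lit 76) (nat_lit 18897447318) (nat_lit 76) (nat_lit 11113729702) (nat_lit 3) (nat_lit 4) (nat_lit 4) (nat_lit 5) (nat_lit 4) (nat_lit 4) (nat_lit 338) (nat_lit 251) (nat_lit 191)) (XT.lf (nat_lit 0) (nat_lit 517779326732) (nat_lit 76) (nat_lit 16763562350) (nat_lit 76) (nat_lit 8974093801) (nat_lit 3) (nat_lit 4) (nat_lit 4) (nat_lit 5) (nat_lit 4) (nat_lit 4) (nat_lit 339) (nat_lit 251) (nat_lit 190)))) (XT.nd (nat_lit 156) (nat_lit 76) (nat_lit 0) (XT.nd (nat_lit 78) (nat_lit 0) (nat_lit 0) (XT.lf (nat_lit 0) (nat_lit 565593172246) (nat_lit 76) (nat_lit 14463137586) (nat_lit 76) (nat_lit 6668344099) (nat_lit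 3) (nat_lit 4) (nat_lit 4) (nat_lit 5) (nat_lit 4) (nat_lit 4) (nat_lit 340) (nat_lit 251) (nat_lit 189)) (XT.lf (nat_lit 0) (nat_lit 617223931747) (nat_lit 76) (nat_lit 11982540878) (nat_lit 76) (nat_lit 4182816892) (nat_lit 3) (nat_lit 4) (nat_lit 4) (nat_lit 5) (nat_lit 4) (nat_lit 4) (nat_lit 341) (nat_lit 251) (nat_lit 188))) (XT.nd (nat_lit 78) (nat_lit 76) (nat_lit 0) (XT.lf (nat_lit 0) (nat_lit 672977565293) (nat_lit 76) (nat_lit 9307072394) (nat_lit 76) (nat_lit 1502783132) (nat_lit 3) (nat_lit 4) (nat_lit 4) (nat_lit 5) (nat_lit 4) (nat_lit 4) (nat_lit 342) (nat_lit 251) (nat_lit 187)) (XT.lf (nat_lit 0) (nat_lit 1318223547) (nat_lit 152) (nat_lit 5066611391) (nat_lit 76) (nat_lit 731830198670) (nat_lit 2) (nat_lit 5) (nat_lit 4) (nat_lit 5) (nat_lit 3) (nat_lit 4) (nat_lit 343) (nat_lit 251) (nat_lit 186))))))))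
noncomputable def xc35 : XT := (XT.nd (nat_lit 35880) (nat_lit 0) (nat_lit 228) (XT.nd (nat_lit 1092) (nat_lit 0) (nat_lit 0) (XT.nd (nat_lit 546) (nat_lit 0) (nat_lit 0) (XT.nd (nat_lit 234) (nat_lit 0) (nat_lit 0) (XT.nd (nat_lit 78) (nat_lit 0) (nat_lit 0) (XT.lf (nat_lit 0) (nat_lit 1147782148) (nat_lit 76) (nat_lit 3160012325) (nat_lit 152) (nat_lit 792684015618) (nat_lit 1) (nat_lit 5) (nat_lit 2) (nat_lit 5) (nat_lit 3) (nat_lit 4) (nat_lit 344) (nat_lit 251) (nat_lit 185)) (XT.nd (nat_lit 78) (nat_lit 0) (nat_lit 0) (XT.lf (nat_lit 0) (nat_lit 7682921661) (nat_lit 152) (nat_lit 852330264496) (nat_lit 0) (nat_lit 445834234) (nat_lit 1) (nat_lit 5) (nat_lit 3) (nat_lit 4) (nat_lit 1) (nat_lit 4) (nat_lit 345) (nat_lit 251) (nat_lit 184)) (XT.lf (nat_lit 0) (nat_lit 11406895612) (nat_lit 152) (nat_lit 913423706570) (nat_lit 0) (nat_lit 4166701135) (nat_lit 1) (nat_lit 5) (nat_lit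 3) (nat_lit 4) (nat_lit 1) (nat_lit 4) (nat_lit 346) (nat_lit 251) (nat_lit 183)))) (XT.nd (nat_lit 156) (nat_lit 0) (nat_lit 0) (XT.nd (nat_lit 78) (nat_lit 0) (nat_lit 0) (XT.lf (nat_lit 0) (nat_lit 15425785947) (nat_lit 152) (nat_lit 979410391005) (nat_lit 0) (nat_lit 8182714571) (nat_lit 1) (nat_lit 5) (nat_lit 3) (nat_lit 4) (nat_lit 1) (nat_lit 4) (nat_lit 347) (nat_lit 251) (nat_lit 182)) (XT.lf (nat_lit 0) (nat_lit 19763408312) (nat_lit 152) (nat_lit 1050681350005) (nat_lit 0) (nat_lit 12517673142) (nat_lit 1) (nat_lit 5) (nat_lit 3) (nat_lit 4) (nat_lit 1) (nat_lit 4) (nat_lit 348) (nat_lit 251) (nat_lit 181))) (XT.nd (nat_lit 78) (nat_lit 0) (nat_lit 0) (XT.lf (nat_lit 0) (nat_lit 24445467138) (nat_lit 152) (nat_lit 1127658929994) (nat_lit 0) (nat_lit 17197265491) (nat_lit 1) (nat_lit 5) (nat_lit 3) (nat_lit 4) (nat_lit 1) (nat_lit 4) (nat_lit 349) (nat_lit 251) (nat_lit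 180)) (XT.lf (nat_lit 0) (nat_lit 29499707956) (nat_lit 152) (nat_lit 1210799294408) (nat_lit 0) (nat_lit 22249222535) (nat_lit 1) (nat_lit 5) (nat_lit 3) (nat_lit 4) (nat_lit 1) (nat_lit 4) (nat_lit 350) (nat_lit 251) (nat_lit 179))))) (XT.nd (nat_lit 234) (nat_lit 0) (nat_lit 0) (XT.nd (nat_lit 78) (nat_lit 0) (nat_lit 0) (XT.lf (nat_lit 0) (nat_lit 34956081825) (nat_lit 152) (nat_lit 1300595126889) (nat_lit 0) (nat_lit 27703481798) (nat_lit 1) (nat_lit 5) (nat_lit 3) (nat_lit 4) (nat_lit 1) (nat_lit 4) (nat_lit 351) (nat_lit 251) (nat_lit 178)) (XT.nd (nat_lit 78) (nat_lit 0) (nat_lit 0) (XT.lf (nat_lit 0) (nat_lit 40846922812) (nat_lit 152) (nat_lit 1397578550889) (nat_lit 0) (nat_lit 33592364815) (nat_lit 1) (nat_lit 5) (nat_lit 3) (nat_lit 4) (nat_lit 1) (nat_lit 4) (nat_lit 352) (nat_lit 251) (nat_lit 177)) (XT.lf (nat_lit 0) (nat_lit 47207139603) (nat_lit 152) (nat_lit 1502324282994)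 (nat_lit 0) (nat_lit 39950768672) (nat_lit 1) (nat_lit 5) (nat_lit 3) (nat_lit 4) (nat_lit 1) (nat_lit 4) (nat_lit 353) (nat_lit 251) (nat_lit 176)))) (XT.nd (nat_lit 156) (nat_lit 0) (nat_lit 0) (XT.nd (nat_lit 78) (nat_lit 0) (nat_lit 0) (XT.lf (nat_lit 0) (nat_lit 54074422372) (nat_lit 152) (nat_lit 1615453038654) (nat_lit 0) (nat_lit 46816372799) (nat_lit 1) (nat_lit 5) (nat_lit 3) (nat_lit 4) (nat_lit 1) (nat_lit 4) (nat_lit 354) (nat_lit 251) (nat_lit 175)) (XT.lf (nat_lit 0) (nat_lit 61489466129) (nat_lit 152) (nat_lit 1737635210494) (nat_lit 0) (nat_lit 54229862257) (nat_lit 1) (nat_lit 5) (nat_lit 3) (nat_lit 4) (nat_lit 1) (nat_lit 4) (nat_lit 355) (nat_lit 251) (nat_lit 174))) (XT.nd (nat_lit 78) (nat_lit 0) (nat_lit 0) (XT.lf (nat_lit 0) (nat_lit 69496211874) (nat_lit 152) (nat_lit 1869594841015) (nat_lit 0) (nat_lit 62235168836) (nat_lit 1) (nat_lit 5) (nat_lit 3) (nat_lit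 4) (nat_lit 1) (nat_lit 4) (nat_lit 356) (nat_lit 251) (nat_lit 173)) (XT.lf (nat_lit 0) (nat_lit 78142106987) (nat_lit 152) (nat_lit 2012113913212) (nat_lit 0) (nat_lit 70879731390) (nat_lit 1) (nat_lit 5) (nat_lit 3) (nat_lit 4) (nat_lit 1) (nat_lit 4) (nat_lit 357) (nat_lit 251) (nat_lit 172)))))) (XT.nd (nat_lit 34242) (nat_lit 0) (nat_lit 1292) (XT.nd (nat_lit 234) (nat_lit 0) (nat_lit 0) (XT.nd (nat_lit 78) (nat_lit 0) (nat_lit 0) (XT.lf (nat_lit 0) (nat_lit 87478386405) (nat_lit 152) (nat_lit 2166036984550) (nat_lit 0) (nat_lit 80214776955) (nat_lit 1) (nat_lit 5) (nat_lit 3) (nat_lit 4) (nat_lit 1) (nat_lit 4) (nat_lit 358) (nat_lit 251) (nat_lit 171)) (XT.nd (nat_lit 78) (nat_lit 0) (nat_lit 0) (XT.lf (nat_lit 0) (nat_lit 97560376226) (nat_lit 152) (nat_lit 2332276191749) (nat_lit 0) (nat_lit 90295624320) (nat_lit 1) (nat_lit 5) (nat_lit 3) (nat_lit 4) (nat_lit 1) (nat_lit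 4) (nat_lit 359) (nat_lit 251) (nat_lit 170)) (XT.lf (nat_lit 0) (nat_lit 108447821576) (nat_lit 152) (nat_lit 2511816656036) (nat_lit 0) (nat_lit 101182011841) (nat_lit 1) (nat_lit 5) (nat_lit 3) (nat_lit 4) (nat_lit 1) (nat_lit 4) (nat_lit 360) (nat_lit 251) (nat_lit 169)))) (XT.nd (nat_lit 156) (nat_lit 0) (nat_lit 0) (XT.nd (nat_lit 78) (nat_lit 0) (nat_lit 0) (XT.lf (nat_lit 0) (nat_lit 120205240650) (nat_lit 152) (nat_lit 2705722320902) (nat_lit 0) (nat_lit 112938451442) (nat_lit 1) (nat_lit 5) (nat_lit 3) (nat_lit 4) (nat_lit 1) (nat_lit 4) (nat_lit 361) (nat_lit 251) (nat_lit 168)) (XT.lf (nat_lit 0) (nat_lit 132902307041) (nat_lit 152) (nat_lit 2915142256956) (nat_lit 0) (nat_lit 125634610915) (nat_lit 1) (nat_lit 5) (nat_lit 3) (nat_lit 4) (nat_lit 1) (nat_lit 4) (nat_lit 362) (nat_lit 251) (nat_lit 167))) (XT.nd (nat_lit 78) (nat_lit 0) (nat_lit 0) (XT.lf (nat_lit 0) (nat_lit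 146614262626) (nat_lit 152) (nat_lit 3141317471224) (nat_lit 0) (nat_lit 139345726760) (nat_lit 1) (nat_lit 5) (nat_lit 3) (nat_lit 4) (nat_lit 1) (nat_lit 4) (nat_lit 363) (nat_lit 251) (nat_lit 166)) (XT.lf (nat_lit 0) (nat_lit 161422363436) (nat_lit 152) (nat_lit 3385588261274) (nat_lit 0) (nat_lit 154153050034) (nat_lit 1) (nat_lit 5) (nat_lit 3) (nat_lit 4) (nat_lit 1) (nat_lit 4) (nat_lit 364) (nat_lit 251) (nat_lit 165))))) (XT.nd (nat_lit 234) (nat_lit 456) (nat_lit 0) (XT.nd (nat_lit 78) (nat_lit 380) (nat_lit 0) (XT.lf (nat_lit 0) (nat_lit 3375702589) (nat_lit 228) (nat_lit 455359870) (nat_lit 228) (nat_lit 455359870) (nat_lit 29) (nat_lit 4) (nat_lit 32) (nat_lit 5) (nat_lit 32) (nat_lit 4) (nat_lit 276) (nat_lit 252) (nat_lit 252)) (XT.nd (nat_lit 78) (nat_lit 152) (nat_lit 0) (XT.lf (nat_lit 0) (nat_lit 2603228349) (nat_lit 228) (nat_lit 4666236452) (nat_lit 0) (nat_lit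 1605229731) (nat_lit 26) (nat_lit 5) (nat_lit 29) (nat_lit 4) (nat_lit 26) (nat_lit 4) (nat_lit 277) (nat_lit 252) (nat_lit 251)) (XT.lf (nat_lit 0) (nat_lit 1322472710) (nat_lit 152) (nat_lit 4904489966) (nat_lit 152) (nat_lit 2982418552) (nat_lit 24) (nat_lit 4) (nat_lit 26) (nat_lit 5) (nat_lit 26) (nat_lit 4) (nat_lit 278) (nat_lit 252) (nat_lit 250)))) (XT.nd (nat_lit 156) (nat_lit 228) (nat_lit 0) (XT.nd (nat_lit 78) (nat_lit 152) (nat_lit 0) (XT.lf (nat_lit 0) (nat_lit 446431127) (nat_lit 228) (nat_lit 1849117625) (nat_lit 76) (nat_lit 7282478899) (nat_lit 23) (nat_lit 5) (nat_lit 26) (nat_lit 5) (nat_lit 24) (nat_lit 4) (nat_lit 279) (nat_lit 252) (nat_lit 249)) (XT.lf (nat_lit 0) (nat_lit 3903237386) (nat_lit 228) (nat_lit 5476453515) (nat_lit 0) (nat_lit 597739376) (nat_lit 21) (nat_lit 5) (nat_lit 24) (nat_lit 4) (nat_lit 21) (nat_lit 4) (nat_lit 280) (nat_lit 252) (nat_lit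 248))) (XT.nd (nat_lit 78) (nat_lit 76) (nat_lit 0) (XT.lf (nat_lit 0) (nat_lit 725253417) (nat_lit 152) (nat_lit 6837381604) (nat_lit 152) (nat_lit 2852662503) (nat_lit 19) (nat_lit 4) (nat_lit 21) (nat_lit 5) (nat_lit 21) (nat_lit 4) (nat_lit 281) (nat_lit 252) (nat_lit 247)) (XT.lf (nat_lit 0) (nat_lit 548158903) (nat_lit 228) (nat_lit 3473456998) (nat_lit 76) (nat_lit 6869650747) (nat_lit 18) (nat_lit 5) (nat_lit 21) (nat_lit 5) (nat_lit 19) (nat_lit 4) (nat_lit 282) (nat_lit 252) (nat_lit 246))))))) (XT.nd (nat_lit 1092) (nat_lit 304) (nat_lit 0) (XT.nd (nat_lit 546) (nat_lit 304) (nat_lit 0) (XT.nd (nat_lit 234) (nat_lit 228) (nat_lit 0) (XT.nd (nat_lit 78) (nat_lit 152) (nat_lit 0) (XT.lf (nat_lit 0) (nat_lit 3028186087) (nat_lit 76) (nat_lit 925725554) (nat_lit 152) (nat_lit 7454988626) (nat_lit 17) (nat_lit 5) (nat_lit 18) (nat_lit 5) (nat_lit 19) (nat_lit 4) (nat_lit 283)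 (nat_lit 252) (nat_lit 245)) (XT.nd (nat_lit 78) (nat_lit 152) (nat_lit 0) (XT.lf (nat_lit 0) (nat_lit 7606354586) (nat_lit 152) (nat_lit 2068047909) (nat_lit 0) (nat_lit 2296041876) (nat_lit 17) (nat_lit 5) (nat_lit 19) (nat_lit 4) (nat_lit 17) (nat_lit 4) (nat_lit 284) (nat_lit 252) (nat_lit 244)) (XT.lf (nat_lit 0) (nat_lit 4687301314) (nat_lit 152) (nat_lit 6832543718) (nat_lit 152) (nat_lit 1059964546) (nat_lit 15) (nat_lit 4) (nat_lit 17) (nat_lit 5) (nat_lit 17) (nat_lit 4) (nat_lit 285) (nat_lit 252) (nat_lit 243)))) (XT.nd (nat_lit 156) (nat_lit 76) (nat_lit 0) (XT.nd (nat_lit 78) (nat_lit 76) (nat_lit 0) (XT.lf (nat_lit 0) (nat_lit 2274579463) (nat_lit 228) (nat_lit 1469478389) (nat_lit 76) (nat_lit 9498061774) (nat_lit 14) (nat_lit 5) (nat_lit 17) (nat_lit 5) (nat_lit 15) (nat_lit 4) (nat_lit 286) (nat_lit 252) (nat_lit 242)) (XT.lf (nat_lit 0) (nat_lit 5458306941) (nat_lit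 76) (nat_lit 337476518) (nat_lit 152) (nat_lit 8161577615) (nat_lit 13) (nat_lit 5) (nat_lit 14) (nat_lit 5) (nat_lit 15) (nat_lit 4) (nat_lit 287) (nat_lit 252) (nat_lit 241))) (XT.nd (nat_lit 78) (nat_lit 76) (nat_lit 0) (XT.lf (nat_lit 0) (nat_lit 9569216083) (nat_lit 152) (nat_lit 2042086685) (nat_lit 0) (nat_lit 3121174716) (nat_lit 13) (nat_lit 5) (nat_lit 15) (nat_lit 4) (nat_lit 13) (nat_lit 4) (nat_lit 288) (nat_lit 252) (nat_lit 240)) (XT.lf (nat_lit 0) (nat_lit 4930467419) (nat_lit 76) (nat_lit 8701532957) (nat_lit 76) (nat_lit 1938880804) (nat_lit 12) (nat_lit 4) (nat_lit 13) (nat_lit 5) (nat_lit 13) (nat_lit 4) (nat_lit 289) (nat_lit 252) (nat_lit 239))))) (XT.nd (nat_lit 234) (nat_lit 152) (nat_lit 0) (XT.nd (nat_lit 78) (nat_lit 76) (nat_lit 0) (XT.lf (nat_lit 0) (nat_lit 1384668209) (nat_lit 152) (nat_lit 4173848561) (nat_lit 76) (nat_lit 10921633336) (nat_lit 11) (nat_lit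 5) (nat_lit 13) (nat_lit 5) (nat_lit 12) (nat_lit 4) (nat_lit 290) (nat_lit 252) (nat_lit 238)) (XT.nd (nat_lit 78) (nat_lit 0) (nat_lit 0) (XT.lf (nat_lit 0) (nat_lit 2670737019) (nat_lit 76) (nat_lit 2134274276) (nat_lit 152) (nat_lit 12658486810) (nat_lit 10) (nat_lit 5) (nat_lit 11) (nat_lit 5) (nat_lit 12) (nat_lit 4) (nat_lit 291) (nat_lit 252) (nat_lit 237)) (XT.lf (nat_lit 0) (nat_lit 8527186120) (nat_lit 152) (nat_lit 8481527832) (nat_lit 0) (nat_lit 1514746618) (nat_lit 10) (nat_lit 5) (nat_lit 12) (nat_lit 4) (nat_lit 10) (nat_lit 4) (nat_lit 292) (nat_lit 252) (nat_lit 236)))) (XT.nd (nat_lit 156) (nat_lit 76) (nat_lit 0) (XT.nd (nat_lit 78) (nat_lit 76) (nat_lit 0) (XT.lf (nat_lit 0) (nat_lit 12485448118) (nat_lit 152) (nat_lit 1929004994) (nat_lit 0) (nat_lit 5258889801) (nat_lit 10) (nat_lit 5) (nat_lit 12) (nat_lit 4) (nat_lit 10) (nat_lit 4) (nat_lit 293) (nat_lit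 252) (nat_lit 235)) (XT.lf (nat_lit 0) (nat_lit 5215886298) (nat_lit 76) (nat_lit 11561480201) (nat_lit 76) (nat_lit 4136663723) (nat_lit 9) (nat_lit 4) (nat_lit 10) (nat_lit 5) (nat_lit 10) (nat_lit 4) (nat_lit 294) (nat_lit 252) (nat_lit 234))) (XT.nd (nat_lit 78) (nat_lit 76) (nat_lit 0) (XT.lf (nat_lit 0) (nat_lit 12854199813) (nat_lit 76) (nat_lit 8506248924) (nat_lit 76) (nat_lit 897860074) (nat_lit 9) (nat_lit 4) (nat_lit 10) (nat_lit 5) (nat_lit 10) (nat_lit 4) (nat_lit 295) (nat_lit 252) (nat_lit 233)) (XT.lf (nat_lit 0) (nat_lit 2370158311) (nat_lit 152) (nat_lit 2848433981) (nat_lit 76) (nat_lit 18494659006) (nat_lit 8) (nat_lit 5) (nat_lit 10) (nat_lit 5) (nat_lit 9) (nat_lit 4) (nat_lit 296) (nat_lit 252) (nat_lit 232)))))) (XT.nd (nat_lit 546) (nat_lit 152) (nat_lit 0) (XT.nd (nat_lit 234) (nat_lit 76) (nat_lit 0) (XT.nd (nat_lit 78) (nat_lit 0) (nat_lit 0) (XT.lf (nat_lit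 0) (nat_lit 4255168568) (nat_lit 76) (nat_lit 1605848526) (nat_lit 152) (nat_lit 19421041776) (nat_lit 7) (nat_lit 5) (nat_lit 8) (nat_lit 5) (nat_lit 9) (nat_lit 4) (nat_lit 297) (nat_lit 252) (nat_lit 231)) (XT.nd (nat_lit 78) (nat_lit 0) (nat_lit 0) (XT.lf (nat_lit 0) (nat_lit 9675048315) (nat_lit 152) (nat_lit 15105725603) (nat_lit 0) (nat_lit 2192203263) (nat_lit 7) (nat_lit 5) (nat_lit 9) (nat_lit 4) (nat_lit 7) (nat_lit 4) (nat_lit 298) (nat_lit 252) (nat_lit 230)) (XT.lf (nat_lit 0) (nat_lit 13751452021) (nat_lit 152) (nat_lit 8907575898) (nat_lit 0) (nat_lit 6143670696) (nat_lit 7) (nat_lit 5) (nat_lit 9) (nat_lit 4) (nat_lit 7) (nat_lit 4) (nat_lit 299) (nat_lit 252) (nat_lit 229)))) (XT.nd (nat_lit 156) (nat_lit 0) (nat_lit 0) (XT.nd (nat_lit 78) (nat_lit 76) (nat_lit 0) (XT.lf (nat_lit 0) (nat_lit 18075763982) (nat_lit 152) (nat_lit 2357090718) (nat_lit 0) (nat_lit 10352300924)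 (nat_lit 7) (nat_lit 5) (nat_lit 9) (nat_lit 4) (nat_lit 7) (nat_lit 4) (nat_lit 300) (nat_lit 252) (nat_lit 228)) (XT.lf (nat_lit 0) (nat_lit 4825961782) (nat_lit 76) (nat_lit 17963712465) (nat_lit 76) (nat_lit 10133136692) (nat_lit 6) (nat_lit 4) (nat_lit 7) (nat_lit 5) (nat_lit 7) (nat_lit 4) (nat_lit 301) (nat_lit 252) (nat_lit 227))) (XT.nd (nat_lit 78) (nat_lit 0) (nat_lit 0) (XT.lf (nat_lit 0) (nat_lit 12588186866) (nat_lit 76) (nat_lit 15286795152) (nat_lit 76) (nat_lit 7357040938) (nat_lit 6) (nat_lit 4) (nat_lit 7) (nat_lit 5) (nat_lit 7) (nat_lit 4) (nat_lit 302) (nat_lit 252) (nat_lit 226)) (XT.lf (nat_lit 0) (nat_lit 20851462684) (nat_lit 76) (nat_lit 12450686583) (nat_lit 76) (nat_lit 4429100480) (nat_lit 6) (nat_lit 4) (nat_lit 7) (nat_lit 5) (nat_lit 7) (nat_lit 4) (nat_lit 303) (nat_lit 252) (nat_lit 225))))) (XT.nd (nat_lit 312) (nat_lit 0) (nat_lit 0) (XT.nd (nat_lit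 156) (nat_lit 76) (nat_lit 0) (XT.nd (nat_lit 78) (nat_lit 76) (nat_lit 0) (XT.lf (nat_lit 0) (nat_lit 29664756797) (nat_lit 76) (nat_lit 9438580190) (nat_lit 76) (nat_lit 1331964559) (nat_lit 6) (nat_lit 4) (nat_lit 7) (nat_lit 5) (nat_lit 7) (nat_lit 4) (nat_lit 304) (nat_lit 252) (nat_lit 224)) (XT.lf (nat_lit 0) (nat_lit 1855037247) (nat_lit 152) (nat_lit 4326869200) (nat_lit 76) (nat_lit 37174538879) (nat_lit 5) (nat_lit 5) (nat_lit 7) (nat_lit 5) (nat_lit 6) (nat_lit 4) (nat_lit 305) (nat_lit 252) (nat_lit 223))) (XT.nd (nat_lit 78) (nat_lit 0) (nat_lit 0) (XT.lf (nat_lit 0) (nat_lit 2631280437) (nat_lit 76) (nat_lit 2604068709) (nat_lit 152) (nat_lit 41272398137) (nat_lit 4) (nat_lit 5) (nat_lit 5) (nat_lit 5) (nat_lit 6) (nat_lit 4) (nat_lit 306) (nat_lit 252) (nat_lit 222)) (XT.lf (nat_lit 0) (nat_lit 8985356182) (nat_lit 152) (nat_lit 39641577397) (nat_lit 0) (nat_lit 1276333062)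 (nat_lit 4) (nat_lit 5) (nat_lit 6) (nat_lit 4) (nat_lit 4) (nat_lit 4) (nat_lit 307) (nat_lit 252) (nat_lit 221)))) (XT.nd (nat_lit 156) (nat_lit 0) (nat_lit 0) (XT.nd (nat_lit 78) (nat_lit 0) (nat_lit 0) (XT.lf (nat_lit 0) (nat_lit 13054474276) (nat_lit 152) (nat_lit 35226893733) (nat_lit 0) (nat_lit 5287581490) (nat_lit 4) (nat_lit 5) (nat_lit 6) (nat_lit 4) (nat_lit 4) (nat_lit 4) (nat_lit 308) (nat_lit 252) (nat_lit 220)) (XT.lf (nat_lit 0) (nat_lit 17404188809) (nat_lit 152) (nat_lit 30543626852) (nat_lit 0) (nat_lit 9583712997) (nat_lit 4) (nat_lit 5) (nat_lit 6) (nat_lit 4) (nat_lit 4) (nat_lit 4) (nat_lit 309) (nat_lit 252) (nat_lit 219))) (XT.nd (nat_lit 78) (nat_lit 0) (nat_lit 0) (XT.lf (nat_lit 0) (nat_lit 22060275865) (nat_lit 152) (nat_lit 25564024062) (nat_lit 0) (nat_lit 14190186140) (nat_lit 4) (nat_lit 5) (nat_lit 6) (nat_lit 4) (nat_lit 4) (nat_lit 4) (nat_lit 310)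 (nat_lit 252) (nat_lit 218)) (XT.lf (nat_lit 0) (nat_lit 27050327072) (nat_lit 152) (nat_lit 20258576604) (nat_lit 0) (nat_lit 19134298539) (nat_lit 4) (nat_lit 5) (nat_lit 6) (nat_lit 4) (nat_lit 4) (nat_lit 4) (nat_lit 311) (nat_lit 252) (nat_lit 217))))))))
noncomputable def xc36 : XT := (XT.nd (nat_lit 2184) (nat_lit 152) (nat_lit 0) (XT.nd (nat_lit 1092) (nat_lit 0) (nat_lit 0) (XT.nd (nat_lit 546) (nat_lit 0) (nat_lit 0) (XT.nd (nat_lit 234) (nat_lit 76) (nat_lit 0) (XT.nd (nat_lit 78) (nat_lit 0) (nat_lit 0) (XT.lf (nat_lit 0) (nat_lit 32403913103) (nat_lit 152) (nat_lit 14595844791) (nat_lit 0) (nat_lit 24445348637) (nat_lit 4) (nat_lit 5) (nat_lit 6) (nat_lit 4) (nat_lit 4) (nat_lit 4) (nat_lit 312) (nat_lit 252) (nat_lit 216)) (XT.nd (nat_lit 78) (nat_lit 0) (nat_lit 0) (XT.lf (nat_lit 0) (nat_lit 38152758914) (nat_lit 152) (nat_lit 8542271692) (nat_lit 0) (nat_lit 30154809324)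 (nat_lit 4) (nat_lit 5) (nat_lit 6) (nat_lit 4) (nat_lit 4) (nat_lit 4) (nat_lit 313) (nat_lit 252) (nat_lit 215)) (XT.lf (nat_lit 0) (nat_lit 44330931737) (nat_lit 152) (nat_lit 2061984283) (nat_lit 0) (nat_lit 36296514441) (nat_lit 4) (nat_lit 5) (nat_lit 6) (nat_lit 4) (nat_lit 4) (nat_lit 4) (nat_lit 314) (nat_lit 252) (nat_lit 214)))) (XT.nd (nat_lit 156) (nat_lit 0) (nat_lit 0) (XT.nd (nat_lit 78) (nat_lit 0) (nat_lit 0) (XT.lf (nat_lit 0) (nat_lit 5140571336) (nat_lit 76) (nat_lit 45958102496) (nat_lit 76) (nat_lit 37889918804) (nat_lit 3) (nat_lit 4) (nat_lit 4) (nat_lit 5) (nat_lit 4) (nat_lit 4) (nat_lit 315) (nat_lit 252) (nat_lit 213)) (XT.lf (nat_lit 0) (nat_lit 12984640844) (nat_lit 76) (nat_lit 45452105197) (nat_lit 76) (nat_lit 37352656325) (nat_lit 3) (nat_lit 4) (nat_lit 4) (nat_lit 5) (nat_lit 4) (nat_lit 4) (nat_lit 316) (nat_lit 252) (nat_lit 212))) (XT.nd (nat_lit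 78) (nat_lit 0) (nat_lit 0) (XT.lf (nat_lit 0) (nat_lit 21408127177) (nat_lit 76) (nat_lit 44928303928) (nat_lit 76) (nat_lit 36799905815) (nat_lit 3) (nat_lit 4) (nat_lit 4) (nat_lit 5) (nat_lit 4) (nat_lit 4) (nat_lit 317) (nat_lit 252) (nat_lit 211)) (XT.lf (nat_lit 0) (nat_lit 30460947291) (nat_lit 76) (nat_lit 44383594680) (nat_lit 76) (nat_lit 36228391714) (nat_lit 3) (nat_lit 4) (nat_lit 4) (nat_lit 5) (nat_lit 4) (nat_lit 4) (nat_lit 318) (nat_lit 252) (nat_lit 210))))) (XT.nd (nat_lit 234) (nat_lit 0) (nat_lit 0) (XT.nd (nat_lit 78) (nat_lit 0) (nat_lit 0) (XT.lf (nat_lit 0) (nat_lit 40196747526) (nat_lit 76) (nat_lit 43814749547) (nat_lit 76) (nat_lit 35634727272) (nat_lit 3) (nat_lit 4) (nat_lit 4) (nat_lit 5) (nat_lit 4) (nat_lit 4) (nat_lit 319) (nat_lit 252) (nat_lit 209)) (XT.nd (nat_lit 78) (nat_lit 0) (nat_lit 0) (XT.lf (nat_lit 0) (nat_lit 50673221514) (nat_lit 76)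 (nat_lit 43218397594) (nat_lit 76) (nat_lit 35015394478) (nat_lit 3) (nat_lit 4) (nat_lit 4) (nat_lit 5) (nat_lit 4) (nat_lit 4) (nat_lit 320) (nat_lit 252) (nat_lit 208)) (XT.lf (nat_lit 0) (nat_lit 61952452064) (nat_lit 76) (nat_lit 42591004884) (nat_lit 76) (nat_lit 34366723212) (nat_lit 3) (nat_lit 4) (nat_lit 4) (nat_lit 5) (nat_lit 4) (nat_lit 4) (nat_lit 321) (nat_lit 252) (nat_lit 207)))) (XT.nd (nat_lit 156) (nat_lit 0) (nat_lit 0) (XT.nd (nat_lit 78) (nat_lit 0) (nat_lit 0) (XT.lf (nat_lit 0) (nat_lit 74101279061) (nat_lit 76) (nat_lit 41928853535) (nat_lit 76) (nat_lit 33684869495) (nat_lit 3) (nat_lit 4) (nat_lit 4) (nat_lit 5) (nat_lit 4) (nat_lit 4) (nat_lit 322) (nat_lit 252) (nat_lit 206)) (XT.lf (nat_lit 0) (nat_lit 87191695552) (nat_lit 76) (nat_lit 41228019686) (nat_lit 76) (nat_lit 32965792713) (nat_lit 3) (nat_lit 4) (nat_lit 4) (nat_lit 5) (nat_lit 4) (nat_lit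 4) (nat_lit 323) (nat_lit 252) (nat_lit 205))) (XT.nd (nat_lit 78) (nat_lit 0) (nat_lit 0) (XT.lf (nat_lit 0) (nat_lit 101301274378) (nat_lit 76) (nat_lit 40484350248) (nat_lit 76) (nat_lit 32205231671) (nat_lit 3) (nat_lit 4) (nat_lit 4) (nat_lit 5) (nat_lit 4) (nat_lit 4) (nat_lit 324) (nat_lit 252) (nat_lit 204)) (XT.lf (nat_lit 0) (nat_lit 116513627857) (nat_lit 76) (nat_lit 39693438292) (nat_lit 76) (nat_lit 31398679340) (nat_lit 3) (nat_lit 4) (nat_lit 4) (nat_lit 5) (nat_lit 4) (nat_lit 4) (nat_lit 325) (nat_lit 252) (nat_lit 203)))))) (XT.nd (nat_lit 546) (nat_lit 0) (nat_lit 0) (XT.nd (nat_lit 234) (nat_lit 0) (nat_lit 0) (XT.nd (nat_lit 78) (nat_lit 0) (nat_lit 0) (XT.lf (nat_lit 0) (nat_lit 132918903268) (nat_lit 76) (nat_lit 38850596930) (nat_lit 76) (nat_lit 30541356151) (nat_lit 3) (nat_lit 4) (nat_lit 4) (nat_lit 5) (nat_lit 4) (nat_lit 4) (nat_lit 326) (nat_lit 252)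 (nat_lit 202)) (XT.nd (nat_lit 78) (nat_lit 0) (nat_lit 0) (XT.lf (nat_lit 0) (nat_lit 150614317059) (nat_lit 76) (nat_lit 37950831549) (nat_lit 76) (nat_lit 29628181669) (nat_lit 3) (nat_lit 4) (nat_lit 4) (nat_lit 5) (nat_lit 4) (nat_lit 4) (nat_lit 327) (nat_lit 252) (nat_lit 201)) (XT.lf (nat_lit 0) (nat_lit 169704730940) (nat_lit 76) (nat_lit 36988810204) (nat_lit 76) (nat_lit 28653744491) (nat_lit 3) (nat_lit 4) (nat_lit 4) (nat_lit 5) (nat_lit 4) (nat_lit 4) (nat_lit 328) (nat_lit 252) (nat_lit 200)))) (XT.nd (nat_lit 156) (nat_lit 0) (nat_lit 0) (XT.nd (nat_lit 78) (nat_lit 0) (nat_lit 0) (XT.lf (nat_lit 0) (nat_lit 190303273292) (nat_lit 76) (nat_lit 35958832029) (nat_lit 76) (nat_lit 27612270174) (nat_lit 3) (nat_lit 4) (nat_lit 4) (nat_lit 5) (nat_lit 4) (nat_lit 4) (nat_lit 329) (nat_lit 252) (nat_lit 199)) (XT.lf (nat_lit 0) (nat_lit 212532009549) (nat_lit 76) (nat_lit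 34854793449) (nat_lit 76) (nat_lit 26497587018) (nat_lit 3) (nat_lit 4) (nat_lit 4) (nat_lit 5) (nat_lit 4) (nat_lit 4) (nat_lit 330) (nat_lit 252) (nat_lit 198))) (XT.nd (nat_lit 78) (nat_lit 0) (nat_lit 0) (XT.lf (nat_lit 0) (nat_lit 236522665556) (nat_lit 76) (nat_lit 33670152014) (nat_lit 76) (nat_lit 25303089494) (nat_lit 3) (nat_lit 4) (nat_lit 4) (nat_lit 5) (nat_lit 4) (nat_lit 4) (nat_lit 331) (nat_lit 252) (nat_lit 197)) (XT.lf (nat_lit 0) (nat_lit 262417408163) (nat_lit 76) (nat_lit 32397887626) (nat_lit 76) (nat_lit 24021699098) (nat_lit 3) (nat_lit 4) (nat_lit 4) (nat_lit 5) (nat_lit 4) (nat_lit 4) (nat_lit 332) (nat_lit 252) (nat_lit 196))))) (XT.nd (nat_lit 234) (nat_lit 0) (nat_lit 0) (XT.nd (nat_lit 78) (nat_lit 0) (nat_lit 0) (XT.lf (nat_lit 0) (nat_lit 290369687698) (nat_lit 76) (nat_lit 31030460940) (nat_lit 76) (nat_lit 22645822405) (nat_lit 3) (nat_lit 4) (nat_lit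 4) (nat_lit 5) (nat_lit 4) (nat_lit 4) (nat_lit 333) (nat_lit 252) (nat_lit 195)) (XT.nd (nat_lit 78) (nat_lit 0) (nat_lit 0) (XT.lf (nat_lit 0) (nat_lit 320545147297) (nat_lit 76) (nat_lit 29559768688) (nat_lit 76) (nat_lit 21167306071) (nat_lit 3) (nat_lit 4) (nat_lit 4) (nat_lit 5) (nat_lit 4) (nat_lit 4) (nat_lit 334) (nat_lit 252) (nat_lit 194)) (XT.lf (nat_lit 0) (nat_lit 353122604501) (nat_lit 76) (nat_lit 27977095655) (nat_lit 76) (nat_lit 19577388519) (nat_lit 3) (nat_lit 4) (nat_lit 4) (nat_lit 5) (nat_lit 4) (nat_lit 4) (nat_lit 335) (nat_lit 252) (nat_lit 193)))) (XT.nd (nat_lit 156) (nat_lit 0) (nat_lit 0) (XT.nd (nat_lit 78) (nat_lit 0) (nat_lit 0) (XT.lf (nat_lit 0) (nat_lit 388295110906) (nat_lit 76) (nat_lit 26273063040) (nat_lit 76) (nat_lit 17866648015) (nat_lit 3) (nat_lit 4) (nat_lit 4) (nat_lit 5) (nat_lit 4) (nat_lit 4) (nat_lit 336) (nat_lit 252) (nat_lit 192))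 (XT.lf (nat_lit 0) (nat_lit 426271096180) (nat_lit 76) (nat_lit 24437572870) (nat_lit 76) (nat_lit 16024946837) (nat_lit 3) (nat_lit 4) (nat_lit 4) (nat_lit 5) (nat_lit 4) (nat_lit 4) (nat_lit 337) (nat_lit 252) (nat_lit 191))) (XT.nd (nat_lit 78) (nat_lit 0) (nat_lit 0) (XT.lf (nat_lit 0) (nat_lit 467275603199) (nat_lit 76) (nat_lit 22459748167) (nat_lit 76) (nat_lit 14041371201) (nat_lit 3) (nat_lit 4) (nat_lit 4) (nat_lit 5) (nat_lit 4) (nat_lit 4) (nat_lit 338) (nat_lit 252) (nat_lit 190)) (XT.lf (nat_lit 0) (nat_lit 511551621634) (nat_lit 76) (nat_lit 20327868488) (nat_lit 76) (nat_lit 11904166584) (nat_lit 3) (nat_lit 4) (nat_lit 4) (nat_lit 5) (nat_lit 4) (nat_lit 4) (nat_lit 339) (nat_lit 252) (nat_lit 189))))))) (XT.nd (nat_lit 1092) (nat_lit 0) (nat_lit 0) (XT.nd (nat_lit 546) (nat_lit 0) (nat_lit 0) (XT.nd (nat_lit 234) (nat_lit 152) (nat_lit 0) (XT.nd (nat_lit 78) (nat_lit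 0) (nat_lit 0) (XT.lf (nat_lit 0) (nat_lit 559361527891) (nat_lit 76) (nat_lit 18029300472) (nat_lit 76) (nat_lit 9600668070) (nat_lit 3) (nat_lit 4) (nat_lit 4) (nat_lit 5) (nat_lit 4) (nat_lit 4) (nat_lit 340) (nat_lit 252) (nat_lit 188)) (XT.nd (nat_lit 78) (nat_lit 0) (nat_lit 0) (XT.lf (nat_lit 0) (nat_lit 610988639933) (nat_lit 76) (nat_lit 15550422976) (nat_lit 76) (nat_lit 7117225297) (nat_lit 3) (nat_lit 4) (nat_lit 4) (nat_lit 5) (nat_lit 4) (nat_lit 4) (nat_lit 341) (nat_lit 252) (nat_lit 187)) (XT.lf (nat_lit 0) (nat_lit 666738896201) (nat_lit 76) (nat_lit 12876546355) (nat_lit 76) (nat_lit 4439121569) (nat_lit 3) (nat_lit 4) (nat_lit 4) (nat_lit 5) (nat_lit 4) (nat_lit 4) (nat_lit 342) (nat_lit 252) (nat_lit 186)))) (XT.nd (nat_lit 156) (nat_lit 76) (nat_lit 0) (XT.nd (nat_lit 78) (nat_lit 76) (nat_lit 0) (XT.lf (nat_lit 0) (nat_lit 726942668585) (nat_lit 76) (nat_lit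 9991825414) (nat_lit 76) (nat_lit 1550486639) (nat_lit 3) (nat_lit 4) (nat_lit 4) (nat_lit 5) (nat_lit 4) (nat_lit 4) (nat_lit 343) (nat_lit 252) (nat_lit 185)) (XT.lf (nat_lit 0) (nat_lit 1487469803) (nat_lit 152) (nat_lit 5351025646) (nat_lit 76) (nat_lit 790428580316) (nat_lit 2) (nat_lit 5) (nat_lit 4) (nat_lit 5) (nat_lit 3) (nat_lit 4) (nat_lit 344) (nat_lit 252) (nat_lit 184))) (XT.nd (nat_lit 78) (nat_lit 0) (nat_lit 0) (XT.lf (nat_lit 0) (nat_lit 1357458245) (nat_lit 76) (nat_lit 3356857474) (nat_lit 152) (nat_lit 856031834160) (nat_lit 1) (nat_lit 5) (nat_lit 2) (nat_lit 5) (nat_lit 3) (nat_lit 4) (nat_lit 345) (nat_lit 252) (nat_lit 183)) (XT.lf (nat_lit 0) (nat_lit 8356114123) (nat_lit 152) (nat_lit 920404173799) (nat_lit 0) (nat_lit 530720139) (nat_lit 1) (nat_lit 5) (nat_lit 3) (nat_lit 4) (nat_lit 1) (nat_lit 4) (nat_lit 346) (nat_lit 252) (nat_lit 182))))) (XT.nd (nat_lit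 234) (nat_lit 0) (nat_lit 0) (XT.nd (nat_lit 78) (nat_lit 0) (nat_lit 0) (XT.lf (nat_lit 0) (nat_lit 12373668306) (nat_lit 152) (nat_lit 986393425450) (nat_lit 0) (nat_lit 4545610527) (nat_lit 1) (nat_lit 5) (nat_lit 3) (nat_lit 4) (nat_lit 1) (nat_lit 4) (nat_lit 347) (nat_lit 252) (nat_lit 181)) (XT.nd (nat_lit 78) (nat_lit 0) (nat_lit 0) (XT.lf (nat_lit 0) (nat_lit 16710053494) (nat_lit 152) (nat_lit 1057666761502) (nat_lit 0) (nat_lit 8879529239) (nat_lit 1) (nat_lit 5) (nat_lit 3) (nat_lit 4) (nat_lit 1) (nat_lit 4) (nat_lit 348) (nat_lit 252) (nat_lit 180)) (XT.lf (nat_lit 0) (nat_lit 21390966785) (nat_lit 152) (nat_lit 1134646542466) (nat_lit 0) (nat_lit 13558158754) (nat_lit 1) (nat_lit 5) (nat_lit 3) (nat_lit 4) (nat_lit 1) (nat_lit 4) (nat_lit 349) (nat_lit 252) (nat_lit 179)))) (XT.nd (nat_lit 156) (nat_lit 0) (nat_lit 0) (XT.nd (nat_lit 78) (nat_lit 0) (nat_lit 0) (XT.lf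 (nat_lit 0) (nat_lit 26444146923) (nat_lit 152) (nat_lit 1217788944819) (nat_lit 0) (nat_lit 18609224287) (nat_lit 1) (nat_lit 5) (nat_lit 3) (nat_lit 4) (nat_lit 1) (nat_lit 4) (nat_lit 350) (nat_lit 252) (nat_lit 178)) (XT.lf (nat_lit 0) (nat_lit 31899538680) (nat_lit 152) (nat_lit 1307586664281) (nat_lit 0) (nat_lit 24062658075) (nat_lit 1) (nat_lit 5) (nat_lit 3) (nat_lit 4) (nat_lit 1) (nat_lit 4) (nat_lit 351) (nat_lit 252) (nat_lit 177))) (XT.nd (nat_lit 78) (nat_lit 0) (nat_lit 0) (XT.lf (nat_lit 0) (nat_lit 37789470304) (nat_lit 152) (nat_lit 1404571835485) (nat_lit 0) (nat_lit 29950776765) (nat_lit 1) (nat_lit 5) (nat_lit 3) (nat_lit 4) (nat_lit 1) (nat_lit 4) (nat_lit 352) (nat_lit 252) (nat_lit 176)) (XT.lf (nat_lit 0) (nat_lit 44148845093) (nat_lit 152) (nat_lit 1509319185372) (nat_lit 0) (nat_lit 36308472911) (nat_lit 1) (nat_lit 5) (nat_lit 3) (nat_lit 4) (nat_lit 1)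 (nat_lit 4) (nat_lit 353) (nat_lit 252) (nat_lit 175)))))) (XT.nd (nat_lit 546) (nat_lit 0) (nat_lit 0) (XT.nd (nat_lit 234) (nat_lit 0) (nat_lit 0) (XT.nd (nat_lit 78) (nat_lit 0) (nat_lit 0) (XT.lf (nat_lit 0) (nat_lit 51015348230) (nat_lit 152) (nat_lit 1622449438978) (nat_lit 0) (nat_lit 43173421750) (nat_lit 1) (nat_lit 5) (nat_lit 3) (nat_lit 4) (nat_lit 1) (nat_lit 4) (nat_lit 354) (nat_lit 252) (nat_lit 174)) (XT.nd (nat_lit 78) (nat_lit 0) (nat_lit 0) (XT.lf (nat_lit 0) (nat_lit 58429670106) (nat_lit 152) (nat_lit 1744632997805) (nat_lit 0) (nat_lit 50586304460) (nat_lit 1) (nat_lit 5) (nat_lit 3) (nat_lit 4) (nat_lit 1) (nat_lit 4) (nat_lit 355) (nat_lit 252) (nat_lit 173)) (XT.lf (nat_lit 0) (nat_lit 66435747442) (nat_lit 152) (nat_lit 1876593912574) (nat_lit 0) (nat_lit 58591049235) (nat_lit 1) (nat_lit 5) (nat_lit 3) (nat_lit 4) (nat_lit 1) (nat_lit 4) (nat_lit 356) (nat_lit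 252) (nat_lit 172)))) (XT.nd (nat_lit 156) (nat_lit 0) (nat_lit 0) (XT.nd (nat_lit 78) (nat_lit 0) (nat_lit 0) (XT.lf (nat_lit 0) (nat_lit 75081023659) (nat_lit 152) (nat_lit 2019114173889) (nat_lit 0) (nat_lit 67235091600) (nat_lit 1) (nat_lit 5) (nat_lit 3) (nat_lit 4) (nat_lit 1) (nat_lit 4) (nat_lit 357) (nat_lit 252) (nat_lit 171)) (XT.lf (nat_lit 0) (nat_lit 84416730023) (nat_lit 152) (nat_lit 2173038346263) (nat_lit 0) (nat_lit 76569655509) (nat_lit 1) (nat_lit 5) (nat_lit 3) (nat_lit 4) (nat_lit 1) (nat_lit 4) (nat_lit 358) (nat_lit 252) (nat_lit 170))) (XT.nd (nat_lit 78) (nat_lit 0) (nat_lit 0) (XT.lf (nat_lit 0) (nat_lit 94498189241) (nat_lit 152) (nat_lit 2339278572938) (nat_lit 0) (nat_lit 86650056896) (nat_lit 1) (nat_lit 5) (nat_lit 3) (nat_lit 4) (nat_lit 1) (nat_lit 4) (nat_lit 359) (nat_lit 252) (nat_lit 169)) (XT.lf (nat_lit 0) (nat_lit 105385143290) (nat_lit 152)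 (nat_lit 2518819981185) (nat_lit 0) (nat_lit 97536031474) (nat_lit 1) (nat_lit 5) (nat_lit 3) (nat_lit 4) (nat_lit 1) (nat_lit 4) (nat_lit 360) (nat_lit 252) (nat_lit 168))))) (XT.nd (nat_lit 234) (nat_lit 0) (nat_lit 0) (XT.nd (nat_lit 78) (nat_lit 0) (nat_lit 0) (XT.lf (nat_lit 0) (nat_lit 117142107456) (nat_lit 152) (nat_lit 2712726520089) (nat_lit 0) (nat_lit 109292088722) (nat_lit 1) (nat_lit 5) (nat_lit 3) (nat_lit 4) (nat_lit 1) (nat_lit 4) (nat_lit 361) (nat_lit 252) (nat_lit 167)) (XT.nd (nat_lit 78) (nat_lit 0) (nat_lit 0) (XT.lf (nat_lit 0) (nat_lit 129838752637) (nat_lit 152) (nat_lit 2922147265436) (nat_lit 0) (nat_lit 121987894163) (nat_lit 1) (nat_lit 5) (nat_lit 3) (nat_lit 4) (nat_lit 1) (nat_lit 4) (nat_lit 362) (nat_lit 252) (nat_lit 166)) (XT.lf (nat_lit 0) (nat_lit 143550318211) (nat_lit 152) (nat_lit 3148323229051) (nat_lit 0) (nat_lit 135698682201) (nat_lit 1)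 (nat_lit 5) (nat_lit 3) (nat_lit 4) (nat_lit 1) (nat_lit 4) (nat_lit 363) (nat_lit 252) (nat_lit 165)))) (XT.nd (nat_lit 33696) (nat_lit 0) (nat_lit 2052) (XT.nd (nat_lit 33618) (nat_lit 0) (nat_lit 2356) (XT.lf (nat_lit 0) (nat_lit 158358057901) (nat_lit 152) (nat_lit 3392594712939) (nat_lit 0) (nat_lit 150505701950) (nat_lit 1) (nat_lit 5) (nat_lit 3) (nat_lit 4) (nat_lit 1) (nat_lit 4) (nat_lit 364) (nat_lit 252) (nat_lit 164)) (XT.lf (nat_lit 0) (nat_lit 808413210) (nat_lit 304) (nat_lit 2402863976) (nat_lit 0) (nat_lit 808413210) (nat_lit 32) (nat_lit 5) (nat_lit 36) (nat_lit 4) (nat_lit 32) (nat_lit 4) (nat_lit 274) (nat_lit 253) (nat_lit 253))) (XT.nd (nat_lit 78) (nat_lit 76) (nat_lit 0) (XT.lf (nat_lit 0) (nat_lit 694135719) (nat_lit 228) (nat_lit 4383002888) (nat_lit 228) (nat_lit 3218937300) (nat_lit 29) (nat_lit 4) (nat_lit 32) (nat_lit 5) (nat_lit 32) (nat_lit 4) (nat_lit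 275) (nat_lit 253) (nat_lit 252)) (XT.lf (nat_lit 0) (nat_lit 126735002) (nat_lit 304) (nat_lit 1978295291) (nat_lit 76) (nat_lit 6476863059) (nat_lit 28) (nat_lit 5) (nat_lit 32) (nat_lit 5) (nat_lit 29) (nat_lit 4) (nat_lit 276) (nat_lit 253) (nat_lit 251))))))))
noncomputable def xc37 : XT := (XT.nd (nat_lit 2184) (nat_lit 228) (nat_lit 0) (XT.nd (nat_lit 1092) (nat_lit 380) (nat_lit 0) (XT.nd (nat_lit 546) (nat_lit 456) (nat_lit 0) (XT.nd (nat_lit 234) (nat_lit 456) (nat_lit 0) (XT.nd (nat_lit 78) (nat_lit 228) (nat_lit 0) (XT.lf (nat_lit 0) (nat_lit 3452384283) (nat_lit 228) (nat_lit 4988941565) (nat_lit 0) (nat_lit 452474362) (nat_lit 26) (nat_lit 5) (nat_lit 29) (nat_lit 4) (nat_lit 26) (nat_lit 4) (nat_lit 277) (nat_lit 253) (nat_lit 250)) (XT.nd (nat_lit 78) (nat_lit 76) (nat_lit 0) (XT.lf (nat_lit 0) (nat_lit 831555593) (nat_lit 152) (nat_lit 6130956869) (nat_lit 152) (nat_lit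 2275423989) (nat_lit 24) (nat_lit 4) (nat_lit 26) (nat_lit 5) (nat_lit 26) (nat_lit 4) (nat_lit 278) (nat_lit 253) (nat_lit 249)) (XT.lf (nat_lit 0) (nat_lit 1017579331) (nat_lit 228) (nat_lit 2531211350) (nat_lit 76) (nat_lit 6064779851) (nat_lit 23) (nat_lit 5) (nat_lit 26) (nat_lit 5) (nat_lit 24) (nat_lit 4) (nat_lit 279) (nat_lit 253) (nat_lit 248)))) (XT.nd (nat_lit 156) (nat_lit 304) (nat_lit 0) (XT.nd (nat_lit 78) (nat_lit 0) (nat_lit 0) (XT.lf (nat_lit 0) (nat_lit 3657376833) (nat_lit 152) (nat_lit 688157768) (nat_lit 228) (nat_lit 5678033253) (nat_lit 21) (nat_lit 5) (nat_lit 23) (nat_lit 5) (nat_lit 24) (nat_lit 4) (nat_lit 280) (nat_lit 253) (nat_lit 247)) (XT.lf (nat_lit 0) (nat_lit 7880621162) (nat_lit 228) (nat_lit 322029185) (nat_lit 0) (nat_lit 2268995024) (nat_lit 21) (nat_lit 5) (nat_lit 24) (nat_lit 4) (nat_lit 21) (nat_lit 4) (nat_lit 281) (nat_lit 253) (nat_lit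 246))) (XT.nd (nat_lit 78) (nat_lit 76) (nat_lit 0) (XT.lf (nat_lit 0) (nat_lit 698996296) (nat_lit 228) (nat_lit 4740036448) (nat_lit 76) (nat_lit 5516122900) (nat_lit 18) (nat_lit 5) (nat_lit 21) (nat_lit 5) (nat_lit 19) (nat_lit 4) (nat_lit 282) (nat_lit 253) (nat_lit 245)) (XT.lf (nat_lit 0) (nat_lit 1559177692) (nat_lit 76) (nat_lit 2427511748) (nat_lit 152) (nat_lit 7495755261) (nat_lit 17) (nat_lit 5) (nat_lit 18) (nat_lit 5) (nat_lit 19) (nat_lit 4) (nat_lit 283) (nat_lit 253) (nat_lit 244))))) (XT.nd (nat_lit 234) (nat_lit 228) (nat_lit 0) (XT.nd (nat_lit 78) (nat_lit 228) (nat_lit 0) (XT.lf (nat_lit 0) (nat_lit 7522282439) (nat_lit 152) (nat_lit 3705618958) (nat_lit 0) (nat_lit 825630472) (nat_lit 17) (nat_lit 5) (nat_lit 19) (nat_lit 4) (nat_lit 17) (nat_lit 4) (nat_lit 284) (nat_lit 253) (nat_lit 243)) (XT.nd (nat_lit 78) (nat_lit 76) (nat_lit 0) (XT.lf (nat_lit 0) (nat_lit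 2835682367) (nat_lit 152) (nat_lit 8480807228) (nat_lit 152) (nat_lit 1356130760) (nat_lit 15) (nat_lit 4) (nat_lit 17) (nat_lit 5) (nat_lit 17) (nat_lit 4) (nat_lit 285) (nat_lit 253) (nat_lit 242)) (XT.lf (nat_lit 0) (nat_lit 1919137177) (nat_lit 228) (nat_lit 3529190120) (nat_lit 76) (nat_lit 7893255100) (nat_lit 14) (nat_lit 5) (nat_lit 17) (nat_lit 5) (nat_lit 15) (nat_lit 4) (nat_lit 286) (nat_lit 253) (nat_lit 241)))) (XT.nd (nat_lit 156) (nat_lit 152) (nat_lit 0) (XT.nd (nat_lit 78) (nat_lit 0) (nat_lit 0) (XT.lf (nat_lit 0) (nat_lit 3170828484) (nat_lit 76) (nat_lit 2145895532) (nat_lit 152) (nat_lit 8750132582) (nat_lit 13) (nat_lit 5) (nat_lit 14) (nat_lit 5) (nat_lit 15) (nat_lit 4) (nat_lit 287) (nat_lit 253) (nat_lit 240)) (XT.lf (nat_lit 0) (nat_lit 8979420646) (nat_lit 152) (nat_lit 4510398465) (nat_lit 0) (nat_lit 1361145535) (nat_lit 13) (nat_lit 5) (nat_lit 15) (nat_lit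 4) (nat_lit 13) (nat_lit 4) (nat_lit 288) (nat_lit 253) (nat_lit 239))) (XT.nd (nat_lit 78) (nat_lit 76) (nat_lit 0) (XT.lf (nat_lit 0) (nat_lit 2220255492) (nat_lit 76) (nat_lit 10694506310) (nat_lit 76) (nat_lit 2784924915) (nat_lit 12) (nat_lit 4) (nat_lit 13) (nat_lit 5) (nat_lit 13) (nat_lit 4) (nat_lit 289) (nat_lit 253) (nat_lit 238)) (XT.lf (nat_lit 0) (nat_lit 519133567) (nat_lit 152) (nat_lit 7099511614) (nat_lit 76) (nat_lit 8996988688) (nat_lit 11) (nat_lit 5) (nat_lit 13) (nat_lit 5) (nat_lit 12) (nat_lit 4) (nat_lit 290) (nat_lit 253) (nat_lit 237)))))) (XT.nd (nat_lit 546) (nat_lit 152) (nat_lit 0) (XT.nd (nat_lit 234) (nat_lit 152) (nat_lit 0) (XT.nd (nat_lit 78) (nat_lit 76) (nat_lit 0) (XT.lf (nat_lit 0) (nat_lit 3818011028) (nat_lit 152) (nat_lit 487594680) (nat_lit 76) (nat_lit 13303190991) (nat_lit 11) (nat_lit 5) (nat_lit 13) (nat_lit 5) (nat_lit 12) (nat_lit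 4) (nat_lit 291) (nat_lit 253) (nat_lit 236)) (XT.nd (nat_lit 78) (nat_lit 0) (nat_lit 0) (XT.lf (nat_lit 0) (nat_lit 6802781499) (nat_lit 76) (nat_lit 631395154) (nat_lit 152) (nat_lit 11243153602) (nat_lit 10) (nat_lit 5) (nat_lit 11) (nat_lit 5) (nat_lit 12) (nat_lit 4) (nat_lit 292) (nat_lit 253) (nat_lit 235)) (XT.lf (nat_lit 0) (nat_lit 11325115714) (nat_lit 152) (nat_lit 5399510623) (nat_lit 0) (nat_lit 3108055756) (nat_lit 10) (nat_lit 5) (nat_lit 12) (nat_lit 4) (nat_lit 10) (nat_lit 4) (nat_lit 293) (nat_lit 253) (nat_lit 234)))) (XT.nd (nat_lit 156) (nat_lit 76) (nat_lit 0) (XT.nd (nat_lit 78) (nat_lit 0) (nat_lit 0) (XT.lf (nat_lit 0) (nat_lit 1472306288) (nat_lit 76) (nat_lit 14006418814) (nat_lit 76) (nat_lit 5605786484) (nat_lit 9) (nat_lit 4) (nat_lit 10) (nat_lit 5) (nat_lit 10) (nat_lit 4) (nat_lit 294) (nat_lit 253) (nat_lit 233)) (XT.lf (nat_lit 0) (nat_lit 9026986744)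 (nat_lit 76) (nat_lit 10988109400) (nat_lit 76) (nat_lit 2417502651) (nat_lit 9) (nat_lit 4) (nat_lit 10) (nat_lit 5) (nat_lit 10) (nat_lit 4) (nat_lit 295) (nat_lit 253) (nat_lit 232))) (XT.nd (nat_lit 78) (nat_lit 0) (nat_lit 0) (XT.lf (nat_lit 0) (nat_lit 882096807) (nat_lit 152) (nat_lit 6893229110) (nat_lit 76) (nat_lit 16118755662) (nat_lit 8) (nat_lit 5) (nat_lit 10) (nat_lit 5) (nat_lit 9) (nat_lit 4) (nat_lit 296) (nat_lit 253) (nat_lit 231)) (XT.lf (nat_lit 0) (nat_lit 4229472756) (nat_lit 152) (nat_lit 76412803) (nat_lit 76) (nat_lit 21168539157) (nat_lit 8) (nat_lit 5) (nat_lit 10) (nat_lit 5) (nat_lit 9) (nat_lit 4) (nat_lit 297) (nat_lit 253) (nat_lit 230))))) (XT.nd (nat_lit 234) (nat_lit 76) (nat_lit 0) (XT.nd (nat_lit 78) (nat_lit 0) (nat_lit 0) (XT.lf (nat_lit 0) (nat_lit 7519531219) (nat_lit 76) (nat_lit 426708458) (nat_lit 152) (nat_lit 19226937214) (nat_lit 7)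 (nat_lit 5) (nat_lit 8) (nat_lit 5) (nat_lit 9) (nat_lit 4) (nat_lit 298) (nat_lit 253) (nat_lit 229)) (XT.nd (nat_lit 78) (nat_lit 0) (nat_lit 0) (XT.lf (nat_lit 0) (nat_lit 11974782937) (nat_lit 152) (nat_lit 13514231937) (nat_lit 0) (nat_lit 3517761102) (nat_lit 7) (nat_lit 5) (nat_lit 9) (nat_lit 4) (nat_lit 7) (nat_lit 4) (nat_lit 299) (nat_lit 253) (nat_lit 228)) (XT.lf (nat_lit 0) (nat_lit 16264281846) (nat_lit 152) (nat_lit 7027634087) (nat_lit 0) (nat_lit 7700147295) (nat_lit 7) (nat_lit 5) (nat_lit 9) (nat_lit 4) (nat_lit 7) (nat_lit 4) (nat_lit 300) (nat_lit 253) (nat_lit 227)))) (XT.nd (nat_lit 156) (nat_lit 0) (nat_lit 0) (XT.nd (nat_lit 78) (nat_lit 76) (nat_lit 0) (XT.lf (nat_lit 0) (nat_lit 20829893307) (nat_lit 152) (nat_lit 145150675) (nat_lit 0) (nat_lit 12166580316) (nat_lit 7) (nat_lit 5) (nat_lit 9) (nat_lit 4) (nat_lit 7) (nat_lit 4) (nat_lit 301) (nat_lit 253)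 (nat_lit 226)) (XT.lf (nat_lit 0) (nat_lit 7551773688) (nat_lit 76) (nat_lit 18328519447) (nat_lit 76) (nat_lit 9573374566) (nat_lit 6) (nat_lit 4) (nat_lit 7) (nat_lit 5) (nat_lit 7) (nat_lit 4) (nat_lit 302) (nat_lit 253) (nat_lit 225))) (XT.nd (nat_lit 78) (nat_lit 0) (nat_lit 0) (XT.lf (nat_lit 0) (nat_lit 15761663077) (nat_lit 76) (nat_lit 15516877639) (nat_lit 76) (nat_lit 6676703231) (nat_lit 6) (nat_lit 4) (nat_lit 7) (nat_lit 5) (nat_lit 7) (nat_lit 4) (nat_lit 303) (nat_lit 253) (nat_lit 224)) (XT.lf (nat_lit 0) (nat_lit 24525525312) (nat_lit 76) (nat_lit 12527425653) (nat_lit 76) (nat_lit 3608520201) (nat_lit 6) (nat_lit 4) (nat_lit 7) (nat_lit 5) (nat_lit 7) (nat_lit 4) (nat_lit 304) (nat_lit 253) (nat_lit 223))))))) (XT.nd (nat_lit 1092) (nat_lit 0) (nat_lit 0) (XT.nd (nat_lit 546) (nat_lit 76) (nat_lit 0) (XT.nd (nat_lit 234) (nat_lit 0) (nat_lit 0) (XT.nd (nat_lit 78)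 (nat_lit 152) (nat_lit 0) (XT.lf (nat_lit 0) (nat_lit 33895294390) (nat_lit 76) (nat_lit 9342448219) (nat_lit 76) (nat_lit 350643653) (nat_lit 6) (nat_lit 4) (nat_lit 7) (nat_lit 5) (nat_lit 7) (nat_lit 4) (nat_lit 305) (nat_lit 253) (nat_lit 222)) (XT.nd (nat_lit 78) (nat_lit 76) (nat_lit 0) (XT.lf (nat_lit 0) (nat_lit 2960345786) (nat_lit 152) (nat_lit 2901784510) (nat_lit 76) (nat_lit 40885207982) (nat_lit 5) (nat_lit 5) (nat_lit 7) (nat_lit 5) (nat_lit 6) (nat_lit 4) (nat_lit 306) (nat_lit 253) (nat_lit 221)) (XT.lf (nat_lit 0) (nat_lit 4568175725) (nat_lit 76) (nat_lit 2013544809) (nat_lit 152) (nat_lit 43571452104) (nat_lit 4) (nat_lit 5) (nat_lit 5) (nat_lit 5) (nat_lit 6) (nat_lit 4) (nat_lit 307) (nat_lit 253) (nat_lit 220)))) (XT.nd (nat_lit 156) (nat_lit 0) (nat_lit 0) (XT.nd (nat_lit 78) (nat_lit 0) (nat_lit 0) (XT.lf (nat_lit 0) (nat_lit 10580810420) (nat_lit 152) (nat_lit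 41162556427) (nat_lit 0) (nat_lit 2081113517) (nat_lit 4) (nat_lit 5) (nat_lit 6) (nat_lit 4) (nat_lit 4) (nat_lit 4) (nat_lit 308) (nat_lit 253) (nat_lit 219)) (XT.lf (nat_lit 0) (nat_lit 14910522722) (nat_lit 152) (nat_lit 36516946008) (nat_lit 0) (nat_lit 6361211907) (nat_lit 4) (nat_lit 5) (nat_lit 6) (nat_lit 4) (nat_lit 4) (nat_lit 4) (nat_lit 309) (nat_lit 253) (nat_lit 218))) (XT.nd (nat_lit 78) (nat_lit 0) (nat_lit 0) (XT.lf (nat_lit 0) (nat_lit 19548089194) (nat_lit 152) (nat_lit 31572210312) (nat_lit 0) (nat_lit 10952839571) (nat_lit 4) (nat_lit 5) (nat_lit 6) (nat_lit 4) (nat_lit 4) (nat_lit 4) (nat_lit 310) (nat_lit 253) (nat_lit 217)) (XT.lf (nat_lit 0) (nat_lit 24520991713) (nat_lit 152) (nat_lit 26299047201) (nat_lit 0) (nat_lit 15883206157) (nat_lit 4) (nat_lit 5) (nat_lit 6) (nat_lit 4) (nat_lit 4) (nat_lit 4) (nat_lit 311) (nat_lit 253) (nat_lit 216))))) (XT.nd (nat_lit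 234) (nat_lit 76) (nat_lit 0) (XT.nd (nat_lit 78) (nat_lit 0) (nat_lit 0) (XT.lf (nat_lit 0) (nat_lit 29858699329) (nat_lit 152) (nat_lit 20666208301) (nat_lit 0) (nat_lit 21181528649) (nat_lit 4) (nat_lit 5) (nat_lit 6) (nat_lit 4) (nat_lit 4) (nat_lit 4) (nat_lit 312) (nat_lit 253) (nat_lit 215)) (XT.nd (nat_lit 78) (nat_lit 0) (nat_lit 0) (XT.lf (nat_lit 0) (nat_lit 35592842903) (nat_lit 152) (nat_lit 14640313827) (nat_lit 0) (nat_lit 26879204516) (nat_lit 4) (nat_lit 5) (nat_lit 6) (nat_lit 4) (nat_lit 4) (nat_lit 4) (nat_lit 313) (nat_lit 253) (nat_lit 214)) (XT.lf (nat_lit 0) (nat_lit 41757402544) (nat_lit 152) (nat_lit 8185654773) (nat_lit 0) (nat_lit 33009997763) (nat_lit 4) (nat_lit 5) (nat_lit 6) (nat_lit 4) (nat_lit 4) (nat_lit 4) (nat_lit 314) (nat_lit 253) (nat_lit 213)))) (XT.nd (nat_lit 156) (nat_lit 0) (nat_lit 0) (XT.nd (nat_lit 78) (nat_lit 76) (nat_lit 0) (XT.lf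 (nat_lit 0) (nat_lit 48388908977) (nat_lit 152) (nat_lit 1263981309) (nat_lit 0) (nat_lit 39610239015) (nat_lit 4) (nat_lit 5) (nat_lit 6) (nat_lit 4) (nat_lit 4) (nat_lit 4) (nat_lit 315) (nat_lit 253) (nat_lit 212)) (XT.lf (nat_lit 0) (nat_lit 6490399983) (nat_lit 76) (nat_lit 49192354310) (nat_lit 76) (nat_lit 40384735107) (nat_lit 3) (nat_lit 4) (nat_lit 4) (nat_lit 5) (nat_lit 4) (nat_lit 4) (nat_lit 316) (nat_lit 253) (nat_lit 211))) (XT.nd (nat_lit 78) (nat_lit 0) (nat_lit 0) (XT.lf (nat_lit 0) (nat_lit 14892470390) (nat_lit 76) (nat_lit 48678647331) (nat_lit 76) (nat_lit 39844223274) (nat_lit 3) (nat_lit 4) (nat_lit 4) (nat_lit 5) (nat_lit 4) (nat_lit 4) (nat_lit 317) (nat_lit 253) (nat_lit 210)) (XT.lf (nat_lit 0) (nat_lit 23925460942) (nat_lit 76) (nat_lit 48143284648) (nat_lit 76) (nat_lit 39284041282) (nat_lit 3) (nat_lit 4) (nat_lit 4) (nat_lit 5) (nat_lit 4) (nat_lit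 4) (nat_lit 318) (nat_lit 253) (nat_lit 209)))))) (XT.nd (nat_lit 546) (nat_lit 0) (nat_lit 0) (XT.nd (nat_lit 234) (nat_lit 0) (nat_lit 0) (XT.nd (nat_lit 78) (nat_lit 0) (nat_lit 0) (XT.lf (nat_lit 0) (nat_lit 33642900472) (nat_lit 76) (nat_lit 47583093741) (nat_lit 76) (nat_lit 38700869534) (nat_lit 3) (nat_lit 4) (nat_lit 4) (nat_lit 5) (nat_lit 4) (nat_lit 4) (nat_lit 319) (nat_lit 253) (nat_lit 208)) (XT.nd (nat_lit 78) (nat_lit 0) (nat_lit 0) (XT.lf (nat_lit 0) (nat_lit 44102373808) (nat_lit 76) (nat_lit 46994754961) (nat_lit 76) (nat_lit 38091252198) (nat_lit 3) (nat_lit 4) (nat_lit 4) (nat_lit 5) (nat_lit 4) (nat_lit 4) (nat_lit 320) (nat_lit 253) (nat_lit 207)) (XT.lf (nat_lit 0) (nat_lit 55365863013) (nat_lit 76) (nat_lit 46374781855) (nat_lit 76) (nat_lit 37451576725) (nat_lit 3) (nat_lit 4) (nat_lit 4) (nat_lit 5) (nat_lit 4) (nat_lit 4) (nat_lit 321) (nat_lit 253) (nat_lit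 206)))) (XT.nd (nat_lit 156) (nat_lit 0) (nat_lit 0) (XT.nd (nat_lit 78) (nat_lit 0) (nat_lit 0) (XT.lf (nat_lit 0) (nat_lit 67500114690) (nat_lit 76) (nat_lit 45719500510) (nat_lit 76) (nat_lit 36778052447) (nat_lit 3) (nat_lit 4) (nat_lit 4) (nat_lit 5) (nat_lit 4) (nat_lit 4) (nat_lit 322) (nat_lit 253) (nat_lit 205)) (XT.lf (nat_lit 0) (nat_lit 80577035516) (nat_lit 76) (nat_lit 45025027776) (nat_lit 76) (nat_lit 36066688109) (nat_lit 3) (nat_lit 4) (nat_lit 4) (nat_lit 5) (nat_lit 4) (nat_lit 4) (nat_lit 323) (nat_lit 253) (nat_lit 204))) (XT.nd (nat_lit 78) (nat_lit 0) (nat_lit 0) (XT.lf (nat_lit 0) (nat_lit 94674118355) (nat_lit 76) (nat_lit 44287248260) (nat_lit 76) (nat_lit 35313268218) (nat_lit 3) (nat_lit 4) (nat_lit 4) (nat_lit 5) (nat_lit 4) (nat_lit 4) (nat_lit 324) (nat_lit 253) (nat_lit 203)) (XT.lf (nat_lit 0) (nat_lit 109874901475) (nat_lit 76) (nat_lit 43501789934)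 (nat_lit 76) (nat_lit 34513328064) (nat_lit 3) (nat_lit 4) (nat_lit 4) (nat_lit 5) (nat_lit 4) (nat_lit 4) (nat_lit 325) (nat_lit 253) (nat_lit 202))))) (XT.nd (nat_lit 312) (nat_lit 0) (nat_lit 0) (XT.nd (nat_lit 156) (nat_lit 0) (nat_lit 0) (XT.nd (nat_lit 78) (nat_lit 0) (nat_lit 0) (XT.lf (nat_lit 0) (nat_lit 126269463591) (nat_lit 76) (nat_lit 42663998230) (nat_lit 76) (nat_lit 33662127260) (nat_lit 3) (nat_lit 4) (nat_lit 4) (nat_lit 5) (nat_lit 4) (nat_lit 4) (nat_lit 326) (nat_lit 253) (nat_lit 201)) (XT.lf (nat_lit 0) (nat_lit 143954957664) (nat_lit 76) (nat_lit 41768908458) (nat_lit 76) (nat_lit 32754621655) (nat_lit 3) (nat_lit 4) (nat_lit 4) (nat_lit 5) (nat_lit 4) (nat_lit 4) (nat_lit 327) (nat_lit 253) (nat_lit 200))) (XT.nd (nat_lit 78) (nat_lit 0) (nat_lit 0) (XT.lf (nat_lit 0) (nat_lit 163036186623) (nat_lit 76) (nat_lit 40811216381) (nat_lit 76) (nat_lit 31785433436)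 (nat_lit 3) (nat_lit 4) (nat_lit 4) (nat_lit 5) (nat_lit 4) (nat_lit 4) (nat_lit 328) (nat_lit 253) (nat_lit 199)) (XT.lf (nat_lit 0) (nat_lit 183626224415) (nat_lit 76) (nat_lit 39785246788) (nat_lit 76) (nat_lit 30748819266) (nat_lit 3) (nat_lit 4) (nat_lit 4) (nat_lit 5) (nat_lit 4) (nat_lit 4) (nat_lit 329) (nat_lit 253) (nat_lit 198)))) (XT.nd (nat_lit 156) (nat_lit 0) (nat_lit 0) (XT.nd (nat_lit 78) (nat_lit 0) (nat_lit 0) (XT.lf (nat_lit 0) (nat_lit 205847086080) (nat_lit 76) (nat_lit 38684919858) (nat_lit 76) (nat_lit 29638636247) (nat_lit 3) (nat_lit 4) (nat_lit 4) (nat_lit 5) (nat_lit 4) (nat_lit 4) (nat_lit 330) (nat_lit 253) (nat_lit 197)) (XT.lf (nat_lit 0) (nat_lit 229830450799) (nat_lit 76) (nat_lit 37503715135) (nat_lit 76) (nat_lit 28448305516) (nat_lit 3) (nat_lit 4) (nat_lit 4) (nat_lit 5) (nat_lit 4) (nat_lit 4) (nat_lit 331) (nat_lit 253) (nat_lit 196))) (XT.nd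 (nat_lit 78) (nat_lit 0) (nat_lit 0) (XT.lf (nat_lit 0) (nat_lit 255718442213) (nat_lit 76) (nat_lit 36234632888) (nat_lit 76) (nat_lit 27170773261) (nat_lit 3) (nat_lit 4) (nat_lit 4) (nat_lit 5) (nat_lit 4) (nat_lit 4) (nat_lit 332) (nat_lit 253) (nat_lit 195)) (XT.lf (nat_lit 0) (nat_lit 283664470643) (nat_lit 76) (nat_lit 34870152629) (nat_lit 76) (nat_lit 25798468922) (nat_lit 3) (nat_lit 4) (nat_lit 4) (nat_lit 5) (nat_lit 4) (nat_lit 4) (nat_lit 333) (nat_lit 253) (nat_lit 194))))))))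
noncomputable def xc38 : XT := (XT.nd (nat_lit 2184) (nat_lit 0) (nat_lit 0) (XT.nd (nat_lit 1092) (nat_lit 0) (nat_lit 0) (XT.nd (nat_lit 546) (nat_lit 152) (nat_lit 0) (XT.nd (nat_lit 234) (nat_lit 0) (nat_lit 0) (XT.nd (nat_lit 78) (nat_lit 0) (nat_lit 0) (XT.lf (nat_lit 0) (nat_lit 313834142183) (nat_lit 76) (nat_lit 33402188550) (nat_lit 76) (nat_lit 24323260323) (nat_lit 3) (nat_lit 4) (nat_lit 4) (nat_lit 5) (nat_lit 4) (nat_lit 4) (nat_lit 334) (nat_lit 253) (nat_lit 193)) (XT.nd (nat_lit 78) (nat_lit 0) (nat_lit 0) (XT.lf (nat_lit 0) (nat_lit 346406240072) (nat_lit 76) (nat_lit 31822041603) (nat_lit 76) (nat_lit 22736405488) (nat_lit 3) (nat_lit 4) (nat_lit 4) (nat_lit 5) (nat_lit 4) (nat_lit 4) (nat_lit 335) (nat_lit 253) (nat_lit 192)) (XT.lf (nat_lit 0) (nat_lit 381573784148) (nat_lit 76) (nat_lit 30120347956) (nat_lit 76) (nat_lit 21028500833) (nat_lit 3) (nat_lit 4) (nat_lit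 4) (nat_lit 5) (nat_lit 4) (nat_lit 4) (nat_lit 336) (nat_lit 253) (nat_lit 191)))) (XT.nd (nat_lit 156) (nat_lit 0) (nat_lit 0) (XT.nd (nat_lit 78) (nat_lit 0) (nat_lit 0) (XT.lf (nat_lit 0) (nat_lit 419545174674) (nat_lit 76) (nat_lit 28287023498) (nat_lit 76) (nat_lit 19189425442) (nat_lit 3) (nat_lit 4) (nat_lit 4) (nat_lit 5) (nat_lit 4) (nat_lit 4) (nat_lit 337) (nat_lit 253) (nat_lit 190)) (XT.lf (nat_lit 0) (nat_lit 460545427296) (nat_lit 76) (nat_lit 26311204084) (nat_lit 76) (nat_lit 17208281089) (nat_lit 3) (nat_lit 4) (nat_lit 4) (nat_lit 5) (nat_lit 4) (nat_lit 4) (nat_lit 338) (nat_lit 253) (nat_lit 189))) (XT.nd (nat_lit 78) (nat_lit 0) (nat_lit 0) (XT.lf (nat_lit 0) (nat_lit 504817506475) (nat_lit 76) (nat_lit 24181181154) (nat_lit 76) (nat_lit 15073327661) (nat_lit 3) (nat_lit 4) (nat_lit 4) (nat_lit 5) (nat_lit 4) (nat_lit 4) (nat_lit 339) (nat_lit 253) (nat_lit 188))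 (XT.lf (nat_lit 0) (nat_lit 552623765272) (nat_lit 76) (nat_lit 21884332350) (nat_lit 76) (nat_lit 12771913581) (nat_lit 3) (nat_lit 4) (nat_lit 4) (nat_lit 5) (nat_lit 4) (nat_lit 4) (nat_lit 340) (nat_lit 253) (nat_lit 187))))) (XT.nd (nat_lit 234) (nat_lit 152) (nat_lit 0) (XT.nd (nat_lit 78) (nat_lit 0) (nat_lit 0) (XT.lf (nat_lit 0) (nat_lit 604247500037) (nat_lit 76) (nat_lit 19407046717) (nat_lit 76) (nat_lit 10290400840) (nat_lit 3) (nat_lit 4) (nat_lit 4) (nat_lit 5) (nat_lit 4) (nat_lit 4) (nat_lit 341) (nat_lit 253) (nat_lit 186)) (XT.nd (nat_lit 78) (nat_lit 0) (nat_lit 0) (XT.lf (nat_lit 0) (nat_lit 659994629197) (nat_lit 76) (nat_lit 16734644043) (nat_lit 76) (nat_lit 7614084177) (nat_lit 3) (nat_lit 4) (nat_lit 4) (nat_lit 5) (nat_lit 4) (nat_lit 4) (nat_lit 342) (nat_lit 253) (nat_lit 185)) (XT.lf (nat_lit 0) (nat_lit 720195506109) (nat_lit 76) (nat_lit 13851287867)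 (nat_lit 76) (nat_lit 4727103939) (nat_lit 3) (nat_lit 4) (nat_lit 4) (nat_lit 5) (nat_lit 4) (nat_lit 4) (nat_lit 343) (nat_lit 253) (nat_lit 184)))) (XT.nd (nat_lit 156) (nat_lit 76) (nat_lit 0) (XT.nd (nat_lit 78) (nat_lit 76) (nat_lit 0) (XT.lf (nat_lit 0) (nat_lit 785206876713) (nat_lit 76) (nat_lit 10739891636) (nat_lit 76) (nat_lit 1612352093) (nat_lit 3) (nat_lit 4) (nat_lit 4) (nat_lit 5) (nat_lit 4) (nat_lit 4) (nat_lit 344) (nat_lit 253) (nat_lit 183)) (XT.lf (nat_lit 0) (nat_lit 1661155636) (nat_lit 152) (nat_lit 5675442869) (nat_lit 76) (nat_lit 853707418998) (nat_lit 2) (nat_lit 5) (nat_lit 4) (nat_lit 5) (nat_lit 3) (nat_lit 4) (nat_lit 345) (nat_lit 253) (nat_lit 182))) (XT.nd (nat_lit 78) (nat_lit 0) (nat_lit 0) (XT.lf (nat_lit 0) (nat_lit 1567095306) (nat_lit 76) (nat_lit 3577432961) (nat_lit 152) (nat_lit 924457022604) (nat_lit 1) (nat_lit 5) (nat_lit 2) (nat_lit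 5) (nat_lit 3) (nat_lit 4) (nat_lit 346) (nat_lit 253) (nat_lit 181)) (XT.lf (nat_lit 0) (nat_lit 9074807925) (nat_lit 152) (nat_lit 993940046920) (nat_lit 0) (nat_lit 615375252) (nat_lit 1) (nat_lit 5) (nat_lit 3) (nat_lit 4) (nat_lit 1) (nat_lit 4) (nat_lit 347) (nat_lit 253) (nat_lit 180)))))) (XT.nd (nat_lit 546) (nat_lit 0) (nat_lit 0) (XT.nd (nat_lit 234) (nat_lit 0) (nat_lit 0) (XT.nd (nat_lit 78) (nat_lit 0) (nat_lit 0) (XT.lf (nat_lit 0) (nat_lit 13410047578) (nat_lit 152) (nat_lit 1065215583947) (nat_lit 0) (nat_lit 4948331131) (nat_lit 1) (nat_lit 5) (nat_lit 3) (nat_lit 4) (nat_lit 1) (nat_lit 4) (nat_lit 348) (nat_lit 253) (nat_lit 179)) (XT.nd (nat_lit 78) (nat_lit 0) (nat_lit 0) (XT.lf (nat_lit 0) (nat_lit 18089900188) (nat_lit 152) (nat_lit 1142197402849) (nat_lit 0) (nat_lit 9626069134) (nat_lit 1) (nat_lit 5) (nat_lit 3) (nat_lit 4) (nat_lit 1) (nat_lit 4) (nat_lit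 349) (nat_lit 253) (nat_lit 178)) (XT.lf (nat_lit 0) (nat_lit 23142098214) (nat_lit 152) (nat_lit 1225341692183) (nat_lit 0) (nat_lit 14676309192) (nat_lit 1) (nat_lit 5) (nat_lit 3) (nat_lit 4) (nat_lit 1) (nat_lit 4) (nat_lit 350) (nat_lit 253) (nat_lit 177)))) (XT.nd (nat_lit 156) (nat_lit 0) (nat_lit 0) (XT.nd (nat_lit 78) (nat_lit 0) (nat_lit 0) (XT.lf (nat_lit 0) (nat_lit 28596580609) (nat_lit 152) (nat_lit 1315141158850) (nat_lit 0) (nat_lit 20128978653) (nat_lit 1) (nat_lit 5) (nat_lit 3) (nat_lit 4) (nat_lit 1) (nat_lit 4) (nat_lit 351) (nat_lit 253) (nat_lit 176)) (XT.lf (nat_lit 0) (nat_lit 34485670231) (nat_lit 152) (nat_lit 1412127947836) (nat_lit 0) (nat_lit 26016389632) (nat_lit 1) (nat_lit 5) (nat_lit 3) (nat_lit 4) (nat_lit 1) (nat_lit 4) (nat_lit 352) (nat_lit 253) (nat_lit 175))) (XT.nd (nat_lit 78) (nat_lit 0) (nat_lit 0) (XT.lf (nat_lit 0) (nat_lit 40844265387)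 (nat_lit 152) (nat_lit 1516876795669) (nat_lit 0) (nat_lit 32373430490) (nat_lit 1) (nat_lit 5) (nat_lit 3) (nat_lit 4) (nat_lit 1) (nat_lit 4) (nat_lit 353) (nat_lit 253) (nat_lit 174)) (XT.lf (nat_lit 0) (nat_lit 47710046644) (nat_lit 152) (nat_lit 1630008436262) (nat_lit 0) (nat_lit 39237772581) (nat_lit 1) (nat_lit 5) (nat_lit 3) (nat_lit 4) (nat_lit 1) (nat_lit 4) (nat_lit 354) (nat_lit 253) (nat_lit 173))))) (XT.nd (nat_lit 234) (nat_lit 0) (nat_lit 0) (XT.nd (nat_lit 78) (nat_lit 0) (nat_lit 0) (XT.lf (nat_lit 0) (nat_lit 55123700111) (nat_lit 152) (nat_lit 1752193279337) (nat_lit 0) (nat_lit 46650093487) (nat_lit 1) (nat_lit 5) (nat_lit 3) (nat_lit 4) (nat_lit 1) (nat_lit 4) (nat_lit 355) (nat_lit 253) (nat_lit 172)) (XT.nd (nat_lit 78) (nat_lit 0) (nat_lit 0) (XT.lf (nat_lit 0) (nat_lit 63129158550) (nat_lit 152) (nat_lit 1884155383223) (nat_lit 0) (nat_lit 54654318074) (nat_lit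 1) (nat_lit 5) (nat_lit 3) (nat_lit 4) (nat_lit 1) (nat_lit 4) (nat_lit 356) (nat_lit 253) (nat_lit 171)) (XT.lf (nat_lit 0) (nat_lit 71773861714) (nat_lit 152) (nat_lit 2026676745573) (nat_lit 0) (nat_lit 63297878782) (nat_lit 1) (nat_lit 5) (nat_lit 3) (nat_lit 4) (nat_lit 1) (nat_lit 4) (nat_lit 357) (nat_lit 253) (nat_lit 170)))) (XT.nd (nat_lit 156) (nat_lit 0) (nat_lit 0) (XT.nd (nat_lit 78) (nat_lit 0) (nat_lit 0) (XT.lf (nat_lit 0) (nat_lit 81109037474) (nat_lit 152) (nat_lit 2180601937424) (nat_lit 0) (nat_lit 72631996713) (nat_lit 1) (nat_lit 5) (nat_lit 3) (nat_lit 4) (nat_lit 1) (nat_lit 4) (nat_lit 358) (nat_lit 253) (nat_lit 169)) (XT.lf (nat_lit 0) (nat_lit 91190005391) (nat_lit 152) (nat_lit 2346843108060) (nat_lit 0) (nat_lit 82711985158) (nat_lit 1) (nat_lit 5) (nat_lit 3) (nat_lit 4) (nat_lit 1) (nat_lit 4) (nat_lit 359) (nat_lit 253) (nat_lit 168))) (XT.nd (nat_lit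 78) (nat_lit 0) (nat_lit 0) (XT.lf (nat_lit 0) (nat_lit 102076504533) (nat_lit 152) (nat_lit 2526385390344) (nat_lit 0) (nat_lit 93597577382) (nat_lit 1) (nat_lit 5) (nat_lit 3) (nat_lit 4) (nat_lit 1) (nat_lit 4) (nat_lit 360) (nat_lit 253) (nat_lit 167)) (XT.lf (nat_lit 0) (nat_lit 113833047488) (nat_lit 152) (nat_lit 2720292738541) (nat_lit 0) (nat_lit 105353280598) (nat_lit 1) (nat_lit 5) (nat_lit 3) (nat_lit 4) (nat_lit 1) (nat_lit 4) (nat_lit 361) (nat_lit 253) (nat_lit 166))))))) (XT.nd (nat_lit 34476) (nat_lit 0) (nat_lit 532) (XT.nd (nat_lit 33930) (nat_lit 0) (nat_lit 1292) (XT.nd (nat_lit 33618) (nat_lit 0) (nat_lit 2128) (XT.nd (nat_lit 78) (nat_lit 0) (nat_lit 0) (XT.lf (nat_lit 0) (nat_lit 126529302659) (nat_lit 152) (nat_lit 2929714233234) (nat_lit 0) (nat_lit 118048758232) (nat_lit 1) (nat_lit 5) (nat_lit 3) (nat_lit 4) (nat_lit 1) (nat_lit 4) (nat_lit 362) (nat_lit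 253) (nat_lit 165)) (XT.nd (nat_lit 78) (nat_lit 0) (nat_lit 0) (XT.lf (nat_lit 0) (nat_lit 140240507113) (nat_lit 152) (nat_lit 3155890890688) (nat_lit 0) (nat_lit 131759242745) (nat_lit 1) (nat_lit 5) (nat_lit 3) (nat_lit 4) (nat_lit 1) (nat_lit 4) (nat_lit 363) (nat_lit 253) (nat_lit 164)) (XT.lf (nat_lit 0) (nat_lit 155047912432) (nat_lit 152) (nat_lit 3400163017020) (nat_lit 0) (nat_lit 146565981452) (nat_lit 1) (nat_lit 5) (nat_lit 3) (nat_lit 4) (nat_lit 1) (nat_lit 4) (nat_lit 364) (nat_lit 253) (nat_lit 163)))) (XT.nd (nat_lit 156) (nat_lit 532) (nat_lit 0) (XT.nd (nat_lit 78) (nat_lit 0) (nat_lit 0) (XT.lf (nat_lit 0) (nat_lit 82337894) (nat_lit 228) (nat_lit 1857686199) (nat_lit 228) (nat_lit 1857686199) (nat_lit 36) (nat_lit 4) (nat_lit 39) (nat_lit 5) (nat_lit 39) (nat_lit 4) (nat_lit 272) (nat_lit 254) (nat_lit 254)) (XT.lf (nat_lit 0) (nat_lit 5537168769) (nat_lit 228)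 (nat_lit 1815371063) (nat_lit 228) (nat_lit 457604961) (nat_lit 36) (nat_lit 4) (nat_lit 39) (nat_lit 5) (nat_lit 39) (nat_lit 4) (nat_lit 273) (nat_lit 254) (nat_lit 253))) (XT.nd (nat_lit 78) (nat_lit 228) (nat_lit 0) (XT.lf (nat_lit 0) (nat_lit 2758284018) (nat_lit 304) (nat_lit 4953819052) (nat_lit 0) (nat_lit 337027594) (nat_lit 32) (nat_lit 5) (nat_lit 36) (nat_lit 4) (nat_lit 32) (nat_lit 4) (nat_lit 274) (nat_lit 254) (nat_lit 252)) (XT.lf (nat_lit 0) (nat_lit 393904447) (nat_lit 228) (nat_lit 5710310782) (nat_lit 228) (nat_lit 2211215849) (nat_lit 29) (nat_lit 4) (nat_lit 32) (nat_lit 5) (nat_lit 32) (nat_lit 4) (nat_lit 275) (nat_lit 254) (nat_lit 251))))) (XT.nd (nat_lit 234) (nat_lit 456) (nat_lit 0) (XT.nd (nat_lit 78) (nat_lit 304) (nat_lit 0) (XT.lf (nat_lit 0) (nat_lit 978548496) (nat_lit 304) (nat_lit 2461712678) (nat_lit 76) (nat_lit 5167878242) (nat_lit 28) (nat_lit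 5) (nat_lit 32) (nat_lit 5) (nat_lit 29) (nat_lit 4) (nat_lit 276) (nat_lit 254) (nat_lit 250)) (XT.nd (nat_lit 78) (nat_lit 152) (nat_lit 0) (XT.lf (nat_lit 0) (nat_lit 3272295644) (nat_lit 152) (nat_lit 907253389) (nat_lit 228) (nat_lit 4750830194) (nat_lit 26) (nat_lit 5) (nat_lit 28) (nat_lit 5) (nat_lit 29) (nat_lit 4) (nat_lit 277) (nat_lit 254) (nat_lit 249)) (XT.lf (nat_lit 0) (nat_lit 10128659) (nat_lit 152) (nat_lit 7543714881) (nat_lit 152) (nat_lit 1731872932) (nat_lit 24) (nat_lit 4) (nat_lit 26) (nat_lit 5) (nat_lit 26) (nat_lit 4) (nat_lit 278) (nat_lit 254) (nat_lit 248)))) (XT.nd (nat_lit 156) (nat_lit 228) (nat_lit 0) (XT.nd (nat_lit 78) (nat_lit 152) (nat_lit 0) (XT.lf (nat_lit 0) (nat_lit 1440903070) (nat_lit 228) (nat_lit 3548322339) (nat_lit 76) (nat_lit 4678808902) (nat_lit 23) (nat_lit 5) (nat_lit 26) (nat_lit 5) (nat_lit 24) (nat_lit 4) (nat_lit 279) (nat_lit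 254) (nat_lit 247)) (XT.lf (nat_lit 0) (nat_lit 2455288422) (nat_lit 152) (nat_lit 2198514577) (nat_lit 228) (nat_lit 5433698446) (nat_lit 21) (nat_lit 5) (nat_lit 23) (nat_lit 5) (nat_lit 24) (nat_lit 4) (nat_lit 280) (nat_lit 254) (nat_lit 246))) (XT.nd (nat_lit 78) (nat_lit 228) (nat_lit 0) (XT.lf (nat_lit 0) (nat_lit 8068937200) (nat_lit 228) (nat_lit 1679333732) (nat_lit 0) (nat_lit 797149947) (nat_lit 21) (nat_lit 5) (nat_lit 24) (nat_lit 4) (nat_lit 21) (nat_lit 4) (nat_lit 281) (nat_lit 254) (nat_lit 245)) (XT.lf (nat_lit 0) (nat_lit 689822477) (nat_lit 228) (nat_lit 6376144100) (nat_lit 76) (nat_lit 3972393636) (nat_lit 18) (nat_lit 5) (nat_lit 21) (nat_lit 5) (nat_lit 19) (nat_lit 4) (nat_lit 282) (nat_lit 254) (nat_lit 244)))))) (XT.nd (nat_lit 546) (nat_lit 380) (nat_lit 0) (XT.nd (nat_lit 234) (nat_lit 152) (nat_lit 0) (XT.nd (nat_lit 78) (nat_lit 228) (nat_lit 0) (XT.lf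 (nat_lit 0) (nat_lit 3863415597) (nat_lit 228) (nat_lit 274318189) (nat_lit 76) (nat_lit 7437238552) (nat_lit 18) (nat_lit 5) (nat_lit 21) (nat_lit 5) (nat_lit 19) (nat_lit 4) (nat_lit 283) (nat_lit 254) (nat_lit 243)) (XT.nd (nat_lit 78) (nat_lit 152) (nat_lit 0) (XT.lf (nat_lit 0) (nat_lit 6406176850) (nat_lit 76) (nat_lit 891258699) (nat_lit 152) (nat_lit 4856930417) (nat_lit 17) (nat_lit 5) (nat_lit 18) (nat_lit 5) (nat_lit 19) (nat_lit 4) (nat_lit 284) (nat_lit 254) (nat_lit 242)) (XT.lf (nat_lit 0) (nat_lit 589769160) (nat_lit 152) (nat_lit 10357209847) (nat_lit 152) (nat_lit 1838215779) (nat_lit 15) (nat_lit 4) (nat_lit 17) (nat_lit 5) (nat_lit 17) (nat_lit 4) (nat_lit 285) (nat_lit 254) (nat_lit 241)))) (XT.nd (nat_lit 156) (nat_lit 0) (nat_lit 0) (XT.nd (nat_lit 78) (nat_lit 76) (nat_lit 0) (XT.lf (nat_lit 0) (nat_lit 1392564759) (nat_lit 228) (nat_lit 5989421390) (nat_lit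 76) (nat_lit 6078729851) (nat_lit 14) (nat_lit 5) (nat_lit 17) (nat_lit 5) (nat_lit 15) (nat_lit 4) (nat_lit 286) (nat_lit 254) (nat_lit 240)) (XT.lf (nat_lit 0) (nat_lit 470577317) (nat_lit 76) (nat_lit 4191111651) (nat_lit 152) (nat_lit 9534711002) (nat_lit 13) (nat_lit 5) (nat_lit 14) (nat_lit 5) (nat_lit 15) (nat_lit 4) (nat_lit 287) (nat_lit 254) (nat_lit 239))) (XT.nd (nat_lit 78) (nat_lit 0) (nat_lit 0) (XT.lf (nat_lit 0) (nat_lit 7575245519) (nat_lit 76) (nat_lit 653404501) (nat_lit 152) (nat_lit 6759639769) (nat_lit 13) (nat_lit 5) (nat_lit 14) (nat_lit 5) (nat_lit 15) (nat_lit 4) (nat_lit 288) (nat_lit 254) (nat_lit 238)) (XT.lf (nat_lit 0) (nat_lit 12037229145) (nat_lit 152) (nat_lit 876190581) (nat_lit 0) (nat_lit 2933846916) (nat_lit 13) (nat_lit 5) (nat_lit 15) (nat_lit 4) (nat_lit 13) (nat_lit 4) (nat_lit 289) (nat_lit 254) (nat_lit 237))))) (XT.nd (nat_lit 312) (nat_lit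 152) (nat_lit 0) (XT.nd (nat_lit 156) (nat_lit 76) (nat_lit 0) (XT.nd (nat_lit 78) (nat_lit 76) (nat_lit 0) (XT.lf (nat_lit 0) (nat_lit 6291775445) (nat_lit 76) (nat_lit 9915977574) (nat_lit 76) (nat_lit 562847159) (nat_lit 12) (nat_lit 4) (nat_lit 13) (nat_lit 5) (nat_lit 13) (nat_lit 4) (nat_lit 290) (nat_lit 254) (nat_lit 236)) (XT.lf (nat_lit 0) (nat_lit 2711191440) (nat_lit 152) (nat_lit 3945100538) (nat_lit 76) (nat_lit 11112883883) (nat_lit 11) (nat_lit 5) (nat_lit 13) (nat_lit 5) (nat_lit 12) (nat_lit 4) (nat_lit 291) (nat_lit 254) (nat_lit 235))) (XT.nd (nat_lit 78) (nat_lit 0) (nat_lit 0) (XT.lf (nat_lit 0) (nat_lit 3073802542) (nat_lit 76) (nat_lit 3114803270) (nat_lit 152) (nat_lit 12660287364) (nat_lit 10) (nat_lit 5) (nat_lit 11) (nat_lit 5) (nat_lit 12) (nat_lit 4) (nat_lit 292) (nat_lit 254) (nat_lit 234)) (XT.lf (nat_lit 0) (nat_lit 9971543045) (nat_lit 152) (nat_lit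 9326131824) (nat_lit 0) (nat_lit 715287756) (nat_lit 10) (nat_lit 5) (nat_lit 12) (nat_lit 4) (nat_lit 10) (nat_lit 4) (nat_lit 293) (nat_lit 254) (nat_lit 233)))) (XT.nd (nat_lit 156) (nat_lit 76) (nat_lit 0) (XT.nd (nat_lit 78) (nat_lit 76) (nat_lit 0) (XT.lf (nat_lit 0) (nat_lit 14045043613) (nat_lit 152) (nat_lit 2607415030) (nat_lit 0) (nat_lit 4618813906) (nat_lit 10) (nat_lit 5) (nat_lit 12) (nat_lit 4) (nat_lit 10) (nat_lit 4) (nat_lit 294) (nat_lit 254) (nat_lit 232)) (XT.lf (nat_lit 0) (nat_lit 4732525552) (nat_lit 76) (nat_lit 13739627488) (nat_lit 76) (nat_lit 4156014060) (nat_lit 9) (nat_lit 4) (nat_lit 10) (nat_lit 5) (nat_lit 10) (nat_lit 4) (nat_lit 295) (nat_lit 254) (nat_lit 231))) (XT.nd (nat_lit 78) (nat_lit 76) (nat_lit 0) (XT.lf (nat_lit 0) (nat_lit 12658807499) (nat_lit 76) (nat_lit 10582616641) (nat_lit 76) (nat_lit 853277547) (nat_lit 9) (nat_lit 4) (nat_lit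 10) (nat_lit 5) (nat_lit 10) (nat_lit 4) (nat_lit 296) (nat_lit 254) (nat_lit 230)) (XT.lf (nat_lit 0) (nat_lit 2498684718) (nat_lit 152) (nat_lit 4667006053) (nat_lit 76) (nat_lit 18514096328) (nat_lit 8) (nat_lit 5) (nat_lit 10) (nat_lit 5) (nat_lit 9) (nat_lit 4) (nat_lit 297) (nat_lit 254) (nat_lit 229))))))))
noncomputable def xc39 : XT := (XT.nd (nat_lit 2184) (nat_lit 152) (nat_lit 0) (XT.nd (nat_lit 1092) (nat_lit 76) (nat_lit 0) (XT.nd (nat_lit 546) (nat_lit 152) (nat_lit 0) (XT.nd (nat_lit 234) (nat_lit 76) (nat_lit 0) (XT.nd (nat_lit 78) (nat_lit 0) (nat_lit 0) (XT.lf (nat_lit 0) (nat_lit 2620488846) (nat_lit 76) (nat_lit 3441864704) (nat_lit 152) (nat_lit 21328482386) (nat_lit 7) (nat_lit 5) (nat_lit 8) (nat_lit 5) (nat_lit 9) (nat_lit 4) (nat_lit 298) (nat_lit 254) (nat_lit 228)) (XT.nd (nat_lit 78) (nat_lit 0) (nat_lit 0) (XT.lf (nat_lit 0) (nat_lit 9983569178) (nat_lit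 152) (nat_lit 18622306106) (nat_lit 0) (nat_lit 627191148) (nat_lit 7) (nat_lit 5) (nat_lit 9) (nat_lit 4) (nat_lit 7) (nat_lit 4) (nat_lit 299) (nat_lit 254) (nat_lit 227)) (XT.lf (nat_lit 0) (nat_lit 14240833779) (nat_lit 152) (nat_lit 12194863192) (nat_lit 0) (nat_lit 4785277308) (nat_lit 7) (nat_lit 5) (nat_lit 9) (nat_lit 4) (nat_lit 7) (nat_lit 4) (nat_lit 300) (nat_lit 254) (nat_lit 226)))) (XT.nd (nat_lit 156) (nat_lit 0) (nat_lit 0) (XT.nd (nat_lit 78) (nat_lit 76) (nat_lit 0) (XT.lf (nat_lit 0) (nat_lit 18776598659) (nat_lit 152) (nat_lit 5367152869) (nat_lit 0) (nat_lit 9229210299) (nat_lit 7) (nat_lit 5) (nat_lit 9) (nat_lit 4) (nat_lit 7) (nat_lit 4) (nat_lit 301) (nat_lit 254) (nat_lit 225)) (XT.lf (nat_lit 0) (nat_lit 2001403684) (nat_lit 76) (nat_lit 21664472548) (nat_lit 76) (nat_lit 12032054660) (nat_lit 6) (nat_lit 4) (nat_lit 7) (nat_lit 5) (nat_lit 7) (nat_lit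 4) (nat_lit 302) (nat_lit 254) (nat_lit 224))) (XT.nd (nat_lit 78) (nat_lit 0) (nat_lit 0) (XT.lf (nat_lit 0) (nat_lit 10161861196) (nat_lit 76) (nat_lit 18875485147) (nat_lit 76) (nat_lit 9164336215) (nat_lit 6) (nat_lit 4) (nat_lit 7) (nat_lit 5) (nat_lit 7) (nat_lit 4) (nat_lit 303) (nat_lit 254) (nat_lit 223)) (XT.lf (nat_lit 0) (nat_lit 18879953173) (nat_lit 76) (nat_lit 15907009464) (nat_lit 76) (nat_lit 6122961418) (nat_lit 6) (nat_lit 4) (nat_lit 7) (nat_lit 5) (nat_lit 7) (nat_lit 4) (nat_lit 304) (nat_lit 254) (nat_lit 222))))) (XT.nd (nat_lit 234) (nat_lit 76) (nat_lit 0) (XT.nd (nat_lit 78) (nat_lit 76) (nat_lit 0) (XT.lf (nat_lit 0) (nat_lit 28207342383) (nat_lit 76) (nat_lit 12741454533) (nat_lit 76) (nat_lit 2889907307) (nat_lit 6) (nat_lit 4) (nat_lit 7) (nat_lit 5) (nat_lit 7) (nat_lit 4) (nat_lit 305) (nat_lit 254) (nat_lit 221)) (XT.nd (nat_lit 78) (nat_lit 0) (nat_lit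 0) (XT.lf (nat_lit 0) (nat_lit 526272385) (nat_lit 152) (nat_lit 8819399905) (nat_lit 76) (nat_lit 37658640637) (nat_lit 5) (nat_lit 5) (nat_lit 7) (nat_lit 5) (nat_lit 6) (nat_lit 4) (nat_lit 306) (nat_lit 254) (nat_lit 220)) (XT.lf (nat_lit 0) (nat_lit 4017565732) (nat_lit 152) (nat_lit 1615379410) (nat_lit 76) (nat_lit 44787631267) (nat_lit 5) (nat_lit 5) (nat_lit 7) (nat_lit 5) (nat_lit 6) (nat_lit 4) (nat_lit 307) (nat_lit 254) (nat_lit 219)))) (XT.nd (nat_lit 156) (nat_lit 0) (nat_lit 0) (XT.nd (nat_lit 78) (nat_lit 0) (nat_lit 0) (XT.lf (nat_lit 0) (nat_lit 6413733394) (nat_lit 76) (nat_lit 1489743795) (nat_lit 152) (nat_lit 46197482157) (nat_lit 4) (nat_lit 5) (nat_lit 5) (nat_lit 5) (nat_lit 6) (nat_lit 4) (nat_lit 308) (nat_lit 254) (nat_lit 218)) (XT.lf (nat_lit 0) (nat_lit 12178840534) (nat_lit 152) (nat_lit 43040654253) (nat_lit 0) (nat_lit 2850032133) (nat_lit 4) (nat_lit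 5) (nat_lit 6) (nat_lit 4) (nat_lit 4) (nat_lit 4) (nat_lit 309) (nat_lit 254) (nat_lit 217))) (XT.nd (nat_lit 78) (nat_lit 0) (nat_lit 0) (XT.lf (nat_lit 0) (nat_lit 16799258318) (nat_lit 152) (nat_lit 38128202904) (nat_lit 0) (nat_lit 7427913984) (nat_lit 4) (nat_lit 5) (nat_lit 6) (nat_lit 4) (nat_lit 4) (nat_lit 4) (nat_lit 310) (nat_lit 254) (nat_lit 216)) (XT.lf (nat_lit 0) (nat_lit 21756282421) (nat_lit 152) (nat_lit 32884932706) (nat_lit 0) (nat_lit 12345552964) (nat_lit 4) (nat_lit 5) (nat_lit 6) (nat_lit 4) (nat_lit 4) (nat_lit 4) (nat_lit 311) (nat_lit 254) (nat_lit 215)))))) (XT.nd (nat_lit 546) (nat_lit 0) (nat_lit 0) (XT.nd (nat_lit 234) (nat_lit 76) (nat_lit 0) (XT.nd (nat_lit 78) (nat_lit 0) (nat_lit 0) (XT.lf (nat_lit 0) (nat_lit 27079287801) (nat_lit 152) (nat_lit 27279772430) (nat_lit 0) (nat_lit 17632090637) (nat_lit 4) (nat_lit 5) (nat_lit 6) (nat_lit 4) (nat_lit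 4) (nat_lit 4) (nat_lit 312) (nat_lit 254) (nat_lit 214)) (XT.nd (nat_lit 78) (nat_lit 0) (nat_lit 0) (XT.lf (nat_lit 0) (nat_lit 32799818193) (nat_lit 152) (nat_lit 21279506310) (nat_lit 0) (nat_lit 23318854634) (nat_lit 4) (nat_lit 5) (nat_lit 6) (nat_lit 4) (nat_lit 4) (nat_lit 4) (nat_lit 313) (nat_lit 254) (nat_lit 213)) (XT.lf (nat_lit 0) (nat_lit 38951773037) (nat_lit 152) (nat_lit 14848577215) (nat_lit 0) (nat_lit 29439544297) (nat_lit 4) (nat_lit 5) (nat_lit 6) (nat_lit 4) (nat_lit 4) (nat_lit 4) (nat_lit 314) (nat_lit 254) (nat_lit 212)))) (XT.nd (nat_lit 156) (nat_lit 76) (nat_lit 0) (XT.nd (nat_lit 78) (nat_lit 0) (nat_lit 0) (XT.lf (nat_lit 0) (nat_lit 45571608361) (nat_lit 152) (nat_lit 7948875935) (nat_lit 0) (nat_lit 36030430379) (nat_lit 4) (nat_lit 5) (nat_lit 6) (nat_lit 4) (nat_lit 4) (nat_lit 4) (nat_lit 315) (nat_lit 254) (nat_lit 211)) (XT.lf (nat_lit 0) (nat_lit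 52698552818) (nat_lit 152) (nat_lit 539515351) (nat_lit 0) (nat_lit 43130569984) (nat_lit 4) (nat_lit 5) (nat_lit 6) (nat_lit 4) (nat_lit 4) (nat_lit 4) (nat_lit 316) (nat_lit 254) (nat_lit 210))) (XT.nd (nat_lit 78) (nat_lit 0) (nat_lit 0) (XT.lf (nat_lit 0) (nat_lit 7814315572) (nat_lit 76) (nat_lit 52748459060) (nat_lit 76) (nat_lit 43155656917) (nat_lit 3) (nat_lit 4) (nat_lit 4) (nat_lit 5) (nat_lit 4) (nat_lit 4) (nat_lit 317) (nat_lit 254) (nat_lit 209)) (XT.lf (nat_lit 0) (nat_lit 16828945419) (nat_lit 76) (nat_lit 52221750604) (nat_lit 76) (nat_lit 42605967619) (nat_lit 3) (nat_lit 4) (nat_lit 4) (nat_lit 5) (nat_lit 4) (nat_lit 4) (nat_lit 318) (nat_lit 254) (nat_lit 208))))) (XT.nd (nat_lit 234) (nat_lit 0) (nat_lit 0) (XT.nd (nat_lit 78) (nat_lit 0) (nat_lit 0) (XT.lf (nat_lit 0) (nat_lit 26529384297) (nat_lit 76) (nat_lit 51669572870) (nat_lit 76) (nat_lit 42032511329)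 (nat_lit 3) (nat_lit 4) (nat_lit 4) (nat_lit 5) (nat_lit 4) (nat_lit 4) (nat_lit 319) (nat_lit 254) (nat_lit 207)) (XT.nd (nat_lit 78) (nat_lit 0) (nat_lit 0) (XT.lf (nat_lit 0) (nat_lit 36973116288) (nat_lit 76) (nat_lit 51088653694) (nat_lit 76) (nat_lit 41431889786) (nat_lit 3) (nat_lit 4) (nat_lit 4) (nat_lit 5) (nat_lit 4) (nat_lit 4) (nat_lit 320) (nat_lit 254) (nat_lit 206)) (XT.lf (nat_lit 0) (nat_lit 48222030174) (nat_lit 76) (nat_lit 50475550593) (nat_lit 76) (nat_lit 40800543752) (nat_lit 3) (nat_lit 4) (nat_lit 4) (nat_lit 5) (nat_lit 4) (nat_lit 4) (nat_lit 321) (nat_lit 254) (nat_lit 205)))) (XT.nd (nat_lit 156) (nat_lit 0) (nat_lit 0) (XT.nd (nat_lit 78) (nat_lit 0) (nat_lit 0) (XT.lf (nat_lit 0) (nat_lit 60342786185) (nat_lit 76) (nat_lit 49826630362) (nat_lit 76) (nat_lit 40134731917) (nat_lit 3) (nat_lit 4) (nat_lit 4) (nat_lit 5) (nat_lit 4) (nat_lit 4) (nat_lit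 322) (nat_lit 254) (nat_lit 204)) (XT.lf (nat_lit 0) (nat_lit 73407211023) (nat_lit 76) (nat_lit 49138047550) (nat_lit 76) (nat_lit 39430508730) (nat_lit 3) (nat_lit 4) (nat_lit 4) (nat_lit 5) (nat_lit 4) (nat_lit 4) (nat_lit 323) (nat_lit 254) (nat_lit 203))) (XT.nd (nat_lit 78) (nat_lit 0) (nat_lit 0) (XT.lf (nat_lit 0) (nat_lit 87492723503) (nat_lit 76) (nat_lit 48405721664) (nat_lit 76) (nat_lit 38683701016) (nat_lit 3) (nat_lit 4) (nat_lit 4) (nat_lit 5) (nat_lit 4) (nat_lit 4) (nat_lit 324) (nat_lit 254) (nat_lit 202)) (XT.lf (nat_lit 0) (nat_lit 102682793329) (nat_lit 76) (nat_lit 47625312996) (nat_lit 76) (nat_lit 37889883248) (nat_lit 3) (nat_lit 4) (nat_lit 4) (nat_lit 5) (nat_lit 4) (nat_lit 4) (nat_lit 325) (nat_lit 254) (nat_lit 201))))))) (XT.nd (nat_lit 1092) (nat_lit 152) (nat_lit 0) (XT.nd (nat_lit 546) (nat_lit 0) (nat_lit 0) (XT.nd (nat_lit 234) (nat_lit 0) (nat_lit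 0) (XT.nd (nat_lit 78) (nat_lit 0) (nat_lit 0) (XT.lf (nat_lit 0) (nat_lit 119067435728) (nat_lit 76) (nat_lit 46792196902) (nat_lit 76) (nat_lit 37044351321) (nat_lit 3) (nat_lit 4) (nat_lit 4) (nat_lit 5) (nat_lit 4) (nat_lit 4) (nat_lit 326) (nat_lit 254) (nat_lit 200)) (XT.nd (nat_lit 78) (nat_lit 0) (nat_lit 0) (XT.lf (nat_lit 0) (nat_lit 136743744877) (nat_lit 76) (nat_lit 45901436398) (nat_lit 76) (nat_lit 36142094674) (nat_lit 3) (nat_lit 4) (nat_lit 4) (nat_lit 5) (nat_lit 4) (nat_lit 4) (nat_lit 327) (nat_lit 254) (nat_lit 199)) (XT.lf (nat_lit 0) (nat_lit 155816469277) (nat_lit 76) (nat_lit 44947752902) (nat_lit 76) (nat_lit 35177766603) (nat_lit 3) (nat_lit 4) (nat_lit 4) (nat_lit 5) (nat_lit 4) (nat_lit 4) (nat_lit 328) (nat_lit 254) (nat_lit 198)))) (XT.nd (nat_lit 156) (nat_lit 0) (nat_lit 0) (XT.nd (nat_lit 78) (nat_lit 0) (nat_lit 0) (XT.lf (nat_lit 0) (nat_lit 176398632477)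 (nat_lit 76) (nat_lit 43925494958) (nat_lit 76) (nat_lit 34145652570) (nat_lit 3) (nat_lit 4) (nat_lit 4) (nat_lit 5) (nat_lit 4) (nat_lit 4) (nat_lit 329) (nat_lit 254) (nat_lit 197)) (XT.lf (nat_lit 0) (nat_lit 198612202854) (nat_lit 76) (nat_lit 42828604740) (nat_lit 76) (nat_lit 33039636344) (nat_lit 3) (nat_lit 4) (nat_lit 4) (nat_lit 5) (nat_lit 4) (nat_lit 4) (nat_lit 330) (nat_lit 254) (nat_lit 196))) (XT.nd (nat_lit 78) (nat_lit 0) (nat_lit 0) (XT.lf (nat_lit 0) (nat_lit 222588816380) (nat_lit 76) (nat_lit 41650582158) (nat_lit 76) (nat_lit 31853163755) (nat_lit 3) (nat_lit 4) (nat_lit 4) (nat_lit 5) (nat_lit 4) (nat_lit 4) (nat_lit 331) (nat_lit 254) (nat_lit 195)) (XT.lf (nat_lit 0) (nat_lit 248470556690) (nat_lit 76) (nat_lit 40384446338) (nat_lit 76) (nat_lit 30579203853) (nat_lit 3) (nat_lit 4) (nat_lit 4) (nat_lit 5) (nat_lit 4) (nat_lit 4) (nat_lit 332) (nat_lit 254)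 (nat_lit 194))))) (XT.nd (nat_lit 234) (nat_lit 0) (nat_lit 0) (XT.nd (nat_lit 78) (nat_lit 0) (nat_lit 0) (XT.lf (nat_lit 0) (nat_lit 276410797060) (nat_lit 76) (nat_lit 39022694253) (nat_lit 76) (nat_lit 29210207248) (nat_lit 3) (nat_lit 4) (nat_lit 4) (nat_lit 5) (nat_lit 4) (nat_lit 4) (nat_lit 333) (nat_lit 254) (nat_lit 193)) (XT.nd (nat_lit 78) (nat_lit 0) (nat_lit 0) (XT.lf (nat_lit 0) (nat_lit 306575109285) (nat_lit 76) (nat_lit 37557256260) (nat_lit 76) (nat_lit 27738061367) (nat_lit 3) (nat_lit 4) (nat_lit 4) (nat_lit 5) (nat_lit 4) (nat_lit 4) (nat_lit 334) (nat_lit 254) (nat_lit 192)) (XT.lf (nat_lit 0) (nat_lit 339142244845) (nat_lit 76) (nat_lit 35979448282) (nat_lit 76) (nat_lit 26154042381) (nat_lit 3) (nat_lit 4) (nat_lit 4) (nat_lit 5) (nat_lit 4) (nat_lit 4) (nat_lit 335) (nat_lit 254) (nat_lit 191)))) (XT.nd (nat_lit 156) (nat_lit 0) (nat_lit 0) (XT.nd (nat_lit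 78) (nat_lit 0) (nat_lit 0) (XT.lf (nat_lit 0) (nat_lit 374305194173) (nat_lit 76) (nat_lit 34279920347) (nat_lit 76) (nat_lit 24448763513) (nat_lit 3) (nat_lit 4) (nat_lit 4) (nat_lit 5) (nat_lit 4) (nat_lit 4) (nat_lit 336) (nat_lit 254) (nat_lit 190)) (XT.lf (nat_lit 0) (nat_lit 412272330302) (nat_lit 76) (nat_lit 32448601178) (nat_lit 76) (nat_lit 22612119405) (nat_lit 3) (nat_lit 4) (nat_lit 4) (nat_lit 5) (nat_lit 4) (nat_lit 4) (nat_lit 337) (nat_lit 254) (nat_lit 189))) (XT.nd (nat_lit 78) (nat_lit 0) (nat_lit 0) (XT.lf (nat_lit 0) (nat_lit 453268643668) (nat_lit 76) (nat_lit 30474638512) (nat_lit 76) (nat_lit 20633226242) (nat_lit 3) (nat_lit 4) (nat_lit 4) (nat_lit 5) (nat_lit 4) (nat_lit 4) (nat_lit 338) (nat_lit 254) (nat_lit 188)) (XT.lf (nat_lit 0) (nat_lit 497537075387) (nat_lit 76) (nat_lit 28346334794) (nat_lit 76) (nat_lit 18500357247) (nat_lit 3) (nat_lit 4) (nat_lit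 4) (nat_lit 5) (nat_lit 4) (nat_lit 4) (nat_lit 339) (nat_lit 254) (nat_lit 187)))))) (XT.nd (nat_lit 546) (nat_lit 76) (nat_lit 0) (XT.nd (nat_lit 234) (nat_lit 76) (nat_lit 0) (XT.nd (nat_lit 78) (nat_lit 0) (nat_lit 0) (XT.lf (nat_lit 0) (nat_lit 545339956907) (nat_lit 76) (nat_lit 26051077853) (nat_lit 76) (nat_lit 16200873199) (nat_lit 3) (nat_lit 4) (nat_lit 4) (nat_lit 5) (nat_lit 4) (nat_lit 4) (nat_lit 340) (nat_lit 254) (nat_lit 186)) (XT.nd (nat_lit 78) (nat_lit 0) (nat_lit 0) (XT.lf (nat_lit 0) (nat_lit 596960564563) (nat_lit 76) (nat_lit 23575266167) (nat_lit 76) (nat_lit 13721147524) (nat_lit 3) (nat_lit 4) (nat_lit 4) (nat_lit 5) (nat_lit 4) (nat_lit 4) (nat_lit 341) (nat_lit 254) (nat_lit 185)) (XT.lf (nat_lit 0) (nat_lit 652704798252) (nat_lit 76) (nat_lit 20904228258) (nat_lit 76) (nat_lit 11046485552) (nat_lit 3) (nat_lit 4) (nat_lit 4) (nat_lit 5) (nat_lit 4) (nat_lit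 4) (nat_lit 342) (nat_lit 254) (nat_lit 184)))) (XT.nd (nat_lit 156) (nat_lit 76) (nat_lit 0) (XT.nd (nat_lit 78) (nat_lit 0) (nat_lit 0) (XT.lf (nat_lit 0) (nat_lit 712902994173) (nat_lit 76) (nat_lit 18022135755) (nat_lit 76) (nat_lit 8161037435) (nat_lit 3) (nat_lit 4) (nat_lit 4) (nat_lit 5) (nat_lit 4) (nat_lit 4) (nat_lit 343) (nat_lit 254) (nat_lit 183)) (XT.lf (nat_lit 0) (nat_lit 777911882377) (nat_lit 76) (nat_lit 14911909590) (nat_lit 76) (nat_lit 5047704219) (nat_lit 3) (nat_lit 4) (nat_lit 4) (nat_lit 5) (nat_lit 4) (nat_lit 4) (nat_lit 344) (nat_lit 254) (nat_lit 182))) (XT.nd (nat_lit 78) (nat_lit 76) (nat_lit 0) (XT.lf (nat_lit 0) (nat_lit 848116700719) (nat_lit 76) (nat_lit 11555118794) (nat_lit 76) (nat_lit 1688036525) (nat_lit 3) (nat_lit 4) (nat_lit 4) (nat_lit 5) (nat_lit 4) (nat_lit 4) (nat_lit 345) (nat_lit 254) (nat_lit 181)) (XT.lf (nat_lit 0) (nat_lit 1840934445)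 (nat_lit 152) (nat_lit 6040602417) (nat_lit 76) (nat_lit 922042208897) (nat_lit 2) (nat_lit 5) (nat_lit 4) (nat_lit 5) (nat_lit 3) (nat_lit 4) (nat_lit 346) (nat_lit 254) (nat_lit 180))))) (XT.nd (nat_lit 312) (nat_lit 0) (nat_lit 0) (XT.nd (nat_lit 156) (nat_lit 0) (nat_lit 0) (XT.nd (nat_lit 78) (nat_lit 0) (nat_lit 0) (XT.lf (nat_lit 0) (nat_lit 1779088790) (nat_lit 76) (nat_lit 3822498387) (nat_lit 152) (nat_lit 998364408924) (nat_lit 1) (nat_lit 5) (nat_lit 2) (nat_lit 5) (nat_lit 3) (nat_lit 4) (nat_lit 347) (nat_lit 254) (nat_lit 179)) (XT.lf (nat_lit 0) (nat_lit 9843834973) (nat_lit 152) (nat_lit 1073372551100) (nat_lit 0) (nat_lit 700782829) (nat_lit 1) (nat_lit 5) (nat_lit 3) (nat_lit 4) (nat_lit 1) (nat_lit 4) (nat_lit 348) (nat_lit 254) (nat_lit 178))) (XT.nd (nat_lit 78) (nat_lit 0) (nat_lit 0) (XT.lf (nat_lit 0) (nat_lit 14522705471) (nat_lit 152) (nat_lit 1150356256983)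 (nat_lit 0) (nat_lit 5377695358) (nat_lit 1) (nat_lit 5) (nat_lit 3) (nat_lit 4) (nat_lit 1) (nat_lit 4) (nat_lit 349) (nat_lit 254) (nat_lit 177)) (XT.lf (nat_lit 0) (nat_lit 19573994135) (nat_lit 152) (nat_lit 1233502293522) (nat_lit 0) (nat_lit 10427171089) (nat_lit 1) (nat_lit 5) (nat_lit 3) (nat_lit 4) (nat_lit 1) (nat_lit 4) (nat_lit 350) (nat_lit 254) (nat_lit 176)))) (XT.nd (nat_lit 156) (nat_lit 0) (nat_lit 0) (XT.nd (nat_lit 78) (nat_lit 0) (nat_lit 0) (XT.lf (nat_lit 0) (nat_lit 25027634528) (nat_lit 152) (nat_lit 1323303377970) (nat_lit 0) (nat_lit 15879132838) (nat_lit 1) (nat_lit 5) (nat_lit 3) (nat_lit 4) (nat_lit 1) (nat_lit 4) (nat_lit 351) (nat_lit 254) (nat_lit 175)) (XT.lf (nat_lit 0) (nat_lit 30915944517) (nat_lit 152) (nat_lit 1420291664902) (nat_lit 0) (nat_lit 21765888529) (nat_lit 1) (nat_lit 5) (nat_lit 3) (nat_lit 4) (nat_lit 1) (nat_lit 4) (nat_lit 352)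 (nat_lit 254) (nat_lit 174))) (XT.nd (nat_lit 78) (nat_lit 0) (nat_lit 0) (XT.lf (nat_lit 0) (nat_lit 37273817793) (nat_lit 152) (nat_lit 1525041899722) (nat_lit 0) (nat_lit 28122322640) (nat_lit 1) (nat_lit 5) (nat_lit 3) (nat_lit 4) (nat_lit 1) (nat_lit 4) (nat_lit 353) (nat_lit 254) (nat_lit 173)) (XT.lf (nat_lit 0) (nat_lit 44138930641) (nat_lit 152) (nat_lit 1638174824563) (nat_lit 0) (nat_lit 34986102927) (nat_lit 1) (nat_lit 5) (nat_lit 3) (nat_lit 4) (nat_lit 1) (nat_lit 4) (nat_lit 354) (nat_lit 254) (nat_lit 172))))))))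
noncomputable def xc40 : XT := (XT.nd (nat_lit 35412) (nat_lit 0) (nat_lit 228) (XT.nd (nat_lit 34320) (nat_lit 0) (nat_lit 988) (XT.nd (nat_lit 546) (nat_lit 0) (nat_lit 0) (XT.nd (nat_lit 234) (nat_lit 0) (nat_lit 0) (XT.nd (nat_lit 78) (nat_lit 0) (nat_lit 0) (XT.lf (nat_lit 0) (nat_lit 51551965211) (nat_lit 152) (nat_lit 1760360856756) (nat_lit 0) (nat_lit 42397903644) (nat_lit 1) (nat_lit 5) (nat_lit 3) (nat_lit 4) (nat_lit 1) (nat_lit 4) (nat_lit 355) (nat_lit 254) (nat_lit 171)) (XT.nd (nat_lit 78) (nat_lit 0) (nat_lit 0) (XT.lf (nat_lit 0) (nat_lit 59556850597) (nat_lit 152) (nat_lit 1892324061677) (nat_lit 0) (nat_lit 50401646575) (nat_lit 1) (nat_lit 5) (nat_lit 3) (nat_lit 4) (nat_lit 1) (nat_lit 4) (nat_lit 356) (nat_lit 254) (nat_lit 170)) (XT.lf (nat_lit 0) (nat_lit 68201023157) (nat_lit 152) (nat_lit 2034846443504) (nat_lit 0) (nat_lit 59044761305) (nat_lit 1) (nat_lit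 5) (nat_lit 3) (nat_lit 4) (nat_lit 1) (nat_lit 4) (nat_lit 357) (nat_lit 254) (nat_lit 169)))) (XT.nd (nat_lit 156) (nat_lit 0) (nat_lit 0) (XT.nd (nat_lit 78) (nat_lit 0) (nat_lit 0) (XT.lf (nat_lit 0) (nat_lit 77535707617) (nat_lit 152) (nat_lit 2188772579315) (nat_lit 0) (nat_lit 68378466294) (nat_lit 1) (nat_lit 5) (nat_lit 3) (nat_lit 4) (nat_lit 1) (nat_lit 4) (nat_lit 358) (nat_lit 254) (nat_lit 168)) (XT.lf (nat_lit 0) (nat_lit 87616220626) (nat_lit 152) (nat_lit 2355014623988) (nat_lit 0) (nat_lit 78458072384) (nat_lit 1) (nat_lit 5) (nat_lit 3) (nat_lit 4) (nat_lit 1) (nat_lit 4) (nat_lit 359) (nat_lit 254) (nat_lit 167))) (XT.nd (nat_lit 78) (nat_lit 0) (nat_lit 0) (XT.lf (nat_lit 0) (nat_lit 98502298557) (nat_lit 152) (nat_lit 2534557715566) (nat_lit 0) (nat_lit 89343310576) (nat_lit 1) (nat_lit 5) (nat_lit 3) (nat_lit 4) (nat_lit 1) (nat_lit 4) (nat_lit 360) (nat_lit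 254) (nat_lit 166)) (XT.lf (nat_lit 0) (nat_lit 110258451502) (nat_lit 152) (nat_lit 2728465813109) (nat_lit 0) (nat_lit 101098685985) (nat_lit 1) (nat_lit 5) (nat_lit 3) (nat_lit 4) (nat_lit 1) (nat_lit 4) (nat_lit 361) (nat_lit 254) (nat_lit 165))))) (XT.nd (nat_lit 33462) (nat_lit 0) (nat_lit 2584) (XT.nd (nat_lit 78) (nat_lit 0) (nat_lit 0) (XT.lf (nat_lit 0) (nat_lit 122954345553) (nat_lit 152) (nat_lit 2937888001641) (nat_lit 0) (nat_lit 113793860094) (nat_lit 1) (nat_lit 5) (nat_lit 3) (nat_lit 4) (nat_lit 1) (nat_lit 4) (nat_lit 362) (nat_lit 254) (nat_lit 164)) (XT.nd (nat_lit 78) (nat_lit 0) (nat_lit 0) (XT.lf (nat_lit 0) (nat_lit 136665215636) (nat_lit 152) (nat_lit 3164065301538) (nat_lit 0) (nat_lit 127504063565) (nat_lit 1) (nat_lit 5) (nat_lit 3) (nat_lit 4) (nat_lit 1) (nat_lit 4) (nat_lit 363) (nat_lit 254) (nat_lit 163)) (XT.lf (nat_lit 0) (nat_lit 151472311352) (nat_lit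 152) (nat_lit 3408338022726) (nat_lit 0) (nat_lit 142310542048) (nat_lit 1) (nat_lit 5) (nat_lit 3) (nat_lit 4) (nat_lit 1) (nat_lit 4) (nat_lit 364) (nat_lit 254) (nat_lit 162)))) (XT.nd (nat_lit 156) (nat_lit 304) (nat_lit 0) (XT.nd (nat_lit 78) (nat_lit 532) (nat_lit 0) (XT.lf (nat_lit 0) (nat_lit 2488834792) (nat_lit 380) (nat_lit 563330103) (nat_lit 380) (nat_lit 563330103) (nat_lit 46) (nat_lit 4) (nat_lit 51) (nat_lit 5) (nat_lit 51) (nat_lit 4) (nat_lit 270) (nat_lit 255) (nat_lit 255)) (XT.lf (nat_lit 0) (nat_lit 2027453687) (nat_lit 532) (nat_lit 4817482293) (nat_lit 0) (nat_lit 561066296) (nat_lit 39) (nat_lit 5) (nat_lit 46) (nat_lit 4) (nat_lit 39) (nat_lit 4) (nat_lit 271) (nat_lit 255) (nat_lit 254))) (XT.nd (nat_lit 78) (nat_lit 76) (nat_lit 0) (XT.lf (nat_lit 0) (nat_lit 28996829) (nat_lit 228) (nat_lit 5200262162) (nat_lit 228) (nat_lit 2376108668) (nat_lit 36) (nat_lit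 4) (nat_lit 39) (nat_lit 5) (nat_lit 39) (nat_lit 4) (nat_lit 272) (nat_lit 255) (nat_lit 253)) (XT.lf (nat_lit 0) (nat_lit 725735717) (nat_lit 304) (nat_lit 2571814036) (nat_lit 76) (nat_lit 4530282524) (nat_lit 35) (nat_lit 5) (nat_lit 39) (nat_lit 5) (nat_lit 36) (nat_lit 4) (nat_lit 273) (nat_lit 255) (nat_lit 252)))))) (XT.nd (nat_lit 546) (nat_lit 532) (nat_lit 0) (XT.nd (nat_lit 234) (nat_lit 532) (nat_lit 0) (XT.nd (nat_lit 78) (nat_lit 304) (nat_lit 0) (XT.lf (nat_lit 0) (nat_lit 2649701231) (nat_lit 228) (nat_lit 1146025282) (nat_lit 304) (nat_lit 4280506581) (nat_lit 32) (nat_lit 5) (nat_lit 35) (nat_lit 5) (nat_lit 36) (nat_lit 4) (nat_lit 274) (nat_lit 255) (nat_lit 251)) (XT.nd (nat_lit 78) (nat_lit 304) (nat_lit 0) (XT.lf (nat_lit 0) (nat_lit 7005399780) (nat_lit 304) (nat_lit 197915371) (nat_lit 0) (nat_lit 1150540126) (nat_lit 32) (nat_lit 5) (nat_lit 36) (nat_lit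 4) (nat_lit 32) (nat_lit 4) (nat_lit 275) (nat_lit 255) (nat_lit 250)) (XT.lf (nat_lit 0) (nat_lit 1695326414) (nat_lit 304) (nat_lit 3252653506) (nat_lit 76) (nat_lit 3705510689) (nat_lit 28) (nat_lit 5) (nat_lit 32) (nat_lit 5) (nat_lit 29) (nat_lit 4) (nat_lit 276) (nat_lit 255) (nat_lit 249)))) (XT.nd (nat_lit 156) (nat_lit 380) (nat_lit 0) (XT.nd (nat_lit 78) (nat_lit 0) (nat_lit 0) (XT.lf (nat_lit 0) (nat_lit 2313722716) (nat_lit 152) (nat_lit 2469103304) (nat_lit 228) (nat_lit 4202318784) (nat_lit 26) (nat_lit 5) (nat_lit 28) (nat_lit 5) (nat_lit 29) (nat_lit 4) (nat_lit 277) (nat_lit 255) (nat_lit 248)) (XT.lf (nat_lit 0) (nat_lit 8032037674) (nat_lit 228) (nat_lit 1089314438) (nat_lit 0) (nat_lit 229446112) (nat_lit 26) (nat_lit 5) (nat_lit 29) (nat_lit 4) (nat_lit 26) (nat_lit 4) (nat_lit 278) (nat_lit 255) (nat_lit 247))) (XT.nd (nat_lit 78) (nat_lit 152) (nat_lit 0) (XT.lf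 (nat_lit 0) (nat_lit 1718910930) (nat_lit 228) (nat_lit 4906477916) (nat_lit 76) (nat_lit 3116352890) (nat_lit 23) (nat_lit 5) (nat_lit 26) (nat_lit 5) (nat_lit 24) (nat_lit 4) (nat_lit 279) (nat_lit 255) (nat_lit 246)) (XT.lf (nat_lit 0) (nat_lit 903931298) (nat_lit 152) (nat_lit 3910805416) (nat_lit 228) (nat_lit 5356083814) (nat_lit 21) (nat_lit 5) (nat_lit 23) (nat_lit 5) (nat_lit 24) (nat_lit 4) (nat_lit 280) (nat_lit 255) (nat_lit 245))))) (XT.nd (nat_lit 234) (nat_lit 304) (nat_lit 0) (XT.nd (nat_lit 78) (nat_lit 228) (nat_lit 0) (XT.lf (nat_lit 0) (nat_lit 7223855627) (nat_lit 152) (nat_lit 909269038) (nat_lit 228) (nat_lit 2503582524) (nat_lit 21) (nat_lit 5) (nat_lit 23) (nat_lit 5) (nat_lit 24) (nat_lit 4) (nat_lit 281) (nat_lit 255) (nat_lit 244)) (XT.nd (nat_lit 78) (nat_lit 0) (nat_lit 0) (XT.lf (nat_lit 0) (nat_lit 520583083) (nat_lit 228) (nat_lit 8391475407) (nat_lit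 76) (nat_lit 2229314929) (nat_lit 18) (nat_lit 5) (nat_lit 21) (nat_lit 5) (nat_lit 19) (nat_lit 4) (nat_lit 282) (nat_lit 255) (nat_lit 243)) (XT.lf (nat_lit 0) (nat_lit 3623248643) (nat_lit 228) (nat_lit 2400197504) (nat_lit 76) (nat_lit 5660394219) (nat_lit 18) (nat_lit 5) (nat_lit 21) (nat_lit 5) (nat_lit 19) (nat_lit 4) (nat_lit 283) (nat_lit 255) (nat_lit 242)))) (XT.nd (nat_lit 156) (nat_lit 228) (nat_lit 0) (XT.nd (nat_lit 78) (nat_lit 0) (nat_lit 0) (XT.lf (nat_lit 0) (nat_lit 4060603175) (nat_lit 76) (nat_lit 2874580650) (nat_lit 152) (nat_lit 5337984188) (nat_lit 17) (nat_lit 5) (nat_lit 18) (nat_lit 5) (nat_lit 19) (nat_lit 4) (nat_lit 284) (nat_lit 255) (nat_lit 241)) (XT.lf (nat_lit 0) (nat_lit 10458756754) (nat_lit 152) (nat_lit 1960510416) (nat_lit 0) (nat_lit 494962156) (nat_lit 17) (nat_lit 5) (nat_lit 19) (nat_lit 4) (nat_lit 17) (nat_lit 4) (nat_lit 285) (nat_lit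 255) (nat_lit 240))) (XT.nd (nat_lit 78) (nat_lit 0) (nat_lit 0) (XT.lf (nat_lit 0) (nat_lit 691741778) (nat_lit 228) (nat_lit 8864751348) (nat_lit 76) (nat_lit 4043733286) (nat_lit 14) (nat_lit 5) (nat_lit 17) (nat_lit 5) (nat_lit 15) (nat_lit 4) (nat_lit 286) (nat_lit 255) (nat_lit 239)) (XT.lf (nat_lit 0) (nat_lit 3890732367) (nat_lit 228) (nat_lit 2525461709) (nat_lit 76) (nat_lit 7925449920) (nat_lit 14) (nat_lit 5) (nat_lit 17) (nat_lit 5) (nat_lit 15) (nat_lit 4) (nat_lit 287) (nat_lit 255) (nat_lit 238))))))) (XT.nd (nat_lit 1092) (nat_lit 228) (nat_lit 0) (XT.nd (nat_lit 546) (nat_lit 228) (nat_lit 0) (XT.nd (nat_lit 234) (nat_lit 152) (nat_lit 0) (XT.nd (nat_lit 78) (nat_lit 76) (nat_lit 0) (XT.lf (nat_lit 0) (nat_lit 4351511240) (nat_lit 76) (nat_lit 2985509219) (nat_lit 152) (nat_lit 7806281012) (nat_lit 13) (nat_lit 5) (nat_lit 14) (nat_lit 5) (nat_lit 15) (nat_lit 4)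 (nat_lit 288) (nat_lit 255) (nat_lit 237)) (XT.nd (nat_lit 78) (nat_lit 76) (nat_lit 0) (XT.lf (nat_lit 0) (nat_lit 11036132373) (nat_lit 152) (nat_lit 4290005377) (nat_lit 0) (nat_lit 685003339) (nat_lit 13) (nat_lit 5) (nat_lit 15) (nat_lit 4) (nat_lit 13) (nat_lit 4) (nat_lit 289) (nat_lit 255) (nat_lit 236)) (XT.lf (nat_lit 0) (nat_lit 2609346949) (nat_lit 76) (nat_lit 12459320844) (nat_lit 76) (nat_lit 1876943490) (nat_lit 12) (nat_lit 4) (nat_lit 13) (nat_lit 5) (nat_lit 13) (nat_lit 4) (nat_lit 290) (nat_lit 255) (nat_lit 235)))) (XT.nd (nat_lit 156) (nat_lit 76) (nat_lit 0) (XT.nd (nat_lit 78) (nat_lit 0) (nat_lit 0) (XT.lf (nat_lit 0) (nat_lit 1413762311) (nat_lit 152) (nat_lit 7855870560) (nat_lit 76) (nat_lit 8681091617) (nat_lit 11) (nat_lit 5) (nat_lit 13) (nat_lit 5) (nat_lit 12) (nat_lit 4) (nat_lit 291) (nat_lit 255) (nat_lit 234)) (XT.lf (nat_lit 0) (nat_lit 4771817198)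 (nat_lit 152) (nat_lit 1069374557) (nat_lit 76) (nat_lit 13198876271) (nat_lit 11) (nat_lit 5) (nat_lit 13) (nat_lit 5) (nat_lit 12) (nat_lit 4) (nat_lit 292) (nat_lit 255) (nat_lit 233))) (XT.nd (nat_lit 78) (nat_lit 0) (nat_lit 0) (XT.lf (nat_lit 0) (nat_lit 6430247503) (nat_lit 76) (nat_lit 2035413172) (nat_lit 152) (nat_lit 11745676025) (nat_lit 10) (nat_lit 5) (nat_lit 11) (nat_lit 5) (nat_lit 12) (nat_lit 4) (nat_lit 293) (nat_lit 255) (nat_lit 232)) (XT.lf (nat_lit 0) (nat_lit 12448820787) (nat_lit 152) (nat_lit 7086984922) (nat_lit 0) (nat_lit 1941134564) (nat_lit 10) (nat_lit 5) (nat_lit 12) (nat_lit 4) (nat_lit 10) (nat_lit 4) (nat_lit 294) (nat_lit 255) (nat_lit 231))))) (XT.nd (nat_lit 234) (nat_lit 76) (nat_lit 0) (XT.nd (nat_lit 78) (nat_lit 152) (nat_lit 0) (XT.lf (nat_lit 0) (nat_lit 16723789971) (nat_lit 152) (nat_lit 51899485) (nat_lit 0) (nat_lit 6070378081) (nat_lit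 10) (nat_lit 5) (nat_lit 12) (nat_lit 4) (nat_lit 10) (nat_lit 4) (nat_lit 295) (nat_lit 255) (nat_lit 230)) (XT.nd (nat_lit 78) (nat_lit 76) (nat_lit 0) (XT.lf (nat_lit 0) (nat_lit 7805258908) (nat_lit 76) (nat_lit 13649407399) (nat_lit 76) (nat_lit 2861064336) (nat_lit 9) (nat_lit 4) (nat_lit 10) (nat_lit 5) (nat_lit 10) (nat_lit 4) (nat_lit 296) (nat_lit 255) (nat_lit 229)) (XT.lf (nat_lit 0) (nat_lit 556059554) (nat_lit 152) (nat_lit 9756675462) (nat_lit 76) (nat_lit 15594814920) (nat_lit 8) (nat_lit 5) (nat_lit 10) (nat_lit 5) (nat_lit 9) (nat_lit 4) (nat_lit 297) (nat_lit 255) (nat_lit 228)))) (XT.nd (nat_lit 156) (nat_lit 0) (nat_lit 0) (XT.nd (nat_lit 78) (nat_lit 76) (nat_lit 0) (XT.lf (nat_lit 0) (nat_lit 4024042602) (nat_lit 152) (nat_lit 2658952455) (nat_lit 76) (nat_lit 20943303778) (nat_lit 8) (nat_lit 5) (nat_lit 10) (nat_lit 5) (nat_lit 9) (nat_lit 4) (nat_lit 298)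 (nat_lit 255) (nat_lit 227)) (XT.lf (nat_lit 0) (nat_lit 5151253072) (nat_lit 76) (nat_lit 2679192531) (nat_lit 152) (nat_lit 21647310588) (nat_lit 7) (nat_lit 5) (nat_lit 8) (nat_lit 5) (nat_lit 9) (nat_lit 4) (nat_lit 299) (nat_lit 255) (nat_lit 226))) (XT.nd (nat_lit 78) (nat_lit 0) (nat_lit 0) (XT.lf (nat_lit 0) (nat_lit 11993428978) (nat_lit 152) (nat_lit 17889398650) (nat_lit 0) (nat_lit 1590417659) (nat_lit 7) (nat_lit 5) (nat_lit 9) (nat_lit 4) (nat_lit 7) (nat_lit 4) (nat_lit 300) (nat_lit 255) (nat_lit 225)) (XT.lf (nat_lit 0) (nat_lit 16501558135) (nat_lit 152) (nat_lit 11112404151) (nat_lit 0) (nat_lit 6013517289) (nat_lit 7) (nat_lit 5) (nat_lit 9) (nat_lit 4) (nat_lit 7) (nat_lit 4) (nat_lit 301) (nat_lit 255) (nat_lit 224)))))) (XT.nd (nat_lit 546) (nat_lit 76) (nat_lit 0) (XT.nd (nat_lit 234) (nat_lit 76) (nat_lit 0) (XT.nd (nat_lit 78) (nat_lit 76) (nat_lit 0) (XT.lf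 (nat_lit 0) (nat_lit 21317113268) (nat_lit 152) (nat_lit 3890925010) (nat_lit 0) (nat_lit 10750341378) (nat_lit 7) (nat_lit 5) (nat_lit 9) (nat_lit 4) (nat_lit 7) (nat_lit 4) (nat_lit 302) (nat_lit 255) (nat_lit 223)) (XT.nd (nat_lit 78) (nat_lit 0) (nat_lit 0) (XT.lf (nat_lit 0) (nat_lit 4018873028) (nat_lit 76) (nat_lit 22546411966) (nat_lit 76) (nat_lit 11906740961) (nat_lit 6) (nat_lit 4) (nat_lit 7) (nat_lit 5) (nat_lit 7) (nat_lit 4) (nat_lit 303) (nat_lit 255) (nat_lit 222)) (XT.lf (nat_lit 0) (nat_lit 12694585137) (nat_lit 76) (nat_lit 19597358786) (nat_lit 76) (nat_lit 8890188601) (nat_lit 6) (nat_lit 4) (nat_lit 7) (nat_lit 5) (nat_lit 7) (nat_lit 4) (nat_lit 304) (nat_lit 255) (nat_lit 221)))) (XT.nd (nat_lit 156) (nat_lit 76) (nat_lit 0) (XT.nd (nat_lit 78) (nat_lit 0) (nat_lit 0) (XT.lf (nat_lit 0) (nat_lit 21982733728) (nat_lit 76) (nat_lit 16449787655) (nat_lit 76) (nat_lit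 5680118229) (nat_lit 6) (nat_lit 4) (nat_lit 7) (nat_lit 5) (nat_lit 7) (nat_lit 4) (nat_lit 305) (nat_lit 255) (nat_lit 220)) (XT.lf (nat_lit 0) (nat_lit 31938359682) (nat_lit 76) (nat_lit 13085046297) (nat_lit 76) (nat_lit 2257507204) (nat_lit 6) (nat_lit 4) (nat_lit 7) (nat_lit 5) (nat_lit 7) (nat_lit 4) (nat_lit 306) (nat_lit 255) (nat_lit 219))) (XT.nd (nat_lit 78) (nat_lit 0) (nat_lit 0) (XT.lf (nat_lit 0) (nat_lit 1327996661) (nat_lit 152) (nat_lit 8118889063) (nat_lit 76) (nat_lit 41256152857) (nat_lit 5) (nat_lit 5) (nat_lit 7) (nat_lit 5) (nat_lit 6) (nat_lit 4) (nat_lit 307) (nat_lit 255) (nat_lit 218)) (XT.lf (nat_lit 0) (nat_lit 5042325143) (nat_lit 152) (nat_lit 442699731) (nat_lit 76) (nat_lit 48912142665) (nat_lit 5) (nat_lit 5) (nat_lit 7) (nat_lit 5) (nat_lit 6) (nat_lit 4) (nat_lit 308) (nat_lit 255) (nat_lit 217))))) (XT.nd (nat_lit 234) (nat_lit 0) (nat_lit 0)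 (XT.nd (nat_lit 78) (nat_lit 0) (nat_lit 0) (XT.lf (nat_lit 0) (nat_lit 8195782350) (nat_lit 76) (nat_lit 1021745144) (nat_lit 152) (nat_lit 49156238449) (nat_lit 4) (nat_lit 5) (nat_lit 5) (nat_lit 5) (nat_lit 6) (nat_lit 4) (nat_lit 309) (nat_lit 255) (nat_lit 216)) (XT.nd (nat_lit 78) (nat_lit 0) (nat_lit 0) (XT.lf (nat_lit 0) (nat_lit 13797493868) (nat_lit 152) (nat_lit 45270852163) (nat_lit 0) (nat_lit 3594520931) (nat_lit 4) (nat_lit 5) (nat_lit 6) (nat_lit 4) (nat_lit 4) (nat_lit 4) (nat_lit 310) (nat_lit 255) (nat_lit 215)) (XT.lf (nat_lit 0) (nat_lit 18739815735) (nat_lit 152) (nat_lit 40055260589) (nat_lit 0) (nat_lit 8500375091) (nat_lit 4) (nat_lit 5) (nat_lit 6) (nat_lit 4) (nat_lit 4) (nat_lit 4) (nat_lit 311) (nat_lit 255) (nat_lit 214)))) (XT.nd (nat_lit 156) (nat_lit 0) (nat_lit 0) (XT.nd (nat_lit 78) (nat_lit 0) (nat_lit 0) (XT.lf (nat_lit 0) (nat_lit 24049207933)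 (nat_lit 152) (nat_lit 34475728668) (nat_lit 0) (nat_lit 13776000894) (nat_lit 4) (nat_lit 5) (nat_lit 6) (nat_lit 4) (nat_lit 4) (nat_lit 4) (nat_lit 312) (nat_lit 255) (nat_lit 213)) (XT.lf (nat_lit 0) (nat_lit 29757133527) (nat_lit 152) (nat_lit 28499192507) (nat_lit 0) (nat_lit 19452661307) (nat_lit 4) (nat_lit 5) (nat_lit 6) (nat_lit 4) (nat_lit 4) (nat_lit 4) (nat_lit 313) (nat_lit 255) (nat_lit 212))) (XT.nd (nat_lit 78) (nat_lit 0) (nat_lit 0) (XT.lf (nat_lit 0) (nat_lit 35897417261) (nat_lit 152) (nat_lit 22090235595) (nat_lit 0) (nat_lit 25563995800) (nat_lit 4) (nat_lit 5) (nat_lit 6) (nat_lit 4) (nat_lit 4) (nat_lit 4) (nat_lit 314) (nat_lit 255) (nat_lit 211)) (XT.lf (nat_lit 0) (nat_lit 42506446002) (nat_lit 152) (nat_lit 15210878930) (nat_lit 0) (nat_lit 32146219688) (nat_lit 4) (nat_lit 5) (nat_lit 6) (nat_lit 4) (nat_lit 4) (nat_lit 4) (nat_lit 315) (nat_lit 255) (nat_lit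 210))))))))
noncomputable def xc41 : XT := (XT.nd (nat_lit 2184) (nat_lit 152) (nat_lit 0) (XT.nd (nat_lit 1092) (nat_lit 0) (nat_lit 0) (XT.nd (nat_lit 546) (nat_lit 0) (nat_lit 0) (XT.nd (nat_lit 234) (nat_lit 0) (nat_lit 0) (XT.nd (nat_lit 78) (nat_lit 76) (nat_lit 0) (XT.lf (nat_lit 0) (nat_lit 49623384365) (nat_lit 152) (nat_lit 7820355952) (nat_lit 0) (nat_lit 39238338742) (nat_lit 4) (nat_lit 5) (nat_lit 6) (nat_lit 4) (nat_lit 4) (nat_lit 4) (nat_lit 316) (nat_lit 255) (nat_lit 209)) (XT.nd (nat_lit 78) (nat_lit 0) (nat_lit 0) (XT.lf (nat_lit 0) (nat_lit 131718103) (nat_lit 76) (nat_lit 57161856520) (nat_lit 76) (nat_lit 46753830055) (nat_lit 3) (nat_lit 4) (nat_lit 4) (nat_lit 5) (nat_lit 4) (nat_lit 4) (nat_lit 317) (nat_lit 255) (nat_lit 208)) (XT.lf (nat_lit 0) (nat_lit 9129347298) (nat_lit 76) (nat_lit 56643161236) (nat_lit 76) (nat_lit 46213856215) (nat_lit 3) (nat_lit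 4) (nat_lit 4) (nat_lit 5) (nat_lit 4) (nat_lit 4) (nat_lit 318) (nat_lit 255) (nat_lit 207)))) (XT.nd (nat_lit 156) (nat_lit 0) (nat_lit 0) (XT.nd (nat_lit 78) (nat_lit 0) (nat_lit 0) (XT.lf (nat_lit 0) (nat_lit 18814044831) (nat_lit 76) (nat_lit 56098403106) (nat_lit 76) (nat_lit 45649395718) (nat_lit 3) (nat_lit 4) (nat_lit 4) (nat_lit 5) (nat_lit 4) (nat_lit 4) (nat_lit 319) (nat_lit 255) (nat_lit 206)) (XT.lf (nat_lit 0) (nat_lit 29243201502) (nat_lit 76) (nat_lit 55524353934) (nat_lit 76) (nat_lit 45057103614) (nat_lit 3) (nat_lit 4) (nat_lit 4) (nat_lit 5) (nat_lit 4) (nat_lit 4) (nat_lit 320) (nat_lit 255) (nat_lit 205))) (XT.nd (nat_lit 78) (nat_lit 0) (nat_lit 0) (XT.lf (nat_lit 0) (nat_lit 40478619722) (nat_lit 76) (nat_lit 54917611948) (nat_lit 76) (nat_lit 44433470023) (nat_lit 3) (nat_lit 4) (nat_lit 4) (nat_lit 5) (nat_lit 4) (nat_lit 4) (nat_lit 321) (nat_lit 255) (nat_lit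 204)) (XT.lf (nat_lit 0) (nat_lit 52586879746) (nat_lit 76) (nat_lit 54274581639) (nat_lit 76) (nat_lit 43774799339) (nat_lit 3) (nat_lit 4) (nat_lit 4) (nat_lit 5) (nat_lit 4) (nat_lit 4) (nat_lit 322) (nat_lit 255) (nat_lit 203))))) (XT.nd (nat_lit 234) (nat_lit 0) (nat_lit 0) (XT.nd (nat_lit 78) (nat_lit 0) (nat_lit 0) (XT.lf (nat_lit 0) (nat_lit 65639734226) (nat_lit 76) (nat_lit 53591452457) (nat_lit 76) (nat_lit 43077188329) (nat_lit 3) (nat_lit 4) (nat_lit 4) (nat_lit 5) (nat_lit 4) (nat_lit 4) (nat_lit 323) (nat_lit 255) (nat_lit 202)) (XT.nd (nat_lit 78) (nat_lit 0) (nat_lit 0) (XT.lf (nat_lit 0) (nat_lit 79714533411) (nat_lit 76) (nat_lit 52864176229) (nat_lit 76) (nat_lit 42336503001) (nat_lit 3) (nat_lit 4) (nat_lit 4) (nat_lit 5) (nat_lit 4) (nat_lit 4) (nat_lit 324) (nat_lit 255) (nat_lit 201)) (XT.lf (nat_lit 0) (nat_lit 94894683519) (nat_lit 76) (nat_lit 52088443170)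 (nat_lit 76) (nat_lit 41548354109) (nat_lit 3) (nat_lit 4) (nat_lit 4) (nat_lit 5) (nat_lit 4) (nat_lit 4) (nat_lit 325) (nat_lit 255) (nat_lit 200)))) (XT.nd (nat_lit 156) (nat_lit 0) (nat_lit 0) (XT.nd (nat_lit 78) (nat_lit 0) (nat_lit 0) (XT.lf (nat_lit 0) (nat_lit 111270140994) (nat_lit 76) (nat_lit 51259656344) (nat_lit 76) (nat_lit 40708071141) (nat_lit 3) (nat_lit 4) (nat_lit 4) (nat_lit 5) (nat_lit 4) (nat_lit 4) (nat_lit 326) (nat_lit 255) (nat_lit 199)) (XT.lf (nat_lit 0) (nat_lit 128937945585) (nat_lit 76) (nat_lit 50372904421) (nat_lit 76) (nat_lit 39810674642) (nat_lit 3) (nat_lit 4) (nat_lit 4) (nat_lit 5) (nat_lit 4) (nat_lit 4) (nat_lit 327) (nat_lit 255) (nat_lit 198))) (XT.nd (nat_lit 78) (nat_lit 0) (nat_lit 0) (XT.lf (nat_lit 0) (nat_lit 148002795393) (nat_lit 76) (nat_lit 49422932575) (nat_lit 76) (nat_lit 38850846707) (nat_lit 3) (nat_lit 4) (nat_lit 4) (nat_lit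 5) (nat_lit 4) (nat_lit 4) (nat_lit 328) (nat_lit 255) (nat_lit 197)) (XT.lf (nat_lit 0) (nat_lit 168577667305) (nat_lit 76) (nat_lit 48404111344) (nat_lit 76) (nat_lit 37822899468) (nat_lit 3) (nat_lit 4) (nat_lit 4) (nat_lit 5) (nat_lit 4) (nat_lit 4) (nat_lit 329) (nat_lit 255) (nat_lit 196)))))) (XT.nd (nat_lit 546) (nat_lit 0) (nat_lit 0) (XT.nd (nat_lit 234) (nat_lit 0) (nat_lit 0) (XT.nd (nat_lit 78) (nat_lit 0) (nat_lit 0) (XT.lf (nat_lit 0) (nat_lit 190784486489) (nat_lit 76) (nat_lit 47310403267) (nat_lit 76) (nat_lit 36720741383) (nat_lit 3) (nat_lit 4) (nat_lit 4) (nat_lit 5) (nat_lit 4) (nat_lit 4) (nat_lit 330) (nat_lit 255) (nat_lit 195)) (XT.nd (nat_lit 78) (nat_lit 0) (nat_lit 0) (XT.lf (nat_lit 0) (nat_lit 214754848910) (nat_lit 76) (nat_lit 46135327112) (nat_lit 76) (nat_lit 35537841147) (nat_lit 3) (nat_lit 4) (nat_lit 4) (nat_lit 5) (nat_lit 4) (nat_lit 4) (nat_lit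 331) (nat_lit 255) (nat_lit 194)) (XT.lf (nat_lit 0) (nat_lit 240630801160) (nat_lit 76) (nat_lit 44871919465) (nat_lit 76) (nat_lit 34267188981) (nat_lit 3) (nat_lit 4) (nat_lit 4) (nat_lit 5) (nat_lit 4) (nat_lit 4) (nat_lit 332) (nat_lit 255) (nat_lit 193)))) (XT.nd (nat_lit 156) (nat_lit 0) (nat_lit 0) (XT.nd (nat_lit 78) (nat_lit 0) (nat_lit 0) (XT.lf (nat_lit 0) (nat_lit 268565682215) (nat_lit 76) (nat_lit 43512693466) (nat_lit 76) (nat_lit 32901255093) (nat_lit 3) (nat_lit 4) (nat_lit 4) (nat_lit 5) (nat_lit 4) (nat_lit 4) (nat_lit 333) (nat_lit 255) (nat_lit 192)) (XT.lf (nat_lit 0) (nat_lit 298725032112) (nat_lit 76) (nat_lit 42049594442) (nat_lit 76) (nat_lit 31431945061) (nat_lit 3) (nat_lit 4) (nat_lit 4) (nat_lit 5) (nat_lit 4) (nat_lit 4) (nat_lit 334) (nat_lit 255) (nat_lit 191))) (XT.nd (nat_lit 78) (nat_lit 0) (nat_lit 0) (XT.lf (nat_lit 0) (nat_lit 331287572923) (nat_lit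 76) (nat_lit 40473952176) (nat_lit 76) (nat_lit 29850551862) (nat_lit 3) (nat_lit 4) (nat_lit 4) (nat_lit 5) (nat_lit 4) (nat_lit 4) (nat_lit 335) (nat_lit 255) (nat_lit 190)) (XT.lf (nat_lit 0) (nat_lit 366446267854) (nat_lit 76) (nat_lit 38776429530) (nat_lit 76) (nat_lit 28147704277) (nat_lit 3) (nat_lit 4) (nat_lit 4) (nat_lit 5) (nat_lit 4) (nat_lit 4) (nat_lit 336) (nat_lit 255) (nat_lit 189))))) (XT.nd (nat_lit 234) (nat_lit 0) (nat_lit 0) (XT.nd (nat_lit 78) (nat_lit 0) (nat_lit 0) (XT.lf (nat_lit 0) (nat_lit 404409464727) (nat_lit 76) (nat_lit 36946967109) (nat_lit 76) (nat_lit 26313311358) (nat_lit 3) (nat_lit 4) (nat_lit 4) (nat_lit 5) (nat_lit 4) (nat_lit 4) (nat_lit 337) (nat_lit 255) (nat_lit 188)) (XT.nd (nat_lit 78) (nat_lit 0) (nat_lit 0) (XT.lf (nat_lit 0) (nat_lit 445402130633) (nat_lit 76) (nat_lit 34974723655) (nat_lit 76) (nat_lit 24336502629) (nat_lit 3) (nat_lit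 4) (nat_lit 4) (nat_lit 5) (nat_lit 4) (nat_lit 4) (nat_lit 338) (nat_lit 255) (nat_lit 187)) (XT.lf (nat_lit 0) (nat_lit 489667185076) (nat_lit 76) (nat_lit 32848011800) (nat_lit 76) (nat_lit 22205563666) (nat_lit 3) (nat_lit 4) (nat_lit 4) (nat_lit 5) (nat_lit 4) (nat_lit 4) (nat_lit 339) (nat_lit 255) (nat_lit 186)))) (XT.nd (nat_lit 156) (nat_lit 0) (nat_lit 0) (XT.nd (nat_lit 78) (nat_lit 0) (nat_lit 0) (XT.lf (nat_lit 0) (nat_lit 537466939487) (nat_lit 76) (nat_lit 30554228806) (nat_lit 76) (nat_lit 19907866683) (nat_lit 3) (nat_lit 4) (nat_lit 4) (nat_lit 5) (nat_lit 4) (nat_lit 4) (nat_lit 340) (nat_lit 255) (nat_lit 185)) (XT.lf (nat_lit 0) (nat_lit 589084651672) (nat_lit 76) (nat_lit 28079781885) (nat_lit 76) (nat_lit 17429795699) (nat_lit 3) (nat_lit 4) (nat_lit 4) (nat_lit 5) (nat_lit 4) (nat_lit 4) (nat_lit 341) (nat_lit 255) (nat_lit 184))) (XT.nd (nat_lit 78) (nat_lit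 0) (nat_lit 0) (XT.lf (nat_lit 0) (nat_lit 644826204369) (nat_lit 76) (nat_lit 25410007649) (nat_lit 76) (nat_lit 14756665849) (nat_lit 3) (nat_lit 4) (nat_lit 4) (nat_lit 5) (nat_lit 4) (nat_lit 4) (nat_lit 342) (nat_lit 255) (nat_lit 183)) (XT.lf (nat_lit 0) (nat_lit 705021917891) (nat_lit 76) (nat_lit 22529085212) (nat_lit 76) (nat_lit 11872636362) (nat_lit 3) (nat_lit 4) (nat_lit 4) (nat_lit 5) (nat_lit 4) (nat_lit 4) (nat_lit 343) (nat_lit 255) (nat_lit 182))))))) (XT.nd (nat_lit 1092) (nat_lit 0) (nat_lit 0) (XT.nd (nat_lit 546) (nat_lit 0) (nat_lit 0) (XT.nd (nat_lit 234) (nat_lit 152) (nat_lit 0) (XT.nd (nat_lit 78) (nat_lit 0) (nat_lit 0) (XT.lf (nat_lit 0) (nat_lit 770028507576) (nat_lit 76) (nat_lit 19419942443) (nat_lit 76) (nat_lit 8760616694) (nat_lit 3) (nat_lit 4) (nat_lit 4) (nat_lit 5) (nat_lit 4) (nat_lit 4) (nat_lit 344) (nat_lit 255) (nat_lit 181)) (XT.nd (nat_lit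 78) (nat_lit 0) (nat_lit 0) (XT.lf (nat_lit 0) (nat_lit 840231197660) (nat_lit 76) (nat_lit 16064154790) (nat_lit 76) (nat_lit 5402165246) (nat_lit 3) (nat_lit 4) (nat_lit 4) (nat_lit 5) (nat_lit 4) (nat_lit 4) (nat_lit 345) (nat_lit 255) (nat_lit 180)) (XT.lf (nat_lit 0) (nat_lit 916046004085) (nat_lit 76) (nat_lit 12441836106) (nat_lit 76) (nat_lit 1777380085) (nat_lit 3) (nat_lit 4) (nat_lit 4) (nat_lit 5) (nat_lit 4) (nat_lit 4) (nat_lit 346) (nat_lit 255) (nat_lit 179)))) (XT.nd (nat_lit 156) (nat_lit 0) (nat_lit 0) (XT.nd (nat_lit 78) (nat_lit 76) (nat_lit 0) (XT.lf (nat_lit 0) (nat_lit 2028406695) (nat_lit 152) (nat_lit 6447653867) (nat_lit 76) (nat_lit 995838332847) (nat_lit 2) (nat_lit 5) (nat_lit 4) (nat_lit 5) (nat_lit 3) (nat_lit 4) (nat_lit 347) (nat_lit 255) (nat_lit 178)) (XT.lf (nat_lit 0) (nat_lit 1995683606) (nat_lit 76) (nat_lit 4093036589) (nat_lit 152) (nat_lit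 1078191401584) (nat_lit 1) (nat_lit 5) (nat_lit 2) (nat_lit 5) (nat_lit 3) (nat_lit 4) (nat_lit 348) (nat_lit 255) (nat_lit 177))) (XT.nd (nat_lit 78) (nat_lit 0) (nat_lit 0) (XT.lf (nat_lit 0) (nat_lit 10668243703) (nat_lit 152) (nat_lit 1159171453633) (nat_lit 0) (nat_lit 787861879) (nat_lit 1) (nat_lit 5) (nat_lit 3) (nat_lit 4) (nat_lit 1) (nat_lit 4) (nat_lit 349) (nat_lit 255) (nat_lit 176)) (XT.lf (nat_lit 0) (nat_lit 15718690365) (nat_lit 152) (nat_lit 1242319107954) (nat_lit 0) (nat_lit 5836629898) (nat_lit 1) (nat_lit 5) (nat_lit 3) (nat_lit 4) (nat_lit 1) (nat_lit 4) (nat_lit 350) (nat_lit 255) (nat_lit 175))))) (XT.nd (nat_lit 234) (nat_lit 0) (nat_lit 0) (XT.nd (nat_lit 78) (nat_lit 0) (nat_lit 0) (XT.lf (nat_lit 0) (nat_lit 21171551125) (nat_lit 152) (nat_lit 1332121690348) (nat_lit 0) (nat_lit 11287936360) (nat_lit 1) (nat_lit 5) (nat_lit 3) (nat_lit 4) (nat_lit 1) (nat_lit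 4) (nat_lit 351) (nat_lit 255) (nat_lit 174)) (XT.nd (nat_lit 78) (nat_lit 0) (nat_lit 0) (XT.lf (nat_lit 0) (nat_lit 27059139234) (nat_lit 152) (nat_lit 1429111364267) (nat_lit 0) (nat_lit 17174085303) (nat_lit 1) (nat_lit 5) (nat_lit 3) (nat_lit 4) (nat_lit 1) (nat_lit 4) (nat_lit 352) (nat_lit 255) (nat_lit 173)) (XT.lf (nat_lit 0) (nat_lit 33416344101) (nat_lit 152) (nat_lit 1533862883335) (nat_lit 0) (nat_lit 23529957609) (nat_lit 1) (nat_lit 5) (nat_lit 3) (nat_lit 4) (nat_lit 1) (nat_lit 4) (nat_lit 353) (nat_lit 255) (nat_lit 172)))) (XT.nd (nat_lit 156) (nat_lit 0) (nat_lit 0) (XT.nd (nat_lit 78) (nat_lit 0) (nat_lit 0) (XT.lf (nat_lit 0) (nat_lit 40280838051) (nat_lit 152) (nat_lit 1646996997293) (nat_lit 0) (nat_lit 30393217708) (nat_lit 1) (nat_lit 5) (nat_lit 3) (nat_lit 4) (nat_lit 1) (nat_lit 4) (nat_lit 354) (nat_lit 255) (nat_lit 171)) (XT.lf (nat_lit 0) (nat_lit 47693299569)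 (nat_lit 152) (nat_lit 1769184130521) (nat_lit 0) (nat_lit 37804536769) (nat_lit 1) (nat_lit 5) (nat_lit 3) (nat_lit 4) (nat_lit 1) (nat_lit 4) (nat_lit 355) (nat_lit 255) (nat_lit 170))) (XT.nd (nat_lit 78) (nat_lit 0) (nat_lit 0) (XT.lf (nat_lit 0) (nat_lit 55697654351) (nat_lit 152) (nat_lit 1901148354920) (nat_lit 0) (nat_lit 45807833721) (nat_lit 1) (nat_lit 5) (nat_lit 3) (nat_lit 4) (nat_lit 1) (nat_lit 4) (nat_lit 356) (nat_lit 255) (nat_lit 169)) (XT.lf (nat_lit 0) (nat_lit 64341335610) (nat_lit 152) (nat_lit 2043671680707) (nat_lit 0) (nat_lit 54450535509) (nat_lit 1) (nat_lit 5) (nat_lit 3) (nat_lit 4) (nat_lit 1) (nat_lit 4) (nat_lit 357) (nat_lit 255) (nat_lit 168)))))) (XT.nd (nat_lit 33618) (nat_lit 0) (nat_lit 2356) (XT.nd (nat_lit 234) (nat_lit 0) (nat_lit 0) (XT.nd (nat_lit 78) (nat_lit 0) (nat_lit 0) (XT.lf (nat_lit 0) (nat_lit 73675565163) (nat_lit 152) (nat_lit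 2197598690555) (nat_lit 0) (nat_lit 63783858143) (nat_lit 1) (nat_lit 5) (nat_lit 3) (nat_lit 4) (nat_lit 1) (nat_lit 4) (nat_lit 358) (nat_lit 255) (nat_lit 167)) (XT.nd (nat_lit 78) (nat_lit 0) (nat_lit 0) (XT.lf (nat_lit 0) (nat_lit 83755656961) (nat_lit 152) (nat_lit 2363841544522) (nat_lit 0) (nat_lit 73863110202) (nat_lit 1) (nat_lit 5) (nat_lit 3) (nat_lit 4) (nat_lit 1) (nat_lit 4) (nat_lit 359) (nat_lit 255) (nat_lit 166)) (XT.lf (nat_lit 0) (nat_lit 94641344883) (nat_lit 152) (nat_lit 2543385385445) (nat_lit 0) (nat_lit 84748020587) (nat_lit 1) (nat_lit 5) (nat_lit 3) (nat_lit 4) (nat_lit 1) (nat_lit 4) (nat_lit 360) (nat_lit 255) (nat_lit 165)))) (XT.nd (nat_lit 156) (nat_lit 0) (nat_lit 0) (XT.nd (nat_lit 78) (nat_lit 0) (nat_lit 0) (XT.lf (nat_lit 0) (nat_lit 106397136707) (nat_lit 152) (nat_lit 2737294176828) (nat_lit 0) (nat_lit 96503092471) (nat_lit 1) (nat_lit 5) (nat_lit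 3) (nat_lit 4) (nat_lit 1) (nat_lit 4) (nat_lit 361) (nat_lit 255) (nat_lit 164)) (XT.lf (nat_lit 0) (nat_lit 119092696387) (nat_lit 152) (nat_lit 2946717007803) (nat_lit 0) (nat_lit 109197985538) (nat_lit 1) (nat_lit 5) (nat_lit 3) (nat_lit 4) (nat_lit 1) (nat_lit 4) (nat_lit 362) (nat_lit 255) (nat_lit 163))) (XT.nd (nat_lit 78) (nat_lit 0) (nat_lit 0) (XT.lf (nat_lit 0) (nat_lit 132803256867) (nat_lit 152) (nat_lit 3172894902555) (nat_lit 0) (nat_lit 122907928786) (nat_lit 1) (nat_lit 5) (nat_lit 3) (nat_lit 4) (nat_lit 1) (nat_lit 4) (nat_lit 363) (nat_lit 255) (nat_lit 162)) (XT.lf (nat_lit 0) (nat_lit 147610065915) (nat_lit 152) (nat_lit 3417168174534) (nat_lit 0) (nat_lit 137714166321) (nat_lit 1) (nat_lit 5) (nat_lit 3) (nat_lit 4) (nat_lit 1) (nat_lit 4) (nat_lit 364) (nat_lit 255) (nat_lit 161))))) (XT.nd (nat_lit 312) (nat_lit 532) (nat_lit 0) (XT.nd (nat_lit 156) (nat_lit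 532) (nat_lit 0) (XT.nd (nat_lit 78) (nat_lit 380) (nat_lit 0) (XT.lf (nat_lit 0) (nat_lit 686555120) (nat_lit 380) (nat_lit 2096538148) (nat_lit 0) (nat_lit 686555120) (nat_lit 51) (nat_lit 5) (nat_lit 56) (nat_lit 4) (nat_lit 51) (nat_lit 4) (nat_lit 268) (nat_lit 256) (nat_lit 256)) (XT.lf (nat_lit 0) (nat_lit 161273700) (nat_lit 380) (nat_lit 4313946519) (nat_lit 380) (nat_lit 2603552267) (nat_lit 46) (nat_lit 4) (nat_lit 51) (nat_lit 5) (nat_lit 51) (nat_lit 4) (nat_lit 269) (nat_lit 256) (nat_lit 255))) (XT.nd (nat_lit 78) (nat_lit 456) (nat_lit 0) (XT.lf (nat_lit 0) (nat_lit 434751429) (nat_lit 456) (nat_lit 2389809662) (nat_lit 76) (nat_lit 4415507134) (nat_lit 45) (nat_lit 5) (nat_lit 51) (nat_lit 5) (nat_lit 46) (nat_lit 4) (nat_lit 270) (nat_lit 256) (nat_lit 254)) (XT.lf (nat_lit 0) (nat_lit 2312310538) (nat_lit 456) (nat_lit 1088069540) (nat_lit 532) (nat_lit 4023675688)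 (nat_lit 39) (nat_lit 5) (nat_lit 45) (nat_lit 5) (nat_lit 46) (nat_lit 4) (nat_lit 271) (nat_lit 256) (nat_lit 253)))) (XT.nd (nat_lit 156) (nat_lit 228) (nat_lit 0) (XT.nd (nat_lit 78) (nat_lit 304) (nat_lit 0) (XT.lf (nat_lit 0) (nat_lit 6469844442) (nat_lit 532) (nat_lit 359892758) (nat_lit 0) (nat_lit 804801731) (nat_lit 39) (nat_lit 5) (nat_lit 46) (nat_lit 4) (nat_lit 39) (nat_lit 4) (nat_lit 272) (nat_lit 256) (nat_lit 252)) (XT.lf (nat_lit 0) (nat_lit 1763666163) (nat_lit 304) (nat_lit 3160682680) (nat_lit 76) (nat_lit 2939809478) (nat_lit 35) (nat_lit 5) (nat_lit 39) (nat_lit 5) (nat_lit 36) (nat_lit 4) (nat_lit 273) (nat_lit 256) (nat_lit 251))) (XT.nd (nat_lit 78) (nat_lit 0) (nat_lit 0) (XT.lf (nat_lit 0) (nat_lit 1910688542) (nat_lit 228) (nat_lit 2809328452) (nat_lit 304) (nat_lit 3402054474) (nat_lit 32) (nat_lit 5) (nat_lit 35) (nat_lit 5) (nat_lit 36) (nat_lit 4)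 (nat_lit 274) (nat_lit 256) (nat_lit 250)) (XT.lf (nat_lit 0) (nat_lit 7338074593) (nat_lit 228) (nat_lit 471069646) (nat_lit 304) (nat_lit 600583033) (nat_lit 32) (nat_lit 5) (nat_lit 35) (nat_lit 5) (nat_lit 36) (nat_lit 4) (nat_lit 275) (nat_lit 256) (nat_lit 249))))))))
noncomputable def xc42 : XT := (XT.nd (nat_lit 2184) (nat_lit 304) (nat_lit 0) (XT.nd (nat_lit 1092) (nat_lit 456) (nat_lit 0) (XT.nd (nat_lit 546) (nat_lit 380) (nat_lit 0) (XT.nd (nat_lit 234) (nat_lit 608) (nat_lit 0) (XT.nd (nat_lit 78) (nat_lit 152) (nat_lit 0) (XT.lf (nat_lit 0) (nat_lit 2281316329) (nat_lit 304) (nat_lit 4355804833) (nat_lit 76) (nat_lit 2081094519) (nat_lit 28) (nat_lit 5) (nat_lit 32) (nat_lit 5) (nat_lit 29) (nat_lit 4) (nat_lit 276) (nat_lit 256) (nat_lit 248)) (XT.nd (nat_lit 78) (nat_lit 0) (nat_lit 0) (XT.lf (nat_lit 0) (nat_lit 1035830879) (nat_lit 152) (nat_lit 4218504292) (nat_lit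 228) (nat_lit 3805002712) (nat_lit 26) (nat_lit 5) (nat_lit 28) (nat_lit 5) (nat_lit 29) (nat_lit 4) (nat_lit 277) (nat_lit 256) (nat_lit 247)) (XT.lf (nat_lit 0) (nat_lit 6881855676) (nat_lit 152) (nat_lit 1535740829) (nat_lit 228) (nat_lit 1014557439) (nat_lit 26) (nat_lit 5) (nat_lit 28) (nat_lit 5) (nat_lit 29) (nat_lit 4) (nat_lit 278) (nat_lit 256) (nat_lit 246)))) (XT.nd (nat_lit 156) (nat_lit 380) (nat_lit 0) (XT.nd (nat_lit 78) (nat_lit 0) (nat_lit 0) (XT.lf (nat_lit 0) (nat_lit 1853250366) (nat_lit 228) (nat_lit 6613726410) (nat_lit 76) (nat_lit 1368152817) (nat_lit 23) (nat_lit 5) (nat_lit 26) (nat_lit 5) (nat_lit 24) (nat_lit 4) (nat_lit 279) (nat_lit 256) (nat_lit 245)) (XT.lf (nat_lit 0) (nat_lit 4853481055) (nat_lit 228) (nat_lit 955569185) (nat_lit 76) (nat_lit 4463033278) (nat_lit 23) (nat_lit 5) (nat_lit 26) (nat_lit 5) (nat_lit 24) (nat_lit 4) (nat_lit 280) (nat_lit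 256) (nat_lit 244))) (XT.nd (nat_lit 78) (nat_lit 228) (nat_lit 0) (XT.lf (nat_lit 0) (nat_lit 5209712590) (nat_lit 152) (nat_lit 2867071049) (nat_lit 228) (nat_lit 2669004040) (nat_lit 21) (nat_lit 5) (nat_lit 23) (nat_lit 5) (nat_lit 24) (nat_lit 4) (nat_lit 281) (nat_lit 256) (nat_lit 243)) (XT.lf (nat_lit 0) (nat_lit 190275213) (nat_lit 228) (nat_lit 10797973074) (nat_lit 76) (nat_lit 276557423) (nat_lit 18) (nat_lit 5) (nat_lit 21) (nat_lit 5) (nat_lit 19) (nat_lit 4) (nat_lit 282) (nat_lit 256) (nat_lit 242))))) (XT.nd (nat_lit 234) (nat_lit 304) (nat_lit 0) (XT.nd (nat_lit 78) (nat_lit 76) (nat_lit 0) (XT.lf (nat_lit 0) (nat_lit 3227267106) (nat_lit 228) (nat_lit 4909054436) (nat_lit 76) (nat_lit 3676372246) (nat_lit 18) (nat_lit 5) (nat_lit 21) (nat_lit 5) (nat_lit 19) (nat_lit 4) (nat_lit 283) (nat_lit 256) (nat_lit 241)) (XT.nd (nat_lit 78) (nat_lit 0) (nat_lit 0) (XT.lf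 (nat_lit 0) (nat_lit 1319866391) (nat_lit 76) (nat_lit 5092612162) (nat_lit 152) (nat_lit 5999835631) (nat_lit 17) (nat_lit 5) (nat_lit 18) (nat_lit 5) (nat_lit 19) (nat_lit 4) (nat_lit 284) (nat_lit 256) (nat_lit 240)) (XT.lf (nat_lit 0) (nat_lit 8134137591) (nat_lit 76) (nat_lit 1730856934) (nat_lit 152) (nat_lit 3194208908) (nat_lit 17) (nat_lit 5) (nat_lit 18) (nat_lit 5) (nat_lit 19) (nat_lit 4) (nat_lit 285) (nat_lit 256) (nat_lit 239)))) (XT.nd (nat_lit 156) (nat_lit 76) (nat_lit 0) (XT.nd (nat_lit 78) (nat_lit 76) (nat_lit 0) (XT.lf (nat_lit 0) (nat_lit 1583595208) (nat_lit 152) (nat_lit 11979608028) (nat_lit 152) (nat_lit 197357406) (nat_lit 15) (nat_lit 4) (nat_lit 17) (nat_lit 5) (nat_lit 17) (nat_lit 4) (nat_lit 286) (nat_lit 256) (nat_lit 238)) (XT.lf (nat_lit 0) (nat_lit 2957046330) (nat_lit 228) (nat_lit 5922900536) (nat_lit 76) (nat_lit 5626881653) (nat_lit 14) (nat_lit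 5) (nat_lit 17) (nat_lit 5) (nat_lit 15) (nat_lit 4) (nat_lit 287) (nat_lit 256) (nat_lit 237))) (XT.nd (nat_lit 78) (nat_lit 0) (nat_lit 0) (XT.lf (nat_lit 0) (nat_lit 687475866) (nat_lit 76) (nat_lit 5577312985) (nat_lit 152) (nat_lit 9054886178) (nat_lit 13) (nat_lit 5) (nat_lit 14) (nat_lit 5) (nat_lit 15) (nat_lit 4) (nat_lit 288) (nat_lit 256) (nat_lit 236)) (XT.lf (nat_lit 0) (nat_lit 7994631914) (nat_lit 76) (nat_lit 1903283972) (nat_lit 152) (nat_lit 6294975133) (nat_lit 13) (nat_lit 5) (nat_lit 14) (nat_lit 5) (nat_lit 15) (nat_lit 4) (nat_lit 289) (nat_lit 256) (nat_lit 235)))))) (XT.nd (nat_lit 546) (nat_lit 152) (nat_lit 0) (XT.nd (nat_lit 234) (nat_lit 152) (nat_lit 0) (XT.nd (nat_lit 78) (nat_lit 152) (nat_lit 0) (XT.lf (nat_lit 0) (nat_lit 13776157647) (nat_lit 152) (nat_lit 1461814442) (nat_lit 0) (nat_lit 1901822971) (nat_lit 13) (nat_lit 5) (nat_lit 15) (nat_lit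 4) (nat_lit 13) (nat_lit 4) (nat_lit 290) (nat_lit 256) (nat_lit 234)) (XT.nd (nat_lit 78) (nat_lit 76) (nat_lit 0) (XT.lf (nat_lit 0) (nat_lit 5909197682) (nat_lit 76) (nat_lit 12158873788) (nat_lit 76) (nat_lit 86280950) (nat_lit 12) (nat_lit 4) (nat_lit 13) (nat_lit 5) (nat_lit 13) (nat_lit 4) (nat_lit 291) (nat_lit 256) (nat_lit 233)) (XT.lf (nat_lit 0) (nat_lit 3234021113) (nat_lit 152) (nat_lit 5529401294) (nat_lit 76) (nat_lit 10483876796) (nat_lit 11) (nat_lit 5) (nat_lit 13) (nat_lit 5) (nat_lit 12) (nat_lit 4) (nat_lit 292) (nat_lit 256) (nat_lit 232)))) (XT.nd (nat_lit 156) (nat_lit 76) (nat_lit 0) (XT.nd (nat_lit 78) (nat_lit 0) (nat_lit 0) (XT.lf (nat_lit 0) (nat_lit 1664389529) (nat_lit 76) (nat_lit 5109903334) (nat_lit 152) (nat_lit 13656627164) (nat_lit 10) (nat_lit 5) (nat_lit 11) (nat_lit 5) (nat_lit 12) (nat_lit 4) (nat_lit 293) (nat_lit 256) (nat_lit 231)) (XT.lf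 (nat_lit 0) (nat_lit 9611454647) (nat_lit 76) (nat_lit 1059207851) (nat_lit 152) (nat_lit 11032865834) (nat_lit 10) (nat_lit 5) (nat_lit 11) (nat_lit 5) (nat_lit 12) (nat_lit 4) (nat_lit 294) (nat_lit 256) (nat_lit 230))) (XT.nd (nat_lit 78) (nat_lit 76) (nat_lit 0) (XT.lf (nat_lit 0) (nat_lit 14884673550) (nat_lit 152) (nat_lit 5094583765) (nat_lit 0) (nat_lit 3098331869) (nat_lit 10) (nat_lit 5) (nat_lit 12) (nat_lit 4) (nat_lit 10) (nat_lit 4) (nat_lit 295) (nat_lit 256) (nat_lit 229)) (XT.lf (nat_lit 0) (nat_lit 2435563015) (nat_lit 76) (nat_lit 17017989855) (nat_lit 76) (nat_lit 5106711902) (nat_lit 9) (nat_lit 4) (nat_lit 10) (nat_lit 5) (nat_lit 10) (nat_lit 4) (nat_lit 296) (nat_lit 256) (nat_lit 228))))) (XT.nd (nat_lit 234) (nat_lit 76) (nat_lit 0) (XT.nd (nat_lit 78) (nat_lit 76) (nat_lit 0) (XT.lf (nat_lit 0) (nat_lit 10739462980) (nat_lit 76) (nat_lit 13721649525) (nat_lit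 76) (nat_lit 1694689839) (nat_lit 9) (nat_lit 4) (nat_lit 10) (nat_lit 5) (nat_lit 10) (nat_lit 4) (nat_lit 297) (nat_lit 256) (nat_lit 227)) (XT.nd (nat_lit 78) (nat_lit 0) (nat_lit 0) (XT.lf (nat_lit 0) (nat_lit 1827824972) (nat_lit 152) (nat_lit 8332196460) (nat_lit 76) (nat_lit 17720251728) (nat_lit 8) (nat_lit 5) (nat_lit 10) (nat_lit 5) (nat_lit 9) (nat_lit 4) (nat_lit 298) (nat_lit 256) (nat_lit 226)) (XT.lf (nat_lit 0) (nat_lit 5482336986) (nat_lit 152) (nat_lit 829989911) (nat_lit 76) (nat_lit 23431593649) (nat_lit 8) (nat_lit 5) (nat_lit 10) (nat_lit 5) (nat_lit 9) (nat_lit 4) (nat_lit 299) (nat_lit 256) (nat_lit 225)))) (XT.nd (nat_lit 156) (nat_lit 0) (nat_lit 0) (XT.nd (nat_lit 78) (nat_lit 0) (nat_lit 0) (XT.lf (nat_lit 0) (nat_lit 7553343988) (nat_lit 76) (nat_lit 2003591935) (nat_lit 152) (nat_lit 22189580356) (nat_lit 7) (nat_lit 5) (nat_lit 8) (nat_lit 5) (nat_lit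 9) (nat_lit 4) (nat_lit 300) (nat_lit 256) (nat_lit 224)) (XT.lf (nat_lit 0) (nat_lit 13991290013) (nat_lit 152) (nat_lit 17414950453) (nat_lit 0) (nat_lit 2500445328) (nat_lit 7) (nat_lit 5) (nat_lit 9) (nat_lit 4) (nat_lit 7) (nat_lit 4) (nat_lit 301) (nat_lit 256) (nat_lit 223))) (XT.nd (nat_lit 78) (nat_lit 0) (nat_lit 0) (XT.lf (nat_lit 0) (nat_lit 18783151968) (nat_lit 152) (nat_lit 10236951956) (nat_lit 0) (nat_lit 7219408168) (nat_lit 7) (nat_lit 5) (nat_lit 9) (nat_lit 4) (nat_lit 7) (nat_lit 4) (nat_lit 302) (nat_lit 256) (nat_lit 222)) (XT.lf (nat_lit 0) (nat_lit 23912731572) (nat_lit 152) (nat_lit 2568454078) (nat_lit 0) (nat_lit 12281488592) (nat_lit 7) (nat_lit 5) (nat_lit 9) (nat_lit 4) (nat_lit 7) (nat_lit 4) (nat_lit 303) (nat_lit 256) (nat_lit 221))))))) (XT.nd (nat_lit 1092) (nat_lit 76) (nat_lit 0) (XT.nd (nat_lit 546) (nat_lit 0) (nat_lit 0) (XT.nd (nat_lit 234)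 (nat_lit 152) (nat_lit 0) (XT.nd (nat_lit 78) (nat_lit 0) (nat_lit 0) (XT.lf (nat_lit 0) (nat_lit 5932767171) (nat_lit 76) (nat_lit 23620342357) (nat_lit 76) (nat_lit 11926600136) (nat_lit 6) (nat_lit 4) (nat_lit 7) (nat_lit 5) (nat_lit 7) (nat_lit 4) (nat_lit 304) (nat_lit 256) (nat_lit 220)) (XT.nd (nat_lit 78) (nat_lit 0) (nat_lit 0) (XT.lf (nat_lit 0) (nat_lit 15184581857) (nat_lit 76) (nat_lit 20489422891) (nat_lit 76) (nat_lit 8737811002) (nat_lit 6) (nat_lit 4) (nat_lit 7) (nat_lit 5) (nat_lit 7) (nat_lit 4) (nat_lit 305) (nat_lit 256) (nat_lit 219)) (XT.lf (nat_lit 0) (nat_lit 25106565305) (nat_lit 76) (nat_lit 17140099742) (nat_lit 76) (nat_lit 5334904829) (nat_lit 6) (nat_lit 4) (nat_lit 7) (nat_lit 5) (nat_lit 7) (nat_lit 4) (nat_lit 306) (nat_lit 256) (nat_lit 218)))) (XT.nd (nat_lit 156) (nat_lit 76) (nat_lit 0) (XT.nd (nat_lit 78) (nat_lit 76) (nat_lit 0) (XT.lf (nat_lit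 0) (nat_lit 35757514455) (nat_lit 76) (nat_lit 13552525071) (nat_lit 76) (nat_lit 1697716245) (nat_lit 6) (nat_lit 4) (nat_lit 7) (nat_lit 5) (nat_lit 7) (nat_lit 4) (nat_lit 307) (nat_lit 256) (nat_lit 217)) (XT.lf (nat_lit 0) (nat_lit 2085490239) (nat_lit 152) (nat_lit 7562927936) (nat_lit 76) (nat_lit 45058034805) (nat_lit 5) (nat_lit 5) (nat_lit 7) (nat_lit 5) (nat_lit 6) (nat_lit 4) (nat_lit 308) (nat_lit 256) (nat_lit 216))) (XT.nd (nat_lit 78) (nat_lit 0) (nat_lit 0) (XT.lf (nat_lit 0) (nat_lit 671661530) (nat_lit 76) (nat_lit 5393215920) (nat_lit 152) (nat_lit 52633855764) (nat_lit 4) (nat_lit 5) (nat_lit 5) (nat_lit 5) (nat_lit 6) (nat_lit 4) (nat_lit 309) (nat_lit 256) (nat_lit 215)) (XT.lf (nat_lit 0) (nat_lit 9939365278) (nat_lit 76) (nat_lit 600074129) (nat_lit 152) (nat_lit 52456842567) (nat_lit 4) (nat_lit 5) (nat_lit 5) (nat_lit 5) (nat_lit 6) (nat_lit 4) (nat_lit 310)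 (nat_lit 256) (nat_lit 214))))) (XT.nd (nat_lit 234) (nat_lit 0) (nat_lit 0) (XT.nd (nat_lit 78) (nat_lit 0) (nat_lit 0) (XT.lf (nat_lit 0) (nat_lit 15453716295) (nat_lit 152) (nat_lit 47852521681) (nat_lit 0) (nat_lit 4324886298) (nat_lit 4) (nat_lit 5) (nat_lit 6) (nat_lit 4) (nat_lit 4) (nat_lit 4) (nat_lit 311) (nat_lit 256) (nat_lit 213)) (XT.nd (nat_lit 78) (nat_lit 0) (nat_lit 0) (XT.lf (nat_lit 0) (nat_lit 20750503695) (nat_lit 152) (nat_lit 42296719718) (nat_lit 0) (nat_lit 9590408517) (nat_lit 4) (nat_lit 5) (nat_lit 6) (nat_lit 4) (nat_lit 4) (nat_lit 4) (nat_lit 312) (nat_lit 256) (nat_lit 212)) (XT.lf (nat_lit 0) (nat_lit 26446758180) (nat_lit 152) (nat_lit 36342155741) (nat_lit 0) (nat_lit 15257713760) (nat_lit 4) (nat_lit 5) (nat_lit 6) (nat_lit 4) (nat_lit 4) (nat_lit 4) (nat_lit 313) (nat_lit 256) (nat_lit 211)))) (XT.nd (nat_lit 156) (nat_lit 0) (nat_lit 0) (XT.nd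 (nat_lit 78) (nat_lit 0) (nat_lit 0) (XT.lf (nat_lit 0) (nat_lit 32576235332) (nat_lit 152) (nat_lit 29953543445) (nat_lit 0) (nat_lit 21360386059) (nat_lit 4) (nat_lit 5) (nat_lit 6) (nat_lit 4) (nat_lit 4) (nat_lit 4) (nat_lit 314) (nat_lit 256) (nat_lit 210)) (XT.lf (nat_lit 0) (nat_lit 39175257978) (nat_lit 152) (nat_lit 23093024385) (nat_lit 0) (nat_lit 27934589397) (nat_lit 4) (nat_lit 5) (nat_lit 6) (nat_lit 4) (nat_lit 4) (nat_lit 4) (nat_lit 315) (nat_lit 256) (nat_lit 209))) (XT.nd (nat_lit 78) (nat_lit 0) (nat_lit 0) (XT.lf (nat_lit 0) (nat_lit 46282931438) (nat_lit 152) (nat_lit 15719943635) (nat_lit 0) (nat_lit 35019282016) (nat_lit 4) (nat_lit 5) (nat_lit 6) (nat_lit 4) (nat_lit 4) (nat_lit 4) (nat_lit 316) (nat_lit 256) (nat_lit 208)) (XT.lf (nat_lit 0) (nat_lit 53941375259) (nat_lit 152) (nat_lit 7790608863) (nat_lit 0) (nat_lit 42656447279) (nat_lit 4) (nat_lit 5)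 (nat_lit 6) (nat_lit 4) (nat_lit 4) (nat_lit 4) (nat_lit 317) (nat_lit 256) (nat_lit 207)))))) (XT.nd (nat_lit 546) (nat_lit 0) (nat_lit 0) (XT.nd (nat_lit 234) (nat_lit 0) (nat_lit 0) (XT.nd (nat_lit 78) (nat_lit 0) (nat_lit 0) (XT.lf (nat_lit 0) (nat_lit 781039329) (nat_lit 76) (nat_lit 61433717495) (nat_lit 76) (nat_lit 50129087149) (nat_lit 3) (nat_lit 4) (nat_lit 4) (nat_lit 5) (nat_lit 4) (nat_lit 4) (nat_lit 318) (nat_lit 256) (nat_lit 206)) (XT.nd (nat_lit 78) (nat_lit 0) (nat_lit 0) (XT.lf (nat_lit 0) (nat_lit 10451161543) (nat_lit 76) (nat_lit 60895829370) (nat_lit 76) (nat_lit 49572956091) (nat_lit 3) (nat_lit 4) (nat_lit 4) (nat_lit 5) (nat_lit 4) (nat_lit 4) (nat_lit 319) (nat_lit 256) (nat_lit 205)) (XT.lf (nat_lit 0) (nat_lit 20866822548) (nat_lit 76) (nat_lit 60328141313) (nat_lit 76) (nat_lit 48988376430) (nat_lit 3) (nat_lit 4) (nat_lit 4) (nat_lit 5) (nat_lit 4)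 (nat_lit 4) (nat_lit 320) (nat_lit 256) (nat_lit 204)))) (XT.nd (nat_lit 156) (nat_lit 0) (nat_lit 0) (XT.nd (nat_lit 78) (nat_lit 0) (nat_lit 0) (XT.lf (nat_lit 0) (nat_lit 32089744780) (nat_lit 76) (nat_lit 59727289248) (nat_lit 76) (nat_lit 48371883990) (nat_lit 3) (nat_lit 4) (nat_lit 4) (nat_lit 5) (nat_lit 4) (nat_lit 4) (nat_lit 321) (nat_lit 256) (nat_lit 203)) (XT.lf (nat_lit 0) (nat_lit 44186434446) (nat_lit 76) (nat_lit 59089712569) (nat_lit 76) (nat_lit 47719825483) (nat_lit 3) (nat_lit 4) (nat_lit 4) (nat_lit 5) (nat_lit 4) (nat_lit 4) (nat_lit 322) (nat_lit 256) (nat_lit 202))) (XT.nd (nat_lit 78) (nat_lit 0) (nat_lit 0) (XT.lf (nat_lit 0) (nat_lit 57228575631) (nat_lit 76) (nat_lit 58411633045) (nat_lit 76) (nat_lit 47028336859) (nat_lit 3) (nat_lit 4) (nat_lit 4) (nat_lit 5) (nat_lit 4) (nat_lit 4) (nat_lit 323) (nat_lit 256) (nat_lit 201)) (XT.lf (nat_lit 0) (nat_lit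 71293455099) (nat_lit 76) (nat_lit 57689032427) (nat_lit 76) (nat_lit 46293320407) (nat_lit 3) (nat_lit 4) (nat_lit 4) (nat_lit 5) (nat_lit 4) (nat_lit 4) (nat_lit 324) (nat_lit 256) (nat_lit 200))))) (XT.nd (nat_lit 312) (nat_lit 0) (nat_lit 0) (XT.nd (nat_lit 156) (nat_lit 0) (nat_lit 0) (XT.nd (nat_lit 78) (nat_lit 0) (nat_lit 0) (XT.lf (nat_lit 0) (nat_lit 86464420283) (nat_lit 76) (nat_lit 56917628636) (nat_lit 76) (nat_lit 45510420475) (nat_lit 3) (nat_lit 4) (nat_lit 4) (nat_lit 5) (nat_lit 4) (nat_lit 4) (nat_lit 325) (nat_lit 256) (nat_lit 199)) (XT.lf (nat_lit 0) (nat_lit 102831373199) (nat_lit 76) (nat_lit 56092850391) (nat_lit 76) (nat_lit 44674997654) (nat_lit 3) (nat_lit 4) (nat_lit 4) (nat_lit 5) (nat_lit 4) (nat_lit 4) (nat_lit 326) (nat_lit 256) (nat_lit 198))) (XT.nd (nat_lit 78) (nat_lit 0) (nat_lit 0) (XT.lf (nat_lit 0) (nat_lit 120491303199) (nat_lit 76) (nat_lit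 55209810118) (nat_lit 76) (nat_lit 43782101292) (nat_lit 3) (nat_lit 4) (nat_lit 4) (nat_lit 5) (nat_lit 4) (nat_lit 4) (nat_lit 327) (nat_lit 256) (nat_lit 197)) (XT.lf (nat_lit 0) (nat_lit 139548861718) (nat_lit 76) (nat_lit 54263274984) (nat_lit 76) (nat_lit 42826440150) (nat_lit 3) (nat_lit 4) (nat_lit 4) (nat_lit 5) (nat_lit 4) (nat_lit 4) (nat_lit 328) (nat_lit 256) (nat_lit 196)))) (XT.nd (nat_lit 156) (nat_lit 0) (nat_lit 0) (XT.nd (nat_lit 78) (nat_lit 0) (nat_lit 0) (XT.lf (nat_lit 0) (nat_lit 160116982437) (nat_lit 76) (nat_lit 53247635894) (nat_lit 76) (nat_lit 41802351052) (nat_lit 3) (nat_lit 4) (nat_lit 4) (nat_lit 5) (nat_lit 4) (nat_lit 4) (nat_lit 329) (nat_lit 256) (nat_lit 195)) (XT.lf (nat_lit 0) (nat_lit 182317550516) (nat_lit 76) (nat_lit 52156874244) (nat_lit 76) (nat_lit 40703765321) (nat_lit 3) (nat_lit 4) (nat_lit 4) (nat_lit 5) (nat_lit 4) (nat_lit 4) (nat_lit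 330) (nat_lit 256) (nat_lit 194))) (XT.nd (nat_lit 78) (nat_lit 0) (nat_lit 0) (XT.lf (nat_lit 0) (nat_lit 206282124877) (nat_lit 76) (nat_lit 50984526263) (nat_lit 76) (nat_lit 39524172820) (nat_lit 3) (nat_lit 4) (nat_lit 4) (nat_lit 5) (nat_lit 4) (nat_lit 4) (nat_lit 331) (nat_lit 256) (nat_lit 193)) (XT.lf (nat_lit 0) (nat_lit 232152717813) (nat_lit 76) (nat_lit 49723644702) (nat_lit 76) (nat_lit 38256583371) (nat_lit 3) (nat_lit 4) (nat_lit 4) (nat_lit 5) (nat_lit 4) (nat_lit 4) (nat_lit 332) (nat_lit 256) (nat_lit 192))))))))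
noncomputable def xc43 : XT := (XT.nd (nat_lit 2184) (nat_lit 0) (nat_lit 0) (XT.nd (nat_lit 1092) (nat_lit 152) (nat_lit 0) (XT.nd (nat_lit 546) (nat_lit 0) (nat_lit 0) (XT.nd (nat_lit 234) (nat_lit 0) (nat_lit 0) (XT.nd (nat_lit 78) (nat_lit 0) (nat_lit 0) (XT.lf (nat_lit 0) (nat_lit 260082636540) (nat_lit 76) (nat_lit 48366757671) (nat_lit 76) (nat_lit 36893485332) (nat_lit 3) (nat_lit 4) (nat_lit 4) (nat_lit 5) (nat_lit 4) (nat_lit 4) (nat_lit 333) (nat_lit 256) (nat_lit 191)) (XT.nd (nat_lit 78) (nat_lit 0) (nat_lit 0) (XT.lf (nat_lit 0) (nat_lit 290237391688) (nat_lit 76) (nat_lit 46905824359) (nat_lit 76) (nat_lit 35426801087) (nat_lit 3) (nat_lit 4) (nat_lit 4) (nat_lit 5) (nat_lit 4) (nat_lit 4) (nat_lit 334) (nat_lit 256) (nat_lit 190)) (XT.lf (nat_lit 0) (nat_lit 322795678103) (nat_lit 76) (nat_lit 45332187382) (nat_lit 76) (nat_lit 33847839171) (nat_lit 3) (nat_lit 4) (nat_lit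 4) (nat_lit 5) (nat_lit 4) (nat_lit 4) (nat_lit 335) (nat_lit 256) (nat_lit 189)))) (XT.nd (nat_lit 156) (nat_lit 0) (nat_lit 0) (XT.nd (nat_lit 78) (nat_lit 0) (nat_lit 0) (XT.lf (nat_lit 0) (nat_lit 357950433777) (nat_lit 76) (nat_lit 43636521484) (nat_lit 76) (nat_lit 32147242775) (nat_lit 3) (nat_lit 4) (nat_lit 4) (nat_lit 5) (nat_lit 4) (nat_lit 4) (nat_lit 336) (nat_lit 256) (nat_lit 188)) (XT.lf (nat_lit 0) (nat_lit 395909983190) (nat_lit 76) (nat_lit 41808778275) (nat_lit 76) (nat_lit 30314934290) (nat_lit 3) (nat_lit 4) (nat_lit 4) (nat_lit 5) (nat_lit 4) (nat_lit 4) (nat_lit 337) (nat_lit 256) (nat_lit 187))) (XT.nd (nat_lit 78) (nat_lit 0) (nat_lit 0) (XT.lf (nat_lit 0) (nat_lit 436899271820) (nat_lit 76) (nat_lit 39838126684) (nat_lit 76) (nat_lit 28340055592) (nat_lit 3) (nat_lit 4) (nat_lit 4) (nat_lit 5) (nat_lit 4) (nat_lit 4) (nat_lit 338) (nat_lit 256) (nat_lit 186))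 (XT.lf (nat_lit 0) (nat_lit 481161199153) (nat_lit 76) (nat_lit 37712888776) (nat_lit 76) (nat_lit 26210903695) (nat_lit 3) (nat_lit 4) (nat_lit 4) (nat_lit 5) (nat_lit 4) (nat_lit 4) (nat_lit 339) (nat_lit 256) (nat_lit 185))))) (XT.nd (nat_lit 234) (nat_lit 0) (nat_lit 0) (XT.nd (nat_lit 78) (nat_lit 0) (nat_lit 0) (XT.lf (nat_lit 0) (nat_lit 528958058094) (nat_lit 76) (nat_lit 35420470548) (nat_lit 76) (nat_lit 23914861404) (nat_lit 3) (nat_lit 4) (nat_lit 4) (nat_lit 5) (nat_lit 4) (nat_lit 4) (nat_lit 340) (nat_lit 256) (nat_lit 184)) (XT.nd (nat_lit 78) (nat_lit 0) (nat_lit 0) (XT.lf (nat_lit 0) (nat_lit 580573089287) (nat_lit 76) (nat_lit 32947287299) (nat_lit 76) (nat_lit 21438322541) (nat_lit 3) (nat_lit 4) (nat_lit 4) (nat_lit 5) (nat_lit 4) (nat_lit 4) (nat_lit 341) (nat_lit 256) (nat_lit 183)) (XT.lf (nat_lit 0) (nat_lit 636312159584) (nat_lit 76) (nat_lit 30278683130)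 (nat_lit 76) (nat_lit 18766611321) (nat_lit 3) (nat_lit 4) (nat_lit 4) (nat_lit 5) (nat_lit 4) (nat_lit 4) (nat_lit 342) (nat_lit 256) (nat_lit 182)))) (XT.nd (nat_lit 156) (nat_lit 0) (nat_lit 0) (XT.nd (nat_lit 78) (nat_lit 0) (nat_lit 0) (XT.lf (nat_lit 0) (nat_lit 696505574588) (nat_lit 76) (nat_lit 27398844088) (nat_lit 76) (nat_lit 15883895381) (nat_lit 3) (nat_lit 4) (nat_lit 4) (nat_lit 5) (nat_lit 4) (nat_lit 4) (nat_lit 343) (nat_lit 256) (nat_lit 181)) (XT.lf (nat_lit 0) (nat_lit 761510036015) (nat_lit 76) (nat_lit 24290704462) (nat_lit 76) (nat_lit 12773091960) (nat_lit 3) (nat_lit 4) (nat_lit 4) (nat_lit 5) (nat_lit 4) (nat_lit 4) (nat_lit 344) (nat_lit 256) (nat_lit 180))) (XT.nd (nat_lit 78) (nat_lit 0) (nat_lit 0) (XT.lf (nat_lit 0) (nat_lit 831710755491) (nat_lit 76) (nat_lit 20935845646) (nat_lit 76) (nat_lit 9415766667) (nat_lit 3) (nat_lit 4) (nat_lit 4) (nat_lit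 5) (nat_lit 4) (nat_lit 4) (nat_lit 345) (nat_lit 256) (nat_lit 179)) (XT.lf (nat_lit 0) (nat_lit 907523737278) (nat_lit 76) (nat_lit 17314386996) (nat_lit 76) (nat_lit 5792024242) (nat_lit 3) (nat_lit 4) (nat_lit 4) (nat_lit 5) (nat_lit 4) (nat_lit 4) (nat_lit 346) (nat_lit 256) (nat_lit 178)))))) (XT.nd (nat_lit 546) (nat_lit 0) (nat_lit 0) (XT.nd (nat_lit 234) (nat_lit 0) (nat_lit 0) (XT.nd (nat_lit 78) (nat_lit 152) (nat_lit 0) (XT.lf (nat_lit 0) (nat_lit 989398243490) (nat_lit 76) (nat_lit 13404868015) (nat_lit 76) (nat_lit 1880390655) (nat_lit 3) (nat_lit 4) (nat_lit 4) (nat_lit 5) (nat_lit 4) (nat_lit 4) (nat_lit 347) (nat_lit 256) (nat_lit 177)) (XT.nd (nat_lit 78) (nat_lit 76) (nat_lit 0) (XT.lf (nat_lit 0) (nat_lit 2225142104) (nat_lit 152) (nat_lit 6898139751) (nat_lit 76) (nat_lit 1075533474954) (nat_lit 2) (nat_lit 5) (nat_lit 4) (nat_lit 5) (nat_lit 3) (nat_lit 4) (nat_lit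 348) (nat_lit 256) (nat_lit 176)) (XT.lf (nat_lit 0) (nat_lit 2219010887) (nat_lit 76) (nat_lit 4390248319) (nat_lit 152) (nat_lit 1164410568259) (nat_lit 1) (nat_lit 5) (nat_lit 2) (nat_lit 5) (nat_lit 3) (nat_lit 4) (nat_lit 349) (nat_lit 256) (nat_lit 175)))) (XT.nd (nat_lit 156) (nat_lit 0) (nat_lit 0) (XT.nd (nat_lit 78) (nat_lit 0) (nat_lit 0) (XT.lf (nat_lit 0) (nat_lit 11553340658) (nat_lit 152) (nat_lit 1251844383268) (nat_lit 0) (nat_lit 877482413) (nat_lit 1) (nat_lit 5) (nat_lit 3) (nat_lit 4) (nat_lit 1) (nat_lit 4) (nat_lit 350) (nat_lit 256) (nat_lit 174)) (XT.lf (nat_lit 0) (nat_lit 17005479538) (nat_lit 152) (nat_lit 1341648352649) (nat_lit 0) (nat_lit 6328182127) (nat_lit 1) (nat_lit 5) (nat_lit 3) (nat_lit 4) (nat_lit 1) (nat_lit 4) (nat_lit 351) (nat_lit 256) (nat_lit 173))) (XT.nd (nat_lit 78) (nat_lit 0) (nat_lit 0) (XT.lf (nat_lit 0) (nat_lit 22892399237) (nat_lit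 152) (nat_lit 1438639310816) (nat_lit 0) (nat_lit 12213769266) (nat_lit 1) (nat_lit 5) (nat_lit 3) (nat_lit 4) (nat_lit 1) (nat_lit 4) (nat_lit 352) (nat_lit 256) (nat_lit 172)) (XT.lf (nat_lit 0) (nat_lit 29248985207) (nat_lit 152) (nat_lit 1543392019002) (nat_lit 0) (nat_lit 18569121384) (nat_lit 1) (nat_lit 5) (nat_lit 3) (nat_lit 4) (nat_lit 1) (nat_lit 4) (nat_lit 353) (nat_lit 256) (nat_lit 171))))) (XT.nd (nat_lit 234) (nat_lit 0) (nat_lit 0) (XT.nd (nat_lit 78) (nat_lit 0) (nat_lit 0) (XT.lf (nat_lit 0) (nat_lit 36112906106) (nat_lit 152) (nat_lit 1656527233995) (nat_lit 0) (nat_lit 25431899826) (nat_lit 1) (nat_lit 5) (nat_lit 3) (nat_lit 4) (nat_lit 1) (nat_lit 4) (nat_lit 354) (nat_lit 256) (nat_lit 170)) (XT.nd (nat_lit 78) (nat_lit 0) (nat_lit 0) (XT.lf (nat_lit 0) (nat_lit 43524837019) (nat_lit 152) (nat_lit 1778715386700) (nat_lit 0) (nat_lit 32842772909) (nat_lit 1)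 (nat_lit 5) (nat_lit 3) (nat_lit 4) (nat_lit 1) (nat_lit 4) (nat_lit 355) (nat_lit 256) (nat_lit 169)) (XT.lf (nat_lit 0) (nat_lit 51528700500) (nat_lit 152) (nat_lit 1910680555059) (nat_lit 0) (nat_lit 40845656919) (nat_lit 1) (nat_lit 5) (nat_lit 3) (nat_lit 4) (nat_lit 1) (nat_lit 4) (nat_lit 356) (nat_lit 256) (nat_lit 168)))) (XT.nd (nat_lit 156) (nat_lit 0) (nat_lit 0) (XT.nd (nat_lit 78) (nat_lit 0) (nat_lit 0) (XT.lf (nat_lit 0) (nat_lit 60171926852) (nat_lit 152) (nat_lit 2053204754884) (nat_lit 0) (nat_lit 49487976353) (nat_lit 1) (nat_lit 5) (nat_lit 3) (nat_lit 4) (nat_lit 1) (nat_lit 4) (nat_lit 357) (nat_lit 256) (nat_lit 167)) (XT.lf (nat_lit 0) (nat_lit 69505735194) (nat_lit 152) (nat_lit 2207132574025) (nat_lit 0) (nat_lit 58820944955) (nat_lit 1) (nat_lit 5) (nat_lit 3) (nat_lit 4) (nat_lit 1) (nat_lit 4) (nat_lit 358) (nat_lit 256) (nat_lit 166))) (XT.nd (nat_lit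 78) (nat_lit 0) (nat_lit 0) (XT.lf (nat_lit 0) (nat_lit 79585436982) (nat_lit 152) (nat_lit 2373376177338) (nat_lit 0) (nat_lit 68899869207) (nat_lit 1) (nat_lit 5) (nat_lit 3) (nat_lit 4) (nat_lit 1) (nat_lit 4) (nat_lit 359) (nat_lit 256) (nat_lit 165)) (XT.lf (nat_lit 0) (nat_lit 90470763783) (nat_lit 152) (nat_lit 2552920712101) (nat_lit 0) (nat_lit 79784476067) (nat_lit 1) (nat_lit 5) (nat_lit 3) (nat_lit 4) (nat_lit 1) (nat_lit 4) (nat_lit 360) (nat_lit 256) (nat_lit 164))))))) (XT.nd (nat_lit 34008) (nat_lit 0) (nat_lit 912) (XT.nd (nat_lit 33462) (nat_lit 0) (nat_lit 2280) (XT.nd (nat_lit 234) (nat_lit 0) (nat_lit 0) (XT.nd (nat_lit 78) (nat_lit 0) (nat_lit 0) (XT.lf (nat_lit 0) (nat_lit 102226221237) (nat_lit 152) (nat_lit 2746830145926) (nat_lit 0) (nat_lit 91539266909) (nat_lit 1) (nat_lit 5) (nat_lit 3) (nat_lit 4) (nat_lit 1) (nat_lit 4) (nat_lit 361) (nat_lit 256) (nat_lit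 163)) (XT.nd (nat_lit 78) (nat_lit 0) (nat_lit 0) (XT.lf (nat_lit 0) (nat_lit 114921471314) (nat_lit 152) (nat_lit 2956253571757) (nat_lit 0) (nat_lit 104233899753) (nat_lit 1) (nat_lit 5) (nat_lit 3) (nat_lit 4) (nat_lit 1) (nat_lit 4) (nat_lit 362) (nat_lit 256) (nat_lit 162)) (XT.lf (nat_lit 0) (nat_lit 128631745126) (nat_lit 152) (nat_lit 3182432017301) (nat_lit 0) (nat_lit 117943602052) (nat_lit 1) (nat_lit 5) (nat_lit 3) (nat_lit 4) (nat_lit 1) (nat_lit 4) (nat_lit 363) (nat_lit 256) (nat_lit 161)))) (XT.nd (nat_lit 33072) (nat_lit 0) (nat_lit 3800) (XT.nd (nat_lit 32994) (nat_lit 0) (nat_lit 4180) (XT.lf (nat_lit 0) (nat_lit 143438288739) (nat_lit 152) (nat_lit 3426705799272) (nat_lit 0) (nat_lit 132749616487) (nat_lit 1) (nat_lit 5) (nat_lit 3) (nat_lit 4) (nat_lit 1) (nat_lit 4) (nat_lit 364) (nat_lit 256) (nat_lit 160)) (XT.lf (nat_lit 0) (nat_lit 550340022) (nat_lit 228)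 (nat_lit 1404095975) (nat_lit 228) (nat_lit 1404095975) (nat_lit 56) (nat_lit 4) (nat_lit 59) (nat_lit 5) (nat_lit 59) (nat_lit 4) (nat_lit 266) (nat_lit 257) (nat_lit 257))) (XT.nd (nat_lit 78) (nat_lit 304) (nat_lit 0) (XT.lf (nat_lit 0) (nat_lit 199656236) (nat_lit 304) (nat_lit 1579718883) (nat_lit 76) (nat_lit 5044035976) (nat_lit 55) (nat_lit 5) (nat_lit 59) (nat_lit 5) (nat_lit 56) (nat_lit 4) (nat_lit 267) (nat_lit 257) (nat_lit 256)) (XT.lf (nat_lit 0) (nat_lit 2625641958) (nat_lit 304) (nat_lit 483911698) (nat_lit 380) (nat_lit 3839327459) (nat_lit 51) (nat_lit 5) (nat_lit 55) (nat_lit 5) (nat_lit 56) (nat_lit 4) (nat_lit 268) (nat_lit 257) (nat_lit 255))))) (XT.nd (nat_lit 234) (nat_lit 608) (nat_lit 0) (XT.nd (nat_lit 78) (nat_lit 912) (nat_lit 0) (XT.lf (nat_lit 0) (nat_lit 6082794631) (nat_lit 380) (nat_lit 75063796) (nat_lit 0) (nat_lit 941476204) (nat_lit 51) (nat_lit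 5) (nat_lit 56) (nat_lit 4) (nat_lit 51) (nat_lit 4) (nat_lit 269) (nat_lit 257) (nat_lit 254)) (XT.nd (nat_lit 78) (nat_lit 456) (nat_lit 0) (XT.lf (nat_lit 0) (nat_lit 1829516061) (nat_lit 456) (nat_lit 2802312410) (nat_lit 76) (nat_lit 2635350140) (nat_lit 45) (nat_lit 5) (nat_lit 51) (nat_lit 5) (nat_lit 46) (nat_lit 4) (nat_lit 270) (nat_lit 257) (nat_lit 253)) (XT.lf (nat_lit 0) (nat_lit 1767576478) (nat_lit 456) (nat_lit 2911773713) (nat_lit 532) (nat_lit 2781610030) (nat_lit 39) (nat_lit 5) (nat_lit 45) (nat_lit 5) (nat_lit 46) (nat_lit 4) (nat_lit 271) (nat_lit 257) (nat_lit 252)))) (XT.nd (nat_lit 156) (nat_lit 304) (nat_lit 0) (XT.nd (nat_lit 78) (nat_lit 304) (nat_lit 0) (XT.lf (nat_lit 0) (nat_lit 6649593072) (nat_lit 456) (nat_lit 981299153) (nat_lit 532) (nat_lit 50476158) (nat_lit 39) (nat_lit 5) (nat_lit 45) (nat_lit 5) (nat_lit 46) (nat_lit 4) (nat_lit 272) (nat_lit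 257) (nat_lit 251)) (XT.lf (nat_lit 0) (nat_lit 2685228327) (nat_lit 304) (nat_lit 4032066140) (nat_lit 76) (nat_lit 1202924157) (nat_lit 35) (nat_lit 5) (nat_lit 39) (nat_lit 5) (nat_lit 36) (nat_lit 4) (nat_lit 273) (nat_lit 257) (nat_lit 250))) (XT.nd (nat_lit 78) (nat_lit 76) (nat_lit 0) (XT.lf (nat_lit 0) (nat_lit 883109143) (nat_lit 228) (nat_lit 4644991251) (nat_lit 304) (nat_lit 2659499616) (nat_lit 32) (nat_lit 5) (nat_lit 35) (nat_lit 5) (nat_lit 36) (nat_lit 4) (nat_lit 274) (nat_lit 257) (nat_lit 249)) (XT.lf (nat_lit 0) (nat_lit 47681523) (nat_lit 304) (nat_lit 2275239824) (nat_lit 76) (nat_lit 6159370687) (nat_lit 31) (nat_lit 5) (nat_lit 35) (nat_lit 5) (nat_lit 32) (nat_lit 5) (nat_lit 275) (nat_lit 257) (nat_lit 248)))))) (XT.nd (nat_lit 546) (nat_lit 608) (nat_lit 0) (XT.nd (nat_lit 234) (nat_lit 380) (nat_lit 0) (XT.nd (nat_lit 78) (nat_lit 152) (nat_lit 0) (XT.lf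 (nat_lit 0) (nat_lit 2739990773) (nat_lit 304) (nat_lit 5777703850) (nat_lit 76) (nat_lit 285003563) (nat_lit 28) (nat_lit 5) (nat_lit 32) (nat_lit 5) (nat_lit 29) (nat_lit 4) (nat_lit 276) (nat_lit 257) (nat_lit 247)) (XT.nd (nat_lit 78) (nat_lit 152) (nat_lit 0) (XT.lf (nat_lit 0) (nat_lit 5610553938) (nat_lit 304) (nat_lit 540491246) (nat_lit 76) (nat_lit 3001258275) (nat_lit 28) (nat_lit 5) (nat_lit 32) (nat_lit 5) (nat_lit 29) (nat_lit 4) (nat_lit 277) (nat_lit 257) (nat_lit 246)) (XT.lf (nat_lit 0) (nat_lit 5177063223) (nat_lit 152) (nat_lit 3508863580) (nat_lit 228) (nat_lit 846489181) (nat_lit 26) (nat_lit 5) (nat_lit 28) (nat_lit 5) (nat_lit 29) (nat_lit 4) (nat_lit 278) (nat_lit 257) (nat_lit 245)))) (XT.nd (nat_lit 156) (nat_lit 152) (nat_lit 0) (XT.nd (nat_lit 78) (nat_lit 0) (nat_lit 0) (XT.lf (nat_lit 0) (nat_lit 1252813451) (nat_lit 152) (nat_lit 606490112) (nat_lit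 228) (nat_lit 8088280840) (nat_lit 23) (nat_lit 5) (nat_lit 25) (nat_lit 5) (nat_lit 26) (nat_lit 5) (nat_lit 279) (nat_lit 257) (nat_lit 244)) (XT.lf (nat_lit 0) (nat_lit 4776563404) (nat_lit 228) (nat_lit 3121132890) (nat_lit 76) (nat_lit 2493690373) (nat_lit 23) (nat_lit 5) (nat_lit 26) (nat_lit 5) (nat_lit 24) (nat_lit 4) (nat_lit 280) (nat_lit 257) (nat_lit 243))) (XT.nd (nat_lit 78) (nat_lit 0) (nat_lit 0) (XT.lf (nat_lit 0) (nat_lit 2833517868) (nat_lit 152) (nat_lit 5045881371) (nat_lit 228) (nat_lit 2995523995) (nat_lit 21) (nat_lit 5) (nat_lit 23) (nat_lit 5) (nat_lit 24) (nat_lit 4) (nat_lit 281) (nat_lit 257) (nat_lit 242)) (XT.lf (nat_lit 0) (nat_lit 9256005019) (nat_lit 152) (nat_lit 1933371918) (nat_lit 228) (nat_lit 211428273) (nat_lit 21) (nat_lit 5) (nat_lit 23) (nat_lit 5) (nat_lit 24) (nat_lit 4) (nat_lit 282) (nat_lit 257) (nat_lit 241))))) (XT.nd (nat_lit 312)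 (nat_lit 304) (nat_lit 0) (XT.nd (nat_lit 156) (nat_lit 76) (nat_lit 0) (XT.nd (nat_lit 78) (nat_lit 0) (nat_lit 0) (XT.lf (nat_lit 0) (nat_lit 2673124431) (nat_lit 228) (nat_lit 7815756286) (nat_lit 76) (nat_lit 1473415464) (nat_lit 18) (nat_lit 5) (nat_lit 21) (nat_lit 5) (nat_lit 19) (nat_lit 4) (nat_lit 283) (nat_lit 257) (nat_lit 240)) (XT.lf (nat_lit 0) (nat_lit 5770288476) (nat_lit 228) (nat_lit 1740617093) (nat_lit 76) (nat_lit 5058198180) (nat_lit 18) (nat_lit 5) (nat_lit 21) (nat_lit 5) (nat_lit 19) (nat_lit 4) (nat_lit 284) (nat_lit 257) (nat_lit 239))) (XT.nd (nat_lit 78) (nat_lit 0) (nat_lit 0) (XT.lf (nat_lit 0) (nat_lit 4896461407) (nat_lit 76) (nat_lit 4228085794) (nat_lit 152) (nat_lit 4099439134) (nat_lit 17) (nat_lit 5) (nat_lit 18) (nat_lit 5) (nat_lit 19) (nat_lit 4) (nat_lit 285) (nat_lit 257) (nat_lit 238)) (XT.lf (nat_lit 0) (nat_lit 11998762770) (nat_lit 76)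 (nat_lit 691607580) (nat_lit 152) (nat_lit 1245686966) (nat_lit 17) (nat_lit 5) (nat_lit 18) (nat_lit 5) (nat_lit 19) (nat_lit 4) (nat_lit 286) (nat_lit 257) (nat_lit 237)))) (XT.nd (nat_lit 156) (nat_lit 76) (nat_lit 0) (XT.nd (nat_lit 78) (nat_lit 0) (nat_lit 0) (XT.lf (nat_lit 0) (nat_lit 1843780510) (nat_lit 228) (nat_lit 9765412319) (nat_lit 76) (nat_lit 3084644977) (nat_lit 14) (nat_lit 5) (nat_lit 17) (nat_lit 5) (nat_lit 15) (nat_lit 4) (nat_lit 287) (nat_lit 257) (nat_lit 236)) (XT.lf (nat_lit 0) (nat_lit 5088299003) (nat_lit 228) (nat_lit 3266562038) (nat_lit 76) (nat_lit 7156978778) (nat_lit 14) (nat_lit 5) (nat_lit 17) (nat_lit 5) (nat_lit 15) (nat_lit 4) (nat_lit 288) (nat_lit 257) (nat_lit 235))) (XT.nd (nat_lit 78) (nat_lit 0) (nat_lit 0) (XT.lf (nat_lit 0) (nat_lit 3793399652) (nat_lit 76) (nat_lit 4800288779) (nat_lit 152) (nat_lit 7801676740) (nat_lit 13) (nat_lit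 5) (nat_lit 14) (nat_lit 5) (nat_lit 15) (nat_lit 4) (nat_lit 289) (nat_lit 257) (nat_lit 234)) (XT.lf (nat_lit 0) (nat_lit 11459133688) (nat_lit 76) (nat_lit 922945537) (nat_lit 152) (nat_lit 4967461725) (nat_lit 13) (nat_lit 5) (nat_lit 14) (nat_lit 5) (nat_lit 15) (nat_lit 4) (nat_lit 290) (nat_lit 257) (nat_lit 233))))))))
noncomputable def xc44 : XT := (XT.nd (nat_lit 2184) (nat_lit 76) (nat_lit 0) (XT.nd (nat_lit 1092) (nat_lit 228) (nat_lit 0) (XT.nd (nat_lit 546) (nat_lit 152) (nat_lit 0) (XT.nd (nat_lit 234) (nat_lit 152) (nat_lit 0) (XT.nd (nat_lit 78) (nat_lit 76) (nat_lit 0) (XT.lf (nat_lit 0) (nat_lit 1200238105) (nat_lit 76) (nat_lit 15299071568) (nat_lit 76) (nat_lit 1878840769) (nat_lit 12) (nat_lit 4) (nat_lit 13) (nat_lit 5) (nat_lit 13) (nat_lit 4) (nat_lit 291) (nat_lit 257) (nat_lit 232)) (XT.nd (nat_lit 78) (nat_lit 0) (nat_lit 0) (XT.lf (nat_lit 0) (nat_lit 1492179668)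 (nat_lit 152) (nat_lit 10486471506) (nat_lit 76) (nat_lit 7499077571) (nat_lit 11) (nat_lit 5) (nat_lit 13) (nat_lit 5) (nat_lit 12) (nat_lit 4) (nat_lit 292) (nat_lit 257) (nat_lit 231)) (XT.lf (nat_lit 0) (nat_lit 4956355471) (nat_lit 152) (nat_lit 3438369557) (nat_lit 76) (nat_lit 12272773710) (nat_lit 11) (nat_lit 5) (nat_lit 13) (nat_lit 5) (nat_lit 12) (nat_lit 4) (nat_lit 293) (nat_lit 257) (nat_lit 230)))) (XT.nd (nat_lit 156) (nat_lit 76) (nat_lit 0) (XT.nd (nat_lit 78) (nat_lit 0) (nat_lit 0) (XT.lf (nat_lit 0) (nat_lit 4266788232) (nat_lit 76) (nat_lit 4464030439) (nat_lit 152) (nat_lit 13219097825) (nat_lit 10) (nat_lit 5) (nat_lit 11) (nat_lit 5) (nat_lit 12) (nat_lit 4) (nat_lit 294) (nat_lit 257) (nat_lit 229)) (XT.lf (nat_lit 0) (nat_lit 12666711333) (nat_lit 76) (nat_lit 167402662) (nat_lit 152) (nat_lit 10498773331) (nat_lit 10) (nat_lit 5) (nat_lit 11) (nat_lit 5)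 (nat_lit 12) (nat_lit 4) (nat_lit 295) (nat_lit 257) (nat_lit 228))) (XT.nd (nat_lit 78) (nat_lit 76) (nat_lit 0) (XT.lf (nat_lit 0) (nat_lit 17309969983) (nat_lit 152) (nat_lit 3307911824) (nat_lit 0) (nat_lit 4205171788) (nat_lit 10) (nat_lit 5) (nat_lit 12) (nat_lit 4) (nat_lit 10) (nat_lit 4) (nat_lit 296) (nat_lit 257) (nat_lit 227)) (XT.lf (nat_lit 0) (nat_lit 4769096352) (nat_lit 76) (nat_lit 17435252686) (nat_lit 76) (nat_lit 4223341776) (nat_lit 9) (nat_lit 4) (nat_lit 10) (nat_lit 5) (nat_lit 10) (nat_lit 4) (nat_lit 297) (nat_lit 257) (nat_lit 226))))) (XT.nd (nat_lit 234) (nat_lit 0) (nat_lit 0) (XT.nd (nat_lit 78) (nat_lit 152) (nat_lit 0) (XT.lf (nat_lit 0) (nat_lit 13578886960) (nat_lit 76) (nat_lit 13945144120) (nat_lit 76) (nat_lit 634054768) (nat_lit 9) (nat_lit 4) (nat_lit 10) (nat_lit 5) (nat_lit 10) (nat_lit 4) (nat_lit 298) (nat_lit 257) (nat_lit 225)) (XT.nd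 (nat_lit 78) (nat_lit 76) (nat_lit 0) (XT.lf (nat_lit 0) (nat_lit 3026246318) (nat_lit 152) (nat_lit 7108328899) (nat_lit 76) (nat_lit 19890488134) (nat_lit 8) (nat_lit 5) (nat_lit 10) (nat_lit 5) (nat_lit 9) (nat_lit 4) (nat_lit 299) (nat_lit 257) (nat_lit 224)) (XT.lf (nat_lit 0) (nat_lit 898992587) (nat_lit 76) (nat_lit 6017807102) (nat_lit 152) (nat_lit 25125616261) (nat_lit 7) (nat_lit 5) (nat_lit 8) (nat_lit 5) (nat_lit 9) (nat_lit 4) (nat_lit 300) (nat_lit 257) (nat_lit 223)))) (XT.nd (nat_lit 156) (nat_lit 0) (nat_lit 0) (XT.nd (nat_lit 78) (nat_lit 0) (nat_lit 0) (XT.lf (nat_lit 0) (nat_lit 9863707761) (nat_lit 76) (nat_lit 1400902610) (nat_lit 152) (nat_lit 22944929329) (nat_lit 7) (nat_lit 5) (nat_lit 8) (nat_lit 5) (nat_lit 9) (nat_lit 4) (nat_lit 301) (nat_lit 257) (nat_lit 222)) (XT.lf (nat_lit 0) (nat_lit 16000842456) (nat_lit 152) (nat_lit 17174401557) (nat_lit 0) (nat_lit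 3371600858) (nat_lit 7) (nat_lit 5) (nat_lit 9) (nat_lit 4) (nat_lit 7) (nat_lit 4) (nat_lit 302) (nat_lit 257) (nat_lit 221))) (XT.nd (nat_lit 78) (nat_lit 0) (nat_lit 0) (XT.lf (nat_lit 0) (nat_lit 21110108979) (nat_lit 152) (nat_lit 9543181323) (nat_lit 0) (nat_lit 8418368140) (nat_lit 7) (nat_lit 5) (nat_lit 9) (nat_lit 4) (nat_lit 7) (nat_lit 4) (nat_lit 303) (nat_lit 257) (nat_lit 220)) (XT.lf (nat_lit 0) (nat_lit 26588995333) (nat_lit 152) (nat_lit 1373257451) (nat_lit 0) (nat_lit 13839384826) (nat_lit 7) (nat_lit 5) (nat_lit 9) (nat_lit 4) (nat_lit 7) (nat_lit 4) (nat_lit 304) (nat_lit 257) (nat_lit 219)))))) (XT.nd (nat_lit 546) (nat_lit 0) (nat_lit 0) (XT.nd (nat_lit 234) (nat_lit 152) (nat_lit 0) (XT.nd (nat_lit 78) (nat_lit 0) (nat_lit 0) (XT.lf (nat_lit 0) (nat_lit 7772601424) (nat_lit 76) (nat_lit 24884298820) (nat_lit 76) (nat_lit 12081105288) (nat_lit 6) (nat_lit 4)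 (nat_lit 7) (nat_lit 5) (nat_lit 7) (nat_lit 4) (nat_lit 305) (nat_lit 257) (nat_lit 218)) (XT.nd (nat_lit 78) (nat_lit 0) (nat_lit 0) (XT.lf (nat_lit 0) (nat_lit 17663434404) (nat_lit 76) (nat_lit 21549251792) (nat_lit 76) (nat_lit 8696444347) (nat_lit 6) (nat_lit 4) (nat_lit 7) (nat_lit 5) (nat_lit 7) (nat_lit 4) (nat_lit 306) (nat_lit 257) (nat_lit 217)) (XT.lf (nat_lit 0) (nat_lit 28285540528) (nat_lit 76) (nat_lit 17974895749) (nat_lit 76) (nat_lit 5076149497) (nat_lit 6) (nat_lit 4) (nat_lit 7) (nat_lit 5) (nat_lit 7) (nat_lit 4) (nat_lit 307) (nat_lit 257) (nat_lit 216)))) (XT.nd (nat_lit 156) (nat_lit 76) (nat_lit 0) (XT.nd (nat_lit 78) (nat_lit 76) (nat_lit 0) (XT.lf (nat_lit 0) (nat_lit 39701865610) (nat_lit 76) (nat_lit 14140049324) (nat_lit 76) (nat_lit 1198767138) (nat_lit 6) (nat_lit 4) (nat_lit 7) (nat_lit 5) (nat_lit 7) (nat_lit 4) (nat_lit 308) (nat_lit 257) (nat_lit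 215)) (XT.lf (nat_lit 0) (nat_lit 2810674661) (nat_lit 152) (nat_lit 7134464013) (nat_lit 76) (nat_lit 49092538460) (nat_lit 5) (nat_lit 5) (nat_lit 7) (nat_lit 5) (nat_lit 6) (nat_lit 4) (nat_lit 309) (nat_lit 257) (nat_lit 214))) (XT.nd (nat_lit 78) (nat_lit 0) (nat_lit 0) (XT.lf (nat_lit 0) (nat_lit 1732728100) (nat_lit 76) (nat_lit 5358552243) (nat_lit 152) (nat_lit 56259476300) (nat_lit 4) (nat_lit 5) (nat_lit 5) (nat_lit 5) (nat_lit 6) (nat_lit 4) (nat_lit 310) (nat_lit 257) (nat_lit 213)) (XT.lf (nat_lit 0) (nat_lit 11667230840) (nat_lit 76) (nat_lit 216486587) (nat_lit 152) (nat_lit 56111641894) (nat_lit 4) (nat_lit 5) (nat_lit 5) (nat_lit 5) (nat_lit 6) (nat_lit 4) (nat_lit 311) (nat_lit 257) (nat_lit 212))))) (XT.nd (nat_lit 234) (nat_lit 0) (nat_lit 0) (XT.nd (nat_lit 78) (nat_lit 0) (nat_lit 0) (XT.lf (nat_lit 0) (nat_lit 17163627211) (nat_lit 152) (nat_lit 50789092195)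 (nat_lit 0) (nat_lit 5050509997) (nat_lit 4) (nat_lit 5) (nat_lit 6) (nat_lit 4) (nat_lit 4) (nat_lit 4) (nat_lit 312) (nat_lit 257) (nat_lit 211)) (XT.nd (nat_lit 78) (nat_lit 0) (nat_lit 0) (XT.lf (nat_lit 0) (nat_lit 22849075114) (nat_lit 152) (nat_lit 44854872833) (nat_lit 0) (nat_lit 10709153046) (nat_lit 4) (nat_lit 5) (nat_lit 6) (nat_lit 4) (nat_lit 4) (nat_lit 4) (nat_lit 313) (nat_lit 257) (nat_lit 210)) (XT.lf (nat_lit 0) (nat_lit 28968546170) (nat_lit 152) (nat_lit 38485098142) (nat_lit 0) (nat_lit 16803804794) (nat_lit 4) (nat_lit 5) (nat_lit 6) (nat_lit 4) (nat_lit 4) (nat_lit 4) (nat_lit 314) (nat_lit 257) (nat_lit 209)))) (XT.nd (nat_lit 156) (nat_lit 0) (nat_lit 0) (XT.nd (nat_lit 78) (nat_lit 0) (nat_lit 0) (XT.lf (nat_lit 0) (nat_lit 35558303914) (nat_lit 152) (nat_lit 31642021311) (nat_lit 0) (nat_lit 23370581696) (nat_lit 4) (nat_lit 5) (nat_lit 6) (nat_lit 4)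 (nat_lit 4) (nat_lit 4) (nat_lit 315) (nat_lit 257) (nat_lit 208)) (XT.lf (nat_lit 0) (nat_lit 42657398760) (nat_lit 152) (nat_lit 24285090771) (nat_lit 0) (nat_lit 30448397986) (nat_lit 4) (nat_lit 5) (nat_lit 6) (nat_lit 4) (nat_lit 4) (nat_lit 4) (nat_lit 316) (nat_lit 257) (nat_lit 207))) (XT.nd (nat_lit 78) (nat_lit 0) (nat_lit 0) (XT.lf (nat_lit 0) (nat_lit 50307899420) (nat_lit 152) (nat_lit 16370709899) (nat_lit 0) (nat_lit 38079196278) (nat_lit 4) (nat_lit 5) (nat_lit 6) (nat_lit 4) (nat_lit 4) (nat_lit 4) (nat_lit 317) (nat_lit 257) (nat_lit 206)) (XT.lf (nat_lit 0) (nat_lit 58555142193) (nat_lit 152) (nat_lit 7851978659) (nat_lit 0) (nat_lit 46308196119) (nat_lit 4) (nat_lit 5) (nat_lit 6) (nat_lit 4) (nat_lit 4) (nat_lit 4) (nat_lit 318) (nat_lit 257) (nat_lit 205))))))) (XT.nd (nat_lit 1092) (nat_lit 0) (nat_lit 0) (XT.nd (nat_lit 546) (nat_lit 0) (nat_lit 0) (XT.nd (nat_lit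 234) (nat_lit 0) (nat_lit 0) (XT.nd (nat_lit 78) (nat_lit 0) (nat_lit 0) (XT.lf (nat_lit 0) (nat_lit 1391176606) (nat_lit 76) (nat_lit 66090280853) (nat_lit 76) (nat_lit 53826443175) (nat_lit 3) (nat_lit 4) (nat_lit 4) (nat_lit 5) (nat_lit 4) (nat_lit 4) (nat_lit 319) (nat_lit 257) (nat_lit 204)) (XT.nd (nat_lit 78) (nat_lit 0) (nat_lit 0) (XT.lf (nat_lit 0) (nat_lit 11794341624) (nat_lit 76) (nat_lit 65528482718) (nat_lit 76) (nat_lit 53249004665) (nat_lit 3) (nat_lit 4) (nat_lit 4) (nat_lit 5) (nat_lit 4) (nat_lit 4) (nat_lit 320) (nat_lit 257) (nat_lit 203)) (XT.lf (nat_lit 0) (nat_lit 23005693498) (nat_lit 76) (nat_lit 64933084283) (nat_lit 76) (nat_lit 52639124403) (nat_lit 3) (nat_lit 4) (nat_lit 4) (nat_lit 5) (nat_lit 4) (nat_lit 4) (nat_lit 321) (nat_lit 257) (nat_lit 202)))) (XT.nd (nat_lit 156) (nat_lit 0) (nat_lit 0) (XT.nd (nat_lit 78) (nat_lit 0) (nat_lit 0) (XT.lf (nat_lit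 0) (nat_lit 35091669868) (nat_lit 76) (nat_lit 64300557263) (nat_lit 76) (nat_lit 51993188282) (nat_lit 3) (nat_lit 4) (nat_lit 4) (nat_lit 5) (nat_lit 4) (nat_lit 4) (nat_lit 322) (nat_lit 257) (nat_lit 201)) (XT.lf (nat_lit 0) (nat_lit 48123891336) (nat_lit 76) (nat_lit 63627153348) (nat_lit 76) (nat_lit 51307368534) (nat_lit 3) (nat_lit 4) (nat_lit 4) (nat_lit 5) (nat_lit 4) (nat_lit 4) (nat_lit 323) (nat_lit 257) (nat_lit 200))) (XT.nd (nat_lit 78) (nat_lit 0) (nat_lit 0) (XT.lf (nat_lit 0) (nat_lit 62179585881) (nat_lit 76) (nat_lit 62908881998) (nat_lit 76) (nat_lit 50577601041) (nat_lit 3) (nat_lit 4) (nat_lit 4) (nat_lit 5) (nat_lit 4) (nat_lit 4) (nat_lit 324) (nat_lit 257) (nat_lit 199)) (XT.lf (nat_lit 0) (nat_lit 77342046506) (nat_lit 76) (nat_lit 62141486788) (nat_lit 76) (nat_lit 49799561256) (nat_lit 3) (nat_lit 4) (nat_lit 4) (nat_lit 5) (nat_lit 4) (nat_lit 4) (nat_lit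 325) (nat_lit 257) (nat_lit 198))))) (XT.nd (nat_lit 234) (nat_lit 0) (nat_lit 0) (XT.nd (nat_lit 78) (nat_lit 0) (nat_lit 0) (XT.lf (nat_lit 0) (nat_lit 93701124831) (nat_lit 76) (nat_lit 61320420193) (nat_lit 76) (nat_lit 48968638572) (nat_lit 3) (nat_lit 4) (nat_lit 4) (nat_lit 5) (nat_lit 4) (nat_lit 4) (nat_lit 326) (nat_lit 257) (nat_lit 197)) (XT.nd (nat_lit 78) (nat_lit 0) (nat_lit 0) (XT.lf (nat_lit 0) (nat_lit 111353763542) (nat_lit 76) (nat_lit 60440816632) (nat_lit 76) (nat_lit 48079909003) (nat_lit 3) (nat_lit 4) (nat_lit 4) (nat_lit 5) (nat_lit 4) (nat_lit 4) (nat_lit 327) (nat_lit 257) (nat_lit 196)) (XT.lf (nat_lit 0) (nat_lit 130404570868) (nat_lit 76) (nat_lit 59497463640) (nat_lit 76) (nat_lit 47128106003) (nat_lit 3) (nat_lit 4) (nat_lit 4) (nat_lit 5) (nat_lit 4) (nat_lit 4) (nat_lit 328) (nat_lit 257) (nat_lit 195)))) (XT.nd (nat_lit 156) (nat_lit 0) (nat_lit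 0) (XT.nd (nat_lit 78) (nat_lit 0) (nat_lit 0) (XT.lf (nat_lit 0) (nat_lit 150966440482) (nat_lit 76) (nat_lit 58484770976) (nat_lit 76) (nat_lit 46107589258) (nat_lit 3) (nat_lit 4) (nat_lit 4) (nat_lit 5) (nat_lit 4) (nat_lit 4) (nat_lit 329) (nat_lit 257) (nat_lit 194)) (XT.lf (nat_lit 0) (nat_lit 173161220502) (nat_lit 76) (nat_lit 57396737500) (nat_lit 76) (nat_lit 45012311262) (nat_lit 3) (nat_lit 4) (nat_lit 4) (nat_lit 5) (nat_lit 4) (nat_lit 4) (nat_lit 330) (nat_lit 257) (nat_lit 193))) (XT.nd (nat_lit 78) (nat_lit 0) (nat_lit 0) (XT.lf (nat_lit 0) (nat_lit 197120435548) (nat_lit 76) (nat_lit 56226915604) (nat_lit 76) (nat_lit 43835781478) (nat_lit 3) (nat_lit 4) (nat_lit 4) (nat_lit 5) (nat_lit 4) (nat_lit 4) (nat_lit 331) (nat_lit 257) (nat_lit 192)) (XT.lf (nat_lit 0) (nat_lit 222986066155) (nat_lit 76) (nat_lit 54968373012) (nat_lit 76) (nat_lit 42571027878) (nat_lit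 3) (nat_lit 4) (nat_lit 4) (nat_lit 5) (nat_lit 4) (nat_lit 4) (nat_lit 332) (nat_lit 257) (nat_lit 191)))))) (XT.nd (nat_lit 546) (nat_lit 0) (nat_lit 0) (XT.nd (nat_lit 234) (nat_lit 0) (nat_lit 0) (XT.nd (nat_lit 78) (nat_lit 0) (nat_lit 0) (XT.lf (nat_lit 0) (nat_lit 250911390133) (nat_lit 76) (nat_lit 53613651693) (nat_lit 76) (nat_lit 41210555626) (nat_lit 3) (nat_lit 4) (nat_lit 4) (nat_lit 5) (nat_lit 4) (nat_lit 4) (nat_lit 333) (nat_lit 257) (nat_lit 190)) (XT.nd (nat_lit 78) (nat_lit 0) (nat_lit 0) (XT.lf (nat_lit 0) (nat_lit 281061890885) (nat_lit 76) (nat_lit 52154723670) (nat_lit 76) (nat_lit 39746302664) (nat_lit 3) (nat_lit 4) (nat_lit 4) (nat_lit 5) (nat_lit 4) (nat_lit 4) (nat_lit 334) (nat_lit 257) (nat_lit 189)) (XT.lf (nat_lit 0) (nat_lit 313616238043) (nat_lit 76) (nat_lit 50582943441) (nat_lit 76) (nat_lit 38169591938) (nat_lit 3) (nat_lit 4) (nat_lit 4) (nat_lit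 5) (nat_lit 4) (nat_lit 4) (nat_lit 335) (nat_lit 257) (nat_lit 188)))) (XT.nd (nat_lit 156) (nat_lit 0) (nat_lit 0) (XT.nd (nat_lit 78) (nat_lit 0) (nat_lit 0) (XT.lf (nat_lit 0) (nat_lit 348767346259) (nat_lit 76) (nat_lit 48888996756) (nat_lit 76) (nat_lit 36471079976) (nat_lit 3) (nat_lit 4) (nat_lit 4) (nat_lit 5) (nat_lit 4) (nat_lit 4) (nat_lit 336) (nat_lit 257) (nat_lit 187)) (XT.lf (nat_lit 0) (nat_lit 386723518394) (nat_lit 76) (nat_lit 47062845410) (nat_lit 76) (nat_lit 34640701522) (nat_lit 3) (nat_lit 4) (nat_lit 4) (nat_lit 5) (nat_lit 4) (nat_lit 4) (nat_lit 337) (nat_lit 257) (nat_lit 186))) (XT.nd (nat_lit 78) (nat_lit 0) (nat_lit 0) (XT.lf (nat_lit 0) (nat_lit 427709679915) (nat_lit 76) (nat_lit 45093667766) (nat_lit 76) (nat_lit 32667609890) (nat_lit 3) (nat_lit 4) (nat_lit 4) (nat_lit 5) (nat_lit 4) (nat_lit 4) (nat_lit 338) (nat_lit 257) (nat_lit 185)) (XT.lf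 (nat_lit 0) (nat_lit 471968711777) (nat_lit 76) (nat_lit 42969794623) (nat_lit 76) (nat_lit 30540112684) (nat_lit 3) (nat_lit 4) (nat_lit 4) (nat_lit 5) (nat_lit 4) (nat_lit 4) (nat_lit 339) (nat_lit 257) (nat_lit 184))))) (XT.nd (nat_lit 234) (nat_lit 0) (nat_lit 0) (XT.nd (nat_lit 78) (nat_lit 0) (nat_lit 0) (XT.lf (nat_lit 0) (nat_lit 519762889726) (nat_lit 76) (nat_lit 40678640067) (nat_lit 76) (nat_lit 28245602514) (nat_lit 3) (nat_lit 4) (nat_lit 4) (nat_lit 5) (nat_lit 4) (nat_lit 4) (nat_lit 340) (nat_lit 257) (nat_lit 183)) (XT.nd (nat_lit 78) (nat_lit 0) (nat_lit 0) (XT.lf (nat_lit 0) (nat_lit 571375438520) (nat_lit 76) (nat_lit 38206626885) (nat_lit 76) (nat_lit 25770482281) (nat_lit 3) (nat_lit 4) (nat_lit 4) (nat_lit 5) (nat_lit 4) (nat_lit 4) (nat_lit 341) (nat_lit 257) (nat_lit 182)) (XT.lf (nat_lit 0) (nat_lit 627112210299) (nat_lit 76) (nat_lit 35539106111) (nat_lit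 76) (nat_lit 23100084608) (nat_lit 3) (nat_lit 4) (nat_lit 4) (nat_lit 5) (nat_lit 4) (nat_lit 4) (nat_lit 342) (nat_lit 257) (nat_lit 181)))) (XT.nd (nat_lit 156) (nat_lit 0) (nat_lit 0) (XT.nd (nat_lit 78) (nat_lit 0) (nat_lit 0) (XT.lf (nat_lit 0) (nat_lit 687303497045) (nat_lit 76) (nat_lit 32660270213) (nat_lit 76) (nat_lit 20218584916) (nat_lit 3) (nat_lit 4) (nat_lit 4) (nat_lit 5) (nat_lit 4) (nat_lit 4) (nat_lit 343) (nat_lit 257) (nat_lit 180)) (XT.lf (nat_lit 0) (nat_lit 752305987863) (nat_lit 76) (nat_lit 29553059423) (nat_lit 76) (nat_lit 17108907650) (nat_lit 3) (nat_lit 4) (nat_lit 4) (nat_lit 5) (nat_lit 4) (nat_lit 4) (nat_lit 344) (nat_lit 257) (nat_lit 179))) (XT.nd (nat_lit 78) (nat_lit 0) (nat_lit 0) (XT.lf (nat_lit 0) (nat_lit 822504882701) (nat_lit 76) (nat_lit 26199060641) (nat_lit 76) (nat_lit 13752625093) (nat_lit 3) (nat_lit 4) (nat_lit 4) (nat_lit 5) (nat_lit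 4) (nat_lit 4) (nat_lit 345) (nat_lit 257) (nat_lit 178)) (XT.lf (nat_lit 0) (nat_lit 898316175008) (nat_lit 76) (nat_lit 22578398319) (nat_lit 76) (nat_lit 10129848164) (nat_lit 3) (nat_lit 4) (nat_lit 4) (nat_lit 5) (nat_lit 4) (nat_lit 4) (nat_lit 346) (nat_lit 257) (nat_lit 177))))))))
noncomputable def xc45 : XT := (XT.nd (nat_lit 34944) (nat_lit 0) (nat_lit 456) (XT.nd (nat_lit 1092) (nat_lit 0) (nat_lit 0) (XT.nd (nat_lit 546) (nat_lit 0) (nat_lit 0) (XT.nd (nat_lit 234) (nat_lit 76) (nat_lit 0) (XT.nd (nat_lit 78) (nat_lit 76) (nat_lit 0) (XT.lf (nat_lit 0) (nat_lit 980189116888) (nat_lit 76) (nat_lit 18669616678) (nat_lit 76) (nat_lit 6219108555) (nat_lit 3) (nat_lit 4) (nat_lit 4) (nat_lit 5) (nat_lit 4) (nat_lit 4) (nat_lit 347) (nat_lit 257) (nat_lit 176)) (XT.nd (nat_lit 78) (nat_lit 76) (nat_lit 0) (XT.lf (nat_lit 0) (nat_lit 1068608881328) (nat_lit 76) (nat_lit 14449552570)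 (nat_lit 76) (nat_lit 1997231512) (nat_lit 3) (nat_lit 4) (nat_lit 4) (nat_lit 5) (nat_lit 4) (nat_lit 4) (nat_lit 348) (nat_lit 257) (nat_lit 175)) (XT.lf (nat_lit 0) (nat_lit 2432699831) (nat_lit 152) (nat_lit 7393984050) (nat_lit 76) (nat_lit 1161600223148) (nat_lit 2) (nat_lit 5) (nat_lit 4) (nat_lit 5) (nat_lit 3) (nat_lit 4) (nat_lit 349) (nat_lit 257) (nat_lit 174)))) (XT.nd (nat_lit 156) (nat_lit 0) (nat_lit 0) (XT.nd (nat_lit 78) (nat_lit 0) (nat_lit 0) (XT.lf (nat_lit 0) (nat_lit 2451120743) (nat_lit 76) (nat_lit 4715549805) (nat_lit 152) (nat_lit 1257532424821) (nat_lit 1) (nat_lit 5) (nat_lit 2) (nat_lit 5) (nat_lit 3) (nat_lit 4) (nat_lit 350) (nat_lit 257) (nat_lit 173)) (XT.lf (nat_lit 0) (nat_lit 12504731933) (nat_lit 152) (nat_lit 1351939819170) (nat_lit 0) (nat_lit 970479003) (nat_lit 1) (nat_lit 5) (nat_lit 3) (nat_lit 4) (nat_lit 1) (nat_lit 4) (nat_lit 351) (nat_lit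 257) (nat_lit 172))) (XT.nd (nat_lit 78) (nat_lit 0) (nat_lit 0) (XT.lf (nat_lit 0) (nat_lit 18391032736) (nat_lit 152) (nat_lit 1448931966454) (nat_lit 0) (nat_lit 6855545954) (nat_lit 1) (nat_lit 5) (nat_lit 3) (nat_lit 4) (nat_lit 1) (nat_lit 4) (nat_lit 352) (nat_lit 257) (nat_lit 171)) (XT.lf (nat_lit 0) (nat_lit 24747045653) (nat_lit 152) (nat_lit 1553685775675) (nat_lit 0) (nat_lit 13210416415) (nat_lit 1) (nat_lit 5) (nat_lit 3) (nat_lit 4) (nat_lit 1) (nat_lit 4) (nat_lit 353) (nat_lit 257) (nat_lit 170))))) (XT.nd (nat_lit 234) (nat_lit 0) (nat_lit 0) (XT.nd (nat_lit 78) (nat_lit 0) (nat_lit 0) (XT.lf (nat_lit 0) (nat_lit 31610435947) (nat_lit 152) (nat_lit 1666822010146) (nat_lit 0) (nat_lit 20072748880) (nat_lit 1) (nat_lit 5) (nat_lit 3) (nat_lit 4) (nat_lit 1) (nat_lit 4) (nat_lit 354) (nat_lit 257) (nat_lit 169)) (XT.nd (nat_lit 78) (nat_lit 0) (nat_lit 0) (XT.lf (nat_lit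 0) (nat_lit 39021875560) (nat_lit 152) (nat_lit 1789011106811) (nat_lit 0) (nat_lit 27483209021) (nat_lit 1) (nat_lit 5) (nat_lit 3) (nat_lit 4) (nat_lit 1) (nat_lit 4) (nat_lit 355) (nat_lit 257) (nat_lit 168)) (XT.lf (nat_lit 0) (nat_lit 47025284134) (nat_lit 152) (nat_lit 1920977149207) (nat_lit 0) (nat_lit 35485710676) (nat_lit 1) (nat_lit 5) (nat_lit 3) (nat_lit 4) (nat_lit 1) (nat_lit 4) (nat_lit 356) (nat_lit 257) (nat_lit 167)))) (XT.nd (nat_lit 156) (nat_lit 0) (nat_lit 0) (XT.nd (nat_lit 78) (nat_lit 0) (nat_lit 0) (XT.lf (nat_lit 0) (nat_lit 55668089275) (nat_lit 152) (nat_lit 2063502158325) (nat_lit 0) (nat_lit 44127676078) (nat_lit 1) (nat_lit 5) (nat_lit 3) (nat_lit 4) (nat_lit 1) (nat_lit 4) (nat_lit 357) (nat_lit 257) (nat_lit 166)) (XT.lf (nat_lit 0) (nat_lit 65001507607) (nat_lit 152) (nat_lit 2217430726813) (nat_lit 0) (nat_lit 53460316874) (nat_lit 1) (nat_lit 5)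 (nat_lit 3) (nat_lit 4) (nat_lit 1) (nat_lit 4) (nat_lit 358) (nat_lit 257) (nat_lit 165))) (XT.nd (nat_lit 78) (nat_lit 0) (nat_lit 0) (XT.lf (nat_lit 0) (nat_lit 75080848275) (nat_lit 152) (nat_lit 2383675023964) (nat_lit 0) (nat_lit 63538937600) (nat_lit 1) (nat_lit 5) (nat_lit 3) (nat_lit 4) (nat_lit 1) (nat_lit 4) (nat_lit 359) (nat_lit 257) (nat_lit 164)) (XT.lf (nat_lit 0) (nat_lit 85965840705) (nat_lit 152) (nat_lit 2563220201170) (nat_lit 0) (nat_lit 74423263419) (nat_lit 1) (nat_lit 5) (nat_lit 3) (nat_lit 4) (nat_lit 1) (nat_lit 4) (nat_lit 360) (nat_lit 257) (nat_lit 163)))))) (XT.nd (nat_lit 33306) (nat_lit 0) (nat_lit 2584) (XT.nd (nat_lit 234) (nat_lit 0) (nat_lit 0) (XT.nd (nat_lit 78) (nat_lit 0) (nat_lit 0) (XT.lf (nat_lit 0) (nat_lit 97720988556) (nat_lit 152) (nat_lit 2757130229851) (nat_lit 0) (nat_lit 86177794037) (nat_lit 1) (nat_lit 5) (nat_lit 3) (nat_lit 4)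 (nat_lit 1) (nat_lit 4) (nat_lit 361) (nat_lit 257) (nat_lit 162)) (XT.nd (nat_lit 78) (nat_lit 0) (nat_lit 0) (XT.lf (nat_lit 0) (nat_lit 110415951964) (nat_lit 152) (nat_lit 2966554206474) (nat_lit 0) (nat_lit 98872185932) (nat_lit 1) (nat_lit 5) (nat_lit 3) (nat_lit 4) (nat_lit 1) (nat_lit 4) (nat_lit 362) (nat_lit 257) (nat_lit 161)) (XT.lf (nat_lit 0) (nat_lit 124125960342) (nat_lit 152) (nat_lit 3192733162010) (nat_lit 0) (nat_lit 112581665131) (nat_lit 1) (nat_lit 5) (nat_lit 3) (nat_lit 4) (nat_lit 1) (nat_lit 4) (nat_lit 363) (nat_lit 257) (nat_lit 160)))) (XT.nd (nat_lit 32916) (nat_lit 0) (nat_lit 4180) (XT.nd (nat_lit 32838) (nat_lit 0) (nat_lit 4408) (XT.lf (nat_lit 0) (nat_lit 138932258182) (nat_lit 152) (nat_lit 3437007416196) (nat_lit 0) (nat_lit 127387472992) (nat_lit 1) (nat_lit 5) (nat_lit 3) (nat_lit 4) (nat_lit 1) (nat_lit 4) (nat_lit 364) (nat_lit 257) (nat_lit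 159)) (XT.lf (nat_lit 0) (nat_lit 30746884) (nat_lit 228) (nat_lit 3221000432) (nat_lit 0) (nat_lit 30746884) (nat_lit 59) (nat_lit 5) (nat_lit 62) (nat_lit 4) (nat_lit 59) (nat_lit 4) (nat_lit 264) (nat_lit 258) (nat_lit 258))) (XT.nd (nat_lit 78) (nat_lit 228) (nat_lit 0) (XT.lf (nat_lit 0) (nat_lit 2998343669) (nat_lit 228) (nat_lit 2791478843) (nat_lit 0) (nat_lit 843739504) (nat_lit 59) (nat_lit 5) (nat_lit 62) (nat_lit 4) (nat_lit 59) (nat_lit 4) (nat_lit 265) (nat_lit 258) (nat_lit 257)) (XT.lf (nat_lit 0) (nat_lit 997884684) (nat_lit 228) (nat_lit 4939844447) (nat_lit 228) (nat_lit 790236426) (nat_lit 56) (nat_lit 4) (nat_lit 59) (nat_lit 5) (nat_lit 59) (nat_lit 4) (nat_lit 266) (nat_lit 258) (nat_lit 256))))) (XT.nd (nat_lit 234) (nat_lit 1140) (nat_lit 0) (XT.nd (nat_lit 78) (nat_lit 380) (nat_lit 0) (XT.lf (nat_lit 0) (nat_lit 1996468305) (nat_lit 304) (nat_lit 1844179739)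 (nat_lit 76) (nat_lit 3000119633) (nat_lit 55) (nat_lit 5) (nat_lit 59) (nat_lit 5) (nat_lit 56) (nat_lit 4) (nat_lit 267) (nat_lit 258) (nat_lit 255)) (XT.nd (nat_lit 78) (nat_lit 76) (nat_lit 0) (XT.lf (nat_lit 0) (nat_lit 2247611208) (nat_lit 304) (nat_lit 2538369212) (nat_lit 380) (nat_lit 2190556387) (nat_lit 51) (nat_lit 5) (nat_lit 55) (nat_lit 5) (nat_lit 56) (nat_lit 4) (nat_lit 268) (nat_lit 258) (nat_lit 254)) (XT.lf (nat_lit 0) (nat_lit 467559701) (nat_lit 380) (nat_lit 570055451) (nat_lit 76) (nat_lit 6099375272) (nat_lit 50) (nat_lit 5) (nat_lit 55) (nat_lit 5) (nat_lit 51) (nat_lit 5) (nat_lit 269) (nat_lit 258) (nat_lit 253)))) (XT.nd (nat_lit 156) (nat_lit 304) (nat_lit 0) (XT.nd (nat_lit 78) (nat_lit 456) (nat_lit 0) (XT.lf (nat_lit 0) (nat_lit 3122259068) (nat_lit 456) (nat_lit 3466176914) (nat_lit 76) (nat_lit 726213524) (nat_lit 45) (nat_lit 5) (nat_lit 51) (nat_lit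 5) (nat_lit 46) (nat_lit 4) (nat_lit 270) (nat_lit 258) (nat_lit 252)) (XT.lf (nat_lit 0) (nat_lit 966430297) (nat_lit 456) (nat_lit 4891308601) (nat_lit 532) (nat_lit 1660331771) (nat_lit 39) (nat_lit 5) (nat_lit 45) (nat_lit 5) (nat_lit 46) (nat_lit 4) (nat_lit 271) (nat_lit 258) (nat_lit 251))) (XT.nd (nat_lit 78) (nat_lit 228) (nat_lit 0) (XT.lf (nat_lit 0) (nat_lit 924136292) (nat_lit 532) (nat_lit 2015852580) (nat_lit 76) (nat_lit 4804298863) (nat_lit 38) (nat_lit 5) (nat_lit 45) (nat_lit 5) (nat_lit 39) (nat_lit 5) (nat_lit 272) (nat_lit 258) (nat_lit 250)) (XT.lf (nat_lit 0) (nat_lit 2786333191) (nat_lit 228) (nat_lit 727035344) (nat_lit 304) (nat_lit 4481578042) (nat_lit 35) (nat_lit 5) (nat_lit 38) (nat_lit 5) (nat_lit 39) (nat_lit 5) (nat_lit 273) (nat_lit 258) (nat_lit 249))))))) (XT.nd (nat_lit 1092) (nat_lit 532) (nat_lit 0) (XT.nd (nat_lit 546) (nat_lit 684) (nat_lit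 0) (XT.nd (nat_lit 234) (nat_lit 380) (nat_lit 0) (XT.nd (nat_lit 78) (nat_lit 532) (nat_lit 0) (XT.lf (nat_lit 0) (nat_lit 6235326355) (nat_lit 304) (nat_lit 417159447) (nat_lit 76) (nat_lit 1619876356) (nat_lit 35) (nat_lit 5) (nat_lit 39) (nat_lit 5) (nat_lit 36) (nat_lit 4) (nat_lit 274) (nat_lit 258) (nat_lit 248)) (XT.nd (nat_lit 78) (nat_lit 228) (nat_lit 0) (XT.lf (nat_lit 0) (nat_lit 547441960) (nat_lit 304) (nat_lit 3796912332) (nat_lit 76) (nat_lit 4229137030) (nat_lit 31) (nat_lit 5) (nat_lit 35) (nat_lit 5) (nat_lit 32) (nat_lit 5) (nat_lit 275) (nat_lit 258) (nat_lit 247)) (XT.lf (nat_lit 0) (nat_lit 1334361423) (nat_lit 228) (nat_lit 1782577424) (nat_lit 304) (nat_lit 5787070232) (nat_lit 28) (nat_lit 5) (nat_lit 31) (nat_lit 5) (nat_lit 32) (nat_lit 5) (nat_lit 276) (nat_lit 258) (nat_lit 246)))) (XT.nd (nat_lit 156) (nat_lit 228) (nat_lit 0) (XT.nd (nat_lit 78) (nat_lit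 152) (nat_lit 0) (XT.lf (nat_lit 0) (nat_lit 5872831056) (nat_lit 304) (nat_lit 2384570183) (nat_lit 76) (nat_lit 1005652176) (nat_lit 28) (nat_lit 5) (nat_lit 32) (nat_lit 5) (nat_lit 29) (nat_lit 4) (nat_lit 277) (nat_lit 258) (nat_lit 245)) (XT.lf (nat_lit 0) (nat_lit 3143277416) (nat_lit 152) (nat_lit 5689532494) (nat_lit 228) (nat_lit 819833277) (nat_lit 26) (nat_lit 5) (nat_lit 28) (nat_lit 5) (nat_lit 29) (nat_lit 4) (nat_lit 278) (nat_lit 258) (nat_lit 244))) (XT.nd (nat_lit 78) (nat_lit 152) (nat_lit 0) (XT.lf (nat_lit 0) (nat_lit 1789008300) (nat_lit 228) (nat_lit 1053912178) (nat_lit 76) (nat_lit 7232699932) (nat_lit 25) (nat_lit 5) (nat_lit 28) (nat_lit 5) (nat_lit 26) (nat_lit 5) (nat_lit 279) (nat_lit 258) (nat_lit 243)) (XT.lf (nat_lit 0) (nat_lit 4561788385) (nat_lit 228) (nat_lit 5650811089) (nat_lit 76) (nat_lit 318576647) (nat_lit 23) (nat_lit 5) (nat_lit 26) (nat_lit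 5) (nat_lit 24) (nat_lit 4) (nat_lit 280) (nat_lit 258) (nat_lit 242))))) (XT.nd (nat_lit 234) (nat_lit 304) (nat_lit 0) (XT.nd (nat_lit 78) (nat_lit 228) (nat_lit 0) (XT.lf (nat_lit 0) (nat_lit 81190306) (nat_lit 152) (nat_lit 7458611472) (nat_lit 228) (nat_lit 3485077323) (nat_lit 21) (nat_lit 5) (nat_lit 23) (nat_lit 5) (nat_lit 24) (nat_lit 4) (nat_lit 281) (nat_lit 258) (nat_lit 241)) (XT.nd (nat_lit 78) (nat_lit 228) (nat_lit 0) (XT.lf (nat_lit 0) (nat_lit 6420861725) (nat_lit 152) (nat_lit 4372640015) (nat_lit 228) (nat_lit 761928795) (nat_lit 21) (nat_lit 5) (nat_lit 23) (nat_lit 5) (nat_lit 24) (nat_lit 4) (nat_lit 282) (nat_lit 258) (nat_lit 240)) (XT.lf (nat_lit 0) (nat_lit 969716171) (nat_lit 152) (nat_lit 1012163185) (nat_lit 228) (nat_lit 10149707319) (nat_lit 18) (nat_lit 5) (nat_lit 20) (nat_lit 5) (nat_lit 21) (nat_lit 5) (nat_lit 283) (nat_lit 258) (nat_lit 239))))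 (XT.nd (nat_lit 156) (nat_lit 228) (nat_lit 0) (XT.nd (nat_lit 78) (nat_lit 76) (nat_lit 0) (XT.lf (nat_lit 0) (nat_lit 5002566979) (nat_lit 228) (nat_lit 5143644847) (nat_lit 76) (nat_lit 2598433289) (nat_lit 18) (nat_lit 5) (nat_lit 21) (nat_lit 5) (nat_lit 19) (nat_lit 4) (nat_lit 284) (nat_lit 258) (nat_lit 238)) (XT.lf (nat_lit 0) (nat_lit 1235037273) (nat_lit 76) (nat_lit 6985458988) (nat_lit 152) (nat_lit 5190060721) (nat_lit 17) (nat_lit 5) (nat_lit 18) (nat_lit 5) (nat_lit 19) (nat_lit 4) (nat_lit 285) (nat_lit 258) (nat_lit 237))) (XT.nd (nat_lit 78) (nat_lit 228) (nat_lit 0) (XT.lf (nat_lit 0) (nat_lit 8264006257) (nat_lit 76) (nat_lit 3475853113) (nat_lit 152) (nat_lit 2386599215) (nat_lit 17) (nat_lit 5) (nat_lit 18) (nat_lit 5) (nat_lit 19) (nat_lit 4) (nat_lit 286) (nat_lit 258) (nat_lit 236)) (XT.lf (nat_lit 0) (nat_lit 544337775) (nat_lit 228) (nat_lit 14075767496)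 (nat_lit 76) (nat_lit 283674786) (nat_lit 14) (nat_lit 5) (nat_lit 17) (nat_lit 5) (nat_lit 15) (nat_lit 4) (nat_lit 287) (nat_lit 258) (nat_lit 235)))))) (XT.nd (nat_lit 546) (nat_lit 304) (nat_lit 0) (XT.nd (nat_lit 234) (nat_lit 152) (nat_lit 0) (XT.nd (nat_lit 78) (nat_lit 76) (nat_lit 0) (XT.lf (nat_lit 0) (nat_lit 3745624587) (nat_lit 228) (nat_lit 7648339247) (nat_lit 76) (nat_lit 4331367123) (nat_lit 14) (nat_lit 5) (nat_lit 17) (nat_lit 5) (nat_lit 15) (nat_lit 4) (nat_lit 288) (nat_lit 258) (nat_lit 234)) (XT.nd (nat_lit 78) (nat_lit 76) (nat_lit 0) (XT.lf (nat_lit 0) (nat_lit 7119753327) (nat_lit 228) (nat_lit 844270281) (nat_lit 76) (nat_lit 8655417217) (nat_lit 14) (nat_lit 5) (nat_lit 17) (nat_lit 5) (nat_lit 15) (nat_lit 4) (nat_lit 289) (nat_lit 258) (nat_lit 233)) (XT.lf (nat_lit 0) (nat_lit 6712548680) (nat_lit 76) (nat_lit 4135607110) (nat_lit 152) (nat_lit 6730337343)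 (nat_lit 13) (nat_lit 5) (nat_lit 14) (nat_lit 5) (nat_lit 15) (nat_lit 4) (nat_lit 290) (nat_lit 258) (nat_lit 232)))) (XT.nd (nat_lit 156) (nat_lit 76) (nat_lit 0) (XT.nd (nat_lit 78) (nat_lit 76) (nat_lit 0) (XT.lf (nat_lit 0) (nat_lit 14797787582) (nat_lit 76) (nat_lit 25758244) (nat_lit 152) (nat_lit 3794975759) (nat_lit 13) (nat_lit 5) (nat_lit 14) (nat_lit 5) (nat_lit 15) (nat_lit 4) (nat_lit 291) (nat_lit 258) (nat_lit 231)) (XT.lf (nat_lit 0) (nat_lit 3750074357) (nat_lit 76) (nat_lit 15493243886) (nat_lit 76) (nat_lit 488464112) (nat_lit 12) (nat_lit 4) (nat_lit 13) (nat_lit 5) (nat_lit 13) (nat_lit 4) (nat_lit 292) (nat_lit 258) (nat_lit 230))) (XT.nd (nat_lit 78) (nat_lit 0) (nat_lit 0) (XT.lf (nat_lit 0) (nat_lit 2966750957) (nat_lit 152) (nat_lit 8979663449) (nat_lit 76) (nat_lit 8978806342) (nat_lit 11) (nat_lit 5) (nat_lit 13) (nat_lit 5) (nat_lit 12) (nat_lit 4) (nat_lit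 293) (nat_lit 258) (nat_lit 229)) (XT.lf (nat_lit 0) (nat_lit 6607675867) (nat_lit 152) (nat_lit 1541470809) (nat_lit 76) (nat_lit 14069227612) (nat_lit 11) (nat_lit 5) (nat_lit 13) (nat_lit 5) (nat_lit 12) (nat_lit 4) (nat_lit 294) (nat_lit 258) (nat_lit 228))))) (XT.nd (nat_lit 312) (nat_lit 152) (nat_lit 0) (XT.nd (nat_lit 156) (nat_lit 76) (nat_lit 0) (XT.nd (nat_lit 78) (nat_lit 0) (nat_lit 0) (XT.lf (nat_lit 0) (nat_lit 6725113063) (nat_lit 76) (nat_lit 3916947489) (nat_lit 152) (nat_lit 12964846234) (nat_lit 10) (nat_lit 5) (nat_lit 11) (nat_lit 5) (nat_lit 12) (nat_lit 4) (nat_lit 295) (nat_lit 258) (nat_lit 227)) (XT.lf (nat_lit 0) (nat_lit 14999571428) (nat_lit 152) (nat_lit 9483419506) (nat_lit 0) (nat_lit 623594929) (nat_lit 10) (nat_lit 5) (nat_lit 12) (nat_lit 4) (nat_lit 10) (nat_lit 4) (nat_lit 296) (nat_lit 258) (nat_lit 226))) (XT.nd (nat_lit 78) (nat_lit 76) (nat_lit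 0) (XT.lf (nat_lit 0) (nat_lit 19753171687) (nat_lit 152) (nat_lit 1691338802) (nat_lit 0) (nat_lit 5278016747) (nat_lit 10) (nat_lit 5) (nat_lit 12) (nat_lit 4) (nat_lit 10) (nat_lit 4) (nat_lit 297) (nat_lit 258) (nat_lit 225)) (XT.lf (nat_lit 0) (nat_lit 6984204561) (nat_lit 76) (nat_lit 18020593857) (nat_lit 76) (nat_lit 3453607028) (nat_lit 9) (nat_lit 4) (nat_lit 10) (nat_lit 5) (nat_lit 10) (nat_lit 4) (nat_lit 298) (nat_lit 258) (nat_lit 224)))) (XT.nd (nat_lit 156) (nat_lit 76) (nat_lit 0) (XT.nd (nat_lit 78) (nat_lit 0) (nat_lit 0) (XT.lf (nat_lit 0) (nat_lit 323731227) (nat_lit 152) (nat_lit 13978655402) (nat_lit 76) (nat_lit 16030375026) (nat_lit 8) (nat_lit 5) (nat_lit 10) (nat_lit 5) (nat_lit 9) (nat_lit 4) (nat_lit 299) (nat_lit 258) (nat_lit 223)) (XT.lf (nat_lit 0) (nat_lit 4170433941) (nat_lit 152) (nat_lit 6056244801) (nat_lit 76) (nat_lit 22126974328) (nat_lit 8)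 (nat_lit 5) (nat_lit 10) (nat_lit 5) (nat_lit 9) (nat_lit 4) (nat_lit 300) (nat_lit 258) (nat_lit 222))) (XT.nd (nat_lit 78) (nat_lit 0) (nat_lit 0) (XT.lf (nat_lit 0) (nat_lit 2550630748) (nat_lit 76) (nat_lit 5792771782) (nat_lit 152) (nat_lit 26191390141) (nat_lit 7) (nat_lit 5) (nat_lit 8) (nat_lit 5) (nat_lit 9) (nat_lit 4) (nat_lit 301) (nat_lit 258) (nat_lit 221)) (XT.lf (nat_lit 0) (nat_lit 12115506931) (nat_lit 76) (nat_lit 858845292) (nat_lit 152) (nat_lit 23906194582) (nat_lit 7) (nat_lit 5) (nat_lit 8) (nat_lit 5) (nat_lit 9) (nat_lit 4) (nat_lit 302) (nat_lit 258) (nat_lit 220))))))))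
noncomputable def xc46 : XT := (XT.nd (nat_lit 2184) (nat_lit 152) (nat_lit 0) (XT.nd (nat_lit 1092) (nat_lit 76) (nat_lit 0) (XT.nd (nat_lit 546) (nat_lit 152) (nat_lit 0) (XT.nd (nat_lit 234) (nat_lit 76) (nat_lit 0) (XT.nd (nat_lit 78) (nat_lit 0) (nat_lit 0) (XT.lf (nat_lit 0) (nat_lit 18044155088) (nat_lit 152) (nat_lit 17147680728) (nat_lit 0) (nat_lit 4216706073) (nat_lit 7) (nat_lit 5) (nat_lit 9) (nat_lit 4) (nat_lit 7) (nat_lit 4) (nat_lit 303) (nat_lit 258) (nat_lit 219)) (XT.nd (nat_lit 78) (nat_lit 0) (nat_lit 0) (XT.lf (nat_lit 0) (nat_lit 23505626249) (nat_lit 152) (nat_lit 9009716428) (nat_lit 0) (nat_lit 9624594208) (nat_lit 7) (nat_lit 5) (nat_lit 9) (nat_lit 4) (nat_lit 7) (nat_lit 4) (nat_lit 304) (nat_lit 258) (nat_lit 218)) (XT.lf (nat_lit 0) (nat_lit 29370474730) (nat_lit 152) (nat_lit 282266750) (nat_lit 0) (nat_lit 15439828777) (nat_lit 7) (nat_lit 5) (nat_lit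 9) (nat_lit 4) (nat_lit 7) (nat_lit 4) (nat_lit 305) (nat_lit 258) (nat_lit 217)))) (XT.nd (nat_lit 156) (nat_lit 0) (nat_lit 0) (XT.nd (nat_lit 78) (nat_lit 0) (nat_lit 0) (XT.lf (nat_lit 0) (nat_lit 9564859536) (nat_lit 76) (nat_lit 26338630754) (nat_lit 76) (nat_lit 12362045993) (nat_lit 6) (nat_lit 4) (nat_lit 7) (nat_lit 5) (nat_lit 7) (nat_lit 4) (nat_lit 306) (nat_lit 258) (nat_lit 216)) (XT.lf (nat_lit 0) (nat_lit 20160259155) (nat_lit 76) (nat_lit 22776514183) (nat_lit 76) (nat_lit 8757393489) (nat_lit 6) (nat_lit 4) (nat_lit 7) (nat_lit 5) (nat_lit 7) (nat_lit 4) (nat_lit 307) (nat_lit 258) (nat_lit 215))) (XT.nd (nat_lit 78) (nat_lit 0) (nat_lit 0) (XT.lf (nat_lit 0) (nat_lit 31551855991) (nat_lit 76) (nat_lit 18953000602) (nat_lit 76) (nat_lit 4894494784) (nat_lit 6) (nat_lit 4) (nat_lit 7) (nat_lit 5) (nat_lit 7) (nat_lit 4) (nat_lit 308) (nat_lit 258) (nat_lit 214)) (XT.lf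 (nat_lit 0) (nat_lit 43807155804) (nat_lit 76) (nat_lit 14845432152) (nat_lit 76) (nat_lit 750458628) (nat_lit 6) (nat_lit 4) (nat_lit 7) (nat_lit 5) (nat_lit 7) (nat_lit 4) (nat_lit 309) (nat_lit 258) (nat_lit 213))))) (XT.nd (nat_lit 234) (nat_lit 0) (nat_lit 0) (XT.nd (nat_lit 78) (nat_lit 76) (nat_lit 0) (XT.lf (nat_lit 0) (nat_lit 3514219652) (nat_lit 152) (nat_lit 6819163042) (nat_lit 76) (nat_lit 53388477948) (nat_lit 5) (nat_lit 5) (nat_lit 7) (nat_lit 5) (nat_lit 6) (nat_lit 4) (nat_lit 310) (nat_lit 258) (nat_lit 212)) (XT.nd (nat_lit 78) (nat_lit 0) (nat_lit 0) (XT.lf (nat_lit 0) (nat_lit 2734972590) (nat_lit 76) (nat_lit 5387612837) (nat_lit 152) (nat_lit 60258615813) (nat_lit 4) (nat_lit 5) (nat_lit 5) (nat_lit 5) (nat_lit 6) (nat_lit 4) (nat_lit 311) (nat_lit 258) (nat_lit 211)) (XT.lf (nat_lit 0) (nat_lit 13267322917) (nat_lit 152) (nat_lit 60003171269) (nat_lit 0) (nat_lit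 129402231) (nat_lit 4) (nat_lit 5) (nat_lit 6) (nat_lit 4) (nat_lit 4) (nat_lit 4) (nat_lit 312) (nat_lit 258) (nat_lit 210)))) (XT.nd (nat_lit 156) (nat_lit 0) (nat_lit 0) (XT.nd (nat_lit 78) (nat_lit 0) (nat_lit 0) (XT.lf (nat_lit 0) (nat_lit 18942764724) (nat_lit 152) (nat_lit 54087789513) (nat_lit 0) (nat_lit 5780024729) (nat_lit 4) (nat_lit 5) (nat_lit 6) (nat_lit 4) (nat_lit 4) (nat_lit 4) (nat_lit 313) (nat_lit 258) (nat_lit 209)) (XT.lf (nat_lit 0) (nat_lit 25052970878) (nat_lit 152) (nat_lit 47735457050) (nat_lit 0) (nat_lit 11867250042) (nat_lit 4) (nat_lit 5) (nat_lit 6) (nat_lit 4) (nat_lit 4) (nat_lit 4) (nat_lit 314) (nat_lit 258) (nat_lit 208))) (XT.nd (nat_lit 78) (nat_lit 0) (nat_lit 0) (XT.lf (nat_lit 0) (nat_lit 31634150008) (nat_lit 152) (nat_lit 40908530430) (nat_lit 0) (nat_lit 18427150615) (nat_lit 4) (nat_lit 5) (nat_lit 6) (nat_lit 4) (nat_lit 4) (nat_lit 4)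 (nat_lit 315) (nat_lit 258) (nat_lit 207)) (XT.lf (nat_lit 0) (nat_lit 38725301694) (nat_lit 152) (nat_lit 33566553789) (nat_lit 0) (nat_lit 25498599934) (nat_lit 4) (nat_lit 5) (nat_lit 6) (nat_lit 4) (nat_lit 4) (nat_lit 4) (nat_lit 316) (nat_lit 258) (nat_lit 206)))))) (XT.nd (nat_lit 546) (nat_lit 0) (nat_lit 0) (XT.nd (nat_lit 234) (nat_lit 76) (nat_lit 0) (XT.nd (nat_lit 78) (nat_lit 0) (nat_lit 0) (XT.lf (nat_lit 0) (nat_lit 46368447575) (nat_lit 152) (nat_lit 25666019120) (nat_lit 0) (nat_lit 33123502882) (nat_lit 4) (nat_lit 5) (nat_lit 6) (nat_lit 4) (nat_lit 4) (nat_lit 4) (nat_lit 317) (nat_lit 258) (nat_lit 205)) (XT.nd (nat_lit 78) (nat_lit 0) (nat_lit 0) (XT.lf (nat_lit 0) (nat_lit 54608880367) (nat_lit 152) (nat_lit 17160108438) (nat_lit 0) (nat_lit 41347044071) (nat_lit 4) (nat_lit 5) (nat_lit 6) (nat_lit 4) (nat_lit 4) (nat_lit 4) (nat_lit 318) (nat_lit 258) (nat_lit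 204)) (XT.lf (nat_lit 0) (nat_lit 63495432266) (nat_lit 152) (nat_lit 7998416348) (nat_lit 0) (nat_lit 50217955595) (nat_lit 4) (nat_lit 5) (nat_lit 6) (nat_lit 4) (nat_lit 4) (nat_lit 4) (nat_lit 319) (nat_lit 258) (nat_lit 203)))) (XT.nd (nat_lit 156) (nat_lit 0) (nat_lit 0) (XT.nd (nat_lit 78) (nat_lit 0) (nat_lit 0) (XT.lf (nat_lit 0) (nat_lit 1971995881) (nat_lit 76) (nat_lit 71156194987) (nat_lit 76) (nat_lit 57864236488) (nat_lit 3) (nat_lit 4) (nat_lit 4) (nat_lit 5) (nat_lit 4) (nat_lit 4) (nat_lit 320) (nat_lit 258) (nat_lit 202)) (XT.lf (nat_lit 0) (nat_lit 13172634460) (nat_lit 76) (nat_lit 70565846211) (nat_lit 76) (nat_lit 57260478611) (nat_lit 3) (nat_lit 4) (nat_lit 4) (nat_lit 5) (nat_lit 4) (nat_lit 4) (nat_lit 321) (nat_lit 258) (nat_lit 201))) (XT.nd (nat_lit 78) (nat_lit 0) (nat_lit 0) (XT.lf (nat_lit 0) (nat_lit 25248691113) (nat_lit 76) (nat_lit 69937994800)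 (nat_lit 76) (nat_lit 56620211367) (nat_lit 3) (nat_lit 4) (nat_lit 4) (nat_lit 5) (nat_lit 4) (nat_lit 4) (nat_lit 322) (nat_lit 258) (nat_lit 200)) (XT.lf (nat_lit 0) (nat_lit 38271727657) (nat_lit 76) (nat_lit 69268920153) (nat_lit 76) (nat_lit 55939640578) (nat_lit 3) (nat_lit 4) (nat_lit 4) (nat_lit 5) (nat_lit 4) (nat_lit 4) (nat_lit 323) (nat_lit 258) (nat_lit 199))))) (XT.nd (nat_lit 234) (nat_lit 0) (nat_lit 0) (XT.nd (nat_lit 78) (nat_lit 0) (nat_lit 0) (XT.lf (nat_lit 0) (nat_lit 52318917642) (nat_lit 76) (nat_lit 68554657384) (nat_lit 76) (nat_lit 55214733233) (nat_lit 3) (nat_lit 4) (nat_lit 4) (nat_lit 5) (nat_lit 4) (nat_lit 4) (nat_lit 324) (nat_lit 258) (nat_lit 198)) (XT.nd (nat_lit 78) (nat_lit 0) (nat_lit 0) (XT.lf (nat_lit 0) (nat_lit 67473503676) (nat_lit 76) (nat_lit 67790973824) (nat_lit 76) (nat_lit 54441193584) (nat_lit 3) (nat_lit 4) (nat_lit 4) (nat_lit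 5) (nat_lit 4) (nat_lit 4) (nat_lit 325) (nat_lit 258) (nat_lit 197)) (XT.lf (nat_lit 0) (nat_lit 83825290713) (nat_lit 76) (nat_lit 66973343941) (nat_lit 76) (nat_lit 53614437693) (nat_lit 3) (nat_lit 4) (nat_lit 4) (nat_lit 5) (nat_lit 4) (nat_lit 4) (nat_lit 326) (nat_lit 258) (nat_lit 196)))) (XT.nd (nat_lit 156) (nat_lit 0) (nat_lit 0) (XT.nd (nat_lit 78) (nat_lit 0) (nat_lit 0) (XT.lf (nat_lit 0) (nat_lit 101471178230) (nat_lit 76) (nat_lit 66096922521) (nat_lit 76) (nat_lit 52729566265) (nat_lit 3) (nat_lit 4) (nat_lit 4) (nat_lit 5) (nat_lit 4) (nat_lit 4) (nat_lit 327) (nat_lit 258) (nat_lit 195)) (XT.lf (nat_lit 0) (nat_lit 120515734452) (nat_lit 76) (nat_lit 65156515956) (nat_lit 76) (nat_lit 51781335619) (nat_lit 3) (nat_lit 4) (nat_lit 4) (nat_lit 5) (nat_lit 4) (nat_lit 4) (nat_lit 328) (nat_lit 258) (nat_lit 194))) (XT.nd (nat_lit 78) (nat_lit 0) (nat_lit 0) (XT.lf (nat_lit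 0) (nat_lit 141071816007) (nat_lit 76) (nat_lit 64146551465) (nat_lit 76) (nat_lit 50764126609) (nat_lit 3) (nat_lit 4) (nat_lit 4) (nat_lit 5) (nat_lit 4) (nat_lit 4) (nat_lit 329) (nat_lit 258) (nat_lit 193)) (XT.lf (nat_lit 0) (nat_lit 163261236711) (nat_lit 76) (nat_lit 63061044075) (nat_lit 76) (nat_lit 49671911330) (nat_lit 3) (nat_lit 4) (nat_lit 4) (nat_lit 5) (nat_lit 4) (nat_lit 4) (nat_lit 330) (nat_lit 258) (nat_lit 192))))))) (XT.nd (nat_lit 1092) (nat_lit 152) (nat_lit 0) (XT.nd (nat_lit 546) (nat_lit 0) (nat_lit 0) (XT.nd (nat_lit 234) (nat_lit 0) (nat_lit 0) (XT.nd (nat_lit 78) (nat_lit 0) (nat_lit 0) (XT.lf (nat_lit 0) (nat_lit 187215489429) (nat_lit 76) (nat_lit 61893561148) (nat_lit 76) (nat_lit 48498217396) (nat_lit 3) (nat_lit 4) (nat_lit 4) (nat_lit 5) (nat_lit 4) (nat_lit 4) (nat_lit 331) (nat_lit 258) (nat_lit 191)) (XT.nd (nat_lit 78) (nat_lit 0) (nat_lit 0)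 (XT.lf (nat_lit 0) (nat_lit 213076525288) (nat_lit 76) (nat_lit 60637184268) (nat_lit 76) (nat_lit 47236089582) (nat_lit 3) (nat_lit 4) (nat_lit 4) (nat_lit 5) (nat_lit 4) (nat_lit 4) (nat_lit 332) (nat_lit 258) (nat_lit 190)) (XT.lf (nat_lit 0) (nat_lit 240997594869) (nat_lit 76) (nat_lit 59284468238) (nat_lit 76) (nat_lit 45878048614) (nat_lit 3) (nat_lit 4) (nat_lit 4) (nat_lit 5) (nat_lit 4) (nat_lit 4) (nat_lit 333) (nat_lit 258) (nat_lit 189)))) (XT.nd (nat_lit 156) (nat_lit 0) (nat_lit 0) (XT.nd (nat_lit 78) (nat_lit 0) (nat_lit 0) (XT.lf (nat_lit 0) (nat_lit 271144156364) (nat_lit 76) (nat_lit 57827396963) (nat_lit 76) (nat_lit 44416046841) (nat_lit 3) (nat_lit 4) (nat_lit 4) (nat_lit 5) (nat_lit 4) (nat_lit 4) (nat_lit 334) (nat_lit 258) (nat_lit 188)) (XT.lf (nat_lit 0) (nat_lit 303694856063) (nat_lit 76) (nat_lit 56257335947) (nat_lit 76) (nat_lit 42841420548) (nat_lit 3)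 (nat_lit 4) (nat_lit 4) (nat_lit 5) (nat_lit 4) (nat_lit 4) (nat_lit 335) (nat_lit 258) (nat_lit 187))) (XT.nd (nat_lit 78) (nat_lit 0) (nat_lit 0) (XT.lf (nat_lit 0) (nat_lit 338842587001) (nat_lit 76) (nat_lit 54564981124) (nat_lit 76) (nat_lit 41144838618) (nat_lit 3) (nat_lit 4) (nat_lit 4) (nat_lit 5) (nat_lit 4) (nat_lit 4) (nat_lit 336) (nat_lit 258) (nat_lit 186)) (XT.lf (nat_lit 0) (nat_lit 376795632028) (nat_lit 76) (nat_lit 52740303725) (nat_lit 76) (nat_lit 39316247230) (nat_lit 3) (nat_lit 4) (nat_lit 4) (nat_lit 5) (nat_lit 4) (nat_lit 4) (nat_lit 337) (nat_lit 258) (nat_lit 185))))) (XT.nd (nat_lit 234) (nat_lit 0) (nat_lit 0) (XT.nd (nat_lit 78) (nat_lit 0) (nat_lit 0) (XT.lf (nat_lit 0) (nat_lit 417778898078) (nat_lit 76) (nat_lit 50772490847) (nat_lit 76) (nat_lit 37344810289) (nat_lit 3) (nat_lit 4) (nat_lit 4) (nat_lit 5) (nat_lit 4) (nat_lit 4) (nat_lit 338) (nat_lit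 258) (nat_lit 184)) (XT.nd (nat_lit 78) (nat_lit 0) (nat_lit 0) (XT.lf (nat_lit 0) (nat_lit 462035248949) (nat_lit 76) (nat_lit 48649881376) (nat_lit 76) (nat_lit 35218845204) (nat_lit 3) (nat_lit 4) (nat_lit 4) (nat_lit 5) (nat_lit 4) (nat_lit 4) (nat_lit 339) (nat_lit 258) (nat_lit 183)) (XT.lf (nat_lit 0) (nat_lit 509826944498) (nat_lit 76) (nat_lit 46359896887) (nat_lit 76) (nat_lit 32925753664) (nat_lit 3) (nat_lit 4) (nat_lit 4) (nat_lit 5) (nat_lit 4) (nat_lit 4) (nat_lit 340) (nat_lit 258) (nat_lit 182)))) (XT.nd (nat_lit 156) (nat_lit 0) (nat_lit 0) (XT.nd (nat_lit 78) (nat_lit 0) (nat_lit 0) (XT.lf (nat_lit 0) (nat_lit 561437194773) (nat_lit 76) (nat_lit 43888967100) (nat_lit 76) (nat_lit 30451946979) (nat_lit 3) (nat_lit 4) (nat_lit 4) (nat_lit 5) (nat_lit 4) (nat_lit 4) (nat_lit 341) (nat_lit 258) (nat_lit 181)) (XT.lf (nat_lit 0) (nat_lit 617171838295) (nat_lit 76) (nat_lit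 41222449469) (nat_lit 76) (nat_lit 27782765553) (nat_lit 3) (nat_lit 4) (nat_lit 4) (nat_lit 5) (nat_lit 4) (nat_lit 4) (nat_lit 342) (nat_lit 258) (nat_lit 180))) (XT.nd (nat_lit 78) (nat_lit 0) (nat_lit 0) (XT.lf (nat_lit 0) (nat_lit 677361154432) (nat_lit 76) (nat_lit 38344542408) (nat_lit 76) (nat_lit 24902392015) (nat_lit 3) (nat_lit 4) (nat_lit 4) (nat_lit 5) (nat_lit 4) (nat_lit 4) (nat_lit 343) (nat_lit 258) (nat_lit 179)) (XT.lf (nat_lit 0) (nat_lit 742361820613) (nat_lit 76) (nat_lit 35238191652) (nat_lit 76) (nat_lit 21793757485) (nat_lit 3) (nat_lit 4) (nat_lit 4) (nat_lit 5) (nat_lit 4) (nat_lit 4) (nat_lit 344) (nat_lit 258) (nat_lit 178)))))) (XT.nd (nat_lit 546) (nat_lit 0) (nat_lit 0) (XT.nd (nat_lit 234) (nat_lit 152) (nat_lit 0) (XT.nd (nat_lit 78) (nat_lit 0) (nat_lit 0) (XT.lf (nat_lit 0) (nat_lit 812559025971) (nat_lit 76) (nat_lit 31884989198) (nat_lit 76) (nat_lit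 18438440425) (nat_lit 3) (nat_lit 4) (nat_lit 4) (nat_lit 5) (nat_lit 4) (nat_lit 4) (nat_lit 345) (nat_lit 258) (nat_lit 177)) (XT.nd (nat_lit 78) (nat_lit 0) (nat_lit 0) (XT.lf (nat_lit 0) (nat_lit 888368753945) (nat_lit 76) (nat_lit 28265064216) (nat_lit 76) (nat_lit 14816557474) (nat_lit 3) (nat_lit 4) (nat_lit 4) (nat_lit 5) (nat_lit 4) (nat_lit 4) (nat_lit 346) (nat_lit 258) (nat_lit 176)) (XT.lf (nat_lit 0) (nat_lit 970240247368) (nat_lit 76) (nat_lit 24356965298) (nat_lit 76) (nat_lit 10906645622) (nat_lit 3) (nat_lit 4) (nat_lit 4) (nat_lit 5) (nat_lit 4) (nat_lit 4) (nat_lit 347) (nat_lit 258) (nat_lit 175)))) (XT.nd (nat_lit 156) (nat_lit 152) (nat_lit 0) (XT.nd (nat_lit 78) (nat_lit 0) (nat_lit 0) (XT.lf (nat_lit 0) (nat_lit 1058658670645) (nat_lit 76) (nat_lit 20137533340) (nat_lit 76) (nat_lit 6685535021) (nat_lit 3) (nat_lit 4) (nat_lit 4) (nat_lit 5) (nat_lit 4) (nat_lit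 4) (nat_lit 348) (nat_lit 258) (nat_lit 174)) (XT.lf (nat_lit 0) (nat_lit 1154147984804) (nat_lit 76) (nat_lit 15581764301) (nat_lit 76) (nat_lit 2128211684) (nat_lit 3) (nat_lit 4) (nat_lit 4) (nat_lit 5) (nat_lit 4) (nat_lit 4) (nat_lit 349) (nat_lit 258) (nat_lit 173))) (XT.nd (nat_lit 78) (nat_lit 76) (nat_lit 0) (XT.lf (nat_lit 0) (nat_lit 2652647058) (nat_lit 152) (nat_lit 7937485900) (nat_lit 76) (nat_lit 1254548877315) (nat_lit 2) (nat_lit 5) (nat_lit 4) (nat_lit 5) (nat_lit 3) (nat_lit 4) (nat_lit 350) (nat_lit 258) (nat_lit 172)) (XT.lf (nat_lit 0) (nat_lit 2694011659) (nat_lit 76) (nat_lit 5070572957) (nat_lit 152) (nat_lit 1358108450821) (nat_lit 1) (nat_lit 5) (nat_lit 2) (nat_lit 5) (nat_lit 3) (nat_lit 4) (nat_lit 351) (nat_lit 258) (nat_lit 171))))) (XT.nd (nat_lit 312) (nat_lit 0) (nat_lit 0) (XT.nd (nat_lit 156) (nat_lit 0) (nat_lit 0) (XT.nd (nat_lit 78) (nat_lit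 0) (nat_lit 0) (XT.lf (nat_lit 0) (nat_lit 13528364965) (nat_lit 152) (nat_lit 1460050324697) (nat_lit 0) (nat_lit 1067662932) (nat_lit 1) (nat_lit 5) (nat_lit 3) (nat_lit 4) (nat_lit 1) (nat_lit 4) (nat_lit 352) (nat_lit 258) (nat_lit 170)) (XT.lf (nat_lit 0) (nat_lit 19883847278) (nat_lit 152) (nat_lit 1564805153394) (nat_lit 0) (nat_lit 7422087415) (nat_lit 1) (nat_lit 5) (nat_lit 3) (nat_lit 4) (nat_lit 1) (nat_lit 4) (nat_lit 353) (nat_lit 258) (nat_lit 169))) (XT.nd (nat_lit 78) (nat_lit 0) (nat_lit 0) (XT.lf (nat_lit 0) (nat_lit 26746746271) (nat_lit 152) (nat_lit 1677942331825) (nat_lit 0) (nat_lit 14284006937) (nat_lit 1) (nat_lit 5) (nat_lit 3) (nat_lit 4) (nat_lit 1) (nat_lit 4) (nat_lit 354) (nat_lit 258) (nat_lit 168)) (XT.lf (nat_lit 0) (nat_lit 34157730977) (nat_lit 152) (nat_lit 1800132302528) (nat_lit 0) (nat_lit 21694084724) (nat_lit 1) (nat_lit 5) (nat_lit 3) (nat_lit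 4) (nat_lit 1) (nat_lit 4) (nat_lit 355) (nat_lit 258) (nat_lit 167)))) (XT.nd (nat_lit 156) (nat_lit 0) (nat_lit 0) (XT.nd (nat_lit 78) (nat_lit 0) (nat_lit 0) (XT.lf (nat_lit 0) (nat_lit 42160718340) (nat_lit 152) (nat_lit 1932099154217) (nat_lit 0) (nat_lit 29696232348) (nat_lit 1) (nat_lit 5) (nat_lit 3) (nat_lit 4) (nat_lit 1) (nat_lit 4) (nat_lit 356) (nat_lit 258) (nat_lit 166)) (XT.lf (nat_lit 0) (nat_lit 50803133471) (nat_lit 152) (nat_lit 2074624912682) (nat_lit 0) (nat_lit 38337869943) (nat_lit 1) (nat_lit 5) (nat_lit 3) (nat_lit 4) (nat_lit 1) (nat_lit 4) (nat_lit 357) (nat_lit 258) (nat_lit 165))) (XT.nd (nat_lit 78) (nat_lit 0) (nat_lit 0) (XT.lf (nat_lit 0) (nat_lit 60136190682) (nat_lit 152) (nat_lit 2228554175008) (nat_lit 0) (nat_lit 47670207213) (nat_lit 1) (nat_lit 5) (nat_lit 3) (nat_lit 4) (nat_lit 1) (nat_lit 4) (nat_lit 358) (nat_lit 258) (nat_lit 164)) (XT.lf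 (nat_lit 0) (nat_lit 70215196979) (nat_lit 152) (nat_lit 2394799114603) (nat_lit 0) (nat_lit 57748546898) (nat_lit 1) (nat_lit 5) (nat_lit 3) (nat_lit 4) (nat_lit 1) (nat_lit 4) (nat_lit 359) (nat_lit 258) (nat_lit 163))))))))
noncomputable def xc47 : XT := (XT.nd (nat_lit 34788) (nat_lit 0) (nat_lit 228) (XT.nd (nat_lit 33696) (nat_lit 0) (nat_lit 1292) (XT.nd (nat_lit 33150) (nat_lit 0) (nat_lit 3344) (XT.nd (nat_lit 234) (nat_lit 0) (nat_lit 0) (XT.nd (nat_lit 78) (nat_lit 0) (nat_lit 0) (XT.lf (nat_lit 0) (nat_lit 81099879807) (nat_lit 152) (nat_lit 2574344886664) (nat_lit 0) (nat_lit 68632612492) (nat_lit 1) (nat_lit 5) (nat_lit 3) (nat_lit 4) (nat_lit 1) (nat_lit 4) (nat_lit 360) (nat_lit 258) (nat_lit 162)) (XT.nd (nat_lit 78) (nat_lit 0) (nat_lit 0) (XT.lf (nat_lit 0) (nat_lit 92854740989) (nat_lit 152) (nat_lit 2768255466137) (nat_lit 0) (nat_lit 80386902162) (nat_lit 1) (nat_lit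 5) (nat_lit 3) (nat_lit 4) (nat_lit 1) (nat_lit 4) (nat_lit 361) (nat_lit 258) (nat_lit 161)) (XT.lf (nat_lit 0) (nat_lit 105549438963) (nat_lit 152) (nat_lit 2977679952751) (nat_lit 0) (nat_lit 93081070958) (nat_lit 1) (nat_lit 5) (nat_lit 3) (nat_lit 4) (nat_lit 1) (nat_lit 4) (nat_lit 362) (nat_lit 258) (nat_lit 160)))) (XT.nd (nat_lit 32760) (nat_lit 0) (nat_lit 4636) (XT.nd (nat_lit 78) (nat_lit 0) (nat_lit 0) (XT.lf (nat_lit 0) (nat_lit 119259201568) (nat_lit 152) (nat_lit 3203859380503) (nat_lit 0) (nat_lit 106790343583) (nat_lit 1) (nat_lit 5) (nat_lit 3) (nat_lit 4) (nat_lit 1) (nat_lit 4) (nat_lit 363) (nat_lit 258) (nat_lit 159)) (XT.lf (nat_lit 0) (nat_lit 134065271842) (nat_lit 152) (nat_lit 3448134071925) (nat_lit 0) (nat_lit 121595960172) (nat_lit 1) (nat_lit 5) (nat_lit 3) (nat_lit 4) (nat_lit 1) (nat_lit 4) (nat_lit 364) (nat_lit 258) (nat_lit 158))) (XT.nd (nat_lit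 78) (nat_lit 76) (nat_lit 0) (XT.lf (nat_lit 0) (nat_lit 1544841168) (nat_lit 76) (nat_lit 145037835) (nat_lit 0) (nat_lit 1544841168) (nat_lit 63) (nat_lit 5) (nat_lit 64) (nat_lit 0) (nat_lit 63) (nat_lit 4) (nat_lit 262) (nat_lit 259) (nat_lit 259)) (XT.lf (nat_lit 0) (nat_lit 3097271264) (nat_lit 76) (nat_lit 2962979718) (nat_lit 76) (nat_lit 449849420) (nat_lit 62) (nat_lit 4) (nat_lit 63) (nat_lit 5) (nat_lit 63) (nat_lit 4) (nat_lit 263) (nat_lit 259) (nat_lit 258))))) (XT.nd (nat_lit 234) (nat_lit 760) (nat_lit 0) (XT.nd (nat_lit 78) (nat_lit 456) (nat_lit 0) (XT.lf (nat_lit 0) (nat_lit 2312454656) (nat_lit 152) (nat_lit 30197109) (nat_lit 76) (nat_lit 4229326761) (nat_lit 61) (nat_lit 5) (nat_lit 63) (nat_lit 5) (nat_lit 62) (nat_lit 4) (nat_lit 264) (nat_lit 259) (nat_lit 257)) (XT.nd (nat_lit 78) (nat_lit 304) (nat_lit 0) (XT.lf (nat_lit 0) (nat_lit 3622740300) (nat_lit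 152) (nat_lit 1481801652) (nat_lit 228) (nat_lit 1548433045) (nat_lit 59) (nat_lit 5) (nat_lit 61) (nat_lit 5) (nat_lit 62) (nat_lit 4) (nat_lit 265) (nat_lit 259) (nat_lit 256)) (XT.lf (nat_lit 0) (nat_lit 648432773) (nat_lit 228) (nat_lit 431601539) (nat_lit 304) (nat_lit 5677703887) (nat_lit 55) (nat_lit 5) (nat_lit 58) (nat_lit 5) (nat_lit 59) (nat_lit 5) (nat_lit 266) (nat_lit 259) (nat_lit 255)))) (XT.nd (nat_lit 156) (nat_lit 456) (nat_lit 0) (XT.nd (nat_lit 78) (nat_lit 304) (nat_lit 0) (XT.lf (nat_lit 0) (nat_lit 3705534533) (nat_lit 304) (nat_lit 2326688735) (nat_lit 76) (nat_lit 847198815) (nat_lit 55) (nat_lit 5) (nat_lit 59) (nat_lit 5) (nat_lit 56) (nat_lit 4) (nat_lit 267) (nat_lit 259) (nat_lit 254)) (XT.lf (nat_lit 0) (nat_lit 1647431315) (nat_lit 304) (nat_lit 4730131310) (nat_lit 380) (nat_lit 647646092) (nat_lit 51) (nat_lit 5) (nat_lit 55) (nat_lit 5) (nat_lit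 56) (nat_lit 4) (nat_lit 268) (nat_lit 259) (nat_lit 253))) (XT.nd (nat_lit 78) (nat_lit 380) (nat_lit 0) (XT.lf (nat_lit 0) (nat_lit 1832740444) (nat_lit 380) (nat_lit 1347267959) (nat_lit 76) (nat_lit 4011259631) (nat_lit 50) (nat_lit 5) (nat_lit 55) (nat_lit 5) (nat_lit 51) (nat_lit 5) (nat_lit 269) (nat_lit 259) (nat_lit 252)) (XT.lf (nat_lit 0) (nat_lit 2961245960) (nat_lit 380) (nat_lit 1392894331) (nat_lit 456) (nat_lit 3025941996) (nat_lit 45) (nat_lit 5) (nat_lit 50) (nat_lit 5) (nat_lit 51) (nat_lit 5) (nat_lit 270) (nat_lit 259) (nat_lit 251)))))) (XT.nd (nat_lit 546) (nat_lit 760) (nat_lit 0) (XT.nd (nat_lit 234) (nat_lit 532) (nat_lit 0) (XT.nd (nat_lit 78) (nat_lit 760) (nat_lit 0) (XT.lf (nat_lit 0) (nat_lit 6944835054) (nat_lit 456) (nat_lit 91079453) (nat_lit 76) (nat_lit 559626574) (nat_lit 45) (nat_lit 5) (nat_lit 51) (nat_lit 5) (nat_lit 46) (nat_lit 4) (nat_lit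 271) (nat_lit 259) (nat_lit 250)) (XT.nd (nat_lit 78) (nat_lit 228) (nat_lit 0) (XT.lf (nat_lit 0) (nat_lit 1794687111) (nat_lit 532) (nat_lit 3272690314) (nat_lit 76) (nat_lit 2759913688) (nat_lit 38) (nat_lit 5) (nat_lit 45) (nat_lit 5) (nat_lit 39) (nat_lit 5) (nat_lit 272) (nat_lit 259) (nat_lit 249)) (XT.lf (nat_lit 0) (nat_lit 1373002924) (nat_lit 228) (nat_lit 2897107602) (nat_lit 304) (nat_lit 3817305188) (nat_lit 35) (nat_lit 5) (nat_lit 38) (nat_lit 5) (nat_lit 39) (nat_lit 5) (nat_lit 273) (nat_lit 259) (nat_lit 248)))) (XT.nd (nat_lit 156) (nat_lit 228) (nat_lit 0) (XT.nd (nat_lit 78) (nat_lit 304) (nat_lit 0) (XT.lf (nat_lit 0) (nat_lit 6402542656) (nat_lit 228) (nat_lit 472599355) (nat_lit 304) (nat_lit 1499377699) (nat_lit 35) (nat_lit 5) (nat_lit 38) (nat_lit 5) (nat_lit 39) (nat_lit 5) (nat_lit 274) (nat_lit 259) (nat_lit 247)) (XT.lf (nat_lit 0) (nat_lit 931703419)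 (nat_lit 304) (nat_lit 5631243483) (nat_lit 76) (nat_lit 2122074199) (nat_lit 31) (nat_lit 5) (nat_lit 35) (nat_lit 5) (nat_lit 32) (nat_lit 5) (nat_lit 275) (nat_lit 259) (nat_lit 246))) (XT.nd (nat_lit 78) (nat_lit 228) (nat_lit 0) (XT.lf (nat_lit 0) (nat_lit 3399896002) (nat_lit 304) (nat_lit 651711362) (nat_lit 76) (nat_lit 4972301224) (nat_lit 31) (nat_lit 5) (nat_lit 35) (nat_lit 5) (nat_lit 32) (nat_lit 5) (nat_lit 276) (nat_lit 259) (nat_lit 245)) (XT.lf (nat_lit 0) (nat_lit 4802749003) (nat_lit 228) (nat_lit 1245002337) (nat_lit 304) (nat_lit 3344090261) (nat_lit 28) (nat_lit 5) (nat_lit 31) (nat_lit 5) (nat_lit 32) (nat_lit 5) (nat_lit 277) (nat_lit 259) (nat_lit 244))))) (XT.nd (nat_lit 234) (nat_lit 380) (nat_lit 0) (XT.nd (nat_lit 78) (nat_lit 228) (nat_lit 0) (XT.lf (nat_lit 0) (nat_lit 768446192) (nat_lit 152) (nat_lit 8090670053) (nat_lit 228) (nat_lit 934431769) (nat_lit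 26) (nat_lit 5) (nat_lit 28) (nat_lit 5) (nat_lit 29) (nat_lit 4) (nat_lit 278) (nat_lit 259) (nat_lit 243)) (XT.nd (nat_lit 78) (nat_lit 152) (nat_lit 0) (XT.lf (nat_lit 0) (nat_lit 1619505882) (nat_lit 228) (nat_lit 3649670596) (nat_lit 76) (nat_lit 4952615241) (nat_lit 25) (nat_lit 5) (nat_lit 28) (nat_lit 5) (nat_lit 26) (nat_lit 5) (nat_lit 279) (nat_lit 259) (nat_lit 242)) (XT.lf (nat_lit 0) (nat_lit 2075946220) (nat_lit 152) (nat_lit 2184473681) (nat_lit 228) (nat_lit 6427657431) (nat_lit 23) (nat_lit 5) (nat_lit 25) (nat_lit 5) (nat_lit 26) (nat_lit 5) (nat_lit 280) (nat_lit 259) (nat_lit 241)))) (XT.nd (nat_lit 156) (nat_lit 228) (nat_lit 0) (XT.nd (nat_lit 78) (nat_lit 152) (nat_lit 0) (XT.lf (nat_lit 0) (nat_lit 7129658005) (nat_lit 228) (nat_lit 2910327494) (nat_lit 76) (nat_lit 1150664074) (nat_lit 23) (nat_lit 5) (nat_lit 26) (nat_lit 5) (nat_lit 24) (nat_lit 4) (nat_lit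 281) (nat_lit 259) (nat_lit 240)) (XT.lf (nat_lit 0) (nat_lit 3199410001) (nat_lit 152) (nat_lit 7058159773) (nat_lit 228) (nat_lit 1473849138) (nat_lit 21) (nat_lit 5) (nat_lit 23) (nat_lit 5) (nat_lit 24) (nat_lit 4) (nat_lit 282) (nat_lit 259) (nat_lit 239))) (XT.nd (nat_lit 78) (nat_lit 152) (nat_lit 0) (XT.lf (nat_lit 0) (nat_lit 1232611936) (nat_lit 228) (nat_lit 2532859136) (nat_lit 76) (nat_lit 8549443292) (nat_lit 20) (nat_lit 5) (nat_lit 23) (nat_lit 5) (nat_lit 21) (nat_lit 5) (nat_lit 283) (nat_lit 259) (nat_lit 238)) (XT.lf (nat_lit 0) (nat_lit 3964214112) (nat_lit 152) (nat_lit 111488983) (nat_lit 228) (nat_lit 8866600352) (nat_lit 18) (nat_lit 5) (nat_lit 20) (nat_lit 5) (nat_lit 21) (nat_lit 5) (nat_lit 284) (nat_lit 259) (nat_lit 237))))))) (XT.nd (nat_lit 1092) (nat_lit 456) (nat_lit 0) (XT.nd (nat_lit 546) (nat_lit 228) (nat_lit 0) (XT.nd (nat_lit 234) (nat_lit 304)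 (nat_lit 0) (XT.nd (nat_lit 78) (nat_lit 76) (nat_lit 0) (XT.lf (nat_lit 0) (nat_lit 7216551996) (nat_lit 228) (nat_lit 2728171464) (nat_lit 76) (nat_lit 3669772105) (nat_lit 18) (nat_lit 5) (nat_lit 21) (nat_lit 5) (nat_lit 19) (nat_lit 4) (nat_lit 285) (nat_lit 259) (nat_lit 236)) (XT.nd (nat_lit 78) (nat_lit 0) (nat_lit 0) (XT.lf (nat_lit 0) (nat_lit 4089236493) (nat_lit 76) (nat_lit 6534592424) (nat_lit 152) (nat_lit 3715640532) (nat_lit 17) (nat_lit 5) (nat_lit 18) (nat_lit 5) (nat_lit 19) (nat_lit 4) (nat_lit 286) (nat_lit 259) (nat_lit 235)) (XT.lf (nat_lit 0) (nat_lit 11476419570) (nat_lit 76) (nat_lit 2819010916) (nat_lit 152) (nat_lit 827874331) (nat_lit 17) (nat_lit 5) (nat_lit 18) (nat_lit 5) (nat_lit 19) (nat_lit 4) (nat_lit 287) (nat_lit 259) (nat_lit 234)))) (XT.nd (nat_lit 156) (nat_lit 76) (nat_lit 0) (XT.nd (nat_lit 78) (nat_lit 0) (nat_lit 0) (XT.lf (nat_lit 0) (nat_lit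 2212275200) (nat_lit 228) (nat_lit 12518212177) (nat_lit 76) (nat_lit 1232248905) (nat_lit 14) (nat_lit 5) (nat_lit 17) (nat_lit 5) (nat_lit 15) (nat_lit 4) (nat_lit 288) (nat_lit 259) (nat_lit 233)) (XT.lf (nat_lit 0) (nat_lit 5549339742) (nat_lit 228) (nat_lit 5775376091) (nat_lit 76) (nat_lit 5535172917) (nat_lit 14) (nat_lit 5) (nat_lit 17) (nat_lit 5) (nat_lit 15) (nat_lit 4) (nat_lit 289) (nat_lit 259) (nat_lit 232))) (XT.nd (nat_lit 78) (nat_lit 0) (nat_lit 0) (XT.lf (nat_lit 0) (nat_lit 1462096896) (nat_lit 76) (nat_lit 7655053115) (nat_lit 152) (nat_lit 8714710148) (nat_lit 13) (nat_lit 5) (nat_lit 14) (nat_lit 5) (nat_lit 15) (nat_lit 4) (nat_lit 290) (nat_lit 259) (nat_lit 231)) (XT.lf (nat_lit 0) (nat_lit 9492074056) (nat_lit 76) (nat_lit 3567360367) (nat_lit 152) (nat_lit 5815169049) (nat_lit 13) (nat_lit 5) (nat_lit 14) (nat_lit 5) (nat_lit 15) (nat_lit 4) (nat_lit 291)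 (nat_lit 259) (nat_lit 230))))) (XT.nd (nat_lit 234) (nat_lit 76) (nat_lit 0) (XT.nd (nat_lit 78) (nat_lit 152) (nat_lit 0) (XT.lf (nat_lit 0) (nat_lit 17272695108) (nat_lit 152) (nat_lit 1967328003) (nat_lit 0) (nat_lit 764423564) (nat_lit 13) (nat_lit 5) (nat_lit 15) (nat_lit 4) (nat_lit 13) (nat_lit 4) (nat_lit 292) (nat_lit 259) (nat_lit 229)) (XT.nd (nat_lit 78) (nat_lit 0) (nat_lit 0) (XT.lf (nat_lit 0) (nat_lit 753660466) (nat_lit 152) (nat_lit 15075588947) (nat_lit 76) (nat_lit 5379566173) (nat_lit 11) (nat_lit 5) (nat_lit 13) (nat_lit 5) (nat_lit 12) (nat_lit 4) (nat_lit 293) (nat_lit 259) (nat_lit 228)) (XT.lf (nat_lit 0) (nat_lit 4365953958) (nat_lit 152) (nat_lit 7686954754) (nat_lit 76) (nat_lit 10451399743) (nat_lit 11) (nat_lit 5) (nat_lit 13) (nat_lit 5) (nat_lit 12) (nat_lit 4) (nat_lit 294) (nat_lit 259) (nat_lit 227)))) (XT.nd (nat_lit 156) (nat_lit 0) (nat_lit 0)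 (XT.nd (nat_lit 78) (nat_lit 0) (nat_lit 0) (XT.lf (nat_lit 0) (nat_lit 207715023) (nat_lit 76) (nat_lit 8009369469) (nat_lit 152) (nat_lit 15690461991) (nat_lit 10) (nat_lit 5) (nat_lit 11) (nat_lit 5) (nat_lit 12) (nat_lit 4) (nat_lit 295) (nat_lit 259) (nat_lit 226)) (XT.lf (nat_lit 0) (nat_lit 9078092765) (nat_lit 76) (nat_lit 3455092909) (nat_lit 152) (nat_lit 12877394514) (nat_lit 10) (nat_lit 5) (nat_lit 11) (nat_lit 5) (nat_lit 12) (nat_lit 4) (nat_lit 296) (nat_lit 259) (nat_lit 225))) (XT.nd (nat_lit 78) (nat_lit 0) (nat_lit 0) (XT.lf (nat_lit 0) (nat_lit 17179540944) (nat_lit 152) (nat_lit 8500235688) (nat_lit 0) (nat_lit 1355363279) (nat_lit 10) (nat_lit 5) (nat_lit 12) (nat_lit 4) (nat_lit 10) (nat_lit 4) (nat_lit 297) (nat_lit 259) (nat_lit 224)) (XT.lf (nat_lit 0) (nat_lit 22240836350) (nat_lit 152) (nat_lit 213815000) (nat_lit 0) (nat_lit 6331629157) (nat_lit 10) (nat_lit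 5) (nat_lit 12) (nat_lit 4) (nat_lit 10) (nat_lit 4) (nat_lit 298) (nat_lit 259) (nat_lit 223)))))) (XT.nd (nat_lit 546) (nat_lit 228) (nat_lit 0) (XT.nd (nat_lit 234) (nat_lit 76) (nat_lit 0) (XT.nd (nat_lit 78) (nat_lit 76) (nat_lit 0) (XT.lf (nat_lit 0) (nat_lit 9114940670) (nat_lit 76) (nat_lit 18768243557) (nat_lit 76) (nat_lit 2780305320) (nat_lit 9) (nat_lit 4) (nat_lit 10) (nat_lit 5) (nat_lit 10) (nat_lit 4) (nat_lit 299) (nat_lit 259) (nat_lit 222)) (XT.nd (nat_lit 78) (nat_lit 0) (nat_lit 0) (XT.lf (nat_lit 0) (nat_lit 1184896317) (nat_lit 152) (nat_lit 13596253011) (nat_lit 76) (nat_lit 17910256087) (nat_lit 8) (nat_lit 5) (nat_lit 10) (nat_lit 5) (nat_lit 9) (nat_lit 4) (nat_lit 300) (nat_lit 259) (nat_lit 221)) (XT.lf (nat_lit 0) (nat_lit 5277463648) (nat_lit 152) (nat_lit 5151212141) (nat_lit 76) (nat_lit 24450327699) (nat_lit 8) (nat_lit 5) (nat_lit 10) (nat_lit 5)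 (nat_lit 9) (nat_lit 4) (nat_lit 301) (nat_lit 259) (nat_lit 220)))) (XT.nd (nat_lit 156) (nat_lit 0) (nat_lit 0) (XT.nd (nat_lit 78) (nat_lit 0) (nat_lit 0) (XT.lf (nat_lit 0) (nat_lit 4109035420) (nat_lit 76) (nat_lit 5650518037) (nat_lit 152) (nat_lit 27477137377) (nat_lit 7) (nat_lit 5) (nat_lit 8) (nat_lit 5) (nat_lit 9) (nat_lit 4) (nat_lit 302) (nat_lit 259) (nat_lit 219)) (XT.lf (nat_lit 0) (nat_lit 14338779164) (nat_lit 76) (nat_lit 366742279) (nat_lit 152) (nat_lit 25069093875) (nat_lit 7) (nat_lit 5) (nat_lit 8) (nat_lit 5) (nat_lit 9) (nat_lit 4) (nat_lit 303) (nat_lit 259) (nat_lit 218))) (XT.nd (nat_lit 78) (nat_lit 0) (nat_lit 0) (XT.lf (nat_lit 0) (nat_lit 20142047265) (nat_lit 152) (nat_lit 17318643889) (nat_lit 0) (nat_lit 5047335723) (nat_lit 7) (nat_lit 5) (nat_lit 9) (nat_lit 4) (nat_lit 7) (nat_lit 4) (nat_lit 304) (nat_lit 259) (nat_lit 217)) (XT.lf (nat_lit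 0) (nat_lit 25991965024) (nat_lit 152) (nat_lit 8618594392) (nat_lit 0) (nat_lit 10851314675) (nat_lit 7) (nat_lit 5) (nat_lit 9) (nat_lit 4) (nat_lit 7) (nat_lit 4) (nat_lit 305) (nat_lit 259) (nat_lit 216))))) (XT.nd (nat_lit 312) (nat_lit 152) (nat_lit 0) (XT.nd (nat_lit 156) (nat_lit 0) (nat_lit 0) (XT.nd (nat_lit 78) (nat_lit 0) (nat_lit 0) (XT.lf (nat_lit 0) (nat_lit 762849148) (nat_lit 76) (nat_lit 31536618133) (nat_lit 76) (nat_lit 16353431851) (nat_lit 6) (nat_lit 4) (nat_lit 7) (nat_lit 5) (nat_lit 7) (nat_lit 4) (nat_lit 306) (nat_lit 259) (nat_lit 215)) (XT.lf (nat_lit 0) (nat_lit 11333520520) (nat_lit 76) (nat_lit 27985834406) (nat_lit 76) (nat_lit 12763263000) (nat_lit 6) (nat_lit 4) (nat_lit 7) (nat_lit 5) (nat_lit 7) (nat_lit 4) (nat_lit 307) (nat_lit 259) (nat_lit 214))) (XT.nd (nat_lit 78) (nat_lit 0) (nat_lit 0) (XT.lf (nat_lit 0) (nat_lit 22702220832) (nat_lit 76)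 (nat_lit 24172814199) (nat_lit 76) (nat_lit 8913775086) (nat_lit 6) (nat_lit 4) (nat_lit 7) (nat_lit 5) (nat_lit 7) (nat_lit 4) (nat_lit 308) (nat_lit 259) (nat_lit 213)) (XT.lf (nat_lit 0) (nat_lit 34936320161) (nat_lit 76) (nat_lit 20074961837) (nat_lit 76) (nat_lit 4782156329) (nat_lit 6) (nat_lit 4) (nat_lit 7) (nat_lit 5) (nat_lit 7) (nat_lit 4) (nat_lit 309) (nat_lit 259) (nat_lit 212)))) (XT.nd (nat_lit 156) (nat_lit 76) (nat_lit 0) (XT.nd (nat_lit 78) (nat_lit 76) (nat_lit 0) (XT.lf (nat_lit 0) (nat_lit 48108316871) (nat_lit 76) (nat_lit 15667993749) (nat_lit 76) (nat_lit 343923060) (nat_lit 6) (nat_lit 4) (nat_lit 7) (nat_lit 5) (nat_lit 7) (nat_lit 4) (nat_lit 310) (nat_lit 259) (nat_lit 211)) (XT.lf (nat_lit 0) (nat_lit 4205757616) (nat_lit 152) (nat_lit 6605044087) (nat_lit 76) (nat_lit 57975516757) (nat_lit 5) (nat_lit 5) (nat_lit 7) (nat_lit 5) (nat_lit 6) (nat_lit 4)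 (nat_lit 311) (nat_lit 259) (nat_lit 210))) (XT.nd (nat_lit 78) (nat_lit 0) (nat_lit 0) (XT.lf (nat_lit 0) (nat_lit 3694190700) (nat_lit 76) (nat_lit 5476009051) (nat_lit 152) (nat_lit 64649247987) (nat_lit 4) (nat_lit 5) (nat_lit 5) (nat_lit 5) (nat_lit 6) (nat_lit 4) (nat_lit 312) (nat_lit 259) (nat_lit 209)) (XT.lf (nat_lit 0) (nat_lit 14704678506) (nat_lit 152) (nat_lit 64095619361) (nat_lit 0) (nat_lit 441119162) (nat_lit 4) (nat_lit 5) (nat_lit 6) (nat_lit 4) (nat_lit 4) (nat_lit 4) (nat_lit 313) (nat_lit 259) (nat_lit 208))))))))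
noncomputable def xc48 : XT := (XT.nd (nat_lit 2184) (nat_lit 152) (nat_lit 0) (XT.nd (nat_lit 1092) (nat_lit 0) (nat_lit 0) (XT.nd (nat_lit 546) (nat_lit 76) (nat_lit 0) (XT.nd (nat_lit 234) (nat_lit 0) (nat_lit 0) (XT.nd (nat_lit 78) (nat_lit 0) (nat_lit 0) (XT.lf (nat_lit 0) (nat_lit 20806306046) (nat_lit 152) (nat_lit 57759437110) (nat_lit 0) (nat_lit 6521468146) (nat_lit 4) (nat_lit 5) (nat_lit 6) (nat_lit 4) (nat_lit 4) (nat_lit 4) (nat_lit 314) (nat_lit 259) (nat_lit 207)) (XT.nd (nat_lit 78) (nat_lit 0) (nat_lit 0) (XT.lf (nat_lit 0) (nat_lit 27379542015) (nat_lit 152) (nat_lit 50947464388) (nat_lit 0) (nat_lit 13075001747) (nat_lit 4) (nat_lit 5) (nat_lit 6) (nat_lit 4) (nat_lit 4) (nat_lit 4) (nat_lit 315) (nat_lit 259) (nat_lit 206)) (XT.lf (nat_lit 0) (nat_lit 34463338922) (nat_lit 152) (nat_lit 43619333951) (nat_lit 0) (nat_lit 20140555722) (nat_lit 4) (nat_lit 5) (nat_lit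 6) (nat_lit 4) (nat_lit 4) (nat_lit 4) (nat_lit 316) (nat_lit 259) (nat_lit 205)))) (XT.nd (nat_lit 156) (nat_lit 0) (nat_lit 0) (XT.nd (nat_lit 78) (nat_lit 0) (nat_lit 0) (XT.lf (nat_lit 0) (nat_lit 42099674823) (nat_lit 152) (nat_lit 35731619840) (nat_lit 0) (nat_lit 27760000018) (nat_lit 4) (nat_lit 5) (nat_lit 6) (nat_lit 4) (nat_lit 4) (nat_lit 4) (nat_lit 317) (nat_lit 259) (nat_lit 204)) (XT.lf (nat_lit 0) (nat_lit 50333802079) (nat_lit 152) (nat_lit 27237580045) (nat_lit 0) (nat_lit 35978486899) (nat_lit 4) (nat_lit 5) (nat_lit 6) (nat_lit 4) (nat_lit 4) (nat_lit 4) (nat_lit 318) (nat_lit 259) (nat_lit 203))) (XT.nd (nat_lit 78) (nat_lit 0) (nat_lit 0) (XT.lf (nat_lit 0) (nat_lit 59214515517) (nat_lit 152) (nat_lit 18086879517) (nat_lit 0) (nat_lit 44844718510) (nat_lit 4) (nat_lit 5) (nat_lit 6) (nat_lit 4) (nat_lit 4) (nat_lit 4) (nat_lit 319) (nat_lit 259) (nat_lit 202))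 (XT.lf (nat_lit 0) (nat_lit 68794441589) (nat_lit 152) (nat_lit 8225291881) (nat_lit 0) (nat_lit 54411235481) (nat_lit 4) (nat_lit 5) (nat_lit 6) (nat_lit 4) (nat_lit 4) (nat_lit 4) (nat_lit 320) (nat_lit 259) (nat_lit 201))))) (XT.nd (nat_lit 234) (nat_lit 0) (nat_lit 0) (XT.nd (nat_lit 78) (nat_lit 0) (nat_lit 0) (XT.lf (nat_lit 0) (nat_lit 2532297686) (nat_lit 76) (nat_lit 76658954359) (nat_lit 76) (nat_lit 62263332418) (nat_lit 3) (nat_lit 4) (nat_lit 4) (nat_lit 5) (nat_lit 4) (nat_lit 4) (nat_lit 321) (nat_lit 259) (nat_lit 200)) (XT.nd (nat_lit 78) (nat_lit 0) (nat_lit 0) (XT.lf (nat_lit 0) (nat_lit 14599169416) (nat_lit 76) (nat_lit 76035432216) (nat_lit 76) (nat_lit 61628314133) (nat_lit 3) (nat_lit 4) (nat_lit 4) (nat_lit 5) (nat_lit 4) (nat_lit 4) (nat_lit 322) (nat_lit 259) (nat_lit 199)) (XT.lf (nat_lit 0) (nat_lit 27613701401) (nat_lit 76) (nat_lit 75370366151) (nat_lit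 76) (nat_lit 60952603492) (nat_lit 3) (nat_lit 4) (nat_lit 4) (nat_lit 5) (nat_lit 4) (nat_lit 4) (nat_lit 323) (nat_lit 259) (nat_lit 198)))) (XT.nd (nat_lit 156) (nat_lit 0) (nat_lit 0) (XT.nd (nat_lit 78) (nat_lit 0) (nat_lit 0) (XT.lf (nat_lit 0) (nat_lit 41653016795) (nat_lit 76) (nat_lit 74659815031) (nat_lit 76) (nat_lit 60232196283) (nat_lit 3) (nat_lit 4) (nat_lit 4) (nat_lit 5) (nat_lit 4) (nat_lit 4) (nat_lit 324) (nat_lit 259) (nat_lit 197)) (XT.lf (nat_lit 0) (nat_lit 56800311540) (nat_lit 76) (nat_lit 73899568184) (nat_lit 76) (nat_lit 59462823428) (nat_lit 3) (nat_lit 4) (nat_lit 4) (nat_lit 5) (nat_lit 4) (nat_lit 4) (nat_lit 325) (nat_lit 259) (nat_lit 196))) (XT.nd (nat_lit 78) (nat_lit 0) (nat_lit 0) (XT.lf (nat_lit 0) (nat_lit 73145347383) (nat_lit 76) (nat_lit 73085120442) (nat_lit 76) (nat_lit 58639925678) (nat_lit 3) (nat_lit 4) (nat_lit 4) (nat_lit 5) (nat_lit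 4) (nat_lit 4) (nat_lit 326) (nat_lit 259) (nat_lit 195)) (XT.lf (nat_lit 0) (nat_lit 90784983797) (nat_lit 76) (nat_lit 72211645449) (nat_lit 76) (nat_lit 57758626604) (nat_lit 3) (nat_lit 4) (nat_lit 4) (nat_lit 5) (nat_lit 4) (nat_lit 4) (nat_lit 327) (nat_lit 259) (nat_lit 194)))))) (XT.nd (nat_lit 546) (nat_lit 0) (nat_lit 0) (XT.nd (nat_lit 234) (nat_lit 0) (nat_lit 0) (XT.nd (nat_lit 78) (nat_lit 0) (nat_lit 0) (XT.lf (nat_lit 0) (nat_lit 109823751958) (nat_lit 76) (nat_lit 71273967057) (nat_lit 76) (nat_lit 56813703692) (nat_lit 3) (nat_lit 4) (nat_lit 4) (nat_lit 5) (nat_lit 4) (nat_lit 4) (nat_lit 328) (nat_lit 259) (nat_lit 193)) (XT.nd (nat_lit 78) (nat_lit 0) (nat_lit 0) (XT.lf (nat_lit 0) (nat_lit 130374474198) (nat_lit 76) (nat_lit 70266528653) (nat_lit 76) (nat_lit 55799557400) (nat_lit 3) (nat_lit 4) (nat_lit 4) (nat_lit 5) (nat_lit 4) (nat_lit 4) (nat_lit 329) (nat_lit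 259) (nat_lit 192)) (XT.lf (nat_lit 0) (nat_lit 152558932575) (nat_lit 76) (nat_lit 69183360231) (nat_lit 76) (nat_lit 54710177970) (nat_lit 3) (nat_lit 4) (nat_lit 4) (nat_lit 5) (nat_lit 4) (nat_lit 4) (nat_lit 330) (nat_lit 259) (nat_lit 191)))) (XT.nd (nat_lit 156) (nat_lit 0) (nat_lit 0) (XT.nd (nat_lit 78) (nat_lit 0) (nat_lit 0) (XT.lf (nat_lit 0) (nat_lit 176508590544) (nat_lit 76) (nat_lit 68018043016) (nat_lit 76) (nat_lit 53539109822) (nat_lit 3) (nat_lit 4) (nat_lit 4) (nat_lit 5) (nat_lit 4) (nat_lit 4) (nat_lit 331) (nat_lit 259) (nat_lit 190)) (XT.lf (nat_lit 0) (nat_lit 202365372005) (nat_lit 76) (nat_lit 66763671425) (nat_lit 76) (nat_lit 52279413293) (nat_lit 3) (nat_lit 4) (nat_lit 4) (nat_lit 5) (nat_lit 4) (nat_lit 4) (nat_lit 332) (nat_lit 259) (nat_lit 189))) (XT.nd (nat_lit 78) (nat_lit 0) (nat_lit 0) (XT.lf (nat_lit 0) (nat_lit 230282502331) (nat_lit 76) (nat_lit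 65412812143) (nat_lit 76) (nat_lit 50923623513) (nat_lit 3) (nat_lit 4) (nat_lit 4) (nat_lit 5) (nat_lit 4) (nat_lit 4) (nat_lit 333) (nat_lit 259) (nat_lit 188)) (XT.lf (nat_lit 0) (nat_lit 260425416366) (nat_lit 76) (nat_lit 63957460080) (nat_lit 76) (nat_lit 49463706174) (nat_lit 3) (nat_lit 4) (nat_lit 4) (nat_lit 5) (nat_lit 4) (nat_lit 4) (nat_lit 334) (nat_lit 259) (nat_lit 187))))) (XT.nd (nat_lit 234) (nat_lit 0) (nat_lit 0) (XT.nd (nat_lit 78) (nat_lit 0) (nat_lit 0) (XT.lf (nat_lit 0) (nat_lit 292972738788) (nat_lit 76) (nat_lit 62388990927) (nat_lit 76) (nat_lit 47891009913) (nat_lit 3) (nat_lit 4) (nat_lit 4) (nat_lit 5) (nat_lit 4) (nat_lit 4) (nat_lit 335) (nat_lit 259) (nat_lit 186)) (XT.nd (nat_lit 78) (nat_lit 0) (nat_lit 0) (XT.lf (nat_lit 0) (nat_lit 328117342617) (nat_lit 76) (nat_lit 60698110051) (nat_lit 76) (nat_lit 46196215048) (nat_lit 3) (nat_lit 4) (nat_lit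 4) (nat_lit 5) (nat_lit 4) (nat_lit 4) (nat_lit 336) (nat_lit 259) (nat_lit 185)) (XT.lf (nat_lit 0) (nat_lit 366067492173) (nat_lit 76) (nat_lit 58874797418) (nat_lit 76) (nat_lit 44369278352) (nat_lit 3) (nat_lit 4) (nat_lit 4) (nat_lit 5) (nat_lit 4) (nat_lit 4) (nat_lit 337) (nat_lit 259) (nat_lit 184)))) (XT.nd (nat_lit 156) (nat_lit 0) (nat_lit 0) (XT.nd (nat_lit 78) (nat_lit 0) (nat_lit 0) (XT.lf (nat_lit 0) (nat_lit 407048077231) (nat_lit 76) (nat_lit 56908248212) (nat_lit 76) (nat_lit 42399373531) (nat_lit 3) (nat_lit 4) (nat_lit 4) (nat_lit 5) (nat_lit 4) (nat_lit 4) (nat_lit 338) (nat_lit 259) (nat_lit 183)) (XT.lf (nat_lit 0) (nat_lit 451301945702) (nat_lit 76) (nat_lit 54786808808) (nat_lit 76) (nat_lit 40274827077) (nat_lit 3) (nat_lit 4) (nat_lit 4) (nat_lit 5) (nat_lit 4) (nat_lit 4) (nat_lit 339) (nat_lit 259) (nat_lit 182))) (XT.nd (nat_lit 78) (nat_lit 0) (nat_lit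 0) (XT.lf (nat_lit 0) (nat_lit 499091342734) (nat_lit 76) (nat_lit 52497907714) (nat_lit 76) (nat_lit 37983049085) (nat_lit 3) (nat_lit 4) (nat_lit 4) (nat_lit 5) (nat_lit 4) (nat_lit 4) (nat_lit 340) (nat_lit 259) (nat_lit 181)) (XT.lf (nat_lit 0) (nat_lit 550699464751) (nat_lit 76) (nat_lit 50027981070) (nat_lit 76) (nat_lit 35510458647) (nat_lit 3) (nat_lit 4) (nat_lit 4) (nat_lit 5) (nat_lit 4) (nat_lit 4) (nat_lit 341) (nat_lit 259) (nat_lit 180))))))) (XT.nd (nat_lit 1092) (nat_lit 0) (nat_lit 0) (XT.nd (nat_lit 546) (nat_lit 152) (nat_lit 0) (XT.nd (nat_lit 234) (nat_lit 0) (nat_lit 0) (XT.nd (nat_lit 78) (nat_lit 0) (nat_lit 0) (XT.lf (nat_lit 0) (nat_lit 606432137664) (nat_lit 76) (nat_lit 47362392276) (nat_lit 76) (nat_lit 32842403376) (nat_lit 3) (nat_lit 4) (nat_lit 4) (nat_lit 5) (nat_lit 4) (nat_lit 4) (nat_lit 342) (nat_lit 259) (nat_lit 179)) (XT.nd (nat_lit 78) (nat_lit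 0) (nat_lit 0) (XT.lf (nat_lit 0) (nat_lit 666619629163) (nat_lit 76) (nat_lit 44485345249) (nat_lit 76) (nat_lit 29963072574) (nat_lit 3) (nat_lit 4) (nat_lit 4) (nat_lit 5) (nat_lit 4) (nat_lit 4) (nat_lit 343) (nat_lit 259) (nat_lit 178)) (XT.lf (nat_lit 0) (nat_lit 731618605864) (nat_lit 76) (nat_lit 41379790821) (nat_lit 76) (nat_lit 26855403540) (nat_lit 3) (nat_lit 4) (nat_lit 4) (nat_lit 5) (nat_lit 4) (nat_lit 4) (nat_lit 344) (nat_lit 259) (nat_lit 177)))) (XT.nd (nat_lit 156) (nat_lit 0) (nat_lit 0) (XT.nd (nat_lit 78) (nat_lit 0) (nat_lit 0) (XT.lf (nat_lit 0) (nat_lit 801814246890) (nat_lit 76) (nat_lit 38027325707) (nat_lit 76) (nat_lit 23500980457) (nat_lit 3) (nat_lit 4) (nat_lit 4) (nat_lit 5) (nat_lit 4) (nat_lit 4) (nat_lit 345) (nat_lit 259) (nat_lit 176)) (XT.lf (nat_lit 0) (nat_lit 877622526408) (nat_lit 76) (nat_lit 34408083448) (nat_lit 76) (nat_lit 19879925264)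 (nat_lit 3) (nat_lit 4) (nat_lit 4) (nat_lit 5) (nat_lit 4) (nat_lit 4) (nat_lit 346) (nat_lit 259) (nat_lit 175))) (XT.nd (nat_lit 78) (nat_lit 0) (nat_lit 0) (XT.lf (nat_lit 0) (nat_lit 959492678667) (nat_lit 76) (nat_lit 30500616680) (nat_lit 76) (nat_lit 15970779854) (nat_lit 3) (nat_lit 4) (nat_lit 4) (nat_lit 5) (nat_lit 4) (nat_lit 4) (nat_lit 347) (nat_lit 259) (nat_lit 174)) (XT.lf (nat_lit 0) (nat_lit 1047909860127) (nat_lit 76) (nat_lit 26281770047) (nat_lit 76) (nat_lit 11750378922) (nat_lit 3) (nat_lit 4) (nat_lit 4) (nat_lit 5) (nat_lit 4) (nat_lit 4) (nat_lit 348) (nat_lit 259) (nat_lit 173))))) (XT.nd (nat_lit 234) (nat_lit 76) (nat_lit 0) (XT.nd (nat_lit 78) (nat_lit 76) (nat_lit 0) (XT.lf (nat_lit 0) (nat_lit 1143398024454) (nat_lit 76) (nat_lit 21726542975) (nat_lit 76) (nat_lit 7193712685) (nat_lit 3) (nat_lit 4) (nat_lit 4) (nat_lit 5) (nat_lit 4) (nat_lit 4) (nat_lit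 349) (nat_lit 259) (nat_lit 172)) (XT.nd (nat_lit 78) (nat_lit 76) (nat_lit 0) (XT.lf (nat_lit 0) (nat_lit 1246523027437) (nat_lit 76) (nat_lit 16807941526) (nat_lit 76) (nat_lit 2273778675) (nat_lit 3) (nat_lit 4) (nat_lit 4) (nat_lit 5) (nat_lit 4) (nat_lit 4) (nat_lit 350) (nat_lit 259) (nat_lit 171)) (XT.lf (nat_lit 0) (nat_lit 2886576279) (nat_lit 152) (nat_lit 8531318043) (nat_lit 76) (nat_lit 1354930479815) (nat_lit 2) (nat_lit 5) (nat_lit 4) (nat_lit 5) (nat_lit 3) (nat_lit 4) (nat_lit 351) (nat_lit 259) (nat_lit 170)))) (XT.nd (nat_lit 156) (nat_lit 0) (nat_lit 0) (XT.nd (nat_lit 78) (nat_lit 0) (nat_lit 0) (XT.lf (nat_lit 0) (nat_lit 2949657126) (nat_lit 76) (nat_lit 5457168011) (nat_lit 152) (nat_lit 1466734349121) (nat_lit 1) (nat_lit 5) (nat_lit 2) (nat_lit 5) (nat_lit 3) (nat_lit 4) (nat_lit 352) (nat_lit 259) (nat_lit 169)) (XT.lf (nat_lit 0) (nat_lit 14630571128) (nat_lit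 152) (nat_lit 1576816044769) (nat_lit 0) (nat_lit 1169833175) (nat_lit 1) (nat_lit 5) (nat_lit 3) (nat_lit 4) (nat_lit 1) (nat_lit 4) (nat_lit 353) (nat_lit 259) (nat_lit 168))) (XT.nd (nat_lit 78) (nat_lit 0) (nat_lit 0) (XT.lf (nat_lit 0) (nat_lit 21493015214) (nat_lit 152) (nat_lit 1689954097236) (nat_lit 0) (nat_lit 8031370342) (nat_lit 1) (nat_lit 5) (nat_lit 3) (nat_lit 4) (nat_lit 1) (nat_lit 4) (nat_lit 354) (nat_lit 259) (nat_lit 167)) (XT.lf (nat_lit 0) (nat_lit 28903578708) (nat_lit 152) (nat_lit 1812144877233) (nat_lit 0) (nat_lit 15441094098) (nat_lit 1) (nat_lit 5) (nat_lit 3) (nat_lit 4) (nat_lit 1) (nat_lit 4) (nat_lit 355) (nat_lit 259) (nat_lit 166)))))) (XT.nd (nat_lit 546) (nat_lit 0) (nat_lit 0) (XT.nd (nat_lit 234) (nat_lit 0) (nat_lit 0) (XT.nd (nat_lit 78) (nat_lit 0) (nat_lit 0) (XT.lf (nat_lit 0) (nat_lit 36906176061) (nat_lit 152) (nat_lit 1944112478268)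 (nat_lit 0) (nat_lit 23442913914) (nat_lit 1) (nat_lit 5) (nat_lit 3) (nat_lit 4) (nat_lit 1) (nat_lit 4) (nat_lit 356) (nat_lit 259) (nat_lit 165)) (XT.nd (nat_lit 78) (nat_lit 0) (nat_lit 0) (XT.lf (nat_lit 0) (nat_lit 45548230072) (nat_lit 152) (nat_lit 2086638930571) (nat_lit 0) (nat_lit 32084247984) (nat_lit 1) (nat_lit 5) (nat_lit 3) (nat_lit 4) (nat_lit 1) (nat_lit 4) (nat_lit 357) (nat_lit 259) (nat_lit 164)) (XT.lf (nat_lit 0) (nat_lit 54880952913) (nat_lit 152) (nat_lit 2240568835341) (nat_lit 0) (nat_lit 41416304213) (nat_lit 1) (nat_lit 5) (nat_lit 3) (nat_lit 4) (nat_lit 1) (nat_lit 4) (nat_lit 358) (nat_lit 259) (nat_lit 163)))) (XT.nd (nat_lit 156) (nat_lit 0) (nat_lit 0) (XT.nd (nat_lit 78) (nat_lit 0) (nat_lit 0) (XT.lf (nat_lit 0) (nat_lit 64959649607) (nat_lit 152) (nat_lit 2406814369791) (nat_lit 0) (nat_lit 51494383674) (nat_lit 1) (nat_lit 5) (nat_lit 3) (nat_lit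 4) (nat_lit 1) (nat_lit 4) (nat_lit 359) (nat_lit 259) (nat_lit 162)) (XT.lf (nat_lit 0) (nat_lit 75844045766) (nat_lit 152) (nat_lit 2586360692644) (nat_lit 0) (nat_lit 62378208320) (nat_lit 1) (nat_lit 5) (nat_lit 3) (nat_lit 4) (nat_lit 1) (nat_lit 4) (nat_lit 360) (nat_lit 259) (nat_lit 161))) (XT.nd (nat_lit 78) (nat_lit 0) (nat_lit 0) (XT.lf (nat_lit 0) (nat_lit 87598641514) (nat_lit 152) (nat_lit 2780271782109) (nat_lit 0) (nat_lit 74132274890) (nat_lit 1) (nat_lit 5) (nat_lit 3) (nat_lit 4) (nat_lit 1) (nat_lit 4) (nat_lit 361) (nat_lit 259) (nat_lit 160)) (XT.lf (nat_lit 0) (nat_lit 100293093715) (nat_lit 152) (nat_lit 2989696740939) (nat_lit 0) (nat_lit 86826237112) (nat_lit 1) (nat_lit 5) (nat_lit 3) (nat_lit 4) (nat_lit 1) (nat_lit 4) (nat_lit 362) (nat_lit 259) (nat_lit 159))))) (XT.nd (nat_lit 32682) (nat_lit 0) (nat_lit 4560) (XT.nd (nat_lit 78) (nat_lit 0) (nat_lit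 0) (XT.lf (nat_lit 0) (nat_lit 114002628753) (nat_lit 152) (nat_lit 3215876605926) (nat_lit 0) (nat_lit 100535318464) (nat_lit 1) (nat_lit 5) (nat_lit 3) (nat_lit 4) (nat_lit 1) (nat_lit 4) (nat_lit 363) (nat_lit 259) (nat_lit 158)) (XT.nd (nat_lit 32526) (nat_lit 0) (nat_lit 4788) (XT.lf (nat_lit 0) (nat_lit 128808488316) (nat_lit 152) (nat_lit 3460151702197) (nat_lit 0) (nat_lit 115340757949) (nat_lit 1) (nat_lit 5) (nat_lit 3) (nat_lit 4) (nat_lit 1) (nat_lit 4) (nat_lit 364) (nat_lit 259) (nat_lit 157)) (XT.lf (nat_lit 0) (nat_lit 1073741823) (nat_lit 0) (nat_lit 0) (nat_lit 0) (nat_lit 0) (nat_lit 64) (nat_lit 0) (nat_lit 1) (nat_lit 0) (nat_lit 1) (nat_lit 0) (nat_lit 260) (nat_lit 260) (nat_lit 260)))) (XT.nd (nat_lit 156) (nat_lit 152) (nat_lit 0) (XT.nd (nat_lit 78) (nat_lit 0) (nat_lit 0) (XT.lf (nat_lit 0) (nat_lit 2860816978) (nat_lit 76) (nat_lit 3441782888) (nat_lit 0)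 (nat_lit 146636257) (nat_lit 63) (nat_lit 5) (nat_lit 64) (nat_lit 0) (nat_lit 63) (nat_lit 4) (nat_lit 261) (nat_lit 260) (nat_lit 259)) (XT.lf (nat_lit 0) (nat_lit 5668088746) (nat_lit 76) (nat_lit 372496301) (nat_lit 0) (nat_lit 440777727) (nat_lit 63) (nat_lit 5) (nat_lit 64) (nat_lit 0) (nat_lit 63) (nat_lit 4) (nat_lit 262) (nat_lit 260) (nat_lit 258))) (XT.nd (nat_lit 78) (nat_lit 0) (nat_lit 0) (XT.lf (nat_lit 0) (nat_lit 1876713769) (nat_lit 152) (nat_lit 3650718876) (nat_lit 76) (nat_lit 1002150026) (nat_lit 61) (nat_lit 5) (nat_lit 63) (nat_lit 5) (nat_lit 62) (nat_lit 4) (nat_lit 263) (nat_lit 260) (nat_lit 257)) (XT.lf (nat_lit 0) (nat_lit 4494387371) (nat_lit 152) (nat_lit 360561950) (nat_lit 76) (nat_lit 1746257987) (nat_lit 61) (nat_lit 5) (nat_lit 63) (nat_lit 5) (nat_lit 62) (nat_lit 4) (nat_lit 264) (nat_lit 260) (nat_lit 256))))))))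
noncomputable def xc49 : XT := (XT.nd (nat_lit 2184) (nat_lit 684) (nat_lit 0) (XT.nd (nat_lit 1092) (nat_lit 1140) (nat_lit 0) (XT.nd (nat_lit 546) (nat_lit 1216) (nat_lit 0) (XT.nd (nat_lit 234) (nat_lit 836) (nat_lit 0) (XT.nd (nat_lit 78) (nat_lit 228) (nat_lit 0) (XT.lf (nat_lit 0) (nat_lit 446739686) (nat_lit 228) (nat_lit 3508771749) (nat_lit 76) (nat_lit 2736435723) (nat_lit 58) (nat_lit 5) (nat_lit 61) (nat_lit 5) (nat_lit 59) (nat_lit 5) (nat_lit 265) (nat_lit 260) (nat_lit 255)) (XT.nd (nat_lit 78) (nat_lit 0) (nat_lit 0) (XT.lf (nat_lit 0) (nat_lit 21125008) (nat_lit 228) (nat_lit 2851608397) (nat_lit 304) (nat_lit 3931667233) (nat_lit 55) (nat_lit 5) (nat_lit 58) (nat_lit 5) (nat_lit 59) (nat_lit 5) (nat_lit 266) (nat_lit 260) (nat_lit 254)) (XT.lf (nat_lit 0) (nat_lit 3870468237) (nat_lit 228) (nat_lit 1502653332) (nat_lit 304) (nat_lit 1563590700) (nat_lit 55) (nat_lit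 5) (nat_lit 58) (nat_lit 5) (nat_lit 59) (nat_lit 5) (nat_lit 267) (nat_lit 260) (nat_lit 253)))) (XT.nd (nat_lit 156) (nat_lit 456) (nat_lit 0) (XT.nd (nat_lit 78) (nat_lit 0) (nat_lit 0) (XT.lf (nat_lit 0) (nat_lit 758600060) (nat_lit 380) (nat_lit 6292844683) (nat_lit 76) (nat_lit 42204127) (nat_lit 50) (nat_lit 5) (nat_lit 55) (nat_lit 5) (nat_lit 51) (nat_lit 5) (nat_lit 268) (nat_lit 260) (nat_lit 252)) (XT.lf (nat_lit 0) (nat_lit 3113489708) (nat_lit 380) (nat_lit 2362405286) (nat_lit 76) (nat_lit 1790506251) (nat_lit 50) (nat_lit 5) (nat_lit 55) (nat_lit 5) (nat_lit 51) (nat_lit 5) (nat_lit 269) (nat_lit 260) (nat_lit 251))) (XT.nd (nat_lit 78) (nat_lit 76) (nat_lit 0) (XT.lf (nat_lit 0) (nat_lit 1810298250) (nat_lit 380) (nat_lit 3710708200) (nat_lit 456) (nat_lit 1943774522) (nat_lit 45) (nat_lit 5) (nat_lit 50) (nat_lit 5) (nat_lit 51) (nat_lit 5) (nat_lit 270) (nat_lit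 260) (nat_lit 250)) (XT.lf (nat_lit 0) (nat_lit 311170040) (nat_lit 456) (nat_lit 1403643724) (nat_lit 76) (nat_lit 5972882443) (nat_lit 44) (nat_lit 5) (nat_lit 50) (nat_lit 5) (nat_lit 45) (nat_lit 5) (nat_lit 271) (nat_lit 260) (nat_lit 249))))) (XT.nd (nat_lit 234) (nat_lit 532) (nat_lit 0) (XT.nd (nat_lit 78) (nat_lit 228) (nat_lit 0) (XT.lf (nat_lit 0) (nat_lit 2568860137) (nat_lit 532) (nat_lit 4808522487) (nat_lit 76) (nat_lit 553584876) (nat_lit 38) (nat_lit 5) (nat_lit 45) (nat_lit 5) (nat_lit 39) (nat_lit 5) (nat_lit 272) (nat_lit 260) (nat_lit 248)) (XT.nd (nat_lit 78) (nat_lit 228) (nat_lit 0) (XT.lf (nat_lit 0) (nat_lit 4937357059) (nat_lit 532) (nat_lit 310949479) (nat_lit 76) (nat_lit 2951673993) (nat_lit 38) (nat_lit 5) (nat_lit 45) (nat_lit 5) (nat_lit 39) (nat_lit 5) (nat_lit 273) (nat_lit 260) (nat_lit 247)) (XT.lf (nat_lit 0) (nat_lit 4624790204) (nat_lit 228)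 (nat_lit 2839432861) (nat_lit 304) (nat_lit 1029424246) (nat_lit 35) (nat_lit 5) (nat_lit 38) (nat_lit 5) (nat_lit 39) (nat_lit 5) (nat_lit 274) (nat_lit 260) (nat_lit 246)))) (XT.nd (nat_lit 156) (nat_lit 228) (nat_lit 0) (XT.nd (nat_lit 78) (nat_lit 0) (nat_lit 0) (XT.lf (nat_lit 0) (nat_lit 1023673114) (nat_lit 228) (nat_lit 183482650) (nat_lit 304) (nat_lit 7610033501) (nat_lit 31) (nat_lit 5) (nat_lit 34) (nat_lit 5) (nat_lit 35) (nat_lit 5) (nat_lit 275) (nat_lit 260) (nat_lit 245)) (XT.lf (nat_lit 0) (nat_lit 3606849586) (nat_lit 304) (nat_lit 2888267077) (nat_lit 76) (nat_lit 2666685719) (nat_lit 31) (nat_lit 5) (nat_lit 35) (nat_lit 5) (nat_lit 32) (nat_lit 5) (nat_lit 276) (nat_lit 260) (nat_lit 244))) (XT.nd (nat_lit 78) (nat_lit 0) (nat_lit 0) (XT.lf (nat_lit 0) (nat_lit 2371716719) (nat_lit 228) (nat_lit 3765182930) (nat_lit 304) (nat_lit 3402487692) (nat_lit 28) (nat_lit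 5) (nat_lit 31) (nat_lit 5) (nat_lit 32) (nat_lit 5) (nat_lit 277) (nat_lit 260) (nat_lit 243)) (XT.lf (nat_lit 0) (nat_lit 8069032251) (nat_lit 228) (nat_lit 761456706) (nat_lit 304) (nat_lit 1120237517) (nat_lit 28) (nat_lit 5) (nat_lit 31) (nat_lit 5) (nat_lit 32) (nat_lit 5) (nat_lit 278) (nat_lit 260) (nat_lit 242)))))) (XT.nd (nat_lit 546) (nat_lit 380) (nat_lit 0) (XT.nd (nat_lit 234) (nat_lit 380) (nat_lit 0) (XT.nd (nat_lit 78) (nat_lit 152) (nat_lit 0) (XT.lf (nat_lit 0) (nat_lit 1319661656) (nat_lit 228) (nat_lit 6612514877) (nat_lit 76) (nat_lit 2457198413) (nat_lit 25) (nat_lit 5) (nat_lit 28) (nat_lit 5) (nat_lit 26) (nat_lit 5) (nat_lit 279) (nat_lit 260) (nat_lit 241)) (XT.nd (nat_lit 78) (nat_lit 152) (nat_lit 0) (XT.lf (nat_lit 0) (nat_lit 3858663002) (nat_lit 228) (nat_lit 1061714488) (nat_lit 76) (nat_lit 5943603321) (nat_lit 25) (nat_lit 5) (nat_lit 28) (nat_lit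 5) (nat_lit 26) (nat_lit 5) (nat_lit 280) (nat_lit 260) (nat_lit 240)) (XT.lf (nat_lit 0) (nat_lit 5049042059) (nat_lit 152) (nat_lit 1573050567) (nat_lit 228) (nat_lit 4753079953) (nat_lit 23) (nat_lit 5) (nat_lit 25) (nat_lit 5) (nat_lit 26) (nat_lit 5) (nat_lit 281) (nat_lit 260) (nat_lit 239)))) (XT.nd (nat_lit 156) (nat_lit 152) (nat_lit 0) (XT.nd (nat_lit 78) (nat_lit 228) (nat_lit 0) (XT.lf (nat_lit 0) (nat_lit 9588685095) (nat_lit 228) (nat_lit 406057945) (nat_lit 76) (nat_lit 1934247802) (nat_lit 23) (nat_lit 5) (nat_lit 26) (nat_lit 5) (nat_lit 24) (nat_lit 4) (nat_lit 282) (nat_lit 260) (nat_lit 238)) (XT.lf (nat_lit 0) (nat_lit 352990444) (nat_lit 228) (nat_lit 6405283366) (nat_lit 76) (nat_lit 5760523158) (nat_lit 20) (nat_lit 5) (nat_lit 23) (nat_lit 5) (nat_lit 21) (nat_lit 5) (nat_lit 283) (nat_lit 260) (nat_lit 237))) (XT.nd (nat_lit 78) (nat_lit 152) (nat_lit 0) (XT.lf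 (nat_lit 0) (nat_lit 3058185131) (nat_lit 228) (nat_lit 169742994) (nat_lit 76) (nat_lit 9929403462) (nat_lit 20) (nat_lit 5) (nat_lit 23) (nat_lit 5) (nat_lit 21) (nat_lit 5) (nat_lit 284) (nat_lit 260) (nat_lit 236)) (XT.lf (nat_lit 0) (nat_lit 6078289135) (nat_lit 228) (nat_lit 7075880506) (nat_lit 76) (nat_lit 685119043) (nat_lit 18) (nat_lit 5) (nat_lit 21) (nat_lit 5) (nat_lit 19) (nat_lit 4) (nat_lit 285) (nat_lit 260) (nat_lit 235))))) (XT.nd (nat_lit 234) (nat_lit 228) (nat_lit 0) (XT.nd (nat_lit 78) (nat_lit 152) (nat_lit 0) (XT.lf (nat_lit 0) (nat_lit 9348899868) (nat_lit 228) (nat_lit 522758368) (nat_lit 76) (nat_lit 4703635211) (nat_lit 18) (nat_lit 5) (nat_lit 21) (nat_lit 5) (nat_lit 19) (nat_lit 4) (nat_lit 286) (nat_lit 260) (nat_lit 234)) (XT.nd (nat_lit 78) (nat_lit 76) (nat_lit 0) (XT.lf (nat_lit 0) (nat_lit 6778683572) (nat_lit 76) (nat_lit 6191701998) (nat_lit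 152) (nat_lit 2392842866) (nat_lit 17) (nat_lit 5) (nat_lit 18) (nat_lit 5) (nat_lit 19) (nat_lit 4) (nat_lit 287) (nat_lit 260) (nat_lit 233)) (XT.lf (nat_lit 0) (nat_lit 575629384) (nat_lit 152) (nat_lit 1651628658) (nat_lit 76) (nat_lit 13990487394) (nat_lit 16) (nat_lit 5) (nat_lit 18) (nat_lit 5) (nat_lit 17) (nat_lit 5) (nat_lit 288) (nat_lit 260) (nat_lit 232)))) (XT.nd (nat_lit 156) (nat_lit 76) (nat_lit 0) (XT.nd (nat_lit 78) (nat_lit 0) (nat_lit 0) (XT.lf (nat_lit 0) (nat_lit 3781910168) (nat_lit 228) (nat_lit 11218900359) (nat_lit 76) (nat_lit 2124621802) (nat_lit 14) (nat_lit 5) (nat_lit 17) (nat_lit 5) (nat_lit 15) (nat_lit 4) (nat_lit 289) (nat_lit 260) (nat_lit 231)) (XT.lf (nat_lit 0) (nat_lit 7282780395) (nat_lit 228) (nat_lit 4107064704) (nat_lit 76) (nat_lit 6712980254) (nat_lit 14) (nat_lit 5) (nat_lit 17) (nat_lit 5) (nat_lit 15) (nat_lit 4) (nat_lit 290) (nat_lit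 260) (nat_lit 230))) (XT.nd (nat_lit 78) (nat_lit 0) (nat_lit 0) (XT.lf (nat_lit 0) (nat_lit 3655473426) (nat_lit 76) (nat_lit 7434961705) (nat_lit 152) (nat_lit 8065965403) (nat_lit 13) (nat_lit 5) (nat_lit 14) (nat_lit 5) (nat_lit 15) (nat_lit 4) (nat_lit 291) (nat_lit 260) (nat_lit 229)) (XT.lf (nat_lit 0) (nat_lit 12174040701) (nat_lit 76) (nat_lit 3081919883) (nat_lit 152) (nat_lit 5034158909) (nat_lit 13) (nat_lit 5) (nat_lit 14) (nat_lit 5) (nat_lit 15) (nat_lit 4) (nat_lit 292) (nat_lit 260) (nat_lit 228))))))) (XT.nd (nat_lit 1092) (nat_lit 228) (nat_lit 0) (XT.nd (nat_lit 546) (nat_lit 152) (nat_lit 0) (XT.nd (nat_lit 234) (nat_lit 152) (nat_lit 0) (XT.nd (nat_lit 78) (nat_lit 152) (nat_lit 0) (XT.lf (nat_lit 0) (nat_lit 19738130968) (nat_lit 152) (nat_lit 274237842) (nat_lit 0) (nat_lit 1503604588) (nat_lit 13) (nat_lit 5) (nat_lit 15) (nat_lit 4) (nat_lit 13) (nat_lit 4)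 (nat_lit 293) (nat_lit 260) (nat_lit 227)) (XT.nd (nat_lit 78) (nat_lit 0) (nat_lit 0) (XT.lf (nat_lit 0) (nat_lit 1889752308) (nat_lit 152) (nat_lit 14419523311) (nat_lit 76) (nat_lit 6508347109) (nat_lit 11) (nat_lit 5) (nat_lit 13) (nat_lit 5) (nat_lit 12) (nat_lit 4) (nat_lit 294) (nat_lit 260) (nat_lit 226)) (XT.lf (nat_lit 0) (nat_lit 5711340464) (nat_lit 152) (nat_lit 6577732661) (nat_lit 76) (nat_lit 11934192872) (nat_lit 11) (nat_lit 5) (nat_lit 13) (nat_lit 5) (nat_lit 12) (nat_lit 4) (nat_lit 295) (nat_lit 260) (nat_lit 225)))) (XT.nd (nat_lit 156) (nat_lit 76) (nat_lit 0) (XT.nd (nat_lit 78) (nat_lit 0) (nat_lit 0) (XT.lf (nat_lit 0) (nat_lit 1904860610) (nat_lit 76) (nat_lit 7932331639) (nat_lit 152) (nat_lit 15904366156) (nat_lit 10) (nat_lit 5) (nat_lit 11) (nat_lit 5) (nat_lit 12) (nat_lit 4) (nat_lit 296) (nat_lit 260) (nat_lit 224)) (XT.lf (nat_lit 0) (nat_lit 11360384987)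 (nat_lit 76) (nat_lit 3066882390) (nat_lit 152) (nat_lit 12943389044) (nat_lit 10) (nat_lit 5) (nat_lit 11) (nat_lit 5) (nat_lit 12) (nat_lit 4) (nat_lit 297) (nat_lit 260) (nat_lit 223))) (XT.nd (nat_lit 78) (nat_lit 76) (nat_lit 0) (XT.lf (nat_lit 0) (nat_lit 19394099523) (nat_lit 152) (nat_lit 7686892593) (nat_lit 0) (nat_lit 2048395184) (nat_lit 10) (nat_lit 5) (nat_lit 12) (nat_lit 4) (nat_lit 10) (nat_lit 4) (nat_lit 298) (nat_lit 260) (nat_lit 222)) (XT.lf (nat_lit 0) (nat_lit 1212475268) (nat_lit 76) (nat_lit 23614746662) (nat_lit 76) (nat_lit 6196143209) (nat_lit 9) (nat_lit 4) (nat_lit 10) (nat_lit 5) (nat_lit 10) (nat_lit 4) (nat_lit 299) (nat_lit 260) (nat_lit 221))))) (XT.nd (nat_lit 234) (nat_lit 76) (nat_lit 0) (XT.nd (nat_lit 78) (nat_lit 76) (nat_lit 0) (XT.lf (nat_lit 0) (nat_lit 11191872329) (nat_lit 76) (nat_lit 19674711778) (nat_lit 76) (nat_lit 2188609145) (nat_lit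 9) (nat_lit 4) (nat_lit 10) (nat_lit 5) (nat_lit 10) (nat_lit 4) (nat_lit 300) (nat_lit 260) (nat_lit 220)) (XT.nd (nat_lit 78) (nat_lit 0) (nat_lit 0) (XT.lf (nat_lit 0) (nat_lit 1995794496) (nat_lit 152) (nat_lit 13397349322) (nat_lit 76) (nat_lit 19855294559) (nat_lit 8) (nat_lit 5) (nat_lit 10) (nat_lit 5) (nat_lit 9) (nat_lit 4) (nat_lit 301) (nat_lit 260) (nat_lit 219)) (XT.lf (nat_lit 0) (nat_lit 6362722290) (nat_lit 152) (nat_lit 4372009177) (nat_lit 76) (nat_lit 26880629827) (nat_lit 8) (nat_lit 5) (nat_lit 10) (nat_lit 5) (nat_lit 9) (nat_lit 4) (nat_lit 302) (nat_lit 260) (nat_lit 218)))) (XT.nd (nat_lit 156) (nat_lit 0) (nat_lit 0) (XT.nd (nat_lit 78) (nat_lit 0) (nat_lit 0) (XT.lf (nat_lit 0) (nat_lit 5598898697) (nat_lit 76) (nat_lit 5583290372) (nat_lit 152) (nat_lit 28981237743) (nat_lit 7) (nat_lit 5) (nat_lit 8) (nat_lit 5) (nat_lit 9) (nat_lit 4) (nat_lit 303) (nat_lit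 260) (nat_lit 217)) (XT.lf (nat_lit 0) (nat_lit 16478326061) (nat_lit 152) (nat_lit 26349277924) (nat_lit 0) (nat_lit 80484876) (nat_lit 7) (nat_lit 5) (nat_lit 9) (nat_lit 4) (nat_lit 7) (nat_lit 4) (nat_lit 304) (nat_lit 260) (nat_lit 216))) (XT.nd (nat_lit 78) (nat_lit 0) (nat_lit 0) (XT.lf (nat_lit 0) (nat_lit 22314419079) (nat_lit 152) (nat_lit 17674598966) (nat_lit 0) (nat_lit 5874041960) (nat_lit 7) (nat_lit 5) (nat_lit 9) (nat_lit 4) (nat_lit 7) (nat_lit 4) (nat_lit 305) (nat_lit 260) (nat_lit 215)) (XT.lf (nat_lit 0) (nat_lit 28590774108) (nat_lit 152) (nat_lit 8354807467) (nat_lit 0) (nat_lit 12111011867) (nat_lit 7) (nat_lit 5) (nat_lit 9) (nat_lit 4) (nat_lit 7) (nat_lit 4) (nat_lit 306) (nat_lit 260) (nat_lit 214)))))) (XT.nd (nat_lit 546) (nat_lit 0) (nat_lit 0) (XT.nd (nat_lit 234) (nat_lit 152) (nat_lit 0) (XT.nd (nat_lit 78) (nat_lit 0) (nat_lit 0) (XT.lf (nat_lit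 0) (nat_lit 1753018025) (nat_lit 76) (nat_lit 33633726466) (nat_lit 76) (nat_lit 17117496517) (nat_lit 6) (nat_lit 4) (nat_lit 7) (nat_lit 5) (nat_lit 7) (nat_lit 4) (nat_lit 307) (nat_lit 260) (nat_lit 213)) (XT.nd (nat_lit 78) (nat_lit 0) (nat_lit 0) (XT.lf (nat_lit 0) (nat_lit 13100517852) (nat_lit 76) (nat_lit 29830422346) (nat_lit 76) (nat_lit 13280426002) (nat_lit 6) (nat_lit 4) (nat_lit 7) (nat_lit 5) (nat_lit 7) (nat_lit 4) (nat_lit 308) (nat_lit 260) (nat_lit 212)) (XT.lf (nat_lit 0) (nat_lit 25314987101) (nat_lit 76) (nat_lit 25741566360) (nat_lit 76) (nat_lit 9160304836) (nat_lit 6) (nat_lit 4) (nat_lit 7) (nat_lit 5) (nat_lit 7) (nat_lit 4) (nat_lit 309) (nat_lit 260) (nat_lit 211)))) (XT.nd (nat_lit 156) (nat_lit 76) (nat_lit 0) (XT.nd (nat_lit 78) (nat_lit 76) (nat_lit 0) (XT.lf (nat_lit 0) (nat_lit 38468807812) (nat_lit 76) (nat_lit 21342928251) (nat_lit 76) (nat_lit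 4732717485) (nat_lit 6) (nat_lit 4) (nat_lit 7) (nat_lit 5) (nat_lit 7) (nat_lit 4) (nat_lit 310) (nat_lit 260) (nat_lit 210)) (XT.lf (nat_lit 0) (nat_lit 27144236) (nat_lit 152) (nat_lit 16580555608) (nat_lit 76) (nat_lit 52612042145) (nat_lit 5) (nat_lit 5) (nat_lit 7) (nat_lit 5) (nat_lit 6) (nat_lit 4) (nat_lit 311) (nat_lit 260) (nat_lit 209))) (XT.nd (nat_lit 78) (nat_lit 76) (nat_lit 0) (XT.lf (nat_lit 0) (nat_lit 4894070414) (nat_lit 152) (nat_lit 6482168465) (nat_lit 76) (nat_lit 62884443362) (nat_lit 5) (nat_lit 5) (nat_lit 7) (nat_lit 5) (nat_lit 6) (nat_lit 4) (nat_lit 312) (nat_lit 260) (nat_lit 208)) (XT.lf (nat_lit 0) (nat_lit 4624517025) (nat_lit 76) (nat_lit 5620354510) (nat_lit 152) (nat_lit 69452483187) (nat_lit 4) (nat_lit 5) (nat_lit 5) (nat_lit 5) (nat_lit 6) (nat_lit 4) (nat_lit 313) (nat_lit 260) (nat_lit 207))))) (XT.nd (nat_lit 312) (nat_lit 0) (nat_lit 0)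 (XT.nd (nat_lit 156) (nat_lit 0) (nat_lit 0) (XT.nd (nat_lit 78) (nat_lit 0) (nat_lit 0) (XT.lf (nat_lit 0) (nat_lit 16203386253) (nat_lit 152) (nat_lit 68616439684) (nat_lit 0) (nat_lit 734780396) (nat_lit 4) (nat_lit 5) (nat_lit 6) (nat_lit 4) (nat_lit 4) (nat_lit 4) (nat_lit 314) (nat_lit 260) (nat_lit 206)) (XT.lf (nat_lit 0) (nat_lit 22769267444) (nat_lit 152) (nat_lit 61818313165) (nat_lit 0) (nat_lit 7282418654) (nat_lit 4) (nat_lit 5) (nat_lit 6) (nat_lit 4) (nat_lit 4) (nat_lit 4) (nat_lit 315) (nat_lit 260) (nat_lit 205))) (XT.nd (nat_lit 78) (nat_lit 0) (nat_lit 0) (XT.lf (nat_lit 0) (nat_lit 29846254370) (nat_lit 152) (nat_lit 54503003286) (nat_lit 0) (nat_lit 14342513977) (nat_lit 4) (nat_lit 5) (nat_lit 6) (nat_lit 4) (nat_lit 4) (nat_lit 4) (nat_lit 316) (nat_lit 260) (nat_lit 204)) (XT.lf (nat_lit 0) (nat_lit 37476284734) (nat_lit 152) (nat_lit 46627160062) (nat_lit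 0) (nat_lit 21956903966) (nat_lit 4) (nat_lit 5) (nat_lit 6) (nat_lit 4) (nat_lit 4) (nat_lit 4) (nat_lit 317) (nat_lit 260) (nat_lit 203)))) (XT.nd (nat_lit 156) (nat_lit 0) (nat_lit 0) (XT.nd (nat_lit 78) (nat_lit 0) (nat_lit 0) (XT.lf (nat_lit 0) (nat_lit 45704573529) (nat_lit 152) (nat_lit 38144111830) (nat_lit 0) (nat_lit 30170710933) (nat_lit 4) (nat_lit 5) (nat_lit 6) (nat_lit 4) (nat_lit 4) (nat_lit 4) (nat_lit 318) (nat_lit 260) (nat_lit 202)) (XT.lf (nat_lit 0) (nat_lit 54579880986) (nat_lit 152) (nat_lit 29003588674) (nat_lit 0) (nat_lit 39032609290) (nat_lit 4) (nat_lit 5) (nat_lit 6) (nat_lit 4) (nat_lit 4) (nat_lit 4) (nat_lit 319) (nat_lit 260) (nat_lit 201))) (XT.nd (nat_lit 78) (nat_lit 0) (nat_lit 0) (XT.lf (nat_lit 0) (nat_lit 64154801519) (nat_lit 152) (nat_lit 19151424531) (nat_lit 0) (nat_lit 48595113990) (nat_lit 4) (nat_lit 5) (nat_lit 6) (nat_lit 4) (nat_lit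 4) (nat_lit 4) (nat_lit 320) (nat_lit 260) (nat_lit 200)) (XT.lf (nat_lit 0) (nat_lit 74486075398) (nat_lit 152) (nat_lit 8529236206) (nat_lit 0) (nat_lit 58914891726) (nat_lit 4) (nat_lit 5) (nat_lit 6) (nat_lit 4) (nat_lit 4) (nat_lit 4) (nat_lit 321) (nat_lit 260) (nat_lit 199))))))))
noncomputable def xc50 : XT := (XT.nd (nat_lit 2184) (nat_lit 152) (nat_lit 0) (XT.nd (nat_lit 1092) (nat_lit 0) (nat_lit 0) (XT.nd (nat_lit 546) (nat_lit 0) (nat_lit 0) (XT.nd (nat_lit 234) (nat_lit 0) (nat_lit 0) (XT.nd (nat_lit 78) (nat_lit 0) (nat_lit 0) (XT.lf (nat_lit 0) (nat_lit 3079996500) (nat_lit 76) (nat_lit 82629002476) (nat_lit 76) (nat_lit 67047174228) (nat_lit 3) (nat_lit 4) (nat_lit 4) (nat_lit 5) (nat_lit 4) (nat_lit 4) (nat_lit 322) (nat_lit 260) (nat_lit 198)) (XT.nd (nat_lit 78) (nat_lit 0) (nat_lit 0) (XT.lf (nat_lit 0) (nat_lit 16086653894) (nat_lit 76) (nat_lit 81967648060) (nat_lit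 76) (nat_lit 66375963723) (nat_lit 3) (nat_lit 4) (nat_lit 4) (nat_lit 5) (nat_lit 4) (nat_lit 4) (nat_lit 323) (nat_lit 260) (nat_lit 197)) (XT.lf (nat_lit 0) (nat_lit 30118677999) (nat_lit 76) (nat_lit 81260533652) (nat_lit 76) (nat_lit 65659723308) (nat_lit 3) (nat_lit 4) (nat_lit 4) (nat_lit 5) (nat_lit 4) (nat_lit 4) (nat_lit 324) (nat_lit 260) (nat_lit 196)))) (XT.nd (nat_lit 156) (nat_lit 0) (nat_lit 0) (XT.nd (nat_lit 78) (nat_lit 0) (nat_lit 0) (XT.lf (nat_lit 0) (nat_lit 45259221551) (nat_lit 76) (nat_lit 80503468946) (nat_lit 76) (nat_lit 64894208594) (nat_lit 3) (nat_lit 4) (nat_lit 4) (nat_lit 5) (nat_lit 4) (nat_lit 4) (nat_lit 325) (nat_lit 260) (nat_lit 195)) (XT.lf (nat_lit 0) (nat_lit 61598006290) (nat_lit 76) (nat_lit 79691967631) (nat_lit 76) (nat_lit 64074883198) (nat_lit 3) (nat_lit 4) (nat_lit 4) (nat_lit 5) (nat_lit 4) (nat_lit 4) (nat_lit 326) (nat_lit 260)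 (nat_lit 194))) (XT.nd (nat_lit 78) (nat_lit 0) (nat_lit 0) (XT.lf (nat_lit 0) (nat_lit 79231854644) (nat_lit 76) (nat_lit 78821220812) (nat_lit 76) (nat_lit 63196891858) (nat_lit 3) (nat_lit 4) (nat_lit 4) (nat_lit 5) (nat_lit 4) (nat_lit 4) (nat_lit 327) (nat_lit 260) (nat_lit 193)) (XT.lf (nat_lit 0) (nat_lit 98265263491) (nat_lit 76) (nat_lit 77886068506) (nat_lit 76) (nat_lit 62255031664) (nat_lit 3) (nat_lit 4) (nat_lit 4) (nat_lit 5) (nat_lit 4) (nat_lit 4) (nat_lit 328) (nat_lit 260) (nat_lit 192))))) (XT.nd (nat_lit 234) (nat_lit 0) (nat_lit 0) (XT.nd (nat_lit 78) (nat_lit 0) (nat_lit 0) (XT.lf (nat_lit 0) (nat_lit 118811023402) (nat_lit 76) (nat_lit 76880969070) (nat_lit 76) (nat_lit 61243721221) (nat_lit 3) (nat_lit 4) (nat_lit 4) (nat_lit 5) (nat_lit 4) (nat_lit 4) (nat_lit 329) (nat_lit 260) (nat_lit 191)) (XT.nd (nat_lit 78) (nat_lit 0) (nat_lit 0) (XT.lf (nat_lit 0)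 (nat_lit 140990887030) (nat_lit 76) (nat_lit 75799966360) (nat_lit 76) (nat_lit 60156967578) (nat_lit 3) (nat_lit 4) (nat_lit 4) (nat_lit 5) (nat_lit 4) (nat_lit 4) (nat_lit 330) (nat_lit 260) (nat_lit 190)) (XT.lf (nat_lit 0) (nat_lit 164936290602) (nat_lit 76) (nat_lit 74636654434) (nat_lit 76) (nat_lit 58988330713) (nat_lit 3) (nat_lit 4) (nat_lit 4) (nat_lit 5) (nat_lit 4) (nat_lit 4) (nat_lit 331) (nat_lit 260) (nat_lit 189)))) (XT.nd (nat_lit 156) (nat_lit 0) (nat_lit 0) (XT.nd (nat_lit 78) (nat_lit 0) (nat_lit 0) (XT.lf (nat_lit 0) (nat_lit 190789132808) (nat_lit 76) (nat_lit 73384139592) (nat_lit 76) (nat_lit 57730885372) (nat_lit 3) (nat_lit 4) (nat_lit 4) (nat_lit 5) (nat_lit 4) (nat_lit 4) (nat_lit 332) (nat_lit 260) (nat_lit 188)) (XT.lf (nat_lit 0) (nat_lit 218702615673) (nat_lit 76) (nat_lit 72034999522) (nat_lit 76) (nat_lit 56377180027) (nat_lit 3) (nat_lit 4) (nat_lit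 4) (nat_lit 5) (nat_lit 4) (nat_lit 4) (nat_lit 333) (nat_lit 260) (nat_lit 187))) (XT.nd (nat_lit 78) (nat_lit 0) (nat_lit 0) (XT.lf (nat_lit 0) (nat_lit 248842152432) (nat_lit 76) (nat_lit 70581239322) (nat_lit 76) (nat_lit 54919192719) (nat_lit 3) (nat_lit 4) (nat_lit 4) (nat_lit 5) (nat_lit 4) (nat_lit 4) (nat_lit 334) (nat_lit 260) (nat_lit 186)) (XT.lf (nat_lit 0) (nat_lit 281386347745) (nat_lit 76) (nat_lit 69014244115) (nat_lit 76) (nat_lit 53348283524) (nat_lit 3) (nat_lit 4) (nat_lit 4) (nat_lit 5) (nat_lit 4) (nat_lit 4) (nat_lit 335) (nat_lit 260) (nat_lit 185)))))) (XT.nd (nat_lit 546) (nat_lit 0) (nat_lit 0) (XT.nd (nat_lit 234) (nat_lit 0) (nat_lit 0) (XT.nd (nat_lit 78) (nat_lit 0) (nat_lit 0) (XT.lf (nat_lit 0) (nat_lit 316528056103) (nat_lit 76) (nat_lit 67324728005) (nat_lit 76) (nat_lit 51655143350) (nat_lit 3) (nat_lit 4) (nat_lit 4) (nat_lit 5) (nat_lit 4) (nat_lit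 4) (nat_lit 336) (nat_lit 260) (nat_lit 184)) (XT.nd (nat_lit 78) (nat_lit 0) (nat_lit 0) (XT.lf (nat_lit 0) (nat_lit 354475524667) (nat_lit 76) (nat_lit 65502679044) (nat_lit 76) (nat_lit 49829738775) (nat_lit 3) (nat_lit 4) (nat_lit 4) (nat_lit 5) (nat_lit 4) (nat_lit 4) (nat_lit 337) (nat_lit 260) (nat_lit 183)) (XT.lf (nat_lit 0) (nat_lit 395453627326) (nat_lit 76) (nat_lit 63537299905) (nat_lit 76) (nat_lit 47861252585) (nat_lit 3) (nat_lit 4) (nat_lit 4) (nat_lit 5) (nat_lit 4) (nat_lit 4) (nat_lit 338) (nat_lit 260) (nat_lit 182)))) (XT.nd (nat_lit 156) (nat_lit 0) (nat_lit 0) (XT.nd (nat_lit 78) (nat_lit 0) (nat_lit 0) (XT.lf (nat_lit 0) (nat_lit 439705197279) (nat_lit 76) (nat_lit 61416943896) (nat_lit 76) (nat_lit 45738019678) (nat_lit 3) (nat_lit 4) (nat_lit 4) (nat_lit 5) (nat_lit 4) (nat_lit 4) (nat_lit 339) (nat_lit 260) (nat_lit 181)) (XT.lf (nat_lit 0) (nat_lit 487492466052)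 (nat_lit 76) (nat_lit 59129045945) (nat_lit 76) (nat_lit 43447457933) (nat_lit 3) (nat_lit 4) (nat_lit 4) (nat_lit 5) (nat_lit 4) (nat_lit 4) (nat_lit 340) (nat_lit 260) (nat_lit 180))) (XT.nd (nat_lit 78) (nat_lit 0) (nat_lit 0) (XT.lf (nat_lit 0) (nat_lit 539098617461) (nat_lit 76) (nat_lit 56660048139) (nat_lit 76) (nat_lit 40975993650) (nat_lit 3) (nat_lit 4) (nat_lit 4) (nat_lit 5) (nat_lit 4) (nat_lit 4) (nat_lit 341) (nat_lit 260) (nat_lit 179)) (XT.lf (nat_lit 0) (nat_lit 594829465736) (nat_lit 76) (nat_lit 53995319378) (nat_lit 76) (nat_lit 38308981115) (nat_lit 3) (nat_lit 4) (nat_lit 4) (nat_lit 5) (nat_lit 4) (nat_lit 4) (nat_lit 342) (nat_lit 260) (nat_lit 178))))) (XT.nd (nat_lit 234) (nat_lit 0) (nat_lit 0) (XT.nd (nat_lit 78) (nat_lit 0) (nat_lit 0) (XT.lf (nat_lit 0) (nat_lit 655015267755) (nat_lit 76) (nat_lit 51119068679) (nat_lit 76) (nat_lit 35430615809) (nat_lit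 3) (nat_lit 4) (nat_lit 4) (nat_lit 5) (nat_lit 4) (nat_lit 4) (nat_lit 343) (nat_lit 260) (nat_lit 177)) (XT.nd (nat_lit 78) (nat_lit 0) (nat_lit 0) (XT.lf (nat_lit 0) (nat_lit 720012680124) (nat_lit 76) (nat_lit 48014251592) (nat_lit 76) (nat_lit 32323840753) (nat_lit 3) (nat_lit 4) (nat_lit 4) (nat_lit 5) (nat_lit 4) (nat_lit 4) (nat_lit 344) (nat_lit 260) (nat_lit 176)) (XT.lf (nat_lit 0) (nat_lit 790206872693) (nat_lit 76) (nat_lit 44662469200) (nat_lit 76) (nat_lit 28970245428) (nat_lit 3) (nat_lit 4) (nat_lit 4) (nat_lit 5) (nat_lit 4) (nat_lit 4) (nat_lit 345) (nat_lit 260) (nat_lit 175)))) (XT.nd (nat_lit 156) (nat_lit 0) (nat_lit 0) (XT.nd (nat_lit 78) (nat_lit 0) (nat_lit 0) (XT.lf (nat_lit 0) (nat_lit 866013811047) (nat_lit 76) (nat_lit 41043859091) (nat_lit 76) (nat_lit 25349956676) (nat_lit 3) (nat_lit 4) (nat_lit 4) (nat_lit 5) (nat_lit 4) (nat_lit 4) (nat_lit 346) (nat_lit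 260) (nat_lit 174)) (XT.lf (nat_lit 0) (nat_lit 947882721489) (nat_lit 76) (nat_lit 37136977649) (nat_lit 76) (nat_lit 21441520935) (nat_lit 3) (nat_lit 4) (nat_lit 4) (nat_lit 5) (nat_lit 4) (nat_lit 4) (nat_lit 347) (nat_lit 260) (nat_lit 173))) (XT.nd (nat_lit 78) (nat_lit 0) (nat_lit 0) (XT.lf (nat_lit 0) (nat_lit 1036298753117) (nat_lit 76) (nat_lit 32918672983) (nat_lit 76) (nat_lit 17221777104) (nat_lit 3) (nat_lit 4) (nat_lit 4) (nat_lit 5) (nat_lit 4) (nat_lit 4) (nat_lit 348) (nat_lit 260) (nat_lit 172)) (XT.lf (nat_lit 0) (nat_lit 1131785852786) (nat_lit 76) (nat_lit 28363947733) (nat_lit 76) (nat_lit 12665719293) (nat_lit 3) (nat_lit 4) (nat_lit 4) (nat_lit 5) (nat_lit 4) (nat_lit 4) (nat_lit 349) (nat_lit 260) (nat_lit 171))))))) (XT.nd (nat_lit 1092) (nat_lit 0) (nat_lit 0) (XT.nd (nat_lit 546) (nat_lit 0) (nat_lit 0) (XT.nd (nat_lit 234) (nat_lit 76) (nat_lit 0) (XT.nd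 (nat_lit 78) (nat_lit 76) (nat_lit 0) (XT.lf (nat_lit 0) (nat_lit 1234909869974) (nat_lit 76) (nat_lit 23445810933) (nat_lit 76) (nat_lit 7746348641) (nat_lit 3) (nat_lit 4) (nat_lit 4) (nat_lit 5) (nat_lit 4) (nat_lit 4) (nat_lit 350) (nat_lit 260) (nat_lit 170)) (XT.nd (nat_lit 78) (nat_lit 76) (nat_lit 0) (XT.lf (nat_lit 0) (nat_lit 1346281909968) (nat_lit 76) (nat_lit 18135118071) (nat_lit 76) (nat_lit 2434513322) (nat_lit 3) (nat_lit 4) (nat_lit 4) (nat_lit 5) (nat_lit 4) (nat_lit 4) (nat_lit 351) (nat_lit 260) (nat_lit 169)) (XT.lf (nat_lit 0) (nat_lit 3136121599) (nat_lit 152) (nat_lit 9178529651) (nat_lit 76) (nat_lit 1463340086507) (nat_lit 2) (nat_lit 5) (nat_lit 4) (nat_lit 5) (nat_lit 3) (nat_lit 4) (nat_lit 352) (nat_lit 260) (nat_lit 168)))) (XT.nd (nat_lit 156) (nat_lit 0) (nat_lit 0) (XT.nd (nat_lit 78) (nat_lit 0) (nat_lit 0) (XT.lf (nat_lit 0) (nat_lit 3220030016)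 (nat_lit 76) (nat_lit 5877408476) (nat_lit 152) (nat_lit 1584053568788) (nat_lit 1) (nat_lit 5) (nat_lit 2) (nat_lit 5) (nat_lit 3) (nat_lit 4) (nat_lit 353) (nat_lit 260) (nat_lit 167)) (XT.lf (nat_lit 0) (nat_lit 15818109553) (nat_lit 152) (nat_lit 1702928487211) (nat_lit 0) (nat_lit 1277786434) (nat_lit 1) (nat_lit 5) (nat_lit 3) (nat_lit 4) (nat_lit 1) (nat_lit 4) (nat_lit 354) (nat_lit 260) (nat_lit 166))) (XT.nd (nat_lit 78) (nat_lit 0) (nat_lit 0) (XT.lf (nat_lit 0) (nat_lit 23228283037) (nat_lit 152) (nat_lit 1825120016554) (nat_lit 0) (nat_lit 8687182382) (nat_lit 1) (nat_lit 5) (nat_lit 3) (nat_lit 4) (nat_lit 1) (nat_lit 4) (nat_lit 355) (nat_lit 260) (nat_lit 165)) (XT.lf (nat_lit 0) (nat_lit 31230519270) (nat_lit 152) (nat_lit 1957088311428) (nat_lit 0) (nat_lit 16688698674) (nat_lit 1) (nat_lit 5) (nat_lit 3) (nat_lit 4) (nat_lit 1) (nat_lit 4) (nat_lit 356) (nat_lit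 260) (nat_lit 164))))) (XT.nd (nat_lit 234) (nat_lit 0) (nat_lit 0) (XT.nd (nat_lit 78) (nat_lit 0) (nat_lit 0) (XT.lf (nat_lit 0) (nat_lit 39872238910) (nat_lit 152) (nat_lit 2099615406175) (nat_lit 0) (nat_lit 25329751702) (nat_lit 1) (nat_lit 5) (nat_lit 3) (nat_lit 4) (nat_lit 1) (nat_lit 4) (nat_lit 357) (nat_lit 260) (nat_lit 163)) (XT.nd (nat_lit 78) (nat_lit 0) (nat_lit 0) (XT.lf (nat_lit 0) (nat_lit 49204652148) (nat_lit 152) (nat_lit 2253545905800) (nat_lit 0) (nat_lit 34661547707) (nat_lit 1) (nat_lit 5) (nat_lit 3) (nat_lit 4) (nat_lit 1) (nat_lit 4) (nat_lit 358) (nat_lit 260) (nat_lit 162)) (XT.lf (nat_lit 0) (nat_lit 59283062174) (nat_lit 152) (nat_lit 2419791991042) (nat_lit 0) (nat_lit 44739386220) (nat_lit 1) (nat_lit 5) (nat_lit 3) (nat_lit 4) (nat_lit 1) (nat_lit 4) (nat_lit 359) (nat_lit 260) (nat_lit 161)))) (XT.nd (nat_lit 156) (nat_lit 0) (nat_lit 0) (XT.nd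 (nat_lit 78) (nat_lit 0) (nat_lit 0) (XT.lf (nat_lit 0) (nat_lit 70167192898) (nat_lit 152) (nat_lit 2599338823887) (nat_lit 0) (nat_lit 55622987766) (nat_lit 1) (nat_lit 5) (nat_lit 3) (nat_lit 4) (nat_lit 1) (nat_lit 4) (nat_lit 360) (nat_lit 260) (nat_lit 160)) (XT.lf (nat_lit 0) (nat_lit 81921542874) (nat_lit 152) (nat_lit 2793250385567) (nat_lit 0) (nat_lit 67376847762) (nat_lit 1) (nat_lit 5) (nat_lit 3) (nat_lit 4) (nat_lit 1) (nat_lit 4) (nat_lit 361) (nat_lit 260) (nat_lit 159))) (XT.nd (nat_lit 78) (nat_lit 0) (nat_lit 0) (XT.lf (nat_lit 0) (nat_lit 94615767508) (nat_lit 152) (nat_lit 3002675781633) (nat_lit 0) (nat_lit 80070618711) (nat_lit 1) (nat_lit 5) (nat_lit 3) (nat_lit 4) (nat_lit 1) (nat_lit 4) (nat_lit 362) (nat_lit 260) (nat_lit 158)) (XT.lf (nat_lit 0) (nat_lit 108325091835) (nat_lit 152) (nat_lit 3228856051468) (nat_lit 0) (nat_lit 93779522960) (nat_lit 1) (nat_lit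 5) (nat_lit 3) (nat_lit 4) (nat_lit 1) (nat_lit 4) (nat_lit 363) (nat_lit 260) (nat_lit 157)))))) (XT.nd (nat_lit 33072) (nat_lit 0) (nat_lit 2812) (XT.nd (nat_lit 32760) (nat_lit 0) (nat_lit 4332) (XT.nd (nat_lit 32604) (nat_lit 0) (nat_lit 4484) (XT.lf (nat_lit 0) (nat_lit 123130756297) (nat_lit 152) (nat_lit 3473131522599) (nat_lit 0) (nat_lit 108584798460) (nat_lit 1) (nat_lit 5) (nat_lit 3) (nat_lit 4) (nat_lit 1) (nat_lit 4) (nat_lit 364) (nat_lit 260) (nat_lit 156)) (XT.nd (nat_lit 78) (nat_lit 228) (nat_lit 0) (XT.lf (nat_lit 0) (nat_lit 1394195616) (nat_lit 0) (nat_lit 1394195616) (nat_lit 76) (nat_lit 445943722) (nat_lit 63) (nat_lit 5) (nat_lit 63) (nat_lit 3) (nat_lit 64) (nat_lit 0) (nat_lit 261) (nat_lit 261) (nat_lit 258)) (XT.lf (nat_lit 0) (nat_lit 1649924423) (nat_lit 228) (nat_lit 720100961) (nat_lit 228) (nat_lit 4139186986) (nat_lit 60) (nat_lit 3) (nat_lit 63)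 (nat_lit 3) (nat_lit 63) (nat_lit 5) (nat_lit 262) (nat_lit 261) (nat_lit 257)))) (XT.nd (nat_lit 156) (nat_lit 152) (nat_lit 0) (XT.nd (nat_lit 78) (nat_lit 0) (nat_lit 0) (XT.lf (nat_lit 76) (nat_lit 2438067097) (nat_lit 0) (nat_lit 1714234191) (nat_lit 228) (nat_lit 2416162300) (nat_lit 61) (nat_lit 5) (nat_lit 60) (nat_lit 3) (nat_lit 63) (nat_lit 5) (nat_lit 263) (nat_lit 261) (nat_lit 256)) (XT.lf (nat_lit 76) (nat_lit 5755705473) (nat_lit 0) (nat_lit 881153068) (nat_lit 228) (nat_lit 14658479) (nat_lit 61) (nat_lit 5) (nat_lit 60) (nat_lit 3) (nat_lit 63) (nat_lit 5) (nat_lit 264) (nat_lit 261) (nat_lit 255))) (XT.nd (nat_lit 78) (nat_lit 0) (nat_lit 0) (XT.lf (nat_lit 0) (nat_lit 2289220435) (nat_lit 228) (nat_lit 4232523608) (nat_lit 76) (nat_lit 228757577) (nat_lit 58) (nat_lit 5) (nat_lit 61) (nat_lit 5) (nat_lit 59) (nat_lit 5) (nat_lit 265) (nat_lit 261) (nat_lit 254))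 (XT.lf (nat_lit 0) (nat_lit 4612920930) (nat_lit 228) (nat_lit 777896930) (nat_lit 76) (nat_lit 1480939481) (nat_lit 58) (nat_lit 5) (nat_lit 61) (nat_lit 5) (nat_lit 59) (nat_lit 5) (nat_lit 266) (nat_lit 261) (nat_lit 253))))) (XT.nd (nat_lit 234) (nat_lit 912) (nat_lit 0) (XT.nd (nat_lit 78) (nat_lit 380) (nat_lit 0) (XT.lf (nat_lit 0) (nat_lit 2958149122) (nat_lit 228) (nat_lit 4039481208) (nat_lit 304) (nat_lit 16265891) (nat_lit 55) (nat_lit 5) (nat_lit 58) (nat_lit 5) (nat_lit 59) (nat_lit 5) (nat_lit 267) (nat_lit 261) (nat_lit 252)) (XT.nd (nat_lit 78) (nat_lit 304) (nat_lit 0) (XT.lf (nat_lit 0) (nat_lit 2116478271) (nat_lit 304) (nat_lit 337171041) (nat_lit 76) (nat_lit 4723661116) (nat_lit 54) (nat_lit 5) (nat_lit 58) (nat_lit 5) (nat_lit 55) (nat_lit 5) (nat_lit 268) (nat_lit 261) (nat_lit 251)) (XT.lf (nat_lit 0) (nat_lit 3725602143) (nat_lit 304) (nat_lit 606378390)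 (nat_lit 380) (nat_lit 3029688085) (nat_lit 50) (nat_lit 5) (nat_lit 54) (nat_lit 5) (nat_lit 55) (nat_lit 5) (nat_lit 269) (nat_lit 261) (nat_lit 250)))) (XT.nd (nat_lit 156) (nat_lit 456) (nat_lit 0) (XT.nd (nat_lit 78) (nat_lit 76) (nat_lit 0) (XT.lf (nat_lit 0) (nat_lit 408664994) (nat_lit 380) (nat_lit 6202722158) (nat_lit 456) (nat_lit 959331135) (nat_lit 45) (nat_lit 5) (nat_lit 50) (nat_lit 5) (nat_lit 51) (nat_lit 5) (nat_lit 270) (nat_lit 261) (nat_lit 249)) (XT.lf (nat_lit 0) (nat_lit 1168430358) (nat_lit 456) (nat_lit 3009961455) (nat_lit 76) (nat_lit 3619943671) (nat_lit 44) (nat_lit 5) (nat_lit 50) (nat_lit 5) (nat_lit 45) (nat_lit 5) (nat_lit 271) (nat_lit 261) (nat_lit 248))) (XT.nd (nat_lit 78) (nat_lit 0) (nat_lit 0) (XT.lf (nat_lit 0) (nat_lit 1373506696) (nat_lit 456) (nat_lit 1924008827) (nat_lit 532) (nat_lit 4754713958) (nat_lit 38) (nat_lit 5) (nat_lit 44) (nat_lit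 5) (nat_lit 45) (nat_lit 5) (nat_lit 272) (nat_lit 261) (nat_lit 247)) (XT.lf (nat_lit 0) (nat_lit 5551308744) (nat_lit 532) (nat_lit 2208430156) (nat_lit 76) (nat_lit 570989453) (nat_lit 38) (nat_lit 5) (nat_lit 45) (nat_lit 5) (nat_lit 39) (nat_lit 5) (nat_lit 273) (nat_lit 261) (nat_lit 246))))))))
noncomputable def xc51 : XT := (XT.nd (nat_lit 2184) (nat_lit 456) (nat_lit 0) (XT.nd (nat_lit 1092) (nat_lit 608) (nat_lit 0) (XT.nd (nat_lit 546) (nat_lit 608) (nat_lit 0) (XT.nd (nat_lit 234) (nat_lit 456) (nat_lit 0) (XT.nd (nat_lit 78) (nat_lit 304) (nat_lit 0) (XT.lf (nat_lit 0) (nat_lit 2555700817) (nat_lit 228) (nat_lit 5409350023) (nat_lit 304) (nat_lit 668680822) (nat_lit 35) (nat_lit 5) (nat_lit 38) (nat_lit 5) (nat_lit 39) (nat_lit 5) (nat_lit 274) (nat_lit 261) (nat_lit 245)) (XT.nd (nat_lit 78) (nat_lit 228) (nat_lit 0) (XT.lf (nat_lit 0) (nat_lit 1463151330) (nat_lit 304)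 (nat_lit 1315279991) (nat_lit 76) (nat_lit 6185330114) (nat_lit 34) (nat_lit 5) (nat_lit 38) (nat_lit 5) (nat_lit 35) (nat_lit 5) (nat_lit 275) (nat_lit 261) (nat_lit 244)) (XT.lf (nat_lit 0) (nat_lit 3706934567) (nat_lit 304) (nat_lit 5455309546) (nat_lit 76) (nat_lit 158830811) (nat_lit 31) (nat_lit 5) (nat_lit 35) (nat_lit 5) (nat_lit 32) (nat_lit 5) (nat_lit 276) (nat_lit 261) (nat_lit 243)))) (XT.nd (nat_lit 156) (nat_lit 228) (nat_lit 0) (XT.nd (nat_lit 78) (nat_lit 228) (nat_lit 0) (XT.lf (nat_lit 0) (nat_lit 6125001370) (nat_lit 304) (nat_lit 381437595) (nat_lit 76) (nat_lit 3201390248) (nat_lit 31) (nat_lit 5) (nat_lit 35) (nat_lit 5) (nat_lit 32) (nat_lit 5) (nat_lit 277) (nat_lit 261) (nat_lit 242)) (XT.lf (nat_lit 0) (nat_lit 5230031212) (nat_lit 228) (nat_lit 3526447733) (nat_lit 304) (nat_lit 1367853407) (nat_lit 28) (nat_lit 5) (nat_lit 31) (nat_lit 5) (nat_lit 32) (nat_lit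 5) (nat_lit 278) (nat_lit 261) (nat_lit 241))) (XT.nd (nat_lit 78) (nat_lit 0) (nat_lit 0) (XT.lf (nat_lit 0) (nat_lit 612023716) (nat_lit 152) (nat_lit 282468423) (nat_lit 228) (nat_lit 9684327566) (nat_lit 25) (nat_lit 5) (nat_lit 27) (nat_lit 5) (nat_lit 28) (nat_lit 5) (nat_lit 279) (nat_lit 261) (nat_lit 240)) (XT.lf (nat_lit 0) (nat_lit 3378564820) (nat_lit 228) (nat_lit 4474914442) (nat_lit 76) (nat_lit 3204495453) (nat_lit 25) (nat_lit 5) (nat_lit 28) (nat_lit 5) (nat_lit 26) (nat_lit 5) (nat_lit 280) (nat_lit 261) (nat_lit 239))))) (XT.nd (nat_lit 234) (nat_lit 304) (nat_lit 0) (XT.nd (nat_lit 78) (nat_lit 152) (nat_lit 0) (XT.lf (nat_lit 0) (nat_lit 1392060432) (nat_lit 152) (nat_lit 4617413800) (nat_lit 228) (nat_lit 5570437248) (nat_lit 23) (nat_lit 5) (nat_lit 25) (nat_lit 5) (nat_lit 26) (nat_lit 5) (nat_lit 281) (nat_lit 261) (nat_lit 238)) (XT.nd (nat_lit 78) (nat_lit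 152) (nat_lit 0) (XT.lf (nat_lit 0) (nat_lit 7859532761) (nat_lit 152) (nat_lit 1024871114) (nat_lit 228) (nat_lit 3256791651) (nat_lit 23) (nat_lit 5) (nat_lit 25) (nat_lit 5) (nat_lit 26) (nat_lit 5) (nat_lit 282) (nat_lit 261) (nat_lit 237)) (XT.lf (nat_lit 0) (nat_lit 2008551753) (nat_lit 152) (nat_lit 10014750645) (nat_lit 228) (nat_lit 721617622) (nat_lit 21) (nat_lit 5) (nat_lit 23) (nat_lit 5) (nat_lit 24) (nat_lit 4) (nat_lit 283) (nat_lit 261) (nat_lit 236)))) (XT.nd (nat_lit 156) (nat_lit 76) (nat_lit 0) (XT.nd (nat_lit 78) (nat_lit 152) (nat_lit 0) (XT.lf (nat_lit 0) (nat_lit 1980270643) (nat_lit 228) (nat_lit 4542016338) (nat_lit 76) (nat_lit 6865813812) (nat_lit 20) (nat_lit 5) (nat_lit 23) (nat_lit 5) (nat_lit 21) (nat_lit 5) (nat_lit 284) (nat_lit 261) (nat_lit 235)) (XT.lf (nat_lit 0) (nat_lit 2122569785) (nat_lit 152) (nat_lit 2711911494) (nat_lit 228) (nat_lit 9248945662)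 (nat_lit 18) (nat_lit 5) (nat_lit 20) (nat_lit 5) (nat_lit 21) (nat_lit 5) (nat_lit 285) (nat_lit 261) (nat_lit 234))) (XT.nd (nat_lit 78) (nat_lit 76) (nat_lit 0) (XT.lf (nat_lit 0) (nat_lit 8004389037) (nat_lit 228) (nat_lit 5397815008) (nat_lit 76) (nat_lit 1425374250) (nat_lit 18) (nat_lit 5) (nat_lit 21) (nat_lit 5) (nat_lit 19) (nat_lit 4) (nat_lit 286) (nat_lit 261) (nat_lit 233)) (XT.lf (nat_lit 0) (nat_lit 1593013600) (nat_lit 76) (nat_lit 9875292467) (nat_lit 152) (nat_lit 4159896371) (nat_lit 17) (nat_lit 5) (nat_lit 18) (nat_lit 5) (nat_lit 19) (nat_lit 4) (nat_lit 287) (nat_lit 261) (nat_lit 232)))))) (XT.nd (nat_lit 546) (nat_lit 228) (nat_lit 0) (XT.nd (nat_lit 234) (nat_lit 152) (nat_lit 0) (XT.nd (nat_lit 78) (nat_lit 228) (nat_lit 0) (XT.lf (nat_lit 0) (nat_lit 9346276749) (nat_lit 76) (nat_lit 5944876102) (nat_lit 152) (nat_lit 1195339476) (nat_lit 17) (nat_lit 5)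 (nat_lit 18) (nat_lit 5) (nat_lit 19) (nat_lit 4) (nat_lit 288) (nat_lit 261) (nat_lit 231)) (XT.nd (nat_lit 78) (nat_lit 0) (nat_lit 0) (XT.lf (nat_lit 0) (nat_lit 166894467) (nat_lit 152) (nat_lit 1680512857) (nat_lit 228) (nat_lit 15567004522) (nat_lit 14) (nat_lit 5) (nat_lit 16) (nat_lit 5) (nat_lit 17) (nat_lit 5) (nat_lit 289) (nat_lit 261) (nat_lit 230)) (XT.lf (nat_lit 0) (nat_lit 5278438421) (nat_lit 228) (nat_lit 10143873985) (nat_lit 76) (nat_lit 2975141087) (nat_lit 14) (nat_lit 5) (nat_lit 17) (nat_lit 5) (nat_lit 15) (nat_lit 4) (nat_lit 290) (nat_lit 261) (nat_lit 229)))) (XT.nd (nat_lit 156) (nat_lit 76) (nat_lit 0) (XT.nd (nat_lit 78) (nat_lit 76) (nat_lit 0) (XT.lf (nat_lit 0) (nat_lit 8970935641) (nat_lit 228) (nat_lit 2609205434) (nat_lit 76) (nat_lit 7880157138) (nat_lit 14) (nat_lit 5) (nat_lit 17) (nat_lit 5) (nat_lit 15) (nat_lit 4) (nat_lit 291) (nat_lit 261)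 (nat_lit 228)) (XT.lf (nat_lit 0) (nat_lit 5728097153) (nat_lit 76) (nat_lit 7316027796) (nat_lit 152) (nat_lit 7557331835) (nat_lit 13) (nat_lit 5) (nat_lit 14) (nat_lit 5) (nat_lit 15) (nat_lit 4) (nat_lit 292) (nat_lit 261) (nat_lit 227))) (XT.nd (nat_lit 78) (nat_lit 76) (nat_lit 0) (XT.lf (nat_lit 0) (nat_lit 14796284192) (nat_lit 76) (nat_lit 2667611580) (nat_lit 152) (nat_lit 4368455696) (nat_lit 13) (nat_lit 5) (nat_lit 14) (nat_lit 5) (nat_lit 15) (nat_lit 4) (nat_lit 293) (nat_lit 261) (nat_lit 226)) (XT.lf (nat_lit 0) (nat_lit 1358253738) (nat_lit 76) (nat_lit 20920623449) (nat_lit 76) (nat_lit 879604238) (nat_lit 12) (nat_lit 4) (nat_lit 13) (nat_lit 5) (nat_lit 13) (nat_lit 4) (nat_lit 294) (nat_lit 261) (nat_lit 225))))) (XT.nd (nat_lit 234) (nat_lit 76) (nat_lit 0) (XT.nd (nat_lit 78) (nat_lit 76) (nat_lit 0) (XT.lf (nat_lit 0) (nat_lit 2963256742) (nat_lit 152) (nat_lit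 13976623627) (nat_lit 76) (nat_lit 7627793721) (nat_lit 11) (nat_lit 5) (nat_lit 13) (nat_lit 5) (nat_lit 12) (nat_lit 4) (nat_lit 295) (nat_lit 261) (nat_lit 224)) (XT.nd (nat_lit 78) (nat_lit 76) (nat_lit 0) (XT.lf (nat_lit 0) (nat_lit 7022251636) (nat_lit 152) (nat_lit 5625746136) (nat_lit 76) (nat_lit 13443353156) (nat_lit 11) (nat_lit 5) (nat_lit 13) (nat_lit 5) (nat_lit 12) (nat_lit 4) (nat_lit 296) (nat_lit 261) (nat_lit 223)) (XT.lf (nat_lit 0) (nat_lit 3498031682) (nat_lit 76) (nat_lit 7951531178) (nat_lit 152) (nat_lit 16283940419) (nat_lit 10) (nat_lit 5) (nat_lit 11) (nat_lit 5) (nat_lit 12) (nat_lit 4) (nat_lit 297) (nat_lit 261) (nat_lit 222)))) (XT.nd (nat_lit 156) (nat_lit 76) (nat_lit 0) (XT.nd (nat_lit 78) (nat_lit 0) (nat_lit 0) (XT.lf (nat_lit 0) (nat_lit 13603273400) (nat_lit 76) (nat_lit 2742430211) (nat_lit 152) (nat_lit 13152216621) (nat_lit 10) (nat_lit 5)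 (nat_lit 11) (nat_lit 5) (nat_lit 12) (nat_lit 4) (nat_lit 298) (nat_lit 261) (nat_lit 221)) (XT.lf (nat_lit 0) (nat_lit 21665959534) (nat_lit 152) (nat_lit 7021526829) (nat_lit 0) (nat_lit 2713469510) (nat_lit 10) (nat_lit 5) (nat_lit 12) (nat_lit 4) (nat_lit 10) (nat_lit 4) (nat_lit 299) (nat_lit 261) (nat_lit 220))) (XT.nd (nat_lit 78) (nat_lit 0) (nat_lit 0) (XT.lf (nat_lit 0) (nat_lit 2557377369) (nat_lit 76) (nat_lit 24953008559) (nat_lit 76) (nat_lit 5938019294) (nat_lit 9) (nat_lit 4) (nat_lit 10) (nat_lit 5) (nat_lit 10) (nat_lit 4) (nat_lit 300) (nat_lit 261) (nat_lit 219)) (XT.lf (nat_lit 0) (nat_lit 13242688856) (nat_lit 76) (nat_lit 20738579613) (nat_lit 76) (nat_lit 1665720680) (nat_lit 9) (nat_lit 4) (nat_lit 10) (nat_lit 5) (nat_lit 10) (nat_lit 4) (nat_lit 301) (nat_lit 261) (nat_lit 218))))))) (XT.nd (nat_lit 1092) (nat_lit 76) (nat_lit 0) (XT.nd (nat_lit 546) (nat_lit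 152) (nat_lit 0) (XT.nd (nat_lit 234) (nat_lit 76) (nat_lit 0) (XT.nd (nat_lit 78) (nat_lit 76) (nat_lit 0) (XT.lf (nat_lit 0) (nat_lit 2769403935) (nat_lit 152) (nat_lit 13366081772) (nat_lit 76) (nat_lit 21882862487) (nat_lit 8) (nat_lit 5) (nat_lit 10) (nat_lit 5) (nat_lit 9) (nat_lit 4) (nat_lit 302) (nat_lit 261) (nat_lit 217)) (XT.nd (nat_lit 78) (nat_lit 76) (nat_lit 0) (XT.lf (nat_lit 0) (nat_lit 7440208480) (nat_lit 152) (nat_lit 3700422231) (nat_lit 76) (nat_lit 29437695365) (nat_lit 8) (nat_lit 5) (nat_lit 10) (nat_lit 5) (nat_lit 9) (nat_lit 4) (nat_lit 303) (nat_lit 261) (nat_lit 216)) (XT.lf (nat_lit 0) (nat_lit 7042301370) (nat_lit 76) (nat_lit 5584764037) (nat_lit 152) (nat_lit 30704683073) (nat_lit 7) (nat_lit 5) (nat_lit 8) (nat_lit 5) (nat_lit 9) (nat_lit 4) (nat_lit 304) (nat_lit 261) (nat_lit 215)))) (XT.nd (nat_lit 156) (nat_lit 76) (nat_lit 0) (XT.nd (nat_lit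 78) (nat_lit 0) (nat_lit 0) (XT.lf (nat_lit 0) (nat_lit 18316044029) (nat_lit 152) (nat_lit 27503945681) (nat_lit 0) (nat_lit 478515684) (nat_lit 7) (nat_lit 5) (nat_lit 9) (nat_lit 4) (nat_lit 7) (nat_lit 4) (nat_lit 305) (nat_lit 261) (nat_lit 214)) (XT.lf (nat_lit 0) (nat_lit 24580546570) (nat_lit 152) (nat_lit 18205905331) (nat_lit 0) (nat_lit 6706550519) (nat_lit 7) (nat_lit 5) (nat_lit 9) (nat_lit 4) (nat_lit 7) (nat_lit 4) (nat_lit 306) (nat_lit 261) (nat_lit 213))) (XT.nd (nat_lit 78) (nat_lit 76) (nat_lit 0) (XT.lf (nat_lit 0) (nat_lit 31323382301) (nat_lit 152) (nat_lit 8205912850) (nat_lit 0) (nat_lit 13415619855) (nat_lit 7) (nat_lit 5) (nat_lit 9) (nat_lit 4) (nat_lit 7) (nat_lit 4) (nat_lit 307) (nat_lit 261) (nat_lit 212)) (XT.lf (nat_lit 0) (nat_lit 2689848069) (nat_lit 76) (nat_lit 35959351608) (nat_lit 76) (nat_lit 18020323981) (nat_lit 6) (nat_lit 4) (nat_lit 7)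 (nat_lit 5) (nat_lit 7) (nat_lit 4) (nat_lit 308) (nat_lit 261) (nat_lit 211))))) (XT.nd (nat_lit 234) (nat_lit 152) (nat_lit 0) (XT.nd (nat_lit 78) (nat_lit 0) (nat_lit 0) (XT.lf (nat_lit 0) (nat_lit 14886141319) (nat_lit 76) (nat_lit 31878825601) (nat_lit 76) (nat_lit 13910848732) (nat_lit 6) (nat_lit 4) (nat_lit 7) (nat_lit 5) (nat_lit 7) (nat_lit 4) (nat_lit 309) (nat_lit 261) (nat_lit 210)) (XT.nd (nat_lit 78) (nat_lit 0) (nat_lit 0) (XT.lf (nat_lit 0) (nat_lit 28023132402) (nat_lit 76) (nat_lit 27487900435) (nat_lit 76) (nat_lit 9493118713) (nat_lit 6) (nat_lit 4) (nat_lit 7) (nat_lit 5) (nat_lit 7) (nat_lit 4) (nat_lit 310) (nat_lit 261) (nat_lit 209)) (XT.lf (nat_lit 0) (nat_lit 42178670152) (nat_lit 76) (nat_lit 22760555813) (nat_lit 76) (nat_lit 4740954783) (nat_lit 6) (nat_lit 4) (nat_lit 7) (nat_lit 5) (nat_lit 7) (nat_lit 4) (nat_lit 311) (nat_lit 261) (nat_lit 208))))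 (XT.nd (nat_lit 156) (nat_lit 76) (nat_lit 0) (XT.nd (nat_lit 78) (nat_lit 0) (nat_lit 0) (XT.lf (nat_lit 0) (nat_lit 355104838) (nat_lit 152) (nat_lit 17303963807) (nat_lit 76) (nat_lit 57071825206) (nat_lit 5) (nat_lit 5) (nat_lit 7) (nat_lit 5) (nat_lit 6) (nat_lit 4) (nat_lit 312) (nat_lit 261) (nat_lit 207)) (XT.lf (nat_lit 0) (nat_lit 5587252587) (nat_lit 152) (nat_lit 6442375045) (nat_lit 76) (nat_lit 68147439284) (nat_lit 5) (nat_lit 5) (nat_lit 7) (nat_lit 5) (nat_lit 6) (nat_lit 4) (nat_lit 313) (nat_lit 261) (nat_lit 206))) (XT.nd (nat_lit 78) (nat_lit 0) (nat_lit 0) (XT.lf (nat_lit 0) (nat_lit 5538709413) (nat_lit 76) (nat_lit 5818152225) (nat_lit 152) (nat_lit 74692577042) (nat_lit 4) (nat_lit 5) (nat_lit 5) (nat_lit 5) (nat_lit 6) (nat_lit 4) (nat_lit 314) (nat_lit 261) (nat_lit 205)) (XT.lf (nat_lit 0) (nat_lit 17776006147) (nat_lit 152) (nat_lit 73585496606) (nat_lit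 0) (nat_lit 1015074918) (nat_lit 4) (nat_lit 5) (nat_lit 6) (nat_lit 4) (nat_lit 4) (nat_lit 4) (nat_lit 315) (nat_lit 261) (nat_lit 204)))))) (XT.nd (nat_lit 546) (nat_lit 76) (nat_lit 0) (XT.nd (nat_lit 234) (nat_lit 0) (nat_lit 0) (XT.nd (nat_lit 78) (nat_lit 0) (nat_lit 0) (XT.lf (nat_lit 0) (nat_lit 24846687537) (nat_lit 152) (nat_lit 66282057614) (nat_lit 0) (nat_lit 8070115933) (nat_lit 4) (nat_lit 5) (nat_lit 6) (nat_lit 4) (nat_lit 4) (nat_lit 4) (nat_lit 316) (nat_lit 261) (nat_lit 203)) (XT.nd (nat_lit 78) (nat_lit 0) (nat_lit 0) (XT.lf (nat_lit 0) (nat_lit 32470879441) (nat_lit 152) (nat_lit 58417205952) (nat_lit 0) (nat_lit 15679826009) (nat_lit 4) (nat_lit 5) (nat_lit 6) (nat_lit 4) (nat_lit 4) (nat_lit 4) (nat_lit 317) (nat_lit 261) (nat_lit 202)) (XT.lf (nat_lit 0) (nat_lit 40693762254) (nat_lit 152) (nat_lit 49944335093) (nat_lit 0) (nat_lit 23889299722) (nat_lit 4)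 (nat_lit 5) (nat_lit 6) (nat_lit 4) (nat_lit 4) (nat_lit 4) (nat_lit 318) (nat_lit 261) (nat_lit 201)))) (XT.nd (nat_lit 156) (nat_lit 0) (nat_lit 0) (XT.nd (nat_lit 78) (nat_lit 0) (nat_lit 0) (XT.lf (nat_lit 0) (nat_lit 49564064172) (nat_lit 152) (nat_lit 40813235429) (nat_lit 0) (nat_lit 32747185807) (nat_lit 4) (nat_lit 5) (nat_lit 6) (nat_lit 4) (nat_lit 4) (nat_lit 4) (nat_lit 319) (nat_lit 261) (nat_lit 200)) (XT.lf (nat_lit 0) (nat_lit 59134349947) (nat_lit 152) (nat_lit 30969796743) (nat_lit 0) (nat_lit 42305975440) (nat_lit 4) (nat_lit 5) (nat_lit 6) (nat_lit 4) (nat_lit 4) (nat_lit 4) (nat_lit 320) (nat_lit 261) (nat_lit 199))) (XT.nd (nat_lit 78) (nat_lit 0) (nat_lit 0) (XT.lf (nat_lit 0) (nat_lit 69461332383) (nat_lit 152) (nat_lit 20355687544) (nat_lit 0) (nat_lit 52622313300) (nat_lit 4) (nat_lit 5) (nat_lit 6) (nat_lit 4) (nat_lit 4) (nat_lit 4) (nat_lit 321) (nat_lit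 261) (nat_lit 198)) (XT.lf (nat_lit 0) (nat_lit 80606208414) (nat_lit 152) (nat_lit 8908009409) (nat_lit 0) (nat_lit 63757333241) (nat_lit 4) (nat_lit 5) (nat_lit 6) (nat_lit 4) (nat_lit 4) (nat_lit 4) (nat_lit 322) (nat_lit 261) (nat_lit 197))))) (XT.nd (nat_lit 312) (nat_lit 0) (nat_lit 0) (XT.nd (nat_lit 156) (nat_lit 0) (nat_lit 0) (XT.nd (nat_lit 78) (nat_lit 0) (nat_lit 0) (XT.lf (nat_lit 0) (nat_lit 3622276706) (nat_lit 76) (nat_lit 89099860883) (nat_lit 76) (nat_lit 72241859702) (nat_lit 3) (nat_lit 4) (nat_lit 4) (nat_lit 5) (nat_lit 4) (nat_lit 4) (nat_lit 323) (nat_lit 261) (nat_lit 196)) (XT.lf (nat_lit 0) (nat_lit 17647549619) (nat_lit 76) (nat_lit 88395928617) (nat_lit 76) (nat_lit 71529477429) (nat_lit 3) (nat_lit 4) (nat_lit 4) (nat_lit 5) (nat_lit 4) (nat_lit 4) (nat_lit 324) (nat_lit 261) (nat_lit 195))) (XT.nd (nat_lit 78) (nat_lit 0) (nat_lit 0) (XT.lf (nat_lit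 0) (nat_lit 32781842066) (nat_lit 76) (nat_lit 87641810338) (nat_lit 76) (nat_lit 70767535068) (nat_lit 3) (nat_lit 4) (nat_lit 4) (nat_lit 5) (nat_lit 4) (nat_lit 4) (nat_lit 325) (nat_lit 261) (nat_lit 194)) (XT.lf (nat_lit 0) (nat_lit 49114838745) (nat_lit 76) (nat_lit 86833037196) (nat_lit 76) (nat_lit 69951517407) (nat_lit 3) (nat_lit 4) (nat_lit 4) (nat_lit 5) (nat_lit 4) (nat_lit 4) (nat_lit 326) (nat_lit 261) (nat_lit 193)))) (XT.nd (nat_lit 156) (nat_lit 0) (nat_lit 0) (XT.nd (nat_lit 78) (nat_lit 0) (nat_lit 0) (XT.lf (nat_lit 0) (nat_lit 66743327784) (nat_lit 76) (nat_lit 85964816462) (nat_lit 76) (nat_lit 69076588785) (nat_lit 3) (nat_lit 4) (nat_lit 4) (nat_lit 5) (nat_lit 4) (nat_lit 4) (nat_lit 327) (nat_lit 261) (nat_lit 192)) (XT.lf (nat_lit 0) (nat_lit 85771774302) (nat_lit 76) (nat_lit 85032003125) (nat_lit 76) (nat_lit 68137564440) (nat_lit 3) (nat_lit 4) (nat_lit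 4) (nat_lit 5) (nat_lit 4) (nat_lit 4) (nat_lit 328) (nat_lit 261) (nat_lit 191))) (XT.nd (nat_lit 78) (nat_lit 0) (nat_lit 0) (XT.lf (nat_lit 0) (nat_lit 106312939465) (nat_lit 76) (nat_lit 84029069401) (nat_lit 76) (nat_lit 67128879783) (nat_lit 3) (nat_lit 4) (nat_lit 4) (nat_lit 5) (nat_lit 4) (nat_lit 4) (nat_lit 329) (nat_lit 261) (nat_lit 190)) (XT.lf (nat_lit 0) (nat_lit 128488548696) (nat_lit 76) (nat_lit 82950071980) (nat_lit 76) (nat_lit 66044557424) (nat_lit 3) (nat_lit 4) (nat_lit 4) (nat_lit 5) (nat_lit 4) (nat_lit 4) (nat_lit 330) (nat_lit 261) (nat_lit 189))))))))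
noncomputable def xc52 : XT := (XT.nd (nat_lit 2184) (nat_lit 0) (nat_lit 0) (XT.nd (nat_lit 1092) (nat_lit 152) (nat_lit 0) (XT.nd (nat_lit 546) (nat_lit 0) (nat_lit 0) (XT.nd (nat_lit 234) (nat_lit 0) (nat_lit 0) (XT.nd (nat_lit 78) (nat_lit 0) (nat_lit 0) (XT.lf (nat_lit 0) (nat_lit 152430013013) (nat_lit 76) (nat_lit 81788616803) (nat_lit 76) (nat_lit 64878171748) (nat_lit 3) (nat_lit 4) (nat_lit 4) (nat_lit 5) (nat_lit 4) (nat_lit 4) (nat_lit 331) (nat_lit 261) (nat_lit 188)) (XT.nd (nat_lit 78) (nat_lit 0) (nat_lit 0) (XT.lf (nat_lit 0) (nat_lit 178279207758) (nat_lit 76) (nat_lit 80537821172) (nat_lit 76) (nat_lit 63622810841) (nat_lit 3) (nat_lit 4) (nat_lit 4) (nat_lit 5) (nat_lit 4) (nat_lit 4) (nat_lit 332) (nat_lit 261) (nat_lit 187)) (XT.lf (nat_lit 0) (nat_lit 206189313347) (nat_lit 76) (nat_lit 79190272966) (nat_lit 76) (nat_lit 62271035527) (nat_lit 3) (nat_lit 4) (nat_lit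 4) (nat_lit 5) (nat_lit 4) (nat_lit 4) (nat_lit 333) (nat_lit 261) (nat_lit 186)))) (XT.nd (nat_lit 156) (nat_lit 0) (nat_lit 0) (XT.nd (nat_lit 78) (nat_lit 0) (nat_lit 0) (XT.lf (nat_lit 0) (nat_lit 236325722996) (nat_lit 76) (nat_lit 77737986712) (nat_lit 76) (nat_lit 60814835285) (nat_lit 3) (nat_lit 4) (nat_lit 4) (nat_lit 5) (nat_lit 4) (nat_lit 4) (nat_lit 334) (nat_lit 261) (nat_lit 185)) (XT.lf (nat_lit 0) (nat_lit 268867022838) (nat_lit 76) (nat_lit 76172356272) (nat_lit 76) (nat_lit 59245580781) (nat_lit 3) (nat_lit 4) (nat_lit 4) (nat_lit 5) (nat_lit 4) (nat_lit 4) (nat_lit 335) (nat_lit 261) (nat_lit 184))) (XT.nd (nat_lit 78) (nat_lit 0) (nat_lit 0) (XT.lf (nat_lit 0) (nat_lit 304006050205) (nat_lit 76) (nat_lit 74484103833) (nat_lit 76) (nat_lit 57553972729) (nat_lit 3) (nat_lit 4) (nat_lit 4) (nat_lit 5) (nat_lit 4) (nat_lit 4) (nat_lit 336) (nat_lit 261) (nat_lit 183))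 (XT.lf (nat_lit 0) (nat_lit 341951036370) (nat_lit 76) (nat_lit 72663224939) (nat_lit 76) (nat_lit 55729986784) (nat_lit 3) (nat_lit 4) (nat_lit 4) (nat_lit 5) (nat_lit 4) (nat_lit 4) (nat_lit 337) (nat_lit 261) (nat_lit 182))))) (XT.nd (nat_lit 234) (nat_lit 0) (nat_lit 0) (XT.nd (nat_lit 78) (nat_lit 0) (nat_lit 0) (XT.lf (nat_lit 0) (nat_lit 382926840510) (nat_lit 76) (nat_lit 70698929195) (nat_lit 76) (nat_lit 53762814141) (nat_lit 3) (nat_lit 4) (nat_lit 4) (nat_lit 5) (nat_lit 4) (nat_lit 4) (nat_lit 338) (nat_lit 261) (nat_lit 181)) (XT.nd (nat_lit 78) (nat_lit 0) (nat_lit 0) (XT.lf (nat_lit 0) (nat_lit 427176282205) (nat_lit 76) (nat_lit 68579576330) (nat_lit 76) (nat_lit 51640797481) (nat_lit 3) (nat_lit 4) (nat_lit 4) (nat_lit 5) (nat_lit 4) (nat_lit 4) (nat_lit 339) (nat_lit 261) (nat_lit 180)) (XT.lf (nat_lit 0) (nat_lit 474961580370) (nat_lit 76) (nat_lit 66292607216)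 (nat_lit 76) (nat_lit 49351361891) (nat_lit 3) (nat_lit 4) (nat_lit 4) (nat_lit 5) (nat_lit 4) (nat_lit 4) (nat_lit 340) (nat_lit 261) (nat_lit 179)))) (XT.nd (nat_lit 156) (nat_lit 0) (nat_lit 0) (XT.nd (nat_lit 78) (nat_lit 0) (nat_lit 0) (XT.lf (nat_lit 0) (nat_lit 526565907141) (nat_lit 76) (nat_lit 63824469443) (nat_lit 76) (nat_lit 46880940344) (nat_lit 3) (nat_lit 4) (nat_lit 4) (nat_lit 5) (nat_lit 4) (nat_lit 4) (nat_lit 341) (nat_lit 261) (nat_lit 178)) (XT.lf (nat_lit 0) (nat_lit 582295065936) (nat_lit 76) (nat_lit 61160537010) (nat_lit 76) (nat_lit 44214893305) (nat_lit 3) (nat_lit 4) (nat_lit 4) (nat_lit 5) (nat_lit 4) (nat_lit 4) (nat_lit 342) (nat_lit 261) (nat_lit 177))) (XT.nd (nat_lit 78) (nat_lit 0) (nat_lit 0) (XT.lf (nat_lit 0) (nat_lit 642479303623) (nat_lit 76) (nat_lit 58285023651) (nat_lit 76) (nat_lit 41337421977) (nat_lit 3) (nat_lit 4) (nat_lit 4) (nat_lit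 5) (nat_lit 4) (nat_lit 4) (nat_lit 343) (nat_lit 261) (nat_lit 176)) (XT.lf (nat_lit 0) (nat_lit 707475267535) (nat_lit 76) (nat_lit 55180889287) (nat_lit 76) (nat_lit 38231474678) (nat_lit 3) (nat_lit 4) (nat_lit 4) (nat_lit 5) (nat_lit 4) (nat_lit 4) (nat_lit 344) (nat_lit 261) (nat_lit 175)))))) (XT.nd (nat_lit 546) (nat_lit 152) (nat_lit 0) (XT.nd (nat_lit 234) (nat_lit 0) (nat_lit 0) (XT.nd (nat_lit 78) (nat_lit 0) (nat_lit 0) (XT.lf (nat_lit 0) (nat_lit 777668118940) (nat_lit 76) (nat_lit 51829739046) (nat_lit 76) (nat_lit 34878645795) (nat_lit 3) (nat_lit 4) (nat_lit 4) (nat_lit 5) (nat_lit 4) (nat_lit 4) (nat_lit 345) (nat_lit 261) (nat_lit 174)) (XT.nd (nat_lit 78) (nat_lit 0) (nat_lit 0) (XT.lf (nat_lit 0) (nat_lit 853473815477) (nat_lit 76) (nat_lit 48211714262) (nat_lit 76) (nat_lit 31259066712) (nat_lit 3) (nat_lit 4) (nat_lit 4) (nat_lit 5) (nat_lit 4) (nat_lit 4) (nat_lit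 346) (nat_lit 261) (nat_lit 173)) (XT.lf (nat_lit 0) (nat_lit 935341576088) (nat_lit 76) (nat_lit 44305374787) (nat_lit 76) (nat_lit 27351288072) (nat_lit 3) (nat_lit 4) (nat_lit 4) (nat_lit 5) (nat_lit 4) (nat_lit 4) (nat_lit 347) (nat_lit 261) (nat_lit 172)))) (XT.nd (nat_lit 156) (nat_lit 0) (nat_lit 0) (XT.nd (nat_lit 78) (nat_lit 0) (nat_lit 0) (XT.lf (nat_lit 0) (nat_lit 1023756543057) (nat_lit 76) (nat_lit 40087571942) (nat_lit 76) (nat_lit 23132152667) (nat_lit 3) (nat_lit 4) (nat_lit 4) (nat_lit 5) (nat_lit 4) (nat_lit 4) (nat_lit 348) (nat_lit 261) (nat_lit 171)) (XT.lf (nat_lit 0) (nat_lit 1119242656930) (nat_lit 76) (nat_lit 35533311342) (nat_lit 76) (nat_lit 18576658213) (nat_lit 3) (nat_lit 4) (nat_lit 4) (nat_lit 5) (nat_lit 4) (nat_lit 4) (nat_lit 349) (nat_lit 261) (nat_lit 170))) (XT.nd (nat_lit 78) (nat_lit 0) (nat_lit 0) (XT.lf (nat_lit 0) (nat_lit 1222365761345)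 (nat_lit 76) (nat_lit 30615604773) (nat_lit 76) (nat_lit 13657809189) (nat_lit 3) (nat_lit 4) (nat_lit 4) (nat_lit 5) (nat_lit 4) (nat_lit 4) (nat_lit 350) (nat_lit 261) (nat_lit 169)) (XT.lf (nat_lit 0) (nat_lit 1333736956180) (nat_lit 76) (nat_lit 25305310273) (nat_lit 76) (nat_lit 8346456859) (nat_lit 3) (nat_lit 4) (nat_lit 4) (nat_lit 5) (nat_lit 4) (nat_lit 4) (nat_lit 351) (nat_lit 261) (nat_lit 168))))) (XT.nd (nat_lit 234) (nat_lit 0) (nat_lit 0) (XT.nd (nat_lit 78) (nat_lit 152) (nat_lit 0) (XT.lf (nat_lit 0) (nat_lit 1454016218884) (nat_lit 76) (nat_lit 19570959428) (nat_lit 76) (nat_lit 2611126543) (nat_lit 3) (nat_lit 4) (nat_lit 4) (nat_lit 5) (nat_lit 4) (nat_lit 4) (nat_lit 352) (nat_lit 261) (nat_lit 167)) (XT.nd (nat_lit 78) (nat_lit 76) (nat_lit 0) (XT.lf (nat_lit 0) (nat_lit 3402974305) (nat_lit 152) (nat_lit 9882553248) (nat_lit 76) (nat_lit 1580420297807) (nat_lit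 2) (nat_lit 5) (nat_lit 4) (nat_lit 5) (nat_lit 3) (nat_lit 4) (nat_lit 353) (nat_lit 261) (nat_lit 166)) (XT.lf (nat_lit 0) (nat_lit 3507125148) (nat_lit 76) (nat_lit 6333598260) (nat_lit 152) (nat_lit 1710761111954) (nat_lit 1) (nat_lit 5) (nat_lit 2) (nat_lit 5) (nat_lit 3) (nat_lit 4) (nat_lit 354) (nat_lit 261) (nat_lit 165)))) (XT.nd (nat_lit 156) (nat_lit 0) (nat_lit 0) (XT.nd (nat_lit 78) (nat_lit 0) (nat_lit 0) (XT.lf (nat_lit 0) (nat_lit 17098212582) (nat_lit 152) (nat_lit 1839134610205) (nat_lit 0) (nat_lit 1392326398) (nat_lit 1) (nat_lit 5) (nat_lit 3) (nat_lit 4) (nat_lit 1) (nat_lit 4) (nat_lit 355) (nat_lit 261) (nat_lit 164)) (XT.lf (nat_lit 0) (nat_lit 25100114444) (nat_lit 152) (nat_lit 1971103547523) (nat_lit 0) (nat_lit 9393561647) (nat_lit 1) (nat_lit 5) (nat_lit 3) (nat_lit 4) (nat_lit 1) (nat_lit 4) (nat_lit 356) (nat_lit 261) (nat_lit 163))) (XT.nd (nat_lit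 78) (nat_lit 0) (nat_lit 0) (XT.lf (nat_lit 0) (nat_lit 33741524482) (nat_lit 152) (nat_lit 2113631237125) (nat_lit 0) (nat_lit 18034354452) (nat_lit 1) (nat_lit 5) (nat_lit 3) (nat_lit 4) (nat_lit 1) (nat_lit 4) (nat_lit 357) (nat_lit 261) (nat_lit 162)) (XT.lf (nat_lit 0) (nat_lit 43073651051) (nat_lit 152) (nat_lit 2267562287542) (nat_lit 0) (nat_lit 27365909508) (nat_lit 1) (nat_lit 5) (nat_lit 3) (nat_lit 4) (nat_lit 1) (nat_lit 4) (nat_lit 358) (nat_lit 261) (nat_lit 161))))))) (XT.nd (nat_lit 33696) (nat_lit 0) (nat_lit 1672) (XT.nd (nat_lit 33150) (nat_lit 0) (nat_lit 3724) (XT.nd (nat_lit 234) (nat_lit 0) (nat_lit 0) (XT.nd (nat_lit 78) (nat_lit 0) (nat_lit 0) (XT.lf (nat_lit 0) (nat_lit 53151795642) (nat_lit 152) (nat_lit 2433808882776) (nat_lit 0) (nat_lit 37443524922) (nat_lit 1) (nat_lit 5) (nat_lit 3) (nat_lit 4) (nat_lit 1) (nat_lit 4) (nat_lit 359) (nat_lit 261) (nat_lit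 160)) (XT.nd (nat_lit 78) (nat_lit 0) (nat_lit 0) (XT.lf (nat_lit 0) (nat_lit 64035680594) (nat_lit 152) (nat_lit 2613356187836) (nat_lit 0) (nat_lit 48326919894) (nat_lit 1) (nat_lit 5) (nat_lit 3) (nat_lit 4) (nat_lit 1) (nat_lit 4) (nat_lit 360) (nat_lit 261) (nat_lit 159)) (XT.lf (nat_lit 0) (nat_lit 75789803003) (nat_lit 152) (nat_lit 2807268186752) (nat_lit 0) (nat_lit 60080588617) (nat_lit 1) (nat_lit 5) (nat_lit 3) (nat_lit 4) (nat_lit 1) (nat_lit 4) (nat_lit 361) (nat_lit 261) (nat_lit 158)))) (XT.nd (nat_lit 156) (nat_lit 0) (nat_lit 0) (XT.nd (nat_lit 78) (nat_lit 0) (nat_lit 0) (XT.lf (nat_lit 0) (nat_lit 88483816927) (nat_lit 152) (nat_lit 3016693987667) (nat_lit 0) (nat_lit 72774182463) (nat_lit 1) (nat_lit 5) (nat_lit 3) (nat_lit 4) (nat_lit 1) (nat_lit 4) (nat_lit 362) (nat_lit 261) (nat_lit 157)) (XT.lf (nat_lit 0) (nat_lit 102192946152) (nat_lit 152) (nat_lit 3242874632362)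 (nat_lit 0) (nat_lit 86482922726) (nat_lit 1) (nat_lit 5) (nat_lit 3) (nat_lit 4) (nat_lit 1) (nat_lit 4) (nat_lit 363) (nat_lit 261) (nat_lit 156))) (XT.nd (nat_lit 32682) (nat_lit 0) (nat_lit 4484) (XT.lf (nat_lit 0) (nat_lit 116998429963) (nat_lit 152) (nat_lit 3487150450585) (nat_lit 0) (nat_lit 101288046388) (nat_lit 1) (nat_lit 5) (nat_lit 3) (nat_lit 4) (nat_lit 1) (nat_lit 4) (nat_lit 364) (nat_lit 261) (nat_lit 155)) (XT.lf (nat_lit 0) (nat_lit 2012687533) (nat_lit 228) (nat_lit 633311313) (nat_lit 228) (nat_lit 633311313) (nat_lit 60) (nat_lit 3) (nat_lit 63) (nat_lit 3) (nat_lit 63) (nat_lit 5) (nat_lit 262) (nat_lit 262) (nat_lit 256))))) (XT.nd (nat_lit 234) (nat_lit 532) (nat_lit 0) (XT.nd (nat_lit 78) (nat_lit 228) (nat_lit 0) (XT.lf (nat_lit 76) (nat_lit 1798278153) (nat_lit 0) (nat_lit 4601359615) (nat_lit 228) (nat_lit 229262389) (nat_lit 61) (nat_lit 5) (nat_lit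 60) (nat_lit 3) (nat_lit 63) (nat_lit 5) (nat_lit 263) (nat_lit 262) (nat_lit 255)) (XT.nd (nat_lit 78) (nat_lit 0) (nat_lit 0) (XT.lf (nat_lit 0) (nat_lit 1954329957) (nat_lit 228) (nat_lit 1714412066) (nat_lit 304) (nat_lit 3048440229) (nat_lit 57) (nat_lit 5) (nat_lit 60) (nat_lit 3) (nat_lit 61) (nat_lit 5) (nat_lit 264) (nat_lit 262) (nat_lit 254)) (XT.lf (nat_lit 76) (nat_lit 1597696675) (nat_lit 0) (nat_lit 2530549600) (nat_lit 304) (nat_lit 2698849503) (nat_lit 58) (nat_lit 5) (nat_lit 57) (nat_lit 5) (nat_lit 61) (nat_lit 5) (nat_lit 265) (nat_lit 262) (nat_lit 253)))) (XT.nd (nat_lit 156) (nat_lit 304) (nat_lit 0) (XT.nd (nat_lit 78) (nat_lit 228) (nat_lit 0) (XT.lf (nat_lit 76) (nat_lit 5148132332) (nat_lit 0) (nat_lit 1177016407) (nat_lit 304) (nat_lit 633919549) (nat_lit 58) (nat_lit 5) (nat_lit 57) (nat_lit 5) (nat_lit 61) (nat_lit 5) (nat_lit 266) (nat_lit 262) (nat_lit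 252)) (XT.lf (nat_lit 0) (nat_lit 1381352705) (nat_lit 304) (nat_lit 5314584541) (nat_lit 76) (nat_lit 414412248) (nat_lit 54) (nat_lit 5) (nat_lit 58) (nat_lit 5) (nat_lit 55) (nat_lit 5) (nat_lit 267) (nat_lit 262) (nat_lit 251))) (XT.nd (nat_lit 78) (nat_lit 304) (nat_lit 0) (XT.lf (nat_lit 0) (nat_lit 3428387281) (nat_lit 304) (nat_lit 1663340147) (nat_lit 76) (nat_lit 2189251473) (nat_lit 54) (nat_lit 5) (nat_lit 58) (nat_lit 5) (nat_lit 55) (nat_lit 5) (nat_lit 268) (nat_lit 262) (nat_lit 250)) (XT.lf (nat_lit 0) (nat_lit 2264353549) (nat_lit 304) (nat_lit 3265785615) (nat_lit 380) (nat_lit 1944719091) (nat_lit 50) (nat_lit 5) (nat_lit 54) (nat_lit 5) (nat_lit 55) (nat_lit 5) (nat_lit 269) (nat_lit 262) (nat_lit 249)))))) (XT.nd (nat_lit 546) (nat_lit 608) (nat_lit 0) (XT.nd (nat_lit 234) (nat_lit 988) (nat_lit 0) (XT.nd (nat_lit 78) (nat_lit 456) (nat_lit 0) (XT.lf (nat_lit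 0) (nat_lit 6475199842) (nat_lit 304) (nat_lit 1215896064) (nat_lit 380) (nat_lit 2677946) (nat_lit 50) (nat_lit 5) (nat_lit 54) (nat_lit 5) (nat_lit 55) (nat_lit 5) (nat_lit 270) (nat_lit 262) (nat_lit 248)) (XT.nd (nat_lit 78) (nat_lit 0) (nat_lit 0) (XT.lf (nat_lit 0) (nat_lit 1944170182) (nat_lit 456) (nat_lit 4889366314) (nat_lit 76) (nat_lit 1096992875) (nat_lit 44) (nat_lit 5) (nat_lit 50) (nat_lit 5) (nat_lit 45) (nat_lit 5) (nat_lit 271) (nat_lit 262) (nat_lit 247)) (XT.lf (nat_lit 0) (nat_lit 3973403871) (nat_lit 456) (nat_lit 638968046) (nat_lit 76) (nat_lit 3580349115) (nat_lit 44) (nat_lit 5) (nat_lit 50) (nat_lit 5) (nat_lit 45) (nat_lit 5) (nat_lit 272) (nat_lit 262) (nat_lit 246)))) (XT.nd (nat_lit 156) (nat_lit 304) (nat_lit 0) (XT.nd (nat_lit 78) (nat_lit 228) (nat_lit 0) (XT.lf (nat_lit 0) (nat_lit 4029056282) (nat_lit 456) (nat_lit 2104131184) (nat_lit 532) (nat_lit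 2345839825) (nat_lit 38) (nat_lit 5) (nat_lit 44) (nat_lit 5) (nat_lit 45) (nat_lit 5) (nat_lit 273) (nat_lit 262) (nat_lit 245)) (XT.lf (nat_lit 0) (nat_lit 183013225) (nat_lit 228) (nat_lit 8197579979) (nat_lit 304) (nat_lit 415009692) (nat_lit 35) (nat_lit 5) (nat_lit 38) (nat_lit 5) (nat_lit 39) (nat_lit 5) (nat_lit 274) (nat_lit 262) (nat_lit 244))) (XT.nd (nat_lit 78) (nat_lit 228) (nat_lit 0) (XT.lf (nat_lit 0) (nat_lit 1646648870) (nat_lit 304) (nat_lit 3920657395) (nat_lit 76) (nat_lit 3562664579) (nat_lit 34) (nat_lit 5) (nat_lit 38) (nat_lit 5) (nat_lit 35) (nat_lit 5) (nat_lit 275) (nat_lit 262) (nat_lit 243)) (XT.lf (nat_lit 0) (nat_lit 1064456776) (nat_lit 228) (nat_lit 2701252451) (nat_lit 304) (nat_lit 5731763607) (nat_lit 31) (nat_lit 5) (nat_lit 34) (nat_lit 5) (nat_lit 35) (nat_lit 5) (nat_lit 276) (nat_lit 262) (nat_lit 242))))) (XT.nd (nat_lit 234) (nat_lit 304)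 (nat_lit 0) (XT.nd (nat_lit 78) (nat_lit 304) (nat_lit 0) (XT.lf (nat_lit 0) (nat_lit 6067937311) (nat_lit 304) (nat_lit 3356650191) (nat_lit 76) (nat_lit 469101786) (nat_lit 31) (nat_lit 5) (nat_lit 35) (nat_lit 5) (nat_lit 32) (nat_lit 5) (nat_lit 277) (nat_lit 262) (nat_lit 241)) (XT.nd (nat_lit 78) (nat_lit 76) (nat_lit 0) (XT.lf (nat_lit 0) (nat_lit 2037259475) (nat_lit 228) (nat_lit 6538264051) (nat_lit 304) (nat_lit 1744760827) (nat_lit 28) (nat_lit 5) (nat_lit 31) (nat_lit 5) (nat_lit 32) (nat_lit 5) (nat_lit 278) (nat_lit 262) (nat_lit 240)) (XT.lf (nat_lit 0) (nat_lit 475421221) (nat_lit 304) (nat_lit 2857223521) (nat_lit 76) (nat_lit 7447888419) (nat_lit 27) (nat_lit 5) (nat_lit 31) (nat_lit 5) (nat_lit 28) (nat_lit 5) (nat_lit 279) (nat_lit 262) (nat_lit 239)))) (XT.nd (nat_lit 156) (nat_lit 152) (nat_lit 0) (XT.nd (nat_lit 78) (nat_lit 0) (nat_lit 0) (XT.lf (nat_lit 0)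 (nat_lit 2767353772) (nat_lit 228) (nat_lit 8287727248) (nat_lit 76) (nat_lit 220121740) (nat_lit 25) (nat_lit 5) (nat_lit 28) (nat_lit 5) (nat_lit 26) (nat_lit 5) (nat_lit 280) (nat_lit 262) (nat_lit 238)) (XT.lf (nat_lit 0) (nat_lit 5323515841) (nat_lit 228) (nat_lit 2546726506) (nat_lit 76) (nat_lit 3933009724) (nat_lit 25) (nat_lit 5) (nat_lit 28) (nat_lit 5) (nat_lit 26) (nat_lit 5) (nat_lit 281) (nat_lit 262) (nat_lit 237))) (XT.nd (nat_lit 78) (nat_lit 0) (nat_lit 0) (XT.lf (nat_lit 0) (nat_lit 3731728356) (nat_lit 152) (nat_lit 4362711072) (nat_lit 228) (nat_lit 4278540100) (nat_lit 23) (nat_lit 5) (nat_lit 25) (nat_lit 5) (nat_lit 26) (nat_lit 5) (nat_lit 282) (nat_lit 262) (nat_lit 236)) (XT.lf (nat_lit 0) (nat_lit 10551538983) (nat_lit 152) (nat_lit 528994292) (nat_lit 228) (nat_lit 1908508938) (nat_lit 23) (nat_lit 5) (nat_lit 25) (nat_lit 5) (nat_lit 26) (nat_lit 5) (nat_lit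 283) (nat_lit 262) (nat_lit 235))))))))
noncomputable def xc53 : XT := (XT.nd (nat_lit 2184) (nat_lit 228) (nat_lit 0) (XT.nd (nat_lit 1092) (nat_lit 380) (nat_lit 0) (XT.nd (nat_lit 546) (nat_lit 228) (nat_lit 0) (XT.nd (nat_lit 234) (nat_lit 304) (nat_lit 0) (XT.nd (nat_lit 78) (nat_lit 152) (nat_lit 0) (XT.lf (nat_lit 0) (nat_lit 740232546) (nat_lit 228) (nat_lit 9376821731) (nat_lit 76) (nat_lit 3526551464) (nat_lit 20) (nat_lit 5) (nat_lit 23) (nat_lit 5) (nat_lit 21) (nat_lit 5) (nat_lit 284) (nat_lit 262) (nat_lit 234)) (XT.nd (nat_lit 78) (nat_lit 152) (nat_lit 0) (XT.lf (nat_lit 0) (nat_lit 3509612187) (nat_lit 228) (nat_lit 2868606643) (nat_lit 76) (nat_lit 7967589893) (nat_lit 20) (nat_lit 5) (nat_lit 23) (nat_lit 5) (nat_lit 21) (nat_lit 5) (nat_lit 285) (nat_lit 262) (nat_lit 233)) (XT.lf (nat_lit 0) (nat_lit 4277582547) (nat_lit 152) (nat_lit 2260771786) (nat_lit 228)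 (nat_lit 8562982653) (nat_lit 18) (nat_lit 5) (nat_lit 20) (nat_lit 5) (nat_lit 21) (nat_lit 5) (nat_lit 286) (nat_lit 262) (nat_lit 232)))) (XT.nd (nat_lit 156) (nat_lit 228) (nat_lit 0) (XT.nd (nat_lit 78) (nat_lit 76) (nat_lit 0) (XT.lf (nat_lit 0) (nat_lit 9879168119) (nat_lit 228) (nat_lit 3905655351) (nat_lit 76) (nat_lit 2127063383) (nat_lit 18) (nat_lit 5) (nat_lit 21) (nat_lit 5) (nat_lit 19) (nat_lit 4) (nat_lit 287) (nat_lit 262) (nat_lit 231)) (XT.lf (nat_lit 0) (nat_lit 3595731069) (nat_lit 76) (nat_lit 9978128777) (nat_lit 152) (nat_lit 3206641026) (nat_lit 17) (nat_lit 5) (nat_lit 18) (nat_lit 5) (nat_lit 19) (nat_lit 4) (nat_lit 288) (nat_lit 262) (nat_lit 230))) (XT.nd (nat_lit 78) (nat_lit 228) (nat_lit 0) (XT.lf (nat_lit 0) (nat_lit 11830345908) (nat_lit 76) (nat_lit 5784181850) (nat_lit 152) (nat_lit 100182323) (nat_lit 17) (nat_lit 5) (nat_lit 18) (nat_lit 5) (nat_lit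 19) (nat_lit 4) (nat_lit 289) (nat_lit 262) (nat_lit 229)) (XT.lf (nat_lit 0) (nat_lit 1933146404) (nat_lit 152) (nat_lit 1151633447) (nat_lit 228) (nat_lit 15633308003) (nat_lit 14) (nat_lit 5) (nat_lit 16) (nat_lit 5) (nat_lit 17) (nat_lit 5) (nat_lit 290) (nat_lit 262) (nat_lit 228))))) (XT.nd (nat_lit 234) (nat_lit 152) (nat_lit 0) (XT.nd (nat_lit 78) (nat_lit 76) (nat_lit 0) (XT.lf (nat_lit 0) (nat_lit 6724354989) (nat_lit 228) (nat_lit 9264250157) (nat_lit 76) (nat_lit 3796613915) (nat_lit 14) (nat_lit 5) (nat_lit 17) (nat_lit 5) (nat_lit 15) (nat_lit 4) (nat_lit 291) (nat_lit 262) (nat_lit 227)) (XT.nd (nat_lit 78) (nat_lit 76) (nat_lit 0) (XT.lf (nat_lit 0) (nat_lit 10636426691) (nat_lit 228) (nat_lit 1252077289) (nat_lit 76) (nat_lit 9050811876) (nat_lit 14) (nat_lit 5) (nat_lit 17) (nat_lit 5) (nat_lit 15) (nat_lit 4) (nat_lit 292) (nat_lit 262) (nat_lit 226)) (XT.lf (nat_lit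 0) (nat_lit 7712567365) (nat_lit 76) (nat_lit 7289400858) (nat_lit 152) (nat_lit 7172625859) (nat_lit 13) (nat_lit 5) (nat_lit 14) (nat_lit 5) (nat_lit 15) (nat_lit 4) (nat_lit 293) (nat_lit 262) (nat_lit 225)))) (XT.nd (nat_lit 156) (nat_lit 76) (nat_lit 0) (XT.nd (nat_lit 78) (nat_lit 76) (nat_lit 0) (XT.lf (nat_lit 0) (nat_lit 17393155852) (nat_lit 76) (nat_lit 2314437949) (nat_lit 152) (nat_lit 3801920556) (nat_lit 13) (nat_lit 5) (nat_lit 14) (nat_lit 5) (nat_lit 15) (nat_lit 4) (nat_lit 294) (nat_lit 262) (nat_lit 224)) (XT.lf (nat_lit 0) (nat_lit 2898692807) (nat_lit 76) (nat_lit 21993422102) (nat_lit 76) (nat_lit 50998309) (nat_lit 12) (nat_lit 4) (nat_lit 13) (nat_lit 5) (nat_lit 13) (nat_lit 4) (nat_lit 295) (nat_lit 262) (nat_lit 223))) (XT.nd (nat_lit 78) (nat_lit 0) (nat_lit 0) (XT.lf (nat_lit 0) (nat_lit 3991061665) (nat_lit 152) (nat_lit 13726045056) (nat_lit 76) (nat_lit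 8751373565) (nat_lit 11) (nat_lit 5) (nat_lit 13) (nat_lit 5) (nat_lit 12) (nat_lit 4) (nat_lit 296) (nat_lit 262) (nat_lit 222)) (XT.lf (nat_lit 0) (nat_lit 8316202493) (nat_lit 152) (nat_lit 4808483177) (nat_lit 76) (nat_lit 14994151360) (nat_lit 11) (nat_lit 5) (nat_lit 13) (nat_lit 5) (nat_lit 12) (nat_lit 4) (nat_lit 297) (nat_lit 262) (nat_lit 221)))))) (XT.nd (nat_lit 546) (nat_lit 152) (nat_lit 0) (XT.nd (nat_lit 234) (nat_lit 152) (nat_lit 0) (XT.nd (nat_lit 78) (nat_lit 0) (nat_lit 0) (XT.lf (nat_lit 0) (nat_lit 5013112748) (nat_lit 76) (nat_lit 8060058514) (nat_lit 152) (nat_lit 16821244962) (nat_lit 10) (nat_lit 5) (nat_lit 11) (nat_lit 5) (nat_lit 12) (nat_lit 4) (nat_lit 298) (nat_lit 262) (nat_lit 220)) (XT.nd (nat_lit 78) (nat_lit 0) (nat_lit 0) (XT.lf (nat_lit 0) (nat_lit 15835274653) (nat_lit 76) (nat_lit 2473310593) (nat_lit 152) (nat_lit 13495680349) (nat_lit 10)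 (nat_lit 5) (nat_lit 11) (nat_lit 5) (nat_lit 12) (nat_lit 4) (nat_lit 299) (nat_lit 262) (nat_lit 219)) (XT.lf (nat_lit 0) (nat_lit 24016804927) (nat_lit 152) (nat_lit 6485583361) (nat_lit 0) (nat_lit 3360247612) (nat_lit 10) (nat_lit 5) (nat_lit 12) (nat_lit 4) (nat_lit 10) (nat_lit 4) (nat_lit 300) (nat_lit 262) (nat_lit 218)))) (XT.nd (nat_lit 156) (nat_lit 76) (nat_lit 0) (XT.nd (nat_lit 78) (nat_lit 0) (nat_lit 0) (XT.lf (nat_lit 0) (nat_lit 3831844170) (nat_lit 76) (nat_lit 26476925996) (nat_lit 76) (nat_lit 5766785656) (nat_lit 9) (nat_lit 4) (nat_lit 10) (nat_lit 5) (nat_lit 10) (nat_lit 4) (nat_lit 301) (nat_lit 262) (nat_lit 217)) (XT.lf (nat_lit 0) (nat_lit 15292730456) (nat_lit 76) (nat_lit 21960329642) (nat_lit 76) (nat_lit 1200575389) (nat_lit 9) (nat_lit 4) (nat_lit 10) (nat_lit 5) (nat_lit 10) (nat_lit 4) (nat_lit 302) (nat_lit 262) (nat_lit 216))) (XT.nd (nat_lit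 78) (nat_lit 0) (nat_lit 0) (XT.lf (nat_lit 0) (nat_lit 3517315886) (nat_lit 152) (nat_lit 13489676017) (nat_lit 76) (nat_lit 24009986997) (nat_lit 8) (nat_lit 5) (nat_lit 10) (nat_lit 5) (nat_lit 9) (nat_lit 4) (nat_lit 303) (nat_lit 262) (nat_lit 215)) (XT.lf (nat_lit 0) (nat_lit 8522795192) (nat_lit 152) (nat_lit 3120814994) (nat_lit 76) (nat_lit 32141317948) (nat_lit 8) (nat_lit 5) (nat_lit 10) (nat_lit 5) (nat_lit 9) (nat_lit 4) (nat_lit 304) (nat_lit 262) (nat_lit 214))))) (XT.nd (nat_lit 234) (nat_lit 76) (nat_lit 0) (XT.nd (nat_lit 78) (nat_lit 0) (nat_lit 0) (XT.lf (nat_lit 0) (nat_lit 8459158368) (nat_lit 76) (nat_lit 5649866864) (nat_lit 152) (nat_lit 32650895090) (nat_lit 7) (nat_lit 5) (nat_lit 8) (nat_lit 5) (nat_lit 9) (nat_lit 4) (nat_lit 305) (nat_lit 262) (nat_lit 213)) (XT.nd (nat_lit 78) (nat_lit 0) (nat_lit 0) (XT.lf (nat_lit 0) (nat_lit 20226673815) (nat_lit 152)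 (nat_lit 28886982121) (nat_lit 0) (nat_lit 852523978) (nat_lit 7) (nat_lit 5) (nat_lit 9) (nat_lit 4) (nat_lit 7) (nat_lit 4) (nat_lit 306) (nat_lit 262) (nat_lit 212)) (XT.lf (nat_lit 0) (nat_lit 26959347948) (nat_lit 152) (nat_lit 18905637743) (nat_lit 0) (nat_lit 7553932930) (nat_lit 7) (nat_lit 5) (nat_lit 9) (nat_lit 4) (nat_lit 7) (nat_lit 4) (nat_lit 307) (nat_lit 262) (nat_lit 211)))) (XT.nd (nat_lit 156) (nat_lit 0) (nat_lit 0) (XT.nd (nat_lit 78) (nat_lit 76) (nat_lit 0) (XT.lf (nat_lit 0) (nat_lit 34211065526) (nat_lit 152) (nat_lit 8161700680) (nat_lit 0) (nat_lit 14776701266) (nat_lit 7) (nat_lit 5) (nat_lit 9) (nat_lit 4) (nat_lit 7) (nat_lit 4) (nat_lit 308) (nat_lit 262) (nat_lit 210)) (XT.lf (nat_lit 0) (nat_lit 3587982247) (nat_lit 76) (nat_lit 38523108502) (nat_lit 76) (nat_lit 19061939390) (nat_lit 6) (nat_lit 4) (nat_lit 7) (nat_lit 5) (nat_lit 7) (nat_lit 4) (nat_lit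 309) (nat_lit 262) (nat_lit 209))) (XT.nd (nat_lit 78) (nat_lit 0) (nat_lit 0) (XT.lf (nat_lit 0) (nat_lit 16709390340) (nat_lit 76) (nat_lit 34139324951) (nat_lit 76) (nat_lit 14653336530) (nat_lit 6) (nat_lit 4) (nat_lit 7) (nat_lit 5) (nat_lit 7) (nat_lit 4) (nat_lit 310) (nat_lit 262) (nat_lit 208)) (XT.lf (nat_lit 0) (nat_lit 30850499397) (nat_lit 76) (nat_lit 29418592935) (nat_lit 76) (nat_lit 9909623672) (nat_lit 6) (nat_lit 4) (nat_lit 7) (nat_lit 5) (nat_lit 7) (nat_lit 4) (nat_lit 311) (nat_lit 262) (nat_lit 207))))))) (XT.nd (nat_lit 1092) (nat_lit 0) (nat_lit 0) (XT.nd (nat_lit 546) (nat_lit 76) (nat_lit 0) (XT.nd (nat_lit 234) (nat_lit 76) (nat_lit 0) (XT.nd (nat_lit 78) (nat_lit 76) (nat_lit 0) (XT.lf (nat_lit 0) (nat_lit 46095108582) (nat_lit 76) (nat_lit 24332937746) (nat_lit 76) (nat_lit 4802689927) (nat_lit 6) (nat_lit 4) (nat_lit 7) (nat_lit 5) (nat_lit 7) (nat_lit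 4) (nat_lit 312) (nat_lit 262) (nat_lit 206)) (XT.nd (nat_lit 78) (nat_lit 0) (nat_lit 0) (XT.lf (nat_lit 0) (nat_lit 662824836) (nat_lit 152) (nat_lit 18171274526) (nat_lit 76) (nat_lit 61852608679) (nat_lit 5) (nat_lit 5) (nat_lit 7) (nat_lit 5) (nat_lit 6) (nat_lit 4) (nat_lit 313) (nat_lit 262) (nat_lit 205)) (XT.lf (nat_lit 0) (nat_lit 6292854656) (nat_lit 152) (nat_lit 6479055432) (nat_lit 76) (nat_lit 73798343182) (nat_lit 5) (nat_lit 5) (nat_lit 7) (nat_lit 5) (nat_lit 6) (nat_lit 4) (nat_lit 314) (nat_lit 262) (nat_lit 204)))) (XT.nd (nat_lit 156) (nat_lit 0) (nat_lit 0) (XT.nd (nat_lit 78) (nat_lit 0) (nat_lit 0) (XT.lf (nat_lit 0) (nat_lit 6448396552) (nat_lit 76) (nat_lit 6067700214) (nat_lit 152) (nat_lit 80396974288) (nat_lit 4) (nat_lit 5) (nat_lit 5) (nat_lit 5) (nat_lit 6) (nat_lit 4) (nat_lit 315) (nat_lit 262) (nat_lit 203)) (XT.lf (nat_lit 0) (nat_lit 19435011360)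 (nat_lit 152) (nat_lit 79026298737) (nat_lit 0) (nat_lit 1286191825) (nat_lit 4) (nat_lit 5) (nat_lit 6) (nat_lit 4) (nat_lit 4) (nat_lit 4) (nat_lit 316) (nat_lit 262) (nat_lit 202))) (XT.nd (nat_lit 78) (nat_lit 0) (nat_lit 0) (XT.lf (nat_lit 0) (nat_lit 27053797281) (nat_lit 152) (nat_lit 71171624448) (nat_lit 0) (nat_lit 8891568647) (nat_lit 4) (nat_lit 5) (nat_lit 6) (nat_lit 4) (nat_lit 4) (nat_lit 4) (nat_lit 317) (nat_lit 262) (nat_lit 201)) (XT.lf (nat_lit 0) (nat_lit 35271674556) (nat_lit 152) (nat_lit 62708177081) (nat_lit 0) (nat_lit 17097030088) (nat_lit 4) (nat_lit 5) (nat_lit 6) (nat_lit 4) (nat_lit 4) (nat_lit 4) (nat_lit 318) (nat_lit 262) (nat_lit 200))))) (XT.nd (nat_lit 234) (nat_lit 76) (nat_lit 0) (XT.nd (nat_lit 78) (nat_lit 0) (nat_lit 0) (XT.lf (nat_lit 0) (nat_lit 44137341716) (nat_lit 152) (nat_lit 53585802875) (nat_lit 0) (nat_lit 25951201106) (nat_lit 4)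 (nat_lit 5) (nat_lit 6) (nat_lit 4) (nat_lit 4) (nat_lit 4) (nat_lit 319) (nat_lit 262) (nat_lit 199)) (XT.nd (nat_lit 78) (nat_lit 0) (nat_lit 0) (XT.lf (nat_lit 0) (nat_lit 53703336049) (nat_lit 152) (nat_lit 43750443315) (nat_lit 0) (nat_lit 35506550862) (nat_lit 4) (nat_lit 5) (nat_lit 6) (nat_lit 4) (nat_lit 4) (nat_lit 4) (nat_lit 320) (nat_lit 262) (nat_lit 198)) (XT.lf (nat_lit 0) (nat_lit 64026344927) (nat_lit 152) (nat_lit 33143814789) (nat_lit 0) (nat_lit 45819703652) (nat_lit 4) (nat_lit 5) (nat_lit 6) (nat_lit 4) (nat_lit 4) (nat_lit 4) (nat_lit 321) (nat_lit 262) (nat_lit 197)))) (XT.nd (nat_lit 156) (nat_lit 76) (nat_lit 0) (XT.nd (nat_lit 78) (nat_lit 0) (nat_lit 0) (XT.lf (nat_lit 0) (nat_lit 75167541737) (nat_lit 152) (nat_lit 21703063202) (nat_lit 0) (nat_lit 56951774453) (nat_lit 4) (nat_lit 5) (nat_lit 6) (nat_lit 4) (nat_lit 4) (nat_lit 4) (nat_lit 322) (nat_lit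 262) (nat_lit 196)) (XT.lf (nat_lit 0) (nat_lit 87192948385) (nat_lit 152) (nat_lit 9360391508) (nat_lit 0) (nat_lit 68968731095) (nat_lit 4) (nat_lit 5) (nat_lit 6) (nat_lit 4) (nat_lit 4) (nat_lit 4) (nat_lit 323) (nat_lit 262) (nat_lit 195))) (XT.nd (nat_lit 78) (nat_lit 0) (nat_lit 0) (XT.lf (nat_lit 0) (nat_lit 4165728670) (nat_lit 76) (nat_lit 96108283747) (nat_lit 76) (nat_lit 77876242375) (nat_lit 3) (nat_lit 4) (nat_lit 4) (nat_lit 5) (nat_lit 4) (nat_lit 4) (nat_lit 324) (nat_lit 262) (nat_lit 194)) (XT.lf (nat_lit 0) (nat_lit 19294233058) (nat_lit 76) (nat_lit 95356893640) (nat_lit 76) (nat_lit 77117607749) (nat_lit 3) (nat_lit 4) (nat_lit 4) (nat_lit 5) (nat_lit 4) (nat_lit 4) (nat_lit 325) (nat_lit 262) (nat_lit 193)))))) (XT.nd (nat_lit 546) (nat_lit 0) (nat_lit 0) (XT.nd (nat_lit 234) (nat_lit 0) (nat_lit 0) (XT.nd (nat_lit 78) (nat_lit 0) (nat_lit 0) (XT.lf (nat_lit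 0) (nat_lit 35621870422) (nat_lit 76) (nat_lit 94550646585) (nat_lit 76) (nat_lit 76304652805) (nat_lit 3) (nat_lit 4) (nat_lit 4) (nat_lit 5) (nat_lit 4) (nat_lit 4) (nat_lit 326) (nat_lit 262) (nat_lit 192)) (XT.nd (nat_lit 78) (nat_lit 0) (nat_lit 0) (XT.lf (nat_lit 0) (nat_lit 53245397132) (nat_lit 76) (nat_lit 93684764820) (nat_lit 76) (nat_lit 75432560032) (nat_lit 3) (nat_lit 4) (nat_lit 4) (nat_lit 5) (nat_lit 4) (nat_lit 4) (nat_lit 327) (nat_lit 262) (nat_lit 191)) (XT.lf (nat_lit 0) (nat_lit 72269248902) (nat_lit 76) (nat_lit 92754117195) (nat_lit 76) (nat_lit 74496161474) (nat_lit 3) (nat_lit 4) (nat_lit 4) (nat_lit 5) (nat_lit 4) (nat_lit 4) (nat_lit 328) (nat_lit 262) (nat_lit 190)))) (XT.nd (nat_lit 156) (nat_lit 0) (nat_lit 0) (XT.nd (nat_lit 78) (nat_lit 0) (nat_lit 0) (XT.lf (nat_lit 0) (nat_lit 92806159668) (nat_lit 76) (nat_lit 91753188760) (nat_lit 76) (nat_lit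 73489908101) (nat_lit 3) (nat_lit 4) (nat_lit 4) (nat_lit 5) (nat_lit 4) (nat_lit 4) (nat_lit 329) (nat_lit 262) (nat_lit 189)) (XT.lf (nat_lit 0) (nat_lit 114977829643) (nat_lit 76) (nat_lit 90676048088) (nat_lit 76) (nat_lit 72407836930) (nat_lit 3) (nat_lit 4) (nat_lit 4) (nat_lit 5) (nat_lit 4) (nat_lit 4) (nat_lit 330) (nat_lit 262) (nat_lit 188))) (XT.nd (nat_lit 78) (nat_lit 0) (nat_lit 0) (XT.lf (nat_lit 0) (nat_lit 138915646500) (nat_lit 76) (nat_lit 89516312122) (nat_lit 76) (nat_lit 71243535688) (nat_lit 3) (nat_lit 4) (nat_lit 4) (nat_lit 5) (nat_lit 4) (nat_lit 4) (nat_lit 331) (nat_lit 262) (nat_lit 187)) (XT.lf (nat_lit 0) (nat_lit 164761463968) (nat_lit 76) (nat_lit 88267108354) (nat_lit 76) (nat_lit 69990104813) (nat_lit 3) (nat_lit 4) (nat_lit 4) (nat_lit 5) (nat_lit 4) (nat_lit 4) (nat_lit 332) (nat_lit 262) (nat_lit 186))))) (XT.nd (nat_lit 312) (nat_lit 0) (nat_lit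 0) (XT.nd (nat_lit 156) (nat_lit 0) (nat_lit 0) (XT.nd (nat_lit 78) (nat_lit 0) (nat_lit 0) (XT.lf (nat_lit 0) (nat_lit 192668442448) (nat_lit 76) (nat_lit 86921034094) (nat_lit 76) (nat_lit 68640116565) (nat_lit 3) (nat_lit 4) (nat_lit 4) (nat_lit 5) (nat_lit 4) (nat_lit 4) (nat_lit 333) (nat_lit 262) (nat_lit 185)) (XT.lf (nat_lit 0) (nat_lit 222801956627) (nat_lit 76) (nat_lit 85470112607) (nat_lit 76) (nat_lit 67185571014) (nat_lit 3) (nat_lit 4) (nat_lit 4) (nat_lit 5) (nat_lit 4) (nat_lit 4) (nat_lit 334) (nat_lit 262) (nat_lit 184))) (XT.nd (nat_lit 78) (nat_lit 0) (nat_lit 0) (XT.lf (nat_lit 0) (nat_lit 255340575477) (nat_lit 76) (nat_lit 83905745838) (nat_lit 76) (nat_lit 65617848631) (nat_lit 3) (nat_lit 4) (nat_lit 4) (nat_lit 5) (nat_lit 4) (nat_lit 4) (nat_lit 335) (nat_lit 262) (nat_lit 183)) (XT.lf (nat_lit 0) (nat_lit 290477120444) (nat_lit 76) (nat_lit 82218663467)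 (nat_lit 76) (nat_lit 63927659209) (nat_lit 3) (nat_lit 4) (nat_lit 4) (nat_lit 5) (nat_lit 4) (nat_lit 4) (nat_lit 336) (nat_lit 262) (nat_lit 182)))) (XT.nd (nat_lit 156) (nat_lit 0) (nat_lit 0) (XT.nd (nat_lit 78) (nat_lit 0) (nat_lit 0) (XT.lf (nat_lit 0) (nat_lit 328419808090) (nat_lit 76) (nat_lit 80398867968) (nat_lit 76) (nat_lit 62104986811) (nat_lit 3) (nat_lit 4) (nat_lit 4) (nat_lit 5) (nat_lit 4) (nat_lit 4) (nat_lit 337) (nat_lit 262) (nat_lit 181)) (XT.lf (nat_lit 0) (nat_lit 369393483973) (nat_lit 76) (nat_lit 78435575367) (nat_lit 76) (nat_lit 60139030416) (nat_lit 3) (nat_lit 4) (nat_lit 4) (nat_lit 5) (nat_lit 4) (nat_lit 4) (nat_lit 338) (nat_lit 262) (nat_lit 180))) (XT.nd (nat_lit 78) (nat_lit 0) (nat_lit 0) (XT.lf (nat_lit 0) (nat_lit 413640955059) (nat_lit 76) (nat_lit 76317151338) (nat_lit 76) (nat_lit 58018139911) (nat_lit 3) (nat_lit 4) (nat_lit 4) (nat_lit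 5) (nat_lit 4) (nat_lit 4) (nat_lit 339) (nat_lit 262) (nat_lit 179)) (XT.lf (nat_lit 0) (nat_lit 461424428586) (nat_lit 76) (nat_lit 74031042258) (nat_lit 76) (nat_lit 55729747056) (nat_lit 3) (nat_lit 4) (nat_lit 4) (nat_lit 5) (nat_lit 4) (nat_lit 4) (nat_lit 340) (nat_lit 262) (nat_lit 178))))))))
noncomputable def xc54 : XT := (XT.nd (nat_lit 34944) (nat_lit 0) (nat_lit 760) (XT.nd (nat_lit 1092) (nat_lit 76) (nat_lit 0) (XT.nd (nat_lit 546) (nat_lit 76) (nat_lit 0) (XT.nd (nat_lit 234) (nat_lit 0) (nat_lit 0) (XT.nd (nat_lit 78) (nat_lit 0) (nat_lit 0) (XT.lf (nat_lit 0) (nat_lit 513027065878) (nat_lit 76) (nat_lit 71563700814) (nat_lit 76) (nat_lit 53260291005) (nat_lit 3) (nat_lit 4) (nat_lit 4) (nat_lit 5) (nat_lit 4) (nat_lit 4) (nat_lit 341) (nat_lit 262) (nat_lit 177)) (XT.nd (nat_lit 78) (nat_lit 0) (nat_lit 0) (XT.lf (nat_lit 0) (nat_lit 568754660340) (nat_lit 76) (nat_lit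 68900505721) (nat_lit 76) (nat_lit 50595137944) (nat_lit 3) (nat_lit 4) (nat_lit 4) (nat_lit 5) (nat_lit 4) (nat_lit 4) (nat_lit 342) (nat_lit 262) (nat_lit 176)) (XT.lf (nat_lit 0) (nat_lit 628937449570) (nat_lit 76) (nat_lit 66025675085) (nat_lit 76) (nat_lit 47718494374) (nat_lit 3) (nat_lit 4) (nat_lit 4) (nat_lit 5) (nat_lit 4) (nat_lit 4) (nat_lit 343) (nat_lit 262) (nat_lit 175)))) (XT.nd (nat_lit 156) (nat_lit 0) (nat_lit 0) (XT.nd (nat_lit 78) (nat_lit 0) (nat_lit 0) (XT.lf (nat_lit 0) (nat_lit 693932072319) (nat_lit 76) (nat_lit 62922172871) (nat_lit 76) (nat_lit 44613313517) (nat_lit 3) (nat_lit 4) (nat_lit 4) (nat_lit 5) (nat_lit 4) (nat_lit 4) (nat_lit 344) (nat_lit 262) (nat_lit 174)) (XT.lf (nat_lit 0) (nat_lit 764123681907) (nat_lit 76) (nat_lit 59571607955) (nat_lit 76) (nat_lit 41261194303) (nat_lit 3) (nat_lit 4) (nat_lit 4) (nat_lit 5) (nat_lit 4) (nat_lit 4) (nat_lit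 345) (nat_lit 262) (nat_lit 173))) (XT.nd (nat_lit 78) (nat_lit 0) (nat_lit 0) (XT.lf (nat_lit 0) (nat_lit 839928228612) (nat_lit 76) (nat_lit 55954125138) (nat_lit 76) (nat_lit 37642272320) (nat_lit 3) (nat_lit 4) (nat_lit 4) (nat_lit 5) (nat_lit 4) (nat_lit 4) (nat_lit 346) (nat_lit 262) (nat_lit 172)) (XT.lf (nat_lit 0) (nat_lit 921794924564) (nat_lit 76) (nat_lit 52048287485) (nat_lit 76) (nat_lit 33735102106) (nat_lit 3) (nat_lit 4) (nat_lit 4) (nat_lit 5) (nat_lit 4) (nat_lit 4) (nat_lit 347) (nat_lit 262) (nat_lit 171))))) (XT.nd (nat_lit 234) (nat_lit 76) (nat_lit 0) (XT.nd (nat_lit 78) (nat_lit 0) (nat_lit 0) (XT.lf (nat_lit 0) (nat_lit 1010208905738) (nat_lit 76) (nat_lit 47830949290) (nat_lit 76) (nat_lit 29516530059) (nat_lit 3) (nat_lit 4) (nat_lit 4) (nat_lit 5) (nat_lit 4) (nat_lit 4) (nat_lit 348) (nat_lit 262) (nat_lit 170)) (XT.nd (nat_lit 78) (nat_lit 0) (nat_lit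 0) (XT.lf (nat_lit 0) (nat_lit 1105694106838) (nat_lit 76) (nat_lit 43277118920) (nat_lit 76) (nat_lit 24961557233) (nat_lit 3) (nat_lit 4) (nat_lit 4) (nat_lit 5) (nat_lit 4) (nat_lit 4) (nat_lit 349) (nat_lit 262) (nat_lit 169)) (XT.lf (nat_lit 0) (nat_lit 1208816366093) (nat_lit 76) (nat_lit 38359810714) (nat_lit 76) (nat_lit 20043191197) (nat_lit 3) (nat_lit 4) (nat_lit 4) (nat_lit 5) (nat_lit 4) (nat_lit 4) (nat_lit 350) (nat_lit 262) (nat_lit 168)))) (XT.nd (nat_lit 156) (nat_lit 76) (nat_lit 0) (XT.nd (nat_lit 78) (nat_lit 0) (nat_lit 0) (XT.lf (nat_lit 0) (nat_lit 1320186778371) (nat_lit 76) (nat_lit 33049885067) (nat_lit 76) (nat_lit 14732286079) (nat_lit 3) (nat_lit 4) (nat_lit 4) (nat_lit 5) (nat_lit 4) (nat_lit 4) (nat_lit 351) (nat_lit 262) (nat_lit 167)) (XT.lf (nat_lit 0) (nat_lit 1440465316487) (nat_lit 76) (nat_lit 27315875754) (nat_lit 76) (nat_lit 8997369847) (nat_lit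 3) (nat_lit 4) (nat_lit 4) (nat_lit 5) (nat_lit 4) (nat_lit 4) (nat_lit 352) (nat_lit 262) (nat_lit 166))) (XT.nd (nat_lit 78) (nat_lit 76) (nat_lit 0) (XT.lf (nat_lit 0) (nat_lit 1570364742148) (nat_lit 76) (nat_lit 21123803460) (nat_lit 76) (nat_lit 2804457814) (nat_lit 3) (nat_lit 4) (nat_lit 4) (nat_lit 5) (nat_lit 4) (nat_lit 4) (nat_lit 353) (nat_lit 262) (nat_lit 165)) (XT.lf (nat_lit 0) (nat_lit 3688897931) (nat_lit 152) (nat_lit 10647215485) (nat_lit 76) (nat_lit 1706865070791) (nat_lit 2) (nat_lit 5) (nat_lit 4) (nat_lit 5) (nat_lit 3) (nat_lit 4) (nat_lit 354) (nat_lit 262) (nat_lit 164)))))) (XT.nd (nat_lit 546) (nat_lit 0) (nat_lit 0) (XT.nd (nat_lit 234) (nat_lit 0) (nat_lit 0) (XT.nd (nat_lit 78) (nat_lit 0) (nat_lit 0) (XT.lf (nat_lit 0) (nat_lit 3812980422) (nat_lit 76) (nat_lit 6828280897) (nat_lit 152) (nat_lit 1847607647054) (nat_lit 1) (nat_lit 5) (nat_lit 2) (nat_lit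 5) (nat_lit 3) (nat_lit 4) (nat_lit 355) (nat_lit 262) (nat_lit 163)) (XT.nd (nat_lit 78) (nat_lit 0) (nat_lit 0) (XT.lf (nat_lit 0) (nat_lit 18478633259) (nat_lit 152) (nat_lit 1986241239805) (nat_lit 0) (nat_lit 1514272393) (nat_lit 1) (nat_lit 5) (nat_lit 3) (nat_lit 4) (nat_lit 1) (nat_lit 4) (nat_lit 356) (nat_lit 262) (nat_lit 162)) (XT.lf (nat_lit 0) (nat_lit 27119756628) (nat_lit 152) (nat_lit 2128769480198) (nat_lit 0) (nat_lit 10154824250) (nat_lit 1) (nat_lit 5) (nat_lit 3) (nat_lit 4) (nat_lit 1) (nat_lit 4) (nat_lit 357) (nat_lit 262) (nat_lit 161)))) (XT.nd (nat_lit 156) (nat_lit 0) (nat_lit 0) (XT.nd (nat_lit 78) (nat_lit 0) (nat_lit 0) (XT.lf (nat_lit 0) (nat_lit 36451617763) (nat_lit 152) (nat_lit 2282701040607) (nat_lit 0) (nat_lit 19486156206) (nat_lit 1) (nat_lit 5) (nat_lit 3) (nat_lit 4) (nat_lit 1) (nat_lit 4) (nat_lit 358) (nat_lit 262) (nat_lit 160)) (XT.lf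 (nat_lit 0) (nat_lit 46529516582) (nat_lit 152) (nat_lit 2448948108056) (nat_lit 0) (nat_lit 29563565045) (nat_lit 1) (nat_lit 5) (nat_lit 3) (nat_lit 4) (nat_lit 1) (nat_lit 4) (nat_lit 359) (nat_lit 262) (nat_lit 159))) (XT.nd (nat_lit 78) (nat_lit 0) (nat_lit 0) (XT.lf (nat_lit 0) (nat_lit 57413173966) (nat_lit 152) (nat_lit 2628495850353) (nat_lit 0) (nat_lit 40446768745) (nat_lit 1) (nat_lit 5) (nat_lit 3) (nat_lit 4) (nat_lit 1) (nat_lit 4) (nat_lit 360) (nat_lit 262) (nat_lit 158)) (XT.lf (nat_lit 0) (nat_lit 69167085665) (nat_lit 152) (nat_lit 2822408254117) (nat_lit 0) (nat_lit 52200260365) (nat_lit 1) (nat_lit 5) (nat_lit 3) (nat_lit 4) (nat_lit 1) (nat_lit 4) (nat_lit 361) (nat_lit 262) (nat_lit 157))))) (XT.nd (nat_lit 32994) (nat_lit 0) (nat_lit 3952) (XT.nd (nat_lit 78) (nat_lit 0) (nat_lit 0) (XT.lf (nat_lit 0) (nat_lit 81860904487) (nat_lit 152) (nat_lit 3031834429891)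 (nat_lit 0) (nat_lit 64893690225) (nat_lit 1) (nat_lit 5) (nat_lit 3) (nat_lit 4) (nat_lit 1) (nat_lit 4) (nat_lit 362) (nat_lit 262) (nat_lit 156)) (XT.nd (nat_lit 32838) (nat_lit 0) (nat_lit 4256) (XT.lf (nat_lit 0) (nat_lit 95569853062) (nat_lit 152) (nat_lit 3258015421679) (nat_lit 0) (nat_lit 78602278650) (nat_lit 1) (nat_lit 5) (nat_lit 3) (nat_lit 4) (nat_lit 1) (nat_lit 4) (nat_lit 363) (nat_lit 262) (nat_lit 155)) (XT.lf (nat_lit 0) (nat_lit 455141749) (nat_lit 0) (nat_lit 455141749) (nat_lit 228) (nat_lit 2443659462) (nat_lit 57) (nat_lit 5) (nat_lit 57) (nat_lit 3) (nat_lit 60) (nat_lit 3) (nat_lit 263) (nat_lit 263) (nat_lit 254)))) (XT.nd (nat_lit 156) (nat_lit 304) (nat_lit 0) (XT.nd (nat_lit 78) (nat_lit 0) (nat_lit 0) (XT.lf (nat_lit 0) (nat_lit 3869643595) (nat_lit 228) (nat_lit 2726247748) (nat_lit 304) (nat_lit 210298125) (nat_lit 57) (nat_lit 5) (nat_lit 60) (nat_lit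 3) (nat_lit 61) (nat_lit 5) (nat_lit 264) (nat_lit 263) (nat_lit 253)) (XT.lf (nat_lit 76) (nat_lit 472895905) (nat_lit 0) (nat_lit 5449950691) (nat_lit 304) (nat_lit 1003486409) (nat_lit 58) (nat_lit 5) (nat_lit 57) (nat_lit 5) (nat_lit 61) (nat_lit 5) (nat_lit 265) (nat_lit 263) (nat_lit 252))) (XT.nd (nat_lit 78) (nat_lit 0) (nat_lit 0) (XT.lf (nat_lit 0) (nat_lit 917501795) (nat_lit 304) (nat_lit 3121039200) (nat_lit 380) (nat_lit 3025481036) (nat_lit 53) (nat_lit 5) (nat_lit 57) (nat_lit 5) (nat_lit 58) (nat_lit 5) (nat_lit 266) (nat_lit 263) (nat_lit 251)) (XT.lf (nat_lit 76) (nat_lit 352951257) (nat_lit 0) (nat_lit 2418533056) (nat_lit 380) (nat_lit 4453420365) (nat_lit 54) (nat_lit 5) (nat_lit 53) (nat_lit 5) (nat_lit 58) (nat_lit 5) (nat_lit 267) (nat_lit 263) (nat_lit 250))))))) (XT.nd (nat_lit 1092) (nat_lit 1064) (nat_lit 0) (XT.nd (nat_lit 546) (nat_lit 988) (nat_lit 0)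 (XT.nd (nat_lit 234) (nat_lit 836) (nat_lit 0) (XT.nd (nat_lit 78) (nat_lit 304) (nat_lit 0) (XT.lf (nat_lit 76) (nat_lit 4168718134) (nat_lit 0) (nat_lit 525670038) (nat_lit 380) (nat_lit 2711497504) (nat_lit 54) (nat_lit 5) (nat_lit 53) (nat_lit 5) (nat_lit 58) (nat_lit 5) (nat_lit 268) (nat_lit 263) (nat_lit 249)) (XT.nd (nat_lit 78) (nat_lit 76) (nat_lit 0) (XT.lf (nat_lit 0) (nat_lit 560546541) (nat_lit 304) (nat_lit 6109189986) (nat_lit 380) (nat_lit 940530724) (nat_lit 50) (nat_lit 5) (nat_lit 54) (nat_lit 5) (nat_lit 55) (nat_lit 5) (nat_lit 269) (nat_lit 263) (nat_lit 248)) (XT.lf (nat_lit 0) (nat_lit 880544000) (nat_lit 380) (nat_lit 3141880129) (nat_lit 76) (nat_lit 3810835466) (nat_lit 49) (nat_lit 5) (nat_lit 54) (nat_lit 5) (nat_lit 50) (nat_lit 5) (nat_lit 270) (nat_lit 263) (nat_lit 247)))) (XT.nd (nat_lit 156) (nat_lit 456) (nat_lit 0) (XT.nd (nat_lit 78) (nat_lit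 0) (nat_lit 0) (XT.lf (nat_lit 0) (nat_lit 988020299) (nat_lit 380) (nat_lit 1695748994) (nat_lit 456) (nat_lit 5398029325) (nat_lit 44) (nat_lit 5) (nat_lit 49) (nat_lit 5) (nat_lit 50) (nat_lit 5) (nat_lit 271) (nat_lit 263) (nat_lit 246)) (XT.lf (nat_lit 0) (nat_lit 4610351097) (nat_lit 456) (nat_lit 2862191244) (nat_lit 76) (nat_lit 879946704) (nat_lit 44) (nat_lit 5) (nat_lit 50) (nat_lit 5) (nat_lit 45) (nat_lit 5) (nat_lit 272) (nat_lit 263) (nat_lit 245))) (XT.nd (nat_lit 78) (nat_lit 0) (nat_lit 0) (XT.lf (nat_lit 0) (nat_lit 1630676803) (nat_lit 456) (nat_lit 5024490619) (nat_lit 532) (nat_lit 1993090649) (nat_lit 38) (nat_lit 5) (nat_lit 44) (nat_lit 5) (nat_lit 45) (nat_lit 5) (nat_lit 273) (nat_lit 263) (nat_lit 244)) (XT.lf (nat_lit 0) (nat_lit 6533881686) (nat_lit 456) (nat_lit 2294925371) (nat_lit 532) (nat_lit 142173634) (nat_lit 38) (nat_lit 5) (nat_lit 44) (nat_lit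 5) (nat_lit 45) (nat_lit 5) (nat_lit 274) (nat_lit 263) (nat_lit 243))))) (XT.nd (nat_lit 234) (nat_lit 456) (nat_lit 0) (XT.nd (nat_lit 78) (nat_lit 228) (nat_lit 0) (XT.lf (nat_lit 0) (nat_lit 1734116415) (nat_lit 304) (nat_lit 6859106644) (nat_lit 76) (nat_lit 725548926) (nat_lit 34) (nat_lit 5) (nat_lit 38) (nat_lit 5) (nat_lit 35) (nat_lit 5) (nat_lit 275) (nat_lit 263) (nat_lit 242)) (XT.nd (nat_lit 78) (nat_lit 228) (nat_lit 0) (XT.lf (nat_lit 0) (nat_lit 3778293353) (nat_lit 304) (nat_lit 1982725979) (nat_lit 76) (nat_lit 3931440383) (nat_lit 34) (nat_lit 5) (nat_lit 38) (nat_lit 5) (nat_lit 35) (nat_lit 5) (nat_lit 276) (nat_lit 263) (nat_lit 241)) (XT.lf (nat_lit 0) (nat_lit 3344195199) (nat_lit 228) (nat_lit 2627321415) (nat_lit 304) (nat_lit 4126060559) (nat_lit 31) (nat_lit 5) (nat_lit 34) (nat_lit 5) (nat_lit 35) (nat_lit 5) (nat_lit 277) (nat_lit 263) (nat_lit 240))))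 (XT.nd (nat_lit 156) (nat_lit 228) (nat_lit 0) (XT.nd (nat_lit 78) (nat_lit 228) (nat_lit 0) (XT.lf (nat_lit 0) (nat_lit 8323303692) (nat_lit 304) (nat_lit 1451756179) (nat_lit 76) (nat_lit 761743535) (nat_lit 31) (nat_lit 5) (nat_lit 35) (nat_lit 5) (nat_lit 32) (nat_lit 5) (nat_lit 278) (nat_lit 263) (nat_lit 239)) (XT.lf (nat_lit 0) (nat_lit 4318642817) (nat_lit 228) (nat_lit 6632695590) (nat_lit 304) (nat_lit 53103044) (nat_lit 28) (nat_lit 5) (nat_lit 31) (nat_lit 5) (nat_lit 32) (nat_lit 5) (nat_lit 279) (nat_lit 263) (nat_lit 238))) (XT.nd (nat_lit 78) (nat_lit 152) (nat_lit 0) (XT.lf (nat_lit 0) (nat_lit 2124225913) (nat_lit 304) (nat_lit 1034109829) (nat_lit 76) (nat_lit 8350391038) (nat_lit 27) (nat_lit 5) (nat_lit 31) (nat_lit 5) (nat_lit 28) (nat_lit 5) (nat_lit 280) (nat_lit 263) (nat_lit 237)) (XT.lf (nat_lit 0) (nat_lit 4539358588) (nat_lit 228) (nat_lit 6833911083)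 (nat_lit 76) (nat_lit 674911697) (nat_lit 25) (nat_lit 5) (nat_lit 28) (nat_lit 5) (nat_lit 26) (nat_lit 5) (nat_lit 281) (nat_lit 263) (nat_lit 236)))))) (XT.nd (nat_lit 546) (nat_lit 532) (nat_lit 0) (XT.nd (nat_lit 234) (nat_lit 380) (nat_lit 0) (XT.nd (nat_lit 78) (nat_lit 152) (nat_lit 0) (XT.lf (nat_lit 0) (nat_lit 7185153140) (nat_lit 228) (nat_lit 790432826) (nat_lit 76) (nat_lit 4652447001) (nat_lit 25) (nat_lit 5) (nat_lit 28) (nat_lit 5) (nat_lit 26) (nat_lit 5) (nat_lit 282) (nat_lit 263) (nat_lit 235)) (XT.nd (nat_lit 78) (nat_lit 0) (nat_lit 0) (XT.lf (nat_lit 0) (nat_lit 5940677366) (nat_lit 152) (nat_lit 4176666373) (nat_lit 228) (nat_lit 3131169562) (nat_lit 23) (nat_lit 5) (nat_lit 25) (nat_lit 5) (nat_lit 26) (nat_lit 5) (nat_lit 283) (nat_lit 263) (nat_lit 234)) (XT.lf (nat_lit 0) (nat_lit 13164560937) (nat_lit 152) (nat_lit 75886443) (nat_lit 228) (nat_lit 681880630)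 (nat_lit 23) (nat_lit 5) (nat_lit 25) (nat_lit 5) (nat_lit 26) (nat_lit 5) (nat_lit 284) (nat_lit 263) (nat_lit 233)))) (XT.nd (nat_lit 156) (nat_lit 152) (nat_lit 0) (XT.nd (nat_lit 78) (nat_lit 0) (nat_lit 0) (XT.lf (nat_lit 0) (nat_lit 2068821421) (nat_lit 228) (nat_lit 8241068393) (nat_lit 76) (nat_lit 4320259818) (nat_lit 20) (nat_lit 5) (nat_lit 23) (nat_lit 5) (nat_lit 21) (nat_lit 5) (nat_lit 285) (nat_lit 263) (nat_lit 232)) (XT.lf (nat_lit 0) (nat_lit 4965724006) (nat_lit 228) (nat_lit 1351892326) (nat_lit 76) (nat_lit 9078686193) (nat_lit 20) (nat_lit 5) (nat_lit 23) (nat_lit 5) (nat_lit 21) (nat_lit 5) (nat_lit 286) (nat_lit 263) (nat_lit 231))) (XT.nd (nat_lit 78) (nat_lit 0) (nat_lit 0) (XT.lf (nat_lit 0) (nat_lit 6321784332) (nat_lit 152) (nat_lit 1868851783) (nat_lit 228) (nat_lit 8025560135) (nat_lit 18) (nat_lit 5) (nat_lit 20) (nat_lit 5) (nat_lit 21) (nat_lit 5)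 (nat_lit 287) (nat_lit 263) (nat_lit 230)) (XT.lf (nat_lit 0) (nat_lit 11727824578) (nat_lit 228) (nat_lit 2568600871) (nat_lit 76) (nat_lit 2801051493) (nat_lit 18) (nat_lit 5) (nat_lit 21) (nat_lit 5) (nat_lit 19) (nat_lit 4) (nat_lit 288) (nat_lit 263) (nat_lit 229))))) (XT.nd (nat_lit 312) (nat_lit 228) (nat_lit 0) (XT.nd (nat_lit 156) (nat_lit 152) (nat_lit 0) (XT.nd (nat_lit 78) (nat_lit 76) (nat_lit 0) (XT.lf (nat_lit 0) (nat_lit 5491136794) (nat_lit 76) (nat_lit 10187226912) (nat_lit 152) (nat_lit 2360594242) (nat_lit 17) (nat_lit 5) (nat_lit 18) (nat_lit 5) (nat_lit 19) (nat_lit 4) (nat_lit 289) (nat_lit 263) (nat_lit 228)) (XT.lf (nat_lit 0) (nat_lit 867051320) (nat_lit 152) (nat_lit 4810647092) (nat_lit 76) (nat_lit 13374670392) (nat_lit 16) (nat_lit 5) (nat_lit 18) (nat_lit 5) (nat_lit 17) (nat_lit 5) (nat_lit 290) (nat_lit 263) (nat_lit 227))) (XT.nd (nat_lit 78) (nat_lit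 0) (nat_lit 0) (XT.lf (nat_lit 0) (nat_lit 3590627660) (nat_lit 152) (nat_lit 675073761) (nat_lit 228) (nat_lit 15873121408) (nat_lit 14) (nat_lit 5) (nat_lit 16) (nat_lit 5) (nat_lit 17) (nat_lit 5) (nat_lit 291) (nat_lit 263) (nat_lit 226)) (XT.lf (nat_lit 0) (nat_lit 8139910979) (nat_lit 228) (nat_lit 8555515559) (nat_lit 76) (nat_lit 4600567257) (nat_lit 14) (nat_lit 5) (nat_lit 17) (nat_lit 5) (nat_lit 15) (nat_lit 4) (nat_lit 292) (nat_lit 263) (nat_lit 225)))) (XT.nd (nat_lit 156) (nat_lit 152) (nat_lit 0) (XT.nd (nat_lit 78) (nat_lit 76) (nat_lit 0) (XT.lf (nat_lit 0) (nat_lit 12299940448) (nat_lit 228) (nat_lit 9766980) (nat_lit 76) (nat_lit 10238047409) (nat_lit 14) (nat_lit 5) (nat_lit 17) (nat_lit 5) (nat_lit 15) (nat_lit 4) (nat_lit 293) (nat_lit 263) (nat_lit 224)) (XT.lf (nat_lit 0) (nat_lit 9638062499) (nat_lit 76) (nat_lit 7347939448) (nat_lit 152) (nat_lit 6898277042)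 (nat_lit 13) (nat_lit 5) (nat_lit 14) (nat_lit 5) (nat_lit 15) (nat_lit 4) (nat_lit 294) (nat_lit 263) (nat_lit 223))) (XT.nd (nat_lit 78) (nat_lit 152) (nat_lit 0) (XT.lf (nat_lit 0) (nat_lit 19996172899) (nat_lit 76) (nat_lit 2013839764) (nat_lit 152) (nat_lit 3320741899) (nat_lit 13) (nat_lit 5) (nat_lit 14) (nat_lit 5) (nat_lit 15) (nat_lit 4) (nat_lit 295) (nat_lit 263) (nat_lit 222)) (XT.lf (nat_lit 0) (nat_lit 679847785) (nat_lit 152) (nat_lit 22539326764) (nat_lit 76) (nat_lit 3659671725) (nat_lit 11) (nat_lit 5) (nat_lit 13) (nat_lit 5) (nat_lit 12) (nat_lit 4) (nat_lit 296) (nat_lit 263) (nat_lit 221))))))))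
noncomputable def xc55 : XT := (XT.nd (nat_lit 2184) (nat_lit 76) (nat_lit 0) (XT.nd (nat_lit 1092) (nat_lit 152) (nat_lit 0) (XT.nd (nat_lit 546) (nat_lit 228) (nat_lit 0) (XT.nd (nat_lit 234) (nat_lit 76) (nat_lit 0) (XT.nd (nat_lit 78) (nat_lit 76) (nat_lit 0) (XT.lf (nat_lit 0) (nat_lit 4988282456) (nat_lit 152) (nat_lit 13650681763) (nat_lit 76) (nat_lit 9891603775) (nat_lit 11) (nat_lit 5) (nat_lit 13) (nat_lit 5) (nat_lit 12) (nat_lit 4) (nat_lit 297) (nat_lit 263) (nat_lit 220)) (XT.nd (nat_lit 78) (nat_lit 76) (nat_lit 0) (XT.lf (nat_lit 0) (nat_lit 9609217079) (nat_lit 152) (nat_lit 4106636927) (nat_lit 76) (nat_lit 16601202287) (nat_lit 11) (nat_lit 5) (nat_lit 13) (nat_lit 5) (nat_lit 12) (nat_lit 4) (nat_lit 298) (nat_lit 263) (nat_lit 219)) (XT.lf (nat_lit 0) (nat_lit 6473179713) (nat_lit 76) (nat_lit 8252535385) (nat_lit 152) (nat_lit 17510728261) (nat_lit 10) (nat_lit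 5) (nat_lit 11) (nat_lit 5) (nat_lit 12) (nat_lit 4) (nat_lit 299) (nat_lit 263) (nat_lit 218)))) (XT.nd (nat_lit 156) (nat_lit 76) (nat_lit 0) (XT.nd (nat_lit 78) (nat_lit 0) (nat_lit 0) (XT.lf (nat_lit 0) (nat_lit 18082668797) (nat_lit 76) (nat_lit 2252353393) (nat_lit 152) (nat_lit 13967727093) (nat_lit 10) (nat_lit 5) (nat_lit 11) (nat_lit 5) (nat_lit 12) (nat_lit 4) (nat_lit 300) (nat_lit 263) (nat_lit 217)) (XT.lf (nat_lit 0) (nat_lit 26467614882) (nat_lit 152) (nat_lit 6063358687) (nat_lit 0) (nat_lit 3997466376) (nat_lit 10) (nat_lit 5) (nat_lit 12) (nat_lit 4) (nat_lit 10) (nat_lit 4) (nat_lit 301) (nat_lit 263) (nat_lit 216))) (XT.nd (nat_lit 78) (nat_lit 0) (nat_lit 0) (XT.lf (nat_lit 0) (nat_lit 5055638455) (nat_lit 76) (nat_lit 28190139020) (nat_lit 76) (nat_lit 5674051707) (nat_lit 9) (nat_lit 4) (nat_lit 10) (nat_lit 5) (nat_lit 10) (nat_lit 4) (nat_lit 302) (nat_lit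 263) (nat_lit 215)) (XT.lf (nat_lit 0) (nat_lit 17365451440) (nat_lit 76) (nat_lit 23342210591) (nat_lit 76) (nat_lit 783587345) (nat_lit 9) (nat_lit 4) (nat_lit 10) (nat_lit 5) (nat_lit 10) (nat_lit 4) (nat_lit 303) (nat_lit 263) (nat_lit 214))))) (XT.nd (nat_lit 234) (nat_lit 76) (nat_lit 0) (XT.nd (nat_lit 78) (nat_lit 76) (nat_lit 0) (XT.lf (nat_lit 0) (nat_lit 4249969706) (nat_lit 152) (nat_lit 13758071380) (nat_lit 76) (nat_lit 26253570173) (nat_lit 8) (nat_lit 5) (nat_lit 10) (nat_lit 5) (nat_lit 9) (nat_lit 4) (nat_lit 304) (nat_lit 263) (nat_lit 213)) (XT.nd (nat_lit 78) (nat_lit 76) (nat_lit 0) (XT.lf (nat_lit 0) (nat_lit 9622460057) (nat_lit 152) (nat_lit 2619759158) (nat_lit 76) (nat_lit 35011497659) (nat_lit 8) (nat_lit 5) (nat_lit 10) (nat_lit 5) (nat_lit 9) (nat_lit 4) (nat_lit 305) (nat_lit 263) (nat_lit 212)) (XT.lf (nat_lit 0) (nat_lit 9867606478) (nat_lit 76) (nat_lit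 5774628594) (nat_lit 152) (nat_lit 34825584471) (nat_lit 7) (nat_lit 5) (nat_lit 8) (nat_lit 5) (nat_lit 9) (nat_lit 4) (nat_lit 306) (nat_lit 263) (nat_lit 211)))) (XT.nd (nat_lit 156) (nat_lit 76) (nat_lit 0) (XT.nd (nat_lit 78) (nat_lit 0) (nat_lit 0) (XT.lf (nat_lit 0) (nat_lit 22226620361) (nat_lit 152) (nat_lit 30497255493) (nat_lit 0) (nat_lit 1208557719) (nat_lit 7) (nat_lit 5) (nat_lit 9) (nat_lit 4) (nat_lit 7) (nat_lit 4) (nat_lit 307) (nat_lit 263) (nat_lit 210)) (XT.lf (nat_lit 0) (nat_lit 29469626006) (nat_lit 152) (nat_lit 19769306172) (nat_lit 0) (nat_lit 8424758512) (nat_lit 7) (nat_lit 5) (nat_lit 9) (nat_lit 4) (nat_lit 7) (nat_lit 4) (nat_lit 308) (nat_lit 263) (nat_lit 209))) (XT.nd (nat_lit 78) (nat_lit 76) (nat_lit 0) (XT.lf (nat_lit 0) (nat_lit 37275293567) (nat_lit 152) (nat_lit 8213912113) (nat_lit 0) (nat_lit 16205606764) (nat_lit 7) (nat_lit 5) (nat_lit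 9) (nat_lit 4) (nat_lit 7) (nat_lit 4) (nat_lit 309) (nat_lit 263) (nat_lit 208)) (XT.lf (nat_lit 0) (nat_lit 4460537229) (nat_lit 76) (nat_lit 41336617648) (nat_lit 76) (nat_lit 20243950003) (nat_lit 6) (nat_lit 4) (nat_lit 7) (nat_lit 5) (nat_lit 7) (nat_lit 4) (nat_lit 310) (nat_lit 263) (nat_lit 207)))))) (XT.nd (nat_lit 546) (nat_lit 0) (nat_lit 0) (XT.nd (nat_lit 234) (nat_lit 152) (nat_lit 0) (XT.nd (nat_lit 78) (nat_lit 0) (nat_lit 0) (XT.lf (nat_lit 0) (nat_lit 18588286384) (nat_lit 76) (nat_lit 36622008414) (nat_lit 76) (nat_lit 15508062213) (nat_lit 6) (nat_lit 4) (nat_lit 7) (nat_lit 5) (nat_lit 7) (nat_lit 4) (nat_lit 311) (nat_lit 263) (nat_lit 206)) (XT.nd (nat_lit 78) (nat_lit 0) (nat_lit 0) (XT.lf (nat_lit 0) (nat_lit 33820525290) (nat_lit 76) (nat_lit 31542022469) (nat_lit 76) (nat_lit 10408373901) (nat_lit 6) (nat_lit 4) (nat_lit 7) (nat_lit 5) (nat_lit 7) (nat_lit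 4) (nat_lit 312) (nat_lit 263) (nat_lit 205)) (XT.lf (nat_lit 0) (nat_lit 50247519067) (nat_lit 76) (nat_lit 26066556191) (nat_lit 76) (nat_lit 4914664690) (nat_lit 6) (nat_lit 4) (nat_lit 7) (nat_lit 5) (nat_lit 7) (nat_lit 4) (nat_lit 313) (nat_lit 263) (nat_lit 204)))) (XT.nd (nat_lit 156) (nat_lit 76) (nat_lit 0) (XT.nd (nat_lit 78) (nat_lit 0) (nat_lit 0) (XT.lf (nat_lit 0) (nat_lit 955315510) (nat_lit 152) (nat_lit 19181726843) (nat_lit 76) (nat_lit 66985177333) (nat_lit 5) (nat_lit 5) (nat_lit 7) (nat_lit 5) (nat_lit 6) (nat_lit 4) (nat_lit 314) (nat_lit 263) (nat_lit 203)) (XT.lf (nat_lit 0) (nat_lit 7018009591) (nat_lit 152) (nat_lit 6586963528) (nat_lit 76) (nat_lit 79872914303) (nat_lit 5) (nat_lit 5) (nat_lit 7) (nat_lit 5) (nat_lit 6) (nat_lit 4) (nat_lit 315) (nat_lit 263) (nat_lit 202))) (XT.nd (nat_lit 78) (nat_lit 0) (nat_lit 0) (XT.lf (nat_lit 0) (nat_lit 7364294327)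 (nat_lit 76) (nat_lit 6368013189) (nat_lit 152) (nat_lit 86596385766) (nat_lit 4) (nat_lit 5) (nat_lit 5) (nat_lit 5) (nat_lit 6) (nat_lit 4) (nat_lit 316) (nat_lit 263) (nat_lit 201)) (XT.lf (nat_lit 0) (nat_lit 21192937029) (nat_lit 152) (nat_lit 84965997289) (nat_lit 0) (nat_lit 1551905170) (nat_lit 4) (nat_lit 5) (nat_lit 6) (nat_lit 4) (nat_lit 4) (nat_lit 4) (nat_lit 317) (nat_lit 263) (nat_lit 200))))) (XT.nd (nat_lit 234) (nat_lit 0) (nat_lit 0) (XT.nd (nat_lit 78) (nat_lit 0) (nat_lit 0) (XT.lf (nat_lit 0) (nat_lit 29406179546) (nat_lit 152) (nat_lit 76511275379) (nat_lit 0) (nat_lit 9753651545) (nat_lit 4) (nat_lit 5) (nat_lit 6) (nat_lit 4) (nat_lit 4) (nat_lit 4) (nat_lit 318) (nat_lit 263) (nat_lit 199)) (XT.nd (nat_lit 78) (nat_lit 0) (nat_lit 0) (XT.lf (nat_lit 0) (nat_lit 38267555263) (nat_lit 152) (nat_lit 67396980299) (nat_lit 0) (nat_lit 18604382686) (nat_lit 4)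 (nat_lit 5) (nat_lit 6) (nat_lit 4) (nat_lit 4) (nat_lit 4) (nat_lit 319) (nat_lit 263) (nat_lit 198)) (XT.lf (nat_lit 0) (nat_lit 47829576037) (nat_lit 152) (nat_lit 57569101411) (nat_lit 0) (nat_lit 28156547372) (nat_lit 4) (nat_lit 5) (nat_lit 6) (nat_lit 4) (nat_lit 4) (nat_lit 4) (nat_lit 320) (nat_lit 263) (nat_lit 197)))) (XT.nd (nat_lit 156) (nat_lit 0) (nat_lit 0) (XT.nd (nat_lit 78) (nat_lit 0) (nat_lit 0) (XT.lf (nat_lit 0) (nat_lit 58148905695) (nat_lit 152) (nat_lit 46969399434) (nat_lit 0) (nat_lit 38466751021) (nat_lit 4) (nat_lit 5) (nat_lit 6) (nat_lit 4) (nat_lit 4) (nat_lit 4) (nat_lit 321) (nat_lit 263) (nat_lit 196)) (XT.lf (nat_lit 0) (nat_lit 69286695820) (nat_lit 152) (nat_lit 35535061318) (nat_lit 0) (nat_lit 49596091138) (nat_lit 4) (nat_lit 5) (nat_lit 6) (nat_lit 4) (nat_lit 4) (nat_lit 4) (nat_lit 322) (nat_lit 263) (nat_lit 195))) (XT.nd (nat_lit 78) (nat_lit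 0) (nat_lit 0) (XT.lf (nat_lit 0) (nat_lit 81308948130) (nat_lit 152) (nat_lit 23198328023) (nat_lit 0) (nat_lit 61610519367) (nat_lit 4) (nat_lit 5) (nat_lit 6) (nat_lit 4) (nat_lit 4) (nat_lit 4) (nat_lit 323) (nat_lit 263) (nat_lit 194)) (XT.lf (nat_lit 0) (nat_lit 94286905603) (nat_lit 152) (nat_lit 9886092982) (nat_lit 0) (nat_lit 74581232321) (nat_lit 4) (nat_lit 5) (nat_lit 6) (nat_lit 4) (nat_lit 4) (nat_lit 4) (nat_lit 324) (nat_lit 263) (nat_lit 193))))))) (XT.nd (nat_lit 1092) (nat_lit 0) (nat_lit 0) (XT.nd (nat_lit 546) (nat_lit 0) (nat_lit 0) (XT.nd (nat_lit 234) (nat_lit 0) (nat_lit 0) (XT.nd (nat_lit 78) (nat_lit 0) (nat_lit 0) (XT.lf (nat_lit 0) (nat_lit 4716467954) (nat_lit 76) (nat_lit 103694437867) (nat_lit 76) (nat_lit 83982056696) (nat_lit 3) (nat_lit 4) (nat_lit 4) (nat_lit 5) (nat_lit 4) (nat_lit 4) (nat_lit 325) (nat_lit 263) (nat_lit 192)) (XT.nd (nat_lit 78)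 (nat_lit 0) (nat_lit 0) (XT.lf (nat_lit 0) (nat_lit 21039142989) (nat_lit 76) (nat_lit 102890529780) (nat_lit 76) (nat_lit 83171937602) (nat_lit 3) (nat_lit 4) (nat_lit 4) (nat_lit 5) (nat_lit 4) (nat_lit 4) (nat_lit 326) (nat_lit 263) (nat_lit 191)) (XT.lf (nat_lit 0) (nat_lit 38658074951) (nat_lit 76) (nat_lit 102026813727) (nat_lit 76) (nat_lit 82302470615) (nat_lit 3) (nat_lit 4) (nat_lit 4) (nat_lit 5) (nat_lit 4) (nat_lit 4) (nat_lit 327) (nat_lit 263) (nat_lit 190)))) (XT.nd (nat_lit 156) (nat_lit 0) (nat_lit 0) (XT.nd (nat_lit 78) (nat_lit 0) (nat_lit 0) (XT.lf (nat_lit 0) (nat_lit 57677672324) (nat_lit 76) (nat_lit 101098171391) (nat_lit 76) (nat_lit 81368503341) (nat_lit 3) (nat_lit 4) (nat_lit 4) (nat_lit 5) (nat_lit 4) (nat_lit 4) (nat_lit 328) (nat_lit 263) (nat_lit 189)) (XT.lf (nat_lit 0) (nat_lit 78210643834) (nat_lit 76) (nat_lit 100099099704) (nat_lit 76) (nat_lit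 80364501156) (nat_lit 3) (nat_lit 4) (nat_lit 4) (nat_lit 5) (nat_lit 4) (nat_lit 4) (nat_lit 329) (nat_lit 263) (nat_lit 188))) (XT.nd (nat_lit 78) (nat_lit 0) (nat_lit 0) (XT.lf (nat_lit 0) (nat_lit 100378666349) (nat_lit 76) (nat_lit 99023678244) (nat_lit 76) (nat_lit 79284514419) (nat_lit 3) (nat_lit 4) (nat_lit 4) (nat_lit 5) (nat_lit 4) (nat_lit 4) (nat_lit 330) (nat_lit 263) (nat_lit 187)) (XT.lf (nat_lit 0) (nat_lit 124313105929) (nat_lit 76) (nat_lit 97865534141) (nat_lit 76) (nat_lit 78122143209) (nat_lit 3) (nat_lit 4) (nat_lit 4) (nat_lit 5) (nat_lit 4) (nat_lit 4) (nat_lit 331) (nat_lit 263) (nat_lit 186))))) (XT.nd (nat_lit 234) (nat_lit 0) (nat_lit 0) (XT.nd (nat_lit 78) (nat_lit 0) (nat_lit 0) (XT.lf (nat_lit 0) (nat_lit 150155796289) (nat_lit 76) (nat_lit 96617804320) (nat_lit 76) (nat_lit 76870499400) (nat_lit 3) (nat_lit 4) (nat_lit 4) (nat_lit 5) (nat_lit 4) (nat_lit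 4) (nat_lit 332) (nat_lit 263) (nat_lit 185)) (XT.nd (nat_lit 78) (nat_lit 0) (nat_lit 0) (XT.lf (nat_lit 0) (nat_lit 178059879297) (nat_lit 76) (nat_lit 95273094827) (nat_lit 76) (nat_lit 75522165843) (nat_lit 3) (nat_lit 4) (nat_lit 4) (nat_lit 5) (nat_lit 4) (nat_lit 4) (nat_lit 333) (nat_lit 263) (nat_lit 184)) (XT.lf (nat_lit 0) (nat_lit 208190712484) (nat_lit 76) (nat_lit 93823437011) (nat_lit 76) (nat_lit 74069152413) (nat_lit 3) (nat_lit 4) (nat_lit 4) (nat_lit 5) (nat_lit 4) (nat_lit 4) (nat_lit 334) (nat_lit 263) (nat_lit 183)))) (XT.nd (nat_lit 156) (nat_lit 0) (nat_lit 0) (XT.nd (nat_lit 78) (nat_lit 0) (nat_lit 0) (XT.lf (nat_lit 0) (nat_lit 240726848935) (nat_lit 76) (nat_lit 92260240309) (nat_lit 76) (nat_lit 72502848661) (nat_lit 3) (nat_lit 4) (nat_lit 4) (nat_lit 5) (nat_lit 4) (nat_lit 4) (nat_lit 335) (nat_lit 263) (nat_lit 182)) (XT.lf (nat_lit 0) (nat_lit 275861095384)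 (nat_lit 76) (nat_lit 90574241333) (nat_lit 76) (nat_lit 70813972786) (nat_lit 3) (nat_lit 4) (nat_lit 4) (nat_lit 5) (nat_lit 4) (nat_lit 4) (nat_lit 336) (nat_lit 263) (nat_lit 181))) (XT.nd (nat_lit 78) (nat_lit 0) (nat_lit 0) (XT.lf (nat_lit 0) (nat_lit 313801654773) (nat_lit 76) (nat_lit 88755448977) (nat_lit 76) (nat_lit 68992516635) (nat_lit 3) (nat_lit 4) (nat_lit 4) (nat_lit 5) (nat_lit 4) (nat_lit 4) (nat_lit 337) (nat_lit 263) (nat_lit 180)) (XT.lf (nat_lit 0) (nat_lit 354773360046) (nat_lit 76) (nat_lit 86793085213) (nat_lit 76) (nat_lit 67027686395) (nat_lit 3) (nat_lit 4) (nat_lit 4) (nat_lit 5) (nat_lit 4) (nat_lit 4) (nat_lit 338) (nat_lit 263) (nat_lit 179)))))) (XT.nd (nat_lit 546) (nat_lit 0) (nat_lit 0) (XT.nd (nat_lit 234) (nat_lit 0) (nat_lit 0) (XT.nd (nat_lit 78) (nat_lit 0) (nat_lit 0) (XT.lf (nat_lit 0) (nat_lit 399019006495) (nat_lit 76) (nat_lit 84675521219)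 (nat_lit 76) (nat_lit 64907838625) (nat_lit 3) (nat_lit 4) (nat_lit 4) (nat_lit 5) (nat_lit 4) (nat_lit 4) (nat_lit 339) (nat_lit 263) (nat_lit 178)) (XT.nd (nat_lit 78) (nat_lit 0) (nat_lit 0) (XT.lf (nat_lit 0) (nat_lit 446800790542) (nat_lit 76) (nat_lit 82390208466) (nat_lit 76) (nat_lit 62620411267) (nat_lit 3) (nat_lit 4) (nat_lit 4) (nat_lit 5) (nat_lit 4) (nat_lit 4) (nat_lit 340) (nat_lit 263) (nat_lit 177)) (XT.lf (nat_lit 0) (nat_lit 498401863501) (nat_lit 76) (nat_lit 79923604362) (nat_lit 76) (nat_lit 60151849194) (nat_lit 3) (nat_lit 4) (nat_lit 4) (nat_lit 5) (nat_lit 4) (nat_lit 4) (nat_lit 341) (nat_lit 263) (nat_lit 176)))) (XT.nd (nat_lit 156) (nat_lit 0) (nat_lit 0) (XT.nd (nat_lit 78) (nat_lit 0) (nat_lit 0) (XT.lf (nat_lit 0) (nat_lit 554128009507) (nat_lit 76) (nat_lit 77261091992) (nat_lit 76) (nat_lit 57487523890) (nat_lit 3) (nat_lit 4) (nat_lit 4) (nat_lit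 5) (nat_lit 4) (nat_lit 4) (nat_lit 342) (nat_lit 263) (nat_lit 175)) (XT.lf (nat_lit 0) (nat_lit 614309457574) (nat_lit 76) (nat_lit 74386893507) (nat_lit 76) (nat_lit 54611646762) (nat_lit 3) (nat_lit 4) (nat_lit 4) (nat_lit 5) (nat_lit 4) (nat_lit 4) (nat_lit 343) (nat_lit 263) (nat_lit 174))) (XT.nd (nat_lit 78) (nat_lit 0) (nat_lit 0) (XT.lf (nat_lit 0) (nat_lit 679302838505) (nat_lit 76) (nat_lit 71283976617) (nat_lit 76) (nat_lit 51507175574) (nat_lit 3) (nat_lit 4) (nat_lit 4) (nat_lit 5) (nat_lit 4) (nat_lit 4) (nat_lit 344) (nat_lit 263) (nat_lit 173)) (XT.lf (nat_lit 0) (nat_lit 749493298261) (nat_lit 76) (nat_lit 67933953669) (nat_lit 76) (nat_lit 48155713460) (nat_lit 3) (nat_lit 4) (nat_lit 4) (nat_lit 5) (nat_lit 4) (nat_lit 4) (nat_lit 345) (nat_lit 263) (nat_lit 172))))) (XT.nd (nat_lit 312) (nat_lit 0) (nat_lit 0) (XT.nd (nat_lit 156) (nat_lit 0) (nat_lit 0) (XT.nd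 (nat_lit 78) (nat_lit 0) (nat_lit 0) (XT.lf (nat_lit 0) (nat_lit 825296780308) (nat_lit 76) (nat_lit 64316972673) (nat_lit 76) (nat_lit 44537399904) (nat_lit 3) (nat_lit 4) (nat_lit 4) (nat_lit 5) (nat_lit 4) (nat_lit 4) (nat_lit 346) (nat_lit 263) (nat_lit 171)) (XT.lf (nat_lit 0) (nat_lit 907162490465) (nat_lit 76) (nat_lit 60411599669) (nat_lit 76) (nat_lit 40630793047) (nat_lit 3) (nat_lit 4) (nat_lit 4) (nat_lit 5) (nat_lit 4) (nat_lit 4) (nat_lit 347) (nat_lit 263) (nat_lit 170))) (XT.nd (nat_lit 78) (nat_lit 0) (nat_lit 0) (XT.lf (nat_lit 0) (nat_lit 995575558866) (nat_lit 76) (nat_lit 56194691705) (nat_lit 76) (nat_lit 36412742628) (nat_lit 3) (nat_lit 4) (nat_lit 4) (nat_lit 5) (nat_lit 4) (nat_lit 4) (nat_lit 348) (nat_lit 263) (nat_lit 169)) (XT.lf (nat_lit 0) (nat_lit 1091059914806) (nat_lit 76) (nat_lit 51641259698) (nat_lit 76) (nat_lit 31858252791) (nat_lit 3) (nat_lit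 4) (nat_lit 4) (nat_lit 5) (nat_lit 4) (nat_lit 4) (nat_lit 349) (nat_lit 263) (nat_lit 168)))) (XT.nd (nat_lit 156) (nat_lit 0) (nat_lit 0) (XT.nd (nat_lit 78) (nat_lit 0) (nat_lit 0) (XT.lf (nat_lit 0) (nat_lit 1194181391504) (nat_lit 76) (nat_lit 46724320346) (nat_lit 76) (nat_lit 26940333967) (nat_lit 3) (nat_lit 4) (nat_lit 4) (nat_lit 5) (nat_lit 4) (nat_lit 4) (nat_lit 350) (nat_lit 263) (nat_lit 167)) (XT.lf (nat_lit 0) (nat_lit 1305551079194) (nat_lit 76) (nat_lit 41414736230) (nat_lit 76) (nat_lit 21629842933) (nat_lit 3) (nat_lit 4) (nat_lit 4) (nat_lit 5) (nat_lit 4) (nat_lit 4) (nat_lit 351) (nat_lit 263) (nat_lit 166))) (XT.nd (nat_lit 78) (nat_lit 0) (nat_lit 0) (XT.lf (nat_lit 0) (nat_lit 1425828946394) (nat_lit 76) (nat_lit 35681043150) (nat_lit 76) (nat_lit 15895310113) (nat_lit 3) (nat_lit 4) (nat_lit 4) (nat_lit 5) (nat_lit 4) (nat_lit 4) (nat_lit 352) (nat_lit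 263) (nat_lit 165)) (XT.lf (nat_lit 0) (nat_lit 1555727750837) (nat_lit 76) (nat_lit 29489263663) (nat_lit 76) (nat_lit 9702753091) (nat_lit 3) (nat_lit 4) (nat_lit 4) (nat_lit 5) (nat_lit 4) (nat_lit 4) (nat_lit 353) (nat_lit 263) (nat_lit 164))))))))
noncomputable def xc56 : XT := (XT.nd (nat_lit 35022) (nat_lit 0) (nat_lit 456) (XT.nd (nat_lit 33930) (nat_lit 0) (nat_lit 1824) (XT.nd (nat_lit 546) (nat_lit 0) (nat_lit 0) (XT.nd (nat_lit 234) (nat_lit 0) (nat_lit 0) (XT.nd (nat_lit 78) (nat_lit 152) (nat_lit 0) (XT.lf (nat_lit 0) (nat_lit 1696017263215) (nat_lit 76) (nat_lit 22802705745) (nat_lit 76) (nat_lit 3015475231) (nat_lit 3) (nat_lit 4) (nat_lit 4) (nat_lit 5) (nat_lit 4) (nat_lit 4) (nat_lit 354) (nat_lit 263) (nat_lit 163)) (XT.nd (nat_lit 78) (nat_lit 76) (nat_lit 0) (XT.lf (nat_lit 0) (nat_lit 3995743031) (nat_lit 152) (nat_lit 11476751620) (nat_lit 76) (nat_lit 1843423835061)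 (nat_lit 2) (nat_lit 5) (nat_lit 4) (nat_lit 5) (nat_lit 3) (nat_lit 4) (nat_lit 355) (nat_lit 263) (nat_lit 162)) (XT.lf (nat_lit 0) (nat_lit 4139696893) (nat_lit 76) (nat_lit 7364250824) (nat_lit 152) (nat_lit 1995403952700) (nat_lit 1) (nat_lit 5) (nat_lit 2) (nat_lit 5) (nat_lit 3) (nat_lit 4) (nat_lit 356) (nat_lit 263) (nat_lit 161)))) (XT.nd (nat_lit 156) (nat_lit 0) (nat_lit 0) (XT.nd (nat_lit 78) (nat_lit 0) (nat_lit 0) (XT.lf (nat_lit 0) (nat_lit 19967695242) (nat_lit 152) (nat_lit 2145119843501) (nat_lit 0) (nat_lit 1644467583) (nat_lit 1) (nat_lit 5) (nat_lit 3) (nat_lit 4) (nat_lit 1) (nat_lit 4) (nat_lit 357) (nat_lit 263) (nat_lit 160)) (XT.lf (nat_lit 0) (nat_lit 29299310605) (nat_lit 152) (nat_lit 2299051876125) (nat_lit 0) (nat_lit 10975592966) (nat_lit 1) (nat_lit 5) (nat_lit 3) (nat_lit 4) (nat_lit 1) (nat_lit 4) (nat_lit 358) (nat_lit 263) (nat_lit 159))) (XT.nd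 (nat_lit 78) (nat_lit 0) (nat_lit 0) (XT.lf (nat_lit 0) (nat_lit 39376981857) (nat_lit 152) (nat_lit 2465299380810) (nat_lit 0) (nat_lit 21052810533) (nat_lit 1) (nat_lit 5) (nat_lit 3) (nat_lit 4) (nat_lit 1) (nat_lit 4) (nat_lit 359) (nat_lit 263) (nat_lit 158)) (XT.lf (nat_lit 0) (nat_lit 50260428531) (nat_lit 152) (nat_lit 2644847527955) (nat_lit 0) (nat_lit 31935837129) (nat_lit 1) (nat_lit 5) (nat_lit 3) (nat_lit 4) (nat_lit 1) (nat_lit 4) (nat_lit 360) (nat_lit 263) (nat_lit 157))))) (XT.nd (nat_lit 33072) (nat_lit 0) (nat_lit 3876) (XT.nd (nat_lit 78) (nat_lit 0) (nat_lit 0) (XT.lf (nat_lit 0) (nat_lit 62014145127) (nat_lit 152) (nat_lit 2838760306579) (nat_lit 0) (nat_lit 43689164763) (nat_lit 1) (nat_lit 5) (nat_lit 3) (nat_lit 4) (nat_lit 1) (nat_lit 4) (nat_lit 361) (nat_lit 263) (nat_lit 156)) (XT.nd (nat_lit 78) (nat_lit 0) (nat_lit 0) (XT.lf (nat_lit 0) (nat_lit 74707783299)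 (nat_lit 152) (nat_lit 3048186829445) (nat_lit 0) (nat_lit 56382442785) (nat_lit 1) (nat_lit 5) (nat_lit 3) (nat_lit 4) (nat_lit 1) (nat_lit 4) (nat_lit 362) (nat_lit 263) (nat_lit 155)) (XT.lf (nat_lit 0) (nat_lit 88416564606) (nat_lit 152) (nat_lit 3274368142614) (nat_lit 0) (nat_lit 70090890620) (nat_lit 1) (nat_lit 5) (nat_lit 3) (nat_lit 4) (nat_lit 1) (nat_lit 4) (nat_lit 363) (nat_lit 263) (nat_lit 154)))) (XT.nd (nat_lit 156) (nat_lit 0) (nat_lit 76) (XT.nd (nat_lit 78) (nat_lit 380) (nat_lit 0) (XT.lf (nat_lit 0) (nat_lit 1453317590) (nat_lit 0) (nat_lit 1453317590) (nat_lit 228) (nat_lit 550115793) (nat_lit 57) (nat_lit 5) (nat_lit 57) (nat_lit 3) (nat_lit 60) (nat_lit 3) (nat_lit 264) (nat_lit 264) (nat_lit 252)) (XT.lf (nat_lit 0) (nat_lit 656344571) (nat_lit 380) (nat_lit 867673361) (nat_lit 380) (nat_lit 5519302152) (nat_lit 52) (nat_lit 3) (nat_lit 57) (nat_lit 3) (nat_lit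 57) (nat_lit 5) (nat_lit 265) (nat_lit 264) (nat_lit 251))) (XT.nd (nat_lit 78) (nat_lit 0) (nat_lit 0) (XT.lf (nat_lit 0) (nat_lit 2383829828) (nat_lit 304) (nat_lit 4669006890) (nat_lit 380) (nat_lit 138160864) (nat_lit 53) (nat_lit 5) (nat_lit 57) (nat_lit 5) (nat_lit 58) (nat_lit 5) (nat_lit 266) (nat_lit 264) (nat_lit 250)) (XT.lf (nat_lit 0) (nat_lit 4151439735) (nat_lit 304) (nat_lit 1264573635) (nat_lit 380) (nat_lit 1943197802) (nat_lit 53) (nat_lit 5) (nat_lit 57) (nat_lit 5) (nat_lit 58) (nat_lit 5) (nat_lit 267) (nat_lit 264) (nat_lit 249)))))) (XT.nd (nat_lit 546) (nat_lit 912) (nat_lit 0) (XT.nd (nat_lit 234) (nat_lit 836) (nat_lit 0) (XT.nd (nat_lit 78) (nat_lit 380) (nat_lit 0) (XT.lf (nat_lit 76) (nat_lit 2434015837) (nat_lit 0) (nat_lit 3534981680) (nat_lit 380) (nat_lit 1580012277) (nat_lit 54) (nat_lit 5) (nat_lit 53) (nat_lit 5) (nat_lit 58) (nat_lit 5) (nat_lit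 268) (nat_lit 264) (nat_lit 248)) (XT.nd (nat_lit 78) (nat_lit 0) (nat_lit 76) (XT.lf (nat_lit 0) (nat_lit 58925801) (nat_lit 380) (nat_lit 1361784833) (nat_lit 456) (nat_lit 6342445759) (nat_lit 48) (nat_lit 5) (nat_lit 53) (nat_lit 5) (nat_lit 54) (nat_lit 5) (nat_lit 269) (nat_lit 264) (nat_lit 247)) (XT.lf (nat_lit 0) (nat_lit 1697794791) (nat_lit 380) (nat_lit 5334683101) (nat_lit 76) (nat_lit 962983334) (nat_lit 49) (nat_lit 5) (nat_lit 54) (nat_lit 5) (nat_lit 50) (nat_lit 5) (nat_lit 270) (nat_lit 264) (nat_lit 246)))) (XT.nd (nat_lit 156) (nat_lit 532) (nat_lit 0) (XT.nd (nat_lit 78) (nat_lit 380) (nat_lit 0) (XT.lf (nat_lit 0) (nat_lit 3416501302) (nat_lit 380) (nat_lit 1305651005) (nat_lit 76) (nat_lit 3528896060) (nat_lit 49) (nat_lit 5) (nat_lit 54) (nat_lit 5) (nat_lit 50) (nat_lit 5) (nat_lit 271) (nat_lit 264) (nat_lit 245)) (XT.lf (nat_lit 0) (nat_lit 3101791343) (nat_lit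 380) (nat_lit 2128497917) (nat_lit 456) (nat_lit 3300738429) (nat_lit 44) (nat_lit 5) (nat_lit 49) (nat_lit 5) (nat_lit 50) (nat_lit 5) (nat_lit 272) (nat_lit 264) (nat_lit 244))) (XT.nd (nat_lit 78) (nat_lit 532) (nat_lit 0) (XT.lf (nat_lit 0) (nat_lit 7131654579) (nat_lit 456) (nat_lit 1017843177) (nat_lit 76) (nat_lit 689020766) (nat_lit 44) (nat_lit 5) (nat_lit 50) (nat_lit 5) (nat_lit 45) (nat_lit 5) (nat_lit 273) (nat_lit 264) (nat_lit 243)) (XT.lf (nat_lit 0) (nat_lit 58575203) (nat_lit 532) (nat_lit 5387072831) (nat_lit 76) (nat_lit 3721788362) (nat_lit 37) (nat_lit 5) (nat_lit 44) (nat_lit 5) (nat_lit 38) (nat_lit 5) (nat_lit 274) (nat_lit 264) (nat_lit 242))))) (XT.nd (nat_lit 234) (nat_lit 684) (nat_lit 0) (XT.nd (nat_lit 78) (nat_lit 228) (nat_lit 0) (XT.lf (nat_lit 0) (nat_lit 1801758025) (nat_lit 532) (nat_lit 646757113) (nat_lit 76) (nat_lit 7076713685) (nat_lit 37)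 (nat_lit 5) (nat_lit 44) (nat_lit 5) (nat_lit 38) (nat_lit 5) (nat_lit 275) (nat_lit 264) (nat_lit 241)) (XT.nd (nat_lit 78) (nat_lit 0) (nat_lit 0) (XT.lf (nat_lit 0) (nat_lit 3724616630) (nat_lit 304) (nat_lit 5323035169) (nat_lit 76) (nat_lit 861150838) (nat_lit 34) (nat_lit 5) (nat_lit 38) (nat_lit 5) (nat_lit 35) (nat_lit 5) (nat_lit 276) (nat_lit 264) (nat_lit 240)) (XT.lf (nat_lit 0) (nat_lit 5795159509) (nat_lit 304) (nat_lit 210973680) (nat_lit 76) (nat_lit 4317768575) (nat_lit 34) (nat_lit 5) (nat_lit 38) (nat_lit 5) (nat_lit 35) (nat_lit 5) (nat_lit 277) (nat_lit 264) (nat_lit 239)))) (XT.nd (nat_lit 156) (nat_lit 228) (nat_lit 0) (XT.nd (nat_lit 78) (nat_lit 228) (nat_lit 0) (XT.lf (nat_lit 0) (nat_lit 5493231055) (nat_lit 228) (nat_lit 2588852094) (nat_lit 304) (nat_lit 2686388772) (nat_lit 31) (nat_lit 5) (nat_lit 34) (nat_lit 5) (nat_lit 35) (nat_lit 5) (nat_lit 278)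 (nat_lit 264) (nat_lit 238)) (XT.lf (nat_lit 0) (nat_lit 311024539) (nat_lit 228) (nat_lit 10203054489) (nat_lit 304) (nat_lit 737857425) (nat_lit 28) (nat_lit 5) (nat_lit 31) (nat_lit 5) (nat_lit 32) (nat_lit 5) (nat_lit 279) (nat_lit 264) (nat_lit 237))) (XT.nd (nat_lit 78) (nat_lit 152) (nat_lit 0) (XT.lf (nat_lit 0) (nat_lit 1436972280) (nat_lit 304) (nat_lit 5319568806) (nat_lit 76) (nat_lit 5004061366) (nat_lit 27) (nat_lit 5) (nat_lit 31) (nat_lit 5) (nat_lit 28) (nat_lit 5) (nat_lit 280) (nat_lit 264) (nat_lit 236)) (XT.lf (nat_lit 0) (nat_lit 675971025) (nat_lit 152) (nat_lit 3015426585) (nat_lit 228) (nat_lit 8621629836) (nat_lit 25) (nat_lit 5) (nat_lit 27) (nat_lit 5) (nat_lit 28) (nat_lit 5) (nat_lit 281) (nat_lit 264) (nat_lit 235))))))) (XT.nd (nat_lit 1092) (nat_lit 456) (nat_lit 0) (XT.nd (nat_lit 546) (nat_lit 380) (nat_lit 0) (XT.nd (nat_lit 234) (nat_lit 380) (nat_lit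 0) (XT.nd (nat_lit 78) (nat_lit 152) (nat_lit 0) (XT.lf (nat_lit 0) (nat_lit 6231911008) (nat_lit 228) (nat_lit 5565779711) (nat_lit 76) (nat_lit 1103716206) (nat_lit 25) (nat_lit 5) (nat_lit 28) (nat_lit 5) (nat_lit 26) (nat_lit 5) (nat_lit 282) (nat_lit 264) (nat_lit 234)) (XT.nd (nat_lit 78) (nat_lit 0) (nat_lit 0) (XT.lf (nat_lit 0) (nat_lit 870278767) (nat_lit 152) (nat_lit 8141546232) (nat_lit 228) (nat_lit 4522341971) (nat_lit 23) (nat_lit 5) (nat_lit 25) (nat_lit 5) (nat_lit 26) (nat_lit 5) (nat_lit 283) (nat_lit 264) (nat_lit 233)) (XT.lf (nat_lit 0) (nat_lit 8053800847) (nat_lit 152) (nat_lit 4052070615) (nat_lit 228) (nat_lit 2104525143) (nat_lit 23) (nat_lit 5) (nat_lit 25) (nat_lit 5) (nat_lit 26) (nat_lit 5) (nat_lit 284) (nat_lit 264) (nat_lit 232)))) (XT.nd (nat_lit 156) (nat_lit 152) (nat_lit 0) (XT.nd (nat_lit 78) (nat_lit 0) (nat_lit 0) (XT.lf (nat_lit 0) (nat_lit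 452523108) (nat_lit 228) (nat_lit 14132831813) (nat_lit 76) (nat_lit 356863560) (nat_lit 20) (nat_lit 5) (nat_lit 23) (nat_lit 5) (nat_lit 21) (nat_lit 5) (nat_lit 285) (nat_lit 264) (nat_lit 231)) (XT.lf (nat_lit 0) (nat_lit 3322607546) (nat_lit 228) (nat_lit 7283499376) (nat_lit 76) (nat_lit 5104481630) (nat_lit 20) (nat_lit 5) (nat_lit 23) (nat_lit 5) (nat_lit 21) (nat_lit 5) (nat_lit 286) (nat_lit 264) (nat_lit 230))) (XT.nd (nat_lit 78) (nat_lit 0) (nat_lit 0) (XT.lf (nat_lit 0) (nat_lit 38994437) (nat_lit 152) (nat_lit 6332592353) (nat_lit 228) (nat_lit 10173036529) (nat_lit 18) (nat_lit 5) (nat_lit 20) (nat_lit 5) (nat_lit 21) (nat_lit 5) (nat_lit 287) (nat_lit 264) (nat_lit 229)) (XT.lf (nat_lit 0) (nat_lit 8286713620) (nat_lit 152) (nat_lit 1527291900) (nat_lit 228) (nat_lit 7619541563) (nat_lit 18) (nat_lit 5) (nat_lit 20) (nat_lit 5) (nat_lit 21) (nat_lit 5) (nat_lit 288)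 (nat_lit 264) (nat_lit 228))))) (XT.nd (nat_lit 234) (nat_lit 228) (nat_lit 0) (XT.nd (nat_lit 78) (nat_lit 152) (nat_lit 0) (XT.lf (nat_lit 0) (nat_lit 13573391945) (nat_lit 228) (nat_lit 1359902634) (nat_lit 76) (nat_lit 3457082663) (nat_lit 18) (nat_lit 5) (nat_lit 21) (nat_lit 5) (nat_lit 19) (nat_lit 4) (nat_lit 289) (nat_lit 264) (nat_lit 227)) (XT.nd (nat_lit 78) (nat_lit 76) (nat_lit 0) (XT.lf (nat_lit 0) (nat_lit 7308811860) (nat_lit 76) (nat_lit 10497102041) (nat_lit 152) (nat_lit 1604158804) (nat_lit 17) (nat_lit 5) (nat_lit 18) (nat_lit 5) (nat_lit 19) (nat_lit 4) (nat_lit 290) (nat_lit 264) (nat_lit 226)) (XT.lf (nat_lit 0) (nat_lit 1767893291) (nat_lit 152) (nat_lit 3873598930) (nat_lit 76) (nat_lit 14866713674) (nat_lit 16) (nat_lit 5) (nat_lit 18) (nat_lit 5) (nat_lit 17) (nat_lit 5) (nat_lit 291) (nat_lit 264) (nat_lit 225)))) (XT.nd (nat_lit 156) (nat_lit 76) (nat_lit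 0) (XT.nd (nat_lit 78) (nat_lit 0) (nat_lit 0) (XT.lf (nat_lit 0) (nat_lit 5166311981) (nat_lit 152) (nat_lit 241519337) (nat_lit 228) (nat_lit 16276329116) (nat_lit 14) (nat_lit 5) (nat_lit 16) (nat_lit 5) (nat_lit 17) (nat_lit 5) (nat_lit 292) (nat_lit 264) (nat_lit 224)) (XT.lf (nat_lit 0) (nat_lit 9543510915) (nat_lit 228) (nat_lit 7996923014) (nat_lit 76) (nat_lit 5397474288) (nat_lit 14) (nat_lit 5) (nat_lit 17) (nat_lit 5) (nat_lit 15) (nat_lit 4) (nat_lit 293) (nat_lit 264) (nat_lit 223))) (XT.nd (nat_lit 78) (nat_lit 0) (nat_lit 0) (XT.lf (nat_lit 0) (nat_lit 1200460783) (nat_lit 76) (nat_lit 12809019212) (nat_lit 152) (nat_lit 10282595649) (nat_lit 13) (nat_lit 5) (nat_lit 14) (nat_lit 5) (nat_lit 15) (nat_lit 4) (nat_lit 294) (nat_lit 264) (nat_lit 222)) (XT.lf (nat_lit 0) (nat_lit 11530926554) (nat_lit 76) (nat_lit 7486003104) (nat_lit 152) (nat_lit 6722979667) (nat_lit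 13) (nat_lit 5) (nat_lit 14) (nat_lit 5) (nat_lit 15) (nat_lit 4) (nat_lit 295) (nat_lit 264) (nat_lit 221)))))) (XT.nd (nat_lit 546) (nat_lit 228) (nat_lit 0) (XT.nd (nat_lit 234) (nat_lit 76) (nat_lit 0) (XT.nd (nat_lit 78) (nat_lit 152) (nat_lit 0) (XT.lf (nat_lit 0) (nat_lit 22634588078) (nat_lit 76) (nat_lit 1758491852) (nat_lit 152) (nat_lit 2913105382) (nat_lit 13) (nat_lit 5) (nat_lit 14) (nat_lit 5) (nat_lit 15) (nat_lit 4) (nat_lit 296) (nat_lit 264) (nat_lit 220)) (XT.nd (nat_lit 78) (nat_lit 0) (nat_lit 0) (XT.lf (nat_lit 0) (nat_lit 1361953994) (nat_lit 152) (nat_lit 23255948000) (nat_lit 76) (nat_lit 4359964282) (nat_lit 11) (nat_lit 5) (nat_lit 13) (nat_lit 5) (nat_lit 12) (nat_lit 4) (nat_lit 297) (nat_lit 264) (nat_lit 219)) (XT.lf (nat_lit 0) (nat_lit 5968565780) (nat_lit 152) (nat_lit 13736694725) (nat_lit 76) (nat_lit 11060264317) (nat_lit 11) (nat_lit 5) (nat_lit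 13) (nat_lit 5) (nat_lit 12) (nat_lit 4) (nat_lit 298) (nat_lit 264) (nat_lit 218)))) (XT.nd (nat_lit 156) (nat_lit 0) (nat_lit 0) (XT.nd (nat_lit 78) (nat_lit 76) (nat_lit 0) (XT.lf (nat_lit 0) (nat_lit 10916121786) (nat_lit 152) (nat_lit 3503647900) (nat_lit 76) (nat_lit 18278680174) (nat_lit 11) (nat_lit 5) (nat_lit 13) (nat_lit 5) (nat_lit 12) (nat_lit 4) (nat_lit 299) (nat_lit 264) (nat_lit 217)) (XT.lf (nat_lit 0) (nat_lit 7898971286) (nat_lit 76) (nat_lit 8524940025) (nat_lit 152) (nat_lit 18348986815) (nat_lit 10) (nat_lit 5) (nat_lit 11) (nat_lit 5) (nat_lit 12) (nat_lit 4) (nat_lit 300) (nat_lit 264) (nat_lit 216))) (XT.nd (nat_lit 78) (nat_lit 0) (nat_lit 0) (XT.lf (nat_lit 0) (nat_lit 20369964890) (nat_lit 76) (nat_lit 2073469266) (nat_lit 152) (nat_lit 14564219605) (nat_lit 10) (nat_lit 5) (nat_lit 11) (nat_lit 5) (nat_lit 12) (nat_lit 4) (nat_lit 301) (nat_lit 264) (nat_lit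 215)) (XT.lf (nat_lit 0) (nat_lit 29038955452) (nat_lit 152) (nat_lit 5741610387) (nat_lit 0) (nat_lit 4633106412) (nat_lit 10) (nat_lit 5) (nat_lit 12) (nat_lit 4) (nat_lit 10) (nat_lit 4) (nat_lit 302) (nat_lit 264) (nat_lit 214))))) (XT.nd (nat_lit 234) (nat_lit 76) (nat_lit 0) (XT.nd (nat_lit 78) (nat_lit 76) (nat_lit 0) (XT.lf (nat_lit 0) (nat_lit 6246480780) (nat_lit 76) (nat_lit 30098178455) (nat_lit 76) (nat_lit 5652944292) (nat_lit 9) (nat_lit 4) (nat_lit 10) (nat_lit 5) (nat_lit 10) (nat_lit 4) (nat_lit 303) (nat_lit 264) (nat_lit 213)) (XT.nd (nat_lit 78) (nat_lit 76) (nat_lit 0) (XT.lf (nat_lit 0) (nat_lit 19482827600) (nat_lit 76) (nat_lit 24888132173) (nat_lit 76) (nat_lit 406430303) (nat_lit 9) (nat_lit 4) (nat_lit 10) (nat_lit 5) (nat_lit 10) (nat_lit 4) (nat_lit 304) (nat_lit 264) (nat_lit 212)) (XT.lf (nat_lit 0) (nat_lit 4976857328) (nat_lit 152) (nat_lit 14163605020)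 (nat_lit 76) (nat_lit 28630591227) (nat_lit 8) (nat_lit 5) (nat_lit 10) (nat_lit 5) (nat_lit 9) (nat_lit 4) (nat_lit 305) (nat_lit 264) (nat_lit 211)))) (XT.nd (nat_lit 156) (nat_lit 0) (nat_lit 0) (XT.nd (nat_lit 78) (nat_lit 76) (nat_lit 0) (XT.lf (nat_lit 0) (nat_lit 10750488385) (nat_lit 152) (nat_lit 2185717603) (nat_lit 76) (nat_lit 38068653990) (nat_lit 8) (nat_lit 5) (nat_lit 10) (nat_lit 5) (nat_lit 9) (nat_lit 4) (nat_lit 306) (nat_lit 264) (nat_lit 210)) (XT.lf (nat_lit 0) (nat_lit 11284343048) (nat_lit 76) (nat_lit 5956053939) (nat_lit 152) (nat_lit 37236646467) (nat_lit 7) (nat_lit 5) (nat_lit 8) (nat_lit 5) (nat_lit 9) (nat_lit 4) (nat_lit 307) (nat_lit 264) (nat_lit 209))) (XT.nd (nat_lit 78) (nat_lit 0) (nat_lit 0) (XT.lf (nat_lit 0) (nat_lit 24332092788) (nat_lit 152) (nat_lit 32336311311) (nat_lit 0) (nat_lit 1552011733) (nat_lit 7) (nat_lit 5) (nat_lit 9) (nat_lit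 4) (nat_lit 7) (nat_lit 4) (nat_lit 308) (nat_lit 264) (nat_lit 208)) (XT.lf (nat_lit 0) (nat_lit 32130291271) (nat_lit 152) (nat_lit 20794624164) (nat_lit 0) (nat_lit 9327229374) (nat_lit 7) (nat_lit 5) (nat_lit 9) (nat_lit 4) (nat_lit 7) (nat_lit 4) (nat_lit 309) (nat_lit 264) (nat_lit 207))))))))
noncomputable def xc57 : XT := (XT.nd (nat_lit 2184) (nat_lit 152) (nat_lit 0) (XT.nd (nat_lit 1092) (nat_lit 76) (nat_lit 0) (XT.nd (nat_lit 546) (nat_lit 76) (nat_lit 0) (XT.nd (nat_lit 234) (nat_lit 76) (nat_lit 0) (XT.nd (nat_lit 78) (nat_lit 76) (nat_lit 0) (XT.lf (nat_lit 0) (nat_lit 40537960741) (nat_lit 152) (nat_lit 8356000544) (nat_lit 0) (nat_lit 17713620287) (nat_lit 7) (nat_lit 5) (nat_lit 9) (nat_lit 4) (nat_lit 7) (nat_lit 4) (nat_lit 310) (nat_lit 264) (nat_lit 206)) (XT.nd (nat_lit 78) (nat_lit 0) (nat_lit 0) (XT.lf (nat_lit 0) (nat_lit 5319366150) (nat_lit 76) (nat_lit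 44413489159) (nat_lit 76) (nat_lit 21569446338) (nat_lit 6) (nat_lit 4) (nat_lit 7) (nat_lit 5) (nat_lit 7) (nat_lit 4) (nat_lit 311) (nat_lit 264) (nat_lit 205)) (XT.lf (nat_lit 0) (nat_lit 20540151093) (nat_lit 76) (nat_lit 39338752513) (nat_lit 76) (nat_lit 16476466759) (nat_lit 6) (nat_lit 4) (nat_lit 7) (nat_lit 5) (nat_lit 7) (nat_lit 4) (nat_lit 312) (nat_lit 264) (nat_lit 204)))) (XT.nd (nat_lit 156) (nat_lit 76) (nat_lit 0) (XT.nd (nat_lit 78) (nat_lit 0) (nat_lit 0) (XT.lf (nat_lit 0) (nat_lit 36956539349) (nat_lit 76) (nat_lit 33868146697) (nat_lit 76) (nat_lit 10988969339) (nat_lit 6) (nat_lit 4) (nat_lit 7) (nat_lit 5) (nat_lit 7) (nat_lit 4) (nat_lit 313) (nat_lit 264) (nat_lit 203)) (XT.lf (nat_lit 0) (nat_lit 54665813218) (nat_lit 76) (nat_lit 27969253307) (nat_lit 76) (nat_lit 5074435575) (nat_lit 6) (nat_lit 4) (nat_lit 7) (nat_lit 5) (nat_lit 7) (nat_lit 4) (nat_lit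 314) (nat_lit 264) (nat_lit 202))) (XT.nd (nat_lit 78) (nat_lit 0) (nat_lit 0) (XT.lf (nat_lit 0) (nat_lit 1237043123) (nat_lit 152) (nat_lit 20336249862) (nat_lit 76) (nat_lit 72502050470) (nat_lit 5) (nat_lit 5) (nat_lit 7) (nat_lit 5) (nat_lit 6) (nat_lit 4) (nat_lit 315) (nat_lit 264) (nat_lit 201)) (XT.lf (nat_lit 0) (nat_lit 7769545148) (nat_lit 152) (nat_lit 6762054752) (nat_lit 76) (nat_lit 86409098327) (nat_lit 5) (nat_lit 5) (nat_lit 7) (nat_lit 5) (nat_lit 6) (nat_lit 4) (nat_lit 316) (nat_lit 264) (nat_lit 200))))) (XT.nd (nat_lit 234) (nat_lit 0) (nat_lit 0) (XT.nd (nat_lit 78) (nat_lit 0) (nat_lit 0) (XT.lf (nat_lit 0) (nat_lit 8296395736) (nat_lit 76) (nat_lit 6718758220) (nat_lit 152) (nat_lit 93324896984) (nat_lit 4) (nat_lit 5) (nat_lit 5) (nat_lit 5) (nat_lit 6) (nat_lit 4) (nat_lit 317) (nat_lit 264) (nat_lit 199)) (XT.nd (nat_lit 78) (nat_lit 0) (nat_lit 0) (XT.lf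 (nat_lit 0) (nat_lit 23062518734) (nat_lit 152) (nat_lit 91435426123) (nat_lit 0) (nat_lit 1815647775) (nat_lit 4) (nat_lit 5) (nat_lit 6) (nat_lit 4) (nat_lit 4) (nat_lit 4) (nat_lit 318) (nat_lit 264) (nat_lit 198)) (XT.lf (nat_lit 0) (nat_lit 31919920893) (nat_lit 152) (nat_lit 82328611716) (nat_lit 0) (nat_lit 10663193845) (nat_lit 4) (nat_lit 5) (nat_lit 6) (nat_lit 4) (nat_lit 4) (nat_lit 4) (nat_lit 319) (nat_lit 264) (nat_lit 197)))) (XT.nd (nat_lit 156) (nat_lit 0) (nat_lit 0) (XT.nd (nat_lit 78) (nat_lit 0) (nat_lit 0) (XT.lf (nat_lit 0) (nat_lit 41478262447) (nat_lit 152) (nat_lit 72507659377) (nat_lit 0) (nat_lit 20212409391) (nat_lit 4) (nat_lit 5) (nat_lit 6) (nat_lit 4) (nat_lit 4) (nat_lit 4) (nat_lit 320) (nat_lit 264) (nat_lit 196)) (XT.lf (nat_lit 0) (nat_lit 51794185419) (nat_lit 152) (nat_lit 61914370871) (nat_lit 0) (nat_lit 30519882355) (nat_lit 4) (nat_lit 5)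 (nat_lit 6) (nat_lit 4) (nat_lit 4) (nat_lit 4) (nat_lit 321) (nat_lit 264) (nat_lit 195))) (XT.nd (nat_lit 78) (nat_lit 0) (nat_lit 0) (XT.lf (nat_lit 0) (nat_lit 62928821205) (nat_lit 152) (nat_lit 50485971154) (nat_lit 0) (nat_lit 41646694060) (nat_lit 4) (nat_lit 5) (nat_lit 6) (nat_lit 4) (nat_lit 4) (nat_lit 4) (nat_lit 322) (nat_lit 264) (nat_lit 194)) (XT.lf (nat_lit 0) (nat_lit 74948152832) (nat_lit 152) (nat_lit 38154736377) (nat_lit 0) (nat_lit 53658781167) (nat_lit 4) (nat_lit 5) (nat_lit 6) (nat_lit 4) (nat_lit 4) (nat_lit 4) (nat_lit 323) (nat_lit 264) (nat_lit 193)))))) (XT.nd (nat_lit 546) (nat_lit 0) (nat_lit 0) (XT.nd (nat_lit 234) (nat_lit 0) (nat_lit 0) (XT.nd (nat_lit 78) (nat_lit 76) (nat_lit 0) (XT.lf (nat_lit 0) (nat_lit 87923405968) (nat_lit 152) (nat_lit 24847592555) (nat_lit 0) (nat_lit 66627326415) (nat_lit 4) (nat_lit 5) (nat_lit 6) (nat_lit 4) (nat_lit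 4) (nat_lit 4) (nat_lit 324) (nat_lit 264) (nat_lit 192)) (XT.nd (nat_lit 78) (nat_lit 76) (nat_lit 0) (XT.lf (nat_lit 0) (nat_lit 101931471003) (nat_lit 152) (nat_lit 10485682540) (nat_lit 0) (nat_lit 80629180442) (nat_lit 4) (nat_lit 5) (nat_lit 6) (nat_lit 4) (nat_lit 4) (nat_lit 4) (nat_lit 325) (nat_lit 264) (nat_lit 191)) (XT.lf (nat_lit 0) (nat_lit 5280240286) (nat_lit 76) (nat_lit 111902108312) (nat_lit 76) (nat_lit 90594066818) (nat_lit 3) (nat_lit 4) (nat_lit 4) (nat_lit 5) (nat_lit 4) (nat_lit 4) (nat_lit 326) (nat_lit 264) (nat_lit 190)))) (XT.nd (nat_lit 156) (nat_lit 0) (nat_lit 0) (XT.nd (nat_lit 78) (nat_lit 0) (nat_lit 0) (XT.lf (nat_lit 0) (nat_lit 22894917851) (nat_lit 76) (nat_lit 111040397547) (nat_lit 76) (nat_lit 89727031115) (nat_lit 3) (nat_lit 4) (nat_lit 4) (nat_lit 5) (nat_lit 4) (nat_lit 4) (nat_lit 327) (nat_lit 264) (nat_lit 189)) (XT.lf (nat_lit 0) (nat_lit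 41910575967) (nat_lit 76) (nat_lit 110113611959) (nat_lit 76) (nat_lit 88795315029) (nat_lit 3) (nat_lit 4) (nat_lit 4) (nat_lit 5) (nat_lit 4) (nat_lit 4) (nat_lit 328) (nat_lit 264) (nat_lit 188))) (XT.nd (nat_lit 78) (nat_lit 0) (nat_lit 0) (XT.lf (nat_lit 0) (nat_lit 62439900018) (nat_lit 76) (nat_lit 109116259485) (nat_lit 76) (nat_lit 87793397278) (nat_lit 3) (nat_lit 4) (nat_lit 4) (nat_lit 5) (nat_lit 4) (nat_lit 4) (nat_lit 329) (nat_lit 264) (nat_lit 187)) (XT.lf (nat_lit 0) (nat_lit 84604545256) (nat_lit 76) (nat_lit 108042429888) (nat_lit 76) (nat_lit 86715340573) (nat_lit 3) (nat_lit 4) (nat_lit 4) (nat_lit 5) (nat_lit 4) (nat_lit 4) (nat_lit 330) (nat_lit 264) (nat_lit 186))))) (XT.nd (nat_lit 234) (nat_lit 0) (nat_lit 0) (XT.nd (nat_lit 78) (nat_lit 0) (nat_lit 0) (XT.lf (nat_lit 0) (nat_lit 108535857726) (nat_lit 76) (nat_lit 106885759732) (nat_lit 76) (nat_lit 85554756429)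 (nat_lit 3) (nat_lit 4) (nat_lit 4) (nat_lit 5) (nat_lit 4) (nat_lit 4) (nat_lit 331) (nat_lit 264) (nat_lit 185)) (XT.nd (nat_lit 78) (nat_lit 0) (nat_lit 0) (XT.lf (nat_lit 0) (nat_lit 134375652615) (nat_lit 76) (nat_lit 105639394677) (nat_lit 76) (nat_lit 84304767311) (nat_lit 3) (nat_lit 4) (nat_lit 4) (nat_lit 5) (nat_lit 4) (nat_lit 4) (nat_lit 332) (nat_lit 264) (nat_lit 184)) (XT.lf (nat_lit 0) (nat_lit 162277054632) (nat_lit 76) (nat_lit 104295948855) (nat_lit 76) (nat_lit 82957965875) (nat_lit 3) (nat_lit 4) (nat_lit 4) (nat_lit 5) (nat_lit 4) (nat_lit 4) (nat_lit 333) (nat_lit 264) (nat_lit 183)))) (XT.nd (nat_lit 156) (nat_lit 0) (nat_lit 0) (XT.nd (nat_lit 78) (nat_lit 0) (nat_lit 0) (XT.lf (nat_lit 0) (nat_lit 192405405420) (nat_lit 76) (nat_lit 102847461106) (nat_lit 76) (nat_lit 81506371076) (nat_lit 3) (nat_lit 4) (nat_lit 4) (nat_lit 5) (nat_lit 4) (nat_lit 4) (nat_lit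 334) (nat_lit 264) (nat_lit 182)) (XT.lf (nat_lit 0) (nat_lit 224939243352) (nat_lit 76) (nat_lit 101285347799) (nat_lit 76) (nat_lit 79941380870) (nat_lit 3) (nat_lit 4) (nat_lit 4) (nat_lit 5) (nat_lit 4) (nat_lit 4) (nat_lit 335) (nat_lit 264) (nat_lit 181))) (XT.nd (nat_lit 78) (nat_lit 0) (nat_lit 0) (XT.lf (nat_lit 0) (nat_lit 260071361543) (nat_lit 76) (nat_lit 99600351967) (nat_lit 76) (nat_lit 78253721243) (nat_lit 3) (nat_lit 4) (nat_lit 4) (nat_lit 5) (nat_lit 4) (nat_lit 4) (nat_lit 336) (nat_lit 264) (nat_lit 180)) (XT.lf (nat_lit 0) (nat_lit 298009950323) (nat_lit 76) (nat_lit 97782488448) (nat_lit 76) (nat_lit 76433391247) (nat_lit 3) (nat_lit 4) (nat_lit 4) (nat_lit 5) (nat_lit 4) (nat_lit 4) (nat_lit 337) (nat_lit 264) (nat_lit 179))))))) (XT.nd (nat_lit 1092) (nat_lit 152) (nat_lit 0) (XT.nd (nat_lit 546) (nat_lit 0) (nat_lit 0) (XT.nd (nat_lit 234) (nat_lit 0) (nat_lit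 0) (XT.nd (nat_lit 78) (nat_lit 0) (nat_lit 0) (XT.lf (nat_lit 0) (nat_lit 338979830959) (nat_lit 76) (nat_lit 95820984717) (nat_lit 76) (nat_lit 74469603742) (nat_lit 3) (nat_lit 4) (nat_lit 4) (nat_lit 5) (nat_lit 4) (nat_lit 4) (nat_lit 338) (nat_lit 264) (nat_lit 178)) (XT.nd (nat_lit 78) (nat_lit 0) (nat_lit 0) (XT.lf (nat_lit 0) (nat_lit 383223787928) (nat_lit 76) (nat_lit 93704217051) (nat_lit 76) (nat_lit 72350721469) (nat_lit 3) (nat_lit 4) (nat_lit 4) (nat_lit 5) (nat_lit 4) (nat_lit 4) (nat_lit 339) (nat_lit 264) (nat_lit 177)) (XT.lf (nat_lit 0) (nat_lit 431004007643) (nat_lit 76) (nat_lit 91419641639) (nat_lit 76) (nat_lit 70064188089) (nat_lit 3) (nat_lit 4) (nat_lit 4) (nat_lit 5) (nat_lit 4) (nat_lit 4) (nat_lit 340) (nat_lit 264) (nat_lit 176)))) (XT.nd (nat_lit 156) (nat_lit 0) (nat_lit 0) (XT.nd (nat_lit 78) (nat_lit 0) (nat_lit 0) (XT.lf (nat_lit 0) (nat_lit 482603632145)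 (nat_lit 76) (nat_lit 88953720257) (nat_lit 76) (nat_lit 67596453773) (nat_lit 3) (nat_lit 4) (nat_lit 4) (nat_lit 5) (nat_lit 4) (nat_lit 4) (nat_lit 341) (nat_lit 264) (nat_lit 175)) (XT.lf (nat_lit 0) (nat_lit 538328436988) (nat_lit 76) (nat_lit 86291840038) (nat_lit 76) (nat_lit 64932894912) (nat_lit 3) (nat_lit 4) (nat_lit 4) (nat_lit 5) (nat_lit 4) (nat_lit 4) (nat_lit 342) (nat_lit 264) (nat_lit 174))) (XT.nd (nat_lit 78) (nat_lit 0) (nat_lit 0) (XT.lf (nat_lit 0) (nat_lit 598508643237) (nat_lit 76) (nat_lit 83418226877) (nat_lit 76) (nat_lit 62057727452) (nat_lit 3) (nat_lit 4) (nat_lit 4) (nat_lit 5) (nat_lit 4) (nat_lit 4) (nat_lit 343) (nat_lit 264) (nat_lit 173)) (XT.lf (nat_lit 0) (nat_lit 663500874336) (nat_lit 76) (nat_lit 80315851955) (nat_lit 76) (nat_lit 58953913364) (nat_lit 3) (nat_lit 4) (nat_lit 4) (nat_lit 5) (nat_lit 4) (nat_lit 4) (nat_lit 344) (nat_lit 264)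 (nat_lit 172))))) (XT.nd (nat_lit 234) (nat_lit 0) (nat_lit 0) (XT.nd (nat_lit 78) (nat_lit 0) (nat_lit 0) (XT.lf (nat_lit 0) (nat_lit 733690269434) (nat_lit 76) (nat_lit 76966330828) (nat_lit 76) (nat_lit 55603059677) (nat_lit 3) (nat_lit 4) (nat_lit 4) (nat_lit 5) (nat_lit 4) (nat_lit 4) (nat_lit 345) (nat_lit 264) (nat_lit 171)) (XT.nd (nat_lit 78) (nat_lit 0) (nat_lit 0) (XT.lf (nat_lit 0) (nat_lit 809492765686) (nat_lit 76) (nat_lit 73349814482) (nat_lit 76) (nat_lit 51985309478) (nat_lit 3) (nat_lit 4) (nat_lit 4) (nat_lit 5) (nat_lit 4) (nat_lit 4) (nat_lit 346) (nat_lit 264) (nat_lit 170)) (XT.lf (nat_lit 0) (nat_lit 891357563069) (nat_lit 76) (nat_lit 69444871709) (nat_lit 76) (nat_lit 48079224250) (nat_lit 3) (nat_lit 4) (nat_lit 4) (nat_lit 5) (nat_lit 4) (nat_lit 4) (nat_lit 347) (nat_lit 264) (nat_lit 169)))) (XT.nd (nat_lit 156) (nat_lit 0) (nat_lit 0) (XT.nd (nat_lit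 78) (nat_lit 0) (nat_lit 0) (XT.lf (nat_lit 0) (nat_lit 979769786310) (nat_lit 76) (nat_lit 65228362108) (nat_lit 76) (nat_lit 43861656818) (nat_lit 3) (nat_lit 4) (nat_lit 4) (nat_lit 5) (nat_lit 4) (nat_lit 4) (nat_lit 348) (nat_lit 264) (nat_lit 168)) (XT.lf (nat_lit 0) (nat_lit 1075253359694) (nat_lit 76) (nat_lit 60675298954) (nat_lit 76) (nat_lit 39307614193) (nat_lit 3) (nat_lit 4) (nat_lit 4) (nat_lit 5) (nat_lit 4) (nat_lit 4) (nat_lit 349) (nat_lit 264) (nat_lit 167))) (XT.nd (nat_lit 78) (nat_lit 0) (nat_lit 0) (XT.lf (nat_lit 0) (nat_lit 1178374111804) (nat_lit 76) (nat_lit 55758701133) (nat_lit 76) (nat_lit 34390109453) (nat_lit 3) (nat_lit 4) (nat_lit 4) (nat_lit 5) (nat_lit 4) (nat_lit 4) (nat_lit 350) (nat_lit 264) (nat_lit 166)) (XT.lf (nat_lit 0) (nat_lit 1289743128578) (nat_lit 76) (nat_lit 50449433250) (nat_lit 76) (nat_lit 29080001832) (nat_lit 3) (nat_lit 4) (nat_lit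 4) (nat_lit 5) (nat_lit 4) (nat_lit 4) (nat_lit 351) (nat_lit 264) (nat_lit 165)))))) (XT.nd (nat_lit 546) (nat_lit 0) (nat_lit 0) (XT.nd (nat_lit 234) (nat_lit 152) (nat_lit 0) (XT.nd (nat_lit 78) (nat_lit 0) (nat_lit 0) (XT.lf (nat_lit 0) (nat_lit 1410020374560) (nat_lit 76) (nat_lit 44716032978) (nat_lit 76) (nat_lit 23345824023) (nat_lit 3) (nat_lit 4) (nat_lit 4) (nat_lit 5) (nat_lit 4) (nat_lit 4) (nat_lit 352) (nat_lit 264) (nat_lit 164)) (XT.nd (nat_lit 78) (nat_lit 0) (nat_lit 0) (XT.lf (nat_lit 0) (nat_lit 1539918603801) (nat_lit 76) (nat_lit 38524524610) (nat_lit 76) (nat_lit 17153595714) (nat_lit 3) (nat_lit 4) (nat_lit 4) (nat_lit 5) (nat_lit 4) (nat_lit 4) (nat_lit 353) (nat_lit 264) (nat_lit 163)) (XT.lf (nat_lit 0) (nat_lit 1680207583585) (nat_lit 76) (nat_lit 31838217727) (nat_lit 76) (nat_lit 10466622219) (nat_lit 3) (nat_lit 4) (nat_lit 4) (nat_lit 5) (nat_lit 4)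 (nat_lit 4) (nat_lit 354) (nat_lit 264) (nat_lit 162)))) (XT.nd (nat_lit 156) (nat_lit 76) (nat_lit 0) (XT.nd (nat_lit 78) (nat_lit 76) (nat_lit 0) (XT.lf (nat_lit 0) (nat_lit 1831718656014) (nat_lit 76) (nat_lit 24617489770) (nat_lit 76) (nat_lit 3245277029) (nat_lit 3) (nat_lit 4) (nat_lit 4) (nat_lit 5) (nat_lit 4) (nat_lit 4) (nat_lit 355) (nat_lit 264) (nat_lit 161)) (XT.lf (nat_lit 0) (nat_lit 4325461857) (nat_lit 152) (nat_lit 12375823589) (nat_lit 76) (nat_lit 1990905936830) (nat_lit 2) (nat_lit 5) (nat_lit 4) (nat_lit 5) (nat_lit 3) (nat_lit 4) (nat_lit 356) (nat_lit 264) (nat_lit 160))) (XT.nd (nat_lit 78) (nat_lit 0) (nat_lit 0) (XT.lf (nat_lit 0) (nat_lit 4489458068) (nat_lit 76) (nat_lit 7944566691) (nat_lit 152) (nat_lit 2155025718404) (nat_lit 1) (nat_lit 5) (nat_lit 2) (nat_lit 5) (nat_lit 3) (nat_lit 4) (nat_lit 357) (nat_lit 264) (nat_lit 159)) (XT.lf (nat_lit 0)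 (nat_lit 21574345535) (nat_lit 152) (nat_lit 2316711687936) (nat_lit 0) (nat_lit 1783786820) (nat_lit 1) (nat_lit 5) (nat_lit 3) (nat_lit 4) (nat_lit 1) (nat_lit 4) (nat_lit 358) (nat_lit 264) (nat_lit 158))))) (XT.nd (nat_lit 312) (nat_lit 0) (nat_lit 0) (XT.nd (nat_lit 156) (nat_lit 0) (nat_lit 0) (XT.nd (nat_lit 78) (nat_lit 0) (nat_lit 0) (XT.lf (nat_lit 0) (nat_lit 31651806076) (nat_lit 152) (nat_lit 2482959597469) (nat_lit 0) (nat_lit 11860827283) (nat_lit 1) (nat_lit 5) (nat_lit 3) (nat_lit 4) (nat_lit 1) (nat_lit 4) (nat_lit 359) (nat_lit 264) (nat_lit 157)) (XT.lf (nat_lit 0) (nat_lit 42535057649) (nat_lit 152) (nat_lit 2662508119474) (nat_lit 0) (nat_lit 22743689893) (nat_lit 1) (nat_lit 5) (nat_lit 3) (nat_lit 4) (nat_lit 1) (nat_lit 4) (nat_lit 360) (nat_lit 264) (nat_lit 156))) (XT.nd (nat_lit 78) (nat_lit 0) (nat_lit 0) (XT.lf (nat_lit 0) (nat_lit 54288593595) (nat_lit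 152) (nat_lit 2856421245190) (nat_lit 0) (nat_lit 34496865690) (nat_lit 1) (nat_lit 5) (nat_lit 3) (nat_lit 4) (nat_lit 1) (nat_lit 4) (nat_lit 361) (nat_lit 264) (nat_lit 155)) (XT.lf (nat_lit 0) (nat_lit 66982064498) (nat_lit 152) (nat_lit 3065848089438) (nat_lit 0) (nat_lit 47190003121) (nat_lit 1) (nat_lit 5) (nat_lit 3) (nat_lit 4) (nat_lit 1) (nat_lit 4) (nat_lit 362) (nat_lit 264) (nat_lit 154)))) (XT.nd (nat_lit 33072) (nat_lit 0) (nat_lit 3876) (XT.nd (nat_lit 32994) (nat_lit 0) (nat_lit 3876) (XT.lf (nat_lit 0) (nat_lit 80690690926) (nat_lit 152) (nat_lit 3292029700183) (nat_lit 0) (nat_lit 60898320779) (nat_lit 1) (nat_lit 5) (nat_lit 3) (nat_lit 4) (nat_lit 1) (nat_lit 4) (nat_lit 363) (nat_lit 264) (nat_lit 153)) (XT.lf (nat_lit 0) (nat_lit 1137013834) (nat_lit 380) (nat_lit 1226039232) (nat_lit 380) (nat_lit 1226039232) (nat_lit 52) (nat_lit 3) (nat_lit 57) (nat_lit 3)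 (nat_lit 57) (nat_lit 5) (nat_lit 265) (nat_lit 265) (nat_lit 250))) (XT.nd (nat_lit 78) (nat_lit 0) (nat_lit 0) (XT.lf (nat_lit 76) (nat_lit 813574194) (nat_lit 0) (nat_lit 3065619143) (nat_lit 380) (nat_lit 3456875460) (nat_lit 53) (nat_lit 5) (nat_lit 52) (nat_lit 3) (nat_lit 57) (nat_lit 5) (nat_lit 266) (nat_lit 265) (nat_lit 249)) (XT.lf (nat_lit 76) (nat_lit 4394502658) (nat_lit 0) (nat_lit 1133723519) (nat_lit 380) (nat_lit 1985932314) (nat_lit 53) (nat_lit 5) (nat_lit 52) (nat_lit 3) (nat_lit 57) (nat_lit 5) (nat_lit 267) (nat_lit 265) (nat_lit 248))))))))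
noncomputable def xc58 : XT := (XT.nd (nat_lit 2184) (nat_lit 684) (nat_lit 0) (XT.nd (nat_lit 1092) (nat_lit 1064) (nat_lit 0) (XT.nd (nat_lit 546) (nat_lit 760) (nat_lit 0) (XT.nd (nat_lit 234) (nat_lit 836) (nat_lit 0) (XT.nd (nat_lit 78) (nat_lit 380) (nat_lit 0) (XT.lf (nat_lit 76) (nat_lit 463110161) (nat_lit 0) (nat_lit 6741234309) (nat_lit 380) (nat_lit 511288857) (nat_lit 54) (nat_lit 5) (nat_lit 53) (nat_lit 5) (nat_lit 58) (nat_lit 5) (nat_lit 268) (nat_lit 265) (nat_lit 247)) (XT.nd (nat_lit 78) (nat_lit 0) (nat_lit 0) (XT.lf (nat_lit 0) (nat_lit 1009366787) (nat_lit 380) (nat_lit 3572110115) (nat_lit 456) (nat_lit 3351741988) (nat_lit 48) (nat_lit 5) (nat_lit 53) (nat_lit 5) (nat_lit 54) (nat_lit 5) (nat_lit 269) (nat_lit 265) (nat_lit 246)) (XT.lf (nat_lit 76) (nat_lit 314489686) (nat_lit 0) (nat_lit 2192286204) (nat_lit 456) (nat_lit 5670351239) (nat_lit 49) (nat_lit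 5) (nat_lit 48) (nat_lit 5) (nat_lit 54) (nat_lit 5) (nat_lit 270) (nat_lit 265) (nat_lit 245)))) (XT.nd (nat_lit 156) (nat_lit 532) (nat_lit 0) (XT.nd (nat_lit 78) (nat_lit 380) (nat_lit 0) (XT.lf (nat_lit 0) (nat_lit 4116501506) (nat_lit 380) (nat_lit 3828513735) (nat_lit 76) (nat_lit 496682888) (nat_lit 49) (nat_lit 5) (nat_lit 54) (nat_lit 5) (nat_lit 50) (nat_lit 5) (nat_lit 271) (nat_lit 265) (nat_lit 244)) (XT.lf (nat_lit 0) (nat_lit 399652106) (nat_lit 380) (nat_lit 5413561621) (nat_lit 456) (nat_lit 2918075509) (nat_lit 44) (nat_lit 5) (nat_lit 49) (nat_lit 5) (nat_lit 50) (nat_lit 5) (nat_lit 272) (nat_lit 265) (nat_lit 243))) (XT.nd (nat_lit 78) (nat_lit 532) (nat_lit 0) (XT.lf (nat_lit 0) (nat_lit 5094387170) (nat_lit 380) (nat_lit 2553483687) (nat_lit 456) (nat_lit 1396473393) (nat_lit 44) (nat_lit 5) (nat_lit 49) (nat_lit 5) (nat_lit 50) (nat_lit 5) (nat_lit 273) (nat_lit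 265) (nat_lit 242)) (XT.lf (nat_lit 0) (nat_lit 167873925) (nat_lit 532) (nat_lit 8678308683) (nat_lit 76) (nat_lit 541522576) (nat_lit 37) (nat_lit 5) (nat_lit 44) (nat_lit 5) (nat_lit 38) (nat_lit 5) (nat_lit 274) (nat_lit 265) (nat_lit 241))))) (XT.nd (nat_lit 234) (nat_lit 532) (nat_lit 0) (XT.nd (nat_lit 78) (nat_lit 228) (nat_lit 0) (XT.lf (nat_lit 0) (nat_lit 1866617221) (nat_lit 532) (nat_lit 3983208109) (nat_lit 76) (nat_lit 3899408061) (nat_lit 37) (nat_lit 5) (nat_lit 44) (nat_lit 5) (nat_lit 38) (nat_lit 5) (nat_lit 275) (nat_lit 265) (nat_lit 240)) (XT.nd (nat_lit 78) (nat_lit 0) (nat_lit 0) (XT.lf (nat_lit 0) (nat_lit 1053099808) (nat_lit 228) (nat_lit 2587900010) (nat_lit 304) (nat_lit 6503852705) (nat_lit 34) (nat_lit 5) (nat_lit 37) (nat_lit 5) (nat_lit 38) (nat_lit 5) (nat_lit 276) (nat_lit 265) (nat_lit 239)) (XT.lf (nat_lit 0) (nat_lit 5610181041) (nat_lit 304)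 (nat_lit 3961498004) (nat_lit 76) (nat_lit 996536387) (nat_lit 34) (nat_lit 5) (nat_lit 38) (nat_lit 5) (nat_lit 35) (nat_lit 5) (nat_lit 277) (nat_lit 265) (nat_lit 238)))) (XT.nd (nat_lit 156) (nat_lit 304) (nat_lit 0) (XT.nd (nat_lit 78) (nat_lit 0) (nat_lit 0) (XT.lf (nat_lit 0) (nat_lit 1502280016) (nat_lit 228) (nat_lit 6262617568) (nat_lit 304) (nat_lit 3258607953) (nat_lit 31) (nat_lit 5) (nat_lit 34) (nat_lit 5) (nat_lit 35) (nat_lit 5) (nat_lit 278) (nat_lit 265) (nat_lit 237)) (XT.lf (nat_lit 0) (nat_lit 7545772736) (nat_lit 228) (nat_lit 2582778648) (nat_lit 304) (nat_lit 1384018810) (nat_lit 31) (nat_lit 5) (nat_lit 34) (nat_lit 5) (nat_lit 35) (nat_lit 5) (nat_lit 279) (nat_lit 265) (nat_lit 236))) (XT.nd (nat_lit 78) (nat_lit 0) (nat_lit 0) (XT.lf (nat_lit 0) (nat_lit 623953951) (nat_lit 304) (nat_lit 10038024907) (nat_lit 76) (nat_lit 1376548815) (nat_lit 27) (nat_lit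 5) (nat_lit 31) (nat_lit 5) (nat_lit 28) (nat_lit 5) (nat_lit 280) (nat_lit 265) (nat_lit 235)) (XT.lf (nat_lit 0) (nat_lit 2830612011) (nat_lit 304) (nat_lit 4116435391) (nat_lit 76) (nat_lit 5647832035) (nat_lit 27) (nat_lit 5) (nat_lit 31) (nat_lit 5) (nat_lit 28) (nat_lit 5) (nat_lit 281) (nat_lit 265) (nat_lit 234)))))) (XT.nd (nat_lit 546) (nat_lit 380) (nat_lit 0) (XT.nd (nat_lit 234) (nat_lit 380) (nat_lit 0) (XT.nd (nat_lit 78) (nat_lit 152) (nat_lit 0) (XT.lf (nat_lit 0) (nat_lit 2317514743) (nat_lit 152) (nat_lit 2891338040) (nat_lit 228) (nat_lit 7987485525) (nat_lit 25) (nat_lit 5) (nat_lit 27) (nat_lit 5) (nat_lit 28) (nat_lit 5) (nat_lit 282) (nat_lit 265) (nat_lit 233)) (XT.nd (nat_lit 78) (nat_lit 152) (nat_lit 0) (XT.lf (nat_lit 0) (nat_lit 7870213317) (nat_lit 228) (nat_lit 4455105651) (nat_lit 76) (nat_lit 1513354014) (nat_lit 25) (nat_lit 5) (nat_lit 28) (nat_lit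 5) (nat_lit 26) (nat_lit 5) (nat_lit 283) (nat_lit 265) (nat_lit 232)) (XT.lf (nat_lit 0) (nat_lit 2456446709) (nat_lit 152) (nat_lit 8368120794) (nat_lit 228) (nat_lit 3701594158) (nat_lit 23) (nat_lit 5) (nat_lit 25) (nat_lit 5) (nat_lit 26) (nat_lit 5) (nat_lit 284) (nat_lit 265) (nat_lit 231)))) (XT.nd (nat_lit 156) (nat_lit 152) (nat_lit 0) (XT.nd (nat_lit 78) (nat_lit 228) (nat_lit 0) (XT.lf (nat_lit 0) (nat_lit 10102313841) (nat_lit 152) (nat_lit 3982950027) (nat_lit 228) (nat_lit 1177947181) (nat_lit 23) (nat_lit 5) (nat_lit 25) (nat_lit 5) (nat_lit 26) (nat_lit 5) (nat_lit 285) (nat_lit 265) (nat_lit 230)) (XT.lf (nat_lit 0) (nat_lit 1496392004) (nat_lit 228) (nat_lit 13766370869) (nat_lit 76) (nat_lit 791524706) (nat_lit 20) (nat_lit 5) (nat_lit 23) (nat_lit 5) (nat_lit 21) (nat_lit 5) (nat_lit 286) (nat_lit 265) (nat_lit 229))) (XT.nd (nat_lit 78) (nat_lit 152) (nat_lit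 0) (XT.lf (nat_lit 0) (nat_lit 4521441193) (nat_lit 228) (nat_lit 6479987205) (nat_lit 76) (nat_lit 5888869847) (nat_lit 20) (nat_lit 5) (nat_lit 23) (nat_lit 5) (nat_lit 21) (nat_lit 5) (nat_lit 287) (nat_lit 265) (nat_lit 228)) (XT.lf (nat_lit 0) (nat_lit 1393212641) (nat_lit 152) (nat_lit 6384507125) (nat_lit 228) (nat_lit 10016450393) (nat_lit 18) (nat_lit 5) (nat_lit 20) (nat_lit 5) (nat_lit 21) (nat_lit 5) (nat_lit 288) (nat_lit 265) (nat_lit 227))))) (XT.nd (nat_lit 234) (nat_lit 304) (nat_lit 0) (XT.nd (nat_lit 78) (nat_lit 76) (nat_lit 0) (XT.lf (nat_lit 0) (nat_lit 10200667977) (nat_lit 152) (nat_lit 1228463570) (nat_lit 228) (nat_lit 7330559463) (nat_lit 18) (nat_lit 5) (nat_lit 20) (nat_lit 5) (nat_lit 21) (nat_lit 5) (nat_lit 289) (nat_lit 265) (nat_lit 226)) (XT.nd (nat_lit 78) (nat_lit 76) (nat_lit 0) (XT.lf (nat_lit 0) (nat_lit 15437162307) (nat_lit 228) (nat_lit 256258025)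 (nat_lit 76) (nat_lit 4103974251) (nat_lit 18) (nat_lit 5) (nat_lit 21) (nat_lit 5) (nat_lit 19) (nat_lit 4) (nat_lit 290) (nat_lit 265) (nat_lit 225)) (XT.lf (nat_lit 0) (nat_lit 9075259026) (nat_lit 76) (nat_lit 10903825773) (nat_lit 152) (nat_lit 922063715) (nat_lit 17) (nat_lit 5) (nat_lit 18) (nat_lit 5) (nat_lit 19) (nat_lit 4) (nat_lit 291) (nat_lit 265) (nat_lit 224)))) (XT.nd (nat_lit 156) (nat_lit 76) (nat_lit 0) (XT.nd (nat_lit 78) (nat_lit 152) (nat_lit 0) (XT.lf (nat_lit 0) (nat_lit 2622183007) (nat_lit 152) (nat_lit 3050170719) (nat_lit 76) (nat_lit 16417907464) (nat_lit 16) (nat_lit 5) (nat_lit 18) (nat_lit 5) (nat_lit 17) (nat_lit 5) (nat_lit 292) (nat_lit 265) (nat_lit 223)) (XT.lf (nat_lit 0) (nat_lit 6530857796) (nat_lit 228) (nat_lit 16682045888) (nat_lit 76) (nat_lit 149301553) (nat_lit 14) (nat_lit 5) (nat_lit 17) (nat_lit 5) (nat_lit 15) (nat_lit 4) (nat_lit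 293) (nat_lit 265) (nat_lit 222))) (XT.nd (nat_lit 78) (nat_lit 76) (nat_lit 0) (XT.lf (nat_lit 0) (nat_lit 10952059566) (nat_lit 228) (nat_lit 7570975733) (nat_lit 76) (nat_lit 6196951972) (nat_lit 14) (nat_lit 5) (nat_lit 17) (nat_lit 5) (nat_lit 15) (nat_lit 4) (nat_lit 294) (nat_lit 265) (nat_lit 221)) (XT.lf (nat_lit 0) (nat_lit 2335218992) (nat_lit 76) (nat_lit 13417285656) (nat_lit 152) (nat_lit 10431907433) (nat_lit 13) (nat_lit 5) (nat_lit 14) (nat_lit 5) (nat_lit 15) (nat_lit 4) (nat_lit 295) (nat_lit 265) (nat_lit 220))))))) (XT.nd (nat_lit 1092) (nat_lit 228) (nat_lit 0) (XT.nd (nat_lit 546) (nat_lit 228) (nat_lit 0) (XT.nd (nat_lit 234) (nat_lit 76) (nat_lit 0) (XT.nd (nat_lit 78) (nat_lit 152) (nat_lit 0) (XT.lf (nat_lit 0) (nat_lit 13415179703) (nat_lit 76) (nat_lit 7699276784) (nat_lit 152) (nat_lit 6637395940) (nat_lit 13) (nat_lit 5) (nat_lit 14) (nat_lit 5) (nat_lit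 15) (nat_lit 4) (nat_lit 296) (nat_lit 265) (nat_lit 219)) (XT.nd (nat_lit 78) (nat_lit 152) (nat_lit 0) (XT.lf (nat_lit 0) (nat_lit 25335891259) (nat_lit 76) (nat_lit 1542128082) (nat_lit 152) (nat_lit 2568911127) (nat_lit 13) (nat_lit 5) (nat_lit 14) (nat_lit 5) (nat_lit 15) (nat_lit 4) (nat_lit 297) (nat_lit 265) (nat_lit 218)) (XT.lf (nat_lit 0) (nat_lit 2009077654) (nat_lit 152) (nat_lit 24184903860) (nat_lit 76) (nat_lit 5058143128) (nat_lit 11) (nat_lit 5) (nat_lit 13) (nat_lit 5) (nat_lit 12) (nat_lit 4) (nat_lit 298) (nat_lit 265) (nat_lit 217)))) (XT.nd (nat_lit 156) (nat_lit 76) (nat_lit 0) (XT.nd (nat_lit 78) (nat_lit 0) (nat_lit 0) (XT.lf (nat_lit 0) (nat_lit 6944354136) (nat_lit 152) (nat_lit 13973111803) (nat_lit 76) (nat_lit 12268587039) (nat_lit 11) (nat_lit 5) (nat_lit 13) (nat_lit 5) (nat_lit 12) (nat_lit 4) (nat_lit 299) (nat_lit 265) (nat_lit 216)) (XT.lf (nat_lit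 0) (nat_lit 12250803282) (nat_lit 152) (nat_lit 2985311491) (nat_lit 76) (nat_lit 20040513086) (nat_lit 11) (nat_lit 5) (nat_lit 13) (nat_lit 5) (nat_lit 12) (nat_lit 4) (nat_lit 300) (nat_lit 265) (nat_lit 215))) (XT.nd (nat_lit 78) (nat_lit 0) (nat_lit 0) (XT.lf (nat_lit 0) (nat_lit 9309298794) (nat_lit 76) (nat_lit 8874460783) (nat_lit 152) (nat_lit 19334567190) (nat_lit 10) (nat_lit 5) (nat_lit 11) (nat_lit 5) (nat_lit 12) (nat_lit 4) (nat_lit 301) (nat_lit 265) (nat_lit 214)) (XT.lf (nat_lit 0) (nat_lit 22720311900) (nat_lit 76) (nat_lit 1931500100) (nat_lit 152) (nat_lit 15282747387) (nat_lit 10) (nat_lit 5) (nat_lit 11) (nat_lit 5) (nat_lit 12) (nat_lit 4) (nat_lit 302) (nat_lit 265) (nat_lit 213))))) (XT.nd (nat_lit 234) (nat_lit 152) (nat_lit 0) (XT.nd (nat_lit 78) (nat_lit 76) (nat_lit 0) (XT.lf (nat_lit 0) (nat_lit 31751244881) (nat_lit 152) (nat_lit 5509223688) (nat_lit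 0) (nat_lit 5274539155) (nat_lit 10) (nat_lit 5) (nat_lit 12) (nat_lit 4) (nat_lit 10) (nat_lit 4) (nat_lit 303) (nat_lit 265) (nat_lit 212)) (XT.nd (nat_lit 78) (nat_lit 0) (nat_lit 0) (XT.lf (nat_lit 0) (nat_lit 7420402987) (nat_lit 76) (nat_lit 32208388967) (nat_lit 76) (nat_lit 5697916845) (nat_lit 9) (nat_lit 4) (nat_lit 10) (nat_lit 5) (nat_lit 10) (nat_lit 4) (nat_lit 304) (nat_lit 265) (nat_lit 211)) (XT.lf (nat_lit 0) (nat_lit 21665716535) (nat_lit 76) (nat_lit 26603586668) (nat_lit 76) (nat_lit 61849366) (nat_lit 9) (nat_lit 4) (nat_lit 10) (nat_lit 5) (nat_lit 10) (nat_lit 4) (nat_lit 305) (nat_lit 265) (nat_lit 210)))) (XT.nd (nat_lit 156) (nat_lit 76) (nat_lit 0) (XT.nd (nat_lit 78) (nat_lit 0) (nat_lit 0) (XT.lf (nat_lit 0) (nat_lit 5706701770) (nat_lit 152) (nat_lit 14700746860) (nat_lit 76) (nat_lit 31158294561) (nat_lit 8) (nat_lit 5) (nat_lit 10) (nat_lit 5) (nat_lit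 9) (nat_lit 4) (nat_lit 306) (nat_lit 265) (nat_lit 209)) (XT.lf (nat_lit 0) (nat_lit 11917653248) (nat_lit 152) (nat_lit 1808772639) (nat_lit 76) (nat_lit 41333827823) (nat_lit 8) (nat_lit 5) (nat_lit 10) (nat_lit 5) (nat_lit 9) (nat_lit 4) (nat_lit 307) (nat_lit 265) (nat_lit 208))) (XT.nd (nat_lit 78) (nat_lit 0) (nat_lit 0) (XT.lf (nat_lit 0) (nat_lit 12724923184) (nat_lit 76) (nat_lit 6192016185) (nat_lit 152) (nat_lit 39894089191) (nat_lit 7) (nat_lit 5) (nat_lit 8) (nat_lit 5) (nat_lit 9) (nat_lit 4) (nat_lit 308) (nat_lit 265) (nat_lit 207)) (XT.lf (nat_lit 0) (nat_lit 26559303901) (nat_lit 152) (nat_lit 34408191678) (nat_lit 0) (nat_lit 1887737654) (nat_lit 7) (nat_lit 5) (nat_lit 9) (nat_lit 4) (nat_lit 7) (nat_lit 4) (nat_lit 309) (nat_lit 265) (nat_lit 206)))))) (XT.nd (nat_lit 546) (nat_lit 76) (nat_lit 0) (XT.nd (nat_lit 234) (nat_lit 76) (nat_lit 0) (XT.nd (nat_lit 78)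 (nat_lit 76) (nat_lit 0) (XT.lf (nat_lit 0) (nat_lit 34960569840) (nat_lit 152) (nat_lit 21981319525) (nat_lit 0) (nat_lit 10269301226) (nat_lit 7) (nat_lit 5) (nat_lit 9) (nat_lit 4) (nat_lit 7) (nat_lit 4) (nat_lit 310) (nat_lit 265) (nat_lit 205)) (XT.nd (nat_lit 78) (nat_lit 76) (nat_lit 0) (XT.lf (nat_lit 0) (nat_lit 44021604330) (nat_lit 152) (nat_lit 8582930058) (nat_lit 0) (nat_lit 19312092783) (nat_lit 7) (nat_lit 5) (nat_lit 9) (nat_lit 4) (nat_lit 7) (nat_lit 4) (nat_lit 311) (nat_lit 265) (nat_lit 204)) (XT.lf (nat_lit 0) (nat_lit 6175287477) (nat_lit 76) (nat_lit 47769330723) (nat_lit 76) (nat_lit 23042927572) (nat_lit 6) (nat_lit 4) (nat_lit 7) (nat_lit 5) (nat_lit 7) (nat_lit 4) (nat_lit 312) (nat_lit 265) (nat_lit 203)))) (XT.nd (nat_lit 156) (nat_lit 76) (nat_lit 0) (XT.nd (nat_lit 78) (nat_lit 0) (nat_lit 0) (XT.lf (nat_lit 0) (nat_lit 22581855806) (nat_lit 76) (nat_lit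 42303225335) (nat_lit 76) (nat_lit 17561181810) (nat_lit 6) (nat_lit 4) (nat_lit 7) (nat_lit 5) (nat_lit 7) (nat_lit 4) (nat_lit 313) (nat_lit 265) (nat_lit 202)) (XT.lf (nat_lit 0) (nat_lit 40282037150) (nat_lit 76) (nat_lit 36408499008) (nat_lit 76) (nat_lit 11651973655) (nat_lit 6) (nat_lit 4) (nat_lit 7) (nat_lit 5) (nat_lit 7) (nat_lit 4) (nat_lit 314) (nat_lit 265) (nat_lit 201))) (XT.nd (nat_lit 78) (nat_lit 76) (nat_lit 0) (XT.lf (nat_lit 0) (nat_lit 59380721473) (nat_lit 76) (nat_lit 30050220030) (nat_lit 76) (nat_lit 5280285577) (nat_lit 6) (nat_lit 4) (nat_lit 7) (nat_lit 5) (nat_lit 7) (nat_lit 4) (nat_lit 315) (nat_lit 265) (nat_lit 200)) (XT.lf (nat_lit 0) (nat_lit 1512020267) (nat_lit 152) (nat_lit 21637348130) (nat_lit 76) (nat_lit 78437724581) (nat_lit 5) (nat_lit 5) (nat_lit 7) (nat_lit 5) (nat_lit 6) (nat_lit 4) (nat_lit 316) (nat_lit 265) (nat_lit 199))))) (XT.nd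 (nat_lit 312) (nat_lit 0) (nat_lit 0) (XT.nd (nat_lit 156) (nat_lit 0) (nat_lit 0) (XT.nd (nat_lit 78) (nat_lit 76) (nat_lit 0) (XT.lf (nat_lit 0) (nat_lit 8554084402) (nat_lit 152) (nat_lit 7001350871) (nat_lit 76) (nat_lit 93447298484) (nat_lit 5) (nat_lit 5) (nat_lit 7) (nat_lit 5) (nat_lit 6) (nat_lit 4) (nat_lit 317) (nat_lit 265) (nat_lit 198)) (XT.lf (nat_lit 0) (nat_lit 9254138485) (nat_lit 76) (nat_lit 7120202615) (nat_lit 152) (nat_lit 100620107154) (nat_lit 4) (nat_lit 5) (nat_lit 5) (nat_lit 5) (nat_lit 6) (nat_lit 4) (nat_lit 318) (nat_lit 265) (nat_lit 197))) (XT.nd (nat_lit 78) (nat_lit 0) (nat_lit 0) (XT.lf (nat_lit 0) (nat_lit 25056822995) (nat_lit 152) (nat_lit 98469180867) (nat_lit 0) (nat_lit 2080575686) (nat_lit 4) (nat_lit 5) (nat_lit 6) (nat_lit 4) (nat_lit 4) (nat_lit 4) (nat_lit 319) (nat_lit 265) (nat_lit 196)) (XT.lf (nat_lit 0) (nat_lit 34611757864) (nat_lit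 152) (nat_lit 88654641999) (nat_lit 0) (nat_lit 11627060547) (nat_lit 4) (nat_lit 5) (nat_lit 6) (nat_lit 4) (nat_lit 4) (nat_lit 4) (nat_lit 320) (nat_lit 265) (nat_lit 195)))) (XT.nd (nat_lit 156) (nat_lit 0) (nat_lit 0) (XT.nd (nat_lit 78) (nat_lit 0) (nat_lit 0) (XT.lf (nat_lit 0) (nat_lit 44924526497) (nat_lit 152) (nat_lit 78067291892) (nat_lit 0) (nat_lit 21932005100) (nat_lit 4) (nat_lit 5) (nat_lit 6) (nat_lit 4) (nat_lit 4) (nat_lit 4) (nat_lit 321) (nat_lit 265) (nat_lit 194)) (XT.lf (nat_lit 0) (nat_lit 56056241600) (nat_lit 152) (nat_lit 66644390693) (nat_lit 0) (nat_lit 33056475682) (nat_lit 4) (nat_lit 5) (nat_lit 6) (nat_lit 4) (nat_lit 4) (nat_lit 4) (nat_lit 322) (nat_lit 265) (nat_lit 193))) (XT.nd (nat_lit 78) (nat_lit 0) (nat_lit 0) (XT.lf (nat_lit 0) (nat_lit 68072868889) (nat_lit 152) (nat_lit 54318247136) (nat_lit 0) (nat_lit 45066395084) (nat_lit 4) (nat_lit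 5) (nat_lit 6) (nat_lit 4) (nat_lit 4) (nat_lit 4) (nat_lit 323) (nat_lit 265) (nat_lit 192)) (XT.lf (nat_lit 0) (nat_lit 81045618010) (nat_lit 152) (nat_lit 41015817407) (nat_lit 0) (nat_lit 58032933197) (nat_lit 4) (nat_lit 5) (nat_lit 6) (nat_lit 4) (nat_lit 4) (nat_lit 4) (nat_lit 324) (nat_lit 265) (nat_lit 191))))))))
noncomputable def xc59 : XT := (XT.nd (nat_lit 2184) (nat_lit 152) (nat_lit 0) (XT.nd (nat_lit 1092) (nat_lit 0) (nat_lit 0) (XT.nd (nat_lit 546) (nat_lit 0) (nat_lit 0) (XT.nd (nat_lit 234) (nat_lit 0) (nat_lit 0) (XT.nd (nat_lit 78) (nat_lit 76) (nat_lit 0) (XT.lf (nat_lit 0) (nat_lit 95051364512) (nat_lit 152) (nat_lit 26658272293) (nat_lit 0) (nat_lit 72032928765) (nat_lit 4) (nat_lit 5) (nat_lit 6) (nat_lit 4) (nat_lit 4) (nat_lit 4) (nat_lit 325) (nat_lit 265) (nat_lit 190)) (XT.nd (nat_lit 78) (nat_lit 76) (nat_lit 0) (XT.lf (nat_lit 0) (nat_lit 110173105411)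 (nat_lit 152) (nat_lit 11160530045) (nat_lit 0) (nat_lit 87149344726) (nat_lit 4) (nat_lit 5) (nat_lit 6) (nat_lit 4) (nat_lit 4) (nat_lit 4) (nat_lit 326) (nat_lit 265) (nat_lit 189)) (XT.lf (nat_lit 0) (nat_lit 5862514529) (nat_lit 76) (nat_lit 120778930111) (nat_lit 76) (nat_lit 97750238927) (nat_lit 3) (nat_lit 4) (nat_lit 4) (nat_lit 5) (nat_lit 4) (nat_lit 4) (nat_lit 327) (nat_lit 265) (nat_lit 188)))) (XT.nd (nat_lit 156) (nat_lit 0) (nat_lit 0) (XT.nd (nat_lit 78) (nat_lit 0) (nat_lit 0) (XT.lf (nat_lit 0) (nat_lit 24874525186) (nat_lit 76) (nat_lit 119853863735) (nat_lit 76) (nat_lit 96820607275) (nat_lit 3) (nat_lit 4) (nat_lit 4) (nat_lit 5) (nat_lit 4) (nat_lit 4) (nat_lit 328) (nat_lit 265) (nat_lit 187)) (XT.lf (nat_lit 0) (nat_lit 45400471959) (nat_lit 76) (nat_lit 118858103123) (nat_lit 76) (nat_lit 95820619556) (nat_lit 3) (nat_lit 4) (nat_lit 4) (nat_lit 5) (nat_lit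 4) (nat_lit 4) (nat_lit 329) (nat_lit 265) (nat_lit 186))) (XT.nd (nat_lit 78) (nat_lit 0) (nat_lit 0) (XT.lf (nat_lit 0) (nat_lit 67561990088) (nat_lit 76) (nat_lit 117785747472) (nat_lit 76) (nat_lit 94744349917) (nat_lit 3) (nat_lit 4) (nat_lit 4) (nat_lit 5) (nat_lit 4) (nat_lit 4) (nat_lit 330) (nat_lit 265) (nat_lit 185)) (XT.lf (nat_lit 0) (nat_lit 91490407088) (nat_lit 76) (nat_lit 116630442083) (nat_lit 76) (nat_lit 93585420464) (nat_lit 3) (nat_lit 4) (nat_lit 4) (nat_lit 5) (nat_lit 4) (nat_lit 4) (nat_lit 331) (nat_lit 265) (nat_lit 184))))) (XT.nd (nat_lit 234) (nat_lit 0) (nat_lit 0) (XT.nd (nat_lit 78) (nat_lit 0) (nat_lit 0) (XT.lf (nat_lit 0) (nat_lit 117327520985) (nat_lit 76) (nat_lit 115385340700) (nat_lit 76) (nat_lit 92336963466) (nat_lit 3) (nat_lit 4) (nat_lit 4) (nat_lit 5) (nat_lit 4) (nat_lit 4) (nat_lit 332) (nat_lit 265) (nat_lit 183)) (XT.nd (nat_lit 78)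 (nat_lit 0) (nat_lit 0) (XT.lf (nat_lit 0) (nat_lit 145226440603) (nat_lit 76) (nat_lit 114043064944) (nat_lit 76) (nat_lit 90991580661) (nat_lit 3) (nat_lit 4) (nat_lit 4) (nat_lit 5) (nat_lit 4) (nat_lit 4) (nat_lit 333) (nat_lit 265) (nat_lit 182)) (XT.lf (nat_lit 0) (nat_lit 175352492872) (nat_lit 76) (nat_lit 112595660591) (nat_lit 76) (nat_lit 89541299409) (nat_lit 3) (nat_lit 4) (nat_lit 4) (nat_lit 5) (nat_lit 4) (nat_lit 4) (nat_lit 334) (nat_lit 265) (nat_lit 181)))) (XT.nd (nat_lit 156) (nat_lit 0) (nat_lit 0) (XT.nd (nat_lit 78) (nat_lit 0) (nat_lit 0) (XT.lf (nat_lit 0) (nat_lit 207884202547) (nat_lit 76) (nat_lit 111034550427) (nat_lit 76) (nat_lit 87977525451) (nat_lit 3) (nat_lit 4) (nat_lit 4) (nat_lit 5) (nat_lit 4) (nat_lit 4) (nat_lit 335) (nat_lit 265) (nat_lit 180)) (XT.lf (nat_lit 0) (nat_lit 243014350129) (nat_lit 76) (nat_lit 109350483431) (nat_lit 76) (nat_lit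 86290991978) (nat_lit 3) (nat_lit 4) (nat_lit 4) (nat_lit 5) (nat_lit 4) (nat_lit 4) (nat_lit 336) (nat_lit 265) (nat_lit 179))) (XT.nd (nat_lit 78) (nat_lit 0) (nat_lit 0) (XT.lf (nat_lit 0) (nat_lit 280951114271) (nat_lit 76) (nat_lit 107533479946) (nat_lit 76) (nat_lit 84471704718) (nat_lit 3) (nat_lit 4) (nat_lit 4) (nat_lit 5) (nat_lit 4) (nat_lit 4) (nat_lit 337) (nat_lit 265) (nat_lit 178)) (XT.lf (nat_lit 0) (nat_lit 321919305428) (nat_lit 76) (nat_lit 105572772544) (nat_lit 76) (nat_lit 82508882710) (nat_lit 3) (nat_lit 4) (nat_lit 4) (nat_lit 5) (nat_lit 4) (nat_lit 4) (nat_lit 338) (nat_lit 265) (nat_lit 177)))))) (XT.nd (nat_lit 546) (nat_lit 0) (nat_lit 0) (XT.nd (nat_lit 234) (nat_lit 0) (nat_lit 0) (XT.nd (nat_lit 78) (nat_lit 0) (nat_lit 0) (XT.lf (nat_lit 0) (nat_lit 366161698064) (nat_lit 76) (nat_lit 103456742218) (nat_lit 76) (nat_lit 80390894415) (nat_lit 3) (nat_lit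 4) (nat_lit 4) (nat_lit 5) (nat_lit 4) (nat_lit 4) (nat_lit 339) (nat_lit 265) (nat_lit 176)) (XT.nd (nat_lit 78) (nat_lit 0) (nat_lit 0) (XT.lf (nat_lit 0) (nat_lit 413940469322) (nat_lit 76) (nat_lit 101172849529) (nat_lit 76) (nat_lit 78105188792) (nat_lit 3) (nat_lit 4) (nat_lit 4) (nat_lit 5) (nat_lit 4) (nat_lit 4) (nat_lit 340) (nat_lit 265) (nat_lit 175)) (XT.lf (nat_lit 0) (nat_lit 465538752661) (nat_lit 76) (nat_lit 98707560298) (nat_lit 76) (nat_lit 75638220918) (nat_lit 3) (nat_lit 4) (nat_lit 4) (nat_lit 5) (nat_lit 4) (nat_lit 4) (nat_lit 341) (nat_lit 265) (nat_lit 174)))) (XT.nd (nat_lit 156) (nat_lit 0) (nat_lit 0) (XT.nd (nat_lit 78) (nat_lit 0) (nat_lit 0) (XT.lf (nat_lit 0) (nat_lit 521262315686) (nat_lit 76) (nat_lit 96046265403) (nat_lit 76) (nat_lit 72975371725) (nat_lit 3) (nat_lit 4) (nat_lit 4) (nat_lit 5) (nat_lit 4) (nat_lit 4) (nat_lit 342) (nat_lit 265)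 (nat_lit 173)) (XT.lf (nat_lit 0) (nat_lit 581441372103) (nat_lit 76) (nat_lit 93173194210) (nat_lit 76) (nat_lit 70100861366) (nat_lit 3) (nat_lit 4) (nat_lit 4) (nat_lit 5) (nat_lit 4) (nat_lit 4) (nat_lit 343) (nat_lit 265) (nat_lit 172))) (XT.nd (nat_lit 78) (nat_lit 0) (nat_lit 0) (XT.lf (nat_lit 0) (nat_lit 646432538544) (nat_lit 76) (nat_lit 90071321109) (nat_lit 76) (nat_lit 66997655705) (nat_lit 3) (nat_lit 4) (nat_lit 4) (nat_lit 5) (nat_lit 4) (nat_lit 4) (nat_lit 344) (nat_lit 265) (nat_lit 171)) (XT.lf (nat_lit 0) (nat_lit 716620947847) (nat_lit 76) (nat_lit 86722264632) (nat_lit 76) (nat_lit 63647365375) (nat_lit 3) (nat_lit 4) (nat_lit 4) (nat_lit 5) (nat_lit 4) (nat_lit 4) (nat_lit 345) (nat_lit 265) (nat_lit 170))))) (XT.nd (nat_lit 234) (nat_lit 0) (nat_lit 0) (XT.nd (nat_lit 78) (nat_lit 0) (nat_lit 0) (XT.lf (nat_lit 0) (nat_lit 792422531326) (nat_lit 76) (nat_lit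 83106178517) (nat_lit 76) (nat_lit 60030136804) (nat_lit 3) (nat_lit 4) (nat_lit 4) (nat_lit 5) (nat_lit 4) (nat_lit 4) (nat_lit 346) (nat_lit 265) (nat_lit 169)) (XT.nd (nat_lit 78) (nat_lit 0) (nat_lit 0) (XT.lf (nat_lit 0) (nat_lit 874286483549) (nat_lit 76) (nat_lit 79201634106) (nat_lit 76) (nat_lit 56124534564) (nat_lit 3) (nat_lit 4) (nat_lit 4) (nat_lit 5) (nat_lit 4) (nat_lit 4) (nat_lit 347) (nat_lit 265) (nat_lit 168)) (XT.lf (nat_lit 0) (nat_lit 962697924234) (nat_lit 76) (nat_lit 74985493358) (nat_lit 76) (nat_lit 51907414344) (nat_lit 3) (nat_lit 4) (nat_lit 4) (nat_lit 5) (nat_lit 4) (nat_lit 4) (nat_lit 348) (nat_lit 265) (nat_lit 167)))) (XT.nd (nat_lit 156) (nat_lit 0) (nat_lit 0) (XT.nd (nat_lit 78) (nat_lit 0) (nat_lit 0) (XT.lf (nat_lit 0) (nat_lit 1058180773029) (nat_lit 76) (nat_lit 70432771736) (nat_lit 76) (nat_lit 47353785803) (nat_lit 3) (nat_lit 4) (nat_lit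 4) (nat_lit 5) (nat_lit 4) (nat_lit 4) (nat_lit 349) (nat_lit 265) (nat_lit 166)) (XT.lf (nat_lit 0) (nat_lit 1161300854223) (nat_lit 76) (nat_lit 65516490147) (nat_lit 76) (nat_lit 42436664476) (nat_lit 3) (nat_lit 4) (nat_lit 4) (nat_lit 5) (nat_lit 4) (nat_lit 4) (nat_lit 350) (nat_lit 265) (nat_lit 165))) (XT.nd (nat_lit 78) (nat_lit 0) (nat_lit 0) (XT.lf (nat_lit 0) (nat_lit 1272669249779) (nat_lit 76) (nat_lit 60207515073) (nat_lit 76) (nat_lit 37126911865) (nat_lit 3) (nat_lit 4) (nat_lit 4) (nat_lit 5) (nat_lit 4) (nat_lit 4) (nat_lit 351) (nat_lit 265) (nat_lit 164)) (XT.lf (nat_lit 0) (nat_lit 1392945920559) (nat_lit 76) (nat_lit 54474385919) (nat_lit 76) (nat_lit 31393062770) (nat_lit 3) (nat_lit 4) (nat_lit 4) (nat_lit 5) (nat_lit 4) (nat_lit 4) (nat_lit 352) (nat_lit 265) (nat_lit 163))))))) (XT.nd (nat_lit 34086) (nat_lit 0) (nat_lit 1824) (XT.nd (nat_lit 546) (nat_lit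 0) (nat_lit 0) (XT.nd (nat_lit 234) (nat_lit 152) (nat_lit 0) (XT.nd (nat_lit 78) (nat_lit 0) (nat_lit 0) (XT.lf (nat_lit 0) (nat_lit 1522843617206) (nat_lit 76) (nat_lit 48283128587) (nat_lit 76) (nat_lit 25201138826) (nat_lit 3) (nat_lit 4) (nat_lit 4) (nat_lit 5) (nat_lit 4) (nat_lit 4) (nat_lit 353) (nat_lit 265) (nat_lit 162)) (XT.nd (nat_lit 78) (nat_lit 0) (nat_lit 0) (XT.lf (nat_lit 0) (nat_lit 1663132103847) (nat_lit 76) (nat_lit 41597054145) (nat_lit 76) (nat_lit 18514447150) (nat_lit 3) (nat_lit 4) (nat_lit 4) (nat_lit 5) (nat_lit 4) (nat_lit 4) (nat_lit 354) (nat_lit 265) (nat_lit 161)) (XT.lf (nat_lit 0) (nat_lit 1814642719662) (nat_lit 76) (nat_lit 34376541410) (nat_lit 76) (nat_lit 11293362903) (nat_lit 3) (nat_lit 4) (nat_lit 4) (nat_lit 5) (nat_lit 4) (nat_lit 4) (nat_lit 355) (nat_lit 265) (nat_lit 160)))) (XT.nd (nat_lit 156) (nat_lit 76) (nat_lit 0) (XT.nd (nat_lit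 78) (nat_lit 76) (nat_lit 0) (XT.lf (nat_lit 0) (nat_lit 1978273305338) (nat_lit 76) (nat_lit 26578802160) (nat_lit 76) (nat_lit 3495094475) (nat_lit 3) (nat_lit 4) (nat_lit 4) (nat_lit 5) (nat_lit 4) (nat_lit 4) (nat_lit 356) (nat_lit 265) (nat_lit 159)) (XT.lf (nat_lit 0) (nat_lit 4680123107) (nat_lit 152) (nat_lit 13349541601) (nat_lit 76) (nat_lit 2150185437638) (nat_lit 2) (nat_lit 5) (nat_lit 4) (nat_lit 5) (nat_lit 3) (nat_lit 4) (nat_lit 357) (nat_lit 265) (nat_lit 158))) (XT.nd (nat_lit 78) (nat_lit 0) (nat_lit 0) (XT.lf (nat_lit 0) (nat_lit 4864548718) (nat_lit 76) (nat_lit 8572566699) (nat_lit 152) (nat_lit 2327418730512) (nat_lit 1) (nat_lit 5) (nat_lit 2) (nat_lit 5) (nat_lit 3) (nat_lit 4) (nat_lit 358) (nat_lit 265) (nat_lit 157)) (XT.lf (nat_lit 0) (nat_lit 23308210421) (nat_lit 152) (nat_lit 2502033411169) (nat_lit 0) (nat_lit 1933144284) (nat_lit 1) (nat_lit 5) (nat_lit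 3) (nat_lit 4) (nat_lit 1) (nat_lit 4) (nat_lit 359) (nat_lit 265) (nat_lit 156))))) (XT.nd (nat_lit 234) (nat_lit 0) (nat_lit 0) (XT.nd (nat_lit 78) (nat_lit 0) (nat_lit 0) (XT.lf (nat_lit 0) (nat_lit 34191281343) (nat_lit 152) (nat_lit 2681582280266) (nat_lit 0) (nat_lit 12815855056) (nat_lit 1) (nat_lit 5) (nat_lit 3) (nat_lit 4) (nat_lit 1) (nat_lit 4) (nat_lit 360) (nat_lit 265) (nat_lit 155)) (XT.nd (nat_lit 78) (nat_lit 0) (nat_lit 0) (XT.lf (nat_lit 0) (nat_lit 45944650021) (nat_lit 152) (nat_lit 2875495727364) (nat_lit 0) (nat_lit 24568890262) (nat_lit 1) (nat_lit 5) (nat_lit 3) (nat_lit 4) (nat_lit 1) (nat_lit 4) (nat_lit 361) (nat_lit 265) (nat_lit 154)) (XT.lf (nat_lit 0) (nat_lit 58637966045) (nat_lit 152) (nat_lit 3084922869187) (nat_lit 0) (nat_lit 37261897516) (nat_lit 1) (nat_lit 5) (nat_lit 3) (nat_lit 4) (nat_lit 1) (nat_lit 4) (nat_lit 362) (nat_lit 265) (nat_lit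 153)))) (XT.nd (nat_lit 33150) (nat_lit 0) (nat_lit 3496) (XT.nd (nat_lit 33072) (nat_lit 0) (nat_lit 3876) (XT.lf (nat_lit 0) (nat_lit 72346449068) (nat_lit 152) (nat_lit 3311104755465) (nat_lit 0) (nat_lit 50970094640) (nat_lit 1) (nat_lit 5) (nat_lit 3) (nat_lit 4) (nat_lit 1) (nat_lit 4) (nat_lit 363) (nat_lit 265) (nat_lit 152)) (XT.lf (nat_lit 0) (nat_lit 2686666942) (nat_lit 380) (nat_lit 532472765) (nat_lit 380) (nat_lit 532472765) (nat_lit 52) (nat_lit 3) (nat_lit 57) (nat_lit 3) (nat_lit 57) (nat_lit 5) (nat_lit 266) (nat_lit 266) (nat_lit 248))) (XT.nd (nat_lit 78) (nat_lit 380) (nat_lit 0) (XT.lf (nat_lit 76) (nat_lit 2421875816) (nat_lit 0) (nat_lit 4506048846) (nat_lit 380) (nat_lit 761306396) (nat_lit 53) (nat_lit 5) (nat_lit 52) (nat_lit 3) (nat_lit 57) (nat_lit 5) (nat_lit 267) (nat_lit 266) (nat_lit 247)) (XT.lf (nat_lit 0) (nat_lit 576782867) (nat_lit 380) (nat_lit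 1738516574) (nat_lit 456) (nat_lit 5582413151) (nat_lit 47) (nat_lit 5) (nat_lit 52) (nat_lit 3) (nat_lit 53) (nat_lit 5) (nat_lit 268) (nat_lit 266) (nat_lit 246)))))) (XT.nd (nat_lit 546) (nat_lit 912) (nat_lit 0) (XT.nd (nat_lit 234) (nat_lit 836) (nat_lit 0) (XT.nd (nat_lit 78) (nat_lit 0) (nat_lit 0) (XT.lf (nat_lit 0) (nat_lit 1911003453) (nat_lit 380) (nat_lit 6049959531) (nat_lit 456) (nat_lit 166506732) (nat_lit 48) (nat_lit 5) (nat_lit 53) (nat_lit 5) (nat_lit 54) (nat_lit 5) (nat_lit 269) (nat_lit 266) (nat_lit 245)) (XT.nd (nat_lit 78) (nat_lit 0) (nat_lit 0) (XT.lf (nat_lit 0) (nat_lit 3345275890) (nat_lit 380) (nat_lit 2219466647) (nat_lit 456) (nat_lit 2811951738) (nat_lit 48) (nat_lit 5) (nat_lit 53) (nat_lit 5) (nat_lit 54) (nat_lit 5) (nat_lit 270) (nat_lit 266) (nat_lit 244)) (XT.lf (nat_lit 76) (nat_lit 1936582346) (nat_lit 0) (nat_lit 2897252794) (nat_lit 456)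 (nat_lit 3817369170) (nat_lit 49) (nat_lit 5) (nat_lit 48) (nat_lit 5) (nat_lit 54) (nat_lit 5) (nat_lit 271) (nat_lit 266) (nat_lit 243)))) (XT.nd (nat_lit 156) (nat_lit 532) (nat_lit 0) (XT.nd (nat_lit 78) (nat_lit 380) (nat_lit 0) (XT.lf (nat_lit 0) (nat_lit 6403025958) (nat_lit 380) (nat_lit 2477606894) (nat_lit 76) (nat_lit 70591804) (nat_lit 49) (nat_lit 5) (nat_lit 54) (nat_lit 5) (nat_lit 50) (nat_lit 5) (nat_lit 272) (nat_lit 266) (nat_lit 242)) (XT.lf (nat_lit 0) (nat_lit 2046858089) (nat_lit 380) (nat_lit 6082485380) (nat_lit 456) (nat_lit 1143814041) (nat_lit 44) (nat_lit 5) (nat_lit 49) (nat_lit 5) (nat_lit 50) (nat_lit 5) (nat_lit 273) (nat_lit 266) (nat_lit 241))) (XT.nd (nat_lit 78) (nat_lit 456) (nat_lit 0) (XT.lf (nat_lit 0) (nat_lit 333248874) (nat_lit 456) (nat_lit 2633771179) (nat_lit 76) (nat_lit 6655164521) (nat_lit 43) (nat_lit 5) (nat_lit 49) (nat_lit 5) (nat_lit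 44) (nat_lit 5) (nat_lit 274) (nat_lit 266) (nat_lit 240)) (XT.lf (nat_lit 0) (nat_lit 1851077915) (nat_lit 532) (nat_lit 7673656204) (nat_lit 76) (nat_lit 473619040) (nat_lit 37) (nat_lit 5) (nat_lit 44) (nat_lit 5) (nat_lit 38) (nat_lit 5) (nat_lit 275) (nat_lit 266) (nat_lit 239))))) (XT.nd (nat_lit 312) (nat_lit 456) (nat_lit 0) (XT.nd (nat_lit 156) (nat_lit 228) (nat_lit 0) (XT.nd (nat_lit 78) (nat_lit 228) (nat_lit 0) (XT.lf (nat_lit 0) (nat_lit 3562033706) (nat_lit 532) (nat_lit 2728793301) (nat_lit 76) (nat_lit 4108374278) (nat_lit 37) (nat_lit 5) (nat_lit 44) (nat_lit 5) (nat_lit 38) (nat_lit 5) (nat_lit 276) (nat_lit 266) (nat_lit 238)) (XT.lf (nat_lit 0) (nat_lit 2670594656) (nat_lit 228) (nat_lit 2730121908) (nat_lit 304) (nat_lit 5432430878) (nat_lit 34) (nat_lit 5) (nat_lit 37) (nat_lit 5) (nat_lit 38) (nat_lit 5) (nat_lit 277) (nat_lit 266) (nat_lit 237))) (XT.nd (nat_lit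 78) (nat_lit 228) (nat_lit 0) (XT.lf (nat_lit 0) (nat_lit 7420102417) (nat_lit 304) (nat_lit 2746027603) (nat_lit 76) (nat_lit 1133266742) (nat_lit 34) (nat_lit 5) (nat_lit 38) (nat_lit 5) (nat_lit 35) (nat_lit 5) (nat_lit 278) (nat_lit 266) (nat_lit 236)) (XT.lf (nat_lit 0) (nat_lit 3116057970) (nat_lit 228) (nat_lit 6566236590) (nat_lit 304) (nat_lit 2114406716) (nat_lit 31) (nat_lit 5) (nat_lit 34) (nat_lit 5) (nat_lit 35) (nat_lit 5) (nat_lit 279) (nat_lit 266) (nat_lit 235)))) (XT.nd (nat_lit 156) (nat_lit 152) (nat_lit 0) (XT.nd (nat_lit 78) (nat_lit 304) (nat_lit 0) (XT.lf (nat_lit 0) (nat_lit 9532393400) (nat_lit 228) (nat_lit 2606632067) (nat_lit 304) (nat_lit 193916358) (nat_lit 31) (nat_lit 5) (nat_lit 34) (nat_lit 5) (nat_lit 35) (nat_lit 5) (nat_lit 280) (nat_lit 266) (nat_lit 234)) (XT.lf (nat_lit 0) (nat_lit 1857835034) (nat_lit 304) (nat_lit 9333012344) (nat_lit 76)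 (nat_lit 1712085460) (nat_lit 27) (nat_lit 5) (nat_lit 31) (nat_lit 5) (nat_lit 28) (nat_lit 5) (nat_lit 281) (nat_lit 266) (nat_lit 233))) (XT.nd (nat_lit 78) (nat_lit 152) (nat_lit 0) (XT.lf (nat_lit 0) (nat_lit 4153324645) (nat_lit 304) (nat_lit 3049403412) (nat_lit 76) (nat_lit 6308374098) (nat_lit 27) (nat_lit 5) (nat_lit 31) (nat_lit 5) (nat_lit 28) (nat_lit 5) (nat_lit 282) (nat_lit 266) (nat_lit 232)) (XT.lf (nat_lit 0) (nat_lit 3863912180) (nat_lit 152) (nat_lit 2809439775) (nat_lit 228) (nat_lit 7491475195) (nat_lit 25) (nat_lit 5) (nat_lit 27) (nat_lit 5) (nat_lit 28) (nat_lit 5) (nat_lit 283) (nat_lit 266) (nat_lit 231))))))))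
noncomputable def xc60 : XT := (XT.nd (nat_lit 2184) (nat_lit 304) (nat_lit 0) (XT.nd (nat_lit 1092) (nat_lit 456) (nat_lit 0) (XT.nd (nat_lit 546) (nat_lit 380) (nat_lit 0) (XT.nd (nat_lit 234) (nat_lit 380) (nat_lit 0) (XT.nd (nat_lit 78) (nat_lit 152) (nat_lit 0) (XT.lf (nat_lit 0) (nat_lit 9476981813) (nat_lit 228) (nat_lit 3477549394) (nat_lit 76) (nat_lit 1909920030) (nat_lit 25) (nat_lit 5) (nat_lit 28) (nat_lit 5) (nat_lit 26) (nat_lit 5) (nat_lit 284) (nat_lit 266) (nat_lit 230)) (XT.nd (nat_lit 78) (nat_lit 0) (nat_lit 0) (XT.lf (nat_lit 0) (nat_lit 3953155896) (nat_lit 152) (nat_lit 8673416534) (nat_lit 228) (nat_lit 2983888382) (nat_lit 23) (nat_lit 5) (nat_lit 25) (nat_lit 5) (nat_lit 26) (nat_lit 5) (nat_lit 285) (nat_lit 266) (nat_lit 229)) (XT.lf (nat_lit 0) (nat_lit 12114381773) (nat_lit 152) (nat_lit 3964406470) (nat_lit 228) (nat_lit 333448411) (nat_lit 23) (nat_lit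 5) (nat_lit 25) (nat_lit 5) (nat_lit 26) (nat_lit 5) (nat_lit 286) (nat_lit 266) (nat_lit 228)))) (XT.nd (nat_lit 156) (nat_lit 152) (nat_lit 0) (XT.nd (nat_lit 78) (nat_lit 0) (nat_lit 0) (XT.lf (nat_lit 0) (nat_lit 2480015442) (nat_lit 228) (nat_lit 13584169315) (nat_lit 76) (nat_lit 1203022319) (nat_lit 20) (nat_lit 5) (nat_lit 23) (nat_lit 5) (nat_lit 21) (nat_lit 5) (nat_lit 287) (nat_lit 266) (nat_lit 227)) (XT.lf (nat_lit 0) (nat_lit 5683075079) (nat_lit 228) (nat_lit 5809949864) (nat_lit 76) (nat_lit 6682364282) (nat_lit 20) (nat_lit 5) (nat_lit 23) (nat_lit 5) (nat_lit 21) (nat_lit 5) (nat_lit 288) (nat_lit 266) (nat_lit 226))) (XT.nd (nat_lit 78) (nat_lit 0) (nat_lit 0) (XT.lf (nat_lit 0) (nat_lit 2663018974) (nat_lit 152) (nat_lit 6505442063) (nat_lit 228) (nat_lit 9985779920) (nat_lit 18) (nat_lit 5) (nat_lit 20) (nat_lit 5) (nat_lit 21) (nat_lit 5) (nat_lit 289) (nat_lit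 266) (nat_lit 225)) (XT.lf (nat_lit 0) (nat_lit 12089267084) (nat_lit 152) (nat_lit 965790997) (nat_lit 228) (nat_lit 7146646346) (nat_lit 18) (nat_lit 5) (nat_lit 20) (nat_lit 5) (nat_lit 21) (nat_lit 5) (nat_lit 290) (nat_lit 266) (nat_lit 224))))) (XT.nd (nat_lit 234) (nat_lit 228) (nat_lit 0) (XT.nd (nat_lit 78) (nat_lit 76) (nat_lit 0) (XT.lf (nat_lit 0) (nat_lit 802873468) (nat_lit 76) (nat_lit 16555493966) (nat_lit 152) (nat_lit 3966221826) (nat_lit 17) (nat_lit 5) (nat_lit 18) (nat_lit 5) (nat_lit 19) (nat_lit 4) (nat_lit 291) (nat_lit 266) (nat_lit 223)) (XT.nd (nat_lit 78) (nat_lit 76) (nat_lit 0) (XT.lf (nat_lit 0) (nat_lit 10814433226) (nat_lit 76) (nat_lit 11404866034) (nat_lit 152) (nat_lit 301017604) (nat_lit 17) (nat_lit 5) (nat_lit 18) (nat_lit 5) (nat_lit 19) (nat_lit 4) (nat_lit 292) (nat_lit 266) (nat_lit 222)) (XT.lf (nat_lit 0) (nat_lit 3443118701) (nat_lit 152)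 (nat_lit 2322548466) (nat_lit 76) (nat_lit 18041573854) (nat_lit 16) (nat_lit 5) (nat_lit 18) (nat_lit 5) (nat_lit 17) (nat_lit 5) (nat_lit 293) (nat_lit 266) (nat_lit 221)))) (XT.nd (nat_lit 156) (nat_lit 76) (nat_lit 0) (XT.nd (nat_lit 78) (nat_lit 0) (nat_lit 0) (XT.lf (nat_lit 0) (nat_lit 7650611400) (nat_lit 228) (nat_lit 17029849261) (nat_lit 76) (nat_lit 501689882) (nat_lit 14) (nat_lit 5) (nat_lit 17) (nat_lit 5) (nat_lit 15) (nat_lit 4) (nat_lit 294) (nat_lit 266) (nat_lit 220)) (XT.lf (nat_lit 0) (nat_lit 12381265980) (nat_lit 228) (nat_lit 7262986849) (nat_lit 76) (nat_lit 7007934246) (nat_lit 14) (nat_lit 5) (nat_lit 17) (nat_lit 5) (nat_lit 15) (nat_lit 4) (nat_lit 295) (nat_lit 266) (nat_lit 219))) (XT.nd (nat_lit 78) (nat_lit 0) (nat_lit 0) (XT.lf (nat_lit 0) (nat_lit 3412572646) (nat_lit 76) (nat_lit 14133625390) (nat_lit 152) (nat_lit 10689217342) (nat_lit 13) (nat_lit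 5) (nat_lit 14) (nat_lit 5) (nat_lit 15) (nat_lit 4) (nat_lit 296) (nat_lit 266) (nat_lit 218)) (XT.lf (nat_lit 0) (nat_lit 15312964574) (nat_lit 76) (nat_lit 7984623447) (nat_lit 152) (nat_lit 6633903647) (nat_lit 13) (nat_lit 5) (nat_lit 14) (nat_lit 5) (nat_lit 15) (nat_lit 4) (nat_lit 297) (nat_lit 266) (nat_lit 217)))))) (XT.nd (nat_lit 546) (nat_lit 228) (nat_lit 0) (XT.nd (nat_lit 234) (nat_lit 76) (nat_lit 0) (XT.nd (nat_lit 78) (nat_lit 152) (nat_lit 0) (XT.lf (nat_lit 0) (nat_lit 28126253758) (nat_lit 76) (nat_lit 1359391403) (nat_lit 152) (nat_lit 2279531454) (nat_lit 13) (nat_lit 5) (nat_lit 14) (nat_lit 5) (nat_lit 15) (nat_lit 4) (nat_lit 298) (nat_lit 266) (nat_lit 216)) (XT.nd (nat_lit 78) (nat_lit 0) (nat_lit 0) (XT.lf (nat_lit 0) (nat_lit 2631195620) (nat_lit 152) (nat_lit 25321067928) (nat_lit 76) (nat_lit 5762333076) (nat_lit 11) (nat_lit 5) (nat_lit 13) (nat_lit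 5) (nat_lit 12) (nat_lit 4) (nat_lit 299) (nat_lit 266) (nat_lit 215)) (XT.lf (nat_lit 0) (nat_lit 7927117053) (nat_lit 152) (nat_lit 14351490154) (nat_lit 76) (nat_lit 13527424463) (nat_lit 11) (nat_lit 5) (nat_lit 13) (nat_lit 5) (nat_lit 12) (nat_lit 4) (nat_lit 300) (nat_lit 266) (nat_lit 214)))) (XT.nd (nat_lit 156) (nat_lit 0) (nat_lit 0) (XT.nd (nat_lit 78) (nat_lit 76) (nat_lit 0) (XT.lf (nat_lit 0) (nat_lit 13626436606) (nat_lit 152) (nat_lit 2539441417) (nat_lit 76) (nat_lit 21900560115) (nat_lit 11) (nat_lit 5) (nat_lit 13) (nat_lit 5) (nat_lit 12) (nat_lit 4) (nat_lit 301) (nat_lit 266) (nat_lit 213)) (XT.lf (nat_lit 0) (nat_lit 10721403641) (nat_lit 76) (nat_lit 9299374398) (nat_lit 152) (nat_lit 20467804986) (nat_lit 10) (nat_lit 5) (nat_lit 11) (nat_lit 5) (nat_lit 12) (nat_lit 4) (nat_lit 302) (nat_lit 266) (nat_lit 212))) (XT.nd (nat_lit 78) (nat_lit 0) (nat_lit 0)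 (XT.lf (nat_lit 0) (nat_lit 25155863652) (nat_lit 76) (nat_lit 1822091175) (nat_lit 152) (nat_lit 16122471271) (nat_lit 10) (nat_lit 5) (nat_lit 11) (nat_lit 5) (nat_lit 12) (nat_lit 4) (nat_lit 303) (nat_lit 266) (nat_lit 211)) (XT.lf (nat_lit 0) (nat_lit 34624997586) (nat_lit 152) (nat_lit 5356927006) (nat_lit 0) (nat_lit 5928656119) (nat_lit 10) (nat_lit 5) (nat_lit 12) (nat_lit 4) (nat_lit 10) (nat_lit 4) (nat_lit 304) (nat_lit 266) (nat_lit 210))))) (XT.nd (nat_lit 234) (nat_lit 76) (nat_lit 0) (XT.nd (nat_lit 78) (nat_lit 76) (nat_lit 0) (XT.lf (nat_lit 0) (nat_lit 8592056270) (nat_lit 76) (nat_lit 34529878530) (nat_lit 76) (nat_lit 5804587821) (nat_lit 9) (nat_lit 4) (nat_lit 10) (nat_lit 5) (nat_lit 10) (nat_lit 4) (nat_lit 305) (nat_lit 266) (nat_lit 209)) (XT.nd (nat_lit 78) (nat_lit 0) (nat_lit 0) (XT.lf (nat_lit 0) (nat_lit 243669948) (nat_lit 152) (nat_lit 28245262069)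 (nat_lit 76) (nat_lit 23683846211) (nat_lit 8) (nat_lit 5) (nat_lit 10) (nat_lit 5) (nat_lit 9) (nat_lit 4) (nat_lit 306) (nat_lit 266) (nat_lit 208)) (XT.lf (nat_lit 0) (nat_lit 6447613645) (nat_lit 152) (nat_lit 15365878487) (nat_lit 76) (nat_lit 33854366935) (nat_lit 8) (nat_lit 5) (nat_lit 10) (nat_lit 5) (nat_lit 9) (nat_lit 4) (nat_lit 307) (nat_lit 266) (nat_lit 207)))) (XT.nd (nat_lit 156) (nat_lit 0) (nat_lit 0) (XT.nd (nat_lit 78) (nat_lit 76) (nat_lit 0) (XT.lf (nat_lit 0) (nat_lit 13134376372) (nat_lit 152) (nat_lit 1480392856) (nat_lit 76) (nat_lit 44828875539) (nat_lit 8) (nat_lit 5) (nat_lit 10) (nat_lit 5) (nat_lit 9) (nat_lit 4) (nat_lit 308) (nat_lit 266) (nat_lit 206)) (XT.lf (nat_lit 0) (nat_lit 14204021884) (nat_lit 76) (nat_lit 6481168573) (nat_lit 152) (nat_lit 42809991332) (nat_lit 7) (nat_lit 5) (nat_lit 8) (nat_lit 5) (nat_lit 9) (nat_lit 4) (nat_lit 309)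 (nat_lit 266) (nat_lit 205))) (XT.nd (nat_lit 78) (nat_lit 0) (nat_lit 0) (XT.lf (nat_lit 0) (nat_lit 28924654942) (nat_lit 152) (nat_lit 36719296482) (nat_lit 0) (nat_lit 2220139539) (nat_lit 7) (nat_lit 5) (nat_lit 9) (nat_lit 4) (nat_lit 7) (nat_lit 4) (nat_lit 310) (nat_lit 266) (nat_lit 204)) (XT.lf (nat_lit 0) (nat_lit 37980199436) (nat_lit 152) (nat_lit 23330982004) (nat_lit 0) (nat_lit 11258792429) (nat_lit 7) (nat_lit 5) (nat_lit 9) (nat_lit 4) (nat_lit 7) (nat_lit 4) (nat_lit 311) (nat_lit 266) (nat_lit 203))))))) (XT.nd (nat_lit 1092) (nat_lit 76) (nat_lit 0) (XT.nd (nat_lit 546) (nat_lit 76) (nat_lit 0) (XT.nd (nat_lit 234) (nat_lit 76) (nat_lit 0) (XT.nd (nat_lit 78) (nat_lit 76) (nat_lit 0) (XT.lf (nat_lit 0) (nat_lit 47749614165) (nat_lit 152) (nat_lit 8891006052) (nat_lit 0) (nat_lit 21012566784) (nat_lit 7) (nat_lit 5) (nat_lit 9) (nat_lit 4) (nat_lit 7) (nat_lit 4)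 (nat_lit 312) (nat_lit 266) (nat_lit 202)) (XT.nd (nat_lit 78) (nat_lit 0) (nat_lit 0) (XT.lf (nat_lit 0) (nat_lit 7038285129) (nat_lit 76) (nat_lit 51421777756) (nat_lit 76) (nat_lit 24670248546) (nat_lit 6) (nat_lit 4) (nat_lit 7) (nat_lit 5) (nat_lit 7) (nat_lit 4) (nat_lit 313) (nat_lit 266) (nat_lit 201)) (XT.lf (nat_lit 0) (nat_lit 24730047468) (nat_lit 76) (nat_lit 45530909821) (nat_lit 76) (nat_lit 18765971511) (nat_lit 6) (nat_lit 4) (nat_lit 7) (nat_lit 5) (nat_lit 7) (nat_lit 4) (nat_lit 314) (nat_lit 266) (nat_lit 200)))) (XT.nd (nat_lit 156) (nat_lit 76) (nat_lit 0) (XT.nd (nat_lit 78) (nat_lit 0) (nat_lit 0) (XT.lf (nat_lit 0) (nat_lit 43820936416) (nat_lit 76) (nat_lit 39176203428) (nat_lit 76) (nat_lit 12398849284) (nat_lit 6) (nat_lit 4) (nat_lit 7) (nat_lit 5) (nat_lit 7) (nat_lit 4) (nat_lit 315) (nat_lit 266) (nat_lit 199)) (XT.lf (nat_lit 0) (nat_lit 64424083166)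 (nat_lit 76) (nat_lit 32320001057) (nat_lit 76) (nat_lit 5531150772) (nat_lit 6) (nat_lit 4) (nat_lit 7) (nat_lit 5) (nat_lit 7) (nat_lit 4) (nat_lit 316) (nat_lit 266) (nat_lit 198))) (XT.nd (nat_lit 78) (nat_lit 0) (nat_lit 0) (XT.lf (nat_lit 0) (nat_lit 1783885261) (nat_lit 152) (nat_lit 23089013517) (nat_lit 76) (nat_lit 84828920594) (nat_lit 5) (nat_lit 5) (nat_lit 7) (nat_lit 5) (nat_lit 6) (nat_lit 4) (nat_lit 317) (nat_lit 266) (nat_lit 197)) (XT.lf (nat_lit 0) (nat_lit 9378136499) (nat_lit 152) (nat_lit 7302827030) (nat_lit 76) (nat_lit 101030654628) (nat_lit 5) (nat_lit 5) (nat_lit 7) (nat_lit 5) (nat_lit 6) (nat_lit 4) (nat_lit 318) (nat_lit 266) (nat_lit 196))))) (XT.nd (nat_lit 234) (nat_lit 0) (nat_lit 0) (XT.nd (nat_lit 78) (nat_lit 0) (nat_lit 0) (XT.lf (nat_lit 0) (nat_lit 10246553831) (nat_lit 76) (nat_lit 7573172509) (nat_lit 152) (nat_lit 108523298042) (nat_lit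 4) (nat_lit 5) (nat_lit 5) (nat_lit 5) (nat_lit 6) (nat_lit 4) (nat_lit 319) (nat_lit 266) (nat_lit 195)) (XT.nd (nat_lit 78) (nat_lit 0) (nat_lit 0) (XT.lf (nat_lit 0) (nat_lit 27189371889) (nat_lit 152) (nat_lit 106105735102) (nat_lit 0) (nat_lit 2349624699) (nat_lit 4) (nat_lit 5) (nat_lit 6) (nat_lit 4) (nat_lit 4) (nat_lit 4) (nat_lit 320) (nat_lit 266) (nat_lit 194)) (XT.lf (nat_lit 0) (nat_lit 37499219839) (nat_lit 152) (nat_lit 95523883512) (nat_lit 0) (nat_lit 12652228129) (nat_lit 4) (nat_lit 5) (nat_lit 6) (nat_lit 4) (nat_lit 4) (nat_lit 4) (nat_lit 321) (nat_lit 266) (nat_lit 193)))) (XT.nd (nat_lit 156) (nat_lit 0) (nat_lit 0) (XT.nd (nat_lit 78) (nat_lit 0) (nat_lit 0) (XT.lf (nat_lit 0) (nat_lit 48628230605) (nat_lit 152) (nat_lit 84106073533) (nat_lit 0) (nat_lit 23774531006) (nat_lit 4) (nat_lit 5) (nat_lit 6) (nat_lit 4) (nat_lit 4) (nat_lit 4) (nat_lit 322) (nat_lit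 266) (nat_lit 192)) (XT.lf (nat_lit 0) (nat_lit 60642353879) (nat_lit 152) (nat_lit 71784644069) (nat_lit 0) (nat_lit 35782443273) (nat_lit 4) (nat_lit 5) (nat_lit 6) (nat_lit 4) (nat_lit 4) (nat_lit 4) (nat_lit 323) (nat_lit 266) (nat_lit 191))) (XT.nd (nat_lit 78) (nat_lit 0) (nat_lit 0) (XT.lf (nat_lit 0) (nat_lit 73612784467) (nat_lit 152) (nat_lit 58486579240) (nat_lit 0) (nat_lit 48747122927) (nat_lit 4) (nat_lit 5) (nat_lit 6) (nat_lit 4) (nat_lit 4) (nat_lit 4) (nat_lit 324) (nat_lit 266) (nat_lit 190)) (XT.lf (nat_lit 0) (nat_lit 87616384179) (nat_lit 152) (nat_lit 44133075701) (nat_lit 0) (nat_lit 62745397701) (nat_lit 4) (nat_lit 5) (nat_lit 6) (nat_lit 4) (nat_lit 4) (nat_lit 4) (nat_lit 325) (nat_lit 266) (nat_lit 189)))))) (XT.nd (nat_lit 546) (nat_lit 0) (nat_lit 0) (XT.nd (nat_lit 234) (nat_lit 0) (nat_lit 0) (XT.nd (nat_lit 78) (nat_lit 76) (nat_lit 0) (XT.lf (nat_lit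 0) (nat_lit 102736137310) (nat_lit 152) (nat_lit 28639075652) (nat_lit 0) (nat_lit 77860220334) (nat_lit 4) (nat_lit 5) (nat_lit 6) (nat_lit 4) (nat_lit 4) (nat_lit 4) (nat_lit 326) (nat_lit 266) (nat_lit 188)) (XT.nd (nat_lit 78) (nat_lit 76) (nat_lit 0) (XT.lf (nat_lit 0) (nat_lit 119061642397) (nat_lit 152) (nat_lit 11912762796) (nat_lit 0) (nat_lit 94181160145) (nat_lit 4) (nat_lit 5) (nat_lit 6) (nat_lit 4) (nat_lit 4) (nat_lit 4) (nat_lit 327) (nat_lit 266) (nat_lit 187)) (XT.lf (nat_lit 0) (nat_lit 6468565606) (nat_lit 76) (nat_lit 130376646726) (nat_lit 76) (nat_lit 105491937366) (nat_lit 3) (nat_lit 4) (nat_lit 4) (nat_lit 5) (nat_lit 4) (nat_lit 4) (nat_lit 328) (nat_lit 266) (nat_lit 186)))) (XT.nd (nat_lit 156) (nat_lit 0) (nat_lit 0) (XT.nd (nat_lit 78) (nat_lit 0) (nat_lit 0) (XT.lf (nat_lit 0) (nat_lit 26991385270) (nat_lit 76) (nat_lit 129382360062) (nat_lit 76) (nat_lit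 104493736713) (nat_lit 3) (nat_lit 4) (nat_lit 4) (nat_lit 5) (nat_lit 4) (nat_lit 4) (nat_lit 329) (nat_lit 266) (nat_lit 185)) (XT.lf (nat_lit 0) (nat_lit 49150007928) (nat_lit 76) (nat_lit 128311369177) (nat_lit 76) (nat_lit 103419121765) (nat_lit 3) (nat_lit 4) (nat_lit 4) (nat_lit 5) (nat_lit 4) (nat_lit 4) (nat_lit 330) (nat_lit 266) (nat_lit 184))) (XT.nd (nat_lit 78) (nat_lit 0) (nat_lit 0) (XT.lf (nat_lit 0) (nat_lit 73075743936) (nat_lit 76) (nat_lit 127157327459) (nat_lit 76) (nat_lit 102261724433) (nat_lit 3) (nat_lit 4) (nat_lit 4) (nat_lit 5) (nat_lit 4) (nat_lit 4) (nat_lit 331) (nat_lit 266) (nat_lit 183)) (XT.lf (nat_lit 0) (nat_lit 98910375434) (nat_lit 76) (nat_lit 125913396143) (nat_lit 76) (nat_lit 101014686066) (nat_lit 3) (nat_lit 4) (nat_lit 4) (nat_lit 5) (nat_lit 4) (nat_lit 4) (nat_lit 332) (nat_lit 266) (nat_lit 182))))) (XT.nd (nat_lit 234) (nat_lit 0)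 (nat_lit 0) (XT.nd (nat_lit 78) (nat_lit 0) (nat_lit 0) (XT.lf (nat_lit 0) (nat_lit 126806996533) (nat_lit 76) (nat_lit 124572203783) (nat_lit 76) (nat_lit 99670616808) (nat_lit 3) (nat_lit 4) (nat_lit 4) (nat_lit 5) (nat_lit 4) (nat_lit 4) (nat_lit 333) (nat_lit 266) (nat_lit 181)) (XT.nd (nat_lit 78) (nat_lit 0) (nat_lit 0) (XT.lf (nat_lit 0) (nat_lit 156930920545) (nat_lit 76) (nat_lit 123125802573) (nat_lit 76) (nat_lit 98221551803) (nat_lit 3) (nat_lit 4) (nat_lit 4) (nat_lit 5) (nat_lit 4) (nat_lit 4) (nat_lit 334) (nat_lit 266) (nat_lit 180)) (XT.lf (nat_lit 0) (nat_lit 189460659611) (nat_lit 76) (nat_lit 121565621246) (nat_lit 76) (nat_lit 96658904000) (nat_lit 3) (nat_lit 4) (nat_lit 4) (nat_lit 5) (nat_lit 4) (nat_lit 4) (nat_lit 335) (nat_lit 266) (nat_lit 179)))) (XT.nd (nat_lit 156) (nat_lit 0) (nat_lit 0) (XT.nd (nat_lit 78) (nat_lit 0) (nat_lit 0) (XT.lf (nat_lit 0)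 (nat_lit 224588982555) (nat_lit 76) (nat_lit 119882414284) (nat_lit 76) (nat_lit 94973413263) (nat_lit 3) (nat_lit 4) (nat_lit 4) (nat_lit 5) (nat_lit 4) (nat_lit 4) (nat_lit 336) (nat_lit 266) (nat_lit 178)) (XT.lf (nat_lit 0) (nat_lit 262524057218) (nat_lit 76) (nat_lit 118066207127) (nat_lit 76) (nat_lit 93155091499) (nat_lit 3) (nat_lit 4) (nat_lit 4) (nat_lit 5) (nat_lit 4) (nat_lit 4) (nat_lit 337) (nat_lit 266) (nat_lit 177))) (XT.nd (nat_lit 78) (nat_lit 0) (nat_lit 0) (XT.lf (nat_lit 0) (nat_lit 303490684041) (nat_lit 76) (nat_lit 116106237065) (nat_lit 76) (nat_lit 91193163469) (nat_lit 3) (nat_lit 4) (nat_lit 4) (nat_lit 5) (nat_lit 4) (nat_lit 4) (nat_lit 338) (nat_lit 266) (nat_lit 176)) (XT.lf (nat_lit 0) (nat_lit 347731628221) (nat_lit 76) (nat_lit 113990889461) (nat_lit 76) (nat_lit 89076002931) (nat_lit 3) (nat_lit 4) (nat_lit 4) (nat_lit 5) (nat_lit 4) (nat_lit 4)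 (nat_lit 339) (nat_lit 266) (nat_lit 175))))))))
noncomputable def xc61 : XT := (XT.nd (nat_lit 35256) (nat_lit 0) (nat_lit 912) (XT.nd (nat_lit 1092) (nat_lit 152) (nat_lit 0) (XT.nd (nat_lit 546) (nat_lit 0) (nat_lit 0) (XT.nd (nat_lit 234) (nat_lit 0) (nat_lit 0) (XT.nd (nat_lit 78) (nat_lit 0) (nat_lit 0) (XT.lf (nat_lit 0) (nat_lit 395509058316) (nat_lit 76) (nat_lit 111707628923) (nat_lit 76) (nat_lit 86791063750) (nat_lit 3) (nat_lit 4) (nat_lit 4) (nat_lit 5) (nat_lit 4) (nat_lit 4) (nat_lit 340) (nat_lit 266) (nat_lit 174)) (XT.nd (nat_lit 78) (nat_lit 0) (nat_lit 0) (XT.lf (nat_lit 0) (nat_lit 447106099837) (nat_lit 76) (nat_lit 109242925016) (nat_lit 76) (nat_lit 84324805545) (nat_lit 3) (nat_lit 4) (nat_lit 4) (nat_lit 5) (nat_lit 4) (nat_lit 4) (nat_lit 341) (nat_lit 266) (nat_lit 173)) (XT.lf (nat_lit 0) (nat_lit 502828513030) (nat_lit 76) (nat_lit 106582172089) (nat_lit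 76) (nat_lit 81662613453) (nat_lit 3) (nat_lit 4) (nat_lit 4) (nat_lit 5) (nat_lit 4) (nat_lit 4) (nat_lit 342) (nat_lit 266) (nat_lit 172)))) (XT.nd (nat_lit 156) (nat_lit 0) (nat_lit 0) (XT.nd (nat_lit 78) (nat_lit 0) (nat_lit 0) (XT.lf (nat_lit 0) (nat_lit 563006504789) (nat_lit 76) (nat_lit 103709602717) (nat_lit 76) (nat_lit 78788711520) (nat_lit 3) (nat_lit 4) (nat_lit 4) (nat_lit 5) (nat_lit 4) (nat_lit 4) (nat_lit 343) (nat_lit 266) (nat_lit 171)) (XT.lf (nat_lit 0) (nat_lit 627996685435) (nat_lit 76) (nat_lit 100608194266) (nat_lit 76) (nat_lit 75686069217) (nat_lit 3) (nat_lit 4) (nat_lit 4) (nat_lit 5) (nat_lit 4) (nat_lit 4) (nat_lit 344) (nat_lit 266) (nat_lit 170))) (XT.nd (nat_lit 78) (nat_lit 0) (nat_lit 0) (XT.lf (nat_lit 0) (nat_lit 698184181965) (nat_lit 76) (nat_lit 97259568020) (nat_lit 76) (nat_lit 72336300515) (nat_lit 3) (nat_lit 4) (nat_lit 4) (nat_lit 5) (nat_lit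 4) (nat_lit 4) (nat_lit 345) (nat_lit 266) (nat_lit 169)) (XT.lf (nat_lit 0) (nat_lit 773984920283) (nat_lit 76) (nat_lit 93643880267) (nat_lit 76) (nat_lit 68719554932) (nat_lit 3) (nat_lit 4) (nat_lit 4) (nat_lit 5) (nat_lit 4) (nat_lit 4) (nat_lit 346) (nat_lit 266) (nat_lit 168))))) (XT.nd (nat_lit 234) (nat_lit 0) (nat_lit 0) (XT.nd (nat_lit 78) (nat_lit 0) (nat_lit 0) (XT.lf (nat_lit 0) (nat_lit 855848089950) (nat_lit 76) (nat_lit 89739704710) (nat_lit 76) (nat_lit 64814399903) (nat_lit 3) (nat_lit 4) (nat_lit 4) (nat_lit 5) (nat_lit 4) (nat_lit 4) (nat_lit 347) (nat_lit 266) (nat_lit 167)) (XT.nd (nat_lit 78) (nat_lit 0) (nat_lit 0) (XT.lf (nat_lit 0) (nat_lit 944258806046) (nat_lit 76) (nat_lit 85523905494) (nat_lit 76) (nat_lit 60597693768) (nat_lit 3) (nat_lit 4) (nat_lit 4) (nat_lit 5) (nat_lit 4) (nat_lit 4) (nat_lit 348) (nat_lit 266) (nat_lit 166)) (XT.lf (nat_lit 0)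 (nat_lit 1039740983926) (nat_lit 76) (nat_lit 80971500104) (nat_lit 76) (nat_lit 56044448639) (nat_lit 3) (nat_lit 4) (nat_lit 4) (nat_lit 5) (nat_lit 4) (nat_lit 4) (nat_lit 349) (nat_lit 266) (nat_lit 165)))) (XT.nd (nat_lit 156) (nat_lit 0) (nat_lit 0) (XT.nd (nat_lit 78) (nat_lit 0) (nat_lit 0) (XT.lf (nat_lit 0) (nat_lit 1142860443902) (nat_lit 76) (nat_lit 76055511324) (nat_lit 76) (nat_lit 51127682323) (nat_lit 3) (nat_lit 4) (nat_lit 4) (nat_lit 5) (nat_lit 4) (nat_lit 4) (nat_lit 350) (nat_lit 266) (nat_lit 164)) (XT.lf (nat_lit 0) (nat_lit 1254228264256) (nat_lit 76) (nat_lit 70746807368) (nat_lit 76) (nat_lit 45818258426) (nat_lit 3) (nat_lit 4) (nat_lit 4) (nat_lit 5) (nat_lit 4) (nat_lit 4) (nat_lit 351) (nat_lit 266) (nat_lit 163))) (XT.nd (nat_lit 78) (nat_lit 0) (nat_lit 0) (XT.lf (nat_lit 0) (nat_lit 1374504402442) (nat_lit 76) (nat_lit 65013929249) (nat_lit 76) (nat_lit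 40084713696) (nat_lit 3) (nat_lit 4) (nat_lit 4) (nat_lit 5) (nat_lit 4) (nat_lit 4) (nat_lit 352) (nat_lit 266) (nat_lit 162)) (XT.lf (nat_lit 0) (nat_lit 1504401605945) (nat_lit 76) (nat_lit 58822904358) (nat_lit 76) (nat_lit 33893071571) (nat_lit 3) (nat_lit 4) (nat_lit 4) (nat_lit 5) (nat_lit 4) (nat_lit 4) (nat_lit 353) (nat_lit 266) (nat_lit 161)))))) (XT.nd (nat_lit 546) (nat_lit 0) (nat_lit 0) (XT.nd (nat_lit 234) (nat_lit 152) (nat_lit 0) (XT.nd (nat_lit 78) (nat_lit 0) (nat_lit 0) (XT.lf (nat_lit 0) (nat_lit 1644689635972) (nat_lit 76) (nat_lit 52137045138) (nat_lit 76) (nat_lit 27206640839) (nat_lit 3) (nat_lit 4) (nat_lit 4) (nat_lit 5) (nat_lit 4) (nat_lit 4) (nat_lit 354) (nat_lit 266) (nat_lit 160)) (XT.nd (nat_lit 78) (nat_lit 0) (nat_lit 0) (XT.lf (nat_lit 0) (nat_lit 1796199828997) (nat_lit 76) (nat_lit 44916731684) (nat_lit 76) (nat_lit 19985798206) (nat_lit 3) (nat_lit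 4) (nat_lit 4) (nat_lit 5) (nat_lit 4) (nat_lit 4) (nat_lit 355) (nat_lit 266) (nat_lit 159)) (XT.lf (nat_lit 0) (nat_lit 1959830023200) (nat_lit 76) (nat_lit 37119176952) (nat_lit 76) (nat_lit 12187753495) (nat_lit 3) (nat_lit 4) (nat_lit 4) (nat_lit 5) (nat_lit 4) (nat_lit 4) (nat_lit 356) (nat_lit 266) (nat_lit 158)))) (XT.nd (nat_lit 156) (nat_lit 76) (nat_lit 0) (XT.nd (nat_lit 78) (nat_lit 76) (nat_lit 0) (XT.lf (nat_lit 0) (nat_lit 2136549878992) (nat_lit 76) (nat_lit 28698173212) (nat_lit 76) (nat_lit 3766296069) (nat_lit 3) (nat_lit 4) (nat_lit 4) (nat_lit 5) (nat_lit 4) (nat_lit 4) (nat_lit 357) (nat_lit 266) (nat_lit 157)) (XT.lf (nat_lit 0) (nat_lit 5061926903) (nat_lit 152) (nat_lit 14403489262) (nat_lit 76) (nat_lit 2322206296193) (nat_lit 2) (nat_lit 5) (nat_lit 4) (nat_lit 5) (nat_lit 3) (nat_lit 4) (nat_lit 358) (nat_lit 266) (nat_lit 156))) (XT.nd (nat_lit 78) (nat_lit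 0) (nat_lit 0) (XT.lf (nat_lit 0) (nat_lit 5267373456) (nat_lit 76) (nat_lit 9251885985) (nat_lit 152) (nat_lit 2513604474011) (nat_lit 1) (nat_lit 5) (nat_lit 2) (nat_lit 5) (nat_lit 3) (nat_lit 4) (nat_lit 359) (nat_lit 266) (nat_lit 155)) (XT.lf (nat_lit 0) (nat_lit 25179655015) (nat_lit 152) (nat_lit 2702183042395) (nat_lit 0) (nat_lit 2093501003) (nat_lit 1) (nat_lit 5) (nat_lit 3) (nat_lit 4) (nat_lit 1) (nat_lit 4) (nat_lit 360) (nat_lit 266) (nat_lit 154))))) (XT.nd (nat_lit 33306) (nat_lit 0) (nat_lit 3496) (XT.nd (nat_lit 78) (nat_lit 0) (nat_lit 0) (XT.lf (nat_lit 0) (nat_lit 36932868814) (nat_lit 152) (nat_lit 2896096787068) (nat_lit 0) (nat_lit 13846406032) (nat_lit 1) (nat_lit 5) (nat_lit 3) (nat_lit 4) (nat_lit 1) (nat_lit 4) (nat_lit 361) (nat_lit 266) (nat_lit 153)) (XT.nd (nat_lit 78) (nat_lit 0) (nat_lit 0) (XT.lf (nat_lit 0) (nat_lit 49626041433) (nat_lit 152) (nat_lit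 3105524204425) (nat_lit 0) (nat_lit 26539292752) (nat_lit 1) (nat_lit 5) (nat_lit 3) (nat_lit 4) (nat_lit 1) (nat_lit 4) (nat_lit 362) (nat_lit 266) (nat_lit 152)) (XT.lf (nat_lit 0) (nat_lit 63334391672) (nat_lit 152) (nat_lit 3331706345825) (nat_lit 0) (nat_lit 40247378270) (nat_lit 1) (nat_lit 5) (nat_lit 3) (nat_lit 4) (nat_lit 1) (nat_lit 4) (nat_lit 363) (nat_lit 266) (nat_lit 151)))) (XT.nd (nat_lit 156) (nat_lit 0) (nat_lit 0) (XT.nd (nat_lit 78) (nat_lit 0) (nat_lit 0) (XT.lf (nat_lit 0) (nat_lit 101017520) (nat_lit 0) (nat_lit 101017520) (nat_lit 380) (nat_lit 3742067301) (nat_lit 47) (nat_lit 5) (nat_lit 47) (nat_lit 3) (nat_lit 52) (nat_lit 3) (nat_lit 267) (nat_lit 267) (nat_lit 246)) (XT.lf (nat_lit 0) (nat_lit 1639565559) (nat_lit 380) (nat_lit 4206812924) (nat_lit 456) (nat_lit 2254290411) (nat_lit 47) (nat_lit 5) (nat_lit 52) (nat_lit 3) (nat_lit 53) (nat_lit 5) (nat_lit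 268) (nat_lit 267) (nat_lit 245))) (XT.nd (nat_lit 78) (nat_lit 0) (nat_lit 0) (XT.lf (nat_lit 0) (nat_lit 2864264522) (nat_lit 380) (nat_lit 523749247) (nat_lit 456) (nat_lit 4951439364) (nat_lit 47) (nat_lit 5) (nat_lit 52) (nat_lit 3) (nat_lit 53) (nat_lit 5) (nat_lit 269) (nat_lit 267) (nat_lit 244)) (XT.lf (nat_lit 76) (nat_lit 3568201801) (nat_lit 0) (nat_lit 598179038) (nat_lit 456) (nat_lit 4433115070) (nat_lit 48) (nat_lit 5) (nat_lit 47) (nat_lit 5) (nat_lit 53) (nat_lit 5) (nat_lit 270) (nat_lit 267) (nat_lit 243))))))) (XT.nd (nat_lit 1092) (nat_lit 912) (nat_lit 0) (XT.nd (nat_lit 546) (nat_lit 912) (nat_lit 0) (XT.nd (nat_lit 234) (nat_lit 836) (nat_lit 0) (XT.nd (nat_lit 78) (nat_lit 0) (nat_lit 0) (XT.lf (nat_lit 0) (nat_lit 5546333970) (nat_lit 380) (nat_lit 992349531) (nat_lit 456) (nat_lit 2344238458) (nat_lit 48) (nat_lit 5) (nat_lit 53) (nat_lit 5) (nat_lit 54)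 (nat_lit 5) (nat_lit 271) (nat_lit 267) (nat_lit 242)) (XT.nd (nat_lit 78) (nat_lit 0) (nat_lit 0) (XT.lf (nat_lit 76) (nat_lit 3460622004) (nat_lit 0) (nat_lit 3583065676) (nat_lit 456) (nat_lit 2145212264) (nat_lit 49) (nat_lit 5) (nat_lit 48) (nat_lit 5) (nat_lit 54) (nat_lit 5) (nat_lit 272) (nat_lit 267) (nat_lit 241)) (XT.lf (nat_lit 76) (nat_lit 8261288983) (nat_lit 0) (nat_lit 340146842) (nat_lit 456) (nat_lit 923077589) (nat_lit 49) (nat_lit 5) (nat_lit 48) (nat_lit 5) (nat_lit 54) (nat_lit 5) (nat_lit 273) (nat_lit 267) (nat_lit 240)))) (XT.nd (nat_lit 156) (nat_lit 456) (nat_lit 0) (XT.nd (nat_lit 78) (nat_lit 0) (nat_lit 0) (XT.lf (nat_lit 0) (nat_lit 461656414) (nat_lit 456) (nat_lit 6296999076) (nat_lit 76) (nat_lit 3121130471) (nat_lit 43) (nat_lit 5) (nat_lit 49) (nat_lit 5) (nat_lit 44) (nat_lit 5) (nat_lit 274) (nat_lit 267) (nat_lit 239)) (XT.lf (nat_lit 0) (nat_lit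 1873964258) (nat_lit 456) (nat_lit 1476236906) (nat_lit 76) (nat_lit 6914349928) (nat_lit 43) (nat_lit 5) (nat_lit 49) (nat_lit 5) (nat_lit 44) (nat_lit 5) (nat_lit 275) (nat_lit 267) (nat_lit 238))) (XT.nd (nat_lit 78) (nat_lit 0) (nat_lit 0) (XT.lf (nat_lit 0) (nat_lit 3430726285) (nat_lit 532) (nat_lit 6831001055) (nat_lit 76) (nat_lit 416150760) (nat_lit 37) (nat_lit 5) (nat_lit 44) (nat_lit 5) (nat_lit 38) (nat_lit 5) (nat_lit 276) (nat_lit 267) (nat_lit 237)) (XT.lf (nat_lit 0) (nat_lit 5172516899) (nat_lit 532) (nat_lit 1598441538) (nat_lit 76) (nat_lit 4348749958) (nat_lit 37) (nat_lit 5) (nat_lit 44) (nat_lit 5) (nat_lit 38) (nat_lit 5) (nat_lit 277) (nat_lit 267) (nat_lit 236))))) (XT.nd (nat_lit 234) (nat_lit 456) (nat_lit 0) (XT.nd (nat_lit 78) (nat_lit 228) (nat_lit 0) (XT.lf (nat_lit 0) (nat_lit 4198754286) (nat_lit 228) (nat_lit 2892967444) (nat_lit 304) (nat_lit 4502373391)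 (nat_lit 34) (nat_lit 5) (nat_lit 37) (nat_lit 5) (nat_lit 38) (nat_lit 5) (nat_lit 278) (nat_lit 267) (nat_lit 235)) (XT.nd (nat_lit 78) (nat_lit 228) (nat_lit 0) (XT.lf (nat_lit 0) (nat_lit 9180640389) (nat_lit 304) (nat_lit 1651932168) (nat_lit 76) (nat_lit 1272802776) (nat_lit 34) (nat_lit 5) (nat_lit 38) (nat_lit 5) (nat_lit 35) (nat_lit 5) (nat_lit 279) (nat_lit 267) (nat_lit 234)) (XT.lf (nat_lit 0) (nat_lit 4645860057) (nat_lit 228) (nat_lit 6922305079) (nat_lit 304) (nat_lit 1079092627) (nat_lit 31) (nat_lit 5) (nat_lit 34) (nat_lit 5) (nat_lit 35) (nat_lit 5) (nat_lit 280) (nat_lit 267) (nat_lit 233)))) (XT.nd (nat_lit 156) (nat_lit 152) (nat_lit 0) (XT.nd (nat_lit 78) (nat_lit 228) (nat_lit 0) (XT.lf (nat_lit 0) (nat_lit 860504563) (nat_lit 304) (nat_lit 1774435499) (nat_lit 76) (nat_lit 10596616893) (nat_lit 30) (nat_lit 5) (nat_lit 34) (nat_lit 5) (nat_lit 31) (nat_lit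 5) (nat_lit 281) (nat_lit 267) (nat_lit 232)) (XT.lf (nat_lit 0) (nat_lit 3021520794) (nat_lit 304) (nat_lit 8786739618) (nat_lit 76) (nat_lit 2042307391) (nat_lit 27) (nat_lit 5) (nat_lit 31) (nat_lit 5) (nat_lit 28) (nat_lit 5) (nat_lit 282) (nat_lit 267) (nat_lit 231))) (XT.nd (nat_lit 78) (nat_lit 152) (nat_lit 0) (XT.lf (nat_lit 0) (nat_lit 5425460021) (nat_lit 304) (nat_lit 2096213358) (nat_lit 76) (nat_lit 6991983928) (nat_lit 27) (nat_lit 5) (nat_lit 31) (nat_lit 5) (nat_lit 28) (nat_lit 5) (nat_lit 283) (nat_lit 267) (nat_lit 230)) (XT.lf (nat_lit 0) (nat_lit 5339860081) (nat_lit 152) (nat_lit 2765671887) (nat_lit 228) (nat_lit 7117705785) (nat_lit 25) (nat_lit 5) (nat_lit 27) (nat_lit 5) (nat_lit 28) (nat_lit 5) (nat_lit 284) (nat_lit 267) (nat_lit 229)))))) (XT.nd (nat_lit 546) (nat_lit 380) (nat_lit 0) (XT.nd (nat_lit 234) (nat_lit 304) (nat_lit 0) (XT.nd (nat_lit 78) (nat_lit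 228) (nat_lit 0) (XT.lf (nat_lit 0) (nat_lit 11072890213) (nat_lit 228) (nat_lit 2612093616) (nat_lit 76) (nat_lit 2298908501) (nat_lit 25) (nat_lit 5) (nat_lit 28) (nat_lit 5) (nat_lit 26) (nat_lit 5) (nat_lit 285) (nat_lit 267) (nat_lit 228)) (XT.nd (nat_lit 78) (nat_lit 76) (nat_lit 0) (XT.lf (nat_lit 0) (nat_lit 5384114687) (nat_lit 152) (nat_lit 9055086561) (nat_lit 228) (nat_lit 2353400800) (nat_lit 23) (nat_lit 5) (nat_lit 25) (nat_lit 5) (nat_lit 26) (nat_lit 5) (nat_lit 286) (nat_lit 267) (nat_lit 227)) (XT.lf (nat_lit 0) (nat_lit 422444123) (nat_lit 228) (nat_lit 3558487368) (nat_lit 76) (nat_lit 13681673301) (nat_lit 22) (nat_lit 5) (nat_lit 25) (nat_lit 5) (nat_lit 23) (nat_lit 5) (nat_lit 287) (nat_lit 267) (nat_lit 226)))) (XT.nd (nat_lit 156) (nat_lit 152) (nat_lit 0) (XT.nd (nat_lit 78) (nat_lit 0) (nat_lit 0) (XT.lf (nat_lit 0) (nat_lit 3419082038) (nat_lit 228) (nat_lit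 13570498863) (nat_lit 76) (nat_lit 1597768593) (nat_lit 20) (nat_lit 5) (nat_lit 23) (nat_lit 5) (nat_lit 21) (nat_lit 5) (nat_lit 288) (nat_lit 267) (nat_lit 225)) (XT.lf (nat_lit 0) (nat_lit 6823522345) (nat_lit 228) (nat_lit 5255853263) (nat_lit 76) (nat_lit 7493346470) (nat_lit 20) (nat_lit 5) (nat_lit 23) (nat_lit 5) (nat_lit 21) (nat_lit 5) (nat_lit 289) (nat_lit 267) (nat_lit 224))) (XT.nd (nat_lit 78) (nat_lit 0) (nat_lit 0) (XT.lf (nat_lit 0) (nat_lit 3869158333) (nat_lit 152) (nat_lit 6691664781) (nat_lit 228) (nat_lit 10071347986) (nat_lit 18) (nat_lit 5) (nat_lit 20) (nat_lit 5) (nat_lit 21) (nat_lit 5) (nat_lit 290) (nat_lit 267) (nat_lit 223)) (XT.lf (nat_lit 0) (nat_lit 13975943489) (nat_lit 152) (nat_lit 733598122) (nat_lit 228) (nat_lit 7057920343) (nat_lit 18) (nat_lit 5) (nat_lit 20) (nat_lit 5) (nat_lit 21) (nat_lit 5) (nat_lit 291) (nat_lit 267) (nat_lit 222)))))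 (XT.nd (nat_lit 312) (nat_lit 76) (nat_lit 0) (XT.nd (nat_lit 156) (nat_lit 152) (nat_lit 0) (XT.nd (nat_lit 78) (nat_lit 76) (nat_lit 0) (XT.lf (nat_lit 0) (nat_lit 1805208418) (nat_lit 76) (nat_lit 17536168852) (nat_lit 152) (nat_lit 3640175861) (nat_lit 17) (nat_lit 5) (nat_lit 18) (nat_lit 5) (nat_lit 19) (nat_lit 4) (nat_lit 292) (nat_lit 267) (nat_lit 221)) (XT.lf (nat_lit 0) (nat_lit 257053620) (nat_lit 152) (nat_lit 11734872810) (nat_lit 76) (nat_lit 12284121770) (nat_lit 16) (nat_lit 5) (nat_lit 18) (nat_lit 5) (nat_lit 17) (nat_lit 5) (nat_lit 293) (nat_lit 267) (nat_lit 220))) (XT.nd (nat_lit 78) (nat_lit 152) (nat_lit 0) (XT.lf (nat_lit 0) (nat_lit 4242540294) (nat_lit 152) (nat_lit 1675331158) (nat_lit 76) (nat_lit 19750875236) (nat_lit 16) (nat_lit 5) (nat_lit 18) (nat_lit 5) (nat_lit 17) (nat_lit 5) (nat_lit 294) (nat_lit 267) (nat_lit 219)) (XT.lf (nat_lit 0) (nat_lit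 8774735912) (nat_lit 228) (nat_lit 17546249292) (nat_lit 76) (nat_lit 833701105) (nat_lit 14) (nat_lit 5) (nat_lit 17) (nat_lit 5) (nat_lit 15) (nat_lit 4) (nat_lit 295) (nat_lit 267) (nat_lit 218)))) (XT.nd (nat_lit 156) (nat_lit 0) (nat_lit 0) (XT.nd (nat_lit 78) (nat_lit 76) (nat_lit 0) (XT.lf (nat_lit 0) (nat_lit 13845911333) (nat_lit 228) (nat_lit 7060703658) (nat_lit 76) (nat_lit 7838824571) (nat_lit 14) (nat_lit 5) (nat_lit 17) (nat_lit 5) (nat_lit 15) (nat_lit 4) (nat_lit 296) (nat_lit 267) (nat_lit 217)) (XT.lf (nat_lit 0) (nat_lit 4449069657) (nat_lit 76) (nat_lit 14958208495) (nat_lit 152) (nat_lit 11049462166) (nat_lit 13) (nat_lit 5) (nat_lit 14) (nat_lit 5) (nat_lit 15) (nat_lit 4) (nat_lit 297) (nat_lit 267) (nat_lit 216))) (XT.nd (nat_lit 78) (nat_lit 0) (nat_lit 0) (XT.lf (nat_lit 0) (nat_lit 17244938035) (nat_lit 76) (nat_lit 8339960983) (nat_lit 152) (nat_lit 6706382084)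 (nat_lit 13) (nat_lit 5) (nat_lit 14) (nat_lit 5) (nat_lit 15) (nat_lit 4) (nat_lit 298) (nat_lit 267) (nat_lit 215)) (XT.lf (nat_lit 0) (nat_lit 31030924703) (nat_lit 76) (nat_lit 1205705364) (nat_lit 152) (nat_lit 2037603364) (nat_lit 13) (nat_lit 5) (nat_lit 14) (nat_lit 5) (nat_lit 15) (nat_lit 4) (nat_lit 299) (nat_lit 267) (nat_lit 214))))))))
noncomputable def xc62 : XT := (XT.nd (nat_lit 2184) (nat_lit 76) (nat_lit 0) (XT.nd (nat_lit 1092) (nat_lit 228) (nat_lit 0) (XT.nd (nat_lit 546) (nat_lit 152) (nat_lit 0) (XT.nd (nat_lit 234) (nat_lit 152) (nat_lit 0) (XT.nd (nat_lit 78) (nat_lit 0) (nat_lit 0) (XT.lf (nat_lit 0) (nat_lit 3237260331) (nat_lit 152) (nat_lit 26662058368) (nat_lit 76) (nat_lit 6480125705) (nat_lit 11) (nat_lit 5) (nat_lit 13) (nat_lit 5) (nat_lit 12) (nat_lit 4) (nat_lit 300) (nat_lit 267) (nat_lit 213)) (XT.nd (nat_lit 78) (nat_lit 0) (nat_lit 0) (XT.lf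 (nat_lit 0) (nat_lit 8927554067) (nat_lit 152) (nat_lit 14865632520) (nat_lit 76) (nat_lit 14847401737) (nat_lit 11) (nat_lit 5) (nat_lit 13) (nat_lit 5) (nat_lit 12) (nat_lit 4) (nat_lit 301) (nat_lit 267) (nat_lit 212)) (XT.lf (nat_lit 0) (nat_lit 15055688247) (nat_lit 152) (nat_lit 2155581132) (nat_lit 76) (nat_lit 23872774662) (nat_lit 11) (nat_lit 5) (nat_lit 13) (nat_lit 5) (nat_lit 12) (nat_lit 4) (nat_lit 302) (nat_lit 267) (nat_lit 211)))) (XT.nd (nat_lit 156) (nat_lit 76) (nat_lit 0) (XT.nd (nat_lit 78) (nat_lit 0) (nat_lit 0) (XT.lf (nat_lit 0) (nat_lit 12151270376) (nat_lit 76) (nat_lit 9798945709) (nat_lit 152) (nat_lit 21750696137) (nat_lit 10) (nat_lit 5) (nat_lit 11) (nat_lit 5) (nat_lit 12) (nat_lit 4) (nat_lit 303) (nat_lit 267) (nat_lit 210)) (XT.lf (nat_lit 0) (nat_lit 27698105377) (nat_lit 76) (nat_lit 1741581949) (nat_lit 152) (nat_lit 17083997447) (nat_lit 10)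 (nat_lit 5) (nat_lit 11) (nat_lit 5) (nat_lit 12) (nat_lit 4) (nat_lit 304) (nat_lit 267) (nat_lit 209))) (XT.nd (nat_lit 78) (nat_lit 76) (nat_lit 0) (XT.lf (nat_lit 0) (nat_lit 37681051161) (nat_lit 152) (nat_lit 5277049602) (nat_lit 0) (nat_lit 6601983101) (nat_lit 10) (nat_lit 5) (nat_lit 12) (nat_lit 4) (nat_lit 10) (nat_lit 4) (nat_lit 305) (nat_lit 267) (nat_lit 208)) (XT.lf (nat_lit 0) (nat_lit 9774980651) (nat_lit 76) (nat_lit 37073491760) (nat_lit 76) (nat_lit 5969604392) (nat_lit 9) (nat_lit 4) (nat_lit 10) (nat_lit 5) (nat_lit 10) (nat_lit 4) (nat_lit 306) (nat_lit 267) (nat_lit 207))))) (XT.nd (nat_lit 234) (nat_lit 76) (nat_lit 0) (XT.nd (nat_lit 78) (nat_lit 0) (nat_lit 0) (XT.lf (nat_lit 0) (nat_lit 526474408) (nat_lit 152) (nat_lit 30031801439) (nat_lit 76) (nat_lit 25766895398) (nat_lit 8) (nat_lit 5) (nat_lit 10) (nat_lit 5) (nat_lit 9) (nat_lit 4) (nat_lit 307)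 (nat_lit 267) (nat_lit 206)) (XT.nd (nat_lit 78) (nat_lit 0) (nat_lit 0) (XT.lf (nat_lit 0) (nat_lit 7207229093) (nat_lit 152) (nat_lit 16157110252) (nat_lit 76) (nat_lit 36737106559) (nat_lit 8) (nat_lit 5) (nat_lit 10) (nat_lit 5) (nat_lit 9) (nat_lit 4) (nat_lit 308) (nat_lit 267) (nat_lit 205)) (XT.lf (nat_lit 0) (nat_lit 14410873108) (nat_lit 152) (nat_lit 1193233068) (nat_lit 76) (nat_lit 48576658053) (nat_lit 8) (nat_lit 5) (nat_lit 10) (nat_lit 5) (nat_lit 9) (nat_lit 4) (nat_lit 309) (nat_lit 267) (nat_lit 204)))) (XT.nd (nat_lit 156) (nat_lit 0) (nat_lit 0) (XT.nd (nat_lit 78) (nat_lit 0) (nat_lit 0) (XT.lf (nat_lit 0) (nat_lit 15735666719) (nat_lit 76) (nat_lit 6822871158) (nat_lit 152) (nat_lit 45998486632) (nat_lit 7) (nat_lit 5) (nat_lit 8) (nat_lit 5) (nat_lit 9) (nat_lit 4) (nat_lit 310) (nat_lit 267) (nat_lit 203)) (XT.lf (nat_lit 0) (nat_lit 31444908827) (nat_lit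 152) (nat_lit 39278281790) (nat_lit 0) (nat_lit 2553257280) (nat_lit 7) (nat_lit 5) (nat_lit 9) (nat_lit 4) (nat_lit 7) (nat_lit 4) (nat_lit 311) (nat_lit 267) (nat_lit 202))) (XT.nd (nat_lit 78) (nat_lit 0) (nat_lit 0) (XT.lf (nat_lit 0) (nat_lit 41209616770) (nat_lit 152) (nat_lit 24846943518) (nat_lit 0) (nat_lit 12303483396) (nat_lit 7) (nat_lit 5) (nat_lit 9) (nat_lit 4) (nat_lit 7) (nat_lit 4) (nat_lit 312) (nat_lit 267) (nat_lit 201)) (XT.lf (nat_lit 0) (nat_lit 51746436428) (nat_lit 152) (nat_lit 9277733715) (nat_lit 0) (nat_lit 22826893953) (nat_lit 7) (nat_lit 5) (nat_lit 9) (nat_lit 4) (nat_lit 7) (nat_lit 4) (nat_lit 313) (nat_lit 267) (nat_lit 200)))))) (XT.nd (nat_lit 546) (nat_lit 0) (nat_lit 0) (XT.nd (nat_lit 234) (nat_lit 152) (nat_lit 0) (XT.nd (nat_lit 78) (nat_lit 0) (nat_lit 0) (XT.lf (nat_lit 0) (nat_lit 7917684233) (nat_lit 76) (nat_lit 55390544475) (nat_lit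 76) (nat_lit 26458586167) (nat_lit 6) (nat_lit 4) (nat_lit 7) (nat_lit 5) (nat_lit 7) (nat_lit 4) (nat_lit 314) (nat_lit 267) (nat_lit 199)) (XT.nd (nat_lit 78) (nat_lit 0) (nat_lit 0) (XT.lf (nat_lit 0) (nat_lit 27001355242) (nat_lit 76) (nat_lit 49039146031) (nat_lit 76) (nat_lit 20095691581) (nat_lit 6) (nat_lit 4) (nat_lit 7) (nat_lit 5) (nat_lit 7) (nat_lit 4) (nat_lit 315) (nat_lit 267) (nat_lit 198)) (XT.lf (nat_lit 0) (nat_lit 47597818715) (nat_lit 76) (nat_lit 42186006577) (nat_lit 76) (nat_lit 13231907550) (nat_lit 6) (nat_lit 4) (nat_lit 7) (nat_lit 5) (nat_lit 7) (nat_lit 4) (nat_lit 316) (nat_lit 267) (nat_lit 197)))) (XT.nd (nat_lit 156) (nat_lit 76) (nat_lit 0) (XT.nd (nat_lit 78) (nat_lit 76) (nat_lit 0) (XT.lf (nat_lit 0) (nat_lit 69829127769) (nat_lit 76) (nat_lit 34790514915) (nat_lit 76) (nat_lit 5826559800) (nat_lit 6) (nat_lit 4) (nat_lit 7) (nat_lit 5) (nat_lit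 7) (nat_lit 4) (nat_lit 317) (nat_lit 267) (nat_lit 196)) (XT.lf (nat_lit 0) (nat_lit 2055971401) (nat_lit 152) (nat_lit 24696660607) (nat_lit 76) (nat_lit 91714838191) (nat_lit 5) (nat_lit 5) (nat_lit 7) (nat_lit 5) (nat_lit 6) (nat_lit 4) (nat_lit 318) (nat_lit 267) (nat_lit 195))) (XT.nd (nat_lit 78) (nat_lit 76) (nat_lit 0) (XT.lf (nat_lit 0) (nat_lit 10248179382) (nat_lit 152) (nat_lit 7665318015) (nat_lit 76) (nat_lit 109205332877) (nat_lit 5) (nat_lit 5) (nat_lit 7) (nat_lit 5) (nat_lit 6) (nat_lit 4) (nat_lit 319) (nat_lit 267) (nat_lit 194)) (XT.lf (nat_lit 0) (nat_lit 11282399766) (nat_lit 76) (nat_lit 8079020896) (nat_lit 152) (nat_lit 117079632320) (nat_lit 4) (nat_lit 5) (nat_lit 5) (nat_lit 5) (nat_lit 6) (nat_lit 4) (nat_lit 320) (nat_lit 267) (nat_lit 193))))) (XT.nd (nat_lit 234) (nat_lit 0) (nat_lit 0) (XT.nd (nat_lit 78) (nat_lit 0) (nat_lit 0) (XT.lf (nat_lit 0)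 (nat_lit 29474263628) (nat_lit 152) (nat_lit 114387592200) (nat_lit 0) (nat_lit 2625560173) (nat_lit 4) (nat_lit 5) (nat_lit 6) (nat_lit 4) (nat_lit 4) (nat_lit 4) (nat_lit 321) (nat_lit 267) (nat_lit 192)) (XT.nd (nat_lit 78) (nat_lit 0) (nat_lit 0) (XT.lf (nat_lit 0) (nat_lit 40600770378) (nat_lit 152) (nat_lit 102974496313) (nat_lit 0) (nat_lit 13745855915) (nat_lit 4) (nat_lit 5) (nat_lit 6) (nat_lit 4) (nat_lit 4) (nat_lit 4) (nat_lit 322) (nat_lit 267) (nat_lit 191)) (XT.lf (nat_lit 0) (nat_lit 52612575120) (nat_lit 152) (nat_lit 90657431749) (nat_lit 0) (nat_lit 25751909724) (nat_lit 4) (nat_lit 5) (nat_lit 6) (nat_lit 4) (nat_lit 4) (nat_lit 4) (nat_lit 323) (nat_lit 267) (nat_lit 190)))) (XT.nd (nat_lit 156) (nat_lit 0) (nat_lit 0) (XT.nd (nat_lit 78) (nat_lit 0) (nat_lit 0) (XT.lf (nat_lit 0) (nat_lit 65580858918) (nat_lit 152) (nat_lit 77363408496) (nat_lit 0) (nat_lit 38714868583)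 (nat_lit 4) (nat_lit 5) (nat_lit 6) (nat_lit 4) (nat_lit 4) (nat_lit 4) (nat_lit 324) (nat_lit 267) (nat_lit 189)) (XT.lf (nat_lit 0) (nat_lit 79582470861) (nat_lit 152) (nat_lit 63013647155) (nat_lit 0) (nat_lit 52711550029) (nat_lit 4) (nat_lit 5) (nat_lit 6) (nat_lit 4) (nat_lit 4) (nat_lit 4) (nat_lit 325) (nat_lit 267) (nat_lit 188))) (XT.nd (nat_lit 78) (nat_lit 0) (nat_lit 0) (XT.lf (nat_lit 0) (nat_lit 94700383466) (nat_lit 152) (nat_lit 47523112104) (nat_lit 0) (nat_lit 67824897358) (nat_lit 4) (nat_lit 5) (nat_lit 6) (nat_lit 4) (nat_lit 4) (nat_lit 4) (nat_lit 326) (nat_lit 267) (nat_lit 187)) (XT.lf (nat_lit 0) (nat_lit 111024184362) (nat_lit 152) (nat_lit 30800007581) (nat_lit 0) (nat_lit 84144471146) (nat_lit 4) (nat_lit 5) (nat_lit 6) (nat_lit 4) (nat_lit 4) (nat_lit 4) (nat_lit 327) (nat_lit 267) (nat_lit 186))))))) (XT.nd (nat_lit 1092) (nat_lit 0) (nat_lit 0) (XT.nd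 (nat_lit 546) (nat_lit 0) (nat_lit 0) (XT.nd (nat_lit 234) (nat_lit 0) (nat_lit 0) (XT.nd (nat_lit 78) (nat_lit 76) (nat_lit 0) (XT.lf (nat_lit 0) (nat_lit 128650607185) (nat_lit 152) (nat_lit 12745233706) (nat_lit 0) (nat_lit 101766979980) (nat_lit 4) (nat_lit 5) (nat_lit 6) (nat_lit 4) (nat_lit 4) (nat_lit 4) (nat_lit 328) (nat_lit 267) (nat_lit 185)) (XT.nd (nat_lit 78) (nat_lit 0) (nat_lit 0) (XT.lf (nat_lit 0) (nat_lit 7103549066) (nat_lit 76) (nat_lit 140751396269) (nat_lit 76) (nat_lit 113864145000) (nat_lit 3) (nat_lit 4) (nat_lit 4) (nat_lit 5) (nat_lit 4) (nat_lit 4) (nat_lit 329) (nat_lit 267) (nat_lit 184)) (XT.lf (nat_lit 0) (nat_lit 29259490732) (nat_lit 76) (nat_lit 139681669056) (nat_lit 76) (nat_lit 112791062173) (nat_lit 3) (nat_lit 4) (nat_lit 4) (nat_lit 5) (nat_lit 4) (nat_lit 4) (nat_lit 330) (nat_lit 267) (nat_lit 183)))) (XT.nd (nat_lit 156) (nat_lit 0) (nat_lit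 0) (XT.nd (nat_lit 78) (nat_lit 0) (nat_lit 0) (XT.lf (nat_lit 0) (nat_lit 53182744341) (nat_lit 76) (nat_lit 138528797405) (nat_lit 76) (nat_lit 111635083472) (nat_lit 3) (nat_lit 4) (nat_lit 4) (nat_lit 5) (nat_lit 4) (nat_lit 4) (nat_lit 331) (nat_lit 267) (nat_lit 182)) (XT.lf (nat_lit 0) (nat_lit 79015077320) (nat_lit 76) (nat_lit 137285949483) (nat_lit 76) (nat_lit 110389358652) (nat_lit 3) (nat_lit 4) (nat_lit 4) (nat_lit 5) (nat_lit 4) (nat_lit 4) (nat_lit 332) (nat_lit 267) (nat_lit 181))) (XT.nd (nat_lit 78) (nat_lit 0) (nat_lit 0) (XT.lf (nat_lit 0) (nat_lit 106909570162) (nat_lit 76) (nat_lit 135945760267) (nat_lit 76) (nat_lit 109046505641) (nat_lit 3) (nat_lit 4) (nat_lit 4) (nat_lit 5) (nat_lit 4) (nat_lit 4) (nat_lit 333) (nat_lit 267) (nat_lit 180)) (XT.lf (nat_lit 0) (nat_lit 137031523565) (nat_lit 76) (nat_lit 134500287894) (nat_lit 76) (nat_lit 107598566791) (nat_lit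 3) (nat_lit 4) (nat_lit 4) (nat_lit 5) (nat_lit 4) (nat_lit 4) (nat_lit 334) (nat_lit 267) (nat_lit 179))))) (XT.nd (nat_lit 234) (nat_lit 0) (nat_lit 0) (XT.nd (nat_lit 78) (nat_lit 0) (nat_lit 0) (XT.lf (nat_lit 0) (nat_lit 169559437993) (nat_lit 76) (nat_lit 132940966601) (nat_lit 76) (nat_lit 106036961724) (nat_lit 3) (nat_lit 4) (nat_lit 4) (nat_lit 5) (nat_lit 4) (nat_lit 4) (nat_lit 335) (nat_lit 267) (nat_lit 178)) (XT.nd (nat_lit 78) (nat_lit 0) (nat_lit 0) (XT.lf (nat_lit 0) (nat_lit 204686071458) (nat_lit 76) (nat_lit 131258555967) (nat_lit 76) (nat_lit 104352436483) (nat_lit 3) (nat_lit 4) (nat_lit 4) (nat_lit 5) (nat_lit 4) (nat_lit 4) (nat_lit 336) (nat_lit 267) (nat_lit 177)) (XT.lf (nat_lit 0) (nat_lit 242619581787) (nat_lit 76) (nat_lit 129443086150) (nat_lit 76) (nat_lit 102535008697) (nat_lit 3) (nat_lit 4) (nat_lit 4) (nat_lit 5) (nat_lit 4) (nat_lit 4) (nat_lit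 337) (nat_lit 267) (nat_lit 176)))) (XT.nd (nat_lit 156) (nat_lit 0) (nat_lit 0) (XT.nd (nat_lit 78) (nat_lit 0) (nat_lit 0) (XT.lf (nat_lit 0) (nat_lit 283584760154) (nat_lit 76) (nat_lit 127483798810) (nat_lit 76) (nat_lit 100573908424) (nat_lit 3) (nat_lit 4) (nat_lit 4) (nat_lit 5) (nat_lit 4) (nat_lit 4) (nat_lit 338) (nat_lit 267) (nat_lit 175)) (XT.lf (nat_lit 0) (nat_lit 327824363171) (nat_lit 76) (nat_lit 125369083358) (nat_lit 76) (nat_lit 98457514329) (nat_lit 3) (nat_lit 4) (nat_lit 4) (nat_lit 5) (nat_lit 4) (nat_lit 4) (nat_lit 339) (nat_lit 267) (nat_lit 174))) (XT.nd (nat_lit 78) (nat_lit 0) (nat_lit 0) (XT.lf (nat_lit 0) (nat_lit 375600551448) (nat_lit 76) (nat_lit 123086408144) (nat_lit 76) (nat_lit 96173284816) (nat_lit 3) (nat_lit 4) (nat_lit 4) (nat_lit 5) (nat_lit 4) (nat_lit 4) (nat_lit 340) (nat_lit 267) (nat_lit 173)) (XT.lf (nat_lit 0) (nat_lit 427196443138)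 (nat_lit 76) (nat_lit 120622246205) (nat_lit 76) (nat_lit 93707683712) (nat_lit 3) (nat_lit 4) (nat_lit 4) (nat_lit 5) (nat_lit 4) (nat_lit 4) (nat_lit 341) (nat_lit 267) (nat_lit 172)))))) (XT.nd (nat_lit 546) (nat_lit 0) (nat_lit 0) (XT.nd (nat_lit 234) (nat_lit 0) (nat_lit 0) (XT.nd (nat_lit 78) (nat_lit 0) (nat_lit 0) (XT.lf (nat_lit 0) (nat_lit 482917791672) (nat_lit 76) (nat_lit 117961995099) (nat_lit 76) (nat_lit 91046100046) (nat_lit 3) (nat_lit 4) (nat_lit 4) (nat_lit 5) (nat_lit 4) (nat_lit 4) (nat_lit 342) (nat_lit 267) (nat_lit 171)) (XT.nd (nat_lit 78) (nat_lit 0) (nat_lit 0) (XT.lf (nat_lit 0) (nat_lit 543094797636) (nat_lit 76) (nat_lit 115089890377) (nat_lit 76) (nat_lit 88172761471) (nat_lit 3) (nat_lit 4) (nat_lit 4) (nat_lit 5) (nat_lit 4) (nat_lit 4) (nat_lit 343) (nat_lit 267) (nat_lit 170)) (XT.lf (nat_lit 0) (nat_lit 608084065509) (nat_lit 76) (nat_lit 111988912157)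 (nat_lit 76) (nat_lit 85070640795) (nat_lit 3) (nat_lit 4) (nat_lit 4) (nat_lit 5) (nat_lit 4) (nat_lit 4) (nat_lit 344) (nat_lit 267) (nat_lit 169)))) (XT.nd (nat_lit 156) (nat_lit 0) (nat_lit 0) (XT.nd (nat_lit 78) (nat_lit 0) (nat_lit 0) (XT.lf (nat_lit 0) (nat_lit 678270716878) (nat_lit 76) (nat_lit 108640684273) (nat_lit 76) (nat_lit 81721355081) (nat_lit 3) (nat_lit 4) (nat_lit 4) (nat_lit 5) (nat_lit 4) (nat_lit 4) (nat_lit 345) (nat_lit 267) (nat_lit 168)) (XT.lf (nat_lit 0) (nat_lit 754070672640) (nat_lit 76) (nat_lit 105025365374) (nat_lit 76) (nat_lit 78105056710) (nat_lit 3) (nat_lit 4) (nat_lit 4) (nat_lit 5) (nat_lit 4) (nat_lit 4) (nat_lit 346) (nat_lit 267) (nat_lit 167))) (XT.nd (nat_lit 78) (nat_lit 0) (nat_lit 0) (XT.lf (nat_lit 0) (nat_lit 835933117719) (nat_lit 76) (nat_lit 101121531348) (nat_lit 76) (nat_lit 74200315766) (nat_lit 3) (nat_lit 4) (nat_lit 4) (nat_lit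 5) (nat_lit 4) (nat_lit 4) (nat_lit 347) (nat_lit 267) (nat_lit 166)) (XT.lf (nat_lit 0) (nat_lit 924343162899) (nat_lit 76) (nat_lit 96906048364) (nat_lit 76) (nat_lit 69983993043) (nat_lit 3) (nat_lit 4) (nat_lit 4) (nat_lit 5) (nat_lit 4) (nat_lit 4) (nat_lit 348) (nat_lit 267) (nat_lit 165))))) (XT.nd (nat_lit 312) (nat_lit 0) (nat_lit 0) (XT.nd (nat_lit 156) (nat_lit 0) (nat_lit 0) (XT.nd (nat_lit 78) (nat_lit 0) (nat_lit 0) (XT.lf (nat_lit 0) (nat_lit 1019824719561) (nat_lit 76) (nat_lit 92353935782) (nat_lit 76) (nat_lit 65431102925) (nat_lit 3) (nat_lit 4) (nat_lit 4) (nat_lit 5) (nat_lit 4) (nat_lit 4) (nat_lit 349) (nat_lit 267) (nat_lit 164)) (XT.lf (nat_lit 0) (nat_lit 1122943604335) (nat_lit 76) (nat_lit 87438218121) (nat_lit 76) (nat_lit 60514665323) (nat_lit 3) (nat_lit 4) (nat_lit 4) (nat_lit 5) (nat_lit 4) (nat_lit 4) (nat_lit 350) (nat_lit 267) (nat_lit 163))) (XT.nd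 (nat_lit 78) (nat_lit 0) (nat_lit 0) (XT.lf (nat_lit 0) (nat_lit 1234310892094) (nat_lit 76) (nat_lit 82129765200) (nat_lit 76) (nat_lit 55205545790) (nat_lit 3) (nat_lit 4) (nat_lit 4) (nat_lit 5) (nat_lit 4) (nat_lit 4) (nat_lit 351) (nat_lit 267) (nat_lit 162)) (XT.lf (nat_lit 0) (nat_lit 1354586537138) (nat_lit 76) (nat_lit 76397119523) (nat_lit 76) (nat_lit 49472282879) (nat_lit 3) (nat_lit 4) (nat_lit 4) (nat_lit 5) (nat_lit 4) (nat_lit 4) (nat_lit 352) (nat_lit 267) (nat_lit 161)))) (XT.nd (nat_lit 156) (nat_lit 0) (nat_lit 0) (XT.nd (nat_lit 78) (nat_lit 0) (nat_lit 0) (XT.lf (nat_lit 0) (nat_lit 1484483284027) (nat_lit 76) (nat_lit 70206309854) (nat_lit 76) (nat_lit 43280901698) (nat_lit 3) (nat_lit 4) (nat_lit 4) (nat_lit 5) (nat_lit 4) (nat_lit 4) (nat_lit 353) (nat_lit 267) (nat_lit 160)) (XT.lf (nat_lit 0) (nat_lit 1624770891264) (nat_lit 76) (nat_lit 63520649914) (nat_lit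 76) (nat_lit 36594712580) (nat_lit 3) (nat_lit 4) (nat_lit 4) (nat_lit 5) (nat_lit 4) (nat_lit 4) (nat_lit 354) (nat_lit 267) (nat_lit 159))) (XT.nd (nat_lit 78) (nat_lit 0) (nat_lit 0) (XT.lf (nat_lit 0) (nat_lit 1776280692816) (nat_lit 76) (nat_lit 56300520979) (nat_lit 76) (nat_lit 29374093665) (nat_lit 3) (nat_lit 4) (nat_lit 4) (nat_lit 5) (nat_lit 4) (nat_lit 4) (nat_lit 355) (nat_lit 267) (nat_lit 158)) (XT.lf (nat_lit 0) (nat_lit 1939910524544) (nat_lit 76) (nat_lit 48503137098) (nat_lit 76) (nat_lit 21576256099) (nat_lit 3) (nat_lit 4) (nat_lit 4) (nat_lit 5) (nat_lit 4) (nat_lit 4) (nat_lit 356) (nat_lit 267) (nat_lit 157))))))))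
noncomputable def xc63 : XT := (XT.nd (nat_lit 35334) (nat_lit 0) (nat_lit 380) (XT.nd (nat_lit 34242) (nat_lit 0) (nat_lit 1596) (XT.nd (nat_lit 33696) (nat_lit 0) (nat_lit 3116) (XT.nd (nat_lit 234) (nat_lit 76) (nat_lit 0) (XT.nd (nat_lit 78) (nat_lit 76) (nat_lit 0) (XT.lf (nat_lit 0) (nat_lit 2116630044711) (nat_lit 76) (nat_lit 40082291552) (nat_lit 76) (nat_lit 13154990475) (nat_lit 3) (nat_lit 4) (nat_lit 4) (nat_lit 5) (nat_lit 4) (nat_lit 4) (nat_lit 357) (nat_lit 267) (nat_lit 156)) (XT.nd (nat_lit 78) (nat_lit 76) (nat_lit 0) (XT.lf (nat_lit 0) (nat_lit 2307486480103) (nat_lit 76) (nat_lit 30988083035) (nat_lit 76) (nat_lit 4060392996) (nat_lit 3) (nat_lit 4) (nat_lit 4) (nat_lit 5) (nat_lit 4) (nat_lit 4) (nat_lit 358) (nat_lit 267) (nat_lit 155)) (XT.lf (nat_lit 0) (nat_lit 5473220173) (nat_lit 152) (nat_lit 15543752227) (nat_lit 76) (nat_lit 2507987964106) (nat_lit 2)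 (nat_lit 5) (nat_lit 4) (nat_lit 5) (nat_lit 3) (nat_lit 4) (nat_lit 359) (nat_lit 267) (nat_lit 154)))) (XT.nd (nat_lit 156) (nat_lit 0) (nat_lit 0) (XT.nd (nat_lit 78) (nat_lit 0) (nat_lit 0) (XT.lf (nat_lit 0) (nat_lit 5700475301) (nat_lit 76) (nat_lit 9986476122) (nat_lit 152) (nat_lit 2714686183320) (nat_lit 1) (nat_lit 5) (nat_lit 2) (nat_lit 5) (nat_lit 3) (nat_lit 4) (nat_lit 360) (nat_lit 267) (nat_lit 153)) (XT.lf (nat_lit 0) (nat_lit 27199846826) (nat_lit 152) (nat_lit 2918346504658) (nat_lit 0) (nat_lit 2265872353) (nat_lit 1) (nat_lit 5) (nat_lit 3) (nat_lit 4) (nat_lit 1) (nat_lit 4) (nat_lit 361) (nat_lit 267) (nat_lit 152))) (XT.nd (nat_lit 78) (nat_lit 0) (nat_lit 0) (XT.lf (nat_lit 0) (nat_lit 39892886662) (nat_lit 152) (nat_lit 3127774177137) (nat_lit 0) (nat_lit 14958647467) (nat_lit 1) (nat_lit 5) (nat_lit 3) (nat_lit 4) (nat_lit 1) (nat_lit 4) (nat_lit 362) (nat_lit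 267) (nat_lit 151)) (XT.lf (nat_lit 0) (nat_lit 53601113954) (nat_lit 152) (nat_lit 3353956554763) (nat_lit 0) (nat_lit 28666629647) (nat_lit 1) (nat_lit 5) (nat_lit 3) (nat_lit 4) (nat_lit 1) (nat_lit 4) (nat_lit 363) (nat_lit 267) (nat_lit 150))))) (XT.nd (nat_lit 234) (nat_lit 380) (nat_lit 0) (XT.nd (nat_lit 78) (nat_lit 0) (nat_lit 0) (XT.lf (nat_lit 0) (nat_lit 676253722) (nat_lit 0) (nat_lit 676253722) (nat_lit 380) (nat_lit 2810993646) (nat_lit 47) (nat_lit 5) (nat_lit 47) (nat_lit 3) (nat_lit 52) (nat_lit 3) (nat_lit 268) (nat_lit 268) (nat_lit 244)) (XT.nd (nat_lit 78) (nat_lit 0) (nat_lit 0) (XT.lf (nat_lit 0) (nat_lit 3846044716) (nat_lit 380) (nat_lit 3289794390) (nat_lit 456) (nat_lit 1436886571) (nat_lit 47) (nat_lit 5) (nat_lit 52) (nat_lit 3) (nat_lit 53) (nat_lit 5) (nat_lit 269) (nat_lit 268) (nat_lit 243)) (XT.lf (nat_lit 76) (nat_lit 626392510) (nat_lit 0) (nat_lit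 4403664884) (nat_lit 456) (nat_lit 3812386876) (nat_lit 48) (nat_lit 5) (nat_lit 47) (nat_lit 5) (nat_lit 53) (nat_lit 5) (nat_lit 270) (nat_lit 268) (nat_lit 242)))) (XT.nd (nat_lit 156) (nat_lit 380) (nat_lit 0) (XT.nd (nat_lit 78) (nat_lit 0) (nat_lit 76) (XT.lf (nat_lit 76) (nat_lit 4984979964) (nat_lit 0) (nat_lit 1321166845) (nat_lit 456) (nat_lit 2828243279) (nat_lit 48) (nat_lit 5) (nat_lit 47) (nat_lit 5) (nat_lit 53) (nat_lit 5) (nat_lit 271) (nat_lit 268) (nat_lit 241)) (XT.lf (nat_lit 76) (nat_lit 139523996) (nat_lit 0) (nat_lit 7511481994) (nat_lit 456) (nat_lit 1801756712) (nat_lit 49) (nat_lit 5) (nat_lit 48) (nat_lit 5) (nat_lit 54) (nat_lit 5) (nat_lit 272) (nat_lit 268) (nat_lit 240))) (XT.nd (nat_lit 78) (nat_lit 456) (nat_lit 0) (XT.lf (nat_lit 76) (nat_lit 4911265549) (nat_lit 0) (nat_lit 4258970754) (nat_lit 456) (nat_lit 621401912) (nat_lit 49) (nat_lit 5) (nat_lit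 48) (nat_lit 5) (nat_lit 54) (nat_lit 5) (nat_lit 273) (nat_lit 268) (nat_lit 239)) (XT.lf (nat_lit 0) (nat_lit 544256731) (nat_lit 456) (nat_lit 168646678) (nat_lit 532) (nat_lit 9449900524) (nat_lit 42) (nat_lit 5) (nat_lit 48) (nat_lit 5) (nat_lit 49) (nat_lit 5) (nat_lit 274) (nat_lit 268) (nat_lit 238)))))) (XT.nd (nat_lit 546) (nat_lit 684) (nat_lit 0) (XT.nd (nat_lit 234) (nat_lit 456) (nat_lit 0) (XT.nd (nat_lit 78) (nat_lit 456) (nat_lit 0) (XT.lf (nat_lit 0) (nat_lit 1900492143) (nat_lit 456) (nat_lit 5533873847) (nat_lit 76) (nat_lit 3117832248) (nat_lit 43) (nat_lit 5) (nat_lit 49) (nat_lit 5) (nat_lit 44) (nat_lit 5) (nat_lit 275) (nat_lit 268) (nat_lit 237)) (XT.nd (nat_lit 78) (nat_lit 456) (nat_lit 0) (XT.lf (nat_lit 0) (nat_lit 3321939932) (nat_lit 456) (nat_lit 421294049) (nat_lit 76) (nat_lit 7233249162) (nat_lit 43) (nat_lit 5) (nat_lit 49) (nat_lit 5) (nat_lit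 44) (nat_lit 5) (nat_lit 276) (nat_lit 268) (nat_lit 236)) (XT.lf (nat_lit 0) (nat_lit 4932518181) (nat_lit 532) (nat_lit 6128726299) (nat_lit 76) (nat_lit 367688874) (nat_lit 37) (nat_lit 5) (nat_lit 44) (nat_lit 5) (nat_lit 38) (nat_lit 5) (nat_lit 277) (nat_lit 268) (nat_lit 235)))) (XT.nd (nat_lit 156) (nat_lit 228) (nat_lit 0) (XT.nd (nat_lit 78) (nat_lit 228) (nat_lit 0) (XT.lf (nat_lit 0) (nat_lit 6722738430) (nat_lit 532) (nat_lit 570062379) (nat_lit 76) (nat_lit 4620951856) (nat_lit 37) (nat_lit 5) (nat_lit 44) (nat_lit 5) (nat_lit 38) (nat_lit 5) (nat_lit 278) (nat_lit 268) (nat_lit 234)) (XT.lf (nat_lit 0) (nat_lit 5661636845) (nat_lit 228) (nat_lit 3076767479) (nat_lit 304) (nat_lit 3692594164) (nat_lit 34) (nat_lit 5) (nat_lit 37) (nat_lit 5) (nat_lit 38) (nat_lit 5) (nat_lit 279) (nat_lit 268) (nat_lit 233))) (XT.nd (nat_lit 78) (nat_lit 228) (nat_lit 0) (XT.lf (nat_lit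 0) (nat_lit 10915545820) (nat_lit 304) (nat_lit 657734168) (nat_lit 76) (nat_lit 1416529171) (nat_lit 34) (nat_lit 5) (nat_lit 38) (nat_lit 5) (nat_lit 35) (nat_lit 5) (nat_lit 280) (nat_lit 268) (nat_lit 232)) (XT.lf (nat_lit 0) (nat_lit 6115366181) (nat_lit 228) (nat_lit 7331001662) (nat_lit 304) (nat_lit 132784040) (nat_lit 31) (nat_lit 5) (nat_lit 34) (nat_lit 5) (nat_lit 35) (nat_lit 5) (nat_lit 281) (nat_lit 268) (nat_lit 231))))) (XT.nd (nat_lit 234) (nat_lit 380) (nat_lit 0) (XT.nd (nat_lit 78) (nat_lit 228) (nat_lit 0) (XT.lf (nat_lit 0) (nat_lit 1837659153) (nat_lit 304) (nat_lit 848900616) (nat_lit 76) (nat_lit 11527713136) (nat_lit 30) (nat_lit 5) (nat_lit 34) (nat_lit 5) (nat_lit 31) (nat_lit 5) (nat_lit 282) (nat_lit 268) (nat_lit 230)) (XT.nd (nat_lit 78) (nat_lit 0) (nat_lit 0) (XT.lf (nat_lit 0) (nat_lit 4133491906) (nat_lit 304) (nat_lit 8381213670) (nat_lit 76) (nat_lit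 2371377076) (nat_lit 27) (nat_lit 5) (nat_lit 31) (nat_lit 5) (nat_lit 28) (nat_lit 5) (nat_lit 283) (nat_lit 268) (nat_lit 229)) (XT.lf (nat_lit 0) (nat_lit 6665283350) (nat_lit 304) (nat_lit 1237553836) (nat_lit 76) (nat_lit 7704754766) (nat_lit 27) (nat_lit 5) (nat_lit 31) (nat_lit 5) (nat_lit 28) (nat_lit 5) (nat_lit 284) (nat_lit 268) (nat_lit 228)))) (XT.nd (nat_lit 156) (nat_lit 228) (nat_lit 0) (XT.nd (nat_lit 78) (nat_lit 0) (nat_lit 0) (XT.lf (nat_lit 0) (nat_lit 6767421767) (nat_lit 152) (nat_lit 2756710386) (nat_lit 228) (nat_lit 6852856624) (nat_lit 25) (nat_lit 5) (nat_lit 27) (nat_lit 5) (nat_lit 28) (nat_lit 5) (nat_lit 285) (nat_lit 268) (nat_lit 227)) (XT.lf (nat_lit 0) (nat_lit 12676956902) (nat_lit 228) (nat_lit 1840557222) (nat_lit 76) (nat_lit 2685320211) (nat_lit 25) (nat_lit 5) (nat_lit 28) (nat_lit 5) (nat_lit 26) (nat_lit 5) (nat_lit 286) (nat_lit 268) (nat_lit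 226))) (XT.nd (nat_lit 78) (nat_lit 76) (nat_lit 0) (XT.lf (nat_lit 0) (nat_lit 6770524862) (nat_lit 152) (nat_lit 9511829481) (nat_lit 228) (nat_lit 1796475117) (nat_lit 23) (nat_lit 5) (nat_lit 25) (nat_lit 5) (nat_lit 26) (nat_lit 5) (nat_lit 287) (nat_lit 268) (nat_lit 225)) (XT.lf (nat_lit 0) (nat_lit 1111721077) (nat_lit 228) (nat_lit 2921925868) (nat_lit 76) (nat_lit 14987693532) (nat_lit 22) (nat_lit 5) (nat_lit 25) (nat_lit 5) (nat_lit 23) (nat_lit 5) (nat_lit 288) (nat_lit 268) (nat_lit 224))))))) (XT.nd (nat_lit 1092) (nat_lit 380) (nat_lit 0) (XT.nd (nat_lit 546) (nat_lit 380) (nat_lit 0) (XT.nd (nat_lit 234) (nat_lit 152) (nat_lit 0) (XT.nd (nat_lit 78) (nat_lit 152) (nat_lit 0) (XT.lf (nat_lit 0) (nat_lit 4327609769) (nat_lit 228) (nat_lit 13712719707) (nat_lit 76) (nat_lit 1981509566) (nat_lit 20) (nat_lit 5) (nat_lit 23) (nat_lit 5) (nat_lit 21) (nat_lit 5) (nat_lit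 289) (nat_lit 268) (nat_lit 223)) (XT.nd (nat_lit 78) (nat_lit 152) (nat_lit 0) (XT.lf (nat_lit 0) (nat_lit 7957368177) (nat_lit 228) (nat_lit 4802785353) (nat_lit 76) (nat_lit 8329776674) (nat_lit 20) (nat_lit 5) (nat_lit 23) (nat_lit 5) (nat_lit 21) (nat_lit 5) (nat_lit 290) (nat_lit 268) (nat_lit 222)) (XT.lf (nat_lit 0) (nat_lit 5030112332) (nat_lit 152) (nat_lit 6940464487) (nat_lit 228) (nat_lit 10265520907) (nat_lit 18) (nat_lit 5) (nat_lit 20) (nat_lit 5) (nat_lit 21) (nat_lit 5) (nat_lit 291) (nat_lit 268) (nat_lit 221)))) (XT.nd (nat_lit 156) (nat_lit 76) (nat_lit 0) (XT.nd (nat_lit 78) (nat_lit 76) (nat_lit 0) (XT.lf (nat_lit 0) (nat_lit 15882372053) (nat_lit 152) (nat_lit 526977197) (nat_lit 228) (nat_lit 7056317935) (nat_lit 18) (nat_lit 5) (nat_lit 20) (nat_lit 5) (nat_lit 21) (nat_lit 5) (nat_lit 292) (nat_lit 268) (nat_lit 220)) (XT.lf (nat_lit 0) (nat_lit 2753898987)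 (nat_lit 76) (nat_lit 18644339597) (nat_lit 152) (nat_lit 3379826392) (nat_lit 17) (nat_lit 5) (nat_lit 18) (nat_lit 5) (nat_lit 19) (nat_lit 4) (nat_lit 293) (nat_lit 268) (nat_lit 219))) (XT.nd (nat_lit 78) (nat_lit 0) (nat_lit 0) (XT.lf (nat_lit 0) (nat_lit 762777258) (nat_lit 152) (nat_lit 11902346723) (nat_lit 76) (nat_lit 13513125098) (nat_lit 16) (nat_lit 5) (nat_lit 18) (nat_lit 5) (nat_lit 17) (nat_lit 5) (nat_lit 294) (nat_lit 268) (nat_lit 218)) (XT.lf (nat_lit 0) (nat_lit 5031165136) (nat_lit 152) (nat_lit 1095176250) (nat_lit 76) (nat_lit 21558976354) (nat_lit 16) (nat_lit 5) (nat_lit 18) (nat_lit 5) (nat_lit 17) (nat_lit 5) (nat_lit 295) (nat_lit 268) (nat_lit 217))))) (XT.nd (nat_lit 234) (nat_lit 152) (nat_lit 0) (XT.nd (nat_lit 78) (nat_lit 76) (nat_lit 0) (XT.lf (nat_lit 0) (nat_lit 9915737076) (nat_lit 228) (nat_lit 18224650959) (nat_lit 76) (nat_lit 1150633848)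 (nat_lit 14) (nat_lit 5) (nat_lit 17) (nat_lit 5) (nat_lit 15) (nat_lit 4) (nat_lit 296) (nat_lit 268) (nat_lit 216)) (XT.nd (nat_lit 78) (nat_lit 76) (nat_lit 0) (XT.lf (nat_lit 0) (nat_lit 15360086361) (nat_lit 228) (nat_lit 6953987472) (nat_lit 76) (nat_lit 8697631143) (nat_lit 14) (nat_lit 5) (nat_lit 17) (nat_lit 5) (nat_lit 15) (nat_lit 4) (nat_lit 297) (nat_lit 268) (nat_lit 215)) (XT.lf (nat_lit 0) (nat_lit 5459565873) (nat_lit 76) (nat_lit 15892427824) (nat_lit 152) (nat_lit 11509128533) (nat_lit 13) (nat_lit 5) (nat_lit 14) (nat_lit 5) (nat_lit 15) (nat_lit 4) (nat_lit 298) (nat_lit 268) (nat_lit 214)))) (XT.nd (nat_lit 156) (nat_lit 152) (nat_lit 0) (XT.nd (nat_lit 78) (nat_lit 0) (nat_lit 0) (XT.lf (nat_lit 0) (nat_lit 19230617007) (nat_lit 76) (nat_lit 8764160315) (nat_lit 152) (nat_lit 6850030978) (nat_lit 13) (nat_lit 5) (nat_lit 14) (nat_lit 5) (nat_lit 15) (nat_lit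 4) (nat_lit 299) (nat_lit 268) (nat_lit 213)) (XT.lf (nat_lit 0) (nat_lit 34074587502) (nat_lit 76) (nat_lit 1077164064) (nat_lit 152) (nat_lit 1836850825) (nat_lit 13) (nat_lit 5) (nat_lit 14) (nat_lit 5) (nat_lit 15) (nat_lit 4) (nat_lit 300) (nat_lit 268) (nat_lit 212))) (XT.nd (nat_lit 78) (nat_lit 0) (nat_lit 0) (XT.lf (nat_lit 0) (nat_lit 3835377869) (nat_lit 152) (nat_lit 28208007439) (nat_lit 76) (nat_lit 7218705499) (nat_lit 11) (nat_lit 5) (nat_lit 13) (nat_lit 5) (nat_lit 12) (nat_lit 4) (nat_lit 301) (nat_lit 268) (nat_lit 211)) (XT.lf (nat_lit 0) (nat_lit 9955773867) (nat_lit 152) (nat_lit 15511350160) (nat_lit 76) (nat_lit 16239054745) (nat_lit 11) (nat_lit 5) (nat_lit 13) (nat_lit 5) (nat_lit 12) (nat_lit 4) (nat_lit 302) (nat_lit 268) (nat_lit 210)))))) (XT.nd (nat_lit 546) (nat_lit 152) (nat_lit 0) (XT.nd (nat_lit 234) (nat_lit 152) (nat_lit 0) (XT.nd (nat_lit 78)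 (nat_lit 76) (nat_lit 0) (XT.lf (nat_lit 0) (nat_lit 16550898376) (nat_lit 152) (nat_lit 1824756362) (nat_lit 76) (nat_lit 25971356698) (nat_lit 11) (nat_lit 5) (nat_lit 13) (nat_lit 5) (nat_lit 12) (nat_lit 4) (nat_lit 303) (nat_lit 268) (nat_lit 209)) (XT.nd (nat_lit 78) (nat_lit 0) (nat_lit 0) (XT.lf (nat_lit 0) (nat_lit 13613902222) (nat_lit 76) (nat_lit 10373346069) (nat_lit 152) (nat_lit 23186796712) (nat_lit 10) (nat_lit 5) (nat_lit 11) (nat_lit 5) (nat_lit 12) (nat_lit 4) (nat_lit 304) (nat_lit 268) (nat_lit 208)) (XT.lf (nat_lit 0) (nat_lit 30368148452) (nat_lit 76) (nat_lit 1686912860) (nat_lit 152) (nat_lit 18169277320) (nat_lit 10) (nat_lit 5) (nat_lit 11) (nat_lit 5) (nat_lit 12) (nat_lit 4) (nat_lit 305) (nat_lit 268) (nat_lit 207)))) (XT.nd (nat_lit 156) (nat_lit 76) (nat_lit 0) (XT.nd (nat_lit 78) (nat_lit 76) (nat_lit 0) (XT.lf (nat_lit 0) (nat_lit 40940780254) (nat_lit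 152) (nat_lit 5263315452) (nat_lit 0) (nat_lit 7300781747) (nat_lit 10) (nat_lit 5) (nat_lit 12) (nat_lit 4) (nat_lit 10) (nat_lit 4) (nat_lit 306) (nat_lit 268) (nat_lit 206)) (XT.lf (nat_lit 0) (nat_lit 10981841825) (nat_lit 76) (nat_lit 39851805040) (nat_lit 76) (nat_lit 6190527977) (nat_lit 9) (nat_lit 4) (nat_lit 10) (nat_lit 5) (nat_lit 10) (nat_lit 4) (nat_lit 307) (nat_lit 268) (nat_lit 205))) (XT.nd (nat_lit 78) (nat_lit 0) (nat_lit 0) (XT.lf (nat_lit 0) (nat_lit 794338986) (nat_lit 152) (nat_lit 32028754338) (nat_lit 76) (nat_lit 27989719501) (nat_lit 8) (nat_lit 5) (nat_lit 10) (nat_lit 5) (nat_lit 9) (nat_lit 4) (nat_lit 308) (nat_lit 268) (nat_lit 204)) (XT.lf (nat_lit 0) (nat_lit 7992832073) (nat_lit 152) (nat_lit 17074131649) (nat_lit 76) (nat_lit 39825586631) (nat_lit 8) (nat_lit 5) (nat_lit 10) (nat_lit 5) (nat_lit 9) (nat_lit 4) (nat_lit 309) (nat_lit 268) (nat_lit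 203))))) (XT.nd (nat_lit 312) (nat_lit 76) (nat_lit 0) (XT.nd (nat_lit 156) (nat_lit 0) (nat_lit 0) (XT.nd (nat_lit 78) (nat_lit 76) (nat_lit 0) (XT.lf (nat_lit 0) (nat_lit 15757284302) (nat_lit 152) (nat_lit 940962618) (nat_lit 76) (nat_lit 52601227316) (nat_lit 8) (nat_lit 5) (nat_lit 10) (nat_lit 5) (nat_lit 9) (nat_lit 4) (nat_lit 310) (nat_lit 268) (nat_lit 202)) (XT.lf (nat_lit 0) (nat_lit 17333445883) (nat_lit 76) (nat_lit 7217131148) (nat_lit 152) (nat_lit 49475772963) (nat_lit 7) (nat_lit 5) (nat_lit 8) (nat_lit 5) (nat_lit 9) (nat_lit 4) (nat_lit 311) (nat_lit 268) (nat_lit 201))) (XT.nd (nat_lit 78) (nat_lit 0) (nat_lit 0) (XT.lf (nat_lit 0) (nat_lit 34137354662) (nat_lit 152) (nat_lit 42095991513) (nat_lit 0) (nat_lit 2890839689) (nat_lit 7) (nat_lit 5) (nat_lit 9) (nat_lit 4) (nat_lit 7) (nat_lit 4) (nat_lit 312) (nat_lit 268) (nat_lit 200)) (XT.lf (nat_lit 0) (nat_lit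 44670139009) (nat_lit 152) (nat_lit 26534187128) (nat_lit 0) (nat_lit 13411208203) (nat_lit 7) (nat_lit 5) (nat_lit 9) (nat_lit 4) (nat_lit 7) (nat_lit 4) (nat_lit 313) (nat_lit 268) (nat_lit 199)))) (XT.nd (nat_lit 156) (nat_lit 0) (nat_lit 0) (XT.nd (nat_lit 78) (nat_lit 76) (nat_lit 0) (XT.lf (nat_lit 0) (nat_lit 56037774395) (nat_lit 152) (nat_lit 9741700680) (nat_lit 0) (nat_lit 24767347446) (nat_lit 7) (nat_lit 5) (nat_lit 9) (nat_lit 4) (nat_lit 7) (nat_lit 4) (nat_lit 314) (nat_lit 268) (nat_lit 198)) (XT.lf (nat_lit 0) (nat_lit 8822306357) (nat_lit 76) (nat_lit 59697494907) (nat_lit 76) (nat_lit 28416423383) (nat_lit 6) (nat_lit 4) (nat_lit 7) (nat_lit 5) (nat_lit 7) (nat_lit 4) (nat_lit 315) (nat_lit 268) (nat_lit 197))) (XT.nd (nat_lit 78) (nat_lit 0) (nat_lit 0) (XT.lf (nat_lit 0) (nat_lit 29412581610) (nat_lit 76) (nat_lit 52847191486) (nat_lit 76) (nat_lit 21556263873)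 (nat_lit 6) (nat_lit 4) (nat_lit 7) (nat_lit 5) (nat_lit 7) (nat_lit 4) (nat_lit 316) (nat_lit 268) (nat_lit 196)) (XT.lf (nat_lit 0) (nat_lit 51638160831) (nat_lit 76) (nat_lit 45454325781) (nat_lit 76) (nat_lit 14154272160) (nat_lit 6) (nat_lit 4) (nat_lit 7) (nat_lit 5) (nat_lit 7) (nat_lit 4) (nat_lit 317) (nat_lit 268) (nat_lit 195))))))))
noncomputable def xc64 : XT := (XT.nd (nat_lit 2184) (nat_lit 152) (nat_lit 0) (XT.nd (nat_lit 1092) (nat_lit 0) (nat_lit 0) (XT.nd (nat_lit 546) (nat_lit 76) (nat_lit 0) (XT.nd (nat_lit 234) (nat_lit 76) (nat_lit 0) (XT.nd (nat_lit 78) (nat_lit 76) (nat_lit 0) (XT.lf (nat_lit 0) (nat_lit 75630751156) (nat_lit 76) (nat_lit 37475088218) (nat_lit 76) (nat_lit 6166584589) (nat_lit 6) (nat_lit 4) (nat_lit 7) (nat_lit 5) (nat_lit 7) (nat_lit 4) (nat_lit 318) (nat_lit 268) (nat_lit 194)) (XT.nd (nat_lit 78) (nat_lit 0) (nat_lit 0) (XT.lf (nat_lit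 0) (nat_lit 2331367597) (nat_lit 152) (nat_lit 26467083106) (nat_lit 76) (nat_lit 99137419579) (nat_lit 5) (nat_lit 5) (nat_lit 7) (nat_lit 5) (nat_lit 6) (nat_lit 4) (nat_lit 319) (nat_lit 268) (nat_lit 193)) (XT.lf (nat_lit 0) (nat_lit 11170736032) (nat_lit 152) (nat_lit 8088441282) (nat_lit 76) (nat_lit 118020828334) (nat_lit 5) (nat_lit 5) (nat_lit 7) (nat_lit 5) (nat_lit 6) (nat_lit 4) (nat_lit 320) (nat_lit 268) (nat_lit 192)))) (XT.nd (nat_lit 156) (nat_lit 0) (nat_lit 0) (XT.nd (nat_lit 78) (nat_lit 0) (nat_lit 0) (XT.lf (nat_lit 0) (nat_lit 12370281209) (nat_lit 76) (nat_lit 8639604044) (nat_lit 152) (nat_lit 126338381536) (nat_lit 4) (nat_lit 5) (nat_lit 5) (nat_lit 5) (nat_lit 6) (nat_lit 4) (nat_lit 321) (nat_lit 268) (nat_lit 191)) (XT.lf (nat_lit 0) (nat_lit 31926290785) (nat_lit 152) (nat_lit 123361471909) (nat_lit 0) (nat_lit 2911021224) (nat_lit 4) (nat_lit 5) (nat_lit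 6) (nat_lit 4) (nat_lit 4) (nat_lit 4) (nat_lit 322) (nat_lit 268) (nat_lit 190))) (XT.nd (nat_lit 78) (nat_lit 0) (nat_lit 0) (XT.lf (nat_lit 0) (nat_lit 43935948737) (nat_lit 152) (nat_lit 111048448920) (nat_lit 0) (nat_lit 14915354237) (nat_lit 4) (nat_lit 5) (nat_lit 6) (nat_lit 4) (nat_lit 4) (nat_lit 4) (nat_lit 323) (nat_lit 268) (nat_lit 189)) (XT.lf (nat_lit 0) (nat_lit 56902244766) (nat_lit 152) (nat_lit 97758167865) (nat_lit 0) (nat_lit 27876719769) (nat_lit 4) (nat_lit 5) (nat_lit 6) (nat_lit 4) (nat_lit 4) (nat_lit 4) (nat_lit 324) (nat_lit 268) (nat_lit 188))))) (XT.nd (nat_lit 234) (nat_lit 76) (nat_lit 0) (XT.nd (nat_lit 78) (nat_lit 0) (nat_lit 0) (XT.lf (nat_lit 0) (nat_lit 70902016184) (nat_lit 152) (nat_lit 83411871523) (nat_lit 0) (nat_lit 41871925910) (nat_lit 4) (nat_lit 5) (nat_lit 6) (nat_lit 4) (nat_lit 4) (nat_lit 4) (nat_lit 325) (nat_lit 268) (nat_lit 187))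 (XT.nd (nat_lit 78) (nat_lit 0) (nat_lit 0) (XT.lf (nat_lit 0) (nat_lit 86018224598) (nat_lit 152) (nat_lit 67924544805) (nat_lit 0) (nat_lit 56983907217) (nat_lit 4) (nat_lit 5) (nat_lit 6) (nat_lit 4) (nat_lit 4) (nat_lit 4) (nat_lit 326) (nat_lit 268) (nat_lit 186)) (XT.lf (nat_lit 0) (nat_lit 102340447539) (nat_lit 152) (nat_lit 51204410959) (nat_lit 0) (nat_lit 73302216170) (nat_lit 4) (nat_lit 5) (nat_lit 6) (nat_lit 4) (nat_lit 4) (nat_lit 4) (nat_lit 327) (nat_lit 268) (nat_lit 185)))) (XT.nd (nat_lit 156) (nat_lit 76) (nat_lit 0) (XT.nd (nat_lit 78) (nat_lit 0) (nat_lit 0) (XT.lf (nat_lit 0) (nat_lit 119965409293) (nat_lit 152) (nat_lit 33152387712) (nat_lit 0) (nat_lit 90923553860) (nat_lit 4) (nat_lit 5) (nat_lit 6) (nat_lit 4) (nat_lit 4) (nat_lit 4) (nat_lit 328) (nat_lit 268) (nat_lit 184)) (XT.lf (nat_lit 0) (nat_lit 138997554075) (nat_lit 152) (nat_lit 13661500110)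 (nat_lit 0) (nat_lit 109952343028) (nat_lit 4) (nat_lit 5) (nat_lit 6) (nat_lit 4) (nat_lit 4) (nat_lit 4) (nat_lit 329) (nat_lit 268) (nat_lit 183))) (XT.nd (nat_lit 78) (nat_lit 0) (nat_lit 0) (XT.lf (nat_lit 0) (nat_lit 7772568770) (nat_lit 76) (nat_lit 151964026664) (nat_lit 76) (nat_lit 122915708566) (nat_lit 3) (nat_lit 4) (nat_lit 4) (nat_lit 5) (nat_lit 4) (nat_lit 4) (nat_lit 330) (nat_lit 268) (nat_lit 182)) (XT.lf (nat_lit 0) (nat_lit 31693523860) (nat_lit 76) (nat_lit 150812238408) (nat_lit 76) (nat_lit 121761043412) (nat_lit 3) (nat_lit 4) (nat_lit 4) (nat_lit 5) (nat_lit 4) (nat_lit 4) (nat_lit 331) (nat_lit 268) (nat_lit 181)))))) (XT.nd (nat_lit 546) (nat_lit 0) (nat_lit 0) (XT.nd (nat_lit 234) (nat_lit 0) (nat_lit 0) (XT.nd (nat_lit 78) (nat_lit 0) (nat_lit 0) (XT.lf (nat_lit 0) (nat_lit 57523728582) (nat_lit 76) (nat_lit 149570393630) (nat_lit 76) (nat_lit 120516534839)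 (nat_lit 3) (nat_lit 4) (nat_lit 4) (nat_lit 5) (nat_lit 4) (nat_lit 4) (nat_lit 332) (nat_lit 268) (nat_lit 180)) (XT.nd (nat_lit 78) (nat_lit 0) (nat_lit 0) (XT.lf (nat_lit 0) (nat_lit 85416250815) (nat_lit 76) (nat_lit 148231133250) (nat_lit 76) (nat_lit 119174807983) (nat_lit 3) (nat_lit 4) (nat_lit 4) (nat_lit 5) (nat_lit 4) (nat_lit 4) (nat_lit 333) (nat_lit 268) (nat_lit 179)) (XT.lf (nat_lit 0) (nat_lit 115536379579) (nat_lit 76) (nat_lit 146786520911) (nat_lit 76) (nat_lit 117727911869) (nat_lit 3) (nat_lit 4) (nat_lit 4) (nat_lit 5) (nat_lit 4) (nat_lit 4) (nat_lit 334) (nat_lit 268) (nat_lit 178)))) (XT.nd (nat_lit 156) (nat_lit 0) (nat_lit 0) (XT.nd (nat_lit 78) (nat_lit 0) (nat_lit 0) (XT.lf (nat_lit 0) (nat_lit 148062604528) (nat_lit 76) (nat_lit 145227995946) (nat_lit 76) (nat_lit 116167272297) (nat_lit 3) (nat_lit 4) (nat_lit 4) (nat_lit 5) (nat_lit 4) (nat_lit 4) (nat_lit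 335) (nat_lit 268) (nat_lit 177)) (XT.lf (nat_lit 0) (nat_lit 183187673660) (nat_lit 76) (nat_lit 143546322652) (nat_lit 76) (nat_lit 114483641035) (nat_lit 3) (nat_lit 4) (nat_lit 4) (nat_lit 5) (nat_lit 4) (nat_lit 4) (nat_lit 336) (nat_lit 268) (nat_lit 176))) (XT.nd (nat_lit 78) (nat_lit 0) (nat_lit 0) (XT.lf (nat_lit 0) (nat_lit 221119735533) (nat_lit 76) (nat_lit 141731535558) (nat_lit 76) (nat_lit 112667041007) (nat_lit 3) (nat_lit 4) (nat_lit 4) (nat_lit 5) (nat_lit 4) (nat_lit 4) (nat_lit 337) (nat_lit 268) (nat_lit 175)) (XT.lf (nat_lit 0) (nat_lit 262083572737) (nat_lit 76) (nat_lit 139772880369) (nat_lit 76) (nat_lit 110706707175) (nat_lit 3) (nat_lit 4) (nat_lit 4) (nat_lit 5) (nat_lit 4) (nat_lit 4) (nat_lit 338) (nat_lit 268) (nat_lit 174))))) (XT.nd (nat_lit 234) (nat_lit 0) (nat_lit 0) (XT.nd (nat_lit 78) (nat_lit 0) (nat_lit 0) (XT.lf (nat_lit 0) (nat_lit 306321933936)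 (nat_lit 76) (nat_lit 137658750241) (nat_lit 76) (nat_lit 108591022748) (nat_lit 3) (nat_lit 4) (nat_lit 4) (nat_lit 5) (nat_lit 4) (nat_lit 4) (nat_lit 339) (nat_lit 268) (nat_lit 173)) (XT.nd (nat_lit 78) (nat_lit 0) (nat_lit 0) (XT.lf (nat_lit 0) (nat_lit 354096972381) (nat_lit 76) (nat_lit 135376616994) (nat_lit 76) (nat_lit 106307450336) (nat_lit 3) (nat_lit 4) (nat_lit 4) (nat_lit 5) (nat_lit 4) (nat_lit 4) (nat_lit 340) (nat_lit 268) (nat_lit 172)) (XT.lf (nat_lit 0) (nat_lit 405691799412) (nat_lit 76) (nat_lit 132912956877) (nat_lit 76) (nat_lit 103842457658) (nat_lit 3) (nat_lit 4) (nat_lit 4) (nat_lit 5) (nat_lit 4) (nat_lit 4) (nat_lit 341) (nat_lit 268) (nat_lit 171)))) (XT.nd (nat_lit 156) (nat_lit 0) (nat_lit 0) (XT.nd (nat_lit 78) (nat_lit 0) (nat_lit 0) (XT.lf (nat_lit 0) (nat_lit 461412162152) (nat_lit 76) (nat_lit 130253170421) (nat_lit 76) (nat_lit 101181437350)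 (nat_lit 3) (nat_lit 4) (nat_lit 4) (nat_lit 5) (nat_lit 4) (nat_lit 4) (nat_lit 342) (nat_lit 268) (nat_lit 170)) (XT.lf (nat_lit 0) (nat_lit 521588255343) (nat_lit 76) (nat_lit 127381495929) (nat_lit 76) (nat_lit 98308620403) (nat_lit 3) (nat_lit 4) (nat_lit 4) (nat_lit 5) (nat_lit 4) (nat_lit 4) (nat_lit 343) (nat_lit 268) (nat_lit 169))) (XT.nd (nat_lit 78) (nat_lit 0) (nat_lit 0) (XT.lf (nat_lit 0) (nat_lit 586576678055) (nat_lit 76) (nat_lit 124280916072) (nat_lit 76) (nat_lit 95206982715) (nat_lit 3) (nat_lit 4) (nat_lit 4) (nat_lit 5) (nat_lit 4) (nat_lit 4) (nat_lit 344) (nat_lit 268) (nat_lit 168)) (XT.lf (nat_lit 0) (nat_lit 656762546868) (nat_lit 76) (nat_lit 120933057041) (nat_lit 76) (nat_lit 91858144213) (nat_lit 3) (nat_lit 4) (nat_lit 4) (nat_lit 5) (nat_lit 4) (nat_lit 4) (nat_lit 345) (nat_lit 268) (nat_lit 167))))))) (XT.nd (nat_lit 1092) (nat_lit 152) (nat_lit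 0) (XT.nd (nat_lit 546) (nat_lit 0) (nat_lit 0) (XT.nd (nat_lit 234) (nat_lit 0) (nat_lit 0) (XT.nd (nat_lit 78) (nat_lit 0) (nat_lit 0) (XT.lf (nat_lit 0) (nat_lit 732561778042) (nat_lit 76) (nat_lit 117318079674) (nat_lit 76) (nat_lit 88242259927) (nat_lit 3) (nat_lit 4) (nat_lit 4) (nat_lit 5) (nat_lit 4) (nat_lit 4) (nat_lit 346) (nat_lit 268) (nat_lit 166)) (XT.nd (nat_lit 78) (nat_lit 0) (nat_lit 0) (XT.lf (nat_lit 0) (nat_lit 814423552205) (nat_lit 76) (nat_lit 113414561881) (nat_lit 76) (nat_lit 84337902395) (nat_lit 3) (nat_lit 4) (nat_lit 4) (nat_lit 5) (nat_lit 4) (nat_lit 4) (nat_lit 347) (nat_lit 268) (nat_lit 165)) (XT.lf (nat_lit 0) (nat_lit 902832976167) (nat_lit 76) (nat_lit 109199371705) (nat_lit 76) (nat_lit 80121934683) (nat_lit 3) (nat_lit 4) (nat_lit 4) (nat_lit 5) (nat_lit 4) (nat_lit 4) (nat_lit 348) (nat_lit 268) (nat_lit 164)))) (XT.nd (nat_lit 156) (nat_lit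 0) (nat_lit 0) (XT.nd (nat_lit 78) (nat_lit 0) (nat_lit 0) (XT.lf (nat_lit 0) (nat_lit 998313957627) (nat_lit 76) (nat_lit 104647530242) (nat_lit 76) (nat_lit 75569373279) (nat_lit 3) (nat_lit 4) (nat_lit 4) (nat_lit 5) (nat_lit 4) (nat_lit 4) (nat_lit 349) (nat_lit 268) (nat_lit 163)) (XT.lf (nat_lit 0) (nat_lit 1101432309806) (nat_lit 76) (nat_lit 99732063616) (nat_lit 76) (nat_lit 70653240041) (nat_lit 3) (nat_lit 4) (nat_lit 4) (nat_lit 5) (nat_lit 4) (nat_lit 4) (nat_lit 350) (nat_lit 268) (nat_lit 162))) (XT.nd (nat_lit 78) (nat_lit 0) (nat_lit 0) (XT.lf (nat_lit 0) (nat_lit 1212799104423) (nat_lit 76) (nat_lit 94423843136) (nat_lit 76) (nat_lit 65344402328) (nat_lit 3) (nat_lit 4) (nat_lit 4) (nat_lit 5) (nat_lit 4) (nat_lit 4) (nat_lit 351) (nat_lit 268) (nat_lit 161)) (XT.lf (nat_lit 0) (nat_lit 1333074292852) (nat_lit 76) (nat_lit 88691412681) (nat_lit 76) (nat_lit 59611400360)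 (nat_lit 3) (nat_lit 4) (nat_lit 4) (nat_lit 5) (nat_lit 4) (nat_lit 4) (nat_lit 352) (nat_lit 268) (nat_lit 160))))) (XT.nd (nat_lit 234) (nat_lit 0) (nat_lit 0) (XT.nd (nat_lit 78) (nat_lit 0) (nat_lit 0) (XT.lf (nat_lit 0) (nat_lit 1462970616951) (nat_lit 76) (nat_lit 82500802292) (nat_lit 76) (nat_lit 53420260793) (nat_lit 3) (nat_lit 4) (nat_lit 4) (nat_lit 5) (nat_lit 4) (nat_lit 4) (nat_lit 353) (nat_lit 268) (nat_lit 159)) (XT.nd (nat_lit 78) (nat_lit 0) (nat_lit 0) (XT.lf (nat_lit 0) (nat_lit 1603257832715) (nat_lit 76) (nat_lit 75815326872) (nat_lit 76) (nat_lit 46734295393) (nat_lit 3) (nat_lit 4) (nat_lit 4) (nat_lit 5) (nat_lit 4) (nat_lit 4) (nat_lit 354) (nat_lit 268) (nat_lit 158)) (XT.lf (nat_lit 0) (nat_lit 1754767271792) (nat_lit 76) (nat_lit 68595368787) (nat_lit 76) (nat_lit 39513883623) (nat_lit 3) (nat_lit 4) (nat_lit 4) (nat_lit 5) (nat_lit 4) (nat_lit 4) (nat_lit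 355) (nat_lit 268) (nat_lit 157)))) (XT.nd (nat_lit 156) (nat_lit 0) (nat_lit 0) (XT.nd (nat_lit 78) (nat_lit 0) (nat_lit 0) (XT.lf (nat_lit 0) (nat_lit 1918396767896) (nat_lit 76) (nat_lit 60798143101) (nat_lit 76) (nat_lit 31716237858) (nat_lit 3) (nat_lit 4) (nat_lit 4) (nat_lit 5) (nat_lit 4) (nat_lit 4) (nat_lit 356) (nat_lit 268) (nat_lit 156)) (XT.lf (nat_lit 0) (nat_lit 2095115977299) (nat_lit 76) (nat_lit 52377444032) (nat_lit 76) (nat_lit 23295149828) (nat_lit 3) (nat_lit 4) (nat_lit 4) (nat_lit 5) (nat_lit 4) (nat_lit 4) (nat_lit 357) (nat_lit 268) (nat_lit 155))) (XT.nd (nat_lit 78) (nat_lit 0) (nat_lit 0) (XT.lf (nat_lit 0) (nat_lit 2285972124947) (nat_lit 76) (nat_lit 43283371142) (nat_lit 76) (nat_lit 14200716788) (nat_lit 3) (nat_lit 4) (nat_lit 4) (nat_lit 5) (nat_lit 4) (nat_lit 4) (nat_lit 358) (nat_lit 268) (nat_lit 154)) (XT.lf (nat_lit 0) (nat_lit 2492096210233)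 (nat_lit 76) (nat_lit 33462033627) (nat_lit 76) (nat_lit 4379045801) (nat_lit 3) (nat_lit 4) (nat_lit 4) (nat_lit 5) (nat_lit 4) (nat_lit 4) (nat_lit 359) (nat_lit 268) (nat_lit 153)))))) (XT.nd (nat_lit 33774) (nat_lit 0) (nat_lit 2736) (XT.nd (nat_lit 234) (nat_lit 0) (nat_lit 0) (XT.nd (nat_lit 78) (nat_lit 76) (nat_lit 0) (XT.lf (nat_lit 0) (nat_lit 5916512559) (nat_lit 152) (nat_lit 16776950471) (nat_lit 76) (nat_lit 2708631428719) (nat_lit 2) (nat_lit 5) (nat_lit 4) (nat_lit 5) (nat_lit 3) (nat_lit 4) (nat_lit 360) (nat_lit 268) (nat_lit 152)) (XT.nd (nat_lit 78) (nat_lit 0) (nat_lit 0) (XT.lf (nat_lit 0) (nat_lit 6166554451) (nat_lit 76) (nat_lit 10780626772) (nat_lit 152) (nat_lit 2931855377871) (nat_lit 1) (nat_lit 5) (nat_lit 2) (nat_lit 5) (nat_lit 3) (nat_lit 4) (nat_lit 361) (nat_lit 268) (nat_lit 151)) (XT.lf (nat_lit 0) (nat_lit 29380823779) (nat_lit 152) (nat_lit 3151804639015)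 (nat_lit 0) (nat_lit 2451335616) (nat_lit 1) (nat_lit 5) (nat_lit 3) (nat_lit 4) (nat_lit 1) (nat_lit 4) (nat_lit 362) (nat_lit 268) (nat_lit 150)))) (XT.nd (nat_lit 33384) (nat_lit 0) (nat_lit 3496) (XT.nd (nat_lit 33306) (nat_lit 0) (nat_lit 3496) (XT.lf (nat_lit 0) (nat_lit 43088937230) (nat_lit 152) (nat_lit 3377987235368) (nat_lit 0) (nat_lit 16159222112) (nat_lit 1) (nat_lit 5) (nat_lit 3) (nat_lit 4) (nat_lit 1) (nat_lit 4) (nat_lit 363) (nat_lit 268) (nat_lit 149)) (XT.lf (nat_lit 0) (nat_lit 1216597846) (nat_lit 0) (nat_lit 1216597846) (nat_lit 380) (nat_lit 1980969983) (nat_lit 47) (nat_lit 5) (nat_lit 47) (nat_lit 3) (nat_lit 52) (nat_lit 3) (nat_lit 269) (nat_lit 269) (nat_lit 242))) (XT.nd (nat_lit 78) (nat_lit 0) (nat_lit 0) (XT.lf (nat_lit 0) (nat_lit 5932975474) (nat_lit 380) (nat_lit 2478249231) (nat_lit 456) (nat_lit 696430198) (nat_lit 47) (nat_lit 5) (nat_lit 52)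 (nat_lit 3) (nat_lit 53) (nat_lit 5) (nat_lit 270) (nat_lit 269) (nat_lit 241)) (XT.lf (nat_lit 76) (nat_lit 1724024299) (nat_lit 0) (nat_lit 5381081671) (nat_lit 456) (nat_lit 2303006533) (nat_lit 48) (nat_lit 5) (nat_lit 47) (nat_lit 5) (nat_lit 53) (nat_lit 5) (nat_lit 271) (nat_lit 269) (nat_lit 240))))) (XT.nd (nat_lit 234) (nat_lit 380) (nat_lit 0) (XT.nd (nat_lit 78) (nat_lit 380) (nat_lit 0) (XT.lf (nat_lit 76) (nat_lit 6353704647) (nat_lit 0) (nat_lit 2005678337) (nat_lit 456) (nat_lit 1374529322) (nat_lit 48) (nat_lit 5) (nat_lit 47) (nat_lit 5) (nat_lit 53) (nat_lit 5) (nat_lit 272) (nat_lit 269) (nat_lit 239)) (XT.nd (nat_lit 78) (nat_lit 456) (nat_lit 0) (XT.lf (nat_lit 76) (nat_lit 1237532013) (nat_lit 0) (nat_lit 8472826316) (nat_lit 456) (nat_lit 376057127) (nat_lit 49) (nat_lit 5) (nat_lit 48) (nat_lit 5) (nat_lit 54) (nat_lit 5) (nat_lit 273) (nat_lit 269) (nat_lit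 238)) (XT.lf (nat_lit 0) (nat_lit 743300705) (nat_lit 456) (nat_lit 4169792109) (nat_lit 532) (nat_lit 5546881908) (nat_lit 42) (nat_lit 5) (nat_lit 48) (nat_lit 5) (nat_lit 49) (nat_lit 5) (nat_lit 274) (nat_lit 269) (nat_lit 237)))) (XT.nd (nat_lit 156) (nat_lit 380) (nat_lit 0) (XT.nd (nat_lit 78) (nat_lit 0) (nat_lit 76) (XT.lf (nat_lit 76) (nat_lit 865675497) (nat_lit 0) (nat_lit 1021499554) (nat_lit 532) (nat_lit 8979315620) (nat_lit 43) (nat_lit 5) (nat_lit 42) (nat_lit 5) (nat_lit 49) (nat_lit 5) (nat_lit 275) (nat_lit 269) (nat_lit 236)) (XT.lf (nat_lit 0) (nat_lit 3254437564) (nat_lit 456) (nat_lit 4890433932) (nat_lit 76) (nat_lit 3150361828) (nat_lit 43) (nat_lit 5) (nat_lit 49) (nat_lit 5) (nat_lit 44) (nat_lit 5) (nat_lit 276) (nat_lit 269) (nat_lit 235))) (XT.nd (nat_lit 78) (nat_lit 0) (nat_lit 0) (XT.lf (nat_lit 0) (nat_lit 579695419) (nat_lit 456) (nat_lit 4134817367)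 (nat_lit 532) (nat_lit 7045324809) (nat_lit 37) (nat_lit 5) (nat_lit 43) (nat_lit 5) (nat_lit 44) (nat_lit 5) (nat_lit 277) (nat_lit 269) (nat_lit 234)) (XT.lf (nat_lit 0) (nat_lit 6379360542) (nat_lit 532) (nat_lit 5548418401) (nat_lit 76) (nat_lit 327013151) (nat_lit 37) (nat_lit 5) (nat_lit 44) (nat_lit 5) (nat_lit 38) (nat_lit 5) (nat_lit 278) (nat_lit 269) (nat_lit 233))))))))
noncomputable def xc65 : XT := (XT.nd (nat_lit 2184) (nat_lit 532) (nat_lit 0) (XT.nd (nat_lit 1092) (nat_lit 608) (nat_lit 0) (XT.nd (nat_lit 546) (nat_lit 684) (nat_lit 0) (XT.nd (nat_lit 234) (nat_lit 304) (nat_lit 0) (XT.nd (nat_lit 78) (nat_lit 228) (nat_lit 0) (XT.lf (nat_lit 0) (nat_lit 395414729) (nat_lit 228) (nat_lit 7848949644) (nat_lit 304) (nat_lit 4539824090) (nat_lit 34) (nat_lit 5) (nat_lit 37) (nat_lit 5) (nat_lit 38) (nat_lit 5) (nat_lit 279) (nat_lit 269) (nat_lit 232)) (XT.nd (nat_lit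 78) (nat_lit 228) (nat_lit 0) (XT.lf (nat_lit 0) (nat_lit 7080773396) (nat_lit 228) (nat_lit 3282067518) (nat_lit 304) (nat_lit 2984941769) (nat_lit 34) (nat_lit 5) (nat_lit 37) (nat_lit 5) (nat_lit 38) (nat_lit 5) (nat_lit 280) (nat_lit 269) (nat_lit 231)) (XT.lf (nat_lit 0) (nat_lit 268757209) (nat_lit 228) (nat_lit 12384224116) (nat_lit 304) (nat_lit 1303482272) (nat_lit 31) (nat_lit 5) (nat_lit 34) (nat_lit 5) (nat_lit 35) (nat_lit 5) (nat_lit 281) (nat_lit 269) (nat_lit 230)))) (XT.nd (nat_lit 156) (nat_lit 228) (nat_lit 0) (XT.nd (nat_lit 78) (nat_lit 0) (nat_lit 0) (XT.lf (nat_lit 0) (nat_lit 704798712) (nat_lit 304) (nat_lit 7069023213) (nat_lit 76) (nat_lit 6821744869) (nat_lit 30) (nat_lit 5) (nat_lit 34) (nat_lit 5) (nat_lit 31) (nat_lit 5) (nat_lit 282) (nat_lit 269) (nat_lit 229)) (XT.lf (nat_lit 0) (nat_lit 2763404930) (nat_lit 304) (nat_lit 1612286) (nat_lit 76) (nat_lit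 12521403860) (nat_lit 30) (nat_lit 5) (nat_lit 34) (nat_lit 5) (nat_lit 31) (nat_lit 5) (nat_lit 283) (nat_lit 269) (nat_lit 228))) (XT.nd (nat_lit 78) (nat_lit 0) (nat_lit 0) (XT.lf (nat_lit 0) (nat_lit 5210269895) (nat_lit 304) (nat_lit 8101380587) (nat_lit 76) (nat_lit 2703135504) (nat_lit 27) (nat_lit 5) (nat_lit 31) (nat_lit 5) (nat_lit 28) (nat_lit 5) (nat_lit 284) (nat_lit 269) (nat_lit 227)) (XT.lf (nat_lit 0) (nat_lit 7889338088) (nat_lit 304) (nat_lit 456622795) (nat_lit 76) (nat_lit 8452661316) (nat_lit 27) (nat_lit 5) (nat_lit 31) (nat_lit 5) (nat_lit 28) (nat_lit 5) (nat_lit 285) (nat_lit 269) (nat_lit 226))))) (XT.nd (nat_lit 234) (nat_lit 380) (nat_lit 0) (XT.nd (nat_lit 78) (nat_lit 152) (nat_lit 0) (XT.lf (nat_lit 0) (nat_lit 8166474013) (nat_lit 152) (nat_lit 2779874744) (nat_lit 228) (nat_lit 6685836847) (nat_lit 25) (nat_lit 5) (nat_lit 27) (nat_lit 5) (nat_lit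 28) (nat_lit 5) (nat_lit 286) (nat_lit 269) (nat_lit 225)) (XT.nd (nat_lit 78) (nat_lit 152) (nat_lit 0) (XT.lf (nat_lit 0) (nat_lit 14306884607) (nat_lit 228) (nat_lit 1147177757) (nat_lit 76) (nat_lit 3073756108) (nat_lit 25) (nat_lit 5) (nat_lit 28) (nat_lit 5) (nat_lit 26) (nat_lit 5) (nat_lit 287) (nat_lit 269) (nat_lit 224)) (XT.lf (nat_lit 0) (nat_lit 8131509273) (nat_lit 152) (nat_lit 10043297097) (nat_lit 228) (nat_lit 1301306169) (nat_lit 23) (nat_lit 5) (nat_lit 25) (nat_lit 5) (nat_lit 26) (nat_lit 5) (nat_lit 288) (nat_lit 269) (nat_lit 223)))) (XT.nd (nat_lit 156) (nat_lit 152) (nat_lit 0) (XT.nd (nat_lit 78) (nat_lit 152) (nat_lit 0) (XT.lf (nat_lit 0) (nat_lit 1762628434) (nat_lit 228) (nat_lit 2365864703) (nat_lit 76) (nat_lit 16368024488) (nat_lit 22) (nat_lit 5) (nat_lit 25) (nat_lit 5) (nat_lit 23) (nat_lit 5) (nat_lit 289) (nat_lit 269) (nat_lit 222)) (XT.lf (nat_lit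 0) (nat_lit 5218229702) (nat_lit 228) (nat_lit 14000907496) (nat_lit 76) (nat_lit 2359440042) (nat_lit 20) (nat_lit 5) (nat_lit 23) (nat_lit 5) (nat_lit 21) (nat_lit 5) (nat_lit 290) (nat_lit 269) (nat_lit 221))) (XT.nd (nat_lit 78) (nat_lit 152) (nat_lit 0) (XT.lf (nat_lit 0) (nat_lit 9098042030) (nat_lit 228) (nat_lit 4438091711) (nat_lit 76) (nat_lit 9199315948) (nat_lit 20) (nat_lit 5) (nat_lit 23) (nat_lit 5) (nat_lit 21) (nat_lit 5) (nat_lit 291) (nat_lit 269) (nat_lit 220)) (XT.lf (nat_lit 0) (nat_lit 6162477878) (nat_lit 152) (nat_lit 7250045373) (nat_lit 228) (nat_lit 10562469955) (nat_lit 18) (nat_lit 5) (nat_lit 20) (nat_lit 5) (nat_lit 21) (nat_lit 5) (nat_lit 292) (nat_lit 269) (nat_lit 219)))))) (XT.nd (nat_lit 546) (nat_lit 228) (nat_lit 0) (XT.nd (nat_lit 234) (nat_lit 228) (nat_lit 0) (XT.nd (nat_lit 78) (nat_lit 152) (nat_lit 0) (XT.lf (nat_lit 0) (nat_lit 17828847520)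 (nat_lit 152) (nat_lit 341675861) (nat_lit 228) (nat_lit 7135367236) (nat_lit 18) (nat_lit 5) (nat_lit 20) (nat_lit 5) (nat_lit 21) (nat_lit 5) (nat_lit 293) (nat_lit 269) (nat_lit 218)) (XT.nd (nat_lit 78) (nat_lit 76) (nat_lit 0) (XT.lf (nat_lit 0) (nat_lit 3663746140) (nat_lit 76) (nat_lit 19883209499) (nat_lit 152) (nat_lit 3177335670) (nat_lit 17) (nat_lit 5) (nat_lit 18) (nat_lit 5) (nat_lit 19) (nat_lit 4) (nat_lit 294) (nat_lit 269) (nat_lit 217)) (XT.lf (nat_lit 0) (nat_lit 1239745383) (nat_lit 152) (nat_lit 12193255386) (nat_lit 76) (nat_lit 14805315013) (nat_lit 16) (nat_lit 5) (nat_lit 18) (nat_lit 5) (nat_lit 17) (nat_lit 5) (nat_lit 295) (nat_lit 269) (nat_lit 216)))) (XT.nd (nat_lit 156) (nat_lit 76) (nat_lit 0) (XT.nd (nat_lit 78) (nat_lit 152) (nat_lit 0) (XT.lf (nat_lit 0) (nat_lit 5818793480) (nat_lit 152) (nat_lit 570494911) (nat_lit 76) (nat_lit 23479194376) (nat_lit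 16) (nat_lit 5) (nat_lit 18) (nat_lit 5) (nat_lit 17) (nat_lit 5) (nat_lit 296) (nat_lit 269) (nat_lit 215)) (XT.lf (nat_lit 0) (nat_lit 11085386896) (nat_lit 228) (nat_lit 19060796666) (nat_lit 76) (nat_lit 1457222153) (nat_lit 14) (nat_lit 5) (nat_lit 17) (nat_lit 5) (nat_lit 15) (nat_lit 4) (nat_lit 297) (nat_lit 269) (nat_lit 214))) (XT.nd (nat_lit 78) (nat_lit 76) (nat_lit 0) (XT.lf (nat_lit 0) (nat_lit 16937403319) (nat_lit 228) (nat_lit 6934541314) (nat_lit 76) (nat_lit 9592087558) (nat_lit 14) (nat_lit 5) (nat_lit 17) (nat_lit 5) (nat_lit 15) (nat_lit 4) (nat_lit 298) (nat_lit 269) (nat_lit 213)) (XT.lf (nat_lit 0) (nat_lit 6457519966) (nat_lit 76) (nat_lit 16938824321) (nat_lit 152) (nat_lit 12066098007) (nat_lit 13) (nat_lit 5) (nat_lit 14) (nat_lit 5) (nat_lit 15) (nat_lit 4) (nat_lit 299) (nat_lit 269) (nat_lit 212))))) (XT.nd (nat_lit 234) (nat_lit 76) (nat_lit 0) (XT.nd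 (nat_lit 78) (nat_lit 152) (nat_lit 0) (XT.lf (nat_lit 0) (nat_lit 21288685649) (nat_lit 76) (nat_lit 9256961910) (nat_lit 152) (nat_lit 7061217893) (nat_lit 13) (nat_lit 5) (nat_lit 14) (nat_lit 5) (nat_lit 15) (nat_lit 4) (nat_lit 300) (nat_lit 269) (nat_lit 211)) (XT.nd (nat_lit 78) (nat_lit 152) (nat_lit 0) (XT.lf (nat_lit 0) (nat_lit 37281683467) (nat_lit 76) (nat_lit 970437902) (nat_lit 152) (nat_lit 1671932630) (nat_lit 13) (nat_lit 5) (nat_lit 14) (nat_lit 5) (nat_lit 15) (nat_lit 4) (nat_lit 301) (nat_lit 269) (nat_lit 210)) (XT.lf (nat_lit 0) (nat_lit 4432963168) (nat_lit 152) (nat_lit 29961376773) (nat_lit 76) (nat_lit 7984962002) (nat_lit 11) (nat_lit 5) (nat_lit 13) (nat_lit 5) (nat_lit 12) (nat_lit 4) (nat_lit 302) (nat_lit 269) (nat_lit 209)))) (XT.nd (nat_lit 156) (nat_lit 76) (nat_lit 0) (XT.nd (nat_lit 78) (nat_lit 0) (nat_lit 0) (XT.lf (nat_lit 0) (nat_lit 11021453432)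 (nat_lit 152) (nat_lit 16286266265) (nat_lit 76) (nat_lit 17712956961) (nat_lit 11) (nat_lit 5) (nat_lit 13) (nat_lit 5) (nat_lit 12) (nat_lit 4) (nat_lit 303) (nat_lit 269) (nat_lit 208)) (XT.lf (nat_lit 0) (nat_lit 18124245854) (nat_lit 152) (nat_lit 1539262882) (nat_lit 76) (nat_lit 28210896564) (nat_lit 11) (nat_lit 5) (nat_lit 13) (nat_lit 5) (nat_lit 12) (nat_lit 4) (nat_lit 304) (nat_lit 269) (nat_lit 207))) (XT.nd (nat_lit 78) (nat_lit 0) (nat_lit 0) (XT.lf (nat_lit 0) (nat_lit 15123564997) (nat_lit 76) (nat_lit 11023588158) (nat_lit 152) (nat_lit 24781147928) (nat_lit 10) (nat_lit 5) (nat_lit 11) (nat_lit 5) (nat_lit 12) (nat_lit 4) (nat_lit 305) (nat_lit 269) (nat_lit 206)) (XT.lf (nat_lit 0) (nat_lit 33186999029) (nat_lit 76) (nat_lit 1655545892) (nat_lit 152) (nat_lit 19381530135) (nat_lit 10) (nat_lit 5) (nat_lit 11) (nat_lit 5) (nat_lit 12) (nat_lit 4) (nat_lit 306) (nat_lit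 269) (nat_lit 205))))))) (XT.nd (nat_lit 1092) (nat_lit 152) (nat_lit 0) (XT.nd (nat_lit 546) (nat_lit 152) (nat_lit 0) (XT.nd (nat_lit 234) (nat_lit 76) (nat_lit 0) (XT.nd (nat_lit 78) (nat_lit 152) (nat_lit 0) (XT.lf (nat_lit 0) (nat_lit 44426300733) (nat_lit 152) (nat_lit 5310668311) (nat_lit 0) (nat_lit 8031140580) (nat_lit 10) (nat_lit 5) (nat_lit 12) (nat_lit 4) (nat_lit 10) (nat_lit 4) (nat_lit 307) (nat_lit 269) (nat_lit 204)) (XT.nd (nat_lit 78) (nat_lit 76) (nat_lit 0) (XT.lf (nat_lit 0) (nat_lit 12224640476) (nat_lit 76) (nat_lit 42879141779) (nat_lit 76) (nat_lit 6465738693) (nat_lit 9) (nat_lit 4) (nat_lit 10) (nat_lit 5) (nat_lit 10) (nat_lit 4) (nat_lit 308) (nat_lit 269) (nat_lit 203)) (XT.lf (nat_lit 0) (nat_lit 1051427451) (nat_lit 152) (nat_lit 34243325590) (nat_lit 76) (nat_lit 30367333679) (nat_lit 8) (nat_lit 5) (nat_lit 10) (nat_lit 5) (nat_lit 9) (nat_lit 4)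 (nat_lit 309) (nat_lit 269) (nat_lit 202)))) (XT.nd (nat_lit 156) (nat_lit 76) (nat_lit 0) (XT.nd (nat_lit 78) (nat_lit 0) (nat_lit 0) (XT.lf (nat_lit 0) (nat_lit 8811463589) (nat_lit 152) (nat_lit 18118090797) (nat_lit 76) (nat_lit 43139815615) (nat_lit 8) (nat_lit 5) (nat_lit 10) (nat_lit 5) (nat_lit 9) (nat_lit 4) (nat_lit 310) (nat_lit 269) (nat_lit 201)) (XT.lf (nat_lit 0) (nat_lit 17183797555) (nat_lit 152) (nat_lit 718117975) (nat_lit 76) (nat_lit 56928012588) (nat_lit 8) (nat_lit 5) (nat_lit 10) (nat_lit 5) (nat_lit 9) (nat_lit 4) (nat_lit 311) (nat_lit 269) (nat_lit 200))) (XT.nd (nat_lit 78) (nat_lit 0) (nat_lit 0) (XT.lf (nat_lit 0) (nat_lit 19010695822) (nat_lit 76) (nat_lit 7664555049) (nat_lit 152) (nat_lit 53260144301) (nat_lit 7) (nat_lit 5) (nat_lit 8) (nat_lit 5) (nat_lit 9) (nat_lit 4) (nat_lit 312) (nat_lit 269) (nat_lit 199)) (XT.lf (nat_lit 0) (nat_lit 37019966087)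 (nat_lit 152) (nat_lit 45185419101) (nat_lit 0) (nat_lit 3236408841) (nat_lit 7) (nat_lit 5) (nat_lit 9) (nat_lit 4) (nat_lit 7) (nat_lit 4) (nat_lit 313) (nat_lit 269) (nat_lit 198))))) (XT.nd (nat_lit 234) (nat_lit 76) (nat_lit 0) (XT.nd (nat_lit 78) (nat_lit 76) (nat_lit 0) (XT.lf (nat_lit 0) (nat_lit 48384141845) (nat_lit 152) (nat_lit 28399281605) (nat_lit 0) (nat_lit 14589940023) (nat_lit 7) (nat_lit 5) (nat_lit 9) (nat_lit 4) (nat_lit 7) (nat_lit 4) (nat_lit 314) (nat_lit 269) (nat_lit 197)) (XT.nd (nat_lit 78) (nat_lit 76) (nat_lit 0) (XT.lf (nat_lit 0) (nat_lit 60650788675) (nat_lit 152) (nat_lit 10282480722) (nat_lit 0) (nat_lit 26846730764) (nat_lit 7) (nat_lit 5) (nat_lit 9) (nat_lit 4) (nat_lit 7) (nat_lit 4) (nat_lit 315) (nat_lit 269) (nat_lit 196)) (XT.lf (nat_lit 0) (nat_lit 9760607485) (nat_lit 76) (nat_lit 64366733179) (nat_lit 76) (nat_lit 30553549259) (nat_lit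 6) (nat_lit 4) (nat_lit 7) (nat_lit 5) (nat_lit 7) (nat_lit 4) (nat_lit 316) (nat_lit 269) (nat_lit 195)))) (XT.nd (nat_lit 156) (nat_lit 76) (nat_lit 0) (XT.nd (nat_lit 78) (nat_lit 0) (nat_lit 0) (XT.lf (nat_lit 0) (nat_lit 31980881305) (nat_lit 76) (nat_lit 56976298915) (nat_lit 76) (nat_lit 23154664988) (nat_lit 6) (nat_lit 4) (nat_lit 7) (nat_lit 5) (nat_lit 7) (nat_lit 4) (nat_lit 317) (nat_lit 269) (nat_lit 194)) (XT.lf (nat_lit 0) (nat_lit 55968559222) (nat_lit 76) (nat_lit 48999312686) (nat_lit 76) (nat_lit 15169854678) (nat_lit 6) (nat_lit 4) (nat_lit 7) (nat_lit 5) (nat_lit 7) (nat_lit 4) (nat_lit 318) (nat_lit 269) (nat_lit 193))) (XT.nd (nat_lit 78) (nat_lit 76) (nat_lit 0) (XT.lf (nat_lit 0) (nat_lit 81865790438) (nat_lit 76) (nat_lit 40388503463) (nat_lit 76) (nat_lit 6551800935) (nat_lit 6) (nat_lit 4) (nat_lit 7) (nat_lit 5) (nat_lit 7) (nat_lit 4) (nat_lit 319) (nat_lit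 269) (nat_lit 192)) (XT.lf (nat_lit 0) (nat_lit 2612971727) (nat_lit 152) (nat_lit 28408429222) (nat_lit 76) (nat_lit 107141625022) (nat_lit 5) (nat_lit 5) (nat_lit 7) (nat_lit 5) (nat_lit 6) (nat_lit 4) (nat_lit 320) (nat_lit 269) (nat_lit 191)))))) (XT.nd (nat_lit 546) (nat_lit 76) (nat_lit 0) (XT.nd (nat_lit 234) (nat_lit 0) (nat_lit 0) (XT.nd (nat_lit 78) (nat_lit 76) (nat_lit 0) (XT.lf (nat_lit 0) (nat_lit 12152445583) (nat_lit 152) (nat_lit 8572534609) (nat_lit 76) (nat_lit 127530283375) (nat_lit 5) (nat_lit 5) (nat_lit 7) (nat_lit 5) (nat_lit 6) (nat_lit 4) (nat_lit 321) (nat_lit 269) (nat_lit 190)) (XT.nd (nat_lit 78) (nat_lit 0) (nat_lit 0) (XT.lf (nat_lit 0) (nat_lit 13518759554) (nat_lit 76) (nat_lit 9257265402) (nat_lit 152) (nat_lit 136353184081) (nat_lit 4) (nat_lit 5) (nat_lit 5) (nat_lit 5) (nat_lit 6) (nat_lit 4) (nat_lit 322) (nat_lit 269) (nat_lit 189)) (XT.lf (nat_lit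 0) (nat_lit 34561057685) (nat_lit 152) (nat_lit 133078531237) (nat_lit 0) (nat_lit 3208560189) (nat_lit 4) (nat_lit 5) (nat_lit 6) (nat_lit 4) (nat_lit 4) (nat_lit 4) (nat_lit 323) (nat_lit 269) (nat_lit 188)))) (XT.nd (nat_lit 156) (nat_lit 0) (nat_lit 0) (XT.nd (nat_lit 78) (nat_lit 0) (nat_lit 0) (XT.lf (nat_lit 0) (nat_lit 47525513188) (nat_lit 152) (nat_lit 119791715181) (nat_lit 0) (nat_lit 16168450417) (nat_lit 4) (nat_lit 5) (nat_lit 6) (nat_lit 4) (nat_lit 4) (nat_lit 4) (nat_lit 324) (nat_lit 269) (nat_lit 187)) (XT.lf (nat_lit 0) (nat_lit 61523580415) (nat_lit 152) (nat_lit 105448627171) (nat_lit 0) (nat_lit 30162290536) (nat_lit 4) (nat_lit 5) (nat_lit 6) (nat_lit 4) (nat_lit 4) (nat_lit 4) (nat_lit 325) (nat_lit 269) (nat_lit 186))) (XT.nd (nat_lit 78) (nat_lit 0) (nat_lit 0) (XT.lf (nat_lit 0) (nat_lit 76638210874) (nat_lit 152) (nat_lit 89964271131) (nat_lit 0) (nat_lit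 45273007007) (nat_lit 4) (nat_lit 5) (nat_lit 6) (nat_lit 4) (nat_lit 4) (nat_lit 4) (nat_lit 326) (nat_lit 269) (nat_lit 185)) (XT.lf (nat_lit 0) (nat_lit 92958972747) (nat_lit 152) (nat_lit 73246887913) (nat_lit 0) (nat_lit 61590144816) (nat_lit 4) (nat_lit 5) (nat_lit 6) (nat_lit 4) (nat_lit 4) (nat_lit 4) (nat_lit 327) (nat_lit 269) (nat_lit 184))))) (XT.nd (nat_lit 312) (nat_lit 0) (nat_lit 0) (XT.nd (nat_lit 156) (nat_lit 76) (nat_lit 0) (XT.nd (nat_lit 78) (nat_lit 0) (nat_lit 0) (XT.lf (nat_lit 0) (nat_lit 110582581659) (nat_lit 152) (nat_lit 55197411544) (nat_lit 0) (nat_lit 79210398113) (nat_lit 4) (nat_lit 5) (nat_lit 6) (nat_lit 4) (nat_lit 4) (nat_lit 4) (nat_lit 328) (nat_lit 269) (nat_lit 183)) (XT.lf (nat_lit 0) (nat_lit 129613473810) (nat_lit 152) (nat_lit 35708882162) (nat_lit 0) (nat_lit 98238183214) (nat_lit 4) (nat_lit 5) (nat_lit 6) (nat_lit 4) (nat_lit 4) (nat_lit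 4) (nat_lit 329) (nat_lit 269) (nat_lit 182))) (XT.nd (nat_lit 78) (nat_lit 76) (nat_lit 0) (XT.lf (nat_lit 0) (nat_lit 150164424859) (nat_lit 152) (nat_lit 14665812187) (nat_lit 0) (nat_lit 118786257365) (nat_lit 4) (nat_lit 5) (nat_lit 6) (nat_lit 4) (nat_lit 4) (nat_lit 4) (nat_lit 330) (nat_lit 269) (nat_lit 181)) (XT.lf (nat_lit 0) (nat_lit 8480738965) (nat_lit 76) (nat_lit 164080441229) (nat_lit 76) (nat_lit 132699609941) (nat_lit 3) (nat_lit 4) (nat_lit 4) (nat_lit 5) (nat_lit 4) (nat_lit 4) (nat_lit 331) (nat_lit 269) (nat_lit 180)))) (XT.nd (nat_lit 156) (nat_lit 0) (nat_lit 0) (XT.nd (nat_lit 78) (nat_lit 0) (nat_lit 0) (XT.lf (nat_lit 0) (nat_lit 34308973078) (nat_lit 76) (nat_lit 162839525288) (nat_lit 76) (nat_lit 131456227523) (nat_lit 3) (nat_lit 4) (nat_lit 4) (nat_lit 5) (nat_lit 4) (nat_lit 4) (nat_lit 332) (nat_lit 269) (nat_lit 179)) (XT.lf (nat_lit 0) (nat_lit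 62199670673) (nat_lit 76) (nat_lit 161501124943) (nat_lit 76) (nat_lit 130115543402) (nat_lit 3) (nat_lit 4) (nat_lit 4) (nat_lit 5) (nat_lit 4) (nat_lit 4) (nat_lit 333) (nat_lit 269) (nat_lit 178))) (XT.nd (nat_lit 78) (nat_lit 0) (nat_lit 0) (XT.lf (nat_lit 0) (nat_lit 92318109958) (nat_lit 76) (nat_lit 160057308931) (nat_lit 76) (nat_lit 128669612784) (nat_lit 3) (nat_lit 4) (nat_lit 4) (nat_lit 5) (nat_lit 4) (nat_lit 4) (nat_lit 334) (nat_lit 269) (nat_lit 177)) (XT.lf (nat_lit 0) (nat_lit 124842770574) (nat_lit 76) (nat_lit 158499521306) (nat_lit 76) (nat_lit 127109867191) (nat_lit 3) (nat_lit 4) (nat_lit 4) (nat_lit 5) (nat_lit 4) (nat_lit 4) (nat_lit 335) (nat_lit 269) (nat_lit 176))))))))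
noncomputable def xc66 : XT := (XT.nd (nat_lit 35490) (nat_lit 0) (nat_lit 1140) (XT.nd (nat_lit 1092) (nat_lit 152) (nat_lit 0) (XT.nd (nat_lit 546) (nat_lit 0) (nat_lit 0) (XT.nd (nat_lit 234) (nat_lit 0) (nat_lit 0) (XT.nd (nat_lit 78) (nat_lit 0) (nat_lit 0) (XT.lf (nat_lit 0) (nat_lit 159966391249) (nat_lit 76) (nat_lit 156818530735) (nat_lit 76) (nat_lit 125427063686) (nat_lit 3) (nat_lit 4) (nat_lit 4) (nat_lit 5) (nat_lit 4) (nat_lit 4) (nat_lit 336) (nat_lit 269) (nat_lit 175)) (XT.nd (nat_lit 78) (nat_lit 0) (nat_lit 0) (XT.lf (nat_lit 0) (nat_lit 197897111960) (nat_lit 76) (nat_lit 155004375792) (nat_lit 76) (nat_lit 123611230100) (nat_lit 3) (nat_lit 4) (nat_lit 4) (nat_lit 5) (nat_lit 4) (nat_lit 4) (nat_lit 337) (nat_lit 269) (nat_lit 174)) (XT.lf (nat_lit 0) (nat_lit 238859707345) (nat_lit 76) (nat_lit 153046305928) (nat_lit 76) (nat_lit 121651605937) (nat_lit 3) (nat_lit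 4) (nat_lit 4) (nat_lit 5) (nat_lit 4) (nat_lit 4) (nat_lit 338) (nat_lit 269) (nat_lit 173)))) (XT.nd (nat_lit 156) (nat_lit 0) (nat_lit 0) (XT.nd (nat_lit 78) (nat_lit 0) (nat_lit 0) (XT.lf (nat_lit 0) (nat_lit 283096918713) (nat_lit 76) (nat_lit 150932717767) (nat_lit 76) (nat_lit 119536578611) (nat_lit 3) (nat_lit 4) (nat_lit 4) (nat_lit 5) (nat_lit 4) (nat_lit 4) (nat_lit 339) (nat_lit 269) (nat_lit 172)) (XT.lf (nat_lit 0) (nat_lit 330870892499) (nat_lit 76) (nat_lit 148651086342) (nat_lit 76) (nat_lit 117253614625) (nat_lit 3) (nat_lit 4) (nat_lit 4) (nat_lit 5) (nat_lit 4) (nat_lit 4) (nat_lit 340) (nat_lit 269) (nat_lit 171))) (XT.nd (nat_lit 78) (nat_lit 0) (nat_lit 0) (XT.lf (nat_lit 0) (nat_lit 382464733735) (nat_lit 76) (nat_lit 146187890874) (nat_lit 76) (nat_lit 114789185305) (nat_lit 3) (nat_lit 4) (nat_lit 4) (nat_lit 5) (nat_lit 4) (nat_lit 4) (nat_lit 341) (nat_lit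 269) (nat_lit 170)) (XT.lf (nat_lit 0) (nat_lit 438184183702) (nat_lit 76) (nat_lit 143528534649) (nat_lit 76) (nat_lit 112128686624) (nat_lit 3) (nat_lit 4) (nat_lit 4) (nat_lit 5) (nat_lit 4) (nat_lit 4) (nat_lit 342) (nat_lit 269) (nat_lit 169))))) (XT.nd (nat_lit 234) (nat_lit 0) (nat_lit 0) (XT.nd (nat_lit 78) (nat_lit 0) (nat_lit 0) (XT.lf (nat_lit 0) (nat_lit 498359431732) (nat_lit 76) (nat_lit 140657258520) (nat_lit 76) (nat_lit 109256352665) (nat_lit 3) (nat_lit 4) (nat_lit 4) (nat_lit 5) (nat_lit 4) (nat_lit 4) (nat_lit 343) (nat_lit 269) (nat_lit 168)) (XT.nd (nat_lit 78) (nat_lit 0) (nat_lit 0) (XT.lf (nat_lit 0) (nat_lit 563347071889) (nat_lit 76) (nat_lit 137557047516) (nat_lit 76) (nat_lit 106155162190) (nat_lit 3) (nat_lit 4) (nat_lit 4) (nat_lit 5) (nat_lit 4) (nat_lit 4) (nat_lit 344) (nat_lit 269) (nat_lit 167)) (XT.lf (nat_lit 0) (nat_lit 633532216113) (nat_lit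 76) (nat_lit 134209530017) (nat_lit 76) (nat_lit 102806737772) (nat_lit 3) (nat_lit 4) (nat_lit 4) (nat_lit 5) (nat_lit 4) (nat_lit 4) (nat_lit 345) (nat_lit 269) (nat_lit 166)))) (XT.nd (nat_lit 156) (nat_lit 0) (nat_lit 0) (XT.nd (nat_lit 78) (nat_lit 0) (nat_lit 0) (XT.lf (nat_lit 0) (nat_lit 709330776371) (nat_lit 76) (nat_lit 130594868882) (nat_lit 76) (nat_lit 99191236898) (nat_lit 3) (nat_lit 4) (nat_lit 4) (nat_lit 5) (nat_lit 4) (nat_lit 4) (nat_lit 346) (nat_lit 269) (nat_lit 165)) (XT.lf (nat_lit 0) (nat_lit 791191929316) (nat_lit 76) (nat_lit 126691643897) (nat_lit 76) (nat_lit 95287234377) (nat_lit 3) (nat_lit 4) (nat_lit 4) (nat_lit 5) (nat_lit 4) (nat_lit 4) (nat_lit 347) (nat_lit 269) (nat_lit 164))) (XT.nd (nat_lit 78) (nat_lit 0) (nat_lit 0) (XT.lf (nat_lit 0) (nat_lit 879600778076) (nat_lit 76) (nat_lit 122476724840) (nat_lit 76) (nat_lit 91071595379) (nat_lit 3)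 (nat_lit 4) (nat_lit 4) (nat_lit 5) (nat_lit 4) (nat_lit 4) (nat_lit 348) (nat_lit 269) (nat_lit 163)) (XT.lf (nat_lit 0) (nat_lit 975081226941) (nat_lit 76) (nat_lit 117925134412) (nat_lit 76) (nat_lit 86519338339) (nat_lit 3) (nat_lit 4) (nat_lit 4) (nat_lit 5) (nat_lit 4) (nat_lit 4) (nat_lit 349) (nat_lit 269) (nat_lit 162)))))) (XT.nd (nat_lit 546) (nat_lit 152) (nat_lit 0) (XT.nd (nat_lit 234) (nat_lit 0) (nat_lit 0) (XT.nd (nat_lit 78) (nat_lit 0) (nat_lit 0) (XT.lf (nat_lit 0) (nat_lit 1078199085978) (nat_lit 76) (nat_lit 113009900227) (nat_lit 76) (nat_lit 81603486920) (nat_lit 3) (nat_lit 4) (nat_lit 4) (nat_lit 5) (nat_lit 4) (nat_lit 4) (nat_lit 350) (nat_lit 269) (nat_lit 161)) (XT.nd (nat_lit 78) (nat_lit 0) (nat_lit 0) (XT.lf (nat_lit 0) (nat_lit 1189565423981) (nat_lit 76) (nat_lit 107701894970) (nat_lit 76) (nat_lit 76294910151) (nat_lit 3) (nat_lit 4) (nat_lit 4)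 (nat_lit 5) (nat_lit 4) (nat_lit 4) (nat_lit 351) (nat_lit 269) (nat_lit 160)) (XT.lf (nat_lit 0) (nat_lit 1309840189620) (nat_lit 76) (nat_lit 101969663795) (nat_lit 76) (nat_lit 70562149798) (nat_lit 3) (nat_lit 4) (nat_lit 4) (nat_lit 5) (nat_lit 4) (nat_lit 4) (nat_lit 352) (nat_lit 269) (nat_lit 159)))) (XT.nd (nat_lit 156) (nat_lit 0) (nat_lit 0) (XT.nd (nat_lit 78) (nat_lit 0) (nat_lit 0) (XT.lf (nat_lit 0) (nat_lit 1439736122246) (nat_lit 76) (nat_lit 95779237925) (nat_lit 76) (nat_lit 64371233948) (nat_lit 3) (nat_lit 4) (nat_lit 4) (nat_lit 5) (nat_lit 4) (nat_lit 4) (nat_lit 353) (nat_lit 269) (nat_lit 158)) (XT.lf (nat_lit 0) (nat_lit 1580022975535) (nat_lit 76) (nat_lit 89093933355) (nat_lit 76) (nat_lit 57685475693) (nat_lit 3) (nat_lit 4) (nat_lit 4) (nat_lit 5) (nat_lit 4) (nat_lit 4) (nat_lit 354) (nat_lit 269) (nat_lit 157))) (XT.nd (nat_lit 78) (nat_lit 0) (nat_lit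 0) (XT.lf (nat_lit 0) (nat_lit 1731532078987) (nat_lit 76) (nat_lit 81874133465) (nat_lit 76) (nat_lit 50465255725) (nat_lit 3) (nat_lit 4) (nat_lit 4) (nat_lit 5) (nat_lit 4) (nat_lit 4) (nat_lit 355) (nat_lit 269) (nat_lit 156)) (XT.lf (nat_lit 0) (nat_lit 1895161264327) (nat_lit 76) (nat_lit 74077054256) (nat_lit 76) (nat_lit 42667787554) (nat_lit 3) (nat_lit 4) (nat_lit 4) (nat_lit 5) (nat_lit 4) (nat_lit 4) (nat_lit 356) (nat_lit 269) (nat_lit 155))))) (XT.nd (nat_lit 234) (nat_lit 152) (nat_lit 0) (XT.nd (nat_lit 78) (nat_lit 0) (nat_lit 0) (XT.lf (nat_lit 0) (nat_lit 2071880185986) (nat_lit 76) (nat_lit 65656490814) (nat_lit 76) (nat_lit 34246863962) (nat_lit 3) (nat_lit 4) (nat_lit 4) (nat_lit 5) (nat_lit 4) (nat_lit 4) (nat_lit 357) (nat_lit 269) (nat_lit 154)) (XT.nd (nat_lit 78) (nat_lit 0) (nat_lit 0) (XT.lf (nat_lit 0) (nat_lit 2262736067205) (nat_lit 76) (nat_lit 56562543504)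 (nat_lit 76) (nat_lit 25152583180) (nat_lit 3) (nat_lit 4) (nat_lit 4) (nat_lit 5) (nat_lit 4) (nat_lit 4) (nat_lit 358) (nat_lit 269) (nat_lit 153)) (XT.lf (nat_lit 0) (nat_lit 2468859905796) (nat_lit 76) (nat_lit 46741322267) (nat_lit 76) (nat_lit 15331053173) (nat_lit 3) (nat_lit 4) (nat_lit 4) (nat_lit 5) (nat_lit 4) (nat_lit 4) (nat_lit 359) (nat_lit 269) (nat_lit 152)))) (XT.nd (nat_lit 156) (nat_lit 76) (nat_lit 0) (XT.nd (nat_lit 78) (nat_lit 76) (nat_lit 0) (XT.lf (nat_lit 0) (nat_lit 2691473176360) (nat_lit 76) (nat_lit 36134627275) (nat_lit 76) (nat_lit 4724072282) (nat_lit 3) (nat_lit 4) (nat_lit 4) (nat_lit 5) (nat_lit 4) (nat_lit 4) (nat_lit 360) (nat_lit 269) (nat_lit 151)) (XT.lf (nat_lit 0) (nat_lit 6394493005) (nat_lit 152) (nat_lit 18110274261) (nat_lit 76) (nat_lit 2925325738871) (nat_lit 2) (nat_lit 5) (nat_lit 4) (nat_lit 5) (nat_lit 3) (nat_lit 4) (nat_lit 361)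 (nat_lit 269) (nat_lit 150))) (XT.nd (nat_lit 78) (nat_lit 0) (nat_lit 0) (XT.lf (nat_lit 0) (nat_lit 6668487454) (nat_lit 76) (nat_lit 11638989603) (nat_lit 152) (nat_lit 3166398921172) (nat_lit 1) (nat_lit 5) (nat_lit 2) (nat_lit 5) (nat_lit 3) (nat_lit 4) (nat_lit 362) (nat_lit 269) (nat_lit 149)) (XT.lf (nat_lit 0) (nat_lit 31735567121) (nat_lit 152) (nat_lit 3403940791674) (nat_lit 0) (nat_lit 2651037694) (nat_lit 1) (nat_lit 5) (nat_lit 3) (nat_lit 4) (nat_lit 1) (nat_lit 4) (nat_lit 363) (nat_lit 269) (nat_lit 148))))))) (XT.nd (nat_lit 1092) (nat_lit 1064) (nat_lit 0) (XT.nd (nat_lit 546) (nat_lit 912) (nat_lit 0) (XT.nd (nat_lit 234) (nat_lit 380) (nat_lit 0) (XT.nd (nat_lit 78) (nat_lit 0) (nat_lit 0) (XT.lf (nat_lit 0) (nat_lit 1730801383) (nat_lit 0) (nat_lit 1730801383) (nat_lit 380) (nat_lit 1235038155) (nat_lit 47) (nat_lit 5) (nat_lit 47) (nat_lit 3) (nat_lit 52) (nat_lit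 3) (nat_lit 270) (nat_lit 270) (nat_lit 240)) (XT.nd (nat_lit 78) (nat_lit 0) (nat_lit 0) (XT.lf (nat_lit 0) (nat_lit 7933031192) (nat_lit 380) (nat_lit 1755102525) (nat_lit 456) (nat_lit 18770730) (nat_lit 47) (nat_lit 5) (nat_lit 52) (nat_lit 3) (nat_lit 53) (nat_lit 5) (nat_lit 271) (nat_lit 270) (nat_lit 239)) (XT.lf (nat_lit 76) (nat_lit 2760026137) (nat_lit 0) (nat_lit 6347510931) (nat_lit 456) (nat_lit 931716111) (nat_lit 48) (nat_lit 5) (nat_lit 47) (nat_lit 5) (nat_lit 53) (nat_lit 5) (nat_lit 272) (nat_lit 270) (nat_lit 238)))) (XT.nd (nat_lit 156) (nat_lit 0) (nat_lit 0) (XT.nd (nat_lit 78) (nat_lit 380) (nat_lit 0) (XT.lf (nat_lit 76) (nat_lit 7693556477) (nat_lit 0) (nat_lit 2662375869) (nat_lit 456) (nat_lit 44185238) (nat_lit 48) (nat_lit 5) (nat_lit 47) (nat_lit 5) (nat_lit 53) (nat_lit 5) (nat_lit 273) (nat_lit 270) (nat_lit 237)) (XT.lf (nat_lit 0) (nat_lit 892733421)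 (nat_lit 456) (nat_lit 8542517085) (nat_lit 532) (nat_lit 1351187589) (nat_lit 42) (nat_lit 5) (nat_lit 48) (nat_lit 5) (nat_lit 49) (nat_lit 5) (nat_lit 274) (nat_lit 270) (nat_lit 236))) (XT.nd (nat_lit 78) (nat_lit 0) (nat_lit 0) (XT.lf (nat_lit 0) (nat_lit 1986615008) (nat_lit 456) (nat_lit 3573274259) (nat_lit 532) (nat_lit 5637187123) (nat_lit 42) (nat_lit 5) (nat_lit 48) (nat_lit 5) (nat_lit 49) (nat_lit 5) (nat_lit 275) (nat_lit 270) (nat_lit 235)) (XT.lf (nat_lit 76) (nat_lit 1841483890) (nat_lit 0) (nat_lit 1314625455) (nat_lit 532) (nat_lit 8485644970) (nat_lit 43) (nat_lit 5) (nat_lit 42) (nat_lit 5) (nat_lit 49) (nat_lit 5) (nat_lit 276) (nat_lit 270) (nat_lit 234))))) (XT.nd (nat_lit 234) (nat_lit 532) (nat_lit 0) (XT.nd (nat_lit 78) (nat_lit 456) (nat_lit 0) (XT.lf (nat_lit 0) (nat_lit 4545233284) (nat_lit 456) (nat_lit 4350470238) (nat_lit 76) (nat_lit 3216436556) (nat_lit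 43) (nat_lit 5) (nat_lit 49) (nat_lit 5) (nat_lit 44) (nat_lit 5) (nat_lit 277) (nat_lit 270) (nat_lit 233)) (XT.nd (nat_lit 78) (nat_lit 0) (nat_lit 0) (XT.lf (nat_lit 0) (nat_lit 1533694818) (nat_lit 456) (nat_lit 4533919137) (nat_lit 532) (nat_lit 6550975570) (nat_lit 37) (nat_lit 5) (nat_lit 43) (nat_lit 5) (nat_lit 44) (nat_lit 5) (nat_lit 278) (nat_lit 270) (nat_lit 232)) (XT.lf (nat_lit 0) (nat_lit 7791836362) (nat_lit 532) (nat_lit 5074419787) (nat_lit 76) (nat_lit 293082612) (nat_lit 37) (nat_lit 5) (nat_lit 44) (nat_lit 5) (nat_lit 38) (nat_lit 5) (nat_lit 279) (nat_lit 270) (nat_lit 231)))) (XT.nd (nat_lit 156) (nat_lit 304) (nat_lit 0) (XT.nd (nat_lit 78) (nat_lit 0) (nat_lit 0) (XT.lf (nat_lit 0) (nat_lit 1321682726) (nat_lit 228) (nat_lit 8439049543) (nat_lit 304) (nat_lit 3974250825) (nat_lit 34) (nat_lit 5) (nat_lit 37) (nat_lit 5) (nat_lit 38) (nat_lit 5) (nat_lit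 280) (nat_lit 270) (nat_lit 230)) (XT.lf (nat_lit 0) (nat_lit 8475600841) (nat_lit 228) (nat_lit 3509618038) (nat_lit 304) (nat_lit 2363774896) (nat_lit 34) (nat_lit 5) (nat_lit 37) (nat_lit 5) (nat_lit 38) (nat_lit 5) (nat_lit 281) (nat_lit 270) (nat_lit 229))) (XT.nd (nat_lit 78) (nat_lit 76) (nat_lit 0) (XT.lf (nat_lit 0) (nat_lit 1161756445) (nat_lit 228) (nat_lit 13259786653) (nat_lit 304) (nat_lit 588021106) (nat_lit 31) (nat_lit 5) (nat_lit 34) (nat_lit 5) (nat_lit 35) (nat_lit 5) (nat_lit 282) (nat_lit 270) (nat_lit 228)) (XT.lf (nat_lit 0) (nat_lit 1482231725) (nat_lit 304) (nat_lit 6787137311) (nat_lit 76) (nat_lit 7433663785) (nat_lit 30) (nat_lit 5) (nat_lit 34) (nat_lit 5) (nat_lit 31) (nat_lit 5) (nat_lit 283) (nat_lit 270) (nat_lit 227)))))) (XT.nd (nat_lit 546) (nat_lit 456) (nat_lit 0) (XT.nd (nat_lit 234) (nat_lit 228) (nat_lit 0) (XT.nd (nat_lit 78) (nat_lit 152)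 (nat_lit 0) (XT.lf (nat_lit 0) (nat_lit 824121436) (nat_lit 228) (nat_lit 2847814099) (nat_lit 304) (nat_lit 12780092026) (nat_lit 27) (nat_lit 5) (nat_lit 30) (nat_lit 5) (nat_lit 31) (nat_lit 5) (nat_lit 284) (nat_lit 270) (nat_lit 226)) (XT.nd (nat_lit 78) (nat_lit 152) (nat_lit 0) (XT.lf (nat_lit 0) (nat_lit 6266750810) (nat_lit 304) (nat_lit 7934736082) (nat_lit 76) (nat_lit 3041169835) (nat_lit 27) (nat_lit 5) (nat_lit 31) (nat_lit 5) (nat_lit 28) (nat_lit 5) (nat_lit 285) (nat_lit 270) (nat_lit 225)) (XT.lf (nat_lit 0) (nat_lit 275007083) (nat_lit 152) (nat_lit 8844369131) (nat_lit 228) (nat_lit 8973243556) (nat_lit 25) (nat_lit 5) (nat_lit 27) (nat_lit 5) (nat_lit 28) (nat_lit 5) (nat_lit 286) (nat_lit 270) (nat_lit 224)))) (XT.nd (nat_lit 156) (nat_lit 228) (nat_lit 0) (XT.nd (nat_lit 78) (nat_lit 0) (nat_lit 0) (XT.lf (nat_lit 0) (nat_lit 9555095864) (nat_lit 152) (nat_lit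 2833049641) (nat_lit 228) (nat_lit 6607493655) (nat_lit 25) (nat_lit 5) (nat_lit 27) (nat_lit 5) (nat_lit 28) (nat_lit 5) (nat_lit 287) (nat_lit 270) (nat_lit 223)) (XT.lf (nat_lit 0) (nat_lit 15979359889) (nat_lit 228) (nat_lit 518252352) (nat_lit 76) (nat_lit 3468499429) (nat_lit 25) (nat_lit 5) (nat_lit 28) (nat_lit 5) (nat_lit 26) (nat_lit 5) (nat_lit 288) (nat_lit 270) (nat_lit 222))) (XT.nd (nat_lit 78) (nat_lit 76) (nat_lit 0) (XT.lf (nat_lit 0) (nat_lit 9484484080) (nat_lit 152) (nat_lit 10650019831) (nat_lit 228) (nat_lit 857668071) (nat_lit 23) (nat_lit 5) (nat_lit 25) (nat_lit 5) (nat_lit 26) (nat_lit 5) (nat_lit 289) (nat_lit 270) (nat_lit 221)) (XT.lf (nat_lit 0) (nat_lit 2385437124) (nat_lit 228) (nat_lit 1877994618) (nat_lit 76) (nat_lit 17832915240) (nat_lit 22) (nat_lit 5) (nat_lit 25) (nat_lit 5) (nat_lit 23) (nat_lit 5) (nat_lit 290) (nat_lit 270) (nat_lit 220)))))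 (XT.nd (nat_lit 234) (nat_lit 152) (nat_lit 0) (XT.nd (nat_lit 78) (nat_lit 152) (nat_lit 0) (XT.lf (nat_lit 0) (nat_lit 6102432892) (nat_lit 228) (nat_lit 14427538919) (nat_lit 76) (nat_lit 2736303707) (nat_lit 20) (nat_lit 5) (nat_lit 23) (nat_lit 5) (nat_lit 21) (nat_lit 5) (nat_lit 291) (nat_lit 270) (nat_lit 219)) (XT.nd (nat_lit 78) (nat_lit 152) (nat_lit 0) (XT.lf (nat_lit 0) (nat_lit 10258056517) (nat_lit 228) (nat_lit 4151063884) (nat_lit 76) (nat_lit 10109435725) (nat_lit 20) (nat_lit 5) (nat_lit 23) (nat_lit 5) (nat_lit 21) (nat_lit 5) (nat_lit 292) (nat_lit 270) (nat_lit 218)) (XT.lf (nat_lit 0) (nat_lit 7281296204) (nat_lit 152) (nat_lit 7619438344) (nat_lit 228) (nat_lit 10957971131) (nat_lit 18) (nat_lit 5) (nat_lit 20) (nat_lit 5) (nat_lit 21) (nat_lit 5) (nat_lit 293) (nat_lit 270) (nat_lit 217)))) (XT.nd (nat_lit 156) (nat_lit 76) (nat_lit 0) (XT.nd (nat_lit 78) (nat_lit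 76) (nat_lit 0) (XT.lf (nat_lit 0) (nat_lit 19834618374) (nat_lit 152) (nat_lit 174000060) (nat_lit 228) (nat_lit 7289996225) (nat_lit 18) (nat_lit 5) (nat_lit 20) (nat_lit 5) (nat_lit 21) (nat_lit 5) (nat_lit 294) (nat_lit 270) (nat_lit 216)) (XT.lf (nat_lit 0) (nat_lit 4548011154) (nat_lit 76) (nat_lit 21257236230) (nat_lit 152) (nat_lit 3026106857) (nat_lit 17) (nat_lit 5) (nat_lit 18) (nat_lit 5) (nat_lit 19) (nat_lit 4) (nat_lit 295) (nat_lit 270) (nat_lit 215))) (XT.nd (nat_lit 78) (nat_lit 0) (nat_lit 0) (XT.lf (nat_lit 0) (nat_lit 1695531618) (nat_lit 152) (nat_lit 12601775596) (nat_lit 76) (nat_lit 16170758652) (nat_lit 16) (nat_lit 5) (nat_lit 18) (nat_lit 5) (nat_lit 17) (nat_lit 5) (nat_lit 296) (nat_lit 270) (nat_lit 214)) (XT.lf (nat_lit 0) (nat_lit 6614488259) (nat_lit 152) (nat_lit 91189855) (nat_lit 76) (nat_lit 25525139592) (nat_lit 16) (nat_lit 5) (nat_lit 18) (nat_lit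 5) (nat_lit 17) (nat_lit 5) (nat_lit 297) (nat_lit 270) (nat_lit 213))))))))
noncomputable def xc67 : XT := (XT.nd (nat_lit 2184) (nat_lit 76) (nat_lit 0) (XT.nd (nat_lit 1092) (nat_lit 304) (nat_lit 0) (XT.nd (nat_lit 546) (nat_lit 228) (nat_lit 0) (XT.nd (nat_lit 234) (nat_lit 152) (nat_lit 0) (XT.nd (nat_lit 78) (nat_lit 76) (nat_lit 0) (XT.lf (nat_lit 0) (nat_lit 12294912337) (nat_lit 228) (nat_lit 20052544514) (nat_lit 76) (nat_lit 1757731336) (nat_lit 14) (nat_lit 5) (nat_lit 17) (nat_lit 5) (nat_lit 15) (nat_lit 4) (nat_lit 298) (nat_lit 270) (nat_lit 212)) (XT.nd (nat_lit 78) (nat_lit 76) (nat_lit 0) (XT.lf (nat_lit 0) (nat_lit 18591186779) (nat_lit 228) (nat_lit 6995678799) (nat_lit 76) (nat_lit 10529761424) (nat_lit 14) (nat_lit 5) (nat_lit 17) (nat_lit 5) (nat_lit 15) (nat_lit 4) (nat_lit 299) (nat_lit 270) (nat_lit 211)) (XT.lf (nat_lit 0) (nat_lit 7455250527) (nat_lit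 76) (nat_lit 18101030979) (nat_lit 152) (nat_lit 12719519586) (nat_lit 13) (nat_lit 5) (nat_lit 14) (nat_lit 5) (nat_lit 15) (nat_lit 4) (nat_lit 300) (nat_lit 270) (nat_lit 210)))) (XT.nd (nat_lit 156) (nat_lit 152) (nat_lit 0) (XT.nd (nat_lit 78) (nat_lit 0) (nat_lit 0) (XT.lf (nat_lit 0) (nat_lit 23437270282) (nat_lit 76) (nat_lit 9818908412) (nat_lit 152) (nat_lit 7337350268) (nat_lit 13) (nat_lit 5) (nat_lit 14) (nat_lit 5) (nat_lit 15) (nat_lit 4) (nat_lit 301) (nat_lit 270) (nat_lit 209)) (XT.lf (nat_lit 0) (nat_lit 40676708682) (nat_lit 76) (nat_lit 882692887) (nat_lit 152) (nat_lit 1538312187) (nat_lit 13) (nat_lit 5) (nat_lit 14) (nat_lit 5) (nat_lit 15) (nat_lit 4) (nat_lit 302) (nat_lit 270) (nat_lit 208))) (XT.nd (nat_lit 78) (nat_lit 0) (nat_lit 0) (XT.lf (nat_lit 0) (nat_lit 5036875829) (nat_lit 152) (nat_lit 31926812926) (nat_lit 76) (nat_lit 8785590292) (nat_lit 11)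 (nat_lit 5) (nat_lit 13) (nat_lit 5) (nat_lit 12) (nat_lit 4) (nat_lit 303) (nat_lit 270) (nat_lit 207)) (XT.lf (nat_lit 0) (nat_lit 12133980455) (nat_lit 152) (nat_lit 17189654613) (nat_lit 76) (nat_lit 19279837342) (nat_lit 11) (nat_lit 5) (nat_lit 13) (nat_lit 5) (nat_lit 12) (nat_lit 4) (nat_lit 304) (nat_lit 270) (nat_lit 206))))) (XT.nd (nat_lit 234) (nat_lit 152) (nat_lit 0) (XT.nd (nat_lit 78) (nat_lit 76) (nat_lit 0) (XT.lf (nat_lit 0) (nat_lit 19787899177) (nat_lit 152) (nat_lit 1292484512) (nat_lit 76) (nat_lit 30606512570) (nat_lit 11) (nat_lit 5) (nat_lit 13) (nat_lit 5) (nat_lit 12) (nat_lit 4) (nat_lit 305) (nat_lit 270) (nat_lit 205)) (XT.nd (nat_lit 78) (nat_lit 0) (nat_lit 0) (XT.lf (nat_lit 0) (nat_lit 16694004549) (nat_lit 76) (nat_lit 11751475213) (nat_lit 152) (nat_lit 26540223678) (nat_lit 10) (nat_lit 5) (nat_lit 11) (nat_lit 5) (nat_lit 12) (nat_lit 4) (nat_lit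 306) (nat_lit 270) (nat_lit 204)) (XT.lf (nat_lit 0) (nat_lit 36175805574) (nat_lit 76) (nat_lit 1645396973) (nat_lit 152) (nat_lit 20725185801) (nat_lit 10) (nat_lit 5) (nat_lit 11) (nat_lit 5) (nat_lit 12) (nat_lit 4) (nat_lit 307) (nat_lit 270) (nat_lit 203)))) (XT.nd (nat_lit 156) (nat_lit 76) (nat_lit 0) (XT.nd (nat_lit 78) (nat_lit 76) (nat_lit 0) (XT.lf (nat_lit 0) (nat_lit 48160667188) (nat_lit 152) (nat_lit 5415123646) (nat_lit 0) (nat_lit 8799057318) (nat_lit 10) (nat_lit 5) (nat_lit 12) (nat_lit 4) (nat_lit 10) (nat_lit 4) (nat_lit 308) (nat_lit 270) (nat_lit 202)) (XT.lf (nat_lit 0) (nat_lit 13514898499) (nat_lit 76) (nat_lit 46171606468) (nat_lit 76) (nat_lit 6794356224) (nat_lit 9) (nat_lit 4) (nat_lit 10) (nat_lit 5) (nat_lit 10) (nat_lit 4) (nat_lit 309) (nat_lit 270) (nat_lit 201))) (XT.nd (nat_lit 78) (nat_lit 0) (nat_lit 0) (XT.lf (nat_lit 0) (nat_lit 1301472156)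 (nat_lit 152) (nat_lit 36684669985) (nat_lit 76) (nat_lit 32915407460) (nat_lit 8) (nat_lit 5) (nat_lit 10) (nat_lit 5) (nat_lit 9) (nat_lit 4) (nat_lit 310) (nat_lit 270) (nat_lit 200)) (XT.lf (nat_lit 0) (nat_lit 9670020037) (nat_lit 152) (nat_lit 19291499494) (nat_lit 76) (nat_lit 46700896315) (nat_lit 8) (nat_lit 5) (nat_lit 10) (nat_lit 5) (nat_lit 9) (nat_lit 4) (nat_lit 311) (nat_lit 270) (nat_lit 199)))))) (XT.nd (nat_lit 546) (nat_lit 152) (nat_lit 0) (XT.nd (nat_lit 234) (nat_lit 76) (nat_lit 0) (XT.nd (nat_lit 78) (nat_lit 76) (nat_lit 0) (XT.lf (nat_lit 0) (nat_lit 18700760027) (nat_lit 152) (nat_lit 519976148) (nat_lit 76) (nat_lit 61584008641) (nat_lit 8) (nat_lit 5) (nat_lit 10) (nat_lit 5) (nat_lit 9) (nat_lit 4) (nat_lit 312) (nat_lit 270) (nat_lit 198)) (XT.nd (nat_lit 78) (nat_lit 0) (nat_lit 0) (XT.lf (nat_lit 0) (nat_lit 20780672089) (nat_lit 76) (nat_lit 8166311197)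 (nat_lit 152) (nat_lit 57372044236) (nat_lit 7) (nat_lit 5) (nat_lit 8) (nat_lit 5) (nat_lit 9) (nat_lit 4) (nat_lit 313) (nat_lit 270) (nat_lit 197)) (XT.lf (nat_lit 0) (nat_lit 40111555704) (nat_lit 152) (nat_lit 48561696617) (nat_lit 0) (nat_lit 3593317071) (nat_lit 7) (nat_lit 5) (nat_lit 9) (nat_lit 4) (nat_lit 7) (nat_lit 4) (nat_lit 314) (nat_lit 270) (nat_lit 196)))) (XT.nd (nat_lit 156) (nat_lit 76) (nat_lit 0) (XT.nd (nat_lit 78) (nat_lit 0) (nat_lit 0) (XT.lf (nat_lit 0) (nat_lit 52375236460) (nat_lit 152) (nat_lit 30450338937) (nat_lit 0) (nat_lit 15847871820) (nat_lit 7) (nat_lit 5) (nat_lit 9) (nat_lit 4) (nat_lit 7) (nat_lit 4) (nat_lit 315) (nat_lit 270) (nat_lit 195)) (XT.lf (nat_lit 0) (nat_lit 65614299240) (nat_lit 152) (nat_lit 10900555850) (nat_lit 0) (nat_lit 29078484591) (nat_lit 7) (nat_lit 5) (nat_lit 9) (nat_lit 4) (nat_lit 7) (nat_lit 4) (nat_lit 316) (nat_lit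 270) (nat_lit 194))) (XT.nd (nat_lit 78) (nat_lit 0) (nat_lit 0) (XT.lf (nat_lit 0) (nat_lit 10740801608) (nat_lit 76) (nat_lit 69424712675) (nat_lit 76) (nat_lit 32881073946) (nat_lit 6) (nat_lit 4) (nat_lit 7) (nat_lit 5) (nat_lit 7) (nat_lit 4) (nat_lit 317) (nat_lit 270) (nat_lit 193)) (XT.lf (nat_lit 0) (nat_lit 34723930999) (nat_lit 76) (nat_lit 61449811016) (nat_lit 76) (nat_lit 24898927767) (nat_lit 6) (nat_lit 4) (nat_lit 7) (nat_lit 5) (nat_lit 7) (nat_lit 4) (nat_lit 318) (nat_lit 270) (nat_lit 192))))) (XT.nd (nat_lit 234) (nat_lit 76) (nat_lit 0) (XT.nd (nat_lit 78) (nat_lit 76) (nat_lit 0) (XT.lf (nat_lit 0) (nat_lit 60616950616) (nat_lit 76) (nat_lit 52840931949) (nat_lit 76) (nat_lit 16283340811) (nat_lit 6) (nat_lit 4) (nat_lit 7) (nat_lit 5) (nat_lit 7) (nat_lit 4) (nat_lit 319) (nat_lit 270) (nat_lit 191)) (XT.nd (nat_lit 78) (nat_lit 76) (nat_lit 0) (XT.lf (nat_lit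 0) (nat_lit 88573300577) (nat_lit 76) (nat_lit 43547059895) (nat_lit 76) (nat_lit 6983257750) (nat_lit 6) (nat_lit 4) (nat_lit 7) (nat_lit 5) (nat_lit 7) (nat_lit 4) (nat_lit 320) (nat_lit 270) (nat_lit 190)) (XT.lf (nat_lit 0) (nat_lit 2903537862) (nat_lit 152) (nat_lit 30530194324) (nat_lit 76) (nat_lit 115775722407) (nat_lit 5) (nat_lit 5) (nat_lit 7) (nat_lit 5) (nat_lit 6) (nat_lit 4) (nat_lit 321) (nat_lit 270) (nat_lit 189)))) (XT.nd (nat_lit 156) (nat_lit 0) (nat_lit 0) (XT.nd (nat_lit 78) (nat_lit 76) (nat_lit 0) (XT.lf (nat_lit 0) (nat_lit 13200130486) (nat_lit 152) (nat_lit 9118606604) (nat_lit 76) (nat_lit 137790823993) (nat_lit 5) (nat_lit 5) (nat_lit 7) (nat_lit 5) (nat_lit 6) (nat_lit 4) (nat_lit 322) (nat_lit 270) (nat_lit 188)) (XT.lf (nat_lit 0) (nat_lit 14736453605) (nat_lit 76) (nat_lit 9934826260) (nat_lit 152) (nat_lit 147182333888) (nat_lit 4) (nat_lit 5) (nat_lit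 5) (nat_lit 5) (nat_lit 6) (nat_lit 4) (nat_lit 323) (nat_lit 270) (nat_lit 187))) (XT.nd (nat_lit 78) (nat_lit 0) (nat_lit 0) (XT.lf (nat_lit 0) (nat_lit 37395098367) (nat_lit 152) (nat_lit 143594619614) (nat_lit 0) (nat_lit 3520678190) (nat_lit 4) (nat_lit 5) (nat_lit 6) (nat_lit 4) (nat_lit 4) (nat_lit 4) (nat_lit 324) (nat_lit 270) (nat_lit 186)) (XT.lf (nat_lit 0) (nat_lit 51391587639) (nat_lit 152) (nat_lit 129254502282) (nat_lit 0) (nat_lit 17513253474) (nat_lit 4) (nat_lit 5) (nat_lit 6) (nat_lit 4) (nat_lit 4) (nat_lit 4) (nat_lit 325) (nat_lit 270) (nat_lit 185))))))) (XT.nd (nat_lit 1092) (nat_lit 0) (nat_lit 0) (XT.nd (nat_lit 546) (nat_lit 0) (nat_lit 0) (XT.nd (nat_lit 234) (nat_lit 76) (nat_lit 0) (XT.nd (nat_lit 78) (nat_lit 0) (nat_lit 0) (XT.lf (nat_lit 0) (nat_lit 66504757030) (nat_lit 152) (nat_lit 113772896869) (nat_lit 0) (nat_lit 32622798801) (nat_lit 4) (nat_lit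 5) (nat_lit 6) (nat_lit 4) (nat_lit 4) (nat_lit 4) (nat_lit 326) (nat_lit 270) (nat_lit 184)) (XT.nd (nat_lit 78) (nat_lit 0) (nat_lit 0) (XT.lf (nat_lit 0) (nat_lit 82824166060) (nat_lit 152) (nat_lit 97058060529) (nat_lit 0) (nat_lit 48938852217) (nat_lit 4) (nat_lit 5) (nat_lit 6) (nat_lit 4) (nat_lit 4) (nat_lit 4) (nat_lit 327) (nat_lit 270) (nat_lit 183)) (XT.lf (nat_lit 0) (nat_lit 100446522341) (nat_lit 152) (nat_lit 79010942380) (nat_lit 0) (nat_lit 66558101447) (nat_lit 4) (nat_lit 5) (nat_lit 6) (nat_lit 4) (nat_lit 4) (nat_lit 4) (nat_lit 328) (nat_lit 270) (nat_lit 182)))) (XT.nd (nat_lit 156) (nat_lit 76) (nat_lit 0) (XT.nd (nat_lit 78) (nat_lit 0) (nat_lit 0) (XT.lf (nat_lit 0) (nat_lit 119476254649) (nat_lit 152) (nat_lit 59524596535) (nat_lit 0) (nat_lit 85584956857) (nat_lit 4) (nat_lit 5) (nat_lit 6) (nat_lit 4) (nat_lit 4) (nat_lit 4) (nat_lit 329) (nat_lit 270)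 (nat_lit 181)) (XT.lf (nat_lit 0) (nat_lit 140026131768) (nat_lit 152) (nat_lit 38483548353) (nat_lit 0) (nat_lit 106132170181) (nat_lit 4) (nat_lit 5) (nat_lit 6) (nat_lit 4) (nat_lit 4) (nat_lit 4) (nat_lit 330) (nat_lit 270) (nat_lit 180))) (XT.nd (nat_lit 78) (nat_lit 76) (nat_lit 0) (XT.lf (nat_lit 0) (nat_lit 162217930749) (nat_lit 152) (nat_lit 15763110142) (nat_lit 0) (nat_lit 128321502685) (nat_lit 4) (nat_lit 5) (nat_lit 6) (nat_lit 4) (nat_lit 4) (nat_lit 4) (nat_lit 331) (nat_lit 270) (nat_lit 179)) (XT.lf (nat_lit 0) (nat_lit 9233241887) (nat_lit 76) (nat_lit 177171976350) (nat_lit 76) (nat_lit 143273264512) (nat_lit 3) (nat_lit 4) (nat_lit 4) (nat_lit 5) (nat_lit 4) (nat_lit 4) (nat_lit 332) (nat_lit 270) (nat_lit 178))))) (XT.nd (nat_lit 234) (nat_lit 0) (nat_lit 0) (XT.nd (nat_lit 78) (nat_lit 0) (nat_lit 0) (XT.lf (nat_lit 0) (nat_lit 37122250002) (nat_lit 76) (nat_lit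 175834372332) (nat_lit 76) (nat_lit 141933545888) (nat_lit 3) (nat_lit 4) (nat_lit 4) (nat_lit 5) (nat_lit 4) (nat_lit 4) (nat_lit 333) (nat_lit 270) (nat_lit 177)) (XT.nd (nat_lit 78) (nat_lit 0) (nat_lit 0) (XT.lf (nat_lit 0) (nat_lit 67239124954) (nat_lit 76) (nat_lit 174391293661) (nat_lit 76) (nat_lit 140488509248) (nat_lit 3) (nat_lit 4) (nat_lit 4) (nat_lit 5) (nat_lit 4) (nat_lit 4) (nat_lit 334) (nat_lit 270) (nat_lit 176)) (XT.lf (nat_lit 0) (nat_lit 99762337114) (nat_lit 76) (nat_lit 172834188759) (nat_lit 76) (nat_lit 138929591412) (nat_lit 3) (nat_lit 4) (nat_lit 4) (nat_lit 5) (nat_lit 4) (nat_lit 4) (nat_lit 335) (nat_lit 270) (nat_lit 175)))) (XT.nd (nat_lit 156) (nat_lit 0) (nat_lit 0) (XT.nd (nat_lit 78) (nat_lit 0) (nat_lit 0) (XT.lf (nat_lit 0) (nat_lit 134884616626) (nat_lit 76) (nat_lit 171153830338) (nat_lit 76) (nat_lit 137247554349) (nat_lit 3) (nat_lit 4)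 (nat_lit 4) (nat_lit 5) (nat_lit 4) (nat_lit 4) (nat_lit 336) (nat_lit 270) (nat_lit 174)) (XT.lf (nat_lit 0) (nat_lit 172814095518) (nat_lit 76) (nat_lit 169340260720) (nat_lit 76) (nat_lit 135432430431) (nat_lit 3) (nat_lit 4) (nat_lit 4) (nat_lit 5) (nat_lit 4) (nat_lit 4) (nat_lit 337) (nat_lit 270) (nat_lit 173))) (XT.nd (nat_lit 78) (nat_lit 0) (nat_lit 0) (XT.lf (nat_lit 0) (nat_lit 213775541073) (nat_lit 76) (nat_lit 167382732823) (nat_lit 76) (nat_lit 133473463369) (nat_lit 3) (nat_lit 4) (nat_lit 4) (nat_lit 5) (nat_lit 4) (nat_lit 4) (nat_lit 338) (nat_lit 270) (nat_lit 172)) (XT.lf (nat_lit 0) (nat_lit 258011687782) (nat_lit 76) (nat_lit 165269646483) (nat_lit 76) (nat_lit 131359044469) (nat_lit 3) (nat_lit 4) (nat_lit 4) (nat_lit 5) (nat_lit 4) (nat_lit 4) (nat_lit 339) (nat_lit 270) (nat_lit 171)))))) (XT.nd (nat_lit 546) (nat_lit 0) (nat_lit 0) (XT.nd (nat_lit 234) (nat_lit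 0) (nat_lit 0) (XT.nd (nat_lit 78) (nat_lit 0) (nat_lit 0) (XT.lf (nat_lit 0) (nat_lit 305784675773) (nat_lit 76) (nat_lit 162988479708) (nat_lit 76) (nat_lit 129076643841) (nat_lit 3) (nat_lit 4) (nat_lit 4) (nat_lit 5) (nat_lit 4) (nat_lit 4) (nat_lit 340) (nat_lit 270) (nat_lit 170)) (XT.nd (nat_lit 78) (nat_lit 0) (nat_lit 0) (XT.lf (nat_lit 0) (nat_lit 357377604236) (nat_lit 76) (nat_lit 160525714471) (nat_lit 76) (nat_lit 126612736148) (nat_lit 3) (nat_lit 4) (nat_lit 4) (nat_lit 5) (nat_lit 4) (nat_lit 4) (nat_lit 341) (nat_lit 270) (nat_lit 169)) (XT.lf (nat_lit 0) (nat_lit 413096209042) (nat_lit 76) (nat_lit 157866756609) (nat_lit 76) (nat_lit 123952720456) (nat_lit 3) (nat_lit 4) (nat_lit 4) (nat_lit 5) (nat_lit 4) (nat_lit 4) (nat_lit 342) (nat_lit 270) (nat_lit 168)))) (XT.nd (nat_lit 156) (nat_lit 0) (nat_lit 0) (XT.nd (nat_lit 78) (nat_lit 0) (nat_lit 0) (XT.lf (nat_lit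 0) (nat_lit 473270674517) (nat_lit 76) (nat_lit 154995849333) (nat_lit 76) (nat_lit 121080833709) (nat_lit 3) (nat_lit 4) (nat_lit 4) (nat_lit 5) (nat_lit 4) (nat_lit 4) (nat_lit 343) (nat_lit 270) (nat_lit 167)) (XT.lf (nat_lit 0) (nat_lit 538257590085) (nat_lit 76) (nat_lit 151895979860) (nat_lit 76) (nat_lit 117980057318) (nat_lit 3) (nat_lit 4) (nat_lit 4) (nat_lit 5) (nat_lit 4) (nat_lit 4) (nat_lit 344) (nat_lit 270) (nat_lit 166))) (XT.nd (nat_lit 78) (nat_lit 0) (nat_lit 0) (XT.lf (nat_lit 0) (nat_lit 608442063393) (nat_lit 76) (nat_lit 148548778594) (nat_lit 76) (nat_lit 114632016312) (nat_lit 3) (nat_lit 4) (nat_lit 4) (nat_lit 5) (nat_lit 4) (nat_lit 4) (nat_lit 345) (nat_lit 270) (nat_lit 165)) (XT.lf (nat_lit 0) (nat_lit 684240002433) (nat_lit 76) (nat_lit 144934410267) (nat_lit 76) (nat_lit 111016870449) (nat_lit 3) (nat_lit 4) (nat_lit 4) (nat_lit 5) (nat_lit 4) (nat_lit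 4) (nat_lit 346) (nat_lit 270) (nat_lit 164))))) (XT.nd (nat_lit 312) (nat_lit 0) (nat_lit 0) (XT.nd (nat_lit 156) (nat_lit 0) (nat_lit 0) (XT.nd (nat_lit 78) (nat_lit 0) (nat_lit 0) (XT.lf (nat_lit 0) (nat_lit 766100580176) (nat_lit 76) (nat_lit 141031456401) (nat_lit 76) (nat_lit 107113196642) (nat_lit 3) (nat_lit 4) (nat_lit 4) (nat_lit 5) (nat_lit 4) (nat_lit 4) (nat_lit 347) (nat_lit 270) (nat_lit 163)) (XT.lf (nat_lit 0) (nat_lit 854508896342) (nat_lit 76) (nat_lit 136816788379) (nat_lit 76) (nat_lit 102897862008) (nat_lit 3) (nat_lit 4) (nat_lit 4) (nat_lit 5) (nat_lit 4) (nat_lit 4) (nat_lit 348) (nat_lit 270) (nat_lit 162))) (XT.nd (nat_lit 78) (nat_lit 0) (nat_lit 0) (XT.lf (nat_lit 0) (nat_lit 949988852064) (nat_lit 76) (nat_lit 132265430392) (nat_lit 76) (nat_lit 98345886788) (nat_lit 3) (nat_lit 4) (nat_lit 4) (nat_lit 5) (nat_lit 4) (nat_lit 4) (nat_lit 349) (nat_lit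 270) (nat_lit 161)) (XT.lf (nat_lit 0) (nat_lit 1053106254487) (nat_lit 76) (nat_lit 127350411430) (nat_lit 76) (nat_lit 93430296313) (nat_lit 3) (nat_lit 4) (nat_lit 4) (nat_lit 5) (nat_lit 4) (nat_lit 4) (nat_lit 350) (nat_lit 270) (nat_lit 160)))) (XT.nd (nat_lit 156) (nat_lit 0) (nat_lit 0) (XT.nd (nat_lit 78) (nat_lit 0) (nat_lit 0) (XT.lf (nat_lit 0) (nat_lit 1164472169699) (nat_lit 76) (nat_lit 122042605453) (nat_lit 76) (nat_lit 88121961158) (nat_lit 3) (nat_lit 4) (nat_lit 4) (nat_lit 5) (nat_lit 4) (nat_lit 4) (nat_lit 351) (nat_lit 270) (nat_lit 159)) (XT.lf (nat_lit 0) (nat_lit 1284746543865) (nat_lit 76) (nat_lit 116310558797) (nat_lit 76) (nat_lit 82389424522) (nat_lit 3) (nat_lit 4) (nat_lit 4) (nat_lit 5) (nat_lit 4) (nat_lit 4) (nat_lit 352) (nat_lit 270) (nat_lit 158))) (XT.nd (nat_lit 78) (nat_lit 0) (nat_lit 0) (XT.lf (nat_lit 0) (nat_lit 1414642114017) (nat_lit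 76) (nat_lit 110120303777) (nat_lit 76) (nat_lit 76198715818) (nat_lit 3) (nat_lit 4) (nat_lit 4) (nat_lit 5) (nat_lit 4) (nat_lit 4) (nat_lit 353) (nat_lit 270) (nat_lit 157)) (XT.lf (nat_lit 0) (nat_lit 1554928631681) (nat_lit 76) (nat_lit 103435157403) (nat_lit 76) (nat_lit 69513149364) (nat_lit 3) (nat_lit 4) (nat_lit 4) (nat_lit 5) (nat_lit 4) (nat_lit 4) (nat_lit 354) (nat_lit 270) (nat_lit 156))))))))
noncomputable def xc68 : XT := (XT.nd (nat_lit 35568) (nat_lit 0) (nat_lit 456) (XT.nd (nat_lit 34476) (nat_lit 0) (nat_lit 1672) (XT.nd (nat_lit 546) (nat_lit 152) (nat_lit 0) (XT.nd (nat_lit 234) (nat_lit 0) (nat_lit 0) (XT.nd (nat_lit 78) (nat_lit 0) (nat_lit 0) (XT.lf (nat_lit 0) (nat_lit 1706437424369) (nat_lit 76) (nat_lit 96215503990) (nat_lit 76) (nat_lit 62293106989) (nat_lit 3) (nat_lit 4) (nat_lit 4) (nat_lit 5) (nat_lit 4) (nat_lit 4) (nat_lit 355) (nat_lit 270) (nat_lit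 155)) (XT.nd (nat_lit 78) (nat_lit 0) (nat_lit 0) (XT.lf (nat_lit 0) (nat_lit 1870066321965) (nat_lit 76) (nat_lit 88418560407) (nat_lit 76) (nat_lit 54495803258) (nat_lit 3) (nat_lit 4) (nat_lit 4) (nat_lit 5) (nat_lit 4) (nat_lit 4) (nat_lit 356) (nat_lit 270) (nat_lit 154)) (XT.lf (nat_lit 0) (nat_lit 2046784977195) (nat_lit 76) (nat_lit 79998122546) (nat_lit 76) (nat_lit 46075031924) (nat_lit 3) (nat_lit 4) (nat_lit 4) (nat_lit 5) (nat_lit 4) (nat_lit 4) (nat_lit 357) (nat_lit 270) (nat_lit 153)))) (XT.nd (nat_lit 156) (nat_lit 0) (nat_lit 0) (XT.nd (nat_lit 78) (nat_lit 0) (nat_lit 0) (XT.lf (nat_lit 0) (nat_lit 2237640611718) (nat_lit 76) (nat_lit 70904291514) (nat_lit 76) (nat_lit 36980892121) (nat_lit 3) (nat_lit 4) (nat_lit 4) (nat_lit 5) (nat_lit 4) (nat_lit 4) (nat_lit 358) (nat_lit 270) (nat_lit 152)) (XT.lf (nat_lit 0) (nat_lit 2443764221889) (nat_lit 76) (nat_lit 61083177942)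 (nat_lit 76) (nat_lit 27159492651) (nat_lit 3) (nat_lit 4) (nat_lit 4) (nat_lit 5) (nat_lit 4) (nat_lit 4) (nat_lit 359) (nat_lit 270) (nat_lit 151))) (XT.nd (nat_lit 78) (nat_lit 0) (nat_lit 0) (XT.lf (nat_lit 0) (nat_lit 2666377280953) (nat_lit 76) (nat_lit 50476582639) (nat_lit 76) (nat_lit 16552632628) (nat_lit 3) (nat_lit 4) (nat_lit 4) (nat_lit 5) (nat_lit 4) (nat_lit 4) (nat_lit 360) (nat_lit 270) (nat_lit 150)) (XT.lf (nat_lit 0) (nat_lit 2906798977407) (nat_lit 76) (nat_lit 39021651707) (nat_lit 76) (nat_lit 5097456584) (nat_lit 3) (nat_lit 4) (nat_lit 4) (nat_lit 5) (nat_lit 4) (nat_lit 4) (nat_lit 361) (nat_lit 270) (nat_lit 149))))) (XT.nd (nat_lit 33618) (nat_lit 0) (nat_lit 3040) (XT.nd (nat_lit 78) (nat_lit 76) (nat_lit 0) (XT.lf (nat_lit 0) (nat_lit 6910047166) (nat_lit 152) (nat_lit 19551523973) (nat_lit 76) (nat_lit 3159355052314) (nat_lit 2) (nat_lit 5) (nat_lit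 4) (nat_lit 5) (nat_lit 3) (nat_lit 4) (nat_lit 362) (nat_lit 270) (nat_lit 148)) (XT.nd (nat_lit 33462) (nat_lit 0) (nat_lit 3496) (XT.lf (nat_lit 0) (nat_lit 7209346977) (nat_lit 76) (nat_lit 12566604560) (nat_lit 152) (nat_lit 3419706645112) (nat_lit 1) (nat_lit 5) (nat_lit 2) (nat_lit 5) (nat_lit 3) (nat_lit 4) (nat_lit 363) (nat_lit 270) (nat_lit 147)) (XT.lf (nat_lit 0) (nat_lit 2226669222) (nat_lit 0) (nat_lit 2226669222) (nat_lit 380) (nat_lit 558455897) (nat_lit 47) (nat_lit 5) (nat_lit 47) (nat_lit 3) (nat_lit 52) (nat_lit 3) (nat_lit 271) (nat_lit 271) (nat_lit 238)))) (XT.nd (nat_lit 156) (nat_lit 0) (nat_lit 0) (XT.nd (nat_lit 78) (nat_lit 456) (nat_lit 0) (XT.lf (nat_lit 0) (nat_lit 9250359115) (nat_lit 0) (nat_lit 640518859) (nat_lit 380) (nat_lit 480438675) (nat_lit 47) (nat_lit 5) (nat_lit 47) (nat_lit 3) (nat_lit 52) (nat_lit 3) (nat_lit 272) (nat_lit 271) (nat_lit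 237)) (XT.lf (nat_lit 0) (nat_lit 310987607) (nat_lit 456) (nat_lit 6995305750) (nat_lit 532) (nat_lit 3431296425) (nat_lit 41) (nat_lit 5) (nat_lit 47) (nat_lit 5) (nat_lit 48) (nat_lit 5) (nat_lit 273) (nat_lit 271) (nat_lit 236))) (XT.nd (nat_lit 78) (nat_lit 0) (nat_lit 76) (XT.lf (nat_lit 0) (nat_lit 1127726479) (nat_lit 456) (nat_lit 2142254034) (nat_lit 532) (nat_lit 7863405250) (nat_lit 41) (nat_lit 5) (nat_lit 47) (nat_lit 5) (nat_lit 48) (nat_lit 5) (nat_lit 274) (nat_lit 271) (nat_lit 235)) (XT.lf (nat_lit 0) (nat_lit 2060309730) (nat_lit 456) (nat_lit 8364713619) (nat_lit 532) (nat_lit 1132018394) (nat_lit 42) (nat_lit 5) (nat_lit 48) (nat_lit 5) (nat_lit 49) (nat_lit 5) (nat_lit 275) (nat_lit 271) (nat_lit 234)))))) (XT.nd (nat_lit 546) (nat_lit 836) (nat_lit 0) (XT.nd (nat_lit 234) (nat_lit 608) (nat_lit 0) (XT.nd (nat_lit 78) (nat_lit 0) (nat_lit 0) (XT.lf (nat_lit 0)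 (nat_lit 3160504982) (nat_lit 456) (nat_lit 3061724318) (nat_lit 532) (nat_lit 5785139684) (nat_lit 42) (nat_lit 5) (nat_lit 48) (nat_lit 5) (nat_lit 49) (nat_lit 5) (nat_lit 276) (nat_lit 271) (nat_lit 233)) (XT.nd (nat_lit 78) (nat_lit 0) (nat_lit 76) (XT.lf (nat_lit 76) (nat_lit 2766026841) (nat_lit 0) (nat_lit 1601042008) (nat_lit 532) (nat_lit 8125388285) (nat_lit 43) (nat_lit 5) (nat_lit 42) (nat_lit 5) (nat_lit 49) (nat_lit 5) (nat_lit 277) (nat_lit 271) (nat_lit 232)) (XT.lf (nat_lit 0) (nat_lit 5792288773) (nat_lit 456) (nat_lit 3900155312) (nat_lit 76) (nat_lit 3314325710) (nat_lit 43) (nat_lit 5) (nat_lit 49) (nat_lit 5) (nat_lit 44) (nat_lit 5) (nat_lit 278) (nat_lit 271) (nat_lit 231)))) (XT.nd (nat_lit 156) (nat_lit 228) (nat_lit 0) (XT.nd (nat_lit 78) (nat_lit 0) (nat_lit 0) (XT.lf (nat_lit 0) (nat_lit 2434531492) (nat_lit 456) (nat_lit 4955202954) (nat_lit 532) (nat_lit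 6168010385) (nat_lit 37) (nat_lit 5) (nat_lit 43) (nat_lit 5) (nat_lit 44) (nat_lit 5) (nat_lit 279) (nat_lit 271) (nat_lit 230)) (XT.lf (nat_lit 0) (nat_lit 9188611750) (nat_lit 532) (nat_lit 4693445998) (nat_lit 76) (nat_lit 265010367) (nat_lit 37) (nat_lit 5) (nat_lit 44) (nat_lit 5) (nat_lit 38) (nat_lit 5) (nat_lit 280) (nat_lit 271) (nat_lit 229))) (XT.nd (nat_lit 78) (nat_lit 0) (nat_lit 0) (XT.lf (nat_lit 0) (nat_lit 2194422503) (nat_lit 228) (nat_lit 9081752320) (nat_lit 304) (nat_lit 3495929581) (nat_lit 34) (nat_lit 5) (nat_lit 37) (nat_lit 5) (nat_lit 38) (nat_lit 5) (nat_lit 281) (nat_lit 271) (nat_lit 228)) (XT.lf (nat_lit 0) (nat_lit 9863838871) (nat_lit 228) (nat_lit 3760367863) (nat_lit 304) (nat_lit 1815597897) (nat_lit 34) (nat_lit 5) (nat_lit 37) (nat_lit 5) (nat_lit 38) (nat_lit 5) (nat_lit 282) (nat_lit 271) (nat_lit 227))))) (XT.nd (nat_lit 234) (nat_lit 304)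 (nat_lit 0) (XT.nd (nat_lit 78) (nat_lit 228) (nat_lit 0) (XT.lf (nat_lit 0) (nat_lit 64343688) (nat_lit 304) (nat_lit 14155722292) (nat_lit 76) (nat_lit 1935763634) (nat_lit 30) (nat_lit 5) (nat_lit 34) (nat_lit 5) (nat_lit 31) (nat_lit 5) (nat_lit 283) (nat_lit 271) (nat_lit 226)) (XT.nd (nat_lit 78) (nat_lit 228) (nat_lit 0) (XT.lf (nat_lit 0) (nat_lit 2218993662) (nat_lit 304) (nat_lit 6603592727) (nat_lit 76) (nat_lit 8085094993) (nat_lit 30) (nat_lit 5) (nat_lit 34) (nat_lit 5) (nat_lit 31) (nat_lit 5) (nat_lit 284) (nat_lit 271) (nat_lit 225)) (XT.lf (nat_lit 0) (nat_lit 1598173920) (nat_lit 228) (nat_lit 2956938863) (nat_lit 304) (nat_lit 13163942272) (nat_lit 27) (nat_lit 5) (nat_lit 30) (nat_lit 5) (nat_lit 31) (nat_lit 5) (nat_lit 285) (nat_lit 271) (nat_lit 224)))) (XT.nd (nat_lit 156) (nat_lit 152) (nat_lit 0) (XT.nd (nat_lit 78) (nat_lit 152) (nat_lit 0) (XT.lf (nat_lit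 0) (nat_lit 7316495645) (nat_lit 304) (nat_lit 7870993919) (nat_lit 76) (nat_lit 3388873135) (nat_lit 27) (nat_lit 5) (nat_lit 31) (nat_lit 5) (nat_lit 28) (nat_lit 5) (nat_lit 286) (nat_lit 271) (nat_lit 223)) (XT.lf (nat_lit 0) (nat_lit 977844622) (nat_lit 152) (nat_lit 9395238029) (nat_lit 228) (nat_lit 9123315874) (nat_lit 25) (nat_lit 5) (nat_lit 27) (nat_lit 5) (nat_lit 28) (nat_lit 5) (nat_lit 287) (nat_lit 271) (nat_lit 222))) (XT.nd (nat_lit 78) (nat_lit 152) (nat_lit 0) (XT.lf (nat_lit 0) (nat_lit 10949908137) (nat_lit 152) (nat_lit 2914618953) (nat_lit 228) (nat_lit 6610364290) (nat_lit 25) (nat_lit 5) (nat_lit 27) (nat_lit 5) (nat_lit 28) (nat_lit 5) (nat_lit 288) (nat_lit 271) (nat_lit 221)) (XT.lf (nat_lit 0) (nat_lit 61234419) (nat_lit 152) (nat_lit 17650557129) (nat_lit 228) (nat_lit 3813826391) (nat_lit 23) (nat_lit 5) (nat_lit 25) (nat_lit 5) (nat_lit 26) (nat_lit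 5) (nat_lit 289) (nat_lit 271) (nat_lit 220))))))) (XT.nd (nat_lit 1092) (nat_lit 456) (nat_lit 0) (XT.nd (nat_lit 546) (nat_lit 304) (nat_lit 0) (XT.nd (nat_lit 234) (nat_lit 228) (nat_lit 0) (XT.nd (nat_lit 78) (nat_lit 228) (nat_lit 0) (XT.lf (nat_lit 0) (nat_lit 10845483946) (nat_lit 152) (nat_lit 11333347691) (nat_lit 228) (nat_lit 456680531) (nat_lit 23) (nat_lit 5) (nat_lit 25) (nat_lit 5) (nat_lit 26) (nat_lit 5) (nat_lit 290) (nat_lit 271) (nat_lit 219)) (XT.nd (nat_lit 78) (nat_lit 152) (nat_lit 0) (XT.lf (nat_lit 0) (nat_lit 2989336578) (nat_lit 228) (nat_lit 1447696412) (nat_lit 76) (nat_lit 19392820745) (nat_lit 22) (nat_lit 5) (nat_lit 25) (nat_lit 5) (nat_lit 23) (nat_lit 5) (nat_lit 291) (nat_lit 271) (nat_lit 218)) (XT.lf (nat_lit 0) (nat_lit 6990785972) (nat_lit 228) (nat_lit 14987227992) (nat_lit 76) (nat_lit 3116480691) (nat_lit 20) (nat_lit 5) (nat_lit 23) (nat_lit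 5) (nat_lit 21) (nat_lit 5) (nat_lit 292) (nat_lit 271) (nat_lit 217)))) (XT.nd (nat_lit 156) (nat_lit 76) (nat_lit 0) (XT.nd (nat_lit 78) (nat_lit 152) (nat_lit 0) (XT.lf (nat_lit 0) (nat_lit 11449218120) (nat_lit 228) (nat_lit 3932673032) (nat_lit 76) (nat_lit 11067517146) (nat_lit 20) (nat_lit 5) (nat_lit 23) (nat_lit 5) (nat_lit 21) (nat_lit 5) (nat_lit 293) (nat_lit 271) (nat_lit 216)) (XT.lf (nat_lit 0) (nat_lit 8400339764) (nat_lit 152) (nat_lit 8048428717) (nat_lit 228) (nat_lit 11449238090) (nat_lit 18) (nat_lit 5) (nat_lit 20) (nat_lit 5) (nat_lit 21) (nat_lit 5) (nat_lit 294) (nat_lit 271) (nat_lit 215))) (XT.nd (nat_lit 78) (nat_lit 76) (nat_lit 0) (XT.lf (nat_lit 0) (nat_lit 21918184013) (nat_lit 152) (nat_lit 20730534) (nat_lit 228) (nat_lit 7516371172) (nat_lit 18) (nat_lit 5) (nat_lit 20) (nat_lit 5) (nat_lit 21) (nat_lit 5) (nat_lit 295) (nat_lit 271) (nat_lit 214))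 (XT.lf (nat_lit 0) (nat_lit 5418681028) (nat_lit 76) (nat_lit 22772089794) (nat_lit 152) (nat_lit 2920616816) (nat_lit 17) (nat_lit 5) (nat_lit 18) (nat_lit 5) (nat_lit 19) (nat_lit 4) (nat_lit 296) (nat_lit 271) (nat_lit 213))))) (XT.nd (nat_lit 234) (nat_lit 76) (nat_lit 0) (XT.nd (nat_lit 78) (nat_lit 152) (nat_lit 0) (XT.lf (nat_lit 0) (nat_lit 2136906833) (nat_lit 152) (nat_lit 13123857783) (nat_lit 76) (nat_lit 17619613479) (nat_lit 16) (nat_lit 5) (nat_lit 18) (nat_lit 5) (nat_lit 17) (nat_lit 5) (nat_lit 297) (nat_lit 271) (nat_lit 212)) (XT.nd (nat_lit 78) (nat_lit 0) (nat_lit 0) (XT.lf (nat_lit 0) (nat_lit 370083456) (nat_lit 152) (nat_lit 7065550200) (nat_lit 228) (nat_lit 27349666091) (nat_lit 14) (nat_lit 5) (nat_lit 16) (nat_lit 5) (nat_lit 17) (nat_lit 5) (nat_lit 298) (nat_lit 271) (nat_lit 211)) (XT.lf (nat_lit 0) (nat_lit 13555163838) (nat_lit 228) (nat_lit 21199687131)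 (nat_lit 76) (nat_lit 2056041382) (nat_lit 14) (nat_lit 5) (nat_lit 17) (nat_lit 5) (nat_lit 15) (nat_lit 4) (nat_lit 299) (nat_lit 271) (nat_lit 210)))) (XT.nd (nat_lit 156) (nat_lit 0) (nat_lit 0) (XT.nd (nat_lit 78) (nat_lit 76) (nat_lit 0) (XT.lf (nat_lit 0) (nat_lit 20334647012) (nat_lit 228) (nat_lit 7132128525) (nat_lit 76) (nat_lit 11518153022) (nat_lit 14) (nat_lit 5) (nat_lit 17) (nat_lit 5) (nat_lit 15) (nat_lit 4) (nat_lit 300) (nat_lit 271) (nat_lit 209)) (XT.lf (nat_lit 0) (nat_lit 8464161108) (nat_lit 76) (nat_lit 19383733410) (nat_lit 152) (nat_lit 13469706100) (nat_lit 13) (nat_lit 5) (nat_lit 14) (nat_lit 5) (nat_lit 15) (nat_lit 4) (nat_lit 301) (nat_lit 271) (nat_lit 208))) (XT.nd (nat_lit 78) (nat_lit 0) (nat_lit 0) (XT.lf (nat_lit 0) (nat_lit 25694187588) (nat_lit 76) (nat_lit 10451291411) (nat_lit 152) (nat_lit 7676768795) (nat_lit 13) (nat_lit 5) (nat_lit 14)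 (nat_lit 5) (nat_lit 15) (nat_lit 4) (nat_lit 302) (nat_lit 271) (nat_lit 207)) (XT.lf (nat_lit 0) (nat_lit 44284489528) (nat_lit 76) (nat_lit 811521583) (nat_lit 152) (nat_lit 1432146149) (nat_lit 13) (nat_lit 5) (nat_lit 14) (nat_lit 5) (nat_lit 15) (nat_lit 4) (nat_lit 303) (nat_lit 271) (nat_lit 206)))))) (XT.nd (nat_lit 546) (nat_lit 152) (nat_lit 0) (XT.nd (nat_lit 234) (nat_lit 152) (nat_lit 0) (XT.nd (nat_lit 78) (nat_lit 0) (nat_lit 0) (XT.lf (nat_lit 0) (nat_lit 5653539551) (nat_lit 152) (nat_lit 34111038560) (nat_lit 76) (nat_lit 9627181797) (nat_lit 11) (nat_lit 5) (nat_lit 13) (nat_lit 5) (nat_lit 12) (nat_lit 4) (nat_lit 304) (nat_lit 271) (nat_lit 205)) (XT.nd (nat_lit 78) (nat_lit 0) (nat_lit 0) (XT.lf (nat_lit 0) (nat_lit 13302581906) (nat_lit 152) (nat_lit 18222309019) (nat_lit 76) (nat_lit 20950691256) (nat_lit 11) (nat_lit 5) (nat_lit 13) (nat_lit 5) (nat_lit 12)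 (nat_lit 4) (nat_lit 305) (nat_lit 271) (nat_lit 204)) (XT.lf (nat_lit 0) (nat_lit 21554156125) (nat_lit 152) (nat_lit 1078737010) (nat_lit 76) (nat_lit 33173984435) (nat_lit 11) (nat_lit 5) (nat_lit 13) (nat_lit 5) (nat_lit 12) (nat_lit 4) (nat_lit 306) (nat_lit 271) (nat_lit 203)))) (XT.nd (nat_lit 156) (nat_lit 76) (nat_lit 0) (XT.nd (nat_lit 78) (nat_lit 0) (nat_lit 0) (XT.lf (nat_lit 0) (nat_lit 18338642157) (nat_lit 76) (nat_lit 12559563055) (nat_lit 152) (nat_lit 28471898290) (nat_lit 10) (nat_lit 5) (nat_lit 11) (nat_lit 5) (nat_lit 12) (nat_lit 4) (nat_lit 307) (nat_lit 271) (nat_lit 202)) (XT.lf (nat_lit 0) (nat_lit 39356089690) (nat_lit 76) (nat_lit 1654778568) (nat_lit 152) (nat_lit 22205845774) (nat_lit 10) (nat_lit 5) (nat_lit 11) (nat_lit 5) (nat_lit 12) (nat_lit 4) (nat_lit 308) (nat_lit 271) (nat_lit 201))) (XT.nd (nat_lit 78) (nat_lit 76) (nat_lit 0) (XT.lf (nat_lit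 0) (nat_lit 52168066513) (nat_lit 152) (nat_lit 5573643784) (nat_lit 0) (nat_lit 9610514047) (nat_lit 10) (nat_lit 5) (nat_lit 12) (nat_lit 4) (nat_lit 10) (nat_lit 4) (nat_lit 309) (nat_lit 271) (nat_lit 200)) (XT.lf (nat_lit 0) (nat_lit 14863825962) (nat_lit 76) (nat_lit 49747136551) (nat_lit 76) (nat_lit 7176174985) (nat_lit 9) (nat_lit 4) (nat_lit 10) (nat_lit 5) (nat_lit 10) (nat_lit 4) (nat_lit 310) (nat_lit 271) (nat_lit 199))))) (XT.nd (nat_lit 234) (nat_lit 76) (nat_lit 0) (XT.nd (nat_lit 78) (nat_lit 0) (nat_lit 0) (XT.lf (nat_lit 0) (nat_lit 1547848596) (nat_lit 152) (nat_lit 39363852319) (nat_lit 76) (nat_lit 35650395104) (nat_lit 8) (nat_lit 5) (nat_lit 10) (nat_lit 5) (nat_lit 9) (nat_lit 4) (nat_lit 311) (nat_lit 271) (nat_lit 198)) (XT.nd (nat_lit 78) (nat_lit 0) (nat_lit 0) (XT.lf (nat_lit 0) (nat_lit 10575342627) (nat_lit 152) (nat_lit 20598160875) (nat_lit 76) (nat_lit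 50531185656) (nat_lit 8) (nat_lit 5) (nat_lit 10) (nat_lit 5) (nat_lit 9) (nat_lit 4) (nat_lit 312) (nat_lit 271) (nat_lit 197)) (XT.lf (nat_lit 0) (nat_lit 20318784707) (nat_lit 152) (nat_lit 342445926) (nat_lit 76) (nat_lit 66597967885) (nat_lit 8) (nat_lit 5) (nat_lit 10) (nat_lit 5) (nat_lit 9) (nat_lit 4) (nat_lit 313) (nat_lit 271) (nat_lit 196)))) (XT.nd (nat_lit 156) (nat_lit 0) (nat_lit 0) (XT.nd (nat_lit 78) (nat_lit 0) (nat_lit 0) (XT.lf (nat_lit 0) (nat_lit 22656706618) (nat_lit 76) (nat_lit 8724101470) (nat_lit 152) (nat_lit 61834140073) (nat_lit 7) (nat_lit 5) (nat_lit 8) (nat_lit 5) (nat_lit 9) (nat_lit 4) (nat_lit 314) (nat_lit 271) (nat_lit 195)) (XT.lf (nat_lit 0) (nat_lit 43431927630) (nat_lit 152) (nat_lit 52242109016) (nat_lit 0) (nat_lit 3964797802) (nat_lit 7) (nat_lit 5) (nat_lit 9) (nat_lit 4) (nat_lit 7) (nat_lit 4) (nat_lit 315) (nat_lit 271) (nat_lit 194)))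 (XT.nd (nat_lit 78) (nat_lit 0) (nat_lit 0) (XT.lf (nat_lit 0) (nat_lit 56668447479) (nat_lit 152) (nat_lit 32696992599) (nat_lit 0) (nat_lit 17193493570) (nat_lit 7) (nat_lit 5) (nat_lit 9) (nat_lit 4) (nat_lit 7) (nat_lit 4) (nat_lit 316) (nat_lit 271) (nat_lit 193)) (XT.lf (nat_lit 0) (nat_lit 70958991421) (nat_lit 152) (nat_lit 11597254527) (nat_lit 0) (nat_lit 31476792993) (nat_lit 7) (nat_lit 5) (nat_lit 9) (nat_lit 4) (nat_lit 7) (nat_lit 4) (nat_lit 317) (nat_lit 271) (nat_lit 192))))))))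
noncomputable def xc69 : XT := (XT.nd (nat_lit 2184) (nat_lit 0) (nat_lit 0) (XT.nd (nat_lit 1092) (nat_lit 76) (nat_lit 0) (XT.nd (nat_lit 546) (nat_lit 0) (nat_lit 0) (XT.nd (nat_lit 234) (nat_lit 152) (nat_lit 0) (XT.nd (nat_lit 78) (nat_lit 0) (nat_lit 0) (XT.lf (nat_lit 0) (nat_lit 11770972393) (nat_lit 76) (nat_lit 74900363937) (nat_lit 76) (nat_lit 35411457620) (nat_lit 6) (nat_lit 4) (nat_lit 7) (nat_lit 5) (nat_lit 7) (nat_lit 4) (nat_lit 318) (nat_lit 271) (nat_lit 191)) (XT.nd (nat_lit 78) (nat_lit 0) (nat_lit 0) (XT.lf (nat_lit 0) (nat_lit 37660092383) (nat_lit 76) (nat_lit 66293272052) (nat_lit 76) (nat_lit 26798154727) (nat_lit 6) (nat_lit 4) (nat_lit 7) (nat_lit 5) (nat_lit 7) (nat_lit 4) (nat_lit 319) (nat_lit 271) (nat_lit 190)) (XT.lf (nat_lit 0) (nat_lit 65612831577) (nat_lit 76) (nat_lit 57001054797) (nat_lit 76) (nat_lit 17500186538) (nat_lit 6) (nat_lit 4) (nat_lit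 7) (nat_lit 5) (nat_lit 7) (nat_lit 4) (nat_lit 320) (nat_lit 271) (nat_lit 189)))) (XT.nd (nat_lit 156) (nat_lit 76) (nat_lit 0) (XT.nd (nat_lit 78) (nat_lit 76) (nat_lit 0) (XT.lf (nat_lit 0) (nat_lit 95794835838) (nat_lit 76) (nat_lit 46968647179) (nat_lit 76) (nat_lit 7462453983) (nat_lit 6) (nat_lit 4) (nat_lit 7) (nat_lit 5) (nat_lit 7) (nat_lit 4) (nat_lit 321) (nat_lit 271) (nat_lit 188)) (XT.lf (nat_lit 0) (nat_lit 3205718351) (nat_lit 152) (nat_lit 32843229524) (nat_lit 76) (nat_lit 125091593115) (nat_lit 5) (nat_lit 5) (nat_lit 7) (nat_lit 5) (nat_lit 6) (nat_lit 4) (nat_lit 322) (nat_lit 271) (nat_lit 187))) (XT.nd (nat_lit 78) (nat_lit 76) (nat_lit 0) (XT.lf (nat_lit 0) (nat_lit 14320860795) (nat_lit 152) (nat_lit 9728298516) (nat_lit 76) (nat_lit 148863916686) (nat_lit 5) (nat_lit 5) (nat_lit 7) (nat_lit 5) (nat_lit 6) (nat_lit 4) (nat_lit 323) (nat_lit 271) (nat_lit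 186)) (XT.lf (nat_lit 0) (nat_lit 16032133684) (nat_lit 76) (nat_lit 10675582547) (nat_lit 152) (nat_lit 158889100880) (nat_lit 4) (nat_lit 5) (nat_lit 5) (nat_lit 5) (nat_lit 6) (nat_lit 4) (nat_lit 324) (nat_lit 271) (nat_lit 185))))) (XT.nd (nat_lit 234) (nat_lit 0) (nat_lit 0) (XT.nd (nat_lit 78) (nat_lit 0) (nat_lit 0) (XT.lf (nat_lit 0) (nat_lit 40445996418) (nat_lit 152) (nat_lit 154970568707) (nat_lit 0) (nat_lit 3849857467) (nat_lit 4) (nat_lit 5) (nat_lit 6) (nat_lit 4) (nat_lit 4) (nat_lit 4) (nat_lit 325) (nat_lit 271) (nat_lit 184)) (XT.nd (nat_lit 78) (nat_lit 0) (nat_lit 0) (XT.lf (nat_lit 0) (nat_lit 55557812966) (nat_lit 152) (nat_lit 139491510172) (nat_lit 0) (nat_lit 18958318401) (nat_lit 4) (nat_lit 5) (nat_lit 6) (nat_lit 4) (nat_lit 4) (nat_lit 4) (nat_lit 326) (nat_lit 271) (nat_lit 183)) (XT.lf (nat_lit 0) (nat_lit 71875969366) (nat_lit 152) (nat_lit 122779032052)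 (nat_lit 0) (nat_lit 35273367751) (nat_lit 4) (nat_lit 5) (nat_lit 6) (nat_lit 4) (nat_lit 4) (nat_lit 4) (nat_lit 327) (nat_lit 271) (nat_lit 182)))) (XT.nd (nat_lit 156) (nat_lit 0) (nat_lit 0) (XT.nd (nat_lit 78) (nat_lit 0) (nat_lit 0) (XT.lf (nat_lit 0) (nat_lit 89497165803) (nat_lit 152) (nat_lit 104734097440) (nat_lit 0) (nat_lit 52891687289) (nat_lit 4) (nat_lit 5) (nat_lit 6) (nat_lit 4) (nat_lit 4) (nat_lit 4) (nat_lit 328) (nat_lit 271) (nat_lit 181)) (XT.lf (nat_lit 0) (nat_lit 108525824181) (nat_lit 152) (nat_lit 85249773388) (nat_lit 0) (nat_lit 71917681873) (nat_lit 4) (nat_lit 5) (nat_lit 6) (nat_lit 4) (nat_lit 4) (nat_lit 4) (nat_lit 329) (nat_lit 271) (nat_lit 180))) (XT.nd (nat_lit 78) (nat_lit 0) (nat_lit 0) (XT.lf (nat_lit 0) (nat_lit 129074706922) (nat_lit 152) (nat_lit 64210597238) (nat_lit 0) (nat_lit 92464098137) (nat_lit 4) (nat_lit 5) (nat_lit 6) (nat_lit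 4) (nat_lit 4) (nat_lit 4) (nat_lit 330) (nat_lit 271) (nat_lit 179)) (XT.lf (nat_lit 0) (nat_lit 151265585181) (nat_lit 152) (nat_lit 41491892388) (nat_lit 0) (nat_lit 114652692621) (nat_lit 4) (nat_lit 5) (nat_lit 6) (nat_lit 4) (nat_lit 4) (nat_lit 4) (nat_lit 331) (nat_lit 271) (nat_lit 178)))))) (XT.nd (nat_lit 546) (nat_lit 0) (nat_lit 0) (XT.nd (nat_lit 234) (nat_lit 0) (nat_lit 0) (XT.nd (nat_lit 78) (nat_lit 76) (nat_lit 0) (XT.lf (nat_lit 0) (nat_lit 175229960460) (nat_lit 152) (nat_lit 16959029478) (nat_lit 0) (nat_lit 138614953294) (nat_lit 4) (nat_lit 5) (nat_lit 6) (nat_lit 4) (nat_lit 4) (nat_lit 4) (nat_lit 332) (nat_lit 271) (nat_lit 177)) (XT.nd (nat_lit 78) (nat_lit 0) (nat_lit 0) (XT.lf (nat_lit 0) (nat_lit 10035381865) (nat_lit 76) (nat_lit 191315813181) (nat_lit 76) (nat_lit 154698848046) (nat_lit 3) (nat_lit 4) (nat_lit 4) (nat_lit 5) (nat_lit 4) (nat_lit 4)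 (nat_lit 333) (nat_lit 271) (nat_lit 176)) (XT.lf (nat_lit 0) (nat_lit 40150808361) (nat_lit 76) (nat_lit 189873417232) (nat_lit 76) (nat_lit 153254639164) (nat_lit 3) (nat_lit 4) (nat_lit 4) (nat_lit 5) (nat_lit 4) (nat_lit 4) (nat_lit 334) (nat_lit 271) (nat_lit 175)))) (XT.nd (nat_lit 156) (nat_lit 0) (nat_lit 0) (XT.nd (nat_lit 78) (nat_lit 0) (nat_lit 0) (XT.lf (nat_lit 0) (nat_lit 72672679357) (nat_lit 76) (nat_lit 188316944481) (nat_lit 76) (nat_lit 151696487770) (nat_lit 3) (nat_lit 4) (nat_lit 4) (nat_lit 5) (nat_lit 4) (nat_lit 4) (nat_lit 335) (nat_lit 271) (nat_lit 174)) (XT.lf (nat_lit 0) (nat_lit 107793717052) (nat_lit 76) (nat_lit 186637171385) (nat_lit 76) (nat_lit 150015160375) (nat_lit 3) (nat_lit 4) (nat_lit 4) (nat_lit 5) (nat_lit 4) (nat_lit 4) (nat_lit 336) (nat_lit 271) (nat_lit 173))) (XT.nd (nat_lit 78) (nat_lit 0) (nat_lit 0) (XT.lf (nat_lit 0) (nat_lit 145722046113)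 (nat_lit 76) (nat_lit 184824143734) (nat_lit 76) (nat_lit 148200693558) (nat_lit 3) (nat_lit 4) (nat_lit 4) (nat_lit 5) (nat_lit 4) (nat_lit 4) (nat_lit 337) (nat_lit 271) (nat_lit 172)) (XT.lf (nat_lit 0) (nat_lit 186682427009) (nat_lit 76) (nat_lit 182867117659) (nat_lit 76) (nat_lit 146242334922) (nat_lit 3) (nat_lit 4) (nat_lit 4) (nat_lit 5) (nat_lit 4) (nat_lit 4) (nat_lit 338) (nat_lit 271) (nat_lit 171))))) (XT.nd (nat_lit 234) (nat_lit 0) (nat_lit 0) (XT.nd (nat_lit 78) (nat_lit 0) (nat_lit 0) (XT.lf (nat_lit 0) (nat_lit 230917587922) (nat_lit 76) (nat_lit 180754495969) (nat_lit 76) (nat_lit 144128479380) (nat_lit 3) (nat_lit 4) (nat_lit 4) (nat_lit 5) (nat_lit 4) (nat_lit 4) (nat_lit 339) (nat_lit 271) (nat_lit 170)) (XT.nd (nat_lit 78) (nat_lit 0) (nat_lit 0) (XT.lf (nat_lit 0) (nat_lit 278689663141) (nat_lit 76) (nat_lit 178473759424) (nat_lit 76) (nat_lit 141846600380)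 (nat_lit 3) (nat_lit 4) (nat_lit 4) (nat_lit 5) (nat_lit 4) (nat_lit 4) (nat_lit 340) (nat_lit 271) (nat_lit 169)) (XT.lf (nat_lit 0) (nat_lit 330281746443) (nat_lit 76) (nat_lit 176011392550) (nat_lit 76) (nat_lit 139383175676) (nat_lit 3) (nat_lit 4) (nat_lit 4) (nat_lit 5) (nat_lit 4) (nat_lit 4) (nat_lit 341) (nat_lit 271) (nat_lit 168)))) (XT.nd (nat_lit 156) (nat_lit 0) (nat_lit 0) (XT.nd (nat_lit 78) (nat_lit 0) (nat_lit 0) (XT.lf (nat_lit 0) (nat_lit 385999568694) (nat_lit 76) (nat_lit 173352803541) (nat_lit 76) (nat_lit 136723607195) (nat_lit 3) (nat_lit 4) (nat_lit 4) (nat_lit 5) (nat_lit 4) (nat_lit 4) (nat_lit 342) (nat_lit 271) (nat_lit 167)) (XT.lf (nat_lit 0) (nat_lit 446173309579) (nat_lit 76) (nat_lit 170482237797) (nat_lit 76) (nat_lit 133852134532) (nat_lit 3) (nat_lit 4) (nat_lit 4) (nat_lit 5) (nat_lit 4) (nat_lit 4) (nat_lit 343) (nat_lit 271) (nat_lit 166)))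 (XT.nd (nat_lit 78) (nat_lit 0) (nat_lit 0) (XT.lf (nat_lit 0) (nat_lit 511159554231) (nat_lit 76) (nat_lit 167382684557) (nat_lit 76) (nat_lit 130751741553) (nat_lit 3) (nat_lit 4) (nat_lit 4) (nat_lit 5) (nat_lit 4) (nat_lit 4) (nat_lit 344) (nat_lit 271) (nat_lit 165)) (XT.lf (nat_lit 0) (nat_lit 581343406322) (nat_lit 76) (nat_lit 164035776098) (nat_lit 76) (nat_lit 127404055559) (nat_lit 3) (nat_lit 4) (nat_lit 4) (nat_lit 5) (nat_lit 4) (nat_lit 4) (nat_lit 345) (nat_lit 271) (nat_lit 164))))))) (XT.nd (nat_lit 1092) (nat_lit 0) (nat_lit 0) (XT.nd (nat_lit 546) (nat_lit 0) (nat_lit 0) (XT.nd (nat_lit 234) (nat_lit 0) (nat_lit 0) (XT.nd (nat_lit 78) (nat_lit 0) (nat_lit 0) (XT.lf (nat_lit 0) (nat_lit 657140770160) (nat_lit 76) (nat_lit 160421678890) (nat_lit 76) (nat_lit 123789238409) (nat_lit 3) (nat_lit 4) (nat_lit 4) (nat_lit 5) (nat_lit 4) (nat_lit 4) (nat_lit 346) (nat_lit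 271) (nat_lit 163)) (XT.nd (nat_lit 78) (nat_lit 0) (nat_lit 0) (XT.lf (nat_lit 0) (nat_lit 739000815308) (nat_lit 76) (nat_lit 156518976059) (nat_lit 76) (nat_lit 119885868967) (nat_lit 3) (nat_lit 4) (nat_lit 4) (nat_lit 5) (nat_lit 4) (nat_lit 4) (nat_lit 347) (nat_lit 271) (nat_lit 162)) (XT.lf (nat_lit 0) (nat_lit 827408638332) (nat_lit 76) (nat_lit 152304540478) (nat_lit 76) (nat_lit 115670816152) (nat_lit 3) (nat_lit 4) (nat_lit 4) (nat_lit 5) (nat_lit 4) (nat_lit 4) (nat_lit 348) (nat_lit 271) (nat_lit 161)))) (XT.nd (nat_lit 156) (nat_lit 0) (nat_lit 0) (XT.nd (nat_lit 78) (nat_lit 0) (nat_lit 0) (XT.lf (nat_lit 0) (nat_lit 922888137440) (nat_lit 76) (nat_lit 147753397714) (nat_lit 76) (nat_lit 111119101876) (nat_lit 3) (nat_lit 4) (nat_lit 4) (nat_lit 5) (nat_lit 4) (nat_lit 4) (nat_lit 349) (nat_lit 271) (nat_lit 160)) (XT.lf (nat_lit 0) (nat_lit 1026005117072) (nat_lit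 76) (nat_lit 142838578032) (nat_lit 76) (nat_lit 106203753015) (nat_lit 3) (nat_lit 4) (nat_lit 4) (nat_lit 5) (nat_lit 4) (nat_lit 4) (nat_lit 350) (nat_lit 271) (nat_lit 159))) (XT.nd (nat_lit 78) (nat_lit 0) (nat_lit 0) (XT.lf (nat_lit 0) (nat_lit 1137370640811) (nat_lit 76) (nat_lit 137530956573) (nat_lit 76) (nat_lit 100895641577) (nat_lit 3) (nat_lit 4) (nat_lit 4) (nat_lit 5) (nat_lit 4) (nat_lit 4) (nat_lit 351) (nat_lit 271) (nat_lit 158)) (XT.lf (nat_lit 0) (nat_lit 1257644652502) (nat_lit 76) (nat_lit 131799080768) (nat_lit 76) (nat_lit 95163312087) (nat_lit 3) (nat_lit 4) (nat_lit 4) (nat_lit 5) (nat_lit 4) (nat_lit 4) (nat_lit 352) (nat_lit 271) (nat_lit 157))))) (XT.nd (nat_lit 234) (nat_lit 0) (nat_lit 0) (XT.nd (nat_lit 78) (nat_lit 0) (nat_lit 0) (XT.lf (nat_lit 0) (nat_lit 1387539887029) (nat_lit 76) (nat_lit 125608983944) (nat_lit 76) (nat_lit 88972795184) (nat_lit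 3) (nat_lit 4) (nat_lit 4) (nat_lit 5) (nat_lit 4) (nat_lit 4) (nat_lit 353) (nat_lit 271) (nat_lit 156)) (XT.nd (nat_lit 78) (nat_lit 0) (nat_lit 0) (XT.lf (nat_lit 0) (nat_lit 1527826093929) (nat_lit 76) (nat_lit 118923984046) (nat_lit 76) (nat_lit 82287406324) (nat_lit 3) (nat_lit 4) (nat_lit 4) (nat_lit 5) (nat_lit 4) (nat_lit 4) (nat_lit 354) (nat_lit 271) (nat_lit 155)) (XT.lf (nat_lit 0) (nat_lit 1679334598874) (nat_lit 76) (nat_lit 111704466260) (nat_lit 76) (nat_lit 75067528388) (nat_lit 3) (nat_lit 4) (nat_lit 4) (nat_lit 5) (nat_lit 4) (nat_lit 4) (nat_lit 355) (nat_lit 271) (nat_lit 154)))) (XT.nd (nat_lit 156) (nat_lit 0) (nat_lit 0) (XT.nd (nat_lit 78) (nat_lit 0) (nat_lit 0) (XT.lf (nat_lit 0) (nat_lit 1842963230040) (nat_lit 76) (nat_lit 103907648258) (nat_lit 76) (nat_lit 67270376914) (nat_lit 3) (nat_lit 4) (nat_lit 4) (nat_lit 5) (nat_lit 4) (nat_lit 4) (nat_lit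 356) (nat_lit 271) (nat_lit 153)) (XT.lf (nat_lit 0) (nat_lit 2019681638575) (nat_lit 76) (nat_lit 95487326674) (nat_lit 76) (nat_lit 58849746560) (nat_lit 3) (nat_lit 4) (nat_lit 4) (nat_lit 5) (nat_lit 4) (nat_lit 4) (nat_lit 357) (nat_lit 271) (nat_lit 152))) (XT.nd (nat_lit 78) (nat_lit 0) (nat_lit 0) (XT.lf (nat_lit 0) (nat_lit 2210537044678) (nat_lit 76) (nat_lit 86393603307) (nat_lit 76) (nat_lit 49755737295) (nat_lit 3) (nat_lit 4) (nat_lit 4) (nat_lit 5) (nat_lit 4) (nat_lit 4) (nat_lit 358) (nat_lit 271) (nat_lit 151)) (XT.lf (nat_lit 0) (nat_lit 2416660443349) (nat_lit 76) (nat_lit 76572589425) (nat_lit 76) (nat_lit 39934458692) (nat_lit 3) (nat_lit 4) (nat_lit 4) (nat_lit 5) (nat_lit 4) (nat_lit 4) (nat_lit 359) (nat_lit 271) (nat_lit 150)))))) (XT.nd (nat_lit 34086) (nat_lit 0) (nat_lit 2356) (XT.nd (nat_lit 33774) (nat_lit 0) (nat_lit 2812) (XT.nd (nat_lit 78) (nat_lit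 0) (nat_lit 0) (XT.lf (nat_lit 0) (nat_lit 2639273306578) (nat_lit 76) (nat_lit 65966086428) (nat_lit 76) (nat_lit 29327710583) (nat_lit 3) (nat_lit 4) (nat_lit 4) (nat_lit 5) (nat_lit 4) (nat_lit 4) (nat_lit 360) (nat_lit 271) (nat_lit 149)) (XT.nd (nat_lit 78) (nat_lit 0) (nat_lit 0) (XT.lf (nat_lit 0) (nat_lit 2879694821705) (nat_lit 76) (nat_lit 54511240964) (nat_lit 76) (nat_lit 17872638163) (nat_lit 3) (nat_lit 4) (nat_lit 4) (nat_lit 5) (nat_lit 4) (nat_lit 4) (nat_lit 361) (nat_lit 271) (nat_lit 148)) (XT.lf (nat_lit 0) (nat_lit 3139349708818) (nat_lit 76) (nat_lit 42140172467) (nat_lit 76) (nat_lit 5501359523) (nat_lit 3) (nat_lit 4) (nat_lit 4) (nat_lit 5) (nat_lit 4) (nat_lit 4) (nat_lit 362) (nat_lit 271) (nat_lit 147)))) (XT.nd (nat_lit 156) (nat_lit 0) (nat_lit 76) (XT.nd (nat_lit 78) (nat_lit 0) (nat_lit 0) (XT.lf (nat_lit 0) (nat_lit 58552297) (nat_lit 532) (nat_lit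 2651065630) (nat_lit 532) (nat_lit 2651065630) (nat_lit 40) (nat_lit 3) (nat_lit 47) (nat_lit 3) (nat_lit 47) (nat_lit 5) (nat_lit 272) (nat_lit 272) (nat_lit 236)) (XT.lf (nat_lit 0) (nat_lit 676551922) (nat_lit 532) (nat_lit 564147523) (nat_lit 532) (nat_lit 9862774999) (nat_lit 40) (nat_lit 3) (nat_lit 47) (nat_lit 3) (nat_lit 47) (nat_lit 5) (nat_lit 273) (nat_lit 272) (nat_lit 235))) (XT.nd (nat_lit 78) (nat_lit 0) (nat_lit 0) (XT.lf (nat_lit 0) (nat_lit 1422032715) (nat_lit 456) (nat_lit 6833000308) (nat_lit 532) (nat_lit 3250051867) (nat_lit 41) (nat_lit 5) (nat_lit 47) (nat_lit 5) (nat_lit 48) (nat_lit 5) (nat_lit 274) (nat_lit 272) (nat_lit 234)) (XT.lf (nat_lit 0) (nat_lit 2223653948) (nat_lit 456) (nat_lit 1645180744) (nat_lit 532) (nat_lit 8070488529) (nat_lit 41) (nat_lit 5) (nat_lit 47) (nat_lit 5) (nat_lit 48) (nat_lit 5) (nat_lit 275) (nat_lit 272) (nat_lit 233)))))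 (XT.nd (nat_lit 312) (nat_lit 608) (nat_lit 0) (XT.nd (nat_lit 156) (nat_lit 0) (nat_lit 0) (XT.nd (nat_lit 78) (nat_lit 0) (nat_lit 0) (XT.lf (nat_lit 0) (nat_lit 3164913003) (nat_lit 456) (nat_lit 8295546374) (nat_lit 532) (nat_lit 942003562) (nat_lit 42) (nat_lit 5) (nat_lit 48) (nat_lit 5) (nat_lit 49) (nat_lit 5) (nat_lit 276) (nat_lit 272) (nat_lit 232)) (XT.lf (nat_lit 0) (nat_lit 4283510653) (nat_lit 456) (nat_lit 2623010102) (nat_lit 532) (nat_lit 5988157985) (nat_lit 42) (nat_lit 5) (nat_lit 48) (nat_lit 5) (nat_lit 49) (nat_lit 5) (nat_lit 277) (nat_lit 272) (nat_lit 231))) (XT.nd (nat_lit 78) (nat_lit 0) (nat_lit 76) (XT.lf (nat_lit 76) (nat_lit 3653653500) (nat_lit 0) (nat_lit 1884515044) (nat_lit 532) (nat_lit 7884551479) (nat_lit 43) (nat_lit 5) (nat_lit 42) (nat_lit 5) (nat_lit 49) (nat_lit 5) (nat_lit 278) (nat_lit 272) (nat_lit 230)) (XT.lf (nat_lit 0) (nat_lit 7013076562)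 (nat_lit 456) (nat_lit 3527709108) (nat_lit 76) (nat_lit 3442789865) (nat_lit 43) (nat_lit 5) (nat_lit 49) (nat_lit 5) (nat_lit 44) (nat_lit 5) (nat_lit 279) (nat_lit 272) (nat_lit 229)))) (XT.nd (nat_lit 156) (nat_lit 228) (nat_lit 0) (XT.nd (nat_lit 78) (nat_lit 0) (nat_lit 0) (XT.lf (nat_lit 0) (nat_lit 3296424574) (nat_lit 456) (nat_lit 5401833769) (nat_lit 532) (nat_lit 5883807843) (nat_lit 37) (nat_lit 5) (nat_lit 43) (nat_lit 5) (nat_lit 44) (nat_lit 5) (nat_lit 280) (nat_lit 272) (nat_lit 228)) (XT.lf (nat_lit 0) (nat_lit 10586790949) (nat_lit 532) (nat_lit 4394258294) (nat_lit 76) (nat_lit 242042082) (nat_lit 37) (nat_lit 5) (nat_lit 44) (nat_lit 5) (nat_lit 38) (nat_lit 5) (nat_lit 281) (nat_lit 272) (nat_lit 227))) (XT.nd (nat_lit 78) (nat_lit 0) (nat_lit 0) (XT.lf (nat_lit 0) (nat_lit 3027559602) (nat_lit 228) (nat_lit 9780496563) (nat_lit 304) (nat_lit 3092938216) (nat_lit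 34) (nat_lit 5) (nat_lit 37) (nat_lit 5) (nat_lit 38) (nat_lit 5) (nat_lit 282) (nat_lit 272) (nat_lit 226)) (XT.lf (nat_lit 0) (nat_lit 11261819405) (nat_lit 228) (nat_lit 4035460309) (nat_lit 304) (nat_lit 1328747829) (nat_lit 34) (nat_lit 5) (nat_lit 37) (nat_lit 5) (nat_lit 38) (nat_lit 5) (nat_lit 283) (nat_lit 272) (nat_lit 225))))))))
noncomputable def xc70 : XT := (XT.nd (nat_lit 2184) (nat_lit 456) (nat_lit 0) (XT.nd (nat_lit 1092) (nat_lit 608) (nat_lit 0) (XT.nd (nat_lit 546) (nat_lit 456) (nat_lit 0) (XT.nd (nat_lit 234) (nat_lit 304) (nat_lit 0) (XT.nd (nat_lit 78) (nat_lit 228) (nat_lit 0) (XT.lf (nat_lit 0) (nat_lit 641883218) (nat_lit 304) (nat_lit 14615480475) (nat_lit 76) (nat_lit 2143160008) (nat_lit 30) (nat_lit 5) (nat_lit 34) (nat_lit 5) (nat_lit 31) (nat_lit 5) (nat_lit 284) (nat_lit 272) (nat_lit 224)) (XT.nd (nat_lit 78) (nat_lit 228) (nat_lit 0) (XT.lf (nat_lit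 0) (nat_lit 2926505780) (nat_lit 304) (nat_lit 6509010145) (nat_lit 76) (nat_lit 8780546373) (nat_lit 30) (nat_lit 5) (nat_lit 34) (nat_lit 5) (nat_lit 31) (nat_lit 5) (nat_lit 285) (nat_lit 272) (nat_lit 223)) (XT.lf (nat_lit 0) (nat_lit 2333128973) (nat_lit 228) (nat_lit 3091727543) (nat_lit 304) (nat_lit 13669597849) (nat_lit 27) (nat_lit 5) (nat_lit 30) (nat_lit 5) (nat_lit 31) (nat_lit 5) (nat_lit 286) (nat_lit 272) (nat_lit 222)))) (XT.nd (nat_lit 156) (nat_lit 152) (nat_lit 0) (XT.nd (nat_lit 78) (nat_lit 152) (nat_lit 0) (XT.lf (nat_lit 0) (nat_lit 8371983996) (nat_lit 304) (nat_lit 7901804220) (nat_lit 76) (nat_lit 3749497487) (nat_lit 27) (nat_lit 5) (nat_lit 31) (nat_lit 5) (nat_lit 28) (nat_lit 5) (nat_lit 287) (nat_lit 272) (nat_lit 221)) (XT.lf (nat_lit 0) (nat_lit 1639780158) (nat_lit 152) (nat_lit 10012528683) (nat_lit 228) (nat_lit 9366395165) (nat_lit 25) (nat_lit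 5) (nat_lit 27) (nat_lit 5) (nat_lit 28) (nat_lit 5) (nat_lit 288) (nat_lit 272) (nat_lit 220))) (XT.nd (nat_lit 78) (nat_lit 152) (nat_lit 0) (XT.lf (nat_lit 0) (nat_lit 12366371128) (nat_lit 152) (nat_lit 3023410332) (nat_lit 228) (nat_lit 6688465675) (nat_lit 25) (nat_lit 5) (nat_lit 27) (nat_lit 5) (nat_lit 28) (nat_lit 5) (nat_lit 289) (nat_lit 272) (nat_lit 219)) (XT.lf (nat_lit 0) (nat_lit 623763857) (nat_lit 152) (nat_lit 18906422323) (nat_lit 228) (nat_lit 3684116775) (nat_lit 23) (nat_lit 5) (nat_lit 25) (nat_lit 5) (nat_lit 26) (nat_lit 5) (nat_lit 290) (nat_lit 272) (nat_lit 218))))) (XT.nd (nat_lit 234) (nat_lit 228) (nat_lit 0) (XT.nd (nat_lit 78) (nat_lit 228) (nat_lit 0) (XT.lf (nat_lit 0) (nat_lit 12229447369) (nat_lit 152) (nat_lit 12095404973) (nat_lit 228) (nat_lit 90607818) (nat_lit 23) (nat_lit 5) (nat_lit 25) (nat_lit 5) (nat_lit 26) (nat_lit 5) (nat_lit 291)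 (nat_lit 272) (nat_lit 217)) (XT.nd (nat_lit 78) (nat_lit 152) (nat_lit 0) (XT.lf (nat_lit 0) (nat_lit 3582619722) (nat_lit 228) (nat_lit 1065794553) (nat_lit 76) (nat_lit 21058505908) (nat_lit 22) (nat_lit 5) (nat_lit 25) (nat_lit 5) (nat_lit 23) (nat_lit 5) (nat_lit 292) (nat_lit 272) (nat_lit 216)) (XT.lf (nat_lit 0) (nat_lit 7893120222) (nat_lit 228) (nat_lit 15676506266) (nat_lit 76) (nat_lit 3504064482) (nat_lit 20) (nat_lit 5) (nat_lit 23) (nat_lit 5) (nat_lit 21) (nat_lit 5) (nat_lit 293) (nat_lit 272) (nat_lit 215)))) (XT.nd (nat_lit 156) (nat_lit 76) (nat_lit 0) (XT.nd (nat_lit 78) (nat_lit 152) (nat_lit 0) (XT.lf (nat_lit 0) (nat_lit 12682814248) (nat_lit 228) (nat_lit 3775342462) (nat_lit 76) (nat_lit 12080941976) (nat_lit 20) (nat_lit 5) (nat_lit 23) (nat_lit 5) (nat_lit 21) (nat_lit 5) (nat_lit 294) (nat_lit 272) (nat_lit 214)) (XT.lf (nat_lit 0) (nat_lit 9532363398)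 (nat_lit 152) (nat_lit 8537497893) (nat_lit 228) (nat_lit 12034783850) (nat_lit 18) (nat_lit 5) (nat_lit 20) (nat_lit 5) (nat_lit 21) (nat_lit 5) (nat_lit 295) (nat_lit 272) (nat_lit 213))) (XT.nd (nat_lit 78) (nat_lit 76) (nat_lit 0) (XT.lf (nat_lit 0) (nat_lit 23979521106) (nat_lit 228) (nat_lit 7693720885) (nat_lit 76) (nat_lit 114898735) (nat_lit 18) (nat_lit 5) (nat_lit 21) (nat_lit 5) (nat_lit 19) (nat_lit 4) (nat_lit 296) (nat_lit 272) (nat_lit 212)) (XT.lf (nat_lit 0) (nat_lit 6286699671) (nat_lit 76) (nat_lit 24434627439) (nat_lit 152) (nat_lit 2856273544) (nat_lit 17) (nat_lit 5) (nat_lit 18) (nat_lit 5) (nat_lit 19) (nat_lit 4) (nat_lit 297) (nat_lit 272) (nat_lit 211)))))) (XT.nd (nat_lit 546) (nat_lit 304) (nat_lit 0) (XT.nd (nat_lit 234) (nat_lit 76) (nat_lit 0) (XT.nd (nat_lit 78) (nat_lit 152) (nat_lit 0) (XT.lf (nat_lit 0) (nat_lit 2569975880) (nat_lit 152) (nat_lit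 13757048418) (nat_lit 76) (nat_lit 19162236514) (nat_lit 16) (nat_lit 5) (nat_lit 18) (nat_lit 5) (nat_lit 17) (nat_lit 5) (nat_lit 298) (nat_lit 272) (nat_lit 210)) (XT.nd (nat_lit 78) (nat_lit 0) (nat_lit 0) (XT.lf (nat_lit 0) (nat_lit 805858297) (nat_lit 152) (nat_lit 7477094868) (nat_lit 228) (nat_lit 29264437675) (nat_lit 14) (nat_lit 5) (nat_lit 16) (nat_lit 5) (nat_lit 17) (nat_lit 5) (nat_lit 299) (nat_lit 272) (nat_lit 209)) (XT.lf (nat_lit 0) (nat_lit 14876767028) (nat_lit 228) (nat_lit 22503806010) (nat_lit 76) (nat_lit 2355719770) (nat_lit 14) (nat_lit 5) (nat_lit 17) (nat_lit 5) (nat_lit 15) (nat_lit 4) (nat_lit 300) (nat_lit 272) (nat_lit 208)))) (XT.nd (nat_lit 156) (nat_lit 0) (nat_lit 0) (XT.nd (nat_lit 78) (nat_lit 76) (nat_lit 0) (XT.lf (nat_lit 0) (nat_lit 22181039220) (nat_lit 228) (nat_lit 7339869093) (nat_lit 76) (nat_lit 12564785892) (nat_lit 14) (nat_lit 5)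 (nat_lit 17) (nat_lit 5) (nat_lit 15) (nat_lit 4) (nat_lit 301) (nat_lit 272) (nat_lit 207)) (XT.lf (nat_lit 0) (nat_lit 9494938148) (nat_lit 76) (nat_lit 20792645348) (nat_lit 152) (nat_lit 14318051575) (nat_lit 13) (nat_lit 5) (nat_lit 14) (nat_lit 5) (nat_lit 15) (nat_lit 4) (nat_lit 302) (nat_lit 272) (nat_lit 206))) (XT.nd (nat_lit 78) (nat_lit 0) (nat_lit 0) (XT.lf (nat_lit 0) (nat_lit 28077170884) (nat_lit 76) (nat_lit 11156110710) (nat_lit 152) (nat_lit 8078659361) (nat_lit 13) (nat_lit 5) (nat_lit 14) (nat_lit 5) (nat_lit 15) (nat_lit 4) (nat_lit 303) (nat_lit 272) (nat_lit 205)) (XT.lf (nat_lit 0) (nat_lit 48130441550) (nat_lit 76) (nat_lit 754884038) (nat_lit 152) (nat_lit 1350189195) (nat_lit 13) (nat_lit 5) (nat_lit 14) (nat_lit 5) (nat_lit 15) (nat_lit 4) (nat_lit 304) (nat_lit 272) (nat_lit 204))))) (XT.nd (nat_lit 234) (nat_lit 152) (nat_lit 0) (XT.nd (nat_lit 78) (nat_lit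 0) (nat_lit 0) (XT.lf (nat_lit 0) (nat_lit 6289047728) (nat_lit 152) (nat_lit 36522775382) (nat_lit 76) (nat_lit 10516307199) (nat_lit 11) (nat_lit 5) (nat_lit 13) (nat_lit 5) (nat_lit 12) (nat_lit 4) (nat_lit 305) (nat_lit 272) (nat_lit 203)) (XT.nd (nat_lit 78) (nat_lit 0) (nat_lit 0) (XT.lf (nat_lit 0) (nat_lit 14536441248) (nat_lit 152) (nat_lit 19386439794) (nat_lit 76) (nat_lit 22736886241) (nat_lit 11) (nat_lit 5) (nat_lit 13) (nat_lit 5) (nat_lit 12) (nat_lit 4) (nat_lit 306) (nat_lit 272) (nat_lit 202)) (XT.lf (nat_lit 0) (nat_lit 23435574532) (nat_lit 152) (nat_lit 893134168) (nat_lit 76) (nat_lit 35929884378) (nat_lit 11) (nat_lit 5) (nat_lit 13) (nat_lit 5) (nat_lit 12) (nat_lit 4) (nat_lit 307) (nat_lit 272) (nat_lit 201)))) (XT.nd (nat_lit 156) (nat_lit 76) (nat_lit 0) (XT.nd (nat_lit 78) (nat_lit 0) (nat_lit 0) (XT.lf (nat_lit 0) (nat_lit 20070751742) (nat_lit 76) (nat_lit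 13451133504) (nat_lit 152) (nat_lit 30585432662) (nat_lit 10) (nat_lit 5) (nat_lit 11) (nat_lit 5) (nat_lit 12) (nat_lit 4) (nat_lit 308) (nat_lit 272) (nat_lit 200)) (XT.lf (nat_lit 0) (nat_lit 42749964099) (nat_lit 76) (nat_lit 1682351043) (nat_lit 152) (nat_lit 23830260203) (nat_lit 10) (nat_lit 5) (nat_lit 11) (nat_lit 5) (nat_lit 12) (nat_lit 4) (nat_lit 309) (nat_lit 272) (nat_lit 199))) (XT.nd (nat_lit 78) (nat_lit 76) (nat_lit 0) (XT.lf (nat_lit 0) (nat_lit 56474010076) (nat_lit 152) (nat_lit 5784033096) (nat_lit 0) (nat_lit 10471546652) (nat_lit 10) (nat_lit 5) (nat_lit 12) (nat_lit 4) (nat_lit 10) (nat_lit 4) (nat_lit 310) (nat_lit 272) (nat_lit 198)) (XT.lf (nat_lit 0) (nat_lit 16282472148) (nat_lit 76) (nat_lit 53625571369) (nat_lit 76) (nat_lit 7611611803) (nat_lit 9) (nat_lit 4) (nat_lit 10) (nat_lit 5) (nat_lit 10) (nat_lit 4) (nat_lit 311) (nat_lit 272) (nat_lit 197)))))))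 (XT.nd (nat_lit 1092) (nat_lit 76) (nat_lit 0) (XT.nd (nat_lit 546) (nat_lit 228) (nat_lit 0) (XT.nd (nat_lit 234) (nat_lit 76) (nat_lit 0) (XT.nd (nat_lit 78) (nat_lit 0) (nat_lit 0) (XT.lf (nat_lit 0) (nat_lit 1793640361) (nat_lit 152) (nat_lit 42293832190) (nat_lit 76) (nat_lit 38589665264) (nat_lit 8) (nat_lit 5) (nat_lit 10) (nat_lit 5) (nat_lit 9) (nat_lit 4) (nat_lit 312) (nat_lit 272) (nat_lit 196)) (XT.nd (nat_lit 78) (nat_lit 0) (nat_lit 0) (XT.lf (nat_lit 0) (nat_lit 11534299554) (nat_lit 152) (nat_lit 22043117157) (nat_lit 76) (nat_lit 54654456945) (nat_lit 8) (nat_lit 5) (nat_lit 10) (nat_lit 5) (nat_lit 9) (nat_lit 4) (nat_lit 313) (nat_lit 272) (nat_lit 195)) (XT.lf (nat_lit 0) (nat_lit 22048851850) (nat_lit 152) (nat_lit 181974390) (nat_lit 76) (nat_lit 72000598313) (nat_lit 8) (nat_lit 5) (nat_lit 10) (nat_lit 5) (nat_lit 9) (nat_lit 4) (nat_lit 314) (nat_lit 272)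 (nat_lit 194)))) (XT.nd (nat_lit 156) (nat_lit 0) (nat_lit 0) (XT.nd (nat_lit 78) (nat_lit 0) (nat_lit 0) (XT.lf (nat_lit 0) (nat_lit 24652354226) (nat_lit 76) (nat_lit 9340141193) (nat_lit 152) (nat_lit 66671416801) (nat_lit 7) (nat_lit 5) (nat_lit 8) (nat_lit 5) (nat_lit 9) (nat_lit 4) (nat_lit 315) (nat_lit 272) (nat_lit 193)) (XT.lf (nat_lit 0) (nat_lit 47002030083) (nat_lit 152) (nat_lit 56246131947) (nat_lit 0) (nat_lit 4354011261) (nat_lit 7) (nat_lit 5) (nat_lit 9) (nat_lit 4) (nat_lit 7) (nat_lit 4) (nat_lit 316) (nat_lit 272) (nat_lit 192))) (XT.nd (nat_lit 78) (nat_lit 0) (nat_lit 0) (XT.lf (nat_lit 0) (nat_lit 61290393873) (nat_lit 152) (nat_lit 35150394793) (nat_lit 0) (nat_lit 18635667162) (nat_lit 7) (nat_lit 5) (nat_lit 9) (nat_lit 4) (nat_lit 7) (nat_lit 4) (nat_lit 317) (nat_lit 272) (nat_lit 191)) (XT.lf (nat_lit 0) (nat_lit 76717627953) (nat_lit 152) (nat_lit 12374704136)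 (nat_lit 0) (nat_lit 34056690234) (nat_lit 7) (nat_lit 5) (nat_lit 9) (nat_lit 4) (nat_lit 7) (nat_lit 4) (nat_lit 318) (nat_lit 272) (nat_lit 190))))) (XT.nd (nat_lit 234) (nat_lit 152) (nat_lit 0) (XT.nd (nat_lit 78) (nat_lit 0) (nat_lit 0) (XT.lf (nat_lit 0) (nat_lit 12859175096) (nat_lit 76) (nat_lit 80825241344) (nat_lit 76) (nat_lit 38158552692) (nat_lit 6) (nat_lit 4) (nat_lit 7) (nat_lit 5) (nat_lit 7) (nat_lit 4) (nat_lit 319) (nat_lit 272) (nat_lit 189)) (XT.nd (nat_lit 78) (nat_lit 0) (nat_lit 0) (XT.lf (nat_lit 0) (nat_lit 40808570988) (nat_lit 76) (nat_lit 71534556309) (nat_lit 76) (nat_lit 28862542719) (nat_lit 6) (nat_lit 4) (nat_lit 7) (nat_lit 5) (nat_lit 7) (nat_lit 4) (nat_lit 320) (nat_lit 272) (nat_lit 188)) (XT.lf (nat_lit 0) (nat_lit 70987479598) (nat_lit 76) (nat_lit 61503567414) (nat_lit 76) (nat_lit 18826623326) (nat_lit 6) (nat_lit 4) (nat_lit 7) (nat_lit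 5) (nat_lit 7) (nat_lit 4) (nat_lit 321) (nat_lit 272) (nat_lit 187)))) (XT.nd (nat_lit 156) (nat_lit 76) (nat_lit 0) (XT.nd (nat_lit 78) (nat_lit 76) (nat_lit 0) (XT.lf (nat_lit 0) (nat_lit 103574738904) (nat_lit 76) (nat_lit 50672831763) (nat_lit 76) (nat_lit 7991322398) (nat_lit 6) (nat_lit 4) (nat_lit 7) (nat_lit 5) (nat_lit 7) (nat_lit 4) (nat_lit 322) (nat_lit 272) (nat_lit 186)) (XT.lf (nat_lit 0) (nat_lit 3522101624) (nat_lit 152) (nat_lit 35359765092) (nat_lit 76) (nat_lit 135145056465) (nat_lit 5) (nat_lit 5) (nat_lit 7) (nat_lit 5) (nat_lit 6) (nat_lit 4) (nat_lit 323) (nat_lit 272) (nat_lit 185))) (XT.nd (nat_lit 78) (nat_lit 76) (nat_lit 0) (XT.lf (nat_lit 0) (nat_lit 15522016515) (nat_lit 152) (nat_lit 10403856107) (nat_lit 76) (nat_lit 160815748447) (nat_lit 5) (nat_lit 5) (nat_lit 7) (nat_lit 5) (nat_lit 6) (nat_lit 4) (nat_lit 324) (nat_lit 272) (nat_lit 184)) (XT.lf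 (nat_lit 0) (nat_lit 17414810510) (nat_lit 76) (nat_lit 11483307294) (nat_lit 152) (nat_lit 171542084474) (nat_lit 4) (nat_lit 5) (nat_lit 5) (nat_lit 5) (nat_lit 6) (nat_lit 4) (nat_lit 325) (nat_lit 272) (nat_lit 183)))))) (XT.nd (nat_lit 546) (nat_lit 76) (nat_lit 0) (XT.nd (nat_lit 234) (nat_lit 0) (nat_lit 0) (XT.nd (nat_lit 78) (nat_lit 0) (nat_lit 0) (XT.lf (nat_lit 0) (nat_lit 43732507905) (nat_lit 152) (nat_lit 167272517637) (nat_lit 0) (nat_lit 4198591111) (nat_lit 4) (nat_lit 5) (nat_lit 6) (nat_lit 4) (nat_lit 4) (nat_lit 4) (nat_lit 326) (nat_lit 272) (nat_lit 182)) (XT.nd (nat_lit 78) (nat_lit 0) (nat_lit 0) (XT.lf (nat_lit 0) (nat_lit 60049504461) (nat_lit 152) (nat_lit 150562223054) (nat_lit 0) (nat_lit 20512710768) (nat_lit 4) (nat_lit 5) (nat_lit 6) (nat_lit 4) (nat_lit 4) (nat_lit 4) (nat_lit 327) (nat_lit 272) (nat_lit 181)) (XT.lf (nat_lit 0) (nat_lit 77669626969)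 (nat_lit 152) (nat_lit 132519310235) (nat_lit 0) (nat_lit 38130169481) (nat_lit 4) (nat_lit 5) (nat_lit 6) (nat_lit 4) (nat_lit 4) (nat_lit 4) (nat_lit 328) (nat_lit 272) (nat_lit 180)))) (XT.nd (nat_lit 156) (nat_lit 0) (nat_lit 0) (XT.nd (nat_lit 78) (nat_lit 0) (nat_lit 0) (XT.lf (nat_lit 0) (nat_lit 96697290968) (nat_lit 152) (nat_lit 113036858215) (nat_lit 0) (nat_lit 57155367003) (nat_lit 4) (nat_lit 5) (nat_lit 6) (nat_lit 4) (nat_lit 4) (nat_lit 4) (nat_lit 329) (nat_lit 272) (nat_lit 179)) (XT.lf (nat_lit 0) (nat_lit 117245252987) (nat_lit 152) (nat_lit 91999415426) (nat_lit 0) (nat_lit 77701045248) (nat_lit 4) (nat_lit 5) (nat_lit 6) (nat_lit 4) (nat_lit 4) (nat_lit 4) (nat_lit 330) (nat_lit 272) (nat_lit 178))) (XT.nd (nat_lit 78) (nat_lit 0) (nat_lit 0) (XT.lf (nat_lit 0) (nat_lit 139435278727) (nat_lit 152) (nat_lit 69282315542) (nat_lit 0) (nat_lit 99888956381) (nat_lit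 4) (nat_lit 5) (nat_lit 6) (nat_lit 4) (nat_lit 4) (nat_lit 4) (nat_lit 331) (nat_lit 272) (nat_lit 177)) (XT.lf (nat_lit 0) (nat_lit 163398864636) (nat_lit 152) (nat_lit 44750938710) (nat_lit 0) (nat_lit 123850584321) (nat_lit 4) (nat_lit 5) (nat_lit 6) (nat_lit 4) (nat_lit 4) (nat_lit 4) (nat_lit 332) (nat_lit 272) (nat_lit 176))))) (XT.nd (nat_lit 312) (nat_lit 0) (nat_lit 0) (XT.nd (nat_lit 156) (nat_lit 0) (nat_lit 0) (XT.nd (nat_lit 78) (nat_lit 76) (nat_lit 0) (XT.lf (nat_lit 0) (nat_lit 189278017149) (nat_lit 152) (nat_lit 18259913809) (nat_lit 0) (nat_lit 149727923901) (nat_lit 4) (nat_lit 5) (nat_lit 6) (nat_lit 4) (nat_lit 4) (nat_lit 4) (nat_lit 333) (nat_lit 272) (nat_lit 175)) (XT.lf (nat_lit 0) (nat_lit 10892636821) (nat_lit 76) (nat_lit 206595425563) (nat_lit 76) (nat_lit 167043653672) (nat_lit 3) (nat_lit 4) (nat_lit 4) (nat_lit 5) (nat_lit 4) (nat_lit 4) (nat_lit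 334) (nat_lit 272) (nat_lit 174))) (XT.nd (nat_lit 78) (nat_lit 0) (nat_lit 0) (XT.lf (nat_lit 0) (nat_lit 43413266000) (nat_lit 76) (nat_lit 205039538137) (nat_lit 76) (nat_lit 165486211947) (nat_lit 3) (nat_lit 4) (nat_lit 4) (nat_lit 5) (nat_lit 4) (nat_lit 4) (nat_lit 335) (nat_lit 272) (nat_lit 173)) (XT.lf (nat_lit 0) (nat_lit 78533153863) (nat_lit 76) (nat_lit 203360307008) (nat_lit 76) (nat_lit 163805541653) (nat_lit 3) (nat_lit 4) (nat_lit 4) (nat_lit 5) (nat_lit 4) (nat_lit 4) (nat_lit 336) (nat_lit 272) (nat_lit 172)))) (XT.nd (nat_lit 156) (nat_lit 0) (nat_lit 0) (XT.nd (nat_lit 78) (nat_lit 0) (nat_lit 0) (XT.lf (nat_lit 0) (nat_lit 116460418265) (nat_lit 76) (nat_lit 201547781178) (nat_lit 76) (nat_lit 161991683262) (nat_lit 3) (nat_lit 4) (nat_lit 4) (nat_lit 5) (nat_lit 4) (nat_lit 4) (nat_lit 337) (nat_lit 272) (nat_lit 171)) (XT.lf (nat_lit 0) (nat_lit 157419813366)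 (nat_lit 76) (nat_lit 199591219752) (nat_lit 76) (nat_lit 160033887984) (nat_lit 3) (nat_lit 4) (nat_lit 4) (nat_lit 5) (nat_lit 4) (nat_lit 4) (nat_lit 338) (nat_lit 272) (nat_lit 170))) (XT.nd (nat_lit 78) (nat_lit 0) (nat_lit 0) (XT.lf (nat_lit 0) (nat_lit 201654061506) (nat_lit 76) (nat_lit 197479028293) (nat_lit 76) (nat_lit 157920554070) (nat_lit 3) (nat_lit 4) (nat_lit 4) (nat_lit 5) (nat_lit 4) (nat_lit 4) (nat_lit 339) (nat_lit 272) (nat_lit 169)) (XT.lf (nat_lit 0) (nat_lit 249425291564) (nat_lit 76) (nat_lit 195198690111) (nat_lit 76) (nat_lit 155639158058) (nat_lit 3) (nat_lit 4) (nat_lit 4) (nat_lit 5) (nat_lit 4) (nat_lit 4) (nat_lit 340) (nat_lit 272) (nat_lit 168))))))))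
noncomputable def xc71 : XT := (XT.nd (nat_lit 35802) (nat_lit 0) (nat_lit 608) (XT.nd (nat_lit 1092) (nat_lit 0) (nat_lit 0) (XT.nd (nat_lit 546) (nat_lit 0) (nat_lit 0) (XT.nd (nat_lit 234) (nat_lit 0) (nat_lit 0) (XT.nd (nat_lit 78) (nat_lit 0) (nat_lit 0) (XT.lf (nat_lit 0) (nat_lit 301016592311) (nat_lit 76) (nat_lit 192736692090) (nat_lit 76) (nat_lit 153176180565) (nat_lit 3) (nat_lit 4) (nat_lit 4) (nat_lit 5) (nat_lit 4) (nat_lit 4) (nat_lit 341) (nat_lit 272) (nat_lit 167)) (XT.nd (nat_lit 78) (nat_lit 0) (nat_lit 0) (XT.lf (nat_lit 0) (nat_lit 356733689972) (nat_lit 76) (nat_lit 190078444613) (nat_lit 76) (nat_lit 150517026169) (nat_lit 3) (nat_lit 4) (nat_lit 4) (nat_lit 5) (nat_lit 4) (nat_lit 4) (nat_lit 342) (nat_lit 272) (nat_lit 166)) (XT.lf (nat_lit 0) (nat_lit 416906759942) (nat_lit 76) (nat_lit 187208195101) (nat_lit 76) (nat_lit 147645936918) (nat_lit 3) (nat_lit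 4) (nat_lit 4) (nat_lit 5) (nat_lit 4) (nat_lit 4) (nat_lit 343) (nat_lit 272) (nat_lit 165)))) (XT.nd (nat_lit 156) (nat_lit 0) (nat_lit 0) (XT.nd (nat_lit 78) (nat_lit 0) (nat_lit 0) (XT.lf (nat_lit 0) (nat_lit 481892383376) (nat_lit 76) (nat_lit 184108934670) (nat_lit 76) (nat_lit 144545898950) (nat_lit 3) (nat_lit 4) (nat_lit 4) (nat_lit 5) (nat_lit 4) (nat_lit 4) (nat_lit 344) (nat_lit 272) (nat_lit 164)) (XT.lf (nat_lit 0) (nat_lit 552075660265) (nat_lit 76) (nat_lit 180762297330) (nat_lit 76) (nat_lit 141198541670) (nat_lit 3) (nat_lit 4) (nat_lit 4) (nat_lit 5) (nat_lit 4) (nat_lit 4) (nat_lit 345) (nat_lit 272) (nat_lit 163))) (XT.nd (nat_lit 78) (nat_lit 0) (nat_lit 0) (XT.lf (nat_lit 0) (nat_lit 627872491509) (nat_lit 76) (nat_lit 177148451157) (nat_lit 76) (nat_lit 137584028885) (nat_lit 3) (nat_lit 4) (nat_lit 4) (nat_lit 5) (nat_lit 4) (nat_lit 4) (nat_lit 346) (nat_lit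 272) (nat_lit 162)) (XT.lf (nat_lit 0) (nat_lit 709732043514) (nat_lit 76) (nat_lit 173245980767) (nat_lit 76) (nat_lit 133680941261) (nat_lit 3) (nat_lit 4) (nat_lit 4) (nat_lit 5) (nat_lit 4) (nat_lit 4) (nat_lit 347) (nat_lit 272) (nat_lit 161))))) (XT.nd (nat_lit 234) (nat_lit 0) (nat_lit 0) (XT.nd (nat_lit 78) (nat_lit 0) (nat_lit 0) (XT.lf (nat_lit 0) (nat_lit 798139409923) (nat_lit 76) (nat_lit 169031760409) (nat_lit 76) (nat_lit 129466149391) (nat_lit 3) (nat_lit 4) (nat_lit 4) (nat_lit 5) (nat_lit 4) (nat_lit 4) (nat_lit 348) (nat_lit 272) (nat_lit 160)) (XT.nd (nat_lit 78) (nat_lit 0) (nat_lit 0) (XT.lf (nat_lit 0) (nat_lit 893618486241) (nat_lit 76) (nat_lit 164480816925) (nat_lit 76) (nat_lit 124914676728) (nat_lit 3) (nat_lit 4) (nat_lit 4) (nat_lit 5) (nat_lit 4) (nat_lit 4) (nat_lit 349) (nat_lit 272) (nat_lit 159)) (XT.lf (nat_lit 0) (nat_lit 996735074400) (nat_lit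 76) (nat_lit 159566181761) (nat_lit 76) (nat_lit 119999551585) (nat_lit 3) (nat_lit 4) (nat_lit 4) (nat_lit 5) (nat_lit 4) (nat_lit 4) (nat_lit 350) (nat_lit 272) (nat_lit 158)))) (XT.nd (nat_lit 156) (nat_lit 0) (nat_lit 0) (XT.nd (nat_lit 78) (nat_lit 0) (nat_lit 0) (XT.lf (nat_lit 0) (nat_lit 1108100235665) (nat_lit 76) (nat_lit 154258731153) (nat_lit 76) (nat_lit 114691647292) (nat_lit 3) (nat_lit 4) (nat_lit 4) (nat_lit 5) (nat_lit 4) (nat_lit 4) (nat_lit 351) (nat_lit 272) (nat_lit 157)) (XT.lf (nat_lit 0) (nat_lit 1228373911731) (nat_lit 76) (nat_lit 148527013543) (nat_lit 76) (nat_lit 108959509603) (nat_lit 3) (nat_lit 4) (nat_lit 4) (nat_lit 5) (nat_lit 4) (nat_lit 4) (nat_lit 352) (nat_lit 272) (nat_lit 156))) (XT.nd (nat_lit 78) (nat_lit 0) (nat_lit 0) (XT.lf (nat_lit 0) (nat_lit 1358268835494) (nat_lit 76) (nat_lit 142337063196) (nat_lit 76) (nat_lit 102769170294) (nat_lit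 3) (nat_lit 4) (nat_lit 4) (nat_lit 5) (nat_lit 4) (nat_lit 4) (nat_lit 353) (nat_lit 272) (nat_lit 155)) (XT.lf (nat_lit 0) (nat_lit 1498554754650) (nat_lit 76) (nat_lit 135652198925) (nat_lit 76) (nat_lit 96083945873) (nat_lit 3) (nat_lit 4) (nat_lit 4) (nat_lit 5) (nat_lit 4) (nat_lit 4) (nat_lit 354) (nat_lit 272) (nat_lit 154)))))) (XT.nd (nat_lit 546) (nat_lit 0) (nat_lit 0) (XT.nd (nat_lit 234) (nat_lit 0) (nat_lit 0) (XT.nd (nat_lit 78) (nat_lit 0) (nat_lit 0) (XT.lf (nat_lit 0) (nat_lit 1650062993165) (nat_lit 76) (nat_lit 128432806719) (nat_lit 76) (nat_lit 88864220196) (nat_lit 3) (nat_lit 4) (nat_lit 4) (nat_lit 5) (nat_lit 4) (nat_lit 4) (nat_lit 355) (nat_lit 272) (nat_lit 153)) (XT.nd (nat_lit 78) (nat_lit 0) (nat_lit 0) (XT.lf (nat_lit 0) (nat_lit 1813691377637) (nat_lit 76) (nat_lit 120636104995) (nat_lit 76) (nat_lit 81067209702) (nat_lit 3) (nat_lit 4) (nat_lit 4)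 (nat_lit 5) (nat_lit 4) (nat_lit 4) (nat_lit 356) (nat_lit 272) (nat_lit 152)) (XT.lf (nat_lit 0) (nat_lit 1990409557751) (nat_lit 76) (nat_lit 112215891077) (nat_lit 76) (nat_lit 72646709884) (nat_lit 3) (nat_lit 4) (nat_lit 4) (nat_lit 5) (nat_lit 4) (nat_lit 4) (nat_lit 357) (nat_lit 272) (nat_lit 151)))) (XT.nd (nat_lit 156) (nat_lit 0) (nat_lit 0) (XT.nd (nat_lit 78) (nat_lit 0) (nat_lit 0) (XT.lf (nat_lit 0) (nat_lit 2181264752354) (nat_lit 76) (nat_lit 103122267399) (nat_lit 76) (nat_lit 63552821486) (nat_lit 3) (nat_lit 4) (nat_lit 4) (nat_lit 5) (nat_lit 4) (nat_lit 4) (nat_lit 358) (nat_lit 272) (nat_lit 150)) (XT.lf (nat_lit 0) (nat_lit 2387387955191) (nat_lit 76) (nat_lit 93301345822) (nat_lit 76) (nat_lit 53731654798) (nat_lit 3) (nat_lit 4) (nat_lit 4) (nat_lit 5) (nat_lit 4) (nat_lit 4) (nat_lit 359) (nat_lit 272) (nat_lit 149))) (XT.nd (nat_lit 78) (nat_lit 0) (nat_lit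 0) (XT.lf (nat_lit 0) (nat_lit 2610000637092) (nat_lit 76) (nat_lit 82694928293) (nat_lit 76) (nat_lit 43125010313) (nat_lit 3) (nat_lit 4) (nat_lit 4) (nat_lit 5) (nat_lit 4) (nat_lit 4) (nat_lit 360) (nat_lit 272) (nat_lit 148)) (XT.lf (nat_lit 0) (nat_lit 2850421984323) (nat_lit 76) (nat_lit 71240161966) (nat_lit 76) (nat_lit 31670033842) (nat_lit 3) (nat_lit 4) (nat_lit 4) (nat_lit 5) (nat_lit 4) (nat_lit 4) (nat_lit 361) (nat_lit 272) (nat_lit 147))))) (XT.nd (nat_lit 33852) (nat_lit 0) (nat_lit 2888) (XT.nd (nat_lit 33696) (nat_lit 0) (nat_lit 2812) (XT.lf (nat_lit 0) (nat_lit 3110076715977) (nat_lit 76) (nat_lit 58869166744) (nat_lit 76) (nat_lit 19298844043) (nat_lit 3) (nat_lit 4) (nat_lit 4) (nat_lit 5) (nat_lit 4) (nat_lit 4) (nat_lit 362) (nat_lit 272) (nat_lit 146)) (XT.nd (nat_lit 78) (nat_lit 0) (nat_lit 0) (XT.lf (nat_lit 0) (nat_lit 604657557) (nat_lit 532) (nat_lit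 2569628802) (nat_lit 532) (nat_lit 2569628802) (nat_lit 40) (nat_lit 3) (nat_lit 47) (nat_lit 3) (nat_lit 47) (nat_lit 5) (nat_lit 273) (nat_lit 273) (nat_lit 234)) (XT.lf (nat_lit 0) (nat_lit 1733307698) (nat_lit 532) (nat_lit 65719921) (nat_lit 532) (nat_lit 10108237595) (nat_lit 40) (nat_lit 3) (nat_lit 47) (nat_lit 3) (nat_lit 47) (nat_lit 5) (nat_lit 274) (nat_lit 273) (nat_lit 233)))) (XT.nd (nat_lit 156) (nat_lit 0) (nat_lit 76) (XT.nd (nat_lit 78) (nat_lit 0) (nat_lit 0) (XT.lf (nat_lit 0) (nat_lit 2467007694) (nat_lit 456) (nat_lit 6760701803) (nat_lit 532) (nat_lit 3119325330) (nat_lit 41) (nat_lit 5) (nat_lit 47) (nat_lit 5) (nat_lit 48) (nat_lit 5) (nat_lit 275) (nat_lit 273) (nat_lit 232)) (XT.lf (nat_lit 0) (nat_lit 3263779932) (nat_lit 456) (nat_lit 1203703972) (nat_lit 532) (nat_lit 8354339939) (nat_lit 41) (nat_lit 5) (nat_lit 47) (nat_lit 5) (nat_lit 48) (nat_lit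 5) (nat_lit 276) (nat_lit 273) (nat_lit 231))) (XT.nd (nat_lit 78) (nat_lit 0) (nat_lit 0) (XT.lf (nat_lit 0) (nat_lit 4223814629) (nat_lit 456) (nat_lit 8326178823) (nat_lit 532) (nat_lit 776814889) (nat_lit 42) (nat_lit 5) (nat_lit 48) (nat_lit 5) (nat_lit 49) (nat_lit 5) (nat_lit 277) (nat_lit 273) (nat_lit 230)) (XT.lf (nat_lit 0) (nat_lit 5372217973) (nat_lit 456) (nat_lit 2246729372) (nat_lit 532) (nat_lit 6244480107) (nat_lit 42) (nat_lit 5) (nat_lit 48) (nat_lit 5) (nat_lit 49) (nat_lit 5) (nat_lit 278) (nat_lit 273) (nat_lit 229))))))) (XT.nd (nat_lit 1092) (nat_lit 836) (nat_lit 0) (XT.nd (nat_lit 546) (nat_lit 608) (nat_lit 0) (XT.nd (nat_lit 234) (nat_lit 532) (nat_lit 0) (XT.nd (nat_lit 78) (nat_lit 380) (nat_lit 0) (XT.lf (nat_lit 76) (nat_lit 4517228799) (nat_lit 0) (nat_lit 2168497847) (nat_lit 532) (nat_lit 7751539990) (nat_lit 43) (nat_lit 5) (nat_lit 42) (nat_lit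 5) (nat_lit 49) (nat_lit 5) (nat_lit 279) (nat_lit 273) (nat_lit 228)) (XT.nd (nat_lit 78) (nat_lit 456) (nat_lit 0) (XT.lf (nat_lit 0) (nat_lit 8223475127) (nat_lit 456) (nat_lit 3223112883) (nat_lit 76) (nat_lit 3601030354) (nat_lit 43) (nat_lit 5) (nat_lit 49) (nat_lit 5) (nat_lit 44) (nat_lit 5) (nat_lit 280) (nat_lit 273) (nat_lit 227)) (XT.lf (nat_lit 0) (nat_lit 4132095469) (nat_lit 456) (nat_lit 5877031379) (nat_lit 532) (nat_lit 5687808619) (nat_lit 37) (nat_lit 5) (nat_lit 43) (nat_lit 5) (nat_lit 44) (nat_lit 5) (nat_lit 281) (nat_lit 273) (nat_lit 226)))) (XT.nd (nat_lit 156) (nat_lit 304) (nat_lit 0) (XT.nd (nat_lit 78) (nat_lit 228) (nat_lit 0) (XT.lf (nat_lit 0) (nat_lit 12002227246) (nat_lit 532) (nat_lit 4167383847) (nat_lit 76) (nat_lit 223537553) (nat_lit 37) (nat_lit 5) (nat_lit 44) (nat_lit 5) (nat_lit 38) (nat_lit 5) (nat_lit 282) (nat_lit 273) (nat_lit 225))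 (XT.lf (nat_lit 0) (nat_lit 3833536060) (nat_lit 228) (nat_lit 10539105748) (nat_lit 304) (nat_lit 2755097439) (nat_lit 34) (nat_lit 5) (nat_lit 37) (nat_lit 5) (nat_lit 38) (nat_lit 5) (nat_lit 283) (nat_lit 273) (nat_lit 224))) (XT.nd (nat_lit 78) (nat_lit 304) (nat_lit 0) (XT.lf (nat_lit 0) (nat_lit 12684775782) (nat_lit 228) (nat_lit 4336231818) (nat_lit 304) (nat_lit 893125587) (nat_lit 34) (nat_lit 5) (nat_lit 37) (nat_lit 5) (nat_lit 38) (nat_lit 5) (nat_lit 284) (nat_lit 273) (nat_lit 223)) (XT.lf (nat_lit 0) (nat_lit 1183967789) (nat_lit 304) (nat_lit 15207987431) (nat_lit 76) (nat_lit 2359653346) (nat_lit 30) (nat_lit 5) (nat_lit 34) (nat_lit 5) (nat_lit 31) (nat_lit 5) (nat_lit 285) (nat_lit 273) (nat_lit 222))))) (XT.nd (nat_lit 234) (nat_lit 380) (nat_lit 0) (XT.nd (nat_lit 78) (nat_lit 228) (nat_lit 0) (XT.lf (nat_lit 0) (nat_lit 3615009495) (nat_lit 304) (nat_lit 6495720326)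 (nat_lit 76) (nat_lit 9524694284) (nat_lit 30) (nat_lit 5) (nat_lit 34) (nat_lit 5) (nat_lit 31) (nat_lit 5) (nat_lit 286) (nat_lit 273) (nat_lit 221)) (XT.nd (nat_lit 78) (nat_lit 0) (nat_lit 0) (XT.lf (nat_lit 0) (nat_lit 3040270665) (nat_lit 228) (nat_lit 3251817435) (nat_lit 304) (nat_lit 14293807133) (nat_lit 27) (nat_lit 5) (nat_lit 30) (nat_lit 5) (nat_lit 31) (nat_lit 5) (nat_lit 287) (nat_lit 273) (nat_lit 220)) (XT.lf (nat_lit 0) (nat_lit 9444836593) (nat_lit 304) (nat_lit 8020514733) (nat_lit 76) (nat_lit 4126201542) (nat_lit 27) (nat_lit 5) (nat_lit 31) (nat_lit 5) (nat_lit 28) (nat_lit 5) (nat_lit 288) (nat_lit 273) (nat_lit 219)))) (XT.nd (nat_lit 156) (nat_lit 228) (nat_lit 0) (XT.nd (nat_lit 78) (nat_lit 0) (nat_lit 0) (XT.lf (nat_lit 0) (nat_lit 2271398070) (nat_lit 152) (nat_lit 10698366036) (nat_lit 228) (nat_lit 9698366261) (nat_lit 25) (nat_lit 5) (nat_lit 27)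 (nat_lit 5) (nat_lit 28) (nat_lit 5) (nat_lit 289) (nat_lit 273) (nat_lit 218)) (XT.lf (nat_lit 0) (nat_lit 13819047021) (nat_lit 152) (nat_lit 3158648953) (nat_lit 228) (nat_lit 6837116524) (nat_lit 25) (nat_lit 5) (nat_lit 27) (nat_lit 5) (nat_lit 28) (nat_lit 5) (nat_lit 290) (nat_lit 273) (nat_lit 217))) (XT.nd (nat_lit 78) (nat_lit 76) (nat_lit 0) (XT.lf (nat_lit 0) (nat_lit 1151743399) (nat_lit 152) (nat_lit 20285037467) (nat_lit 228) (nat_lit 3606061713) (nat_lit 23) (nat_lit 5) (nat_lit 25) (nat_lit 5) (nat_lit 26) (nat_lit 5) (nat_lit 291) (nat_lit 273) (nat_lit 216)) (XT.lf (nat_lit 0) (nat_lit 234942637) (nat_lit 228) (nat_lit 12697690762) (nat_lit 76) (nat_lit 13409101990) (nat_lit 22) (nat_lit 5) (nat_lit 25) (nat_lit 5) (nat_lit 23) (nat_lit 5) (nat_lit 292) (nat_lit 273) (nat_lit 215)))))) (XT.nd (nat_lit 546) (nat_lit 380) (nat_lit 0) (XT.nd (nat_lit 234) (nat_lit 304)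 (nat_lit 0) (XT.nd (nat_lit 78) (nat_lit 152) (nat_lit 0) (XT.lf (nat_lit 0) (nat_lit 4172844027) (nat_lit 228) (nat_lit 724345522) (nat_lit 76) (nat_lit 22841145489) (nat_lit 22) (nat_lit 5) (nat_lit 25) (nat_lit 5) (nat_lit 23) (nat_lit 5) (nat_lit 293) (nat_lit 273) (nat_lit 214)) (XT.nd (nat_lit 78) (nat_lit 0) (nat_lit 0) (XT.lf (nat_lit 0) (nat_lit 8818698245) (nat_lit 228) (nat_lit 16493641199) (nat_lit 76) (nat_lit 3902929880) (nat_lit 20) (nat_lit 5) (nat_lit 23) (nat_lit 5) (nat_lit 21) (nat_lit 5) (nat_lit 294) (nat_lit 273) (nat_lit 213)) (XT.lf (nat_lit 0) (nat_lit 13969780504) (nat_lit 228) (nat_lit 3672753592) (nat_lit 76) (nat_lit 13157176815) (nat_lit 20) (nat_lit 5) (nat_lit 23) (nat_lit 5) (nat_lit 21) (nat_lit 5) (nat_lit 295) (nat_lit 273) (nat_lit 212)))) (XT.nd (nat_lit 156) (nat_lit 152) (nat_lit 0) (XT.nd (nat_lit 78) (nat_lit 0) (nat_lit 0) (XT.lf (nat_lit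 0) (nat_lit 10689325286) (nat_lit 152) (nat_lit 9087777284) (nat_lit 228) (nat_lit 12714307566) (nat_lit 18) (nat_lit 5) (nat_lit 20) (nat_lit 5) (nat_lit 21) (nat_lit 5) (nat_lit 296) (nat_lit 273) (nat_lit 211)) (XT.lf (nat_lit 0) (nat_lit 26143109003) (nat_lit 228) (nat_lit 7927007905) (nat_lit 76) (nat_lit 240832510) (nat_lit 18) (nat_lit 5) (nat_lit 21) (nat_lit 5) (nat_lit 19) (nat_lit 4) (nat_lit 297) (nat_lit 273) (nat_lit 210))) (XT.nd (nat_lit 78) (nat_lit 76) (nat_lit 0) (XT.lf (nat_lit 0) (nat_lit 7162170076) (nat_lit 76) (nat_lit 26252883970) (nat_lit 152) (nat_lit 2829294788) (nat_lit 17) (nat_lit 5) (nat_lit 18) (nat_lit 5) (nat_lit 19) (nat_lit 4) (nat_lit 298) (nat_lit 273) (nat_lit 209)) (XT.lf (nat_lit 0) (nat_lit 3000296601) (nat_lit 152) (nat_lit 14500343784) (nat_lit 76) (nat_lit 20809287757) (nat_lit 16) (nat_lit 5) (nat_lit 18) (nat_lit 5) (nat_lit 17) (nat_lit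 5) (nat_lit 299) (nat_lit 273) (nat_lit 208))))) (XT.nd (nat_lit 312) (nat_lit 152) (nat_lit 0) (XT.nd (nat_lit 156) (nat_lit 76) (nat_lit 0) (XT.nd (nat_lit 78) (nat_lit 0) (nat_lit 0) (XT.lf (nat_lit 0) (nat_lit 1218550697) (nat_lit 152) (nat_lit 7943490039) (nat_lit 228) (nat_lit 31371366263) (nat_lit 14) (nat_lit 5) (nat_lit 16) (nat_lit 5) (nat_lit 17) (nat_lit 5) (nat_lit 300) (nat_lit 273) (nat_lit 207)) (XT.lf (nat_lit 0) (nat_lit 16270260657) (nat_lit 228) (nat_lit 23968157052) (nat_lit 76) (nat_lit 2660085341) (nat_lit 14) (nat_lit 5) (nat_lit 17) (nat_lit 5) (nat_lit 15) (nat_lit 4) (nat_lit 301) (nat_lit 273) (nat_lit 206))) (XT.nd (nat_lit 78) (nat_lit 76) (nat_lit 0) (XT.lf (nat_lit 0) (nat_lit 24143811493) (nat_lit 228) (nat_lit 7615990621) (nat_lit 76) (nat_lit 13677290975) (nat_lit 14) (nat_lit 5) (nat_lit 17) (nat_lit 5) (nat_lit 15) (nat_lit 4) (nat_lit 302) (nat_lit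 273) (nat_lit 205)) (XT.lf (nat_lit 0) (nat_lit 10557726059) (nat_lit 76) (nat_lit 22334497704) (nat_lit 152) (nat_lit 15266967056) (nat_lit 13) (nat_lit 5) (nat_lit 14) (nat_lit 5) (nat_lit 15) (nat_lit 4) (nat_lit 303) (nat_lit 273) (nat_lit 204)))) (XT.nd (nat_lit 156) (nat_lit 152) (nat_lit 0) (XT.nd (nat_lit 78) (nat_lit 0) (nat_lit 0) (XT.lf (nat_lit 0) (nat_lit 30604078684) (nat_lit 76) (nat_lit 11936044686) (nat_lit 152) (nat_lit 8542981142) (nat_lit 13) (nat_lit 5) (nat_lit 14) (nat_lit 5) (nat_lit 15) (nat_lit 4) (nat_lit 304) (nat_lit 273) (nat_lit 203)) (XT.lf (nat_lit 0) (nat_lit 52240815883) (nat_lit 76) (nat_lit 711057278) (nat_lit 152) (nat_lit 1289712694) (nat_lit 13) (nat_lit 5) (nat_lit 14) (nat_lit 5) (nat_lit 15) (nat_lit 4) (nat_lit 305) (nat_lit 273) (nat_lit 202))) (XT.nd (nat_lit 78) (nat_lit 0) (nat_lit 0) (XT.lf (nat_lit 0) (nat_lit 6949257463) (nat_lit 152)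 (nat_lit 39172695610) (nat_lit 76) (nat_lit 11459592964) (nat_lit 11) (nat_lit 5) (nat_lit 13) (nat_lit 5) (nat_lit 12) (nat_lit 4) (nat_lit 306) (nat_lit 273) (nat_lit 201)) (XT.lf (nat_lit 0) (nat_lit 15844806471) (nat_lit 152) (nat_lit 20685594049) (nat_lit 76) (nat_lit 24650264167) (nat_lit 11) (nat_lit 5) (nat_lit 13) (nat_lit 5) (nat_lit 12) (nat_lit 4) (nat_lit 307) (nat_lit 273) (nat_lit 200))))))))
noncomputable def xc72 : XT := (XT.nd (nat_lit 2184) (nat_lit 0) (nat_lit 0) (XT.nd (nat_lit 1092) (nat_lit 228) (nat_lit 0) (XT.nd (nat_lit 546) (nat_lit 152) (nat_lit 0) (XT.nd (nat_lit 234) (nat_lit 152) (nat_lit 0) (XT.nd (nat_lit 78) (nat_lit 76) (nat_lit 0) (XT.lf (nat_lit 0) (nat_lit 25445096349) (nat_lit 152) (nat_lit 731472931) (nat_lit 76) (nat_lit 38891707561) (nat_lit 11) (nat_lit 5) (nat_lit 13) (nat_lit 5) (nat_lit 12) (nat_lit 4) (nat_lit 308) (nat_lit 273) (nat_lit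 199)) (XT.nd (nat_lit 78) (nat_lit 0) (nat_lit 0) (XT.lf (nat_lit 0) (nat_lit 21903622283) (nat_lit 76) (nat_lit 14430178063) (nat_lit 152) (nat_lit 32891477244) (nat_lit 10) (nat_lit 5) (nat_lit 11) (nat_lit 5) (nat_lit 12) (nat_lit 4) (nat_lit 309) (nat_lit 273) (nat_lit 198)) (XT.lf (nat_lit 0) (nat_lit 46380341228) (nat_lit 76) (nat_lit 1727081608) (nat_lit 152) (nat_lit 25606319880) (nat_lit 10) (nat_lit 5) (nat_lit 11) (nat_lit 5) (nat_lit 12) (nat_lit 4) (nat_lit 310) (nat_lit 273) (nat_lit 197)))) (XT.nd (nat_lit 156) (nat_lit 76) (nat_lit 0) (XT.nd (nat_lit 78) (nat_lit 76) (nat_lit 0) (XT.lf (nat_lit 0) (nat_lit 61105526769) (nat_lit 152) (nat_lit 6044850575) (nat_lit 0) (nat_lit 11388309719) (nat_lit 10) (nat_lit 5) (nat_lit 12) (nat_lit 4) (nat_lit 10) (nat_lit 4) (nat_lit 311) (nat_lit 273) (nat_lit 196)) (XT.lf (nat_lit 0) (nat_lit 17781863566) (nat_lit 76) (nat_lit 57828737701)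 (nat_lit 76) (nat_lit 8101664562) (nat_lit 9) (nat_lit 4) (nat_lit 10) (nat_lit 5) (nat_lit 10) (nat_lit 4) (nat_lit 312) (nat_lit 273) (nat_lit 195))) (XT.nd (nat_lit 78) (nat_lit 0) (nat_lit 0) (XT.lf (nat_lit 0) (nat_lit 2041695957) (nat_lit 152) (nat_lit 45489471555) (nat_lit 76) (nat_lit 41751631482) (nat_lit 8) (nat_lit 5) (nat_lit 10) (nat_lit 5) (nat_lit 9) (nat_lit 4) (nat_lit 313) (nat_lit 273) (nat_lit 194)) (XT.lf (nat_lit 0) (nat_lit 12553862377) (nat_lit 152) (nat_lit 23632615409) (nat_lit 76) (nat_lit 59096066276) (nat_lit 8) (nat_lit 5) (nat_lit 10) (nat_lit 5) (nat_lit 9) (nat_lit 4) (nat_lit 314) (nat_lit 273) (nat_lit 193))))) (XT.nd (nat_lit 234) (nat_lit 76) (nat_lit 0) (XT.nd (nat_lit 78) (nat_lit 76) (nat_lit 0) (XT.lf (nat_lit 0) (nat_lit 23902407089) (nat_lit 152) (nat_lit 35466489) (nat_lit 76) (nat_lit 77824769118) (nat_lit 8) (nat_lit 5) (nat_lit 10) (nat_lit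 5) (nat_lit 9) (nat_lit 4) (nat_lit 315) (nat_lit 273) (nat_lit 192)) (XT.nd (nat_lit 78) (nat_lit 0) (nat_lit 0) (XT.lf (nat_lit 0) (nat_lit 26781530800) (nat_lit 76) (nat_lit 10017146389) (nat_lit 152) (nat_lit 71911290573) (nat_lit 7) (nat_lit 5) (nat_lit 8) (nat_lit 5) (nat_lit 9) (nat_lit 4) (nat_lit 316) (nat_lit 273) (nat_lit 191)) (XT.lf (nat_lit 0) (nat_lit 50844109708) (nat_lit 152) (nat_lit 60595491750) (nat_lit 0) (nat_lit 4764085963) (nat_lit 7) (nat_lit 5) (nat_lit 9) (nat_lit 4) (nat_lit 7) (nat_lit 4) (nat_lit 317) (nat_lit 273) (nat_lit 190)))) (XT.nd (nat_lit 156) (nat_lit 76) (nat_lit 0) (XT.nd (nat_lit 78) (nat_lit 0) (nat_lit 0) (XT.lf (nat_lit 0) (nat_lit 66269474658) (nat_lit 152) (nat_lit 37823231235) (nat_lit 0) (nat_lit 20183699981) (nat_lit 7) (nat_lit 5) (nat_lit 9) (nat_lit 4) (nat_lit 7) (nat_lit 4) (nat_lit 318) (nat_lit 273) (nat_lit 189)) (XT.lf (nat_lit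 0) (nat_lit 82925269000) (nat_lit 152) (nat_lit 13235796077) (nat_lit 0) (nat_lit 36834169384) (nat_lit 7) (nat_lit 5) (nat_lit 9) (nat_lit 4) (nat_lit 7) (nat_lit 4) (nat_lit 319) (nat_lit 273) (nat_lit 188))) (XT.nd (nat_lit 78) (nat_lit 0) (nat_lit 0) (XT.lf (nat_lit 0) (nat_lit 14013530598) (nat_lit 76) (nat_lit 87233688885) (nat_lit 76) (nat_lit 41137658771) (nat_lit 6) (nat_lit 4) (nat_lit 7) (nat_lit 5) (nat_lit 7) (nat_lit 4) (nat_lit 320) (nat_lit 273) (nat_lit 187)) (XT.lf (nat_lit 0) (nat_lit 44189572865) (nat_lit 76) (nat_lit 77204013623) (nat_lit 76) (nat_lit 31103418233) (nat_lit 6) (nat_lit 4) (nat_lit 7) (nat_lit 5) (nat_lit 7) (nat_lit 4) (nat_lit 321) (nat_lit 273) (nat_lit 186)))))) (XT.nd (nat_lit 546) (nat_lit 76) (nat_lit 0) (XT.nd (nat_lit 234) (nat_lit 76) (nat_lit 0) (XT.nd (nat_lit 78) (nat_lit 76) (nat_lit 0) (XT.lf (nat_lit 0) (nat_lit 76774178150) (nat_lit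 76) (nat_lit 66374494297) (nat_lit 76) (nat_lit 20269671800) (nat_lit 6) (nat_lit 4) (nat_lit 7) (nat_lit 5) (nat_lit 7) (nat_lit 4) (nat_lit 322) (nat_lit 273) (nat_lit 185)) (XT.nd (nat_lit 78) (nat_lit 76) (nat_lit 0) (XT.lf (nat_lit 0) (nat_lit 111960440409) (nat_lit 76) (nat_lit 54680955980) (nat_lit 76) (nat_lit 8572219493) (nat_lit 6) (nat_lit 4) (nat_lit 7) (nat_lit 5) (nat_lit 7) (nat_lit 4) (nat_lit 323) (nat_lit 273) (nat_lit 184)) (XT.lf (nat_lit 0) (nat_lit 3855246474) (nat_lit 152) (nat_lit 38093447883) (nat_lit 76) (nat_lit 145996215081) (nat_lit 5) (nat_lit 5) (nat_lit 7) (nat_lit 5) (nat_lit 6) (nat_lit 4) (nat_lit 324) (nat_lit 273) (nat_lit 183)))) (XT.nd (nat_lit 156) (nat_lit 0) (nat_lit 0) (XT.nd (nat_lit 78) (nat_lit 76) (nat_lit 0) (XT.lf (nat_lit 0) (nat_lit 16811348873) (nat_lit 152) (nat_lit 11148110506) (nat_lit 76) (nat_lit 173717632489) (nat_lit 5) (nat_lit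 5) (nat_lit 7) (nat_lit 5) (nat_lit 6) (nat_lit 4) (nat_lit 325) (nat_lit 273) (nat_lit 182)) (XT.lf (nat_lit 0) (nat_lit 18893820223) (nat_lit 76) (nat_lit 12362258352) (nat_lit 152) (nat_lit 185215601714) (nat_lit 4) (nat_lit 5) (nat_lit 5) (nat_lit 5) (nat_lit 6) (nat_lit 4) (nat_lit 326) (nat_lit 273) (nat_lit 181))) (XT.nd (nat_lit 78) (nat_lit 0) (nat_lit 0) (XT.lf (nat_lit 0) (nat_lit 47274688591) (nat_lit 152) (nat_lit 180572274666) (nat_lit 0) (nat_lit 4569410709) (nat_lit 4) (nat_lit 5) (nat_lit 6) (nat_lit 4) (nat_lit 4) (nat_lit 4) (nat_lit 327) (nat_lit 273) (nat_lit 180)) (XT.lf (nat_lit 0) (nat_lit 64893816719) (nat_lit 152) (nat_lit 162531233878) (nat_lit 0) (nat_lit 22186072361) (nat_lit 4) (nat_lit 5) (nat_lit 6) (nat_lit 4) (nat_lit 4) (nat_lit 4) (nat_lit 328) (nat_lit 273) (nat_lit 179))))) (XT.nd (nat_lit 234) (nat_lit 76) (nat_lit 0) (XT.nd (nat_lit 78) (nat_lit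 0) (nat_lit 0) (XT.lf (nat_lit 0) (nat_lit 83920559998) (nat_lit 152) (nat_lit 143050515220) (nat_lit 0) (nat_lit 41210531864) (nat_lit 4) (nat_lit 5) (nat_lit 6) (nat_lit 4) (nat_lit 4) (nat_lit 4) (nat_lit 329) (nat_lit 273) (nat_lit 178)) (XT.nd (nat_lit 78) (nat_lit 0) (nat_lit 0) (XT.lf (nat_lit 0) (nat_lit 104467669497) (nat_lit 152) (nat_lit 122014677397) (nat_lit 0) (nat_lit 61755526758) (nat_lit 4) (nat_lit 5) (nat_lit 6) (nat_lit 4) (nat_lit 4) (nat_lit 4) (nat_lit 330) (nat_lit 273) (nat_lit 177)) (XT.lf (nat_lit 0) (nat_lit 126656905866) (nat_lit 152) (nat_lit 99299063590) (nat_lit 0) (nat_lit 83942805158) (nat_lit 4) (nat_lit 5) (nat_lit 6) (nat_lit 4) (nat_lit 4) (nat_lit 4) (nat_lit 331) (nat_lit 273) (nat_lit 176)))) (XT.nd (nat_lit 156) (nat_lit 76) (nat_lit 0) (XT.nd (nat_lit 78) (nat_lit 0) (nat_lit 0) (XT.lf (nat_lit 0) (nat_lit 150619760877) (nat_lit 152) (nat_lit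 74769062757) (nat_lit 0) (nat_lit 107903847235) (nat_lit 4) (nat_lit 5) (nat_lit 6) (nat_lit 4) (nat_lit 4) (nat_lit 4) (nat_lit 332) (nat_lit 273) (nat_lit 175)) (XT.lf (nat_lit 0) (nat_lit 176498236633) (nat_lit 152) (nat_lit 48279311929) (nat_lit 0) (nat_lit 133780644348) (nat_lit 4) (nat_lit 5) (nat_lit 6) (nat_lit 4) (nat_lit 4) (nat_lit 4) (nat_lit 333) (nat_lit 273) (nat_lit 174))) (XT.nd (nat_lit 78) (nat_lit 76) (nat_lit 0) (XT.lf (nat_lit 0) (nat_lit 204445687063) (nat_lit 152) (nat_lit 19672834805) (nat_lit 0) (nat_lit 161726540480) (nat_lit 4) (nat_lit 5) (nat_lit 6) (nat_lit 4) (nat_lit 4) (nat_lit 4) (nat_lit 334) (nat_lit 273) (nat_lit 173)) (XT.lf (nat_lit 0) (nat_lit 11810707924) (nat_lit 76) (nat_lit 223101066576) (nat_lit 76) (nat_lit 180380480827) (nat_lit 3) (nat_lit 4) (nat_lit 4) (nat_lit 5) (nat_lit 4) (nat_lit 4) (nat_lit 335) (nat_lit 273) (nat_lit 172)))))))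 (XT.nd (nat_lit 1092) (nat_lit 0) (nat_lit 0) (XT.nd (nat_lit 546) (nat_lit 0) (nat_lit 0) (XT.nd (nat_lit 234) (nat_lit 0) (nat_lit 0) (XT.nd (nat_lit 78) (nat_lit 0) (nat_lit 0) (XT.lf (nat_lit 0) (nat_lit 46929531128) (nat_lit 76) (nat_lit 221422337269) (nat_lit 76) (nat_lit 178700418960) (nat_lit 3) (nat_lit 4) (nat_lit 4) (nat_lit 5) (nat_lit 4) (nat_lit 4) (nat_lit 336) (nat_lit 273) (nat_lit 171)) (XT.nd (nat_lit 78) (nat_lit 0) (nat_lit 0) (XT.lf (nat_lit 0) (nat_lit 84855809735) (nat_lit 76) (nat_lit 219610276088) (nat_lit 76) (nat_lit 176887123927) (nat_lit 3) (nat_lit 4) (nat_lit 4) (nat_lit 5) (nat_lit 4) (nat_lit 4) (nat_lit 337) (nat_lit 273) (nat_lit 170)) (XT.lf (nat_lit 0) (nat_lit 125814292063) (nat_lit 76) (nat_lit 217654144894) (nat_lit 76) (nat_lit 174929850276) (nat_lit 3) (nat_lit 4) (nat_lit 4) (nat_lit 5) (nat_lit 4) (nat_lit 4) (nat_lit 338) (nat_lit 273)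 (nat_lit 169)))) (XT.nd (nat_lit 156) (nat_lit 0) (nat_lit 0) (XT.nd (nat_lit 78) (nat_lit 0) (nat_lit 0) (XT.lf (nat_lit 0) (nat_lit 170047695043) (nat_lit 76) (nat_lit 215542351797) (nat_lit 76) (nat_lit 172816999350) (nat_lit 3) (nat_lit 4) (nat_lit 4) (nat_lit 5) (nat_lit 4) (nat_lit 4) (nat_lit 339) (nat_lit 273) (nat_lit 168)) (XT.lf (nat_lit 0) (nat_lit 217818142545) (nat_lit 76) (nat_lit 213262382469) (nat_lit 76) (nat_lit 170536050550) (nat_lit 3) (nat_lit 4) (nat_lit 4) (nat_lit 5) (nat_lit 4) (nat_lit 4) (nat_lit 340) (nat_lit 273) (nat_lit 167))) (XT.nd (nat_lit 78) (nat_lit 0) (nat_lit 0) (XT.lf (nat_lit 0) (nat_lit 269408718703) (nat_lit 76) (nat_lit 210800725979) (nat_lit 76) (nat_lit 168073487142) (nat_lit 3) (nat_lit 4) (nat_lit 4) (nat_lit 5) (nat_lit 4) (nat_lit 4) (nat_lit 341) (nat_lit 273) (nat_lit 166)) (XT.lf (nat_lit 0) (nat_lit 325125145449) (nat_lit 76) (nat_lit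 208142794735) (nat_lit 76) (nat_lit 165414716158) (nat_lit 3) (nat_lit 4) (nat_lit 4) (nat_lit 5) (nat_lit 4) (nat_lit 4) (nat_lit 342) (nat_lit 273) (nat_lit 165))))) (XT.nd (nat_lit 234) (nat_lit 0) (nat_lit 0) (XT.nd (nat_lit 78) (nat_lit 0) (nat_lit 0) (XT.lf (nat_lit 0) (nat_lit 385297594201) (nat_lit 76) (nat_lit 205272838031) (nat_lit 76) (nat_lit 162543981918) (nat_lit 3) (nat_lit 4) (nat_lit 4) (nat_lit 5) (nat_lit 4) (nat_lit 4) (nat_lit 343) (nat_lit 273) (nat_lit 164)) (XT.nd (nat_lit 78) (nat_lit 0) (nat_lit 0) (XT.lf (nat_lit 0) (nat_lit 450282642433) (nat_lit 76) (nat_lit 202173848718) (nat_lit 76) (nat_lit 159444272664) (nat_lit 3) (nat_lit 4) (nat_lit 4) (nat_lit 5) (nat_lit 4) (nat_lit 4) (nat_lit 344) (nat_lit 273) (nat_lit 163)) (XT.lf (nat_lit 0) (nat_lit 520465386727) (nat_lit 76) (nat_lit 198827462414) (nat_lit 76) (nat_lit 156097219748) (nat_lit 3) (nat_lit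 4) (nat_lit 4) (nat_lit 5) (nat_lit 4) (nat_lit 4) (nat_lit 345) (nat_lit 273) (nat_lit 162)))) (XT.nd (nat_lit 156) (nat_lit 0) (nat_lit 0) (XT.nd (nat_lit 78) (nat_lit 0) (nat_lit 0) (XT.lf (nat_lit 0) (nat_lit 596261724828) (nat_lit 76) (nat_lit 195213848682) (nat_lit 76) (nat_lit 152482988782) (nat_lit 3) (nat_lit 4) (nat_lit 4) (nat_lit 5) (nat_lit 4) (nat_lit 4) (nat_lit 346) (nat_lit 273) (nat_lit 161)) (XT.lf (nat_lit 0) (nat_lit 678120820219) (nat_lit 76) (nat_lit 191311593514) (nat_lit 76) (nat_lit 148580162102) (nat_lit 3) (nat_lit 4) (nat_lit 4) (nat_lit 5) (nat_lit 4) (nat_lit 4) (nat_lit 347) (nat_lit 273) (nat_lit 160))) (XT.nd (nat_lit 78) (nat_lit 0) (nat_lit 0) (XT.lf (nat_lit 0) (nat_lit 766527763838) (nat_lit 76) (nat_lit 187097572436) (nat_lit 76) (nat_lit 144365611846) (nat_lit 3) (nat_lit 4) (nat_lit 4) (nat_lit 5) (nat_lit 4) (nat_lit 4) (nat_lit 348) (nat_lit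 273) (nat_lit 159)) (XT.lf (nat_lit 0) (nat_lit 862006448683) (nat_lit 76) (nat_lit 182546813471) (nat_lit 76) (nat_lit 139814362901) (nat_lit 3) (nat_lit 4) (nat_lit 4) (nat_lit 5) (nat_lit 4) (nat_lit 4) (nat_lit 349) (nat_lit 273) (nat_lit 158)))))) (XT.nd (nat_lit 546) (nat_lit 0) (nat_lit 0) (XT.nd (nat_lit 234) (nat_lit 0) (nat_lit 0) (XT.nd (nat_lit 78) (nat_lit 0) (nat_lit 0) (XT.lf (nat_lit 0) (nat_lit 965122674367) (nat_lit 76) (nat_lit 177632349158) (nat_lit 76) (nat_lit 134899444903) (nat_lit 3) (nat_lit 4) (nat_lit 4) (nat_lit 5) (nat_lit 4) (nat_lit 4) (nat_lit 350) (nat_lit 273) (nat_lit 157)) (XT.nd (nat_lit 78) (nat_lit 0) (nat_lit 0) (XT.lf (nat_lit 0) (nat_lit 1076487500007) (nat_lit 76) (nat_lit 172325056745) (nat_lit 76) (nat_lit 129591732412) (nat_lit 3) (nat_lit 4) (nat_lit 4) (nat_lit 5) (nat_lit 4) (nat_lit 4) (nat_lit 351) (nat_lit 273) (nat_lit 156)) (XT.lf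 (nat_lit 0) (nat_lit 1196760865310) (nat_lit 76) (nat_lit 166593485612) (nat_lit 76) (nat_lit 123859772317) (nat_lit 3) (nat_lit 4) (nat_lit 4) (nat_lit 5) (nat_lit 4) (nat_lit 4) (nat_lit 352) (nat_lit 273) (nat_lit 155)))) (XT.nd (nat_lit 156) (nat_lit 0) (nat_lit 0) (XT.nd (nat_lit 78) (nat_lit 0) (nat_lit 0) (XT.lf (nat_lit 0) (nat_lit 1326655501329) (nat_lit 76) (nat_lit 160403670892) (nat_lit 76) (nat_lit 117669597447) (nat_lit 3) (nat_lit 4) (nat_lit 4) (nat_lit 5) (nat_lit 4) (nat_lit 4) (nat_lit 353) (nat_lit 273) (nat_lit 154)) (XT.lf (nat_lit 0) (nat_lit 1466941154055) (nat_lit 76) (nat_lit 153718932201) (nat_lit 76) (nat_lit 110984525284) (nat_lit 3) (nat_lit 4) (nat_lit 4) (nat_lit 5) (nat_lit 4) (nat_lit 4) (nat_lit 354) (nat_lit 273) (nat_lit 153))) (XT.nd (nat_lit 78) (nat_lit 0) (nat_lit 0) (XT.lf (nat_lit 0) (nat_lit 1618449145875) (nat_lit 76) (nat_lit 146499656273)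 (nat_lit 76) (nat_lit 103764940586) (nat_lit 3) (nat_lit 4) (nat_lit 4) (nat_lit 5) (nat_lit 4) (nat_lit 4) (nat_lit 355) (nat_lit 273) (nat_lit 152)) (XT.lf (nat_lit 0) (nat_lit 1782077301927) (nat_lit 76) (nat_lit 138703062214) (nat_lit 76) (nat_lit 95968060628) (nat_lit 3) (nat_lit 4) (nat_lit 4) (nat_lit 5) (nat_lit 4) (nat_lit 4) (nat_lit 356) (nat_lit 273) (nat_lit 151))))) (XT.nd (nat_lit 234) (nat_lit 0) (nat_lit 0) (XT.nd (nat_lit 78) (nat_lit 0) (nat_lit 0) (XT.lf (nat_lit 0) (nat_lit 1958795270541) (nat_lit 76) (nat_lit 130282947985) (nat_lit 76) (nat_lit 87547681679) (nat_lit 3) (nat_lit 4) (nat_lit 4) (nat_lit 5) (nat_lit 4) (nat_lit 4) (nat_lit 357) (nat_lit 273) (nat_lit 150)) (XT.nd (nat_lit 78) (nat_lit 0) (nat_lit 0) (XT.lf (nat_lit 0) (nat_lit 2149650269309) (nat_lit 76) (nat_lit 121189416613) (nat_lit 76) (nat_lit 78453905195) (nat_lit 3) (nat_lit 4) (nat_lit 4)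 (nat_lit 5) (nat_lit 4) (nat_lit 4) (nat_lit 358) (nat_lit 273) (nat_lit 149)) (XT.lf (nat_lit 0) (nat_lit 2355773290818) (nat_lit 76) (nat_lit 111368580504) (nat_lit 76) (nat_lit 68632842130) (nat_lit 3) (nat_lit 4) (nat_lit 4) (nat_lit 5) (nat_lit 4) (nat_lit 4) (nat_lit 359) (nat_lit 273) (nat_lit 148)))) (XT.nd (nat_lit 156) (nat_lit 0) (nat_lit 0) (XT.nd (nat_lit 78) (nat_lit 0) (nat_lit 0) (XT.lf (nat_lit 0) (nat_lit 2578385804824) (nat_lit 76) (nat_lit 100762242112) (nat_lit 76) (nat_lit 58026293594) (nat_lit 3) (nat_lit 4) (nat_lit 4) (nat_lit 5) (nat_lit 4) (nat_lit 4) (nat_lit 360) (nat_lit 273) (nat_lit 147)) (XT.lf (nat_lit 0) (nat_lit 2818806996595) (nat_lit 76) (nat_lit 89307549060) (nat_lit 76) (nat_lit 46571405964) (nat_lit 3) (nat_lit 4) (nat_lit 4) (nat_lit 5) (nat_lit 4) (nat_lit 4) (nat_lit 361) (nat_lit 273) (nat_lit 146))) (XT.nd (nat_lit 33774) (nat_lit 0) (nat_lit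 2812) (XT.lf (nat_lit 0) (nat_lit 3078461584305) (nat_lit 76) (nat_lit 76936621685) (nat_lit 76) (nat_lit 34200298425) (nat_lit 3) (nat_lit 4) (nat_lit 4) (nat_lit 5) (nat_lit 4) (nat_lit 4) (nat_lit 362) (nat_lit 273) (nat_lit 145)) (XT.lf (nat_lit 0) (nat_lit 1117211469) (nat_lit 532) (nat_lit 2523551234) (nat_lit 532) (nat_lit 2523551234) (nat_lit 40) (nat_lit 3) (nat_lit 47) (nat_lit 3) (nat_lit 47) (nat_lit 5) (nat_lit 274) (nat_lit 274) (nat_lit 232))))))))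
noncomputable def xc73 : XT := (XT.nd (nat_lit 2184) (nat_lit 760) (nat_lit 0) (XT.nd (nat_lit 1092) (nat_lit 988) (nat_lit 0) (XT.nd (nat_lit 546) (nat_lit 988) (nat_lit 0) (XT.nd (nat_lit 234) (nat_lit 0) (nat_lit 152) (XT.nd (nat_lit 78) (nat_lit 0) (nat_lit 76) (XT.lf (nat_lit 76) (nat_lit 415839014) (nat_lit 0) (nat_lit 2325729251) (nat_lit 532) (nat_lit 10045043949) (nat_lit 41) (nat_lit 5) (nat_lit 40) (nat_lit 3) (nat_lit 47) (nat_lit 5) (nat_lit 275) (nat_lit 274) (nat_lit 231)) (XT.nd (nat_lit 78) (nat_lit 0) (nat_lit 0) (XT.lf (nat_lit 0) (nat_lit 3462732817) (nat_lit 456) (nat_lit 6770917918) (nat_lit 532) (nat_lit 3033882771) (nat_lit 41) (nat_lit 5) (nat_lit 47) (nat_lit 5) (nat_lit 48) (nat_lit 5) (nat_lit 276) (nat_lit 274) (nat_lit 230)) (XT.lf (nat_lit 0) (nat_lit 4264108723) (nat_lit 456) (nat_lit 808666929) (nat_lit 532) (nat_lit 8712512517) (nat_lit 41) (nat_lit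 5) (nat_lit 47) (nat_lit 5) (nat_lit 48) (nat_lit 5) (nat_lit 277) (nat_lit 274) (nat_lit 229)))) (XT.nd (nat_lit 156) (nat_lit 0) (nat_lit 0) (XT.nd (nat_lit 78) (nat_lit 0) (nat_lit 0) (XT.lf (nat_lit 0) (nat_lit 5252485047) (nat_lit 456) (nat_lit 8449568001) (nat_lit 532) (nat_lit 632728120) (nat_lit 42) (nat_lit 5) (nat_lit 48) (nat_lit 5) (nat_lit 49) (nat_lit 5) (nat_lit 278) (nat_lit 274) (nat_lit 228)) (XT.lf (nat_lit 0) (nat_lit 6441592863) (nat_lit 456) (nat_lit 1923962973) (nat_lit 532) (nat_lit 6553082997) (nat_lit 42) (nat_lit 5) (nat_lit 48) (nat_lit 5) (nat_lit 49) (nat_lit 5) (nat_lit 279) (nat_lit 274) (nat_lit 227))) (XT.nd (nat_lit 78) (nat_lit 0) (nat_lit 76) (XT.lf (nat_lit 76) (nat_lit 5368390211) (nat_lit 0) (nat_lit 2456193725) (nat_lit 532) (nat_lit 7716848711) (nat_lit 43) (nat_lit 5) (nat_lit 42) (nat_lit 5) (nat_lit 49) (nat_lit 5) (nat_lit 280) (nat_lit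 274) (nat_lit 226)) (XT.lf (nat_lit 0) (nat_lit 9438068193) (nat_lit 456) (nat_lit 2977864388) (nat_lit 76) (nat_lit 3788647505) (nat_lit 43) (nat_lit 5) (nat_lit 49) (nat_lit 5) (nat_lit 44) (nat_lit 5) (nat_lit 281) (nat_lit 274) (nat_lit 225))))) (XT.nd (nat_lit 234) (nat_lit 532) (nat_lit 0) (XT.nd (nat_lit 78) (nat_lit 228) (nat_lit 0) (XT.lf (nat_lit 0) (nat_lit 4953023986) (nat_lit 456) (nat_lit 6384103104) (nat_lit 532) (nat_lit 5571242215) (nat_lit 37) (nat_lit 5) (nat_lit 43) (nat_lit 5) (nat_lit 44) (nat_lit 5) (nat_lit 282) (nat_lit 274) (nat_lit 224)) (XT.nd (nat_lit 78) (nat_lit 228) (nat_lit 0) (XT.lf (nat_lit 0) (nat_lit 13449796561) (nat_lit 532) (nat_lit 4004876827) (nat_lit 76) (nat_lit 208954940) (nat_lit 37) (nat_lit 5) (nat_lit 44) (nat_lit 5) (nat_lit 38) (nat_lit 5) (nat_lit 283) (nat_lit 274) (nat_lit 223)) (XT.lf (nat_lit 0) (nat_lit 4623562301) (nat_lit 228)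 (nat_lit 11361803360) (nat_lit 304) (nat_lit 2473725542) (nat_lit 34) (nat_lit 5) (nat_lit 37) (nat_lit 5) (nat_lit 38) (nat_lit 5) (nat_lit 284) (nat_lit 274) (nat_lit 222)))) (XT.nd (nat_lit 156) (nat_lit 228) (nat_lit 0) (XT.nd (nat_lit 78) (nat_lit 304) (nat_lit 0) (XT.lf (nat_lit 0) (nat_lit 14147097988) (nat_lit 228) (nat_lit 4664212913) (nat_lit 304) (nat_lit 499964808) (nat_lit 34) (nat_lit 5) (nat_lit 37) (nat_lit 5) (nat_lit 38) (nat_lit 5) (nat_lit 285) (nat_lit 274) (nat_lit 221)) (XT.lf (nat_lit 0) (nat_lit 1699410446) (nat_lit 304) (nat_lit 15930172138) (nat_lit 76) (nat_lit 2587040615) (nat_lit 30) (nat_lit 5) (nat_lit 34) (nat_lit 5) (nat_lit 31) (nat_lit 5) (nat_lit 286) (nat_lit 274) (nat_lit 220))) (XT.nd (nat_lit 78) (nat_lit 228) (nat_lit 0) (XT.lf (nat_lit 0) (nat_lit 4293770656) (nat_lit 304) (nat_lit 6557549908) (nat_lit 76) (nat_lit 10322424458) (nat_lit 30)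 (nat_lit 5) (nat_lit 34) (nat_lit 5) (nat_lit 31) (nat_lit 5) (nat_lit 287) (nat_lit 274) (nat_lit 219)) (XT.lf (nat_lit 0) (nat_lit 3729729780) (nat_lit 228) (nat_lit 3437161466) (nat_lit 304) (nat_lit 15034912404) (nat_lit 27) (nat_lit 5) (nat_lit 30) (nat_lit 5) (nat_lit 31) (nat_lit 5) (nat_lit 288) (nat_lit 274) (nat_lit 218)))))) (XT.nd (nat_lit 546) (nat_lit 456) (nat_lit 0) (XT.nd (nat_lit 234) (nat_lit 380) (nat_lit 0) (XT.nd (nat_lit 78) (nat_lit 152) (nat_lit 0) (XT.lf (nat_lit 0) (nat_lit 10546011550) (nat_lit 304) (nat_lit 8221969163) (nat_lit 76) (nat_lit 4522093496) (nat_lit 27) (nat_lit 5) (nat_lit 31) (nat_lit 5) (nat_lit 28) (nat_lit 5) (nat_lit 289) (nat_lit 274) (nat_lit 217)) (XT.nd (nat_lit 78) (nat_lit 0) (nat_lit 0) (XT.lf (nat_lit 0) (nat_lit 2882152697) (nat_lit 152) (nat_lit 11455499943) (nat_lit 228) (nat_lit 10116433336) (nat_lit 25) (nat_lit 5) (nat_lit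 27) (nat_lit 5) (nat_lit 28) (nat_lit 5) (nat_lit 290) (nat_lit 274) (nat_lit 216)) (XT.lf (nat_lit 0) (nat_lit 15321832617) (nat_lit 152) (nat_lit 3319919226) (nat_lit 228) (nat_lit 7052787488) (nat_lit 25) (nat_lit 5) (nat_lit 27) (nat_lit 5) (nat_lit 28) (nat_lit 5) (nat_lit 291) (nat_lit 274) (nat_lit 215)))) (XT.nd (nat_lit 156) (nat_lit 152) (nat_lit 0) (XT.nd (nat_lit 78) (nat_lit 76) (nat_lit 0) (XT.lf (nat_lit 0) (nat_lit 1653758071) (nat_lit 152) (nat_lit 21793043961) (nat_lit 228) (nat_lit 3574944109) (nat_lit 23) (nat_lit 5) (nat_lit 25) (nat_lit 5) (nat_lit 26) (nat_lit 5) (nat_lit 292) (nat_lit 274) (nat_lit 214)) (XT.lf (nat_lit 0) (nat_lit 534862795) (nat_lit 228) (nat_lit 13318401767) (nat_lit 76) (nat_lit 14572533027) (nat_lit 22) (nat_lit 5) (nat_lit 25) (nat_lit 5) (nat_lit 23) (nat_lit 5) (nat_lit 293) (nat_lit 274) (nat_lit 213))) (XT.nd (nat_lit 78) (nat_lit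 152) (nat_lit 0) (XT.lf (nat_lit 0) (nat_lit 4766972242) (nat_lit 228) (nat_lit 416455890) (nat_lit 76) (nat_lit 24752421275) (nat_lit 22) (nat_lit 5) (nat_lit 25) (nat_lit 5) (nat_lit 23) (nat_lit 5) (nat_lit 294) (nat_lit 274) (nat_lit 212)) (XT.lf (nat_lit 0) (nat_lit 9776361805) (nat_lit 228) (nat_lit 17438487805) (nat_lit 76) (nat_lit 4316793419) (nat_lit 20) (nat_lit 5) (nat_lit 23) (nat_lit 5) (nat_lit 21) (nat_lit 5) (nat_lit 295) (nat_lit 274) (nat_lit 211))))) (XT.nd (nat_lit 234) (nat_lit 304) (nat_lit 0) (XT.nd (nat_lit 78) (nat_lit 152) (nat_lit 0) (XT.lf (nat_lit 0) (nat_lit 15320851556) (nat_lit 228) (nat_lit 3619680647) (nat_lit 76) (nat_lit 14303852024) (nat_lit 20) (nat_lit 5) (nat_lit 23) (nat_lit 5) (nat_lit 21) (nat_lit 5) (nat_lit 296) (nat_lit 274) (nat_lit 210)) (XT.nd (nat_lit 78) (nat_lit 0) (nat_lit 0) (XT.lf (nat_lit 0) (nat_lit 11882582434) (nat_lit 152)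 (nat_lit 9701013081) (nat_lit 228) (nat_lit 13488603242) (nat_lit 18) (nat_lit 5) (nat_lit 20) (nat_lit 5) (nat_lit 21) (nat_lit 5) (nat_lit 297) (nat_lit 274) (nat_lit 209)) (XT.lf (nat_lit 0) (nat_lit 28444799672) (nat_lit 228) (nat_lit 8233484510) (nat_lit 76) (nat_lit 360186453) (nat_lit 18) (nat_lit 5) (nat_lit 21) (nat_lit 5) (nat_lit 19) (nat_lit 4) (nat_lit 298) (nat_lit 274) (nat_lit 208)))) (XT.nd (nat_lit 156) (nat_lit 152) (nat_lit 0) (XT.nd (nat_lit 78) (nat_lit 76) (nat_lit 0) (XT.lf (nat_lit 0) (nat_lit 8054531912) (nat_lit 76) (nat_lit 28236076223) (nat_lit 152) (nat_lit 2836604901) (nat_lit 17) (nat_lit 5) (nat_lit 18) (nat_lit 5) (nat_lit 19) (nat_lit 4) (nat_lit 299) (nat_lit 274) (nat_lit 207)) (XT.lf (nat_lit 0) (nat_lit 3432983781) (nat_lit 152) (nat_lit 15354071126) (nat_lit 76) (nat_lit 22571829407) (nat_lit 16) (nat_lit 5) (nat_lit 18) (nat_lit 5) (nat_lit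 17) (nat_lit 5) (nat_lit 300) (nat_lit 274) (nat_lit 206))) (XT.nd (nat_lit 78) (nat_lit 0) (nat_lit 0) (XT.lf (nat_lit 0) (nat_lit 1614580479) (nat_lit 152) (nat_lit 8465995634) (nat_lit 228) (nat_lit 33680264157) (nat_lit 14) (nat_lit 5) (nat_lit 16) (nat_lit 5) (nat_lit 17) (nat_lit 5) (nat_lit 301) (nat_lit 274) (nat_lit 205)) (XT.lf (nat_lit 0) (nat_lit 17746223302) (nat_lit 228) (nat_lit 25597583692) (nat_lit 76) (nat_lit 2972264586) (nat_lit 14) (nat_lit 5) (nat_lit 17) (nat_lit 5) (nat_lit 15) (nat_lit 4) (nat_lit 302) (nat_lit 274) (nat_lit 204))))))) (XT.nd (nat_lit 1092) (nat_lit 228) (nat_lit 0) (XT.nd (nat_lit 546) (nat_lit 304) (nat_lit 0) (XT.nd (nat_lit 234) (nat_lit 152) (nat_lit 0) (XT.nd (nat_lit 78) (nat_lit 76) (nat_lit 0) (XT.lf (nat_lit 0) (nat_lit 26236743998) (nat_lit 228) (nat_lit 7958579200) (nat_lit 76) (nat_lit 14863485751) (nat_lit 14) (nat_lit 5) (nat_lit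 17) (nat_lit 5) (nat_lit 15) (nat_lit 4) (nat_lit 303) (nat_lit 274) (nat_lit 203)) (XT.nd (nat_lit 78) (nat_lit 0) (nat_lit 0) (XT.lf (nat_lit 0) (nat_lit 11662283153) (nat_lit 76) (nat_lit 24017040038) (nat_lit 152) (nat_lit 16319832783) (nat_lit 13) (nat_lit 5) (nat_lit 14) (nat_lit 5) (nat_lit 15) (nat_lit 4) (nat_lit 304) (nat_lit 274) (nat_lit 202)) (XT.lf (nat_lit 0) (nat_lit 33293089246) (nat_lit 76) (nat_lit 12794430592) (nat_lit 152) (nat_lit 9070408858) (nat_lit 13) (nat_lit 5) (nat_lit 14) (nat_lit 5) (nat_lit 15) (nat_lit 4) (nat_lit 305) (nat_lit 274) (nat_lit 201)))) (XT.nd (nat_lit 156) (nat_lit 0) (nat_lit 0) (XT.nd (nat_lit 78) (nat_lit 152) (nat_lit 0) (XT.lf (nat_lit 0) (nat_lit 56642936956) (nat_lit 76) (nat_lit 678592167) (nat_lit 152) (nat_lit 1248435287) (nat_lit 13) (nat_lit 5) (nat_lit 14) (nat_lit 5) (nat_lit 15) (nat_lit 4) (nat_lit 306) (nat_lit 274) (nat_lit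 200)) (XT.lf (nat_lit 0) (nat_lit 7639873915) (nat_lit 152) (nat_lit 42073399288) (nat_lit 76) (nat_lit 12463792834) (nat_lit 11) (nat_lit 5) (nat_lit 13) (nat_lit 5) (nat_lit 12) (nat_lit 4) (nat_lit 307) (nat_lit 274) (nat_lit 199))) (XT.nd (nat_lit 78) (nat_lit 0) (nat_lit 0) (XT.lf (nat_lit 0) (nat_lit 17237090854) (nat_lit 152) (nat_lit 22124597156) (nat_lit 76) (nat_lit 26703241256) (nat_lit 11) (nat_lit 5) (nat_lit 13) (nat_lit 5) (nat_lit 12) (nat_lit 4) (nat_lit 308) (nat_lit 274) (nat_lit 198)) (XT.lf (nat_lit 0) (nat_lit 27596166895) (nat_lit 152) (nat_lit 590134824) (nat_lit 76) (nat_lit 42078003384) (nat_lit 11) (nat_lit 5) (nat_lit 13) (nat_lit 5) (nat_lit 12) (nat_lit 4) (nat_lit 309) (nat_lit 274) (nat_lit 197))))) (XT.nd (nat_lit 234) (nat_lit 228) (nat_lit 0) (XT.nd (nat_lit 78) (nat_lit 0) (nat_lit 0) (XT.lf (nat_lit 0) (nat_lit 23850708364) (nat_lit 76) (nat_lit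 15501390901) (nat_lit 152) (nat_lit 35402090665) (nat_lit 10) (nat_lit 5) (nat_lit 11) (nat_lit 5) (nat_lit 12) (nat_lit 4) (nat_lit 310) (nat_lit 274) (nat_lit 196)) (XT.nd (nat_lit 78) (nat_lit 0) (nat_lit 0) (XT.lf (nat_lit 0) (nat_lit 50271135469) (nat_lit 76) (nat_lit 1788209797) (nat_lit 152) (nat_lit 27543061805) (nat_lit 10) (nat_lit 5) (nat_lit 11) (nat_lit 5) (nat_lit 12) (nat_lit 4) (nat_lit 311) (nat_lit 274) (nat_lit 195)) (XT.lf (nat_lit 0) (nat_lit 66091359075) (nat_lit 152) (nat_lit 6355337481) (nat_lit 0) (nat_lit 12367137988) (nat_lit 10) (nat_lit 5) (nat_lit 12) (nat_lit 4) (nat_lit 10) (nat_lit 4) (nat_lit 312) (nat_lit 274) (nat_lit 194)))) (XT.nd (nat_lit 156) (nat_lit 76) (nat_lit 0) (XT.nd (nat_lit 78) (nat_lit 76) (nat_lit 0) (XT.lf (nat_lit 0) (nat_lit 19373131484) (nat_lit 76) (nat_lit 62380551654) (nat_lit 76) (nat_lit 8647880559) (nat_lit 9) (nat_lit 4)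 (nat_lit 10) (nat_lit 5) (nat_lit 10) (nat_lit 4) (nat_lit 313) (nat_lit 274) (nat_lit 193)) (XT.lf (nat_lit 0) (nat_lit 2294678724) (nat_lit 152) (nat_lit 48967563427) (nat_lit 76) (nat_lit 45155884941) (nat_lit 8) (nat_lit 5) (nat_lit 10) (nat_lit 5) (nat_lit 9) (nat_lit 4) (nat_lit 314) (nat_lit 274) (nat_lit 192))) (XT.nd (nat_lit 78) (nat_lit 76) (nat_lit 0) (XT.lf (nat_lit 0) (nat_lit 13641177933) (nat_lit 152) (nat_lit 25374089594) (nat_lit 76) (nat_lit 63883124670) (nat_lit 8) (nat_lit 5) (nat_lit 10) (nat_lit 5) (nat_lit 9) (nat_lit 4) (nat_lit 315) (nat_lit 274) (nat_lit 191)) (XT.lf (nat_lit 0) (nat_lit 105038658) (nat_lit 76) (nat_lit 25788945111) (nat_lit 152) (nat_lit 84003213256) (nat_lit 7) (nat_lit 5) (nat_lit 8) (nat_lit 5) (nat_lit 9) (nat_lit 4) (nat_lit 316) (nat_lit 274) (nat_lit 190)))))) (XT.nd (nat_lit 546) (nat_lit 152) (nat_lit 0) (XT.nd (nat_lit 234) (nat_lit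 76) (nat_lit 0) (XT.nd (nat_lit 78) (nat_lit 0) (nat_lit 0) (XT.lf (nat_lit 0) (nat_lit 29058645373) (nat_lit 76) (nat_lit 10758327686) (nat_lit 152) (nat_lit 77583741510) (nat_lit 7) (nat_lit 5) (nat_lit 8) (nat_lit 5) (nat_lit 9) (nat_lit 4) (nat_lit 317) (nat_lit 274) (nat_lit 189)) (XT.nd (nat_lit 78) (nat_lit 0) (nat_lit 0) (XT.lf (nat_lit 0) (nat_lit 54981869295) (nat_lit 152) (nat_lit 65314246699) (nat_lit 0) (nat_lit 5198156772) (nat_lit 7) (nat_lit 5) (nat_lit 9) (nat_lit 4) (nat_lit 7) (nat_lit 4) (nat_lit 318) (nat_lit 274) (nat_lit 188)) (XT.lf (nat_lit 0) (nat_lit 71636061159) (nat_lit 152) (nat_lit 40729752335) (nat_lit 0) (nat_lit 21847418138) (nat_lit 7) (nat_lit 5) (nat_lit 9) (nat_lit 4) (nat_lit 7) (nat_lit 4) (nat_lit 319) (nat_lit 274) (nat_lit 187)))) (XT.nd (nat_lit 156) (nat_lit 0) (nat_lit 0) (XT.nd (nat_lit 78) (nat_lit 76) (nat_lit 0) (XT.lf (nat_lit 0) (nat_lit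 89619502120) (nat_lit 152) (nat_lit 14184162172) (nat_lit 0) (nat_lit 39826293823) (nat_lit 7) (nat_lit 5) (nat_lit 9) (nat_lit 4) (nat_lit 7) (nat_lit 4) (nat_lit 320) (nat_lit 274) (nat_lit 186)) (XT.lf (nat_lit 0) (nat_lit 15242313230) (nat_lit 76) (nat_lit 94163025486) (nat_lit 76) (nat_lit 44365590081) (nat_lit 6) (nat_lit 4) (nat_lit 7) (nat_lit 5) (nat_lit 7) (nat_lit 4) (nat_lit 321) (nat_lit 274) (nat_lit 185))) (XT.nd (nat_lit 78) (nat_lit 0) (nat_lit 0) (XT.lf (nat_lit 0) (nat_lit 47824461087) (nat_lit 76) (nat_lit 83334632388) (nat_lit 76) (nat_lit 33533282995) (nat_lit 6) (nat_lit 4) (nat_lit 7) (nat_lit 5) (nat_lit 7) (nat_lit 4) (nat_lit 322) (nat_lit 274) (nat_lit 184)) (XT.lf (nat_lit 0) (nat_lit 83008447951) (nat_lit 76) (nat_lit 71642136874) (nat_lit 76) (nat_lit 21837163417) (nat_lit 6) (nat_lit 4) (nat_lit 7) (nat_lit 5) (nat_lit 7) (nat_lit 4) (nat_lit 323) (nat_lit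 274) (nat_lit 183))))) (XT.nd (nat_lit 312) (nat_lit 0) (nat_lit 0) (XT.nd (nat_lit 156) (nat_lit 76) (nat_lit 0) (XT.nd (nat_lit 78) (nat_lit 76) (nat_lit 0) (XT.lf (nat_lit 0) (nat_lit 121002771520) (nat_lit 76) (nat_lit 59016250081) (nat_lit 76) (nat_lit 9207921010) (nat_lit 6) (nat_lit 4) (nat_lit 7) (nat_lit 5) (nat_lit 7) (nat_lit 4) (nat_lit 324) (nat_lit 274) (nat_lit 182)) (XT.lf (nat_lit 0) (nat_lit 4207713447) (nat_lit 152) (nat_lit 41059392149) (nat_lit 76) (nat_lit 157709823552) (nat_lit 5) (nat_lit 5) (nat_lit 7) (nat_lit 5) (nat_lit 6) (nat_lit 4) (nat_lit 325) (nat_lit 274) (nat_lit 181))) (XT.nd (nat_lit 78) (nat_lit 76) (nat_lit 0) (XT.lf (nat_lit 0) (nat_lit 18197041279) (nat_lit 152) (nat_lit 11964467157) (nat_lit 76) (nat_lit 187646442407) (nat_lit 5) (nat_lit 5) (nat_lit 7) (nat_lit 5) (nat_lit 6) (nat_lit 4) (nat_lit 326) (nat_lit 274) (nat_lit 180)) (XT.lf (nat_lit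 0) (nat_lit 20478906835) (nat_lit 76) (nat_lit 13317191072) (nat_lit 152) (nat_lit 199990111925) (nat_lit 4) (nat_lit 5) (nat_lit 5) (nat_lit 5) (nat_lit 6) (nat_lit 4) (nat_lit 327) (nat_lit 274) (nat_lit 179)))) (XT.nd (nat_lit 156) (nat_lit 0) (nat_lit 0) (XT.nd (nat_lit 78) (nat_lit 0) (nat_lit 0) (XT.lf (nat_lit 0) (nat_lit 51094026550) (nat_lit 152) (nat_lit 194947716806) (nat_lit 0) (nat_lit 4964912391) (nat_lit 4) (nat_lit 5) (nat_lit 6) (nat_lit 4) (nat_lit 4) (nat_lit 4) (nat_lit 328) (nat_lit 274) (nat_lit 178)) (XT.lf (nat_lit 0) (nat_lit 70119917308) (nat_lit 152) (nat_lit 175468603113) (nat_lit 0) (nat_lit 23988688543) (nat_lit 4) (nat_lit 5) (nat_lit 6) (nat_lit 4) (nat_lit 4) (nat_lit 4) (nat_lit 329) (nat_lit 274) (nat_lit 177))) (XT.nd (nat_lit 78) (nat_lit 0) (nat_lit 0) (XT.lf (nat_lit 0) (nat_lit 90666237438) (nat_lit 152) (nat_lit 154434251368) (nat_lit 0) (nat_lit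 44533050704) (nat_lit 4) (nat_lit 5) (nat_lit 6) (nat_lit 4) (nat_lit 4) (nat_lit 4) (nat_lit 330) (nat_lit 274) (nat_lit 176)) (XT.lf (nat_lit 0) (nat_lit 112854742909) (nat_lit 152) (nat_lit 131720013561) (nat_lit 0) (nat_lit 66719743241) (nat_lit 4) (nat_lit 5) (nat_lit 6) (nat_lit 4) (nat_lit 4) (nat_lit 4) (nat_lit 331) (nat_lit 274) (nat_lit 175))))))))
noncomputable def xc74 : XT := (XT.nd (nat_lit 2184) (nat_lit 0) (nat_lit 0) (XT.nd (nat_lit 1092) (nat_lit 0) (nat_lit 0) (XT.nd (nat_lit 546) (nat_lit 0) (nat_lit 0) (XT.nd (nat_lit 234) (nat_lit 76) (nat_lit 0) (XT.nd (nat_lit 78) (nat_lit 0) (nat_lit 0) (XT.lf (nat_lit 0) (nat_lit 136816921162) (nat_lit 152) (nat_lit 107191286800) (nat_lit 0) (nat_lit 90680242852) (nat_lit 4) (nat_lit 5) (nat_lit 6) (nat_lit 4) (nat_lit 4) (nat_lit 4) (nat_lit 332) (nat_lit 274) (nat_lit 174)) (XT.nd (nat_lit 78) (nat_lit 0) (nat_lit 0) (XT.lf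 (nat_lit 0) (nat_lit 162694770290) (nat_lit 152) (nat_lit 80702715669) (nat_lit 0) (nat_lit 116556537681) (nat_lit 4) (nat_lit 5) (nat_lit 6) (nat_lit 4) (nat_lit 4) (nat_lit 4) (nat_lit 333) (nat_lit 274) (nat_lit 173)) (XT.lf (nat_lit 0) (nat_lit 190641640510) (nat_lit 152) (nat_lit 52097330857) (nat_lit 0) (nat_lit 144501968736) (nat_lit 4) (nat_lit 5) (nat_lit 6) (nat_lit 4) (nat_lit 4) (nat_lit 4) (nat_lit 334) (nat_lit 274) (nat_lit 172)))) (XT.nd (nat_lit 156) (nat_lit 0) (nat_lit 0) (XT.nd (nat_lit 78) (nat_lit 76) (nat_lit 0) (XT.lf (nat_lit 0) (nat_lit 220823142905) (nat_lit 152) (nat_lit 21205618972) (nat_lit 0) (nat_lit 174682138570) (nat_lit 4) (nat_lit 5) (nat_lit 6) (nat_lit 4) (nat_lit 4) (nat_lit 4) (nat_lit 335) (nat_lit 274) (nat_lit 171)) (XT.lf (nat_lit 0) (nat_lit 12795568121) (nat_lit 76) (nat_lit 240930296422) (nat_lit 76) (nat_lit 194788058235) (nat_lit 3)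 (nat_lit 4) (nat_lit 4) (nat_lit 5) (nat_lit 4) (nat_lit 4) (nat_lit 336) (nat_lit 274) (nat_lit 170))) (XT.nd (nat_lit 78) (nat_lit 0) (nat_lit 0) (XT.lf (nat_lit 0) (nat_lit 50720933955) (nat_lit 76) (nat_lit 239118665473) (nat_lit 76) (nat_lit 192975284830) (nat_lit 3) (nat_lit 4) (nat_lit 4) (nat_lit 5) (nat_lit 4) (nat_lit 4) (nat_lit 337) (nat_lit 274) (nat_lit 169)) (XT.lf (nat_lit 0) (nat_lit 91678571122) (nat_lit 76) (nat_lit 237162932640) (nat_lit 76) (nat_lit 191018494168) (nat_lit 3) (nat_lit 4) (nat_lit 4) (nat_lit 5) (nat_lit 4) (nat_lit 4) (nat_lit 338) (nat_lit 274) (nat_lit 168))))) (XT.nd (nat_lit 234) (nat_lit 0) (nat_lit 0) (XT.nd (nat_lit 78) (nat_lit 0) (nat_lit 0) (XT.lf (nat_lit 0) (nat_lit 135911191546) (nat_lit 76) (nat_lit 235051508398) (nat_lit 76) (nat_lit 188906090453) (nat_lit 3) (nat_lit 4) (nat_lit 4) (nat_lit 5) (nat_lit 4) (nat_lit 4) (nat_lit 339)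 (nat_lit 274) (nat_lit 167)) (XT.nd (nat_lit 78) (nat_lit 0) (nat_lit 0) (XT.lf (nat_lit 0) (nat_lit 183680914460) (nat_lit 76) (nat_lit 232771880601) (nat_lit 76) (nat_lit 186625555738) (nat_lit 3) (nat_lit 4) (nat_lit 4) (nat_lit 5) (nat_lit 4) (nat_lit 4) (nat_lit 340) (nat_lit 274) (nat_lit 166)) (XT.lf (nat_lit 0) (nat_lit 235270819702) (nat_lit 76) (nat_lit 230310540344) (nat_lit 76) (nat_lit 184163375742) (nat_lit 3) (nat_lit 4) (nat_lit 4) (nat_lit 5) (nat_lit 4) (nat_lit 4) (nat_lit 341) (nat_lit 274) (nat_lit 165)))) (XT.nd (nat_lit 156) (nat_lit 0) (nat_lit 0) (XT.nd (nat_lit 78) (nat_lit 0) (nat_lit 0) (XT.lf (nat_lit 0) (nat_lit 290986625230) (nat_lit 76) (nat_lit 227652901907) (nat_lit 76) (nat_lit 181504959769) (nat_lit 3) (nat_lit 4) (nat_lit 4) (nat_lit 5) (nat_lit 4) (nat_lit 4) (nat_lit 342) (nat_lit 274) (nat_lit 164)) (XT.lf (nat_lit 0) (nat_lit 351158498780) (nat_lit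 76) (nat_lit 224783216322) (nat_lit 76) (nat_lit 178634554243) (nat_lit 3) (nat_lit 4) (nat_lit 4) (nat_lit 5) (nat_lit 4) (nat_lit 4) (nat_lit 343) (nat_lit 274) (nat_lit 163))) (XT.nd (nat_lit 78) (nat_lit 0) (nat_lit 0) (XT.lf (nat_lit 0) (nat_lit 416143014418) (nat_lit 76) (nat_lit 221684478044) (nat_lit 76) (nat_lit 175535149353) (nat_lit 3) (nat_lit 4) (nat_lit 4) (nat_lit 5) (nat_lit 4) (nat_lit 4) (nat_lit 344) (nat_lit 274) (nat_lit 162)) (XT.lf (nat_lit 0) (nat_lit 486325265569) (nat_lit 76) (nat_lit 218338324181) (nat_lit 76) (nat_lit 172188378256) (nat_lit 3) (nat_lit 4) (nat_lit 4) (nat_lit 5) (nat_lit 4) (nat_lit 4) (nat_lit 345) (nat_lit 274) (nat_lit 161)))))) (XT.nd (nat_lit 546) (nat_lit 0) (nat_lit 0) (XT.nd (nat_lit 234) (nat_lit 0) (nat_lit 0) (XT.nd (nat_lit 78) (nat_lit 0) (nat_lit 0) (XT.lf (nat_lit 0) (nat_lit 562121147056) (nat_lit 76) (nat_lit 214724925671)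 (nat_lit 76) (nat_lit 168574408234) (nat_lit 3) (nat_lit 4) (nat_lit 4) (nat_lit 5) (nat_lit 4) (nat_lit 4) (nat_lit 346) (nat_lit 274) (nat_lit 160)) (XT.nd (nat_lit 78) (nat_lit 0) (nat_lit 0) (XT.lf (nat_lit 0) (nat_lit 643979819657) (nat_lit 76) (nat_lit 210822869784) (nat_lit 76) (nat_lit 164671823169) (nat_lit 3) (nat_lit 4) (nat_lit 4) (nat_lit 5) (nat_lit 4) (nat_lit 4) (nat_lit 347) (nat_lit 274) (nat_lit 159)) (XT.lf (nat_lit 0) (nat_lit 732386371803) (nat_lit 76) (nat_lit 206609033225) (nat_lit 76) (nat_lit 160457496630) (nat_lit 3) (nat_lit 4) (nat_lit 4) (nat_lit 5) (nat_lit 4) (nat_lit 4) (nat_lit 348) (nat_lit 274) (nat_lit 158)))) (XT.nd (nat_lit 156) (nat_lit 0) (nat_lit 0) (XT.nd (nat_lit 78) (nat_lit 0) (nat_lit 0) (XT.lf (nat_lit 0) (nat_lit 827864694173) (nat_lit 76) (nat_lit 202058445110) (nat_lit 76) (nat_lit 155906454830) (nat_lit 3) (nat_lit 4) (nat_lit 4)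 (nat_lit 5) (nat_lit 4) (nat_lit 4) (nat_lit 349) (nat_lit 274) (nat_lit 157)) (XT.lf (nat_lit 0) (nat_lit 930980584232) (nat_lit 76) (nat_lit 197144138992) (nat_lit 76) (nat_lit 150991728633) (nat_lit 3) (nat_lit 4) (nat_lit 4) (nat_lit 5) (nat_lit 4) (nat_lit 4) (nat_lit 350) (nat_lit 274) (nat_lit 156))) (XT.nd (nat_lit 78) (nat_lit 0) (nat_lit 0) (XT.lf (nat_lit 0) (nat_lit 1042345099109) (nat_lit 76) (nat_lit 191836993057) (nat_lit 76) (nat_lit 145684193736) (nat_lit 3) (nat_lit 4) (nat_lit 4) (nat_lit 5) (nat_lit 4) (nat_lit 4) (nat_lit 351) (nat_lit 274) (nat_lit 155)) (XT.lf (nat_lit 0) (nat_lit 1162618176667) (nat_lit 76) (nat_lit 186105557550) (nat_lit 76) (nat_lit 139952398080) (nat_lit 3) (nat_lit 4) (nat_lit 4) (nat_lit 5) (nat_lit 4) (nat_lit 4) (nat_lit 352) (nat_lit 274) (nat_lit 154))))) (XT.nd (nat_lit 234) (nat_lit 0) (nat_lit 0) (XT.nd (nat_lit 78) (nat_lit 0) (nat_lit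 0) (XT.lf (nat_lit 0) (nat_lit 1292512546256) (nat_lit 76) (nat_lit 179915868410) (nat_lit 76) (nat_lit 133762375468) (nat_lit 3) (nat_lit 4) (nat_lit 4) (nat_lit 5) (nat_lit 4) (nat_lit 4) (nat_lit 353) (nat_lit 274) (nat_lit 153)) (XT.nd (nat_lit 78) (nat_lit 0) (nat_lit 0) (XT.lf (nat_lit 0) (nat_lit 1432797952288) (nat_lit 76) (nat_lit 173231245997) (nat_lit 76) (nat_lit 127077444285) (nat_lit 3) (nat_lit 4) (nat_lit 4) (nat_lit 5) (nat_lit 4) (nat_lit 4) (nat_lit 354) (nat_lit 274) (nat_lit 152)) (XT.lf (nat_lit 0) (nat_lit 1584305715688) (nat_lit 76) (nat_lit 166012077735) (nat_lit 76) (nat_lit 119857990123) (nat_lit 3) (nat_lit 4) (nat_lit 4) (nat_lit 5) (nat_lit 4) (nat_lit 4) (nat_lit 355) (nat_lit 274) (nat_lit 151)))) (XT.nd (nat_lit 156) (nat_lit 0) (nat_lit 0) (XT.nd (nat_lit 78) (nat_lit 0) (nat_lit 0) (XT.lf (nat_lit 0) (nat_lit 1747933660238) (nat_lit 76) (nat_lit 158215583366)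 (nat_lit 76) (nat_lit 112061231033) (nat_lit 3) (nat_lit 4) (nat_lit 4) (nat_lit 5) (nat_lit 4) (nat_lit 4) (nat_lit 356) (nat_lit 274) (nat_lit 150)) (XT.lf (nat_lit 0) (nat_lit 1924651433019) (nat_lit 76) (nat_lit 149795561442) (nat_lit 76) (nat_lit 103640963998) (nat_lit 3) (nat_lit 4) (nat_lit 4) (nat_lit 5) (nat_lit 4) (nat_lit 4) (nat_lit 357) (nat_lit 274) (nat_lit 149))) (XT.nd (nat_lit 78) (nat_lit 0) (nat_lit 0) (XT.lf (nat_lit 0) (nat_lit 2115506250460) (nat_lit 76) (nat_lit 140702115538) (nat_lit 76) (nat_lit 94547291138) (nat_lit 3) (nat_lit 4) (nat_lit 4) (nat_lit 5) (nat_lit 4) (nat_lit 4) (nat_lit 358) (nat_lit 274) (nat_lit 148)) (XT.lf (nat_lit 0) (nat_lit 2321629104073) (nat_lit 76) (nat_lit 130881358566) (nat_lit 76) (nat_lit 84726324023) (nat_lit 3) (nat_lit 4) (nat_lit 4) (nat_lit 5) (nat_lit 4) (nat_lit 4) (nat_lit 359) (nat_lit 274) (nat_lit 147))))))) (XT.nd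 (nat_lit 34866) (nat_lit 0) (nat_lit 1064) (XT.nd (nat_lit 34320) (nat_lit 0) (nat_lit 2356) (XT.nd (nat_lit 34008) (nat_lit 0) (nat_lit 2812) (XT.nd (nat_lit 78) (nat_lit 0) (nat_lit 0) (XT.lf (nat_lit 0) (nat_lit 2544241462619) (nat_lit 76) (nat_lit 120275093448) (nat_lit 76) (nat_lit 74119864327) (nat_lit 3) (nat_lit 4) (nat_lit 4) (nat_lit 5) (nat_lit 4) (nat_lit 4) (nat_lit 360) (nat_lit 274) (nat_lit 146)) (XT.nd (nat_lit 78) (nat_lit 0) (nat_lit 0) (XT.lf (nat_lit 0) (nat_lit 2784662510447) (nat_lit 76) (nat_lit 108820468243) (nat_lit 76) (nat_lit 62665058958) (nat_lit 3) (nat_lit 4) (nat_lit 4) (nat_lit 5) (nat_lit 4) (nat_lit 4) (nat_lit 361) (nat_lit 274) (nat_lit 145)) (XT.lf (nat_lit 0) (nat_lit 3044316964875) (nat_lit 76) (nat_lit 96449603690) (nat_lit 76) (nat_lit 50294027586) (nat_lit 3) (nat_lit 4) (nat_lit 4) (nat_lit 5) (nat_lit 4) (nat_lit 4) (nat_lit 362) (nat_lit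 274) (nat_lit 144)))) (XT.nd (nat_lit 156) (nat_lit 0) (nat_lit 76) (XT.nd (nat_lit 78) (nat_lit 0) (nat_lit 0) (XT.lf (nat_lit 0) (nat_lit 1604549040) (nat_lit 532) (nat_lit 2509687843) (nat_lit 532) (nat_lit 2509687843) (nat_lit 40) (nat_lit 3) (nat_lit 47) (nat_lit 3) (nat_lit 47) (nat_lit 5) (nat_lit 275) (nat_lit 275) (nat_lit 230)) (XT.lf (nat_lit 76) (nat_lit 869677191) (nat_lit 0) (nat_lit 2838295453) (nat_lit 532) (nat_lit 10038658764) (nat_lit 41) (nat_lit 5) (nat_lit 40) (nat_lit 3) (nat_lit 47) (nat_lit 5) (nat_lit 276) (nat_lit 275) (nat_lit 229))) (XT.nd (nat_lit 78) (nat_lit 0) (nat_lit 0) (XT.lf (nat_lit 0) (nat_lit 4424220328) (nat_lit 456) (nat_lit 6857653054) (nat_lit 532) (nat_lit 2989394673) (nat_lit 41) (nat_lit 5) (nat_lit 47) (nat_lit 5) (nat_lit 48) (nat_lit 5) (nat_lit 277) (nat_lit 275) (nat_lit 228)) (XT.lf (nat_lit 0) (nat_lit 5239004907) (nat_lit 456)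 (nat_lit 452121120) (nat_lit 532) (nat_lit 9143588779) (nat_lit 41) (nat_lit 5) (nat_lit 47) (nat_lit 5) (nat_lit 48) (nat_lit 5) (nat_lit 278) (nat_lit 275) (nat_lit 227))))) (XT.nd (nat_lit 234) (nat_lit 608) (nat_lit 0) (XT.nd (nat_lit 78) (nat_lit 0) (nat_lit 0) (XT.lf (nat_lit 0) (nat_lit 6264903714) (nat_lit 456) (nat_lit 8660251267) (nat_lit 532) (nat_lit 506535705) (nat_lit 42) (nat_lit 5) (nat_lit 48) (nat_lit 5) (nat_lit 49) (nat_lit 5) (nat_lit 279) (nat_lit 275) (nat_lit 226)) (XT.nd (nat_lit 78) (nat_lit 0) (nat_lit 0) (XT.lf (nat_lit 0) (nat_lit 7505272017) (nat_lit 456) (nat_lit 1647063183) (nat_lit 532) (nat_lit 6913616058) (nat_lit 42) (nat_lit 5) (nat_lit 48) (nat_lit 5) (nat_lit 49) (nat_lit 5) (nat_lit 280) (nat_lit 275) (nat_lit 225)) (XT.lf (nat_lit 76) (nat_lit 6217771501) (nat_lit 0) (nat_lit 2750611076) (nat_lit 532) (nat_lit 7772798736) (nat_lit 43) (nat_lit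 5) (nat_lit 42) (nat_lit 5) (nat_lit 49) (nat_lit 5) (nat_lit 281) (nat_lit 275) (nat_lit 224)))) (XT.nd (nat_lit 156) (nat_lit 228) (nat_lit 0) (XT.nd (nat_lit 78) (nat_lit 456) (nat_lit 0) (XT.lf (nat_lit 0) (nat_lit 10670407077) (nat_lit 456) (nat_lit 2784768500) (nat_lit 76) (nat_lit 4005606522) (nat_lit 43) (nat_lit 5) (nat_lit 49) (nat_lit 5) (nat_lit 44) (nat_lit 5) (nat_lit 282) (nat_lit 275) (nat_lit 223)) (XT.lf (nat_lit 0) (nat_lit 5769671323) (nat_lit 456) (nat_lit 6926475056) (nat_lit 532) (nat_lit 5526894358) (nat_lit 37) (nat_lit 5) (nat_lit 43) (nat_lit 5) (nat_lit 44) (nat_lit 5) (nat_lit 283) (nat_lit 275) (nat_lit 222))) (XT.nd (nat_lit 78) (nat_lit 228) (nat_lit 0) (XT.lf (nat_lit 0) (nat_lit 14943639628) (nat_lit 532) (nat_lit 3900114600) (nat_lit 76) (nat_lit 197837302) (nat_lit 37) (nat_lit 5) (nat_lit 44) (nat_lit 5) (nat_lit 38) (nat_lit 5) (nat_lit 284) (nat_lit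 275) (nat_lit 221)) (XT.lf (nat_lit 0) (nat_lit 5407836307) (nat_lit 228) (nat_lit 12253231470) (nat_lit 304) (nat_lit 2241428376) (nat_lit 34) (nat_lit 5) (nat_lit 37) (nat_lit 5) (nat_lit 38) (nat_lit 5) (nat_lit 285) (nat_lit 275) (nat_lit 220)))))) (XT.nd (nat_lit 546) (nat_lit 608) (nat_lit 0) (XT.nd (nat_lit 234) (nat_lit 380) (nat_lit 0) (XT.nd (nat_lit 78) (nat_lit 304) (nat_lit 0) (XT.lf (nat_lit 0) (nat_lit 15662559366) (nat_lit 228) (nat_lit 5021131280) (nat_lit 304) (nat_lit 141633094) (nat_lit 34) (nat_lit 5) (nat_lit 37) (nat_lit 5) (nat_lit 38) (nat_lit 5) (nat_lit 286) (nat_lit 275) (nat_lit 219)) (XT.nd (nat_lit 78) (nat_lit 0) (nat_lit 0) (XT.lf (nat_lit 0) (nat_lit 2196067357) (nat_lit 304) (nat_lit 16780671053) (nat_lit 76) (nat_lit 2827110004) (nat_lit 30) (nat_lit 5) (nat_lit 34) (nat_lit 5) (nat_lit 31) (nat_lit 5) (nat_lit 287) (nat_lit 275) (nat_lit 218)) (XT.lf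 (nat_lit 0) (nat_lit 4971257564) (nat_lit 304) (nat_lit 6689640145) (nat_lit 76) (nat_lit 11178872247) (nat_lit 30) (nat_lit 5) (nat_lit 34) (nat_lit 5) (nat_lit 31) (nat_lit 5) (nat_lit 288) (nat_lit 275) (nat_lit 217)))) (XT.nd (nat_lit 156) (nat_lit 152) (nat_lit 0) (XT.nd (nat_lit 78) (nat_lit 0) (nat_lit 0) (XT.lf (nat_lit 0) (nat_lit 4410684861) (nat_lit 228) (nat_lit 3648004271) (nat_lit 304) (nat_lit 15892712855) (nat_lit 27) (nat_lit 5) (nat_lit 30) (nat_lit 5) (nat_lit 31) (nat_lit 5) (nat_lit 289) (nat_lit 275) (nat_lit 216)) (XT.lf (nat_lit 0) (nat_lit 11685978508) (nat_lit 304) (nat_lit 8502337508) (nat_lit 76) (nat_lit 4940270295) (nat_lit 27) (nat_lit 5) (nat_lit 31) (nat_lit 5) (nat_lit 28) (nat_lit 5) (nat_lit 290) (nat_lit 275) (nat_lit 215))) (XT.nd (nat_lit 78) (nat_lit 0) (nat_lit 0) (XT.lf (nat_lit 0) (nat_lit 3480559944) (nat_lit 152) (nat_lit 12287290268) (nat_lit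 228) (nat_lit 10618990264) (nat_lit 25) (nat_lit 5) (nat_lit 27) (nat_lit 5) (nat_lit 28) (nat_lit 5) (nat_lit 291) (nat_lit 275) (nat_lit 214)) (XT.lf (nat_lit 0) (nat_lit 16888167219) (nat_lit 152) (nat_lit 3507133439) (nat_lit 228) (nat_lit 7332975544) (nat_lit 25) (nat_lit 5) (nat_lit 27) (nat_lit 5) (nat_lit 28) (nat_lit 5) (nat_lit 292) (nat_lit 275) (nat_lit 213))))) (XT.nd (nat_lit 312) (nat_lit 228) (nat_lit 0) (XT.nd (nat_lit 156) (nat_lit 152) (nat_lit 0) (XT.nd (nat_lit 78) (nat_lit 76) (nat_lit 0) (XT.lf (nat_lit 0) (nat_lit 2137460637) (nat_lit 152) (nat_lit 23438067979) (nat_lit 228) (nat_lit 3586931973) (nat_lit 23) (nat_lit 5) (nat_lit 25) (nat_lit 5) (nat_lit 26) (nat_lit 5) (nat_lit 293) (nat_lit 275) (nat_lit 212)) (XT.lf (nat_lit 0) (nat_lit 818670978) (nat_lit 228) (nat_lit 14045135693) (nat_lit 76) (nat_lit 15816098767) (nat_lit 22) (nat_lit 5) (nat_lit 25) (nat_lit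 5) (nat_lit 23) (nat_lit 5) (nat_lit 294) (nat_lit 275) (nat_lit 211))) (XT.nd (nat_lit 78) (nat_lit 152) (nat_lit 0) (XT.lf (nat_lit 0) (nat_lit 5371495909) (nat_lit 228) (nat_lit 136125865) (nat_lit 76) (nat_lit 26804617845) (nat_lit 22) (nat_lit 5) (nat_lit 25) (nat_lit 5) (nat_lit 23) (nat_lit 5) (nat_lit 295) (nat_lit 275) (nat_lit 210)) (XT.lf (nat_lit 0) (nat_lit 10774663908) (nat_lit 228) (nat_lit 18512369392) (nat_lit 76) (nat_lit 4749267507) (nat_lit 20) (nat_lit 5) (nat_lit 23) (nat_lit 5) (nat_lit 21) (nat_lit 5) (nat_lit 296) (nat_lit 275) (nat_lit 209)))) (XT.nd (nat_lit 156) (nat_lit 76) (nat_lit 0) (XT.nd (nat_lit 78) (nat_lit 152) (nat_lit 0) (XT.lf (nat_lit 0) (nat_lit 16746698531) (nat_lit 228) (nat_lit 3611850065) (nat_lit 76) (nat_lit 15528836681) (nat_lit 20) (nat_lit 5) (nat_lit 23) (nat_lit 5) (nat_lit 21) (nat_lit 5) (nat_lit 297) (nat_lit 275) (nat_lit 208))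 (XT.lf (nat_lit 0) (nat_lit 13123064822) (nat_lit 152) (nat_lit 10379540642) (nat_lit 228) (nat_lit 14359487686) (nat_lit 18) (nat_lit 5) (nat_lit 20) (nat_lit 5) (nat_lit 21) (nat_lit 5) (nat_lit 298) (nat_lit 275) (nat_lit 207))) (XT.nd (nat_lit 78) (nat_lit 76) (nat_lit 0) (XT.lf (nat_lit 0) (nat_lit 30900632231) (nat_lit 228) (nat_lit 8611227033) (nat_lit 76) (nat_lit 474810134) (nat_lit 18) (nat_lit 5) (nat_lit 21) (nat_lit 5) (nat_lit 19) (nat_lit 4) (nat_lit 299) (nat_lit 275) (nat_lit 206)) (XT.lf (nat_lit 0) (nat_lit 8972718393) (nat_lit 76) (nat_lit 30394620702) (nat_lit 152) (nat_lit 2875747397) (nat_lit 17) (nat_lit 5) (nat_lit 18) (nat_lit 5) (nat_lit 19) (nat_lit 4) (nat_lit 300) (nat_lit 275) (nat_lit 205))))))))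
noncomputable def xc75 : XT := (XT.nd (nat_lit 2184) (nat_lit 76) (nat_lit 0) (XT.nd (nat_lit 1092) (nat_lit 380) (nat_lit 0) (XT.nd (nat_lit 546) (nat_lit 304) (nat_lit 0) (XT.nd (nat_lit 234) (nat_lit 76) (nat_lit 0) (XT.nd (nat_lit 78) (nat_lit 152) (nat_lit 0) (XT.lf (nat_lit 0) (nat_lit 3872800341) (nat_lit 152) (nat_lit 16319793797) (nat_lit 76) (nat_lit 24461422322) (nat_lit 16) (nat_lit 5) (nat_lit 18) (nat_lit 5) (nat_lit 17) (nat_lit 5) (nat_lit 301) (nat_lit 275) (nat_lit 204)) (XT.nd (nat_lit 78) (nat_lit 0) (nat_lit 0) (XT.lf (nat_lit 0) (nat_lit 1999701758) (nat_lit 152) (nat_lit 9046418624) (nat_lit 228) (nat_lit 36202521874) (nat_lit 14) (nat_lit 5) (nat_lit 16) (nat_lit 5) (nat_lit 17) (nat_lit 5) (nat_lit 302) (nat_lit 275) (nat_lit 203)) (XT.lf (nat_lit 0) (nat_lit 19315391152) (nat_lit 228) (nat_lit 27398454581) (nat_lit 76) (nat_lit 3295241585) (nat_lit 14) (nat_lit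 5) (nat_lit 17) (nat_lit 5) (nat_lit 15) (nat_lit 4) (nat_lit 303) (nat_lit 275) (nat_lit 202)))) (XT.nd (nat_lit 156) (nat_lit 0) (nat_lit 0) (XT.nd (nat_lit 78) (nat_lit 76) (nat_lit 0) (XT.lf (nat_lit 0) (nat_lit 28474081654) (nat_lit 228) (nat_lit 8366621271) (nat_lit 76) (nat_lit 16131449641) (nat_lit 14) (nat_lit 5) (nat_lit 17) (nat_lit 5) (nat_lit 15) (nat_lit 4) (nat_lit 304) (nat_lit 275) (nat_lit 201)) (XT.lf (nat_lit 0) (nat_lit 12818121608) (nat_lit 76) (nat_lit 25849053547) (nat_lit 152) (nat_lit 17480964984) (nat_lit 13) (nat_lit 5) (nat_lit 14) (nat_lit 5) (nat_lit 15) (nat_lit 4) (nat_lit 305) (nat_lit 275) (nat_lit 200))) (XT.nd (nat_lit 78) (nat_lit 0) (nat_lit 0) (XT.lf (nat_lit 0) (nat_lit 36162884351) (nat_lit 76) (nat_lit 13735253841) (nat_lit 152) (nat_lit 9662287473) (nat_lit 13) (nat_lit 5) (nat_lit 14) (nat_lit 5) (nat_lit 15) (nat_lit 4) (nat_lit 306) (nat_lit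 275) (nat_lit 199)) (XT.lf (nat_lit 0) (nat_lit 61365434844) (nat_lit 76) (nat_lit 656276579) (nat_lit 152) (nat_lit 1224463727) (nat_lit 13) (nat_lit 5) (nat_lit 14) (nat_lit 5) (nat_lit 15) (nat_lit 4) (nat_lit 307) (nat_lit 275) (nat_lit 198))))) (XT.nd (nat_lit 234) (nat_lit 152) (nat_lit 0) (XT.nd (nat_lit 78) (nat_lit 0) (nat_lit 0) (XT.lf (nat_lit 0) (nat_lit 8366526667) (nat_lit 152) (nat_lit 45239415290) (nat_lit 76) (nat_lit 13535855478) (nat_lit 11) (nat_lit 5) (nat_lit 13) (nat_lit 5) (nat_lit 12) (nat_lit 4) (nat_lit 308) (nat_lit 275) (nat_lit 197)) (XT.nd (nat_lit 78) (nat_lit 0) (nat_lit 0) (XT.lf (nat_lit 0) (nat_lit 18722968158) (nat_lit 152) (nat_lit 23709513130) (nat_lit 76) (nat_lit 28908907240) (nat_lit 11) (nat_lit 5) (nat_lit 13) (nat_lit 5) (nat_lit 12) (nat_lit 4) (nat_lit 309) (nat_lit 275) (nat_lit 196)) (XT.lf (nat_lit 0) (nat_lit 29902851020) (nat_lit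 152) (nat_lit 466001352) (nat_lit 76) (nat_lit 45508509102) (nat_lit 11) (nat_lit 5) (nat_lit 13) (nat_lit 5) (nat_lit 12) (nat_lit 4) (nat_lit 310) (nat_lit 275) (nat_lit 195)))) (XT.nd (nat_lit 156) (nat_lit 76) (nat_lit 0) (XT.nd (nat_lit 78) (nat_lit 0) (nat_lit 0) (XT.lf (nat_lit 0) (nat_lit 25925771461) (nat_lit 76) (nat_lit 16670170378) (nat_lit 152) (nat_lit 38130773043) (nat_lit 10) (nat_lit 5) (nat_lit 11) (nat_lit 5) (nat_lit 12) (nat_lit 4) (nat_lit 311) (nat_lit 275) (nat_lit 194)) (XT.lf (nat_lit 0) (nat_lit 54447461888) (nat_lit 76) (nat_lit 1865218621) (nat_lit 152) (nat_lit 29650687421) (nat_lit 10) (nat_lit 5) (nat_lit 11) (nat_lit 5) (nat_lit 12) (nat_lit 4) (nat_lit 312) (nat_lit 275) (nat_lit 193))) (XT.nd (nat_lit 78) (nat_lit 76) (nat_lit 0) (XT.lf (nat_lit 0) (nat_lit 71462164169) (nat_lit 152) (nat_lit 6715358152) (nat_lit 0) (nat_lit 13414605298) (nat_lit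 10) (nat_lit 5) (nat_lit 12) (nat_lit 4) (nat_lit 10) (nat_lit 4) (nat_lit 313) (nat_lit 275) (nat_lit 192)) (XT.lf (nat_lit 0) (nat_lit 21067631208) (nat_lit 76) (nat_lit 67307136850) (nat_lit 76) (nat_lit 9252333460) (nat_lit 9) (nat_lit 4) (nat_lit 10) (nat_lit 5) (nat_lit 10) (nat_lit 4) (nat_lit 314) (nat_lit 275) (nat_lit 191)))))) (XT.nd (nat_lit 546) (nat_lit 228) (nat_lit 0) (XT.nd (nat_lit 234) (nat_lit 0) (nat_lit 0) (XT.nd (nat_lit 78) (nat_lit 76) (nat_lit 0) (XT.lf (nat_lit 0) (nat_lit 2555110954) (nat_lit 152) (nat_lit 52746880494) (nat_lit 76) (nat_lit 48823330822) (nat_lit 8) (nat_lit 5) (nat_lit 10) (nat_lit 5) (nat_lit 9) (nat_lit 4) (nat_lit 315) (nat_lit 275) (nat_lit 190)) (XT.nd (nat_lit 78) (nat_lit 76) (nat_lit 0) (XT.lf (nat_lit 0) (nat_lit 14803636919) (nat_lit 152) (nat_lit 27276157495) (nat_lit 76) (nat_lit 69044677501) (nat_lit 8) (nat_lit 5) (nat_lit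 10) (nat_lit 5) (nat_lit 9) (nat_lit 4) (nat_lit 316) (nat_lit 275) (nat_lit 189)) (XT.lf (nat_lit 0) (nat_lit 238064074) (nat_lit 76) (nat_lit 27796328855) (nat_lit 152) (nat_lit 90648977438) (nat_lit 7) (nat_lit 5) (nat_lit 8) (nat_lit 5) (nat_lit 9) (nat_lit 4) (nat_lit 317) (nat_lit 275) (nat_lit 188)))) (XT.nd (nat_lit 156) (nat_lit 0) (nat_lit 0) (XT.nd (nat_lit 78) (nat_lit 0) (nat_lit 0) (XT.lf (nat_lit 0) (nat_lit 31498728043) (nat_lit 76) (nat_lit 11567390322) (nat_lit 152) (nat_lit 83721465944) (nat_lit 7) (nat_lit 5) (nat_lit 8) (nat_lit 5) (nat_lit 9) (nat_lit 4) (nat_lit 318) (nat_lit 275) (nat_lit 187)) (XT.lf (nat_lit 0) (nat_lit 59440630439) (nat_lit 152) (nat_lit 70428888844) (nat_lit 0) (nat_lit 5659400202) (nat_lit 7) (nat_lit 5) (nat_lit 9) (nat_lit 4) (nat_lit 7) (nat_lit 4) (nat_lit 319) (nat_lit 275) (nat_lit 186))) (XT.nd (nat_lit 78) (nat_lit 0) (nat_lit 0)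 (XT.lf (nat_lit 0) (nat_lit 77422697534) (nat_lit 152) (nat_lit 43885819937) (nat_lit 0) (nat_lit 23637240189) (nat_lit 7) (nat_lit 5) (nat_lit 9) (nat_lit 4) (nat_lit 7) (nat_lit 4) (nat_lit 320) (nat_lit 275) (nat_lit 185)) (XT.lf (nat_lit 0) (nat_lit 96840684032) (nat_lit 152) (nat_lit 15224161271) (nat_lit 0) (nat_lit 43051312699) (nat_lit 7) (nat_lit 5) (nat_lit 9) (nat_lit 4) (nat_lit 7) (nat_lit 4) (nat_lit 321) (nat_lit 275) (nat_lit 184))))) (XT.nd (nat_lit 234) (nat_lit 152) (nat_lit 0) (XT.nd (nat_lit 78) (nat_lit 0) (nat_lit 0) (XT.lf (nat_lit 0) (nat_lit 16554033837) (nat_lit 76) (nat_lit 101653750558) (nat_lit 76) (nat_lit 47860755161) (nat_lit 6) (nat_lit 4) (nat_lit 7) (nat_lit 5) (nat_lit 7) (nat_lit 4) (nat_lit 322) (nat_lit 275) (nat_lit 183)) (XT.nd (nat_lit 78) (nat_lit 0) (nat_lit 0) (XT.lf (nat_lit 0) (nat_lit 51735913853) (nat_lit 76) (nat_lit 89962220603) (nat_lit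 76) (nat_lit 36165869591) (nat_lit 6) (nat_lit 4) (nat_lit 7) (nat_lit 5) (nat_lit 7) (nat_lit 4) (nat_lit 323) (nat_lit 275) (nat_lit 182)) (XT.lf (nat_lit 0) (nat_lit 89728286637) (nat_lit 76) (nat_lit 77337227846) (nat_lit 76) (nat_lit 23537769784) (nat_lit 6) (nat_lit 4) (nat_lit 7) (nat_lit 5) (nat_lit 7) (nat_lit 4) (nat_lit 324) (nat_lit 275) (nat_lit 181)))) (XT.nd (nat_lit 156) (nat_lit 76) (nat_lit 0) (XT.nd (nat_lit 78) (nat_lit 76) (nat_lit 0) (XT.lf (nat_lit 0) (nat_lit 130756292177) (nat_lit 76) (nat_lit 63703957515) (nat_lit 76) (nat_lit 9901622555) (nat_lit 6) (nat_lit 4) (nat_lit 7) (nat_lit 5) (nat_lit 7) (nat_lit 4) (nat_lit 325) (nat_lit 275) (nat_lit 180)) (XT.lf (nat_lit 0) (nat_lit 4582093946) (nat_lit 152) (nat_lit 44274243346) (nat_lit 76) (nat_lit 170355682879) (nat_lit 5) (nat_lit 5) (nat_lit 7) (nat_lit 5) (nat_lit 6) (nat_lit 4) (nat_lit 326) (nat_lit 275)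 (nat_lit 179))) (XT.nd (nat_lit 78) (nat_lit 76) (nat_lit 0) (XT.lf (nat_lit 0) (nat_lit 19687770714) (nat_lit 152) (nat_lit 12856902145) (nat_lit 76) (nat_lit 202685077654) (nat_lit 5) (nat_lit 5) (nat_lit 7) (nat_lit 5) (nat_lit 6) (nat_lit 4) (nat_lit 327) (nat_lit 275) (nat_lit 178)) (XT.lf (nat_lit 0) (nat_lit 22180303225) (nat_lit 76) (nat_lit 14353375731) (nat_lit 152) (nat_lit 215952679995) (nat_lit 4) (nat_lit 5) (nat_lit 5) (nat_lit 5) (nat_lit 6) (nat_lit 4) (nat_lit 328) (nat_lit 275) (nat_lit 177))))))) (XT.nd (nat_lit 1092) (nat_lit 0) (nat_lit 0) (XT.nd (nat_lit 546) (nat_lit 76) (nat_lit 0) (XT.nd (nat_lit 234) (nat_lit 0) (nat_lit 0) (XT.nd (nat_lit 78) (nat_lit 0) (nat_lit 0) (XT.lf (nat_lit 0) (nat_lit 55213581314) (nat_lit 152) (nat_lit 210483229081) (nat_lit 0) (nat_lit 5387781673) (nat_lit 4) (nat_lit 5) (nat_lit 6) (nat_lit 4) (nat_lit 4) (nat_lit 4) (nat_lit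 329) (nat_lit 275) (nat_lit 176)) (XT.nd (nat_lit 78) (nat_lit 0) (nat_lit 0) (XT.lf (nat_lit 0) (nat_lit 75759170545) (nat_lit 152) (nat_lit 189450253334) (nat_lit 0) (nat_lit 25931557970) (nat_lit 4) (nat_lit 5) (nat_lit 6) (nat_lit 4) (nat_lit 4) (nat_lit 4) (nat_lit 330) (nat_lit 275) (nat_lit 175)) (XT.lf (nat_lit 0) (nat_lit 97946999258) (nat_lit 152) (nat_lit 166737289600) (nat_lit 0) (nat_lit 48117708041) (nat_lit 4) (nat_lit 5) (nat_lit 6) (nat_lit 4) (nat_lit 4) (nat_lit 4) (nat_lit 331) (nat_lit 275) (nat_lit 174)))) (XT.nd (nat_lit 156) (nat_lit 0) (nat_lit 0) (XT.nd (nat_lit 78) (nat_lit 0) (nat_lit 0) (XT.lf (nat_lit 0) (nat_lit 121908550884) (nat_lit 152) (nat_lit 142209742537) (nat_lit 0) (nat_lit 72077705368) (nat_lit 4) (nat_lit 5) (nat_lit 6) (nat_lit 4) (nat_lit 4) (nat_lit 4) (nat_lit 332) (nat_lit 275) (nat_lit 173)) (XT.lf (nat_lit 0) (nat_lit 147785819801) (nat_lit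 152) (nat_lit 115722263718) (nat_lit 0) (nat_lit 97953535120) (nat_lit 4) (nat_lit 5) (nat_lit 6) (nat_lit 4) (nat_lit 4) (nat_lit 4) (nat_lit 333) (nat_lit 275) (nat_lit 172))) (XT.nd (nat_lit 78) (nat_lit 0) (nat_lit 0) (XT.lf (nat_lit 0) (nat_lit 175732152790) (nat_lit 152) (nat_lit 87117890306) (nat_lit 0) (nat_lit 125898535547) (nat_lit 4) (nat_lit 5) (nat_lit 6) (nat_lit 4) (nat_lit 4) (nat_lit 4) (nat_lit 334) (nat_lit 275) (nat_lit 171)) (XT.lf (nat_lit 0) (nat_lit 205913157748) (nat_lit 152) (nat_lit 56227114902) (nat_lit 0) (nat_lit 156078306653) (nat_lit 4) (nat_lit 5) (nat_lit 6) (nat_lit 4) (nat_lit 4) (nat_lit 4) (nat_lit 335) (nat_lit 275) (nat_lit 170))))) (XT.nd (nat_lit 234) (nat_lit 0) (nat_lit 0) (XT.nd (nat_lit 78) (nat_lit 76) (nat_lit 0) (XT.lf (nat_lit 0) (nat_lit 238507685075) (nat_lit 152) (nat_lit 22866881061) (nat_lit 0) (nat_lit 188671691525) (nat_lit 4)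 (nat_lit 5) (nat_lit 6) (nat_lit 4) (nat_lit 4) (nat_lit 4) (nat_lit 336) (nat_lit 275) (nat_lit 169)) (XT.nd (nat_lit 78) (nat_lit 0) (nat_lit 0) (XT.lf (nat_lit 0) (nat_lit 13853510179) (nat_lit 76) (nat_lit 260188554601) (nat_lit 76) (nat_lit 210351503221) (nat_lit 3) (nat_lit 4) (nat_lit 4) (nat_lit 5) (nat_lit 4) (nat_lit 4) (nat_lit 337) (nat_lit 275) (nat_lit 168)) (XT.lf (nat_lit 0) (nat_lit 54810364790) (nat_lit 76) (nat_lit 258233190623) (nat_lit 76) (nat_lit 208395159771) (nat_lit 3) (nat_lit 4) (nat_lit 4) (nat_lit 5) (nat_lit 4) (nat_lit 4) (nat_lit 338) (nat_lit 275) (nat_lit 167)))) (XT.nd (nat_lit 156) (nat_lit 0) (nat_lit 0) (XT.nd (nat_lit 78) (nat_lit 0) (nat_lit 0) (XT.lf (nat_lit 0) (nat_lit 99042260626) (nat_lit 76) (nat_lit 256122107911) (nat_lit 76) (nat_lit 206283170141) (nat_lit 3) (nat_lit 4) (nat_lit 4) (nat_lit 5) (nat_lit 4) (nat_lit 4) (nat_lit 339) (nat_lit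 275) (nat_lit 166)) (XT.lf (nat_lit 0) (nat_lit 146811312623) (nat_lit 76) (nat_lit 253842796347) (nat_lit 76) (nat_lit 204003018837) (nat_lit 3) (nat_lit 4) (nat_lit 4) (nat_lit 5) (nat_lit 4) (nat_lit 4) (nat_lit 340) (nat_lit 275) (nat_lit 165))) (XT.nd (nat_lit 78) (nat_lit 0) (nat_lit 0) (XT.lf (nat_lit 0) (nat_lit 198400596648) (nat_lit 76) (nat_lit 251381748898) (nat_lit 76) (nat_lit 201541193852) (nat_lit 3) (nat_lit 4) (nat_lit 4) (nat_lit 5) (nat_lit 4) (nat_lit 4) (nat_lit 341) (nat_lit 275) (nat_lit 164)) (XT.lf (nat_lit 0) (nat_lit 254115826973) (nat_lit 76) (nat_lit 248724381580) (nat_lit 76) (nat_lit 198883106593) (nat_lit 3) (nat_lit 4) (nat_lit 4) (nat_lit 5) (nat_lit 4) (nat_lit 4) (nat_lit 342) (nat_lit 275) (nat_lit 163)))))) (XT.nd (nat_lit 546) (nat_lit 0) (nat_lit 0) (XT.nd (nat_lit 234) (nat_lit 0) (nat_lit 0) (XT.nd (nat_lit 78) (nat_lit 0) (nat_lit 0) (XT.lf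 (nat_lit 0) (nat_lit 314287167929) (nat_lit 76) (nat_lit 245854947030) (nat_lit 76) (nat_lit 196013005431) (nat_lit 3) (nat_lit 4) (nat_lit 4) (nat_lit 5) (nat_lit 4) (nat_lit 4) (nat_lit 343) (nat_lit 275) (nat_lit 162)) (XT.nd (nat_lit 78) (nat_lit 0) (nat_lit 0) (XT.lf (nat_lit 0) (nat_lit 379271190424) (nat_lit 76) (nat_lit 242756441193) (nat_lit 76) (nat_lit 192913882361) (nat_lit 3) (nat_lit 4) (nat_lit 4) (nat_lit 5) (nat_lit 4) (nat_lit 4) (nat_lit 344) (nat_lit 275) (nat_lit 161)) (XT.lf (nat_lit 0) (nat_lit 449452984961) (nat_lit 76) (nat_lit 239410502552) (nat_lit 76) (nat_lit 189567372208) (nat_lit 3) (nat_lit 4) (nat_lit 4) (nat_lit 5) (nat_lit 4) (nat_lit 4) (nat_lit 345) (nat_lit 275) (nat_lit 160)))) (XT.nd (nat_lit 156) (nat_lit 0) (nat_lit 0) (XT.nd (nat_lit 78) (nat_lit 0) (nat_lit 0) (XT.lf (nat_lit 0) (nat_lit 525248443657) (nat_lit 76) (nat_lit 235797303323) (nat_lit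 76) (nat_lit 185953643800) (nat_lit 3) (nat_lit 4) (nat_lit 4) (nat_lit 5) (nat_lit 4) (nat_lit 4) (nat_lit 346) (nat_lit 275) (nat_lit 159)) (XT.lf (nat_lit 0) (nat_lit 607106724786) (nat_lit 76) (nat_lit 231895431955) (nat_lit 76) (nat_lit 182051282452) (nat_lit 3) (nat_lit 4) (nat_lit 4) (nat_lit 5) (nat_lit 4) (nat_lit 4) (nat_lit 347) (nat_lit 275) (nat_lit 158))) (XT.nd (nat_lit 78) (nat_lit 0) (nat_lit 0) (XT.lf (nat_lit 0) (nat_lit 695512914457) (nat_lit 76) (nat_lit 227681766246) (nat_lit 76) (nat_lit 177837163058) (nat_lit 3) (nat_lit 4) (nat_lit 4) (nat_lit 5) (nat_lit 4) (nat_lit 4) (nat_lit 348) (nat_lit 275) (nat_lit 157)) (XT.lf (nat_lit 0) (nat_lit 790990901202) (nat_lit 76) (nat_lit 223131336326) (nat_lit 76) (nat_lit 173286313060) (nat_lit 3) (nat_lit 4) (nat_lit 4) (nat_lit 5) (nat_lit 4) (nat_lit 4) (nat_lit 349) (nat_lit 275) (nat_lit 156))))) (XT.nd (nat_lit 312)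 (nat_lit 0) (nat_lit 0) (XT.nd (nat_lit 156) (nat_lit 0) (nat_lit 0) (XT.nd (nat_lit 78) (nat_lit 0) (nat_lit 0) (XT.lf (nat_lit 0) (nat_lit 894106480498) (nat_lit 76) (nat_lit 218217176685) (nat_lit 76) (nat_lit 168371764457) (nat_lit 3) (nat_lit 4) (nat_lit 4) (nat_lit 5) (nat_lit 4) (nat_lit 4) (nat_lit 350) (nat_lit 275) (nat_lit 155)) (XT.lf (nat_lit 0) (nat_lit 1005470707630) (nat_lit 76) (nat_lit 212910166377) (nat_lit 76) (nat_lit 163064393999) (nat_lit 3) (nat_lit 4) (nat_lit 4) (nat_lit 5) (nat_lit 4) (nat_lit 4) (nat_lit 351) (nat_lit 275) (nat_lit 154))) (XT.nd (nat_lit 78) (nat_lit 0) (nat_lit 0) (XT.lf (nat_lit 0) (nat_lit 1125743518758) (nat_lit 76) (nat_lit 207178856450) (nat_lit 76) (nat_lit 157332750601) (nat_lit 3) (nat_lit 4) (nat_lit 4) (nat_lit 5) (nat_lit 4) (nat_lit 4) (nat_lit 352) (nat_lit 275) (nat_lit 153)) (XT.lf (nat_lit 0) (nat_lit 1255637641653) (nat_lit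 76) (nat_lit 200989283589) (nat_lit 76) (nat_lit 151142868968) (nat_lit 3) (nat_lit 4) (nat_lit 4) (nat_lit 5) (nat_lit 4) (nat_lit 4) (nat_lit 353) (nat_lit 275) (nat_lit 152)))) (XT.nd (nat_lit 156) (nat_lit 0) (nat_lit 0) (XT.nd (nat_lit 78) (nat_lit 0) (nat_lit 0) (XT.lf (nat_lit 0) (nat_lit 1395922819265) (nat_lit 76) (nat_lit 194304768841) (nat_lit 76) (nat_lit 144458068322) (nat_lit 3) (nat_lit 4) (nat_lit 4) (nat_lit 5) (nat_lit 4) (nat_lit 4) (nat_lit 354) (nat_lit 275) (nat_lit 151)) (XT.lf (nat_lit 0) (nat_lit 1547430371164) (nat_lit 76) (nat_lit 187085700268) (nat_lit 76) (nat_lit 137238735028) (nat_lit 3) (nat_lit 4) (nat_lit 4) (nat_lit 5) (nat_lit 4) (nat_lit 4) (nat_lit 355) (nat_lit 275) (nat_lit 150))) (XT.nd (nat_lit 78) (nat_lit 0) (nat_lit 0) (XT.lf (nat_lit 0) (nat_lit 1711058119881) (nat_lit 76) (nat_lit 179289298204) (nat_lit 76) (nat_lit 129442087853) (nat_lit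 3) (nat_lit 4) (nat_lit 4) (nat_lit 5) (nat_lit 4) (nat_lit 4) (nat_lit 356) (nat_lit 275) (nat_lit 149)) (XT.lf (nat_lit 0) (nat_lit 1887775711333) (nat_lit 76) (nat_lit 170869361748) (nat_lit 76) (nat_lit 121021924441) (nat_lit 3) (nat_lit 4) (nat_lit 4) (nat_lit 5) (nat_lit 4) (nat_lit 4) (nat_lit 357) (nat_lit 275) (nat_lit 148))))))))
noncomputable def xc76 : XT := (XT.nd (nat_lit 36036) (nat_lit 0) (nat_lit 228) (XT.nd (nat_lit 34944) (nat_lit 0) (nat_lit 1292) (XT.nd (nat_lit 34398) (nat_lit 0) (nat_lit 2584) (XT.nd (nat_lit 234) (nat_lit 0) (nat_lit 0) (XT.nd (nat_lit 78) (nat_lit 0) (nat_lit 0) (XT.lf (nat_lit 0) (nat_lit 2078630360878) (nat_lit 76) (nat_lit 161775994981) (nat_lit 76) (nat_lit 111928347530) (nat_lit 3) (nat_lit 4) (nat_lit 4) (nat_lit 5) (nat_lit 4) (nat_lit 4) (nat_lit 358) (nat_lit 275) (nat_lit 147)) (XT.nd (nat_lit 78) (nat_lit 0) (nat_lit 0) (XT.lf (nat_lit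 0) (nat_lit 2284753059032) (nat_lit 76) (nat_lit 151955311284) (nat_lit 76) (nat_lit 102107469256) (nat_lit 3) (nat_lit 4) (nat_lit 4) (nat_lit 5) (nat_lit 4) (nat_lit 4) (nat_lit 359) (nat_lit 275) (nat_lit 146)) (XT.lf (nat_lit 0) (nat_lit 2507365273635) (nat_lit 76) (nat_lit 141349114013) (nat_lit 76) (nat_lit 91501091821) (nat_lit 3) (nat_lit 4) (nat_lit 4) (nat_lit 5) (nat_lit 4) (nat_lit 4) (nat_lit 360) (nat_lit 275) (nat_lit 145)))) (XT.nd (nat_lit 34008) (nat_lit 0) (nat_lit 2812) (XT.nd (nat_lit 78) (nat_lit 0) (nat_lit 0) (XT.lf (nat_lit 0) (nat_lit 2747786188181) (nat_lit 76) (nat_lit 129894551630) (nat_lit 76) (nat_lit 80046362618) (nat_lit 3) (nat_lit 4) (nat_lit 4) (nat_lit 5) (nat_lit 4) (nat_lit 4) (nat_lit 361) (nat_lit 275) (nat_lit 144)) (XT.lf (nat_lit 0) (nat_lit 3007440519201) (nat_lit 76) (nat_lit 117523745245) (nat_lit 76) (nat_lit 67675401771) (nat_lit 3)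 (nat_lit 4) (nat_lit 4) (nat_lit 5) (nat_lit 4) (nat_lit 4) (nat_lit 362) (nat_lit 275) (nat_lit 143))) (XT.nd (nat_lit 78) (nat_lit 0) (nat_lit 0) (XT.lf (nat_lit 0) (nat_lit 2074100081) (nat_lit 532) (nat_lit 2525494172) (nat_lit 532) (nat_lit 2525494172) (nat_lit 40) (nat_lit 3) (nat_lit 47) (nat_lit 3) (nat_lit 47) (nat_lit 5) (nat_lit 276) (nat_lit 276) (nat_lit 228)) (XT.lf (nat_lit 76) (nat_lit 1299823260) (nat_lit 0) (nat_lit 3345286954) (nat_lit 532) (nat_lit 10147316708) (nat_lit 41) (nat_lit 5) (nat_lit 40) (nat_lit 3) (nat_lit 47) (nat_lit 5) (nat_lit 277) (nat_lit 276) (nat_lit 227))))) (XT.nd (nat_lit 234) (nat_lit 304) (nat_lit 0) (XT.nd (nat_lit 78) (nat_lit 0) (nat_lit 0) (XT.lf (nat_lit 0) (nat_lit 5364979701) (nat_lit 456) (nat_lit 7016229036) (nat_lit 532) (nat_lit 2982319636) (nat_lit 41) (nat_lit 5) (nat_lit 47) (nat_lit 5) (nat_lit 48) (nat_lit 5) (nat_lit 278)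 (nat_lit 276) (nat_lit 226)) (XT.nd (nat_lit 78) (nat_lit 0) (nat_lit 76) (XT.lf (nat_lit 0) (nat_lit 6201478769) (nat_lit 456) (nat_lit 127146122) (nat_lit 532) (nat_lit 9647088279) (nat_lit 41) (nat_lit 5) (nat_lit 47) (nat_lit 5) (nat_lit 48) (nat_lit 5) (nat_lit 279) (nat_lit 276) (nat_lit 225)) (XT.lf (nat_lit 0) (nat_lit 7273829090) (nat_lit 456) (nat_lit 8954166898) (nat_lit 532) (nat_lit 395471914) (nat_lit 42) (nat_lit 5) (nat_lit 48) (nat_lit 5) (nat_lit 49) (nat_lit 5) (nat_lit 280) (nat_lit 276) (nat_lit 224)))) (XT.nd (nat_lit 156) (nat_lit 380) (nat_lit 0) (XT.nd (nat_lit 78) (nat_lit 0) (nat_lit 0) (XT.lf (nat_lit 0) (nat_lit 8575817000) (nat_lit 456) (nat_lit 1409472247) (nat_lit 532) (nat_lit 7326347337) (nat_lit 42) (nat_lit 5) (nat_lit 48) (nat_lit 5) (nat_lit 49) (nat_lit 5) (nat_lit 281) (nat_lit 276) (nat_lit 223)) (XT.lf (nat_lit 76) (nat_lit 7075198428) (nat_lit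 0) (nat_lit 3054612169) (nat_lit 532) (nat_lit 7913314445) (nat_lit 43) (nat_lit 5) (nat_lit 42) (nat_lit 5) (nat_lit 49) (nat_lit 5) (nat_lit 282) (nat_lit 276) (nat_lit 222))) (XT.nd (nat_lit 78) (nat_lit 456) (nat_lit 0) (XT.lf (nat_lit 0) (nat_lit 11933241829) (nat_lit 456) (nat_lit 2637758280) (nat_lit 76) (nat_lit 4252210065) (nat_lit 43) (nat_lit 5) (nat_lit 49) (nat_lit 5) (nat_lit 44) (nat_lit 5) (nat_lit 283) (nat_lit 276) (nat_lit 221)) (XT.lf (nat_lit 0) (nat_lit 6591674913) (nat_lit 456) (nat_lit 7507722435) (nat_lit 532) (nat_lit 5548909389) (nat_lit 37) (nat_lit 5) (nat_lit 43) (nat_lit 5) (nat_lit 44) (nat_lit 5) (nat_lit 284) (nat_lit 276) (nat_lit 220)))))) (XT.nd (nat_lit 546) (nat_lit 532) (nat_lit 0) (XT.nd (nat_lit 234) (nat_lit 456) (nat_lit 0) (XT.nd (nat_lit 78) (nat_lit 304) (nat_lit 0) (XT.lf (nat_lit 0) (nat_lit 16497377833) (nat_lit 532) (nat_lit 3847624134)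 (nat_lit 76) (nat_lit 189801088) (nat_lit 37) (nat_lit 5) (nat_lit 44) (nat_lit 5) (nat_lit 38) (nat_lit 5) (nat_lit 285) (nat_lit 276) (nat_lit 219)) (XT.nd (nat_lit 78) (nat_lit 76) (nat_lit 0) (XT.lf (nat_lit 0) (nat_lit 6195735007) (nat_lit 228) (nat_lit 13218472705) (nat_lit 304) (nat_lit 2051919592) (nat_lit 34) (nat_lit 5) (nat_lit 37) (nat_lit 5) (nat_lit 38) (nat_lit 5) (nat_lit 286) (nat_lit 276) (nat_lit 218)) (XT.lf (nat_lit 0) (nat_lit 179107596) (nat_lit 304) (nat_lit 5224912176) (nat_lit 76) (nat_lit 17060514766) (nat_lit 33) (nat_lit 5) (nat_lit 37) (nat_lit 5) (nat_lit 34) (nat_lit 5) (nat_lit 287) (nat_lit 276) (nat_lit 217)))) (XT.nd (nat_lit 156) (nat_lit 228) (nat_lit 0) (XT.nd (nat_lit 78) (nat_lit 0) (nat_lit 0) (XT.lf (nat_lit 0) (nat_lit 2680998352) (nat_lit 304) (nat_lit 17759686074) (nat_lit 76) (nat_lit 3081661983) (nat_lit 30) (nat_lit 5) (nat_lit 34) (nat_lit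 5) (nat_lit 31) (nat_lit 5) (nat_lit 288) (nat_lit 276) (nat_lit 216)) (XT.lf (nat_lit 0) (nat_lit 5655296694) (nat_lit 304) (nat_lit 6888294076) (nat_lit 76) (nat_lit 12099462748) (nat_lit 30) (nat_lit 5) (nat_lit 34) (nat_lit 5) (nat_lit 31) (nat_lit 5) (nat_lit 289) (nat_lit 276) (nat_lit 215))) (XT.nd (nat_lit 78) (nat_lit 0) (nat_lit 0) (XT.lf (nat_lit 0) (nat_lit 5091537505) (nat_lit 228) (nat_lit 3884863377) (nat_lit 304) (nat_lit 16868354386) (nat_lit 27) (nat_lit 5) (nat_lit 30) (nat_lit 5) (nat_lit 31) (nat_lit 5) (nat_lit 290) (nat_lit 276) (nat_lit 214)) (XT.lf (nat_lit 0) (nat_lit 12874874307) (nat_lit 304) (nat_lit 8858974107) (nat_lit 76) (nat_lit 5383853818) (nat_lit 27) (nat_lit 5) (nat_lit 31) (nat_lit 5) (nat_lit 28) (nat_lit 5) (nat_lit 291) (nat_lit 276) (nat_lit 213))))) (XT.nd (nat_lit 234) (nat_lit 228) (nat_lit 0) (XT.nd (nat_lit 78) (nat_lit 152) (nat_lit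 0) (XT.lf (nat_lit 0) (nat_lit 4074363992) (nat_lit 152) (nat_lit 13197700041) (nat_lit 228) (nat_lit 11205514167) (nat_lit 25) (nat_lit 5) (nat_lit 27) (nat_lit 5) (nat_lit 28) (nat_lit 5) (nat_lit 292) (nat_lit 276) (nat_lit 212)) (XT.nd (nat_lit 78) (nat_lit 152) (nat_lit 0) (XT.lf (nat_lit 0) (nat_lit 18531219904) (nat_lit 152) (nat_lit 3720506477) (nat_lit 228) (nat_lit 7676099404) (nat_lit 25) (nat_lit 5) (nat_lit 27) (nat_lit 5) (nat_lit 28) (nat_lit 5) (nat_lit 293) (nat_lit 276) (nat_lit 211)) (XT.lf (nat_lit 0) (nat_lit 2609727996) (nat_lit 152) (nat_lit 25228734560) (nat_lit 228) (nat_lit 3638969123) (nat_lit 23) (nat_lit 5) (nat_lit 25) (nat_lit 5) (nat_lit 26) (nat_lit 5) (nat_lit 294) (nat_lit 276) (nat_lit 210)))) (XT.nd (nat_lit 156) (nat_lit 0) (nat_lit 0) (XT.nd (nat_lit 78) (nat_lit 152) (nat_lit 0) (XT.lf (nat_lit 0) (nat_lit 1090799738) (nat_lit 228) (nat_lit 14878333126)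 (nat_lit 76) (nat_lit 17148055992) (nat_lit 22) (nat_lit 5) (nat_lit 25) (nat_lit 5) (nat_lit 23) (nat_lit 5) (nat_lit 295) (nat_lit 276) (nat_lit 209)) (XT.lf (nat_lit 0) (nat_lit 128303650) (nat_lit 152) (nat_lit 5867326417) (nat_lit 228) (nat_lit 28885500183) (nat_lit 20) (nat_lit 5) (nat_lit 22) (nat_lit 5) (nat_lit 23) (nat_lit 5) (nat_lit 296) (nat_lit 276) (nat_lit 208))) (XT.nd (nat_lit 78) (nat_lit 0) (nat_lit 0) (XT.lf (nat_lit 0) (nat_lit 11821987808) (nat_lit 228) (nat_lit 19717983911) (nat_lit 76) (nat_lit 5203909367) (nat_lit 20) (nat_lit 5) (nat_lit 23) (nat_lit 5) (nat_lit 21) (nat_lit 5) (nat_lit 297) (nat_lit 276) (nat_lit 207)) (XT.lf (nat_lit 0) (nat_lit 18258055513) (nat_lit 228) (nat_lit 3645821188) (nat_lit 76) (nat_lit 16840310707) (nat_lit 20) (nat_lit 5) (nat_lit 23) (nat_lit 5) (nat_lit 21) (nat_lit 5) (nat_lit 298) (nat_lit 276) (nat_lit 206))))))) (XT.nd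 (nat_lit 1092) (nat_lit 304) (nat_lit 0) (XT.nd (nat_lit 546) (nat_lit 304) (nat_lit 0) (XT.nd (nat_lit 234) (nat_lit 228) (nat_lit 0) (XT.nd (nat_lit 78) (nat_lit 76) (nat_lit 0) (XT.lf (nat_lit 0) (nat_lit 14421431778) (nat_lit 152) (nat_lit 11126267502) (nat_lit 228) (nat_lit 15329745488) (nat_lit 18) (nat_lit 5) (nat_lit 20) (nat_lit 5) (nat_lit 21) (nat_lit 5) (nat_lit 299) (nat_lit 276) (nat_lit 205)) (XT.nd (nat_lit 78) (nat_lit 76) (nat_lit 0) (XT.lf (nat_lit 0) (nat_lit 33527216918) (nat_lit 228) (nat_lit 9059267652) (nat_lit 76) (nat_lit 586362129) (nat_lit 18) (nat_lit 5) (nat_lit 21) (nat_lit 5) (nat_lit 19) (nat_lit 4) (nat_lit 300) (nat_lit 276) (nat_lit 204)) (XT.lf (nat_lit 0) (nat_lit 9925295748) (nat_lit 76) (nat_lit 32740163593) (nat_lit 152) (nat_lit 2944811049) (nat_lit 17) (nat_lit 5) (nat_lit 18) (nat_lit 5) (nat_lit 19) (nat_lit 4) (nat_lit 301) (nat_lit 276)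 (nat_lit 203)))) (XT.nd (nat_lit 156) (nat_lit 0) (nat_lit 0) (XT.nd (nat_lit 78) (nat_lit 152) (nat_lit 0) (XT.lf (nat_lit 0) (nat_lit 4324237757) (nat_lit 152) (nat_lit 17400237538) (nat_lit 76) (nat_lit 26490221020) (nat_lit 16) (nat_lit 5) (nat_lit 18) (nat_lit 5) (nat_lit 17) (nat_lit 5) (nat_lit 302) (nat_lit 276) (nat_lit 202)) (XT.lf (nat_lit 0) (nat_lit 2379117921) (nat_lit 152) (nat_lit 9687093138) (nat_lit 228) (nat_lit 38951121244) (nat_lit 14) (nat_lit 5) (nat_lit 16) (nat_lit 5) (nat_lit 17) (nat_lit 5) (nat_lit 303) (nat_lit 276) (nat_lit 201))) (XT.nd (nat_lit 78) (nat_lit 0) (nat_lit 0) (XT.lf (nat_lit 0) (nat_lit 20988768866) (nat_lit 228) (nat_lit 29378623294) (nat_lit 76) (nat_lit 3631902605) (nat_lit 14) (nat_lit 5) (nat_lit 17) (nat_lit 5) (nat_lit 15) (nat_lit 4) (nat_lit 304) (nat_lit 276) (nat_lit 200)) (XT.lf (nat_lit 0) (nat_lit 30870662280) (nat_lit 228)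 (nat_lit 8839925368) (nat_lit 76) (nat_lit 17489596810) (nat_lit 14) (nat_lit 5) (nat_lit 17) (nat_lit 5) (nat_lit 15) (nat_lit 4) (nat_lit 305) (nat_lit 276) (nat_lit 199))))) (XT.nd (nat_lit 234) (nat_lit 228) (nat_lit 0) (XT.nd (nat_lit 78) (nat_lit 0) (nat_lit 0) (XT.lf (nat_lit 0) (nat_lit 14034634268) (nat_lit 76) (nat_lit 27840374870) (nat_lit 152) (nat_lit 18755595799) (nat_lit 13) (nat_lit 5) (nat_lit 14) (nat_lit 5) (nat_lit 15) (nat_lit 4) (nat_lit 306) (nat_lit 276) (nat_lit 198)) (XT.nd (nat_lit 78) (nat_lit 0) (nat_lit 0) (XT.lf (nat_lit 0) (nat_lit 39232825221) (nat_lit 76) (nat_lit 14763145481) (nat_lit 152) (nat_lit 10320597893) (nat_lit 13) (nat_lit 5) (nat_lit 14) (nat_lit 5) (nat_lit 15) (nat_lit 4) (nat_lit 307) (nat_lit 276) (nat_lit 197)) (XT.lf (nat_lit 0) (nat_lit 66438475300) (nat_lit 76) (nat_lit 643104013) (nat_lit 152) (nat_lit 1216242513) (nat_lit 13)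 (nat_lit 5) (nat_lit 14) (nat_lit 5) (nat_lit 15) (nat_lit 4) (nat_lit 308) (nat_lit 276) (nat_lit 196)))) (XT.nd (nat_lit 156) (nat_lit 76) (nat_lit 0) (XT.nd (nat_lit 78) (nat_lit 0) (nat_lit 0) (XT.lf (nat_lit 0) (nat_lit 9134839574) (nat_lit 152) (nat_lit 48687224255) (nat_lit 76) (nat_lit 14682989365) (nat_lit 11) (nat_lit 5) (nat_lit 13) (nat_lit 5) (nat_lit 12) (nat_lit 4) (nat_lit 309) (nat_lit 276) (nat_lit 195)) (XT.lf (nat_lit 0) (nat_lit 20312463734) (nat_lit 152) (nat_lit 25447622090) (nat_lit 76) (nat_lit 31281124863) (nat_lit 11) (nat_lit 5) (nat_lit 13) (nat_lit 5) (nat_lit 12) (nat_lit 4) (nat_lit 310) (nat_lit 276) (nat_lit 194))) (XT.nd (nat_lit 78) (nat_lit 76) (nat_lit 0) (XT.lf (nat_lit 0) (nat_lit 32379947735) (nat_lit 152) (nat_lit 356381377) (nat_lit 76) (nat_lit 49204287094) (nat_lit 11) (nat_lit 5) (nat_lit 13) (nat_lit 5) (nat_lit 12) (nat_lit 4) (nat_lit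 311) (nat_lit 276) (nat_lit 193)) (XT.lf (nat_lit 0) (nat_lit 28143014272) (nat_lit 76) (nat_lit 17942628490) (nat_lit 152) (nat_lit 41092513285) (nat_lit 10) (nat_lit 5) (nat_lit 11) (nat_lit 5) (nat_lit 12) (nat_lit 4) (nat_lit 312) (nat_lit 276) (nat_lit 192)))))) (XT.nd (nat_lit 546) (nat_lit 76) (nat_lit 0) (XT.nd (nat_lit 234) (nat_lit 152) (nat_lit 0) (XT.nd (nat_lit 78) (nat_lit 76) (nat_lit 0) (XT.lf (nat_lit 0) (nat_lit 58935833927) (nat_lit 76) (nat_lit 1957810631) (nat_lit 152) (nat_lit 31940592784) (nat_lit 10) (nat_lit 5) (nat_lit 11) (nat_lit 5) (nat_lit 12) (nat_lit 4) (nat_lit 313) (nat_lit 276) (nat_lit 191)) (XT.nd (nat_lit 78) (nat_lit 76) (nat_lit 0) (XT.lf (nat_lit 0) (nat_lit 77250721980) (nat_lit 152) (nat_lit 7125352299) (nat_lit 0) (nat_lit 14537581910) (nat_lit 10) (nat_lit 5) (nat_lit 12) (nat_lit 4) (nat_lit 10) (nat_lit 4) (nat_lit 314) (nat_lit 276) (nat_lit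 190)) (XT.lf (nat_lit 0) (nat_lit 22877055083) (nat_lit 76) (nat_lit 72636959053) (nat_lit 76) (nat_lit 9917607976) (nat_lit 9) (nat_lit 4) (nat_lit 10) (nat_lit 5) (nat_lit 10) (nat_lit 4) (nat_lit 315) (nat_lit 276) (nat_lit 189)))) (XT.nd (nat_lit 156) (nat_lit 76) (nat_lit 0) (XT.nd (nat_lit 78) (nat_lit 0) (nat_lit 0) (XT.lf (nat_lit 0) (nat_lit 2825413118) (nat_lit 152) (nat_lit 56848242723) (nat_lit 76) (nat_lit 52776329563) (nat_lit 8) (nat_lit 5) (nat_lit 10) (nat_lit 5) (nat_lit 9) (nat_lit 4) (nat_lit 316) (nat_lit 276) (nat_lit 188)) (XT.lf (nat_lit 0) (nat_lit 16048940176) (nat_lit 152) (nat_lit 29348631381) (nat_lit 76) (nat_lit 74611892697) (nat_lit 8) (nat_lit 5) (nat_lit 10) (nat_lit 5) (nat_lit 9) (nat_lit 4) (nat_lit 317) (nat_lit 276) (nat_lit 187))) (XT.nd (nat_lit 78) (nat_lit 0) (nat_lit 0) (XT.lf (nat_lit 0) (nat_lit 363952756) (nat_lit 76) (nat_lit 29972254072)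 (nat_lit 152) (nat_lit 97837029997) (nat_lit 7) (nat_lit 5) (nat_lit 8) (nat_lit 5) (nat_lit 9) (nat_lit 4) (nat_lit 318) (nat_lit 276) (nat_lit 186)) (XT.lf (nat_lit 0) (nat_lit 34117555504) (nat_lit 76) (nat_lit 12448539797) (nat_lit 152) (nat_lit 90360048371) (nat_lit 7) (nat_lit 5) (nat_lit 8) (nat_lit 5) (nat_lit 9) (nat_lit 4) (nat_lit 319) (nat_lit 276) (nat_lit 185))))) (XT.nd (nat_lit 234) (nat_lit 76) (nat_lit 0) (XT.nd (nat_lit 78) (nat_lit 0) (nat_lit 0) (XT.lf (nat_lit 0) (nat_lit 64247502617) (nat_lit 152) (nat_lit 75968466077) (nat_lit 0) (nat_lit 6151067588) (nat_lit 7) (nat_lit 5) (nat_lit 9) (nat_lit 4) (nat_lit 7) (nat_lit 4) (nat_lit 320) (nat_lit 276) (nat_lit 184)) (XT.nd (nat_lit 78) (nat_lit 0) (nat_lit 0) (XT.lf (nat_lit 0) (nat_lit 83664311246) (nat_lit 152) (nat_lit 47308968981) (nat_lit 0) (nat_lit 25564252154) (nat_lit 7) (nat_lit 5) (nat_lit 9) (nat_lit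 4) (nat_lit 7) (nat_lit 4) (nat_lit 321) (nat_lit 276) (nat_lit 183)) (XT.lf (nat_lit 0) (nat_lit 104632196079) (nat_lit 152) (nat_lit 16360875144) (nat_lit 0) (nat_lit 46528781372) (nat_lit 7) (nat_lit 5) (nat_lit 9) (nat_lit 4) (nat_lit 7) (nat_lit 4) (nat_lit 322) (nat_lit 276) (nat_lit 182)))) (XT.nd (nat_lit 156) (nat_lit 0) (nat_lit 0) (XT.nd (nat_lit 78) (nat_lit 0) (nat_lit 0) (XT.lf (nat_lit 0) (nat_lit 17957519395) (nat_lit 76) (nat_lit 109749770624) (nat_lit 76) (nat_lit 51643248868) (nat_lit 6) (nat_lit 4) (nat_lit 7) (nat_lit 5) (nat_lit 7) (nat_lit 4) (nat_lit 323) (nat_lit 276) (nat_lit 181)) (XT.lf (nat_lit 0) (nat_lit 55948085897) (nat_lit 76) (nat_lit 97125605678) (nat_lit 76) (nat_lit 39016207023) (nat_lit 6) (nat_lit 4) (nat_lit 7) (nat_lit 5) (nat_lit 7) (nat_lit 4) (nat_lit 324) (nat_lit 276) (nat_lit 180))) (XT.nd (nat_lit 78) (nat_lit 0) (nat_lit 0) (XT.lf (nat_lit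 0) (nat_lit 96974418953) (nat_lit 76) (nat_lit 83493101839) (nat_lit 76) (nat_lit 25381039390) (nat_lit 6) (nat_lit 4) (nat_lit 7) (nat_lit 5) (nat_lit 7) (nat_lit 4) (nat_lit 325) (nat_lit 276) (nat_lit 179)) (XT.lf (nat_lit 0) (nat_lit 141279637574) (nat_lit 76) (nat_lit 68771473900) (nat_lit 76) (nat_lit 10656944973) (nat_lit 6) (nat_lit 4) (nat_lit 7) (nat_lit 5) (nat_lit 7) (nat_lit 4) (nat_lit 326) (nat_lit 276) (nat_lit 178))))))))
noncomputable def xc77 : XT := (XT.nd (nat_lit 2184) (nat_lit 0) (nat_lit 0) (XT.nd (nat_lit 1092) (nat_lit 0) (nat_lit 0) (XT.nd (nat_lit 546) (nat_lit 76) (nat_lit 0) (XT.nd (nat_lit 234) (nat_lit 0) (nat_lit 0) (XT.nd (nat_lit 78) (nat_lit 76) (nat_lit 0) (XT.lf (nat_lit 0) (nat_lit 4981037510) (nat_lit 152) (nat_lit 47756254680) (nat_lit 76) (nat_lit 184009063301) (nat_lit 5) (nat_lit 5) (nat_lit 7) (nat_lit 5) (nat_lit 6) (nat_lit 4) (nat_lit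 327) (nat_lit 276) (nat_lit 177)) (XT.nd (nat_lit 78) (nat_lit 76) (nat_lit 0) (XT.lf (nat_lit 0) (nat_lit 21292770193) (nat_lit 152) (nat_lit 13829965304) (nat_lit 76) (nat_lit 218922963303) (nat_lit 5) (nat_lit 5) (nat_lit 7) (nat_lit 5) (nat_lit 6) (nat_lit 4) (nat_lit 328) (nat_lit 276) (nat_lit 176)) (XT.lf (nat_lit 0) (nat_lit 24008811711) (nat_lit 76) (nat_lit 15476619532) (nat_lit 152) (nat_lit 233197480743) (nat_lit 4) (nat_lit 5) (nat_lit 5) (nat_lit 5) (nat_lit 6) (nat_lit 4) (nat_lit 329) (nat_lit 276) (nat_lit 175)))) (XT.nd (nat_lit 156) (nat_lit 0) (nat_lit 0) (XT.nd (nat_lit 78) (nat_lit 0) (nat_lit 0) (XT.lf (nat_lit 0) (nat_lit 59658130645) (nat_lit 152) (nat_lit 227270185530) (nat_lit 0) (nat_lit 5840817488) (nat_lit 4) (nat_lit 5) (nat_lit 6) (nat_lit 4) (nat_lit 4) (nat_lit 4) (nat_lit 330) (nat_lit 276) (nat_lit 174)) (XT.lf (nat_lit 0) (nat_lit 81845332731) (nat_lit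 152) (nat_lit 204558401493) (nat_lit 0) (nat_lit 28026465275) (nat_lit 4) (nat_lit 5) (nat_lit 6) (nat_lit 4) (nat_lit 4) (nat_lit 4) (nat_lit 331) (nat_lit 276) (nat_lit 173))) (XT.nd (nat_lit 78) (nat_lit 0) (nat_lit 0) (XT.lf (nat_lit 0) (nat_lit 105806304146) (nat_lit 152) (nat_lit 180031946741) (nat_lit 0) (nat_lit 51985997524) (nat_lit 4) (nat_lit 5) (nat_lit 6) (nat_lit 4) (nat_lit 4) (nat_lit 4) (nat_lit 332) (nat_lit 276) (nat_lit 172)) (XT.lf (nat_lit 0) (nat_lit 131683035831) (nat_lit 152) (nat_lit 153545479323) (nat_lit 0) (nat_lit 77861396649) (nat_lit 4) (nat_lit 5) (nat_lit 6) (nat_lit 4) (nat_lit 4) (nat_lit 4) (nat_lit 333) (nat_lit 276) (nat_lit 171))))) (XT.nd (nat_lit 234) (nat_lit 76) (nat_lit 0) (XT.nd (nat_lit 78) (nat_lit 0) (nat_lit 0) (XT.lf (nat_lit 0) (nat_lit 159628871382) (nat_lit 152) (nat_lit 124942042392) (nat_lit 0) (nat_lit 105805998348) (nat_lit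 4) (nat_lit 5) (nat_lit 6) (nat_lit 4) (nat_lit 4) (nat_lit 4) (nat_lit 334) (nat_lit 276) (nat_lit 170)) (XT.nd (nat_lit 78) (nat_lit 0) (nat_lit 0) (XT.lf (nat_lit 0) (nat_lit 189809415751) (nat_lit 152) (nat_lit 94052134101) (nat_lit 0) (nat_lit 135985400260) (nat_lit 4) (nat_lit 5) (nat_lit 6) (nat_lit 4) (nat_lit 4) (nat_lit 4) (nat_lit 335) (nat_lit 276) (nat_lit 169)) (XT.lf (nat_lit 0) (nat_lit 222403516606) (nat_lit 152) (nat_lit 60692703142) (nat_lit 0) (nat_lit 168578443286) (nat_lit 4) (nat_lit 5) (nat_lit 6) (nat_lit 4) (nat_lit 4) (nat_lit 4) (nat_lit 336) (nat_lit 276) (nat_lit 168)))) (XT.nd (nat_lit 156) (nat_lit 0) (nat_lit 0) (XT.nd (nat_lit 78) (nat_lit 76) (nat_lit 0) (XT.lf (nat_lit 0) (nat_lit 257604324177) (nat_lit 152) (nat_lit 24666063997) (nat_lit 0) (nat_lit 203778271385) (nat_lit 4) (nat_lit 5) (nat_lit 6) (nat_lit 4) (nat_lit 4) (nat_lit 4) (nat_lit 337)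 (nat_lit 276) (nat_lit 167)) (XT.lf (nat_lit 0) (nat_lit 14991194807) (nat_lit 76) (nat_lit 280989779628) (nat_lit 76) (nat_lit 227162819918) (nat_lit 3) (nat_lit 4) (nat_lit 4) (nat_lit 5) (nat_lit 4) (nat_lit 4) (nat_lit 338) (nat_lit 276) (nat_lit 166))) (XT.nd (nat_lit 78) (nat_lit 0) (nat_lit 0) (XT.lf (nat_lit 0) (nat_lit 59222419727) (nat_lit 76) (nat_lit 278879013149) (nat_lit 76) (nat_lit 225051213700) (nat_lit 3) (nat_lit 4) (nat_lit 4) (nat_lit 5) (nat_lit 4) (nat_lit 4) (nat_lit 339) (nat_lit 276) (nat_lit 165)) (XT.lf (nat_lit 0) (nat_lit 106990850506) (nat_lit 76) (nat_lit 276599994393) (nat_lit 76) (nat_lit 222771417407) (nat_lit 3) (nat_lit 4) (nat_lit 4) (nat_lit 5) (nat_lit 4) (nat_lit 4) (nat_lit 340) (nat_lit 276) (nat_lit 164)))))) (XT.nd (nat_lit 546) (nat_lit 0) (nat_lit 0) (XT.nd (nat_lit 234) (nat_lit 0) (nat_lit 0) (XT.nd (nat_lit 78) (nat_lit 0) (nat_lit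 0) (XT.lf (nat_lit 0) (nat_lit 158579559329) (nat_lit 76) (nat_lit 274139218063) (nat_lit 76) (nat_lit 220309921136) (nat_lit 3) (nat_lit 4) (nat_lit 4) (nat_lit 5) (nat_lit 4) (nat_lit 4) (nat_lit 341) (nat_lit 276) (nat_lit 163)) (XT.nd (nat_lit 78) (nat_lit 0) (nat_lit 0) (XT.lf (nat_lit 0) (nat_lit 214294257060) (nat_lit 76) (nat_lit 271482101780) (nat_lit 76) (nat_lit 217652138242) (nat_lit 3) (nat_lit 4) (nat_lit 4) (nat_lit 5) (nat_lit 4) (nat_lit 4) (nat_lit 342) (nat_lit 276) (nat_lit 162)) (XT.lf (nat_lit 0) (nat_lit 274465104873) (nat_lit 76) (nat_lit 268612899672) (nat_lit 76) (nat_lit 214782318899) (nat_lit 3) (nat_lit 4) (nat_lit 4) (nat_lit 5) (nat_lit 4) (nat_lit 4) (nat_lit 343) (nat_lit 276) (nat_lit 161)))) (XT.nd (nat_lit 156) (nat_lit 0) (nat_lit 0) (XT.nd (nat_lit 78) (nat_lit 0) (nat_lit 0) (XT.lf (nat_lit 0) (nat_lit 339448670754) (nat_lit 76) (nat_lit 265514609057)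 (nat_lit 76) (nat_lit 211683456773) (nat_lit 3) (nat_lit 4) (nat_lit 4) (nat_lit 5) (nat_lit 4) (nat_lit 4) (nat_lit 344) (nat_lit 276) (nat_lit 160)) (XT.lf (nat_lit 0) (nat_lit 409630042500) (nat_lit 76) (nat_lit 262168869697) (nat_lit 76) (nat_lit 208337188234) (nat_lit 3) (nat_lit 4) (nat_lit 4) (nat_lit 5) (nat_lit 4) (nat_lit 4) (nat_lit 345) (nat_lit 276) (nat_lit 159))) (XT.nd (nat_lit 78) (nat_lit 0) (nat_lit 0) (XT.lf (nat_lit 0) (nat_lit 485425109724) (nat_lit 76) (nat_lit 258555854986) (nat_lit 76) (nat_lit 204723683544) (nat_lit 3) (nat_lit 4) (nat_lit 4) (nat_lit 5) (nat_lit 4) (nat_lit 4) (nat_lit 346) (nat_lit 276) (nat_lit 158)) (XT.lf (nat_lit 0) (nat_lit 567283028377) (nat_lit 76) (nat_lit 254654154468) (nat_lit 76) (nat_lit 200821529341) (nat_lit 3) (nat_lit 4) (nat_lit 4) (nat_lit 5) (nat_lit 4) (nat_lit 4) (nat_lit 347) (nat_lit 276) (nat_lit 157))))) (XT.nd (nat_lit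 234) (nat_lit 0) (nat_lit 0) (XT.nd (nat_lit 78) (nat_lit 0) (nat_lit 0) (XT.lf (nat_lit 0) (nat_lit 655688882423) (nat_lit 76) (nat_lit 250440646955) (nat_lit 76) (nat_lit 196607601748) (nat_lit 3) (nat_lit 4) (nat_lit 4) (nat_lit 5) (nat_lit 4) (nat_lit 4) (nat_lit 348) (nat_lit 276) (nat_lit 156)) (XT.nd (nat_lit 78) (nat_lit 0) (nat_lit 0) (XT.lf (nat_lit 0) (nat_lit 751166558405) (nat_lit 76) (nat_lit 245890363512) (nat_lit 76) (nat_lit 192056929344) (nat_lit 3) (nat_lit 4) (nat_lit 4) (nat_lit 5) (nat_lit 4) (nat_lit 4) (nat_lit 349) (nat_lit 276) (nat_lit 155)) (XT.lf (nat_lit 0) (nat_lit 854281849957) (nat_lit 76) (nat_lit 240976339498) (nat_lit 76) (nat_lit 187142545180) (nat_lit 3) (nat_lit 4) (nat_lit 4) (nat_lit 5) (nat_lit 4) (nat_lit 4) (nat_lit 350) (nat_lit 276) (nat_lit 154)))) (XT.nd (nat_lit 156) (nat_lit 0) (nat_lit 0) (XT.nd (nat_lit 78) (nat_lit 0) (nat_lit 0)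 (XT.lf (nat_lit 0) (nat_lit 965645810659) (nat_lit 76) (nat_lit 235669454769) (nat_lit 76) (nat_lit 181835326980) (nat_lit 3) (nat_lit 4) (nat_lit 4) (nat_lit 5) (nat_lit 4) (nat_lit 4) (nat_lit 351) (nat_lit 276) (nat_lit 153)) (XT.lf (nat_lit 0) (nat_lit 1085918375093) (nat_lit 76) (nat_lit 229938261121) (nat_lit 76) (nat_lit 176103824561) (nat_lit 3) (nat_lit 4) (nat_lit 4) (nat_lit 5) (nat_lit 4) (nat_lit 4) (nat_lit 352) (nat_lit 276) (nat_lit 152))) (XT.nd (nat_lit 78) (nat_lit 0) (nat_lit 0) (XT.lf (nat_lit 0) (nat_lit 1215812269567) (nat_lit 76) (nat_lit 223748795924) (nat_lit 76) (nat_lit 169914073466) (nat_lit 3) (nat_lit 4) (nat_lit 4) (nat_lit 5) (nat_lit 4) (nat_lit 4) (nat_lit 353) (nat_lit 276) (nat_lit 151)) (XT.lf (nat_lit 0) (nat_lit 1356097235678) (nat_lit 76) (nat_lit 217064380866) (nat_lit 76) (nat_lit 163229393687) (nat_lit 3) (nat_lit 4) (nat_lit 4) (nat_lit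 5) (nat_lit 4) (nat_lit 4) (nat_lit 354) (nat_lit 276) (nat_lit 150))))))) (XT.nd (nat_lit 35022) (nat_lit 0) (nat_lit 1292) (XT.nd (nat_lit 546) (nat_lit 0) (nat_lit 0) (XT.nd (nat_lit 234) (nat_lit 0) (nat_lit 0) (XT.nd (nat_lit 78) (nat_lit 0) (nat_lit 0) (XT.lf (nat_lit 0) (nat_lit 1507604591744) (nat_lit 76) (nat_lit 209845404599) (nat_lit 76) (nat_lit 156010172307) (nat_lit 3) (nat_lit 4) (nat_lit 4) (nat_lit 5) (nat_lit 4) (nat_lit 4) (nat_lit 355) (nat_lit 276) (nat_lit 149)) (XT.nd (nat_lit 78) (nat_lit 0) (nat_lit 0) (XT.lf (nat_lit 0) (nat_lit 1671232159133) (nat_lit 76) (nat_lit 202049088003) (nat_lit 76) (nat_lit 148213628756) (nat_lit 3) (nat_lit 4) (nat_lit 4) (nat_lit 5) (nat_lit 4) (nat_lit 4) (nat_lit 356) (nat_lit 276) (nat_lit 148)) (XT.lf (nat_lit 0) (nat_lit 1847949582689) (nat_lit 76) (nat_lit 193629230684) (nat_lit 76) (nat_lit 139793561293) (nat_lit 3) (nat_lit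 4) (nat_lit 4) (nat_lit 5) (nat_lit 4) (nat_lit 4) (nat_lit 357) (nat_lit 276) (nat_lit 147)))) (XT.nd (nat_lit 156) (nat_lit 0) (nat_lit 0) (XT.nd (nat_lit 78) (nat_lit 0) (nat_lit 0) (XT.lf (nat_lit 0) (nat_lit 2038804076775) (nat_lit 76) (nat_lit 184535937191) (nat_lit 76) (nat_lit 130700073223) (nat_lit 3) (nat_lit 4) (nat_lit 4) (nat_lit 5) (nat_lit 4) (nat_lit 4) (nat_lit 358) (nat_lit 276) (nat_lit 146)) (XT.lf (nat_lit 0) (nat_lit 2244926630985) (nat_lit 76) (nat_lit 174715321342) (nat_lit 76) (nat_lit 120879277209) (nat_lit 3) (nat_lit 4) (nat_lit 4) (nat_lit 5) (nat_lit 4) (nat_lit 4) (nat_lit 359) (nat_lit 276) (nat_lit 145))) (XT.nd (nat_lit 78) (nat_lit 0) (nat_lit 0) (XT.lf (nat_lit 0) (nat_lit 2467538712307) (nat_lit 76) (nat_lit 164109186893) (nat_lit 76) (nat_lit 110272975941) (nat_lit 3) (nat_lit 4) (nat_lit 4) (nat_lit 5) (nat_lit 4) (nat_lit 4) (nat_lit 360) (nat_lit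 276) (nat_lit 144)) (XT.lf (nat_lit 0) (nat_lit 2707959503445) (nat_lit 76) (nat_lit 152654682677) (nat_lit 76) (nat_lit 98818317263) (nat_lit 3) (nat_lit 4) (nat_lit 4) (nat_lit 5) (nat_lit 4) (nat_lit 4) (nat_lit 361) (nat_lit 276) (nat_lit 143))))) (XT.nd (nat_lit 34164) (nat_lit 0) (nat_lit 2888) (XT.nd (nat_lit 34008) (nat_lit 0) (nat_lit 2812) (XT.lf (nat_lit 0) (nat_lit 2967613720198) (nat_lit 76) (nat_lit 140283930151) (nat_lit 76) (nat_lit 86447421717) (nat_lit 3) (nat_lit 4) (nat_lit 4) (nat_lit 5) (nat_lit 4) (nat_lit 4) (nat_lit 362) (nat_lit 276) (nat_lit 142)) (XT.nd (nat_lit 78) (nat_lit 0) (nat_lit 0) (XT.lf (nat_lit 0) (nat_lit 2532541048) (nat_lit 532) (nat_lit 2568952860) (nat_lit 532) (nat_lit 2568952860) (nat_lit 40) (nat_lit 3) (nat_lit 47) (nat_lit 3) (nat_lit 47) (nat_lit 5) (nat_lit 277) (nat_lit 277) (nat_lit 226)) (XT.lf (nat_lit 76) (nat_lit 1712941402)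 (nat_lit 0) (nat_lit 3852902936) (nat_lit 532) (nat_lit 10363736170) (nat_lit 41) (nat_lit 5) (nat_lit 40) (nat_lit 3) (nat_lit 47) (nat_lit 5) (nat_lit 278) (nat_lit 277) (nat_lit 225)))) (XT.nd (nat_lit 156) (nat_lit 0) (nat_lit 76) (XT.nd (nat_lit 78) (nat_lit 0) (nat_lit 0) (XT.lf (nat_lit 0) (nat_lit 6297283141) (nat_lit 456) (nat_lit 7243134130) (nat_lit 532) (nat_lit 3009805575) (nat_lit 41) (nat_lit 5) (nat_lit 47) (nat_lit 5) (nat_lit 48) (nat_lit 5) (nat_lit 279) (nat_lit 277) (nat_lit 224)) (XT.lf (nat_lit 76) (nat_lit 181378853) (nat_lit 0) (nat_lit 6986418405) (nat_lit 532) (nat_lit 10046376032) (nat_lit 42) (nat_lit 5) (nat_lit 41) (nat_lit 5) (nat_lit 48) (nat_lit 5) (nat_lit 280) (nat_lit 277) (nat_lit 223))) (XT.nd (nat_lit 78) (nat_lit 0) (nat_lit 0) (XT.lf (nat_lit 0) (nat_lit 8291034696) (nat_lit 456) (nat_lit 9328503961) (nat_lit 532) (nat_lit 297148550) (nat_lit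 42) (nat_lit 5) (nat_lit 48) (nat_lit 5) (nat_lit 49) (nat_lit 5) (nat_lit 281) (nat_lit 277) (nat_lit 222)) (XT.lf (nat_lit 0) (nat_lit 9664937248) (nat_lit 456) (nat_lit 1205566797) (nat_lit 532) (nat_lit 7792120756) (nat_lit 42) (nat_lit 5) (nat_lit 48) (nat_lit 5) (nat_lit 49) (nat_lit 5) (nat_lit 282) (nat_lit 277) (nat_lit 221)))))) (XT.nd (nat_lit 546) (nat_lit 760) (nat_lit 0) (XT.nd (nat_lit 234) (nat_lit 532) (nat_lit 0) (XT.nd (nat_lit 78) (nat_lit 380) (nat_lit 0) (XT.lf (nat_lit 76) (nat_lit 7949860741) (nat_lit 0) (nat_lit 3370956628) (nat_lit 532) (nat_lit 8133735405) (nat_lit 43) (nat_lit 5) (nat_lit 42) (nat_lit 5) (nat_lit 49) (nat_lit 5) (nat_lit 283) (nat_lit 277) (nat_lit 220)) (XT.nd (nat_lit 78) (nat_lit 456) (nat_lit 0) (XT.lf (nat_lit 0) (nat_lit 13238726094) (nat_lit 456) (nat_lit 2531742163) (nat_lit 76) (nat_lit 4529076704) (nat_lit 43) (nat_lit 5) (nat_lit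 49) (nat_lit 5) (nat_lit 44) (nat_lit 5) (nat_lit 284) (nat_lit 277) (nat_lit 219)) (XT.lf (nat_lit 0) (nat_lit 7428019439) (nat_lit 456) (nat_lit 8131599296) (nat_lit 532) (nat_lit 5632622793) (nat_lit 37) (nat_lit 5) (nat_lit 43) (nat_lit 5) (nat_lit 44) (nat_lit 5) (nat_lit 285) (nat_lit 277) (nat_lit 218)))) (XT.nd (nat_lit 156) (nat_lit 304) (nat_lit 0) (XT.nd (nat_lit 78) (nat_lit 228) (nat_lit 0) (XT.lf (nat_lit 0) (nat_lit 18124307150) (nat_lit 532) (nat_lit 3842934378) (nat_lit 76) (nat_lit 184526329) (nat_lit 37) (nat_lit 5) (nat_lit 44) (nat_lit 5) (nat_lit 38) (nat_lit 5) (nat_lit 286) (nat_lit 277) (nat_lit 217)) (XT.lf (nat_lit 0) (nat_lit 6995982109) (nat_lit 228) (nat_lit 14263075622) (nat_lit 304) (nat_lit 1899866838) (nat_lit 34) (nat_lit 5) (nat_lit 37) (nat_lit 5) (nat_lit 38) (nat_lit 5) (nat_lit 287) (nat_lit 277) (nat_lit 216))) (XT.nd (nat_lit 78) (nat_lit 228)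 (nat_lit 0) (XT.lf (nat_lit 0) (nat_lit 471573612) (nat_lit 304) (nat_lit 5345241769) (nat_lit 76) (nat_lit 18421639975) (nat_lit 33) (nat_lit 5) (nat_lit 37) (nat_lit 5) (nat_lit 34) (nat_lit 5) (nat_lit 288) (nat_lit 277) (nat_lit 215)) (XT.lf (nat_lit 0) (nat_lit 3160606484) (nat_lit 304) (nat_lit 18868870886) (nat_lit 76) (nat_lit 3352528943) (nat_lit 30) (nat_lit 5) (nat_lit 34) (nat_lit 5) (nat_lit 31) (nat_lit 5) (nat_lit 289) (nat_lit 277) (nat_lit 214))))) (XT.nd (nat_lit 312) (nat_lit 380) (nat_lit 0) (XT.nd (nat_lit 156) (nat_lit 152) (nat_lit 0) (XT.nd (nat_lit 78) (nat_lit 228) (nat_lit 0) (XT.lf (nat_lit 0) (nat_lit 6353209563) (nat_lit 304) (nat_lit 7150848274) (nat_lit 76) (nat_lit 13089951250) (nat_lit 30) (nat_lit 5) (nat_lit 34) (nat_lit 5) (nat_lit 31) (nat_lit 5) (nat_lit 290) (nat_lit 277) (nat_lit 213)) (XT.lf (nat_lit 0) (nat_lit 5780065800) (nat_lit 228) (nat_lit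 4148514899) (nat_lit 304) (nat_lit 17964242920) (nat_lit 27) (nat_lit 5) (nat_lit 30) (nat_lit 5) (nat_lit 31) (nat_lit 5) (nat_lit 291) (nat_lit 277) (nat_lit 212))) (XT.nd (nat_lit 78) (nat_lit 152) (nat_lit 0) (XT.lf (nat_lit 0) (nat_lit 14122643331) (nat_lit 304) (nat_lit 9290299716) (nat_lit 76) (nat_lit 5856024658) (nat_lit 27) (nat_lit 5) (nat_lit 31) (nat_lit 5) (nat_lit 28) (nat_lit 5) (nat_lit 292) (nat_lit 277) (nat_lit 211)) (XT.lf (nat_lit 0) (nat_lit 4670682841) (nat_lit 152) (nat_lit 14191296010) (nat_lit 228) (nat_lit 11876479205) (nat_lit 25) (nat_lit 5) (nat_lit 27) (nat_lit 5) (nat_lit 28) (nat_lit 5) (nat_lit 293) (nat_lit 277) (nat_lit 210)))) (XT.nd (nat_lit 156) (nat_lit 228) (nat_lit 0) (XT.nd (nat_lit 78) (nat_lit 152) (nat_lit 0) (XT.lf (nat_lit 0) (nat_lit 20264059838) (nat_lit 152) (nat_lit 3960535852) (nat_lit 228) (nat_lit 8081413194) (nat_lit 25) (nat_lit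 5) (nat_lit 27) (nat_lit 5) (nat_lit 28) (nat_lit 5) (nat_lit 294) (nat_lit 277) (nat_lit 209)) (XT.lf (nat_lit 0) (nat_lit 3076797138) (nat_lit 152) (nat_lit 27174692055) (nat_lit 228) (nat_lit 3728682839) (nat_lit 23) (nat_lit 5) (nat_lit 25) (nat_lit 5) (nat_lit 26) (nat_lit 5) (nat_lit 295) (nat_lit 277) (nat_lit 208))) (XT.nd (nat_lit 78) (nat_lit 152) (nat_lit 0) (XT.lf (nat_lit 0) (nat_lit 1355219995) (nat_lit 228) (nat_lit 15819617075) (nat_lit 76) (nat_lit 18577058670) (nat_lit 22) (nat_lit 5) (nat_lit 25) (nat_lit 5) (nat_lit 23) (nat_lit 5) (nat_lit 296) (nat_lit 277) (nat_lit 207)) (XT.lf (nat_lit 0) (nat_lit 381247284) (nat_lit 152) (nat_lit 6263903223) (nat_lit 228) (nat_lit 31012421558) (nat_lit 20) (nat_lit 5) (nat_lit 22) (nat_lit 5) (nat_lit 23) (nat_lit 5) (nat_lit 297) (nat_lit 277) (nat_lit 206))))))))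
noncomputable def xc78 : XT := (XT.nd (nat_lit 2184) (nat_lit 228) (nat_lit 0) (XT.nd (nat_lit 1092) (nat_lit 380) (nat_lit 0) (XT.nd (nat_lit 546) (nat_lit 228) (nat_lit 0) (XT.nd (nat_lit 234) (nat_lit 304) (nat_lit 0) (XT.nd (nat_lit 78) (nat_lit 152) (nat_lit 0) (XT.lf (nat_lit 0) (nat_lit 12926655259) (nat_lit 228) (nat_lit 21059332919) (nat_lit 76) (nat_lit 5684265719) (nat_lit 20) (nat_lit 5) (nat_lit 23) (nat_lit 5) (nat_lit 21) (nat_lit 5) (nat_lit 298) (nat_lit 277) (nat_lit 205)) (XT.nd (nat_lit 78) (nat_lit 152) (nat_lit 0) (XT.lf (nat_lit 0) (nat_lit 19865837385) (nat_lit 228) (nat_lit 3718885305) (nat_lit 76) (nat_lit 18246835196) (nat_lit 20) (nat_lit 5) (nat_lit 23) (nat_lit 5) (nat_lit 21) (nat_lit 5) (nat_lit 299) (nat_lit 277) (nat_lit 204)) (XT.lf (nat_lit 0) (nat_lit 15788213682) (nat_lit 152) (nat_lit 11944664178) (nat_lit 228) (nat_lit 16403089108) (nat_lit 18)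 (nat_lit 5) (nat_lit 20) (nat_lit 5) (nat_lit 21) (nat_lit 5) (nat_lit 300) (nat_lit 277) (nat_lit 203)))) (XT.nd (nat_lit 156) (nat_lit 228) (nat_lit 0) (XT.nd (nat_lit 78) (nat_lit 76) (nat_lit 0) (XT.lf (nat_lit 0) (nat_lit 36341882361) (nat_lit 228) (nat_lit 9577512543) (nat_lit 76) (nat_lit 696343103) (nat_lit 18) (nat_lit 5) (nat_lit 21) (nat_lit 5) (nat_lit 19) (nat_lit 4) (nat_lit 301) (nat_lit 277) (nat_lit 202)) (XT.lf (nat_lit 0) (nat_lit 10920588170) (nat_lit 76) (nat_lit 35285622596) (nat_lit 152) (nat_lit 3042367693) (nat_lit 17) (nat_lit 5) (nat_lit 18) (nat_lit 5) (nat_lit 19) (nat_lit 4) (nat_lit 302) (nat_lit 277) (nat_lit 201))) (XT.nd (nat_lit 78) (nat_lit 152) (nat_lit 0) (XT.lf (nat_lit 0) (nat_lit 4791587434) (nat_lit 152) (nat_lit 18599235483) (nat_lit 76) (nat_lit 28671068428) (nat_lit 16) (nat_lit 5) (nat_lit 18) (nat_lit 5) (nat_lit 17) (nat_lit 5) (nat_lit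 303) (nat_lit 277) (nat_lit 200)) (XT.lf (nat_lit 0) (nat_lit 2757581803) (nat_lit 152) (nat_lit 10390868052) (nat_lit 228) (nat_lit 41940665694) (nat_lit 14) (nat_lit 5) (nat_lit 16) (nat_lit 5) (nat_lit 17) (nat_lit 5) (nat_lit 304) (nat_lit 277) (nat_lit 199))))) (XT.nd (nat_lit 234) (nat_lit 152) (nat_lit 0) (XT.nd (nat_lit 78) (nat_lit 76) (nat_lit 0) (XT.lf (nat_lit 0) (nat_lit 22777735278) (nat_lit 228) (nat_lit 31547407968) (nat_lit 76) (nat_lit 3985076293) (nat_lit 14) (nat_lit 5) (nat_lit 17) (nat_lit 5) (nat_lit 15) (nat_lit 4) (nat_lit 305) (nat_lit 277) (nat_lit 198)) (XT.nd (nat_lit 78) (nat_lit 76) (nat_lit 0) (XT.lf (nat_lit 0) (nat_lit 33442042024) (nat_lit 228) (nat_lit 9379059036) (nat_lit 76) (nat_lit 18946747406) (nat_lit 14) (nat_lit 5) (nat_lit 17) (nat_lit 5) (nat_lit 15) (nat_lit 4) (nat_lit 306) (nat_lit 277) (nat_lit 197)) (XT.lf (nat_lit 0) (nat_lit 15321210677)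 (nat_lit 76) (nat_lit 30001930167) (nat_lit 152) (nat_lit 20149865151) (nat_lit 13) (nat_lit 5) (nat_lit 14) (nat_lit 5) (nat_lit 15) (nat_lit 4) (nat_lit 307) (nat_lit 277) (nat_lit 196)))) (XT.nd (nat_lit 156) (nat_lit 152) (nat_lit 0) (XT.nd (nat_lit 78) (nat_lit 0) (nat_lit 0) (XT.lf (nat_lit 0) (nat_lit 42523123154) (nat_lit 76) (nat_lit 15883387219) (nat_lit 152) (nat_lit 11047932472) (nat_lit 13) (nat_lit 5) (nat_lit 14) (nat_lit 5) (nat_lit 15) (nat_lit 4) (nat_lit 308) (nat_lit 277) (nat_lit 195)) (XT.lf (nat_lit 0) (nat_lit 71893990282) (nat_lit 76) (nat_lit 638246871) (nat_lit 152) (nat_lit 1222511125) (nat_lit 13) (nat_lit 5) (nat_lit 14) (nat_lit 5) (nat_lit 15) (nat_lit 4) (nat_lit 309) (nat_lit 277) (nat_lit 194))) (XT.nd (nat_lit 78) (nat_lit 0) (nat_lit 0) (XT.lf (nat_lit 0) (nat_lit 9950495373) (nat_lit 152) (nat_lit 52435302112) (nat_lit 76) (nat_lit 15912725777)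 (nat_lit 11) (nat_lit 5) (nat_lit 13) (nat_lit 5) (nat_lit 12) (nat_lit 4) (nat_lit 310) (nat_lit 277) (nat_lit 193)) (XT.lf (nat_lit 0) (nat_lit 22016042901) (nat_lit 152) (nat_lit 27347413262) (nat_lit 76) (nat_lit 33834630837) (nat_lit 11) (nat_lit 5) (nat_lit 13) (nat_lit 5) (nat_lit 12) (nat_lit 4) (nat_lit 311) (nat_lit 277) (nat_lit 192)))))) (XT.nd (nat_lit 546) (nat_lit 152) (nat_lit 0) (XT.nd (nat_lit 234) (nat_lit 152) (nat_lit 0) (XT.nd (nat_lit 78) (nat_lit 76) (nat_lit 0) (XT.lf (nat_lit 0) (nat_lit 35043104728) (nat_lit 152) (nat_lit 258948743) (nat_lit 76) (nat_lit 53187867084) (nat_lit 11) (nat_lit 5) (nat_lit 13) (nat_lit 5) (nat_lit 12) (nat_lit 4) (nat_lit 312) (nat_lit 277) (nat_lit 191)) (XT.nd (nat_lit 78) (nat_lit 0) (nat_lit 0) (XT.lf (nat_lit 0) (nat_lit 30517210124) (nat_lit 76) (nat_lit 19325607770) (nat_lit 152) (nat_lit 44303849875) (nat_lit 10) (nat_lit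 5) (nat_lit 11) (nat_lit 5) (nat_lit 12) (nat_lit 4) (nat_lit 313) (nat_lit 277) (nat_lit 190)) (XT.lf (nat_lit 0) (nat_lit 63764362410) (nat_lit 76) (nat_lit 2065888260) (nat_lit 152) (nat_lit 34425410139) (nat_lit 10) (nat_lit 5) (nat_lit 11) (nat_lit 5) (nat_lit 12) (nat_lit 4) (nat_lit 314) (nat_lit 277) (nat_lit 189)))) (XT.nd (nat_lit 156) (nat_lit 76) (nat_lit 0) (XT.nd (nat_lit 78) (nat_lit 76) (nat_lit 0) (XT.lf (nat_lit 0) (nat_lit 83492152061) (nat_lit 152) (nat_lit 7586297402) (nat_lit 0) (nat_lit 15743290957) (nat_lit 10) (nat_lit 5) (nat_lit 12) (nat_lit 4) (nat_lit 10) (nat_lit 4) (nat_lit 315) (nat_lit 277) (nat_lit 188)) (XT.lf (nat_lit 0) (nat_lit 24813540973) (nat_lit 76) (nat_lit 78400977553) (nat_lit 76) (nat_lit 10646791510) (nat_lit 9) (nat_lit 4) (nat_lit 10) (nat_lit 5) (nat_lit 10) (nat_lit 4) (nat_lit 316) (nat_lit 277) (nat_lit 187))) (XT.nd (nat_lit 78)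 (nat_lit 0) (nat_lit 0) (XT.lf (nat_lit 0) (nat_lit 3107939042) (nat_lit 152) (nat_lit 61294603333) (nat_lit 76) (nat_lit 57038844257) (nat_lit 8) (nat_lit 5) (nat_lit 10) (nat_lit 5) (nat_lit 9) (nat_lit 4) (nat_lit 317) (nat_lit 277) (nat_lit 186)) (XT.lf (nat_lit 0) (nat_lit 17385163607) (nat_lit 152) (nat_lit 31602541514) (nat_lit 76) (nat_lit 80618259232) (nat_lit 8) (nat_lit 5) (nat_lit 10) (nat_lit 5) (nat_lit 9) (nat_lit 4) (nat_lit 318) (nat_lit 277) (nat_lit 185))))) (XT.nd (nat_lit 234) (nat_lit 76) (nat_lit 0) (XT.nd (nat_lit 78) (nat_lit 0) (nat_lit 0) (XT.lf (nat_lit 0) (nat_lit 484670104) (nat_lit 76) (nat_lit 32329069813) (nat_lit 152) (nat_lit 105609237908) (nat_lit 7) (nat_lit 5) (nat_lit 8) (nat_lit 5) (nat_lit 9) (nat_lit 4) (nat_lit 319) (nat_lit 277) (nat_lit 184)) (XT.nd (nat_lit 78) (nat_lit 0) (nat_lit 0) (XT.lf (nat_lit 0) (nat_lit 36931775803) (nat_lit 76)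 (nat_lit 13406492810) (nat_lit 152) (nat_lit 97538153640) (nat_lit 7) (nat_lit 5) (nat_lit 8) (nat_lit 5) (nat_lit 9) (nat_lit 4) (nat_lit 320) (nat_lit 277) (nat_lit 183)) (XT.lf (nat_lit 0) (nat_lit 69431560150) (nat_lit 152) (nat_lit 81964724335) (nat_lit 0) (nat_lit 6676516653) (nat_lit 7) (nat_lit 5) (nat_lit 9) (nat_lit 4) (nat_lit 7) (nat_lit 4) (nat_lit 321) (nat_lit 277) (nat_lit 182)))) (XT.nd (nat_lit 156) (nat_lit 76) (nat_lit 0) (XT.nd (nat_lit 78) (nat_lit 0) (nat_lit 0) (XT.lf (nat_lit 0) (nat_lit 90398435150) (nat_lit 152) (nat_lit 51018483696) (nat_lit 0) (nat_lit 27640284602) (nat_lit 7) (nat_lit 5) (nat_lit 9) (nat_lit 4) (nat_lit 7) (nat_lit 4) (nat_lit 322) (nat_lit 277) (nat_lit 181)) (XT.lf (nat_lit 0) (nat_lit 113040715287) (nat_lit 152) (nat_lit 17600112930) (nat_lit 0) (nat_lit 50279687841) (nat_lit 7) (nat_lit 5) (nat_lit 9) (nat_lit 4) (nat_lit 7) (nat_lit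 4) (nat_lit 323) (nat_lit 277) (nat_lit 180))) (XT.nd (nat_lit 78) (nat_lit 0) (nat_lit 0) (XT.lf (nat_lit 0) (nat_lit 19461990331) (nat_lit 76) (nat_lit 118498648040) (nat_lit 76) (nat_lit 55734956800) (nat_lit 6) (nat_lit 4) (nat_lit 7) (nat_lit 5) (nat_lit 7) (nat_lit 4) (nat_lit 324) (nat_lit 277) (nat_lit 179)) (XT.lf (nat_lit 0) (nat_lit 60486774791) (nat_lit 76) (nat_lit 104866853916) (nat_lit 76) (nat_lit 42100696199) (nat_lit 6) (nat_lit 4) (nat_lit 7) (nat_lit 5) (nat_lit 7) (nat_lit 4) (nat_lit 325) (nat_lit 277) (nat_lit 178))))))) (XT.nd (nat_lit 1092) (nat_lit 0) (nat_lit 0) (XT.nd (nat_lit 546) (nat_lit 76) (nat_lit 0) (XT.nd (nat_lit 234) (nat_lit 76) (nat_lit 0) (XT.nd (nat_lit 78) (nat_lit 76) (nat_lit 0) (XT.lf (nat_lit 0) (nat_lit 104790559528) (nat_lit 76) (nat_lit 90145883119) (nat_lit 76) (nat_lit 27377441627) (nat_lit 6) (nat_lit 4) (nat_lit 7) (nat_lit 5) (nat_lit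 7) (nat_lit 4) (nat_lit 326) (nat_lit 277) (nat_lit 177)) (XT.nd (nat_lit 78) (nat_lit 76) (nat_lit 0) (XT.lf (nat_lit 0) (nat_lit 152635885486) (nat_lit 76) (nat_lit 74248500268) (nat_lit 76) (nat_lit 11477944170) (nat_lit 6) (nat_lit 4) (nat_lit 7) (nat_lit 5) (nat_lit 7) (nat_lit 4) (nat_lit 327) (nat_lit 277) (nat_lit 176)) (XT.lf (nat_lit 0) (nat_lit 5407277753) (nat_lit 152) (nat_lit 51525376339) (nat_lit 76) (nat_lit 198751158214) (nat_lit 5) (nat_lit 5) (nat_lit 7) (nat_lit 5) (nat_lit 6) (nat_lit 4) (nat_lit 328) (nat_lit 277) (nat_lit 175)))) (XT.nd (nat_lit 156) (nat_lit 0) (nat_lit 0) (XT.nd (nat_lit 78) (nat_lit 76) (nat_lit 0) (XT.lf (nat_lit 0) (nat_lit 23021892959) (nat_lit 152) (nat_lit 14888789644) (nat_lit 76) (nat_lit 236456587265) (nat_lit 5) (nat_lit 5) (nat_lit 7) (nat_lit 5) (nat_lit 6) (nat_lit 4) (nat_lit 329) (nat_lit 277) (nat_lit 174)) (XT.lf (nat_lit 0)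 (nat_lit 25975885156) (nat_lit 76) (nat_lit 16693293112) (nat_lit 152) (nat_lit 251826347059) (nat_lit 4) (nat_lit 5) (nat_lit 5) (nat_lit 5) (nat_lit 6) (nat_lit 4) (nat_lit 330) (nat_lit 277) (nat_lit 173))) (XT.nd (nat_lit 78) (nat_lit 0) (nat_lit 0) (XT.lf (nat_lit 0) (nat_lit 64454326043) (nat_lit 152) (nat_lit 245407474346) (nat_lit 0) (nat_lit 6326955727) (nat_lit 4) (nat_lit 5) (nat_lit 6) (nat_lit 4) (nat_lit 4) (nat_lit 4) (nat_lit 331) (nat_lit 277) (nat_lit 172)) (XT.lf (nat_lit 0) (nat_lit 88414760226) (nat_lit 152) (nat_lit 220882030995) (nat_lit 0) (nat_lit 30286057349) (nat_lit 4) (nat_lit 5) (nat_lit 6) (nat_lit 4) (nat_lit 4) (nat_lit 4) (nat_lit 332) (nat_lit 277) (nat_lit 171))))) (XT.nd (nat_lit 234) (nat_lit 76) (nat_lit 0) (XT.nd (nat_lit 78) (nat_lit 0) (nat_lit 0) (XT.lf (nat_lit 0) (nat_lit 114290994475) (nat_lit 152) (nat_lit 194396500057) (nat_lit 0) (nat_lit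 56161057745) (nat_lit 4) (nat_lit 5) (nat_lit 6) (nat_lit 4) (nat_lit 4) (nat_lit 4) (nat_lit 333) (nat_lit 277) (nat_lit 170)) (XT.nd (nat_lit 78) (nat_lit 0) (nat_lit 0) (XT.lf (nat_lit 0) (nat_lit 142236369436) (nat_lit 152) (nat_lit 165793930239) (nat_lit 0) (nat_lit 84105290250) (nat_lit 4) (nat_lit 5) (nat_lit 6) (nat_lit 4) (nat_lit 4) (nat_lit 4) (nat_lit 334) (nat_lit 277) (nat_lit 169)) (XT.lf (nat_lit 0) (nat_lit 172416487332) (nat_lit 152) (nat_lit 134904824831) (nat_lit 0) (nat_lit 114284350317) (nat_lit 4) (nat_lit 5) (nat_lit 6) (nat_lit 4) (nat_lit 4) (nat_lit 4) (nat_lit 335) (nat_lit 277) (nat_lit 168)))) (XT.nd (nat_lit 156) (nat_lit 76) (nat_lit 0) (XT.nd (nat_lit 78) (nat_lit 0) (nat_lit 0) (XT.lf (nat_lit 0) (nat_lit 205010193306) (nat_lit 152) (nat_lit 101546137280) (nat_lit 0) (nat_lit 146877076819) (nat_lit 4) (nat_lit 5) (nat_lit 6) (nat_lit 4) (nat_lit 4)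 (nat_lit 4) (nat_lit 336) (nat_lit 277) (nat_lit 167)) (XT.lf (nat_lit 0) (nat_lit 240210635245) (nat_lit 152) (nat_lit 65520186477) (nat_lit 0) (nat_lit 182076611840) (nat_lit 4) (nat_lit 5) (nat_lit 6) (nat_lit 4) (nat_lit 4) (nat_lit 4) (nat_lit 337) (nat_lit 277) (nat_lit 166))) (XT.nd (nat_lit 78) (nat_lit 76) (nat_lit 0) (XT.lf (nat_lit 0) (nat_lit 278226408361) (nat_lit 152) (nat_lit 26613485306) (nat_lit 0) (nat_lit 220091545216) (nat_lit 4) (nat_lit 5) (nat_lit 6) (nat_lit 4) (nat_lit 4) (nat_lit 4) (nat_lit 338) (nat_lit 277) (nat_lit 165)) (XT.lf (nat_lit 0) (nat_lit 16215699422) (nat_lit 76) (nat_lit 303457079848) (nat_lit 76) (nat_lit 245321439167) (nat_lit 3) (nat_lit 4) (nat_lit 4) (nat_lit 5) (nat_lit 4) (nat_lit 4) (nat_lit 339) (nat_lit 277) (nat_lit 164)))))) (XT.nd (nat_lit 546) (nat_lit 0) (nat_lit 0) (XT.nd (nat_lit 234) (nat_lit 0) (nat_lit 0) (XT.nd (nat_lit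 78) (nat_lit 0) (nat_lit 0) (XT.lf (nat_lit 0) (nat_lit 63983555000) (nat_lit 76) (nat_lit 301178332210) (nat_lit 76) (nat_lit 243041971588) (nat_lit 3) (nat_lit 4) (nat_lit 4) (nat_lit 5) (nat_lit 4) (nat_lit 4) (nat_lit 340) (nat_lit 277) (nat_lit 163)) (XT.nd (nat_lit 78) (nat_lit 0) (nat_lit 0) (XT.lf (nat_lit 0) (nat_lit 115571731228) (nat_lit 76) (nat_lit 298717806915) (nat_lit 76) (nat_lit 240580779681) (nat_lit 3) (nat_lit 4) (nat_lit 4) (nat_lit 5) (nat_lit 4) (nat_lit 4) (nat_lit 341) (nat_lit 277) (nat_lit 162)) (XT.lf (nat_lit 0) (nat_lit 171285935816) (nat_lit 76) (nat_lit 296060923073) (nat_lit 76) (nat_lit 237923278606) (nat_lit 3) (nat_lit 4) (nat_lit 4) (nat_lit 5) (nat_lit 4) (nat_lit 4) (nat_lit 342) (nat_lit 277) (nat_lit 161)))) (XT.nd (nat_lit 156) (nat_lit 0) (nat_lit 0) (XT.nd (nat_lit 78) (nat_lit 0) (nat_lit 0) (XT.lf (nat_lit 0) (nat_lit 231456327015) (nat_lit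 76) (nat_lit 293191936187) (nat_lit 76) (nat_lit 235053720207) (nat_lit 3) (nat_lit 4) (nat_lit 4) (nat_lit 5) (nat_lit 4) (nat_lit 4) (nat_lit 343) (nat_lit 277) (nat_lit 160)) (XT.lf (nat_lit 0) (nat_lit 296439470105) (nat_lit 76) (nat_lit 290093844853) (nat_lit 76) (nat_lit 231955099695) (nat_lit 3) (nat_lit 4) (nat_lit 4) (nat_lit 5) (nat_lit 4) (nat_lit 4) (nat_lit 344) (nat_lit 277) (nat_lit 159))) (XT.nd (nat_lit 78) (nat_lit 0) (nat_lit 0) (XT.lf (nat_lit 0) (nat_lit 366620450379) (nat_lit 76) (nat_lit 286748290011) (nat_lit 76) (nat_lit 228609054874) (nat_lit 3) (nat_lit 4) (nat_lit 4) (nat_lit 5) (nat_lit 4) (nat_lit 4) (nat_lit 345) (nat_lit 277) (nat_lit 158)) (XT.lf (nat_lit 0) (nat_lit 442415155128) (nat_lit 76) (nat_lit 283135446152) (nat_lit 76) (nat_lit 224995757329) (nat_lit 3) (nat_lit 4) (nat_lit 4) (nat_lit 5) (nat_lit 4) (nat_lit 4) (nat_lit 346) (nat_lit 277)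 (nat_lit 157))))) (XT.nd (nat_lit 312) (nat_lit 0) (nat_lit 0) (XT.nd (nat_lit 156) (nat_lit 0) (nat_lit 0) (XT.nd (nat_lit 78) (nat_lit 0) (nat_lit 0) (XT.lf (nat_lit 0) (nat_lit 524272738157) (nat_lit 76) (nat_lit 279233903829) (nat_lit 76) (nat_lit 221093794927) (nat_lit 3) (nat_lit 4) (nat_lit 4) (nat_lit 5) (nat_lit 4) (nat_lit 4) (nat_lit 347) (nat_lit 277) (nat_lit 156)) (XT.lf (nat_lit 0) (nat_lit 612678281439) (nat_lit 76) (nat_lit 275020542792) (nat_lit 76) (nat_lit 216880044929) (nat_lit 3) (nat_lit 4) (nat_lit 4) (nat_lit 5) (nat_lit 4) (nat_lit 4) (nat_lit 348) (nat_lit 277) (nat_lit 155))) (XT.nd (nat_lit 78) (nat_lit 0) (nat_lit 0) (XT.lf (nat_lit 0) (nat_lit 708155669676) (nat_lit 76) (nat_lit 270470394976) (nat_lit 76) (nat_lit 212329536963) (nat_lit 3) (nat_lit 4) (nat_lit 4) (nat_lit 5) (nat_lit 4) (nat_lit 4) (nat_lit 349) (nat_lit 277) (nat_lit 154)) (XT.lf (nat_lit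 0) (nat_lit 811270694798) (nat_lit 76) (nat_lit 265556496542) (nat_lit 76) (nat_lit 207415305057) (nat_lit 3) (nat_lit 4) (nat_lit 4) (nat_lit 5) (nat_lit 4) (nat_lit 4) (nat_lit 350) (nat_lit 277) (nat_lit 153)))) (XT.nd (nat_lit 156) (nat_lit 0) (nat_lit 0) (XT.nd (nat_lit 78) (nat_lit 0) (nat_lit 0) (XT.lf (nat_lit 0) (nat_lit 922634408806) (nat_lit 76) (nat_lit 260249728092) (nat_lit 76) (nat_lit 202108227837) (nat_lit 3) (nat_lit 4) (nat_lit 4) (nat_lit 5) (nat_lit 4) (nat_lit 4) (nat_lit 351) (nat_lit 277) (nat_lit 152)) (XT.lf (nat_lit 0) (nat_lit 1042906744820) (nat_lit 76) (nat_lit 254518642109) (nat_lit 76) (nat_lit 196376855955) (nat_lit 3) (nat_lit 4) (nat_lit 4) (nat_lit 5) (nat_lit 4) (nat_lit 4) (nat_lit 352) (nat_lit 277) (nat_lit 151))) (XT.nd (nat_lit 78) (nat_lit 0) (nat_lit 0) (XT.lf (nat_lit 0) (nat_lit 1172800427794) (nat_lit 76) (nat_lit 248329276602) (nat_lit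 76) (nat_lit 190187225727) (nat_lit 3) (nat_lit 4) (nat_lit 4) (nat_lit 5) (nat_lit 4) (nat_lit 4) (nat_lit 353) (nat_lit 277) (nat_lit 150)) (XT.lf (nat_lit 0) (nat_lit 1313085198071) (nat_lit 76) (nat_lit 241644953849) (nat_lit 76) (nat_lit 183502657862) (nat_lit 3) (nat_lit 4) (nat_lit 4) (nat_lit 5) (nat_lit 4) (nat_lit 4) (nat_lit 354) (nat_lit 277) (nat_lit 149))))))))
noncomputable def xc79 : XT := (XT.nd (nat_lit 36192) (nat_lit 0) (nat_lit 228) (XT.nd (nat_lit 35100) (nat_lit 0) (nat_lit 1444) (XT.nd (nat_lit 546) (nat_lit 0) (nat_lit 0) (XT.nd (nat_lit 234) (nat_lit 0) (nat_lit 0) (XT.nd (nat_lit 78) (nat_lit 0) (nat_lit 0) (XT.lf (nat_lit 0) (nat_lit 1464592372808) (nat_lit 76) (nat_lit 234426063049) (nat_lit 76) (nat_lit 176283540107) (nat_lit 3) (nat_lit 4) (nat_lit 4) (nat_lit 5) (nat_lit 4) (nat_lit 4) (nat_lit 355) (nat_lit 277) (nat_lit 148)) (XT.nd (nat_lit 78) (nat_lit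 0) (nat_lit 0) (XT.lf (nat_lit 0) (nat_lit 1628219772302) (nat_lit 76) (nat_lit 226629825590) (nat_lit 76) (nat_lit 168487092504) (nat_lit 3) (nat_lit 4) (nat_lit 4) (nat_lit 5) (nat_lit 4) (nat_lit 4) (nat_lit 356) (nat_lit 277) (nat_lit 147)) (XT.lf (nat_lit 0) (nat_lit 1804937040399) (nat_lit 76) (nat_lit 218210041546) (nat_lit 76) (nat_lit 160067113883) (nat_lit 3) (nat_lit 4) (nat_lit 4) (nat_lit 5) (nat_lit 4) (nat_lit 4) (nat_lit 357) (nat_lit 277) (nat_lit 146)))) (XT.nd (nat_lit 156) (nat_lit 0) (nat_lit 0) (XT.nd (nat_lit 78) (nat_lit 0) (nat_lit 0) (XT.lf (nat_lit 0) (nat_lit 1995791390541) (nat_lit 76) (nat_lit 209116815901) (nat_lit 76) (nat_lit 150973708073) (nat_lit 3) (nat_lit 4) (nat_lit 4) (nat_lit 5) (nat_lit 4) (nat_lit 4) (nat_lit 358) (nat_lit 277) (nat_lit 145)) (XT.lf (nat_lit 0) (nat_lit 2201913811470) (nat_lit 76) (nat_lit 199296262873) (nat_lit 76) (nat_lit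 141152988225) (nat_lit 3) (nat_lit 4) (nat_lit 4) (nat_lit 5) (nat_lit 4) (nat_lit 4) (nat_lit 359) (nat_lit 277) (nat_lit 144))) (XT.nd (nat_lit 78) (nat_lit 0) (nat_lit 0) (XT.lf (nat_lit 0) (nat_lit 2424525769383) (nat_lit 76) (nat_lit 188690186591) (nat_lit 76) (nat_lit 130546757482) (nat_lit 3) (nat_lit 4) (nat_lit 4) (nat_lit 5) (nat_lit 4) (nat_lit 4) (nat_lit 360) (nat_lit 277) (nat_lit 143)) (XT.lf (nat_lit 0) (nat_lit 2664946446254) (nat_lit 76) (nat_lit 177235736235) (nat_lit 76) (nat_lit 119092164106) (nat_lit 3) (nat_lit 4) (nat_lit 4) (nat_lit 5) (nat_lit 4) (nat_lit 4) (nat_lit 361) (nat_lit 277) (nat_lit 142))))) (XT.nd (nat_lit 34242) (nat_lit 0) (nat_lit 2888) (XT.nd (nat_lit 34086) (nat_lit 0) (nat_lit 2812) (XT.lf (nat_lit 0) (nat_lit 2924600557204) (nat_lit 76) (nat_lit 164865033579) (nat_lit 76) (nat_lit 106721329023) (nat_lit 3) (nat_lit 4) (nat_lit 4) (nat_lit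 5) (nat_lit 4) (nat_lit 4) (nat_lit 362) (nat_lit 277) (nat_lit 141)) (XT.nd (nat_lit 78) (nat_lit 0) (nat_lit 0) (XT.lf (nat_lit 0) (nat_lit 2985927049) (nat_lit 532) (nat_lit 2638511574) (nat_lit 532) (nat_lit 2638511574) (nat_lit 40) (nat_lit 3) (nat_lit 47) (nat_lit 3) (nat_lit 47) (nat_lit 5) (nat_lit 278) (nat_lit 278) (nat_lit 224)) (XT.lf (nat_lit 76) (nat_lit 2115007820) (nat_lit 0) (nat_lit 4366890509) (nat_lit 532) (nat_lit 10682404786) (nat_lit 41) (nat_lit 5) (nat_lit 40) (nat_lit 3) (nat_lit 47) (nat_lit 5) (nat_lit 279) (nat_lit 278) (nat_lit 223)))) (XT.nd (nat_lit 156) (nat_lit 0) (nat_lit 76) (XT.nd (nat_lit 78) (nat_lit 0) (nat_lit 0) (XT.lf (nat_lit 0) (nat_lit 7232397294) (nat_lit 456) (nat_lit 7535896563) (nat_lit 532) (nat_lit 3069606112) (nat_lit 41) (nat_lit 5) (nat_lit 47) (nat_lit 5) (nat_lit 48) (nat_lit 5) (nat_lit 280) (nat_lit 278) (nat_lit 222)) (XT.lf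 (nat_lit 76) (nat_lit 475319526) (nat_lit 0) (nat_lit 7672002840) (nat_lit 532) (nat_lit 10409798362) (nat_lit 42) (nat_lit 5) (nat_lit 41) (nat_lit 5) (nat_lit 48) (nat_lit 5) (nat_lit 281) (nat_lit 278) (nat_lit 221))) (XT.nd (nat_lit 78) (nat_lit 0) (nat_lit 0) (XT.lf (nat_lit 0) (nat_lit 9327516442) (nat_lit 456) (nat_lit 9781577584) (nat_lit 532) (nat_lit 209499723) (nat_lit 42) (nat_lit 5) (nat_lit 48) (nat_lit 5) (nat_lit 49) (nat_lit 5) (nat_lit 282) (nat_lit 278) (nat_lit 220)) (XT.lf (nat_lit 0) (nat_lit 10783686829) (nat_lit 456) (nat_lit 1030524461) (nat_lit 532) (nat_lit 8312323091) (nat_lit 42) (nat_lit 5) (nat_lit 48) (nat_lit 5) (nat_lit 49) (nat_lit 5) (nat_lit 283) (nat_lit 278) (nat_lit 219)))))) (XT.nd (nat_lit 546) (nat_lit 608) (nat_lit 0) (XT.nd (nat_lit 234) (nat_lit 532) (nat_lit 0) (XT.nd (nat_lit 78) (nat_lit 380) (nat_lit 0) (XT.lf (nat_lit 76) (nat_lit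 8850464174) (nat_lit 0) (nat_lit 3702340536) (nat_lit 532) (nat_lit 8430658350) (nat_lit 43) (nat_lit 5) (nat_lit 42) (nat_lit 5) (nat_lit 49) (nat_lit 5) (nat_lit 284) (nat_lit 278) (nat_lit 218)) (XT.nd (nat_lit 78) (nat_lit 456) (nat_lit 0) (XT.lf (nat_lit 0) (nat_lit 14598600004) (nat_lit 456) (nat_lit 2462473597) (nat_lit 76) (nat_lit 4837124576) (nat_lit 43) (nat_lit 5) (nat_lit 49) (nat_lit 5) (nat_lit 44) (nat_lit 5) (nat_lit 285) (nat_lit 278) (nat_lit 217)) (XT.lf (nat_lit 0) (nat_lit 8287187719) (nat_lit 456) (nat_lit 8802068140) (nat_lit 532) (nat_lit 5774419734) (nat_lit 37) (nat_lit 5) (nat_lit 43) (nat_lit 5) (nat_lit 44) (nat_lit 5) (nat_lit 286) (nat_lit 278) (nat_lit 216)))) (XT.nd (nat_lit 156) (nat_lit 304) (nat_lit 0) (XT.nd (nat_lit 78) (nat_lit 228) (nat_lit 0) (XT.lf (nat_lit 0) (nat_lit 19837573987) (nat_lit 532) (nat_lit 3882451016) (nat_lit 76) (nat_lit 181748273)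 (nat_lit 37) (nat_lit 5) (nat_lit 44) (nat_lit 5) (nat_lit 38) (nat_lit 5) (nat_lit 287) (nat_lit 278) (nat_lit 215)) (XT.lf (nat_lit 0) (nat_lit 7816796053) (nat_lit 228) (nat_lit 15393083521) (nat_lit 304) (nat_lit 1780760230) (nat_lit 34) (nat_lit 5) (nat_lit 37) (nat_lit 5) (nat_lit 38) (nat_lit 5) (nat_lit 288) (nat_lit 278) (nat_lit 214))) (XT.nd (nat_lit 78) (nat_lit 228) (nat_lit 0) (XT.lf (nat_lit 0) (nat_lit 747757498) (nat_lit 304) (nat_lit 5517662739) (nat_lit 76) (nat_lit 19892185326) (nat_lit 33) (nat_lit 5) (nat_lit 37) (nat_lit 5) (nat_lit 34) (nat_lit 5) (nat_lit 289) (nat_lit 278) (nat_lit 213)) (XT.lf (nat_lit 0) (nat_lit 3640759755) (nat_lit 304) (nat_lit 20111242290) (nat_lit 76) (nat_lit 3641593742) (nat_lit 30) (nat_lit 5) (nat_lit 34) (nat_lit 5) (nat_lit 31) (nat_lit 5) (nat_lit 290) (nat_lit 278) (nat_lit 212))))) (XT.nd (nat_lit 234) (nat_lit 380) (nat_lit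 0) (XT.nd (nat_lit 78) (nat_lit 228) (nat_lit 0) (XT.lf (nat_lit 0) (nat_lit 7071933691) (nat_lit 304) (nat_lit 7475565889) (nat_lit 76) (nat_lit 14156464465) (nat_lit 30) (nat_lit 5) (nat_lit 34) (nat_lit 5) (nat_lit 31) (nat_lit 5) (nat_lit 291) (nat_lit 278) (nat_lit 211)) (XT.nd (nat_lit 78) (nat_lit 0) (nat_lit 0) (XT.lf (nat_lit 0) (nat_lit 6483559279) (nat_lit 228) (nat_lit 4439983242) (nat_lit 304) (nat_lit 19183978533) (nat_lit 27) (nat_lit 5) (nat_lit 30) (nat_lit 5) (nat_lit 31) (nat_lit 5) (nat_lit 292) (nat_lit 278) (nat_lit 210)) (XT.lf (nat_lit 0) (nat_lit 15439165257) (nat_lit 304) (nat_lit 9795704489) (nat_lit 76) (nat_lit 6360054070) (nat_lit 27) (nat_lit 5) (nat_lit 31) (nat_lit 5) (nat_lit 28) (nat_lit 5) (nat_lit 293) (nat_lit 278) (nat_lit 209)))) (XT.nd (nat_lit 156) (nat_lit 228) (nat_lit 0) (XT.nd (nat_lit 78) (nat_lit 0) (nat_lit 0) (XT.lf (nat_lit 0) (nat_lit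 5276135933) (nat_lit 152) (nat_lit 15273256040) (nat_lit 228) (nat_lit 12633288131) (nat_lit 25) (nat_lit 5) (nat_lit 27) (nat_lit 5) (nat_lit 28) (nat_lit 5) (nat_lit 294) (nat_lit 278) (nat_lit 208)) (XT.lf (nat_lit 0) (nat_lit 22099812833) (nat_lit 152) (nat_lit 4227986451) (nat_lit 228) (nat_lit 8548936055) (nat_lit 25) (nat_lit 5) (nat_lit 27) (nat_lit 5) (nat_lit 28) (nat_lit 5) (nat_lit 295) (nat_lit 278) (nat_lit 207))) (XT.nd (nat_lit 78) (nat_lit 76) (nat_lit 0) (XT.lf (nat_lit 0) (nat_lit 3544383726) (nat_lit 152) (nat_lit 29286646440) (nat_lit 228) (nat_lit 3854306158) (nat_lit 23) (nat_lit 5) (nat_lit 25) (nat_lit 5) (nat_lit 26) (nat_lit 5) (nat_lit 296) (nat_lit 278) (nat_lit 206)) (XT.lf (nat_lit 0) (nat_lit 1615520548) (nat_lit 228) (nat_lit 16871723905) (nat_lit 76) (nat_lit 20112227306) (nat_lit 22) (nat_lit 5) (nat_lit 25) (nat_lit 5) (nat_lit 23) (nat_lit 5) (nat_lit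 297) (nat_lit 278) (nat_lit 205))))))) (XT.nd (nat_lit 1092) (nat_lit 380) (nat_lit 0) (XT.nd (nat_lit 546) (nat_lit 380) (nat_lit 0) (XT.nd (nat_lit 234) (nat_lit 304) (nat_lit 0) (XT.nd (nat_lit 78) (nat_lit 0) (nat_lit 0) (XT.lf (nat_lit 0) (nat_lit 619805487) (nat_lit 152) (nat_lit 6702593234) (nat_lit 228) (nat_lit 33335734693) (nat_lit 20) (nat_lit 5) (nat_lit 22) (nat_lit 5) (nat_lit 23) (nat_lit 5) (nat_lit 298) (nat_lit 278) (nat_lit 204)) (XT.nd (nat_lit 78) (nat_lit 0) (nat_lit 0) (XT.lf (nat_lit 0) (nat_lit 14097026041) (nat_lit 228) (nat_lit 22541670683) (nat_lit 76) (nat_lit 6193914043) (nat_lit 20) (nat_lit 5) (nat_lit 23) (nat_lit 5) (nat_lit 21) (nat_lit 5) (nat_lit 299) (nat_lit 278) (nat_lit 203)) (XT.lf (nat_lit 0) (nat_lit 21581251007) (nat_lit 228) (nat_lit 3828980510) (nat_lit 76) (nat_lit 19757421888) (nat_lit 20) (nat_lit 5) (nat_lit 23) (nat_lit 5) (nat_lit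 21) (nat_lit 5) (nat_lit 300) (nat_lit 278) (nat_lit 202)))) (XT.nd (nat_lit 156) (nat_lit 152) (nat_lit 0) (XT.nd (nat_lit 78) (nat_lit 0) (nat_lit 0) (XT.lf (nat_lit 0) (nat_lit 17233941697) (nat_lit 152) (nat_lit 12838762069) (nat_lit 228) (nat_lit 17584132516) (nat_lit 18) (nat_lit 5) (nat_lit 20) (nat_lit 5) (nat_lit 21) (nat_lit 5) (nat_lit 301) (nat_lit 278) (nat_lit 201)) (XT.lf (nat_lit 0) (nat_lit 39362820134) (nat_lit 228) (nat_lit 10166676062) (nat_lit 76) (nat_lit 806124628) (nat_lit 18) (nat_lit 5) (nat_lit 21) (nat_lit 5) (nat_lit 19) (nat_lit 4) (nat_lit 302) (nat_lit 278) (nat_lit 200))) (XT.nd (nat_lit 78) (nat_lit 76) (nat_lit 0) (XT.lf (nat_lit 0) (nat_lit 11966790746) (nat_lit 76) (nat_lit 38045240163) (nat_lit 152) (nat_lit 3167420140) (nat_lit 17) (nat_lit 5) (nat_lit 18) (nat_lit 5) (nat_lit 19) (nat_lit 4) (nat_lit 303) (nat_lit 278) (nat_lit 199)) (XT.lf (nat_lit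 0) (nat_lit 5279004497) (nat_lit 152) (nat_lit 19921689876) (nat_lit 76) (nat_lit 31017591458) (nat_lit 16) (nat_lit 5) (nat_lit 18) (nat_lit 5) (nat_lit 17) (nat_lit 5) (nat_lit 304) (nat_lit 278) (nat_lit 198))))) (XT.nd (nat_lit 234) (nat_lit 228) (nat_lit 0) (XT.nd (nat_lit 78) (nat_lit 0) (nat_lit 0) (XT.lf (nat_lit 0) (nat_lit 3139483314) (nat_lit 152) (nat_lit 11161101371) (nat_lit 228) (nat_lit 45187426794) (nat_lit 14) (nat_lit 5) (nat_lit 16) (nat_lit 5) (nat_lit 17) (nat_lit 5) (nat_lit 305) (nat_lit 278) (nat_lit 197)) (XT.nd (nat_lit 78) (nat_lit 0) (nat_lit 0) (XT.lf (nat_lit 0) (nat_lit 24694145546) (nat_lit 228) (nat_lit 33915589160) (nat_lit 76) (nat_lit 4357570222) (nat_lit 14) (nat_lit 5) (nat_lit 17) (nat_lit 5) (nat_lit 15) (nat_lit 4) (nat_lit 306) (nat_lit 278) (nat_lit 196)) (XT.lf (nat_lit 0) (nat_lit 36204619687) (nat_lit 228) (nat_lit 9985299088) (nat_lit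 76) (nat_lit 20512198148) (nat_lit 14) (nat_lit 5) (nat_lit 17) (nat_lit 5) (nat_lit 15) (nat_lit 4) (nat_lit 307) (nat_lit 278) (nat_lit 195)))) (XT.nd (nat_lit 156) (nat_lit 152) (nat_lit 0) (XT.nd (nat_lit 78) (nat_lit 0) (nat_lit 0) (XT.lf (nat_lit 0) (nat_lit 16687344490) (nat_lit 76) (nat_lit 32345779117) (nat_lit 152) (nat_lit 21670823574) (nat_lit 13) (nat_lit 5) (nat_lit 14) (nat_lit 5) (nat_lit 15) (nat_lit 4) (nat_lit 308) (nat_lit 278) (nat_lit 194)) (XT.lf (nat_lit 0) (nat_lit 46055007226) (nat_lit 76) (nat_lit 17101923508) (nat_lit 152) (nat_lit 11847479303) (nat_lit 13) (nat_lit 5) (nat_lit 14) (nat_lit 5) (nat_lit 15) (nat_lit 4) (nat_lit 309) (nat_lit 278) (nat_lit 193))) (XT.nd (nat_lit 78) (nat_lit 152) (nat_lit 0) (XT.lf (nat_lit 0) (nat_lit 77765911561) (nat_lit 76) (nat_lit 641033762) (nat_lit 152) (nat_lit 1242267786) (nat_lit 13) (nat_lit 5) (nat_lit 14) (nat_lit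 5) (nat_lit 15) (nat_lit 4) (nat_lit 310) (nat_lit 278) (nat_lit 192)) (XT.lf (nat_lit 0) (nat_lit 10819296176) (nat_lit 152) (nat_lit 56504183137) (nat_lit 76) (nat_lit 17232980862) (nat_lit 11) (nat_lit 5) (nat_lit 13) (nat_lit 5) (nat_lit 12) (nat_lit 4) (nat_lit 311) (nat_lit 278) (nat_lit 191)))))) (XT.nd (nat_lit 546) (nat_lit 152) (nat_lit 0) (XT.nd (nat_lit 234) (nat_lit 152) (nat_lit 0) (XT.nd (nat_lit 78) (nat_lit 76) (nat_lit 0) (XT.lf (nat_lit 0) (nat_lit 23844697790) (nat_lit 152) (nat_lit 29418592300) (nat_lit 76) (nat_lit 36585139287) (nat_lit 11) (nat_lit 5) (nat_lit 13) (nat_lit 5) (nat_lit 12) (nat_lit 4) (nat_lit 312) (nat_lit 278) (nat_lit 190)) (XT.nd (nat_lit 78) (nat_lit 76) (nat_lit 0) (XT.lf (nat_lit 0) (nat_lit 37908934085) (nat_lit 152) (nat_lit 171688695) (nat_lit 76) (nat_lit 57483394584) (nat_lit 11) (nat_lit 5) (nat_lit 13) (nat_lit 5) (nat_lit 12) (nat_lit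 4) (nat_lit 313) (nat_lit 278) (nat_lit 189)) (XT.lf (nat_lit 0) (nat_lit 33063829313) (nat_lit 76) (nat_lit 20826705260) (nat_lit 152) (nat_lit 47782944840) (nat_lit 10) (nat_lit 5) (nat_lit 11) (nat_lit 5) (nat_lit 12) (nat_lit 4) (nat_lit 314) (nat_lit 278) (nat_lit 188)))) (XT.nd (nat_lit 156) (nat_lit 152) (nat_lit 0) (XT.nd (nat_lit 78) (nat_lit 0) (nat_lit 0) (XT.lf (nat_lit 0) (nat_lit 68962958049) (nat_lit 76) (nat_lit 2189537903) (nat_lit 152) (nat_lit 37119060519) (nat_lit 10) (nat_lit 5) (nat_lit 11) (nat_lit 5) (nat_lit 12) (nat_lit 4) (nat_lit 315) (nat_lit 278) (nat_lit 187)) (XT.lf (nat_lit 0) (nat_lit 90224141101) (nat_lit 152) (nat_lit 8099680035) (nat_lit 0) (nat_lit 17039364739) (nat_lit 10) (nat_lit 5) (nat_lit 12) (nat_lit 4) (nat_lit 10) (nat_lit 4) (nat_lit 316) (nat_lit 278) (nat_lit 186))) (XT.nd (nat_lit 78) (nat_lit 76) (nat_lit 0) (XT.lf (nat_lit 0) (nat_lit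 26889777787) (nat_lit 76) (nat_lit 84632813796) (nat_lit 76) (nat_lit 11443472157) (nat_lit 9) (nat_lit 4) (nat_lit 10) (nat_lit 5) (nat_lit 10) (nat_lit 4) (nat_lit 317) (nat_lit 278) (nat_lit 185)) (XT.lf (nat_lit 0) (nat_lit 3405007699) (nat_lit 152) (nat_lit 66111152731) (nat_lit 76) (nat_lit 61636595427) (nat_lit 8) (nat_lit 5) (nat_lit 10) (nat_lit 5) (nat_lit 9) (nat_lit 4) (nat_lit 318) (nat_lit 278) (nat_lit 184))))) (XT.nd (nat_lit 312) (nat_lit 76) (nat_lit 0) (XT.nd (nat_lit 156) (nat_lit 0) (nat_lit 0) (XT.nd (nat_lit 78) (nat_lit 76) (nat_lit 0) (XT.lf (nat_lit 0) (nat_lit 18820822560) (nat_lit 152) (nat_lit 34050171809) (nat_lit 76) (nat_lit 87099797405) (nat_lit 8) (nat_lit 5) (nat_lit 10) (nat_lit 5) (nat_lit 9) (nat_lit 4) (nat_lit 319) (nat_lit 278) (nat_lit 183)) (XT.lf (nat_lit 0) (nat_lit 601976915) (nat_lit 76) (nat_lit 34880274869) (nat_lit 152) (nat_lit 114011033791)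 (nat_lit 7) (nat_lit 5) (nat_lit 8) (nat_lit 5) (nat_lit 9) (nat_lit 4) (nat_lit 320) (nat_lit 278) (nat_lit 182))) (XT.nd (nat_lit 78) (nat_lit 0) (nat_lit 0) (XT.lf (nat_lit 0) (nat_lit 39959033796) (nat_lit 76) (nat_lit 14446493227) (nat_lit 152) (nat_lit 105297740052) (nat_lit 7) (nat_lit 5) (nat_lit 8) (nat_lit 5) (nat_lit 9) (nat_lit 4) (nat_lit 321) (nat_lit 278) (nat_lit 181)) (XT.lf (nat_lit 0) (nat_lit 75024028484) (nat_lit 152) (nat_lit 88452270056) (nat_lit 0) (nat_lit 7239241944) (nat_lit 7) (nat_lit 5) (nat_lit 9) (nat_lit 4) (nat_lit 7) (nat_lit 4) (nat_lit 322) (nat_lit 278) (nat_lit 180)))) (XT.nd (nat_lit 156) (nat_lit 76) (nat_lit 0) (XT.nd (nat_lit 78) (nat_lit 0) (nat_lit 0) (XT.lf (nat_lit 0) (nat_lit 97665442852) (nat_lit 152) (nat_lit 55035488108) (nat_lit 0) (nat_lit 29877992517) (nat_lit 7) (nat_lit 5) (nat_lit 9) (nat_lit 4) (nat_lit 7) (nat_lit 4) (nat_lit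 323) (nat_lit 278) (nat_lit 179)) (XT.lf (nat_lit 0) (nat_lit 122116502964) (nat_lit 152) (nat_lit 18948423554) (nat_lit 0) (nat_lit 54326586153) (nat_lit 7) (nat_lit 5) (nat_lit 9) (nat_lit 4) (nat_lit 7) (nat_lit 4) (nat_lit 324) (nat_lit 278) (nat_lit 178))) (XT.nd (nat_lit 78) (nat_lit 0) (nat_lit 0) (XT.lf (nat_lit 0) (nat_lit 21077136616) (nat_lit 76) (nat_lit 127951873016) (nat_lit 76) (nat_lit 60159672430) (nat_lit 6) (nat_lit 4) (nat_lit 7) (nat_lit 5) (nat_lit 7) (nat_lit 4) (nat_lit 325) (nat_lit 278) (nat_lit 177)) (XT.lf (nat_lit 0) (nat_lit 65379593681) (nat_lit 76) (nat_lit 113231510686) (nat_lit 76) (nat_lit 45437195493) (nat_lit 6) (nat_lit 4) (nat_lit 7) (nat_lit 5) (nat_lit 7) (nat_lit 4) (nat_lit 326) (nat_lit 278) (nat_lit 176))))))))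
noncomputable def xc80 : XT := (XT.nd (nat_lit 2184) (nat_lit 0) (nat_lit 0) (XT.nd (nat_lit 1092) (nat_lit 0) (nat_lit 0) (XT.nd (nat_lit 546) (nat_lit 76) (nat_lit 0) (XT.nd (nat_lit 234) (nat_lit 76) (nat_lit 0) (XT.nd (nat_lit 78) (nat_lit 76) (nat_lit 0) (XT.lf (nat_lit 0) (nat_lit 113223690314) (nat_lit 76) (nat_lit 97334691228) (nat_lit 76) (nat_lit 29538418068) (nat_lit 6) (nat_lit 4) (nat_lit 7) (nat_lit 5) (nat_lit 7) (nat_lit 4) (nat_lit 327) (nat_lit 278) (nat_lit 175)) (XT.nd (nat_lit 78) (nat_lit 76) (nat_lit 0) (XT.lf (nat_lit 0) (nat_lit 164892947088) (nat_lit 76) (nat_lit 80167211271) (nat_lit 76) (nat_lit 12369125176) (nat_lit 6) (nat_lit 4) (nat_lit 7) (nat_lit 5) (nat_lit 7) (nat_lit 4) (nat_lit 328) (nat_lit 278) (nat_lit 174)) (XT.lf (nat_lit 0) (nat_lit 5863657335) (nat_lit 152) (nat_lit 55603357478) (nat_lit 76) (nat_lit 214669572073) (nat_lit 5) (nat_lit 5)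 (nat_lit 7) (nat_lit 5) (nat_lit 6) (nat_lit 4) (nat_lit 329) (nat_lit 278) (nat_lit 173)))) (XT.nd (nat_lit 156) (nat_lit 0) (nat_lit 0) (XT.nd (nat_lit 78) (nat_lit 76) (nat_lit 0) (XT.lf (nat_lit 0) (nat_lit 24885678991) (nat_lit 152) (nat_lit 16039106734) (nat_lit 76) (nat_lit 255390078321) (nat_lit 5) (nat_lit 5) (nat_lit 7) (nat_lit 5) (nat_lit 6) (nat_lit 4) (nat_lit 330) (nat_lit 278) (nat_lit 172)) (XT.lf (nat_lit 0) (nat_lit 28093709491) (nat_lit 76) (nat_lit 18010361515) (nat_lit 152) (nat_lit 271949364852) (nat_lit 4) (nat_lit 5) (nat_lit 5) (nat_lit 5) (nat_lit 6) (nat_lit 4) (nat_lit 331) (nat_lit 278) (nat_lit 171))) (XT.nd (nat_lit 78) (nat_lit 0) (nat_lit 0) (XT.lf (nat_lit 0) (nat_lit 69630858124) (nat_lit 152) (nat_lit 265002069870) (nat_lit 0) (nat_lit 6849292603) (nat_lit 4) (nat_lit 5) (nat_lit 6) (nat_lit 4) (nat_lit 4) (nat_lit 4) (nat_lit 332) (nat_lit 278)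 (nat_lit 170)) (XT.lf (nat_lit 0) (nat_lit 95506631782) (nat_lit 152) (nat_lit 238517406045) (nat_lit 0) (nat_lit 32723923806) (nat_lit 4) (nat_lit 5) (nat_lit 6) (nat_lit 4) (nat_lit 4) (nat_lit 4) (nat_lit 333) (nat_lit 278) (nat_lit 169))))) (XT.nd (nat_lit 234) (nat_lit 76) (nat_lit 0) (XT.nd (nat_lit 78) (nat_lit 0) (nat_lit 0) (XT.lf (nat_lit 0) (nat_lit 123451580271) (nat_lit 152) (nat_lit 209915639109) (nat_lit 0) (nat_lit 60667814465) (nat_lit 4) (nat_lit 5) (nat_lit 6) (nat_lit 4) (nat_lit 4) (nat_lit 4) (nat_lit 334) (nat_lit 278) (nat_lit 168)) (XT.nd (nat_lit 78) (nat_lit 0) (nat_lit 0) (XT.lf (nat_lit 0) (nat_lit 153631303286) (nat_lit 152) (nat_lit 179027277110) (nat_lit 0) (nat_lit 90846558008) (nat_lit 4) (nat_lit 5) (nat_lit 6) (nat_lit 4) (nat_lit 4) (nat_lit 4) (nat_lit 335) (nat_lit 278) (nat_lit 167)) (XT.lf (nat_lit 0) (nat_lit 186224643629) (nat_lit 152) (nat_lit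 145669277901) (nat_lit 0) (nat_lit 123438991432) (nat_lit 4) (nat_lit 5) (nat_lit 6) (nat_lit 4) (nat_lit 4) (nat_lit 4) (nat_lit 336) (nat_lit 278) (nat_lit 166)))) (XT.nd (nat_lit 156) (nat_lit 76) (nat_lit 0) (XT.nd (nat_lit 78) (nat_lit 0) (nat_lit 0) (XT.lf (nat_lit 0) (nat_lit 221424747021) (nat_lit 152) (nat_lit 109643964452) (nat_lit 0) (nat_lit 158638255085) (nat_lit 4) (nat_lit 5) (nat_lit 6) (nat_lit 4) (nat_lit 4) (nat_lit 4) (nat_lit 337) (nat_lit 278) (nat_lit 165)) (XT.lf (nat_lit 0) (nat_lit 259440206667) (nat_lit 152) (nat_lit 70737853423) (nat_lit 0) (nat_lit 196652937195) (nat_lit 4) (nat_lit 5) (nat_lit 6) (nat_lit 4) (nat_lit 4) (nat_lit 4) (nat_lit 338) (nat_lit 278) (nat_lit 164))) (XT.nd (nat_lit 78) (nat_lit 76) (nat_lit 0) (XT.lf (nat_lit 0) (nat_lit 300496299365) (nat_lit 152) (nat_lit 28720390081) (nat_lit 0) (nat_lit 237708309953) (nat_lit 4) (nat_lit 5)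 (nat_lit 6) (nat_lit 4) (nat_lit 4) (nat_lit 4) (nat_lit 339) (nat_lit 278) (nat_lit 163)) (XT.lf (nat_lit 0) (nat_lit 17534568057) (nat_lit 76) (nat_lit 327723459206) (nat_lit 76) (nat_lit 264934803182) (nat_lit 3) (nat_lit 4) (nat_lit 4) (nat_lit 5) (nat_lit 4) (nat_lit 4) (nat_lit 340) (nat_lit 278) (nat_lit 162)))))) (XT.nd (nat_lit 546) (nat_lit 0) (nat_lit 0) (XT.nd (nat_lit 234) (nat_lit 0) (nat_lit 0) (XT.nd (nat_lit 78) (nat_lit 0) (nat_lit 0) (XT.lf (nat_lit 0) (nat_lit 69122251141) (nat_lit 76) (nat_lit 325263166352) (nat_lit 76) (nat_lit 262473893094) (nat_lit 3) (nat_lit 4) (nat_lit 4) (nat_lit 5) (nat_lit 4) (nat_lit 4) (nat_lit 341) (nat_lit 278) (nat_lit 161)) (XT.nd (nat_lit 78) (nat_lit 0) (nat_lit 0) (XT.lf (nat_lit 0) (nat_lit 124835999116) (nat_lit 76) (nat_lit 322606497733) (nat_lit 76) (nat_lit 259816652962) (nat_lit 3) (nat_lit 4) (nat_lit 4) (nat_lit 5) (nat_lit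 4) (nat_lit 4) (nat_lit 342) (nat_lit 278) (nat_lit 160)) (XT.lf (nat_lit 0) (nat_lit 185005967524) (nat_lit 76) (nat_lit 319737710127) (nat_lit 76) (nat_lit 256947336178) (nat_lit 3) (nat_lit 4) (nat_lit 4) (nat_lit 5) (nat_lit 4) (nat_lit 4) (nat_lit 343) (nat_lit 278) (nat_lit 159)))) (XT.nd (nat_lit 156) (nat_lit 0) (nat_lit 0) (XT.nd (nat_lit 78) (nat_lit 0) (nat_lit 0) (XT.lf (nat_lit 0) (nat_lit 249988719142) (nat_lit 76) (nat_lit 316639803312) (nat_lit 76) (nat_lit 253848939383) (nat_lit 3) (nat_lit 4) (nat_lit 4) (nat_lit 5) (nat_lit 4) (nat_lit 4) (nat_lit 344) (nat_lit 278) (nat_lit 158)) (XT.lf (nat_lit 0) (nat_lit 320169336941) (nat_lit 76) (nat_lit 313294419321) (nat_lit 76) (nat_lit 250503101707) (nat_lit 3) (nat_lit 4) (nat_lit 4) (nat_lit 5) (nat_lit 4) (nat_lit 4) (nat_lit 345) (nat_lit 278) (nat_lit 157))) (XT.nd (nat_lit 78) (nat_lit 0) (nat_lit 0) (XT.lf (nat_lit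 0) (nat_lit 395963706065) (nat_lit 76) (nat_lit 309681733656) (nat_lit 76) (nat_lit 246889995964) (nat_lit 3) (nat_lit 4) (nat_lit 4) (nat_lit 5) (nat_lit 4) (nat_lit 4) (nat_lit 346) (nat_lit 278) (nat_lit 156)) (XT.lf (nat_lit 0) (nat_lit 477820978330) (nat_lit 76) (nat_lit 305780337810) (nat_lit 76) (nat_lit 242988211156) (nat_lit 3) (nat_lit 4) (nat_lit 4) (nat_lit 5) (nat_lit 4) (nat_lit 4) (nat_lit 347) (nat_lit 278) (nat_lit 155))))) (XT.nd (nat_lit 234) (nat_lit 0) (nat_lit 0) (XT.nd (nat_lit 78) (nat_lit 0) (nat_lit 0) (XT.lf (nat_lit 0) (nat_lit 566226233868) (nat_lit 76) (nat_lit 301567112400) (nat_lit 76) (nat_lit 238774625596) (nat_lit 3) (nat_lit 4) (nat_lit 4) (nat_lit 5) (nat_lit 4) (nat_lit 4) (nat_lit 348) (nat_lit 278) (nat_lit 154)) (XT.nd (nat_lit 78) (nat_lit 0) (nat_lit 0) (XT.lf (nat_lit 0) (nat_lit 661703355675) (nat_lit 76) (nat_lit 297017090165) (nat_lit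 76) (nat_lit 234224269889) (nat_lit 3) (nat_lit 4) (nat_lit 4) (nat_lit 5) (nat_lit 4) (nat_lit 4) (nat_lit 349) (nat_lit 278) (nat_lit 153)) (XT.lf (nat_lit 0) (nat_lit 764818134103) (nat_lit 76) (nat_lit 292103308009) (nat_lit 76) (nat_lit 229310178963) (nat_lit 3) (nat_lit 4) (nat_lit 4) (nat_lit 5) (nat_lit 4) (nat_lit 4) (nat_lit 350) (nat_lit 278) (nat_lit 152)))) (XT.nd (nat_lit 156) (nat_lit 0) (nat_lit 0) (XT.nd (nat_lit 78) (nat_lit 0) (nat_lit 0) (XT.lf (nat_lit 0) (nat_lit 876181619691) (nat_lit 76) (nat_lit 286796647223) (nat_lit 76) (nat_lit 224003232279) (nat_lit 3) (nat_lit 4) (nat_lit 4) (nat_lit 5) (nat_lit 4) (nat_lit 4) (nat_lit 351) (nat_lit 278) (nat_lit 151)) (XT.lf (nat_lit 0) (nat_lit 996453744204) (nat_lit 76) (nat_lit 281065660930) (nat_lit 76) (nat_lit 218271981265) (nat_lit 3) (nat_lit 4) (nat_lit 4) (nat_lit 5) (nat_lit 4) (nat_lit 4) (nat_lit 352) (nat_lit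 278) (nat_lit 150))) (XT.nd (nat_lit 78) (nat_lit 0) (nat_lit 0) (XT.lf (nat_lit 0) (nat_lit 1126347231344) (nat_lit 76) (nat_lit 274876387728) (nat_lit 76) (nat_lit 212082462951) (nat_lit 3) (nat_lit 4) (nat_lit 4) (nat_lit 5) (nat_lit 4) (nat_lit 4) (nat_lit 353) (nat_lit 278) (nat_lit 149)) (XT.lf (nat_lit 0) (nat_lit 1266631820293) (nat_lit 76) (nat_lit 268192150443) (nat_lit 76) (nat_lit 205397998710) (nat_lit 3) (nat_lit 4) (nat_lit 4) (nat_lit 5) (nat_lit 4) (nat_lit 4) (nat_lit 354) (nat_lit 278) (nat_lit 148))))))) (XT.nd (nat_lit 35256) (nat_lit 0) (nat_lit 1292) (XT.nd (nat_lit 34710) (nat_lit 0) (nat_lit 2812) (XT.nd (nat_lit 234) (nat_lit 0) (nat_lit 0) (XT.nd (nat_lit 78) (nat_lit 0) (nat_lit 0) (XT.lf (nat_lit 0) (nat_lit 1418138827135) (nat_lit 76) (nat_lit 260973338780) (nat_lit 76) (nat_lit 198178976904) (nat_lit 3) (nat_lit 4) (nat_lit 4) (nat_lit 5) (nat_lit 4)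 (nat_lit 4) (nat_lit 355) (nat_lit 278) (nat_lit 147)) (XT.nd (nat_lit 78) (nat_lit 0) (nat_lit 0) (XT.lf (nat_lit 0) (nat_lit 1581766071169) (nat_lit 76) (nat_lit 253177174596) (nat_lit 76) (nat_lit 190382618142) (nat_lit 3) (nat_lit 4) (nat_lit 4) (nat_lit 5) (nat_lit 4) (nat_lit 4) (nat_lit 356) (nat_lit 278) (nat_lit 146)) (XT.lf (nat_lit 0) (nat_lit 1758483195322) (nat_lit 76) (nat_lit 244757458400) (nat_lit 76) (nat_lit 181962721781) (nat_lit 3) (nat_lit 4) (nat_lit 4) (nat_lit 5) (nat_lit 4) (nat_lit 4) (nat_lit 357) (nat_lit 278) (nat_lit 145)))) (XT.nd (nat_lit 156) (nat_lit 0) (nat_lit 0) (XT.nd (nat_lit 78) (nat_lit 0) (nat_lit 0) (XT.lf (nat_lit 0) (nat_lit 1949337412183) (nat_lit 76) (nat_lit 235664295576) (nat_lit 76) (nat_lit 172869392138) (nat_lit 3) (nat_lit 4) (nat_lit 4) (nat_lit 5) (nat_lit 4) (nat_lit 4) (nat_lit 358) (nat_lit 278) (nat_lit 144)) (XT.lf (nat_lit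 0) (nat_lit 2155459709703) (nat_lit 76) (nat_lit 225843800715) (nat_lit 76) (nat_lit 163048742815) (nat_lit 3) (nat_lit 4) (nat_lit 4) (nat_lit 5) (nat_lit 4) (nat_lit 4) (nat_lit 359) (nat_lit 278) (nat_lit 143))) (XT.nd (nat_lit 78) (nat_lit 0) (nat_lit 0) (XT.lf (nat_lit 0) (nat_lit 2378071553349) (nat_lit 76) (nat_lit 215237778294) (nat_lit 76) (nat_lit 152442577373) (nat_lit 3) (nat_lit 4) (nat_lit 4) (nat_lit 5) (nat_lit 4) (nat_lit 4) (nat_lit 360) (nat_lit 278) (nat_lit 142)) (XT.lf (nat_lit 0) (nat_lit 2618492124417) (nat_lit 76) (nat_lit 203783377807) (nat_lit 76) (nat_lit 140988044460) (nat_lit 3) (nat_lit 4) (nat_lit 4) (nat_lit 5) (nat_lit 4) (nat_lit 4) (nat_lit 361) (nat_lit 278) (nat_lit 141))))) (XT.nd (nat_lit 234) (nat_lit 0) (nat_lit 76) (XT.nd (nat_lit 78) (nat_lit 0) (nat_lit 0) (XT.lf (nat_lit 0) (nat_lit 3439806972) (nat_lit 532) (nat_lit 2733030844) (nat_lit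 532) (nat_lit 2733030844) (nat_lit 40) (nat_lit 3) (nat_lit 47) (nat_lit 3) (nat_lit 47) (nat_lit 5) (nat_lit 279) (nat_lit 279) (nat_lit 222)) (XT.nd (nat_lit 78) (nat_lit 0) (nat_lit 76) (XT.lf (nat_lit 76) (nat_lit 2511429900) (nat_lit 0) (nat_lit 4892643788) (nat_lit 532) (nat_lit 11099385477) (nat_lit 41) (nat_lit 5) (nat_lit 40) (nat_lit 3) (nat_lit 47) (nat_lit 5) (nat_lit 280) (nat_lit 279) (nat_lit 221)) (XT.lf (nat_lit 0) (nat_lit 8180786319) (nat_lit 456) (nat_lit 7892979282) (nat_lit 532) (nat_lit 3160010070) (nat_lit 41) (nat_lit 5) (nat_lit 47) (nat_lit 5) (nat_lit 48) (nat_lit 5) (nat_lit 281) (nat_lit 279) (nat_lit 220)))) (XT.nd (nat_lit 156) (nat_lit 0) (nat_lit 76) (XT.nd (nat_lit 78) (nat_lit 0) (nat_lit 76) (XT.lf (nat_lit 76) (nat_lit 752911588) (nat_lit 0) (nat_lit 8394363001) (nat_lit 532) (nat_lit 10865106449) (nat_lit 42) (nat_lit 5) (nat_lit 41) (nat_lit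 5) (nat_lit 48) (nat_lit 5) (nat_lit 282) (nat_lit 279) (nat_lit 219)) (XT.lf (nat_lit 0) (nat_lit 10393675722) (nat_lit 456) (nat_lit 10312726310) (nat_lit 532) (nat_lit 130734401) (nat_lit 42) (nat_lit 5) (nat_lit 48) (nat_lit 5) (nat_lit 49) (nat_lit 5) (nat_lit 283) (nat_lit 279) (nat_lit 218))) (XT.nd (nat_lit 78) (nat_lit 0) (nat_lit 0) (XT.lf (nat_lit 0) (nat_lit 11942639151) (nat_lit 456) (nat_lit 880209491) (nat_lit 532) (nat_lit 8888859586) (nat_lit 42) (nat_lit 5) (nat_lit 48) (nat_lit 5) (nat_lit 49) (nat_lit 5) (nat_lit 284) (nat_lit 279) (nat_lit 217)) (XT.lf (nat_lit 76) (nat_lit 9785365655) (nat_lit 0) (nat_lit 4051431909) (nat_lit 532) (nat_lit 8801805215) (nat_lit 43) (nat_lit 5) (nat_lit 42) (nat_lit 5) (nat_lit 49) (nat_lit 5) (nat_lit 285) (nat_lit 279) (nat_lit 216)))))) (XT.nd (nat_lit 546) (nat_lit 760) (nat_lit 0) (XT.nd (nat_lit 234) (nat_lit 532) (nat_lit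 0) (XT.nd (nat_lit 78) (nat_lit 456) (nat_lit 0) (XT.lf (nat_lit 0) (nat_lit 16024354792) (nat_lit 456) (nat_lit 2426439987) (nat_lit 76) (nat_lit 5177559680) (nat_lit 43) (nat_lit 5) (nat_lit 49) (nat_lit 5) (nat_lit 44) (nat_lit 5) (nat_lit 286) (nat_lit 279) (nat_lit 215)) (XT.nd (nat_lit 78) (nat_lit 0) (nat_lit 0) (XT.lf (nat_lit 0) (nat_lit 9177294703) (nat_lit 456) (nat_lit 9523329699) (nat_lit 532) (nat_lit 5971616041) (nat_lit 37) (nat_lit 5) (nat_lit 43) (nat_lit 5) (nat_lit 44) (nat_lit 5) (nat_lit 287) (nat_lit 279) (nat_lit 214)) (XT.lf (nat_lit 0) (nat_lit 21650336306) (nat_lit 532) (nat_lit 3963350499) (nat_lit 76) (nat_lit 181250272) (nat_lit 37) (nat_lit 5) (nat_lit 44) (nat_lit 5) (nat_lit 38) (nat_lit 5) (nat_lit 288) (nat_lit 279) (nat_lit 213)))) (XT.nd (nat_lit 156) (nat_lit 228) (nat_lit 0) (XT.nd (nat_lit 78) (nat_lit 76) (nat_lit 0) (XT.lf (nat_lit 0) (nat_lit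 8666021232) (nat_lit 228) (nat_lit 16615066767) (nat_lit 304) (nat_lit 1690799963) (nat_lit 34) (nat_lit 5) (nat_lit 37) (nat_lit 5) (nat_lit 38) (nat_lit 5) (nat_lit 289) (nat_lit 279) (nat_lit 212)) (XT.lf (nat_lit 0) (nat_lit 1012017396) (nat_lit 304) (nat_lit 5740284287) (nat_lit 76) (nat_lit 21480828801) (nat_lit 33) (nat_lit 5) (nat_lit 37) (nat_lit 5) (nat_lit 34) (nat_lit 5) (nat_lit 290) (nat_lit 279) (nat_lit 211))) (XT.nd (nat_lit 78) (nat_lit 0) (nat_lit 0) (XT.lf (nat_lit 0) (nat_lit 4126897724) (nat_lit 304) (nat_lit 21491113667) (nat_lit 76) (nat_lit 3950807458) (nat_lit 30) (nat_lit 5) (nat_lit 34) (nat_lit 5) (nat_lit 31) (nat_lit 5) (nat_lit 291) (nat_lit 279) (nat_lit 210)) (XT.lf (nat_lit 0) (nat_lit 7818130228) (nat_lit 304) (nat_lit 7861548191) (nat_lit 76) (nat_lit 15305542934) (nat_lit 30) (nat_lit 5) (nat_lit 34) (nat_lit 5) (nat_lit 31) (nat_lit 5) (nat_lit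 292) (nat_lit 279) (nat_lit 209))))) (XT.nd (nat_lit 234) (nat_lit 380) (nat_lit 0) (XT.nd (nat_lit 78) (nat_lit 152) (nat_lit 0) (XT.lf (nat_lit 0) (nat_lit 7208938308) (nat_lit 228) (nat_lit 4760534397) (nat_lit 304) (nat_lit 20532308080) (nat_lit 27) (nat_lit 5) (nat_lit 30) (nat_lit 5) (nat_lit 31) (nat_lit 5) (nat_lit 293) (nat_lit 279) (nat_lit 208)) (XT.nd (nat_lit 78) (nat_lit 152) (nat_lit 0) (XT.lf (nat_lit 0) (nat_lit 16834372602) (nat_lit 304) (nat_lit 10375469212) (nat_lit 76) (nat_lit 6899334596) (nat_lit 27) (nat_lit 5) (nat_lit 31) (nat_lit 5) (nat_lit 28) (nat_lit 5) (nat_lit 294) (nat_lit 279) (nat_lit 207)) (XT.lf (nat_lit 0) (nat_lit 5896956630) (nat_lit 152) (nat_lit 16449382940) (nat_lit 228) (nat_lit 13478219521) (nat_lit 25) (nat_lit 5) (nat_lit 27) (nat_lit 5) (nat_lit 28) (nat_lit 5) (nat_lit 295) (nat_lit 279) (nat_lit 206)))) (XT.nd (nat_lit 156) (nat_lit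 228) (nat_lit 0) (XT.nd (nat_lit 78) (nat_lit 152) (nat_lit 0) (XT.lf (nat_lit 0) (nat_lit 24051806954) (nat_lit 152) (nat_lit 4523879457) (nat_lit 228) (nat_lit 9079395698) (nat_lit 25) (nat_lit 5) (nat_lit 27) (nat_lit 5) (nat_lit 28) (nat_lit 5) (nat_lit 296) (nat_lit 279) (nat_lit 205)) (XT.lf (nat_lit 0) (nat_lit 4017785948) (nat_lit 152) (nat_lit 31576405162) (nat_lit 228) (nat_lit 4014612835) (nat_lit 23) (nat_lit 5) (nat_lit 25) (nat_lit 5) (nat_lit 26) (nat_lit 5) (nat_lit 297) (nat_lit 279) (nat_lit 204))) (XT.nd (nat_lit 78) (nat_lit 152) (nat_lit 0) (XT.lf (nat_lit 0) (nat_lit 1874977344) (nat_lit 228) (nat_lit 18038452100) (nat_lit 76) (nat_lit 21763218473) (nat_lit 22) (nat_lit 5) (nat_lit 25) (nat_lit 5) (nat_lit 23) (nat_lit 5) (nat_lit 298) (nat_lit 279) (nat_lit 203)) (XT.lf (nat_lit 0) (nat_lit 847766487) (nat_lit 152) (nat_lit 7185283679) (nat_lit 228) (nat_lit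 35867407778) (nat_lit 20) (nat_lit 5) (nat_lit 22) (nat_lit 5) (nat_lit 23) (nat_lit 5) (nat_lit 299) (nat_lit 279) (nat_lit 202))))))))
noncomputable def xc81 : XT := (XT.nd (nat_lit 2184) (nat_lit 228) (nat_lit 0) (XT.nd (nat_lit 1092) (nat_lit 380) (nat_lit 0) (XT.nd (nat_lit 546) (nat_lit 228) (nat_lit 0) (XT.nd (nat_lit 234) (nat_lit 304) (nat_lit 0) (XT.nd (nat_lit 78) (nat_lit 152) (nat_lit 0) (XT.lf (nat_lit 0) (nat_lit 15341590561) (nat_lit 228) (nat_lit 24171471357) (nat_lit 76) (nat_lit 6736501127) (nat_lit 20) (nat_lit 5) (nat_lit 23) (nat_lit 5) (nat_lit 21) (nat_lit 5) (nat_lit 300) (nat_lit 279) (nat_lit 201)) (XT.nd (nat_lit 78) (nat_lit 152) (nat_lit 0) (XT.lf (nat_lit 0) (nat_lit 23415901492) (nat_lit 228) (nat_lit 3974620264) (nat_lit 76) (nat_lit 21381602639) (nat_lit 20) (nat_lit 5) (nat_lit 23) (nat_lit 5) (nat_lit 21) (nat_lit 5) (nat_lit 301) (nat_lit 279) (nat_lit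 200)) (XT.lf (nat_lit 0) (nat_lit 18769267905) (nat_lit 152) (nat_lit 13813157921) (nat_lit 228) (nat_lit 18878377074) (nat_lit 18) (nat_lit 5) (nat_lit 20) (nat_lit 5) (nat_lit 21) (nat_lit 5) (nat_lit 302) (nat_lit 279) (nat_lit 199)))) (XT.nd (nat_lit 156) (nat_lit 228) (nat_lit 0) (XT.nd (nat_lit 78) (nat_lit 76) (nat_lit 0) (XT.lf (nat_lit 0) (nat_lit 42609228446) (nat_lit 228) (nat_lit 10828229039) (nat_lit 76) (nat_lit 916974404) (nat_lit 18) (nat_lit 5) (nat_lit 21) (nat_lit 5) (nat_lit 19) (nat_lit 4) (nat_lit 303) (nat_lit 279) (nat_lit 198)) (XT.lf (nat_lit 0) (nat_lit 13072072554) (nat_lit 76) (nat_lit 41034647921) (nat_lit 152) (nat_lit 3319358875) (nat_lit 17) (nat_lit 5) (nat_lit 18) (nat_lit 5) (nat_lit 19) (nat_lit 4) (nat_lit 304) (nat_lit 279) (nat_lit 197))) (XT.nd (nat_lit 78) (nat_lit 152) (nat_lit 0) (XT.lf (nat_lit 0) (nat_lit 5790565314) (nat_lit 152) (nat_lit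 21373548826) (nat_lit 76) (nat_lit 33544298464) (nat_lit 16) (nat_lit 5) (nat_lit 18) (nat_lit 5) (nat_lit 17) (nat_lit 5) (nat_lit 305) (nat_lit 279) (nat_lit 196)) (XT.lf (nat_lit 0) (nat_lit 3528926416) (nat_lit 152) (nat_lit 12001660840) (nat_lit 228) (nat_lit 48709406401) (nat_lit 14) (nat_lit 5) (nat_lit 16) (nat_lit 5) (nat_lit 17) (nat_lit 5) (nat_lit 306) (nat_lit 279) (nat_lit 195))))) (XT.nd (nat_lit 234) (nat_lit 152) (nat_lit 0) (XT.nd (nat_lit 78) (nat_lit 76) (nat_lit 0) (XT.lf (nat_lit 0) (nat_lit 26750431172) (nat_lit 228) (nat_lit 36495424560) (nat_lit 76) (nat_lit 4752204497) (nat_lit 14) (nat_lit 5) (nat_lit 17) (nat_lit 5) (nat_lit 15) (nat_lit 4) (nat_lit 307) (nat_lit 279) (nat_lit 194)) (XT.nd (nat_lit 78) (nat_lit 76) (nat_lit 0) (XT.lf (nat_lit 0) (nat_lit 39175761469) (nat_lit 228) (nat_lit 10660593633) (nat_lit 76) (nat_lit 22195793127) (nat_lit 14) (nat_lit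 5) (nat_lit 17) (nat_lit 5) (nat_lit 15) (nat_lit 4) (nat_lit 308) (nat_lit 279) (nat_lit 193)) (XT.lf (nat_lit 0) (nat_lit 18142734105) (nat_lit 76) (nat_lit 34885168587) (nat_lit 152) (nat_lit 23326445230) (nat_lit 13) (nat_lit 5) (nat_lit 14) (nat_lit 5) (nat_lit 15) (nat_lit 4) (nat_lit 309) (nat_lit 279) (nat_lit 192)))) (XT.nd (nat_lit 156) (nat_lit 152) (nat_lit 0) (XT.nd (nat_lit 78) (nat_lit 0) (nat_lit 0) (XT.lf (nat_lit 0) (nat_lit 49850891190) (nat_lit 76) (nat_lit 18425380297) (nat_lit 152) (nat_lit 12723014472) (nat_lit 13) (nat_lit 5) (nat_lit 14) (nat_lit 5) (nat_lit 15) (nat_lit 4) (nat_lit 310) (nat_lit 279) (nat_lit 191)) (XT.lf (nat_lit 0) (nat_lit 84090409842) (nat_lit 76) (nat_lit 650930266) (nat_lit 152) (nat_lit 1274738861) (nat_lit 13) (nat_lit 5) (nat_lit 14) (nat_lit 5) (nat_lit 15) (nat_lit 4) (nat_lit 311) (nat_lit 279) (nat_lit 190))) (XT.nd (nat_lit 78)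 (nat_lit 0) (nat_lit 0) (XT.lf (nat_lit 0) (nat_lit 11747220849) (nat_lit 152) (nat_lit 60916541841) (nat_lit 76) (nat_lit 18652117464) (nat_lit 11) (nat_lit 5) (nat_lit 13) (nat_lit 5) (nat_lit 12) (nat_lit 4) (nat_lit 312) (nat_lit 279) (nat_lit 189)) (XT.lf (nat_lit 0) (nat_lit 25810033779) (nat_lit 152) (nat_lit 31672101955) (nat_lit 76) (nat_lit 39549448702) (nat_lit 11) (nat_lit 5) (nat_lit 13) (nat_lit 5) (nat_lit 12) (nat_lit 4) (nat_lit 313) (nat_lit 279) (nat_lit 188)))))) (XT.nd (nat_lit 546) (nat_lit 152) (nat_lit 0) (XT.nd (nat_lit 234) (nat_lit 152) (nat_lit 0) (XT.nd (nat_lit 78) (nat_lit 76) (nat_lit 0) (XT.lf (nat_lit 0) (nat_lit 40995130446) (nat_lit 152) (nat_lit 92851820) (nat_lit 76) (nat_lit 62116786772) (nat_lit 11) (nat_lit 5) (nat_lit 13) (nat_lit 5) (nat_lit 12) (nat_lit 4) (nat_lit 314) (nat_lit 279) (nat_lit 187)) (XT.nd (nat_lit 78) (nat_lit 0) (nat_lit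 0) (XT.lf (nat_lit 0) (nat_lit 35799164034) (nat_lit 76) (nat_lit 22454303331) (nat_lit 152) (nat_lit 51549670769) (nat_lit 10) (nat_lit 5) (nat_lit 11) (nat_lit 5) (nat_lit 12) (nat_lit 4) (nat_lit 315) (nat_lit 279) (nat_lit 186)) (XT.lf (nat_lit 0) (nat_lit 74563539486) (nat_lit 76) (nat_lit 2329017278) (nat_lit 152) (nat_lit 40036817159) (nat_lit 10) (nat_lit 5) (nat_lit 11) (nat_lit 5) (nat_lit 12) (nat_lit 4) (nat_lit 316) (nat_lit 279) (nat_lit 185)))) (XT.nd (nat_lit 156) (nat_lit 76) (nat_lit 0) (XT.nd (nat_lit 78) (nat_lit 76) (nat_lit 0) (XT.lf (nat_lit 0) (nat_lit 97487182879) (nat_lit 152) (nat_lit 8667475117) (nat_lit 0) (nat_lit 18433901525) (nat_lit 10) (nat_lit 5) (nat_lit 12) (nat_lit 4) (nat_lit 10) (nat_lit 4) (nat_lit 317) (nat_lit 279) (nat_lit 184)) (XT.lf (nat_lit 0) (nat_lit 29119109474) (nat_lit 76) (nat_lit 91368937903) (nat_lit 76) (nat_lit 12311742561)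 (nat_lit 9) (nat_lit 4) (nat_lit 10) (nat_lit 5) (nat_lit 10) (nat_lit 4) (nat_lit 318) (nat_lit 279) (nat_lit 183))) (XT.nd (nat_lit 78) (nat_lit 0) (nat_lit 0) (XT.lf (nat_lit 0) (nat_lit 3718932264) (nat_lit 152) (nat_lit 71325440296) (nat_lit 76) (nat_lit 66597224389) (nat_lit 8) (nat_lit 5) (nat_lit 10) (nat_lit 5) (nat_lit 9) (nat_lit 4) (nat_lit 319) (nat_lit 279) (nat_lit 182)) (XT.lf (nat_lit 0) (nat_lit 20364936465) (nat_lit 152) (nat_lit 36705107170) (nat_lit 76) (nat_lit 94095282427) (nat_lit 8) (nat_lit 5) (nat_lit 10) (nat_lit 5) (nat_lit 9) (nat_lit 4) (nat_lit 320) (nat_lit 279) (nat_lit 181))))) (XT.nd (nat_lit 234) (nat_lit 76) (nat_lit 0) (XT.nd (nat_lit 78) (nat_lit 0) (nat_lit 0) (XT.lf (nat_lit 0) (nat_lit 717464632) (nat_lit 76) (nat_lit 37640586666) (nat_lit 152) (nat_lit 123091670310) (nat_lit 7) (nat_lit 5) (nat_lit 8) (nat_lit 5) (nat_lit 9) (nat_lit 4) (nat_lit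 321) (nat_lit 279) (nat_lit 180)) (XT.nd (nat_lit 78) (nat_lit 0) (nat_lit 0) (XT.lf (nat_lit 0) (nat_lit 43218098689) (nat_lit 76) (nat_lit 15574332877) (nat_lit 152) (nat_lit 113684294271) (nat_lit 7) (nat_lit 5) (nat_lit 8) (nat_lit 5) (nat_lit 9) (nat_lit 4) (nat_lit 322) (nat_lit 279) (nat_lit 179)) (XT.lf (nat_lit 0) (nat_lit 81058481216) (nat_lit 152) (nat_lit 95468753250) (nat_lit 0) (nat_lit 7842904584) (nat_lit 7) (nat_lit 5) (nat_lit 9) (nat_lit 4) (nat_lit 7) (nat_lit 4) (nat_lit 323) (nat_lit 279) (nat_lit 178)))) (XT.nd (nat_lit 156) (nat_lit 76) (nat_lit 0) (XT.nd (nat_lit 78) (nat_lit 0) (nat_lit 0) (XT.lf (nat_lit 0) (nat_lit 105508799071) (nat_lit 152) (nat_lit 59383050851) (nat_lit 0) (nat_lit 32290938664) (nat_lit 7) (nat_lit 5) (nat_lit 9) (nat_lit 4) (nat_lit 7) (nat_lit 4) (nat_lit 324) (nat_lit 279) (nat_lit 177)) (XT.lf (nat_lit 0) (nat_lit 131913712822) (nat_lit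 152) (nat_lit 20413115673) (nat_lit 0) (nat_lit 58693737808) (nat_lit 7) (nat_lit 5) (nat_lit 9) (nat_lit 4) (nat_lit 7) (nat_lit 4) (nat_lit 325) (nat_lit 279) (nat_lit 176))) (XT.nd (nat_lit 78) (nat_lit 0) (nat_lit 0) (XT.lf (nat_lit 0) (nat_lit 22813193569) (nat_lit 76) (nat_lit 138165160317) (nat_lit 76) (nat_lit 64943227335) (nat_lit 6) (nat_lit 4) (nat_lit 7) (nat_lit 5) (nat_lit 7) (nat_lit 4) (nat_lit 326) (nat_lit 279) (nat_lit 175)) (XT.lf (nat_lit 0) (nat_lit 70656151938) (nat_lit 76) (nat_lit 122268862521) (nat_lit 76) (nat_lit 49045116605) (nat_lit 6) (nat_lit 4) (nat_lit 7) (nat_lit 5) (nat_lit 7) (nat_lit 4) (nat_lit 327) (nat_lit 279) (nat_lit 174))))))) (XT.nd (nat_lit 1092) (nat_lit 0) (nat_lit 0) (XT.nd (nat_lit 546) (nat_lit 76) (nat_lit 0) (XT.nd (nat_lit 234) (nat_lit 76) (nat_lit 0) (XT.nd (nat_lit 78) (nat_lit 76) (nat_lit 0) (XT.lf (nat_lit 0) (nat_lit 122324354764)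 (nat_lit 76) (nat_lit 105101865583) (nat_lit 76) (nat_lit 31876441024) (nat_lit 6) (nat_lit 4) (nat_lit 7) (nat_lit 5) (nat_lit 7) (nat_lit 4) (nat_lit 328) (nat_lit 279) (nat_lit 173)) (XT.nd (nat_lit 78) (nat_lit 76) (nat_lit 0) (XT.lf (nat_lit 0) (nat_lit 178123983989) (nat_lit 76) (nat_lit 86562439150) (nat_lit 76) (nat_lit 13335460293) (nat_lit 6) (nat_lit 4) (nat_lit 7) (nat_lit 5) (nat_lit 7) (nat_lit 4) (nat_lit 329) (nat_lit 279) (nat_lit 172)) (XT.lf (nat_lit 0) (nat_lit 6353152324) (nat_lit 152) (nat_lit 60013861187) (nat_lit 76) (nat_lit 231858845315) (nat_lit 5) (nat_lit 5) (nat_lit 7) (nat_lit 5) (nat_lit 6) (nat_lit 4) (nat_lit 330) (nat_lit 279) (nat_lit 171)))) (XT.nd (nat_lit 156) (nat_lit 0) (nat_lit 0) (XT.nd (nat_lit 78) (nat_lit 76) (nat_lit 0) (XT.lf (nat_lit 0) (nat_lit 26895424423) (nat_lit 152) (nat_lit 17287267783) (nat_lit 76) (nat_lit 275835828546) (nat_lit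 5) (nat_lit 5) (nat_lit 7) (nat_lit 5) (nat_lit 6) (nat_lit 4) (nat_lit 331) (nat_lit 279) (nat_lit 170)) (XT.lf (nat_lit 0) (nat_lit 30375288487) (nat_lit 76) (nat_lit 19435419648) (nat_lit 152) (nat_lit 293685518111) (nat_lit 4) (nat_lit 5) (nat_lit 5) (nat_lit 5) (nat_lit 6) (nat_lit 4) (nat_lit 332) (nat_lit 279) (nat_lit 169))) (XT.nd (nat_lit 78) (nat_lit 0) (nat_lit 0) (XT.lf (nat_lit 0) (nat_lit 75218633012) (nat_lit 152) (nat_lit 286169654507) (nat_lit 0) (nat_lit 7411108112) (nat_lit 4) (nat_lit 5) (nat_lit 6) (nat_lit 4) (nat_lit 4) (nat_lit 4) (nat_lit 333) (nat_lit 279) (nat_lit 168)) (XT.lf (nat_lit 0) (nat_lit 103163186620) (nat_lit 152) (nat_lit 257568630980) (nat_lit 0) (nat_lit 35354682248) (nat_lit 4) (nat_lit 5) (nat_lit 6) (nat_lit 4) (nat_lit 4) (nat_lit 4) (nat_lit 334) (nat_lit 279) (nat_lit 167))))) (XT.nd (nat_lit 234) (nat_lit 76) (nat_lit 0) (XT.nd (nat_lit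 78) (nat_lit 0) (nat_lit 0) (XT.lf (nat_lit 0) (nat_lit 133342544003) (nat_lit 152) (nat_lit 226680957322) (nat_lit 0) (nat_lit 65533132713) (nat_lit 4) (nat_lit 5) (nat_lit 6) (nat_lit 4) (nat_lit 4) (nat_lit 4) (nat_lit 335) (nat_lit 279) (nat_lit 166)) (XT.nd (nat_lit 78) (nat_lit 0) (nat_lit 0) (XT.lf (nat_lit 0) (nat_lit 165935545799) (nat_lit 152) (nat_lit 193323595468) (nat_lit 0) (nat_lit 98125294769) (nat_lit 4) (nat_lit 5) (nat_lit 6) (nat_lit 4) (nat_lit 4) (nat_lit 4) (nat_lit 336) (nat_lit 279) (nat_lit 165)) (XT.lf (nat_lit 0) (nat_lit 201135335721) (nat_lit 152) (nat_lit 157298872161) (nat_lit 0) (nat_lit 133324307155) (nat_lit 4) (nat_lit 5) (nat_lit 6) (nat_lit 4) (nat_lit 4) (nat_lit 4) (nat_lit 337) (nat_lit 279) (nat_lit 164)))) (XT.nd (nat_lit 156) (nat_lit 76) (nat_lit 0) (XT.nd (nat_lit 78) (nat_lit 0) (nat_lit 0) (XT.lf (nat_lit 0) (nat_lit 239150505118) (nat_lit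 152) (nat_lit 118393307559) (nat_lit 0) (nat_lit 171338756611) (nat_lit 4) (nat_lit 5) (nat_lit 6) (nat_lit 4) (nat_lit 4) (nat_lit 4) (nat_lit 338) (nat_lit 279) (nat_lit 163)) (XT.lf (nat_lit 0) (nat_lit 280206329066) (nat_lit 152) (nat_lit 76376350169) (nat_lit 0) (nat_lit 212393913947) (nat_lit 4) (nat_lit 5) (nat_lit 6) (nat_lit 4) (nat_lit 4) (nat_lit 4) (nat_lit 339) (nat_lit 279) (nat_lit 162))) (XT.nd (nat_lit 78) (nat_lit 76) (nat_lit 0) (XT.lf (nat_lit 0) (nat_lit 324546101339) (nat_lit 152) (nat_lit 30999010614) (nat_lit 0) (nat_lit 256733068986) (nat_lit 4) (nat_lit 5) (nat_lit 6) (nat_lit 4) (nat_lit 4) (nat_lit 4) (nat_lit 340) (nat_lit 279) (nat_lit 161)) (XT.lf (nat_lit 0) (nat_lit 18955862891) (nat_lit 76) (nat_lit 353932602207) (nat_lit 76) (nat_lit 286118998343) (nat_lit 3) (nat_lit 4) (nat_lit 4) (nat_lit 5) (nat_lit 4) (nat_lit 4) (nat_lit 341) (nat_lit 279) (nat_lit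 160)))))) (XT.nd (nat_lit 546) (nat_lit 0) (nat_lit 0) (XT.nd (nat_lit 234) (nat_lit 0) (nat_lit 0) (XT.nd (nat_lit 78) (nat_lit 0) (nat_lit 0) (XT.lf (nat_lit 0) (nat_lit 74669188075) (nat_lit 76) (nat_lit 351276132868) (nat_lit 76) (nat_lit 283461999825) (nat_lit 3) (nat_lit 4) (nat_lit 4) (nat_lit 5) (nat_lit 4) (nat_lit 4) (nat_lit 342) (nat_lit 279) (nat_lit 159)) (XT.nd (nat_lit 78) (nat_lit 0) (nat_lit 0) (XT.lf (nat_lit 0) (nat_lit 134838765011) (nat_lit 76) (nat_lit 348407529781) (nat_lit 76) (nat_lit 280592906759) (nat_lit 3) (nat_lit 4) (nat_lit 4) (nat_lit 5) (nat_lit 4) (nat_lit 4) (nat_lit 343) (nat_lit 279) (nat_lit 158)) (XT.lf (nat_lit 0) (nat_lit 199821154154) (nat_lit 76) (nat_lit 345309793816) (nat_lit 76) (nat_lit 277494717109) (nat_lit 3) (nat_lit 4) (nat_lit 4) (nat_lit 5) (nat_lit 4) (nat_lit 4) (nat_lit 344) (nat_lit 279) (nat_lit 157)))) (XT.nd (nat_lit 156)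 (nat_lit 0) (nat_lit 0) (XT.nd (nat_lit 78) (nat_lit 0) (nat_lit 0) (XT.lf (nat_lit 0) (nat_lit 270001436328) (nat_lit 76) (nat_lit 341964568020) (nat_lit 76) (nat_lit 274149071234) (nat_lit 3) (nat_lit 4) (nat_lit 4) (nat_lit 5) (nat_lit 4) (nat_lit 4) (nat_lit 345) (nat_lit 279) (nat_lit 156)) (XT.lf (nat_lit 0) (nat_lit 345795494688) (nat_lit 76) (nat_lit 338352028833) (nat_lit 76) (nat_lit 270536143085) (nat_lit 3) (nat_lit 4) (nat_lit 4) (nat_lit 5) (nat_lit 4) (nat_lit 4) (nat_lit 346) (nat_lit 279) (nat_lit 155))) (XT.nd (nat_lit 78) (nat_lit 0) (nat_lit 0) (XT.lf (nat_lit 0) (nat_lit 427652479209) (nat_lit 76) (nat_lit 334450768613) (nat_lit 76) (nat_lit 266634522716) (nat_lit 3) (nat_lit 4) (nat_lit 4) (nat_lit 5) (nat_lit 4) (nat_lit 4) (nat_lit 347) (nat_lit 279) (nat_lit 154)) (XT.lf (nat_lit 0) (nat_lit 516057468317) (nat_lit 76) (nat_lit 330237668784) (nat_lit 76) (nat_lit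 262421089414) (nat_lit 3) (nat_lit 4) (nat_lit 4) (nat_lit 5) (nat_lit 4) (nat_lit 4) (nat_lit 348) (nat_lit 279) (nat_lit 153))))) (XT.nd (nat_lit 312) (nat_lit 0) (nat_lit 0) (XT.nd (nat_lit 156) (nat_lit 0) (nat_lit 0) (XT.nd (nat_lit 78) (nat_lit 0) (nat_lit 0) (XT.lf (nat_lit 0) (nat_lit 611534343431) (nat_lit 76) (nat_lit 325687762827) (nat_lit 76) (nat_lit 257870874686) (nat_lit 3) (nat_lit 4) (nat_lit 4) (nat_lit 5) (nat_lit 4) (nat_lit 4) (nat_lit 349) (nat_lit 279) (nat_lit 152)) (XT.lf (nat_lit 0) (nat_lit 714648893438) (nat_lit 76) (nat_lit 320774088336) (nat_lit 76) (nat_lit 252956914297) (nat_lit 3) (nat_lit 4) (nat_lit 4) (nat_lit 5) (nat_lit 4) (nat_lit 4) (nat_lit 350) (nat_lit 279) (nat_lit 151))) (XT.nd (nat_lit 78) (nat_lit 0) (nat_lit 0) (XT.lf (nat_lit 0) (nat_lit 826012167525) (nat_lit 76) (nat_lit 315467527240) (nat_lit 76) (nat_lit 247650088481) (nat_lit 3)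 (nat_lit 4) (nat_lit 4) (nat_lit 5) (nat_lit 4) (nat_lit 4) (nat_lit 351) (nat_lit 279) (nat_lit 150)) (XT.lf (nat_lit 0) (nat_lit 946284096204) (nat_lit 76) (nat_lit 309736633252) (nat_lit 76) (nat_lit 241918949381) (nat_lit 3) (nat_lit 4) (nat_lit 4) (nat_lit 5) (nat_lit 4) (nat_lit 4) (nat_lit 352) (nat_lit 279) (nat_lit 149)))) (XT.nd (nat_lit 156) (nat_lit 0) (nat_lit 0) (XT.nd (nat_lit 78) (nat_lit 0) (nat_lit 0) (XT.lf (nat_lit 0) (nat_lit 1076177402016) (nat_lit 76) (nat_lit 303547445518) (nat_lit 76) (nat_lit 235729534691) (nat_lit 3) (nat_lit 4) (nat_lit 4) (nat_lit 5) (nat_lit 4) (nat_lit 4) (nat_lit 353) (nat_lit 279) (nat_lit 148)) (XT.lf (nat_lit 0) (nat_lit 1216461823069) (nat_lit 76) (nat_lit 296863287370) (nat_lit 76) (nat_lit 229045166399) (nat_lit 3) (nat_lit 4) (nat_lit 4) (nat_lit 5) (nat_lit 4) (nat_lit 4) (nat_lit 354) (nat_lit 279) (nat_lit 147))) (XT.nd (nat_lit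 78) (nat_lit 0) (nat_lit 0) (XT.lf (nat_lit 0) (nat_lit 1367968674452) (nat_lit 76) (nat_lit 289644548982) (nat_lit 76) (nat_lit 221826233434) (nat_lit 3) (nat_lit 4) (nat_lit 4) (nat_lit 5) (nat_lit 4) (nat_lit 4) (nat_lit 355) (nat_lit 279) (nat_lit 146)) (XT.lf (nat_lit 0) (nat_lit 1531595774542) (nat_lit 76) (nat_lit 281848452645) (nat_lit 76) (nat_lit 214029956932) (nat_lit 3) (nat_lit 4) (nat_lit 4) (nat_lit 5) (nat_lit 4) (nat_lit 4) (nat_lit 356) (nat_lit 279) (nat_lit 145))))))))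
noncomputable def xc82 : XT := (XT.nd (nat_lit 36426) (nat_lit 0) (nat_lit 228) (XT.nd (nat_lit 35334) (nat_lit 0) (nat_lit 1292) (XT.nd (nat_lit 34788) (nat_lit 0) (nat_lit 2584) (XT.nd (nat_lit 234) (nat_lit 0) (nat_lit 0) (XT.nd (nat_lit 78) (nat_lit 0) (nat_lit 0) (XT.lf (nat_lit 0) (nat_lit 1708312765415) (nat_lit 76) (nat_lit 273428799270) (nat_lit 76) (nat_lit 205610136738) (nat_lit 3) (nat_lit 4) (nat_lit 4) (nat_lit 5) (nat_lit 4) (nat_lit 4) (nat_lit 357) (nat_lit 279) (nat_lit 144)) (XT.nd (nat_lit 78) (nat_lit 0) (nat_lit 0) (XT.lf (nat_lit 0) (nat_lit 1899166858867) (nat_lit 76) (nat_lit 264335694614) (nat_lit 76) (nat_lit 196516877620) (nat_lit 3) (nat_lit 4) (nat_lit 4) (nat_lit 5) (nat_lit 4) (nat_lit 4) (nat_lit 358) (nat_lit 279) (nat_lit 143)) (XT.lf (nat_lit 0) (nat_lit 2105289042120) (nat_lit 76) (nat_lit 254515253613) (nat_lit 76) (nat_lit 186696293599) (nat_lit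 3) (nat_lit 4) (nat_lit 4) (nat_lit 5) (nat_lit 4) (nat_lit 4) (nat_lit 359) (nat_lit 279) (nat_lit 142)))) (XT.nd (nat_lit 34398) (nat_lit 0) (nat_lit 2812) (XT.nd (nat_lit 78) (nat_lit 0) (nat_lit 0) (XT.lf (nat_lit 0) (nat_lit 2327900779963) (nat_lit 76) (nat_lit 243909281061) (nat_lit 76) (nat_lit 176090188620) (nat_lit 3) (nat_lit 4) (nat_lit 4) (nat_lit 5) (nat_lit 4) (nat_lit 4) (nat_lit 360) (nat_lit 279) (nat_lit 141)) (XT.lf (nat_lit 0) (nat_lit 2568321253065) (nat_lit 76) (nat_lit 232454926750) (nat_lit 76) (nat_lit 164635711692) (nat_lit 3) (nat_lit 4) (nat_lit 4) (nat_lit 5) (nat_lit 4) (nat_lit 4) (nat_lit 361) (nat_lit 279) (nat_lit 140))) (XT.nd (nat_lit 78) (nat_lit 0) (nat_lit 0) (XT.lf (nat_lit 0) (nat_lit 3899324313) (nat_lit 532) (nat_lit 2851740479) (nat_lit 532) (nat_lit 2851740479) (nat_lit 40) (nat_lit 3) (nat_lit 47) (nat_lit 3) (nat_lit 47) (nat_lit 5) (nat_lit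 280) (nat_lit 280) (nat_lit 220)) (XT.lf (nat_lit 76) (nat_lit 2907150067) (nat_lit 0) (nat_lit 5435291606) (nat_lit 532) (nat_lit 11612154824) (nat_lit 41) (nat_lit 5) (nat_lit 40) (nat_lit 3) (nat_lit 47) (nat_lit 5) (nat_lit 281) (nat_lit 280) (nat_lit 219))))) (XT.nd (nat_lit 234) (nat_lit 304) (nat_lit 0) (XT.nd (nat_lit 78) (nat_lit 0) (nat_lit 0) (XT.lf (nat_lit 0) (nat_lit 9152290755) (nat_lit 456) (nat_lit 8313693168) (nat_lit 532) (nat_lit 3279782299) (nat_lit 41) (nat_lit 5) (nat_lit 47) (nat_lit 5) (nat_lit 48) (nat_lit 5) (nat_lit 282) (nat_lit 280) (nat_lit 218)) (XT.nd (nat_lit 78) (nat_lit 0) (nat_lit 76) (XT.lf (nat_lit 76) (nat_lit 1018534175) (nat_lit 0) (nat_lit 9159018979) (nat_lit 532) (nat_lit 11410690323) (nat_lit 42) (nat_lit 5) (nat_lit 41) (nat_lit 5) (nat_lit 48) (nat_lit 5) (nat_lit 283) (nat_lit 280) (nat_lit 217)) (XT.lf (nat_lit 0) (nat_lit 11499482164)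 (nat_lit 456) (nat_lit 10922228742) (nat_lit 532) (nat_lit 59295604) (nat_lit 42) (nat_lit 5) (nat_lit 48) (nat_lit 5) (nat_lit 49) (nat_lit 5) (nat_lit 284) (nat_lit 280) (nat_lit 216)))) (XT.nd (nat_lit 156) (nat_lit 380) (nat_lit 0) (XT.nd (nat_lit 78) (nat_lit 0) (nat_lit 0) (XT.lf (nat_lit 0) (nat_lit 13152043231) (nat_lit 456) (nat_lit 751074701) (nat_lit 532) (nat_lit 9524137290) (nat_lit 42) (nat_lit 5) (nat_lit 48) (nat_lit 5) (nat_lit 49) (nat_lit 5) (nat_lit 285) (nat_lit 280) (nat_lit 215)) (XT.lf (nat_lit 76) (nat_lit 10762694518) (nat_lit 0) (nat_lit 4420903227) (nat_lit 532) (nat_lit 9245913794) (nat_lit 43) (nat_lit 5) (nat_lit 42) (nat_lit 5) (nat_lit 49) (nat_lit 5) (nat_lit 286) (nat_lit 280) (nat_lit 214))) (XT.nd (nat_lit 78) (nat_lit 456) (nat_lit 0) (XT.lf (nat_lit 0) (nat_lit 17527382384) (nat_lit 456) (nat_lit 2420768237) (nat_lit 76) (nat_lit 5551868310) (nat_lit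 43) (nat_lit 5) (nat_lit 49) (nat_lit 5) (nat_lit 44) (nat_lit 5) (nat_lit 287) (nat_lit 280) (nat_lit 213)) (XT.lf (nat_lit 0) (nat_lit 10106207331) (nat_lit 456) (nat_lit 10299853232) (nat_lit 532) (nat_lit 6222358636) (nat_lit 37) (nat_lit 5) (nat_lit 43) (nat_lit 5) (nat_lit 44) (nat_lit 5) (nat_lit 288) (nat_lit 280) (nat_lit 212)))))) (XT.nd (nat_lit 546) (nat_lit 532) (nat_lit 0) (XT.nd (nat_lit 234) (nat_lit 456) (nat_lit 0) (XT.nd (nat_lit 78) (nat_lit 304) (nat_lit 0) (XT.lf (nat_lit 0) (nat_lit 23575912936) (nat_lit 532) (nat_lit 4083490728) (nat_lit 76) (nat_lit 182857751) (nat_lit 37) (nat_lit 5) (nat_lit 44) (nat_lit 5) (nat_lit 38) (nat_lit 5) (nat_lit 289) (nat_lit 280) (nat_lit 211)) (XT.nd (nat_lit 78) (nat_lit 76) (nat_lit 0) (XT.lf (nat_lit 0) (nat_lit 9551245227) (nat_lit 228) (nat_lit 17936158738) (nat_lit 304) (nat_lit 1626800340) (nat_lit 34) (nat_lit 5) (nat_lit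 37) (nat_lit 5) (nat_lit 38) (nat_lit 5) (nat_lit 290) (nat_lit 280) (nat_lit 210)) (XT.lf (nat_lit 0) (nat_lit 1268252535) (nat_lit 304) (nat_lit 6011928608) (nat_lit 76) (nat_lit 23196953412) (nat_lit 33) (nat_lit 5) (nat_lit 37) (nat_lit 5) (nat_lit 34) (nat_lit 5) (nat_lit 291) (nat_lit 280) (nat_lit 209)))) (XT.nd (nat_lit 156) (nat_lit 228) (nat_lit 0) (XT.nd (nat_lit 78) (nat_lit 0) (nat_lit 0) (XT.lf (nat_lit 0) (nat_lit 4624125321) (nat_lit 304) (nat_lit 23014048160) (nat_lit 76) (nat_lit 4282206603) (nat_lit 30) (nat_lit 5) (nat_lit 34) (nat_lit 5) (nat_lit 31) (nat_lit 5) (nat_lit 292) (nat_lit 280) (nat_lit 208)) (XT.lf (nat_lit 0) (nat_lit 8598280441) (nat_lit 304) (nat_lit 8308662231) (nat_lit 76) (nat_lit 16544185025) (nat_lit 30) (nat_lit 5) (nat_lit 34) (nat_lit 5) (nat_lit 31) (nat_lit 5) (nat_lit 293) (nat_lit 280) (nat_lit 207))) (XT.nd (nat_lit 78) (nat_lit 0)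 (nat_lit 0) (XT.lf (nat_lit 0) (nat_lit 7962860408) (nat_lit 228) (nat_lit 5111672498) (nat_lit 304) (nat_lit 22015094428) (nat_lit 27) (nat_lit 5) (nat_lit 30) (nat_lit 5) (nat_lit 31) (nat_lit 5) (nat_lit 294) (nat_lit 280) (nat_lit 206)) (XT.lf (nat_lit 0) (nat_lit 18318360172) (nat_lit 304) (nat_lit 11030702535) (nat_lit 76) (nat_lit 7477409793) (nat_lit 27) (nat_lit 5) (nat_lit 31) (nat_lit 5) (nat_lit 28) (nat_lit 5) (nat_lit 295) (nat_lit 280) (nat_lit 205))))) (XT.nd (nat_lit 234) (nat_lit 228) (nat_lit 0) (XT.nd (nat_lit 78) (nat_lit 152) (nat_lit 0) (XT.lf (nat_lit 0) (nat_lit 6539091951) (nat_lit 152) (nat_lit 17726124399) (nat_lit 228) (nat_lit 14414388895) (nat_lit 25) (nat_lit 5) (nat_lit 27) (nat_lit 5) (nat_lit 28) (nat_lit 5) (nat_lit 296) (nat_lit 280) (nat_lit 204)) (XT.nd (nat_lit 78) (nat_lit 152) (nat_lit 0) (XT.lf (nat_lit 0) (nat_lit 26133709651) (nat_lit 152)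 (nat_lit 4849485020) (nat_lit 228) (nat_lit 9674184218) (nat_lit 25) (nat_lit 5) (nat_lit 27) (nat_lit 5) (nat_lit 28) (nat_lit 5) (nat_lit 297) (nat_lit 280) (nat_lit 203)) (XT.lf (nat_lit 0) (nat_lit 4501975905) (nat_lit 152) (nat_lit 34056930304) (nat_lit 228) (nat_lit 4208863295) (nat_lit 23) (nat_lit 5) (nat_lit 25) (nat_lit 5) (nat_lit 26) (nat_lit 5) (nat_lit 298) (nat_lit 280) (nat_lit 202)))) (XT.nd (nat_lit 156) (nat_lit 0) (nat_lit 0) (XT.nd (nat_lit 78) (nat_lit 152) (nat_lit 0) (XT.lf (nat_lit 0) (nat_lit 2136614037) (nat_lit 228) (nat_lit 19324626932) (nat_lit 76) (nat_lit 23540295312) (nat_lit 22) (nat_lit 5) (nat_lit 25) (nat_lit 5) (nat_lit 23) (nat_lit 5) (nat_lit 299) (nat_lit 280) (nat_lit 201)) (XT.lf (nat_lit 0) (nat_lit 1068516956) (nat_lit 152) (nat_lit 7714224159) (nat_lit 228) (nat_lit 38620900460) (nat_lit 20) (nat_lit 5) (nat_lit 22) (nat_lit 5) (nat_lit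 23) (nat_lit 5) (nat_lit 300) (nat_lit 280) (nat_lit 200))) (XT.nd (nat_lit 78) (nat_lit 0) (nat_lit 0) (XT.lf (nat_lit 0) (nat_lit 16669057070) (nat_lit 228) (nat_lit 25956412504) (nat_lit 76) (nat_lit 7315779550) (nat_lit 20) (nat_lit 5) (nat_lit 23) (nat_lit 5) (nat_lit 21) (nat_lit 5) (nat_lit 301) (nat_lit 280) (nat_lit 199)) (XT.lf (nat_lit 0) (nat_lit 25381895152) (nat_lit 228) (nat_lit 4154833810) (nat_lit 76) (nat_lit 23129499678) (nat_lit 20) (nat_lit 5) (nat_lit 23) (nat_lit 5) (nat_lit 21) (nat_lit 5) (nat_lit 302) (nat_lit 280) (nat_lit 198))))))) (XT.nd (nat_lit 1092) (nat_lit 304) (nat_lit 0) (XT.nd (nat_lit 546) (nat_lit 304) (nat_lit 0) (XT.nd (nat_lit 234) (nat_lit 228) (nat_lit 0) (XT.nd (nat_lit 78) (nat_lit 76) (nat_lit 0) (XT.lf (nat_lit 0) (nat_lit 20405077917) (nat_lit 152) (nat_lit 14873024416) (nat_lit 228) (nat_lit 20292208589) (nat_lit 18) (nat_lit 5) (nat_lit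 20) (nat_lit 5) (nat_lit 21) (nat_lit 5) (nat_lit 303) (nat_lit 280) (nat_lit 197)) (XT.nd (nat_lit 78) (nat_lit 76) (nat_lit 0) (XT.lf (nat_lit 0) (nat_lit 46101456692) (nat_lit 228) (nat_lit 11564359526) (nat_lit 76) (nat_lit 1030078417) (nat_lit 18) (nat_lit 5) (nat_lit 21) (nat_lit 5) (nat_lit 19) (nat_lit 4) (nat_lit 304) (nat_lit 280) (nat_lit 196)) (XT.lf (nat_lit 0) (nat_lit 14244671819) (nat_lit 76) (nat_lit 44270942171) (nat_lit 152) (nat_lit 3497926380) (nat_lit 17) (nat_lit 5) (nat_lit 18) (nat_lit 5) (nat_lit 19) (nat_lit 4) (nat_lit 305) (nat_lit 280) (nat_lit 195)))) (XT.nd (nat_lit 156) (nat_lit 0) (nat_lit 0) (XT.nd (nat_lit 78) (nat_lit 152) (nat_lit 0) (XT.lf (nat_lit 0) (nat_lit 6330319847) (nat_lit 152) (nat_lit 22961796724) (nat_lit 76) (nat_lit 36266679522) (nat_lit 16) (nat_lit 5) (nat_lit 18) (nat_lit 5) (nat_lit 17) (nat_lit 5) (nat_lit 306) (nat_lit 280)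 (nat_lit 194)) (XT.lf (nat_lit 0) (nat_lit 3929797145) (nat_lit 152) (nat_lit 12916930333) (nat_lit 228) (nat_lit 52526413940) (nat_lit 14) (nat_lit 5) (nat_lit 16) (nat_lit 5) (nat_lit 17) (nat_lit 5) (nat_lit 307) (nat_lit 280) (nat_lit 193))) (XT.nd (nat_lit 78) (nat_lit 0) (nat_lit 0) (XT.lf (nat_lit 0) (nat_lit 28959699190) (nat_lit 228) (nat_lit 39300679468) (nat_lit 76) (nat_lit 5171843012) (nat_lit 14) (nat_lit 5) (nat_lit 17) (nat_lit 5) (nat_lit 15) (nat_lit 4) (nat_lit 308) (nat_lit 280) (nat_lit 192)) (XT.lf (nat_lit 0) (nat_lit 42373927501) (nat_lit 228) (nat_lit 11407534588) (nat_lit 76) (nat_lit 24007995609) (nat_lit 14) (nat_lit 5) (nat_lit 17) (nat_lit 5) (nat_lit 15) (nat_lit 4) (nat_lit 309) (nat_lit 280) (nat_lit 191))))) (XT.nd (nat_lit 234) (nat_lit 228) (nat_lit 0) (XT.nd (nat_lit 78) (nat_lit 0) (nat_lit 0) (XT.lf (nat_lit 0) (nat_lit 19697378190) (nat_lit 76)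 (nat_lit 37634595878) (nat_lit 152) (nat_lit 25125650501) (nat_lit 13) (nat_lit 5) (nat_lit 14) (nat_lit 5) (nat_lit 15) (nat_lit 4) (nat_lit 310) (nat_lit 280) (nat_lit 190)) (XT.nd (nat_lit 78) (nat_lit 0) (nat_lit 0) (XT.lf (nat_lit 0) (nat_lit 53934541519) (nat_lit 76) (nat_lit 19861090169) (nat_lit 152) (nat_lit 13678901604) (nat_lit 13) (nat_lit 5) (nat_lit 14) (nat_lit 5) (nat_lit 15) (nat_lit 4) (nat_lit 311) (nat_lit 280) (nat_lit 189)) (XT.lf (nat_lit 0) (nat_lit 90906141735) (nat_lit 76) (nat_lit 667522695) (nat_lit 152) (nat_lit 1319353132) (nat_lit 13) (nat_lit 5) (nat_lit 14) (nat_lit 5) (nat_lit 15) (nat_lit 4) (nat_lit 312) (nat_lit 280) (nat_lit 188)))) (XT.nd (nat_lit 156) (nat_lit 76) (nat_lit 0) (XT.nd (nat_lit 78) (nat_lit 0) (nat_lit 0) (XT.lf (nat_lit 0) (nat_lit 12740480152) (nat_lit 152) (nat_lit 65697293218) (nat_lit 76) (nat_lit 20179007483) (nat_lit 11)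 (nat_lit 5) (nat_lit 13) (nat_lit 5) (nat_lit 12) (nat_lit 4) (nat_lit 313) (nat_lit 280) (nat_lit 187)) (XT.lf (nat_lit 0) (nat_lit 27924356513) (nat_lit 152) (nat_lit 34120155324) (nat_lit 76) (nat_lit 42745553322) (nat_lit 11) (nat_lit 5) (nat_lit 13) (nat_lit 5) (nat_lit 12) (nat_lit 4) (nat_lit 314) (nat_lit 280) (nat_lit 186))) (XT.nd (nat_lit 78) (nat_lit 76) (nat_lit 0) (XT.lf (nat_lit 0) (nat_lit 44320592764) (nat_lit 152) (nat_lit 20914421) (nat_lit 76) (nat_lit 67115897051) (nat_lit 11) (nat_lit 5) (nat_lit 13) (nat_lit 5) (nat_lit 12) (nat_lit 4) (nat_lit 315) (nat_lit 280) (nat_lit 185)) (XT.lf (nat_lit 0) (nat_lit 38740453447) (nat_lit 76) (nat_lit 24217607175) (nat_lit 152) (nat_lit 55625710910) (nat_lit 10) (nat_lit 5) (nat_lit 11) (nat_lit 5) (nat_lit 12) (nat_lit 4) (nat_lit 316) (nat_lit 280) (nat_lit 184)))))) (XT.nd (nat_lit 546) (nat_lit 76) (nat_lit 0) (XT.nd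 (nat_lit 234) (nat_lit 152) (nat_lit 0) (XT.nd (nat_lit 78) (nat_lit 76) (nat_lit 0) (XT.lf (nat_lit 0) (nat_lit 80600248840) (nat_lit 76) (nat_lit 2484745676) (nat_lit 152) (nat_lit 43195379642) (nat_lit 10) (nat_lit 5) (nat_lit 11) (nat_lit 5) (nat_lit 12) (nat_lit 4) (nat_lit 317) (nat_lit 280) (nat_lit 183)) (XT.nd (nat_lit 78) (nat_lit 76) (nat_lit 0) (XT.lf (nat_lit 0) (nat_lit 105324832484) (nat_lit 152) (nat_lit 9292132282) (nat_lit 0) (nat_lit 19935523462) (nat_lit 10) (nat_lit 5) (nat_lit 12) (nat_lit 4) (nat_lit 10) (nat_lit 4) (nat_lit 318) (nat_lit 280) (nat_lit 182)) (XT.lf (nat_lit 0) (nat_lit 31515638802) (nat_lit 76) (nat_lit 98648873892) (nat_lit 76) (nat_lit 13256209256) (nat_lit 9) (nat_lit 4) (nat_lit 10) (nat_lit 5) (nat_lit 10) (nat_lit 4) (nat_lit 319) (nat_lit 280) (nat_lit 181)))) (XT.nd (nat_lit 156) (nat_lit 76) (nat_lit 0) (XT.nd (nat_lit 78) (nat_lit 0)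 (nat_lit 0) (XT.lf (nat_lit 0) (nat_lit 4052046938) (nat_lit 152) (nat_lit 76967514053) (nat_lit 76) (nat_lit 71950466442) (nat_lit 8) (nat_lit 5) (nat_lit 10) (nat_lit 5) (nat_lit 9) (nat_lit 4) (nat_lit 320) (nat_lit 280) (nat_lit 180)) (XT.lf (nat_lit 0) (nat_lit 22027094432) (nat_lit 152) (nat_lit 39582292164) (nat_lit 76) (nat_lit 101646482894) (nat_lit 8) (nat_lit 5) (nat_lit 10) (nat_lit 5) (nat_lit 9) (nat_lit 4) (nat_lit 321) (nat_lit 280) (nat_lit 179))) (XT.nd (nat_lit 78) (nat_lit 0) (nat_lit 0) (XT.lf (nat_lit 0) (nat_lit 832586051) (nat_lit 76) (nat_lit 40626018963) (nat_lit 152) (nat_lit 132904499319) (nat_lit 7) (nat_lit 5) (nat_lit 8) (nat_lit 5) (nat_lit 9) (nat_lit 4) (nat_lit 322) (nat_lit 280) (nat_lit 178)) (XT.lf (nat_lit 0) (nat_lit 46728994962) (nat_lit 76) (nat_lit 16796377065) (nat_lit 152) (nat_lit 122747089094) (nat_lit 7) (nat_lit 5) (nat_lit 8) (nat_lit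 5) (nat_lit 9) (nat_lit 4) (nat_lit 323) (nat_lit 280) (nat_lit 177))))) (XT.nd (nat_lit 234) (nat_lit 76) (nat_lit 0) (XT.nd (nat_lit 78) (nat_lit 0) (nat_lit 0) (XT.lf (nat_lit 0) (nat_lit 87571049335) (nat_lit 152) (nat_lit 103055071745) (nat_lit 0) (nat_lit 8491361714) (nat_lit 7) (nat_lit 5) (nat_lit 9) (nat_lit 4) (nat_lit 7) (nat_lit 4) (nat_lit 324) (nat_lit 280) (nat_lit 176)) (XT.nd (nat_lit 78) (nat_lit 0) (nat_lit 0) (XT.lf (nat_lit 0) (nat_lit 113975326720) (nat_lit 152) (nat_lit 64086304396) (nat_lit 0) (nat_lit 34893681130) (nat_lit 7) (nat_lit 5) (nat_lit 9) (nat_lit 4) (nat_lit 7) (nat_lit 4) (nat_lit 325) (nat_lit 280) (nat_lit 175)) (XT.lf (nat_lit 0) (nat_lit 142490720703) (nat_lit 152) (nat_lit 22002284813) (nat_lit 0) (nat_lit 63407262179) (nat_lit 7) (nat_lit 5) (nat_lit 9) (nat_lit 4) (nat_lit 7) (nat_lit 4) (nat_lit 326) (nat_lit 280) (nat_lit 174)))) (XT.nd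 (nat_lit 156) (nat_lit 0) (nat_lit 0) (XT.nd (nat_lit 78) (nat_lit 0) (nat_lit 0) (XT.lf (nat_lit 0) (nat_lit 24681018279) (nat_lit 76) (nat_lit 149198772199) (nat_lit 76) (nat_lit 70113635033) (nat_lit 6) (nat_lit 4) (nat_lit 7) (nat_lit 5) (nat_lit 7) (nat_lit 4) (nat_lit 327) (nat_lit 280) (nat_lit 173)) (XT.lf (nat_lit 0) (nat_lit 76348245227) (nat_lit 76) (nat_lit 132032222501) (nat_lit 76) (nat_lit 52945531036) (nat_lit 6) (nat_lit 4) (nat_lit 7) (nat_lit 5) (nat_lit 7) (nat_lit 4) (nat_lit 328) (nat_lit 280) (nat_lit 172))) (XT.nd (nat_lit 78) (nat_lit 0) (nat_lit 0) (XT.lf (nat_lit 0) (nat_lit 132146970862) (nat_lit 76) (nat_lit 113493210180) (nat_lit 76) (nat_lit 34405079550) (nat_lit 6) (nat_lit 4) (nat_lit 7) (nat_lit 5) (nat_lit 7) (nat_lit 4) (nat_lit 329) (nat_lit 280) (nat_lit 171)) (XT.lf (nat_lit 0) (nat_lit 192407854298) (nat_lit 76) (nat_lit 93471874422) (nat_lit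 76) (nat_lit 14382411231) (nat_lit 6) (nat_lit 4) (nat_lit 7) (nat_lit 5) (nat_lit 7) (nat_lit 4) (nat_lit 330) (nat_lit 280) (nat_lit 170))))))))
noncomputable def xc83 : XT := (XT.nd (nat_lit 2184) (nat_lit 0) (nat_lit 0) (XT.nd (nat_lit 1092) (nat_lit 0) (nat_lit 0) (XT.nd (nat_lit 546) (nat_lit 76) (nat_lit 0) (XT.nd (nat_lit 234) (nat_lit 0) (nat_lit 0) (XT.nd (nat_lit 78) (nat_lit 76) (nat_lit 0) (XT.lf (nat_lit 0) (nat_lit 6878896282) (nat_lit 152) (nat_lit 64782592776) (nat_lit 76) (nat_lit 250421019570) (nat_lit 5) (nat_lit 5) (nat_lit 7) (nat_lit 5) (nat_lit 6) (nat_lit 4) (nat_lit 331) (nat_lit 280) (nat_lit 169)) (XT.nd (nat_lit 78) (nat_lit 76) (nat_lit 0) (XT.lf (nat_lit 0) (nat_lit 29063254461) (nat_lit 152) (nat_lit 18640270218) (nat_lit 76) (nat_lit 297915163932) (nat_lit 5) (nat_lit 5) (nat_lit 7) (nat_lit 5) (nat_lit 6) (nat_lit 4) (nat_lit 332) (nat_lit 280) (nat_lit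 168)) (XT.lf (nat_lit 0) (nat_lit 32834531592) (nat_lit 76) (nat_lit 20976732312) (nat_lit 152) (nat_lit 317163387741) (nat_lit 4) (nat_lit 5) (nat_lit 5) (nat_lit 5) (nat_lit 6) (nat_lit 4) (nat_lit 333) (nat_lit 280) (nat_lit 167)))) (XT.nd (nat_lit 156) (nat_lit 0) (nat_lit 0) (XT.nd (nat_lit 78) (nat_lit 0) (nat_lit 0) (XT.lf (nat_lit 0) (nat_lit 81250960964) (nat_lit 152) (nat_lit 309035293952) (nat_lit 0) (nat_lit 8015889852) (nat_lit 4) (nat_lit 5) (nat_lit 6) (nat_lit 4) (nat_lit 4) (nat_lit 4) (nat_lit 334) (nat_lit 280) (nat_lit 166)) (XT.lf (nat_lit 0) (nat_lit 111429979800) (nat_lit 152) (nat_lit 278148257648) (nat_lit 0) (nat_lit 38194068949) (nat_lit 4) (nat_lit 5) (nat_lit 6) (nat_lit 4) (nat_lit 4) (nat_lit 4) (nat_lit 335) (nat_lit 280) (nat_lit 165))) (XT.nd (nat_lit 78) (nat_lit 0) (nat_lit 0) (XT.lf (nat_lit 0) (nat_lit 144022668126) (nat_lit 152) (nat_lit 244791485935)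 (nat_lit 0) (nat_lit 70785979738) (nat_lit 4) (nat_lit 5) (nat_lit 6) (nat_lit 4) (nat_lit 4) (nat_lit 4) (nat_lit 336) (nat_lit 280) (nat_lit 164)) (XT.lf (nat_lit 0) (nat_lit 179222167798) (nat_lit 152) (nat_lit 208767309056) (nat_lit 0) (nat_lit 105984759470) (nat_lit 4) (nat_lit 5) (nat_lit 6) (nat_lit 4) (nat_lit 4) (nat_lit 4) (nat_lit 337) (nat_lit 280) (nat_lit 163))))) (XT.nd (nat_lit 234) (nat_lit 76) (nat_lit 0) (XT.nd (nat_lit 78) (nat_lit 0) (nat_lit 0) (XT.lf (nat_lit 0) (nat_lit 217237068445) (nat_lit 152) (nat_lit 169862250407) (nat_lit 0) (nat_lit 143998993504) (nat_lit 4) (nat_lit 5) (nat_lit 6) (nat_lit 4) (nat_lit 4) (nat_lit 4) (nat_lit 338) (nat_lit 280) (nat_lit 162)) (XT.nd (nat_lit 78) (nat_lit 0) (nat_lit 0) (XT.lf (nat_lit 0) (nat_lit 258292643551) (nat_lit 152) (nat_lit 127845761491) (nat_lit 0) (nat_lit 185053951377) (nat_lit 4) (nat_lit 5) (nat_lit 6)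 (nat_lit 4) (nat_lit 4) (nat_lit 4) (nat_lit 339) (nat_lit 280) (nat_lit 161)) (XT.lf (nat_lit 0) (nat_lit 302632185414) (nat_lit 152) (nat_lit 82468855708) (nat_lit 0) (nat_lit 229392921728) (nat_lit 4) (nat_lit 5) (nat_lit 6) (nat_lit 4) (nat_lit 4) (nat_lit 4) (nat_lit 340) (nat_lit 280) (nat_lit 160)))) (XT.nd (nat_lit 156) (nat_lit 0) (nat_lit 0) (XT.nd (nat_lit 78) (nat_lit 76) (nat_lit 0) (XT.lf (nat_lit 0) (nat_lit 350518446874) (nat_lit 152) (nat_lit 33462632876) (nat_lit 0) (nat_lit 277278654009) (nat_lit 4) (nat_lit 5) (nat_lit 6) (nat_lit 4) (nat_lit 4) (nat_lit 4) (nat_lit 341) (nat_lit 280) (nat_lit 159)) (XT.lf (nat_lit 0) (nat_lit 20488217888) (nat_lit 76) (nat_lit 382239722613) (nat_lit 76) (nat_lit 308999439769) (nat_lit 3) (nat_lit 4) (nat_lit 4) (nat_lit 5) (nat_lit 4) (nat_lit 4) (nat_lit 342) (nat_lit 280) (nat_lit 158))) (XT.nd (nat_lit 78) (nat_lit 0) (nat_lit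 0) (XT.lf (nat_lit 0) (nat_lit 80657432349) (nat_lit 76) (nat_lit 379371290377) (nat_lit 76) (nat_lit 306130553848) (nat_lit 3) (nat_lit 4) (nat_lit 4) (nat_lit 5) (nat_lit 4) (nat_lit 4) (nat_lit 343) (nat_lit 280) (nat_lit 157)) (XT.lf (nat_lit 0) (nat_lit 145639485867) (nat_lit 76) (nat_lit 376273712607) (nat_lit 76) (nat_lit 303032556000) (nat_lit 3) (nat_lit 4) (nat_lit 4) (nat_lit 5) (nat_lit 4) (nat_lit 4) (nat_lit 344) (nat_lit 280) (nat_lit 156)))))) (XT.nd (nat_lit 546) (nat_lit 0) (nat_lit 0) (XT.nd (nat_lit 234) (nat_lit 0) (nat_lit 0) (XT.nd (nat_lit 78) (nat_lit 0) (nat_lit 0) (XT.lf (nat_lit 0) (nat_lit 215819457278) (nat_lit 76) (nat_lit 372928633288) (nat_lit 76) (nat_lit 299687087719) (nat_lit 3) (nat_lit 4) (nat_lit 4) (nat_lit 5) (nat_lit 4) (nat_lit 4) (nat_lit 345) (nat_lit 280) (nat_lit 155)) (XT.nd (nat_lit 78) (nat_lit 0) (nat_lit 0) (XT.lf (nat_lit 0) (nat_lit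 291613227893) (nat_lit 76) (nat_lit 369316229727) (nat_lit 76) (nat_lit 296074324008) (nat_lit 3) (nat_lit 4) (nat_lit 4) (nat_lit 5) (nat_lit 4) (nat_lit 4) (nat_lit 346) (nat_lit 280) (nat_lit 154)) (XT.lf (nat_lit 0) (nat_lit 373469945984) (nat_lit 76) (nat_lit 365415095088) (nat_lit 76) (nat_lit 292172855897) (nat_lit 3) (nat_lit 4) (nat_lit 4) (nat_lit 5) (nat_lit 4) (nat_lit 4) (nat_lit 347) (nat_lit 280) (nat_lit 153)))) (XT.nd (nat_lit 156) (nat_lit 0) (nat_lit 0) (XT.nd (nat_lit 78) (nat_lit 0) (nat_lit 0) (XT.lf (nat_lit 0) (nat_lit 461874688399) (nat_lit 76) (nat_lit 361202111537) (nat_lit 76) (nat_lit 287959563575) (nat_lit 3) (nat_lit 4) (nat_lit 4) (nat_lit 5) (nat_lit 4) (nat_lit 4) (nat_lit 348) (nat_lit 280) (nat_lit 152)) (XT.lf (nat_lit 0) (nat_lit 557351335091) (nat_lit 76) (nat_lit 356652313245) (nat_lit 76) (nat_lit 283409479384) (nat_lit 3) (nat_lit 4) (nat_lit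 4) (nat_lit 5) (nat_lit 4) (nat_lit 4) (nat_lit 349) (nat_lit 280) (nat_lit 151))) (XT.nd (nat_lit 78) (nat_lit 0) (nat_lit 0) (XT.lf (nat_lit 0) (nat_lit 660465673598) (nat_lit 76) (nat_lit 351738738443) (nat_lit 76) (nat_lit 278495639862) (nat_lit 3) (nat_lit 4) (nat_lit 4) (nat_lit 5) (nat_lit 4) (nat_lit 4) (nat_lit 350) (nat_lit 280) (nat_lit 150)) (XT.lf (nat_lit 0) (nat_lit 771828751851) (nat_lit 76) (nat_lit 346432269653) (nat_lit 76) (nat_lit 273188925960) (nat_lit 3) (nat_lit 4) (nat_lit 4) (nat_lit 5) (nat_lit 4) (nat_lit 4) (nat_lit 351) (nat_lit 280) (nat_lit 149))))) (XT.nd (nat_lit 234) (nat_lit 0) (nat_lit 0) (XT.nd (nat_lit 78) (nat_lit 0) (nat_lit 0) (XT.lf (nat_lit 0) (nat_lit 892100499202) (nat_lit 76) (nat_lit 340701461133) (nat_lit 76) (nat_lit 267457890484) (nat_lit 3) (nat_lit 4) (nat_lit 4) (nat_lit 5) (nat_lit 4) (nat_lit 4) (nat_lit 352) (nat_lit 280) (nat_lit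 148)) (XT.nd (nat_lit 78) (nat_lit 0) (nat_lit 0) (XT.lf (nat_lit 0) (nat_lit 1021993637118) (nat_lit 76) (nat_lit 334512352536) (nat_lit 76) (nat_lit 261268571743) (nat_lit 3) (nat_lit 4) (nat_lit 4) (nat_lit 5) (nat_lit 4) (nat_lit 4) (nat_lit 353) (nat_lit 280) (nat_lit 147)) (XT.lf (nat_lit 0) (nat_lit 1162277902713) (nat_lit 76) (nat_lit 327828267663) (nat_lit 76) (nat_lit 254584292293) (nat_lit 3) (nat_lit 4) (nat_lit 4) (nat_lit 5) (nat_lit 4) (nat_lit 4) (nat_lit 354) (nat_lit 280) (nat_lit 146)))) (XT.nd (nat_lit 156) (nat_lit 0) (nat_lit 0) (XT.nd (nat_lit 78) (nat_lit 0) (nat_lit 0) (XT.lf (nat_lit 0) (nat_lit 1313784610152) (nat_lit 76) (nat_lit 320609597122) (nat_lit 76) (nat_lit 247365441587) (nat_lit 3) (nat_lit 4) (nat_lit 4) (nat_lit 5) (nat_lit 4) (nat_lit 4) (nat_lit 355) (nat_lit 280) (nat_lit 145)) (XT.lf (nat_lit 0) (nat_lit 1477411576960) (nat_lit 76) (nat_lit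 312813563606) (nat_lit 76) (nat_lit 239569241253) (nat_lit 3) (nat_lit 4) (nat_lit 4) (nat_lit 5) (nat_lit 4) (nat_lit 4) (nat_lit 356) (nat_lit 280) (nat_lit 144))) (XT.nd (nat_lit 78) (nat_lit 0) (nat_lit 0) (XT.lf (nat_lit 0) (nat_lit 1654128444424) (nat_lit 76) (nat_lit 304393968399) (nat_lit 76) (nat_lit 231149491584) (nat_lit 3) (nat_lit 4) (nat_lit 4) (nat_lit 5) (nat_lit 4) (nat_lit 4) (nat_lit 357) (nat_lit 280) (nat_lit 143)) (XT.lf (nat_lit 0) (nat_lit 1844982423610) (nat_lit 76) (nat_lit 295300917603) (nat_lit 76) (nat_lit 222056297767) (nat_lit 3) (nat_lit 4) (nat_lit 4) (nat_lit 5) (nat_lit 4) (nat_lit 4) (nat_lit 358) (nat_lit 280) (nat_lit 142))))))) (XT.nd (nat_lit 35412) (nat_lit 0) (nat_lit 1064) (XT.nd (nat_lit 34866) (nat_lit 0) (nat_lit 2356) (XT.nd (nat_lit 34554) (nat_lit 0) (nat_lit 2812) (XT.nd (nat_lit 78) (nat_lit 0) (nat_lit 0) (XT.lf (nat_lit 0) (nat_lit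 2051104501060) (nat_lit 76) (nat_lit 285480526471) (nat_lit 76) (nat_lit 212235774209) (nat_lit 3) (nat_lit 4) (nat_lit 4) (nat_lit 5) (nat_lit 4) (nat_lit 4) (nat_lit 359) (nat_lit 280) (nat_lit 141)) (XT.nd (nat_lit 78) (nat_lit 0) (nat_lit 0) (XT.lf (nat_lit 0) (nat_lit 2273716140937) (nat_lit 76) (nat_lit 274874600095) (nat_lit 76) (nat_lit 201629725215) (nat_lit 3) (nat_lit 4) (nat_lit 4) (nat_lit 5) (nat_lit 4) (nat_lit 4) (nat_lit 360) (nat_lit 280) (nat_lit 140)) (XT.lf (nat_lit 0) (nat_lit 2514136523330) (nat_lit 76) (nat_lit 263420288539) (nat_lit 76) (nat_lit 190175300125) (nat_lit 3) (nat_lit 4) (nat_lit 4) (nat_lit 5) (nat_lit 4) (nat_lit 4) (nat_lit 361) (nat_lit 280) (nat_lit 139)))) (XT.nd (nat_lit 156) (nat_lit 0) (nat_lit 76) (XT.nd (nat_lit 78) (nat_lit 0) (nat_lit 0) (XT.lf (nat_lit 0) (nat_lit 4369305909) (nat_lit 532) (nat_lit 2994203421) (nat_lit 532) (nat_lit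 2994203421) (nat_lit 40) (nat_lit 3) (nat_lit 47) (nat_lit 3) (nat_lit 47) (nat_lit 5) (nat_lit 281) (nat_lit 281) (nat_lit 218)) (XT.lf (nat_lit 76) (nat_lit 3306736625) (nat_lit 0) (nat_lit 5999775699) (nat_lit 532) (nat_lit 12219469553) (nat_lit 41) (nat_lit 5) (nat_lit 40) (nat_lit 3) (nat_lit 47) (nat_lit 5) (nat_lit 282) (nat_lit 281) (nat_lit 217))) (XT.nd (nat_lit 78) (nat_lit 0) (nat_lit 0) (XT.lf (nat_lit 0) (nat_lit 10156286027) (nat_lit 456) (nat_lit 8798126365) (nat_lit 532) (nat_lit 3428114320) (nat_lit 41) (nat_lit 5) (nat_lit 47) (nat_lit 5) (nat_lit 48) (nat_lit 5) (nat_lit 283) (nat_lit 281) (nat_lit 216)) (XT.lf (nat_lit 76) (nat_lit 1276105438) (nat_lit 0) (nat_lit 9971564691) (nat_lit 532) (nat_lit 12046089581) (nat_lit 42) (nat_lit 5) (nat_lit 41) (nat_lit 5) (nat_lit 48) (nat_lit 5) (nat_lit 284) (nat_lit 281) (nat_lit 215))))) (XT.nd (nat_lit 234) (nat_lit 532)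 (nat_lit 0) (XT.nd (nat_lit 78) (nat_lit 0) (nat_lit 76) (XT.lf (nat_lit 76) (nat_lit 12648275871) (nat_lit 0) (nat_lit 6499843) (nat_lit 532) (nat_lit 11604893566) (nat_lit 42) (nat_lit 5) (nat_lit 41) (nat_lit 5) (nat_lit 48) (nat_lit 5) (nat_lit 285) (nat_lit 281) (nat_lit 214)) (XT.nd (nat_lit 78) (nat_lit 0) (nat_lit 0) (XT.lf (nat_lit 0) (nat_lit 14421964704) (nat_lit 456) (nat_lit 640077387) (nat_lit 532) (nat_lit 10221055358) (nat_lit 42) (nat_lit 5) (nat_lit 48) (nat_lit 5) (nat_lit 49) (nat_lit 5) (nat_lit 286) (nat_lit 281) (nat_lit 213)) (XT.lf (nat_lit 76) (nat_lit 11790462147) (nat_lit 0) (nat_lit 4813461600) (nat_lit 532) (nat_lit 9762648078) (nat_lit 43) (nat_lit 5) (nat_lit 42) (nat_lit 5) (nat_lit 49) (nat_lit 5) (nat_lit 287) (nat_lit 281) (nat_lit 212)))) (XT.nd (nat_lit 156) (nat_lit 228) (nat_lit 0) (XT.nd (nat_lit 78) (nat_lit 456) (nat_lit 0) (XT.lf (nat_lit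 0) (nat_lit 19119112762) (nat_lit 456) (nat_lit 2443144588) (nat_lit 76) (nat_lit 5961813262) (nat_lit 43) (nat_lit 5) (nat_lit 49) (nat_lit 5) (nat_lit 44) (nat_lit 5) (nat_lit 288) (nat_lit 281) (nat_lit 211)) (XT.lf (nat_lit 0) (nat_lit 11081652693) (nat_lit 456) (nat_lit 11136407641) (nat_lit 532) (nat_lit 6525542828) (nat_lit 37) (nat_lit 5) (nat_lit 43) (nat_lit 5) (nat_lit 44) (nat_lit 5) (nat_lit 289) (nat_lit 281) (nat_lit 210))) (XT.nd (nat_lit 78) (nat_lit 228) (nat_lit 0) (XT.lf (nat_lit 0) (nat_lit 25627923665) (nat_lit 532) (nat_lit 4241336129) (nat_lit 76) (nat_lit 186433093) (nat_lit 37) (nat_lit 5) (nat_lit 44) (nat_lit 5) (nat_lit 38) (nat_lit 5) (nat_lit 290) (nat_lit 281) (nat_lit 209)) (XT.lf (nat_lit 0) (nat_lit 10479904428) (nat_lit 228) (nat_lit 19364095530) (nat_lit 304) (nat_lit 1586107930) (nat_lit 34) (nat_lit 5) (nat_lit 37) (nat_lit 5) (nat_lit 38) (nat_lit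 5) (nat_lit 291) (nat_lit 281) (nat_lit 208)))))) (XT.nd (nat_lit 546) (nat_lit 608) (nat_lit 0) (XT.nd (nat_lit 234) (nat_lit 380) (nat_lit 0) (XT.nd (nat_lit 78) (nat_lit 228) (nat_lit 0) (XT.lf (nat_lit 0) (nat_lit 1519981725) (nat_lit 304) (nat_lit 6332064634) (nat_lit 76) (nat_lit 25050702061) (nat_lit 33) (nat_lit 5) (nat_lit 37) (nat_lit 5) (nat_lit 34) (nat_lit 5) (nat_lit 292) (nat_lit 281) (nat_lit 207)) (XT.nd (nat_lit 78) (nat_lit 0) (nat_lit 0) (XT.lf (nat_lit 0) (nat_lit 5137295898) (nat_lit 304) (nat_lit 24686829591) (nat_lit 76) (nat_lit 4637930035) (nat_lit 30) (nat_lit 5) (nat_lit 34) (nat_lit 5) (nat_lit 31) (nat_lit 5) (nat_lit 293) (nat_lit 281) (nat_lit 206)) (XT.lf (nat_lit 0) (nat_lit 9418773017) (nat_lit 304) (nat_lit 8817482597) (nat_lit 76) (nat_lit 17879892886) (nat_lit 30) (nat_lit 5) (nat_lit 34) (nat_lit 5) (nat_lit 31) (nat_lit 5) (nat_lit 294) (nat_lit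 281) (nat_lit 205)))) (XT.nd (nat_lit 156) (nat_lit 152) (nat_lit 0) (XT.nd (nat_lit 78) (nat_lit 0) (nat_lit 0) (XT.lf (nat_lit 0) (nat_lit 8751815712) (nat_lit 228) (nat_lit 5495139347) (nat_lit 304) (nat_lit 23639300698) (nat_lit 27) (nat_lit 5) (nat_lit 30) (nat_lit 5) (nat_lit 31) (nat_lit 5) (nat_lit 295) (nat_lit 281) (nat_lit 204)) (XT.lf (nat_lit 0) (nat_lit 19901488246) (nat_lit 304) (nat_lit 11763292299) (nat_lit 76) (nat_lit 8098003494) (nat_lit 27) (nat_lit 5) (nat_lit 31) (nat_lit 5) (nat_lit 28) (nat_lit 5) (nat_lit 296) (nat_lit 281) (nat_lit 203))) (XT.nd (nat_lit 78) (nat_lit 0) (nat_lit 0) (XT.lf (nat_lit 0) (nat_lit 7208291659) (nat_lit 152) (nat_lit 19110598802) (nat_lit 228) (nat_lit 15445722288) (nat_lit 25) (nat_lit 5) (nat_lit 27) (nat_lit 5) (nat_lit 28) (nat_lit 5) (nat_lit 297) (nat_lit 281) (nat_lit 202)) (XT.lf (nat_lit 0) (nat_lit 28359658601) (nat_lit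 152) (nat_lit 5206318314) (nat_lit 228) (nat_lit 10335324771) (nat_lit 25) (nat_lit 5) (nat_lit 27) (nat_lit 5) (nat_lit 28) (nat_lit 5) (nat_lit 298) (nat_lit 281) (nat_lit 201))))) (XT.nd (nat_lit 312) (nat_lit 228) (nat_lit 0) (XT.nd (nat_lit 156) (nat_lit 152) (nat_lit 0) (XT.nd (nat_lit 78) (nat_lit 76) (nat_lit 0) (XT.lf (nat_lit 0) (nat_lit 5001680515) (nat_lit 152) (nat_lit 36742400991) (nat_lit 228) (nat_lit 4436760145) (nat_lit 23) (nat_lit 5) (nat_lit 25) (nat_lit 5) (nat_lit 26) (nat_lit 5) (nat_lit 299) (nat_lit 281) (nat_lit 200)) (XT.lf (nat_lit 0) (nat_lit 2403255184) (nat_lit 228) (nat_lit 20736079480) (nat_lit 76) (nat_lit 25454399733) (nat_lit 22) (nat_lit 5) (nat_lit 25) (nat_lit 5) (nat_lit 23) (nat_lit 5) (nat_lit 300) (nat_lit 281) (nat_lit 199))) (XT.nd (nat_lit 78) (nat_lit 0) (nat_lit 0) (XT.lf (nat_lit 0) (nat_lit 1285110410) (nat_lit 152) (nat_lit 8292025488)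 (nat_lit 228) (nat_lit 41611206979) (nat_lit 20) (nat_lit 5) (nat_lit 22) (nat_lit 5) (nat_lit 23) (nat_lit 5) (nat_lit 301) (nat_lit 281) (nat_lit 198)) (XT.lf (nat_lit 0) (nat_lit 18088434913) (nat_lit 228) (nat_lit 27905373583) (nat_lit 76) (nat_lit 7935642680) (nat_lit 20) (nat_lit 5) (nat_lit 23) (nat_lit 5) (nat_lit 21) (nat_lit 5) (nat_lit 302) (nat_lit 281) (nat_lit 197)))) (XT.nd (nat_lit 156) (nat_lit 76) (nat_lit 0) (XT.nd (nat_lit 78) (nat_lit 152) (nat_lit 0) (XT.lf (nat_lit 0) (nat_lit 27491940540) (nat_lit 228) (nat_lit 4369116884) (nat_lit 76) (nat_lit 25011897398) (nat_lit 20) (nat_lit 5) (nat_lit 23) (nat_lit 5) (nat_lit 21) (nat_lit 5) (nat_lit 303) (nat_lit 281) (nat_lit 196)) (XT.lf (nat_lit 0) (nat_lit 22152597816) (nat_lit 152) (nat_lit 16024126538) (nat_lit 228) (nat_lit 21832904677) (nat_lit 18) (nat_lit 5) (nat_lit 20) (nat_lit 5) (nat_lit 21) (nat_lit 5)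 (nat_lit 304) (nat_lit 281) (nat_lit 195))) (XT.nd (nat_lit 78) (nat_lit 76) (nat_lit 0) (XT.lf (nat_lit 0) (nat_lit 49861152420) (nat_lit 228) (nat_lit 12377944643) (nat_lit 76) (nat_lit 1146560531) (nat_lit 18) (nat_lit 5) (nat_lit 21) (nat_lit 5) (nat_lit 19) (nat_lit 4) (nat_lit 305) (nat_lit 281) (nat_lit 194)) (XT.lf (nat_lit 0) (nat_lit 15492984814) (nat_lit 76) (nat_lit 47772770507) (nat_lit 152) (nat_lit 3703188127) (nat_lit 17) (nat_lit 5) (nat_lit 18) (nat_lit 5) (nat_lit 19) (nat_lit 4) (nat_lit 306) (nat_lit 281) (nat_lit 193))))))))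
noncomputable def xc84 : XT := (XT.nd (nat_lit 2184) (nat_lit 76) (nat_lit 0) (XT.nd (nat_lit 1092) (nat_lit 380) (nat_lit 0) (XT.nd (nat_lit 546) (nat_lit 304) (nat_lit 0) (XT.nd (nat_lit 234) (nat_lit 76) (nat_lit 0) (XT.nd (nat_lit 78) (nat_lit 152) (nat_lit 0) (XT.lf (nat_lit 0) (nat_lit 6902339834) (nat_lit 152) (nat_lit 24694457190) (nat_lit 76) (nat_lit 39201310507) (nat_lit 16) (nat_lit 5) (nat_lit 18) (nat_lit 5) (nat_lit 17) (nat_lit 5) (nat_lit 307) (nat_lit 281) (nat_lit 192)) (XT.nd (nat_lit 78) (nat_lit 0) (nat_lit 0) (XT.lf (nat_lit 0) (nat_lit 4345824106) (nat_lit 152) (nat_lit 13911821647) (nat_lit 228) (nat_lit 56660158595) (nat_lit 14) (nat_lit 5) (nat_lit 16) (nat_lit 5) (nat_lit 17) (nat_lit 5) (nat_lit 308) (nat_lit 281) (nat_lit 191)) (XT.lf (nat_lit 0) (nat_lit 31335831714) (nat_lit 228) (nat_lit 42346672219) (nat_lit 76) (nat_lit 5619422889) (nat_lit 14) (nat_lit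 5) (nat_lit 17) (nat_lit 5) (nat_lit 15) (nat_lit 4) (nat_lit 309) (nat_lit 281) (nat_lit 190)))) (XT.nd (nat_lit 156) (nat_lit 0) (nat_lit 0) (XT.nd (nat_lit 78) (nat_lit 76) (nat_lit 0) (XT.lf (nat_lit 0) (nat_lit 45818801505) (nat_lit 228) (nat_lit 12229339572) (nat_lit 76) (nat_lit 25959961588) (nat_lit 14) (nat_lit 5) (nat_lit 17) (nat_lit 5) (nat_lit 15) (nat_lit 4) (nat_lit 310) (nat_lit 281) (nat_lit 189)) (XT.lf (nat_lit 0) (nat_lit 21361667551) (nat_lit 76) (nat_lit 40609881556) (nat_lit 152) (nat_lit 27078337703) (nat_lit 13) (nat_lit 5) (nat_lit 14) (nat_lit 5) (nat_lit 15) (nat_lit 4) (nat_lit 311) (nat_lit 281) (nat_lit 188))) (XT.nd (nat_lit 78) (nat_lit 0) (nat_lit 0) (XT.lf (nat_lit 0) (nat_lit 58331248457) (nat_lit 76) (nat_lit 21417123685) (nat_lit 152) (nat_lit 14720098141) (nat_lit 13) (nat_lit 5) (nat_lit 14) (nat_lit 5) (nat_lit 15) (nat_lit 4) (nat_lit 312)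 (nat_lit 281) (nat_lit 187)) (XT.lf (nat_lit 0) (nat_lit 98254506793) (nat_lit 76) (nat_lit 690504421) (nat_lit 152) (nat_lit 1375720279) (nat_lit 13) (nat_lit 5) (nat_lit 14) (nat_lit 5) (nat_lit 15) (nat_lit 4) (nat_lit 313) (nat_lit 281) (nat_lit 186))))) (XT.nd (nat_lit 234) (nat_lit 76) (nat_lit 0) (XT.nd (nat_lit 78) (nat_lit 76) (nat_lit 0) (XT.lf (nat_lit 0) (nat_lit 13805570446) (nat_lit 152) (nat_lit 70873711131) (nat_lit 76) (nat_lit 21823095418) (nat_lit 11) (nat_lit 5) (nat_lit 13) (nat_lit 5) (nat_lit 12) (nat_lit 4) (nat_lit 314) (nat_lit 281) (nat_lit 185)) (XT.nd (nat_lit 78) (nat_lit 76) (nat_lit 0) (XT.lf (nat_lit 0) (nat_lit 30200760480) (nat_lit 152) (nat_lit 36776281135) (nat_lit 76) (nat_lit 46192759937) (nat_lit 11) (nat_lit 5) (nat_lit 13) (nat_lit 5) (nat_lit 12) (nat_lit 4) (nat_lit 315) (nat_lit 281) (nat_lit 184)) (XT.lf (nat_lit 0) (nat_lit 47849197) (nat_lit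 76) (nat_lit 47858852360) (nat_lit 152) (nat_lit 72463991085) (nat_lit 10) (nat_lit 5) (nat_lit 11) (nat_lit 5) (nat_lit 12) (nat_lit 4) (nat_lit 316) (nat_lit 281) (nat_lit 183)))) (XT.nd (nat_lit 156) (nat_lit 76) (nat_lit 0) (XT.nd (nat_lit 78) (nat_lit 0) (nat_lit 0) (XT.lf (nat_lit 0) (nat_lit 41906010273) (nat_lit 76) (nat_lit 26126688911) (nat_lit 152) (nat_lit 60034672515) (nat_lit 10) (nat_lit 5) (nat_lit 11) (nat_lit 5) (nat_lit 12) (nat_lit 4) (nat_lit 317) (nat_lit 281) (nat_lit 182)) (XT.lf (nat_lit 0) (nat_lit 87109676664) (nat_lit 76) (nat_lit 2657296777) (nat_lit 152) (nat_lit 46612958840) (nat_lit 10) (nat_lit 5) (nat_lit 11) (nat_lit 5) (nat_lit 12) (nat_lit 4) (nat_lit 318) (nat_lit 281) (nat_lit 181))) (XT.nd (nat_lit 78) (nat_lit 76) (nat_lit 0) (XT.lf (nat_lit 0) (nat_lit 113783976639) (nat_lit 152) (nat_lit 9976568670) (nat_lit 0) (nat_lit 21553436167) (nat_lit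 10) (nat_lit 5) (nat_lit 12) (nat_lit 4) (nat_lit 10) (nat_lit 4) (nat_lit 319) (nat_lit 281) (nat_lit 180)) (XT.lf (nat_lit 0) (nat_lit 34094332096) (nat_lit 76) (nat_lit 106515424541) (nat_lit 76) (nat_lit 14282007171) (nat_lit 9) (nat_lit 4) (nat_lit 10) (nat_lit 5) (nat_lit 10) (nat_lit 4) (nat_lit 320) (nat_lit 281) (nat_lit 179)))))) (XT.nd (nat_lit 546) (nat_lit 228) (nat_lit 0) (XT.nd (nat_lit 234) (nat_lit 0) (nat_lit 0) (XT.nd (nat_lit 78) (nat_lit 76) (nat_lit 0) (XT.lf (nat_lit 0) (nat_lit 4406732035) (nat_lit 152) (nat_lit 83070078530) (nat_lit 76) (nat_lit 77728335120) (nat_lit 8) (nat_lit 5) (nat_lit 10) (nat_lit 5) (nat_lit 9) (nat_lit 4) (nat_lit 321) (nat_lit 281) (nat_lit 178)) (XT.nd (nat_lit 78) (nat_lit 76) (nat_lit 0) (XT.lf (nat_lit 0) (nat_lit 23817522488) (nat_lit 152) (nat_lit 42698100864) (nat_lit 76) (nat_lit 109798415750) (nat_lit 8) (nat_lit 5) (nat_lit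 10) (nat_lit 5) (nat_lit 9) (nat_lit 4) (nat_lit 322) (nat_lit 281) (nat_lit 177)) (XT.lf (nat_lit 0) (nat_lit 948682174) (nat_lit 76) (nat_lit 43853968589) (nat_lit 152) (nat_lit 143507277118) (nat_lit 7) (nat_lit 5) (nat_lit 8) (nat_lit 5) (nat_lit 9) (nat_lit 4) (nat_lit 323) (nat_lit 281) (nat_lit 176)))) (XT.nd (nat_lit 156) (nat_lit 0) (nat_lit 0) (XT.nd (nat_lit 78) (nat_lit 0) (nat_lit 0) (XT.lf (nat_lit 0) (nat_lit 50513137928) (nat_lit 76) (nat_lit 18119594739) (nat_lit 152) (nat_lit 132539465345) (nat_lit 7) (nat_lit 5) (nat_lit 8) (nat_lit 5) (nat_lit 9) (nat_lit 4) (nat_lit 324) (nat_lit 281) (nat_lit 175)) (XT.lf (nat_lit 0) (nat_lit 94600644137) (nat_lit 152) (nat_lit 111255597371) (nat_lit 0) (nat_lit 9188695997) (nat_lit 7) (nat_lit 5) (nat_lit 9) (nat_lit 4) (nat_lit 7) (nat_lit 4) (nat_lit 325) (nat_lit 281) (nat_lit 174))) (XT.nd (nat_lit 78) (nat_lit 0) (nat_lit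 0) (XT.lf (nat_lit 0) (nat_lit 123115492538) (nat_lit 152) (nat_lit 69172579013) (nat_lit 0) (nat_lit 37701865756) (nat_lit 7) (nat_lit 5) (nat_lit 9) (nat_lit 4) (nat_lit 7) (nat_lit 4) (nat_lit 326) (nat_lit 281) (nat_lit 173)) (XT.lf (nat_lit 0) (nat_lit 153910478063) (nat_lit 152) (nat_lit 23724847473) (nat_lit 0) (nat_lit 68495296983) (nat_lit 7) (nat_lit 5) (nat_lit 9) (nat_lit 4) (nat_lit 7) (nat_lit 4) (nat_lit 327) (nat_lit 281) (nat_lit 172))))) (XT.nd (nat_lit 234) (nat_lit 152) (nat_lit 0) (XT.nd (nat_lit 78) (nat_lit 0) (nat_lit 0) (XT.lf (nat_lit 0) (nat_lit 26692167459) (nat_lit 76) (nat_lit 161117869325) (nat_lit 76) (nat_lit 75701249079) (nat_lit 6) (nat_lit 4) (nat_lit 7) (nat_lit 5) (nat_lit 7) (nat_lit 4) (nat_lit 328) (nat_lit 281) (nat_lit 171)) (XT.nd (nat_lit 78) (nat_lit 0) (nat_lit 0) (XT.lf (nat_lit 0) (nat_lit 82490056435) (nat_lit 76) (nat_lit 142579240441)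 (nat_lit 76) (nat_lit 57161287634) (nat_lit 6) (nat_lit 4) (nat_lit 7) (nat_lit 5) (nat_lit 7) (nat_lit 4) (nat_lit 329) (nat_lit 281) (nat_lit 170)) (XT.lf (nat_lit 0) (nat_lit 142750165188) (nat_lit 76) (nat_lit 122558259716) (nat_lit 76) (nat_lit 37139073057) (nat_lit 6) (nat_lit 4) (nat_lit 7) (nat_lit 5) (nat_lit 7) (nat_lit 4) (nat_lit 330) (nat_lit 281) (nat_lit 169)))) (XT.nd (nat_lit 156) (nat_lit 76) (nat_lit 0) (XT.nd (nat_lit 78) (nat_lit 76) (nat_lit 0) (XT.lf (nat_lit 0) (nat_lit 207829590657) (nat_lit 76) (nat_lit 100936284303) (nat_lit 76) (nat_lit 15515955187) (nat_lit 6) (nat_lit 4) (nat_lit 7) (nat_lit 5) (nat_lit 7) (nat_lit 4) (nat_lit 331) (nat_lit 281) (nat_lit 168)) (XT.lf (nat_lit 0) (nat_lit 7444204359) (nat_lit 152) (nat_lit 69937441877) (nat_lit 76) (nat_lit 270466246600) (nat_lit 5) (nat_lit 5) (nat_lit 7) (nat_lit 5) (nat_lit 6) (nat_lit 4) (nat_lit 332)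 (nat_lit 281) (nat_lit 167))) (XT.nd (nat_lit 78) (nat_lit 76) (nat_lit 0) (XT.lf (nat_lit 0) (nat_lit 31402200350) (nat_lit 152) (nat_lit 20105789686) (nat_lit 76) (nat_lit 321759067291) (nat_lit 5) (nat_lit 5) (nat_lit 7) (nat_lit 5) (nat_lit 6) (nat_lit 4) (nat_lit 333) (nat_lit 281) (nat_lit 166)) (XT.lf (nat_lit 0) (nat_lit 35486345581) (nat_lit 76) (nat_lit 22643278897) (nat_lit 152) (nat_lit 342521908161) (nat_lit 4) (nat_lit 5) (nat_lit 5) (nat_lit 5) (nat_lit 6) (nat_lit 4) (nat_lit 334) (nat_lit 281) (nat_lit 165))))))) (XT.nd (nat_lit 1092) (nat_lit 0) (nat_lit 0) (XT.nd (nat_lit 546) (nat_lit 76) (nat_lit 0) (XT.nd (nat_lit 234) (nat_lit 0) (nat_lit 0) (XT.nd (nat_lit 78) (nat_lit 0) (nat_lit 0) (XT.lf (nat_lit 0) (nat_lit 87763758443) (nat_lit 152) (nat_lit 333734169495) (nat_lit 0) (nat_lit 8667357448) (nat_lit 4) (nat_lit 5) (nat_lit 6) (nat_lit 4) (nat_lit 4) (nat_lit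 4) (nat_lit 335) (nat_lit 281) (nat_lit 164)) (XT.nd (nat_lit 78) (nat_lit 0) (nat_lit 0) (XT.lf (nat_lit 0) (nat_lit 120356156519) (nat_lit 152) (nat_lit 300377944211) (nat_lit 0) (nat_lit 41259035583) (nat_lit 4) (nat_lit 5) (nat_lit 6) (nat_lit 4) (nat_lit 4) (nat_lit 4) (nat_lit 336) (nat_lit 281) (nat_lit 163)) (XT.lf (nat_lit 0) (nat_lit 155555387442) (nat_lit 152) (nat_lit 264354273283) (nat_lit 0) (nat_lit 76457599894) (nat_lit 4) (nat_lit 5) (nat_lit 6) (nat_lit 4) (nat_lit 4) (nat_lit 4) (nat_lit 337) (nat_lit 281) (nat_lit 162)))) (XT.nd (nat_lit 156) (nat_lit 0) (nat_lit 0) (XT.nd (nat_lit 78) (nat_lit 0) (nat_lit 0) (XT.lf (nat_lit 0) (nat_lit 193570039246) (nat_lit 152) (nat_lit 225449683108) (nat_lit 0) (nat_lit 114471634465) (nat_lit 4) (nat_lit 5) (nat_lit 6) (nat_lit 4) (nat_lit 4) (nat_lit 4) (nat_lit 338) (nat_lit 281) (nat_lit 161)) (XT.lf (nat_lit 0) (nat_lit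 234625383943) (nat_lit 152) (nat_lit 183433627964) (nat_lit 0) (nat_lit 155526407649) (nat_lit 4) (nat_lit 5) (nat_lit 6) (nat_lit 4) (nat_lit 4) (nat_lit 4) (nat_lit 339) (nat_lit 281) (nat_lit 160))) (XT.nd (nat_lit 78) (nat_lit 0) (nat_lit 0) (XT.lf (nat_lit 0) (nat_lit 278964712463) (nat_lit 152) (nat_lit 138057123822) (nat_lit 0) (nat_lit 199865206992) (nat_lit 4) (nat_lit 5) (nat_lit 6) (nat_lit 4) (nat_lit 4) (nat_lit 4) (nat_lit 340) (nat_lit 281) (nat_lit 159)) (XT.lf (nat_lit 0) (nat_lit 326850776384) (nat_lit 152) (nat_lit 89051272880) (nat_lit 0) (nat_lit 247750780933) (nat_lit 4) (nat_lit 5) (nat_lit 6) (nat_lit 4) (nat_lit 4) (nat_lit 4) (nat_lit 341) (nat_lit 281) (nat_lit 158))))) (XT.nd (nat_lit 234) (nat_lit 0) (nat_lit 0) (XT.nd (nat_lit 78) (nat_lit 76) (nat_lit 0) (XT.lf (nat_lit 0) (nat_lit 378567344973) (nat_lit 152) (nat_lit 36125670094) (nat_lit 0) (nat_lit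 299466895836) (nat_lit 4) (nat_lit 5) (nat_lit 6) (nat_lit 4) (nat_lit 4) (nat_lit 4) (nat_lit 342) (nat_lit 281) (nat_lit 157)) (XT.nd (nat_lit 78) (nat_lit 0) (nat_lit 0) (XT.lf (nat_lit 0) (nat_lit 22140894974) (nat_lit 76) (nat_lit 412812480866) (nat_lit 76) (nat_lit 333711611651) (nat_lit 3) (nat_lit 4) (nat_lit 4) (nat_lit 5) (nat_lit 4) (nat_lit 4) (nat_lit 343) (nat_lit 281) (nat_lit 156)) (XT.lf (nat_lit 0) (nat_lit 87122637728) (nat_lit 76) (nat_lit 409715049573) (nat_lit 76) (nat_lit 330613791397) (nat_lit 3) (nat_lit 4) (nat_lit 4) (nat_lit 5) (nat_lit 4) (nat_lit 4) (nat_lit 344) (nat_lit 281) (nat_lit 155)))) (XT.nd (nat_lit 156) (nat_lit 0) (nat_lit 0) (XT.nd (nat_lit 78) (nat_lit 0) (nat_lit 0) (XT.lf (nat_lit 0) (nat_lit 157302321395) (nat_lit 76) (nat_lit 406370105881) (nat_lit 76) (nat_lit 327268487554) (nat_lit 3) (nat_lit 4) (nat_lit 4) (nat_lit 5) (nat_lit 4)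 (nat_lit 4) (nat_lit 345) (nat_lit 281) (nat_lit 154)) (XT.lf (nat_lit 0) (nat_lit 233095825581) (nat_lit 76) (nat_lit 402757827900) (nat_lit 76) (nat_lit 323655876102) (nat_lit 3) (nat_lit 4) (nat_lit 4) (nat_lit 5) (nat_lit 4) (nat_lit 4) (nat_lit 346) (nat_lit 281) (nat_lit 153))) (XT.nd (nat_lit 78) (nat_lit 0) (nat_lit 0) (XT.lf (nat_lit 0) (nat_lit 314952296978) (nat_lit 76) (nat_lit 398856809540) (nat_lit 76) (nat_lit 319754548971) (nat_lit 3) (nat_lit 4) (nat_lit 4) (nat_lit 5) (nat_lit 4) (nat_lit 4) (nat_lit 347) (nat_lit 281) (nat_lit 152)) (XT.lf (nat_lit 0) (nat_lit 403356810971) (nat_lit 76) (nat_lit 394643933653) (nat_lit 76) (nat_lit 315541387186) (nat_lit 3) (nat_lit 4) (nat_lit 4) (nat_lit 5) (nat_lit 4) (nat_lit 4) (nat_lit 348) (nat_lit 281) (nat_lit 151)))))) (XT.nd (nat_lit 546) (nat_lit 0) (nat_lit 0) (XT.nd (nat_lit 234) (nat_lit 0) (nat_lit 0) (XT.nd (nat_lit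 78) (nat_lit 0) (nat_lit 0) (XT.lf (nat_lit 0) (nat_lit 498833246163) (nat_lit 76) (nat_lit 390094235051) (nat_lit 76) (nat_lit 310991423862) (nat_lit 3) (nat_lit 4) (nat_lit 4) (nat_lit 5) (nat_lit 4) (nat_lit 4) (nat_lit 349) (nat_lit 281) (nat_lit 150)) (XT.nd (nat_lit 78) (nat_lit 0) (nat_lit 0) (XT.lf (nat_lit 0) (nat_lit 601947388836) (nat_lit 76) (nat_lit 385180752555) (nat_lit 76) (nat_lit 306077696254) (nat_lit 3) (nat_lit 4) (nat_lit 4) (nat_lit 5) (nat_lit 4) (nat_lit 4) (nat_lit 350) (nat_lit 281) (nat_lit 149)) (XT.lf (nat_lit 0) (nat_lit 713310285761) (nat_lit 76) (nat_lit 379874369232) (nat_lit 76) (nat_lit 300771085977) (nat_lit 3) (nat_lit 4) (nat_lit 4) (nat_lit 5) (nat_lit 4) (nat_lit 4) (nat_lit 351) (nat_lit 281) (nat_lit 148)))) (XT.nd (nat_lit 156) (nat_lit 0) (nat_lit 0) (XT.nd (nat_lit 78) (nat_lit 0) (nat_lit 0) (XT.lf (nat_lit 0) (nat_lit 833581865217) (nat_lit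 76) (nat_lit 374143639849) (nat_lit 76) (nat_lit 295040146449) (nat_lit 3) (nat_lit 4) (nat_lit 4) (nat_lit 5) (nat_lit 4) (nat_lit 4) (nat_lit 352) (nat_lit 281) (nat_lit 147)) (XT.lf (nat_lit 0) (nat_lit 963474847674) (nat_lit 76) (nat_lit 367954604527) (nat_lit 76) (nat_lit 288850916549) (nat_lit 3) (nat_lit 4) (nat_lit 4) (nat_lit 5) (nat_lit 4) (nat_lit 4) (nat_lit 353) (nat_lit 281) (nat_lit 146))) (XT.nd (nat_lit 78) (nat_lit 0) (nat_lit 0) (XT.lf (nat_lit 0) (nat_lit 1103758969325) (nat_lit 76) (nat_lit 361270587501) (nat_lit 76) (nat_lit 282166719359) (nat_lit 3) (nat_lit 4) (nat_lit 4) (nat_lit 5) (nat_lit 4) (nat_lit 4) (nat_lit 354) (nat_lit 281) (nat_lit 145)) (XT.lf (nat_lit 0) (nat_lit 1255265543482) (nat_lit 76) (nat_lit 354051979781) (nat_lit 76) (nat_lit 274947944821) (nat_lit 3) (nat_lit 4) (nat_lit 4) (nat_lit 5) (nat_lit 4) (nat_lit 4) (nat_lit 355) (nat_lit 281)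 (nat_lit 144))))) (XT.nd (nat_lit 234) (nat_lit 0) (nat_lit 0) (XT.nd (nat_lit 78) (nat_lit 0) (nat_lit 0) (XT.lf (nat_lit 0) (nat_lit 1418892386883) (nat_lit 76) (nat_lit 346256004434) (nat_lit 76) (nat_lit 267151815011) (nat_lit 3) (nat_lit 4) (nat_lit 4) (nat_lit 5) (nat_lit 4) (nat_lit 4) (nat_lit 356) (nat_lit 281) (nat_lit 143)) (XT.nd (nat_lit 78) (nat_lit 0) (nat_lit 0) (XT.lf (nat_lit 0) (nat_lit 1595609140079) (nat_lit 76) (nat_lit 337836463086) (nat_lit 76) (nat_lit 258732130643) (nat_lit 3) (nat_lit 4) (nat_lit 4) (nat_lit 5) (nat_lit 4) (nat_lit 4) (nat_lit 357) (nat_lit 281) (nat_lit 142)) (XT.lf (nat_lit 0) (nat_lit 1786463013462) (nat_lit 76) (nat_lit 328743462159) (nat_lit 76) (nat_lit 249638997290) (nat_lit 3) (nat_lit 4) (nat_lit 4) (nat_lit 5) (nat_lit 4) (nat_lit 4) (nat_lit 358) (nat_lit 281) (nat_lit 141)))) (XT.nd (nat_lit 156) (nat_lit 0) (nat_lit 0) (XT.nd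 (nat_lit 78) (nat_lit 0) (nat_lit 0) (XT.lf (nat_lit 0) (nat_lit 1992584992946) (nat_lit 76) (nat_lit 318923117203) (nat_lit 76) (nat_lit 239818529717) (nat_lit 3) (nat_lit 4) (nat_lit 4) (nat_lit 5) (nat_lit 4) (nat_lit 4) (nat_lit 359) (nat_lit 281) (nat_lit 140)) (XT.lf (nat_lit 0) (nat_lit 2215196542114) (nat_lit 76) (nat_lit 308317233582) (nat_lit 76) (nat_lit 229212532561) (nat_lit 3) (nat_lit 4) (nat_lit 4) (nat_lit 5) (nat_lit 4) (nat_lit 4) (nat_lit 360) (nat_lit 281) (nat_lit 139))) (XT.nd (nat_lit 34476) (nat_lit 0) (nat_lit 2812) (XT.lf (nat_lit 0) (nat_lit 2455616840517) (nat_lit 76) (nat_lit 296862961615) (nat_lit 76) (nat_lit 217758155469) (nat_lit 3) (nat_lit 4) (nat_lit 4) (nat_lit 5) (nat_lit 4) (nat_lit 4) (nat_lit 361) (nat_lit 281) (nat_lit 138)) (XT.lf (nat_lit 0) (nat_lit 4854340481) (nat_lit 532) (nat_lit 3160286080) (nat_lit 532) (nat_lit 3160286080) (nat_lit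 40) (nat_lit 3) (nat_lit 47) (nat_lit 3) (nat_lit 47) (nat_lit 5) (nat_lit 282) (nat_lit 282) (nat_lit 216))))))))
noncomputable def xc85 : XT := (XT.nd (nat_lit 2184) (nat_lit 760) (nat_lit 0) (XT.nd (nat_lit 1092) (nat_lit 988) (nat_lit 0) (XT.nd (nat_lit 546) (nat_lit 988) (nat_lit 0) (XT.nd (nat_lit 234) (nat_lit 0) (nat_lit 76) (XT.nd (nat_lit 78) (nat_lit 0) (nat_lit 76) (XT.lf (nat_lit 76) (nat_lit 3714463615) (nat_lit 0) (nat_lit 6590920962) (nat_lit 532) (nat_lit 12921257521) (nat_lit 41) (nat_lit 5) (nat_lit 40) (nat_lit 3) (nat_lit 47) (nat_lit 5) (nat_lit 283) (nat_lit 282) (nat_lit 215)) (XT.nd (nat_lit 78) (nat_lit 0) (nat_lit 0) (XT.lf (nat_lit 0) (nat_lit 11201823899) (nat_lit 456) (nat_lit 9347087708) (nat_lit 532) (nat_lit 3604583491) (nat_lit 41) (nat_lit 5) (nat_lit 47) (nat_lit 5) (nat_lit 48) (nat_lit 5) (nat_lit 284) (nat_lit 282) (nat_lit 214)) (XT.lf (nat_lit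 76) (nat_lit 1529161405) (nat_lit 0) (nat_lit 10837726246) (nat_lit 532) (nat_lit 12771902974) (nat_lit 42) (nat_lit 5) (nat_lit 41) (nat_lit 5) (nat_lit 48) (nat_lit 5) (nat_lit 285) (nat_lit 282) (nat_lit 213)))) (XT.nd (nat_lit 156) (nat_lit 0) (nat_lit 76) (XT.nd (nat_lit 78) (nat_lit 0) (nat_lit 76) (XT.lf (nat_lit 76) (nat_lit 13799922692) (nat_lit 0) (nat_lit 70386848) (nat_lit 532) (nat_lit 12313031558) (nat_lit 42) (nat_lit 5) (nat_lit 41) (nat_lit 5) (nat_lit 48) (nat_lit 5) (nat_lit 286) (nat_lit 282) (nat_lit 212)) (XT.lf (nat_lit 0) (nat_lit 15762414280) (nat_lit 456) (nat_lit 544607233) (nat_lit 532) (nat_lit 10983001691) (nat_lit 42) (nat_lit 5) (nat_lit 48) (nat_lit 5) (nat_lit 49) (nat_lit 5) (nat_lit 287) (nat_lit 282) (nat_lit 211))) (XT.nd (nat_lit 78) (nat_lit 0) (nat_lit 76) (XT.lf (nat_lit 76) (nat_lit 12876662140) (nat_lit 0) (nat_lit 5231877104) (nat_lit 532)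 (nat_lit 10352525820) (nat_lit 43) (nat_lit 5) (nat_lit 42) (nat_lit 5) (nat_lit 49) (nat_lit 5) (nat_lit 288) (nat_lit 282) (nat_lit 210)) (XT.lf (nat_lit 0) (nat_lit 20811141601) (nat_lit 456) (nat_lit 2491746784) (nat_lit 76) (nat_lit 6409433466) (nat_lit 43) (nat_lit 5) (nat_lit 49) (nat_lit 5) (nat_lit 44) (nat_lit 5) (nat_lit 289) (nat_lit 282) (nat_lit 209))))) (XT.nd (nat_lit 234) (nat_lit 532) (nat_lit 0) (XT.nd (nat_lit 78) (nat_lit 228) (nat_lit 0) (XT.lf (nat_lit 0) (nat_lit 12111316575) (nat_lit 456) (nat_lit 12038093700) (nat_lit 532) (nat_lit 6880744263) (nat_lit 37) (nat_lit 5) (nat_lit 43) (nat_lit 5) (nat_lit 44) (nat_lit 5) (nat_lit 290) (nat_lit 282) (nat_lit 208)) (XT.nd (nat_lit 78) (nat_lit 228) (nat_lit 0) (XT.lf (nat_lit 0) (nat_lit 27820422385) (nat_lit 532) (nat_lit 4435895200) (nat_lit 76) (nat_lit 191871337) (nat_lit 37) (nat_lit 5) (nat_lit 44) (nat_lit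 5) (nat_lit 38) (nat_lit 5) (nat_lit 291) (nat_lit 282) (nat_lit 207)) (XT.lf (nat_lit 0) (nat_lit 11459380100) (nat_lit 228) (nat_lit 20907259602) (nat_lit 304) (nat_lit 1566531856) (nat_lit 34) (nat_lit 5) (nat_lit 37) (nat_lit 5) (nat_lit 38) (nat_lit 5) (nat_lit 292) (nat_lit 282) (nat_lit 206)))) (XT.nd (nat_lit 156) (nat_lit 228) (nat_lit 0) (XT.nd (nat_lit 78) (nat_lit 228) (nat_lit 0) (XT.lf (nat_lit 0) (nat_lit 1770411699) (nat_lit 304) (nat_lit 6700754065) (nat_lit 76) (nat_lit 27053037012) (nat_lit 33) (nat_lit 5) (nat_lit 37) (nat_lit 5) (nat_lit 34) (nat_lit 5) (nat_lit 293) (nat_lit 282) (nat_lit 205)) (XT.lf (nat_lit 0) (nat_lit 5671085255) (nat_lit 304) (nat_lit 26517449464) (nat_lit 76) (nat_lit 5020235789) (nat_lit 30) (nat_lit 5) (nat_lit 34) (nat_lit 5) (nat_lit 31) (nat_lit 5) (nat_lit 294) (nat_lit 282) (nat_lit 204))) (XT.nd (nat_lit 78) (nat_lit 228) (nat_lit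 0) (XT.lf (nat_lit 0) (nat_lit 10285983826) (nat_lit 304) (nat_lit 9389245563) (nat_lit 76) (nat_lit 19320720753) (nat_lit 30) (nat_lit 5) (nat_lit 34) (nat_lit 5) (nat_lit 31) (nat_lit 5) (nat_lit 295) (nat_lit 282) (nat_lit 203)) (XT.lf (nat_lit 0) (nat_lit 9582213430) (nat_lit 228) (nat_lit 5912916690) (nat_lit 304) (nat_lit 25412988234) (nat_lit 27) (nat_lit 5) (nat_lit 30) (nat_lit 5) (nat_lit 31) (nat_lit 5) (nat_lit 296) (nat_lit 282) (nat_lit 202)))))) (XT.nd (nat_lit 546) (nat_lit 456) (nat_lit 0) (XT.nd (nat_lit 234) (nat_lit 380) (nat_lit 0) (XT.nd (nat_lit 78) (nat_lit 152) (nat_lit 0) (XT.lf (nat_lit 0) (nat_lit 21594481158) (nat_lit 304) (nat_lit 12575869367) (nat_lit 76) (nat_lit 8765048949) (nat_lit 27) (nat_lit 5) (nat_lit 31) (nat_lit 5) (nat_lit 28) (nat_lit 5) (nat_lit 297) (nat_lit 282) (nat_lit 201)) (XT.nd (nat_lit 78) (nat_lit 0) (nat_lit 0) (XT.lf (nat_lit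 0) (nat_lit 7910188490) (nat_lit 152) (nat_lit 20610626791) (nat_lit 228) (nat_lit 16576941012) (nat_lit 25) (nat_lit 5) (nat_lit 27) (nat_lit 5) (nat_lit 28) (nat_lit 5) (nat_lit 298) (nat_lit 282) (nat_lit 200)) (XT.lf (nat_lit 0) (nat_lit 30744388231) (nat_lit 152) (nat_lit 5596138673) (nat_lit 228) (nat_lit 11065447920) (nat_lit 25) (nat_lit 5) (nat_lit 27) (nat_lit 5) (nat_lit 28) (nat_lit 5) (nat_lit 299) (nat_lit 282) (nat_lit 199)))) (XT.nd (nat_lit 156) (nat_lit 152) (nat_lit 0) (XT.nd (nat_lit 78) (nat_lit 76) (nat_lit 0) (XT.lf (nat_lit 0) (nat_lit 5521453620) (nat_lit 152) (nat_lit 39648285066) (nat_lit 228) (nat_lit 4698412022) (nat_lit 23) (nat_lit 5) (nat_lit 25) (nat_lit 5) (nat_lit 26) (nat_lit 5) (nat_lit 300) (nat_lit 282) (nat_lit 198)) (XT.lf (nat_lit 0) (nat_lit 2677573233) (nat_lit 228) (nat_lit 22279638673) (nat_lit 76) (nat_lit 27517227017) (nat_lit 22) (nat_lit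 5) (nat_lit 25) (nat_lit 5) (nat_lit 23) (nat_lit 5) (nat_lit 301) (nat_lit 282) (nat_lit 197))) (XT.nd (nat_lit 78) (nat_lit 0) (nat_lit 0) (XT.lf (nat_lit 0) (nat_lit 1500326733) (nat_lit 152) (nat_lit 8921662730) (nat_lit 228) (nat_lit 44854913621) (nat_lit 20) (nat_lit 5) (nat_lit 22) (nat_lit 5) (nat_lit 23) (nat_lit 5) (nat_lit 302) (nat_lit 282) (nat_lit 196)) (XT.lf (nat_lit 0) (nat_lit 19609115054) (nat_lit 228) (nat_lit 30028448255) (nat_lit 76) (nat_lit 8600158675) (nat_lit 20) (nat_lit 5) (nat_lit 23) (nat_lit 5) (nat_lit 21) (nat_lit 5) (nat_lit 303) (nat_lit 282) (nat_lit 195))))) (XT.nd (nat_lit 234) (nat_lit 304) (nat_lit 0) (XT.nd (nat_lit 78) (nat_lit 152) (nat_lit 0) (XT.lf (nat_lit 0) (nat_lit 29759448883) (nat_lit 228) (nat_lit 4617391407) (nat_lit 76) (nat_lit 27040316394) (nat_lit 20) (nat_lit 5) (nat_lit 23) (nat_lit 5) (nat_lit 21) (nat_lit 5) (nat_lit 304)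 (nat_lit 282) (nat_lit 194)) (XT.nd (nat_lit 78) (nat_lit 0) (nat_lit 0) (XT.lf (nat_lit 0) (nat_lit 24023497056) (nat_lit 152) (nat_lit 17272843499) (nat_lit 228) (nat_lit 23508651763) (nat_lit 18) (nat_lit 5) (nat_lit 20) (nat_lit 5) (nat_lit 21) (nat_lit 5) (nat_lit 305) (nat_lit 282) (nat_lit 193)) (XT.lf (nat_lit 0) (nat_lit 53911412235) (nat_lit 228) (nat_lit 13272532370) (nat_lit 76) (nat_lit 1267499915) (nat_lit 18) (nat_lit 5) (nat_lit 21) (nat_lit 5) (nat_lit 19) (nat_lit 4) (nat_lit 306) (nat_lit 282) (nat_lit 192)))) (XT.nd (nat_lit 156) (nat_lit 152) (nat_lit 0) (XT.nd (nat_lit 78) (nat_lit 76) (nat_lit 0) (XT.lf (nat_lit 0) (nat_lit 16825649978) (nat_lit 76) (nat_lit 51560429736) (nat_lit 152) (nat_lit 3935509396) (nat_lit 17) (nat_lit 5) (nat_lit 18) (nat_lit 5) (nat_lit 19) (nat_lit 4) (nat_lit 307) (nat_lit 282) (nat_lit 191)) (XT.lf (nat_lit 0) (nat_lit 7510763646)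 (nat_lit 152) (nat_lit 26580607668) (nat_lit 76) (nat_lit 42365961836) (nat_lit 16) (nat_lit 5) (nat_lit 18) (nat_lit 5) (nat_lit 17) (nat_lit 5) (nat_lit 308) (nat_lit 282) (nat_lit 190))) (XT.nd (nat_lit 78) (nat_lit 0) (nat_lit 0) (XT.lf (nat_lit 0) (nat_lit 4780632686) (nat_lit 152) (nat_lit 14991791460) (nat_lit 228) (nat_lit 61134356346) (nat_lit 14) (nat_lit 5) (nat_lit 16) (nat_lit 5) (nat_lit 17) (nat_lit 5) (nat_lit 309) (nat_lit 282) (nat_lit 189)) (XT.lf (nat_lit 0) (nat_lit 33893586958) (nat_lit 228) (nat_lit 45650333974) (nat_lit 76) (nat_lit 6097982582) (nat_lit 14) (nat_lit 5) (nat_lit 17) (nat_lit 5) (nat_lit 15) (nat_lit 4) (nat_lit 310) (nat_lit 282) (nat_lit 188))))))) (XT.nd (nat_lit 1092) (nat_lit 228) (nat_lit 0) (XT.nd (nat_lit 546) (nat_lit 228) (nat_lit 0) (XT.nd (nat_lit 234) (nat_lit 228) (nat_lit 0) (XT.nd (nat_lit 78) (nat_lit 76) (nat_lit 0) (XT.lf (nat_lit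 0) (nat_lit 49531424799) (nat_lit 228) (nat_lit 13129842273) (nat_lit 76) (nat_lit 28063615795) (nat_lit 14) (nat_lit 5) (nat_lit 17) (nat_lit 5) (nat_lit 15) (nat_lit 4) (nat_lit 311) (nat_lit 282) (nat_lit 187)) (XT.nd (nat_lit 78) (nat_lit 0) (nat_lit 0) (XT.lf (nat_lit 0) (nat_lit 23146474674) (nat_lit 76) (nat_lit 43828251990) (nat_lit 152) (nat_lit 29195423617) (nat_lit 13) (nat_lit 5) (nat_lit 14) (nat_lit 5) (nat_lit 15) (nat_lit 4) (nat_lit 312) (nat_lit 282) (nat_lit 186)) (XT.lf (nat_lit 0) (nat_lit 63068001777) (nat_lit 76) (nat_lit 23102326830) (nat_lit 152) (nat_lit 15852167935) (nat_lit 13) (nat_lit 5) (nat_lit 14) (nat_lit 5) (nat_lit 15) (nat_lit 4) (nat_lit 313) (nat_lit 282) (nat_lit 185)))) (XT.nd (nat_lit 156) (nat_lit 76) (nat_lit 0) (XT.nd (nat_lit 78) (nat_lit 152) (nat_lit 0) (XT.lf (nat_lit 0) (nat_lit 106179916821) (nat_lit 76) (nat_lit 719664451) (nat_lit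 152) (nat_lit 1443613033) (nat_lit 13) (nat_lit 5) (nat_lit 14) (nat_lit 5) (nat_lit 15) (nat_lit 4) (nat_lit 314) (nat_lit 282) (nat_lit 184)) (XT.lf (nat_lit 0) (nat_lit 14949326679) (nat_lit 152) (nat_lit 76475564859) (nat_lit 76) (nat_lit 23594463745) (nat_lit 11) (nat_lit 5) (nat_lit 13) (nat_lit 5) (nat_lit 12) (nat_lit 4) (nat_lit 315) (nat_lit 282) (nat_lit 183))) (XT.nd (nat_lit 78) (nat_lit 76) (nat_lit 0) (XT.lf (nat_lit 0) (nat_lit 32653220021) (nat_lit 152) (nat_lit 39655380698) (nat_lit 76) (nat_lit 49911811003) (nat_lit 11) (nat_lit 5) (nat_lit 13) (nat_lit 5) (nat_lit 12) (nat_lit 4) (nat_lit 316) (nat_lit 282) (nat_lit 182)) (XT.lf (nat_lit 0) (nat_lit 113085050) (nat_lit 76) (nat_lit 51661331996) (nat_lit 152) (nat_lit 78223059198) (nat_lit 10) (nat_lit 5) (nat_lit 11) (nat_lit 5) (nat_lit 12) (nat_lit 4) (nat_lit 317) (nat_lit 282) (nat_lit 181))))) (XT.nd (nat_lit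 234) (nat_lit 228) (nat_lit 0) (XT.nd (nat_lit 78) (nat_lit 0) (nat_lit 0) (XT.lf (nat_lit 0) (nat_lit 45315350278) (nat_lit 76) (nat_lit 28192538326) (nat_lit 152) (nat_lit 64802213748) (nat_lit 10) (nat_lit 5) (nat_lit 11) (nat_lit 5) (nat_lit 12) (nat_lit 4) (nat_lit 318) (nat_lit 282) (nat_lit 180)) (XT.nd (nat_lit 78) (nat_lit 0) (nat_lit 0) (XT.lf (nat_lit 0) (nat_lit 94131098188) (nat_lit 76) (nat_lit 2847393762) (nat_lit 152) (nat_lit 50309372799) (nat_lit 10) (nat_lit 5) (nat_lit 11) (nat_lit 5) (nat_lit 12) (nat_lit 4) (nat_lit 319) (nat_lit 282) (nat_lit 179)) (XT.lf (nat_lit 0) (nat_lit 122915122030) (nat_lit 152) (nat_lit 10724167591) (nat_lit 0) (nat_lit 23297490578) (nat_lit 10) (nat_lit 5) (nat_lit 12) (nat_lit 4) (nat_lit 10) (nat_lit 4) (nat_lit 320) (nat_lit 282) (nat_lit 178)))) (XT.nd (nat_lit 156) (nat_lit 76) (nat_lit 0) (XT.nd (nat_lit 78) (nat_lit 76) (nat_lit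 0) (XT.lf (nat_lit 0) (nat_lit 36871126082) (nat_lit 76) (nat_lit 115014917025) (nat_lit 76) (nat_lit 15394819095) (nat_lit 9) (nat_lit 4) (nat_lit 10) (nat_lit 5) (nat_lit 10) (nat_lit 4) (nat_lit 321) (nat_lit 282) (nat_lit 177)) (XT.lf (nat_lit 0) (nat_lit 4785437729) (nat_lit 152) (nat_lit 89668671225) (nat_lit 76) (nat_lit 83965318805) (nat_lit 8) (nat_lit 5) (nat_lit 10) (nat_lit 5) (nat_lit 9) (nat_lit 4) (nat_lit 322) (nat_lit 282) (nat_lit 176))) (XT.nd (nat_lit 78) (nat_lit 76) (nat_lit 0) (XT.lf (nat_lit 0) (nat_lit 25747153113) (nat_lit 152) (nat_lit 46070417834) (nat_lit 76) (nat_lit 118599619450) (nat_lit 8) (nat_lit 5) (nat_lit 10) (nat_lit 5) (nat_lit 9) (nat_lit 4) (nat_lit 323) (nat_lit 282) (nat_lit 175)) (XT.lf (nat_lit 0) (nat_lit 1067005794) (nat_lit 76) (nat_lit 47343311548) (nat_lit 152) (nat_lit 154962497364) (nat_lit 7) (nat_lit 5) (nat_lit 8) (nat_lit 5)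 (nat_lit 9) (nat_lit 4) (nat_lit 324) (nat_lit 282) (nat_lit 174)))))) (XT.nd (nat_lit 546) (nat_lit 152) (nat_lit 0) (XT.nd (nat_lit 234) (nat_lit 76) (nat_lit 0) (XT.nd (nat_lit 78) (nat_lit 0) (nat_lit 0) (XT.lf (nat_lit 0) (nat_lit 54593475116) (nat_lit 76) (nat_lit 19551593310) (nat_lit 152) (nat_lit 143119139310) (nat_lit 7) (nat_lit 5) (nat_lit 8) (nat_lit 5) (nat_lit 9) (nat_lit 4) (nat_lit 325) (nat_lit 282) (nat_lit 173)) (XT.nd (nat_lit 78) (nat_lit 0) (nat_lit 0) (XT.lf (nat_lit 0) (nat_lit 102189195372) (nat_lit 152) (nat_lit 120118425035) (nat_lit 0) (nat_lit 9939245506) (nat_lit 7) (nat_lit 5) (nat_lit 9) (nat_lit 4) (nat_lit 7) (nat_lit 4) (nat_lit 326) (nat_lit 282) (nat_lit 172)) (XT.lf (nat_lit 0) (nat_lit 132983713149) (nat_lit 152) (nat_lit 74671551885) (nat_lit 0) (nat_lit 40732324118) (nat_lit 7) (nat_lit 5) (nat_lit 9) (nat_lit 4) (nat_lit 7) (nat_lit 4) (nat_lit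 327) (nat_lit 282) (nat_lit 171)))) (XT.nd (nat_lit 156) (nat_lit 0) (nat_lit 0) (XT.nd (nat_lit 78) (nat_lit 76) (nat_lit 0) (XT.lf (nat_lit 0) (nat_lit 166240891501) (nat_lit 152) (nat_lit 25590582077) (nat_lit 0) (nat_lit 73988169909) (nat_lit 7) (nat_lit 5) (nat_lit 9) (nat_lit 4) (nat_lit 7) (nat_lit 4) (nat_lit 328) (nat_lit 282) (nat_lit 170)) (XT.lf (nat_lit 0) (nat_lit 28858977512) (nat_lit 76) (nat_lit 173992891593) (nat_lit 76) (nat_lit 81738936148) (nat_lit 6) (nat_lit 4) (nat_lit 7) (nat_lit 5) (nat_lit 7) (nat_lit 4) (nat_lit 329) (nat_lit 282) (nat_lit 169))) (XT.nd (nat_lit 78) (nat_lit 0) (nat_lit 0) (XT.lf (nat_lit 0) (nat_lit 89118368966) (nat_lit 76) (nat_lit 153972239603) (nat_lit 76) (nat_lit 61717141703) (nat_lit 6) (nat_lit 4) (nat_lit 7) (nat_lit 5) (nat_lit 7) (nat_lit 4) (nat_lit 330) (nat_lit 282) (nat_lit 168)) (XT.lf (nat_lit 0) (nat_lit 154197130269)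 (nat_lit 76) (nat_lit 132350568574) (nat_lit 76) (nat_lit 40094412844) (nat_lit 6) (nat_lit 4) (nat_lit 7) (nat_lit 5) (nat_lit 7) (nat_lit 4) (nat_lit 331) (nat_lit 282) (nat_lit 167))))) (XT.nd (nat_lit 312) (nat_lit 0) (nat_lit 0) (XT.nd (nat_lit 156) (nat_lit 76) (nat_lit 0) (XT.nd (nat_lit 78) (nat_lit 76) (nat_lit 0) (XT.lf (nat_lit 0) (nat_lit 224480913342) (nat_lit 76) (nat_lit 108999750085) (nat_lit 76) (nat_lit 16742614883) (nat_lit 6) (nat_lit 4) (nat_lit 7) (nat_lit 5) (nat_lit 7) (nat_lit 4) (nat_lit 332) (nat_lit 282) (nat_lit 166)) (XT.lf (nat_lit 0) (nat_lit 8052597682) (nat_lit 152) (nat_lit 75508638940) (nat_lit 76) (nat_lit 292113444703) (nat_lit 5) (nat_lit 5) (nat_lit 7) (nat_lit 5) (nat_lit 6) (nat_lit 4) (nat_lit 333) (nat_lit 282) (nat_lit 165))) (XT.nd (nat_lit 78) (nat_lit 76) (nat_lit 0) (XT.lf (nat_lit 0) (nat_lit 33926280984) (nat_lit 152) (nat_lit 21692217411)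 (nat_lit 76) (nat_lit 347508957836) (nat_lit 5) (nat_lit 5) (nat_lit 7) (nat_lit 5) (nat_lit 6) (nat_lit 4) (nat_lit 334) (nat_lit 282) (nat_lit 164)) (XT.lf (nat_lit 0) (nat_lit 38346730819) (nat_lit 76) (nat_lit 24444802937) (nat_lit 152) (nat_lit 369911186021) (nat_lit 4) (nat_lit 5) (nat_lit 5) (nat_lit 5) (nat_lit 6) (nat_lit 4) (nat_lit 335) (nat_lit 282) (nat_lit 163)))) (XT.nd (nat_lit 156) (nat_lit 0) (nat_lit 0) (XT.nd (nat_lit 78) (nat_lit 0) (nat_lit 0) (XT.lf (nat_lit 0) (nat_lit 94795764985) (nat_lit 152) (nat_lit 360412371528) (nat_lit 0) (nat_lit 9369487821) (nat_lit 4) (nat_lit 5) (nat_lit 6) (nat_lit 4) (nat_lit 4) (nat_lit 4) (nat_lit 336) (nat_lit 282) (nat_lit 162)) (XT.lf (nat_lit 0) (nat_lit 129994747065) (nat_lit 152) (nat_lit 324389169075) (nat_lit 0) (nat_lit 44567852668) (nat_lit 4) (nat_lit 5) (nat_lit 6) (nat_lit 4) (nat_lit 4) (nat_lit 4) (nat_lit 337)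 (nat_lit 282) (nat_lit 161))) (XT.nd (nat_lit 78) (nat_lit 0) (nat_lit 0) (XT.lf (nat_lit 0) (nat_lit 168009168459) (nat_lit 152) (nat_lit 285485012671) (nat_lit 0) (nat_lit 82581702550) (nat_lit 4) (nat_lit 5) (nat_lit 6) (nat_lit 4) (nat_lit 4) (nat_lit 4) (nat_lit 338) (nat_lit 282) (nat_lit 160)) (XT.lf (nat_lit 0) (nat_lit 209064299814) (nat_lit 152) (nat_lit 243469359168) (nat_lit 0) (nat_lit 123636304726) (nat_lit 4) (nat_lit 5) (nat_lit 6) (nat_lit 4) (nat_lit 4) (nat_lit 4) (nat_lit 339) (nat_lit 282) (nat_lit 159))))))))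
noncomputable def xc86 : XT := (XT.nd (nat_lit 36660) (nat_lit 0) (nat_lit 608) (XT.nd (nat_lit 1092) (nat_lit 0) (nat_lit 0) (XT.nd (nat_lit 546) (nat_lit 0) (nat_lit 0) (XT.nd (nat_lit 234) (nat_lit 76) (nat_lit 0) (XT.nd (nat_lit 78) (nat_lit 0) (nat_lit 0) (XT.lf (nat_lit 0) (nat_lit 253403430795) (nat_lit 152) (nat_lit 198093226916) (nat_lit 0) (nat_lit 167974945728) (nat_lit 4) (nat_lit 5) (nat_lit 6) (nat_lit 4) (nat_lit 4) (nat_lit 4) (nat_lit 340) (nat_lit 282) (nat_lit 158)) (XT.nd (nat_lit 78) (nat_lit 0) (nat_lit 0) (XT.lf (nat_lit 0) (nat_lit 301289311810) (nat_lit 152) (nat_lit 149087720316) (nat_lit 0) (nat_lit 215860373057) (nat_lit 4) (nat_lit 5) (nat_lit 6) (nat_lit 4) (nat_lit 4) (nat_lit 4) (nat_lit 341) (nat_lit 282) (nat_lit 157)) (XT.lf (nat_lit 0) (nat_lit 353005711040) (nat_lit 152) (nat_lit 96162436365) (nat_lit 0) (nat_lit 267576352209) (nat_lit 4) (nat_lit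 5) (nat_lit 6) (nat_lit 4) (nat_lit 4) (nat_lit 4) (nat_lit 342) (nat_lit 282) (nat_lit 156)))) (XT.nd (nat_lit 156) (nat_lit 0) (nat_lit 0) (XT.nd (nat_lit 78) (nat_lit 76) (nat_lit 0) (XT.lf (nat_lit 0) (nat_lit 408859096039) (nat_lit 152) (nat_lit 39003743752) (nat_lit 0) (nat_lit 323429348246) (nat_lit 4) (nat_lit 5) (nat_lit 6) (nat_lit 4) (nat_lit 4) (nat_lit 4) (nat_lit 343) (nat_lit 282) (nat_lit 155)) (XT.lf (nat_lit 0) (nat_lit 23923843231) (nat_lit 76) (nat_lit 445831975601) (nat_lit 76) (nat_lit 360401867658) (nat_lit 3) (nat_lit 4) (nat_lit 4) (nat_lit 5) (nat_lit 4) (nat_lit 4) (nat_lit 344) (nat_lit 282) (nat_lit 154))) (XT.nd (nat_lit 78) (nat_lit 0) (nat_lit 0) (XT.lf (nat_lit 0) (nat_lit 94103260468) (nat_lit 76) (nat_lit 442487157489) (nat_lit 76) (nat_lit 357056716074) (nat_lit 3) (nat_lit 4) (nat_lit 4) (nat_lit 5) (nat_lit 4) (nat_lit 4) (nat_lit 345) (nat_lit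 282) (nat_lit 153)) (XT.lf (nat_lit 0) (nat_lit 169896517960) (nat_lit 76) (nat_lit 438874995786) (nat_lit 76) (nat_lit 353444245601) (nat_lit 3) (nat_lit 4) (nat_lit 4) (nat_lit 5) (nat_lit 4) (nat_lit 4) (nat_lit 346) (nat_lit 282) (nat_lit 152))))) (XT.nd (nat_lit 234) (nat_lit 0) (nat_lit 0) (XT.nd (nat_lit 78) (nat_lit 0) (nat_lit 0) (XT.lf (nat_lit 0) (nat_lit 251752760936) (nat_lit 76) (nat_lit 434974085090) (nat_lit 76) (nat_lit 349543049007) (nat_lit 3) (nat_lit 4) (nat_lit 4) (nat_lit 5) (nat_lit 4) (nat_lit 4) (nat_lit 347) (nat_lit 282) (nat_lit 151)) (XT.nd (nat_lit 78) (nat_lit 0) (nat_lit 0) (XT.lf (nat_lit 0) (nat_lit 340157063429) (nat_lit 76) (nat_lit 430761308894) (nat_lit 76) (nat_lit 345330008089) (nat_lit 3) (nat_lit 4) (nat_lit 4) (nat_lit 5) (nat_lit 4) (nat_lit 4) (nat_lit 348) (nat_lit 282) (nat_lit 150)) (XT.lf (nat_lit 0) (nat_lit 435633302787) (nat_lit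 76) (nat_lit 426211702596) (nat_lit 76) (nat_lit 340780156680) (nat_lit 3) (nat_lit 4) (nat_lit 4) (nat_lit 5) (nat_lit 4) (nat_lit 4) (nat_lit 349) (nat_lit 282) (nat_lit 149)))) (XT.nd (nat_lit 156) (nat_lit 0) (nat_lit 0) (XT.nd (nat_lit 78) (nat_lit 0) (nat_lit 0) (XT.lf (nat_lit 0) (nat_lit 538747264132) (nat_lit 76) (nat_lit 421298305568) (nat_lit 76) (nat_lit 335866532697) (nat_lit 3) (nat_lit 4) (nat_lit 4) (nat_lit 5) (nat_lit 4) (nat_lit 4) (nat_lit 350) (nat_lit 282) (nat_lit 148)) (XT.lf (nat_lit 0) (nat_lit 650109993162) (nat_lit 76) (nat_lit 415992001383) (nat_lit 76) (nat_lit 330560018367) (nat_lit 3) (nat_lit 4) (nat_lit 4) (nat_lit 5) (nat_lit 4) (nat_lit 4) (nat_lit 351) (nat_lit 282) (nat_lit 147))) (XT.nd (nat_lit 78) (nat_lit 0) (nat_lit 0) (XT.lf (nat_lit 0) (nat_lit 770381417158) (nat_lit 76) (nat_lit 410261345274) (nat_lit 76) (nat_lit 324829167681) (nat_lit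 3) (nat_lit 4) (nat_lit 4) (nat_lit 5) (nat_lit 4) (nat_lit 4) (nat_lit 352) (nat_lit 282) (nat_lit 146)) (XT.lf (nat_lit 0) (nat_lit 900274255671) (nat_lit 76) (nat_lit 404072377799) (nat_lit 76) (nat_lit 318640020041) (nat_lit 3) (nat_lit 4) (nat_lit 4) (nat_lit 5) (nat_lit 4) (nat_lit 4) (nat_lit 353) (nat_lit 282) (nat_lit 145)))))) (XT.nd (nat_lit 546) (nat_lit 0) (nat_lit 0) (XT.nd (nat_lit 234) (nat_lit 0) (nat_lit 0) (XT.nd (nat_lit 78) (nat_lit 0) (nat_lit 0) (XT.lf (nat_lit 0) (nat_lit 1040558244040) (nat_lit 76) (nat_lit 397388423595) (nat_lit 76) (nat_lit 311955899018) (nat_lit 3) (nat_lit 4) (nat_lit 4) (nat_lit 5) (nat_lit 4) (nat_lit 4) (nat_lit 354) (nat_lit 282) (nat_lit 144)) (XT.nd (nat_lit 78) (nat_lit 0) (nat_lit 0) (XT.lf (nat_lit 0) (nat_lit 1192064694789) (nat_lit 76) (nat_lit 390169874043) (nat_lit 76) (nat_lit 304737195005) (nat_lit 3) (nat_lit 4) (nat_lit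 4) (nat_lit 5) (nat_lit 4) (nat_lit 4) (nat_lit 355) (nat_lit 282) (nat_lit 143)) (XT.lf (nat_lit 0) (nat_lit 1355691423923) (nat_lit 76) (nat_lit 382373952555) (nat_lit 76) (nat_lit 296941130496) (nat_lit 3) (nat_lit 4) (nat_lit 4) (nat_lit 5) (nat_lit 4) (nat_lit 4) (nat_lit 356) (nat_lit 282) (nat_lit 142)))) (XT.nd (nat_lit 156) (nat_lit 0) (nat_lit 0) (XT.nd (nat_lit 78) (nat_lit 0) (nat_lit 0) (XT.lf (nat_lit 0) (nat_lit 1532408071316) (nat_lit 76) (nat_lit 373954461077) (nat_lit 76) (nat_lit 288521506591) (nat_lit 3) (nat_lit 4) (nat_lit 4) (nat_lit 5) (nat_lit 4) (nat_lit 4) (nat_lit 357) (nat_lit 282) (nat_lit 141)) (XT.lf (nat_lit 0) (nat_lit 1723261846733) (nat_lit 76) (nat_lit 364861506326) (nat_lit 76) (nat_lit 279428429223) (nat_lit 3) (nat_lit 4) (nat_lit 4) (nat_lit 5) (nat_lit 4) (nat_lit 4) (nat_lit 358) (nat_lit 282) (nat_lit 140))) (XT.nd (nat_lit 78) (nat_lit 0)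 (nat_lit 0) (XT.lf (nat_lit 0) (nat_lit 1929383735508) (nat_lit 76) (nat_lit 355041204125) (nat_lit 76) (nat_lit 269608013488) (nat_lit 3) (nat_lit 4) (nat_lit 4) (nat_lit 5) (nat_lit 4) (nat_lit 4) (nat_lit 359) (nat_lit 282) (nat_lit 139)) (XT.lf (nat_lit 0) (nat_lit 2151995200687) (nat_lit 76) (nat_lit 344435360092) (nat_lit 76) (nat_lit 259002064331) (nat_lit 3) (nat_lit 4) (nat_lit 4) (nat_lit 5) (nat_lit 4) (nat_lit 4) (nat_lit 360) (nat_lit 282) (nat_lit 138))))) (XT.nd (nat_lit 34710) (nat_lit 0) (nat_lit 2888) (XT.nd (nat_lit 34554) (nat_lit 0) (nat_lit 2812) (XT.lf (nat_lit 0) (nat_lit 2392415421322) (nat_lit 76) (nat_lit 332981124780) (nat_lit 76) (nat_lit 247547731682) (nat_lit 3) (nat_lit 4) (nat_lit 4) (nat_lit 5) (nat_lit 4) (nat_lit 4) (nat_lit 361) (nat_lit 282) (nat_lit 137)) (XT.nd (nat_lit 78) (nat_lit 0) (nat_lit 0) (XT.lf (nat_lit 0) (nat_lit 5358848640) (nat_lit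 532) (nat_lit 3350134331) (nat_lit 532) (nat_lit 3350134331) (nat_lit 40) (nat_lit 3) (nat_lit 47) (nat_lit 3) (nat_lit 47) (nat_lit 5) (nat_lit 283) (nat_lit 283) (nat_lit 214)) (XT.lf (nat_lit 76) (nat_lit 4134381386) (nat_lit 0) (nat_lit 7213499171) (nat_lit 532) (nat_lit 13718530142) (nat_lit 41) (nat_lit 5) (nat_lit 40) (nat_lit 3) (nat_lit 47) (nat_lit 5) (nat_lit 284) (nat_lit 283) (nat_lit 213)))) (XT.nd (nat_lit 156) (nat_lit 0) (nat_lit 0) (XT.nd (nat_lit 78) (nat_lit 0) (nat_lit 0) (XT.lf (nat_lit 0) (nat_lit 12297759754) (nat_lit 456) (nat_lit 9962062572) (nat_lit 532) (nat_lit 3809119602) (nat_lit 41) (nat_lit 5) (nat_lit 47) (nat_lit 5) (nat_lit 48) (nat_lit 5) (nat_lit 285) (nat_lit 283) (nat_lit 212)) (XT.lf (nat_lit 76) (nat_lit 1780924643) (nat_lit 0) (nat_lit 11763417510) (nat_lit 532) (nat_lit 13589716793) (nat_lit 42) (nat_lit 5) (nat_lit 41) (nat_lit 5) (nat_lit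 48) (nat_lit 5) (nat_lit 286) (nat_lit 283) (nat_lit 211))) (XT.nd (nat_lit 78) (nat_lit 0) (nat_lit 76) (XT.lf (nat_lit 76) (nat_lit 15023759402) (nat_lit 0) (nat_lit 130344801) (nat_lit 532) (nat_lit 13109242213) (nat_lit 42) (nat_lit 5) (nat_lit 41) (nat_lit 5) (nat_lit 48) (nat_lit 5) (nat_lit 287) (nat_lit 283) (nat_lit 210)) (XT.lf (nat_lit 0) (nat_lit 17183466064) (nat_lit 456) (nat_lit 462424486) (nat_lit 532) (nat_lit 11813855394) (nat_lit 42) (nat_lit 5) (nat_lit 48) (nat_lit 5) (nat_lit 49) (nat_lit 5) (nat_lit 288) (nat_lit 283) (nat_lit 209))))))) (XT.nd (nat_lit 1092) (nat_lit 836) (nat_lit 0) (XT.nd (nat_lit 546) (nat_lit 608) (nat_lit 0) (XT.nd (nat_lit 234) (nat_lit 532) (nat_lit 0) (XT.nd (nat_lit 78) (nat_lit 380) (nat_lit 0) (XT.lf (nat_lit 76) (nat_lit 14029362858) (nat_lit 0) (nat_lit 5679009728) (nat_lit 532) (nat_lit 11016861199) (nat_lit 43) (nat_lit 5) (nat_lit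 42) (nat_lit 5) (nat_lit 49) (nat_lit 5) (nat_lit 289) (nat_lit 283) (nat_lit 208)) (XT.nd (nat_lit 78) (nat_lit 456) (nat_lit 0) (XT.lf (nat_lit 0) (nat_lit 22615350331) (nat_lit 456) (nat_lit 2565186859) (nat_lit 76) (nat_lit 6897046805) (nat_lit 43) (nat_lit 5) (nat_lit 49) (nat_lit 5) (nat_lit 44) (nat_lit 5) (nat_lit 290) (nat_lit 283) (nat_lit 207)) (XT.lf (nat_lit 0) (nat_lit 13202934235) (nat_lit 456) (nat_lit 13010377691) (nat_lit 532) (nat_lit 7288163687) (nat_lit 37) (nat_lit 5) (nat_lit 43) (nat_lit 5) (nat_lit 44) (nat_lit 5) (nat_lit 291) (nat_lit 283) (nat_lit 206)))) (XT.nd (nat_lit 156) (nat_lit 304) (nat_lit 0) (XT.nd (nat_lit 78) (nat_lit 228) (nat_lit 0) (XT.lf (nat_lit 0) (nat_lit 30168025334) (nat_lit 532) (nat_lit 4666668891) (nat_lit 76) (nat_lit 199096554) (nat_lit 37) (nat_lit 5) (nat_lit 44) (nat_lit 5) (nat_lit 38) (nat_lit 5) (nat_lit 292) (nat_lit 283)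 (nat_lit 205)) (XT.lf (nat_lit 0) (nat_lit 12497086713) (nat_lit 228) (nat_lit 22574727571) (nat_lit 304) (nat_lit 1566284523) (nat_lit 34) (nat_lit 5) (nat_lit 37) (nat_lit 5) (nat_lit 38) (nat_lit 5) (nat_lit 293) (nat_lit 283) (nat_lit 204))) (XT.nd (nat_lit 78) (nat_lit 228) (nat_lit 0) (XT.lf (nat_lit 0) (nat_lit 2022496826) (nat_lit 304) (nat_lit 7118608166) (nat_lit 76) (nat_lit 29215804309) (nat_lit 33) (nat_lit 5) (nat_lit 37) (nat_lit 5) (nat_lit 34) (nat_lit 5) (nat_lit 294) (nat_lit 283) (nat_lit 203)) (XT.lf (nat_lit 0) (nat_lit 6230058157) (nat_lit 304) (nat_lit 28515108716) (nat_lit 76) (nat_lit 5431518019) (nat_lit 30) (nat_lit 5) (nat_lit 34) (nat_lit 5) (nat_lit 31) (nat_lit 5) (nat_lit 295) (nat_lit 283) (nat_lit 202))))) (XT.nd (nat_lit 234) (nat_lit 380) (nat_lit 0) (XT.nd (nat_lit 78) (nat_lit 228) (nat_lit 0) (XT.lf (nat_lit 0) (nat_lit 11206349644) (nat_lit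 304) (nat_lit 10025814184) (nat_lit 76) (nat_lit 20875325975) (nat_lit 30) (nat_lit 5) (nat_lit 34) (nat_lit 5) (nat_lit 31) (nat_lit 5) (nat_lit 296) (nat_lit 283) (nat_lit 201)) (XT.nd (nat_lit 78) (nat_lit 0) (nat_lit 0) (XT.lf (nat_lit 0) (nat_lit 10460460995) (nat_lit 228) (nat_lit 6367231057) (nat_lit 304) (nat_lit 27345327258) (nat_lit 27) (nat_lit 5) (nat_lit 30) (nat_lit 5) (nat_lit 31) (nat_lit 5) (nat_lit 297) (nat_lit 283) (nat_lit 200)) (XT.lf (nat_lit 0) (nat_lit 23408522719) (nat_lit 304) (nat_lit 13471782609) (nat_lit 76) (nat_lit 9482718207) (nat_lit 27) (nat_lit 5) (nat_lit 31) (nat_lit 5) (nat_lit 28) (nat_lit 5) (nat_lit 298) (nat_lit 283) (nat_lit 199)))) (XT.nd (nat_lit 156) (nat_lit 228) (nat_lit 0) (XT.nd (nat_lit 78) (nat_lit 0) (nat_lit 0) (XT.lf (nat_lit 0) (nat_lit 8650371109) (nat_lit 152) (nat_lit 22234768503) (nat_lit 228) (nat_lit 17813556633) (nat_lit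 25) (nat_lit 5) (nat_lit 27) (nat_lit 5) (nat_lit 28) (nat_lit 5) (nat_lit 299) (nat_lit 283) (nat_lit 198)) (XT.lf (nat_lit 0) (nat_lit 33303353678) (nat_lit 152) (nat_lit 6020951589) (nat_lit 228) (nat_lit 11867776661) (nat_lit 25) (nat_lit 5) (nat_lit 27) (nat_lit 5) (nat_lit 28) (nat_lit 5) (nat_lit 300) (nat_lit 283) (nat_lit 197))) (XT.nd (nat_lit 78) (nat_lit 76) (nat_lit 0) (XT.lf (nat_lit 0) (nat_lit 6065740781) (nat_lit 152) (nat_lit 42791420157) (nat_lit 228) (nat_lit 4994304758) (nat_lit 23) (nat_lit 5) (nat_lit 25) (nat_lit 5) (nat_lit 26) (nat_lit 5) (nat_lit 301) (nat_lit 283) (nat_lit 196)) (XT.lf (nat_lit 0) (nat_lit 2962130287) (nat_lit 228) (nat_lit 23963135310) (nat_lit 76) (nat_lit 29741303486) (nat_lit 22) (nat_lit 5) (nat_lit 25) (nat_lit 5) (nat_lit 23) (nat_lit 5) (nat_lit 302) (nat_lit 283) (nat_lit 195)))))) (XT.nd (nat_lit 546) (nat_lit 380) (nat_lit 0)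 (XT.nd (nat_lit 234) (nat_lit 304) (nat_lit 0) (XT.nd (nat_lit 78) (nat_lit 0) (nat_lit 0) (XT.lf (nat_lit 0) (nat_lit 1716724177) (nat_lit 152) (nat_lit 9606482171) (nat_lit 228) (nat_lit 48370270089) (nat_lit 20) (nat_lit 5) (nat_lit 22) (nat_lit 5) (nat_lit 23) (nat_lit 5) (nat_lit 303) (nat_lit 283) (nat_lit 194)) (XT.nd (nat_lit 78) (nat_lit 0) (nat_lit 0) (XT.lf (nat_lit 0) (nat_lit 21240948980) (nat_lit 228) (nat_lit 32336969646) (nat_lit 76) (nat_lit 9313603965) (nat_lit 20) (nat_lit 5) (nat_lit 23) (nat_lit 5) (nat_lit 21) (nat_lit 5) (nat_lit 304) (nat_lit 283) (nat_lit 193)) (XT.lf (nat_lit 0) (nat_lit 32198635092) (nat_lit 228) (nat_lit 4899973025) (nat_lit 76) (nat_lit 29227090405) (nat_lit 20) (nat_lit 5) (nat_lit 23) (nat_lit 5) (nat_lit 21) (nat_lit 5) (nat_lit 305) (nat_lit 283) (nat_lit 192)))) (XT.nd (nat_lit 156) (nat_lit 152) (nat_lit 0) (XT.nd (nat_lit 78) (nat_lit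 0) (nat_lit 0) (XT.lf (nat_lit 0) (nat_lit 26029988801) (nat_lit 152) (nat_lit 18626196047) (nat_lit 228) (nat_lit 25328571195) (nat_lit 18) (nat_lit 5) (nat_lit 20) (nat_lit 5) (nat_lit 21) (nat_lit 5) (nat_lit 306) (nat_lit 283) (nat_lit 191)) (XT.lf (nat_lit 0) (nat_lit 58276938057) (nat_lit 228) (nat_lit 14252332350) (nat_lit 76) (nat_lit 1393946669) (nat_lit 18) (nat_lit 5) (nat_lit 21) (nat_lit 5) (nat_lit 19) (nat_lit 4) (nat_lit 307) (nat_lit 283) (nat_lit 190))) (XT.nd (nat_lit 78) (nat_lit 76) (nat_lit 0) (XT.lf (nat_lit 0) (nat_lit 18251628571) (nat_lit 76) (nat_lit 55655975352) (nat_lit 152) (nat_lit 4195537234) (nat_lit 17) (nat_lit 5) (nat_lit 18) (nat_lit 5) (nat_lit 19) (nat_lit 4) (nat_lit 308) (nat_lit 283) (nat_lit 189)) (XT.lf (nat_lit 0) (nat_lit 8159838580) (nat_lit 152) (nat_lit 28630404964) (nat_lit 76) (nat_lit 45779712795) (nat_lit 16) (nat_lit 5) (nat_lit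 18) (nat_lit 5) (nat_lit 17) (nat_lit 5) (nat_lit 309) (nat_lit 283) (nat_lit 188))))) (XT.nd (nat_lit 312) (nat_lit 152) (nat_lit 0) (XT.nd (nat_lit 156) (nat_lit 76) (nat_lit 0) (XT.nd (nat_lit 78) (nat_lit 0) (nat_lit 0) (XT.lf (nat_lit 0) (nat_lit 5237794079) (nat_lit 152) (nat_lit 16162863240) (nat_lit 228) (nat_lit 65974851994) (nat_lit 14) (nat_lit 5) (nat_lit 16) (nat_lit 5) (nat_lit 17) (nat_lit 5) (nat_lit 310) (nat_lit 283) (nat_lit 187)) (XT.lf (nat_lit 0) (nat_lit 36648702779) (nat_lit 228) (nat_lit 49230282484) (nat_lit 76) (nat_lit 6610689040) (nat_lit 14) (nat_lit 5) (nat_lit 17) (nat_lit 5) (nat_lit 15) (nat_lit 4) (nat_lit 311) (nat_lit 283) (nat_lit 186))) (XT.nd (nat_lit 78) (nat_lit 76) (nat_lit 0) (XT.lf (nat_lit 0) (nat_lit 53534335879) (nat_lit 228) (nat_lit 14113490573) (nat_lit 76) (nat_lit 30331730847) (nat_lit 14) (nat_lit 5) (nat_lit 17) (nat_lit 5) (nat_lit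 15) (nat_lit 4) (nat_lit 312) (nat_lit 283) (nat_lit 185)) (XT.lf (nat_lit 0) (nat_lit 25063242132) (nat_lit 76) (nat_lit 47308431826) (nat_lit 152) (nat_lit 31488892637) (nat_lit 13) (nat_lit 5) (nat_lit 14) (nat_lit 5) (nat_lit 15) (nat_lit 4) (nat_lit 313) (nat_lit 283) (nat_lit 184)))) (XT.nd (nat_lit 156) (nat_lit 152) (nat_lit 0) (XT.nd (nat_lit 78) (nat_lit 0) (nat_lit 0) (XT.lf (nat_lit 0) (nat_lit 68173672923) (nat_lit 76) (nat_lit 24926364529) (nat_lit 152) (nat_lit 17081299824) (nat_lit 13) (nat_lit 5) (nat_lit 14) (nat_lit 5) (nat_lit 15) (nat_lit 4) (nat_lit 314) (nat_lit 283) (nat_lit 183)) (XT.lf (nat_lit 0) (nat_lit 114730079615) (nat_lit 76) (nat_lit 754877933) (nat_lit 152) (nat_lit 1522952497) (nat_lit 13) (nat_lit 5) (nat_lit 14) (nat_lit 5) (nat_lit 15) (nat_lit 4) (nat_lit 315) (nat_lit 283) (nat_lit 182))) (XT.nd (nat_lit 78) (nat_lit 0) (nat_lit 0) (XT.lf (nat_lit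 0) (nat_lit 16178975316) (nat_lit 152) (nat_lit 82535274003) (nat_lit 76) (nat_lit 25503900726) (nat_lit 11) (nat_lit 5) (nat_lit 13) (nat_lit 5) (nat_lit 12) (nat_lit 4) (nat_lit 316) (nat_lit 283) (nat_lit 181)) (XT.lf (nat_lit 0) (nat_lit 35296683643) (nat_lit 152) (nat_lit 42773796298) (nat_lit 76) (nat_lit 53925015033) (nat_lit 11) (nat_lit 5) (nat_lit 13) (nat_lit 5) (nat_lit 12) (nat_lit 4) (nat_lit 317) (nat_lit 283) (nat_lit 180))))))))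
noncomputable def xc87 : XT := (XT.nd (nat_lit 2184) (nat_lit 0) (nat_lit 0) (XT.nd (nat_lit 1092) (nat_lit 228) (nat_lit 0) (XT.nd (nat_lit 546) (nat_lit 152) (nat_lit 0) (XT.nd (nat_lit 234) (nat_lit 152) (nat_lit 0) (XT.nd (nat_lit 78) (nat_lit 0) (nat_lit 0) (XT.lf (nat_lit 0) (nat_lit 174779245) (nat_lit 76) (nat_lit 55771751798) (nat_lit 152) (nat_lit 84448281186) (nat_lit 10) (nat_lit 5) (nat_lit 11) (nat_lit 5) (nat_lit 12) (nat_lit 4) (nat_lit 318) (nat_lit 283) (nat_lit 179)) (XT.nd (nat_lit 78) (nat_lit 0) (nat_lit 0) (XT.lf (nat_lit 0) (nat_lit 48989325884) (nat_lit 76) (nat_lit 30427120321) (nat_lit 152) (nat_lit 69956184599) (nat_lit 10) (nat_lit 5) (nat_lit 11) (nat_lit 5) (nat_lit 12) (nat_lit 4) (nat_lit 319) (nat_lit 283) (nat_lit 178)) (XT.lf (nat_lit 0) (nat_lit 101706722696) (nat_lit 76) (nat_lit 3055906494) (nat_lit 152) (nat_lit 54306153874) (nat_lit 10) (nat_lit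 5) (nat_lit 11) (nat_lit 5) (nat_lit 12) (nat_lit 4) (nat_lit 320) (nat_lit 283) (nat_lit 177)))) (XT.nd (nat_lit 156) (nat_lit 76) (nat_lit 0) (XT.nd (nat_lit 78) (nat_lit 76) (nat_lit 0) (XT.lf (nat_lit 0) (nat_lit 132772703587) (nat_lit 152) (nat_lit 11538782606) (nat_lit 0) (nat_lit 25178247572) (nat_lit 10) (nat_lit 5) (nat_lit 12) (nat_lit 4) (nat_lit 10) (nat_lit 4) (nat_lit 321) (nat_lit 283) (nat_lit 176)) (XT.lf (nat_lit 0) (nat_lit 39863037893) (nat_lit 76) (nat_lit 124197470572) (nat_lit 76) (nat_lit 16600899951) (nat_lit 9) (nat_lit 4) (nat_lit 10) (nat_lit 5) (nat_lit 10) (nat_lit 4) (nat_lit 322) (nat_lit 283) (nat_lit 175))) (XT.nd (nat_lit 78) (nat_lit 0) (nat_lit 0) (XT.lf (nat_lit 0) (nat_lit 5190706845) (nat_lit 152) (nat_lit 96801858350) (nat_lit 76) (nat_lit 90698591013) (nat_lit 8) (nat_lit 5) (nat_lit 10) (nat_lit 5) (nat_lit 9) (nat_lit 4) (nat_lit 323) (nat_lit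 283) (nat_lit 174)) (XT.lf (nat_lit 0) (nat_lit 27827697674) (nat_lit 152) (nat_lit 49718730359) (nat_lit 76) (nat_lit 128102447065) (nat_lit 8) (nat_lit 5) (nat_lit 10) (nat_lit 5) (nat_lit 9) (nat_lit 4) (nat_lit 324) (nat_lit 283) (nat_lit 173))))) (XT.nd (nat_lit 234) (nat_lit 76) (nat_lit 0) (XT.nd (nat_lit 78) (nat_lit 0) (nat_lit 0) (XT.lf (nat_lit 0) (nat_lit 1188742326) (nat_lit 76) (nat_lit 51114508871) (nat_lit 152) (nat_lit 167337753392) (nat_lit 7) (nat_lit 5) (nat_lit 8) (nat_lit 5) (nat_lit 9) (nat_lit 4) (nat_lit 325) (nat_lit 283) (nat_lit 172)) (XT.nd (nat_lit 78) (nat_lit 0) (nat_lit 0) (XT.lf (nat_lit 0) (nat_lit 58994634670) (nat_lit 76) (nat_lit 21100658182) (nat_lit 152) (nat_lit 154548537343) (nat_lit 7) (nat_lit 5) (nat_lit 8) (nat_lit 5) (nat_lit 9) (nat_lit 4) (nat_lit 326) (nat_lit 283) (nat_lit 171)) (XT.lf (nat_lit 0) (nat_lit 110381906194) (nat_lit 152)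 (nat_lit 129695645844) (nat_lit 0) (nat_lit 10747634314) (nat_lit 7) (nat_lit 5) (nat_lit 9) (nat_lit 4) (nat_lit 7) (nat_lit 4) (nat_lit 327) (nat_lit 283) (nat_lit 170)))) (XT.nd (nat_lit 156) (nat_lit 76) (nat_lit 0) (XT.nd (nat_lit 78) (nat_lit 0) (nat_lit 0) (XT.lf (nat_lit 0) (nat_lit 143638683527) (nat_lit 152) (nat_lit 80615411968) (nat_lit 0) (nat_lit 44003177795) (nat_lit 7) (nat_lit 5) (nat_lit 9) (nat_lit 4) (nat_lit 7) (nat_lit 4) (nat_lit 328) (nat_lit 283) (nat_lit 169)) (XT.lf (nat_lit 0) (nat_lit 179555230715) (nat_lit 152) (nat_lit 27610176729) (nat_lit 0) (nat_lit 79918582527) (nat_lit 7) (nat_lit 5) (nat_lit 9) (nat_lit 4) (nat_lit 7) (nat_lit 4) (nat_lit 329) (nat_lit 283) (nat_lit 168))) (XT.nd (nat_lit 78) (nat_lit 0) (nat_lit 0) (XT.lf (nat_lit 0) (nat_lit 31194647580) (nat_lit 76) (nat_lit 187899971001) (nat_lit 76) (nat_lit 88262264983) (nat_lit 6) (nat_lit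 4) (nat_lit 7) (nat_lit 5) (nat_lit 7) (nat_lit 4) (nat_lit 330) (nat_lit 283) (nat_lit 167)) (XT.lf (nat_lit 0) (nat_lit 96272793915) (nat_lit 76) (nat_lit 166278581809) (nat_lit 76) (nat_lit 66639896319) (nat_lit 6) (nat_lit 4) (nat_lit 7) (nat_lit 5) (nat_lit 7) (nat_lit 4) (nat_lit 331) (nat_lit 283) (nat_lit 166)))))) (XT.nd (nat_lit 546) (nat_lit 76) (nat_lit 0) (XT.nd (nat_lit 234) (nat_lit 76) (nat_lit 0) (XT.nd (nat_lit 78) (nat_lit 76) (nat_lit 0) (XT.lf (nat_lit 0) (nat_lit 166556007572) (nat_lit 76) (nat_lit 142928024280) (nat_lit 76) (nat_lit 43288431872) (nat_lit 6) (nat_lit 4) (nat_lit 7) (nat_lit 5) (nat_lit 7) (nat_lit 4) (nat_lit 332) (nat_lit 283) (nat_lit 165)) (XT.nd (nat_lit 78) (nat_lit 76) (nat_lit 0) (XT.lf (nat_lit 0) (nat_lit 242460781670) (nat_lit 76) (nat_lit 117709924740) (nat_lit 76) (nat_lit 18069492592) (nat_lit 6) (nat_lit 4) (nat_lit 7) (nat_lit 5)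 (nat_lit 7) (nat_lit 4) (nat_lit 333) (nat_lit 283) (nat_lit 164)) (XT.lf (nat_lit 0) (nat_lit 8707828279) (nat_lit 152) (nat_lit 81528926861) (nat_lit 76) (nat_lit 315491006540) (nat_lit 5) (nat_lit 5) (nat_lit 7) (nat_lit 5) (nat_lit 6) (nat_lit 4) (nat_lit 334) (nat_lit 283) (nat_lit 163)))) (XT.nd (nat_lit 156) (nat_lit 0) (nat_lit 0) (XT.nd (nat_lit 78) (nat_lit 76) (nat_lit 0) (XT.lf (nat_lit 0) (nat_lit 36650589744) (nat_lit 152) (nat_lit 23408702957) (nat_lit 76) (nat_lit 375317532112) (nat_lit 5) (nat_lit 5) (nat_lit 7) (nat_lit 5) (nat_lit 6) (nat_lit 4) (nat_lit 335) (nat_lit 283) (nat_lit 162)) (XT.lf (nat_lit 0) (nat_lit 41432882857) (nat_lit 76) (nat_lit 26391866707) (nat_lit 152) (nat_lit 399493385778) (nat_lit 4) (nat_lit 5) (nat_lit 5) (nat_lit 5) (nat_lit 6) (nat_lit 4) (nat_lit 336) (nat_lit 283) (nat_lit 161))) (XT.nd (nat_lit 78) (nat_lit 0) (nat_lit 0) (XT.lf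 (nat_lit 0) (nat_lit 102388776206) (nat_lit 152) (nat_lit 389227758775) (nat_lit 0) (nat_lit 10126541511) (nat_lit 4) (nat_lit 5) (nat_lit 6) (nat_lit 4) (nat_lit 4) (nat_lit 4) (nat_lit 337) (nat_lit 283) (nat_lit 160)) (XT.lf (nat_lit 0) (nat_lit 140402984258) (nat_lit 152) (nat_lit 350324004013) (nat_lit 0) (nat_lit 48140220385) (nat_lit 4) (nat_lit 5) (nat_lit 6) (nat_lit 4) (nat_lit 4) (nat_lit 4) (nat_lit 338) (nat_lit 283) (nat_lit 159))))) (XT.nd (nat_lit 234) (nat_lit 76) (nat_lit 0) (XT.nd (nat_lit 78) (nat_lit 0) (nat_lit 0) (XT.lf (nat_lit 0) (nat_lit 181457918073) (nat_lit 152) (nat_lit 308308722400) (nat_lit 0) (nat_lit 89194664221) (nat_lit 4) (nat_lit 5) (nat_lit 6) (nat_lit 4) (nat_lit 4) (nat_lit 4) (nat_lit 339) (nat_lit 283) (nat_lit 158)) (XT.nd (nat_lit 78) (nat_lit 0) (nat_lit 0) (XT.lf (nat_lit 0) (nat_lit 225796866148) (nat_lit 152) (nat_lit 262932934490) (nat_lit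 0) (nat_lit 133533158611) (nat_lit 4) (nat_lit 5) (nat_lit 6) (nat_lit 4) (nat_lit 4) (nat_lit 4) (nat_lit 340) (nat_lit 283) (nat_lit 157)) (XT.lf (nat_lit 0) (nat_lit 273682577805) (nat_lit 152) (nat_lit 213927746725) (nat_lit 0) (nat_lit 181418450188) (nat_lit 4) (nat_lit 5) (nat_lit 6) (nat_lit 4) (nat_lit 4) (nat_lit 4) (nat_lit 341) (nat_lit 283) (nat_lit 156)))) (XT.nd (nat_lit 156) (nat_lit 76) (nat_lit 0) (XT.nd (nat_lit 78) (nat_lit 0) (nat_lit 0) (XT.lf (nat_lit 0) (nat_lit 325398820222) (nat_lit 152) (nat_lit 161002757992) (nat_lit 0) (nat_lit 233134303645) (nat_lit 4) (nat_lit 5) (nat_lit 6) (nat_lit 4) (nat_lit 4) (nat_lit 4) (nat_lit 342) (nat_lit 283) (nat_lit 155)) (XT.lf (nat_lit 0) (nat_lit 381252060024) (nat_lit 152) (nat_lit 103844338730) (nat_lit 0) (nat_lit 288987183296) (nat_lit 4) (nat_lit 5) (nat_lit 6) (nat_lit 4) (nat_lit 4) (nat_lit 4) (nat_lit 343) (nat_lit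 283) (nat_lit 154))) (XT.nd (nat_lit 78) (nat_lit 76) (nat_lit 0) (XT.lf (nat_lit 0) (nat_lit 441573279370) (nat_lit 152) (nat_lit 42113772377) (nat_lit 0) (nat_lit 349308069171) (nat_lit 4) (nat_lit 5) (nat_lit 6) (nat_lit 4) (nat_lit 4) (nat_lit 4) (nat_lit 344) (nat_lit 283) (nat_lit 153)) (XT.lf (nat_lit 0) (nat_lit 25847761543) (nat_lit 76) (nat_lit 481493815083) (nat_lit 76) (nat_lit 389228296113) (nat_lit 3) (nat_lit 4) (nat_lit 4) (nat_lit 5) (nat_lit 4) (nat_lit 4) (nat_lit 345) (nat_lit 283) (nat_lit 152))))))) (XT.nd (nat_lit 1092) (nat_lit 0) (nat_lit 0) (XT.nd (nat_lit 546) (nat_lit 0) (nat_lit 0) (XT.nd (nat_lit 234) (nat_lit 0) (nat_lit 0) (XT.nd (nat_lit 78) (nat_lit 0) (nat_lit 0) (XT.lf (nat_lit 0) (nat_lit 101640790614) (nat_lit 76) (nat_lit 477881761045) (nat_lit 76) (nat_lit 385615956177) (nat_lit 3) (nat_lit 4) (nat_lit 4) (nat_lit 5) (nat_lit 4) (nat_lit 4) (nat_lit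 346) (nat_lit 283) (nat_lit 151)) (XT.nd (nat_lit 78) (nat_lit 0) (nat_lit 0) (XT.lf (nat_lit 0) (nat_lit 183496822089) (nat_lit 76) (nat_lit 473980950039) (nat_lit 76) (nat_lit 381714880450) (nat_lit 3) (nat_lit 4) (nat_lit 4) (nat_lit 5) (nat_lit 4) (nat_lit 4) (nat_lit 347) (nat_lit 283) (nat_lit 150)) (XT.lf (nat_lit 0) (nat_lit 271900928749) (nat_lit 76) (nat_lit 469768266148) (nat_lit 76) (nat_lit 377501951447) (nat_lit 3) (nat_lit 4) (nat_lit 4) (nat_lit 5) (nat_lit 4) (nat_lit 4) (nat_lit 348) (nat_lit 283) (nat_lit 149)))) (XT.nd (nat_lit 156) (nat_lit 0) (nat_lit 0) (XT.nd (nat_lit 78) (nat_lit 0) (nat_lit 0) (XT.lf (nat_lit 0) (nat_lit 367376986779) (nat_lit 76) (nat_lit 465218745319) (nat_lit 76) (nat_lit 372952203662) (nat_lit 3) (nat_lit 4) (nat_lit 4) (nat_lit 5) (nat_lit 4) (nat_lit 4) (nat_lit 349) (nat_lit 283) (nat_lit 148)) (XT.lf (nat_lit 0) (nat_lit 470490780228)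 (nat_lit 76) (nat_lit 460305427427) (nat_lit 76) (nat_lit 368038675627) (nat_lit 3) (nat_lit 4) (nat_lit 4) (nat_lit 5) (nat_lit 4) (nat_lit 4) (nat_lit 350) (nat_lit 283) (nat_lit 147))) (XT.nd (nat_lit 78) (nat_lit 0) (nat_lit 0) (XT.lf (nat_lit 0) (nat_lit 581853353798) (nat_lit 76) (nat_lit 454999196517) (nat_lit 76) (nat_lit 362732250139) (nat_lit 3) (nat_lit 4) (nat_lit 4) (nat_lit 5) (nat_lit 4) (nat_lit 4) (nat_lit 351) (nat_lit 283) (nat_lit 146)) (XT.lf (nat_lit 0) (nat_lit 702124633851) (nat_lit 76) (nat_lit 449268608256) (nat_lit 76) (nat_lit 357001481713) (nat_lit 3) (nat_lit 4) (nat_lit 4) (nat_lit 5) (nat_lit 4) (nat_lit 4) (nat_lit 352) (nat_lit 283) (nat_lit 145))))) (XT.nd (nat_lit 234) (nat_lit 0) (nat_lit 0) (XT.nd (nat_lit 78) (nat_lit 0) (nat_lit 0) (XT.lf (nat_lit 0) (nat_lit 832017339083) (nat_lit 76) (nat_lit 443079703602) (nat_lit 76) (nat_lit 350812410240)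 (nat_lit 3) (nat_lit 4) (nat_lit 4) (nat_lit 5) (nat_lit 4) (nat_lit 4) (nat_lit 353) (nat_lit 283) (nat_lit 144)) (XT.nd (nat_lit 78) (nat_lit 0) (nat_lit 0) (XT.lf (nat_lit 0) (nat_lit 972301204044) (nat_lit 76) (nat_lit 436395807566) (nat_lit 76) (nat_lit 344128359742) (nat_lit 3) (nat_lit 4) (nat_lit 4) (nat_lit 5) (nat_lit 4) (nat_lit 4) (nat_lit 354) (nat_lit 283) (nat_lit 143)) (XT.lf (nat_lit 0) (nat_lit 1123807540526) (nat_lit 76) (nat_lit 429177311873) (nat_lit 76) (nat_lit 336909721029) (nat_lit 3) (nat_lit 4) (nat_lit 4) (nat_lit 5) (nat_lit 4) (nat_lit 4) (nat_lit 355) (nat_lit 283) (nat_lit 142)))) (XT.nd (nat_lit 156) (nat_lit 0) (nat_lit 0) (XT.nd (nat_lit 78) (nat_lit 0) (nat_lit 0) (XT.lf (nat_lit 0) (nat_lit 1287434163856) (nat_lit 76) (nat_lit 421381440255) (nat_lit 76) (nat_lit 329113716984) (nat_lit 3) (nat_lit 4) (nat_lit 4) (nat_lit 5) (nat_lit 4) (nat_lit 4)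 (nat_lit 356) (nat_lit 283) (nat_lit 141)) (XT.lf (nat_lit 0) (nat_lit 1464150713284) (nat_lit 76) (nat_lit 412961994952) (nat_lit 76) (nat_lit 320694149065) (nat_lit 3) (nat_lit 4) (nat_lit 4) (nat_lit 5) (nat_lit 4) (nat_lit 4) (nat_lit 357) (nat_lit 283) (nat_lit 140))) (XT.nd (nat_lit 78) (nat_lit 0) (nat_lit 0) (XT.lf (nat_lit 0) (nat_lit 1655004397992) (nat_lit 76) (nat_lit 403869082956) (nat_lit 76) (nat_lit 311601123534) (nat_lit 3) (nat_lit 4) (nat_lit 4) (nat_lit 5) (nat_lit 4) (nat_lit 4) (nat_lit 358) (nat_lit 283) (nat_lit 139)) (XT.lf (nat_lit 0) (nat_lit 1861126202777) (nat_lit 76) (nat_lit 394048820344) (nat_lit 76) (nat_lit 301780755798) (nat_lit 3) (nat_lit 4) (nat_lit 4) (nat_lit 5) (nat_lit 4) (nat_lit 4) (nat_lit 359) (nat_lit 283) (nat_lit 138)))))) (XT.nd (nat_lit 35178) (nat_lit 0) (nat_lit 2052) (XT.nd (nat_lit 34866) (nat_lit 0) (nat_lit 2888) (XT.nd (nat_lit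 34710) (nat_lit 0) (nat_lit 2812) (XT.lf (nat_lit 0) (nat_lit 2083737590187) (nat_lit 76) (nat_lit 383443012967) (nat_lit 76) (nat_lit 291174851083) (nat_lit 3) (nat_lit 4) (nat_lit 4) (nat_lit 5) (nat_lit 4) (nat_lit 4) (nat_lit 360) (nat_lit 283) (nat_lit 137)) (XT.nd (nat_lit 78) (nat_lit 0) (nat_lit 0) (XT.lf (nat_lit 0) (nat_lit 5887145799) (nat_lit 532) (nat_lit 3564154477) (nat_lit 532) (nat_lit 3564154477) (nat_lit 40) (nat_lit 3) (nat_lit 47) (nat_lit 3) (nat_lit 47) (nat_lit 5) (nat_lit 284) (nat_lit 284) (nat_lit 212)) (XT.lf (nat_lit 76) (nat_lit 4570379396) (nat_lit 0) (nat_lit 7872287381) (nat_lit 532) (nat_lit 14613313667) (nat_lit 41) (nat_lit 5) (nat_lit 40) (nat_lit 3) (nat_lit 47) (nat_lit 5) (nat_lit 285) (nat_lit 284) (nat_lit 211)))) (XT.nd (nat_lit 156) (nat_lit 0) (nat_lit 0) (XT.nd (nat_lit 78) (nat_lit 0) (nat_lit 0) (XT.lf (nat_lit 0) (nat_lit 13452868208)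 (nat_lit 456) (nat_lit 10645179711) (nat_lit 532) (nat_lit 4041977969) (nat_lit 41) (nat_lit 5) (nat_lit 47) (nat_lit 5) (nat_lit 48) (nat_lit 5) (nat_lit 286) (nat_lit 284) (nat_lit 210)) (XT.lf (nat_lit 76) (nat_lit 2034364257) (nat_lit 0) (nat_lit 12754793693) (nat_lit 532) (nat_lit 14502049812) (nat_lit 42) (nat_lit 5) (nat_lit 41) (nat_lit 5) (nat_lit 48) (nat_lit 5) (nat_lit 287) (nat_lit 284) (nat_lit 209))) (XT.nd (nat_lit 78) (nat_lit 0) (nat_lit 76) (XT.lf (nat_lit 76) (nat_lit 16328406119) (nat_lit 0) (nat_lit 187349035) (nat_lit 532) (nat_lit 13996088697) (nat_lit 42) (nat_lit 5) (nat_lit 41) (nat_lit 5) (nat_lit 48) (nat_lit 5) (nat_lit 288) (nat_lit 284) (nat_lit 208)) (XT.lf (nat_lit 0) (nat_lit 18695367836) (nat_lit 456) (nat_lit 391606952) (nat_lit 532) (nat_lit 12717994661) (nat_lit 42) (nat_lit 5) (nat_lit 48) (nat_lit 5) (nat_lit 49) (nat_lit 5) (nat_lit 289) (nat_lit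 284) (nat_lit 207))))) (XT.nd (nat_lit 312) (nat_lit 532) (nat_lit 0) (XT.nd (nat_lit 156) (nat_lit 380) (nat_lit 0) (XT.nd (nat_lit 78) (nat_lit 0) (nat_lit 76) (XT.lf (nat_lit 76) (nat_lit 15256793975) (nat_lit 0) (nat_lit 6157835355) (nat_lit 532) (nat_lit 11757720822) (nat_lit 43) (nat_lit 5) (nat_lit 42) (nat_lit 5) (nat_lit 49) (nat_lit 5) (nat_lit 290) (nat_lit 284) (nat_lit 206)) (XT.lf (nat_lit 0) (nat_lit 24544020575) (nat_lit 456) (nat_lit 2662463136) (nat_lit 76) (nat_lit 7427255904) (nat_lit 43) (nat_lit 5) (nat_lit 49) (nat_lit 5) (nat_lit 44) (nat_lit 5) (nat_lit 291) (nat_lit 284) (nat_lit 205))) (XT.nd (nat_lit 78) (nat_lit 0) (nat_lit 0) (XT.lf (nat_lit 0) (nat_lit 14364375021) (nat_lit 456) (nat_lit 14059126712) (nat_lit 532) (nat_lit 7748582938) (nat_lit 37) (nat_lit 5) (nat_lit 43) (nat_lit 5) (nat_lit 44) (nat_lit 5) (nat_lit 292) (nat_lit 284) (nat_lit 204))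 (XT.lf (nat_lit 0) (nat_lit 32686036255) (nat_lit 532) (nat_lit 4933608433) (nat_lit 76) (nat_lit 208058839) (nat_lit 37) (nat_lit 5) (nat_lit 44) (nat_lit 5) (nat_lit 38) (nat_lit 5) (nat_lit 293) (nat_lit 284) (nat_lit 203)))) (XT.nd (nat_lit 156) (nat_lit 228) (nat_lit 0) (XT.nd (nat_lit 78) (nat_lit 76) (nat_lit 0) (XT.lf (nat_lit 0) (nat_lit 13600554101) (nat_lit 228) (nat_lit 24376322375) (nat_lit 304) (nat_lit 1583931352) (nat_lit 34) (nat_lit 5) (nat_lit 37) (nat_lit 5) (nat_lit 38) (nat_lit 5) (nat_lit 294) (nat_lit 284) (nat_lit 202)) (XT.lf (nat_lit 0) (nat_lit 2278991524) (nat_lit 304) (nat_lit 7586754035) (nat_lit 76) (nat_lit 31551803510) (nat_lit 33) (nat_lit 5) (nat_lit 37) (nat_lit 5) (nat_lit 34) (nat_lit 5) (nat_lit 295) (nat_lit 284) (nat_lit 201))) (XT.nd (nat_lit 78) (nat_lit 0) (nat_lit 0) (XT.lf (nat_lit 0) (nat_lit 6818728655) (nat_lit 304) (nat_lit 30690233132)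 (nat_lit 76) (nat_lit 5874324240) (nat_lit 30) (nat_lit 5) (nat_lit 34) (nat_lit 5) (nat_lit 31) (nat_lit 5) (nat_lit 296) (nat_lit 284) (nat_lit 200)) (XT.lf (nat_lit 0) (nat_lit 12186437102) (nat_lit 304) (nat_lit 10729653133) (nat_lit 76) (nat_lit 22553023145) (nat_lit 30) (nat_lit 5) (nat_lit 34) (nat_lit 5) (nat_lit 31) (nat_lit 5) (nat_lit 297) (nat_lit 284) (nat_lit 199))))))))
noncomputable def xc88 : XT := (XT.nd (nat_lit 2184) (nat_lit 380) (nat_lit 0) (XT.nd (nat_lit 1092) (nat_lit 456) (nat_lit 0) (XT.nd (nat_lit 546) (nat_lit 456) (nat_lit 0) (XT.nd (nat_lit 234) (nat_lit 380) (nat_lit 0) (XT.nd (nat_lit 78) (nat_lit 152) (nat_lit 0) (XT.lf (nat_lit 0) (nat_lit 11393037323) (nat_lit 228) (nat_lit 6860561043) (nat_lit 304) (nat_lit 29446619391) (nat_lit 27) (nat_lit 5) (nat_lit 30) (nat_lit 5) (nat_lit 31) (nat_lit 5) (nat_lit 298) (nat_lit 284) (nat_lit 198)) (XT.nd (nat_lit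 78) (nat_lit 152) (nat_lit 0) (XT.lf (nat_lit 0) (nat_lit 25355349829) (nat_lit 304) (nat_lit 14455083940) (nat_lit 76) (nat_lit 10255452042) (nat_lit 27) (nat_lit 5) (nat_lit 31) (nat_lit 5) (nat_lit 28) (nat_lit 5) (nat_lit 299) (nat_lit 284) (nat_lit 197)) (XT.lf (nat_lit 0) (nat_lit 9434451157) (nat_lit 152) (nat_lit 23992366485) (nat_lit 228) (nat_lit 19161875338) (nat_lit 25) (nat_lit 5) (nat_lit 27) (nat_lit 5) (nat_lit 28) (nat_lit 5) (nat_lit 300) (nat_lit 284) (nat_lit 196)))) (XT.nd (nat_lit 156) (nat_lit 228) (nat_lit 0) (XT.nd (nat_lit 78) (nat_lit 152) (nat_lit 0) (XT.lf (nat_lit 0) (nat_lit 36052853787) (nat_lit 152) (nat_lit 6483013366) (nat_lit 228) (nat_lit 12746119326) (nat_lit 25) (nat_lit 5) (nat_lit 27) (nat_lit 5) (nat_lit 28) (nat_lit 5) (nat_lit 301) (nat_lit 284) (nat_lit 195)) (XT.lf (nat_lit 0) (nat_lit 6638938033) (nat_lit 152) (nat_lit 46190104386) (nat_lit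 228) (nat_lit 5325278986) (nat_lit 23) (nat_lit 5) (nat_lit 25) (nat_lit 5) (nat_lit 26) (nat_lit 5) (nat_lit 302) (nat_lit 284) (nat_lit 194))) (XT.nd (nat_lit 78) (nat_lit 152) (nat_lit 0) (XT.lf (nat_lit 0) (nat_lit 3259415520) (nat_lit 228) (nat_lit 25795417226) (nat_lit 76) (nat_lit 32140067905) (nat_lit 22) (nat_lit 5) (nat_lit 25) (nat_lit 5) (nat_lit 23) (nat_lit 5) (nat_lit 303) (nat_lit 284) (nat_lit 193)) (XT.lf (nat_lit 0) (nat_lit 1936684973) (nat_lit 152) (nat_lit 10350212012) (nat_lit 228) (nat_lit 52177274564) (nat_lit 20) (nat_lit 5) (nat_lit 22) (nat_lit 5) (nat_lit 23) (nat_lit 5) (nat_lit 304) (nat_lit 284) (nat_lit 192))))) (XT.nd (nat_lit 234) (nat_lit 304) (nat_lit 0) (XT.nd (nat_lit 78) (nat_lit 152) (nat_lit 0) (XT.lf (nat_lit 0) (nat_lit 22994327027) (nat_lit 228) (nat_lit 34843547870) (nat_lit 76) (nat_lit 10080496634) (nat_lit 20) (nat_lit 5) (nat_lit 23)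 (nat_lit 5) (nat_lit 21) (nat_lit 5) (nat_lit 305) (nat_lit 284) (nat_lit 191)) (XT.nd (nat_lit 78) (nat_lit 152) (nat_lit 0) (XT.lf (nat_lit 0) (nat_lit 34824620462) (nat_lit 228) (nat_lit 5217545545) (nat_lit 76) (nat_lit 31585446852) (nat_lit 20) (nat_lit 5) (nat_lit 23) (nat_lit 5) (nat_lit 21) (nat_lit 5) (nat_lit 306) (nat_lit 284) (nat_lit 190)) (XT.lf (nat_lit 0) (nat_lit 28184929041) (nat_lit 152) (nat_lit 20091879065) (nat_lit 228) (nat_lit 27302754088) (nat_lit 18) (nat_lit 5) (nat_lit 20) (nat_lit 5) (nat_lit 21) (nat_lit 5) (nat_lit 307) (nat_lit 284) (nat_lit 189)))) (XT.nd (nat_lit 156) (nat_lit 228) (nat_lit 0) (XT.nd (nat_lit 78) (nat_lit 76) (nat_lit 0) (XT.lf (nat_lit 0) (nat_lit 62984200135) (nat_lit 228) (nat_lit 15322214918) (nat_lit 76) (nat_lit 1526935962) (nat_lit 18) (nat_lit 5) (nat_lit 21) (nat_lit 5) (nat_lit 19) (nat_lit 4) (nat_lit 308) (nat_lit 284)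 (nat_lit 188)) (XT.lf (nat_lit 0) (nat_lit 19780283029) (nat_lit 76) (nat_lit 60083342988) (nat_lit 152) (nat_lit 4484186975) (nat_lit 17) (nat_lit 5) (nat_lit 18) (nat_lit 5) (nat_lit 19) (nat_lit 4) (nat_lit 309) (nat_lit 284) (nat_lit 187))) (XT.nd (nat_lit 78) (nat_lit 152) (nat_lit 0) (XT.lf (nat_lit 0) (nat_lit 8853961264) (nat_lit 152) (nat_lit 30855121210) (nat_lit 76) (nat_lit 49463072339) (nat_lit 16) (nat_lit 5) (nat_lit 18) (nat_lit 5) (nat_lit 17) (nat_lit 5) (nat_lit 310) (nat_lit 284) (nat_lit 186)) (XT.lf (nat_lit 0) (nat_lit 5720870056) (nat_lit 152) (nat_lit 17431654014) (nat_lit 228) (nat_lit 71209756426) (nat_lit 14) (nat_lit 5) (nat_lit 16) (nat_lit 5) (nat_lit 17) (nat_lit 5) (nat_lit 311) (nat_lit 284) (nat_lit 185)))))) (XT.nd (nat_lit 546) (nat_lit 228) (nat_lit 0) (XT.nd (nat_lit 234) (nat_lit 152) (nat_lit 0) (XT.nd (nat_lit 78) (nat_lit 76) (nat_lit 0) (XT.lf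 (nat_lit 0) (nat_lit 39618003720) (nat_lit 228) (nat_lit 53106909637) (nat_lit 76) (nat_lit 7160864337) (nat_lit 14) (nat_lit 5) (nat_lit 17) (nat_lit 5) (nat_lit 15) (nat_lit 4) (nat_lit 312) (nat_lit 284) (nat_lit 184)) (XT.nd (nat_lit 78) (nat_lit 76) (nat_lit 0) (XT.lf (nat_lit 0) (nat_lit 57851716749) (nat_lit 228) (nat_lit 15185351814) (nat_lit 76) (nat_lit 32778010216) (nat_lit 14) (nat_lit 5) (nat_lit 17) (nat_lit 5) (nat_lit 15) (nat_lit 4) (nat_lit 313) (nat_lit 284) (nat_lit 183)) (XT.lf (nat_lit 0) (nat_lit 27124070951) (nat_lit 76) (nat_lit 51070746698) (nat_lit 152) (nat_lit 33971854470) (nat_lit 13) (nat_lit 5) (nat_lit 14) (nat_lit 5) (nat_lit 15) (nat_lit 4) (nat_lit 314) (nat_lit 284) (nat_lit 182)))) (XT.nd (nat_lit 156) (nat_lit 152) (nat_lit 0) (XT.nd (nat_lit 78) (nat_lit 0) (nat_lit 0) (XT.lf (nat_lit 0) (nat_lit 73679205135) (nat_lit 76) (nat_lit 26899770289)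 (nat_lit 152) (nat_lit 18414331978) (nat_lit 13) (nat_lit 5) (nat_lit 14) (nat_lit 5) (nat_lit 15) (nat_lit 4) (nat_lit 315) (nat_lit 284) (nat_lit 181)) (XT.lf (nat_lit 0) (nat_lit 123956299297) (nat_lit 76) (nat_lit 796098351) (nat_lit 152) (nat_lit 1613796260) (nat_lit 13) (nat_lit 5) (nat_lit 14) (nat_lit 5) (nat_lit 15) (nat_lit 4) (nat_lit 316) (nat_lit 284) (nat_lit 180))) (XT.nd (nat_lit 78) (nat_lit 0) (nat_lit 0) (XT.lf (nat_lit 0) (nat_lit 17502187804) (nat_lit 152) (nat_lit 89088082168) (nat_lit 76) (nat_lit 27562971256) (nat_lit 11) (nat_lit 5) (nat_lit 13) (nat_lit 5) (nat_lit 12) (nat_lit 4) (nat_lit 317) (nat_lit 284) (nat_lit 179)) (XT.lf (nat_lit 0) (nat_lit 38147172467) (nat_lit 152) (nat_lit 46149390969) (nat_lit 76) (nat_lit 58256385191) (nat_lit 11) (nat_lit 5) (nat_lit 13) (nat_lit 5) (nat_lit 12) (nat_lit 4) (nat_lit 318) (nat_lit 284) (nat_lit 178))))) (XT.nd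 (nat_lit 234) (nat_lit 152) (nat_lit 0) (XT.nd (nat_lit 78) (nat_lit 0) (nat_lit 0) (XT.lf (nat_lit 0) (nat_lit 233898237) (nat_lit 76) (nat_lit 60214213172) (nat_lit 152) (nat_lit 91176174932) (nat_lit 10) (nat_lit 5) (nat_lit 11) (nat_lit 5) (nat_lit 12) (nat_lit 4) (nat_lit 319) (nat_lit 284) (nat_lit 177)) (XT.nd (nat_lit 78) (nat_lit 0) (nat_lit 0) (XT.lf (nat_lit 0) (nat_lit 52950265152) (nat_lit 76) (nat_lit 32843439234) (nat_lit 152) (nat_lit 75526782378) (nat_lit 10) (nat_lit 5) (nat_lit 11) (nat_lit 5) (nat_lit 12) (nat_lit 4) (nat_lit 320) (nat_lit 284) (nat_lit 176)) (XT.lf (nat_lit 0) (nat_lit 109881957915) (nat_lit 76) (nat_lit 3283850575) (nat_lit 152) (nat_lit 58626667490) (nat_lit 10) (nat_lit 5) (nat_lit 11) (nat_lit 5) (nat_lit 12) (nat_lit 4) (nat_lit 321) (nat_lit 284) (nat_lit 175)))) (XT.nd (nat_lit 156) (nat_lit 76) (nat_lit 0) (XT.nd (nat_lit 78) (nat_lit 76)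 (nat_lit 0) (XT.lf (nat_lit 0) (nat_lit 143415414759) (nat_lit 152) (nat_lit 12424746675) (nat_lit 0) (nat_lit 27207045913) (nat_lit 10) (nat_lit 5) (nat_lit 12) (nat_lit 4) (nat_lit 10) (nat_lit 4) (nat_lit 322) (nat_lit 284) (nat_lit 174)) (XT.lf (nat_lit 0) (nat_lit 43088279248) (nat_lit 76) (nat_lit 134117287581) (nat_lit 76) (nat_lit 17907105801) (nat_lit 9) (nat_lit 4) (nat_lit 10) (nat_lit 5) (nat_lit 10) (nat_lit 4) (nat_lit 323) (nat_lit 284) (nat_lit 173))) (XT.nd (nat_lit 78) (nat_lit 0) (nat_lit 0) (XT.lf (nat_lit 0) (nat_lit 5625197016) (nat_lit 152) (nat_lit 104511450628) (nat_lit 76) (nat_lit 97968235755) (nat_lit 8) (nat_lit 5) (nat_lit 10) (nat_lit 5) (nat_lit 9) (nat_lit 4) (nat_lit 324) (nat_lit 284) (nat_lit 172)) (XT.lf (nat_lit 0) (nat_lit 30071722398) (nat_lit 152) (nat_lit 53664232131) (nat_lit 76) (nat_lit 138363381220) (nat_lit 8) (nat_lit 5) (nat_lit 10)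 (nat_lit 5) (nat_lit 9) (nat_lit 4) (nat_lit 325) (nat_lit 284) (nat_lit 171))))))) (XT.nd (nat_lit 1092) (nat_lit 76) (nat_lit 0) (XT.nd (nat_lit 546) (nat_lit 152) (nat_lit 0) (XT.nd (nat_lit 234) (nat_lit 76) (nat_lit 0) (XT.nd (nat_lit 78) (nat_lit 0) (nat_lit 0) (XT.lf (nat_lit 0) (nat_lit 1315028328) (nat_lit 76) (nat_lit 55189722736) (nat_lit 152) (nat_lit 180706131893) (nat_lit 7) (nat_lit 5) (nat_lit 8) (nat_lit 5) (nat_lit 9) (nat_lit 4) (nat_lit 326) (nat_lit 284) (nat_lit 170)) (XT.nd (nat_lit 78) (nat_lit 0) (nat_lit 0) (XT.lf (nat_lit 0) (nat_lit 63743081940) (nat_lit 76) (nat_lit 22775797092) (nat_lit 152) (nat_lit 166895159432) (nat_lit 7) (nat_lit 5) (nat_lit 8) (nat_lit 5) (nat_lit 9) (nat_lit 4) (nat_lit 327) (nat_lit 284) (nat_lit 169)) (XT.lf (nat_lit 0) (nat_lit 119227526584) (nat_lit 152) (nat_lit 140043645597) (nat_lit 0) (nat_lit 11618804085) (nat_lit 7) (nat_lit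 5) (nat_lit 9) (nat_lit 4) (nat_lit 7) (nat_lit 4) (nat_lit 328) (nat_lit 284) (nat_lit 168)))) (XT.nd (nat_lit 156) (nat_lit 76) (nat_lit 0) (XT.nd (nat_lit 78) (nat_lit 0) (nat_lit 0) (XT.lf (nat_lit 0) (nat_lit 155143729964) (nat_lit 152) (nat_lit 87039041300) (nat_lit 0) (nat_lit 47533949635) (nat_lit 7) (nat_lit 5) (nat_lit 9) (nat_lit 4) (nat_lit 7) (nat_lit 4) (nat_lit 329) (nat_lit 284) (nat_lit 167)) (XT.lf (nat_lit 0) (nat_lit 193932567464) (nat_lit 152) (nat_lit 29795283807) (nat_lit 0) (nat_lit 86321807663) (nat_lit 7) (nat_lit 5) (nat_lit 9) (nat_lit 4) (nat_lit 7) (nat_lit 4) (nat_lit 330) (nat_lit 284) (nat_lit 166))) (XT.nd (nat_lit 78) (nat_lit 0) (nat_lit 0) (XT.lf (nat_lit 0) (nat_lit 33713326268) (nat_lit 76) (nat_lit 202921378901) (nat_lit 76) (nat_lit 95309712182) (nat_lit 6) (nat_lit 4) (nat_lit 7) (nat_lit 5) (nat_lit 7) (nat_lit 4) (nat_lit 331) (nat_lit 284)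 (nat_lit 165)) (XT.lf (nat_lit 0) (nat_lit 103996012689) (nat_lit 76) (nat_lit 179571063002) (nat_lit 76) (nat_lit 71958556544) (nat_lit 6) (nat_lit 4) (nat_lit 7) (nat_lit 5) (nat_lit 7) (nat_lit 4) (nat_lit 332) (nat_lit 284) (nat_lit 164))))) (XT.nd (nat_lit 234) (nat_lit 76) (nat_lit 0) (XT.nd (nat_lit 78) (nat_lit 76) (nat_lit 0) (XT.lf (nat_lit 0) (nat_lit 179900298604) (nat_lit 76) (nat_lit 154353187193) (nat_lit 76) (nat_lit 46739903199) (nat_lit 6) (nat_lit 4) (nat_lit 7) (nat_lit 5) (nat_lit 7) (nat_lit 4) (nat_lit 333) (nat_lit 284) (nat_lit 163)) (XT.nd (nat_lit 78) (nat_lit 76) (nat_lit 0) (XT.lf (nat_lit 0) (nat_lit 261875987191) (nat_lit 76) (nat_lit 127118312210) (nat_lit 76) (nat_lit 19504308274) (nat_lit 6) (nat_lit 4) (nat_lit 7) (nat_lit 5) (nat_lit 7) (nat_lit 4) (nat_lit 334) (nat_lit 284) (nat_lit 162)) (XT.lf (nat_lit 0) (nat_lit 9413904802) (nat_lit 152) (nat_lit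 88033748559) (nat_lit 76) (nat_lit 340737562665) (nat_lit 5) (nat_lit 5) (nat_lit 7) (nat_lit 5) (nat_lit 6) (nat_lit 4) (nat_lit 335) (nat_lit 284) (nat_lit 161)))) (XT.nd (nat_lit 156) (nat_lit 0) (nat_lit 0) (XT.nd (nat_lit 78) (nat_lit 76) (nat_lit 0) (XT.lf (nat_lit 0) (nat_lit 39591387164) (nat_lit 152) (nat_lit 25265202479) (nat_lit 76) (nat_lit 405349671349) (nat_lit 5) (nat_lit 5) (nat_lit 7) (nat_lit 5) (nat_lit 6) (nat_lit 4) (nat_lit 336) (nat_lit 284) (nat_lit 160)) (XT.lf (nat_lit 0) (nat_lit 44763300156) (nat_lit 76) (nat_lit 28495911117) (nat_lit 152) (nat_lit 431443687295) (nat_lit 4) (nat_lit 5) (nat_lit 5) (nat_lit 5) (nat_lit 6) (nat_lit 4) (nat_lit 337) (nat_lit 284) (nat_lit 159))) (XT.nd (nat_lit 78) (nat_lit 0) (nat_lit 0) (XT.lf (nat_lit 0) (nat_lit 110587894439) (nat_lit 152) (nat_lit 420350888192) (nat_lit 0) (nat_lit 10943090299) (nat_lit 4) (nat_lit 5)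 (nat_lit 6) (nat_lit 4) (nat_lit 4) (nat_lit 4) (nat_lit 338) (nat_lit 284) (nat_lit 158)) (XT.lf (nat_lit 0) (nat_lit 151642645348) (nat_lit 152) (nat_lit 378335950921) (nat_lit 0) (nat_lit 51997387522) (nat_lit 4) (nat_lit 5) (nat_lit 6) (nat_lit 4) (nat_lit 4) (nat_lit 4) (nat_lit 339) (nat_lit 284) (nat_lit 157)))))) (XT.nd (nat_lit 546) (nat_lit 0) (nat_lit 0) (XT.nd (nat_lit 234) (nat_lit 76) (nat_lit 0) (XT.nd (nat_lit 78) (nat_lit 0) (nat_lit 0) (XT.lf (nat_lit 0) (nat_lit 195981424065) (nat_lit 152) (nat_lit 332960481847) (nat_lit 0) (nat_lit 96335746161) (nat_lit 4) (nat_lit 5) (nat_lit 6) (nat_lit 4) (nat_lit 4) (nat_lit 4) (nat_lit 340) (nat_lit 284) (nat_lit 156)) (XT.nd (nat_lit 78) (nat_lit 0) (nat_lit 0) (XT.lf (nat_lit 0) (nat_lit 243866978908) (nat_lit 152) (nat_lit 283955589300) (nat_lit 0) (nat_lit 144220912042) (nat_lit 4) (nat_lit 5) (nat_lit 6) (nat_lit 4) (nat_lit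 4) (nat_lit 4) (nat_lit 341) (nat_lit 284) (nat_lit 155)) (XT.lf (nat_lit 0) (nat_lit 295583076129) (nat_lit 152) (nat_lit 231030873918) (nat_lit 0) (nat_lit 195936649113) (nat_lit 4) (nat_lit 5) (nat_lit 6) (nat_lit 4) (nat_lit 4) (nat_lit 4) (nat_lit 342) (nat_lit 284) (nat_lit 154)))) (XT.nd (nat_lit 156) (nat_lit 76) (nat_lit 0) (XT.nd (nat_lit 78) (nat_lit 0) (nat_lit 0) (XT.lf (nat_lit 0) (nat_lit 351436181488) (nat_lit 152) (nat_lit 173872707757) (nat_lit 0) (nat_lit 251789421001) (nat_lit 4) (nat_lit 5) (nat_lit 6) (nat_lit 4) (nat_lit 4) (nat_lit 4) (nat_lit 343) (nat_lit 284) (nat_lit 153)) (XT.lf (nat_lit 0) (nat_lit 411757276352) (nat_lit 152) (nat_lit 112142375758) (nat_lit 0) (nat_lit 312110207094) (nat_lit 4) (nat_lit 5) (nat_lit 6) (nat_lit 4) (nat_lit 4) (nat_lit 4) (nat_lit 344) (nat_lit 284) (nat_lit 152))) (XT.nd (nat_lit 78) (nat_lit 76) (nat_lit 0) (XT.lf (nat_lit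 0) (nat_lit 476903819059) (nat_lit 152) (nat_lit 45474068548) (nat_lit 0) (nat_lit 377256463902) (nat_lit 4) (nat_lit 5) (nat_lit 6) (nat_lit 4) (nat_lit 4) (nat_lit 4) (nat_lit 345) (nat_lit 284) (nat_lit 151)) (XT.lf (nat_lit 0) (nat_lit 27924165159) (nat_lit 76) (nat_lit 520009274880) (nat_lit 76) (nat_lit 420361655003) (nat_lit 3) (nat_lit 4) (nat_lit 4) (nat_lit 5) (nat_lit 4) (nat_lit 4) (nat_lit 346) (nat_lit 284) (nat_lit 150))))) (XT.nd (nat_lit 234) (nat_lit 0) (nat_lit 0) (XT.nd (nat_lit 78) (nat_lit 0) (nat_lit 0) (XT.lf (nat_lit 0) (nat_lit 109780000801) (nat_lit 76) (nat_lit 516108556180) (nat_lit 76) (nat_lit 416460691190) (nat_lit 3) (nat_lit 4) (nat_lit 4) (nat_lit 5) (nat_lit 4) (nat_lit 4) (nat_lit 347) (nat_lit 284) (nat_lit 149)) (XT.nd (nat_lit 78) (nat_lit 0) (nat_lit 0) (XT.lf (nat_lit 0) (nat_lit 198183926132) (nat_lit 76) (nat_lit 511895957756) (nat_lit 76)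 (nat_lit 412247865811) (nat_lit 3) (nat_lit 4) (nat_lit 4) (nat_lit 5) (nat_lit 4) (nat_lit 4) (nat_lit 348) (nat_lit 284) (nat_lit 148)) (XT.lf (nat_lit 0) (nat_lit 293659816267) (nat_lit 76) (nat_lit 507346516064) (nat_lit 76) (nat_lit 407698213975) (nat_lit 3) (nat_lit 4) (nat_lit 4) (nat_lit 5) (nat_lit 4) (nat_lit 4) (nat_lit 349) (nat_lit 284) (nat_lit 147)))) (XT.nd (nat_lit 156) (nat_lit 0) (nat_lit 0) (XT.nd (nat_lit 78) (nat_lit 0) (nat_lit 0) (XT.lf (nat_lit 0) (nat_lit 396773454257) (nat_lit 76) (nat_lit 502433271447) (nat_lit 76) (nat_lit 402784774781) (nat_lit 3) (nat_lit 4) (nat_lit 4) (nat_lit 5) (nat_lit 4) (nat_lit 4) (nat_lit 350) (nat_lit 284) (nat_lit 146)) (XT.lf (nat_lit 0) (nat_lit 508135883883) (nat_lit 76) (nat_lit 497127108384) (nat_lit 76) (nat_lit 397478431553) (nat_lit 3) (nat_lit 4) (nat_lit 4) (nat_lit 5) (nat_lit 4) (nat_lit 4) (nat_lit 351) (nat_lit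 284) (nat_lit 145))) (XT.nd (nat_lit 78) (nat_lit 0) (nat_lit 0) (XT.lf (nat_lit 0) (nat_lit 628407030655) (nat_lit 76) (nat_lit 491396582944) (nat_lit 76) (nat_lit 391747739294) (nat_lit 3) (nat_lit 4) (nat_lit 4) (nat_lit 5) (nat_lit 4) (nat_lit 4) (nat_lit 352) (nat_lit 284) (nat_lit 144)) (XT.lf (nat_lit 0) (nat_lit 758299612478) (nat_lit 76) (nat_lit 485207736459) (nat_lit 76) (nat_lit 385558738347) (nat_lit 3) (nat_lit 4) (nat_lit 4) (nat_lit 5) (nat_lit 4) (nat_lit 4) (nat_lit 353) (nat_lit 284) (nat_lit 143))))))))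
noncomputable def xc89 : XT := (XT.nd (nat_lit 36894) (nat_lit 0) (nat_lit 228) (XT.nd (nat_lit 35802) (nat_lit 0) (nat_lit 1292) (XT.nd (nat_lit 35256) (nat_lit 0) (nat_lit 2812) (XT.nd (nat_lit 234) (nat_lit 0) (nat_lit 0) (XT.nd (nat_lit 78) (nat_lit 0) (nat_lit 0) (XT.lf (nat_lit 0) (nat_lit 898583363172) (nat_lit 76) (nat_lit 478523894281) (nat_lit 76) (nat_lit 378874753149) (nat_lit 3) (nat_lit 4) (nat_lit 4) (nat_lit 5) (nat_lit 4) (nat_lit 4) (nat_lit 354) (nat_lit 284) (nat_lit 142)) (XT.nd (nat_lit 78) (nat_lit 0) (nat_lit 0) (XT.lf (nat_lit 0) (nat_lit 1050089593850) (nat_lit 76) (nat_lit 471305448459) (nat_lit 76) (nat_lit 371656174900) (nat_lit 3) (nat_lit 4) (nat_lit 4) (nat_lit 5) (nat_lit 4) (nat_lit 4) (nat_lit 355) (nat_lit 284) (nat_lit 141)) (XT.lf (nat_lit 0) (nat_lit 1213716119215) (nat_lit 76) (nat_lit 463509623016) (nat_lit 76) (nat_lit 363860226840) (nat_lit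 3) (nat_lit 4) (nat_lit 4) (nat_lit 5) (nat_lit 4) (nat_lit 4) (nat_lit 356) (nat_lit 284) (nat_lit 140)))) (XT.nd (nat_lit 156) (nat_lit 0) (nat_lit 0) (XT.nd (nat_lit 78) (nat_lit 0) (nat_lit 0) (XT.lf (nat_lit 0) (nat_lit 1390432577934) (nat_lit 76) (nat_lit 455090220469) (nat_lit 76) (nat_lit 355440710759) (nat_lit 3) (nat_lit 4) (nat_lit 4) (nat_lit 5) (nat_lit 4) (nat_lit 4) (nat_lit 357) (nat_lit 284) (nat_lit 139)) (XT.lf (nat_lit 0) (nat_lit 1581286178652) (nat_lit 76) (nat_lit 445997348061) (nat_lit 76) (nat_lit 346347733227) (nat_lit 3) (nat_lit 4) (nat_lit 4) (nat_lit 5) (nat_lit 4) (nat_lit 4) (nat_lit 358) (nat_lit 284) (nat_lit 138))) (XT.nd (nat_lit 78) (nat_lit 0) (nat_lit 0) (XT.lf (nat_lit 0) (nat_lit 1787407905669) (nat_lit 76) (nat_lit 436177122104) (nat_lit 76) (nat_lit 336527409933) (nat_lit 3) (nat_lit 4) (nat_lit 4) (nat_lit 5) (nat_lit 4) (nat_lit 4) (nat_lit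 359) (nat_lit 284) (nat_lit 137)) (XT.lf (nat_lit 0) (nat_lit 2010019221072) (nat_lit 76) (nat_lit 425571348667) (nat_lit 76) (nat_lit 325921546369) (nat_lit 3) (nat_lit 4) (nat_lit 4) (nat_lit 5) (nat_lit 4) (nat_lit 4) (nat_lit 360) (nat_lit 284) (nat_lit 136))))) (XT.nd (nat_lit 234) (nat_lit 0) (nat_lit 76) (XT.nd (nat_lit 78) (nat_lit 0) (nat_lit 0) (XT.lf (nat_lit 0) (nat_lit 6443499208) (nat_lit 532) (nat_lit 3802998598) (nat_lit 532) (nat_lit 3802998598) (nat_lit 40) (nat_lit 3) (nat_lit 47) (nat_lit 3) (nat_lit 47) (nat_lit 5) (nat_lit 285) (nat_lit 285) (nat_lit 210)) (XT.nd (nat_lit 78) (nat_lit 0) (nat_lit 76) (XT.lf (nat_lit 76) (nat_lit 5026242514) (nat_lit 0) (nat_lit 8572122047) (nat_lit 532) (nat_lit 15608597137) (nat_lit 41) (nat_lit 5) (nat_lit 40) (nat_lit 3) (nat_lit 47) (nat_lit 5) (nat_lit 286) (nat_lit 285) (nat_lit 209)) (XT.lf (nat_lit 0) (nat_lit 14675949237)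 (nat_lit 456) (nat_lit 11399187892) (nat_lit 532) (nat_lit 4303718237) (nat_lit 41) (nat_lit 5) (nat_lit 47) (nat_lit 5) (nat_lit 48) (nat_lit 5) (nat_lit 287) (nat_lit 285) (nat_lit 208)))) (XT.nd (nat_lit 156) (nat_lit 0) (nat_lit 76) (XT.nd (nat_lit 78) (nat_lit 0) (nat_lit 0) (XT.lf (nat_lit 76) (nat_lit 2292248551) (nat_lit 0) (nat_lit 13818303716) (nat_lit 532) (nat_lit 15512312970) (nat_lit 42) (nat_lit 5) (nat_lit 41) (nat_lit 5) (nat_lit 48) (nat_lit 5) (nat_lit 288) (nat_lit 285) (nat_lit 207)) (XT.lf (nat_lit 76) (nat_lit 17722766714) (nat_lit 0) (nat_lit 242268928) (nat_lit 532) (nat_lit 14976978731) (nat_lit 42) (nat_lit 5) (nat_lit 41) (nat_lit 5) (nat_lit 48) (nat_lit 5) (nat_lit 289) (nat_lit 285) (nat_lit 206))) (XT.nd (nat_lit 78) (nat_lit 0) (nat_lit 0) (XT.lf (nat_lit 0) (nat_lit 20308645142) (nat_lit 456) (nat_lit 330504530) (nat_lit 532) (nat_lit 13700309779)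 (nat_lit 42) (nat_lit 5) (nat_lit 48) (nat_lit 5) (nat_lit 49) (nat_lit 5) (nat_lit 290) (nat_lit 285) (nat_lit 205)) (XT.lf (nat_lit 76) (nat_lit 16567428446) (nat_lit 0) (nat_lit 6671471142) (nat_lit 532) (nat_lit 12577891581) (nat_lit 43) (nat_lit 5) (nat_lit 42) (nat_lit 5) (nat_lit 49) (nat_lit 5) (nat_lit 291) (nat_lit 285) (nat_lit 204)))))) (XT.nd (nat_lit 546) (nat_lit 760) (nat_lit 0) (XT.nd (nat_lit 234) (nat_lit 532) (nat_lit 0) (XT.nd (nat_lit 78) (nat_lit 456) (nat_lit 0) (XT.lf (nat_lit 0) (nat_lit 26609944670) (nat_lit 456) (nat_lit 2782920172) (nat_lit 76) (nat_lit 8002956742) (nat_lit 43) (nat_lit 5) (nat_lit 49) (nat_lit 5) (nat_lit 44) (nat_lit 5) (nat_lit 292) (nat_lit 285) (nat_lit 203)) (XT.nd (nat_lit 78) (nat_lit 0) (nat_lit 0) (XT.lf (nat_lit 0) (nat_lit 15603722251) (nat_lit 456) (nat_lit 15190645949) (nat_lit 532) (nat_lit 8263330817) (nat_lit 37) (nat_lit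 5) (nat_lit 43) (nat_lit 5) (nat_lit 44) (nat_lit 5) (nat_lit 293) (nat_lit 285) (nat_lit 202)) (XT.lf (nat_lit 0) (nat_lit 35390570128) (nat_lit 532) (nat_lit 5237081429) (nat_lit 76) (nat_lit 218731804) (nat_lit 37) (nat_lit 5) (nat_lit 44) (nat_lit 5) (nat_lit 38) (nat_lit 5) (nat_lit 294) (nat_lit 285) (nat_lit 201)))) (XT.nd (nat_lit 156) (nat_lit 228) (nat_lit 0) (XT.nd (nat_lit 78) (nat_lit 76) (nat_lit 0) (XT.lf (nat_lit 0) (nat_lit 14777504851) (nat_lit 228) (nat_lit 26322670105) (nat_lit 304) (nat_lit 1618348249) (nat_lit 34) (nat_lit 5) (nat_lit 37) (nat_lit 5) (nat_lit 38) (nat_lit 5) (nat_lit 295) (nat_lit 285) (nat_lit 200)) (XT.lf (nat_lit 0) (nat_lit 2542496504) (nat_lit 304) (nat_lit 8106809254) (nat_lit 76) (nat_lit 34074863134) (nat_lit 33) (nat_lit 5) (nat_lit 37) (nat_lit 5) (nat_lit 34) (nat_lit 5) (nat_lit 296) (nat_lit 285) (nat_lit 199))) (XT.nd (nat_lit 78)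 (nat_lit 0) (nat_lit 0) (XT.lf (nat_lit 0) (nat_lit 7441615360) (nat_lit 304) (nat_lit 33054501610) (nat_lit 76) (nat_lit 6351373042) (nat_lit 30) (nat_lit 5) (nat_lit 34) (nat_lit 5) (nat_lit 31) (nat_lit 5) (nat_lit 297) (nat_lit 285) (nat_lit 198)) (XT.lf (nat_lit 0) (nat_lit 13233008008) (nat_lit 304) (nat_lit 11503812261) (nat_lit 76) (nat_lit 24363841721) (nat_lit 30) (nat_lit 5) (nat_lit 34) (nat_lit 5) (nat_lit 31) (nat_lit 5) (nat_lit 298) (nat_lit 285) (nat_lit 197))))) (XT.nd (nat_lit 234) (nat_lit 380) (nat_lit 0) (XT.nd (nat_lit 78) (nat_lit 152) (nat_lit 0) (XT.lf (nat_lit 0) (nat_lit 12386561453) (nat_lit 228) (nat_lit 7395646926) (nat_lit 304) (nat_lit 31728331411) (nat_lit 27) (nat_lit 5) (nat_lit 30) (nat_lit 5) (nat_lit 31) (nat_lit 5) (nat_lit 299) (nat_lit 285) (nat_lit 196)) (XT.nd (nat_lit 78) (nat_lit 152) (nat_lit 0) (XT.lf (nat_lit 0) (nat_lit 27447345453)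 (nat_lit 304) (nat_lit 15530522482) (nat_lit 76) (nat_lit 11087990723) (nat_lit 27) (nat_lit 5) (nat_lit 31) (nat_lit 5) (nat_lit 28) (nat_lit 5) (nat_lit 300) (nat_lit 285) (nat_lit 195)) (XT.lf (nat_lit 0) (nat_lit 10268125596) (nat_lit 152) (nat_lit 25893594369) (nat_lit 228) (nat_lit 20629011042) (nat_lit 25) (nat_lit 5) (nat_lit 27) (nat_lit 5) (nat_lit 28) (nat_lit 5) (nat_lit 301) (nat_lit 285) (nat_lit 194)))) (XT.nd (nat_lit 156) (nat_lit 228) (nat_lit 0) (XT.nd (nat_lit 78) (nat_lit 152) (nat_lit 0) (XT.lf (nat_lit 0) (nat_lit 39010154633) (nat_lit 152) (nat_lit 6984838292) (nat_lit 228) (nat_lit 13704869684) (nat_lit 25) (nat_lit 5) (nat_lit 27) (nat_lit 5) (nat_lit 28) (nat_lit 5) (nat_lit 302) (nat_lit 285) (nat_lit 193)) (XT.lf (nat_lit 0) (nat_lit 7245445727) (nat_lit 152) (nat_lit 49864197010) (nat_lit 228) (nat_lit 5692513452) (nat_lit 23) (nat_lit 5) (nat_lit 25)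 (nat_lit 5) (nat_lit 26) (nat_lit 5) (nat_lit 303) (nat_lit 285) (nat_lit 192))) (XT.nd (nat_lit 78) (nat_lit 152) (nat_lit 0) (XT.lf (nat_lit 0) (nat_lit 3571878991) (nat_lit 228) (nat_lit 27786374927) (nat_lit 76) (nat_lit 34727957270) (nat_lit 22) (nat_lit 5) (nat_lit 25) (nat_lit 5) (nat_lit 23) (nat_lit 5) (nat_lit 304) (nat_lit 285) (nat_lit 191)) (XT.lf (nat_lit 0) (nat_lit 2162455557) (nat_lit 152) (nat_lit 11156976630) (nat_lit 228) (nat_lit 56297772432) (nat_lit 20) (nat_lit 5) (nat_lit 22) (nat_lit 5) (nat_lit 23) (nat_lit 5) (nat_lit 305) (nat_lit 285) (nat_lit 190))))))) (XT.nd (nat_lit 1092) (nat_lit 380) (nat_lit 0) (XT.nd (nat_lit 546) (nat_lit 228) (nat_lit 0) (XT.nd (nat_lit 234) (nat_lit 304) (nat_lit 0) (XT.nd (nat_lit 78) (nat_lit 152) (nat_lit 0) (XT.lf (nat_lit 0) (nat_lit 24880257044) (nat_lit 228) (nat_lit 37562119366) (nat_lit 76) (nat_lit 10905630082) (nat_lit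 20) (nat_lit 5) (nat_lit 23) (nat_lit 5) (nat_lit 21) (nat_lit 5) (nat_lit 306) (nat_lit 285) (nat_lit 189)) (XT.nd (nat_lit 78) (nat_lit 152) (nat_lit 0) (XT.lf (nat_lit 0) (nat_lit 37653538113) (nat_lit 228) (nat_lit 5571141472) (nat_lit 76) (nat_lit 34129591598) (nat_lit 20) (nat_lit 5) (nat_lit 23) (nat_lit 5) (nat_lit 21) (nat_lit 5) (nat_lit 307) (nat_lit 285) (nat_lit 188)) (XT.lf (nat_lit 0) (nat_lit 30501915696) (nat_lit 152) (nat_lit 21678299465) (nat_lit 228) (nat_lit 29442304660) (nat_lit 18) (nat_lit 5) (nat_lit 20) (nat_lit 5) (nat_lit 21) (nat_lit 5) (nat_lit 308) (nat_lit 285) (nat_lit 187)))) (XT.nd (nat_lit 156) (nat_lit 228) (nat_lit 0) (XT.nd (nat_lit 78) (nat_lit 76) (nat_lit 0) (XT.lf (nat_lit 0) (nat_lit 68061608156) (nat_lit 228) (nat_lit 16487717745) (nat_lit 76) (nat_lit 1667500956) (nat_lit 18) (nat_lit 5) (nat_lit 21) (nat_lit 5) (nat_lit 19) (nat_lit 4)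 (nat_lit 309) (nat_lit 285) (nat_lit 186)) (XT.lf (nat_lit 0) (nat_lit 21421454104) (nat_lit 76) (nat_lit 64868482313) (nat_lit 152) (nat_lit 4802632805) (nat_lit 17) (nat_lit 5) (nat_lit 18) (nat_lit 5) (nat_lit 19) (nat_lit 4) (nat_lit 310) (nat_lit 285) (nat_lit 185))) (XT.nd (nat_lit 78) (nat_lit 152) (nat_lit 0) (XT.lf (nat_lit 0) (nat_lit 9597716779) (nat_lit 152) (nat_lit 33267189900) (nat_lit 76) (nat_lit 53438107256) (nat_lit 16) (nat_lit 5) (nat_lit 18) (nat_lit 5) (nat_lit 17) (nat_lit 5) (nat_lit 311) (nat_lit 285) (nat_lit 184)) (XT.lf (nat_lit 0) (nat_lit 6233454312) (nat_lit 152) (nat_lit 18805405913) (nat_lit 228) (nat_lit 76869599588) (nat_lit 14) (nat_lit 5) (nat_lit 16) (nat_lit 5) (nat_lit 17) (nat_lit 5) (nat_lit 312) (nat_lit 285) (nat_lit 183))))) (XT.nd (nat_lit 234) (nat_lit 152) (nat_lit 0) (XT.nd (nat_lit 78) (nat_lit 76) (nat_lit 0) (XT.lf (nat_lit 0) (nat_lit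 42819512535) (nat_lit 228) (nat_lit 57302482774) (nat_lit 76) (nat_lit 7752012097) (nat_lit 14) (nat_lit 5) (nat_lit 17) (nat_lit 5) (nat_lit 15) (nat_lit 4) (nat_lit 313) (nat_lit 285) (nat_lit 182)) (XT.nd (nat_lit 78) (nat_lit 76) (nat_lit 0) (XT.lf (nat_lit 0) (nat_lit 62509547161) (nat_lit 228) (nat_lit 16351124742) (nat_lit 76) (nat_lit 35417175675) (nat_lit 14) (nat_lit 5) (nat_lit 17) (nat_lit 5) (nat_lit 15) (nat_lit 4) (nat_lit 314) (nat_lit 285) (nat_lit 181)) (XT.lf (nat_lit 0) (nat_lit 29341809941) (nat_lit 76) (nat_lit 55137236617) (nat_lit 152) (nat_lit 36658610390) (nat_lit 13) (nat_lit 5) (nat_lit 14) (nat_lit 5) (nat_lit 15) (nat_lit 4) (nat_lit 315) (nat_lit 285) (nat_lit 180)))) (XT.nd (nat_lit 156) (nat_lit 152) (nat_lit 0) (XT.nd (nat_lit 78) (nat_lit 0) (nat_lit 0) (XT.lf (nat_lit 0) (nat_lit 79617813132) (nat_lit 76) (nat_lit 29034002082) (nat_lit 152) (nat_lit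 19858781835) (nat_lit 13) (nat_lit 5) (nat_lit 14) (nat_lit 5) (nat_lit 15) (nat_lit 4) (nat_lit 316) (nat_lit 285) (nat_lit 179)) (XT.lf (nat_lit 0) (nat_lit 133913795451) (nat_lit 76) (nat_lit 843351191) (nat_lit 152) (nat_lit 1716328941) (nat_lit 13) (nat_lit 5) (nat_lit 14) (nat_lit 5) (nat_lit 15) (nat_lit 4) (nat_lit 317) (nat_lit 285) (nat_lit 178))) (XT.nd (nat_lit 78) (nat_lit 0) (nat_lit 0) (XT.lf (nat_lit 0) (nat_lit 18927135174) (nat_lit 152) (nat_lit 96172250008) (nat_lit 76) (nat_lit 29784091322) (nat_lit 11) (nat_lit 5) (nat_lit 13) (nat_lit 5) (nat_lit 12) (nat_lit 4) (nat_lit 318) (nat_lit 285) (nat_lit 177)) (XT.lf (nat_lit 0) (nat_lit 41221883620) (nat_lit 152) (nat_lit 49801639715) (nat_lit 76) (nat_lit 62931787086) (nat_lit 11) (nat_lit 5) (nat_lit 13) (nat_lit 5) (nat_lit 12) (nat_lit 4) (nat_lit 319) (nat_lit 285) (nat_lit 176)))))) (XT.nd (nat_lit 546) (nat_lit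 152) (nat_lit 0) (XT.nd (nat_lit 234) (nat_lit 152) (nat_lit 0) (XT.nd (nat_lit 78) (nat_lit 0) (nat_lit 0) (XT.lf (nat_lit 0) (nat_lit 291307500) (nat_lit 76) (nat_lit 65014821789) (nat_lit 152) (nat_lit 98446290232) (nat_lit 10) (nat_lit 5) (nat_lit 11) (nat_lit 5) (nat_lit 12) (nat_lit 4) (nat_lit 320) (nat_lit 285) (nat_lit 175)) (XT.nd (nat_lit 78) (nat_lit 0) (nat_lit 0) (XT.lf (nat_lit 0) (nat_lit 57222117293) (nat_lit 76) (nat_lit 35455610264) (nat_lit 152) (nat_lit 81546722473) (nat_lit 10) (nat_lit 5) (nat_lit 11) (nat_lit 5) (nat_lit 12) (nat_lit 4) (nat_lit 321) (nat_lit 285) (nat_lit 174)) (XT.lf (nat_lit 0) (nat_lit 118705691336) (nat_lit 76) (nat_lit 3532388150) (nat_lit 152) (nat_lit 63296243024) (nat_lit 10) (nat_lit 5) (nat_lit 11) (nat_lit 5) (nat_lit 12) (nat_lit 4) (nat_lit 322) (nat_lit 285) (nat_lit 173)))) (XT.nd (nat_lit 156) (nat_lit 76) (nat_lit 0) (XT.nd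 (nat_lit 78) (nat_lit 76) (nat_lit 0) (XT.lf (nat_lit 0) (nat_lit 154906561936) (nat_lit 152) (nat_lit 13386886098) (nat_lit 0) (nat_lit 29396074037) (nat_lit 10) (nat_lit 5) (nat_lit 12) (nat_lit 4) (nat_lit 10) (nat_lit 4) (nat_lit 323) (nat_lit 285) (nat_lit 172)) (XT.lf (nat_lit 0) (nat_lit 46566375815) (nat_lit 76) (nat_lit 144832969767) (nat_lit 76) (nat_lit 19320927570) (nat_lit 9) (nat_lit 4) (nat_lit 10) (nat_lit 5) (nat_lit 10) (nat_lit 4) (nat_lit 324) (nat_lit 285) (nat_lit 171))) (XT.nd (nat_lit 78) (nat_lit 0) (nat_lit 0) (XT.lf (nat_lit 0) (nat_lit 6091702508) (nat_lit 152) (nat_lit 112842740144) (nat_lit 76) (nat_lit 105817489422) (nat_lit 8) (nat_lit 5) (nat_lit 10) (nat_lit 5) (nat_lit 9) (nat_lit 4) (nat_lit 325) (nat_lit 285) (nat_lit 170)) (XT.lf (nat_lit 0) (nat_lit 32492728460) (nat_lit 152) (nat_lit 57929938725) (nat_lit 76) (nat_lit 149443372835) (nat_lit 8)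 (nat_lit 5) (nat_lit 10) (nat_lit 5) (nat_lit 9) (nat_lit 4) (nat_lit 326) (nat_lit 285) (nat_lit 169))))) (XT.nd (nat_lit 312) (nat_lit 76) (nat_lit 0) (XT.nd (nat_lit 156) (nat_lit 0) (nat_lit 0) (XT.nd (nat_lit 78) (nat_lit 0) (nat_lit 0) (XT.lf (nat_lit 0) (nat_lit 1446968090) (nat_lit 76) (nat_lit 59592943383) (nat_lit 152) (nat_lit 195146640131) (nat_lit 7) (nat_lit 5) (nat_lit 8) (nat_lit 5) (nat_lit 9) (nat_lit 4) (nat_lit 327) (nat_lit 285) (nat_lit 168)) (XT.lf (nat_lit 0) (nat_lit 68867285436) (nat_lit 76) (nat_lit 24586789404) (nat_lit 152) (nat_lit 180231973748) (nat_lit 7) (nat_lit 5) (nat_lit 8) (nat_lit 5) (nat_lit 9) (nat_lit 4) (nat_lit 328) (nat_lit 285) (nat_lit 167))) (XT.nd (nat_lit 78) (nat_lit 0) (nat_lit 0) (XT.lf (nat_lit 0) (nat_lit 128778647002) (nat_lit 152) (nat_lit 151223430185) (nat_lit 0) (nat_lit 12558046945) (nat_lit 7) (nat_lit 5) (nat_lit 9) (nat_lit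 4) (nat_lit 7) (nat_lit 4) (nat_lit 329) (nat_lit 285) (nat_lit 166)) (XT.lf (nat_lit 0) (nat_lit 167567189741) (nat_lit 152) (nat_lit 93980213623) (nat_lit 0) (nat_lit 51345682766) (nat_lit 7) (nat_lit 5) (nat_lit 9) (nat_lit 4) (nat_lit 7) (nat_lit 4) (nat_lit 330) (nat_lit 285) (nat_lit 165)))) (XT.nd (nat_lit 156) (nat_lit 0) (nat_lit 0) (XT.nd (nat_lit 78) (nat_lit 76) (nat_lit 0) (XT.lf (nat_lit 0) (nat_lit 209458248213) (nat_lit 152) (nat_lit 32158581529) (nat_lit 0) (nat_lit 93235901499) (nat_lit 7) (nat_lit 5) (nat_lit 9) (nat_lit 4) (nat_lit 7) (nat_lit 4) (nat_lit 331) (nat_lit 285) (nat_lit 164)) (XT.lf (nat_lit 0) (nat_lit 36430202796) (nat_lit 76) (nat_lit 219146010184) (nat_lit 76) (nat_lit 102922885933) (nat_lit 6) (nat_lit 4) (nat_lit 7) (nat_lit 5) (nat_lit 7) (nat_lit 4) (nat_lit 332) (nat_lit 285) (nat_lit 163))) (XT.nd (nat_lit 78) (nat_lit 0) (nat_lit 0) (XT.lf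 (nat_lit 0) (nat_lit 112334036691) (nat_lit 76) (nat_lit 193928341534) (nat_lit 76) (nat_lit 77704497342) (nat_lit 6) (nat_lit 4) (nat_lit 7) (nat_lit 5) (nat_lit 7) (nat_lit 4) (nat_lit 333) (nat_lit 285) (nat_lit 162)) (XT.lf (nat_lit 0) (nat_lit 194309306741) (nat_lit 76) (nat_lit 166693658364) (nat_lit 76) (nat_lit 50469147561) (nat_lit 6) (nat_lit 4) (nat_lit 7) (nat_lit 5) (nat_lit 7) (nat_lit 4) (nat_lit 334) (nat_lit 285) (nat_lit 161))))))))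
noncomputable def xc90 : XT := (XT.nd (nat_lit 36972) (nat_lit 0) (nat_lit 760) (XT.nd (nat_lit 1092) (nat_lit 0) (nat_lit 0) (XT.nd (nat_lit 546) (nat_lit 76) (nat_lit 0) (XT.nd (nat_lit 234) (nat_lit 76) (nat_lit 0) (XT.nd (nat_lit 78) (nat_lit 76) (nat_lit 0) (XT.lf (nat_lit 0) (nat_lit 282841792322) (nat_lit 76) (nat_lit 137280569961) (nat_lit 76) (nat_lit 21055441924) (nat_lit 6) (nat_lit 4) (nat_lit 7) (nat_lit 5) (nat_lit 7) (nat_lit 4) (nat_lit 335) (nat_lit 285) (nat_lit 160)) (XT.nd (nat_lit 78) (nat_lit 0) (nat_lit 0) (XT.lf (nat_lit 0) (nat_lit 10175119260) (nat_lit 152) (nat_lit 95061451486) (nat_lit 76) (nat_lit 368002805333) (nat_lit 5) (nat_lit 5) (nat_lit 7) (nat_lit 5) (nat_lit 6) (nat_lit 4) (nat_lit 336) (nat_lit 285) (nat_lit 159)) (XT.lf (nat_lit 0) (nat_lit 42766200058) (nat_lit 152) (nat_lit 27272532606) (nat_lit 76) (nat_lit 437783420664) (nat_lit 5) (nat_lit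 5) (nat_lit 7) (nat_lit 5) (nat_lit 6) (nat_lit 4) (nat_lit 337) (nat_lit 285) (nat_lit 158)))) (XT.nd (nat_lit 156) (nat_lit 0) (nat_lit 0) (XT.nd (nat_lit 78) (nat_lit 0) (nat_lit 0) (XT.lf (nat_lit 0) (nat_lit 48357898694) (nat_lit 76) (nat_lit 30769321210) (nat_lit 152) (nat_lit 465951321043) (nat_lit 4) (nat_lit 5) (nat_lit 5) (nat_lit 5) (nat_lit 6) (nat_lit 4) (nat_lit 338) (nat_lit 285) (nat_lit 157)) (XT.lf (nat_lit 0) (nat_lit 119441798540) (nat_lit 152) (nat_lit 453966020903) (nat_lit 0) (nat_lit 11824046325) (nat_lit 4) (nat_lit 5) (nat_lit 6) (nat_lit 4) (nat_lit 4) (nat_lit 4) (nat_lit 339) (nat_lit 285) (nat_lit 156))) (XT.nd (nat_lit 78) (nat_lit 0) (nat_lit 0) (XT.lf (nat_lit 0) (nat_lit 163780420444) (nat_lit 152) (nat_lit 408590847046) (nat_lit 0) (nat_lit 56162279267) (nat_lit 4) (nat_lit 5) (nat_lit 6) (nat_lit 4) (nat_lit 4) (nat_lit 4) (nat_lit 340) (nat_lit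 285) (nat_lit 155)) (XT.lf (nat_lit 0) (nat_lit 211665830090) (nat_lit 152) (nat_lit 359586227850) (nat_lit 0) (nat_lit 104047328763) (nat_lit 4) (nat_lit 5) (nat_lit 6) (nat_lit 4) (nat_lit 4) (nat_lit 4) (nat_lit 341) (nat_lit 285) (nat_lit 154))))) (XT.nd (nat_lit 234) (nat_lit 76) (nat_lit 0) (XT.nd (nat_lit 78) (nat_lit 0) (nat_lit 0) (XT.lf (nat_lit 0) (nat_lit 263381792869) (nat_lit 152) (nat_lit 306661765569) (nat_lit 0) (nat_lit 155762958070) (nat_lit 4) (nat_lit 5) (nat_lit 6) (nat_lit 4) (nat_lit 4) (nat_lit 4) (nat_lit 342) (nat_lit 285) (nat_lit 153)) (XT.nd (nat_lit 78) (nat_lit 0) (nat_lit 0) (XT.lf (nat_lit 0) (nat_lit 319234773745) (nat_lit 152) (nat_lit 249503833762) (nat_lit 0) (nat_lit 211615630176) (nat_lit 4) (nat_lit 5) (nat_lit 6) (nat_lit 4) (nat_lit 4) (nat_lit 4) (nat_lit 343) (nat_lit 285) (nat_lit 152)) (XT.lf (nat_lit 0) (nat_lit 379555753347) (nat_lit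 152) (nat_lit 187773718757) (nat_lit 0) (nat_lit 271936323879) (nat_lit 4) (nat_lit 5) (nat_lit 6) (nat_lit 4) (nat_lit 4) (nat_lit 4) (nat_lit 344) (nat_lit 285) (nat_lit 151)))) (XT.nd (nat_lit 156) (nat_lit 76) (nat_lit 0) (XT.nd (nat_lit 78) (nat_lit 0) (nat_lit 0) (XT.lf (nat_lit 0) (nat_lit 444702189329) (nat_lit 152) (nat_lit 121105612467) (nat_lit 0) (nat_lit 337082495141) (nat_lit 4) (nat_lit 5) (nat_lit 6) (nat_lit 4) (nat_lit 4) (nat_lit 4) (nat_lit 345) (nat_lit 285) (nat_lit 150)) (XT.lf (nat_lit 0) (nat_lit 515060134648) (nat_lit 152) (nat_lit 49104444632) (nat_lit 0) (nat_lit 407440195348) (nat_lit 4) (nat_lit 5) (nat_lit 6) (nat_lit 4) (nat_lit 4) (nat_lit 4) (nat_lit 346) (nat_lit 285) (nat_lit 149))) (XT.nd (nat_lit 78) (nat_lit 0) (nat_lit 0) (XT.lf (nat_lit 0) (nat_lit 30165456647) (nat_lit 76) (nat_lit 561606548584) (nat_lit 76) (nat_lit 453986382329) (nat_lit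 3) (nat_lit 4) (nat_lit 4) (nat_lit 5) (nat_lit 4) (nat_lit 4) (nat_lit 347) (nat_lit 285) (nat_lit 148)) (XT.lf (nat_lit 0) (nat_lit 118569214083) (nat_lit 76) (nat_lit 557394029298) (nat_lit 76) (nat_lit 449773652898) (nat_lit 3) (nat_lit 4) (nat_lit 4) (nat_lit 5) (nat_lit 4) (nat_lit 4) (nat_lit 348) (nat_lit 285) (nat_lit 147)))))) (XT.nd (nat_lit 546) (nat_lit 0) (nat_lit 0) (XT.nd (nat_lit 234) (nat_lit 0) (nat_lit 0) (XT.nd (nat_lit 78) (nat_lit 0) (nat_lit 0) (XT.lf (nat_lit 0) (nat_lit 214044948758) (nat_lit 76) (nat_lit 552844660880) (nat_lit 76) (nat_lit 445224089903) (nat_lit 3) (nat_lit 4) (nat_lit 4) (nat_lit 5) (nat_lit 4) (nat_lit 4) (nat_lit 349) (nat_lit 285) (nat_lit 146)) (XT.nd (nat_lit 78) (nat_lit 0) (nat_lit 0) (XT.lf (nat_lit 0) (nat_lit 317158442805) (nat_lit 76) (nat_lit 547931484111) (nat_lit 76) (nat_lit 440310732969) (nat_lit 3) (nat_lit 4) (nat_lit 4)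 (nat_lit 5) (nat_lit 4) (nat_lit 4) (nat_lit 350) (nat_lit 285) (nat_lit 145)) (XT.lf (nat_lit 0) (nat_lit 428520739150) (nat_lit 76) (nat_lit 542625383869) (nat_lit 76) (nat_lit 435004465908) (nat_lit 3) (nat_lit 4) (nat_lit 4) (nat_lit 5) (nat_lit 4) (nat_lit 4) (nat_lit 351) (nat_lit 285) (nat_lit 144)))) (XT.nd (nat_lit 156) (nat_lit 0) (nat_lit 0) (XT.nd (nat_lit 78) (nat_lit 0) (nat_lit 0) (XT.lf (nat_lit 0) (nat_lit 548791762513) (nat_lit 76) (nat_lit 536894916597) (nat_lit 76) (nat_lit 429273844174) (nat_lit 3) (nat_lit 4) (nat_lit 4) (nat_lit 5) (nat_lit 4) (nat_lit 4) (nat_lit 352) (nat_lit 285) (nat_lit 143)) (XT.lf (nat_lit 0) (nat_lit 678684230069) (nat_lit 76) (nat_lit 530706123971) (nat_lit 76) (nat_lit 423084908527) (nat_lit 3) (nat_lit 4) (nat_lit 4) (nat_lit 5) (nat_lit 4) (nat_lit 4) (nat_lit 353) (nat_lit 285) (nat_lit 142))) (XT.nd (nat_lit 78) (nat_lit 0) (nat_lit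 0) (XT.lf (nat_lit 0) (nat_lit 818967874960) (nat_lit 76) (nat_lit 524022331663) (nat_lit 76) (nat_lit 416400983794) (nat_lit 3) (nat_lit 4) (nat_lit 4) (nat_lit 5) (nat_lit 4) (nat_lit 4) (nat_lit 354) (nat_lit 285) (nat_lit 141)) (XT.lf (nat_lit 0) (nat_lit 970474007673) (nat_lit 76) (nat_lit 516803932017) (nat_lit 76) (nat_lit 409182461530) (nat_lit 3) (nat_lit 4) (nat_lit 4) (nat_lit 5) (nat_lit 4) (nat_lit 4) (nat_lit 355) (nat_lit 285) (nat_lit 140))))) (XT.nd (nat_lit 234) (nat_lit 0) (nat_lit 0) (XT.nd (nat_lit 78) (nat_lit 0) (nat_lit 0) (XT.lf (nat_lit 0) (nat_lit 1134100442328) (nat_lit 76) (nat_lit 509008149329) (nat_lit 76) (nat_lit 401386565308) (nat_lit 3) (nat_lit 4) (nat_lit 4) (nat_lit 5) (nat_lit 4) (nat_lit 4) (nat_lit 356) (nat_lit 285) (nat_lit 139)) (XT.nd (nat_lit 78) (nat_lit 0) (nat_lit 0) (XT.lf (nat_lit 0) (nat_lit 1310816817058) (nat_lit 76) (nat_lit 500588786370)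 (nat_lit 76) (nat_lit 392967097225) (nat_lit 3) (nat_lit 4) (nat_lit 4) (nat_lit 5) (nat_lit 4) (nat_lit 4) (nat_lit 357) (nat_lit 285) (nat_lit 138)) (XT.lf (nat_lit 0) (nat_lit 1501670340007) (nat_lit 76) (nat_lit 491495950618) (nat_lit 76) (nat_lit 383874164135) (nat_lit 3) (nat_lit 4) (nat_lit 4) (nat_lit 5) (nat_lit 4) (nat_lit 4) (nat_lit 358) (nat_lit 285) (nat_lit 137)))) (XT.nd (nat_lit 34944) (nat_lit 0) (nat_lit 2812) (XT.nd (nat_lit 78) (nat_lit 0) (nat_lit 0) (XT.lf (nat_lit 0) (nat_lit 1707791995017) (nat_lit 76) (nat_lit 481675758601) (nat_lit 76) (nat_lit 374053881992) (nat_lit 3) (nat_lit 4) (nat_lit 4) (nat_lit 5) (nat_lit 4) (nat_lit 4) (nat_lit 359) (nat_lit 285) (nat_lit 136)) (XT.lf (nat_lit 0) (nat_lit 1930403243746) (nat_lit 76) (nat_lit 471070016591) (nat_lit 76) (nat_lit 363448056530) (nat_lit 3) (nat_lit 4) (nat_lit 4) (nat_lit 5) (nat_lit 4) (nat_lit 4)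 (nat_lit 360) (nat_lit 285) (nat_lit 135))) (XT.nd (nat_lit 78) (nat_lit 0) (nat_lit 0) (XT.lf (nat_lit 0) (nat_lit 7032180229) (nat_lit 532) (nat_lit 4067553784) (nat_lit 532) (nat_lit 4067553784) (nat_lit 40) (nat_lit 3) (nat_lit 47) (nat_lit 3) (nat_lit 47) (nat_lit 5) (nat_lit 286) (nat_lit 286) (nat_lit 208)) (XT.lf (nat_lit 76) (nat_lit 5505701968) (nat_lit 0) (nat_lit 9317949833) (nat_lit 532) (nat_lit 16708295176) (nat_lit 41) (nat_lit 5) (nat_lit 40) (nat_lit 3) (nat_lit 47) (nat_lit 5) (nat_lit 287) (nat_lit 286) (nat_lit 207))))))) (XT.nd (nat_lit 1092) (nat_lit 1064) (nat_lit 0) (XT.nd (nat_lit 546) (nat_lit 760) (nat_lit 0) (XT.nd (nat_lit 234) (nat_lit 304) (nat_lit 0) (XT.nd (nat_lit 78) (nat_lit 0) (nat_lit 0) (XT.lf (nat_lit 0) (nat_lit 15975926730) (nat_lit 456) (nat_lit 12227441342) (nat_lit 532) (nat_lit 4595188218) (nat_lit 41) (nat_lit 5) (nat_lit 47) (nat_lit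 5) (nat_lit 48) (nat_lit 5) (nat_lit 288) (nat_lit 286) (nat_lit 206)) (XT.nd (nat_lit 78) (nat_lit 0) (nat_lit 0) (XT.lf (nat_lit 76) (nat_lit 2557191495) (nat_lit 0) (nat_lit 14960742060) (nat_lit 532) (nat_lit 16624782210) (nat_lit 42) (nat_lit 5) (nat_lit 41) (nat_lit 5) (nat_lit 48) (nat_lit 5) (nat_lit 289) (nat_lit 286) (nat_lit 205)) (XT.lf (nat_lit 76) (nat_lit 19216109403) (nat_lit 0) (nat_lit 295885670) (nat_lit 532) (nat_lit 16056140921) (nat_lit 42) (nat_lit 5) (nat_lit 41) (nat_lit 5) (nat_lit 48) (nat_lit 5) (nat_lit 290) (nat_lit 286) (nat_lit 204)))) (XT.nd (nat_lit 156) (nat_lit 380) (nat_lit 0) (XT.nd (nat_lit 78) (nat_lit 0) (nat_lit 0) (XT.lf (nat_lit 0) (nat_lit 22034200848) (nat_lit 456) (nat_lit 277700227) (nat_lit 532) (nat_lit 14766221003) (nat_lit 42) (nat_lit 5) (nat_lit 48) (nat_lit 5) (nat_lit 49) (nat_lit 5) (nat_lit 291) (nat_lit 286) (nat_lit 203))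 (XT.lf (nat_lit 76) (nat_lit 17970061194) (nat_lit 0) (nat_lit 7223200628) (nat_lit 532) (nat_lit 13480859098) (nat_lit 43) (nat_lit 5) (nat_lit 42) (nat_lit 5) (nat_lit 49) (nat_lit 5) (nat_lit 292) (nat_lit 286) (nat_lit 202))) (XT.nd (nat_lit 78) (nat_lit 456) (nat_lit 0) (XT.lf (nat_lit 0) (nat_lit 28826533839) (nat_lit 456) (nat_lit 2926215640) (nat_lit 76) (nat_lit 8627349974) (nat_lit 43) (nat_lit 5) (nat_lit 49) (nat_lit 5) (nat_lit 44) (nat_lit 5) (nat_lit 293) (nat_lit 286) (nat_lit 201)) (XT.lf (nat_lit 0) (nat_lit 16929349617) (nat_lit 456) (nat_lit 16411718184) (nat_lit 532) (nat_lit 8834257746) (nat_lit 37) (nat_lit 5) (nat_lit 43) (nat_lit 5) (nat_lit 44) (nat_lit 5) (nat_lit 294) (nat_lit 286) (nat_lit 200))))) (XT.nd (nat_lit 234) (nat_lit 456) (nat_lit 0) (XT.nd (nat_lit 78) (nat_lit 304) (nat_lit 0) (XT.lf (nat_lit 0) (nat_lit 38298676998) (nat_lit 532) (nat_lit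 5577845200) (nat_lit 76) (nat_lit 231110542) (nat_lit 37) (nat_lit 5) (nat_lit 44) (nat_lit 5) (nat_lit 38) (nat_lit 5) (nat_lit 295) (nat_lit 286) (nat_lit 199)) (XT.nd (nat_lit 78) (nat_lit 76) (nat_lit 0) (XT.lf (nat_lit 0) (nat_lit 16035928166) (nat_lit 228) (nat_lit 28425261782) (nat_lit 304) (nat_lit 1668685784) (nat_lit 34) (nat_lit 5) (nat_lit 37) (nat_lit 5) (nat_lit 38) (nat_lit 5) (nat_lit 296) (nat_lit 286) (nat_lit 198)) (XT.lf (nat_lit 0) (nat_lit 2815499841) (nat_lit 304) (nat_lit 8680864022) (nat_lit 76) (nat_lit 36799922266) (nat_lit 33) (nat_lit 5) (nat_lit 37) (nat_lit 5) (nat_lit 34) (nat_lit 5) (nat_lit 297) (nat_lit 286) (nat_lit 197)))) (XT.nd (nat_lit 156) (nat_lit 228) (nat_lit 0) (XT.nd (nat_lit 78) (nat_lit 0) (nat_lit 0) (XT.lf (nat_lit 0) (nat_lit 8103292679) (nat_lit 304) (nat_lit 35620886626) (nat_lit 76) (nat_lit 6865572445) (nat_lit 30) (nat_lit 5)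 (nat_lit 34) (nat_lit 5) (nat_lit 31) (nat_lit 5) (nat_lit 298) (nat_lit 286) (nat_lit 196)) (XT.lf (nat_lit 0) (nat_lit 14353082066) (nat_lit 304) (nat_lit 12351918062) (nat_lit 76) (nat_lit 26318587540) (nat_lit 30) (nat_lit 5) (nat_lit 34) (nat_lit 5) (nat_lit 31) (nat_lit 5) (nat_lit 299) (nat_lit 286) (nat_lit 195))) (XT.nd (nat_lit 78) (nat_lit 0) (nat_lit 0) (XT.lf (nat_lit 0) (nat_lit 13447857721) (nat_lit 228) (nat_lit 7975502554) (nat_lit 304) (nat_lit 34203139821) (nat_lit 27) (nat_lit 5) (nat_lit 30) (nat_lit 5) (nat_lit 31) (nat_lit 5) (nat_lit 300) (nat_lit 286) (nat_lit 194)) (XT.lf (nat_lit 0) (nat_lit 29697632092) (nat_lit 304) (nat_lit 16703547122) (nat_lit 76) (nat_lit 11985405940) (nat_lit 27) (nat_lit 5) (nat_lit 31) (nat_lit 5) (nat_lit 28) (nat_lit 5) (nat_lit 301) (nat_lit 286) (nat_lit 193)))))) (XT.nd (nat_lit 546) (nat_lit 532) (nat_lit 0) (XT.nd (nat_lit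 234) (nat_lit 228) (nat_lit 0) (XT.nd (nat_lit 78) (nat_lit 152) (nat_lit 0) (XT.lf (nat_lit 0) (nat_lit 11157235406) (nat_lit 152) (nat_lit 27949511416) (nat_lit 228) (nat_lit 22222906751) (nat_lit 25) (nat_lit 5) (nat_lit 27) (nat_lit 5) (nat_lit 28) (nat_lit 5) (nat_lit 302) (nat_lit 286) (nat_lit 192)) (XT.nd (nat_lit 78) (nat_lit 152) (nat_lit 0) (XT.lf (nat_lit 0) (nat_lit 42193614932) (nat_lit 152) (nat_lit 7529208223) (nat_lit 228) (nat_lit 14749013727) (nat_lit 25) (nat_lit 5) (nat_lit 27) (nat_lit 5) (nat_lit 28) (nat_lit 5) (nat_lit 303) (nat_lit 286) (nat_lit 191)) (XT.lf (nat_lit 0) (nat_lit 7889718433) (nat_lit 152) (nat_lit 53835229438) (nat_lit 228) (nat_lit 6097513419) (nat_lit 23) (nat_lit 5) (nat_lit 25) (nat_lit 5) (nat_lit 26) (nat_lit 5) (nat_lit 304) (nat_lit 286) (nat_lit 190)))) (XT.nd (nat_lit 156) (nat_lit 0) (nat_lit 0) (XT.nd (nat_lit 78) (nat_lit 152)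 (nat_lit 0) (XT.lf (nat_lit 0) (nat_lit 3901962496) (nat_lit 228) (nat_lit 29946977242) (nat_lit 76) (nat_lit 37520497636) (nat_lit 22) (nat_lit 5) (nat_lit 25) (nat_lit 5) (nat_lit 23) (nat_lit 5) (nat_lit 305) (nat_lit 286) (nat_lit 189)) (XT.lf (nat_lit 0) (nat_lit 2396182271) (nat_lit 152) (nat_lit 12031314302) (nat_lit 228) (nat_lit 60755568766) (nat_lit 20) (nat_lit 5) (nat_lit 22) (nat_lit 5) (nat_lit 23) (nat_lit 5) (nat_lit 306) (nat_lit 286) (nat_lit 188))) (XT.nd (nat_lit 78) (nat_lit 0) (nat_lit 0) (XT.lf (nat_lit 0) (nat_lit 26910444287) (nat_lit 228) (nat_lit 40508007695) (nat_lit 76) (nat_lit 11794107338) (nat_lit 20) (nat_lit 5) (nat_lit 23) (nat_lit 5) (nat_lit 21) (nat_lit 5) (nat_lit 307) (nat_lit 286) (nat_lit 187)) (XT.lf (nat_lit 0) (nat_lit 40702642161) (nat_lit 228) (nat_lit 5962127957) (nat_lit 76) (nat_lit 36874798601) (nat_lit 20) (nat_lit 5) (nat_lit 23)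 (nat_lit 5) (nat_lit 21) (nat_lit 5) (nat_lit 308) (nat_lit 286) (nat_lit 186))))) (XT.nd (nat_lit 312) (nat_lit 228) (nat_lit 0) (XT.nd (nat_lit 156) (nat_lit 152) (nat_lit 0) (XT.nd (nat_lit 78) (nat_lit 0) (nat_lit 0) (XT.lf (nat_lit 0) (nat_lit 32995388852) (nat_lit 152) (nat_lit 23394619385) (nat_lit 228) (nat_lit 31759391918) (nat_lit 18) (nat_lit 5) (nat_lit 20) (nat_lit 5) (nat_lit 21) (nat_lit 5) (nat_lit 309) (nat_lit 286) (nat_lit 185)) (XT.lf (nat_lit 0) (nat_lit 73539691825) (nat_lit 228) (nat_lit 17755059610) (nat_lit 76) (nat_lit 1816684740) (nat_lit 18) (nat_lit 5) (nat_lit 21) (nat_lit 5) (nat_lit 19) (nat_lit 4) (nat_lit 310) (nat_lit 286) (nat_lit 184))) (XT.nd (nat_lit 78) (nat_lit 76) (nat_lit 0) (XT.lf (nat_lit 0) (nat_lit 23185537745) (nat_lit 76) (nat_lit 70039504009) (nat_lit 152) (nat_lit 5152301997) (nat_lit 17) (nat_lit 5) (nat_lit 18) (nat_lit 5) (nat_lit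 19) (nat_lit 4) (nat_lit 311) (nat_lit 286) (nat_lit 183)) (XT.lf (nat_lit 0) (nat_lit 10395917020) (nat_lit 152) (nat_lit 35880261760) (nat_lit 76) (nat_lit 57728578616) (nat_lit 16) (nat_lit 5) (nat_lit 18) (nat_lit 5) (nat_lit 17) (nat_lit 5) (nat_lit 312) (nat_lit 286) (nat_lit 182)))) (XT.nd (nat_lit 156) (nat_lit 76) (nat_lit 0) (XT.nd (nat_lit 78) (nat_lit 0) (nat_lit 0) (XT.lf (nat_lit 0) (nat_lit 6779211121) (nat_lit 152) (nat_lit 20292022522) (nat_lit 228) (nat_lit 82987499730) (nat_lit 14) (nat_lit 5) (nat_lit 16) (nat_lit 5) (nat_lit 17) (nat_lit 5) (nat_lit 313) (nat_lit 286) (nat_lit 181)) (XT.lf (nat_lit 0) (nat_lit 46272567123) (nat_lit 228) (nat_lit 61841259898) (nat_lit 76) (nat_lit 8387844030) (nat_lit 14) (nat_lit 5) (nat_lit 17) (nat_lit 5) (nat_lit 15) (nat_lit 4) (nat_lit 314) (nat_lit 286) (nat_lit 180))) (XT.nd (nat_lit 78) (nat_lit 76) (nat_lit 0) (XT.lf (nat_lit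 0) (nat_lit 67535767957) (nat_lit 228) (nat_lit 17617157779) (nat_lit 76) (nat_lit 38265059882) (nat_lit 14) (nat_lit 5) (nat_lit 17) (nat_lit 5) (nat_lit 15) (nat_lit 4) (nat_lit 315) (nat_lit 286) (nat_lit 179)) (XT.lf (nat_lit 0) (nat_lit 31730146945) (nat_lit 76) (nat_lit 59531780519) (nat_lit 152) (nat_lit 39564728202) (nat_lit 13) (nat_lit 5) (nat_lit 14) (nat_lit 5) (nat_lit 15) (nat_lit 4) (nat_lit 316) (nat_lit 286) (nat_lit 178))))))))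
noncomputable def xc91 : XT := (XT.nd (nat_lit 2184) (nat_lit 76) (nat_lit 0) (XT.nd (nat_lit 1092) (nat_lit 228) (nat_lit 0) (XT.nd (nat_lit 546) (nat_lit 228) (nat_lit 0) (XT.nd (nat_lit 234) (nat_lit 76) (nat_lit 0) (XT.nd (nat_lit 78) (nat_lit 152) (nat_lit 0) (XT.lf (nat_lit 0) (nat_lit 86025193932) (nat_lit 76) (nat_lit 31341504630) (nat_lit 152) (nat_lit 21422881586) (nat_lit 13) (nat_lit 5) (nat_lit 14) (nat_lit 5) (nat_lit 15) (nat_lit 4) (nat_lit 317) (nat_lit 286) (nat_lit 177)) (XT.nd (nat_lit 78) (nat_lit 152) (nat_lit 0) (XT.lf (nat_lit 0) (nat_lit 144662043299) (nat_lit 76) (nat_lit 896728899) (nat_lit 152) (nat_lit 1830854890) (nat_lit 13) (nat_lit 5) (nat_lit 14) (nat_lit 5) (nat_lit 15) (nat_lit 4) (nat_lit 318) (nat_lit 286) (nat_lit 176)) (XT.lf (nat_lit 0) (nat_lit 20462544280) (nat_lit 152) (nat_lit 103829268405) (nat_lit 76) (nat_lit 32180606665) (nat_lit 11)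 (nat_lit 5) (nat_lit 13) (nat_lit 5) (nat_lit 12) (nat_lit 4) (nat_lit 319) (nat_lit 286) (nat_lit 175)))) (XT.nd (nat_lit 156) (nat_lit 0) (nat_lit 0) (XT.nd (nat_lit 78) (nat_lit 76) (nat_lit 0) (XT.lf (nat_lit 0) (nat_lit 44539299396) (nat_lit 152) (nat_lit 53751732371) (nat_lit 76) (nat_lit 67979096753) (nat_lit 11) (nat_lit 5) (nat_lit 13) (nat_lit 5) (nat_lit 12) (nat_lit 4) (nat_lit 320) (nat_lit 286) (nat_lit 174)) (XT.lf (nat_lit 0) (nat_lit 347788887) (nat_lit 76) (nat_lit 70201837061) (nat_lit 152) (nat_lit 106301435586) (nat_lit 10) (nat_lit 5) (nat_lit 11) (nat_lit 5) (nat_lit 12) (nat_lit 4) (nat_lit 321) (nat_lit 286) (nat_lit 173))) (XT.nd (nat_lit 78) (nat_lit 0) (nat_lit 0) (XT.lf (nat_lit 0) (nat_lit 61830605924) (nat_lit 76) (nat_lit 38278938279) (nat_lit 152) (nat_lit 88051425211) (nat_lit 10) (nat_lit 5) (nat_lit 11) (nat_lit 5) (nat_lit 12) (nat_lit 4) (nat_lit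 322) (nat_lit 286) (nat_lit 172)) (XT.lf (nat_lit 0) (nat_lit 128230590390) (nat_lit 76) (nat_lit 3802830307) (nat_lit 152) (nat_lit 68342317410) (nat_lit 10) (nat_lit 5) (nat_lit 11) (nat_lit 5) (nat_lit 12) (nat_lit 4) (nat_lit 323) (nat_lit 286) (nat_lit 171))))) (XT.nd (nat_lit 234) (nat_lit 76) (nat_lit 0) (XT.nd (nat_lit 78) (nat_lit 152) (nat_lit 0) (XT.lf (nat_lit 0) (nat_lit 167314445255) (nat_lit 152) (nat_lit 14430539051) (nat_lit 0) (nat_lit 31758446217) (nat_lit 10) (nat_lit 5) (nat_lit 12) (nat_lit 4) (nat_lit 10) (nat_lit 4) (nat_lit 324) (nat_lit 286) (nat_lit 170)) (XT.nd (nat_lit 78) (nat_lit 76) (nat_lit 0) (XT.lf (nat_lit 0) (nat_lit 50318292729) (nat_lit 76) (nat_lit 156407861103) (nat_lit 76) (nat_lit 20850529505) (nat_lit 9) (nat_lit 4) (nat_lit 10) (nat_lit 5) (nat_lit 10) (nat_lit 4) (nat_lit 325) (nat_lit 286) (nat_lit 169)) (XT.lf (nat_lit 0) (nat_lit 6593175996)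 (nat_lit 152) (nat_lit 121844759378) (nat_lit 76) (nat_lit 114293000721) (nat_lit 8) (nat_lit 5) (nat_lit 10) (nat_lit 5) (nat_lit 9) (nat_lit 4) (nat_lit 326) (nat_lit 286) (nat_lit 168)))) (XT.nd (nat_lit 156) (nat_lit 0) (nat_lit 0) (XT.nd (nat_lit 78) (nat_lit 76) (nat_lit 0) (XT.lf (nat_lit 0) (nat_lit 35105236817) (nat_lit 152) (nat_lit 62540815325) (nat_lit 76) (nat_lit 161408205759) (nat_lit 8) (nat_lit 5) (nat_lit 10) (nat_lit 5) (nat_lit 9) (nat_lit 4) (nat_lit 327) (nat_lit 286) (nat_lit 167)) (XT.lf (nat_lit 0) (nat_lit 1585648630) (nat_lit 76) (nat_lit 64350127506) (nat_lit 152) (nat_lit 210744669084) (nat_lit 7) (nat_lit 5) (nat_lit 8) (nat_lit 5) (nat_lit 9) (nat_lit 4) (nat_lit 328) (nat_lit 286) (nat_lit 166))) (XT.nd (nat_lit 78) (nat_lit 0) (nat_lit 0) (XT.lf (nat_lit 0) (nat_lit 74397893357) (nat_lit 76) (nat_lit 26544240567) (nat_lit 152) (nat_lit 194637844373)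 (nat_lit 7) (nat_lit 5) (nat_lit 8) (nat_lit 5) (nat_lit 9) (nat_lit 4) (nat_lit 329) (nat_lit 286) (nat_lit 165)) (XT.lf (nat_lit 0) (nat_lit 139092014114) (nat_lit 152) (nat_lit 163300979617) (nat_lit 0) (nat_lit 13571039923) (nat_lit 7) (nat_lit 5) (nat_lit 9) (nat_lit 4) (nat_lit 7) (nat_lit 4) (nat_lit 330) (nat_lit 286) (nat_lit 164)))))) (XT.nd (nat_lit 546) (nat_lit 76) (nat_lit 0) (XT.nd (nat_lit 234) (nat_lit 76) (nat_lit 0) (XT.nd (nat_lit 78) (nat_lit 76) (nat_lit 0) (XT.lf (nat_lit 0) (nat_lit 180982819876) (nat_lit 152) (nat_lit 101479811284) (nat_lit 0) (nat_lit 55461068149) (nat_lit 7) (nat_lit 5) (nat_lit 9) (nat_lit 4) (nat_lit 7) (nat_lit 4) (nat_lit 331) (nat_lit 286) (nat_lit 163)) (XT.nd (nat_lit 78) (nat_lit 76) (nat_lit 0) (XT.lf (nat_lit 0) (nat_lit 226224403400) (nat_lit 152) (nat_lit 34713842654) (nat_lit 0) (nat_lit 100701931732) (nat_lit 7) (nat_lit 5)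 (nat_lit 9) (nat_lit 4) (nat_lit 7) (nat_lit 4) (nat_lit 332) (nat_lit 286) (nat_lit 162)) (XT.lf (nat_lit 0) (nat_lit 39361603267) (nat_lit 76) (nat_lit 236669907194) (nat_lit 76) (nat_lit 111146768914) (nat_lit 6) (nat_lit 4) (nat_lit 7) (nat_lit 5) (nat_lit 7) (nat_lit 4) (nat_lit 333) (nat_lit 286) (nat_lit 161)))) (XT.nd (nat_lit 156) (nat_lit 76) (nat_lit 0) (XT.nd (nat_lit 78) (nat_lit 0) (nat_lit 0) (XT.lf (nat_lit 0) (nat_lit 121336485782) (nat_lit 76) (nat_lit 209435401630) (nat_lit 76) (nat_lit 83911646117) (nat_lit 6) (nat_lit 4) (nat_lit 7) (nat_lit 5) (nat_lit 7) (nat_lit 4) (nat_lit 334) (nat_lit 286) (nat_lit 160)) (XT.lf (nat_lit 0) (nat_lit 209868612535) (nat_lit 76) (nat_lit 180022477676) (nat_lit 76) (nat_lit 54498150650) (nat_lit 6) (nat_lit 4) (nat_lit 7) (nat_lit 5) (nat_lit 7) (nat_lit 4) (nat_lit 335) (nat_lit 286) (nat_lit 159))) (XT.nd (nat_lit 78) (nat_lit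 76) (nat_lit 0) (XT.lf (nat_lit 0) (nat_lit 305482618351) (nat_lit 76) (nat_lit 148256836523) (nat_lit 76) (nat_lit 22731980319) (nat_lit 6) (nat_lit 4) (nat_lit 7) (nat_lit 5) (nat_lit 7) (nat_lit 4) (nat_lit 336) (nat_lit 286) (nat_lit 158)) (XT.lf (nat_lit 0) (nat_lit 10996075024) (nat_lit 152) (nat_lit 102653510131) (nat_lit 76) (nat_lit 397448377544) (nat_lit 5) (nat_lit 5) (nat_lit 7) (nat_lit 5) (nat_lit 6) (nat_lit 4) (nat_lit 337) (nat_lit 286) (nat_lit 157))))) (XT.nd (nat_lit 234) (nat_lit 0) (nat_lit 0) (XT.nd (nat_lit 78) (nat_lit 76) (nat_lit 0) (XT.lf (nat_lit 0) (nat_lit 46193927750) (nat_lit 152) (nat_lit 29442430147) (nat_lit 76) (nat_lit 472811045968) (nat_lit 5) (nat_lit 5) (nat_lit 7) (nat_lit 5) (nat_lit 6) (nat_lit 4) (nat_lit 338) (nat_lit 286) (nat_lit 156)) (XT.nd (nat_lit 78) (nat_lit 0) (nat_lit 0) (XT.lf (nat_lit 0) (nat_lit 52238134264) (nat_lit 76) (nat_lit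 33225497568) (nat_lit 152) (nat_lit 503220686983) (nat_lit 4) (nat_lit 5) (nat_lit 5) (nat_lit 5) (nat_lit 6) (nat_lit 4) (nat_lit 339) (nat_lit 286) (nat_lit 155)) (XT.lf (nat_lit 0) (nat_lit 129003034523) (nat_lit 152) (nat_lit 490272210030) (nat_lit 0) (nat_lit 12774692941) (nat_lit 4) (nat_lit 5) (nat_lit 6) (nat_lit 4) (nat_lit 4) (nat_lit 4) (nat_lit 340) (nat_lit 286) (nat_lit 154)))) (XT.nd (nat_lit 156) (nat_lit 0) (nat_lit 0) (XT.nd (nat_lit 78) (nat_lit 0) (nat_lit 0) (XT.lf (nat_lit 0) (nat_lit 176888309728) (nat_lit 152) (nat_lit 441267843935) (nat_lit 0) (nat_lit 60659634673) (nat_lit 4) (nat_lit 5) (nat_lit 6) (nat_lit 4) (nat_lit 4) (nat_lit 4) (nat_lit 341) (nat_lit 286) (nat_lit 153)) (XT.lf (nat_lit 0) (nat_lit 228604148023) (nat_lit 152) (nat_lit 388343616008) (nat_lit 0) (nat_lit 112375164199) (nat_lit 4) (nat_lit 5) (nat_lit 6) (nat_lit 4) (nat_lit 4) (nat_lit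 4) (nat_lit 342) (nat_lit 286) (nat_lit 152))) (XT.nd (nat_lit 78) (nat_lit 0) (nat_lit 0) (XT.lf (nat_lit 0) (nat_lit 284457013638) (nat_lit 152) (nat_lit 331185901195) (nat_lit 0) (nat_lit 168227743914) (nat_lit 4) (nat_lit 5) (nat_lit 6) (nat_lit 4) (nat_lit 4) (nat_lit 4) (nat_lit 343) (nat_lit 286) (nat_lit 151)) (XT.lf (nat_lit 0) (nat_lit 344777886515) (nat_lit 152) (nat_lit 269455987111) (nat_lit 0) (nat_lit 228548352070) (nat_lit 4) (nat_lit 5) (nat_lit 6) (nat_lit 4) (nat_lit 4) (nat_lit 4) (nat_lit 344) (nat_lit 286) (nat_lit 150))))))) (XT.nd (nat_lit 1092) (nat_lit 0) (nat_lit 0) (XT.nd (nat_lit 546) (nat_lit 0) (nat_lit 0) (XT.nd (nat_lit 234) (nat_lit 76) (nat_lit 0) (XT.nd (nat_lit 78) (nat_lit 0) (nat_lit 0) (XT.lf (nat_lit 0) (nat_lit 409924223679) (nat_lit 152) (nat_lit 202788066858) (nat_lit 0) (nat_lit 293694444123) (nat_lit 4) (nat_lit 5) (nat_lit 6) (nat_lit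 4) (nat_lit 4) (nat_lit 4) (nat_lit 345) (nat_lit 286) (nat_lit 149)) (XT.nd (nat_lit 78) (nat_lit 0) (nat_lit 0) (XT.lf (nat_lit 0) (nat_lit 480282077498) (nat_lit 152) (nat_lit 130787071280) (nat_lit 0) (nat_lit 364052070987) (nat_lit 4) (nat_lit 5) (nat_lit 6) (nat_lit 4) (nat_lit 4) (nat_lit 4) (nat_lit 346) (nat_lit 286) (nat_lit 148)) (XT.lf (nat_lit 0) (nat_lit 556268383404) (nat_lit 152) (nat_lit 53026327809) (nat_lit 0) (nat_lit 440038166748) (nat_lit 4) (nat_lit 5) (nat_lit 6) (nat_lit 4) (nat_lit 4) (nat_lit 4) (nat_lit 347) (nat_lit 286) (nat_lit 147)))) (XT.nd (nat_lit 156) (nat_lit 0) (nat_lit 0) (XT.nd (nat_lit 78) (nat_lit 0) (nat_lit 0) (XT.lf (nat_lit 0) (nat_lit 32585001715) (nat_lit 76) (nat_lit 606532098974) (nat_lit 76) (nat_lit 490301687741) (nat_lit 3) (nat_lit 4) (nat_lit 4) (nat_lit 5) (nat_lit 4) (nat_lit 4) (nat_lit 348) (nat_lit 286) (nat_lit 146)) (XT.lf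 (nat_lit 0) (nat_lit 128060592446) (nat_lit 76) (nat_lit 601982798404) (nat_lit 76) (nat_lit 485752207006) (nat_lit 3) (nat_lit 4) (nat_lit 4) (nat_lit 5) (nat_lit 4) (nat_lit 4) (nat_lit 349) (nat_lit 286) (nat_lit 145))) (XT.nd (nat_lit 78) (nat_lit 0) (nat_lit 0) (XT.lf (nat_lit 0) (nat_lit 231173953211) (nat_lit 76) (nat_lit 597069684456) (nat_lit 76) (nat_lit 480838926239) (nat_lit 3) (nat_lit 4) (nat_lit 4) (nat_lit 5) (nat_lit 4) (nat_lit 4) (nat_lit 350) (nat_lit 286) (nat_lit 144)) (XT.lf (nat_lit 0) (nat_lit 342536126148) (nat_lit 76) (nat_lit 591763642382) (nat_lit 76) (nat_lit 475532729703) (nat_lit 3) (nat_lit 4) (nat_lit 4) (nat_lit 5) (nat_lit 4) (nat_lit 4) (nat_lit 351) (nat_lit 286) (nat_lit 143))))) (XT.nd (nat_lit 234) (nat_lit 0) (nat_lit 0) (XT.nd (nat_lit 78) (nat_lit 0) (nat_lit 0) (XT.lf (nat_lit 0) (nat_lit 462807035244) (nat_lit 76) (nat_lit 586033228970)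 (nat_lit 76) (nat_lit 469802173270) (nat_lit 3) (nat_lit 4) (nat_lit 4) (nat_lit 5) (nat_lit 4) (nat_lit 4) (nat_lit 352) (nat_lit 286) (nat_lit 142)) (XT.nd (nat_lit 78) (nat_lit 0) (nat_lit 0) (XT.lf (nat_lit 0) (nat_lit 592699396997) (nat_lit 76) (nat_lit 579844486213) (nat_lit 76) (nat_lit 463613298088) (nat_lit 3) (nat_lit 4) (nat_lit 4) (nat_lit 5) (nat_lit 4) (nat_lit 4) (nat_lit 353) (nat_lit 286) (nat_lit 141)) (XT.lf (nat_lit 0) (nat_lit 732982943922) (nat_lit 76) (nat_lit 573160740081) (nat_lit 76) (nat_lit 456929429339) (nat_lit 3) (nat_lit 4) (nat_lit 4) (nat_lit 5) (nat_lit 4) (nat_lit 4) (nat_lit 354) (nat_lit 286) (nat_lit 140)))) (XT.nd (nat_lit 156) (nat_lit 0) (nat_lit 0) (XT.nd (nat_lit 78) (nat_lit 0) (nat_lit 0) (XT.lf (nat_lit 0) (nat_lit 884488985926) (nat_lit 76) (nat_lit 565942383190) (nat_lit 76) (nat_lit 449710958913) (nat_lit 3) (nat_lit 4) (nat_lit 4)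 (nat_lit 5) (nat_lit 4) (nat_lit 4) (nat_lit 355) (nat_lit 286) (nat_lit 139)) (XT.lf (nat_lit 0) (nat_lit 1048115336592) (nat_lit 76) (nat_lit 558146640090) (nat_lit 76) (nat_lit 441915110689) (nat_lit 3) (nat_lit 4) (nat_lit 4) (nat_lit 5) (nat_lit 4) (nat_lit 4) (nat_lit 356) (nat_lit 286) (nat_lit 138))) (XT.nd (nat_lit 78) (nat_lit 0) (nat_lit 0) (XT.lf (nat_lit 0) (nat_lit 1224831633553) (nat_lit 76) (nat_lit 549727313787) (nat_lit 76) (nat_lit 433495687048) (nat_lit 3) (nat_lit 4) (nat_lit 4) (nat_lit 5) (nat_lit 4) (nat_lit 4) (nat_lit 357) (nat_lit 286) (nat_lit 137)) (XT.lf (nat_lit 0) (nat_lit 1415685084495) (nat_lit 76) (nat_lit 540634511975) (nat_lit 76) (nat_lit 424402795110) (nat_lit 3) (nat_lit 4) (nat_lit 4) (nat_lit 5) (nat_lit 4) (nat_lit 4) (nat_lit 358) (nat_lit 286) (nat_lit 136)))))) (XT.nd (nat_lit 35412) (nat_lit 0) (nat_lit 2052) (XT.nd (nat_lit 35100) (nat_lit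 0) (nat_lit 2812) (XT.nd (nat_lit 78) (nat_lit 0) (nat_lit 0) (XT.lf (nat_lit 0) (nat_lit 1621806672831) (nat_lit 76) (nat_lit 530814351385) (nat_lit 76) (nat_lit 414582551069) (nat_lit 3) (nat_lit 4) (nat_lit 4) (nat_lit 5) (nat_lit 4) (nat_lit 4) (nat_lit 359) (nat_lit 286) (nat_lit 135)) (XT.nd (nat_lit 34944) (nat_lit 0) (nat_lit 2812) (XT.lf (nat_lit 0) (nat_lit 1844417859824) (nat_lit 76) (nat_lit 520208638473) (nat_lit 76) (nat_lit 403976760887) (nat_lit 3) (nat_lit 4) (nat_lit 4) (nat_lit 5) (nat_lit 4) (nat_lit 4) (nat_lit 360) (nat_lit 286) (nat_lit 134)) (XT.lf (nat_lit 0) (nat_lit 7657512779) (nat_lit 532) (nat_lit 4358934850) (nat_lit 532) (nat_lit 4358934850) (nat_lit 40) (nat_lit 3) (nat_lit 47) (nat_lit 3) (nat_lit 47) (nat_lit 5) (nat_lit 287) (nat_lit 287) (nat_lit 206)))) (XT.nd (nat_lit 156) (nat_lit 0) (nat_lit 76) (XT.nd (nat_lit 78) (nat_lit 0) (nat_lit 76) (XT.lf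 (nat_lit 76) (nat_lit 6012481902) (nat_lit 0) (nat_lit 10114875893) (nat_lit 532) (nat_lit 17917224108) (nat_lit 41) (nat_lit 5) (nat_lit 40) (nat_lit 3) (nat_lit 47) (nat_lit 5) (nat_lit 288) (nat_lit 287) (nat_lit 205)) (XT.lf (nat_lit 0) (nat_lit 17361941158) (nat_lit 456) (nat_lit 13133893182) (nat_lit 532) (nat_lit 4917512227) (nat_lit 41) (nat_lit 5) (nat_lit 47) (nat_lit 5) (nat_lit 48) (nat_lit 5) (nat_lit 289) (nat_lit 287) (nat_lit 204))) (XT.nd (nat_lit 78) (nat_lit 0) (nat_lit 0) (XT.lf (nat_lit 76) (nat_lit 2831693992) (nat_lit 0) (nat_lit 16189300710) (nat_lit 532) (nat_lit 17844583205) (nat_lit 42) (nat_lit 5) (nat_lit 41) (nat_lit 5) (nat_lit 48) (nat_lit 5) (nat_lit 290) (nat_lit 287) (nat_lit 203)) (XT.lf (nat_lit 76) (nat_lit 20818145542) (nat_lit 0) (nat_lit 348907714) (nat_lit 532) (nat_lit 17238612210) (nat_lit 42) (nat_lit 5) (nat_lit 41) (nat_lit 5) (nat_lit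 48) (nat_lit 5) (nat_lit 291) (nat_lit 287) (nat_lit 202))))) (XT.nd (nat_lit 312) (nat_lit 532) (nat_lit 0) (XT.nd (nat_lit 156) (nat_lit 380) (nat_lit 0) (XT.nd (nat_lit 78) (nat_lit 0) (nat_lit 0) (XT.lf (nat_lit 0) (nat_lit 23883411619) (nat_lit 456) (nat_lit 231976717) (nat_lit 532) (nat_lit 15921701160) (nat_lit 42) (nat_lit 5) (nat_lit 48) (nat_lit 5) (nat_lit 49) (nat_lit 5) (nat_lit 292) (nat_lit 287) (nat_lit 201)) (XT.lf (nat_lit 76) (nat_lit 19473885630) (nat_lit 0) (nat_lit 7816498890) (nat_lit 532) (nat_lit 14470795753) (nat_lit 43) (nat_lit 5) (nat_lit 42) (nat_lit 5) (nat_lit 49) (nat_lit 5) (nat_lit 293) (nat_lit 287) (nat_lit 200))) (XT.nd (nat_lit 78) (nat_lit 456) (nat_lit 0) (XT.lf (nat_lit 0) (nat_lit 31207925404) (nat_lit 456) (nat_lit 3092293218) (nat_lit 76) (nat_lit 9303954889) (nat_lit 43) (nat_lit 5) (nat_lit 49) (nat_lit 5) (nat_lit 44) (nat_lit 5) (nat_lit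 294) (nat_lit 287) (nat_lit 199)) (XT.lf (nat_lit 0) (nat_lit 18349995242) (nat_lit 456) (nat_lit 17729645829) (nat_lit 532) (nat_lit 9463718242) (nat_lit 37) (nat_lit 5) (nat_lit 43) (nat_lit 5) (nat_lit 44) (nat_lit 5) (nat_lit 295) (nat_lit 287) (nat_lit 198)))) (XT.nd (nat_lit 156) (nat_lit 304) (nat_lit 0) (XT.nd (nat_lit 78) (nat_lit 228) (nat_lit 0) (XT.lf (nat_lit 0) (nat_lit 41428467299) (nat_lit 532) (nat_lit 5957026568) (nat_lit 76) (nat_lit 245209977) (nat_lit 37) (nat_lit 5) (nat_lit 44) (nat_lit 5) (nat_lit 38) (nat_lit 5) (nat_lit 296) (nat_lit 287) (nat_lit 197)) (XT.lf (nat_lit 0) (nat_lit 17384151293) (nat_lit 228) (nat_lit 30696520438) (nat_lit 304) (nat_lit 1734339147) (nat_lit 34) (nat_lit 5) (nat_lit 37) (nat_lit 5) (nat_lit 38) (nat_lit 5) (nat_lit 297) (nat_lit 287) (nat_lit 196))) (XT.nd (nat_lit 78) (nat_lit 228) (nat_lit 0) (XT.lf (nat_lit 0) (nat_lit 3100413711)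 (nat_lit 304) (nat_lit 9311469999) (nat_lit 76) (nat_lit 39743118792) (nat_lit 33) (nat_lit 5) (nat_lit 37) (nat_lit 5) (nat_lit 34) (nat_lit 5) (nat_lit 298) (nat_lit 287) (nat_lit 195)) (XT.lf (nat_lit 0) (nat_lit 8808438887) (nat_lit 304) (nat_lit 38403706464) (nat_lit 76) (nat_lit 7420039057) (nat_lit 30) (nat_lit 5) (nat_lit 34) (nat_lit 5) (nat_lit 31) (nat_lit 5) (nat_lit 299) (nat_lit 287) (nat_lit 194))))))))
noncomputable def xc92 : XT := (XT.nd (nat_lit 2184) (nat_lit 380) (nat_lit 0) (XT.nd (nat_lit 1092) (nat_lit 608) (nat_lit 0) (XT.nd (nat_lit 546) (nat_lit 456) (nat_lit 0) (XT.nd (nat_lit 234) (nat_lit 380) (nat_lit 0) (XT.nd (nat_lit 78) (nat_lit 228) (nat_lit 0) (XT.lf (nat_lit 0) (nat_lit 15553997884) (nat_lit 304) (nat_lit 13278172348) (nat_lit 76) (nat_lit 28428908633) (nat_lit 30) (nat_lit 5) (nat_lit 34) (nat_lit 5) (nat_lit 31) (nat_lit 5) (nat_lit 300) (nat_lit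 287) (nat_lit 193)) (XT.nd (nat_lit 78) (nat_lit 0) (nat_lit 0) (XT.lf (nat_lit 0) (nat_lit 14584018431) (nat_lit 228) (nat_lit 8603429482) (nat_lit 304) (nat_lit 36884985911) (nat_lit 27) (nat_lit 5) (nat_lit 30) (nat_lit 5) (nat_lit 31) (nat_lit 5) (nat_lit 301) (nat_lit 287) (nat_lit 192)) (XT.lf (nat_lit 0) (nat_lit 32120166771) (nat_lit 304) (nat_lit 17980316866) (nat_lit 76) (nat_lit 12953134128) (nat_lit 27) (nat_lit 5) (nat_lit 31) (nat_lit 5) (nat_lit 28) (nat_lit 5) (nat_lit 302) (nat_lit 287) (nat_lit 191)))) (XT.nd (nat_lit 156) (nat_lit 228) (nat_lit 0) (XT.nd (nat_lit 78) (nat_lit 0) (nat_lit 0) (XT.lf (nat_lit 0) (nat_lit 12107821579) (nat_lit 152) (nat_lit 30172123132) (nat_lit 228) (nat_lit 23952363799) (nat_lit 25) (nat_lit 5) (nat_lit 27) (nat_lit 5) (nat_lit 28) (nat_lit 5) (nat_lit 303) (nat_lit 287) (nat_lit 190)) (XT.lf (nat_lit 0) (nat_lit 45622814627) (nat_lit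 152) (nat_lit 8119184513) (nat_lit 228) (nat_lit 15884142703) (nat_lit 25) (nat_lit 5) (nat_lit 27) (nat_lit 5) (nat_lit 28) (nat_lit 5) (nat_lit 304) (nat_lit 287) (nat_lit 189))) (XT.nd (nat_lit 78) (nat_lit 76) (nat_lit 0) (XT.lf (nat_lit 0) (nat_lit 8576311758) (nat_lit 152) (nat_lit 58126527103) (nat_lit 228) (nat_lit 6542103666) (nat_lit 23) (nat_lit 5) (nat_lit 25) (nat_lit 5) (nat_lit 26) (nat_lit 5) (nat_lit 305) (nat_lit 287) (nat_lit 188)) (XT.lf (nat_lit 0) (nat_lit 4252128058) (nat_lit 228) (nat_lit 32289316629) (nat_lit 76) (nat_lit 40534400636) (nat_lit 22) (nat_lit 5) (nat_lit 25) (nat_lit 5) (nat_lit 23) (nat_lit 5) (nat_lit 306) (nat_lit 287) (nat_lit 187))))) (XT.nd (nat_lit 234) (nat_lit 304) (nat_lit 0) (XT.nd (nat_lit 78) (nat_lit 0) (nat_lit 0) (XT.lf (nat_lit 0) (nat_lit 2639943271) (nat_lit 152) (nat_lit 12978198339) (nat_lit 228) (nat_lit 65576554852) (nat_lit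 20) (nat_lit 5) (nat_lit 22) (nat_lit 5) (nat_lit 23) (nat_lit 5) (nat_lit 307) (nat_lit 287) (nat_lit 186)) (XT.nd (nat_lit 78) (nat_lit 0) (nat_lit 0) (XT.lf (nat_lit 0) (nat_lit 29097373347) (nat_lit 228) (nat_lit 43697995688) (nat_lit 76) (nat_lit 12751376365) (nat_lit 20) (nat_lit 5) (nat_lit 23) (nat_lit 5) (nat_lit 21) (nat_lit 5) (nat_lit 308) (nat_lit 287) (nat_lit 185)) (XT.lf (nat_lit 0) (nat_lit 43990421606) (nat_lit 228) (nat_lit 6392197617) (nat_lit 76) (nat_lit 39837505119) (nat_lit 20) (nat_lit 5) (nat_lit 23) (nat_lit 5) (nat_lit 21) (nat_lit 5) (nat_lit 309) (nat_lit 287) (nat_lit 184)))) (XT.nd (nat_lit 156) (nat_lit 152) (nat_lit 0) (XT.nd (nat_lit 78) (nat_lit 0) (nat_lit 0) (XT.lf (nat_lit 0) (nat_lit 35680733181) (nat_lit 152) (nat_lit 25250804816) (nat_lit 228) (nat_lit 34267309668) (nat_lit 18) (nat_lit 5) (nat_lit 20) (nat_lit 5) (nat_lit 21) (nat_lit 5) (nat_lit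 310) (nat_lit 287) (nat_lit 183)) (XT.lf (nat_lit 0) (nat_lit 79451292253) (nat_lit 228) (nat_lit 19131160921) (nat_lit 76) (nat_lit 1975551504) (nat_lit 18) (nat_lit 5) (nat_lit 21) (nat_lit 5) (nat_lit 19) (nat_lit 4) (nat_lit 311) (nat_lit 287) (nat_lit 182))) (XT.nd (nat_lit 78) (nat_lit 76) (nat_lit 0) (XT.lf (nat_lit 0) (nat_lit 25083562617) (nat_lit 76) (nat_lit 75626840523) (nat_lit 152) (nat_lit 5534872445) (nat_lit 17) (nat_lit 5) (nat_lit 18) (nat_lit 5) (nat_lit 19) (nat_lit 4) (nat_lit 312) (nat_lit 287) (nat_lit 181)) (XT.lf (nat_lit 0) (nat_lit 11253638820) (nat_lit 152) (nat_lit 38709270379) (nat_lit 76) (nat_lit 62360087452) (nat_lit 16) (nat_lit 5) (nat_lit 18) (nat_lit 5) (nat_lit 17) (nat_lit 5) (nat_lit 313) (nat_lit 287) (nat_lit 180)))))) (XT.nd (nat_lit 546) (nat_lit 228) (nat_lit 0) (XT.nd (nat_lit 234) (nat_lit 228) (nat_lit 0) (XT.nd (nat_lit 78) (nat_lit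 0) (nat_lit 0) (XT.lf (nat_lit 0) (nat_lit 7361911919) (nat_lit 152) (nat_lit 21900110093) (nat_lit 228) (nat_lit 89599349651) (nat_lit 14) (nat_lit 5) (nat_lit 16) (nat_lit 5) (nat_lit 17) (nat_lit 5) (nat_lit 314) (nat_lit 287) (nat_lit 179)) (XT.nd (nat_lit 78) (nat_lit 0) (nat_lit 0) (XT.lf (nat_lit 0) (nat_lit 49997943811) (nat_lit 228) (nat_lit 66749619077) (nat_lit 76) (nat_lit 9072306878) (nat_lit 14) (nat_lit 5) (nat_lit 17) (nat_lit 5) (nat_lit 15) (nat_lit 4) (nat_lit 315) (nat_lit 287) (nat_lit 178)) (XT.lf (nat_lit 0) (nat_lit 72960454688) (nat_lit 228) (nat_lit 18990473352) (nat_lit 76) (nat_lit 41338704789) (nat_lit 14) (nat_lit 5) (nat_lit 17) (nat_lit 5) (nat_lit 15) (nat_lit 4) (nat_lit 316) (nat_lit 287) (nat_lit 177)))) (XT.nd (nat_lit 156) (nat_lit 152) (nat_lit 0) (XT.nd (nat_lit 78) (nat_lit 0) (nat_lit 0) (XT.lf (nat_lit 0) (nat_lit 34303702913) (nat_lit 76)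 (nat_lit 64280232573) (nat_lit 152) (nat_lit 42707126091) (nat_lit 13) (nat_lit 5) (nat_lit 14) (nat_lit 5) (nat_lit 15) (nat_lit 4) (nat_lit 317) (nat_lit 287) (nat_lit 176)) (XT.lf (nat_lit 0) (nat_lit 92939750384) (nat_lit 76) (nat_lit 33835778346) (nat_lit 152) (nat_lit 23115619181) (nat_lit 13) (nat_lit 5) (nat_lit 14) (nat_lit 5) (nat_lit 15) (nat_lit 4) (nat_lit 318) (nat_lit 287) (nat_lit 175))) (XT.nd (nat_lit 78) (nat_lit 152) (nat_lit 0) (XT.lf (nat_lit 0) (nat_lit 156265137261) (nat_lit 76) (nat_lit 956386975) (nat_lit 152) (nat_lit 1957792788) (nat_lit 13) (nat_lit 5) (nat_lit 14) (nat_lit 5) (nat_lit 15) (nat_lit 4) (nat_lit 319) (nat_lit 287) (nat_lit 174)) (XT.lf (nat_lit 0) (nat_lit 22117756236) (nat_lit 152) (nat_lit 112104092728) (nat_lit 76) (nat_lit 34766876217) (nat_lit 11) (nat_lit 5) (nat_lit 13) (nat_lit 5) (nat_lit 12) (nat_lit 4) (nat_lit 320) (nat_lit 287)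 (nat_lit 173))))) (XT.nd (nat_lit 234) (nat_lit 152) (nat_lit 0) (XT.nd (nat_lit 78) (nat_lit 76) (nat_lit 0) (XT.lf (nat_lit 0) (nat_lit 48119302990) (nat_lit 152) (nat_lit 58022688415) (nat_lit 76) (nat_lit 73428369882) (nat_lit 11) (nat_lit 5) (nat_lit 13) (nat_lit 5) (nat_lit 12) (nat_lit 4) (nat_lit 321) (nat_lit 287) (nat_lit 172)) (XT.nd (nat_lit 78) (nat_lit 0) (nat_lit 0) (XT.lf (nat_lit 0) (nat_lit 404055745) (nat_lit 76) (nat_lit 75805835130) (nat_lit 152) (nat_lit 114787925377) (nat_lit 10) (nat_lit 5) (nat_lit 11) (nat_lit 5) (nat_lit 12) (nat_lit 4) (nat_lit 322) (nat_lit 287) (nat_lit 171)) (XT.lf (nat_lit 0) (nat_lit 66803391201) (nat_lit 76) (nat_lit 41330004364) (nat_lit 152) (nat_lit 95079219731) (nat_lit 10) (nat_lit 5) (nat_lit 11) (nat_lit 5) (nat_lit 12) (nat_lit 4) (nat_lit 323) (nat_lit 287) (nat_lit 170)))) (XT.nd (nat_lit 156) (nat_lit 152) (nat_lit 0) (XT.nd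 (nat_lit 78) (nat_lit 0) (nat_lit 0) (XT.lf (nat_lit 0) (nat_lit 138513423550) (nat_lit 76) (nat_lit 4096641012) (nat_lit 152) (nat_lit 73794592158) (nat_lit 10) (nat_lit 5) (nat_lit 11) (nat_lit 5) (nat_lit 12) (nat_lit 4) (nat_lit 324) (nat_lit 287) (nat_lit 169)) (XT.lf (nat_lit 0) (nat_lit 180712768197) (nat_lit 152) (nat_lit 15561578595) (nat_lit 0) (nat_lit 34308283658) (nat_lit 10) (nat_lit 5) (nat_lit 12) (nat_lit 4) (nat_lit 10) (nat_lit 4) (nat_lit 325) (nat_lit 287) (nat_lit 168))) (XT.nd (nat_lit 78) (nat_lit 76) (nat_lit 0) (XT.lf (nat_lit 0) (nat_lit 54366567231) (nat_lit 76) (nat_lit 168910419480) (nat_lit 76) (nat_lit 22504792485) (nat_lit 9) (nat_lit 4) (nat_lit 10) (nat_lit 5) (nat_lit 10) (nat_lit 4) (nat_lit 326) (nat_lit 287) (nat_lit 167)) (XT.lf (nat_lit 0) (nat_lit 7132750520) (nat_lit 152) (nat_lit 131570563741) (nat_lit 76) (nat_lit 123445110313) (nat_lit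 8) (nat_lit 5) (nat_lit 10) (nat_lit 5) (nat_lit 9) (nat_lit 4) (nat_lit 327) (nat_lit 287) (nat_lit 166))))))) (XT.nd (nat_lit 1092) (nat_lit 76) (nat_lit 0) (XT.nd (nat_lit 546) (nat_lit 152) (nat_lit 0) (XT.nd (nat_lit 234) (nat_lit 76) (nat_lit 0) (XT.nd (nat_lit 78) (nat_lit 76) (nat_lit 0) (XT.lf (nat_lit 0) (nat_lit 37924878397) (nat_lit 152) (nat_lit 67523917229) (nat_lit 76) (nat_lit 174328889566) (nat_lit 8) (nat_lit 5) (nat_lit 10) (nat_lit 5) (nat_lit 9) (nat_lit 4) (nat_lit 328) (nat_lit 287) (nat_lit 165)) (XT.nd (nat_lit 78) (nat_lit 0) (nat_lit 0) (XT.lf (nat_lit 0) (nat_lit 1732153379) (nat_lit 76) (nat_lit 69489348829) (nat_lit 152) (nat_lit 227592495133) (nat_lit 7) (nat_lit 5) (nat_lit 8) (nat_lit 5) (nat_lit 9) (nat_lit 4) (nat_lit 329) (nat_lit 287) (nat_lit 164)) (XT.lf (nat_lit 0) (nat_lit 80367921916) (nat_lit 76) (nat_lit 28659641963) (nat_lit 152) (nat_lit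 210197994628) (nat_lit 7) (nat_lit 5) (nat_lit 8) (nat_lit 5) (nat_lit 9) (nat_lit 4) (nat_lit 330) (nat_lit 287) (nat_lit 163)))) (XT.nd (nat_lit 156) (nat_lit 76) (nat_lit 0) (XT.nd (nat_lit 78) (nat_lit 0) (nat_lit 0) (XT.lf (nat_lit 0) (nat_lit 150228870573) (nat_lit 152) (nat_lit 176347632589) (nat_lit 0) (nat_lit 14663881230) (nat_lit 7) (nat_lit 5) (nat_lit 9) (nat_lit 4) (nat_lit 7) (nat_lit 4) (nat_lit 331) (nat_lit 287) (nat_lit 162)) (XT.lf (nat_lit 0) (nat_lit 195470237438) (nat_lit 152) (nat_lit 109582061560) (nat_lit 0) (nat_lit 59904581484) (nat_lit 7) (nat_lit 5) (nat_lit 9) (nat_lit 4) (nat_lit 7) (nat_lit 4) (nat_lit 332) (nat_lit 287) (nat_lit 161))) (XT.nd (nat_lit 78) (nat_lit 76) (nat_lit 0) (XT.lf (nat_lit 0) (nat_lit 244330496386) (nat_lit 152) (nat_lit 37476010597) (nat_lit 0) (nat_lit 108764223198) (nat_lit 7) (nat_lit 5) (nat_lit 9) (nat_lit 4) (nat_lit 7)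 (nat_lit 4) (nat_lit 333) (nat_lit 287) (nat_lit 160)) (XT.lf (nat_lit 0) (nat_lit 42525092783) (nat_lit 76) (nat_lit 255596826412) (nat_lit 76) (nat_lit 120029981712) (nat_lit 6) (nat_lit 4) (nat_lit 7) (nat_lit 5) (nat_lit 7) (nat_lit 4) (nat_lit 334) (nat_lit 287) (nat_lit 159))))) (XT.nd (nat_lit 234) (nat_lit 152) (nat_lit 0) (XT.nd (nat_lit 78) (nat_lit 0) (nat_lit 0) (XT.lf (nat_lit 0) (nat_lit 131056887288) (nat_lit 76) (nat_lit 226184054726) (nat_lit 76) (nat_lit 90616680847) (nat_lit 6) (nat_lit 4) (nat_lit 7) (nat_lit 5) (nat_lit 7) (nat_lit 4) (nat_lit 335) (nat_lit 287) (nat_lit 158)) (XT.nd (nat_lit 78) (nat_lit 0) (nat_lit 0) (XT.lf (nat_lit 0) (nat_lit 226670585466) (nat_lit 76) (nat_lit 194418554562) (nat_lit 76) (nat_lit 58850690703) (nat_lit 6) (nat_lit 4) (nat_lit 7) (nat_lit 5) (nat_lit 7) (nat_lit 4) (nat_lit 336) (nat_lit 287) (nat_lit 157)) (XT.lf (nat_lit 0)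 (nat_lit 329932787013) (nat_lit 76) (nat_lit 160112085918) (nat_lit 76) (nat_lit 24543768375) (nat_lit 6) (nat_lit 4) (nat_lit 7) (nat_lit 5) (nat_lit 7) (nat_lit 4) (nat_lit 337) (nat_lit 287) (nat_lit 156)))) (XT.nd (nat_lit 156) (nat_lit 76) (nat_lit 0) (XT.nd (nat_lit 78) (nat_lit 0) (nat_lit 0) (XT.lf (nat_lit 0) (nat_lit 11881716293) (nat_lit 152) (nat_lit 110854767731) (nat_lit 76) (nat_lit 429248832610) (nat_lit 5) (nat_lit 5) (nat_lit 7) (nat_lit 5) (nat_lit 6) (nat_lit 4) (nat_lit 338) (nat_lit 287) (nat_lit 155)) (XT.lf (nat_lit 0) (nat_lit 49894956106) (nat_lit 152) (nat_lit 31787617881) (nat_lit 76) (nat_lit 510640174889) (nat_lit 5) (nat_lit 5) (nat_lit 7) (nat_lit 5) (nat_lit 6) (nat_lit 4) (nat_lit 339) (nat_lit 287) (nat_lit 154))) (XT.nd (nat_lit 78) (nat_lit 0) (nat_lit 0) (XT.lf (nat_lit 0) (nat_lit 56427133285) (nat_lit 76) (nat_lit 35878934031) (nat_lit 152) (nat_lit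 543472563699) (nat_lit 4) (nat_lit 5) (nat_lit 5) (nat_lit 5) (nat_lit 6) (nat_lit 4) (nat_lit 340) (nat_lit 287) (nat_lit 153)) (XT.lf (nat_lit 0) (nat_lit 139328328811) (nat_lit 152) (nat_lit 529484476763) (nat_lit 0) (nat_lit 13800717510) (nat_lit 4) (nat_lit 5) (nat_lit 6) (nat_lit 4) (nat_lit 4) (nat_lit 4) (nat_lit 341) (nat_lit 287) (nat_lit 152)))))) (XT.nd (nat_lit 546) (nat_lit 76) (nat_lit 0) (XT.nd (nat_lit 234) (nat_lit 0) (nat_lit 0) (XT.nd (nat_lit 78) (nat_lit 0) (nat_lit 0) (XT.lf (nat_lit 0) (nat_lit 191044051845) (nat_lit 152) (nat_lit 476560465830) (nat_lit 0) (nat_lit 65516154645) (nat_lit 4) (nat_lit 5) (nat_lit 6) (nat_lit 4) (nat_lit 4) (nat_lit 4) (nat_lit 342) (nat_lit 287) (nat_lit 151)) (XT.nd (nat_lit 78) (nat_lit 0) (nat_lit 0) (XT.lf (nat_lit 0) (nat_lit 246896810735) (nat_lit 152) (nat_lit 419402951937) (nat_lit 0) (nat_lit 121368648814) (nat_lit 4)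 (nat_lit 5) (nat_lit 6) (nat_lit 4) (nat_lit 4) (nat_lit 4) (nat_lit 343) (nat_lit 287) (nat_lit 150)) (XT.lf (nat_lit 0) (nat_lit 307217584793) (nat_lit 152) (nat_lit 357673223891) (nat_lit 0) (nat_lit 181689177761) (nat_lit 4) (nat_lit 5) (nat_lit 6) (nat_lit 4) (nat_lit 4) (nat_lit 4) (nat_lit 344) (nat_lit 287) (nat_lit 149)))) (XT.nd (nat_lit 156) (nat_lit 0) (nat_lit 0) (XT.nd (nat_lit 78) (nat_lit 0) (nat_lit 0) (XT.lf (nat_lit 0) (nat_lit 372363830458) (nat_lit 152) (nat_lit 291005475895) (nat_lit 0) (nat_lit 246835196470) (nat_lit 4) (nat_lit 5) (nat_lit 6) (nat_lit 4) (nat_lit 4) (nat_lit 4) (nat_lit 345) (nat_lit 287) (nat_lit 148)) (XT.lf (nat_lit 0) (nat_lit 442721599557) (nat_lit 152) (nat_lit 219004639813) (nat_lit 0) (nat_lit 317192755425) (nat_lit 4) (nat_lit 5) (nat_lit 6) (nat_lit 4) (nat_lit 4) (nat_lit 4) (nat_lit 346) (nat_lit 287) (nat_lit 147))) (XT.nd (nat_lit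 78) (nat_lit 0) (nat_lit 0) (XT.lf (nat_lit 0) (nat_lit 518707827017) (nat_lit 152) (nat_lit 141244044025) (nat_lit 0) (nat_lit 393178788307) (nat_lit 4) (nat_lit 5) (nat_lit 6) (nat_lit 4) (nat_lit 4) (nat_lit 4) (nat_lit 347) (nat_lit 287) (nat_lit 146)) (XT.lf (nat_lit 0) (nat_lit 600772801593) (nat_lit 152) (nat_lit 57262884999) (nat_lit 0) (nat_lit 475243582719) (nat_lit 4) (nat_lit 5) (nat_lit 6) (nat_lit 4) (nat_lit 4) (nat_lit 4) (nat_lit 348) (nat_lit 287) (nat_lit 145))))) (XT.nd (nat_lit 234) (nat_lit 0) (nat_lit 0) (XT.nd (nat_lit 78) (nat_lit 0) (nat_lit 0) (XT.lf (nat_lit 0) (nat_lit 35197210404) (nat_lit 76) (nat_lit 655052117598) (nat_lit 76) (nat_lit 529522731905) (nat_lit 3) (nat_lit 4) (nat_lit 4) (nat_lit 5) (nat_lit 4) (nat_lit 4) (nat_lit 349) (nat_lit 287) (nat_lit 144)) (XT.nd (nat_lit 78) (nat_lit 0) (nat_lit 0) (XT.lf (nat_lit 0) (nat_lit 138310447761) (nat_lit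 76) (nat_lit 650139061819) (nat_lit 76) (nat_lit 524609521663) (nat_lit 3) (nat_lit 4) (nat_lit 4) (nat_lit 5) (nat_lit 4) (nat_lit 4) (nat_lit 350) (nat_lit 287) (nat_lit 143)) (XT.lf (nat_lit 0) (nat_lit 249672506430) (nat_lit 76) (nat_lit 644833073604) (nat_lit 76) (nat_lit 519303390428) (nat_lit 3) (nat_lit 4) (nat_lit 4) (nat_lit 5) (nat_lit 4) (nat_lit 4) (nat_lit 351) (nat_lit 287) (nat_lit 142)))) (XT.nd (nat_lit 156) (nat_lit 0) (nat_lit 0) (XT.nd (nat_lit 78) (nat_lit 0) (nat_lit 0) (XT.lf (nat_lit 0) (nat_lit 369943309723) (nat_lit 76) (nat_lit 639102710061) (nat_lit 76) (nat_lit 513572894459) (nat_lit 3) (nat_lit 4) (nat_lit 4) (nat_lit 5) (nat_lit 4) (nat_lit 4) (nat_lit 352) (nat_lit 287) (nat_lit 141)) (XT.lf (nat_lit 0) (nat_lit 499835573511) (nat_lit 76) (nat_lit 632914013480) (nat_lit 76) (nat_lit 507384075261) (nat_lit 3) (nat_lit 4) (nat_lit 4) (nat_lit 5) (nat_lit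 4) (nat_lit 4) (nat_lit 353) (nat_lit 287) (nat_lit 140))) (XT.nd (nat_lit 78) (nat_lit 0) (nat_lit 0) (XT.lf (nat_lit 0) (nat_lit 640119029727) (nat_lit 76) (nat_lit 626230310103) (nat_lit 76) (nat_lit 500700258350) (nat_lit 3) (nat_lit 4) (nat_lit 4) (nat_lit 5) (nat_lit 4) (nat_lit 4) (nat_lit 354) (nat_lit 287) (nat_lit 139)) (XT.lf (nat_lit 0) (nat_lit 791624987741) (nat_lit 76) (nat_lit 619011992800) (nat_lit 76) (nat_lit 493481835923) (nat_lit 3) (nat_lit 4) (nat_lit 4) (nat_lit 5) (nat_lit 4) (nat_lit 4) (nat_lit 355) (nat_lit 287) (nat_lit 138))))))))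
noncomputable def xc93 : XT := (XT.nd (nat_lit 37128) (nat_lit 0) (nat_lit 152) (XT.nd (nat_lit 36036) (nat_lit 0) (nat_lit 1292) (XT.nd (nat_lit 35490) (nat_lit 0) (nat_lit 2584) (XT.nd (nat_lit 234) (nat_lit 0) (nat_lit 0) (XT.nd (nat_lit 78) (nat_lit 0) (nat_lit 0) (XT.lf (nat_lit 0) (nat_lit 955251260639) (nat_lit 76) (nat_lit 611216286356) (nat_lit 76) (nat_lit 485686032142) (nat_lit 3) (nat_lit 4) (nat_lit 4) (nat_lit 5) (nat_lit 4) (nat_lit 4) (nat_lit 356) (nat_lit 287) (nat_lit 137)) (XT.nd (nat_lit 78) (nat_lit 0) (nat_lit 0) (XT.lf (nat_lit 0) (nat_lit 1131967485592) (nat_lit 76) (nat_lit 602796993993) (nat_lit 76) (nat_lit 477266649651) (nat_lit 3) (nat_lit 4) (nat_lit 4) (nat_lit 5) (nat_lit 4) (nat_lit 4) (nat_lit 357) (nat_lit 287) (nat_lit 136)) (XT.lf (nat_lit 0) (nat_lit 1322820869860) (nat_lit 76) (nat_lit 593704223608) (nat_lit 76) (nat_lit 468173795815) (nat_lit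 3) (nat_lit 4) (nat_lit 4) (nat_lit 5) (nat_lit 4) (nat_lit 4) (nat_lit 358) (nat_lit 287) (nat_lit 135)))) (XT.nd (nat_lit 35100) (nat_lit 0) (nat_lit 2812) (XT.nd (nat_lit 78) (nat_lit 0) (nat_lit 0) (XT.lf (nat_lit 0) (nat_lit 1528942396461) (nat_lit 76) (nat_lit 583884092117) (nat_lit 76) (nat_lit 458353587054) (nat_lit 3) (nat_lit 4) (nat_lit 4) (nat_lit 5) (nat_lit 4) (nat_lit 4) (nat_lit 359) (nat_lit 287) (nat_lit 134)) (XT.lf (nat_lit 0) (nat_lit 1751553526293) (nat_lit 76) (nat_lit 573278406147) (nat_lit 76) (nat_lit 447747829539) (nat_lit 3) (nat_lit 4) (nat_lit 4) (nat_lit 5) (nat_lit 4) (nat_lit 4) (nat_lit 360) (nat_lit 287) (nat_lit 133))) (XT.nd (nat_lit 78) (nat_lit 0) (nat_lit 0) (XT.lf (nat_lit 0) (nat_lit 8323918783) (nat_lit 532) (nat_lit 4678480197) (nat_lit 532) (nat_lit 4678480197) (nat_lit 40) (nat_lit 3) (nat_lit 47) (nat_lit 3) (nat_lit 47) (nat_lit 5) (nat_lit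 288) (nat_lit 288) (nat_lit 204)) (XT.lf (nat_lit 76) (nat_lit 6550342403) (nat_lit 0) (nat_lit 10968210403) (nat_lit 532) (nat_lit 19241090136) (nat_lit 41) (nat_lit 5) (nat_lit 40) (nat_lit 3) (nat_lit 47) (nat_lit 5) (nat_lit 289) (nat_lit 288) (nat_lit 203))))) (XT.nd (nat_lit 234) (nat_lit 304) (nat_lit 0) (XT.nd (nat_lit 78) (nat_lit 0) (nat_lit 0) (XT.lf (nat_lit 0) (nat_lit 18843437851) (nat_lit 456) (nat_lit 14123096176) (nat_lit 532) (nat_lit 5272083432) (nat_lit 41) (nat_lit 5) (nat_lit 47) (nat_lit 5) (nat_lit 48) (nat_lit 5) (nat_lit 290) (nat_lit 288) (nat_lit 202)) (XT.nd (nat_lit 78) (nat_lit 0) (nat_lit 0) (XT.lf (nat_lit 76) (nat_lit 3118180795) (nat_lit 0) (nat_lit 17511621795) (nat_lit 532) (nat_lit 19177686913) (nat_lit 42) (nat_lit 5) (nat_lit 41) (nat_lit 5) (nat_lit 48) (nat_lit 5) (nat_lit 291) (nat_lit 288) (nat_lit 201)) (XT.lf (nat_lit 76) (nat_lit 22539107633)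 (nat_lit 0) (nat_lit 401984246) (nat_lit 532) (nat_lit 18530235495) (nat_lit 42) (nat_lit 5) (nat_lit 41) (nat_lit 5) (nat_lit 48) (nat_lit 5) (nat_lit 292) (nat_lit 288) (nat_lit 200)))) (XT.nd (nat_lit 156) (nat_lit 380) (nat_lit 0) (XT.nd (nat_lit 78) (nat_lit 0) (nat_lit 0) (XT.lf (nat_lit 0) (nat_lit 25868222669) (nat_lit 456) (nat_lit 192287659) (nat_lit 532) (nat_lit 17173302889) (nat_lit 42) (nat_lit 5) (nat_lit 48) (nat_lit 5) (nat_lit 49) (nat_lit 5) (nat_lit 293) (nat_lit 288) (nat_lit 199)) (XT.lf (nat_lit 76) (nat_lit 21088569062) (nat_lit 0) (nat_lit 8455058008) (nat_lit 532) (nat_lit 15552557431) (nat_lit 43) (nat_lit 5) (nat_lit 42) (nat_lit 5) (nat_lit 49) (nat_lit 5) (nat_lit 294) (nat_lit 288) (nat_lit 198))) (XT.nd (nat_lit 78) (nat_lit 456) (nat_lit 0) (XT.lf (nat_lit 0) (nat_lit 33769090350) (nat_lit 456) (nat_lit 3281360770) (nat_lit 76) (nat_lit 10036625976)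 (nat_lit 43) (nat_lit 5) (nat_lit 49) (nat_lit 5) (nat_lit 44) (nat_lit 5) (nat_lit 295) (nat_lit 288) (nat_lit 197)) (XT.lf (nat_lit 0) (nat_lit 19874834416) (nat_lit 456) (nat_lit 19152295780) (nat_lit 532) (nat_lit 10154560451) (nat_lit 37) (nat_lit 5) (nat_lit 43) (nat_lit 5) (nat_lit 44) (nat_lit 5) (nat_lit 296) (nat_lit 288) (nat_lit 196)))))) (XT.nd (nat_lit 546) (nat_lit 532) (nat_lit 0) (XT.nd (nat_lit 234) (nat_lit 456) (nat_lit 0) (XT.nd (nat_lit 78) (nat_lit 304) (nat_lit 0) (XT.lf (nat_lit 0) (nat_lit 44799240003) (nat_lit 532) (nat_lit 6376107343) (nat_lit 76) (nat_lit 261063564) (nat_lit 37) (nat_lit 5) (nat_lit 44) (nat_lit 5) (nat_lit 38) (nat_lit 5) (nat_lit 297) (nat_lit 288) (nat_lit 195)) (XT.nd (nat_lit 78) (nat_lit 76) (nat_lit 0) (XT.lf (nat_lit 0) (nat_lit 18830909524) (nat_lit 228) (nat_lit 33149873857) (nat_lit 304) (nat_lit 1814923128) (nat_lit 34) (nat_lit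 5) (nat_lit 37) (nat_lit 5) (nat_lit 38) (nat_lit 5) (nat_lit 298) (nat_lit 288) (nat_lit 194)) (XT.lf (nat_lit 0) (nat_lit 3399607543) (nat_lit 304) (nat_lit 10001635246) (nat_lit 76) (nat_lit 42921884778) (nat_lit 33) (nat_lit 5) (nat_lit 37) (nat_lit 5) (nat_lit 34) (nat_lit 5) (nat_lit 299) (nat_lit 288) (nat_lit 193)))) (XT.nd (nat_lit 156) (nat_lit 228) (nat_lit 0) (XT.nd (nat_lit 78) (nat_lit 0) (nat_lit 0) (XT.lf (nat_lit 0) (nat_lit 9561881825) (nat_lit 304) (nat_lit 41418688945) (nat_lit 76) (nat_lit 8018118190) (nat_lit 30) (nat_lit 5) (nat_lit 34) (nat_lit 5) (nat_lit 31) (nat_lit 5) (nat_lit 300) (nat_lit 288) (nat_lit 192)) (XT.lf (nat_lit 0) (nat_lit 16843473111) (nat_lit 304) (nat_lit 14287357584) (nat_lit 76) (nat_lit 30707365776) (nat_lit 30) (nat_lit 5) (nat_lit 34) (nat_lit 5) (nat_lit 31) (nat_lit 5) (nat_lit 301) (nat_lit 288) (nat_lit 191))) (XT.nd (nat_lit 78)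 (nat_lit 0) (nat_lit 0) (XT.lf (nat_lit 0) (nat_lit 15802464950) (nat_lit 228) (nat_lit 9283033336) (nat_lit 304) (nat_lit 39789141184) (nat_lit 27) (nat_lit 5) (nat_lit 30) (nat_lit 5) (nat_lit 31) (nat_lit 5) (nat_lit 302) (nat_lit 288) (nat_lit 190)) (XT.lf (nat_lit 0) (nat_lit 34729838507) (nat_lit 304) (nat_lit 19367718532) (nat_lit 76) (nat_lit 13997011497) (nat_lit 27) (nat_lit 5) (nat_lit 31) (nat_lit 5) (nat_lit 28) (nat_lit 5) (nat_lit 303) (nat_lit 288) (nat_lit 189))))) (XT.nd (nat_lit 234) (nat_lit 228) (nat_lit 0) (XT.nd (nat_lit 78) (nat_lit 152) (nat_lit 0) (XT.lf (nat_lit 0) (nat_lit 13126179251) (nat_lit 152) (nat_lit 32574448198) (nat_lit 228) (nat_lit 25827078716) (nat_lit 25) (nat_lit 5) (nat_lit 27) (nat_lit 5) (nat_lit 28) (nat_lit 5) (nat_lit 304) (nat_lit 288) (nat_lit 188)) (XT.nd (nat_lit 78) (nat_lit 152) (nat_lit 0) (XT.lf (nat_lit 0) (nat_lit 49318687895)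 (nat_lit 152) (nat_lit 8758122251) (nat_lit 228) (nat_lit 17116472094) (nat_lit 25) (nat_lit 5) (nat_lit 27) (nat_lit 5) (nat_lit 28) (nat_lit 5) (nat_lit 305) (nat_lit 288) (nat_lit 187)) (XT.lf (nat_lit 0) (nat_lit 9309926858) (nat_lit 152) (nat_lit 62763342781) (nat_lit 228) (nat_lit 7028425639) (nat_lit 23) (nat_lit 5) (nat_lit 25) (nat_lit 5) (nat_lit 26) (nat_lit 5) (nat_lit 306) (nat_lit 288) (nat_lit 186)))) (XT.nd (nat_lit 156) (nat_lit 0) (nat_lit 0) (XT.nd (nat_lit 78) (nat_lit 152) (nat_lit 0) (XT.lf (nat_lit 0) (nat_lit 4624884518) (nat_lit 228) (nat_lit 34826663955) (nat_lit 76) (nat_lit 43787666395) (nat_lit 22) (nat_lit 5) (nat_lit 25) (nat_lit 5) (nat_lit 23) (nat_lit 5) (nat_lit 307) (nat_lit 288) (nat_lit 185)) (XT.lf (nat_lit 0) (nat_lit 2895777294) (nat_lit 152) (nat_lit 14003061626) (nat_lit 228) (nat_lit 70788849153) (nat_lit 20) (nat_lit 5) (nat_lit 22) (nat_lit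 5) (nat_lit 23) (nat_lit 5) (nat_lit 308) (nat_lit 288) (nat_lit 184))) (XT.nd (nat_lit 78) (nat_lit 0) (nat_lit 0) (XT.lf (nat_lit 0) (nat_lit 31454392912) (nat_lit 228) (nat_lit 47150408883) (nat_lit 76) (nat_lit 13783266687) (nat_lit 20) (nat_lit 5) (nat_lit 23) (nat_lit 5) (nat_lit 21) (nat_lit 5) (nat_lit 309) (nat_lit 288) (nat_lit 183)) (XT.lf (nat_lit 0) (nat_lit 47536719868) (nat_lit 228) (nat_lit 6863363741) (nat_lit 76) (nat_lit 43035413133) (nat_lit 20) (nat_lit 5) (nat_lit 23) (nat_lit 5) (nat_lit 21) (nat_lit 5) (nat_lit 310) (nat_lit 288) (nat_lit 182))))))) (XT.nd (nat_lit 1092) (nat_lit 380) (nat_lit 0) (XT.nd (nat_lit 546) (nat_lit 304) (nat_lit 0) (XT.nd (nat_lit 234) (nat_lit 228) (nat_lit 0) (XT.nd (nat_lit 78) (nat_lit 76) (nat_lit 0) (XT.lf (nat_lit 0) (nat_lit 38574383554) (nat_lit 152) (nat_lit 27257679798) (nat_lit 228) (nat_lit 36980544918) (nat_lit 18) (nat_lit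 5) (nat_lit 20) (nat_lit 5) (nat_lit 21) (nat_lit 5) (nat_lit 311) (nat_lit 288) (nat_lit 181)) (XT.nd (nat_lit 78) (nat_lit 76) (nat_lit 0) (XT.lf (nat_lit 0) (nat_lit 85831765560) (nat_lit 228) (nat_lit 20623670719) (nat_lit 76) (nat_lit 2145197121) (nat_lit 18) (nat_lit 5) (nat_lit 21) (nat_lit 5) (nat_lit 19) (nat_lit 4) (nat_lit 312) (nat_lit 288) (nat_lit 180)) (XT.lf (nat_lit 0) (nat_lit 27127269104) (nat_lit 76) (nat_lit 81663421401) (nat_lit 152) (nat_lit 5952273256) (nat_lit 17) (nat_lit 5) (nat_lit 18) (nat_lit 5) (nat_lit 19) (nat_lit 4) (nat_lit 313) (nat_lit 288) (nat_lit 179)))) (XT.nd (nat_lit 156) (nat_lit 0) (nat_lit 0) (XT.nd (nat_lit 78) (nat_lit 152) (nat_lit 0) (XT.lf (nat_lit 0) (nat_lit 12176262263) (nat_lit 152) (nat_lit 41770507618) (nat_lit 76) (nat_lit 67360230651) (nat_lit 16) (nat_lit 5) (nat_lit 18) (nat_lit 5) (nat_lit 17) (nat_lit 5) (nat_lit 314) (nat_lit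 288) (nat_lit 178)) (XT.lf (nat_lit 0) (nat_lit 7985470419) (nat_lit 152) (nat_lit 23639023709) (nat_lit 228) (nat_lit 96744020826) (nat_lit 14) (nat_lit 5) (nat_lit 16) (nat_lit 5) (nat_lit 17) (nat_lit 5) (nat_lit 315) (nat_lit 288) (nat_lit 177))) (XT.nd (nat_lit 78) (nat_lit 0) (nat_lit 0) (XT.lf (nat_lit 0) (nat_lit 54017987922) (nat_lit 228) (nat_lit 72056202447) (nat_lit 76) (nat_lit 9809610055) (nat_lit 14) (nat_lit 5) (nat_lit 17) (nat_lit 5) (nat_lit 15) (nat_lit 4) (nat_lit 316) (nat_lit 288) (nat_lit 176)) (XT.lf (nat_lit 0) (nat_lit 78816002735) (nat_lit 228) (nat_lit 20478798112) (nat_lit 76) (nat_lit 44656466567) (nat_lit 14) (nat_lit 5) (nat_lit 17) (nat_lit 5) (nat_lit 15) (nat_lit 4) (nat_lit 317) (nat_lit 288) (nat_lit 175))))) (XT.nd (nat_lit 234) (nat_lit 228) (nat_lit 0) (XT.nd (nat_lit 78) (nat_lit 0) (nat_lit 0) (XT.lf (nat_lit 0) (nat_lit 37078129644) (nat_lit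 76) (nat_lit 69410570942) (nat_lit 152) (nat_lit 46104165686) (nat_lit 13) (nat_lit 5) (nat_lit 14) (nat_lit 5) (nat_lit 15) (nat_lit 4) (nat_lit 318) (nat_lit 288) (nat_lit 174)) (XT.nd (nat_lit 78) (nat_lit 0) (nat_lit 0) (XT.lf (nat_lit 0) (nat_lit 100402829024) (nat_lit 76) (nat_lit 36531455209) (nat_lit 152) (nat_lit 24946784926) (nat_lit 13) (nat_lit 5) (nat_lit 14) (nat_lit 5) (nat_lit 15) (nat_lit 4) (nat_lit 319) (nat_lit 288) (nat_lit 173)) (XT.lf (nat_lit 0) (nat_lit 168792180287) (nat_lit 76) (nat_lit 1022541077) (nat_lit 152) (nat_lit 2097671962) (nat_lit 13) (nat_lit 5) (nat_lit 14) (nat_lit 5) (nat_lit 15) (nat_lit 4) (nat_lit 320) (nat_lit 288) (nat_lit 172)))) (XT.nd (nat_lit 156) (nat_lit 76) (nat_lit 0) (XT.nd (nat_lit 78) (nat_lit 0) (nat_lit 0) (XT.lf (nat_lit 0) (nat_lit 23902787514) (nat_lit 152) (nat_lit 121045399270) (nat_lit 76) (nat_lit 37558360933) (nat_lit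 11) (nat_lit 5) (nat_lit 13) (nat_lit 5) (nat_lit 12) (nat_lit 4) (nat_lit 321) (nat_lit 288) (nat_lit 171)) (XT.lf (nat_lit 0) (nat_lit 51983301654) (nat_lit 152) (nat_lit 62639484158) (nat_lit 76) (nat_lit 79312023378) (nat_lit 11) (nat_lit 5) (nat_lit 13) (nat_lit 5) (nat_lit 12) (nat_lit 4) (nat_lit 322) (nat_lit 288) (nat_lit 170))) (XT.nd (nat_lit 78) (nat_lit 0) (nat_lit 0) (XT.lf (nat_lit 0) (nat_lit 460766133) (nat_lit 76) (nat_lit 81859886221) (nat_lit 152) (nat_lit 123955848762) (nat_lit 10) (nat_lit 5) (nat_lit 11) (nat_lit 5) (nat_lit 12) (nat_lit 4) (nat_lit 323) (nat_lit 288) (nat_lit 169)) (XT.lf (nat_lit 0) (nat_lit 72170242061) (nat_lit 76) (nat_lit 44626760528) (nat_lit 152) (nat_lit 102671565972) (nat_lit 10) (nat_lit 5) (nat_lit 11) (nat_lit 5) (nat_lit 12) (nat_lit 4) (nat_lit 324) (nat_lit 288) (nat_lit 168)))))) (XT.nd (nat_lit 546) (nat_lit 152) (nat_lit 0)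 (XT.nd (nat_lit 234) (nat_lit 152) (nat_lit 0) (XT.nd (nat_lit 78) (nat_lit 76) (nat_lit 0) (XT.lf (nat_lit 0) (nat_lit 149615404437) (nat_lit 76) (nat_lit 4415442493) (nat_lit 152) (nat_lit 79685204588) (nat_lit 10) (nat_lit 5) (nat_lit 11) (nat_lit 5) (nat_lit 12) (nat_lit 4) (nat_lit 325) (nat_lit 288) (nat_lit 167)) (XT.nd (nat_lit 78) (nat_lit 76) (nat_lit 0) (XT.lf (nat_lit 0) (nat_lit 195181078509) (nat_lit 152) (nat_lit 16786440086) (nat_lit 0) (nat_lit 37060801069) (nat_lit 10) (nat_lit 5) (nat_lit 12) (nat_lit 4) (nat_lit 10) (nat_lit 4) (nat_lit 326) (nat_lit 288) (nat_lit 166)) (XT.lf (nat_lit 0) (nat_lit 58735449437) (nat_lit 76) (nat_lit 182414619197) (nat_lit 76) (nat_lit 24293362286) (nat_lit 9) (nat_lit 4) (nat_lit 10) (nat_lit 5) (nat_lit 10) (nat_lit 4) (nat_lit 327) (nat_lit 288) (nat_lit 165)))) (XT.nd (nat_lit 156) (nat_lit 76) (nat_lit 0) (XT.nd (nat_lit 78)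 (nat_lit 0) (nat_lit 0) (XT.lf (nat_lit 0) (nat_lit 7713761890) (nat_lit 152) (nat_lit 142077539098) (nat_lit 76) (nat_lit 133328151867) (nat_lit 8) (nat_lit 5) (nat_lit 10) (nat_lit 5) (nat_lit 9) (nat_lit 4) (nat_lit 328) (nat_lit 288) (nat_lit 164)) (XT.lf (nat_lit 0) (nat_lit 40968490268) (nat_lit 152) (nat_lit 72908543809) (nat_lit 76) (nat_lit 188282082888) (nat_lit 8) (nat_lit 5) (nat_lit 10) (nat_lit 5) (nat_lit 9) (nat_lit 4) (nat_lit 329) (nat_lit 288) (nat_lit 163))) (XT.nd (nat_lit 78) (nat_lit 0) (nat_lit 0) (XT.lf (nat_lit 0) (nat_lit 1887574807) (nat_lit 76) (nat_lit 75040961689) (nat_lit 152) (nat_lit 245789823176) (nat_lit 7) (nat_lit 5) (nat_lit 8) (nat_lit 5) (nat_lit 9) (nat_lit 4) (nat_lit 330) (nat_lit 288) (nat_lit 162)) (XT.lf (nat_lit 0) (nat_lit 86812956742) (nat_lit 76) (nat_lit 30945436425) (nat_lit 152) (nat_lit 227004508672) (nat_lit 7) (nat_lit 5) (nat_lit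 8) (nat_lit 5) (nat_lit 9) (nat_lit 4) (nat_lit 331) (nat_lit 288) (nat_lit 161))))) (XT.nd (nat_lit 312) (nat_lit 76) (nat_lit 0) (XT.nd (nat_lit 156) (nat_lit 76) (nat_lit 0) (XT.nd (nat_lit 78) (nat_lit 0) (nat_lit 0) (XT.lf (nat_lit 0) (nat_lit 162255320933) (nat_lit 152) (nat_lit 190440503727) (nat_lit 0) (nat_lit 15843128657) (nat_lit 7) (nat_lit 5) (nat_lit 9) (nat_lit 4) (nat_lit 7) (nat_lit 4) (nat_lit 332) (nat_lit 288) (nat_lit 160)) (XT.lf (nat_lit 0) (nat_lit 211115394132) (nat_lit 152) (nat_lit 118334793643) (nat_lit 0) (nat_lit 64702630343) (nat_lit 7) (nat_lit 5) (nat_lit 9) (nat_lit 4) (nat_lit 7) (nat_lit 4) (nat_lit 333) (nat_lit 288) (nat_lit 159))) (XT.nd (nat_lit 78) (nat_lit 76) (nat_lit 0) (XT.lf (nat_lit 0) (nat_lit 263883915448) (nat_lit 152) (nat_lit 40461283258) (nat_lit 0) (nat_lit 117470622481) (nat_lit 7) (nat_lit 5) (nat_lit 9) (nat_lit 4) (nat_lit 7)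 (nat_lit 4) (nat_lit 334) (nat_lit 288) (nat_lit 158)) (XT.lf (nat_lit 0) (nat_lit 45939584135) (nat_lit 76) (nat_lit 276038851197) (nat_lit 76) (nat_lit 129625068250) (nat_lit 6) (nat_lit 4) (nat_lit 7) (nat_lit 5) (nat_lit 7) (nat_lit 4) (nat_lit 335) (nat_lit 288) (nat_lit 157)))) (XT.nd (nat_lit 156) (nat_lit 76) (nat_lit 0) (XT.nd (nat_lit 78) (nat_lit 0) (nat_lit 0) (XT.lf (nat_lit 0) (nat_lit 141552997464) (nat_lit 76) (nat_lit 244273481578) (nat_lit 76) (nat_lit 97859244946) (nat_lit 6) (nat_lit 4) (nat_lit 7) (nat_lit 5) (nat_lit 7) (nat_lit 4) (nat_lit 336) (nat_lit 288) (nat_lit 156)) (XT.lf (nat_lit 0) (nat_lit 244814935261) (nat_lit 76) (nat_lit 209967133809) (nat_lit 76) (nat_lit 63552477099) (nat_lit 6) (nat_lit 4) (nat_lit 7) (nat_lit 5) (nat_lit 7) (nat_lit 4) (nat_lit 337) (nat_lit 288) (nat_lit 155))) (XT.nd (nat_lit 78) (nat_lit 76) (nat_lit 0) (XT.lf (nat_lit 0)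 (nat_lit 356337320119) (nat_lit 76) (nat_lit 172916511017) (nat_lit 76) (nat_lit 26501465345) (nat_lit 6) (nat_lit 4) (nat_lit 7) (nat_lit 5) (nat_lit 7) (nat_lit 4) (nat_lit 338) (nat_lit 288) (nat_lit 154)) (XT.lf (nat_lit 0) (nat_lit 12837359278) (nat_lit 152) (nat_lit 119713698522) (nat_lit 76) (nat_lit 463592670000) (nat_lit 5) (nat_lit 5) (nat_lit 7) (nat_lit 5) (nat_lit 6) (nat_lit 4) (nat_lit 339) (nat_lit 288) (nat_lit 153))))))))
noncomputable def xc94 : XT := (XT.nd (nat_lit 37206) (nat_lit 0) (nat_lit 532) (XT.nd (nat_lit 1092) (nat_lit 0) (nat_lit 0) (XT.nd (nat_lit 546) (nat_lit 76) (nat_lit 0) (XT.nd (nat_lit 234) (nat_lit 0) (nat_lit 0) (XT.nd (nat_lit 78) (nat_lit 76) (nat_lit 0) (XT.lf (nat_lit 0) (nat_lit 53891280077) (nat_lit 152) (nat_lit 34321876731) (nat_lit 76) (nat_lit 551495028492) (nat_lit 5) (nat_lit 5) (nat_lit 7) (nat_lit 5) (nat_lit 6) (nat_lit 4) (nat_lit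 340) (nat_lit 288) (nat_lit 152)) (XT.nd (nat_lit 78) (nat_lit 0) (nat_lit 0) (XT.lf (nat_lit 0) (nat_lit 60949832995) (nat_lit 76) (nat_lit 38745302129) (nat_lit 152) (nat_lit 586945414883) (nat_lit 4) (nat_lit 5) (nat_lit 5) (nat_lit 5) (nat_lit 6) (nat_lit 4) (nat_lit 341) (nat_lit 288) (nat_lit 151)) (XT.lf (nat_lit 0) (nat_lit 150478925986) (nat_lit 152) (nat_lit 571835081552) (nat_lit 0) (nat_lit 14908246390) (nat_lit 4) (nat_lit 5) (nat_lit 6) (nat_lit 4) (nat_lit 4) (nat_lit 4) (nat_lit 342) (nat_lit 288) (nat_lit 150)))) (XT.nd (nat_lit 156) (nat_lit 0) (nat_lit 0) (XT.nd (nat_lit 78) (nat_lit 0) (nat_lit 0) (XT.lf (nat_lit 0) (nat_lit 206331586057) (nat_lit 152) (nat_lit 514677753697) (nat_lit 0) (nat_lit 70760661350) (nat_lit 4) (nat_lit 5) (nat_lit 6) (nat_lit 4) (nat_lit 4) (nat_lit 4) (nat_lit 343) (nat_lit 288) (nat_lit 149)) (XT.lf (nat_lit 0) (nat_lit 266652268616)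 (nat_lit 152) (nat_lit 452948197907) (nat_lit 0) (nat_lit 131081116954) (nat_lit 4) (nat_lit 5) (nat_lit 6) (nat_lit 4) (nat_lit 4) (nat_lit 4) (nat_lit 344) (nat_lit 288) (nat_lit 148))) (XT.nd (nat_lit 78) (nat_lit 0) (nat_lit 0) (XT.lf (nat_lit 0) (nat_lit 331798429560) (nat_lit 152) (nat_lit 386280609408) (nat_lit 0) (nat_lit 196227067754) (nat_lit 4) (nat_lit 5) (nat_lit 6) (nat_lit 4) (nat_lit 4) (nat_lit 4) (nat_lit 345) (nat_lit 288) (nat_lit 147)) (XT.lf (nat_lit 0) (nat_lit 402156120213) (nat_lit 152) (nat_lit 314279921009) (nat_lit 0) (nat_lit 266584563829) (nat_lit 4) (nat_lit 5) (nat_lit 6) (nat_lit 4) (nat_lit 4) (nat_lit 4) (nat_lit 346) (nat_lit 288) (nat_lit 146))))) (XT.nd (nat_lit 234) (nat_lit 76) (nat_lit 0) (XT.nd (nat_lit 78) (nat_lit 0) (nat_lit 0) (XT.lf (nat_lit 0) (nat_lit 478142275038) (nat_lit 152) (nat_lit 236519461964) (nat_lit 0) (nat_lit 342570538490)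 (nat_lit 4) (nat_lit 5) (nat_lit 6) (nat_lit 4) (nat_lit 4) (nat_lit 4) (nat_lit 347) (nat_lit 288) (nat_lit 145)) (XT.nd (nat_lit 78) (nat_lit 0) (nat_lit 0) (XT.lf (nat_lit 0) (nat_lit 560207182360) (nat_lit 152) (nat_lit 152538429553) (nat_lit 0) (nat_lit 424635278993) (nat_lit 4) (nat_lit 5) (nat_lit 6) (nat_lit 4) (nat_lit 4) (nat_lit 4) (nat_lit 348) (nat_lit 288) (nat_lit 144)) (XT.lf (nat_lit 0) (nat_lit 648837152741) (nat_lit 152) (nat_lit 61839158397) (nat_lit 0) (nat_lit 513265094911) (nat_lit 4) (nat_lit 5) (nat_lit 6) (nat_lit 4) (nat_lit 4) (nat_lit 4) (nat_lit 349) (nat_lit 288) (nat_lit 143)))) (XT.nd (nat_lit 156) (nat_lit 0) (nat_lit 0) (XT.nd (nat_lit 78) (nat_lit 0) (nat_lit 0) (XT.lf (nat_lit 0) (nat_lit 38017624199) (nat_lit 76) (nat_lit 707454101397) (nat_lit 76) (nat_lit 571881900547) (nat_lit 3) (nat_lit 4) (nat_lit 4) (nat_lit 5) (nat_lit 4) (nat_lit 4) (nat_lit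 350) (nat_lit 288) (nat_lit 142)) (XT.lf (nat_lit 0) (nat_lit 149379577065) (nat_lit 76) (nat_lit 702148163052) (nat_lit 76) (nat_lit 566575829776) (nat_lit 3) (nat_lit 4) (nat_lit 4) (nat_lit 5) (nat_lit 4) (nat_lit 4) (nat_lit 351) (nat_lit 288) (nat_lit 141))) (XT.nd (nat_lit 78) (nat_lit 0) (nat_lit 0) (XT.lf (nat_lit 0) (nat_lit 269650282392) (nat_lit 76) (nat_lit 696417845685) (nat_lit 76) (nat_lit 560845389792) (nat_lit 3) (nat_lit 4) (nat_lit 4) (nat_lit 5) (nat_lit 4) (nat_lit 4) (nat_lit 352) (nat_lit 288) (nat_lit 140)) (XT.lf (nat_lit 0) (nat_lit 399542455471) (nat_lit 76) (nat_lit 690229191859) (nat_lit 76) (nat_lit 554656622432) (nat_lit 3) (nat_lit 4) (nat_lit 4) (nat_lit 5) (nat_lit 4) (nat_lit 4) (nat_lit 353) (nat_lit 288) (nat_lit 139)))))) (XT.nd (nat_lit 35568) (nat_lit 0) (nat_lit 2812) (XT.nd (nat_lit 234) (nat_lit 0) (nat_lit 0) (XT.nd (nat_lit 78) (nat_lit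 0) (nat_lit 0) (XT.lf (nat_lit 0) (nat_lit 539825827697) (nat_lit 76) (nat_lit 683545528071) (nat_lit 76) (nat_lit 547972853519) (nat_lit 3) (nat_lit 4) (nat_lit 4) (nat_lit 5) (nat_lit 4) (nat_lit 4) (nat_lit 354) (nat_lit 288) (nat_lit 138)) (XT.nd (nat_lit 78) (nat_lit 0) (nat_lit 0) (XT.lf (nat_lit 0) (nat_lit 691331707943) (nat_lit 76) (nat_lit 676327247423) (nat_lit 76) (nat_lit 540754475534) (nat_lit 3) (nat_lit 4) (nat_lit 4) (nat_lit 5) (nat_lit 4) (nat_lit 4) (nat_lit 355) (nat_lit 288) (nat_lit 137)) (XT.lf (nat_lit 0) (nat_lit 854957908833) (nat_lit 76) (nat_lit 668531574920) (nat_lit 76) (nat_lit 532958712903) (nat_lit 3) (nat_lit 4) (nat_lit 4) (nat_lit 5) (nat_lit 4) (nat_lit 4) (nat_lit 356) (nat_lit 288) (nat_lit 136)))) (XT.nd (nat_lit 156) (nat_lit 0) (nat_lit 0) (XT.nd (nat_lit 78) (nat_lit 0) (nat_lit 0) (XT.lf (nat_lit 0) (nat_lit 1031674067113) (nat_lit 76) (nat_lit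 660112313983) (nat_lit 76) (nat_lit 524539368516) (nat_lit 3) (nat_lit 4) (nat_lit 4) (nat_lit 5) (nat_lit 4) (nat_lit 4) (nat_lit 357) (nat_lit 288) (nat_lit 135)) (XT.lf (nat_lit 0) (nat_lit 1222527389646) (nat_lit 76) (nat_lit 651019572696) (nat_lit 76) (nat_lit 515446549959) (nat_lit 3) (nat_lit 4) (nat_lit 4) (nat_lit 5) (nat_lit 4) (nat_lit 4) (nat_lit 358) (nat_lit 288) (nat_lit 134))) (XT.nd (nat_lit 78) (nat_lit 0) (nat_lit 0) (XT.lf (nat_lit 0) (nat_lit 1428648859084) (nat_lit 76) (nat_lit 641199468148) (nat_lit 76) (nat_lit 505626373865) (nat_lit 3) (nat_lit 4) (nat_lit 4) (nat_lit 5) (nat_lit 4) (nat_lit 4) (nat_lit 359) (nat_lit 288) (nat_lit 133)) (XT.lf (nat_lit 0) (nat_lit 1651259935988) (nat_lit 76) (nat_lit 630593807126) (nat_lit 76) (nat_lit 495020646597) (nat_lit 3) (nat_lit 4) (nat_lit 4) (nat_lit 5) (nat_lit 4) (nat_lit 4) (nat_lit 360) (nat_lit 288) (nat_lit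 132))))) (XT.nd (nat_lit 234) (nat_lit 0) (nat_lit 76) (XT.nd (nat_lit 78) (nat_lit 0) (nat_lit 0) (XT.lf (nat_lit 0) (nat_lit 9035961386) (nat_lit 532) (nat_lit 5027750519) (nat_lit 532) (nat_lit 5027750519) (nat_lit 40) (nat_lit 3) (nat_lit 47) (nat_lit 3) (nat_lit 47) (nat_lit 5) (nat_lit 289) (nat_lit 289) (nat_lit 202)) (XT.nd (nat_lit 78) (nat_lit 0) (nat_lit 76) (XT.lf (nat_lit 76) (nat_lit 7123119751) (nat_lit 0) (nat_lit 11883513977) (nat_lit 532) (nat_lit 20686488543) (nat_lit 41) (nat_lit 5) (nat_lit 40) (nat_lit 3) (nat_lit 47) (nat_lit 5) (nat_lit 290) (nat_lit 289) (nat_lit 201)) (XT.lf (nat_lit 0) (nat_lit 20430252214) (nat_lit 456) (nat_lit 15200210280) (nat_lit 532) (nat_lit 5660559835) (nat_lit 41) (nat_lit 5) (nat_lit 47) (nat_lit 5) (nat_lit 48) (nat_lit 5) (nat_lit 291) (nat_lit 289) (nat_lit 200)))) (XT.nd (nat_lit 156) (nat_lit 0) (nat_lit 76) (XT.nd (nat_lit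 78) (nat_lit 0) (nat_lit 0) (XT.lf (nat_lit 76) (nat_lit 3419033822) (nat_lit 0) (nat_lit 18935851459) (nat_lit 532) (nat_lit 20630915114) (nat_lit 42) (nat_lit 5) (nat_lit 41) (nat_lit 5) (nat_lit 48) (nat_lit 5) (nat_lit 292) (nat_lit 289) (nat_lit 199)) (XT.lf (nat_lit 76) (nat_lit 24389827506) (nat_lit 0) (nat_lit 455716986) (nat_lit 532) (nat_lit 19937666601) (nat_lit 42) (nat_lit 5) (nat_lit 41) (nat_lit 5) (nat_lit 48) (nat_lit 5) (nat_lit 293) (nat_lit 289) (nat_lit 198))) (XT.nd (nat_lit 78) (nat_lit 0) (nat_lit 0) (XT.lf (nat_lit 0) (nat_lit 28001241972) (nat_lit 456) (nat_lit 157733090) (nat_lit 532) (nat_lit 18528190470) (nat_lit 42) (nat_lit 5) (nat_lit 48) (nat_lit 5) (nat_lit 49) (nat_lit 5) (nat_lit 294) (nat_lit 289) (nat_lit 197)) (XT.lf (nat_lit 76) (nat_lit 22824327926) (nat_lit 0) (nat_lit 9142813135) (nat_lit 532) (nat_lit 16731688309) (nat_lit 43) (nat_lit 5)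 (nat_lit 42) (nat_lit 5) (nat_lit 49) (nat_lit 5) (nat_lit 295) (nat_lit 289) (nat_lit 196))))))) (XT.nd (nat_lit 1092) (nat_lit 760) (nat_lit 0) (XT.nd (nat_lit 546) (nat_lit 760) (nat_lit 0) (XT.nd (nat_lit 234) (nat_lit 532) (nat_lit 0) (XT.nd (nat_lit 78) (nat_lit 456) (nat_lit 0) (XT.lf (nat_lit 0) (nat_lit 36525942435) (nat_lit 456) (nat_lit 3493873141) (nat_lit 76) (nat_lit 10829572083) (nat_lit 43) (nat_lit 5) (nat_lit 49) (nat_lit 5) (nat_lit 44) (nat_lit 5) (nat_lit 296) (nat_lit 289) (nat_lit 195)) (XT.nd (nat_lit 78) (nat_lit 0) (nat_lit 0) (XT.lf (nat_lit 0) (nat_lit 21513551925) (nat_lit 456) (nat_lit 20688147382) (nat_lit 532) (nat_lit 10910122089) (nat_lit 37) (nat_lit 5) (nat_lit 43) (nat_lit 5) (nat_lit 44) (nat_lit 5) (nat_lit 297) (nat_lit 289) (nat_lit 194)) (XT.lf (nat_lit 0) (nat_lit 48431614834) (nat_lit 532) (nat_lit 6836914937) (nat_lit 76) (nat_lit 278722303)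 (nat_lit 37) (nat_lit 5) (nat_lit 44) (nat_lit 5) (nat_lit 38) (nat_lit 5) (nat_lit 298) (nat_lit 289) (nat_lit 193)))) (XT.nd (nat_lit 156) (nat_lit 228) (nat_lit 0) (XT.nd (nat_lit 78) (nat_lit 76) (nat_lit 0) (XT.lf (nat_lit 0) (nat_lit 20385415659) (nat_lit 228) (nat_lit 35799833403) (nat_lit 304) (nat_lit 1910251451) (nat_lit 34) (nat_lit 5) (nat_lit 37) (nat_lit 5) (nat_lit 38) (nat_lit 5) (nat_lit 299) (nat_lit 289) (nat_lit 192)) (XT.lf (nat_lit 0) (nat_lit 3715438232) (nat_lit 304) (nat_lit 10754824748) (nat_lit 76) (nat_lit 46355049554) (nat_lit 33) (nat_lit 5) (nat_lit 37) (nat_lit 5) (nat_lit 34) (nat_lit 5) (nat_lit 300) (nat_lit 289) (nat_lit 191))) (XT.nd (nat_lit 78) (nat_lit 0) (nat_lit 0) (XT.lf (nat_lit 0) (nat_lit 10368642923) (nat_lit 304) (nat_lit 44683046512) (nat_lit 76) (nat_lit 8663405101) (nat_lit 30) (nat_lit 5) (nat_lit 34) (nat_lit 5) (nat_lit 31) (nat_lit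 5) (nat_lit 301) (nat_lit 289) (nat_lit 190)) (XT.lf (nat_lit 0) (nat_lit 18229664433) (nat_lit 304) (nat_lit 15384848461) (nat_lit 76) (nat_lit 33167508238) (nat_lit 30) (nat_lit 5) (nat_lit 34) (nat_lit 5) (nat_lit 31) (nat_lit 5) (nat_lit 302) (nat_lit 289) (nat_lit 189))))) (XT.nd (nat_lit 234) (nat_lit 380) (nat_lit 0) (XT.nd (nat_lit 78) (nat_lit 152) (nat_lit 0) (XT.lf (nat_lit 0) (nat_lit 17111008035) (nat_lit 228) (nat_lit 10018242443) (nat_lit 304) (nat_lit 42932283110) (nat_lit 27) (nat_lit 5) (nat_lit 30) (nat_lit 5) (nat_lit 31) (nat_lit 5) (nat_lit 303) (nat_lit 289) (nat_lit 188)) (XT.nd (nat_lit 78) (nat_lit 152) (nat_lit 0) (XT.lf (nat_lit 0) (nat_lit 37542569204) (nat_lit 304) (nat_lit 20873391430) (nat_lit 76) (nat_lit 15123311031) (nat_lit 27) (nat_lit 5) (nat_lit 31) (nat_lit 5) (nat_lit 28) (nat_lit 5) (nat_lit 304) (nat_lit 289) (nat_lit 187)) (XT.lf (nat_lit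 0) (nat_lit 14218910718) (nat_lit 152) (nat_lit 35170591995) (nat_lit 228) (nat_lit 27857687582) (nat_lit 25) (nat_lit 5) (nat_lit 27) (nat_lit 5) (nat_lit 28) (nat_lit 5) (nat_lit 305) (nat_lit 289) (nat_lit 186)))) (XT.nd (nat_lit 156) (nat_lit 228) (nat_lit 0) (XT.nd (nat_lit 78) (nat_lit 152) (nat_lit 0) (XT.lf (nat_lit 0) (nat_lit 53303661748) (nat_lit 152) (nat_lit 9449686792) (nat_lit 228) (nat_lit 18452866314) (nat_lit 25) (nat_lit 5) (nat_lit 27) (nat_lit 5) (nat_lit 28) (nat_lit 5) (nat_lit 306) (nat_lit 289) (nat_lit 185)) (XT.lf (nat_lit 0) (nat_lit 10095453310) (nat_lit 152) (nat_lit 67773002034) (nat_lit 228) (nat_lit 7558938442) (nat_lit 23) (nat_lit 5) (nat_lit 25) (nat_lit 5) (nat_lit 26) (nat_lit 5) (nat_lit 307) (nat_lit 289) (nat_lit 184))) (XT.nd (nat_lit 78) (nat_lit 152) (nat_lit 0) (XT.lf (nat_lit 0) (nat_lit 5022812707) (nat_lit 228) (nat_lit 37573532664) (nat_lit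 76) (nat_lit 47299693516) (nat_lit 22) (nat_lit 5) (nat_lit 25) (nat_lit 5) (nat_lit 23) (nat_lit 5) (nat_lit 308) (nat_lit 289) (nat_lit 183)) (XT.lf (nat_lit 0) (nat_lit 3165709849) (nat_lit 152) (nat_lit 15111824576) (nat_lit 228) (nat_lit 76422953238) (nat_lit 20) (nat_lit 5) (nat_lit 22) (nat_lit 5) (nat_lit 23) (nat_lit 5) (nat_lit 309) (nat_lit 289) (nat_lit 182)))))) (XT.nd (nat_lit 546) (nat_lit 304) (nat_lit 0) (XT.nd (nat_lit 234) (nat_lit 304) (nat_lit 0) (XT.nd (nat_lit 78) (nat_lit 152) (nat_lit 0) (XT.lf (nat_lit 0) (nat_lit 33995804098) (nat_lit 228) (nat_lit 50885210404) (nat_lit 76) (nat_lit 14896027656) (nat_lit 20) (nat_lit 5) (nat_lit 23) (nat_lit 5) (nat_lit 21) (nat_lit 5) (nat_lit 310) (nat_lit 289) (nat_lit 181)) (XT.nd (nat_lit 78) (nat_lit 152) (nat_lit 0) (XT.lf (nat_lit 0) (nat_lit 51362860933) (nat_lit 228) (nat_lit 7377959516) (nat_lit 76) (nat_lit 46487597696)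 (nat_lit 20) (nat_lit 5) (nat_lit 23) (nat_lit 5) (nat_lit 21) (nat_lit 5) (nat_lit 311) (nat_lit 289) (nat_lit 180)) (XT.lf (nat_lit 0) (nat_lit 41693934820) (nat_lit 152) (nat_lit 29426986394) (nat_lit 228) (nat_lit 39914854833) (nat_lit 18) (nat_lit 5) (nat_lit 20) (nat_lit 5) (nat_lit 21) (nat_lit 5) (nat_lit 312) (nat_lit 289) (nat_lit 179)))) (XT.nd (nat_lit 156) (nat_lit 228) (nat_lit 0) (XT.nd (nat_lit 78) (nat_lit 76) (nat_lit 0) (XT.lf (nat_lit 0) (nat_lit 92719200089) (nat_lit 228) (nat_lit 22241000012) (nat_lit 76) (nat_lit 2326759304) (nat_lit 18) (nat_lit 5) (nat_lit 21) (nat_lit 5) (nat_lit 19) (nat_lit 4) (nat_lit 313) (nat_lit 289) (nat_lit 178)) (XT.lf (nat_lit 0) (nat_lit 29329190583) (nat_lit 76) (nat_lit 88184864143) (nat_lit 152) (nat_lit 6406688155) (nat_lit 17) (nat_lit 5) (nat_lit 18) (nat_lit 5) (nat_lit 19) (nat_lit 4) (nat_lit 314) (nat_lit 289) (nat_lit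 177))) (XT.nd (nat_lit 78) (nat_lit 152) (nat_lit 0) (XT.lf (nat_lit 0) (nat_lit 13169509624) (nat_lit 152) (nat_lit 45081708934) (nat_lit 76) (nat_lit 72758768071) (nat_lit 16) (nat_lit 5) (nat_lit 18) (nat_lit 5) (nat_lit 17) (nat_lit 5) (nat_lit 315) (nat_lit 289) (nat_lit 176)) (XT.lf (nat_lit 0) (nat_lit 8653976730) (nat_lit 152) (nat_lit 25518918590) (nat_lit 228) (nat_lit 104463586390) (nat_lit 14) (nat_lit 5) (nat_lit 16) (nat_lit 5) (nat_lit 17) (nat_lit 5) (nat_lit 316) (nat_lit 289) (nat_lit 175))))) (XT.nd (nat_lit 312) (nat_lit 228) (nat_lit 0) (XT.nd (nat_lit 156) (nat_lit 76) (nat_lit 0) (XT.nd (nat_lit 78) (nat_lit 0) (nat_lit 0) (XT.lf (nat_lit 0) (nat_lit 58356752578) (nat_lit 228) (nat_lit 77792075394) (nat_lit 76) (nat_lit 10604254226) (nat_lit 14) (nat_lit 5) (nat_lit 17) (nat_lit 5) (nat_lit 15) (nat_lit 4) (nat_lit 317) (nat_lit 289) (nat_lit 174)) (XT.lf (nat_lit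 0) (nat_lit 85137325196) (nat_lit 228) (nat_lit 22090598954) (nat_lit 76) (nat_lit 48238127750) (nat_lit 14) (nat_lit 5) (nat_lit 17) (nat_lit 5) (nat_lit 15) (nat_lit 4) (nat_lit 318) (nat_lit 289) (nat_lit 173))) (XT.nd (nat_lit 78) (nat_lit 0) (nat_lit 0) (XT.lf (nat_lit 0) (nat_lit 40070212061) (nat_lit 76) (nat_lit 74953059762) (nat_lit 152) (nat_lit 49775754691) (nat_lit 13) (nat_lit 5) (nat_lit 14) (nat_lit 5) (nat_lit 15) (nat_lit 4) (nat_lit 319) (nat_lit 289) (nat_lit 172)) (XT.lf (nat_lit 0) (nat_lit 108458973906) (nat_lit 76) (nat_lit 39444381945) (nat_lit 152) (nat_lit 26927023786) (nat_lit 13) (nat_lit 5) (nat_lit 14) (nat_lit 5) (nat_lit 15) (nat_lit 4) (nat_lit 320) (nat_lit 289) (nat_lit 171)))) (XT.nd (nat_lit 156) (nat_lit 76) (nat_lit 0) (XT.nd (nat_lit 78) (nat_lit 152) (nat_lit 0) (XT.lf (nat_lit 0) (nat_lit 182317701525) (nat_lit 76) (nat_lit 1095465029) (nat_lit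 152) (nat_lit 2251130224) (nat_lit 13) (nat_lit 5) (nat_lit 14) (nat_lit 5) (nat_lit 15) (nat_lit 4) (nat_lit 321) (nat_lit 289) (nat_lit 170)) (XT.lf (nat_lit 0) (nat_lit 25828394243) (nat_lit 152) (nat_lit 130705865166) (nat_lit 76) (nat_lit 40571718609) (nat_lit 11) (nat_lit 5) (nat_lit 13) (nat_lit 5) (nat_lit 12) (nat_lit 4) (nat_lit 322) (nat_lit 289) (nat_lit 169))) (XT.nd (nat_lit 78) (nat_lit 76) (nat_lit 0) (XT.lf (nat_lit 0) (nat_lit 56154358127) (nat_lit 152) (nat_lit 67629192848) (nat_lit 76) (nat_lit 85665030435) (nat_lit 11) (nat_lit 5) (nat_lit 13) (nat_lit 5) (nat_lit 12) (nat_lit 4) (nat_lit 323) (nat_lit 289) (nat_lit 168)) (XT.lf (nat_lit 0) (nat_lit 518534427) (nat_lit 76) (nat_lit 88399747319) (nat_lit 152) (nat_lit 133859361721) (nat_lit 10) (nat_lit 5) (nat_lit 11) (nat_lit 5) (nat_lit 12) (nat_lit 4) (nat_lit 324) (nat_lit 289) (nat_lit 167))))))))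
noncomputable def xc95 : XT := (XT.nd (nat_lit 2184) (nat_lit 0) (nat_lit 0) (XT.nd (nat_lit 1092) (nat_lit 228) (nat_lit 0) (XT.nd (nat_lit 546) (nat_lit 76) (nat_lit 0) (XT.nd (nat_lit 234) (nat_lit 228) (nat_lit 0) (XT.nd (nat_lit 78) (nat_lit 0) (nat_lit 0) (XT.lf (nat_lit 0) (nat_lit 77963219762) (nat_lit 76) (nat_lit 48188633037) (nat_lit 152) (nat_lit 110873295933) (nat_lit 10) (nat_lit 5) (nat_lit 11) (nat_lit 5) (nat_lit 12) (nat_lit 4) (nat_lit 325) (nat_lit 289) (nat_lit 166)) (XT.nd (nat_lit 78) (nat_lit 0) (nat_lit 0) (XT.lf (nat_lit 0) (nat_lit 161602561178) (nat_lit 76) (nat_lit 4761022028) (nat_lit 152) (nat_lit 86048914180) (nat_lit 10) (nat_lit 5) (nat_lit 11) (nat_lit 5) (nat_lit 12) (nat_lit 4) (nat_lit 326) (nat_lit 289) (nat_lit 165)) (XT.lf (nat_lit 0) (nat_lit 210805243165) (nat_lit 152) (nat_lit 18112152963) (nat_lit 0) (nat_lit 40032399310) (nat_lit 10) (nat_lit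 5) (nat_lit 12) (nat_lit 4) (nat_lit 10) (nat_lit 4) (nat_lit 327) (nat_lit 289) (nat_lit 164)))) (XT.nd (nat_lit 156) (nat_lit 76) (nat_lit 0) (XT.nd (nat_lit 78) (nat_lit 76) (nat_lit 0) (XT.lf (nat_lit 0) (nat_lit 63451052219) (nat_lit 76) (nat_lit 197000386606) (nat_lit 76) (nat_lit 26226703012) (nat_lit 9) (nat_lit 4) (nat_lit 10) (nat_lit 5) (nat_lit 10) (nat_lit 4) (nat_lit 328) (nat_lit 289) (nat_lit 163)) (XT.lf (nat_lit 0) (nat_lit 8339771730) (nat_lit 152) (nat_lit 153427735931) (nat_lit 76) (nat_lit 144000776383) (nat_lit 8) (nat_lit 5) (nat_lit 10) (nat_lit 5) (nat_lit 9) (nat_lit 4) (nat_lit 329) (nat_lit 289) (nat_lit 162))) (XT.nd (nat_lit 78) (nat_lit 76) (nat_lit 0) (XT.lf (nat_lit 0) (nat_lit 44254218461) (nat_lit 152) (nat_lit 78726406671) (nat_lit 76) (nat_lit 203350549858) (nat_lit 8) (nat_lit 5) (nat_lit 10) (nat_lit 5) (nat_lit 9) (nat_lit 4) (nat_lit 330) (nat_lit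 289) (nat_lit 161)) (XT.lf (nat_lit 0) (nat_lit 2053026229) (nat_lit 76) (nat_lit 81037778536) (nat_lit 152) (nat_lit 265444374283) (nat_lit 7) (nat_lit 5) (nat_lit 8) (nat_lit 5) (nat_lit 9) (nat_lit 4) (nat_lit 331) (nat_lit 289) (nat_lit 160))))) (XT.nd (nat_lit 234) (nat_lit 76) (nat_lit 0) (XT.nd (nat_lit 78) (nat_lit 0) (nat_lit 0) (XT.lf (nat_lit 0) (nat_lit 93771368686) (nat_lit 76) (nat_lit 33415089776) (nat_lit 152) (nat_lit 245156874230) (nat_lit 7) (nat_lit 5) (nat_lit 8) (nat_lit 5) (nat_lit 9) (nat_lit 4) (nat_lit 332) (nat_lit 289) (nat_lit 159)) (XT.nd (nat_lit 78) (nat_lit 0) (nat_lit 0) (XT.lf (nat_lit 0) (nat_lit 175242725959) (nat_lit 152) (nat_lit 205662935838) (nat_lit 0) (nat_lit 17115840376) (nat_lit 7) (nat_lit 5) (nat_lit 9) (nat_lit 4) (nat_lit 7) (nat_lit 4) (nat_lit 333) (nat_lit 289) (nat_lit 158)) (XT.lf (nat_lit 0) (nat_lit 228011088024) (nat_lit 152)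 (nat_lit 127789717702) (nat_lit 0) (nat_lit 69883712462) (nat_lit 7) (nat_lit 5) (nat_lit 9) (nat_lit 4) (nat_lit 7) (nat_lit 4) (nat_lit 334) (nat_lit 289) (nat_lit 157)))) (XT.nd (nat_lit 156) (nat_lit 0) (nat_lit 0) (XT.nd (nat_lit 78) (nat_lit 76) (nat_lit 0) (XT.lf (nat_lit 0) (nat_lit 285000612352) (nat_lit 152) (nat_lit 43687204963) (nat_lit 0) (nat_lit 126872783105) (nat_lit 7) (nat_lit 5) (nat_lit 9) (nat_lit 4) (nat_lit 7) (nat_lit 4) (nat_lit 335) (nat_lit 289) (nat_lit 156)) (XT.lf (nat_lit 0) (nat_lit 49625453823) (nat_lit 76) (nat_lit 298117054175) (nat_lit 76) (nat_lit 139988804849) (nat_lit 6) (nat_lit 4) (nat_lit 7) (nat_lit 5) (nat_lit 7) (nat_lit 4) (nat_lit 336) (nat_lit 289) (nat_lit 155))) (XT.nd (nat_lit 78) (nat_lit 0) (nat_lit 0) (XT.lf (nat_lit 0) (nat_lit 152887147407) (nat_lit 76) (nat_lit 263810818329) (nat_lit 76) (nat_lit 105682180041) (nat_lit 6) (nat_lit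 4) (nat_lit 7) (nat_lit 5) (nat_lit 7) (nat_lit 4) (nat_lit 337) (nat_lit 289) (nat_lit 154)) (XT.lf (nat_lit 0) (nat_lit 264409306142) (nat_lit 76) (nat_lit 226760299167) (nat_lit 76) (nat_lit 68631300730) (nat_lit 6) (nat_lit 4) (nat_lit 7) (nat_lit 5) (nat_lit 7) (nat_lit 4) (nat_lit 338) (nat_lit 289) (nat_lit 153)))))) (XT.nd (nat_lit 546) (nat_lit 76) (nat_lit 0) (XT.nd (nat_lit 234) (nat_lit 76) (nat_lit 0) (XT.nd (nat_lit 78) (nat_lit 76) (nat_lit 0) (XT.lf (nat_lit 0) (nat_lit 384852802081) (nat_lit 76) (nat_lit 186745938058) (nat_lit 76) (nat_lit 28616606149) (nat_lit 6) (nat_lit 4) (nat_lit 7) (nat_lit 5) (nat_lit 7) (nat_lit 4) (nat_lit 339) (nat_lit 289) (nat_lit 152)) (XT.nd (nat_lit 78) (nat_lit 0) (nat_lit 0) (XT.lf (nat_lit 0) (nat_lit 13868725319) (nat_lit 152) (nat_lit 129282692015) (nat_lit 76) (nat_lit 500683453611) (nat_lit 5) (nat_lit 5) (nat_lit 7) (nat_lit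 5) (nat_lit 6) (nat_lit 4) (nat_lit 340) (nat_lit 289) (nat_lit 151)) (XT.lf (nat_lit 0) (nat_lit 58206635538) (nat_lit 152) (nat_lit 37060124657) (nat_lit 76) (nat_lit 595617751152) (nat_lit 5) (nat_lit 5) (nat_lit 7) (nat_lit 5) (nat_lit 6) (nat_lit 4) (nat_lit 341) (nat_lit 289) (nat_lit 150)))) (XT.nd (nat_lit 156) (nat_lit 0) (nat_lit 0) (XT.nd (nat_lit 78) (nat_lit 0) (nat_lit 0) (XT.lf (nat_lit 0) (nat_lit 65833131917) (nat_lit 76) (nat_lit 41841542705) (nat_lit 152) (nat_lit 633896800892) (nat_lit 4) (nat_lit 5) (nat_lit 5) (nat_lit 5) (nat_lit 6) (nat_lit 4) (nat_lit 342) (nat_lit 289) (nat_lit 149)) (XT.lf (nat_lit 0) (nat_lit 162520953087) (nat_lit 152) (nat_lit 617574897891) (nat_lit 0) (nat_lit 16103882336) (nat_lit 4) (nat_lit 5) (nat_lit 6) (nat_lit 4) (nat_lit 4) (nat_lit 4) (nat_lit 343) (nat_lit 289) (nat_lit 148))) (XT.nd (nat_lit 78) (nat_lit 0) (nat_lit 0) (XT.lf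 (nat_lit 0) (nat_lit 222841550925) (nat_lit 152) (nat_lit 555845501599) (nat_lit 0) (nat_lit 76424270030) (nat_lit 4) (nat_lit 5) (nat_lit 6) (nat_lit 4) (nat_lit 4) (nat_lit 4) (nat_lit 344) (nat_lit 289) (nat_lit 147)) (XT.lf (nat_lit 0) (nat_lit 287987633424) (nat_lit 152) (nat_lit 489178060783) (nat_lit 0) (nat_lit 141570157951) (nat_lit 4) (nat_lit 5) (nat_lit 6) (nat_lit 4) (nat_lit 4) (nat_lit 4) (nat_lit 345) (nat_lit 289) (nat_lit 146))))) (XT.nd (nat_lit 234) (nat_lit 76) (nat_lit 0) (XT.nd (nat_lit 78) (nat_lit 0) (nat_lit 0) (XT.lf (nat_lit 0) (nat_lit 358345251442) (nat_lit 152) (nat_lit 417177509127) (nat_lit 0) (nat_lit 211927595805) (nat_lit 4) (nat_lit 5) (nat_lit 6) (nat_lit 4) (nat_lit 4) (nat_lit 4) (nat_lit 346) (nat_lit 289) (nat_lit 145)) (XT.nd (nat_lit 78) (nat_lit 0) (nat_lit 0) (XT.lf (nat_lit 0) (nat_lit 434331339013) (nat_lit 152) (nat_lit 339417176696)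 (nat_lit 0) (nat_lit 287913516557) (nat_lit 4) (nat_lit 5) (nat_lit 6) (nat_lit 4) (nat_lit 4) (nat_lit 4) (nat_lit 347) (nat_lit 289) (nat_lit 144)) (XT.lf (nat_lit 0) (nat_lit 516396184062) (nat_lit 152) (nat_lit 255436261519) (nat_lit 0) (nat_lit 369978207144) (nat_lit 4) (nat_lit 5) (nat_lit 6) (nat_lit 4) (nat_lit 4) (nat_lit 4) (nat_lit 348) (nat_lit 289) (nat_lit 143)))) (XT.nd (nat_lit 156) (nat_lit 76) (nat_lit 0) (XT.nd (nat_lit 78) (nat_lit 0) (nat_lit 0) (XT.lf (nat_lit 0) (nat_lit 605026096783) (nat_lit 152) (nat_lit 164737098914) (nat_lit 0) (nat_lit 458607976845) (nat_lit 4) (nat_lit 5) (nat_lit 6) (nat_lit 4) (nat_lit 4) (nat_lit 4) (nat_lit 349) (nat_lit 289) (nat_lit 142)) (XT.lf (nat_lit 0) (nat_lit 700746291473) (nat_lit 152) (nat_lit 66782212363) (nat_lit 0) (nat_lit 554328039109) (nat_lit 4) (nat_lit 5) (nat_lit 6) (nat_lit 4) (nat_lit 4) (nat_lit 4) (nat_lit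 350) (nat_lit 289) (nat_lit 141))) (XT.nd (nat_lit 78) (nat_lit 0) (nat_lit 0) (XT.lf (nat_lit 0) (nat_lit 41063009582) (nat_lit 76) (nat_lit 764048555702) (nat_lit 76) (nat_lit 617630180720) (nat_lit 3) (nat_lit 4) (nat_lit 4) (nat_lit 5) (nat_lit 4) (nat_lit 4) (nat_lit 351) (nat_lit 289) (nat_lit 140)) (XT.lf (nat_lit 0) (nat_lit 161333624200) (nat_lit 76) (nat_lit 758318281090) (nat_lit 76) (nat_lit 611899792574) (nat_lit 3) (nat_lit 4) (nat_lit 4) (nat_lit 5) (nat_lit 4) (nat_lit 4) (nat_lit 352) (nat_lit 289) (nat_lit 139))))))) (XT.nd (nat_lit 36270) (nat_lit 0) (nat_lit 1292) (XT.nd (nat_lit 35724) (nat_lit 0) (nat_lit 2812) (XT.nd (nat_lit 234) (nat_lit 0) (nat_lit 0) (XT.nd (nat_lit 78) (nat_lit 0) (nat_lit 0) (XT.lf (nat_lit 0) (nat_lit 291225713289) (nat_lit 76) (nat_lit 752129666852) (nat_lit 76) (nat_lit 605711073212) (nat_lit 3) (nat_lit 4) (nat_lit 4) (nat_lit 5) (nat_lit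 4) (nat_lit 4) (nat_lit 353) (nat_lit 289) (nat_lit 138)) (XT.nd (nat_lit 78) (nat_lit 0) (nat_lit 0) (XT.lf (nat_lit 0) (nat_lit 431509007747) (nat_lit 76) (nat_lit 745446039719) (nat_lit 76) (nat_lit 599027348742) (nat_lit 3) (nat_lit 4) (nat_lit 4) (nat_lit 5) (nat_lit 4) (nat_lit 4) (nat_lit 354) (nat_lit 289) (nat_lit 137)) (XT.lf (nat_lit 0) (nat_lit 583014815985) (nat_lit 76) (nat_lit 738227793012) (nat_lit 76) (nat_lit 591809011907) (nat_lit 3) (nat_lit 4) (nat_lit 4) (nat_lit 5) (nat_lit 4) (nat_lit 4) (nat_lit 355) (nat_lit 289) (nat_lit 136)))) (XT.nd (nat_lit 156) (nat_lit 0) (nat_lit 0) (XT.nd (nat_lit 78) (nat_lit 0) (nat_lit 0) (XT.lf (nat_lit 0) (nat_lit 746640950201) (nat_lit 76) (nat_lit 730432151935) (nat_lit 76) (nat_lit 584013287379) (nat_lit 3) (nat_lit 4) (nat_lit 4) (nat_lit 5) (nat_lit 4) (nat_lit 4) (nat_lit 356) (nat_lit 289) (nat_lit 135)) (XT.lf (nat_lit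 0) (nat_lit 923357046746) (nat_lit 76) (nat_lit 722012920097) (nat_lit 76) (nat_lit 575593978272) (nat_lit 3) (nat_lit 4) (nat_lit 4) (nat_lit 5) (nat_lit 4) (nat_lit 4) (nat_lit 357) (nat_lit 289) (nat_lit 134))) (XT.nd (nat_lit 78) (nat_lit 0) (nat_lit 0) (XT.lf (nat_lit 0) (nat_lit 1114210312117) (nat_lit 76) (nat_lit 712920205753) (nat_lit 76) (nat_lit 566501192382) (nat_lit 3) (nat_lit 4) (nat_lit 4) (nat_lit 5) (nat_lit 4) (nat_lit 4) (nat_lit 358) (nat_lit 289) (nat_lit 133)) (XT.lf (nat_lit 0) (nat_lit 1320331728628) (nat_lit 76) (nat_lit 703100126152) (nat_lit 76) (nat_lit 556681046535) (nat_lit 3) (nat_lit 4) (nat_lit 4) (nat_lit 5) (nat_lit 4) (nat_lit 4) (nat_lit 359) (nat_lit 289) (nat_lit 132))))) (XT.nd (nat_lit 234) (nat_lit 0) (nat_lit 76) (XT.nd (nat_lit 78) (nat_lit 0) (nat_lit 0) (XT.lf (nat_lit 0) (nat_lit 9798386565) (nat_lit 532) (nat_lit 5408530150) (nat_lit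 532) (nat_lit 5408530150) (nat_lit 40) (nat_lit 3) (nat_lit 47) (nat_lit 3) (nat_lit 47) (nat_lit 5) (nat_lit 290) (nat_lit 290) (nat_lit 200)) (XT.nd (nat_lit 78) (nat_lit 0) (nat_lit 76) (XT.lf (nat_lit 76) (nat_lit 7734764561) (nat_lit 0) (nat_lit 12866642575) (nat_lit 532) (nat_lit 22260913110) (nat_lit 41) (nat_lit 5) (nat_lit 40) (nat_lit 3) (nat_lit 47) (nat_lit 5) (nat_lit 291) (nat_lit 290) (nat_lit 199)) (XT.lf (nat_lit 0) (nat_lit 22132693084) (nat_lit 456) (nat_lit 16371016548) (nat_lit 532) (nat_lit 6084863579) (nat_lit 41) (nat_lit 5) (nat_lit 47) (nat_lit 5) (nat_lit 48) (nat_lit 5) (nat_lit 292) (nat_lit 290) (nat_lit 198)))) (XT.nd (nat_lit 156) (nat_lit 0) (nat_lit 76) (XT.nd (nat_lit 78) (nat_lit 0) (nat_lit 0) (XT.lf (nat_lit 76) (nat_lit 3736622511) (nat_lit 0) (nat_lit 20470695503) (nat_lit 532) (nat_lit 22211955236) (nat_lit 42) (nat_lit 5) (nat_lit 41) (nat_lit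 5) (nat_lit 48) (nat_lit 5) (nat_lit 293) (nat_lit 290) (nat_lit 197)) (XT.lf (nat_lit 76) (nat_lit 26381815543) (nat_lit 0) (nat_lit 510670574) (nat_lit 532) (nat_lit 21468390034) (nat_lit 42) (nat_lit 5) (nat_lit 41) (nat_lit 5) (nat_lit 48) (nat_lit 5) (nat_lit 294) (nat_lit 290) (nat_lit 196))) (XT.nd (nat_lit 78) (nat_lit 0) (nat_lit 0) (XT.lf (nat_lit 0) (nat_lit 30295835061) (nat_lit 456) (nat_lit 127538310) (nat_lit 532) (nat_lit 19994176289) (nat_lit 42) (nat_lit 5) (nat_lit 48) (nat_lit 5) (nat_lit 49) (nat_lit 5) (nat_lit 295) (nat_lit 290) (nat_lit 195)) (XT.lf (nat_lit 76) (nat_lit 24692003703) (nat_lit 0) (nat_lit 9883969399) (nat_lit 532) (nat_lit 18014433151) (nat_lit 43) (nat_lit 5) (nat_lit 42) (nat_lit 5) (nat_lit 49) (nat_lit 5) (nat_lit 296) (nat_lit 290) (nat_lit 194)))))) (XT.nd (nat_lit 546) (nat_lit 760) (nat_lit 0) (XT.nd (nat_lit 234) (nat_lit 532) (nat_lit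 0) (XT.nd (nat_lit 78) (nat_lit 456) (nat_lit 0) (XT.lf (nat_lit 0) (nat_lit 39495449978) (nat_lit 456) (nat_lit 3730519061) (nat_lit 76) (nat_lit 11687378203) (nat_lit 43) (nat_lit 5) (nat_lit 49) (nat_lit 5) (nat_lit 44) (nat_lit 5) (nat_lit 297) (nat_lit 290) (nat_lit 193)) (XT.nd (nat_lit 78) (nat_lit 0) (nat_lit 0) (XT.lf (nat_lit 0) (nat_lit 23276414848) (nat_lit 456) (nat_lit 22346343839) (nat_lit 532) (nat_lit 11734232269) (nat_lit 37) (nat_lit 5) (nat_lit 43) (nat_lit 5) (nat_lit 44) (nat_lit 5) (nat_lit 298) (nat_lit 290) (nat_lit 192)) (XT.lf (nat_lit 0) (nat_lit 52347669767) (nat_lit 532) (nat_lit 7341617623) (nat_lit 76) (nat_lit 298254015) (nat_lit 37) (nat_lit 5) (nat_lit 44) (nat_lit 5) (nat_lit 38) (nat_lit 5) (nat_lit 299) (nat_lit 290) (nat_lit 191)))) (XT.nd (nat_lit 156) (nat_lit 228) (nat_lit 0) (XT.nd (nat_lit 78) (nat_lit 76) (nat_lit 0) (XT.lf (nat_lit 0) (nat_lit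 22057429787) (nat_lit 228) (nat_lit 38662079366) (nat_lit 304) (nat_lit 2020319914) (nat_lit 34) (nat_lit 5) (nat_lit 37) (nat_lit 5) (nat_lit 38) (nat_lit 5) (nat_lit 300) (nat_lit 290) (nat_lit 190)) (XT.lf (nat_lit 0) (nat_lit 4050277959) (nat_lit 304) (nat_lit 11574966114) (nat_lit 76) (nat_lit 50062951112) (nat_lit 33) (nat_lit 5) (nat_lit 37) (nat_lit 5) (nat_lit 34) (nat_lit 5) (nat_lit 301) (nat_lit 290) (nat_lit 189))) (XT.nd (nat_lit 78) (nat_lit 0) (nat_lit 0) (XT.lf (nat_lit 0) (nat_lit 11233980166) (nat_lit 304) (nat_lit 48215562706) (nat_lit 76) (nat_lit 9359767509) (nat_lit 30) (nat_lit 5) (nat_lit 34) (nat_lit 5) (nat_lit 31) (nat_lit 5) (nat_lit 302) (nat_lit 290) (nat_lit 188)) (XT.lf (nat_lit 0) (nat_lit 19721228152) (nat_lit 304) (nat_lit 16576629368) (nat_lit 76) (nat_lit 35823955193) (nat_lit 30) (nat_lit 5) (nat_lit 34) (nat_lit 5) (nat_lit 31) (nat_lit 5) (nat_lit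 303) (nat_lit 290) (nat_lit 187))))) (XT.nd (nat_lit 312) (nat_lit 380) (nat_lit 0) (XT.nd (nat_lit 156) (nat_lit 152) (nat_lit 0) (XT.nd (nat_lit 78) (nat_lit 0) (nat_lit 0) (XT.lf (nat_lit 0) (nat_lit 18517908129) (nat_lit 228) (nat_lit 10813328759) (nat_lit 304) (nat_lit 46332581320) (nat_lit 27) (nat_lit 5) (nat_lit 30) (nat_lit 5) (nat_lit 31) (nat_lit 5) (nat_lit 304) (nat_lit 290) (nat_lit 186)) (XT.lf (nat_lit 0) (nat_lit 40575418856) (nat_lit 304) (nat_lit 22505758813) (nat_lit 76) (nat_lit 16338781721) (nat_lit 27) (nat_lit 5) (nat_lit 31) (nat_lit 5) (nat_lit 28) (nat_lit 5) (nat_lit 305) (nat_lit 290) (nat_lit 185))) (XT.nd (nat_lit 78) (nat_lit 0) (nat_lit 0) (XT.lf (nat_lit 0) (nat_lit 15392978040) (nat_lit 152) (nat_lit 37975827097) (nat_lit 228) (nat_lit 30055817823) (nat_lit 25) (nat_lit 5) (nat_lit 27) (nat_lit 5) (nat_lit 28) (nat_lit 5) (nat_lit 306) (nat_lit 290)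 (nat_lit 184)) (XT.lf (nat_lit 0) (nat_lit 57601801414) (nat_lit 152) (nat_lit 10197872608) (nat_lit 228) (nat_lit 19900868984) (nat_lit 25) (nat_lit 5) (nat_lit 27) (nat_lit 5) (nat_lit 28) (nat_lit 5) (nat_lit 307) (nat_lit 290) (nat_lit 183)))) (XT.nd (nat_lit 156) (nat_lit 152) (nat_lit 0) (XT.nd (nat_lit 78) (nat_lit 76) (nat_lit 0) (XT.lf (nat_lit 0) (nat_lit 10938010961) (nat_lit 152) (nat_lit 73185061529) (nat_lit 228) (nat_lit 8136423367) (nat_lit 23) (nat_lit 5) (nat_lit 25) (nat_lit 5) (nat_lit 26) (nat_lit 5) (nat_lit 308) (nat_lit 290) (nat_lit 182)) (XT.lf (nat_lit 0) (nat_lit 5448589564) (nat_lit 228) (nat_lit 40545752377) (nat_lit 76) (nat_lit 51091396887) (nat_lit 22) (nat_lit 5) (nat_lit 25) (nat_lit 5) (nat_lit 23) (nat_lit 5) (nat_lit 309) (nat_lit 290) (nat_lit 181))) (XT.nd (nat_lit 78) (nat_lit 0) (nat_lit 0) (XT.lf (nat_lit 0) (nat_lit 3451777311) (nat_lit 152)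 (nat_lit 16310926596) (nat_lit 228) (nat_lit 82511923372) (nat_lit 20) (nat_lit 5) (nat_lit 22) (nat_lit 5) (nat_lit 23) (nat_lit 5) (nat_lit 310) (nat_lit 290) (nat_lit 180)) (XT.lf (nat_lit 0) (nat_lit 36736953125) (nat_lit 228) (nat_lit 54924107492) (nat_lit 76) (nat_lit 16096368676) (nat_lit 20) (nat_lit 5) (nat_lit 23) (nat_lit 5) (nat_lit 21) (nat_lit 5) (nat_lit 311) (nat_lit 290) (nat_lit 179))))))))
noncomputable def xc96 : XT := (XT.nd (nat_lit 2184) (nat_lit 228) (nat_lit 0) (XT.nd (nat_lit 1092) (nat_lit 304) (nat_lit 0) (XT.nd (nat_lit 546) (nat_lit 304) (nat_lit 0) (XT.nd (nat_lit 234) (nat_lit 304) (nat_lit 0) (XT.nd (nat_lit 78) (nat_lit 152) (nat_lit 0) (XT.lf (nat_lit 0) (nat_lit 55491783048) (nat_lit 228) (nat_lit 7938640958) (nat_lit 76) (nat_lit 50214622927) (nat_lit 20) (nat_lit 5) (nat_lit 23) (nat_lit 5) (nat_lit 21) (nat_lit 5) (nat_lit 312) (nat_lit 290) (nat_lit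 178)) (XT.nd (nat_lit 78) (nat_lit 0) (nat_lit 0) (XT.lf (nat_lit 0) (nat_lit 45058256688) (nat_lit 152) (nat_lit 31771450700) (nat_lit 228) (nat_lit 43087352480) (nat_lit 18) (nat_lit 5) (nat_lit 20) (nat_lit 5) (nat_lit 21) (nat_lit 5) (nat_lit 313) (nat_lit 290) (nat_lit 177)) (XT.lf (nat_lit 0) (nat_lit 100154648719) (nat_lit 228) (nat_lit 23992361319) (nat_lit 76) (nat_lit 2521427494) (nat_lit 18) (nat_lit 5) (nat_lit 21) (nat_lit 5) (nat_lit 19) (nat_lit 4) (nat_lit 314) (nat_lit 290) (nat_lit 176)))) (XT.nd (nat_lit 156) (nat_lit 152) (nat_lit 0) (XT.nd (nat_lit 78) (nat_lit 76) (nat_lit 0) (XT.lf (nat_lit 0) (nat_lit 31702737721) (nat_lit 76) (nat_lit 95229681592) (nat_lit 152) (nat_lit 6900561545) (nat_lit 17) (nat_lit 5) (nat_lit 18) (nat_lit 5) (nat_lit 19) (nat_lit 4) (nat_lit 315) (nat_lit 290) (nat_lit 175)) (XT.lf (nat_lit 0) (nat_lit 14239485329) (nat_lit 152) (nat_lit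 48662148861) (nat_lit 76) (nat_lit 78587801964) (nat_lit 16) (nat_lit 5) (nat_lit 18) (nat_lit 5) (nat_lit 17) (nat_lit 5) (nat_lit 316) (nat_lit 290) (nat_lit 174))) (XT.nd (nat_lit 78) (nat_lit 0) (nat_lit 0) (XT.lf (nat_lit 0) (nat_lit 9371730978) (nat_lit 152) (nat_lit 27550806720) (nat_lit 228) (nat_lit 112803564161) (nat_lit 14) (nat_lit 5) (nat_lit 16) (nat_lit 5) (nat_lit 17) (nat_lit 5) (nat_lit 317) (nat_lit 290) (nat_lit 173)) (XT.lf (nat_lit 0) (nat_lit 63040146713) (nat_lit 228) (nat_lit 83990901604) (nat_lit 76) (nat_lit 11461061098) (nat_lit 14) (nat_lit 5) (nat_lit 17) (nat_lit 5) (nat_lit 15) (nat_lit 4) (nat_lit 318) (nat_lit 290) (nat_lit 172))))) (XT.nd (nat_lit 234) (nat_lit 228) (nat_lit 0) (XT.nd (nat_lit 78) (nat_lit 76) (nat_lit 0) (XT.lf (nat_lit 0) (nat_lit 91962064850) (nat_lit 228) (nat_lit 23835124813) (nat_lit 76) (nat_lit 52105017354) (nat_lit 14) (nat_lit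 5) (nat_lit 17) (nat_lit 5) (nat_lit 15) (nat_lit 4) (nat_lit 319) (nat_lit 290) (nat_lit 171)) (XT.nd (nat_lit 78) (nat_lit 0) (nat_lit 0) (XT.lf (nat_lit 0) (nat_lit 43297975841) (nat_lit 76) (nat_lit 80940425209) (nat_lit 152) (nat_lit 53743459572) (nat_lit 13) (nat_lit 5) (nat_lit 14) (nat_lit 5) (nat_lit 15) (nat_lit 4) (nat_lit 320) (nat_lit 290) (nat_lit 170)) (XT.lf (nat_lit 0) (nat_lit 117156198129) (nat_lit 76) (nat_lit 42591710895) (nat_lit 152) (nat_lit 29067893563) (nat_lit 13) (nat_lit 5) (nat_lit 14) (nat_lit 5) (nat_lit 15) (nat_lit 4) (nat_lit 321) (nat_lit 290) (nat_lit 169)))) (XT.nd (nat_lit 156) (nat_lit 76) (nat_lit 0) (XT.nd (nat_lit 78) (nat_lit 152) (nat_lit 0) (XT.lf (nat_lit 0) (nat_lit 196922104972) (nat_lit 76) (nat_lit 1175489634) (nat_lit 152) (nat_lit 2418913119) (nat_lit 13) (nat_lit 5) (nat_lit 14) (nat_lit 5) (nat_lit 15) (nat_lit 4) (nat_lit 322)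 (nat_lit 290) (nat_lit 168)) (XT.lf (nat_lit 0) (nat_lit 27906140171) (nat_lit 152) (nat_lit 141142473229) (nat_lit 76) (nat_lit 43824905345) (nat_lit 11) (nat_lit 5) (nat_lit 13) (nat_lit 5) (nat_lit 12) (nat_lit 4) (nat_lit 323) (nat_lit 290) (nat_lit 167))) (XT.nd (nat_lit 78) (nat_lit 76) (nat_lit 0) (XT.lf (nat_lit 0) (nat_lit 60657331211) (nat_lit 152) (nat_lit 73021138322) (nat_lit 76) (nat_lit 92525130321) (nat_lit 11) (nat_lit 5) (nat_lit 13) (nat_lit 5) (nat_lit 12) (nat_lit 4) (nat_lit 324) (nat_lit 290) (nat_lit 166)) (XT.lf (nat_lit 0) (nat_lit 577941567) (nat_lit 76) (nat_lit 95464071239) (nat_lit 152) (nat_lit 144557003884) (nat_lit 10) (nat_lit 5) (nat_lit 11) (nat_lit 5) (nat_lit 12) (nat_lit 4) (nat_lit 325) (nat_lit 290) (nat_lit 165)))))) (XT.nd (nat_lit 546) (nat_lit 76) (nat_lit 0) (XT.nd (nat_lit 234) (nat_lit 228) (nat_lit 0) (XT.nd (nat_lit 78) (nat_lit 0)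 (nat_lit 0) (XT.lf (nat_lit 0) (nat_lit 84216873997) (nat_lit 76) (nat_lit 52036634916) (nat_lit 152) (nat_lit 119732875557) (nat_lit 10) (nat_lit 5) (nat_lit 11) (nat_lit 5) (nat_lit 12) (nat_lit 4) (nat_lit 326) (nat_lit 290) (nat_lit 164)) (XT.nd (nat_lit 78) (nat_lit 0) (nat_lit 0) (XT.lf (nat_lit 0) (nat_lit 174546133344) (nat_lit 76) (nat_lit 5135340120) (nat_lit 152) (nat_lit 92923305045) (nat_lit 10) (nat_lit 5) (nat_lit 11) (nat_lit 5) (nat_lit 12) (nat_lit 4) (nat_lit 327) (nat_lit 290) (nat_lit 163)) (XT.lf (nat_lit 0) (nat_lit 227677960264) (nat_lit 152) (nat_lit 19546376975) (nat_lit 0) (nat_lit 43240764707) (nat_lit 10) (nat_lit 5) (nat_lit 12) (nat_lit 4) (nat_lit 10) (nat_lit 4) (nat_lit 328) (nat_lit 290) (nat_lit 162)))) (XT.nd (nat_lit 156) (nat_lit 76) (nat_lit 0) (XT.nd (nat_lit 78) (nat_lit 76) (nat_lit 0) (XT.lf (nat_lit 0) (nat_lit 68541511249) (nat_lit 76)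 (nat_lit 212754071404) (nat_lit 76) (nat_lit 28316155906) (nat_lit 9) (nat_lit 4) (nat_lit 10) (nat_lit 5) (nat_lit 10) (nat_lit 4) (nat_lit 329) (nat_lit 290) (nat_lit 161)) (XT.lf (nat_lit 0) (nat_lit 9014591404) (nat_lit 152) (nat_lit 165688231987) (nat_lit 76) (nat_lit 155526301771) (nat_lit 8) (nat_lit 5) (nat_lit 10) (nat_lit 5) (nat_lit 9) (nat_lit 4) (nat_lit 330) (nat_lit 290) (nat_lit 160))) (XT.nd (nat_lit 78) (nat_lit 76) (nat_lit 0) (XT.lf (nat_lit 0) (nat_lit 47801628101) (nat_lit 152) (nat_lit 85011812891) (nat_lit 76) (nat_lit 219623652437) (nat_lit 8) (nat_lit 5) (nat_lit 10) (nat_lit 5) (nat_lit 9) (nat_lit 4) (nat_lit 331) (nat_lit 290) (nat_lit 159)) (XT.lf (nat_lit 0) (nat_lit 2229652961) (nat_lit 76) (nat_lit 87515262335) (nat_lit 152) (nat_lit 286672521322) (nat_lit 7) (nat_lit 5) (nat_lit 8) (nat_lit 5) (nat_lit 9) (nat_lit 4) (nat_lit 332) (nat_lit 290) (nat_lit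 158))))) (XT.nd (nat_lit 234) (nat_lit 76) (nat_lit 0) (XT.nd (nat_lit 78) (nat_lit 0) (nat_lit 0) (XT.lf (nat_lit 0) (nat_lit 101284545434) (nat_lit 76) (nat_lit 36083168732) (nat_lit 152) (nat_lit 264762569629) (nat_lit 7) (nat_lit 5) (nat_lit 8) (nat_lit 5) (nat_lit 9) (nat_lit 4) (nat_lit 333) (nat_lit 290) (nat_lit 157)) (XT.nd (nat_lit 78) (nat_lit 0) (nat_lit 0) (XT.lf (nat_lit 0) (nat_lit 189268127704) (nat_lit 152) (nat_lit 222104989749) (nat_lit 0) (nat_lit 18489618432) (nat_lit 7) (nat_lit 5) (nat_lit 9) (nat_lit 4) (nat_lit 7) (nat_lit 4) (nat_lit 334) (nat_lit 290) (nat_lit 156)) (XT.lf (nat_lit 0) (nat_lit 246257515500) (nat_lit 152) (nat_lit 138002727566) (nat_lit 0) (nat_lit 75478586149) (nat_lit 7) (nat_lit 5) (nat_lit 9) (nat_lit 4) (nat_lit 7) (nat_lit 4) (nat_lit 335) (nat_lit 290) (nat_lit 155)))) (XT.nd (nat_lit 156) (nat_lit 0) (nat_lit 0) (XT.nd (nat_lit 78)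 (nat_lit 76) (nat_lit 0) (XT.lf (nat_lit 0) (nat_lit 307805791371) (nat_lit 152) (nat_lit 47172766960) (nat_lit 0) (nat_lit 137026473059) (nat_lit 7) (nat_lit 5) (nat_lit 9) (nat_lit 4) (nat_lit 7) (nat_lit 4) (nat_lit 336) (nat_lit 290) (nat_lit 154)) (XT.lf (nat_lit 0) (nat_lit 53604666189) (nat_lit 76) (nat_lit 321962213162) (nat_lit 76) (nat_lit 151182534700) (nat_lit 6) (nat_lit 4) (nat_lit 7) (nat_lit 5) (nat_lit 7) (nat_lit 4) (nat_lit 337) (nat_lit 290) (nat_lit 153))) (XT.nd (nat_lit 78) (nat_lit 0) (nat_lit 0) (XT.lf (nat_lit 0) (nat_lit 165126615552) (nat_lit 76) (nat_lit 284911789955) (nat_lit 76) (nat_lit 114131778021) (nat_lit 6) (nat_lit 4) (nat_lit 7) (nat_lit 5) (nat_lit 7) (nat_lit 4) (nat_lit 338) (nat_lit 290) (nat_lit 152)) (XT.lf (nat_lit 0) (nat_lit 285569917627) (nat_lit 76) (nat_lit 244897517693) (nat_lit 76) (nat_lit 74117196988) (nat_lit 6) (nat_lit 4) (nat_lit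 7) (nat_lit 5) (nat_lit 7) (nat_lit 4) (nat_lit 339) (nat_lit 290) (nat_lit 151))))))) (XT.nd (nat_lit 1092) (nat_lit 0) (nat_lit 0) (XT.nd (nat_lit 546) (nat_lit 76) (nat_lit 0) (XT.nd (nat_lit 234) (nat_lit 76) (nat_lit 0) (XT.nd (nat_lit 78) (nat_lit 76) (nat_lit 0) (XT.lf (nat_lit 0) (nat_lit 415648310500) (nat_lit 76) (nat_lit 201682274762) (nat_lit 76) (nat_lit 30901668159) (nat_lit 6) (nat_lit 4) (nat_lit 7) (nat_lit 5) (nat_lit 7) (nat_lit 4) (nat_lit 340) (nat_lit 290) (nat_lit 150)) (XT.nd (nat_lit 78) (nat_lit 0) (nat_lit 0) (XT.lf (nat_lit 0) (nat_lit 14981976173) (nat_lit 152) (nat_lit 139618360883) (nat_lit 76) (nat_lit 540741019141) (nat_lit 5) (nat_lit 5) (nat_lit 7) (nat_lit 5) (nat_lit 6) (nat_lit 4) (nat_lit 341) (nat_lit 290) (nat_lit 149)) (XT.lf (nat_lit 0) (nat_lit 62866641222) (nat_lit 152) (nat_lit 40018502692) (nat_lit 76) (nat_lit 643269846468) (nat_lit 5)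 (nat_lit 5) (nat_lit 7) (nat_lit 5) (nat_lit 6) (nat_lit 4) (nat_lit 342) (nat_lit 290) (nat_lit 148)))) (XT.nd (nat_lit 156) (nat_lit 0) (nat_lit 0) (XT.nd (nat_lit 78) (nat_lit 0) (nat_lit 0) (XT.lf (nat_lit 0) (nat_lit 71106051575) (nat_lit 76) (nat_lit 45185965235) (nat_lit 152) (nat_lit 684604903691) (nat_lit 4) (nat_lit 5) (nat_lit 5) (nat_lit 5) (nat_lit 6) (nat_lit 4) (nat_lit 343) (nat_lit 290) (nat_lit 147)) (XT.lf (nat_lit 0) (nat_lit 175525812652) (nat_lit 152) (nat_lit 666974896766) (nat_lit 0) (nat_lit 17394744564) (nat_lit 4) (nat_lit 5) (nat_lit 6) (nat_lit 4) (nat_lit 4) (nat_lit 4) (nat_lit 344) (nat_lit 290) (nat_lit 146))) (XT.nd (nat_lit 78) (nat_lit 0) (nat_lit 0) (XT.lf (nat_lit 0) (nat_lit 240671822516) (nat_lit 152) (nat_lit 600307592692) (nat_lit 0) (nat_lit 82540574264) (nat_lit 4) (nat_lit 5) (nat_lit 6) (nat_lit 4) (nat_lit 4) (nat_lit 4) (nat_lit 345)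 (nat_lit 290) (nat_lit 145)) (XT.lf (nat_lit 0) (nat_lit 311029373280) (nat_lit 152) (nat_lit 528307167651) (nat_lit 0) (nat_lit 152897958209) (nat_lit 4) (nat_lit 5) (nat_lit 6) (nat_lit 4) (nat_lit 4) (nat_lit 4) (nat_lit 346) (nat_lit 290) (nat_lit 144))))) (XT.nd (nat_lit 234) (nat_lit 76) (nat_lit 0) (XT.nd (nat_lit 78) (nat_lit 0) (nat_lit 0) (XT.lf (nat_lit 0) (nat_lit 387015398578) (nat_lit 152) (nat_lit 450546952455) (nat_lit 0) (nat_lit 228883829045) (nat_lit 4) (nat_lit 5) (nat_lit 6) (nat_lit 4) (nat_lit 4) (nat_lit 4) (nat_lit 347) (nat_lit 290) (nat_lit 143)) (XT.nd (nat_lit 78) (nat_lit 0) (nat_lit 0) (XT.lf (nat_lit 0) (nat_lit 469080185968) (nat_lit 152) (nat_lit 366566145829) (nat_lit 0) (nat_lit 310948473414) (nat_lit 4) (nat_lit 5) (nat_lit 6) (nat_lit 4) (nat_lit 4) (nat_lit 4) (nat_lit 348) (nat_lit 290) (nat_lit 142)) (XT.lf (nat_lit 0) (nat_lit 557710045300)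 (nat_lit 152) (nat_lit 275867083735) (nat_lit 0) (nat_lit 399578200320) (nat_lit 4) (nat_lit 5) (nat_lit 6) (nat_lit 4) (nat_lit 4) (nat_lit 4) (nat_lit 349) (nat_lit 290) (nat_lit 141)))) (XT.nd (nat_lit 156) (nat_lit 76) (nat_lit 0) (XT.nd (nat_lit 78) (nat_lit 0) (nat_lit 0) (XT.lf (nat_lit 0) (nat_lit 653430190556) (nat_lit 152) (nat_lit 177912290248) (nat_lit 0) (nat_lit 495298222959) (nat_lit 4) (nat_lit 5) (nat_lit 6) (nat_lit 4) (nat_lit 4) (nat_lit 4) (nat_lit 350) (nat_lit 290) (nat_lit 140)) (XT.lf (nat_lit 0) (nat_lit 756807852227) (nat_lit 152) (nat_lit 72121292519) (nat_lit 0) (nat_lit 598675771095) (nat_lit 4) (nat_lit 5) (nat_lit 6) (nat_lit 4) (nat_lit 4) (nat_lit 4) (nat_lit 351) (nat_lit 290) (nat_lit 139))) (XT.nd (nat_lit 78) (nat_lit 0) (nat_lit 0) (XT.lf (nat_lit 0) (nat_lit 44351458654) (nat_lit 76) (nat_lit 825170833670) (nat_lit 76) (nat_lit 667038647414)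 (nat_lit 3) (nat_lit 4) (nat_lit 4) (nat_lit 5) (nat_lit 4) (nat_lit 4) (nat_lit 352) (nat_lit 290) (nat_lit 138)) (XT.lf (nat_lit 0) (nat_lit 174243469975) (nat_lit 76) (nat_lit 818982256088) (nat_lit 76) (nat_lit 660849972495) (nat_lit 3) (nat_lit 4) (nat_lit 4) (nat_lit 5) (nat_lit 4) (nat_lit 4) (nat_lit 353) (nat_lit 290) (nat_lit 137)))))) (XT.nd (nat_lit 35802) (nat_lit 0) (nat_lit 2812) (XT.nd (nat_lit 234) (nat_lit 0) (nat_lit 0) (XT.nd (nat_lit 78) (nat_lit 0) (nat_lit 0) (XT.lf (nat_lit 0) (nat_lit 314526692425) (nat_lit 76) (nat_lit 812298662896) (nat_lit 76) (nat_lit 654166289176) (nat_lit 3) (nat_lit 4) (nat_lit 4) (nat_lit 5) (nat_lit 4) (nat_lit 4) (nat_lit 354) (nat_lit 290) (nat_lit 136)) (XT.nd (nat_lit 78) (nat_lit 0) (nat_lit 0) (XT.lf (nat_lit 0) (nat_lit 466032433989) (nat_lit 76) (nat_lit 805080447615) (nat_lit 76) (nat_lit 646947990444) (nat_lit 3) (nat_lit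 4) (nat_lit 4) (nat_lit 5) (nat_lit 4) (nat_lit 4) (nat_lit 355) (nat_lit 290) (nat_lit 135)) (XT.lf (nat_lit 0) (nat_lit 629658506470) (nat_lit 76) (nat_lit 797284835637) (nat_lit 76) (nat_lit 639152301196) (nat_lit 3) (nat_lit 4) (nat_lit 4) (nat_lit 5) (nat_lit 4) (nat_lit 4) (nat_lit 356) (nat_lit 290) (nat_lit 134)))) (XT.nd (nat_lit 156) (nat_lit 0) (nat_lit 0) (XT.nd (nat_lit 78) (nat_lit 0) (nat_lit 0) (XT.lf (nat_lit 0) (nat_lit 806374545853) (nat_lit 76) (nat_lit 788865630741) (nat_lit 76) (nat_lit 630733024755) (nat_lit 3) (nat_lit 4) (nat_lit 4) (nat_lit 5) (nat_lit 4) (nat_lit 4) (nat_lit 357) (nat_lit 290) (nat_lit 133)) (XT.lf (nat_lit 0) (nat_lit 997227758296) (nat_lit 76) (nat_lit 779772941345) (nat_lit 76) (nat_lit 621640269112) (nat_lit 3) (nat_lit 4) (nat_lit 4) (nat_lit 5) (nat_lit 4) (nat_lit 4) (nat_lit 358) (nat_lit 290) (nat_lit 132))) (XT.nd (nat_lit 35334)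 (nat_lit 0) (nat_lit 2812) (XT.lf (nat_lit 0) (nat_lit 1203349125800) (nat_lit 76) (nat_lit 769952884843) (nat_lit 76) (nat_lit 611820151272) (nat_lit 3) (nat_lit 4) (nat_lit 4) (nat_lit 5) (nat_lit 4) (nat_lit 4) (nat_lit 359) (nat_lit 290) (nat_lit 131)) (XT.lf (nat_lit 0) (nat_lit 10616163756) (nat_lit 532) (nat_lit 5822830866) (nat_lit 532) (nat_lit 5822830866) (nat_lit 40) (nat_lit 3) (nat_lit 47) (nat_lit 3) (nat_lit 47) (nat_lit 5) (nat_lit 291) (nat_lit 291) (nat_lit 198))))) (XT.nd (nat_lit 234) (nat_lit 0) (nat_lit 76) (XT.nd (nat_lit 78) (nat_lit 0) (nat_lit 76) (XT.lf (nat_lit 76) (nat_lit 8389378399) (nat_lit 0) (nat_lit 13923792466) (nat_lit 532) (nat_lit 23972775085) (nat_lit 41) (nat_lit 5) (nat_lit 40) (nat_lit 3) (nat_lit 47) (nat_lit 5) (nat_lit 292) (nat_lit 291) (nat_lit 197)) (XT.nd (nat_lit 78) (nat_lit 0) (nat_lit 0) (XT.lf (nat_lit 0) (nat_lit 23961625310)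 (nat_lit 456) (nat_lit 17641937108) (nat_lit 532) (nat_lit 6547183322) (nat_lit 41) (nat_lit 5) (nat_lit 47) (nat_lit 5) (nat_lit 48) (nat_lit 5) (nat_lit 293) (nat_lit 291) (nat_lit 196)) (XT.lf (nat_lit 76) (nat_lit 4073331790) (nat_lit 0) (nat_lit 22125477281) (nat_lit 532) (nat_lit 23929383974) (nat_lit 42) (nat_lit 5) (nat_lit 41) (nat_lit 5) (nat_lit 48) (nat_lit 5) (nat_lit 294) (nat_lit 291) (nat_lit 195)))) (XT.nd (nat_lit 156) (nat_lit 0) (nat_lit 76) (XT.nd (nat_lit 78) (nat_lit 0) (nat_lit 76) (XT.lf (nat_lit 76) (nat_lit 28527341785) (nat_lit 0) (nat_lit 567381755) (nat_lit 532) (nat_lit 23130743013) (nat_lit 42) (nat_lit 5) (nat_lit 41) (nat_lit 5) (nat_lit 48) (nat_lit 5) (nat_lit 295) (nat_lit 291) (nat_lit 194)) (XT.lf (nat_lit 0) (nat_lit 32766221458) (nat_lit 456) (nat_lit 101035762) (nat_lit 532) (nat_lit 21579761987) (nat_lit 42) (nat_lit 5) (nat_lit 48) (nat_lit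 5) (nat_lit 49) (nat_lit 5) (nat_lit 296) (nat_lit 291) (nat_lit 193))) (XT.nd (nat_lit 78) (nat_lit 0) (nat_lit 76) (XT.lf (nat_lit 76) (nat_lit 26703140357) (nat_lit 0) (nat_lit 10683029897) (nat_lit 532) (nat_lit 19407756679) (nat_lit 43) (nat_lit 5) (nat_lit 42) (nat_lit 5) (nat_lit 49) (nat_lit 5) (nat_lit 297) (nat_lit 291) (nat_lit 192)) (XT.lf (nat_lit 0) (nat_lit 42695751397) (nat_lit 456) (nat_lit 3992211673) (nat_lit 76) (nat_lit 12615029942) (nat_lit 43) (nat_lit 5) (nat_lit 49) (nat_lit 5) (nat_lit 44) (nat_lit 5) (nat_lit 298) (nat_lit 291) (nat_lit 191))))))))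
noncomputable def xc97 : XT := (XT.nd (nat_lit 2184) (nat_lit 532) (nat_lit 0) (XT.nd (nat_lit 1092) (nat_lit 760) (nat_lit 0) (XT.nd (nat_lit 546) (nat_lit 532) (nat_lit 0) (XT.nd (nat_lit 234) (nat_lit 532) (nat_lit 0) (XT.nd (nat_lit 78) (nat_lit 228) (nat_lit 0) (XT.lf (nat_lit 0) (nat_lit 25174346597) (nat_lit 456) (nat_lit 24136747392) (nat_lit 532) (nat_lit 12631218804) (nat_lit 37) (nat_lit 5) (nat_lit 43) (nat_lit 5) (nat_lit 44) (nat_lit 5) (nat_lit 299) (nat_lit 291) (nat_lit 190)) (XT.nd (nat_lit 78) (nat_lit 228) (nat_lit 0) (XT.lf (nat_lit 0) (nat_lit 56571084984) (nat_lit 532) (nat_lit 7892724032) (nat_lit 76) (nat_lit 319742876) (nat_lit 37) (nat_lit 5) (nat_lit 44) (nat_lit 5) (nat_lit 38) (nat_lit 5) (nat_lit 300) (nat_lit 291) (nat_lit 189)) (XT.lf (nat_lit 0) (nat_lit 23857330134) (nat_lit 228) (nat_lit 41753553338) (nat_lit 304) (nat_lit 2145292856) (nat_lit 34)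 (nat_lit 5) (nat_lit 37) (nat_lit 5) (nat_lit 38) (nat_lit 5) (nat_lit 301) (nat_lit 291) (nat_lit 188)))) (XT.nd (nat_lit 156) (nat_lit 228) (nat_lit 0) (XT.nd (nat_lit 78) (nat_lit 228) (nat_lit 0) (XT.lf (nat_lit 0) (nat_lit 4406540137) (nat_lit 304) (nat_lit 12466460133) (nat_lit 76) (nat_lit 54067556469) (nat_lit 33) (nat_lit 5) (nat_lit 37) (nat_lit 5) (nat_lit 34) (nat_lit 5) (nat_lit 302) (nat_lit 291) (nat_lit 187)) (XT.lf (nat_lit 0) (nat_lit 12163430582) (nat_lit 304) (nat_lit 52036690157) (nat_lit 76) (nat_lit 10111369554) (nat_lit 30) (nat_lit 5) (nat_lit 34) (nat_lit 5) (nat_lit 31) (nat_lit 5) (nat_lit 303) (nat_lit 291) (nat_lit 186))) (XT.nd (nat_lit 78) (nat_lit 228) (nat_lit 0) (XT.lf (nat_lit 0) (nat_lit 21327381963) (nat_lit 304) (nat_lit 17869317527) (nat_lit 76) (nat_lit 38692483316) (nat_lit 30) (nat_lit 5) (nat_lit 34) (nat_lit 5) (nat_lit 31) (nat_lit 5) (nat_lit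 304) (nat_lit 291) (nat_lit 185)) (XT.lf (nat_lit 0) (nat_lit 20031936331) (nat_lit 228) (nat_lit 11672931171) (nat_lit 304) (nat_lit 50009794446) (nat_lit 27) (nat_lit 5) (nat_lit 30) (nat_lit 5) (nat_lit 31) (nat_lit 5) (nat_lit 305) (nat_lit 291) (nat_lit 184))))) (XT.nd (nat_lit 234) (nat_lit 380) (nat_lit 0) (XT.nd (nat_lit 78) (nat_lit 152) (nat_lit 0) (XT.lf (nat_lit 0) (nat_lit 43846695948) (nat_lit 304) (nat_lit 24274065942) (nat_lit 76) (nat_lit 17650690336) (nat_lit 27) (nat_lit 5) (nat_lit 31) (nat_lit 5) (nat_lit 28) (nat_lit 5) (nat_lit 306) (nat_lit 291) (nat_lit 183)) (XT.nd (nat_lit 78) (nat_lit 0) (nat_lit 0) (XT.lf (nat_lit 0) (nat_lit 16655755844) (nat_lit 152) (nat_lit 41006681109) (nat_lit 228) (nat_lit 32434147476) (nat_lit 25) (nat_lit 5) (nat_lit 27) (nat_lit 5) (nat_lit 28) (nat_lit 5) (nat_lit 307) (nat_lit 291) (nat_lit 182)) (XT.lf (nat_lit 0) (nat_lit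 62238963639) (nat_lit 152) (nat_lit 11007024494) (nat_lit 228) (nat_lit 21468738713) (nat_lit 25) (nat_lit 5) (nat_lit 27) (nat_lit 5) (nat_lit 28) (nat_lit 5) (nat_lit 308) (nat_lit 291) (nat_lit 181)))) (XT.nd (nat_lit 156) (nat_lit 152) (nat_lit 0) (XT.nd (nat_lit 78) (nat_lit 76) (nat_lit 0) (XT.lf (nat_lit 0) (nat_lit 11842991297) (nat_lit 152) (nat_lit 79031481106) (nat_lit 228) (nat_lit 8763991771) (nat_lit 23) (nat_lit 5) (nat_lit 25) (nat_lit 5) (nat_lit 26) (nat_lit 5) (nat_lit 309) (nat_lit 291) (nat_lit 180)) (XT.lf (nat_lit 0) (nat_lit 5905011573) (nat_lit 228) (nat_lit 43760552056) (nat_lit 76) (nat_lit 55185334058) (nat_lit 22) (nat_lit 5) (nat_lit 25) (nat_lit 5) (nat_lit 23) (nat_lit 5) (nat_lit 310) (nat_lit 291) (nat_lit 179))) (XT.nd (nat_lit 78) (nat_lit 0) (nat_lit 0) (XT.lf (nat_lit 0) (nat_lit 3756049362) (nat_lit 152) (nat_lit 17607361125) (nat_lit 228) (nat_lit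 89091558548) (nat_lit 20) (nat_lit 5) (nat_lit 22) (nat_lit 5) (nat_lit 23) (nat_lit 5) (nat_lit 311) (nat_lit 291) (nat_lit 178)) (XT.lf (nat_lit 0) (nat_lit 39694329042) (nat_lit 228) (nat_lit 59290670055) (nat_lit 76) (nat_lit 17391501702) (nat_lit 20) (nat_lit 5) (nat_lit 23) (nat_lit 5) (nat_lit 21) (nat_lit 5) (nat_lit 312) (nat_lit 291) (nat_lit 177)))))) (XT.nd (nat_lit 546) (nat_lit 304) (nat_lit 0) (XT.nd (nat_lit 234) (nat_lit 304) (nat_lit 0) (XT.nd (nat_lit 78) (nat_lit 152) (nat_lit 0) (XT.lf (nat_lit 0) (nat_lit 59948180939) (nat_lit 228) (nat_lit 8548393313) (nat_lit 76) (nat_lit 54238666402) (nat_lit 20) (nat_lit 5) (nat_lit 23) (nat_lit 5) (nat_lit 21) (nat_lit 5) (nat_lit 313) (nat_lit 291) (nat_lit 176)) (XT.nd (nat_lit 78) (nat_lit 0) (nat_lit 0) (XT.lf (nat_lit 0) (nat_lit 48687614654) (nat_lit 152) (nat_lit 34304855195) (nat_lit 228) (nat_lit 46516601704) (nat_lit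 18) (nat_lit 5) (nat_lit 20) (nat_lit 5) (nat_lit 21) (nat_lit 5) (nat_lit 314) (nat_lit 291) (nat_lit 175)) (XT.lf (nat_lit 0) (nat_lit 108182377804) (nat_lit 228) (nat_lit 25887814445) (nat_lit 76) (nat_lit 2730452604) (nat_lit 18) (nat_lit 5) (nat_lit 21) (nat_lit 5) (nat_lit 19) (nat_lit 4) (nat_lit 315) (nat_lit 291) (nat_lit 174)))) (XT.nd (nat_lit 156) (nat_lit 152) (nat_lit 0) (XT.nd (nat_lit 78) (nat_lit 76) (nat_lit 0) (XT.lf (nat_lit 0) (nat_lit 34262286550) (nat_lit 76) (nat_lit 102839507009) (nat_lit 152) (nat_lit 7436607102) (nat_lit 17) (nat_lit 5) (nat_lit 18) (nat_lit 5) (nat_lit 19) (nat_lit 4) (nat_lit 316) (nat_lit 291) (nat_lit 173)) (XT.lf (nat_lit 0) (nat_lit 15392717316) (nat_lit 152) (nat_lit 52532746981) (nat_lit 76) (nat_lit 84881969852) (nat_lit 16) (nat_lit 5) (nat_lit 18) (nat_lit 5) (nat_lit 17) (nat_lit 5) (nat_lit 317) (nat_lit 291) (nat_lit 172)))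 (XT.nd (nat_lit 78) (nat_lit 0) (nat_lit 0) (XT.lf (nat_lit 0) (nat_lit 10143276820) (nat_lit 152) (nat_lit 29746619066) (nat_lit 228) (nat_lit 121813180963) (nat_lit 14) (nat_lit 5) (nat_lit 16) (nat_lit 5) (nat_lit 17) (nat_lit 5) (nat_lit 318) (nat_lit 291) (nat_lit 171)) (XT.lf (nat_lit 0) (nat_lit 68096093299) (nat_lit 228) (nat_lit 90689134791) (nat_lit 76) (nat_lit 12385204675) (nat_lit 14) (nat_lit 5) (nat_lit 17) (nat_lit 5) (nat_lit 15) (nat_lit 4) (nat_lit 319) (nat_lit 291) (nat_lit 170))))) (XT.nd (nat_lit 234) (nat_lit 228) (nat_lit 0) (XT.nd (nat_lit 78) (nat_lit 76) (nat_lit 0) (XT.lf (nat_lit 0) (nat_lit 99330821565) (nat_lit 228) (nat_lit 25722454296) (nat_lit 76) (nat_lit 56280139750) (nat_lit 14) (nat_lit 5) (nat_lit 17) (nat_lit 5) (nat_lit 15) (nat_lit 4) (nat_lit 320) (nat_lit 291) (nat_lit 169)) (XT.nd (nat_lit 78) (nat_lit 0) (nat_lit 0) (XT.lf (nat_lit 0)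 (nat_lit 46780801233) (nat_lit 76) (nat_lit 87408046628) (nat_lit 152) (nat_lit 58030628814) (nat_lit 13) (nat_lit 5) (nat_lit 14) (nat_lit 5) (nat_lit 15) (nat_lit 4) (nat_lit 321) (nat_lit 291) (nat_lit 168)) (XT.lf (nat_lit 0) (nat_lit 126546274836) (nat_lit 76) (nat_lit 45991999065) (nat_lit 152) (nat_lit 31381929194) (nat_lit 13) (nat_lit 5) (nat_lit 14) (nat_lit 5) (nat_lit 15) (nat_lit 4) (nat_lit 322) (nat_lit 291) (nat_lit 167)))) (XT.nd (nat_lit 156) (nat_lit 76) (nat_lit 0) (XT.nd (nat_lit 78) (nat_lit 152) (nat_lit 0) (XT.lf (nat_lit 0) (nat_lit 212692151940) (nat_lit 76) (nat_lit 1263002229) (nat_lit 152) (nat_lit 2601874451) (nat_lit 13) (nat_lit 5) (nat_lit 14) (nat_lit 5) (nat_lit 15) (nat_lit 4) (nat_lit 323) (nat_lit 291) (nat_lit 166)) (XT.lf (nat_lit 0) (nat_lit 30148468824) (nat_lit 152) (nat_lit 152416843352) (nat_lit 76) (nat_lit 47337284302) (nat_lit 11) (nat_lit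 5) (nat_lit 13) (nat_lit 5) (nat_lit 12) (nat_lit 4) (nat_lit 324) (nat_lit 291) (nat_lit 165))) (XT.nd (nat_lit 78) (nat_lit 76) (nat_lit 0) (XT.lf (nat_lit 0) (nat_lit 65519026448) (nat_lit 152) (nat_lit 78847062967) (nat_lit 76) (nat_lit 99933054200) (nat_lit 11) (nat_lit 5) (nat_lit 13) (nat_lit 5) (nat_lit 12) (nat_lit 4) (nat_lit 325) (nat_lit 291) (nat_lit 164)) (XT.lf (nat_lit 0) (nat_lit 639544164) (nat_lit 76) (nat_lit 103094633269) (nat_lit 152) (nat_lit 156112041925) (nat_lit 10) (nat_lit 5) (nat_lit 11) (nat_lit 5) (nat_lit 12) (nat_lit 4) (nat_lit 326) (nat_lit 291) (nat_lit 163))))))) (XT.nd (nat_lit 1092) (nat_lit 228) (nat_lit 0) (XT.nd (nat_lit 546) (nat_lit 76) (nat_lit 0) (XT.nd (nat_lit 234) (nat_lit 228) (nat_lit 0) (XT.nd (nat_lit 78) (nat_lit 0) (nat_lit 0) (XT.lf (nat_lit 0) (nat_lit 90968452872) (nat_lit 76) (nat_lit 56193488237) (nat_lit 152) (nat_lit 129302688686)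 (nat_lit 10) (nat_lit 5) (nat_lit 11) (nat_lit 5) (nat_lit 12) (nat_lit 4) (nat_lit 327) (nat_lit 291) (nat_lit 162)) (XT.nd (nat_lit 78) (nat_lit 0) (nat_lit 0) (XT.lf (nat_lit 0) (nat_lit 188522998970) (nat_lit 76) (nat_lit 5540540040) (nat_lit 152) (nat_lit 100349005638) (nat_lit 10) (nat_lit 5) (nat_lit 11) (nat_lit 5) (nat_lit 12) (nat_lit 4) (nat_lit 328) (nat_lit 291) (nat_lit 161)) (XT.lf (nat_lit 0) (nat_lit 245899310980) (nat_lit 152) (nat_lit 21097442907) (nat_lit 0) (nat_lit 46704975689) (nat_lit 10) (nat_lit 5) (nat_lit 12) (nat_lit 4) (nat_lit 10) (nat_lit 4) (nat_lit 329) (nat_lit 291) (nat_lit 160)))) (XT.nd (nat_lit 156) (nat_lit 76) (nat_lit 0) (XT.nd (nat_lit 78) (nat_lit 76) (nat_lit 0) (XT.lf (nat_lit 0) (nat_lit 74037156268) (nat_lit 76) (nat_lit 229768956332) (nat_lit 76) (nat_lit 30574003808) (nat_lit 9) (nat_lit 4) (nat_lit 10) (nat_lit 5) (nat_lit 10) (nat_lit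 4) (nat_lit 330) (nat_lit 291) (nat_lit 159)) (XT.lf (nat_lit 0) (nat_lit 9742307016) (nat_lit 152) (nat_lit 178931525442) (nat_lit 76) (nat_lit 167973089792) (nat_lit 8) (nat_lit 5) (nat_lit 10) (nat_lit 5) (nat_lit 9) (nat_lit 4) (nat_lit 331) (nat_lit 291) (nat_lit 158))) (XT.nd (nat_lit 78) (nat_lit 76) (nat_lit 0) (XT.lf (nat_lit 0) (nat_lit 51631821589) (nat_lit 152) (nat_lit 91801864307) (nat_lit 76) (nat_lit 237197881558) (nat_lit 8) (nat_lit 5) (nat_lit 10) (nat_lit 5) (nat_lit 9) (nat_lit 4) (nat_lit 332) (nat_lit 291) (nat_lit 157)) (XT.lf (nat_lit 0) (nat_lit 2418643026) (nat_lit 76) (nat_lit 94511734964) (nat_lit 152) (nat_lit 309599976231) (nat_lit 7) (nat_lit 5) (nat_lit 8) (nat_lit 5) (nat_lit 9) (nat_lit 4) (nat_lit 333) (nat_lit 291) (nat_lit 156))))) (XT.nd (nat_lit 234) (nat_lit 76) (nat_lit 0) (XT.nd (nat_lit 78) (nat_lit 0) (nat_lit 0) (XT.lf (nat_lit 0) (nat_lit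 109397140391) (nat_lit 76) (nat_lit 38965425604) (nat_lit 152) (nat_lit 285937698535) (nat_lit 7) (nat_lit 5) (nat_lit 8) (nat_lit 5) (nat_lit 9) (nat_lit 4) (nat_lit 334) (nat_lit 291) (nat_lit 155)) (XT.nd (nat_lit 78) (nat_lit 0) (nat_lit 0) (XT.lf (nat_lit 0) (nat_lit 204414707951) (nat_lit 152) (nat_lit 239863974529) (nat_lit 0) (nat_lit 19972655212) (nat_lit 7) (nat_lit 5) (nat_lit 9) (nat_lit 4) (nat_lit 7) (nat_lit 4) (nat_lit 335) (nat_lit 291) (nat_lit 154)) (XT.lf (nat_lit 0) (nat_lit 265962866769) (nat_lit 152) (nat_lit 149034228735) (nat_lit 0) (nat_lit 81520453880) (nat_lit 7) (nat_lit 5) (nat_lit 9) (nat_lit 4) (nat_lit 7) (nat_lit 4) (nat_lit 336) (nat_lit 291) (nat_lit 153)))) (XT.nd (nat_lit 156) (nat_lit 0) (nat_lit 0) (XT.nd (nat_lit 78) (nat_lit 76) (nat_lit 0) (XT.lf (nat_lit 0) (nat_lit 332434652856) (nat_lit 152) (nat_lit 50938516986) (nat_lit 0) (nat_lit 147991906495)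 (nat_lit 7) (nat_lit 5) (nat_lit 9) (nat_lit 4) (nat_lit 7) (nat_lit 4) (nat_lit 337) (nat_lit 291) (nat_lit 152)) (XT.lf (nat_lit 0) (nat_lit 57900906478) (nat_lit 76) (nat_lit 347715584808) (nat_lit 76) (nat_lit 163272529676) (nat_lit 6) (nat_lit 4) (nat_lit 7) (nat_lit 5) (nat_lit 7) (nat_lit 4) (nat_lit 338) (nat_lit 291) (nat_lit 151))) (XT.nd (nat_lit 78) (nat_lit 0) (nat_lit 0) (XT.lf (nat_lit 0) (nat_lit 178344029049) (nat_lit 76) (nat_lit 307701394811) (nat_lit 76) (nat_lit 123258053782) (nat_lit 6) (nat_lit 4) (nat_lit 7) (nat_lit 5) (nat_lit 7) (nat_lit 4) (nat_lit 339) (nat_lit 291) (nat_lit 150)) (XT.lf (nat_lit 0) (nat_lit 308422255715) (nat_lit 76) (nat_lit 264486228053) (nat_lit 76) (nat_lit 80042622302) (nat_lit 6) (nat_lit 4) (nat_lit 7) (nat_lit 5) (nat_lit 7) (nat_lit 4) (nat_lit 340) (nat_lit 291) (nat_lit 149)))))) (XT.nd (nat_lit 546) (nat_lit 76) (nat_lit 0)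 (XT.nd (nat_lit 234) (nat_lit 76) (nat_lit 0) (XT.nd (nat_lit 78) (nat_lit 76) (nat_lit 0) (XT.lf (nat_lit 0) (nat_lit 448906420413) (nat_lit 76) (nat_lit 217813994655) (nat_lit 76) (nat_lit 33370143792) (nat_lit 6) (nat_lit 4) (nat_lit 7) (nat_lit 5) (nat_lit 7) (nat_lit 4) (nat_lit 341) (nat_lit 291) (nat_lit 148)) (XT.nd (nat_lit 78) (nat_lit 0) (nat_lit 0) (XT.lf (nat_lit 0) (nat_lit 16183751712) (nat_lit 152) (nat_lit 150781874255) (nat_lit 76) (nat_lit 584002777731) (nat_lit 5) (nat_lit 5) (nat_lit 7) (nat_lit 5) (nat_lit 6) (nat_lit 4) (nat_lit 342) (nat_lit 291) (nat_lit 147)) (XT.lf (nat_lit 0) (nat_lit 67898951636) (nat_lit 152) (nat_lit 43214468557) (nat_lit 76) (nat_lit 694733727758) (nat_lit 5) (nat_lit 5) (nat_lit 7) (nat_lit 5) (nat_lit 6) (nat_lit 4) (nat_lit 343) (nat_lit 291) (nat_lit 146)))) (XT.nd (nat_lit 156) (nat_lit 0) (nat_lit 0) (XT.nd (nat_lit 78) (nat_lit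 0) (nat_lit 0) (XT.lf (nat_lit 0) (nat_lit 76799910447) (nat_lit 76) (nat_lit 48798355411) (nat_lit 152) (nat_lit 739370174181) (nat_lit 4) (nat_lit 5) (nat_lit 5) (nat_lit 5) (nat_lit 6) (nat_lit 4) (nat_lit 344) (nat_lit 291) (nat_lit 145)) (XT.lf (nat_lit 0) (nat_lit 189570606847) (nat_lit 152) (nat_lit 720327750512) (nat_lit 0) (nat_lit 18788511751) (nat_lit 4) (nat_lit 5) (nat_lit 6) (nat_lit 4) (nat_lit 4) (nat_lit 4) (nat_lit 345) (nat_lit 291) (nat_lit 144))) (XT.nd (nat_lit 78) (nat_lit 0) (nat_lit 0) (XT.lf (nat_lit 0) (nat_lit 259928095338) (nat_lit 152) (nat_lit 648327442705) (nat_lit 0) (nat_lit 89145845780) (nat_lit 4) (nat_lit 5) (nat_lit 6) (nat_lit 4) (nat_lit 4) (nat_lit 4) (nat_lit 346) (nat_lit 291) (nat_lit 143)) (XT.lf (nat_lit 0) (nat_lit 335914062977) (nat_lit 152) (nat_lit 570567336060) (nat_lit 0) (nat_lit 165131670398) (nat_lit 4) (nat_lit 5) (nat_lit 6)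 (nat_lit 4) (nat_lit 4) (nat_lit 4) (nat_lit 347) (nat_lit 291) (nat_lit 142))))) (XT.nd (nat_lit 312) (nat_lit 76) (nat_lit 0) (XT.nd (nat_lit 156) (nat_lit 0) (nat_lit 0) (XT.nd (nat_lit 78) (nat_lit 0) (nat_lit 0) (XT.lf (nat_lit 0) (nat_lit 417978796977) (nat_lit 152) (nat_lit 486586629945) (nat_lit 0) (nat_lit 247196271972) (nat_lit 4) (nat_lit 5) (nat_lit 6) (nat_lit 4) (nat_lit 4) (nat_lit 4) (nat_lit 348) (nat_lit 291) (nat_lit 141)) (XT.lf (nat_lit 0) (nat_lit 506608606876) (nat_lit 152) (nat_lit 395887660916) (nat_lit 0) (nat_lit 335825959254) (nat_lit 4) (nat_lit 5) (nat_lit 6) (nat_lit 4) (nat_lit 4) (nat_lit 4) (nat_lit 349) (nat_lit 291) (nat_lit 140))) (XT.nd (nat_lit 78) (nat_lit 0) (nat_lit 0) (XT.lf (nat_lit 0) (nat_lit 602328706360) (nat_lit 152) (nat_lit 297932953601) (nat_lit 0) (nat_lit 431545945204) (nat_lit 4) (nat_lit 5) (nat_lit 6) (nat_lit 4) (nat_lit 4)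 (nat_lit 4) (nat_lit 350) (nat_lit 291) (nat_lit 139)) (XT.lf (nat_lit 0) (nat_lit 705706325649) (nat_lit 152) (nat_lit 192142035660) (nat_lit 0) (nat_lit 534923459368) (nat_lit 4) (nat_lit 5) (nat_lit 6) (nat_lit 4) (nat_lit 4) (nat_lit 4) (nat_lit 351) (nat_lit 291) (nat_lit 138)))) (XT.nd (nat_lit 156) (nat_lit 0) (nat_lit 0) (XT.nd (nat_lit 78) (nat_lit 76) (nat_lit 0) (XT.lf (nat_lit 0) (nat_lit 817354072857) (nat_lit 152) (nat_lit 77887997950) (nat_lit 0) (nat_lit 646571109239) (nat_lit 4) (nat_lit 5) (nat_lit 6) (nat_lit 4) (nat_lit 4) (nat_lit 4) (nat_lit 352) (nat_lit 291) (nat_lit 137)) (XT.lf (nat_lit 0) (nat_lit 47902497419) (nat_lit 76) (nat_lit 891183123059) (nat_lit 76) (nat_lit 720400069315) (nat_lit 3) (nat_lit 4) (nat_lit 4) (nat_lit 5) (nat_lit 4) (nat_lit 4) (nat_lit 353) (nat_lit 291) (nat_lit 136))) (XT.nd (nat_lit 78) (nat_lit 0) (nat_lit 0) (XT.lf (nat_lit 0)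 (nat_lit 188185653195) (nat_lit 76) (nat_lit 884499561294) (nat_lit 76) (nat_lit 713716424098) (nat_lit 3) (nat_lit 4) (nat_lit 4) (nat_lit 5) (nat_lit 4) (nat_lit 4) (nat_lit 354) (nat_lit 291) (nat_lit 135)) (XT.lf (nat_lit 0) (nat_lit 339691333025) (nat_lit 76) (nat_lit 877281375111) (nat_lit 76) (nat_lit 706498160646) (nat_lit 3) (nat_lit 4) (nat_lit 4) (nat_lit 5) (nat_lit 4) (nat_lit 4) (nat_lit 355) (nat_lit 291) (nat_lit 134))))))))
noncomputable def xc98 : XT := (XT.nd (nat_lit 37518) (nat_lit 0) (nat_lit 152) (XT.nd (nat_lit 36426) (nat_lit 0) (nat_lit 1140) (XT.nd (nat_lit 35880) (nat_lit 0) (nat_lit 2584) (XT.nd (nat_lit 234) (nat_lit 0) (nat_lit 0) (XT.nd (nat_lit 78) (nat_lit 0) (nat_lit 0) (XT.lf (nat_lit 0) (nat_lit 503317348344) (nat_lit 76) (nat_lit 869485790076) (nat_lit 76) (nat_lit 698702504064) (nat_lit 3) (nat_lit 4) (nat_lit 4) (nat_lit 5) (nat_lit 4) (nat_lit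 4) (nat_lit 356) (nat_lit 291) (nat_lit 133)) (XT.nd (nat_lit 78) (nat_lit 0) (nat_lit 0) (XT.lf (nat_lit 0) (nat_lit 680033334799) (nat_lit 76) (nat_lit 861066610128) (nat_lit 76) (nat_lit 690283257870) (nat_lit 3) (nat_lit 4) (nat_lit 4) (nat_lit 5) (nat_lit 4) (nat_lit 4) (nat_lit 357) (nat_lit 291) (nat_lit 132)) (XT.lf (nat_lit 0) (nat_lit 870886498235) (nat_lit 76) (nat_lit 851973943831) (nat_lit 76) (nat_lit 681190530234) (nat_lit 3) (nat_lit 4) (nat_lit 4) (nat_lit 5) (nat_lit 4) (nat_lit 4) (nat_lit 358) (nat_lit 291) (nat_lit 131)))) (XT.nd (nat_lit 35490) (nat_lit 0) (nat_lit 2812) (XT.nd (nat_lit 35412) (nat_lit 0) (nat_lit 2812) (XT.lf (nat_lit 0) (nat_lit 1077007820361) (nat_lit 76) (nat_lit 842153908717) (nat_lit 76) (nat_lit 671370438325) (nat_lit 3) (nat_lit 4) (nat_lit 4) (nat_lit 5) (nat_lit 4) (nat_lit 4) (nat_lit 359) (nat_lit 291) (nat_lit 130)) (XT.lf (nat_lit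 0) (nat_lit 11494526015) (nat_lit 532) (nat_lit 6272897994) (nat_lit 532) (nat_lit 6272897994) (nat_lit 40) (nat_lit 3) (nat_lit 47) (nat_lit 3) (nat_lit 47) (nat_lit 5) (nat_lit 292) (nat_lit 292) (nat_lit 196))) (XT.nd (nat_lit 78) (nat_lit 0) (nat_lit 76) (XT.lf (nat_lit 76) (nat_lit 9091249413) (nat_lit 0) (nat_lit 15061545730) (nat_lit 532) (nat_lit 25831431219) (nat_lit 41) (nat_lit 5) (nat_lit 40) (nat_lit 3) (nat_lit 47) (nat_lit 5) (nat_lit 293) (nat_lit 292) (nat_lit 195)) (XT.lf (nat_lit 0) (nat_lit 25928552574) (nat_lit 456) (nat_lit 19020060970) (nat_lit 532) (nat_lit 7049979469) (nat_lit 41) (nat_lit 5) (nat_lit 47) (nat_lit 5) (nat_lit 48) (nat_lit 5) (nat_lit 294) (nat_lit 292) (nat_lit 194))))) (XT.nd (nat_lit 234) (nat_lit 304) (nat_lit 0) (XT.nd (nat_lit 78) (nat_lit 0) (nat_lit 0) (XT.lf (nat_lit 76) (nat_lit 4431588147) (nat_lit 0) (nat_lit 23910198366) (nat_lit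 532) (nat_lit 25792699301) (nat_lit 42) (nat_lit 5) (nat_lit 41) (nat_lit 5) (nat_lit 48) (nat_lit 5) (nat_lit 295) (nat_lit 292) (nat_lit 193)) (XT.nd (nat_lit 78) (nat_lit 0) (nat_lit 76) (XT.lf (nat_lit 76) (nat_lit 30839519695) (nat_lit 0) (nat_lit 626367575) (nat_lit 532) (nat_lit 24933947462) (nat_lit 42) (nat_lit 5) (nat_lit 41) (nat_lit 5) (nat_lit 48) (nat_lit 5) (nat_lit 296) (nat_lit 292) (nat_lit 192)) (XT.lf (nat_lit 0) (nat_lit 35427573694) (nat_lit 456) (nat_lit 77649476) (nat_lit 532) (nat_lit 23294184438) (nat_lit 42) (nat_lit 5) (nat_lit 48) (nat_lit 5) (nat_lit 49) (nat_lit 5) (nat_lit 297) (nat_lit 292) (nat_lit 191)))) (XT.nd (nat_lit 156) (nat_lit 380) (nat_lit 0) (XT.nd (nat_lit 78) (nat_lit 0) (nat_lit 76) (XT.lf (nat_lit 76) (nat_lit 28870064045) (nat_lit 0) (nat_lit 11544825021) (nat_lit 532) (nat_lit 20919369734) (nat_lit 43) (nat_lit 5) (nat_lit 42) (nat_lit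 5) (nat_lit 49) (nat_lit 5) (nat_lit 298) (nat_lit 292) (nat_lit 190)) (XT.lf (nat_lit 0) (nat_lit 46146275554) (nat_lit 456) (nat_lit 4280082338) (nat_lit 76) (nat_lit 13617940742) (nat_lit 43) (nat_lit 5) (nat_lit 49) (nat_lit 5) (nat_lit 44) (nat_lit 5) (nat_lit 299) (nat_lit 292) (nat_lit 189))) (XT.nd (nat_lit 78) (nat_lit 0) (nat_lit 0) (XT.lf (nat_lit 0) (nat_lit 27219002967) (nat_lit 456) (nat_lit 26069998607) (nat_lit 532) (nat_lit 13605920658) (nat_lit 37) (nat_lit 5) (nat_lit 43) (nat_lit 5) (nat_lit 44) (nat_lit 5) (nat_lit 300) (nat_lit 292) (nat_lit 188)) (XT.lf (nat_lit 0) (nat_lit 61127294446) (nat_lit 532) (nat_lit 8493086569) (nat_lit 76) (nat_lit 343289160) (nat_lit 37) (nat_lit 5) (nat_lit 44) (nat_lit 5) (nat_lit 38) (nat_lit 5) (nat_lit 301) (nat_lit 292) (nat_lit 187)))))) (XT.nd (nat_lit 546) (nat_lit 532) (nat_lit 0) (XT.nd (nat_lit 234) (nat_lit 380) (nat_lit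 0) (XT.nd (nat_lit 78) (nat_lit 304) (nat_lit 0) (XT.lf (nat_lit 0) (nat_lit 25796185717) (nat_lit 228) (nat_lit 45092558132) (nat_lit 304) (nat_lit 2285492544) (nat_lit 34) (nat_lit 5) (nat_lit 37) (nat_lit 5) (nat_lit 38) (nat_lit 5) (nat_lit 302) (nat_lit 292) (nat_lit 186)) (XT.nd (nat_lit 78) (nat_lit 228) (nat_lit 0) (XT.lf (nat_lit 0) (nat_lit 4786703902) (nat_lit 304) (nat_lit 13434195951) (nat_lit 76) (nat_lit 58392591703) (nat_lit 33) (nat_lit 5) (nat_lit 37) (nat_lit 5) (nat_lit 34) (nat_lit 5) (nat_lit 303) (nat_lit 292) (nat_lit 185)) (XT.lf (nat_lit 0) (nat_lit 13162852769) (nat_lit 304) (nat_lit 56168660380) (nat_lit 76) (nat_lit 10922697367) (nat_lit 30) (nat_lit 5) (nat_lit 34) (nat_lit 5) (nat_lit 31) (nat_lit 5) (nat_lit 304) (nat_lit 292) (nat_lit 184)))) (XT.nd (nat_lit 156) (nat_lit 152) (nat_lit 0) (XT.nd (nat_lit 78) (nat_lit 228) (nat_lit 0) (XT.lf (nat_lit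 0) (nat_lit 23057968575) (nat_lit 304) (nat_lit 19270191642) (nat_lit 76) (nat_lit 41790121100) (nat_lit 30) (nat_lit 5) (nat_lit 34) (nat_lit 5) (nat_lit 31) (nat_lit 5) (nat_lit 305) (nat_lit 292) (nat_lit 183)) (XT.lf (nat_lit 0) (nat_lit 21662436670) (nat_lit 228) (nat_lit 12602081261) (nat_lit 304) (nat_lit 53985377916) (nat_lit 27) (nat_lit 5) (nat_lit 30) (nat_lit 5) (nat_lit 31) (nat_lit 5) (nat_lit 306) (nat_lit 292) (nat_lit 182))) (XT.nd (nat_lit 78) (nat_lit 152) (nat_lit 0) (XT.lf (nat_lit 0) (nat_lit 47376073927) (nat_lit 304) (nat_lit 26188424709) (nat_lit 76) (nat_lit 19066865999) (nat_lit 27) (nat_lit 5) (nat_lit 31) (nat_lit 5) (nat_lit 28) (nat_lit 5) (nat_lit 307) (nat_lit 292) (nat_lit 181)) (XT.lf (nat_lit 0) (nat_lit 18015084934) (nat_lit 152) (nat_lit 44281032336) (nat_lit 228) (nat_lit 35006472061) (nat_lit 25) (nat_lit 5) (nat_lit 27) (nat_lit 5) (nat_lit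 28) (nat_lit 5) (nat_lit 308) (nat_lit 292) (nat_lit 180))))) (XT.nd (nat_lit 234) (nat_lit 304) (nat_lit 0) (XT.nd (nat_lit 78) (nat_lit 228) (nat_lit 0) (XT.lf (nat_lit 0) (nat_lit 67242959084) (nat_lit 152) (nat_lit 11881861212) (nat_lit 228) (nat_lit 23165490391) (nat_lit 25) (nat_lit 5) (nat_lit 27) (nat_lit 5) (nat_lit 28) (nat_lit 5) (nat_lit 309) (nat_lit 292) (nat_lit 179)) (XT.nd (nat_lit 78) (nat_lit 76) (nat_lit 0) (XT.lf (nat_lit 0) (nat_lit 12816098862) (nat_lit 152) (nat_lit 85346810512) (nat_lit 228) (nat_lit 9445096139) (nat_lit 23) (nat_lit 5) (nat_lit 25) (nat_lit 5) (nat_lit 26) (nat_lit 5) (nat_lit 310) (nat_lit 292) (nat_lit 178)) (XT.lf (nat_lit 0) (nat_lit 6395017817) (nat_lit 228) (nat_lit 47236652984) (nat_lit 76) (nat_lit 59605841012) (nat_lit 22) (nat_lit 5) (nat_lit 25) (nat_lit 5) (nat_lit 23) (nat_lit 5) (nat_lit 311) (nat_lit 292) (nat_lit 177)))) (XT.nd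 (nat_lit 156) (nat_lit 152) (nat_lit 0) (XT.nd (nat_lit 78) (nat_lit 0) (nat_lit 0) (XT.lf (nat_lit 0) (nat_lit 4080650136) (nat_lit 152) (nat_lit 19008714421) (nat_lit 228) (nat_lit 96200605888) (nat_lit 20) (nat_lit 5) (nat_lit 22) (nat_lit 5) (nat_lit 23) (nat_lit 5) (nat_lit 312) (nat_lit 292) (nat_lit 176)) (XT.lf (nat_lit 0) (nat_lit 42885667261) (nat_lit 228) (nat_lit 64010461694) (nat_lit 76) (nat_lit 18789186321) (nat_lit 20) (nat_lit 5) (nat_lit 23) (nat_lit 5) (nat_lit 21) (nat_lit 5) (nat_lit 313) (nat_lit 292) (nat_lit 175))) (XT.nd (nat_lit 78) (nat_lit 152) (nat_lit 0) (XT.lf (nat_lit 0) (nat_lit 64758657540) (nat_lit 228) (nat_lit 9210540736) (nat_lit 76) (nat_lit 58583652754) (nat_lit 20) (nat_lit 5) (nat_lit 23) (nat_lit 5) (nat_lit 21) (nat_lit 5) (nat_lit 314) (nat_lit 292) (nat_lit 174)) (XT.lf (nat_lit 0) (nat_lit 52603797893) (nat_lit 152) (nat_lit 37042117786)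 (nat_lit 228) (nat_lit 50222721529) (nat_lit 18) (nat_lit 5) (nat_lit 20) (nat_lit 5) (nat_lit 21) (nat_lit 5) (nat_lit 315) (nat_lit 292) (nat_lit 173))))))) (XT.nd (nat_lit 1092) (nat_lit 380) (nat_lit 0) (XT.nd (nat_lit 546) (nat_lit 228) (nat_lit 0) (XT.nd (nat_lit 234) (nat_lit 228) (nat_lit 0) (XT.nd (nat_lit 78) (nat_lit 152) (nat_lit 0) (XT.lf (nat_lit 0) (nat_lit 116850134342) (nat_lit 228) (nat_lit 27938318527) (nat_lit 76) (nat_lit 2955156740) (nat_lit 18) (nat_lit 5) (nat_lit 21) (nat_lit 5) (nat_lit 19) (nat_lit 4) (nat_lit 316) (nat_lit 292) (nat_lit 172)) (XT.nd (nat_lit 78) (nat_lit 76) (nat_lit 0) (XT.lf (nat_lit 0) (nat_lit 37023271026) (nat_lit 76) (nat_lit 111059338086) (nat_lit 152) (nat_lit 8017818792) (nat_lit 17) (nat_lit 5) (nat_lit 18) (nat_lit 5) (nat_lit 19) (nat_lit 4) (nat_lit 317) (nat_lit 292) (nat_lit 171)) (XT.lf (nat_lit 0) (nat_lit 16636200169) (nat_lit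 152) (nat_lit 56716184822) (nat_lit 76) (nat_lit 91678652038) (nat_lit 16) (nat_lit 5) (nat_lit 18) (nat_lit 5) (nat_lit 17) (nat_lit 5) (nat_lit 318) (nat_lit 292) (nat_lit 170)))) (XT.nd (nat_lit 156) (nat_lit 76) (nat_lit 0) (XT.nd (nat_lit 78) (nat_lit 0) (nat_lit 0) (XT.lf (nat_lit 0) (nat_lit 10973435266) (nat_lit 152) (nat_lit 32119273667) (nat_lit 228) (nat_lit 131545659710) (nat_lit 14) (nat_lit 5) (nat_lit 16) (nat_lit 5) (nat_lit 17) (nat_lit 5) (nat_lit 319) (nat_lit 292) (nat_lit 169)) (XT.lf (nat_lit 0) (nat_lit 73554698844) (nat_lit 228) (nat_lit 97926228072) (nat_lit 76) (nat_lit 13382244205) (nat_lit 14) (nat_lit 5) (nat_lit 17) (nat_lit 5) (nat_lit 15) (nat_lit 4) (nat_lit 320) (nat_lit 292) (nat_lit 168))) (XT.nd (nat_lit 78) (nat_lit 76) (nat_lit 0) (XT.lf (nat_lit 0) (nat_lit 107287396625) (nat_lit 228) (nat_lit 27763549250) (nat_lit 76) (nat_lit 60788313111) (nat_lit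 14) (nat_lit 5) (nat_lit 17) (nat_lit 5) (nat_lit 15) (nat_lit 4) (nat_lit 321) (nat_lit 292) (nat_lit 167)) (XT.lf (nat_lit 0) (nat_lit 50539543902) (nat_lit 76) (nat_lit 94394163782) (nat_lit 152) (nat_lit 62662527402) (nat_lit 13) (nat_lit 5) (nat_lit 14) (nat_lit 5) (nat_lit 15) (nat_lit 4) (nat_lit 322) (nat_lit 292) (nat_lit 166))))) (XT.nd (nat_lit 234) (nat_lit 76) (nat_lit 0) (XT.nd (nat_lit 78) (nat_lit 152) (nat_lit 0) (XT.lf (nat_lit 0) (nat_lit 136685049573) (nat_lit 76) (nat_lit 49665315865) (nat_lit 152) (nat_lit 33882713420) (nat_lit 13) (nat_lit 5) (nat_lit 14) (nat_lit 5) (nat_lit 15) (nat_lit 4) (nat_lit 323) (nat_lit 292) (nat_lit 165)) (XT.nd (nat_lit 78) (nat_lit 152) (nat_lit 0) (XT.lf (nat_lit 0) (nat_lit 229721480345) (nat_lit 76) (nat_lit 1358446920) (nat_lit 152) (nat_lit 2800978010) (nat_lit 13) (nat_lit 5) (nat_lit 14) (nat_lit 5) (nat_lit 15) (nat_lit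 4) (nat_lit 324) (nat_lit 292) (nat_lit 164)) (XT.lf (nat_lit 0) (nat_lit 32568780348) (nat_lit 152) (nat_lit 164595592282) (nat_lit 76) (nat_lit 51129742465) (nat_lit 11) (nat_lit 5) (nat_lit 13) (nat_lit 5) (nat_lit 12) (nat_lit 4) (nat_lit 325) (nat_lit 292) (nat_lit 163)))) (XT.nd (nat_lit 156) (nat_lit 0) (nat_lit 0) (XT.nd (nat_lit 78) (nat_lit 76) (nat_lit 0) (XT.lf (nat_lit 0) (nat_lit 70768357840) (nat_lit 152) (nat_lit 85141310839) (nat_lit 76) (nat_lit 107932768368) (nat_lit 11) (nat_lit 5) (nat_lit 13) (nat_lit 5) (nat_lit 12) (nat_lit 4) (nat_lit 326) (nat_lit 292) (nat_lit 162)) (XT.lf (nat_lit 0) (nat_lit 703882656) (nat_lit 76) (nat_lit 111336576641) (nat_lit 152) (nat_lit 168592841468) (nat_lit 10) (nat_lit 5) (nat_lit 11) (nat_lit 5) (nat_lit 12) (nat_lit 4) (nat_lit 327) (nat_lit 292) (nat_lit 161))) (XT.nd (nat_lit 78) (nat_lit 0) (nat_lit 0) (XT.lf (nat_lit 0)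 (nat_lit 98258128137) (nat_lit 76) (nat_lit 60683756844) (nat_lit 152) (nat_lit 139639344696) (nat_lit 10) (nat_lit 5) (nat_lit 11) (nat_lit 5) (nat_lit 12) (nat_lit 4) (nat_lit 328) (nat_lit 292) (nat_lit 160)) (XT.lf (nat_lit 0) (nat_lit 203616134291) (nat_lit 76) (nat_lit 5978958750) (nat_lit 152) (nat_lit 108369926937) (nat_lit 10) (nat_lit 5) (nat_lit 11) (nat_lit 5) (nat_lit 12) (nat_lit 4) (nat_lit 329) (nat_lit 292) (nat_lit 159)))))) (XT.nd (nat_lit 546) (nat_lit 152) (nat_lit 0) (XT.nd (nat_lit 234) (nat_lit 76) (nat_lit 0) (XT.nd (nat_lit 78) (nat_lit 152) (nat_lit 0) (XT.lf (nat_lit 0) (nat_lit 265577354876) (nat_lit 152) (nat_lit 22774397954) (nat_lit 0) (nat_lit 50445617404) (nat_lit 10) (nat_lit 5) (nat_lit 12) (nat_lit 4) (nat_lit 10) (nat_lit 4) (nat_lit 330) (nat_lit 292) (nat_lit 158)) (XT.nd (nat_lit 78) (nat_lit 76) (nat_lit 0) (XT.lf (nat_lit 0) (nat_lit 79970694715)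 (nat_lit 76) (nat_lit 248145808243) (nat_lit 76) (nat_lit 33013541593) (nat_lit 9) (nat_lit 4) (nat_lit 10) (nat_lit 5) (nat_lit 10) (nat_lit 4) (nat_lit 331) (nat_lit 292) (nat_lit 157)) (XT.lf (nat_lit 0) (nat_lit 10527305688) (nat_lit 152) (nat_lit 193235960796) (nat_lit 76) (nat_lit 181414952648) (nat_lit 8) (nat_lit 5) (nat_lit 10) (nat_lit 5) (nat_lit 9) (nat_lit 4) (nat_lit 332) (nat_lit 292) (nat_lit 156)))) (XT.nd (nat_lit 156) (nat_lit 0) (nat_lit 0) (XT.nd (nat_lit 78) (nat_lit 76) (nat_lit 0) (XT.lf (nat_lit 0) (nat_lit 55767565568) (nat_lit 152) (nat_lit 99136673933) (nat_lit 76) (nat_lit 256177430298) (nat_lit 8) (nat_lit 5) (nat_lit 10) (nat_lit 5) (nat_lit 9) (nat_lit 4) (nat_lit 333) (nat_lit 292) (nat_lit 155)) (XT.lf (nat_lit 0) (nat_lit 2621237543) (nat_lit 76) (nat_lit 102068602810) (nat_lit 152) (nat_lit 334362532975) (nat_lit 7) (nat_lit 5) (nat_lit 8) (nat_lit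 5) (nat_lit 9) (nat_lit 4) (nat_lit 334) (nat_lit 292) (nat_lit 154))) (XT.nd (nat_lit 78) (nat_lit 0) (nat_lit 0) (XT.lf (nat_lit 0) (nat_lit 118157340396) (nat_lit 76) (nat_lit 42078890253) (nat_lit 152) (nat_lit 308807676127) (nat_lit 7) (nat_lit 5) (nat_lit 8) (nat_lit 5) (nat_lit 9) (nat_lit 4) (nat_lit 335) (nat_lit 292) (nat_lit 153)) (XT.lf (nat_lit 0) (nat_lit 220772282762) (nat_lit 152) (nat_lit 259045021161) (nat_lit 0) (nat_lit 21573783220) (nat_lit 7) (nat_lit 5) (nat_lit 9) (nat_lit 4) (nat_lit 7) (nat_lit 4) (nat_lit 336) (nat_lit 292) (nat_lit 152))))) (XT.nd (nat_lit 234) (nat_lit 76) (nat_lit 0) (XT.nd (nat_lit 78) (nat_lit 76) (nat_lit 0) (XT.lf (nat_lit 0) (nat_lit 287243968494) (nat_lit 152) (nat_lit 160949493579) (nat_lit 0) (nat_lit 88045160182) (nat_lit 7) (nat_lit 5) (nat_lit 9) (nat_lit 4) (nat_lit 7) (nat_lit 4) (nat_lit 337) (nat_lit 292) (nat_lit 151))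 (XT.nd (nat_lit 78) (nat_lit 76) (nat_lit 0) (XT.lf (nat_lit 0) (nat_lit 359033195810) (nat_lit 152) (nat_lit 55006678480) (nat_lit 0) (nat_lit 159834101600) (nat_lit 7) (nat_lit 5) (nat_lit 9) (nat_lit 4) (nat_lit 7) (nat_lit 4) (nat_lit 338) (nat_lit 292) (nat_lit 150)) (XT.lf (nat_lit 0) (nat_lit 62539723674) (nat_lit 76) (nat_lit 375529740536) (nat_lit 76) (nat_lit 176330381605) (nat_lit 6) (nat_lit 4) (nat_lit 7) (nat_lit 5) (nat_lit 7) (nat_lit 4) (nat_lit 339) (nat_lit 292) (nat_lit 149)))) (XT.nd (nat_lit 156) (nat_lit 76) (nat_lit 0) (XT.nd (nat_lit 78) (nat_lit 0) (nat_lit 0) (XT.lf (nat_lit 0) (nat_lit 192617796445) (nat_lit 76) (nat_lit 332314644307) (nat_lit 76) (nat_lit 133115040264) (nat_lit 6) (nat_lit 4) (nat_lit 7) (nat_lit 5) (nat_lit 7) (nat_lit 4) (nat_lit 340) (nat_lit 292) (nat_lit 148)) (XT.lf (nat_lit 0) (nat_lit 333101818647) (nat_lit 76) (nat_lit 285642476215)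 (nat_lit 76) (nat_lit 86442645216) (nat_lit 6) (nat_lit 4) (nat_lit 7) (nat_lit 5) (nat_lit 7) (nat_lit 4) (nat_lit 341) (nat_lit 292) (nat_lit 147))) (XT.nd (nat_lit 78) (nat_lit 76) (nat_lit 0) (XT.lf (nat_lit 0) (nat_lit 484824288189) (nat_lit 76) (nat_lit 235236660447) (nat_lit 76) (nat_lit 36036619305) (nat_lit 6) (nat_lit 4) (nat_lit 7) (nat_lit 5) (nat_lit 7) (nat_lit 4) (nat_lit 342) (nat_lit 292) (nat_lit 146)) (XT.lf (nat_lit 0) (nat_lit 17481210290) (nat_lit 152) (nat_lit 162839318316) (nat_lit 76) (nat_lit 630725123628) (nat_lit 5) (nat_lit 5) (nat_lit 7) (nat_lit 5) (nat_lit 6) (nat_lit 4) (nat_lit 343) (nat_lit 292) (nat_lit 145))))))))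
noncomputable def xc99 : XT := (XT.nd (nat_lit 37596) (nat_lit 0) (nat_lit 380) (XT.nd (nat_lit 1092) (nat_lit 0) (nat_lit 0) (XT.nd (nat_lit 546) (nat_lit 76) (nat_lit 0) (XT.nd (nat_lit 234) (nat_lit 0) (nat_lit 0) (XT.nd (nat_lit 78) (nat_lit 76) (nat_lit 0) (XT.lf (nat_lit 0) (nat_lit 73333421879) (nat_lit 152) (nat_lit 46666898375) (nat_lit 76) (nat_lit 750314392348) (nat_lit 5) (nat_lit 5) (nat_lit 7) (nat_lit 5) (nat_lit 6) (nat_lit 4) (nat_lit 344) (nat_lit 292) (nat_lit 144)) (XT.nd (nat_lit 78) (nat_lit 0) (nat_lit 0) (XT.lf (nat_lit 0) (nat_lit 82948511261) (nat_lit 76) (nat_lit 52700091606) (nat_lit 152) (nat_lit 798517111671) (nat_lit 4) (nat_lit 5) (nat_lit 5) (nat_lit 5) (nat_lit 6) (nat_lit 4) (nat_lit 345) (nat_lit 292) (nat_lit 143)) (XT.lf (nat_lit 0) (nat_lit 204738595229) (nat_lit 152) (nat_lit 777949565551) (nat_lit 0) (nat_lit 20293468223) (nat_lit 4) (nat_lit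 5) (nat_lit 6) (nat_lit 4) (nat_lit 4) (nat_lit 4) (nat_lit 346) (nat_lit 292) (nat_lit 142)))) (XT.nd (nat_lit 156) (nat_lit 0) (nat_lit 0) (XT.nd (nat_lit 78) (nat_lit 0) (nat_lit 0) (XT.lf (nat_lit 0) (nat_lit 280724509478) (nat_lit 152) (nat_lit 700189559416) (nat_lit 0) (nat_lit 96279250047) (nat_lit 4) (nat_lit 5) (nat_lit 6) (nat_lit 4) (nat_lit 4) (nat_lit 4) (nat_lit 347) (nat_lit 292) (nat_lit 141)) (XT.lf (nat_lit 0) (nat_lit 362789194045) (nat_lit 152) (nat_lit 616208946366) (nat_lit 0) (nat_lit 178343811997) (nat_lit 4) (nat_lit 5) (nat_lit 6) (nat_lit 4) (nat_lit 4) (nat_lit 4) (nat_lit 348) (nat_lit 292) (nat_lit 140))) (XT.nd (nat_lit 78) (nat_lit 0) (nat_lit 0) (XT.lf (nat_lit 0) (nat_lit 451418958171) (nat_lit 152) (nat_lit 525510063508) (nat_lit 0) (nat_lit 266973462588) (nat_lit 4) (nat_lit 5) (nat_lit 6) (nat_lit 4) (nat_lit 4) (nat_lit 4) (nat_lit 349) (nat_lit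 292) (nat_lit 139)) (XT.lf (nat_lit 0) (nat_lit 547139015274) (nat_lit 152) (nat_lit 427555435981) (nat_lit 0) (nat_lit 362693414567) (nat_lit 4) (nat_lit 5) (nat_lit 6) (nat_lit 4) (nat_lit 4) (nat_lit 4) (nat_lit 350) (nat_lit 292) (nat_lit 138))))) (XT.nd (nat_lit 234) (nat_lit 76) (nat_lit 0) (XT.nd (nat_lit 78) (nat_lit 0) (nat_lit 0) (XT.lf (nat_lit 0) (nat_lit 650516595320) (nat_lit 152) (nat_lit 321764591918) (nat_lit 0) (nat_lit 466070897276) (nat_lit 4) (nat_lit 5) (nat_lit 6) (nat_lit 4) (nat_lit 4) (nat_lit 4) (nat_lit 351) (nat_lit 292) (nat_lit 137)) (XT.nd (nat_lit 78) (nat_lit 0) (nat_lit 0) (XT.lf (nat_lit 0) (nat_lit 762164306193) (nat_lit 152) (nat_lit 207510622614) (nat_lit 0) (nat_lit 577718518021) (nat_lit 4) (nat_lit 5) (nat_lit 6) (nat_lit 4) (nat_lit 4) (nat_lit 4) (nat_lit 352) (nat_lit 292) (nat_lit 136)) (XT.lf (nat_lit 0) (nat_lit 882743763956) (nat_lit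 152) (nat_lit 84116467510) (nat_lit 0) (nat_lit 698297892333) (nat_lit 4) (nat_lit 5) (nat_lit 6) (nat_lit 4) (nat_lit 4) (nat_lit 4) (nat_lit 353) (nat_lit 292) (nat_lit 135)))) (XT.nd (nat_lit 156) (nat_lit 0) (nat_lit 0) (XT.nd (nat_lit 78) (nat_lit 0) (nat_lit 0) (XT.lf (nat_lit 0) (nat_lit 51737202419) (nat_lit 76) (nat_lit 962476592088) (nat_lit 76) (nat_lit 778030643196) (nat_lit 3) (nat_lit 4) (nat_lit 4) (nat_lit 5) (nat_lit 4) (nat_lit 4) (nat_lit 354) (nat_lit 292) (nat_lit 134)) (XT.lf (nat_lit 0) (nat_lit 203242825086) (nat_lit 76) (nat_lit 955258432848) (nat_lit 76) (nat_lit 770812412410) (nat_lit 3) (nat_lit 4) (nat_lit 4) (nat_lit 5) (nat_lit 4) (nat_lit 4) (nat_lit 355) (nat_lit 292) (nat_lit 133))) (XT.nd (nat_lit 78) (nat_lit 0) (nat_lit 0) (XT.lf (nat_lit 0) (nat_lit 366868787478) (nat_lit 76) (nat_lit 947462872760) (nat_lit 76) (nat_lit 763016786076) (nat_lit 3)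 (nat_lit 4) (nat_lit 4) (nat_lit 5) (nat_lit 4) (nat_lit 4) (nat_lit 356) (nat_lit 292) (nat_lit 132)) (XT.lf (nat_lit 0) (nat_lit 543584724925) (nat_lit 76) (nat_lit 939043715912) (nat_lit 76) (nat_lit 754597567889) (nat_lit 3) (nat_lit 4) (nat_lit 4) (nat_lit 5) (nat_lit 4) (nat_lit 4) (nat_lit 357) (nat_lit 292) (nat_lit 131)))))) (XT.nd (nat_lit 35958) (nat_lit 0) (nat_lit 2280) (XT.nd (nat_lit 35646) (nat_lit 0) (nat_lit 2812) (XT.nd (nat_lit 78) (nat_lit 0) (nat_lit 0) (XT.lf (nat_lit 0) (nat_lit 734437842984) (nat_lit 76) (nat_lit 929951071003) (nat_lit 76) (nat_lit 745504866184) (nat_lit 3) (nat_lit 4) (nat_lit 4) (nat_lit 5) (nat_lit 4) (nat_lit 4) (nat_lit 358) (nat_lit 292) (nat_lit 130)) (XT.nd (nat_lit 35490) (nat_lit 0) (nat_lit 2812) (XT.lf (nat_lit 0) (nat_lit 940559123095) (nat_lit 76) (nat_lit 920131055693) (nat_lit 76) (nat_lit 735684798286) (nat_lit 3) (nat_lit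 4) (nat_lit 4) (nat_lit 5) (nat_lit 4) (nat_lit 4) (nat_lit 359) (nat_lit 292) (nat_lit 129)) (XT.lf (nat_lit 0) (nat_lit 12439010213) (nat_lit 532) (nat_lit 6761218739) (nat_lit 532) (nat_lit 6761218739) (nat_lit 40) (nat_lit 3) (nat_lit 47) (nat_lit 3) (nat_lit 47) (nat_lit 5) (nat_lit 293) (nat_lit 293) (nat_lit 194)))) (XT.nd (nat_lit 156) (nat_lit 0) (nat_lit 76) (XT.nd (nat_lit 78) (nat_lit 0) (nat_lit 76) (XT.lf (nat_lit 76) (nat_lit 9844887450) (nat_lit 0) (nat_lit 16286916805) (nat_lit 532) (nat_lit 27847220518) (nat_lit 41) (nat_lit 5) (nat_lit 40) (nat_lit 3) (nat_lit 47) (nat_lit 5) (nat_lit 294) (nat_lit 293) (nat_lit 193)) (XT.lf (nat_lit 0) (nat_lit 28045701354) (nat_lit 456) (nat_lit 20513175529) (nat_lit 532) (nat_lit 7595992128) (nat_lit 41) (nat_lit 5) (nat_lit 47) (nat_lit 5) (nat_lit 48) (nat_lit 5) (nat_lit 295) (nat_lit 293) (nat_lit 192))) (XT.nd (nat_lit 78)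 (nat_lit 0) (nat_lit 0) (XT.lf (nat_lit 76) (nat_lit 4813884243) (nat_lit 0) (nat_lit 25835602458) (nat_lit 532) (nat_lit 27812360623) (nat_lit 42) (nat_lit 5) (nat_lit 41) (nat_lit 5) (nat_lit 48) (nat_lit 5) (nat_lit 296) (nat_lit 293) (nat_lit 191)) (XT.lf (nat_lit 76) (nat_lit 33332393349) (nat_lit 0) (nat_lit 688132743) (nat_lit 532) (nat_lit 26888149720) (nat_lit 42) (nat_lit 5) (nat_lit 41) (nat_lit 5) (nat_lit 48) (nat_lit 5) (nat_lit 297) (nat_lit 293) (nat_lit 190))))) (XT.nd (nat_lit 234) (nat_lit 684) (nat_lit 0) (XT.nd (nat_lit 78) (nat_lit 0) (nat_lit 0) (XT.lf (nat_lit 0) (nat_lit 38296119884) (nat_lit 456) (nat_lit 56881713) (nat_lit 532) (nat_lit 25147466699) (nat_lit 42) (nat_lit 5) (nat_lit 48) (nat_lit 5) (nat_lit 49) (nat_lit 5) (nat_lit 298) (nat_lit 293) (nat_lit 189)) (XT.nd (nat_lit 78) (nat_lit 0) (nat_lit 76) (XT.lf (nat_lit 76) (nat_lit 31205965859) (nat_lit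 0) (nat_lit 12474543337) (nat_lit 532) (nat_lit 22557762009) (nat_lit 43) (nat_lit 5) (nat_lit 42) (nat_lit 5) (nat_lit 49) (nat_lit 5) (nat_lit 299) (nat_lit 293) (nat_lit 188)) (XT.lf (nat_lit 0) (nat_lit 49867867897) (nat_lit 456) (nat_lit 4595477377) (nat_lit 76) (nat_lit 14701981973) (nat_lit 43) (nat_lit 5) (nat_lit 49) (nat_lit 5) (nat_lit 44) (nat_lit 5) (nat_lit 300) (nat_lit 293) (nat_lit 187)))) (XT.nd (nat_lit 156) (nat_lit 304) (nat_lit 0) (XT.nd (nat_lit 78) (nat_lit 0) (nat_lit 0) (XT.lf (nat_lit 0) (nat_lit 29422850916) (nat_lit 456) (nat_lit 28157580169) (nat_lit 532) (nat_lit 14663705310) (nat_lit 37) (nat_lit 5) (nat_lit 43) (nat_lit 5) (nat_lit 44) (nat_lit 5) (nat_lit 301) (nat_lit 293) (nat_lit 186)) (XT.lf (nat_lit 0) (nat_lit 66043646266) (nat_lit 532) (nat_lit 9145908508) (nat_lit 76) (nat_lit 369009198) (nat_lit 37) (nat_lit 5) (nat_lit 44) (nat_lit 5) (nat_lit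 38) (nat_lit 5) (nat_lit 302) (nat_lit 293) (nat_lit 185))) (XT.nd (nat_lit 78) (nat_lit 76) (nat_lit 0) (XT.lf (nat_lit 0) (nat_lit 27885831512) (nat_lit 228) (nat_lit 48698865840) (nat_lit 304) (nat_lit 2441391155) (nat_lit 34) (nat_lit 5) (nat_lit 37) (nat_lit 5) (nat_lit 38) (nat_lit 5) (nat_lit 303) (nat_lit 293) (nat_lit 184)) (XT.lf (nat_lit 0) (nat_lit 5193337534) (nat_lit 304) (nat_lit 14483570693) (nat_lit 76) (nat_lit 63063682438) (nat_lit 33) (nat_lit 5) (nat_lit 37) (nat_lit 5) (nat_lit 34) (nat_lit 5) (nat_lit 304) (nat_lit 293) (nat_lit 183))))))) (XT.nd (nat_lit 1092) (nat_lit 684) (nat_lit 0) (XT.nd (nat_lit 546) (nat_lit 456) (nat_lit 0) (XT.nd (nat_lit 234) (nat_lit 304) (nat_lit 0) (XT.nd (nat_lit 78) (nat_lit 228) (nat_lit 0) (XT.lf (nat_lit 0) (nat_lit 14238469930) (nat_lit 304) (nat_lit 60635605722) (nat_lit 76) (nat_lit 11798586414) (nat_lit 30) (nat_lit 5)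 (nat_lit 34) (nat_lit 5) (nat_lit 31) (nat_lit 5) (nat_lit 305) (nat_lit 293) (nat_lit 182)) (XT.nd (nat_lit 78) (nat_lit 228) (nat_lit 0) (XT.lf (nat_lit 0) (nat_lit 24923521746) (nat_lit 304) (nat_lit 20787225966) (nat_lit 76) (nat_lit 45135250472) (nat_lit 30) (nat_lit 5) (nat_lit 34) (nat_lit 5) (nat_lit 31) (nat_lit 5) (nat_lit 306) (nat_lit 293) (nat_lit 181)) (XT.lf (nat_lit 0) (nat_lit 23419390308) (nat_lit 228) (nat_lit 13606231641) (nat_lit 304) (nat_lit 58282603137) (nat_lit 27) (nat_lit 5) (nat_lit 30) (nat_lit 5) (nat_lit 31) (nat_lit 5) (nat_lit 307) (nat_lit 293) (nat_lit 180)))) (XT.nd (nat_lit 156) (nat_lit 152) (nat_lit 0) (XT.nd (nat_lit 78) (nat_lit 152) (nat_lit 0) (XT.lf (nat_lit 0) (nat_lit 51184714629) (nat_lit 304) (nat_lit 28259864848) (nat_lit 76) (nat_lit 20595747888) (nat_lit 27) (nat_lit 5) (nat_lit 31) (nat_lit 5) (nat_lit 28) (nat_lit 5) (nat_lit 308)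 (nat_lit 293) (nat_lit 179)) (XT.lf (nat_lit 0) (nat_lit 19479327242) (nat_lit 152) (nat_lit 47818213773) (nat_lit 228) (nat_lit 37787779252) (nat_lit 25) (nat_lit 5) (nat_lit 27) (nat_lit 5) (nat_lit 28) (nat_lit 5) (nat_lit 309) (nat_lit 293) (nat_lit 178))) (XT.nd (nat_lit 78) (nat_lit 152) (nat_lit 0) (XT.lf (nat_lit 0) (nat_lit 72643724990) (nat_lit 152) (nat_lit 12827501637) (nat_lit 228) (nat_lit 25000942054) (nat_lit 25) (nat_lit 5) (nat_lit 27) (nat_lit 5) (nat_lit 28) (nat_lit 5) (nat_lit 310) (nat_lit 293) (nat_lit 177)) (XT.lf (nat_lit 0) (nat_lit 13863393167) (nat_lit 152) (nat_lit 92168391873) (nat_lit 228) (nat_lit 10183544216) (nat_lit 23) (nat_lit 5) (nat_lit 25) (nat_lit 5) (nat_lit 26) (nat_lit 5) (nat_lit 311) (nat_lit 293) (nat_lit 176))))) (XT.nd (nat_lit 234) (nat_lit 228) (nat_lit 0) (XT.nd (nat_lit 78) (nat_lit 152) (nat_lit 0) (XT.lf (nat_lit 0) (nat_lit 6921712965)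 (nat_lit 228) (nat_lit 50994371885) (nat_lit 76) (nat_lit 64379178174) (nat_lit 22) (nat_lit 5) (nat_lit 25) (nat_lit 5) (nat_lit 23) (nat_lit 5) (nat_lit 312) (nat_lit 293) (nat_lit 175)) (XT.nd (nat_lit 78) (nat_lit 0) (nat_lit 0) (XT.lf (nat_lit 0) (nat_lit 4427778438) (nat_lit 152) (nat_lit 20523208218) (nat_lit 228) (nat_lit 103880984483) (nat_lit 20) (nat_lit 5) (nat_lit 22) (nat_lit 5) (nat_lit 23) (nat_lit 5) (nat_lit 313) (nat_lit 293) (nat_lit 174)) (XT.lf (nat_lit 0) (nat_lit 46330059647) (nat_lit 228) (nat_lit 69111183776) (nat_lit 76) (nat_lit 20297777745) (nat_lit 20) (nat_lit 5) (nat_lit 23) (nat_lit 5) (nat_lit 21) (nat_lit 5) (nat_lit 314) (nat_lit 293) (nat_lit 173)))) (XT.nd (nat_lit 156) (nat_lit 76) (nat_lit 0) (XT.nd (nat_lit 78) (nat_lit 152) (nat_lit 0) (XT.lf (nat_lit 0) (nat_lit 69951886259) (nat_lit 228) (nat_lit 9928759131) (nat_lit 76) (nat_lit 63275397305)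 (nat_lit 20) (nat_lit 5) (nat_lit 23) (nat_lit 5) (nat_lit 21) (nat_lit 5) (nat_lit 315) (nat_lit 293) (nat_lit 172)) (XT.lf (nat_lit 0) (nat_lit 56830255073) (nat_lit 152) (nat_lit 39999377964) (nat_lit 228) (nat_lit 54227500575) (nat_lit 18) (nat_lit 5) (nat_lit 20) (nat_lit 5) (nat_lit 21) (nat_lit 5) (nat_lit 316) (nat_lit 293) (nat_lit 171))) (XT.nd (nat_lit 78) (nat_lit 76) (nat_lit 0) (XT.lf (nat_lit 0) (nat_lit 126209433081) (nat_lit 228) (nat_lit 30155790496) (nat_lit 76) (nat_lit 3196943017) (nat_lit 18) (nat_lit 5) (nat_lit 21) (nat_lit 5) (nat_lit 19) (nat_lit 4) (nat_lit 317) (nat_lit 293) (nat_lit 170)) (XT.lf (nat_lit 0) (nat_lit 40002280816) (nat_lit 76) (nat_lit 119937801281) (nat_lit 152) (nat_lit 8647484283) (nat_lit 17) (nat_lit 5) (nat_lit 18) (nat_lit 5) (nat_lit 19) (nat_lit 4) (nat_lit 318) (nat_lit 293) (nat_lit 169)))))) (XT.nd (nat_lit 546) (nat_lit 380)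 (nat_lit 0) (XT.nd (nat_lit 234) (nat_lit 76) (nat_lit 0) (XT.nd (nat_lit 78) (nat_lit 152) (nat_lit 0) (XT.lf (nat_lit 0) (nat_lit 17977440376) (nat_lit 152) (nat_lit 61237034205) (nat_lit 76) (nat_lit 99018195056) (nat_lit 16) (nat_lit 5) (nat_lit 18) (nat_lit 5) (nat_lit 17) (nat_lit 5) (nat_lit 319) (nat_lit 293) (nat_lit 168)) (XT.nd (nat_lit 78) (nat_lit 0) (nat_lit 0) (XT.lf (nat_lit 0) (nat_lit 11867339151) (nat_lit 152) (nat_lit 34682749953) (nat_lit 228) (nat_lit 142058530826) (nat_lit 14) (nat_lit 5) (nat_lit 16) (nat_lit 5) (nat_lit 17) (nat_lit 5) (nat_lit 320) (nat_lit 293) (nat_lit 167)) (XT.lf (nat_lit 0) (nat_lit 79448435246) (nat_lit 228) (nat_lit 105744862068) (nat_lit 76) (nat_lit 14458159094) (nat_lit 14) (nat_lit 5) (nat_lit 17) (nat_lit 5) (nat_lit 15) (nat_lit 4) (nat_lit 321) (nat_lit 293) (nat_lit 166)))) (XT.nd (nat_lit 156) (nat_lit 0) (nat_lit 0) (XT.nd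 (nat_lit 78) (nat_lit 76) (nat_lit 0) (XT.lf (nat_lit 0) (nat_lit 115879055479) (nat_lit 228) (nat_lit 29970314440) (nat_lit 76) (nat_lit 65656318302) (nat_lit 14) (nat_lit 5) (nat_lit 17) (nat_lit 5) (nat_lit 15) (nat_lit 4) (nat_lit 322) (nat_lit 293) (nat_lit 165)) (XT.lf (nat_lit 0) (nat_lit 54596663664) (nat_lit 76) (nat_lit 101940101398) (nat_lit 152) (nat_lit 67666483197) (nat_lit 13) (nat_lit 5) (nat_lit 14) (nat_lit 5) (nat_lit 15) (nat_lit 4) (nat_lit 323) (nat_lit 293) (nat_lit 164))) (XT.nd (nat_lit 78) (nat_lit 0) (nat_lit 0) (XT.lf (nat_lit 0) (nat_lit 147632775993) (nat_lit 76) (nat_lit 53633360128) (nat_lit 152) (nat_lit 36584954201) (nat_lit 13) (nat_lit 5) (nat_lit 14) (nat_lit 5) (nat_lit 15) (nat_lit 4) (nat_lit 324) (nat_lit 293) (nat_lit 163)) (XT.lf (nat_lit 0) (nat_lit 248111164008) (nat_lit 76) (nat_lit 1462325446) (nat_lit 152) (nat_lit 3017300423) (nat_lit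 13) (nat_lit 5) (nat_lit 14) (nat_lit 5) (nat_lit 15) (nat_lit 4) (nat_lit 325) (nat_lit 293) (nat_lit 162))))) (XT.nd (nat_lit 312) (nat_lit 152) (nat_lit 0) (XT.nd (nat_lit 156) (nat_lit 76) (nat_lit 0) (XT.nd (nat_lit 78) (nat_lit 0) (nat_lit 0) (XT.lf (nat_lit 0) (nat_lit 35181513587) (nat_lit 152) (nat_lit 177750723771) (nat_lit 76) (nat_lit 55224816151) (nat_lit 11) (nat_lit 5) (nat_lit 13) (nat_lit 5) (nat_lit 12) (nat_lit 4) (nat_lit 326) (nat_lit 293) (nat_lit 161)) (XT.lf (nat_lit 0) (nat_lit 76436521663) (nat_lit 152) (nat_lit 91941026915) (nat_lit 76) (nat_lit 116571736402) (nat_lit 11) (nat_lit 5) (nat_lit 13) (nat_lit 5) (nat_lit 12) (nat_lit 4) (nat_lit 327) (nat_lit 293) (nat_lit 160))) (XT.nd (nat_lit 78) (nat_lit 0) (nat_lit 0) (XT.lf (nat_lit 0) (nat_lit 771488672) (nat_lit 76) (nat_lit 120238678279) (nat_lit 152) (nat_lit 182073269633) (nat_lit 10) (nat_lit 5) (nat_lit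 11) (nat_lit 5) (nat_lit 12) (nat_lit 4) (nat_lit 328) (nat_lit 293) (nat_lit 159)) (XT.lf (nat_lit 0) (nat_lit 106129237095) (nat_lit 76) (nat_lit 65533990268) (nat_lit 152) (nat_lit 150804011575) (nat_lit 10) (nat_lit 5) (nat_lit 11) (nat_lit 5) (nat_lit 12) (nat_lit 4) (nat_lit 329) (nat_lit 293) (nat_lit 158)))) (XT.nd (nat_lit 156) (nat_lit 152) (nat_lit 0) (XT.nd (nat_lit 78) (nat_lit 0) (nat_lit 0) (XT.lf (nat_lit 0) (nat_lit 219915109022) (nat_lit 76) (nat_lit 6453139225) (nat_lit 152) (nat_lit 117033520447) (nat_lit 10) (nat_lit 5) (nat_lit 11) (nat_lit 5) (nat_lit 12) (nat_lit 4) (nat_lit 330) (nat_lit 293) (nat_lit 157)) (XT.lf (nat_lit 0) (nat_lit 286828772190) (nat_lit 152) (nat_lit 24587055907) (nat_lit 0) (nat_lit 54484905051) (nat_lit 10) (nat_lit 5) (nat_lit 12) (nat_lit 4) (nat_lit 10) (nat_lit 4) (nat_lit 331) (nat_lit 293) (nat_lit 156))) (XT.nd (nat_lit 78) (nat_lit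 76) (nat_lit 0) (XT.lf (nat_lit 0) (nat_lit 86377408887) (nat_lit 76) (nat_lit 267993473764) (nat_lit 76) (nat_lit 35649152939) (nat_lit 9) (nat_lit 4) (nat_lit 10) (nat_lit 5) (nat_lit 10) (nat_lit 4) (nat_lit 332) (nat_lit 293) (nat_lit 155)) (XT.lf (nat_lit 0) (nat_lit 11374303339) (nat_lit 152) (nat_lit 208686189957) (nat_lit 76) (nat_lit 195931591651) (nat_lit 8) (nat_lit 5) (nat_lit 10) (nat_lit 5) (nat_lit 9) (nat_lit 4) (nat_lit 333) (nat_lit 293) (nat_lit 154))))))))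
noncomputable def xc100 : XT := (XT.nd (nat_lit 37674) (nat_lit 0) (nat_lit 836) (XT.nd (nat_lit 1092) (nat_lit 76) (nat_lit 0) (XT.nd (nat_lit 546) (nat_lit 152) (nat_lit 0) (XT.nd (nat_lit 234) (nat_lit 76) (nat_lit 0) (XT.nd (nat_lit 78) (nat_lit 76) (nat_lit 0) (XT.lf (nat_lit 0) (nat_lit 60233427475) (nat_lit 152) (nat_lit 107059600715) (nat_lit 76) (nat_lit 276674812491) (nat_lit 8) (nat_lit 5) (nat_lit 10) (nat_lit 5) (nat_lit 9) (nat_lit 4) (nat_lit 334) (nat_lit 293) (nat_lit 153)) (XT.nd (nat_lit 78) (nat_lit 0) (nat_lit 0) (XT.lf (nat_lit 0) (nat_lit 2838740967) (nat_lit 76) (nat_lit 110230600851) (nat_lit 152) (nat_lit 361106870528) (nat_lit 7) (nat_lit 5) (nat_lit 8) (nat_lit 5) (nat_lit 9) (nat_lit 4) (nat_lit 335) (nat_lit 293) (nat_lit 152)) (XT.lf (nat_lit 0) (nat_lit 127617153943) (nat_lit 76) (nat_lit 45441969821) (nat_lit 152) (nat_lit 333507970694) (nat_lit 7)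 (nat_lit 5) (nat_lit 8) (nat_lit 5) (nat_lit 9) (nat_lit 4) (nat_lit 336) (nat_lit 293) (nat_lit 151)))) (XT.nd (nat_lit 156) (nat_lit 76) (nat_lit 0) (XT.nd (nat_lit 78) (nat_lit 0) (nat_lit 0) (XT.lf (nat_lit 0) (nat_lit 238437836109) (nat_lit 152) (nat_lit 279761702990) (nat_lit 0) (nat_lit 23302528463) (nat_lit 7) (nat_lit 5) (nat_lit 9) (nat_lit 4) (nat_lit 7) (nat_lit 4) (nat_lit 337) (nat_lit 293) (nat_lit 150)) (XT.lf (nat_lit 0) (nat_lit 310226977387) (nat_lit 152) (nat_lit 173819045783) (nat_lit 0) (nat_lit 95091405020) (nat_lit 7) (nat_lit 5) (nat_lit 9) (nat_lit 4) (nat_lit 7) (nat_lit 4) (nat_lit 338) (nat_lit 293) (nat_lit 149))) (XT.nd (nat_lit 78) (nat_lit 76) (nat_lit 0) (XT.lf (nat_lit 0) (nat_lit 387759084265) (nat_lit 152) (nat_lit 59401280090) (nat_lit 0) (nat_lit 172623266786) (nat_lit 7) (nat_lit 5) (nat_lit 9) (nat_lit 4) (nat_lit 7) (nat_lit 4) (nat_lit 339)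 (nat_lit 293) (nat_lit 148)) (XT.lf (nat_lit 0) (nat_lit 67548684043) (nat_lit 76) (nat_lit 405569469697) (nat_lit 76) (nat_lit 190433425263) (nat_lit 6) (nat_lit 4) (nat_lit 7) (nat_lit 5) (nat_lit 7) (nat_lit 4) (nat_lit 340) (nat_lit 293) (nat_lit 147))))) (XT.nd (nat_lit 234) (nat_lit 152) (nat_lit 0) (XT.nd (nat_lit 78) (nat_lit 0) (nat_lit 0) (XT.lf (nat_lit 0) (nat_lit 208032574304) (nat_lit 76) (nat_lit 358897362072) (nat_lit 76) (nat_lit 143761107494) (nat_lit 6) (nat_lit 4) (nat_lit 7) (nat_lit 5) (nat_lit 7) (nat_lit 4) (nat_lit 341) (nat_lit 293) (nat_lit 146)) (XT.nd (nat_lit 78) (nat_lit 0) (nat_lit 0) (XT.lf (nat_lit 0) (nat_lit 359754921679) (nat_lit 76) (nat_lit 308491602294) (nat_lit 76) (nat_lit 93355153138) (nat_lit 6) (nat_lit 4) (nat_lit 7) (nat_lit 5) (nat_lit 7) (nat_lit 4) (nat_lit 342) (nat_lit 293) (nat_lit 145)) (XT.lf (nat_lit 0) (nat_lit 523614821559)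 (nat_lit 76) (nat_lit 254053489563) (nat_lit 76) (nat_lit 38916860242) (nat_lit 6) (nat_lit 4) (nat_lit 7) (nat_lit 5) (nat_lit 7) (nat_lit 4) (nat_lit 343) (nat_lit 293) (nat_lit 144)))) (XT.nd (nat_lit 156) (nat_lit 76) (nat_lit 0) (XT.nd (nat_lit 78) (nat_lit 0) (nat_lit 0) (XT.lf (nat_lit 0) (nat_lit 18882072031) (nat_lit 152) (nat_lit 175862086313) (nat_lit 76) (nat_lit 681184954230) (nat_lit 5) (nat_lit 5) (nat_lit 7) (nat_lit 5) (nat_lit 6) (nat_lit 4) (nat_lit 344) (nat_lit 293) (nat_lit 143)) (XT.lf (nat_lit 0) (nat_lit 79202285368) (nat_lit 152) (nat_lit 50396197034) (nat_lit 76) (nat_lit 810341229580) (nat_lit 5) (nat_lit 5) (nat_lit 7) (nat_lit 5) (nat_lit 6) (nat_lit 4) (nat_lit 345) (nat_lit 293) (nat_lit 142))) (XT.nd (nat_lit 78) (nat_lit 0) (nat_lit 0) (XT.lf (nat_lit 0) (nat_lit 89588342761) (nat_lit 76) (nat_lit 56914270884) (nat_lit 152) (nat_lit 862396185985) (nat_lit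 4) (nat_lit 5) (nat_lit 5) (nat_lit 5) (nat_lit 6) (nat_lit 4) (nat_lit 346) (nat_lit 293) (nat_lit 141)) (XT.lf (nat_lit 0) (nat_lit 221119688877) (nat_lit 152) (nat_lit 840181754216) (nat_lit 0) (nat_lit 21918553648) (nat_lit 4) (nat_lit 5) (nat_lit 6) (nat_lit 4) (nat_lit 4) (nat_lit 4) (nat_lit 347) (nat_lit 293) (nat_lit 140)))))) (XT.nd (nat_lit 546) (nat_lit 76) (nat_lit 0) (XT.nd (nat_lit 234) (nat_lit 0) (nat_lit 0) (XT.nd (nat_lit 78) (nat_lit 0) (nat_lit 0) (XT.lf (nat_lit 0) (nat_lit 303184327672) (nat_lit 152) (nat_lit 756201227337) (nat_lit 0) (nat_lit 103983078908) (nat_lit 4) (nat_lit 5) (nat_lit 6) (nat_lit 4) (nat_lit 4) (nat_lit 4) (nat_lit 348) (nat_lit 293) (nat_lit 139)) (XT.nd (nat_lit 78) (nat_lit 0) (nat_lit 0) (XT.lf (nat_lit 0) (nat_lit 391814049417) (nat_lit 152) (nat_lit 665502424267) (nat_lit 0) (nat_lit 192612695529) (nat_lit 4) (nat_lit 5) (nat_lit 6)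 (nat_lit 4) (nat_lit 4) (nat_lit 4) (nat_lit 349) (nat_lit 293) (nat_lit 138)) (XT.lf (nat_lit 0) (nat_lit 487534067277) (nat_lit 152) (nat_lit 567547870618) (nat_lit 0) (nat_lit 288332616051) (nat_lit 4) (nat_lit 5) (nat_lit 6) (nat_lit 4) (nat_lit 4) (nat_lit 4) (nat_lit 350) (nat_lit 293) (nat_lit 137)))) (XT.nd (nat_lit 156) (nat_lit 0) (nat_lit 0) (XT.nd (nat_lit 78) (nat_lit 0) (nat_lit 0) (XT.lf (nat_lit 0) (nat_lit 590911610988) (nat_lit 152) (nat_lit 461757094961) (nat_lit 0) (nat_lit 391710069636) (nat_lit 4) (nat_lit 5) (nat_lit 6) (nat_lit 4) (nat_lit 4) (nat_lit 4) (nat_lit 351) (nat_lit 293) (nat_lit 136)) (XT.lf (nat_lit 0) (nat_lit 702559288217) (nat_lit 152) (nat_lit 347503188995) (nat_lit 0) (nat_lit 503357663413) (nat_lit 4) (nat_lit 5) (nat_lit 6) (nat_lit 4) (nat_lit 4) (nat_lit 4) (nat_lit 352) (nat_lit 293) (nat_lit 135))) (XT.nd (nat_lit 78) (nat_lit 0) (nat_lit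 0) (XT.lf (nat_lit 0) (nat_lit 823138714828) (nat_lit 152) (nat_lit 224109092538) (nat_lit 0) (nat_lit 623937012755) (nat_lit 4) (nat_lit 5) (nat_lit 6) (nat_lit 4) (nat_lit 4) (nat_lit 4) (nat_lit 353) (nat_lit 293) (nat_lit 134)) (XT.lf (nat_lit 0) (nat_lit 953364435572) (nat_lit 152) (nat_lit 90843581313) (nat_lit 0) (nat_lit 754162661953) (nat_lit 4) (nat_lit 5) (nat_lit 6) (nat_lit 4) (nat_lit 4) (nat_lit 4) (nat_lit 354) (nat_lit 293) (nat_lit 133))))) (XT.nd (nat_lit 234) (nat_lit 0) (nat_lit 0) (XT.nd (nat_lit 78) (nat_lit 0) (nat_lit 0) (XT.lf (nat_lit 0) (nat_lit 55878326423) (nat_lit 76) (nat_lit 1039473707095) (nat_lit 76) (nat_lit 840271867230) (nat_lit 3) (nat_lit 4) (nat_lit 4) (nat_lit 5) (nat_lit 4) (nat_lit 4) (nat_lit 355) (nat_lit 293) (nat_lit 132)) (XT.nd (nat_lit 78) (nat_lit 0) (nat_lit 0) (XT.lf (nat_lit 0) (nat_lit 219504239807) (nat_lit 76) (nat_lit 1031678170106)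 (nat_lit 76) (nat_lit 832476268902) (nat_lit 3) (nat_lit 4) (nat_lit 4) (nat_lit 5) (nat_lit 4) (nat_lit 4) (nat_lit 356) (nat_lit 293) (nat_lit 131)) (XT.lf (nat_lit 0) (nat_lit 396220131877) (nat_lit 76) (nat_lit 1023259034646) (nat_lit 76) (nat_lit 824057076646) (nat_lit 3) (nat_lit 4) (nat_lit 4) (nat_lit 5) (nat_lit 4) (nat_lit 4) (nat_lit 357) (nat_lit 293) (nat_lit 130)))) (XT.nd (nat_lit 35646) (nat_lit 0) (nat_lit 2812) (XT.nd (nat_lit 78) (nat_lit 0) (nat_lit 0) (XT.lf (nat_lit 0) (nat_lit 587073207920) (nat_lit 76) (nat_lit 1014166409541) (nat_lit 76) (nat_lit 814964398953) (nat_lit 3) (nat_lit 4) (nat_lit 4) (nat_lit 5) (nat_lit 4) (nat_lit 4) (nat_lit 358) (nat_lit 293) (nat_lit 129)) (XT.lf (nat_lit 0) (nat_lit 793194449128) (nat_lit 76) (nat_lit 1004346412568) (nat_lit 76) (nat_lit 805144353288) (nat_lit 3) (nat_lit 4) (nat_lit 4) (nat_lit 5) (nat_lit 4) (nat_lit 4)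 (nat_lit 359) (nat_lit 293) (nat_lit 128))) (XT.nd (nat_lit 78) (nat_lit 0) (nat_lit 0) (XT.lf (nat_lit 0) (nat_lit 13455497729) (nat_lit 532) (nat_lit 7290532651) (nat_lit 532) (nat_lit 7290532651) (nat_lit 40) (nat_lit 3) (nat_lit 47) (nat_lit 3) (nat_lit 47) (nat_lit 5) (nat_lit 294) (nat_lit 294) (nat_lit 192)) (XT.lf (nat_lit 76) (nat_lit 10655059108) (nat_lit 0) (nat_lit 17607400514) (nat_lit 532) (nat_lit 30031509477) (nat_lit 41) (nat_lit 5) (nat_lit 40) (nat_lit 3) (nat_lit 47) (nat_lit 5) (nat_lit 295) (nat_lit 294) (nat_lit 191))))))) (XT.nd (nat_lit 1092) (nat_lit 988) (nat_lit 0) (XT.nd (nat_lit 546) (nat_lit 760) (nat_lit 0) (XT.nd (nat_lit 234) (nat_lit 304) (nat_lit 0) (XT.nd (nat_lit 78) (nat_lit 0) (nat_lit 0) (XT.lf (nat_lit 0) (nat_lit 30326106926) (nat_lit 456) (nat_lit 22129803716) (nat_lit 532) (nat_lit 8188251662) (nat_lit 41) (nat_lit 5) (nat_lit 47) (nat_lit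 5) (nat_lit 48) (nat_lit 5) (nat_lit 296) (nat_lit 294) (nat_lit 190)) (XT.nd (nat_lit 78) (nat_lit 0) (nat_lit 0) (XT.lf (nat_lit 76) (nat_lit 5222802462) (nat_lit 0) (nat_lit 27913243026) (nat_lit 532) (nat_lit 29999836936) (nat_lit 42) (nat_lit 5) (nat_lit 41) (nat_lit 5) (nat_lit 48) (nat_lit 5) (nat_lit 297) (nat_lit 294) (nat_lit 189)) (XT.lf (nat_lit 76) (nat_lit 36021028780) (nat_lit 0) (nat_lit 753176299) (nat_lit 532) (nat_lit 29004467868) (nat_lit 42) (nat_lit 5) (nat_lit 41) (nat_lit 5) (nat_lit 48) (nat_lit 5) (nat_lit 298) (nat_lit 294) (nat_lit 188)))) (XT.nd (nat_lit 156) (nat_lit 380) (nat_lit 0) (XT.nd (nat_lit 78) (nat_lit 0) (nat_lit 0) (XT.lf (nat_lit 0) (nat_lit 41389250743) (nat_lit 456) (nat_lit 38301487) (nat_lit 532) (nat_lit 27150474175) (nat_lit 42) (nat_lit 5) (nat_lit 48) (nat_lit 5) (nat_lit 49) (nat_lit 5) (nat_lit 299) (nat_lit 294) (nat_lit 187)) (XT.lf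 (nat_lit 76) (nat_lit 33724988302) (nat_lit 0) (nat_lit 13477764275) (nat_lit 532) (nat_lit 24332241248) (nat_lit 43) (nat_lit 5) (nat_lit 42) (nat_lit 5) (nat_lit 49) (nat_lit 5) (nat_lit 300) (nat_lit 294) (nat_lit 186))) (XT.nd (nat_lit 78) (nat_lit 456) (nat_lit 0) (XT.lf (nat_lit 0) (nat_lit 53882923443) (nat_lit 456) (nat_lit 4939957518) (nat_lit 76) (nat_lit 15873516020) (nat_lit 43) (nat_lit 5) (nat_lit 49) (nat_lit 5) (nat_lit 44) (nat_lit 5) (nat_lit 301) (nat_lit 294) (nat_lit 185)) (XT.lf (nat_lit 0) (nat_lit 31799250758) (nat_lit 456) (nat_lit 30411885548) (nat_lit 532) (nat_lit 15810490864) (nat_lit 37) (nat_lit 5) (nat_lit 43) (nat_lit 5) (nat_lit 44) (nat_lit 5) (nat_lit 302) (nat_lit 294) (nat_lit 184))))) (XT.nd (nat_lit 234) (nat_lit 456) (nat_lit 0) (XT.nd (nat_lit 78) (nat_lit 304) (nat_lit 0) (XT.lf (nat_lit 0) (nat_lit 71349573036) (nat_lit 532) (nat_lit 9854754553)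 (nat_lit 76) (nat_lit 397035512) (nat_lit 37) (nat_lit 5) (nat_lit 44) (nat_lit 5) (nat_lit 38) (nat_lit 5) (nat_lit 303) (nat_lit 294) (nat_lit 183)) (XT.nd (nat_lit 78) (nat_lit 76) (nat_lit 0) (XT.lf (nat_lit 0) (nat_lit 30138946779) (nat_lit 228) (nat_lit 52593834657) (nat_lit 304) (nat_lit 2613605060) (nat_lit 34) (nat_lit 5) (nat_lit 37) (nat_lit 5) (nat_lit 38) (nat_lit 5) (nat_lit 304) (nat_lit 294) (nat_lit 182)) (XT.lf (nat_lit 0) (nat_lit 5629121169) (nat_lit 304) (nat_lit 15620513436) (nat_lit 76) (nat_lit 68108505599) (nat_lit 33) (nat_lit 5) (nat_lit 37) (nat_lit 5) (nat_lit 34) (nat_lit 5) (nat_lit 305) (nat_lit 294) (nat_lit 181)))) (XT.nd (nat_lit 156) (nat_lit 228) (nat_lit 0) (XT.nd (nat_lit 78) (nat_lit 0) (nat_lit 0) (XT.lf (nat_lit 0) (nat_lit 15396913900) (nat_lit 304) (nat_lit 65463693987) (nat_lit 76) (nat_lit 12744250812) (nat_lit 30) (nat_lit 5) (nat_lit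 34) (nat_lit 5) (nat_lit 31) (nat_lit 5) (nat_lit 306) (nat_lit 294) (nat_lit 180)) (XT.lf (nat_lit 0) (nat_lit 26935335315) (nat_lit 304) (nat_lit 22429129791) (nat_lit 76) (nat_lit 48747716328) (nat_lit 30) (nat_lit 5) (nat_lit 34) (nat_lit 5) (nat_lit 31) (nat_lit 5) (nat_lit 307) (nat_lit 294) (nat_lit 179))) (XT.nd (nat_lit 78) (nat_lit 0) (nat_lit 0) (XT.lf (nat_lit 0) (nat_lit 25313482259) (nat_lit 228) (nat_lit 14691286996) (nat_lit 304) (nat_lit 62926688573) (nat_lit 27) (nat_lit 5) (nat_lit 30) (nat_lit 5) (nat_lit 31) (nat_lit 5) (nat_lit 308) (nat_lit 294) (nat_lit 178)) (XT.lf (nat_lit 0) (nat_lit 55295399539) (nat_lit 304) (nat_lit 30500391829) (nat_lit 76) (nat_lit 22246436363) (nat_lit 27) (nat_lit 5) (nat_lit 31) (nat_lit 5) (nat_lit 28) (nat_lit 5) (nat_lit 309) (nat_lit 294) (nat_lit 177)))))) (XT.nd (nat_lit 546) (nat_lit 456) (nat_lit 0) (XT.nd (nat_lit 234) (nat_lit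 228) (nat_lit 0) (XT.nd (nat_lit 78) (nat_lit 152) (nat_lit 0) (XT.lf (nat_lit 0) (nat_lit 21057422661) (nat_lit 152) (nat_lit 51639125994) (nat_lit 228) (nat_lit 40794331622) (nat_lit 25) (nat_lit 5) (nat_lit 27) (nat_lit 5) (nat_lit 28) (nat_lit 5) (nat_lit 310) (nat_lit 294) (nat_lit 176)) (XT.nd (nat_lit 78) (nat_lit 152) (nat_lit 0) (XT.lf (nat_lit 0) (nat_lit 78473509322) (nat_lit 152) (nat_lit 13849493545) (nat_lit 228) (nat_lit 26985767446) (nat_lit 25) (nat_lit 5) (nat_lit 27) (nat_lit 5) (nat_lit 28) (nat_lit 5) (nat_lit 311) (nat_lit 294) (nat_lit 175)) (XT.lf (nat_lit 0) (nat_lit 14991331559) (nat_lit 152) (nat_lit 99536579033) (nat_lit 228) (nat_lit 10983516150) (nat_lit 23) (nat_lit 5) (nat_lit 25) (nat_lit 5) (nat_lit 26) (nat_lit 5) (nat_lit 312) (nat_lit 294) (nat_lit 174)))) (XT.nd (nat_lit 156) (nat_lit 0) (nat_lit 0) (XT.nd (nat_lit 78) (nat_lit 152) (nat_lit 0)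 (XT.lf (nat_lit 0) (nat_lit 7488390437) (nat_lit 228) (nat_lit 55055734619) (nat_lit 76) (nat_lit 69533687566) (nat_lit 22) (nat_lit 5) (nat_lit 25) (nat_lit 5) (nat_lit 23) (nat_lit 5) (nat_lit 313) (nat_lit 294) (nat_lit 173)) (XT.lf (nat_lit 0) (nat_lit 4799727300) (nat_lit 152) (nat_lit 22159746497) (nat_lit 228) (nat_lit 112178028848) (nat_lit 20) (nat_lit 5) (nat_lit 22) (nat_lit 5) (nat_lit 23) (nat_lit 5) (nat_lit 314) (nat_lit 294) (nat_lit 172))) (XT.nd (nat_lit 78) (nat_lit 0) (nat_lit 0) (XT.lf (nat_lit 0) (nat_lit 50048071933) (nat_lit 228) (nat_lit 74622833234) (nat_lit 76) (nat_lit 21926278049) (nat_lit 20) (nat_lit 5) (nat_lit 23) (nat_lit 5) (nat_lit 21) (nat_lit 5) (nat_lit 315) (nat_lit 294) (nat_lit 171)) (XT.lf (nat_lit 0) (nat_lit 75558784858) (nat_lit 228) (nat_lit 10707092042) (nat_lit 76) (nat_lit 68341760650) (nat_lit 20) (nat_lit 5) (nat_lit 23) (nat_lit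 5) (nat_lit 21) (nat_lit 5) (nat_lit 316) (nat_lit 294) (nat_lit 170))))) (XT.nd (nat_lit 234) (nat_lit 228) (nat_lit 0) (XT.nd (nat_lit 78) (nat_lit 76) (nat_lit 0) (XT.lf (nat_lit 0) (nat_lit 61392239049) (nat_lit 152) (nat_lit 43194090507) (nat_lit 228) (nat_lit 58554522058) (nat_lit 18) (nat_lit 5) (nat_lit 20) (nat_lit 5) (nat_lit 21) (nat_lit 5) (nat_lit 317) (nat_lit 294) (nat_lit 169)) (XT.nd (nat_lit 78) (nat_lit 76) (nat_lit 0) (XT.lf (nat_lit 0) (nat_lit 136315865360) (nat_lit 228) (nat_lit 32553170134) (nat_lit 76) (nat_lit 3457305572) (nat_lit 18) (nat_lit 5) (nat_lit 21) (nat_lit 5) (nat_lit 19) (nat_lit 4) (nat_lit 318) (nat_lit 294) (nat_lit 168)) (XT.lf (nat_lit 0) (nat_lit 43217165020) (nat_lit 76) (nat_lit 129527437994) (nat_lit 152) (nat_lit 9329200711) (nat_lit 17) (nat_lit 5) (nat_lit 18) (nat_lit 5) (nat_lit 19) (nat_lit 4) (nat_lit 319) (nat_lit 294) (nat_lit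 167)))) (XT.nd (nat_lit 156) (nat_lit 0) (nat_lit 0) (XT.nd (nat_lit 78) (nat_lit 152) (nat_lit 0) (XT.lf (nat_lit 0) (nat_lit 19424504085) (nat_lit 152) (nat_lit 66121897659) (nat_lit 76) (nat_lit 106944152423) (nat_lit 16) (nat_lit 5) (nat_lit 18) (nat_lit 5) (nat_lit 17) (nat_lit 5) (nat_lit 320) (nat_lit 294) (nat_lit 166)) (XT.lf (nat_lit 0) (nat_lit 12830468621) (nat_lit 152) (nat_lit 37452169669) (nat_lit 228) (nat_lit 153413969756) (nat_lit 14) (nat_lit 5) (nat_lit 16) (nat_lit 5) (nat_lit 17) (nat_lit 5) (nat_lit 321) (nat_lit 294) (nat_lit 165))) (XT.nd (nat_lit 78) (nat_lit 0) (nat_lit 0) (XT.lf (nat_lit 0) (nat_lit 85812335182) (nat_lit 228) (nat_lit 114191192931) (nat_lit 76) (nat_lit 15619386027) (nat_lit 14) (nat_lit 5) (nat_lit 17) (nat_lit 5) (nat_lit 15) (nat_lit 4) (nat_lit 322) (nat_lit 294) (nat_lit 164)) (XT.lf (nat_lit 0) (nat_lit 125156810580) (nat_lit 228)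 (nat_lit 32355663574) (nat_lit 76) (nat_lit 70913059141) (nat_lit 14) (nat_lit 5) (nat_lit 17) (nat_lit 5) (nat_lit 15) (nat_lit 4) (nat_lit 323) (nat_lit 294) (nat_lit 163))))))))
noncomputable def xc101 : XT := (XT.nd (nat_lit 2184) (nat_lit 76) (nat_lit 0) (XT.nd (nat_lit 1092) (nat_lit 228) (nat_lit 0) (XT.nd (nat_lit 546) (nat_lit 228) (nat_lit 0) (XT.nd (nat_lit 234) (nat_lit 228) (nat_lit 0) (XT.nd (nat_lit 78) (nat_lit 0) (nat_lit 0) (XT.lf (nat_lit 0) (nat_lit 58976361993) (nat_lit 76) (nat_lit 110090512282) (nat_lit 152) (nat_lit 73072046025) (nat_lit 13) (nat_lit 5) (nat_lit 14) (nat_lit 5) (nat_lit 15) (nat_lit 4) (nat_lit 324) (nat_lit 294) (nat_lit 162)) (XT.nd (nat_lit 78) (nat_lit 0) (nat_lit 0) (XT.lf (nat_lit 0) (nat_lit 159454476994) (nat_lit 76) (nat_lit 57919587060) (nat_lit 152) (nat_lit 39504569215) (nat_lit 13) (nat_lit 5) (nat_lit 14) (nat_lit 5) (nat_lit 15)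 (nat_lit 4) (nat_lit 325) (nat_lit 294) (nat_lit 161)) (XT.lf (nat_lit 0) (nat_lit 267970315389) (nat_lit 76) (nat_lit 1575198632) (nat_lit 152) (nat_lit 3252035085) (nat_lit 13) (nat_lit 5) (nat_lit 14) (nat_lit 5) (nat_lit 15) (nat_lit 4) (nat_lit 326) (nat_lit 294) (nat_lit 160)))) (XT.nd (nat_lit 156) (nat_lit 76) (nat_lit 0) (XT.nd (nat_lit 78) (nat_lit 0) (nat_lit 0) (XT.lf (nat_lit 0) (nat_lit 38002233930) (nat_lit 152) (nat_lit 191960051311) (nat_lit 76) (nat_lit 59646826040) (nat_lit 11) (nat_lit 5) (nat_lit 13) (nat_lit 5) (nat_lit 12) (nat_lit 4) (nat_lit 327) (nat_lit 294) (nat_lit 159)) (XT.lf (nat_lit 0) (nat_lit 82557183447) (nat_lit 152) (nat_lit 99286373549) (nat_lit 76) (nat_lit 125901201792) (nat_lit 11) (nat_lit 5) (nat_lit 13) (nat_lit 5) (nat_lit 12) (nat_lit 4) (nat_lit 328) (nat_lit 294) (nat_lit 158))) (XT.nd (nat_lit 78) (nat_lit 0) (nat_lit 0) (XT.lf (nat_lit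 0) (nat_lit 842891753) (nat_lit 76) (nat_lit 129853636316) (nat_lit 152) (nat_lit 196633130559) (nat_lit 10) (nat_lit 5) (nat_lit 11) (nat_lit 5) (nat_lit 12) (nat_lit 4) (nat_lit 329) (nat_lit 294) (nat_lit 157)) (XT.lf (nat_lit 0) (nat_lit 114628542718) (nat_lit 76) (nat_lit 70772879651) (nat_lit 152) (nat_lit 162862776349) (nat_lit 10) (nat_lit 5) (nat_lit 11) (nat_lit 5) (nat_lit 12) (nat_lit 4) (nat_lit 330) (nat_lit 294) (nat_lit 156))))) (XT.nd (nat_lit 234) (nat_lit 152) (nat_lit 0) (XT.nd (nat_lit 78) (nat_lit 76) (nat_lit 0) (XT.lf (nat_lit 0) (nat_lit 237516620202) (nat_lit 76) (nat_lit 6965844216) (nat_lit 152) (nat_lit 126391057497) (nat_lit 10) (nat_lit 5) (nat_lit 11) (nat_lit 5) (nat_lit 12) (nat_lit 4) (nat_lit 331) (nat_lit 294) (nat_lit 155)) (XT.nd (nat_lit 78) (nat_lit 76) (nat_lit 0) (XT.lf (nat_lit 0) (nat_lit 309779556926) (nat_lit 152) (nat_lit 26546052373)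 (nat_lit 0) (nat_lit 58846816671) (nat_lit 10) (nat_lit 5) (nat_lit 12) (nat_lit 4) (nat_lit 10) (nat_lit 4) (nat_lit 332) (nat_lit 294) (nat_lit 154)) (XT.lf (nat_lit 0) (nat_lit 93295367883) (nat_lit 76) (nat_lit 289429523048) (nat_lit 76) (nat_lit 38496393832) (nat_lit 9) (nat_lit 4) (nat_lit 10) (nat_lit 5) (nat_lit 10) (nat_lit 4) (nat_lit 333) (nat_lit 294) (nat_lit 153)))) (XT.nd (nat_lit 156) (nat_lit 76) (nat_lit 0) (XT.nd (nat_lit 78) (nat_lit 0) (nat_lit 0) (XT.lf (nat_lit 0) (nat_lit 12288374145) (nat_lit 152) (nat_lit 225373671142) (nat_lit 76) (nat_lit 211609070622) (nat_lit 8) (nat_lit 5) (nat_lit 10) (nat_lit 5) (nat_lit 9) (nat_lit 4) (nat_lit 334) (nat_lit 294) (nat_lit 152)) (XT.lf (nat_lit 0) (nat_lit 65055922543) (nat_lit 152) (nat_lit 115617503947) (nat_lit 76) (nat_lit 298811530489) (nat_lit 8) (nat_lit 5) (nat_lit 10) (nat_lit 5) (nat_lit 9) (nat_lit 4) (nat_lit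 335) (nat_lit 294) (nat_lit 151))) (XT.nd (nat_lit 78) (nat_lit 0) (nat_lit 0) (XT.lf (nat_lit 0) (nat_lit 3072531277) (nat_lit 76) (nat_lit 119046056648) (nat_lit 152) (nat_lit 389991420612) (nat_lit 7) (nat_lit 5) (nat_lit 8) (nat_lit 5) (nat_lit 9) (nat_lit 4) (nat_lit 336) (nat_lit 294) (nat_lit 150)) (XT.lf (nat_lit 0) (nat_lit 137832721659) (nat_lit 76) (nat_lit 49074556785) (nat_lit 152) (nat_lit 360184905054) (nat_lit 7) (nat_lit 5) (nat_lit 8) (nat_lit 5) (nat_lit 9) (nat_lit 4) (nat_lit 337) (nat_lit 294) (nat_lit 149)))))) (XT.nd (nat_lit 546) (nat_lit 152) (nat_lit 0) (XT.nd (nat_lit 234) (nat_lit 76) (nat_lit 0) (XT.nd (nat_lit 78) (nat_lit 0) (nat_lit 0) (XT.lf (nat_lit 0) (nat_lit 257516095787) (nat_lit 152) (nat_lit 302136706560) (nat_lit 0) (nat_lit 25169167799) (nat_lit 7) (nat_lit 5) (nat_lit 9) (nat_lit 4) (nat_lit 7) (nat_lit 4) (nat_lit 338) (nat_lit 294) (nat_lit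 148)) (XT.nd (nat_lit 78) (nat_lit 0) (nat_lit 0) (XT.lf (nat_lit 0) (nat_lit 335048128902) (nat_lit 152) (nat_lit 187719076234) (nat_lit 0) (nat_lit 102700973958) (nat_lit 7) (nat_lit 5) (nat_lit 9) (nat_lit 4) (nat_lit 7) (nat_lit 4) (nat_lit 339) (nat_lit 294) (nat_lit 147)) (XT.lf (nat_lit 0) (nat_lit 418782582602) (nat_lit 152) (nat_lit 64148296190) (nat_lit 0) (nat_lit 186435217514) (nat_lit 7) (nat_lit 5) (nat_lit 9) (nat_lit 4) (nat_lit 7) (nat_lit 4) (nat_lit 340) (nat_lit 294) (nat_lit 146)))) (XT.nd (nat_lit 156) (nat_lit 0) (nat_lit 0) (XT.nd (nat_lit 78) (nat_lit 0) (nat_lit 0) (XT.lf (nat_lit 0) (nat_lit 72957536306) (nat_lit 76) (nat_lit 438012755255) (nat_lit 76) (nat_lit 205665195589) (nat_lit 6) (nat_lit 4) (nat_lit 7) (nat_lit 5) (nat_lit 7) (nat_lit 4) (nat_lit 341) (nat_lit 294) (nat_lit 145)) (XT.lf (nat_lit 0) (nat_lit 224679770563) (nat_lit 76) (nat_lit 387607047317)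 (nat_lit 76) (nat_lit 155259307487) (nat_lit 6) (nat_lit 4) (nat_lit 7) (nat_lit 5) (nat_lit 7) (nat_lit 4) (nat_lit 342) (nat_lit 294) (nat_lit 144))) (XT.nd (nat_lit 78) (nat_lit 0) (nat_lit 0) (XT.lf (nat_lit 0) (nat_lit 388539565705) (nat_lit 76) (nat_lit 333168982588) (nat_lit 76) (nat_lit 100821075938) (nat_lit 6) (nat_lit 4) (nat_lit 7) (nat_lit 5) (nat_lit 7) (nat_lit 4) (nat_lit 343) (nat_lit 294) (nat_lit 143)) (XT.lf (nat_lit 0) (nat_lit 565507942739) (nat_lit 76) (nat_lit 274375965126) (nat_lit 76) (nat_lit 42027904015) (nat_lit 6) (nat_lit 4) (nat_lit 7) (nat_lit 5) (nat_lit 7) (nat_lit 4) (nat_lit 344) (nat_lit 294) (nat_lit 142))))) (XT.nd (nat_lit 234) (nat_lit 0) (nat_lit 0) (XT.nd (nat_lit 78) (nat_lit 76) (nat_lit 0) (XT.lf (nat_lit 0) (nat_lit 20394665330) (nat_lit 152) (nat_lit 189927300244) (nat_lit 76) (nat_lit 735681311536) (nat_lit 5) (nat_lit 5) (nat_lit 7)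 (nat_lit 5) (nat_lit 6) (nat_lit 4) (nat_lit 345) (nat_lit 294) (nat_lit 141)) (XT.nd (nat_lit 78) (nat_lit 76) (nat_lit 0) (XT.lf (nat_lit 0) (nat_lit 85540345546) (nat_lit 152) (nat_lit 54424417820) (nat_lit 76) (nat_lit 875169973287) (nat_lit 5) (nat_lit 5) (nat_lit 7) (nat_lit 5) (nat_lit 6) (nat_lit 4) (nat_lit 346) (nat_lit 294) (nat_lit 140)) (XT.lf (nat_lit 0) (nat_lit 96758797184) (nat_lit 76) (nat_lit 61465845296) (nat_lit 152) (nat_lit 931385913597) (nat_lit 4) (nat_lit 5) (nat_lit 5) (nat_lit 5) (nat_lit 6) (nat_lit 4) (nat_lit 347) (nat_lit 294) (nat_lit 139)))) (XT.nd (nat_lit 156) (nat_lit 0) (nat_lit 0) (XT.nd (nat_lit 78) (nat_lit 0) (nat_lit 0) (XT.lf (nat_lit 0) (nat_lit 238810983836) (nat_lit 152) (nat_lit 907393056745) (nat_lit 0) (nat_lit 23673416512) (nat_lit 4) (nat_lit 5) (nat_lit 6) (nat_lit 4) (nat_lit 4) (nat_lit 4) (nat_lit 348) (nat_lit 294) (nat_lit 138))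 (XT.lf (nat_lit 0) (nat_lit 327440666338) (nat_lit 152) (nat_lit 816694327553) (nat_lit 0) (nat_lit 112303001677) (nat_lit 4) (nat_lit 5) (nat_lit 6) (nat_lit 4) (nat_lit 4) (nat_lit 4) (nat_lit 349) (nat_lit 294) (nat_lit 137))) (XT.nd (nat_lit 78) (nat_lit 0) (nat_lit 0) (XT.lf (nat_lit 0) (nat_lit 423160647862) (nat_lit 152) (nat_lit 718739842310) (nat_lit 0) (nat_lit 208022893075) (nat_lit 4) (nat_lit 5) (nat_lit 6) (nat_lit 4) (nat_lit 4) (nat_lit 4) (nat_lit 350) (nat_lit 294) (nat_lit 136)) (XT.lf (nat_lit 0) (nat_lit 526538157930) (nat_lit 152) (nat_lit 612949129991) (nat_lit 0) (nat_lit 311400319691) (nat_lit 4) (nat_lit 5) (nat_lit 6) (nat_lit 4) (nat_lit 4) (nat_lit 4) (nat_lit 351) (nat_lit 294) (nat_lit 135))))))) (XT.nd (nat_lit 36660) (nat_lit 0) (nat_lit 1292) (XT.nd (nat_lit 546) (nat_lit 0) (nat_lit 0) (XT.nd (nat_lit 234) (nat_lit 76) (nat_lit 0) (XT.nd (nat_lit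 78) (nat_lit 0) (nat_lit 0) (XT.lf (nat_lit 0) (nat_lit 638185804007) (nat_lit 152) (nat_lit 498695282672) (nat_lit 0) (nat_lit 423047888498) (nat_lit 4) (nat_lit 5) (nat_lit 6) (nat_lit 4) (nat_lit 4) (nat_lit 4) (nat_lit 352) (nat_lit 294) (nat_lit 134)) (XT.nd (nat_lit 78) (nat_lit 0) (nat_lit 0) (XT.lf (nat_lit 0) (nat_lit 758765201774) (nat_lit 152) (nat_lit 375301240517) (nat_lit 0) (nat_lit 543627214720) (nat_lit 4) (nat_lit 5) (nat_lit 6) (nat_lit 4) (nat_lit 4) (nat_lit 4) (nat_lit 353) (nat_lit 294) (nat_lit 133)) (XT.lf (nat_lit 0) (nat_lit 888990895810) (nat_lit 152) (nat_lit 242035779572) (nat_lit 0) (nat_lit 673852842510) (nat_lit 4) (nat_lit 5) (nat_lit 6) (nat_lit 4) (nat_lit 4) (nat_lit 4) (nat_lit 354) (nat_lit 294) (nat_lit 132)))) (XT.nd (nat_lit 156) (nat_lit 0) (nat_lit 0) (XT.nd (nat_lit 78) (nat_lit 76) (nat_lit 0) (XT.lf (nat_lit 0) (nat_lit 1029634593933)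 (nat_lit 152) (nat_lit 98109178588) (nat_lit 0) (nat_lit 814496479293) (nat_lit 4) (nat_lit 5) (nat_lit 6) (nat_lit 4) (nat_lit 4) (nat_lit 4) (nat_lit 355) (nat_lit 294) (nat_lit 131)) (XT.lf (nat_lit 0) (nat_lit 60350433938) (nat_lit 76) (nat_lit 1122630735727) (nat_lit 76) (nat_lit 907492564293) (nat_lit 3) (nat_lit 4) (nat_lit 4) (nat_lit 5) (nat_lit 4) (nat_lit 4) (nat_lit 356) (nat_lit 294) (nat_lit 130))) (XT.nd (nat_lit 78) (nat_lit 0) (nat_lit 0) (XT.lf (nat_lit 0) (nat_lit 237066283993) (nat_lit 76) (nat_lit 1114211620071) (nat_lit 76) (nat_lit 899073396048) (nat_lit 3) (nat_lit 4) (nat_lit 4) (nat_lit 5) (nat_lit 4) (nat_lit 4) (nat_lit 357) (nat_lit 294) (nat_lit 129)) (XT.lf (nat_lit 0) (nat_lit 427919321132) (nat_lit 76) (nat_lit 1105119013303) (nat_lit 76) (nat_lit 889980740587) (nat_lit 3) (nat_lit 4) (nat_lit 4) (nat_lit 5) (nat_lit 4) (nat_lit 4) (nat_lit 358) (nat_lit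 294) (nat_lit 128))))) (XT.nd (nat_lit 35802) (nat_lit 0) (nat_lit 2888) (XT.nd (nat_lit 35646) (nat_lit 0) (nat_lit 2812) (XT.lf (nat_lit 0) (nat_lit 634040526318) (nat_lit 76) (nat_lit 1095299033309) (nat_lit 76) (nat_lit 880160715507) (nat_lit 3) (nat_lit 4) (nat_lit 4) (nat_lit 5) (nat_lit 4) (nat_lit 4) (nat_lit 359) (nat_lit 294) (nat_lit 127)) (XT.nd (nat_lit 78) (nat_lit 0) (nat_lit 0) (XT.lf (nat_lit 0) (nat_lit 14550256048) (nat_lit 532) (nat_lit 7863844205) (nat_lit 532) (nat_lit 7863844205) (nat_lit 40) (nat_lit 3) (nat_lit 47) (nat_lit 3) (nat_lit 47) (nat_lit 5) (nat_lit 295) (nat_lit 295) (nat_lit 190)) (XT.lf (nat_lit 76) (nat_lit 11526823115) (nat_lit 0) (nat_lit 19031022016) (nat_lit 532) (nat_lit 32396745699) (nat_lit 41) (nat_lit 5) (nat_lit 40) (nat_lit 3) (nat_lit 47) (nat_lit 5) (nat_lit 296) (nat_lit 295) (nat_lit 189)))) (XT.nd (nat_lit 156) (nat_lit 0) (nat_lit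 0) (XT.nd (nat_lit 78) (nat_lit 0) (nat_lit 0) (XT.lf (nat_lit 0) (nat_lit 32783702222) (nat_lit 456) (nat_lit 23879246779) (nat_lit 532) (nat_lit 8830091769) (nat_lit 41) (nat_lit 5) (nat_lit 47) (nat_lit 5) (nat_lit 48) (nat_lit 5) (nat_lit 297) (nat_lit 295) (nat_lit 188)) (XT.lf (nat_lit 76) (nat_lit 5661037736) (nat_lit 0) (nat_lit 30155555187) (nat_lit 532) (nat_lit 32367662937) (nat_lit 42) (nat_lit 5) (nat_lit 41) (nat_lit 5) (nat_lit 48) (nat_lit 5) (nat_lit 298) (nat_lit 295) (nat_lit 187))) (XT.nd (nat_lit 78) (nat_lit 0) (nat_lit 76) (XT.lf (nat_lit 76) (nat_lit 38921610227) (nat_lit 0) (nat_lit 821997735) (nat_lit 532) (nat_lit 31295046637) (nat_lit 42) (nat_lit 5) (nat_lit 41) (nat_lit 5) (nat_lit 48) (nat_lit 5) (nat_lit 299) (nat_lit 295) (nat_lit 186)) (XT.lf (nat_lit 0) (nat_lit 44725631944) (nat_lit 456) (nat_lit 21534706) (nat_lit 532) (nat_lit 29314976220) (nat_lit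 42) (nat_lit 5) (nat_lit 48) (nat_lit 5) (nat_lit 49) (nat_lit 5) (nat_lit 300) (nat_lit 295) (nat_lit 185)))))) (XT.nd (nat_lit 546) (nat_lit 760) (nat_lit 0) (XT.nd (nat_lit 234) (nat_lit 532) (nat_lit 0) (XT.nd (nat_lit 78) (nat_lit 380) (nat_lit 0) (XT.lf (nat_lit 76) (nat_lit 36442316219) (nat_lit 0) (nat_lit 14560492852) (nat_lit 532) (nat_lit 26252978880) (nat_lit 43) (nat_lit 5) (nat_lit 42) (nat_lit 5) (nat_lit 49) (nat_lit 5) (nat_lit 301) (nat_lit 295) (nat_lit 184)) (XT.nd (nat_lit 78) (nat_lit 456) (nat_lit 0) (XT.lf (nat_lit 0) (nat_lit 58215527580) (nat_lit 456) (nat_lit 5315299826) (nat_lit 76) (nat_lit 17139432529) (nat_lit 43) (nat_lit 5) (nat_lit 49) (nat_lit 5) (nat_lit 44) (nat_lit 5) (nat_lit 302) (nat_lit 295) (nat_lit 183)) (XT.lf (nat_lit 0) (nat_lit 34362542472) (nat_lit 456) (nat_lit 32846292981) (nat_lit 532) (nat_lit 17052772801) (nat_lit 37) (nat_lit 5)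 (nat_lit 43) (nat_lit 5) (nat_lit 44) (nat_lit 5) (nat_lit 303) (nat_lit 295) (nat_lit 182)))) (XT.nd (nat_lit 156) (nat_lit 304) (nat_lit 0) (XT.nd (nat_lit 78) (nat_lit 228) (nat_lit 0) (XT.lf (nat_lit 0) (nat_lit 77076773334) (nat_lit 532) (nat_lit 10623564757) (nat_lit 76) (nat_lit 427517126) (nat_lit 37) (nat_lit 5) (nat_lit 44) (nat_lit 5) (nat_lit 38) (nat_lit 5) (nat_lit 304) (nat_lit 295) (nat_lit 181)) (XT.lf (nat_lit 0) (nat_lit 32569137234) (nat_lit 228) (nat_lit 56800535144) (nat_lit 304) (nat_lit 2802891177) (nat_lit 34) (nat_lit 5) (nat_lit 37) (nat_lit 5) (nat_lit 38) (nat_lit 5) (nat_lit 305) (nat_lit 295) (nat_lit 180))) (XT.nd (nat_lit 78) (nat_lit 228) (nat_lit 0) (XT.lf (nat_lit 0) (nat_lit 6096869100) (nat_lit 304) (nat_lit 16851513468) (nat_lit 76) (nat_lit 73556953336) (nat_lit 33) (nat_lit 5) (nat_lit 37) (nat_lit 5) (nat_lit 34) (nat_lit 5) (nat_lit 306) (nat_lit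 295) (nat_lit 179)) (XT.lf (nat_lit 0) (nat_lit 16645270557) (nat_lit 304) (nat_lit 70681276310) (nat_lit 76) (nat_lit 13765314784) (nat_lit 30) (nat_lit 5) (nat_lit 34) (nat_lit 5) (nat_lit 31) (nat_lit 5) (nat_lit 307) (nat_lit 295) (nat_lit 178))))) (XT.nd (nat_lit 312) (nat_lit 380) (nat_lit 0) (XT.nd (nat_lit 156) (nat_lit 152) (nat_lit 0) (XT.nd (nat_lit 78) (nat_lit 228) (nat_lit 0) (XT.lf (nat_lit 0) (nat_lit 29105535793) (nat_lit 304) (nat_lit 24205392400) (nat_lit 76) (nat_lit 52648944659) (nat_lit 30) (nat_lit 5) (nat_lit 34) (nat_lit 5) (nat_lit 31) (nat_lit 5) (nat_lit 308) (nat_lit 295) (nat_lit 177)) (XT.lf (nat_lit 0) (nat_lit 27356171202) (nat_lit 228) (nat_lit 15863637987) (nat_lit 304) (nat_lit 67944943330) (nat_lit 27) (nat_lit 5) (nat_lit 30) (nat_lit 5) (nat_lit 31) (nat_lit 5) (nat_lit 309) (nat_lit 295) (nat_lit 176))) (XT.nd (nat_lit 78) (nat_lit 152) (nat_lit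 0) (XT.lf (nat_lit 0) (nat_lit 59732669825) (nat_lit 304) (nat_lit 32923051598) (nat_lit 76) (nat_lit 24028747846) (nat_lit 27) (nat_lit 5) (nat_lit 31) (nat_lit 5) (nat_lit 28) (nat_lit 5) (nat_lit 310) (nat_lit 295) (nat_lit 175)) (XT.lf (nat_lit 0) (nat_lit 22758948264) (nat_lit 152) (nat_lit 55766359570) (nat_lit 228) (nat_lit 44043757807) (nat_lit 25) (nat_lit 5) (nat_lit 27) (nat_lit 5) (nat_lit 28) (nat_lit 5) (nat_lit 311) (nat_lit 295) (nat_lit 174)))) (XT.nd (nat_lit 156) (nat_lit 228) (nat_lit 0) (XT.nd (nat_lit 78) (nat_lit 152) (nat_lit 0) (XT.lf (nat_lit 0) (nat_lit 84767067651) (nat_lit 152) (nat_lit 14953845155) (nat_lit 228) (nat_lit 29131554448) (nat_lit 25) (nat_lit 5) (nat_lit 27) (nat_lit 5) (nat_lit 28) (nat_lit 5) (nat_lit 312) (nat_lit 295) (nat_lit 173)) (XT.lf (nat_lit 0) (nat_lit 16206813442) (nat_lit 152) (nat_lit 107494975014) (nat_lit 228) (nat_lit 11849584614)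 (nat_lit 23) (nat_lit 5) (nat_lit 25) (nat_lit 5) (nat_lit 26) (nat_lit 5) (nat_lit 313) (nat_lit 295) (nat_lit 172))) (XT.nd (nat_lit 78) (nat_lit 152) (nat_lit 0) (XT.lf (nat_lit 0) (nat_lit 8098556009) (nat_lit 228) (nat_lit 59444600952) (nat_lit 76) (nat_lit 75099962079) (nat_lit 22) (nat_lit 5) (nat_lit 25) (nat_lit 5) (nat_lit 23) (nat_lit 5) (nat_lit 314) (nat_lit 295) (nat_lit 171)) (XT.lf (nat_lit 0) (nat_lit 5198903175) (nat_lit 152) (nat_lit 23927966565) (nat_lit 228) (nat_lit 121140753329) (nat_lit 20) (nat_lit 5) (nat_lit 22) (nat_lit 5) (nat_lit 23) (nat_lit 5) (nat_lit 315) (nat_lit 295) (nat_lit 170))))))))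
noncomputable def xc102 : XT := (XT.nd (nat_lit 2184) (nat_lit 228) (nat_lit 0) (XT.nd (nat_lit 1092) (nat_lit 380) (nat_lit 0) (XT.nd (nat_lit 546) (nat_lit 228) (nat_lit 0) (XT.nd (nat_lit 234) (nat_lit 304) (nat_lit 0) (XT.nd (nat_lit 78) (nat_lit 152) (nat_lit 0) (XT.lf (nat_lit 0) (nat_lit 54061869261) (nat_lit 228) (nat_lit 80577874874) (nat_lit 76) (nat_lit 23684390996) (nat_lit 20) (nat_lit 5) (nat_lit 23) (nat_lit 5) (nat_lit 21) (nat_lit 5) (nat_lit 316) (nat_lit 295) (nat_lit 169)) (XT.nd (nat_lit 78) (nat_lit 152) (nat_lit 0) (XT.lf (nat_lit 0) (nat_lit 81612702066) (nat_lit 228) (nat_lit 11549969574) (nat_lit 76) (nat_lit 73812815116) (nat_lit 20) (nat_lit 5) (nat_lit 23) (nat_lit 5) (nat_lit 21) (nat_lit 5) (nat_lit 317) (nat_lit 295) (nat_lit 168)) (XT.lf (nat_lit 0) (nat_lit 66316961427) (nat_lit 152) (nat_lit 46645127270) (nat_lit 228) (nat_lit 63229300007) (nat_lit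 18) (nat_lit 5) (nat_lit 20) (nat_lit 5) (nat_lit 21) (nat_lit 5) (nat_lit 318) (nat_lit 295) (nat_lit 167)))) (XT.nd (nat_lit 156) (nat_lit 228) (nat_lit 0) (XT.nd (nat_lit 78) (nat_lit 76) (nat_lit 0) (XT.lf (nat_lit 0) (nat_lit 147229431600) (nat_lit 228) (nat_lit 35144491988) (nat_lit 76) (nat_lit 3737839875) (nat_lit 18) (nat_lit 5) (nat_lit 21) (nat_lit 5) (nat_lit 19) (nat_lit 4) (nat_lit 319) (nat_lit 295) (nat_lit 166)) (XT.lf (nat_lit 0) (nat_lit 46687142592) (nat_lit 76) (nat_lit 139885014215) (nat_lit 152) (nat_lit 10066892808) (nat_lit 17) (nat_lit 5) (nat_lit 18) (nat_lit 5) (nat_lit 19) (nat_lit 4) (nat_lit 320) (nat_lit 295) (nat_lit 165))) (XT.nd (nat_lit 78) (nat_lit 152) (nat_lit 0) (XT.lf (nat_lit 0) (nat_lit 20986067702) (nat_lit 152) (nat_lit 71399561610) (nat_lit 76) (nat_lit 115503544153) (nat_lit 16) (nat_lit 5) (nat_lit 18) (nat_lit 5) (nat_lit 17) (nat_lit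 5) (nat_lit 321) (nat_lit 295) (nat_lit 164)) (XT.lf (nat_lit 0) (nat_lit 13868687951) (nat_lit 152) (nat_lit 40443884840) (nat_lit 228) (nat_lit 165679162494) (nat_lit 14) (nat_lit 5) (nat_lit 16) (nat_lit 5) (nat_lit 17) (nat_lit 5) (nat_lit 322) (nat_lit 295) (nat_lit 163))))) (XT.nd (nat_lit 234) (nat_lit 152) (nat_lit 0) (XT.nd (nat_lit 78) (nat_lit 76) (nat_lit 0) (XT.lf (nat_lit 0) (nat_lit 92684202239) (nat_lit 228) (nat_lit 123315121680) (nat_lit 76) (nat_lit 16872858552) (nat_lit 14) (nat_lit 5) (nat_lit 17) (nat_lit 5) (nat_lit 15) (nat_lit 4) (nat_lit 323) (nat_lit 295) (nat_lit 162)) (XT.nd (nat_lit 78) (nat_lit 76) (nat_lit 0) (XT.lf (nat_lit 0) (nat_lit 135175726022) (nat_lit 228) (nat_lit 34933591951) (nat_lit 76) (nat_lit 76589735024) (nat_lit 14) (nat_lit 5) (nat_lit 17) (nat_lit 5) (nat_lit 15) (nat_lit 4) (nat_lit 324) (nat_lit 295) (nat_lit 161)) (XT.lf (nat_lit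 0) (nat_lit 63704729213) (nat_lit 76) (nat_lit 118893640415) (nat_lit 152) (nat_lit 78911160336) (nat_lit 13) (nat_lit 5) (nat_lit 14) (nat_lit 5) (nat_lit 15) (nat_lit 4) (nat_lit 325) (nat_lit 295) (nat_lit 160)))) (XT.nd (nat_lit 156) (nat_lit 152) (nat_lit 0) (XT.nd (nat_lit 78) (nat_lit 0) (nat_lit 0) (XT.lf (nat_lit 0) (nat_lit 172220333543) (nat_lit 76) (nat_lit 62549345831) (nat_lit 152) (nat_lit 42658777927) (nat_lit 13) (nat_lit 5) (nat_lit 14) (nat_lit 5) (nat_lit 15) (nat_lit 4) (nat_lit 326) (nat_lit 295) (nat_lit 159)) (XT.lf (nat_lit 0) (nat_lit 289416735426) (nat_lit 76) (nat_lit 1697688417) (nat_lit 152) (nat_lit 3506497127) (nat_lit 13) (nat_lit 5) (nat_lit 14) (nat_lit 5) (nat_lit 15) (nat_lit 4) (nat_lit 327) (nat_lit 295) (nat_lit 158))) (XT.nd (nat_lit 78) (nat_lit 0) (nat_lit 0) (XT.lf (nat_lit 0) (nat_lit 41047727506) (nat_lit 152) (nat_lit 207307655860) (nat_lit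 76) (nat_lit 64422022566) (nat_lit 11) (nat_lit 5) (nat_lit 13) (nat_lit 5) (nat_lit 12) (nat_lit 4) (nat_lit 328) (nat_lit 295) (nat_lit 157)) (XT.lf (nat_lit 0) (nat_lit 89166679291) (nat_lit 152) (nat_lit 107220765326) (nat_lit 76) (nat_lit 135976492790) (nat_lit 11) (nat_lit 5) (nat_lit 13) (nat_lit 5) (nat_lit 12) (nat_lit 4) (nat_lit 329) (nat_lit 295) (nat_lit 156)))))) (XT.nd (nat_lit 546) (nat_lit 152) (nat_lit 0) (XT.nd (nat_lit 234) (nat_lit 152) (nat_lit 0) (XT.nd (nat_lit 78) (nat_lit 0) (nat_lit 0) (XT.lf (nat_lit 0) (nat_lit 918625552) (nat_lit 76) (nat_lit 140238381074) (nat_lit 152) (nat_lit 212358636418) (nat_lit 10) (nat_lit 5) (nat_lit 11) (nat_lit 5) (nat_lit 12) (nat_lit 4) (nat_lit 330) (nat_lit 295) (nat_lit 155)) (XT.nd (nat_lit 78) (nat_lit 0) (nat_lit 0) (XT.lf (nat_lit 0) (nat_lit 123806513597) (nat_lit 76) (nat_lit 76431426554) (nat_lit 152) (nat_lit 175887034951)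 (nat_lit 10) (nat_lit 5) (nat_lit 11) (nat_lit 5) (nat_lit 12) (nat_lit 4) (nat_lit 331) (nat_lit 295) (nat_lit 154)) (XT.lf (nat_lit 0) (nat_lit 256525067839) (nat_lit 76) (nat_lit 7520071504) (nat_lit 152) (nat_lit 136497931443) (nat_lit 10) (nat_lit 5) (nat_lit 11) (nat_lit 5) (nat_lit 12) (nat_lit 4) (nat_lit 332) (nat_lit 295) (nat_lit 153)))) (XT.nd (nat_lit 156) (nat_lit 76) (nat_lit 0) (XT.nd (nat_lit 78) (nat_lit 76) (nat_lit 0) (XT.lf (nat_lit 0) (nat_lit 334565764896) (nat_lit 152) (nat_lit 28662905281) (nat_lit 0) (nat_lit 63557236231) (nat_lit 10) (nat_lit 5) (nat_lit 12) (nat_lit 4) (nat_lit 10) (nat_lit 4) (nat_lit 333) (nat_lit 295) (nat_lit 152)) (XT.lf (nat_lit 0) (nat_lit 100765655652) (nat_lit 76) (nat_lit 312580945406) (nat_lit 76) (nat_lit 41572083268) (nat_lit 9) (nat_lit 4) (nat_lit 10) (nat_lit 5) (nat_lit 10) (nat_lit 4) (nat_lit 334) (nat_lit 295) (nat_lit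 151))) (XT.nd (nat_lit 78) (nat_lit 0) (nat_lit 0) (XT.lf (nat_lit 0) (nat_lit 13274981919) (nat_lit 152) (nat_lit 243397208514) (nat_lit 76) (nat_lit 228540326826) (nat_lit 8) (nat_lit 5) (nat_lit 10) (nat_lit 5) (nat_lit 9) (nat_lit 4) (nat_lit 335) (nat_lit 295) (nat_lit 150)) (XT.lf (nat_lit 0) (nat_lit 70263672127) (nat_lit 152) (nat_lit 124861018781) (nat_lit 76) (nat_lit 322718796035) (nat_lit 8) (nat_lit 5) (nat_lit 10) (nat_lit 5) (nat_lit 9) (nat_lit 4) (nat_lit 336) (nat_lit 295) (nat_lit 149))))) (XT.nd (nat_lit 234) (nat_lit 76) (nat_lit 0) (XT.nd (nat_lit 78) (nat_lit 0) (nat_lit 0) (XT.lf (nat_lit 0) (nat_lit 3324070261) (nat_lit 76) (nat_lit 128567175790) (nat_lit 152) (nat_lit 421187305284) (nat_lit 7) (nat_lit 5) (nat_lit 8) (nat_lit 5) (nat_lit 9) (nat_lit 4) (nat_lit 337) (nat_lit 295) (nat_lit 148)) (XT.nd (nat_lit 78) (nat_lit 0) (nat_lit 0) (XT.lf (nat_lit 0)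 (nat_lit 148864650949) (nat_lit 76) (nat_lit 52998145967) (nat_lit 152) (nat_lit 388996522480) (nat_lit 7) (nat_lit 5) (nat_lit 8) (nat_lit 5) (nat_lit 9) (nat_lit 4) (nat_lit 338) (nat_lit 295) (nat_lit 147)) (XT.lf (nat_lit 0) (nat_lit 278120155047) (nat_lit 152) (nat_lit 326302556778) (nat_lit 0) (nat_lit 27184790608) (nat_lit 7) (nat_lit 5) (nat_lit 9) (nat_lit 4) (nat_lit 7) (nat_lit 4) (nat_lit 339) (nat_lit 295) (nat_lit 146)))) (XT.nd (nat_lit 156) (nat_lit 76) (nat_lit 0) (XT.nd (nat_lit 78) (nat_lit 0) (nat_lit 0) (XT.lf (nat_lit 0) (nat_lit 361854545507) (nat_lit 152) (nat_lit 202731892789) (nat_lit 0) (nat_lit 110918986490) (nat_lit 7) (nat_lit 5) (nat_lit 9) (nat_lit 4) (nat_lit 7) (nat_lit 4) (nat_lit 340) (nat_lit 295) (nat_lit 145)) (XT.lf (nat_lit 0) (nat_lit 452287565407) (nat_lit 152) (nat_lit 69275799197) (nat_lit 0) (nat_lit 201351826226) (nat_lit 7) (nat_lit 5)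 (nat_lit 9) (nat_lit 4) (nat_lit 7) (nat_lit 4) (nat_lit 341) (nat_lit 295) (nat_lit 144))) (XT.nd (nat_lit 78) (nat_lit 0) (nat_lit 0) (XT.lf (nat_lit 0) (nat_lit 78798389502) (nat_lit 76) (nat_lit 473051827786) (nat_lit 76) (nat_lit 222115921786) (nat_lit 6) (nat_lit 4) (nat_lit 7) (nat_lit 5) (nat_lit 7) (nat_lit 4) (nat_lit 342) (nat_lit 295) (nat_lit 143)) (XT.lf (nat_lit 0) (nat_lit 242658087664) (nat_lit 76) (nat_lit 418613807502) (nat_lit 76) (nat_lit 167677747039) (nat_lit 6) (nat_lit 4) (nat_lit 7) (nat_lit 5) (nat_lit 7) (nat_lit 4) (nat_lit 343) (nat_lit 295) (nat_lit 142))))))) (XT.nd (nat_lit 1092) (nat_lit 0) (nat_lit 0) (XT.nd (nat_lit 546) (nat_lit 76) (nat_lit 0) (XT.nd (nat_lit 234) (nat_lit 76) (nat_lit 0) (XT.nd (nat_lit 78) (nat_lit 76) (nat_lit 0) (XT.lf (nat_lit 0) (nat_lit 419626374901) (nat_lit 76) (nat_lit 359820831193) (nat_lit 76) (nat_lit 108884627711)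 (nat_lit 6) (nat_lit 4) (nat_lit 7) (nat_lit 5) (nat_lit 7) (nat_lit 4) (nat_lit 344) (nat_lit 295) (nat_lit 141)) (XT.nd (nat_lit 78) (nat_lit 76) (nat_lit 0) (XT.lf (nat_lit 0) (nat_lit 610751952176) (nat_lit 76) (nat_lit 296324496039) (nat_lit 76) (nat_lit 45388160130) (nat_lit 6) (nat_lit 4) (nat_lit 7) (nat_lit 5) (nat_lit 7) (nat_lit 4) (nat_lit 345) (nat_lit 295) (nat_lit 140)) (XT.lf (nat_lit 0) (nat_lit 22027976842) (nat_lit 152) (nat_lit 205118266693) (nat_lit 76) (nat_lit 794537154736) (nat_lit 5) (nat_lit 5) (nat_lit 7) (nat_lit 5) (nat_lit 6) (nat_lit 4) (nat_lit 346) (nat_lit 295) (nat_lit 139)))) (XT.nd (nat_lit 156) (nat_lit 0) (nat_lit 0) (XT.nd (nat_lit 78) (nat_lit 76) (nat_lit 0) (XT.lf (nat_lit 0) (nat_lit 92385182714) (nat_lit 152) (nat_lit 58775392014) (nat_lit 76) (nat_lit 945184810296) (nat_lit 5) (nat_lit 5) (nat_lit 7) (nat_lit 5) (nat_lit 6) (nat_lit 4)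 (nat_lit 347) (nat_lit 295) (nat_lit 138)) (XT.lf (nat_lit 0) (nat_lit 104502404767) (nat_lit 76) (nat_lit 66381769247) (nat_lit 152) (nat_lit 1005895100071) (nat_lit 4) (nat_lit 5) (nat_lit 5) (nat_lit 5) (nat_lit 6) (nat_lit 4) (nat_lit 348) (nat_lit 295) (nat_lit 137))) (XT.nd (nat_lit 78) (nat_lit 0) (nat_lit 0) (XT.lf (nat_lit 0) (nat_lit 257917337035) (nat_lit 152) (nat_lit 979981725386) (nat_lit 0) (nat_lit 25568471737) (nat_lit 4) (nat_lit 5) (nat_lit 6) (nat_lit 4) (nat_lit 4) (nat_lit 4) (nat_lit 349) (nat_lit 295) (nat_lit 136)) (XT.lf (nat_lit 0) (nat_lit 353637284916) (nat_lit 152) (nat_lit 882027303481) (nat_lit 0) (nat_lit 121288336166) (nat_lit 4) (nat_lit 5) (nat_lit 6) (nat_lit 4) (nat_lit 4) (nat_lit 4) (nat_lit 350) (nat_lit 295) (nat_lit 135))))) (XT.nd (nat_lit 234) (nat_lit 76) (nat_lit 0) (XT.nd (nat_lit 78) (nat_lit 0) (nat_lit 0) (XT.lf (nat_lit 0) (nat_lit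 457014763831) (nat_lit 152) (nat_lit 776236649809) (nat_lit 0) (nat_lit 224665737812) (nat_lit 4) (nat_lit 5) (nat_lit 6) (nat_lit 4) (nat_lit 4) (nat_lit 4) (nat_lit 351) (nat_lit 295) (nat_lit 134)) (XT.nd (nat_lit 78) (nat_lit 0) (nat_lit 0) (XT.lf (nat_lit 0) (nat_lit 568662381064) (nat_lit 152) (nat_lit 661982856793) (nat_lit 0) (nat_lit 336313283499) (nat_lit 4) (nat_lit 5) (nat_lit 6) (nat_lit 4) (nat_lit 4) (nat_lit 4) (nat_lit 352) (nat_lit 295) (nat_lit 133)) (XT.lf (nat_lit 0) (nat_lit 689241752123) (nat_lit 152) (nat_lit 538588864918) (nat_lit 0) (nat_lit 456892588313) (nat_lit 4) (nat_lit 5) (nat_lit 6) (nat_lit 4) (nat_lit 4) (nat_lit 4) (nat_lit 353) (nat_lit 295) (nat_lit 132)))) (XT.nd (nat_lit 156) (nat_lit 76) (nat_lit 0) (XT.nd (nat_lit 78) (nat_lit 0) (nat_lit 0) (XT.lf (nat_lit 0) (nat_lit 819467421430) (nat_lit 152) (nat_lit 405323450528) (nat_lit 0) (nat_lit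 587118196281) (nat_lit 4) (nat_lit 5) (nat_lit 6) (nat_lit 4) (nat_lit 4) (nat_lit 4) (nat_lit 354) (nat_lit 295) (nat_lit 131)) (XT.lf (nat_lit 0) (nat_lit 960111096655) (nat_lit 152) (nat_lit 261396892651) (nat_lit 0) (nat_lit 727761814710) (nat_lit 4) (nat_lit 5) (nat_lit 6) (nat_lit 4) (nat_lit 4) (nat_lit 4) (nat_lit 355) (nat_lit 295) (nat_lit 130))) (XT.nd (nat_lit 78) (nat_lit 76) (nat_lit 0) (XT.lf (nat_lit 0) (nat_lit 1112006221799) (nat_lit 152) (nat_lit 105956293165) (nat_lit 0) (nat_lit 879656887266) (nat_lit 4) (nat_lit 5) (nat_lit 6) (nat_lit 4) (nat_lit 4) (nat_lit 4) (nat_lit 356) (nat_lit 295) (nat_lit 129)) (XT.lf (nat_lit 0) (nat_lit 65180047358) (nat_lit 76) (nat_lit 1212440450471) (nat_lit 76) (nat_lit 980091067245) (nat_lit 3) (nat_lit 4) (nat_lit 4) (nat_lit 5) (nat_lit 4) (nat_lit 4) (nat_lit 357) (nat_lit 295) (nat_lit 128)))))) (XT.nd (nat_lit 36270) (nat_lit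 0) (nat_lit 2052) (XT.nd (nat_lit 35958) (nat_lit 0) (nat_lit 2888) (XT.nd (nat_lit 35802) (nat_lit 0) (nat_lit 2812) (XT.lf (nat_lit 0) (nat_lit 256033048476) (nat_lit 76) (nat_lit 1203347860682) (nat_lit 76) (nat_lit 970998432370) (nat_lit 3) (nat_lit 4) (nat_lit 4) (nat_lit 5) (nat_lit 4) (nat_lit 4) (nat_lit 358) (nat_lit 295) (nat_lit 127)) (XT.nd (nat_lit 78) (nat_lit 0) (nat_lit 0) (XT.lf (nat_lit 0) (nat_lit 15729981693) (nat_lit 532) (nat_lit 8484437460) (nat_lit 532) (nat_lit 8484437460) (nat_lit 40) (nat_lit 3) (nat_lit 47) (nat_lit 3) (nat_lit 47) (nat_lit 5) (nat_lit 296) (nat_lit 296) (nat_lit 188)) (XT.lf (nat_lit 76) (nat_lit 12465566425) (nat_lit 0) (nat_lit 20566389119) (nat_lit 532) (nat_lit 34956519875) (nat_lit 41) (nat_lit 5) (nat_lit 40) (nat_lit 3) (nat_lit 47) (nat_lit 5) (nat_lit 297) (nat_lit 296) (nat_lit 187)))) (XT.nd (nat_lit 156) (nat_lit 0) (nat_lit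 0) (XT.nd (nat_lit 78) (nat_lit 0) (nat_lit 0) (XT.lf (nat_lit 0) (nat_lit 35433410352) (nat_lit 456) (nat_lit 25771632788) (nat_lit 532) (nat_lit 9525165070) (nat_lit 41) (nat_lit 5) (nat_lit 47) (nat_lit 5) (nat_lit 48) (nat_lit 5) (nat_lit 298) (nat_lit 296) (nat_lit 186)) (XT.lf (nat_lit 76) (nat_lit 6131419963) (nat_lit 0) (nat_lit 32575932318) (nat_lit 532) (nat_lit 34929503138) (nat_lit 42) (nat_lit 5) (nat_lit 41) (nat_lit 5) (nat_lit 48) (nat_lit 5) (nat_lit 299) (nat_lit 296) (nat_lit 185))) (XT.nd (nat_lit 78) (nat_lit 0) (nat_lit 76) (XT.lf (nat_lit 76) (nat_lit 42051542016) (nat_lit 0) (nat_lit 895102661) (nat_lit 532) (nat_lit 33773119966) (nat_lit 42) (nat_lit 5) (nat_lit 41) (nat_lit 5) (nat_lit 48) (nat_lit 5) (nat_lit 300) (nat_lit 296) (nat_lit 184)) (XT.lf (nat_lit 0) (nat_lit 48325322710) (nat_lit 456) (nat_lit 6255681) (nat_lit 532) (nat_lit 31653713507) (nat_lit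 42) (nat_lit 5) (nat_lit 48) (nat_lit 5) (nat_lit 49) (nat_lit 5) (nat_lit 301) (nat_lit 296) (nat_lit 183))))) (XT.nd (nat_lit 312) (nat_lit 532) (nat_lit 0) (XT.nd (nat_lit 156) (nat_lit 380) (nat_lit 0) (XT.nd (nat_lit 78) (nat_lit 0) (nat_lit 76) (XT.lf (nat_lit 76) (nat_lit 39374272892) (nat_lit 0) (nat_lit 15729196678) (nat_lit 532) (nat_lit 28331062125) (nat_lit 43) (nat_lit 5) (nat_lit 42) (nat_lit 5) (nat_lit 49) (nat_lit 5) (nat_lit 302) (nat_lit 296) (nat_lit 182)) (XT.lf (nat_lit 0) (nat_lit 62891605745) (nat_lit 456) (nat_lit 5723501955) (nat_lit 76) (nat_lit 18507187978) (nat_lit 43) (nat_lit 5) (nat_lit 49) (nat_lit 5) (nat_lit 44) (nat_lit 5) (nat_lit 303) (nat_lit 296) (nat_lit 181))) (XT.nd (nat_lit 78) (nat_lit 0) (nat_lit 0) (XT.lf (nat_lit 0) (nat_lit 37128136794) (nat_lit 456) (nat_lit 35475245210) (nat_lit 532) (nat_lit 18397655349) (nat_lit 37) (nat_lit 5) (nat_lit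 43) (nat_lit 5) (nat_lit 44) (nat_lit 5) (nat_lit 304) (nat_lit 296) (nat_lit 180)) (XT.lf (nat_lit 0) (nat_lit 83259405647) (nat_lit 532) (nat_lit 11456671679) (nat_lit 76) (nat_lit 460620051) (nat_lit 37) (nat_lit 5) (nat_lit 44) (nat_lit 5) (nat_lit 38) (nat_lit 5) (nat_lit 305) (nat_lit 296) (nat_lit 179)))) (XT.nd (nat_lit 156) (nat_lit 228) (nat_lit 0) (XT.nd (nat_lit 78) (nat_lit 76) (nat_lit 0) (XT.lf (nat_lit 0) (nat_lit 35191021706) (nat_lit 228) (nat_lit 61343886696) (nat_lit 304) (nat_lit 3010145202) (nat_lit 34) (nat_lit 5) (nat_lit 37) (nat_lit 5) (nat_lit 38) (nat_lit 5) (nat_lit 306) (nat_lit 296) (nat_lit 178)) (XT.lf (nat_lit 0) (nat_lit 6599551959) (nat_lit 304) (nat_lit 18183652855) (nat_lit 76) (nat_lit 79441310090) (nat_lit 33) (nat_lit 5) (nat_lit 37) (nat_lit 5) (nat_lit 34) (nat_lit 5) (nat_lit 307) (nat_lit 296) (nat_lit 177))) (XT.nd (nat_lit 78) (nat_lit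 0) (nat_lit 0) (XT.lf (nat_lit 0) (nat_lit 17991127066) (nat_lit 304) (nat_lit 76319048994) (nat_lit 76) (nat_lit 14867846471) (nat_lit 30) (nat_lit 5) (nat_lit 34) (nat_lit 5) (nat_lit 31) (nat_lit 5) (nat_lit 308) (nat_lit 296) (nat_lit 176)) (XT.lf (nat_lit 0) (nat_lit 31447159086) (nat_lit 304) (nat_lit 26126333587) (nat_lit 76) (nat_lit 56862069958) (nat_lit 30) (nat_lit 5) (nat_lit 34) (nat_lit 5) (nat_lit 31) (nat_lit 5) (nat_lit 309) (nat_lit 296) (nat_lit 175))))))))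
noncomputable def xc103 : XT := (XT.nd (nat_lit 2184) (nat_lit 380) (nat_lit 0) (XT.nd (nat_lit 1092) (nat_lit 456) (nat_lit 0) (XT.nd (nat_lit 546) (nat_lit 456) (nat_lit 0) (XT.nd (nat_lit 234) (nat_lit 380) (nat_lit 0) (XT.nd (nat_lit 78) (nat_lit 152) (nat_lit 0) (XT.lf (nat_lit 0) (nat_lit 29559762946) (nat_lit 228) (nat_lit 17130198188) (nat_lit 304) (nat_lit 73366923975) (nat_lit 27) (nat_lit 5) (nat_lit 30) (nat_lit 5) (nat_lit 31) (nat_lit 5) (nat_lit 310) (nat_lit 296) (nat_lit 174)) (XT.nd (nat_lit 78) (nat_lit 152) (nat_lit 0) (XT.lf (nat_lit 0) (nat_lit 64522976074) (nat_lit 304) (nat_lit 35542002399) (nat_lit 76) (nat_lit 25953273817) (nat_lit 27) (nat_lit 5) (nat_lit 31) (nat_lit 5) (nat_lit 28) (nat_lit 5) (nat_lit 311) (nat_lit 296) (nat_lit 173)) (XT.lf (nat_lit 0) (nat_lit 24594180406) (nat_lit 152) (nat_lit 60224327712) (nat_lit 228) (nat_lit 47555152512) (nat_lit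 25) (nat_lit 5) (nat_lit 27) (nat_lit 5) (nat_lit 28) (nat_lit 5) (nat_lit 312) (nat_lit 296) (nat_lit 172)))) (XT.nd (nat_lit 156) (nat_lit 228) (nat_lit 0) (XT.nd (nat_lit 78) (nat_lit 152) (nat_lit 0) (XT.lf (nat_lit 0) (nat_lit 91561874064) (nat_lit 152) (nat_lit 16147059597) (nat_lit 228) (nat_lit 31450869619) (nat_lit 25) (nat_lit 5) (nat_lit 27) (nat_lit 5) (nat_lit 28) (nat_lit 5) (nat_lit 313) (nat_lit 296) (nat_lit 171)) (XT.lf (nat_lit 0) (nat_lit 17517226280) (nat_lit 152) (nat_lit 116090688978) (nat_lit 228) (nat_lit 12786737915) (nat_lit 23) (nat_lit 5) (nat_lit 25) (nat_lit 5) (nat_lit 26) (nat_lit 5) (nat_lit 314) (nat_lit 296) (nat_lit 170))) (XT.nd (nat_lit 78) (nat_lit 152) (nat_lit 0) (XT.lf (nat_lit 0) (nat_lit 8755952095) (nat_lit 228) (nat_lit 64186801027) (nat_lit 76) (nat_lit 81111027896) (nat_lit 22) (nat_lit 5) (nat_lit 25) (nat_lit 5) (nat_lit 23) (nat_lit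 5) (nat_lit 315) (nat_lit 296) (nat_lit 169)) (XT.lf (nat_lit 0) (nat_lit 5627845000) (nat_lit 152) (nat_lit 25838294724) (nat_lit 228) (nat_lit 130822138916) (nat_lit 20) (nat_lit 5) (nat_lit 22) (nat_lit 5) (nat_lit 23) (nat_lit 5) (nat_lit 316) (nat_lit 296) (nat_lit 168))))) (XT.nd (nat_lit 234) (nat_lit 304) (nat_lit 0) (XT.nd (nat_lit 78) (nat_lit 152) (nat_lit 0) (XT.lf (nat_lit 0) (nat_lit 58395350672) (nat_lit 228) (nat_lit 87011429095) (nat_lit 76) (nat_lit 25582580808) (nat_lit 20) (nat_lit 5) (nat_lit 23) (nat_lit 5) (nat_lit 21) (nat_lit 5) (nat_lit 317) (nat_lit 296) (nat_lit 167)) (XT.nd (nat_lit 78) (nat_lit 152) (nat_lit 0) (XT.lf (nat_lit 0) (nat_lit 88149618111) (nat_lit 228) (nat_lit 12462230316) (nat_lit 76) (nat_lit 79721024151) (nat_lit 20) (nat_lit 5) (nat_lit 23) (nat_lit 5) (nat_lit 21) (nat_lit 5) (nat_lit 318) (nat_lit 296) (nat_lit 166)) (XT.lf (nat_lit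 0) (nat_lit 71633758030) (nat_lit 152) (nat_lit 50372887590) (nat_lit 228) (nat_lit 68279427430) (nat_lit 18) (nat_lit 5) (nat_lit 20) (nat_lit 5) (nat_lit 21) (nat_lit 5) (nat_lit 319) (nat_lit 296) (nat_lit 165)))) (XT.nd (nat_lit 156) (nat_lit 228) (nat_lit 0) (XT.nd (nat_lit 78) (nat_lit 76) (nat_lit 0) (XT.lf (nat_lit 0) (nat_lit 159014899477) (nat_lit 228) (nat_lit 37944964449) (nat_lit 76) (nat_lit 4040253432) (nat_lit 18) (nat_lit 5) (nat_lit 21) (nat_lit 5) (nat_lit 19) (nat_lit 4) (nat_lit 320) (nat_lit 296) (nat_lit 164)) (XT.lf (nat_lit 0) (nat_lit 50432920216) (nat_lit 76) (nat_lit 151071855460) (nat_lit 152) (nat_lit 10864833430) (nat_lit 17) (nat_lit 5) (nat_lit 18) (nat_lit 5) (nat_lit 19) (nat_lit 4) (nat_lit 321) (nat_lit 296) (nat_lit 163))) (XT.nd (nat_lit 78) (nat_lit 152) (nat_lit 0) (XT.lf (nat_lit 0) (nat_lit 22671471715) (nat_lit 152) (nat_lit 77101163145)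 (nat_lit 76) (nat_lit 124747136614) (nat_lit 16) (nat_lit 5) (nat_lit 18) (nat_lit 5) (nat_lit 17) (nat_lit 5) (nat_lit 322) (nat_lit 296) (nat_lit 162)) (XT.lf (nat_lit 0) (nat_lit 14988284016) (nat_lit 152) (nat_lit 43675573266) (nat_lit 228) (nat_lit 178926701218) (nat_lit 14) (nat_lit 5) (nat_lit 16) (nat_lit 5) (nat_lit 17) (nat_lit 5) (nat_lit 323) (nat_lit 296) (nat_lit 161)))))) (XT.nd (nat_lit 546) (nat_lit 228) (nat_lit 0) (XT.nd (nat_lit 234) (nat_lit 152) (nat_lit 0) (XT.nd (nat_lit 78) (nat_lit 76) (nat_lit 0) (XT.lf (nat_lit 0) (nat_lit 100104837118) (nat_lit 228) (nat_lit 133170586314) (nat_lit 76) (nat_lit 18226049414) (nat_lit 14) (nat_lit 5) (nat_lit 17) (nat_lit 5) (nat_lit 15) (nat_lit 4) (nat_lit 324) (nat_lit 296) (nat_lit 160)) (XT.nd (nat_lit 78) (nat_lit 76) (nat_lit 0) (XT.lf (nat_lit 0) (nat_lit 145995245862) (nat_lit 228) (nat_lit 37719256066) (nat_lit 76)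 (nat_lit 82720026953) (nat_lit 14) (nat_lit 5) (nat_lit 17) (nat_lit 5) (nat_lit 15) (nat_lit 4) (nat_lit 325) (nat_lit 296) (nat_lit 159)) (XT.lf (nat_lit 0) (nat_lit 68809902355) (nat_lit 76) (nat_lit 128401605542) (nat_lit 152) (nat_lit 85218352398) (nat_lit 13) (nat_lit 5) (nat_lit 14) (nat_lit 5) (nat_lit 15) (nat_lit 4) (nat_lit 326) (nat_lit 296) (nat_lit 158)))) (XT.nd (nat_lit 156) (nat_lit 152) (nat_lit 0) (XT.nd (nat_lit 78) (nat_lit 0) (nat_lit 0) (XT.lf (nat_lit 0) (nat_lit 186006103564) (nat_lit 76) (nat_lit 67550028584) (nat_lit 152) (nat_lit 46066201675) (nat_lit 13) (nat_lit 5) (nat_lit 14) (nat_lit 5) (nat_lit 15) (nat_lit 4) (nat_lit 327) (nat_lit 296) (nat_lit 157)) (XT.lf (nat_lit 0) (nat_lit 312577614387) (nat_lit 76) (nat_lit 1830480423) (nat_lit 152) (nat_lit 3782129411) (nat_lit 13) (nat_lit 5) (nat_lit 14) (nat_lit 5) (nat_lit 15) (nat_lit 4) (nat_lit 328)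 (nat_lit 296) (nat_lit 156))) (XT.nd (nat_lit 78) (nat_lit 0) (nat_lit 0) (XT.lf (nat_lit 0) (nat_lit 44336102345) (nat_lit 152) (nat_lit 223884381193) (nat_lit 76) (nat_lit 69578742570) (nat_lit 11) (nat_lit 5) (nat_lit 13) (nat_lit 5) (nat_lit 12) (nat_lit 4) (nat_lit 329) (nat_lit 296) (nat_lit 155)) (XT.lf (nat_lit 0) (nat_lit 96304232744) (nat_lit 152) (nat_lit 115791123648) (nat_lit 76) (nat_lit 146857351286) (nat_lit 11) (nat_lit 5) (nat_lit 13) (nat_lit 5) (nat_lit 12) (nat_lit 4) (nat_lit 330) (nat_lit 296) (nat_lit 154))))) (XT.nd (nat_lit 234) (nat_lit 152) (nat_lit 0) (XT.nd (nat_lit 78) (nat_lit 0) (nat_lit 0) (XT.lf (nat_lit 0) (nat_lit 999233617) (nat_lit 76) (nat_lit 151454411311) (nat_lit 152) (nat_lit 229342916678) (nat_lit 10) (nat_lit 5) (nat_lit 11) (nat_lit 5) (nat_lit 12) (nat_lit 4) (nat_lit 331) (nat_lit 296) (nat_lit 153)) (XT.nd (nat_lit 78) (nat_lit 0) (nat_lit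 0) (XT.lf (nat_lit 0) (nat_lit 133717625444) (nat_lit 76) (nat_lit 82543125632) (nat_lit 152) (nat_lit 189953913809) (nat_lit 10) (nat_lit 5) (nat_lit 11) (nat_lit 5) (nat_lit 12) (nat_lit 4) (nat_lit 332) (nat_lit 296) (nat_lit 152)) (XT.lf (nat_lit 0) (nat_lit 277053175821) (nat_lit 76) (nat_lit 8119070701) (nat_lit 152) (nat_lit 147413984534) (nat_lit 10) (nat_lit 5) (nat_lit 11) (nat_lit 5) (nat_lit 12) (nat_lit 4) (nat_lit 333) (nat_lit 296) (nat_lit 151)))) (XT.nd (nat_lit 156) (nat_lit 76) (nat_lit 0) (XT.nd (nat_lit 78) (nat_lit 76) (nat_lit 0) (XT.lf (nat_lit 0) (nat_lit 361334321197) (nat_lit 152) (nat_lit 30950080981) (nat_lit 0) (nat_lit 68644107847) (nat_lit 10) (nat_lit 5) (nat_lit 12) (nat_lit 4) (nat_lit 10) (nat_lit 4) (nat_lit 334) (nat_lit 296) (nat_lit 150)) (XT.lf (nat_lit 0) (nat_lit 108832616556) (nat_lit 76) (nat_lit 337584900902) (nat_lit 76) (nat_lit 44894401653)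 (nat_lit 9) (nat_lit 4) (nat_lit 10) (nat_lit 5) (nat_lit 10) (nat_lit 4) (nat_lit 335) (nat_lit 296) (nat_lit 149))) (XT.nd (nat_lit 78) (nat_lit 0) (nat_lit 0) (XT.lf (nat_lit 0) (nat_lit 14340013603) (nat_lit 152) (nat_lit 262863535675) (nat_lit 76) (nat_lit 246825722515) (nat_lit 8) (nat_lit 5) (nat_lit 10) (nat_lit 5) (nat_lit 9) (nat_lit 4) (nat_lit 336) (nat_lit 296) (nat_lit 148)) (XT.lf (nat_lit 0) (nat_lit 75887574350) (nat_lit 152) (nat_lit 134844854432) (nat_lit 76) (nat_lit 348538308553) (nat_lit 8) (nat_lit 5) (nat_lit 10) (nat_lit 5) (nat_lit 9) (nat_lit 4) (nat_lit 337) (nat_lit 296) (nat_lit 147))))))) (XT.nd (nat_lit 1092) (nat_lit 76) (nat_lit 0) (XT.nd (nat_lit 546) (nat_lit 152) (nat_lit 0) (XT.nd (nat_lit 234) (nat_lit 76) (nat_lit 0) (XT.nd (nat_lit 78) (nat_lit 0) (nat_lit 0) (XT.lf (nat_lit 0) (nat_lit 3594913990) (nat_lit 76) (nat_lit 138850350445) (nat_lit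 152) (nat_lit 454879349912) (nat_lit 7) (nat_lit 5) (nat_lit 8) (nat_lit 5) (nat_lit 9) (nat_lit 4) (nat_lit 338) (nat_lit 296) (nat_lit 146)) (XT.nd (nat_lit 78) (nat_lit 0) (nat_lit 0) (XT.lf (nat_lit 0) (nat_lit 160778376829) (nat_lit 76) (nat_lit 57235961156) (nat_lit 152) (nat_lit 420113522246) (nat_lit 7) (nat_lit 5) (nat_lit 8) (nat_lit 5) (nat_lit 9) (nat_lit 4) (nat_lit 339) (nat_lit 296) (nat_lit 145)) (XT.lf (nat_lit 0) (nat_lit 300372143647) (nat_lit 152) (nat_lit 352402400631) (nat_lit 0) (nat_lit 29361365167) (nat_lit 7) (nat_lit 5) (nat_lit 9) (nat_lit 4) (nat_lit 7) (nat_lit 4) (nat_lit 340) (nat_lit 296) (nat_lit 144)))) (XT.nd (nat_lit 156) (nat_lit 76) (nat_lit 0) (XT.nd (nat_lit 78) (nat_lit 0) (nat_lit 0) (XT.lf (nat_lit 0) (nat_lit 390805109330) (nat_lit 152) (nat_lit 218946406538) (nat_lit 0) (nat_lit 119794164030) (nat_lit 7) (nat_lit 5) (nat_lit 9) (nat_lit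 4) (nat_lit 7) (nat_lit 4) (nat_lit 341) (nat_lit 296) (nat_lit 143)) (XT.lf (nat_lit 0) (nat_lit 488472607846) (nat_lit 152) (nat_lit 74814124545) (nat_lit 0) (nat_lit 217461508085) (nat_lit 7) (nat_lit 5) (nat_lit 9) (nat_lit 4) (nat_lit 7) (nat_lit 4) (nat_lit 342) (nat_lit 296) (nat_lit 142))) (XT.nd (nat_lit 78) (nat_lit 0) (nat_lit 0) (XT.lf (nat_lit 0) (nat_lit 85105904602) (nat_lit 76) (nat_lit 510894304007) (nat_lit 76) (nat_lit 239883061226) (nat_lit 6) (nat_lit 4) (nat_lit 7) (nat_lit 5) (nat_lit 7) (nat_lit 4) (nat_lit 343) (nat_lit 296) (nat_lit 141)) (XT.lf (nat_lit 0) (nat_lit 262074108695) (nat_lit 76) (nat_lit 452101365804) (nat_lit 76) (nat_lit 181089990596) (nat_lit 6) (nat_lit 4) (nat_lit 7) (nat_lit 5) (nat_lit 7) (nat_lit 4) (nat_lit 344) (nat_lit 296) (nat_lit 140))))) (XT.nd (nat_lit 234) (nat_lit 76) (nat_lit 0) (XT.nd (nat_lit 78) (nat_lit 76) (nat_lit 0)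 (XT.lf (nat_lit 0) (nat_lit 453199608984) (nat_lit 76) (nat_lit 388605065932) (nat_lit 76) (nat_lit 117593568107) (nat_lit 6) (nat_lit 4) (nat_lit 7) (nat_lit 5) (nat_lit 7) (nat_lit 4) (nat_lit 345) (nat_lit 296) (nat_lit 139)) (XT.nd (nat_lit 78) (nat_lit 76) (nat_lit 0) (XT.lf (nat_lit 0) (nat_lit 659615001027) (nat_lit 76) (nat_lit 320029130021) (nat_lit 76) (nat_lit 49017518662) (nat_lit 6) (nat_lit 4) (nat_lit 7) (nat_lit 5) (nat_lit 7) (nat_lit 4) (nat_lit 346) (nat_lit 296) (nat_lit 138)) (XT.lf (nat_lit 0) (nat_lit 23791705289) (nat_lit 152) (nat_lit 221524969480) (nat_lit 76) (nat_lit 858101274473) (nat_lit 5) (nat_lit 5) (nat_lit 7) (nat_lit 5) (nat_lit 6) (nat_lit 4) (nat_lit 347) (nat_lit 296) (nat_lit 137)))) (XT.nd (nat_lit 156) (nat_lit 0) (nat_lit 0) (XT.nd (nat_lit 78) (nat_lit 76) (nat_lit 0) (XT.lf (nat_lit 0) (nat_lit 99777377238) (nat_lit 152) (nat_lit 63474869164)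 (nat_lit 76) (nat_lit 1020800657487) (nat_lit 5) (nat_lit 5) (nat_lit 7) (nat_lit 5) (nat_lit 6) (nat_lit 4) (nat_lit 348) (nat_lit 296) (nat_lit 136)) (XT.lf (nat_lit 0) (nat_lit 112865086696) (nat_lit 76) (nat_lit 71691158805) (nat_lit 152) (nat_lit 1086365262077) (nat_lit 4) (nat_lit 5) (nat_lit 5) (nat_lit 5) (nat_lit 6) (nat_lit 4) (nat_lit 349) (nat_lit 296) (nat_lit 135))) (XT.nd (nat_lit 78) (nat_lit 0) (nat_lit 0) (XT.lf (nat_lit 0) (nat_lit 278551988137) (nat_lit 152) (nat_lit 1058377883531) (nat_lit 0) (nat_lit 27614962768) (nat_lit 4) (nat_lit 5) (nat_lit 6) (nat_lit 4) (nat_lit 4) (nat_lit 4) (nat_lit 350) (nat_lit 296) (nat_lit 134)) (XT.lf (nat_lit 0) (nat_lit 381929438208) (nat_lit 152) (nat_lit 952587284161) (nat_lit 0) (nat_lit 130992341293) (nat_lit 4) (nat_lit 5) (nat_lit 6) (nat_lit 4) (nat_lit 4) (nat_lit 4) (nat_lit 351) (nat_lit 296) (nat_lit 133)))))) (XT.nd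 (nat_lit 36348) (nat_lit 0) (nat_lit 2812) (XT.nd (nat_lit 234) (nat_lit 76) (nat_lit 0) (XT.nd (nat_lit 78) (nat_lit 0) (nat_lit 0) (XT.lf (nat_lit 0) (nat_lit 493577028733) (nat_lit 152) (nat_lit 838333541425) (nat_lit 0) (nat_lit 242639865572) (nat_lit 4) (nat_lit 5) (nat_lit 6) (nat_lit 4) (nat_lit 4) (nat_lit 4) (nat_lit 352) (nat_lit 296) (nat_lit 132)) (XT.nd (nat_lit 78) (nat_lit 0) (nat_lit 0) (XT.lf (nat_lit 0) (nat_lit 614156375063) (nat_lit 152) (nat_lit 714939596106) (nat_lit 0) (nat_lit 363219150563) (nat_lit 4) (nat_lit 5) (nat_lit 6) (nat_lit 4) (nat_lit 4) (nat_lit 4) (nat_lit 353) (nat_lit 296) (nat_lit 131)) (XT.lf (nat_lit 0) (nat_lit 744382021473) (nat_lit 152) (nat_lit 581674224824) (nat_lit 0) (nat_lit 493444740177) (nat_lit 4) (nat_lit 5) (nat_lit 6) (nat_lit 4) (nat_lit 4) (nat_lit 4) (nat_lit 354) (nat_lit 296) (nat_lit 130)))) (XT.nd (nat_lit 156) (nat_lit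 76) (nat_lit 0) (XT.nd (nat_lit 78) (nat_lit 0) (nat_lit 0) (XT.lf (nat_lit 0) (nat_lit 885025675497) (nat_lit 152) (nat_lit 437747706861) (nat_lit 0) (nat_lit 634088341613) (nat_lit 4) (nat_lit 5) (nat_lit 6) (nat_lit 4) (nat_lit 4) (nat_lit 4) (nat_lit 355) (nat_lit 296) (nat_lit 129)) (XT.lf (nat_lit 0) (nat_lit 1036920781010) (nat_lit 152) (nat_lit 282307144332) (nat_lit 0) (nat_lit 785983398433) (nat_lit 4) (nat_lit 5) (nat_lit 6) (nat_lit 4) (nat_lit 4) (nat_lit 4) (nat_lit 356) (nat_lit 296) (nat_lit 128))) (XT.nd (nat_lit 78) (nat_lit 76) (nat_lit 0) (XT.lf (nat_lit 0) (nat_lit 1200967457157) (nat_lit 152) (nat_lit 114431407977) (nat_lit 0) (nat_lit 950030029494) (nat_lit 4) (nat_lit 5) (nat_lit 6) (nat_lit 4) (nat_lit 4) (nat_lit 4) (nat_lit 357) (nat_lit 296) (nat_lit 127)) (XT.lf (nat_lit 0) (nat_lit 70395804632) (nat_lit 76) (nat_lit 1309435048550) (nat_lit 76) (nat_lit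 1058497579141) (nat_lit 3) (nat_lit 4) (nat_lit 4) (nat_lit 5) (nat_lit 4) (nat_lit 4) (nat_lit 358) (nat_lit 296) (nat_lit 126))))) (XT.nd (nat_lit 312) (nat_lit 0) (nat_lit 76) (XT.nd (nat_lit 156) (nat_lit 0) (nat_lit 76) (XT.nd (nat_lit 78) (nat_lit 0) (nat_lit 0) (XT.lf (nat_lit 0) (nat_lit 17001844873) (nat_lit 532) (nat_lit 9155892832) (nat_lit 532) (nat_lit 9155892832) (nat_lit 40) (nat_lit 3) (nat_lit 47) (nat_lit 3) (nat_lit 47) (nat_lit 5) (nat_lit 297) (nat_lit 297) (nat_lit 186)) (XT.lf (nat_lit 76) (nat_lit 13477041387) (nat_lit 0) (nat_lit 22222747351) (nat_lit 532) (nat_lit 37725636218) (nat_lit 41) (nat_lit 5) (nat_lit 40) (nat_lit 3) (nat_lit 47) (nat_lit 5) (nat_lit 298) (nat_lit 297) (nat_lit 185))) (XT.nd (nat_lit 78) (nat_lit 0) (nat_lit 0) (XT.lf (nat_lit 0) (nat_lit 38291241576) (nat_lit 456) (nat_lit 27817970979) (nat_lit 532) (nat_lit 10277461163) (nat_lit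 41) (nat_lit 5) (nat_lit 47) (nat_lit 5) (nat_lit 48) (nat_lit 5) (nat_lit 299) (nat_lit 297) (nat_lit 184)) (XT.lf (nat_lit 76) (nat_lit 6636936311) (nat_lit 0) (nat_lit 35188807928) (nat_lit 532) (nat_lit 37700224129) (nat_lit 42) (nat_lit 5) (nat_lit 41) (nat_lit 5) (nat_lit 48) (nat_lit 5) (nat_lit 300) (nat_lit 297) (nat_lit 183)))) (XT.nd (nat_lit 156) (nat_lit 0) (nat_lit 76) (XT.nd (nat_lit 78) (nat_lit 0) (nat_lit 76) (XT.lf (nat_lit 76) (nat_lit 45429556813) (nat_lit 0) (nat_lit 973008119) (nat_lit 532) (nat_lit 36453081358) (nat_lit 42) (nat_lit 5) (nat_lit 41) (nat_lit 5) (nat_lit 48) (nat_lit 5) (nat_lit 301) (nat_lit 297) (nat_lit 182)) (XT.lf (nat_lit 76) (nat_lit 8231964) (nat_lit 0) (nat_lit 52201867534) (nat_lit 532) (nat_lit 34172437500) (nat_lit 43) (nat_lit 5) (nat_lit 42) (nat_lit 5) (nat_lit 49) (nat_lit 5) (nat_lit 302) (nat_lit 297) (nat_lit 181))) (XT.nd (nat_lit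 78) (nat_lit 0) (nat_lit 76) (XT.lf (nat_lit 76) (nat_lit 42538422007) (nat_lit 0) (nat_lit 16990845512) (nat_lit 532) (nat_lit 30578552698) (nat_lit 43) (nat_lit 5) (nat_lit 42) (nat_lit 5) (nat_lit 49) (nat_lit 5) (nat_lit 303) (nat_lit 297) (nat_lit 180)) (XT.lf (nat_lit 0) (nat_lit 67939083003) (nat_lit 456) (nat_lit 6166788612) (nat_lit 76) (nat_lit 19984848790) (nat_lit 43) (nat_lit 5) (nat_lit 49) (nat_lit 5) (nat_lit 44) (nat_lit 5) (nat_lit 304) (nat_lit 297) (nat_lit 179))))))))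
noncomputable def xc104 : XT := (XT.nd (nat_lit 2184) (nat_lit 456) (nat_lit 0) (XT.nd (nat_lit 1092) (nat_lit 760) (nat_lit 0) (XT.nd (nat_lit 546) (nat_lit 532) (nat_lit 0) (XT.nd (nat_lit 234) (nat_lit 532) (nat_lit 0) (XT.nd (nat_lit 78) (nat_lit 228) (nat_lit 0) (XT.lf (nat_lit 0) (nat_lit 40112611781) (nat_lit 456) (nat_lit 38314335464) (nat_lit 532) (nat_lit 19852887465) (nat_lit 37) (nat_lit 5) (nat_lit 43) (nat_lit 5) (nat_lit 44) (nat_lit 5) (nat_lit 305) (nat_lit 297) (nat_lit 178)) (XT.nd (nat_lit 78) (nat_lit 228) (nat_lit 0) (XT.lf (nat_lit 0) (nat_lit 89934295997) (nat_lit 532) (nat_lit 12358820761) (nat_lit 76) (nat_lit 496527915) (nat_lit 37) (nat_lit 5) (nat_lit 44) (nat_lit 5) (nat_lit 38) (nat_lit 5) (nat_lit 306) (nat_lit 297) (nat_lit 177)) (XT.lf (nat_lit 0) (nat_lit 38020323926) (nat_lit 228) (nat_lit 66250804988) (nat_lit 304) (nat_lit 3236401546) (nat_lit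 34) (nat_lit 5) (nat_lit 37) (nat_lit 5) (nat_lit 38) (nat_lit 5) (nat_lit 307) (nat_lit 297) (nat_lit 176)))) (XT.nd (nat_lit 156) (nat_lit 228) (nat_lit 0) (XT.nd (nat_lit 78) (nat_lit 228) (nat_lit 0) (XT.lf (nat_lit 0) (nat_lit 7140319040) (nat_lit 304) (nat_lit 19624643360) (nat_lit 76) (nat_lit 85796443848) (nat_lit 33) (nat_lit 5) (nat_lit 37) (nat_lit 5) (nat_lit 34) (nat_lit 5) (nat_lit 308) (nat_lit 297) (nat_lit 175)) (XT.lf (nat_lit 0) (nat_lit 19442621332) (nat_lit 304) (nat_lit 82410230131) (nat_lit 76) (nat_lit 16058394305) (nat_lit 30) (nat_lit 5) (nat_lit 34) (nat_lit 5) (nat_lit 31) (nat_lit 5) (nat_lit 309) (nat_lit 297) (nat_lit 174))) (XT.nd (nat_lit 78) (nat_lit 228) (nat_lit 0) (XT.lf (nat_lit 0) (nat_lit 33974231907) (nat_lit 304) (nat_lit 28203159921) (nat_lit 76) (nat_lit 61412072700) (nat_lit 30) (nat_lit 5) (nat_lit 34) (nat_lit 5) (nat_lit 31) (nat_lit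 5) (nat_lit 310) (nat_lit 297) (nat_lit 173)) (XT.lf (nat_lit 0) (nat_lit 31937488124) (nat_lit 228) (nat_lit 18498444258) (nat_lit 304) (nat_lit 79224605377) (nat_lit 27) (nat_lit 5) (nat_lit 30) (nat_lit 5) (nat_lit 31) (nat_lit 5) (nat_lit 311) (nat_lit 297) (nat_lit 172))))) (XT.nd (nat_lit 234) (nat_lit 380) (nat_lit 0) (XT.nd (nat_lit 78) (nat_lit 152) (nat_lit 0) (XT.lf (nat_lit 0) (nat_lit 69694838735) (nat_lit 304) (nat_lit 38372593964) (nat_lit 76) (nat_lit 28031444281) (nat_lit 27) (nat_lit 5) (nat_lit 31) (nat_lit 5) (nat_lit 28) (nat_lit 5) (nat_lit 312) (nat_lit 297) (nat_lit 171)) (XT.nd (nat_lit 78) (nat_lit 0) (nat_lit 0) (XT.lf (nat_lit 0) (nat_lit 26574160210) (nat_lit 152) (nat_lit 65039409883) (nat_lit 228) (nat_lit 51349185837) (nat_lit 25) (nat_lit 5) (nat_lit 27) (nat_lit 5) (nat_lit 28) (nat_lit 5) (nat_lit 313) (nat_lit 297) (nat_lit 170)) (XT.lf (nat_lit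 0) (nat_lit 98898347481) (nat_lit 152) (nat_lit 17436172470) (nat_lit 228) (nat_lit 33957329119) (nat_lit 25) (nat_lit 5) (nat_lit 27) (nat_lit 5) (nat_lit 28) (nat_lit 5) (nat_lit 314) (nat_lit 297) (nat_lit 169)))) (XT.nd (nat_lit 156) (nat_lit 152) (nat_lit 0) (XT.nd (nat_lit 78) (nat_lit 76) (nat_lit 0) (XT.lf (nat_lit 0) (nat_lit 18930493754) (nat_lit 152) (nat_lit 125374614160) (nat_lit 228) (nat_lit 13800406143) (nat_lit 23) (nat_lit 5) (nat_lit 25) (nat_lit 5) (nat_lit 26) (nat_lit 5) (nat_lit 315) (nat_lit 297) (nat_lit 168)) (XT.lf (nat_lit 0) (nat_lit 9464582932) (nat_lit 228) (nat_lit 69310284203) (nat_lit 76) (nat_lit 87602541173) (nat_lit 22) (nat_lit 5) (nat_lit 25) (nat_lit 5) (nat_lit 23) (nat_lit 5) (nat_lit 316) (nat_lit 297) (nat_lit 167))) (XT.nd (nat_lit 78) (nat_lit 0) (nat_lit 0) (XT.lf (nat_lit 0) (nat_lit 6089243356) (nat_lit 152) (nat_lit 27902006821) (nat_lit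 228) (nat_lit 141279444082) (nat_lit 20) (nat_lit 5) (nat_lit 22) (nat_lit 5) (nat_lit 23) (nat_lit 5) (nat_lit 317) (nat_lit 297) (nat_lit 166)) (XT.lf (nat_lit 0) (nat_lit 63074293429) (nat_lit 228) (nat_lit 93961475993) (nat_lit 76) (nat_lit 27632135259) (nat_lit 20) (nat_lit 5) (nat_lit 23) (nat_lit 5) (nat_lit 21) (nat_lit 5) (nat_lit 318) (nat_lit 297) (nat_lit 165)))))) (XT.nd (nat_lit 546) (nat_lit 304) (nat_lit 0) (XT.nd (nat_lit 234) (nat_lit 304) (nat_lit 0) (XT.nd (nat_lit 78) (nat_lit 152) (nat_lit 0) (XT.lf (nat_lit 0) (nat_lit 95208360433) (nat_lit 228) (nat_lit 13449146307) (nat_lit 76) (nat_lit 86101435701) (nat_lit 20) (nat_lit 5) (nat_lit 23) (nat_lit 5) (nat_lit 21) (nat_lit 5) (nat_lit 319) (nat_lit 297) (nat_lit 164)) (XT.nd (nat_lit 78) (nat_lit 0) (nat_lit 0) (XT.lf (nat_lit 0) (nat_lit 77374266362) (nat_lit 152) (nat_lit 54399417962) (nat_lit 228) (nat_lit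 73734737234) (nat_lit 18) (nat_lit 5) (nat_lit 20) (nat_lit 5) (nat_lit 21) (nat_lit 5) (nat_lit 320) (nat_lit 297) (nat_lit 163)) (XT.lf (nat_lit 0) (nat_lit 171742189985) (nat_lit 228) (nat_lit 40971056378) (nat_lit 76) (nat_lit 4366376969) (nat_lit 18) (nat_lit 5) (nat_lit 21) (nat_lit 5) (nat_lit 19) (nat_lit 4) (nat_lit 321) (nat_lit 297) (nat_lit 162)))) (XT.nd (nat_lit 156) (nat_lit 152) (nat_lit 0) (XT.nd (nat_lit 78) (nat_lit 76) (nat_lit 0) (XT.lf (nat_lit 0) (nat_lit 54476818423) (nat_lit 76) (nat_lit 163154208928) (nat_lit 152) (nat_lit 11727666536) (nat_lit 17) (nat_lit 5) (nat_lit 18) (nat_lit 5) (nat_lit 19) (nat_lit 4) (nat_lit 322) (nat_lit 297) (nat_lit 161)) (XT.lf (nat_lit 0) (nat_lit 24490778098) (nat_lit 152) (nat_lit 83260371257) (nat_lit 76) (nat_lit 134729744417) (nat_lit 16) (nat_lit 5) (nat_lit 18) (nat_lit 5) (nat_lit 17) (nat_lit 5) (nat_lit 323) (nat_lit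 297) (nat_lit 160))) (XT.nd (nat_lit 78) (nat_lit 0) (nat_lit 0) (XT.lf (nat_lit 0) (nat_lit 16196006742) (nat_lit 152) (nat_lit 47166342068) (nat_lit 228) (nat_lit 193235012319) (nat_lit 14) (nat_lit 5) (nat_lit 16) (nat_lit 5) (nat_lit 17) (nat_lit 5) (nat_lit 324) (nat_lit 297) (nat_lit 159)) (XT.lf (nat_lit 0) (nat_lit 108118281271) (nat_lit 228) (nat_lit 143815878365) (nat_lit 76) (nat_lit 19687015892) (nat_lit 14) (nat_lit 5) (nat_lit 17) (nat_lit 5) (nat_lit 15) (nat_lit 4) (nat_lit 325) (nat_lit 297) (nat_lit 158))))) (XT.nd (nat_lit 234) (nat_lit 228) (nat_lit 0) (XT.nd (nat_lit 78) (nat_lit 76) (nat_lit 0) (XT.lf (nat_lit 0) (nat_lit 157679548109) (nat_lit 228) (nat_lit 40729060576) (nat_lit 76) (nat_lit 89340298114) (nat_lit 14) (nat_lit 5) (nat_lit 17) (nat_lit 5) (nat_lit 15) (nat_lit 4) (nat_lit 326) (nat_lit 297) (nat_lit 157)) (XT.nd (nat_lit 78) (nat_lit 0) (nat_lit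 0) (XT.lf (nat_lit 0) (nat_lit 74322234671) (nat_lit 76) (nat_lit 138670710918) (nat_lit 152) (nat_lit 92030933103) (nat_lit 13) (nat_lit 5) (nat_lit 14) (nat_lit 5) (nat_lit 15) (nat_lit 4) (nat_lit 327) (nat_lit 297) (nat_lit 156)) (XT.lf (nat_lit 0) (nat_lit 200893573449) (nat_lit 76) (nat_lit 72951231735) (nat_lit 152) (nat_lit 49746972358) (nat_lit 13) (nat_lit 5) (nat_lit 14) (nat_lit 5) (nat_lit 15) (nat_lit 4) (nat_lit 328) (nat_lit 297) (nat_lit 155)))) (XT.nd (nat_lit 156) (nat_lit 76) (nat_lit 0) (XT.nd (nat_lit 78) (nat_lit 152) (nat_lit 0) (XT.lf (nat_lit 0) (nat_lit 337590287983) (nat_lit 76) (nat_lit 1974327063) (nat_lit 152) (nat_lit 4080509532) (nat_lit 13) (nat_lit 5) (nat_lit 14) (nat_lit 5) (nat_lit 15) (nat_lit 4) (nat_lit 329) (nat_lit 297) (nat_lit 154)) (XT.lf (nat_lit 0) (nat_lit 47886897114) (nat_lit 152) (nat_lit 241788369741) (nat_lit 76) (nat_lit 75147578154)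 (nat_lit 11) (nat_lit 5) (nat_lit 13) (nat_lit 5) (nat_lit 12) (nat_lit 4) (nat_lit 330) (nat_lit 297) (nat_lit 153))) (XT.nd (nat_lit 78) (nat_lit 76) (nat_lit 0) (XT.lf (nat_lit 0) (nat_lit 104012188569) (nat_lit 152) (nat_lit 125048152477) (nat_lit 76) (nat_lit 158608287702) (nat_lit 11) (nat_lit 5) (nat_lit 13) (nat_lit 5) (nat_lit 12) (nat_lit 4) (nat_lit 331) (nat_lit 297) (nat_lit 152)) (XT.lf (nat_lit 0) (nat_lit 1085274861) (nat_lit 76) (nat_lit 163568157692) (nat_lit 152) (nat_lit 247686568588) (nat_lit 10) (nat_lit 5) (nat_lit 11) (nat_lit 5) (nat_lit 12) (nat_lit 4) (nat_lit 332) (nat_lit 297) (nat_lit 151))))))) (XT.nd (nat_lit 1092) (nat_lit 152) (nat_lit 0) (XT.nd (nat_lit 546) (nat_lit 76) (nat_lit 0) (XT.nd (nat_lit 234) (nat_lit 228) (nat_lit 0) (XT.nd (nat_lit 78) (nat_lit 0) (nat_lit 0) (XT.lf (nat_lit 0) (nat_lit 144420685994) (nat_lit 76) (nat_lit 89144162235)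 (nat_lit 152) (nat_lit 205146725595) (nat_lit 10) (nat_lit 5) (nat_lit 11) (nat_lit 5) (nat_lit 12) (nat_lit 4) (nat_lit 333) (nat_lit 297) (nat_lit 150)) (XT.nd (nat_lit 78) (nat_lit 0) (nat_lit 0) (XT.lf (nat_lit 0) (nat_lit 299222661844) (nat_lit 76) (nat_lit 8766361683) (nat_lit 152) (nat_lit 159203861336) (nat_lit 10) (nat_lit 5) (nat_lit 11) (nat_lit 5) (nat_lit 12) (nat_lit 4) (nat_lit 334) (nat_lit 297) (nat_lit 149)) (XT.lf (nat_lit 0) (nat_lit 390243891918) (nat_lit 152) (nat_lit 33421066263) (nat_lit 0) (nat_lit 74137602110) (nat_lit 10) (nat_lit 5) (nat_lit 12) (nat_lit 4) (nat_lit 10) (nat_lit 4) (nat_lit 335) (nat_lit 297) (nat_lit 148)))) (XT.nd (nat_lit 156) (nat_lit 76) (nat_lit 0) (XT.nd (nat_lit 78) (nat_lit 76) (nat_lit 0) (XT.lf (nat_lit 0) (nat_lit 117544119957) (nat_lit 76) (nat_lit 364589532364) (nat_lit 76) (nat_lit 48482997444) (nat_lit 9) (nat_lit 4) (nat_lit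 10) (nat_lit 5) (nat_lit 10) (nat_lit 4) (nat_lit 336) (nat_lit 297) (nat_lit 147)) (XT.lf (nat_lit 0) (nat_lit 15489815110) (nat_lit 152) (nat_lit 283887946444) (nat_lit 76) (nat_lit 266573640349) (nat_lit 8) (nat_lit 5) (nat_lit 10) (nat_lit 5) (nat_lit 9) (nat_lit 4) (nat_lit 337) (nat_lit 297) (nat_lit 146))) (XT.nd (nat_lit 78) (nat_lit 76) (nat_lit 0) (XT.lf (nat_lit 0) (nat_lit 81960988094) (nat_lit 152) (nat_lit 145628116782) (nat_lit 76) (nat_lit 376423095490) (nat_lit 8) (nat_lit 5) (nat_lit 10) (nat_lit 5) (nat_lit 9) (nat_lit 4) (nat_lit 338) (nat_lit 297) (nat_lit 145)) (XT.lf (nat_lit 0) (nat_lit 3886723595) (nat_lit 76) (nat_lit 149956492843) (nat_lit 152) (nat_lit 491267177505) (nat_lit 7) (nat_lit 5) (nat_lit 8) (nat_lit 5) (nat_lit 9) (nat_lit 4) (nat_lit 339) (nat_lit 297) (nat_lit 144))))) (XT.nd (nat_lit 234) (nat_lit 76) (nat_lit 0) (XT.nd (nat_lit 78) (nat_lit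 0) (nat_lit 0) (XT.lf (nat_lit 0) (nat_lit 173644551129) (nat_lit 76) (nat_lit 61813092087) (nat_lit 152) (nat_lit 453720270322) (nat_lit 7) (nat_lit 5) (nat_lit 8) (nat_lit 5) (nat_lit 9) (nat_lit 4) (nat_lit 340) (nat_lit 297) (nat_lit 143)) (XT.nd (nat_lit 78) (nat_lit 0) (nat_lit 0) (XT.lf (nat_lit 0) (nat_lit 324403952345) (nat_lit 152) (nat_lit 380590854094) (nat_lit 0) (nat_lit 31711810141) (nat_lit 7) (nat_lit 5) (nat_lit 9) (nat_lit 4) (nat_lit 7) (nat_lit 4) (nat_lit 341) (nat_lit 297) (nat_lit 142)) (XT.lf (nat_lit 0) (nat_lit 422071404378) (nat_lit 152) (nat_lit 236458657406) (nat_lit 0) (nat_lit 129379119153) (nat_lit 7) (nat_lit 5) (nat_lit 9) (nat_lit 4) (nat_lit 7) (nat_lit 4) (nat_lit 342) (nat_lit 297) (nat_lit 141)))) (XT.nd (nat_lit 156) (nat_lit 0) (nat_lit 0) (XT.nd (nat_lit 78) (nat_lit 76) (nat_lit 0) (XT.lf (nat_lit 0) (nat_lit 527552163049) (nat_lit 152) (nat_lit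 80796049272) (nat_lit 0) (nat_lit 234859745398) (nat_lit 7) (nat_lit 5) (nat_lit 9) (nat_lit 4) (nat_lit 7) (nat_lit 4) (nat_lit 343) (nat_lit 297) (nat_lit 140)) (XT.lf (nat_lit 0) (nat_lit 91917501062) (nat_lit 76) (nat_lit 551764416571) (nat_lit 76) (nat_lit 259071876303) (nat_lit 6) (nat_lit 4) (nat_lit 7) (nat_lit 5) (nat_lit 7) (nat_lit 4) (nat_lit 344) (nat_lit 297) (nat_lit 139))) (XT.nd (nat_lit 78) (nat_lit 0) (nat_lit 0) (XT.lf (nat_lit 0) (nat_lit 283042930068) (nat_lit 76) (nat_lit 488268149368) (nat_lit 76) (nat_lit 195575495566) (nat_lit 6) (nat_lit 4) (nat_lit 7) (nat_lit 5) (nat_lit 7) (nat_lit 4) (nat_lit 345) (nat_lit 297) (nat_lit 138)) (XT.lf (nat_lit 0) (nat_lit 489458256108) (nat_lit 76) (nat_lit 419692243706) (nat_lit 76) (nat_lit 126999484779) (nat_lit 6) (nat_lit 4) (nat_lit 7) (nat_lit 5) (nat_lit 7) (nat_lit 4) (nat_lit 346) (nat_lit 297) (nat_lit 137))))))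 (XT.nd (nat_lit 546) (nat_lit 0) (nat_lit 0) (XT.nd (nat_lit 234) (nat_lit 76) (nat_lit 0) (XT.nd (nat_lit 78) (nat_lit 76) (nat_lit 0) (XT.lf (nat_lit 0) (nat_lit 712386681114) (nat_lit 76) (nat_lit 345630323848) (nat_lit 76) (nat_lit 52937467584) (nat_lit 6) (nat_lit 4) (nat_lit 7) (nat_lit 5) (nat_lit 7) (nat_lit 4) (nat_lit 347) (nat_lit 297) (nat_lit 136)) (XT.nd (nat_lit 78) (nat_lit 0) (nat_lit 0) (XT.lf (nat_lit 0) (nat_lit 25696319404) (nat_lit 152) (nat_lit 239244602029) (nat_lit 76) (nat_lit 926750360105) (nat_lit 5) (nat_lit 5) (nat_lit 7) (nat_lit 5) (nat_lit 6) (nat_lit 4) (nat_lit 348) (nat_lit 297) (nat_lit 135)) (XT.lf (nat_lit 0) (nat_lit 107760750465) (nat_lit 152) (nat_lit 68550668873) (nat_lit 76) (nat_lit 1102465620896) (nat_lit 5) (nat_lit 5) (nat_lit 7) (nat_lit 5) (nat_lit 6) (nat_lit 4) (nat_lit 349) (nat_lit 297) (nat_lit 134)))) (XT.nd (nat_lit 156) (nat_lit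 0) (nat_lit 0) (XT.nd (nat_lit 78) (nat_lit 0) (nat_lit 0) (XT.lf (nat_lit 0) (nat_lit 121896428017) (nat_lit 76) (nat_lit 77425463871) (nat_lit 152) (nat_lit 1173273243331) (nat_lit 4) (nat_lit 5) (nat_lit 5) (nat_lit 5) (nat_lit 6) (nat_lit 4) (nat_lit 350) (nat_lit 297) (nat_lit 133)) (XT.lf (nat_lit 0) (nat_lit 300837230984) (nat_lit 152) (nat_lit 1143046073845) (nat_lit 0) (nat_lit 29825028524) (nat_lit 4) (nat_lit 5) (nat_lit 6) (nat_lit 4) (nat_lit 4) (nat_lit 4) (nat_lit 351) (nat_lit 297) (nat_lit 132))) (XT.nd (nat_lit 78) (nat_lit 0) (nat_lit 0) (XT.lf (nat_lit 0) (nat_lit 412484796780) (nat_lit 152) (nat_lit 1028792377664) (nat_lit 0) (nat_lit 141472532980) (nat_lit 4) (nat_lit 5) (nat_lit 6) (nat_lit 4) (nat_lit 4) (nat_lit 4) (nat_lit 352) (nat_lit 297) (nat_lit 131)) (XT.lf (nat_lit 0) (nat_lit 533064120212) (nat_lit 152) (nat_lit 905398475452) (nat_lit 0) (nat_lit 262051799618)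 (nat_lit 4) (nat_lit 5) (nat_lit 6) (nat_lit 4) (nat_lit 4) (nat_lit 4) (nat_lit 353) (nat_lit 297) (nat_lit 130))))) (XT.nd (nat_lit 234) (nat_lit 0) (nat_lit 0) (XT.nd (nat_lit 78) (nat_lit 0) (nat_lit 0) (XT.lf (nat_lit 0) (nat_lit 663289745421) (nat_lit 152) (nat_lit 772133144084) (nat_lit 0) (nat_lit 392277372238) (nat_lit 4) (nat_lit 5) (nat_lit 6) (nat_lit 4) (nat_lit 4) (nat_lit 4) (nat_lit 354) (nat_lit 297) (nat_lit 129)) (XT.nd (nat_lit 78) (nat_lit 0) (nat_lit 0) (XT.lf (nat_lit 0) (nat_lit 803933379813) (nat_lit 152) (nat_lit 628206663078) (nat_lit 0) (nat_lit 532920957937) (nat_lit 4) (nat_lit 5) (nat_lit 6) (nat_lit 4) (nat_lit 4) (nat_lit 4) (nat_lit 355) (nat_lit 297) (nat_lit 128)) (XT.lf (nat_lit 0) (nat_lit 955828467150) (nat_lit 152) (nat_lit 472766134769) (nat_lit 0) (nat_lit 684816000188) (nat_lit 4) (nat_lit 5) (nat_lit 6) (nat_lit 4) (nat_lit 4) (nat_lit 4)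 (nat_lit 356) (nat_lit 297) (nat_lit 127)))) (XT.nd (nat_lit 36036) (nat_lit 0) (nat_lit 2736) (XT.nd (nat_lit 78) (nat_lit 0) (nat_lit 0) (XT.lf (nat_lit 0) (nat_lit 1119875126466) (nat_lit 152) (nat_lit 304890430100) (nat_lit 0) (nat_lit 848862617758) (nat_lit 4) (nat_lit 5) (nat_lit 6) (nat_lit 4) (nat_lit 4) (nat_lit 4) (nat_lit 357) (nat_lit 297) (nat_lit 126)) (XT.lf (nat_lit 0) (nat_lit 1297045486114) (nat_lit 152) (nat_lit 123584730080) (nat_lit 0) (nat_lit 1026032938751) (nat_lit 4) (nat_lit 5) (nat_lit 6) (nat_lit 4) (nat_lit 4) (nat_lit 4) (nat_lit 358) (nat_lit 297) (nat_lit 125))) (XT.nd (nat_lit 78) (nat_lit 0) (nat_lit 0) (XT.lf (nat_lit 0) (nat_lit 18373536226) (nat_lit 532) (nat_lit 9882106008) (nat_lit 532) (nat_lit 9882106008) (nat_lit 40) (nat_lit 3) (nat_lit 47) (nat_lit 3) (nat_lit 47) (nat_lit 5) (nat_lit 298) (nat_lit 298) (nat_lit 184)) (XT.lf (nat_lit 76)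 (nat_lit 14567404327) (nat_lit 0) (nat_lit 24010038250) (nat_lit 532) (nat_lit 40720191533) (nat_lit 41) (nat_lit 5) (nat_lit 40) (nat_lit 3) (nat_lit 47) (nat_lit 5) (nat_lit 299) (nat_lit 298) (nat_lit 183))))))))
noncomputable def xc105 : XT := (XT.nd (nat_lit 2184) (nat_lit 760) (nat_lit 0) (XT.nd (nat_lit 1092) (nat_lit 988) (nat_lit 0) (XT.nd (nat_lit 546) (nat_lit 760) (nat_lit 0) (XT.nd (nat_lit 234) (nat_lit 304) (nat_lit 0) (XT.nd (nat_lit 78) (nat_lit 0) (nat_lit 0) (XT.lf (nat_lit 0) (nat_lit 41374395494) (nat_lit 456) (nat_lit 30030212127) (nat_lit 532) (nat_lit 11091327198) (nat_lit 41) (nat_lit 5) (nat_lit 47) (nat_lit 5) (nat_lit 48) (nat_lit 5) (nat_lit 300) (nat_lit 298) (nat_lit 182)) (XT.nd (nat_lit 78) (nat_lit 0) (nat_lit 0) (XT.lf (nat_lit 76) (nat_lit 7180753656) (nat_lit 0) (nat_lit 38009743345) (nat_lit 532) (nat_lit 40695975203) (nat_lit 42) (nat_lit 5) (nat_lit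 41) (nat_lit 5) (nat_lit 48) (nat_lit 5) (nat_lit 301) (nat_lit 298) (nat_lit 181)) (XT.lf (nat_lit 76) (nat_lit 49075831025) (nat_lit 0) (nat_lit 1056247642) (nat_lit 532) (nat_lit 39350562260) (nat_lit 42) (nat_lit 5) (nat_lit 41) (nat_lit 5) (nat_lit 48) (nat_lit 5) (nat_lit 302) (nat_lit 298) (nat_lit 180)))) (XT.nd (nat_lit 156) (nat_lit 380) (nat_lit 0) (XT.nd (nat_lit 78) (nat_lit 0) (nat_lit 0) (XT.lf (nat_lit 76) (nat_lit 22045413) (nat_lit 0) (nat_lit 56381084621) (nat_lit 532) (nat_lit 36888645095) (nat_lit 43) (nat_lit 5) (nat_lit 42) (nat_lit 5) (nat_lit 49) (nat_lit 5) (nat_lit 303) (nat_lit 298) (nat_lit 179)) (XT.lf (nat_lit 76) (nat_lit 45953676223) (nat_lit 0) (nat_lit 18352953601) (nat_lit 532) (nat_lit 33008552279) (nat_lit 43) (nat_lit 5) (nat_lit 42) (nat_lit 5) (nat_lit 49) (nat_lit 5) (nat_lit 304) (nat_lit 298) (nat_lit 178))) (XT.nd (nat_lit 78) (nat_lit 456)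 (nat_lit 0) (XT.lf (nat_lit 0) (nat_lit 73388054635) (nat_lit 456) (nat_lit 6647620128) (nat_lit 76) (nat_lit 21581138215) (nat_lit 43) (nat_lit 5) (nat_lit 49) (nat_lit 5) (nat_lit 44) (nat_lit 5) (nat_lit 305) (nat_lit 298) (nat_lit 177)) (XT.lf (nat_lit 0) (nat_lit 43333815548) (nat_lit 456) (nat_lit 41380400199) (nat_lit 532) (nat_lit 21426903517) (nat_lit 37) (nat_lit 5) (nat_lit 43) (nat_lit 5) (nat_lit 44) (nat_lit 5) (nat_lit 306) (nat_lit 298) (nat_lit 176))))) (XT.nd (nat_lit 234) (nat_lit 456) (nat_lit 0) (XT.nd (nat_lit 78) (nat_lit 304) (nat_lit 0) (XT.lf (nat_lit 0) (nat_lit 97141160647) (nat_lit 532) (nat_lit 13335193901) (nat_lit 76) (nat_lit 535442759) (nat_lit 37) (nat_lit 5) (nat_lit 44) (nat_lit 5) (nat_lit 38) (nat_lit 5) (nat_lit 307) (nat_lit 298) (nat_lit 175)) (XT.nd (nat_lit 78) (nat_lit 76) (nat_lit 0) (XT.lf (nat_lit 0) (nat_lit 41073970145) (nat_lit 228)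 (nat_lit 71550361291) (nat_lit 304) (nat_lit 3482834870) (nat_lit 34) (nat_lit 5) (nat_lit 37) (nat_lit 5) (nat_lit 38) (nat_lit 5) (nat_lit 308) (nat_lit 298) (nat_lit 174)) (XT.lf (nat_lit 0) (nat_lit 7722521007) (nat_lit 304) (nat_lit 21182867810) (nat_lit 76) (nat_lit 92660012708) (nat_lit 33) (nat_lit 5) (nat_lit 37) (nat_lit 5) (nat_lit 34) (nat_lit 5) (nat_lit 309) (nat_lit 298) (nat_lit 173)))) (XT.nd (nat_lit 156) (nat_lit 228) (nat_lit 0) (XT.nd (nat_lit 78) (nat_lit 0) (nat_lit 0) (XT.lf (nat_lit 0) (nat_lit 21008494089) (nat_lit 304) (nat_lit 88990751918) (nat_lit 76) (nat_lit 17344026169) (nat_lit 30) (nat_lit 5) (nat_lit 34) (nat_lit 5) (nat_lit 31) (nat_lit 5) (nat_lit 310) (nat_lit 298) (nat_lit 172)) (XT.lf (nat_lit 0) (nat_lit 36701858468) (nat_lit 304) (nat_lit 30448026952) (nat_lit 76) (nat_lit 66325927701) (nat_lit 30) (nat_lit 5) (nat_lit 34) (nat_lit 5) (nat_lit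 31) (nat_lit 5) (nat_lit 311) (nat_lit 298) (nat_lit 171))) (XT.nd (nat_lit 78) (nat_lit 0) (nat_lit 0) (XT.lf (nat_lit 0) (nat_lit 34503584689) (nat_lit 228) (nat_lit 19976459557) (nat_lit 304) (nat_lit 85552566506) (nat_lit 27) (nat_lit 5) (nat_lit 30) (nat_lit 5) (nat_lit 31) (nat_lit 5) (nat_lit 312) (nat_lit 298) (nat_lit 170)) (XT.lf (nat_lit 0) (nat_lit 75279020290) (nat_lit 304) (nat_lit 41431454441) (nat_lit 76) (nat_lit 30275596106) (nat_lit 27) (nat_lit 5) (nat_lit 31) (nat_lit 5) (nat_lit 28) (nat_lit 5) (nat_lit 313) (nat_lit 298) (nat_lit 169)))))) (XT.nd (nat_lit 546) (nat_lit 456) (nat_lit 0) (XT.nd (nat_lit 234) (nat_lit 228) (nat_lit 0) (XT.nd (nat_lit 78) (nat_lit 152) (nat_lit 0) (XT.lf (nat_lit 0) (nat_lit 28710762926) (nat_lit 152) (nat_lit 70240107216) (nat_lit 228) (nat_lit 55448222492) (nat_lit 25) (nat_lit 5) (nat_lit 27) (nat_lit 5) (nat_lit 28) (nat_lit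 5) (nat_lit 314) (nat_lit 298) (nat_lit 168)) (XT.nd (nat_lit 78) (nat_lit 152) (nat_lit 0) (XT.lf (nat_lit 0) (nat_lit 106820094816) (nat_lit 152) (nat_lit 18828792696) (nat_lit 228) (nat_lit 36665676363) (nat_lit 25) (nat_lit 5) (nat_lit 27) (nat_lit 5) (nat_lit 28) (nat_lit 5) (nat_lit 315) (nat_lit 298) (nat_lit 167)) (XT.lf (nat_lit 0) (nat_lit 20455126474) (nat_lit 152) (nat_lit 135401728409) (nat_lit 228) (nat_lit 14896490413) (nat_lit 23) (nat_lit 5) (nat_lit 25) (nat_lit 5) (nat_lit 26) (nat_lit 5) (nat_lit 316) (nat_lit 298) (nat_lit 166)))) (XT.nd (nat_lit 156) (nat_lit 0) (nat_lit 0) (XT.nd (nat_lit 78) (nat_lit 152) (nat_lit 0) (XT.lf (nat_lit 0) (nat_lit 10228740880) (nat_lit 228) (nat_lit 74845281060) (nat_lit 76) (nat_lit 94613000165) (nat_lit 22) (nat_lit 5) (nat_lit 25) (nat_lit 5) (nat_lit 23) (nat_lit 5) (nat_lit 317) (nat_lit 298) (nat_lit 165)) (XT.lf (nat_lit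 0) (nat_lit 6585959948) (nat_lit 152) (nat_lit 30131294013) (nat_lit 228) (nat_lit 152574541424) (nat_lit 20) (nat_lit 5) (nat_lit 22) (nat_lit 5) (nat_lit 23) (nat_lit 5) (nat_lit 318) (nat_lit 298) (nat_lit 164))) (XT.nd (nat_lit 78) (nat_lit 0) (nat_lit 0) (XT.lf (nat_lit 0) (nat_lit 68126508082) (nat_lit 228) (nat_lit 101469077003) (nat_lit 76) (nat_lit 29845233504) (nat_lit 20) (nat_lit 5) (nat_lit 23) (nat_lit 5) (nat_lit 21) (nat_lit 5) (nat_lit 319) (nat_lit 298) (nat_lit 163)) (XT.lf (nat_lit 0) (nat_lit 102830835915) (nat_lit 228) (nat_lit 14516451095) (nat_lit 76) (nat_lit 92991890764) (nat_lit 20) (nat_lit 5) (nat_lit 23) (nat_lit 5) (nat_lit 21) (nat_lit 5) (nat_lit 320) (nat_lit 298) (nat_lit 162))))) (XT.nd (nat_lit 234) (nat_lit 228) (nat_lit 0) (XT.nd (nat_lit 78) (nat_lit 76) (nat_lit 0) (XT.lf (nat_lit 0) (nat_lit 83572616184) (nat_lit 152) (nat_lit 58748541636)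 (nat_lit 228) (nat_lit 79627476783) (nat_lit 18) (nat_lit 5) (nat_lit 20) (nat_lit 5) (nat_lit 21) (nat_lit 5) (nat_lit 321) (nat_lit 298) (nat_lit 161)) (XT.nd (nat_lit 78) (nat_lit 76) (nat_lit 0) (XT.lf (nat_lit 0) (nat_lit 185486793708) (nat_lit 228) (nat_lit 44240591687) (nat_lit 76) (nat_lit 4718176207) (nat_lit 18) (nat_lit 5) (nat_lit 21) (nat_lit 5) (nat_lit 19) (nat_lit 4) (nat_lit 322) (nat_lit 298) (nat_lit 160)) (XT.lf (nat_lit 0) (nat_lit 58842906788) (nat_lit 76) (nat_lit 176203635003) (nat_lit 152) (nat_lit 12660432698) (nat_lit 17) (nat_lit 5) (nat_lit 18) (nat_lit 5) (nat_lit 19) (nat_lit 4) (nat_lit 323) (nat_lit 298) (nat_lit 159)))) (XT.nd (nat_lit 156) (nat_lit 0) (nat_lit 0) (XT.nd (nat_lit 78) (nat_lit 152) (nat_lit 0) (XT.lf (nat_lit 0) (nat_lit 26454831709) (nat_lit 152) (nat_lit 89913583554) (nat_lit 76) (nat_lit 145510556133) (nat_lit 16) (nat_lit 5) (nat_lit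 18) (nat_lit 5) (nat_lit 17) (nat_lit 5) (nat_lit 324) (nat_lit 298) (nat_lit 158)) (XT.lf (nat_lit 0) (nat_lit 17499111839) (nat_lit 152) (nat_lit 50936839884) (nat_lit 228) (nat_lit 208688819310) (nat_lit 14) (nat_lit 5) (nat_lit 16) (nat_lit 5) (nat_lit 17) (nat_lit 5) (nat_lit 325) (nat_lit 298) (nat_lit 157))) (XT.nd (nat_lit 78) (nat_lit 0) (nat_lit 0) (XT.lf (nat_lit 0) (nat_lit 116772079493) (nat_lit 228) (nat_lit 155313985695) (nat_lit 76) (nat_lit 21264448464) (nat_lit 14) (nat_lit 5) (nat_lit 17) (nat_lit 5) (nat_lit 15) (nat_lit 4) (nat_lit 326) (nat_lit 298) (nat_lit 156)) (XT.lf (nat_lit 0) (nat_lit 170297926514) (nat_lit 228) (nat_lit 43980753070) (nat_lit 76) (nat_lit 96489810205) (nat_lit 14) (nat_lit 5) (nat_lit 17) (nat_lit 5) (nat_lit 15) (nat_lit 4) (nat_lit 327) (nat_lit 298) (nat_lit 155))))))) (XT.nd (nat_lit 1092) (nat_lit 228) (nat_lit 0) (XT.nd (nat_lit 546)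 (nat_lit 228) (nat_lit 0) (XT.nd (nat_lit 234) (nat_lit 228) (nat_lit 0) (XT.nd (nat_lit 78) (nat_lit 0) (nat_lit 0) (XT.lf (nat_lit 0) (nat_lit 80274477889) (nat_lit 76) (nat_lit 149761775999) (nat_lit 152) (nat_lit 99389217519) (nat_lit 13) (nat_lit 5) (nat_lit 14) (nat_lit 5) (nat_lit 15) (nat_lit 4) (nat_lit 328) (nat_lit 298) (nat_lit 154)) (XT.nd (nat_lit 78) (nat_lit 0) (nat_lit 0) (XT.lf (nat_lit 0) (nat_lit 216971044922) (nat_lit 76) (nat_lit 78784930465) (nat_lit 152) (nat_lit 53722850302) (nat_lit 13) (nat_lit 5) (nat_lit 14) (nat_lit 5) (nat_lit 15) (nat_lit 4) (nat_lit 329) (nat_lit 298) (nat_lit 153)) (XT.lf (nat_lit 0) (nat_lit 364603053240) (nat_lit 76) (nat_lit 2130051184) (nat_lit 152) (nat_lit 4403357845) (nat_lit 13) (nat_lit 5) (nat_lit 14) (nat_lit 5) (nat_lit 15) (nat_lit 4) (nat_lit 330) (nat_lit 298) (nat_lit 152)))) (XT.nd (nat_lit 156) (nat_lit 76) (nat_lit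 0) (XT.nd (nat_lit 78) (nat_lit 0) (nat_lit 0) (XT.lf (nat_lit 0) (nat_lit 51721198148) (nat_lit 152) (nat_lit 261125642040) (nat_lit 76) (nat_lit 81161558770) (nat_lit 11) (nat_lit 5) (nat_lit 13) (nat_lit 5) (nat_lit 12) (nat_lit 4) (nat_lit 331) (nat_lit 298) (nat_lit 151)) (XT.lf (nat_lit 0) (nat_lit 112336264826) (nat_lit 152) (nat_lit 135046636823) (nat_lit 76) (nat_lit 171298964019) (nat_lit 11) (nat_lit 5) (nat_lit 13) (nat_lit 5) (nat_lit 12) (nat_lit 4) (nat_lit 332) (nat_lit 298) (nat_lit 150))) (XT.nd (nat_lit 78) (nat_lit 0) (nat_lit 0) (XT.lf (nat_lit 0) (nat_lit 1177328807) (nat_lit 76) (nat_lit 176651375634) (nat_lit 152) (nat_lit 267498252114) (nat_lit 10) (nat_lit 5) (nat_lit 11) (nat_lit 5) (nat_lit 12) (nat_lit 4) (nat_lit 333) (nat_lit 298) (nat_lit 149)) (XT.lf (nat_lit 0) (nat_lit 155979185278) (nat_lit 76) (nat_lit 96273626071) (nat_lit 152) (nat_lit 221555461827)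 (nat_lit 10) (nat_lit 5) (nat_lit 11) (nat_lit 5) (nat_lit 12) (nat_lit 4) (nat_lit 334) (nat_lit 298) (nat_lit 148))))) (XT.nd (nat_lit 234) (nat_lit 152) (nat_lit 0) (XT.nd (nat_lit 78) (nat_lit 76) (nat_lit 0) (XT.lf (nat_lit 0) (nat_lit 323164960352) (nat_lit 76) (nat_lit 9465754745) (nat_lit 152) (nat_lit 171937390783) (nat_lit 10) (nat_lit 5) (nat_lit 11) (nat_lit 5) (nat_lit 12) (nat_lit 4) (nat_lit 335) (nat_lit 298) (nat_lit 147)) (XT.nd (nat_lit 78) (nat_lit 76) (nat_lit 0) (XT.lf (nat_lit 0) (nat_lit 421465825275) (nat_lit 152) (nat_lit 36090446698) (nat_lit 0) (nat_lit 80070295494) (nat_lit 10) (nat_lit 5) (nat_lit 12) (nat_lit 4) (nat_lit 10) (nat_lit 4) (nat_lit 336) (nat_lit 298) (nat_lit 146)) (XT.lf (nat_lit 0) (nat_lit 126951845436) (nat_lit 76) (nat_lit 393754842578) (nat_lit 76) (nat_lit 52359102653) (nat_lit 9) (nat_lit 4) (nat_lit 10) (nat_lit 5) (nat_lit 10)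 (nat_lit 4) (nat_lit 337) (nat_lit 298) (nat_lit 145)))) (XT.nd (nat_lit 156) (nat_lit 76) (nat_lit 0) (XT.nd (nat_lit 78) (nat_lit 0) (nat_lit 0) (XT.lf (nat_lit 0) (nat_lit 16731229760) (nat_lit 152) (nat_lit 306594976600) (nat_lit 76) (nat_lit 287901126256) (nat_lit 8) (nat_lit 5) (nat_lit 10) (nat_lit 5) (nat_lit 9) (nat_lit 4) (nat_lit 338) (nat_lit 298) (nat_lit 144)) (XT.lf (nat_lit 0) (nat_lit 88519931439) (nat_lit 152) (nat_lit 157274657273) (nat_lit 76) (nat_lit 406538419684) (nat_lit 8) (nat_lit 5) (nat_lit 10) (nat_lit 5) (nat_lit 9) (nat_lit 4) (nat_lit 339) (nat_lit 298) (nat_lit 143))) (XT.nd (nat_lit 78) (nat_lit 0) (nat_lit 0) (XT.lf (nat_lit 0) (nat_lit 4201276439) (nat_lit 76) (nat_lit 161951395639) (nat_lit 152) (nat_lit 530566390868) (nat_lit 7) (nat_lit 5) (nat_lit 8) (nat_lit 5) (nat_lit 9) (nat_lit 4) (nat_lit 340) (nat_lit 298) (nat_lit 142)) (XT.lf (nat_lit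 0) (nat_lit 187539462401) (nat_lit 76) (nat_lit 66756642574) (nat_lit 152) (nat_lit 490015891173) (nat_lit 7) (nat_lit 5) (nat_lit 8) (nat_lit 5) (nat_lit 9) (nat_lit 4) (nat_lit 341) (nat_lit 298) (nat_lit 141)))))) (XT.nd (nat_lit 546) (nat_lit 152) (nat_lit 0) (XT.nd (nat_lit 234) (nat_lit 76) (nat_lit 0) (XT.nd (nat_lit 78) (nat_lit 0) (nat_lit 0) (XT.lf (nat_lit 0) (nat_lit 350358015108) (nat_lit 152) (nat_lit 411034917185) (nat_lit 0) (nat_lit 34250071619) (nat_lit 7) (nat_lit 5) (nat_lit 9) (nat_lit 4) (nat_lit 7) (nat_lit 4) (nat_lit 342) (nat_lit 298) (nat_lit 140)) (XT.nd (nat_lit 78) (nat_lit 0) (nat_lit 0) (XT.lf (nat_lit 0) (nat_lit 455838733928) (nat_lit 152) (nat_lit 255372382187) (nat_lit 0) (nat_lit 139730667821) (nat_lit 7) (nat_lit 5) (nat_lit 9) (nat_lit 4) (nat_lit 7) (nat_lit 4) (nat_lit 343) (nat_lit 298) (nat_lit 139)) (XT.lf (nat_lit 0) (nat_lit 569757833500)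 (nat_lit 152) (nat_lit 87256985240) (nat_lit 0) (nat_lit 253649653860) (nat_lit 7) (nat_lit 5) (nat_lit 9) (nat_lit 4) (nat_lit 7) (nat_lit 4) (nat_lit 344) (nat_lit 298) (nat_lit 138)))) (XT.nd (nat_lit 156) (nat_lit 0) (nat_lit 0) (XT.nd (nat_lit 78) (nat_lit 0) (nat_lit 0) (XT.lf (nat_lit 0) (nat_lit 99273579551) (nat_lit 76) (nat_lit 595904342396) (nat_lit 76) (nat_lit 279796057631) (nat_lit 6) (nat_lit 4) (nat_lit 7) (nat_lit 5) (nat_lit 7) (nat_lit 4) (nat_lit 345) (nat_lit 298) (nat_lit 137)) (XT.lf (nat_lit 0) (nat_lit 305688844477) (nat_lit 76) (nat_lit 527328464742) (nat_lit 76) (nat_lit 211220082640) (nat_lit 6) (nat_lit 4) (nat_lit 7) (nat_lit 5) (nat_lit 7) (nat_lit 4) (nat_lit 346) (nat_lit 298) (nat_lit 136))) (XT.nd (nat_lit 78) (nat_lit 0) (nat_lit 0) (XT.lf (nat_lit 0) (nat_lit 528617212897) (nat_lit 76) (nat_lit 453266570818) (nat_lit 76) (nat_lit 137158098589) (nat_lit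 6) (nat_lit 4) (nat_lit 7) (nat_lit 5) (nat_lit 7) (nat_lit 4) (nat_lit 347) (nat_lit 298) (nat_lit 135)) (XT.lf (nat_lit 0) (nat_lit 769379741807) (nat_lit 76) (nat_lit 373279775326) (nat_lit 76) (nat_lit 57171219646) (nat_lit 6) (nat_lit 4) (nat_lit 7) (nat_lit 5) (nat_lit 7) (nat_lit 4) (nat_lit 348) (nat_lit 298) (nat_lit 134))))) (XT.nd (nat_lit 312) (nat_lit 0) (nat_lit 0) (XT.nd (nat_lit 156) (nat_lit 76) (nat_lit 0) (XT.nd (nat_lit 78) (nat_lit 0) (nat_lit 0) (XT.lf (nat_lit 0) (nat_lit 27753120371) (nat_lit 152) (nat_lit 258382142576) (nat_lit 76) (nat_lit 1000891232255) (nat_lit 5) (nat_lit 5) (nat_lit 7) (nat_lit 5) (nat_lit 6) (nat_lit 4) (nat_lit 349) (nat_lit 298) (nat_lit 133)) (XT.lf (nat_lit 0) (nat_lit 116382624775) (nat_lit 152) (nat_lit 74032844962) (nat_lit 76) (nat_lit 1190663651440) (nat_lit 5) (nat_lit 5) (nat_lit 7) (nat_lit 5) (nat_lit 6) (nat_lit 4) (nat_lit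 350) (nat_lit 298) (nat_lit 132))) (XT.nd (nat_lit 78) (nat_lit 0) (nat_lit 0) (XT.lf (nat_lit 0) (nat_lit 131649972150) (nat_lit 76) (nat_lit 83618654239) (nat_lit 152) (nat_lit 1267134039945) (nat_lit 4) (nat_lit 5) (nat_lit 5) (nat_lit 5) (nat_lit 6) (nat_lit 4) (nat_lit 351) (nat_lit 298) (nat_lit 131)) (XT.lf (nat_lit 0) (nat_lit 324905138643) (nat_lit 152) (nat_lit 1234488010466) (nat_lit 0) (nat_lit 32211775605) (nat_lit 4) (nat_lit 5) (nat_lit 6) (nat_lit 4) (nat_lit 4) (nat_lit 4) (nat_lit 352) (nat_lit 298) (nat_lit 130)))) (XT.nd (nat_lit 156) (nat_lit 0) (nat_lit 0) (XT.nd (nat_lit 78) (nat_lit 0) (nat_lit 0) (XT.lf (nat_lit 0) (nat_lit 445484440874) (nat_lit 152) (nat_lit 1111094148167) (nat_lit 0) (nat_lit 152791025248) (nat_lit 4) (nat_lit 5) (nat_lit 6) (nat_lit 4) (nat_lit 4) (nat_lit 4) (nat_lit 353) (nat_lit 298) (nat_lit 129)) (XT.lf (nat_lit 0) (nat_lit 575710046452)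 (nat_lit 152) (nat_lit 977828853757) (nat_lit 0) (nat_lit 283016582133) (nat_lit 4) (nat_lit 5) (nat_lit 6) (nat_lit 4) (nat_lit 4) (nat_lit 4) (nat_lit 354) (nat_lit 298) (nat_lit 128))) (XT.nd (nat_lit 78) (nat_lit 0) (nat_lit 0) (XT.lf (nat_lit 0) (nat_lit 716353662668) (nat_lit 152) (nat_lit 833902406971) (nat_lit 0) (nat_lit 423660153263) (nat_lit 4) (nat_lit 5) (nat_lit 6) (nat_lit 4) (nat_lit 4) (nat_lit 4) (nat_lit 355) (nat_lit 298) (nat_lit 127)) (XT.lf (nat_lit 0) (nat_lit 868248733174) (nat_lit 152) (nat_lit 678461910346) (nat_lit 0) (nat_lit 575555182022) (nat_lit 4) (nat_lit 5) (nat_lit 6) (nat_lit 4) (nat_lit 4) (nat_lit 4) (nat_lit 356) (nat_lit 298) (nat_lit 126))))))))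
noncomputable def xc106 : XT := (XT.nd (nat_lit 38142) (nat_lit 0) (nat_lit 0) (XT.nd (nat_lit 37050) (nat_lit 0) (nat_lit 988) (XT.nd (nat_lit 36504) (nat_lit 0) (nat_lit 2204) (XT.nd (nat_lit 36192) (nat_lit 0) (nat_lit 2736) (XT.nd (nat_lit 78) (nat_lit 0) (nat_lit 0) (XT.lf (nat_lit 0) (nat_lit 1032295376906) (nat_lit 152) (nat_lit 510586235015) (nat_lit 0) (nat_lit 739601787101) (nat_lit 4) (nat_lit 5) (nat_lit 6) (nat_lit 4) (nat_lit 4) (nat_lit 4) (nat_lit 357) (nat_lit 298) (nat_lit 125)) (XT.nd (nat_lit 36036) (nat_lit 0) (nat_lit 2736) (XT.lf (nat_lit 0) (nat_lit 1209465722125) (nat_lit 152) (nat_lit 329280562160) (nat_lit 0) (nat_lit 916772096529) (nat_lit 4) (nat_lit 5) (nat_lit 6) (nat_lit 4) (nat_lit 4) (nat_lit 4) (nat_lit 358) (nat_lit 298) (nat_lit 124)) (XT.lf (nat_lit 0) (nat_lit 19853316040) (nat_lit 532) (nat_lit 10667309046) (nat_lit 532) (nat_lit 10667309046)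 (nat_lit 40) (nat_lit 3) (nat_lit 47) (nat_lit 3) (nat_lit 47) (nat_lit 5) (nat_lit 299) (nat_lit 299) (nat_lit 182)))) (XT.nd (nat_lit 156) (nat_lit 0) (nat_lit 76) (XT.nd (nat_lit 78) (nat_lit 0) (nat_lit 76) (XT.lf (nat_lit 76) (nat_lit 15743255889) (nat_lit 0) (nat_lit 25938961260) (nat_lit 532) (nat_lit 43957663181) (nat_lit 41) (nat_lit 5) (nat_lit 40) (nat_lit 3) (nat_lit 47) (nat_lit 5) (nat_lit 300) (nat_lit 299) (nat_lit 181)) (XT.lf (nat_lit 0) (nat_lit 44701369246) (nat_lit 456) (nat_lit 32421315200) (nat_lit 532) (nat_lit 11971491005) (nat_lit 41) (nat_lit 5) (nat_lit 47) (nat_lit 5) (nat_lit 48) (nat_lit 5) (nat_lit 301) (nat_lit 299) (nat_lit 180))) (XT.nd (nat_lit 78) (nat_lit 0) (nat_lit 0) (XT.lf (nat_lit 76) (nat_lit 7766241418) (nat_lit 0) (nat_lit 41055521769) (nat_lit 532) (nat_lit 43934277656) (nat_lit 42) (nat_lit 5) (nat_lit 41) (nat_lit 5) (nat_lit 48) (nat_lit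 5) (nat_lit 302) (nat_lit 299) (nat_lit 179)) (XT.lf (nat_lit 76) (nat_lit 53012108127) (nat_lit 0) (nat_lit 1145376116) (nat_lit 532) (nat_lit 42482518757) (nat_lit 42) (nat_lit 5) (nat_lit 41) (nat_lit 5) (nat_lit 48) (nat_lit 5) (nat_lit 303) (nat_lit 299) (nat_lit 178))))) (XT.nd (nat_lit 234) (nat_lit 684) (nat_lit 0) (XT.nd (nat_lit 78) (nat_lit 0) (nat_lit 0) (XT.lf (nat_lit 76) (nat_lit 35087246) (nat_lit 0) (nat_lit 60894201435) (nat_lit 532) (nat_lit 39824658337) (nat_lit 43) (nat_lit 5) (nat_lit 42) (nat_lit 5) (nat_lit 49) (nat_lit 5) (nat_lit 304) (nat_lit 299) (nat_lit 177)) (XT.nd (nat_lit 78) (nat_lit 0) (nat_lit 76) (XT.lf (nat_lit 76) (nat_lit 49640413099) (nat_lit 0) (nat_lit 19823625115) (nat_lit 532) (nat_lit 35635275013) (nat_lit 43) (nat_lit 5) (nat_lit 42) (nat_lit 5) (nat_lit 49) (nat_lit 5) (nat_lit 305) (nat_lit 299) (nat_lit 176)) (XT.lf (nat_lit 0) (nat_lit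 79270968855) (nat_lit 456) (nat_lit 7168703081) (nat_lit 76) (nat_lit 23305487229) (nat_lit 43) (nat_lit 5) (nat_lit 49) (nat_lit 5) (nat_lit 44) (nat_lit 5) (nat_lit 306) (nat_lit 299) (nat_lit 175)))) (XT.nd (nat_lit 156) (nat_lit 304) (nat_lit 0) (XT.nd (nat_lit 78) (nat_lit 0) (nat_lit 0) (XT.lf (nat_lit 0) (nat_lit 46810975888) (nat_lit 456) (nat_lit 44691619165) (nat_lit 532) (nat_lit 23128868774) (nat_lit 37) (nat_lit 5) (nat_lit 43) (nat_lit 5) (nat_lit 44) (nat_lit 5) (nat_lit 307) (nat_lit 299) (nat_lit 174)) (XT.lf (nat_lit 0) (nat_lit 104922845276) (nat_lit 532) (nat_lit 14391436265) (nat_lit 76) (nat_lit 577585972) (nat_lit 37) (nat_lit 5) (nat_lit 44) (nat_lit 5) (nat_lit 38) (nat_lit 5) (nat_lit 308) (nat_lit 299) (nat_lit 173))) (XT.nd (nat_lit 78) (nat_lit 76) (nat_lit 0) (XT.lf (nat_lit 0) (nat_lit 44370193231) (nat_lit 228) (nat_lit 77273954584) (nat_lit 304) (nat_lit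 3750763100) (nat_lit 34) (nat_lit 5) (nat_lit 37) (nat_lit 5) (nat_lit 38) (nat_lit 5) (nat_lit 309) (nat_lit 299) (nat_lit 172)) (XT.lf (nat_lit 0) (nat_lit 8349733220) (nat_lit 304) (nat_lit 22867426059) (nat_lit 76) (nat_lit 100072687998) (nat_lit 33) (nat_lit 5) (nat_lit 37) (nat_lit 5) (nat_lit 34) (nat_lit 5) (nat_lit 310) (nat_lit 299) (nat_lit 171)))))) (XT.nd (nat_lit 546) (nat_lit 456) (nat_lit 0) (XT.nd (nat_lit 234) (nat_lit 304) (nat_lit 0) (XT.nd (nat_lit 78) (nat_lit 228) (nat_lit 0) (XT.lf (nat_lit 0) (nat_lit 22698143995) (nat_lit 304) (nat_lit 96099469699) (nat_lit 76) (nat_lit 18732371582) (nat_lit 30) (nat_lit 5) (nat_lit 34) (nat_lit 5) (nat_lit 31) (nat_lit 5) (nat_lit 311) (nat_lit 299) (nat_lit 170)) (XT.nd (nat_lit 78) (nat_lit 228) (nat_lit 0) (XT.lf (nat_lit 0) (nat_lit 39646313052) (nat_lit 304) (nat_lit 32874107652) (nat_lit 76) (nat_lit 71632764250) (nat_lit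 30) (nat_lit 5) (nat_lit 34) (nat_lit 5) (nat_lit 31) (nat_lit 5) (nat_lit 312) (nat_lit 299) (nat_lit 169)) (XT.lf (nat_lit 0) (nat_lit 37273385795) (nat_lit 228) (nat_lit 21572981465) (nat_lit 304) (nat_lit 92388192180) (nat_lit 27) (nat_lit 5) (nat_lit 30) (nat_lit 5) (nat_lit 31) (nat_lit 5) (nat_lit 313) (nat_lit 299) (nat_lit 168)))) (XT.nd (nat_lit 156) (nat_lit 152) (nat_lit 0) (XT.nd (nat_lit 78) (nat_lit 152) (nat_lit 0) (XT.lf (nat_lit 0) (nat_lit 81308710275) (nat_lit 304) (nat_lit 44736585474) (nat_lit 76) (nat_lit 32699046642) (nat_lit 27) (nat_lit 5) (nat_lit 31) (nat_lit 5) (nat_lit 28) (nat_lit 5) (nat_lit 314) (nat_lit 299) (nat_lit 167)) (XT.lf (nat_lit 0) (nat_lit 31016771679) (nat_lit 152) (nat_lit 75857210633) (nat_lit 228) (nat_lit 59876451508) (nat_lit 25) (nat_lit 5) (nat_lit 27) (nat_lit 5) (nat_lit 28) (nat_lit 5) (nat_lit 315) (nat_lit 299) (nat_lit 166)))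 (XT.nd (nat_lit 78) (nat_lit 152) (nat_lit 0) (XT.lf (nat_lit 0) (nat_lit 115374172512) (nat_lit 152) (nat_lit 20333146890) (nat_lit 228) (nat_lit 39591866784) (nat_lit 25) (nat_lit 5) (nat_lit 27) (nat_lit 5) (nat_lit 28) (nat_lit 5) (nat_lit 316) (nat_lit 299) (nat_lit 165)) (XT.lf (nat_lit 0) (nat_lit 22100275634) (nat_lit 152) (nat_lit 146231419080) (nat_lit 228) (nat_lit 16081395327) (nat_lit 23) (nat_lit 5) (nat_lit 25) (nat_lit 5) (nat_lit 26) (nat_lit 5) (nat_lit 317) (nat_lit 299) (nat_lit 164))))) (XT.nd (nat_lit 234) (nat_lit 228) (nat_lit 0) (XT.nd (nat_lit 78) (nat_lit 152) (nat_lit 0) (XT.lf (nat_lit 0) (nat_lit 11053034076) (nat_lit 228) (nat_lit 80824479436) (nat_lit 76) (nat_lit 102183974075) (nat_lit 22) (nat_lit 5) (nat_lit 25) (nat_lit 5) (nat_lit 23) (nat_lit 5) (nat_lit 318) (nat_lit 299) (nat_lit 163)) (XT.nd (nat_lit 78) (nat_lit 0) (nat_lit 0) (XT.lf (nat_lit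 0) (nat_lit 7121047584) (nat_lit 152) (nat_lit 32539334096) (nat_lit 228) (nat_lit 164774282015) (nat_lit 20) (nat_lit 5) (nat_lit 22) (nat_lit 5) (nat_lit 23) (nat_lit 5) (nat_lit 319) (nat_lit 299) (nat_lit 162)) (XT.lf (nat_lit 0) (nat_lit 73582005254) (nat_lit 228) (nat_lit 109578615278) (nat_lit 76) (nat_lit 32235019042) (nat_lit 20) (nat_lit 5) (nat_lit 23) (nat_lit 5) (nat_lit 21) (nat_lit 5) (nat_lit 320) (nat_lit 299) (nat_lit 161)))) (XT.nd (nat_lit 156) (nat_lit 76) (nat_lit 0) (XT.nd (nat_lit 78) (nat_lit 152) (nat_lit 0) (XT.lf (nat_lit 0) (nat_lit 111062281052) (nat_lit 228) (nat_lit 15670370993) (nat_lit 76) (nat_lit 100433248375) (nat_lit 20) (nat_lit 5) (nat_lit 23) (nat_lit 5) (nat_lit 21) (nat_lit 5) (nat_lit 321) (nat_lit 299) (nat_lit 160)) (XT.lf (nat_lit 0) (nat_lit 90265634423) (nat_lit 152) (nat_lit 63445998902) (nat_lit 228) (nat_lit 85992497088) (nat_lit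 18) (nat_lit 5) (nat_lit 20) (nat_lit 5) (nat_lit 21) (nat_lit 5) (nat_lit 322) (nat_lit 299) (nat_lit 159))) (XT.nd (nat_lit 78) (nat_lit 76) (nat_lit 0) (XT.lf (nat_lit 0) (nat_lit 200330219822) (nat_lit 228) (nat_lit 47772852396) (nat_lit 76) (nat_lit 5097764289) (nat_lit 18) (nat_lit 5) (nat_lit 21) (nat_lit 5) (nat_lit 19) (nat_lit 4) (nat_lit 323) (nat_lit 299) (nat_lit 158)) (XT.lf (nat_lit 0) (nat_lit 63557149081) (nat_lit 76) (nat_lit 190297430399) (nat_lit 152) (nat_lit 13668597251) (nat_lit 17) (nat_lit 5) (nat_lit 18) (nat_lit 5) (nat_lit 19) (nat_lit 4) (nat_lit 324) (nat_lit 299) (nat_lit 157))))))) (XT.nd (nat_lit 1092) (nat_lit 380) (nat_lit 0) (XT.nd (nat_lit 546) (nat_lit 304) (nat_lit 0) (XT.nd (nat_lit 234) (nat_lit 76) (nat_lit 0) (XT.nd (nat_lit 78) (nat_lit 152) (nat_lit 0) (XT.lf (nat_lit 0) (nat_lit 28575326067) (nat_lit 152) (nat_lit 97100139543) (nat_lit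 76) (nat_lit 157153485811) (nat_lit 16) (nat_lit 5) (nat_lit 18) (nat_lit 5) (nat_lit 17) (nat_lit 5) (nat_lit 325) (nat_lit 299) (nat_lit 156)) (XT.nd (nat_lit 78) (nat_lit 0) (nat_lit 0) (XT.lf (nat_lit 0) (nat_lit 18905406148) (nat_lit 152) (nat_lit 55009378338) (nat_lit 228) (nat_lit 225379643309) (nat_lit 14) (nat_lit 5) (nat_lit 16) (nat_lit 5) (nat_lit 17) (nat_lit 5) (nat_lit 326) (nat_lit 299) (nat_lit 155)) (XT.lf (nat_lit 0) (nat_lit 126117563034) (nat_lit 228) (nat_lit 167732963484) (nat_lit 76) (nat_lit 22967723084) (nat_lit 14) (nat_lit 5) (nat_lit 17) (nat_lit 5) (nat_lit 15) (nat_lit 4) (nat_lit 327) (nat_lit 299) (nat_lit 154)))) (XT.nd (nat_lit 156) (nat_lit 0) (nat_lit 0) (XT.nd (nat_lit 78) (nat_lit 76) (nat_lit 0) (XT.lf (nat_lit 0) (nat_lit 183925202469) (nat_lit 228) (nat_lit 47493527143) (nat_lit 76) (nat_lit 104210956820) (nat_lit 14) (nat_lit 5) (nat_lit 17)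 (nat_lit 5) (nat_lit 15) (nat_lit 4) (nat_lit 328) (nat_lit 299) (nat_lit 153)) (XT.lf (nat_lit 0) (nat_lit 86701978339) (nat_lit 76) (nat_lit 161740496034) (nat_lit 152) (nat_lit 107336762472) (nat_lit 13) (nat_lit 5) (nat_lit 14) (nat_lit 5) (nat_lit 15) (nat_lit 4) (nat_lit 329) (nat_lit 299) (nat_lit 152))) (XT.nd (nat_lit 78) (nat_lit 0) (nat_lit 0) (XT.lf (nat_lit 0) (nat_lit 234333860200) (nat_lit 76) (nat_lit 85085667454) (nat_lit 152) (nat_lit 58017351985) (nat_lit 13) (nat_lit 5) (nat_lit 14) (nat_lit 5) (nat_lit 15) (nat_lit 4) (nat_lit 330) (nat_lit 299) (nat_lit 151)) (XT.lf (nat_lit 0) (nat_lit 393776049059) (nat_lit 76) (nat_lit 2298550233) (nat_lit 152) (nat_lit 4752546527) (nat_lit 13) (nat_lit 5) (nat_lit 14) (nat_lit 5) (nat_lit 15) (nat_lit 4) (nat_lit 331) (nat_lit 299) (nat_lit 150))))) (XT.nd (nat_lit 234) (nat_lit 76) (nat_lit 0) (XT.nd (nat_lit 78) (nat_lit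 76) (nat_lit 0) (XT.lf (nat_lit 0) (nat_lit 55861765455) (nat_lit 152) (nat_lit 282010723169) (nat_lit 76) (nat_lit 87656347639) (nat_lit 11) (nat_lit 5) (nat_lit 13) (nat_lit 5) (nat_lit 12) (nat_lit 4) (nat_lit 332) (nat_lit 299) (nat_lit 149)) (XT.nd (nat_lit 78) (nat_lit 76) (nat_lit 0) (XT.lf (nat_lit 0) (nat_lit 121325824766) (nat_lit 152) (nat_lit 145845765700) (nat_lit 76) (nat_lit 185004607221) (nat_lit 11) (nat_lit 5) (nat_lit 13) (nat_lit 5) (nat_lit 12) (nat_lit 4) (nat_lit 333) (nat_lit 299) (nat_lit 148)) (XT.lf (nat_lit 0) (nat_lit 1276000672) (nat_lit 76) (nat_lit 190781569812) (nat_lit 152) (nat_lit 288895332823) (nat_lit 10) (nat_lit 5) (nat_lit 11) (nat_lit 5) (nat_lit 12) (nat_lit 4) (nat_lit 334) (nat_lit 299) (nat_lit 147)))) (XT.nd (nat_lit 156) (nat_lit 76) (nat_lit 0) (XT.nd (nat_lit 78) (nat_lit 0) (nat_lit 0) (XT.lf (nat_lit 0) (nat_lit 168461673397) (nat_lit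 76) (nat_lit 103973742201) (nat_lit 152) (nat_lit 239277325199) (nat_lit 10) (nat_lit 5) (nat_lit 11) (nat_lit 5) (nat_lit 12) (nat_lit 4) (nat_lit 335) (nat_lit 299) (nat_lit 146)) (XT.lf (nat_lit 0) (nat_lit 349022002824) (nat_lit 76) (nat_lit 10221372573) (nat_lit 152) (nat_lit 185689999107) (nat_lit 10) (nat_lit 5) (nat_lit 11) (nat_lit 5) (nat_lit 12) (nat_lit 4) (nat_lit 336) (nat_lit 299) (nat_lit 145))) (XT.nd (nat_lit 78) (nat_lit 76) (nat_lit 0) (XT.lf (nat_lit 0) (nat_lit 455185167775) (nat_lit 152) (nat_lit 38973991705) (nat_lit 0) (nat_lit 86477363935) (nat_lit 10) (nat_lit 5) (nat_lit 12) (nat_lit 4) (nat_lit 10) (nat_lit 4) (nat_lit 337) (nat_lit 299) (nat_lit 144)) (XT.lf (nat_lit 0) (nat_lit 137111590364) (nat_lit 76) (nat_lit 425253641872) (nat_lit 76) (nat_lit 56545657867) (nat_lit 9) (nat_lit 4) (nat_lit 10) (nat_lit 5) (nat_lit 10) (nat_lit 4) (nat_lit 338) (nat_lit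 299) (nat_lit 143)))))) (XT.nd (nat_lit 546) (nat_lit 228) (nat_lit 0) (XT.nd (nat_lit 234) (nat_lit 0) (nat_lit 0) (XT.nd (nat_lit 78) (nat_lit 76) (nat_lit 0) (XT.lf (nat_lit 0) (nat_lit 18071639527) (nat_lit 152) (nat_lit 331119140606) (nat_lit 76) (nat_lit 310934583536) (nat_lit 8) (nat_lit 5) (nat_lit 10) (nat_lit 5) (nat_lit 9) (nat_lit 4) (nat_lit 339) (nat_lit 299) (nat_lit 142)) (XT.nd (nat_lit 78) (nat_lit 76) (nat_lit 0) (XT.lf (nat_lit 0) (nat_lit 95603295756) (nat_lit 152) (nat_lit 169853450113) (nat_lit 76) (nat_lit 439062759166) (nat_lit 8) (nat_lit 5) (nat_lit 10) (nat_lit 5) (nat_lit 9) (nat_lit 4) (nat_lit 340) (nat_lit 299) (nat_lit 141)) (XT.lf (nat_lit 0) (nat_lit 4540477797) (nat_lit 76) (nat_lit 174906121290) (nat_lit 152) (nat_lit 573009849568) (nat_lit 7) (nat_lit 5) (nat_lit 8) (nat_lit 5) (nat_lit 9) (nat_lit 4) (nat_lit 341) (nat_lit 299) (nat_lit 140))))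 (XT.nd (nat_lit 156) (nat_lit 0) (nat_lit 0) (XT.nd (nat_lit 78) (nat_lit 0) (nat_lit 0) (XT.lf (nat_lit 0) (nat_lit 202545489062) (nat_lit 76) (nat_lit 72095890646) (nat_lit 152) (nat_lit 529215447125) (nat_lit 7) (nat_lit 5) (nat_lit 8) (nat_lit 5) (nat_lit 9) (nat_lit 4) (nat_lit 342) (nat_lit 299) (nat_lit 139)) (XT.lf (nat_lit 0) (nat_lit 378388153724) (nat_lit 152) (nat_lit 443914962587) (nat_lit 0) (nat_lit 36991206178) (nat_lit 7) (nat_lit 5) (nat_lit 9) (nat_lit 4) (nat_lit 7) (nat_lit 4) (nat_lit 343) (nat_lit 299) (nat_lit 138))) (XT.nd (nat_lit 78) (nat_lit 0) (nat_lit 0) (XT.lf (nat_lit 0) (nat_lit 492307219130) (nat_lit 152) (nat_lit 275799628342) (nat_lit 0) (nat_lit 150910166460) (nat_lit 7) (nat_lit 5) (nat_lit 9) (nat_lit 4) (nat_lit 7) (nat_lit 4) (nat_lit 344) (nat_lit 299) (nat_lit 137)) (XT.lf (nat_lit 0) (nat_lit 615339743966) (nat_lit 152) (nat_lit 94235188115)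 (nat_lit 0) (nat_lit 273942593958) (nat_lit 7) (nat_lit 5) (nat_lit 9) (nat_lit 4) (nat_lit 7) (nat_lit 4) (nat_lit 345) (nat_lit 299) (nat_lit 136))))) (XT.nd (nat_lit 312) (nat_lit 152) (nat_lit 0) (XT.nd (nat_lit 156) (nat_lit 0) (nat_lit 0) (XT.nd (nat_lit 78) (nat_lit 0) (nat_lit 0) (XT.lf (nat_lit 0) (nat_lit 107217762216) (nat_lit 76) (nat_lit 643575637404) (nat_lit 76) (nat_lit 302178397269) (nat_lit 6) (nat_lit 4) (nat_lit 7) (nat_lit 5) (nat_lit 7) (nat_lit 4) (nat_lit 346) (nat_lit 299) (nat_lit 135)) (XT.lf (nat_lit 0) (nat_lit 330146078240) (nat_lit 76) (nat_lit 569513767492) (nat_lit 76) (nat_lit 228116443906) (nat_lit 6) (nat_lit 4) (nat_lit 7) (nat_lit 5) (nat_lit 7) (nat_lit 4) (nat_lit 347) (nat_lit 299) (nat_lit 134))) (XT.nd (nat_lit 78) (nat_lit 0) (nat_lit 0) (XT.lf (nat_lit 0) (nat_lit 570908558636) (nat_lit 76) (nat_lit 489526994234) (nat_lit 76) (nat_lit 148129593379)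 (nat_lit 6) (nat_lit 4) (nat_lit 7) (nat_lit 5) (nat_lit 7) (nat_lit 4) (nat_lit 348) (nat_lit 299) (nat_lit 133)) (XT.lf (nat_lit 0) (nat_lit 830931944029) (nat_lit 76) (nat_lit 403141321936) (nat_lit 76) (nat_lit 61743849535) (nat_lit 6) (nat_lit 4) (nat_lit 7) (nat_lit 5) (nat_lit 7) (nat_lit 4) (nat_lit 349) (nat_lit 299) (nat_lit 132)))) (XT.nd (nat_lit 156) (nat_lit 76) (nat_lit 0) (XT.nd (nat_lit 78) (nat_lit 0) (nat_lit 0) (XT.lf (nat_lit 0) (nat_lit 29974309143) (nat_lit 152) (nat_lit 279050975629) (nat_lit 76) (nat_lit 1080963253865) (nat_lit 5) (nat_lit 5) (nat_lit 7) (nat_lit 5) (nat_lit 6) (nat_lit 4) (nat_lit 350) (nat_lit 299) (nat_lit 131)) (XT.lf (nat_lit 0) (nat_lit 125694104333) (nat_lit 152) (nat_lit 79953862973) (nat_lit 76) (nat_lit 1285917413027) (nat_lit 5) (nat_lit 5) (nat_lit 7) (nat_lit 5) (nat_lit 6) (nat_lit 4) (nat_lit 351) (nat_lit 299) (nat_lit 130)))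 (XT.nd (nat_lit 78) (nat_lit 0) (nat_lit 0) (XT.lf (nat_lit 0) (nat_lit 142183538760) (nat_lit 76) (nat_lit 90307420634) (nat_lit 152) (nat_lit 1368503851915) (nat_lit 4) (nat_lit 5) (nat_lit 5) (nat_lit 5) (nat_lit 6) (nat_lit 4) (nat_lit 352) (nat_lit 299) (nat_lit 129)) (XT.lf (nat_lit 0) (nat_lit 350898346357) (nat_lit 152) (nat_lit 1333245551571) (nat_lit 0) (nat_lit 34789356199) (nat_lit 4) (nat_lit 5) (nat_lit 6) (nat_lit 4) (nat_lit 4) (nat_lit 4) (nat_lit 353) (nat_lit 299) (nat_lit 128))))))))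
noncomputable def xc107 : XT := (XT.nd (nat_lit 38298) (nat_lit 0) (nat_lit 76) (XT.nd (nat_lit 37206) (nat_lit 0) (nat_lit 1064) (XT.nd (nat_lit 36660) (nat_lit 0) (nat_lit 2508) (XT.nd (nat_lit 234) (nat_lit 0) (nat_lit 0) (XT.nd (nat_lit 78) (nat_lit 0) (nat_lit 0) (XT.lf (nat_lit 0) (nat_lit 481123933758) (nat_lit 152) (nat_lit 1199980291380) (nat_lit 0) (nat_lit 165014898514) (nat_lit 4) (nat_lit 5) (nat_lit 6) (nat_lit 4) (nat_lit 4) (nat_lit 4) (nat_lit 354) (nat_lit 299) (nat_lit 127)) (XT.nd (nat_lit 78) (nat_lit 0) (nat_lit 0) (XT.lf (nat_lit 0) (nat_lit 621767533143) (nat_lit 152) (nat_lit 1056053876279) (nat_lit 0) (nat_lit 305658456153) (nat_lit 4) (nat_lit 5) (nat_lit 6) (nat_lit 4) (nat_lit 4) (nat_lit 4) (nat_lit 355) (nat_lit 299) (nat_lit 126)) (XT.lf (nat_lit 0) (nat_lit 773662588066) (nat_lit 152) (nat_lit 900613408993) (nat_lit 0) (nat_lit 457553472422) (nat_lit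 4) (nat_lit 5) (nat_lit 6) (nat_lit 4) (nat_lit 4) (nat_lit 4) (nat_lit 356) (nat_lit 299) (nat_lit 125)))) (XT.nd (nat_lit 36270) (nat_lit 0) (nat_lit 2736) (XT.nd (nat_lit 36192) (nat_lit 0) (nat_lit 2736) (XT.lf (nat_lit 0) (nat_lit 937709217369) (nat_lit 152) (nat_lit 732737760827) (nat_lit 0) (nat_lit 621600065935) (nat_lit 4) (nat_lit 5) (nat_lit 6) (nat_lit 4) (nat_lit 4) (nat_lit 4) (nat_lit 357) (nat_lit 299) (nat_lit 124)) (XT.lf (nat_lit 0) (nat_lit 21450066333) (nat_lit 532) (nat_lit 11516093769) (nat_lit 532) (nat_lit 11516093769) (nat_lit 40) (nat_lit 3) (nat_lit 47) (nat_lit 3) (nat_lit 47) (nat_lit 5) (nat_lit 300) (nat_lit 300) (nat_lit 180))) (XT.nd (nat_lit 78) (nat_lit 0) (nat_lit 76) (XT.lf (nat_lit 76) (nat_lit 17011683451) (nat_lit 0) (nat_lit 28021039710) (nat_lit 532) (nat_lit 47457006282) (nat_lit 41) (nat_lit 5) (nat_lit 40) (nat_lit 3) (nat_lit 47) (nat_lit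 5) (nat_lit 301) (nat_lit 300) (nat_lit 179)) (XT.lf (nat_lit 0) (nat_lit 48292072503) (nat_lit 456) (nat_lit 35005320573) (nat_lit 532) (nat_lit 12923086856) (nat_lit 41) (nat_lit 5) (nat_lit 47) (nat_lit 5) (nat_lit 48) (nat_lit 5) (nat_lit 302) (nat_lit 300) (nat_lit 178))))) (XT.nd (nat_lit 234) (nat_lit 304) (nat_lit 0) (XT.nd (nat_lit 78) (nat_lit 0) (nat_lit 0) (XT.lf (nat_lit 76) (nat_lit 8396995010) (nat_lit 0) (nat_lit 44344249309) (nat_lit 532) (nat_lit 47434123125) (nat_lit 42) (nat_lit 5) (nat_lit 41) (nat_lit 5) (nat_lit 48) (nat_lit 5) (nat_lit 303) (nat_lit 300) (nat_lit 177)) (XT.nd (nat_lit 78) (nat_lit 0) (nat_lit 76) (XT.lf (nat_lit 76) (nat_lit 57261830738) (nat_lit 0) (nat_lit 1240974538) (nat_lit 532) (nat_lit 45867326975) (nat_lit 42) (nat_lit 5) (nat_lit 41) (nat_lit 5) (nat_lit 48) (nat_lit 5) (nat_lit 304) (nat_lit 300) (nat_lit 176)) (XT.lf (nat_lit 76)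 (nat_lit 47563464) (nat_lit 0) (nat_lit 65767992390) (nat_lit 532) (nat_lit 42997703737) (nat_lit 43) (nat_lit 5) (nat_lit 42) (nat_lit 5) (nat_lit 49) (nat_lit 5) (nat_lit 305) (nat_lit 300) (nat_lit 175)))) (XT.nd (nat_lit 156) (nat_lit 380) (nat_lit 0) (XT.nd (nat_lit 78) (nat_lit 0) (nat_lit 76) (XT.lf (nat_lit 76) (nat_lit 53620599145) (nat_lit 0) (nat_lit 21411602939) (nat_lit 532) (nat_lit 38474127321) (nat_lit 43) (nat_lit 5) (nat_lit 42) (nat_lit 5) (nat_lit 49) (nat_lit 5) (nat_lit 306) (nat_lit 300) (nat_lit 174)) (XT.lf (nat_lit 0) (nat_lit 85622822846) (nat_lit 456) (nat_lit 7733002948) (nat_lit 76) (nat_lit 25168089750) (nat_lit 43) (nat_lit 5) (nat_lit 49) (nat_lit 5) (nat_lit 44) (nat_lit 5) (nat_lit 307) (nat_lit 300) (nat_lit 173))) (XT.nd (nat_lit 78) (nat_lit 0) (nat_lit 0) (XT.lf (nat_lit 0) (nat_lit 50564817519) (nat_lit 456) (nat_lit 48267623381) (nat_lit 532)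 (nat_lit 24968729867) (nat_lit 37) (nat_lit 5) (nat_lit 43) (nat_lit 5) (nat_lit 44) (nat_lit 5) (nat_lit 308) (nat_lit 300) (nat_lit 172)) (XT.lf (nat_lit 0) (nat_lit 113325582173) (nat_lit 532) (nat_lit 15533686395) (nat_lit 76) (nat_lit 623199394) (nat_lit 37) (nat_lit 5) (nat_lit 44) (nat_lit 5) (nat_lit 38) (nat_lit 5) (nat_lit 309) (nat_lit 300) (nat_lit 171)))))) (XT.nd (nat_lit 546) (nat_lit 532) (nat_lit 0) (XT.nd (nat_lit 234) (nat_lit 380) (nat_lit 0) (XT.nd (nat_lit 78) (nat_lit 304) (nat_lit 0) (XT.lf (nat_lit 0) (nat_lit 47928643972) (nat_lit 228) (nat_lit 83455497484) (nat_lit 304) (nat_lit 4041651858) (nat_lit 34) (nat_lit 5) (nat_lit 37) (nat_lit 5) (nat_lit 38) (nat_lit 5) (nat_lit 310) (nat_lit 300) (nat_lit 170)) (XT.nd (nat_lit 78) (nat_lit 228) (nat_lit 0) (XT.lf (nat_lit 0) (nat_lit 9025779891) (nat_lit 304) (nat_lit 24688185734) (nat_lit 76) (nat_lit 108078395248)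 (nat_lit 33) (nat_lit 5) (nat_lit 37) (nat_lit 5) (nat_lit 34) (nat_lit 5) (nat_lit 311) (nat_lit 300) (nat_lit 169)) (XT.lf (nat_lit 0) (nat_lit 24521686169) (nat_lit 304) (nat_lit 103778388889) (nat_lit 76) (nat_lit 20231667172) (nat_lit 30) (nat_lit 5) (nat_lit 34) (nat_lit 5) (nat_lit 31) (nat_lit 5) (nat_lit 312) (nat_lit 300) (nat_lit 168)))) (XT.nd (nat_lit 156) (nat_lit 152) (nat_lit 0) (XT.nd (nat_lit 78) (nat_lit 228) (nat_lit 0) (XT.lf (nat_lit 0) (nat_lit 42825139072) (nat_lit 304) (nat_lit 35495667388) (nat_lit 76) (nat_lit 77364038967) (nat_lit 30) (nat_lit 5) (nat_lit 34) (nat_lit 5) (nat_lit 31) (nat_lit 5) (nat_lit 313) (nat_lit 300) (nat_lit 167)) (XT.lf (nat_lit 0) (nat_lit 40263413664) (nat_lit 228) (nat_lit 23297452649) (nat_lit 304) (nat_lit 99771891889) (nat_lit 27) (nat_lit 5) (nat_lit 30) (nat_lit 5) (nat_lit 31) (nat_lit 5) (nat_lit 314) (nat_lit 300) (nat_lit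 166))) (XT.nd (nat_lit 78) (nat_lit 152) (nat_lit 0) (XT.lf (nat_lit 0) (nat_lit 87819724279) (nat_lit 304) (nat_lit 48307465911) (nat_lit 76) (nat_lit 35316173089) (nat_lit 27) (nat_lit 5) (nat_lit 31) (nat_lit 5) (nat_lit 28) (nat_lit 5) (nat_lit 315) (nat_lit 300) (nat_lit 165)) (XT.lf (nat_lit 0) (nat_lit 33505956109) (nat_lit 152) (nat_lit 81923982649) (nat_lit 228) (nat_lit 64660027177) (nat_lit 25) (nat_lit 5) (nat_lit 27) (nat_lit 5) (nat_lit 28) (nat_lit 5) (nat_lit 316) (nat_lit 300) (nat_lit 164))))) (XT.nd (nat_lit 234) (nat_lit 304) (nat_lit 0) (XT.nd (nat_lit 78) (nat_lit 228) (nat_lit 0) (XT.lf (nat_lit 0) (nat_lit 124611368067) (nat_lit 152) (nat_lit 21958127498) (nat_lit 228) (nat_lit 42753160153) (nat_lit 25) (nat_lit 5) (nat_lit 27) (nat_lit 5) (nat_lit 28) (nat_lit 5) (nat_lit 317) (nat_lit 300) (nat_lit 163)) (XT.nd (nat_lit 78) (nat_lit 76) (nat_lit 0) (XT.lf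 (nat_lit 0) (nat_lit 23875790006) (nat_lit 152) (nat_lit 157927834181) (nat_lit 228) (nat_lit 17362064773) (nat_lit 23) (nat_lit 5) (nat_lit 25) (nat_lit 5) (nat_lit 26) (nat_lit 5) (nat_lit 318) (nat_lit 300) (nat_lit 162)) (XT.lf (nat_lit 0) (nat_lit 11942415627) (nat_lit 228) (nat_lit 87283215477) (nat_lit 76) (nat_lit 110360350005) (nat_lit 22) (nat_lit 5) (nat_lit 25) (nat_lit 5) (nat_lit 23) (nat_lit 5) (nat_lit 319) (nat_lit 300) (nat_lit 161)))) (XT.nd (nat_lit 156) (nat_lit 152) (nat_lit 0) (XT.nd (nat_lit 78) (nat_lit 0) (nat_lit 0) (XT.lf (nat_lit 0) (nat_lit 7697770862) (nat_lit 152) (nat_lit 35140368822) (nat_lit 228) (nat_lit 177950889594) (nat_lit 20) (nat_lit 5) (nat_lit 22) (nat_lit 5) (nat_lit 23) (nat_lit 5) (nat_lit 320) (nat_lit 300) (nat_lit 160)) (XT.lf (nat_lit 0) (nat_lit 79473175178) (nat_lit 228) (nat_lit 118338056177) (nat_lit 76) (nat_lit 34815678298) (nat_lit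 20) (nat_lit 5) (nat_lit 23) (nat_lit 5) (nat_lit 21) (nat_lit 5) (nat_lit 321) (nat_lit 300) (nat_lit 159))) (XT.nd (nat_lit 78) (nat_lit 152) (nat_lit 0) (XT.lf (nat_lit 0) (nat_lit 119951531595) (nat_lit 228) (nat_lit 16917659632) (nat_lit 76) (nat_lit 108469628367) (nat_lit 20) (nat_lit 5) (nat_lit 23) (nat_lit 5) (nat_lit 21) (nat_lit 5) (nat_lit 322) (nat_lit 300) (nat_lit 158)) (XT.lf (nat_lit 0) (nat_lit 97493065685) (nat_lit 152) (nat_lit 68519598854) (nat_lit 228) (nat_lit 92867457694) (nat_lit 18) (nat_lit 5) (nat_lit 20) (nat_lit 5) (nat_lit 21) (nat_lit 5) (nat_lit 323) (nat_lit 300) (nat_lit 157))))))) (XT.nd (nat_lit 1092) (nat_lit 380) (nat_lit 0) (XT.nd (nat_lit 546) (nat_lit 228) (nat_lit 0) (XT.nd (nat_lit 234) (nat_lit 228) (nat_lit 0) (XT.nd (nat_lit 78) (nat_lit 152) (nat_lit 0) (XT.lf (nat_lit 0) (nat_lit 216360480529) (nat_lit 228) (nat_lit 51588690682) (nat_lit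 76) (nat_lit 5507414980) (nat_lit 18) (nat_lit 5) (nat_lit 21) (nat_lit 5) (nat_lit 19) (nat_lit 4) (nat_lit 324) (nat_lit 300) (nat_lit 156)) (XT.nd (nat_lit 78) (nat_lit 76) (nat_lit 0) (XT.lf (nat_lit 0) (nat_lit 68647559270) (nat_lit 76) (nat_lit 205519085425) (nat_lit 152) (nat_lit 14758081205) (nat_lit 17) (nat_lit 5) (nat_lit 18) (nat_lit 5) (nat_lit 19) (nat_lit 4) (nat_lit 325) (nat_lit 300) (nat_lit 155)) (XT.lf (nat_lit 0) (nat_lit 30864873947) (nat_lit 152) (nat_lit 104862551688) (nat_lit 76) (nat_lit 169727552387) (nat_lit 16) (nat_lit 5) (nat_lit 18) (nat_lit 5) (nat_lit 17) (nat_lit 5) (nat_lit 326) (nat_lit 300) (nat_lit 154)))) (XT.nd (nat_lit 156) (nat_lit 76) (nat_lit 0) (XT.nd (nat_lit 78) (nat_lit 0) (nat_lit 0) (XT.lf (nat_lit 0) (nat_lit 20423295911) (nat_lit 152) (nat_lit 59408063502) (nat_lit 228) (nat_lit 243406344038) (nat_lit 14) (nat_lit 5) (nat_lit 16)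 (nat_lit 5) (nat_lit 17) (nat_lit 5) (nat_lit 327) (nat_lit 300) (nat_lit 153)) (XT.lf (nat_lit 0) (nat_lit 136210154960) (nat_lit 228) (nat_lit 181146335588) (nat_lit 76) (nat_lit 24806957410) (nat_lit 14) (nat_lit 5) (nat_lit 17) (nat_lit 5) (nat_lit 15) (nat_lit 4) (nat_lit 328) (nat_lit 300) (nat_lit 152))) (XT.nd (nat_lit 78) (nat_lit 76) (nat_lit 0) (XT.lf (nat_lit 0) (nat_lit 198642169485) (nat_lit 228) (nat_lit 51288134338) (nat_lit 76) (nat_lit 112549515291) (nat_lit 14) (nat_lit 5) (nat_lit 17) (nat_lit 5) (nat_lit 15) (nat_lit 4) (nat_lit 329) (nat_lit 300) (nat_lit 151)) (XT.lf (nat_lit 0) (nat_lit 93642888166) (nat_lit 76) (nat_lit 174677830672) (nat_lit 152) (nat_lit 115920623524) (nat_lit 13) (nat_lit 5) (nat_lit 14) (nat_lit 5) (nat_lit 15) (nat_lit 4) (nat_lit 330) (nat_lit 300) (nat_lit 150))))) (XT.nd (nat_lit 234) (nat_lit 76) (nat_lit 0) (XT.nd (nat_lit 78) (nat_lit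 152) (nat_lit 0) (XT.lf (nat_lit 0) (nat_lit 253084968608) (nat_lit 76) (nat_lit 91890756919) (nat_lit 152) (nat_lit 62655888342) (nat_lit 13) (nat_lit 5) (nat_lit 14) (nat_lit 5) (nat_lit 15) (nat_lit 4) (nat_lit 331) (nat_lit 300) (nat_lit 149)) (XT.nd (nat_lit 78) (nat_lit 152) (nat_lit 0) (XT.lf (nat_lit 0) (nat_lit 425282206680) (nat_lit 76) (nat_lit 2480800983) (nat_lit 152) (nat_lit 5130109693) (nat_lit 13) (nat_lit 5) (nat_lit 14) (nat_lit 5) (nat_lit 15) (nat_lit 4) (nat_lit 332) (nat_lit 300) (nat_lit 148)) (XT.lf (nat_lit 0) (nat_lit 60333168501) (nat_lit 152) (nat_lit 304567319849) (nat_lit 76) (nat_lit 94670453673) (nat_lit 11) (nat_lit 5) (nat_lit 13) (nat_lit 5) (nat_lit 12) (nat_lit 4) (nat_lit 333) (nat_lit 300) (nat_lit 147)))) (XT.nd (nat_lit 156) (nat_lit 0) (nat_lit 0) (XT.nd (nat_lit 78) (nat_lit 76) (nat_lit 0) (XT.lf (nat_lit 0) (nat_lit 131034170201) (nat_lit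 152) (nat_lit 157509481425) (nat_lit 76) (nat_lit 199806455634) (nat_lit 11) (nat_lit 5) (nat_lit 13) (nat_lit 5) (nat_lit 12) (nat_lit 4) (nat_lit 334) (nat_lit 300) (nat_lit 146)) (XT.lf (nat_lit 0) (nat_lit 1381926371) (nat_lit 76) (nat_lit 206042452845) (nat_lit 152) (nat_lit 312004576510) (nat_lit 10) (nat_lit 5) (nat_lit 11) (nat_lit 5) (nat_lit 12) (nat_lit 4) (nat_lit 335) (nat_lit 300) (nat_lit 145))) (XT.nd (nat_lit 78) (nat_lit 0) (nat_lit 0) (XT.lf (nat_lit 0) (nat_lit 181942168051) (nat_lit 76) (nat_lit 112290120696) (nat_lit 152) (nat_lit 258417304790) (nat_lit 10) (nat_lit 5) (nat_lit 11) (nat_lit 5) (nat_lit 12) (nat_lit 4) (nat_lit 336) (nat_lit 300) (nat_lit 144)) (XT.lf (nat_lit 0) (nat_lit 376947060071) (nat_lit 76) (nat_lit 11037674155) (nat_lit 152) (nat_lit 200543156050) (nat_lit 10) (nat_lit 5) (nat_lit 11) (nat_lit 5) (nat_lit 12) (nat_lit 4) (nat_lit 337)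 (nat_lit 300) (nat_lit 143)))))) (XT.nd (nat_lit 546) (nat_lit 152) (nat_lit 0) (XT.nd (nat_lit 234) (nat_lit 76) (nat_lit 0) (XT.nd (nat_lit 78) (nat_lit 152) (nat_lit 0) (XT.lf (nat_lit 0) (nat_lit 491601761443) (nat_lit 152) (nat_lit 42088746836) (nat_lit 0) (nat_lit 93396791734) (nat_lit 10) (nat_lit 5) (nat_lit 12) (nat_lit 4) (nat_lit 10) (nat_lit 4) (nat_lit 338) (nat_lit 300) (nat_lit 142)) (XT.nd (nat_lit 78) (nat_lit 76) (nat_lit 0) (XT.lf (nat_lit 0) (nat_lit 148083601692) (nat_lit 76) (nat_lit 459272571670) (nat_lit 76) (nat_lit 61067447499) (nat_lit 9) (nat_lit 4) (nat_lit 10) (nat_lit 5) (nat_lit 10) (nat_lit 4) (nat_lit 339) (nat_lit 300) (nat_lit 141)) (XT.lf (nat_lit 0) (nat_lit 19519009395) (nat_lit 152) (nat_lit 357605727649) (nat_lit 76) (nat_lit 335810522356) (nat_lit 8) (nat_lit 5) (nat_lit 10) (nat_lit 5) (nat_lit 9) (nat_lit 4) (nat_lit 340) (nat_lit 300) (nat_lit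 140)))) (XT.nd (nat_lit 156) (nat_lit 0) (nat_lit 0) (XT.nd (nat_lit 78) (nat_lit 76) (nat_lit 0) (XT.lf (nat_lit 0) (nat_lit 103253076736) (nat_lit 152) (nat_lit 183439000005) (nat_lit 76) (nat_lit 474188865211) (nat_lit 8) (nat_lit 5) (nat_lit 10) (nat_lit 5) (nat_lit 9) (nat_lit 4) (nat_lit 341) (nat_lit 300) (nat_lit 139)) (XT.lf (nat_lit 0) (nat_lit 4906373122) (nat_lit 76) (nat_lit 188897422722) (nat_lit 152) (nat_lit 618849049254) (nat_lit 7) (nat_lit 5) (nat_lit 8) (nat_lit 5) (nat_lit 9) (nat_lit 4) (nat_lit 342) (nat_lit 300) (nat_lit 138))) (XT.nd (nat_lit 78) (nat_lit 0) (nat_lit 0) (XT.lf (nat_lit 0) (nat_lit 218751588466) (nat_lit 76) (nat_lit 77862461646) (nat_lit 152) (nat_lit 571551212266) (nat_lit 7) (nat_lit 5) (nat_lit 8) (nat_lit 5) (nat_lit 9) (nat_lit 4) (nat_lit 343) (nat_lit 300) (nat_lit 137)) (XT.lf (nat_lit 0) (nat_lit 408660489807) (nat_lit 152) (nat_lit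 479425803649) (nat_lit 0) (nat_lit 39951470462) (nat_lit 7) (nat_lit 5) (nat_lit 9) (nat_lit 4) (nat_lit 7) (nat_lit 4) (nat_lit 344) (nat_lit 300) (nat_lit 136))))) (XT.nd (nat_lit 312) (nat_lit 76) (nat_lit 0) (XT.nd (nat_lit 156) (nat_lit 76) (nat_lit 0) (XT.nd (nat_lit 78) (nat_lit 0) (nat_lit 0) (XT.lf (nat_lit 0) (nat_lit 531692985351) (nat_lit 152) (nat_lit 297861417179) (nat_lit 0) (nat_lit 162983875878) (nat_lit 7) (nat_lit 5) (nat_lit 9) (nat_lit 4) (nat_lit 7) (nat_lit 4) (nat_lit 345) (nat_lit 300) (nat_lit 135)) (XT.lf (nat_lit 0) (nat_lit 664568024122) (nat_lit 152) (nat_lit 101771983322) (nat_lit 0) (nat_lit 295858831198) (nat_lit 7) (nat_lit 5) (nat_lit 9) (nat_lit 4) (nat_lit 7) (nat_lit 4) (nat_lit 346) (nat_lit 300) (nat_lit 134))) (XT.nd (nat_lit 78) (nat_lit 0) (nat_lit 0) (XT.lf (nat_lit 0) (nat_lit 115797151900) (nat_lit 76) (nat_lit 695060786146) (nat_lit 76)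 (nat_lit 326351515953) (nat_lit 6) (nat_lit 4) (nat_lit 7) (nat_lit 5) (nat_lit 7) (nat_lit 4) (nat_lit 347) (nat_lit 300) (nat_lit 133)) (XT.lf (nat_lit 0) (nat_lit 356559587376) (nat_lit 76) (nat_lit 615074033475) (nat_lit 76) (nat_lit 246364691736) (nat_lit 6) (nat_lit 4) (nat_lit 7) (nat_lit 5) (nat_lit 7) (nat_lit 4) (nat_lit 348) (nat_lit 300) (nat_lit 132)))) (XT.nd (nat_lit 156) (nat_lit 76) (nat_lit 0) (XT.nd (nat_lit 78) (nat_lit 0) (nat_lit 0) (XT.lf (nat_lit 0) (nat_lit 616582931176) (nat_lit 76) (nat_lit 528688380239) (nat_lit 76) (nat_lit 159978972254) (nat_lit 6) (nat_lit 4) (nat_lit 7) (nat_lit 5) (nat_lit 7) (nat_lit 4) (nat_lit 349) (nat_lit 300) (nat_lit 131)) (XT.lf (nat_lit 0) (nat_lit 897408062374) (nat_lit 76) (nat_lit 435391911456) (nat_lit 76) (nat_lit 66682442132) (nat_lit 6) (nat_lit 4) (nat_lit 7) (nat_lit 5) (nat_lit 7) (nat_lit 4) (nat_lit 350) (nat_lit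 300) (nat_lit 130))) (XT.nd (nat_lit 78) (nat_lit 0) (nat_lit 0) (XT.lf (nat_lit 0) (nat_lit 32373059037) (nat_lit 152) (nat_lit 301373563322) (nat_lit 76) (nat_lit 1167440934056) (nat_lit 5) (nat_lit 5) (nat_lit 7) (nat_lit 5) (nat_lit 6) (nat_lit 4) (nat_lit 351) (nat_lit 300) (nat_lit 129)) (XT.lf (nat_lit 0) (nat_lit 135750378200) (nat_lit 152) (nat_lit 86348792050) (nat_lit 76) (nat_lit 1388791380034) (nat_lit 5) (nat_lit 5) (nat_lit 7) (nat_lit 5) (nat_lit 6) (nat_lit 4) (nat_lit 352) (nat_lit 300) (nat_lit 128))))))))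
noncomputable def xc108 : XT := (XT.nd (nat_lit 38376) (nat_lit 0) (nat_lit 152) (XT.nd (nat_lit 37284) (nat_lit 0) (nat_lit 1216) (XT.nd (nat_lit 36738) (nat_lit 0) (nat_lit 2508) (XT.nd (nat_lit 234) (nat_lit 0) (nat_lit 0) (XT.nd (nat_lit 78) (nat_lit 0) (nat_lit 0) (XT.lf (nat_lit 0) (nat_lit 153559566886) (nat_lit 76) (nat_lit 97531391905) (nat_lit 152) (nat_lit 1477983378840) (nat_lit 4) (nat_lit 5) (nat_lit 5) (nat_lit 5) (nat_lit 6) (nat_lit 4) (nat_lit 353) (nat_lit 300) (nat_lit 127)) (XT.nd (nat_lit 78) (nat_lit 0) (nat_lit 0) (XT.lf (nat_lit 0) (nat_lit 378970897041) (nat_lit 152) (nat_lit 1439903909919) (nat_lit 0) (nat_lit 37573052145) (nat_lit 4) (nat_lit 5) (nat_lit 6) (nat_lit 4) (nat_lit 4) (nat_lit 4) (nat_lit 354) (nat_lit 300) (nat_lit 126)) (XT.lf (nat_lit 0) (nat_lit 519614480843) (nat_lit 152) (nat_lit 1295977524156) (nat_lit 0) (nat_lit 178216597293) (nat_lit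 4) (nat_lit 5) (nat_lit 6) (nat_lit 4) (nat_lit 4) (nat_lit 4) (nat_lit 355) (nat_lit 300) (nat_lit 125)))) (XT.nd (nat_lit 36348) (nat_lit 0) (nat_lit 2736) (XT.nd (nat_lit 78) (nat_lit 0) (nat_lit 0) (XT.lf (nat_lit 0) (nat_lit 671509521336) (nat_lit 152) (nat_lit 1140537084034) (nat_lit 0) (nat_lit 330111601996) (nat_lit 4) (nat_lit 5) (nat_lit 6) (nat_lit 4) (nat_lit 4) (nat_lit 4) (nat_lit 356) (nat_lit 300) (nat_lit 124)) (XT.lf (nat_lit 0) (nat_lit 835556137279) (nat_lit 152) (nat_lit 972661461020) (nat_lit 0) (nat_lit 494158184799) (nat_lit 4) (nat_lit 5) (nat_lit 6) (nat_lit 4) (nat_lit 4) (nat_lit 4) (nat_lit 357) (nat_lit 300) (nat_lit 123))) (XT.nd (nat_lit 78) (nat_lit 0) (nat_lit 0) (XT.lf (nat_lit 0) (nat_lit 23173346168) (nat_lit 532) (nat_lit 12433437510) (nat_lit 532) (nat_lit 12433437510) (nat_lit 40) (nat_lit 3) (nat_lit 47) (nat_lit 3) (nat_lit 47) (nat_lit 5)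 (nat_lit 301) (nat_lit 301) (nat_lit 178)) (XT.lf (nat_lit 76) (nat_lit 18380305963) (nat_lit 0) (nat_lit 30268691292) (nat_lit 532) (nat_lit 51238760582) (nat_lit 41) (nat_lit 5) (nat_lit 40) (nat_lit 3) (nat_lit 47) (nat_lit 5) (nat_lit 302) (nat_lit 301) (nat_lit 177))))) (XT.nd (nat_lit 234) (nat_lit 304) (nat_lit 0) (XT.nd (nat_lit 78) (nat_lit 0) (nat_lit 0) (XT.lf (nat_lit 0) (nat_lit 52167950064) (nat_lit 456) (nat_lit 37797430166) (nat_lit 532) (nat_lit 13951683951) (nat_lit 41) (nat_lit 5) (nat_lit 47) (nat_lit 5) (nat_lit 48) (nat_lit 5) (nat_lit 303) (nat_lit 301) (nat_lit 176)) (XT.nd (nat_lit 78) (nat_lit 0) (nat_lit 0) (XT.lf (nat_lit 76) (nat_lit 9076860130) (nat_lit 0) (nat_lit 47895463636) (nat_lit 532) (nat_lit 51216081418) (nat_lit 42) (nat_lit 5) (nat_lit 41) (nat_lit 5) (nat_lit 48) (nat_lit 5) (nat_lit 304) (nat_lit 301) (nat_lit 175)) (XT.lf (nat_lit 76) (nat_lit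 61850282308) (nat_lit 0) (nat_lit 1343654707) (nat_lit 532) (nat_lit 49524887618) (nat_lit 42) (nat_lit 5) (nat_lit 41) (nat_lit 5) (nat_lit 48) (nat_lit 5) (nat_lit 305) (nat_lit 301) (nat_lit 174)))) (XT.nd (nat_lit 156) (nat_lit 380) (nat_lit 0) (XT.nd (nat_lit 78) (nat_lit 0) (nat_lit 0) (XT.lf (nat_lit 76) (nat_lit 59658355) (nat_lit 0) (nat_lit 71031364942) (nat_lit 532) (nat_lit 46426436987) (nat_lit 43) (nat_lit 5) (nat_lit 42) (nat_lit 5) (nat_lit 49) (nat_lit 5) (nat_lit 306) (nat_lit 301) (nat_lit 173)) (XT.lf (nat_lit 76) (nat_lit 57917922830) (nat_lit 0) (nat_lit 23126321138) (nat_lit 532) (nat_lit 41541795425) (nat_lit 43) (nat_lit 5) (nat_lit 42) (nat_lit 5) (nat_lit 49) (nat_lit 5) (nat_lit 307) (nat_lit 301) (nat_lit 172))) (XT.nd (nat_lit 78) (nat_lit 456) (nat_lit 0) (XT.lf (nat_lit 0) (nat_lit 92481373367) (nat_lit 456) (nat_lit 8343758770) (nat_lit 76) (nat_lit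 27179962465) (nat_lit 43) (nat_lit 5) (nat_lit 49) (nat_lit 5) (nat_lit 44) (nat_lit 5) (nat_lit 308) (nat_lit 301) (nat_lit 171)) (XT.lf (nat_lit 0) (nat_lit 54617687729) (nat_lit 456) (nat_lit 52129611683) (nat_lit 532) (nat_lit 26957270430) (nat_lit 37) (nat_lit 5) (nat_lit 43) (nat_lit 5) (nat_lit 44) (nat_lit 5) (nat_lit 309) (nat_lit 301) (nat_lit 170)))))) (XT.nd (nat_lit 546) (nat_lit 532) (nat_lit 0) (XT.nd (nat_lit 234) (nat_lit 456) (nat_lit 0) (XT.nd (nat_lit 78) (nat_lit 304) (nat_lit 0) (XT.lf (nat_lit 0) (nat_lit 122399267014) (nat_lit 532) (nat_lit 16768609726) (nat_lit 76) (nat_lit 672546553) (nat_lit 37) (nat_lit 5) (nat_lit 44) (nat_lit 5) (nat_lit 38) (nat_lit 5) (nat_lit 310) (nat_lit 301) (nat_lit 169)) (XT.nd (nat_lit 78) (nat_lit 76) (nat_lit 0) (XT.lf (nat_lit 0) (nat_lit 51770510321) (nat_lit 228) (nat_lit 90131617096) (nat_lit 304) (nat_lit 4357120246) (nat_lit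 34) (nat_lit 5) (nat_lit 37) (nat_lit 5) (nat_lit 38) (nat_lit 5) (nat_lit 311) (nat_lit 301) (nat_lit 168)) (XT.lf (nat_lit 0) (nat_lit 9754759304) (nat_lit 304) (nat_lit 26655837978) (nat_lit 76) (nat_lit 116724574455) (nat_lit 33) (nat_lit 5) (nat_lit 37) (nat_lit 5) (nat_lit 34) (nat_lit 5) (nat_lit 312) (nat_lit 301) (nat_lit 167)))) (XT.nd (nat_lit 156) (nat_lit 228) (nat_lit 0) (XT.nd (nat_lit 78) (nat_lit 0) (nat_lit 0) (XT.lf (nat_lit 0) (nat_lit 26490014558) (nat_lit 304) (nat_lit 112072911041) (nat_lit 76) (nat_lit 21850805710) (nat_lit 30) (nat_lit 5) (nat_lit 34) (nat_lit 5) (nat_lit 31) (nat_lit 5) (nat_lit 313) (nat_lit 301) (nat_lit 166)) (XT.lf (nat_lit 0) (nat_lit 46257255287) (nat_lit 304) (nat_lit 38328145817) (nat_lit 76) (nat_lit 83553722422) (nat_lit 30) (nat_lit 5) (nat_lit 34) (nat_lit 5) (nat_lit 31) (nat_lit 5) (nat_lit 314) (nat_lit 301) (nat_lit 165)))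 (XT.nd (nat_lit 78) (nat_lit 0) (nat_lit 0) (XT.lf (nat_lit 0) (nat_lit 43491480075) (nat_lit 228) (nat_lit 25160076594) (nat_lit 304) (nat_lit 107747336943) (nat_lit 27) (nat_lit 5) (nat_lit 30) (nat_lit 5) (nat_lit 31) (nat_lit 5) (nat_lit 315) (nat_lit 301) (nat_lit 164)) (XT.lf (nat_lit 0) (nat_lit 94850718187) (nat_lit 304) (nat_lit 52165164692) (nat_lit 76) (nat_lit 38142498072) (nat_lit 27) (nat_lit 5) (nat_lit 31) (nat_lit 5) (nat_lit 28) (nat_lit 5) (nat_lit 316) (nat_lit 301) (nat_lit 163))))) (XT.nd (nat_lit 234) (nat_lit 228) (nat_lit 0) (XT.nd (nat_lit 78) (nat_lit 152) (nat_lit 0) (XT.lf (nat_lit 0) (nat_lit 36193156444) (nat_lit 152) (nat_lit 88476353906) (nat_lit 228) (nat_lit 69827221968) (nat_lit 25) (nat_lit 5) (nat_lit 27) (nat_lit 5) (nat_lit 28) (nat_lit 5) (nat_lit 317) (nat_lit 301) (nat_lit 162)) (XT.nd (nat_lit 78) (nat_lit 152) (nat_lit 0) (XT.lf (nat_lit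 0) (nat_lit 134586503297) (nat_lit 152) (nat_lit 23713344961) (nat_lit 228) (nat_lit 46168220943) (nat_lit 25) (nat_lit 5) (nat_lit 27) (nat_lit 5) (nat_lit 28) (nat_lit 5) (nat_lit 318) (nat_lit 301) (nat_lit 161)) (XT.lf (nat_lit 0) (nat_lit 25792276664) (nat_lit 152) (nat_lit 170560261855) (nat_lit 228) (nat_lit 18746021228) (nat_lit 23) (nat_lit 5) (nat_lit 25) (nat_lit 5) (nat_lit 26) (nat_lit 5) (nat_lit 319) (nat_lit 301) (nat_lit 160)))) (XT.nd (nat_lit 156) (nat_lit 0) (nat_lit 0) (XT.nd (nat_lit 78) (nat_lit 152) (nat_lit 0) (XT.lf (nat_lit 0) (nat_lit 12902214590) (nat_lit 228) (nat_lit 94259680744) (nat_lit 76) (nat_lit 119190599478) (nat_lit 22) (nat_lit 5) (nat_lit 25) (nat_lit 5) (nat_lit 23) (nat_lit 5) (nat_lit 320) (nat_lit 301) (nat_lit 159)) (XT.lf (nat_lit 0) (nat_lit 8319627743) (nat_lit 152) (nat_lit 37949787628) (nat_lit 228) (nat_lit 192182386874) (nat_lit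 20) (nat_lit 5) (nat_lit 22) (nat_lit 5) (nat_lit 23) (nat_lit 5) (nat_lit 321) (nat_lit 301) (nat_lit 158))) (XT.nd (nat_lit 78) (nat_lit 0) (nat_lit 0) (XT.lf (nat_lit 0) (nat_lit 85834981098) (nat_lit 228) (nat_lit 127799229337) (nat_lit 76) (nat_lit 37602525267) (nat_lit 20) (nat_lit 5) (nat_lit 23) (nat_lit 5) (nat_lit 21) (nat_lit 5) (nat_lit 322) (nat_lit 301) (nat_lit 157)) (XT.lf (nat_lit 0) (nat_lit 129551313296) (nat_lit 228) (nat_lit 18265635982) (nat_lit 76) (nat_lit 117148673364) (nat_lit 20) (nat_lit 5) (nat_lit 23) (nat_lit 5) (nat_lit 21) (nat_lit 5) (nat_lit 323) (nat_lit 301) (nat_lit 156))))))) (XT.nd (nat_lit 1092) (nat_lit 304) (nat_lit 0) (XT.nd (nat_lit 546) (nat_lit 304) (nat_lit 0) (XT.nd (nat_lit 234) (nat_lit 228) (nat_lit 0) (XT.nd (nat_lit 78) (nat_lit 76) (nat_lit 0) (XT.lf (nat_lit 0) (nat_lit 105297809729) (nat_lit 152) (nat_lit 73999383531) (nat_lit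 228) (nat_lit 100293048445) (nat_lit 18) (nat_lit 5) (nat_lit 20) (nat_lit 5) (nat_lit 21) (nat_lit 5) (nat_lit 324) (nat_lit 301) (nat_lit 155)) (XT.nd (nat_lit 78) (nat_lit 76) (nat_lit 0) (XT.lf (nat_lit 0) (nat_lit 233672613828) (nat_lit 228) (nat_lit 55710650558) (nat_lit 76) (nat_lit 5949576721) (nat_lit 18) (nat_lit 5) (nat_lit 21) (nat_lit 5) (nat_lit 19) (nat_lit 4) (nat_lit 325) (nat_lit 301) (nat_lit 154)) (XT.lf (nat_lit 0) (nat_lit 74144369380) (nat_lit 76) (nat_lit 221958778062) (nat_lit 152) (nat_lit 15935295066) (nat_lit 17) (nat_lit 5) (nat_lit 18) (nat_lit 5) (nat_lit 19) (nat_lit 4) (nat_lit 326) (nat_lit 301) (nat_lit 153)))) (XT.nd (nat_lit 156) (nat_lit 0) (nat_lit 0) (XT.nd (nat_lit 78) (nat_lit 152) (nat_lit 0) (XT.lf (nat_lit 0) (nat_lit 33337083235) (nat_lit 152) (nat_lit 113246755566) (nat_lit 76) (nat_lit 183307289253) (nat_lit 16) (nat_lit 5) (nat_lit 18)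 (nat_lit 5) (nat_lit 17) (nat_lit 5) (nat_lit 327) (nat_lit 301) (nat_lit 152)) (XT.lf (nat_lit 0) (nat_lit 22061838315) (nat_lit 152) (nat_lit 64158938090) (nat_lit 228) (nat_lit 262875704497) (nat_lit 14) (nat_lit 5) (nat_lit 16) (nat_lit 5) (nat_lit 17) (nat_lit 5) (nat_lit 328) (nat_lit 301) (nat_lit 151))) (XT.nd (nat_lit 78) (nat_lit 0) (nat_lit 0) (XT.lf (nat_lit 0) (nat_lit 147109699596) (nat_lit 228) (nat_lit 195633528567) (nat_lit 76) (nat_lit 26793071342) (nat_lit 14) (nat_lit 5) (nat_lit 17) (nat_lit 5) (nat_lit 15) (nat_lit 4) (nat_lit 329) (nat_lit 301) (nat_lit 150)) (XT.lf (nat_lit 0) (nat_lit 214536072895) (nat_lit 228) (nat_lit 55387005578) (nat_lit 76) (nat_lit 121554918495) (nat_lit 14) (nat_lit 5) (nat_lit 17) (nat_lit 5) (nat_lit 15) (nat_lit 4) (nat_lit 330) (nat_lit 301) (nat_lit 149))))) (XT.nd (nat_lit 234) (nat_lit 228) (nat_lit 0) (XT.nd (nat_lit 78) (nat_lit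 0) (nat_lit 0) (XT.lf (nat_lit 0) (nat_lit 101138392916) (nat_lit 76) (nat_lit 188650423856) (nat_lit 152) (nat_lit 125191632849) (nat_lit 13) (nat_lit 5) (nat_lit 14) (nat_lit 5) (nat_lit 15) (nat_lit 4) (nat_lit 331) (nat_lit 301) (nat_lit 148)) (XT.nd (nat_lit 78) (nat_lit 0) (nat_lit 0) (XT.lf (nat_lit 0) (nat_lit 273335538038) (nat_lit 76) (nat_lit 99240505186) (nat_lit 152) (nat_lit 67665914450) (nat_lit 13) (nat_lit 5) (nat_lit 14) (nat_lit 5) (nat_lit 15) (nat_lit 4) (nat_lit 332) (nat_lit 301) (nat_lit 147)) (XT.lf (nat_lit 0) (nat_lit 459308275753) (nat_lit 76) (nat_lit 2677864796) (nat_lit 152) (nat_lit 5538254616) (nat_lit 13) (nat_lit 5) (nat_lit 14) (nat_lit 5) (nat_lit 15) (nat_lit 4) (nat_lit 333) (nat_lit 301) (nat_lit 146)))) (XT.nd (nat_lit 156) (nat_lit 76) (nat_lit 0) (XT.nd (nat_lit 78) (nat_lit 0) (nat_lit 0) (XT.lf (nat_lit 0) (nat_lit 65161932586) (nat_lit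 152) (nat_lit 328929052166) (nat_lit 76) (nat_lit 102245460185) (nat_lit 11) (nat_lit 5) (nat_lit 13) (nat_lit 5) (nat_lit 12) (nat_lit 4) (nat_lit 334) (nat_lit 301) (nat_lit 145)) (XT.lf (nat_lit 0) (nat_lit 141518858081) (nat_lit 152) (nat_lit 170106857281) (nat_lit 76) (nat_lit 215792240805) (nat_lit 11) (nat_lit 5) (nat_lit 13) (nat_lit 5) (nat_lit 12) (nat_lit 4) (nat_lit 335) (nat_lit 301) (nat_lit 144))) (XT.nd (nat_lit 78) (nat_lit 0) (nat_lit 0) (XT.lf (nat_lit 0) (nat_lit 1495777501) (nat_lit 76) (nat_lit 222524440849) (nat_lit 152) (nat_lit 336962899645) (nat_lit 10) (nat_lit 5) (nat_lit 11) (nat_lit 5) (nat_lit 12) (nat_lit 4) (nat_lit 336) (nat_lit 301) (nat_lit 143)) (XT.lf (nat_lit 0) (nat_lit 196500594292) (nat_lit 76) (nat_lit 121272026440) (nat_lit 152) (nat_lit 279088797520) (nat_lit 10) (nat_lit 5) (nat_lit 11) (nat_lit 5) (nat_lit 12) (nat_lit 4) (nat_lit 337)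 (nat_lit 301) (nat_lit 142)))))) (XT.nd (nat_lit 546) (nat_lit 76) (nat_lit 0) (XT.nd (nat_lit 234) (nat_lit 152) (nat_lit 0) (XT.nd (nat_lit 78) (nat_lit 76) (nat_lit 0) (XT.lf (nat_lit 0) (nat_lit 407105651541) (nat_lit 76) (nat_lit 11919480763) (nat_lit 152) (nat_lit 216584857003) (nat_lit 10) (nat_lit 5) (nat_lit 11) (nat_lit 5) (nat_lit 12) (nat_lit 4) (nat_lit 338) (nat_lit 301) (nat_lit 141)) (XT.nd (nat_lit 78) (nat_lit 76) (nat_lit 0) (XT.lf (nat_lit 0) (nat_lit 530931428631) (nat_lit 152) (nat_lit 45453133787) (nat_lit 0) (nat_lit 100869597044) (nat_lit 10) (nat_lit 5) (nat_lit 12) (nat_lit 4) (nat_lit 10) (nat_lit 4) (nat_lit 339) (nat_lit 301) (nat_lit 140)) (XT.lf (nat_lit 0) (nat_lit 159932933945) (nat_lit 76) (nat_lit 496013210094) (nat_lit 76) (nat_lit 65951246080) (nat_lit 9) (nat_lit 4) (nat_lit 10) (nat_lit 5) (nat_lit 10) (nat_lit 4) (nat_lit 340) (nat_lit 301)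 (nat_lit 139)))) (XT.nd (nat_lit 156) (nat_lit 76) (nat_lit 0) (XT.nd (nat_lit 78) (nat_lit 0) (nat_lit 0) (XT.lf (nat_lit 0) (nat_lit 21081935072) (nat_lit 152) (nat_lit 386211661679) (nat_lit 76) (nat_lit 362676369062) (nat_lit 8) (nat_lit 5) (nat_lit 10) (nat_lit 5) (nat_lit 9) (nat_lit 4) (nat_lit 341) (nat_lit 301) (nat_lit 138)) (XT.lf (nat_lit 0) (nat_lit 111514623732) (nat_lit 152) (nat_lit 198111782800) (nat_lit 76) (nat_lit 512124904907) (nat_lit 8) (nat_lit 5) (nat_lit 10) (nat_lit 5) (nat_lit 9) (nat_lit 4) (nat_lit 342) (nat_lit 301) (nat_lit 137))) (XT.nd (nat_lit 78) (nat_lit 0) (nat_lit 0) (XT.lf (nat_lit 0) (nat_lit 5301161008) (nat_lit 76) (nat_lit 204008197788) (nat_lit 152) (nat_lit 668355611501) (nat_lit 7) (nat_lit 5) (nat_lit 8) (nat_lit 5) (nat_lit 9) (nat_lit 4) (nat_lit 343) (nat_lit 301) (nat_lit 136)) (XT.lf (nat_lit 0) (nat_lit 236253824836) (nat_lit 76)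 (nat_lit 84090515290) (nat_lit 152) (nat_lit 617274048419) (nat_lit 7) (nat_lit 5) (nat_lit 8) (nat_lit 5) (nat_lit 9) (nat_lit 4) (nat_lit 344) (nat_lit 301) (nat_lit 135))))) (XT.nd (nat_lit 234) (nat_lit 76) (nat_lit 0) (XT.nd (nat_lit 78) (nat_lit 0) (nat_lit 0) (XT.lf (nat_lit 0) (nat_lit 441354429631) (nat_lit 152) (nat_lit 517777848098) (nat_lit 0) (nat_lit 43148417822) (nat_lit 7) (nat_lit 5) (nat_lit 9) (nat_lit 4) (nat_lit 7) (nat_lit 4) (nat_lit 345) (nat_lit 301) (nat_lit 134)) (XT.nd (nat_lit 78) (nat_lit 0) (nat_lit 0) (XT.lf (nat_lit 0) (nat_lit 574229443289) (nat_lit 152) (nat_lit 321688460329) (nat_lit 0) (nat_lit 176023354211) (nat_lit 7) (nat_lit 5) (nat_lit 9) (nat_lit 4) (nat_lit 7) (nat_lit 4) (nat_lit 346) (nat_lit 301) (nat_lit 133)) (XT.lf (nat_lit 0) (nat_lit 717734409672) (nat_lit 152) (nat_lit 109912010298) (nat_lit 0) (nat_lit 319528249048) (nat_lit 7)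 (nat_lit 5) (nat_lit 9) (nat_lit 4) (nat_lit 7) (nat_lit 4) (nat_lit 347) (nat_lit 301) (nat_lit 132)))) (XT.nd (nat_lit 156) (nat_lit 0) (nat_lit 0) (XT.nd (nat_lit 78) (nat_lit 0) (nat_lit 0) (XT.lf (nat_lit 0) (nat_lit 125062611902) (nat_lit 76) (nat_lit 750664875504) (nat_lit 76) (nat_lit 352458648634) (nat_lit 6) (nat_lit 4) (nat_lit 7) (nat_lit 5) (nat_lit 7) (nat_lit 4) (nat_lit 348) (nat_lit 301) (nat_lit 131)) (XT.lf (nat_lit 0) (nat_lit 385085917189) (nat_lit 76) (nat_lit 664279239918) (nat_lit 76) (nat_lit 266072951709) (nat_lit 6) (nat_lit 4) (nat_lit 7) (nat_lit 5) (nat_lit 7) (nat_lit 4) (nat_lit 349) (nat_lit 301) (nat_lit 130))) (XT.nd (nat_lit 78) (nat_lit 0) (nat_lit 0) (XT.lf (nat_lit 0) (nat_lit 665911012729) (nat_lit 76) (nat_lit 570982787478) (nat_lit 76) (nat_lit 172776442473) (nat_lit 6) (nat_lit 4) (nat_lit 7) (nat_lit 5) (nat_lit 7) (nat_lit 4) (nat_lit 350)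 (nat_lit 301) (nat_lit 129)) (XT.lf (nat_lit 0) (nat_lit 969202047234) (nat_lit 76) (nat_lit 470222650317) (nat_lit 76) (nat_lit 72016252724) (nat_lit 6) (nat_lit 4) (nat_lit 7) (nat_lit 5) (nat_lit 7) (nat_lit 4) (nat_lit 351) (nat_lit 301) (nat_lit 128))))))))
noncomputable def xc109 : XT := (XT.nd (nat_lit 38454) (nat_lit 0) (nat_lit 152) (XT.nd (nat_lit 37362) (nat_lit 0) (nat_lit 1216) (XT.nd (nat_lit 36816) (nat_lit 0) (nat_lit 2736) (XT.nd (nat_lit 234) (nat_lit 0) (nat_lit 0) (XT.nd (nat_lit 78) (nat_lit 76) (nat_lit 0) (XT.lf (nat_lit 0) (nat_lit 34963594057) (nat_lit 152) (nat_lit 325482170646) (nat_lit 76) (nat_lit 1260836740229) (nat_lit 5) (nat_lit 5) (nat_lit 7) (nat_lit 5) (nat_lit 6) (nat_lit 4) (nat_lit 352) (nat_lit 301) (nat_lit 127)) (XT.nd (nat_lit 78) (nat_lit 76) (nat_lit 0) (XT.lf (nat_lit 0) (nat_lit 146611047620) (nat_lit 152) (nat_lit 93255512320) (nat_lit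 76) (nat_lit 1499895182518) (nat_lit 5) (nat_lit 5) (nat_lit 7) (nat_lit 5) (nat_lit 6) (nat_lit 4) (nat_lit 353) (nat_lit 301) (nat_lit 126)) (XT.lf (nat_lit 0) (nat_lit 165845485379) (nat_lit 76) (nat_lit 105333369667) (nat_lit 152) (nat_lit 1596221379369) (nat_lit 4) (nat_lit 5) (nat_lit 5) (nat_lit 5) (nat_lit 6) (nat_lit 4) (nat_lit 354) (nat_lit 301) (nat_lit 125)))) (XT.nd (nat_lit 156) (nat_lit 0) (nat_lit 0) (XT.nd (nat_lit 78) (nat_lit 0) (nat_lit 0) (XT.lf (nat_lit 0) (nat_lit 409289154345) (nat_lit 152) (nat_lit 1555095120365) (nat_lit 0) (nat_lit 40579365667) (nat_lit 4) (nat_lit 5) (nat_lit 6) (nat_lit 4) (nat_lit 4) (nat_lit 4) (nat_lit 355) (nat_lit 301) (nat_lit 124)) (XT.lf (nat_lit 0) (nat_lit 561184181478) (nat_lit 152) (nat_lit 1399654705396) (nat_lit 0) (nat_lit 192474359660) (nat_lit 4) (nat_lit 5) (nat_lit 6) (nat_lit 4) (nat_lit 4) (nat_lit 4) (nat_lit 356)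 (nat_lit 301) (nat_lit 123))) (XT.nd (nat_lit 36348) (nat_lit 0) (nat_lit 2736) (XT.lf (nat_lit 0) (nat_lit 725230785050) (nat_lit 152) (nat_lit 1231779105672) (nat_lit 0) (nat_lit 356520932548) (nat_lit 4) (nat_lit 5) (nat_lit 6) (nat_lit 4) (nat_lit 4) (nat_lit 4) (nat_lit 357) (nat_lit 301) (nat_lit 122)) (XT.lf (nat_lit 0) (nat_lit 25033450597) (nat_lit 532) (nat_lit 13424731373) (nat_lit 532) (nat_lit 13424731373) (nat_lit 40) (nat_lit 3) (nat_lit 47) (nat_lit 3) (nat_lit 47) (nat_lit 5) (nat_lit 302) (nat_lit 302) (nat_lit 176))))) (XT.nd (nat_lit 234) (nat_lit 0) (nat_lit 76) (XT.nd (nat_lit 78) (nat_lit 0) (nat_lit 76) (XT.lf (nat_lit 76) (nat_lit 19857321520) (nat_lit 0) (nat_lit 32695303542) (nat_lit 532) (nat_lit 55325167497) (nat_lit 41) (nat_lit 5) (nat_lit 40) (nat_lit 3) (nat_lit 47) (nat_lit 5) (nat_lit 303) (nat_lit 302) (nat_lit 175)) (XT.nd (nat_lit 78) (nat_lit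 0) (nat_lit 0) (XT.lf (nat_lit 0) (nat_lit 56352112887) (nat_lit 456) (nat_lit 40814094905) (nat_lit 532) (nat_lit 15063317764) (nat_lit 41) (nat_lit 5) (nat_lit 47) (nat_lit 5) (nat_lit 48) (nat_lit 5) (nat_lit 304) (nat_lit 302) (nat_lit 174)) (XT.lf (nat_lit 76) (nat_lit 9809958117) (nat_lit 0) (nat_lit 51730250918) (nat_lit 532) (nat_lit 55302418379) (nat_lit 42) (nat_lit 5) (nat_lit 41) (nat_lit 5) (nat_lit 48) (nat_lit 5) (nat_lit 305) (nat_lit 302) (nat_lit 173)))) (XT.nd (nat_lit 156) (nat_lit 0) (nat_lit 76) (XT.nd (nat_lit 78) (nat_lit 0) (nat_lit 76) (XT.lf (nat_lit 76) (nat_lit 66804739315) (nat_lit 0) (nat_lit 1454063926) (nat_lit 532) (nat_lit 53476740153) (nat_lit 42) (nat_lit 5) (nat_lit 41) (nat_lit 5) (nat_lit 48) (nat_lit 5) (nat_lit 306) (nat_lit 302) (nat_lit 172)) (XT.lf (nat_lit 76) (nat_lit 71538202) (nat_lit 0) (nat_lit 76715531512) (nat_lit 532) (nat_lit 50131050018)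 (nat_lit 43) (nat_lit 5) (nat_lit 42) (nat_lit 5) (nat_lit 49) (nat_lit 5) (nat_lit 307) (nat_lit 302) (nat_lit 171))) (XT.nd (nat_lit 78) (nat_lit 0) (nat_lit 76) (XT.lf (nat_lit 76) (nat_lit 62557937378) (nat_lit 0) (nat_lit 24977961435) (nat_lit 532) (nat_lit 44856340978) (nat_lit 43) (nat_lit 5) (nat_lit 42) (nat_lit 5) (nat_lit 49) (nat_lit 5) (nat_lit 308) (nat_lit 302) (nat_lit 170)) (XT.lf (nat_lit 0) (nat_lit 99887363254) (nat_lit 456) (nat_lit 9004499858) (nat_lit 76) (nat_lit 29353009611) (nat_lit 43) (nat_lit 5) (nat_lit 49) (nat_lit 5) (nat_lit 44) (nat_lit 5) (nat_lit 309) (nat_lit 302) (nat_lit 169)))))) (XT.nd (nat_lit 546) (nat_lit 532) (nat_lit 0) (XT.nd (nat_lit 234) (nat_lit 532) (nat_lit 0) (XT.nd (nat_lit 78) (nat_lit 228) (nat_lit 0) (XT.lf (nat_lit 0) (nat_lit 58993691231) (nat_lit 456) (nat_lit 56300476529) (nat_lit 532) (nat_lit 29106172172) (nat_lit 37) (nat_lit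 5) (nat_lit 43) (nat_lit 5) (nat_lit 44) (nat_lit 5) (nat_lit 310) (nat_lit 302) (nat_lit 168)) (XT.nd (nat_lit 78) (nat_lit 228) (nat_lit 0) (XT.lf (nat_lit 0) (nat_lit 132197756958) (nat_lit 532) (nat_lit 18103435627) (nat_lit 76) (nat_lit 725914070) (nat_lit 37) (nat_lit 5) (nat_lit 44) (nat_lit 5) (nat_lit 38) (nat_lit 5) (nat_lit 311) (nat_lit 302) (nat_lit 167)) (XT.lf (nat_lit 0) (nat_lit 55918645344) (nat_lit 228) (nat_lit 97341871955) (nat_lit 304) (nat_lit 4698947959) (nat_lit 34) (nat_lit 5) (nat_lit 37) (nat_lit 5) (nat_lit 38) (nat_lit 5) (nat_lit 312) (nat_lit 302) (nat_lit 166)))) (XT.nd (nat_lit 156) (nat_lit 228) (nat_lit 0) (XT.nd (nat_lit 78) (nat_lit 228) (nat_lit 0) (XT.lf (nat_lit 0) (nat_lit 10541070280) (nat_lit 304) (nat_lit 28781958467) (nat_lit 76) (nat_lit 126062461182) (nat_lit 33) (nat_lit 5) (nat_lit 37) (nat_lit 5) (nat_lit 34) (nat_lit 5) (nat_lit 313)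 (nat_lit 302) (nat_lit 165)) (XT.lf (nat_lit 0) (nat_lit 28614868583) (nat_lit 304) (nat_lit 121032100441) (nat_lit 76) (nat_lit 23599388998) (nat_lit 30) (nat_lit 5) (nat_lit 34) (nat_lit 5) (nat_lit 31) (nat_lit 5) (nat_lit 314) (nat_lit 302) (nat_lit 164))) (XT.nd (nat_lit 78) (nat_lit 228) (nat_lit 0) (XT.lf (nat_lit 0) (nat_lit 49963069840) (nat_lit 304) (nat_lit 41388246110) (nat_lit 76) (nat_lit 90238500614) (nat_lit 30) (nat_lit 5) (nat_lit 34) (nat_lit 5) (nat_lit 31) (nat_lit 5) (nat_lit 315) (nat_lit 302) (nat_lit 163)) (XT.lf (nat_lit 0) (nat_lit 46976794123) (nat_lit 228) (nat_lit 27171877691) (nat_lit 304) (nat_lit 116361717266) (nat_lit 27) (nat_lit 5) (nat_lit 30) (nat_lit 5) (nat_lit 31) (nat_lit 5) (nat_lit 316) (nat_lit 302) (nat_lit 162))))) (XT.nd (nat_lit 234) (nat_lit 380) (nat_lit 0) (XT.nd (nat_lit 78) (nat_lit 152) (nat_lit 0) (XT.lf (nat_lit 0) (nat_lit 102443418959)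 (nat_lit 304) (nat_lit 56332463522) (nat_lit 76) (nat_lit 41194781950) (nat_lit 27) (nat_lit 5) (nat_lit 31) (nat_lit 5) (nat_lit 28) (nat_lit 5) (nat_lit 317) (nat_lit 302) (nat_lit 161)) (XT.nd (nat_lit 78) (nat_lit 0) (nat_lit 0) (XT.lf (nat_lit 0) (nat_lit 39094373574) (nat_lit 152) (nat_lit 95553135611) (nat_lit 228) (nat_lit 75408592298) (nat_lit 25) (nat_lit 5) (nat_lit 27) (nat_lit 5) (nat_lit 28) (nat_lit 5) (nat_lit 318) (nat_lit 302) (nat_lit 160)) (XT.lf (nat_lit 0) (nat_lit 145358761167) (nat_lit 152) (nat_lit 25609184218) (nat_lit 228) (nat_lit 49857227297) (nat_lit 25) (nat_lit 5) (nat_lit 27) (nat_lit 5) (nat_lit 28) (nat_lit 5) (nat_lit 319) (nat_lit 302) (nat_lit 159)))) (XT.nd (nat_lit 156) (nat_lit 152) (nat_lit 0) (XT.nd (nat_lit 78) (nat_lit 76) (nat_lit 0) (XT.lf (nat_lit 0) (nat_lit 27861165876) (nat_lit 152) (nat_lit 184203540399) (nat_lit 228) (nat_lit 20241408749)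 (nat_lit 23) (nat_lit 5) (nat_lit 25) (nat_lit 5) (nat_lit 26) (nat_lit 5) (nat_lit 320) (nat_lit 302) (nat_lit 158)) (XT.lf (nat_lit 0) (nat_lit 13938168947) (nat_lit 228) (nat_lit 101795146586) (nat_lit 76) (nat_lit 128727066119) (nat_lit 22) (nat_lit 5) (nat_lit 25) (nat_lit 5) (nat_lit 23) (nat_lit 5) (nat_lit 321) (nat_lit 302) (nat_lit 157))) (XT.nd (nat_lit 78) (nat_lit 0) (nat_lit 0) (XT.lf (nat_lit 0) (nat_lit 8990372184) (nat_lit 152) (nat_lit 40984218254) (nat_lit 228) (nat_lit 207553056452) (nat_lit 20) (nat_lit 5) (nat_lit 22) (nat_lit 5) (nat_lit 23) (nat_lit 5) (nat_lit 322) (nat_lit 302) (nat_lit 156)) (XT.lf (nat_lit 0) (nat_lit 92705167709) (nat_lit 228) (nat_lit 138018133961) (nat_lit 76) (nat_lit 40612092777) (nat_lit 20) (nat_lit 5) (nat_lit 23) (nat_lit 5) (nat_lit 21) (nat_lit 5) (nat_lit 323) (nat_lit 302) (nat_lit 155))))))) (XT.nd (nat_lit 1092) (nat_lit 304)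 (nat_lit 0) (XT.nd (nat_lit 546) (nat_lit 304) (nat_lit 0) (XT.nd (nat_lit 234) (nat_lit 304) (nat_lit 0) (XT.nd (nat_lit 78) (nat_lit 152) (nat_lit 0) (XT.lf (nat_lit 0) (nat_lit 139918555510) (nat_lit 228) (nat_lit 19722226006) (nat_lit 76) (nat_lit 126521831574) (nat_lit 20) (nat_lit 5) (nat_lit 23) (nat_lit 5) (nat_lit 21) (nat_lit 5) (nat_lit 324) (nat_lit 302) (nat_lit 154)) (XT.nd (nat_lit 78) (nat_lit 0) (nat_lit 0) (XT.lf (nat_lit 0) (nat_lit 113726177366) (nat_lit 152) (nat_lit 79917805381) (nat_lit 228) (nat_lit 108313229404) (nat_lit 18) (nat_lit 5) (nat_lit 20) (nat_lit 5) (nat_lit 21) (nat_lit 5) (nat_lit 325) (nat_lit 302) (nat_lit 153)) (XT.lf (nat_lit 0) (nat_lit 252369247743) (nat_lit 228) (nat_lit 60163099844) (nat_lit 76) (nat_lit 6426887632) (nat_lit 18) (nat_lit 5) (nat_lit 21) (nat_lit 5) (nat_lit 19) (nat_lit 4) (nat_lit 326) (nat_lit 302) (nat_lit 152)))) (XT.nd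 (nat_lit 156) (nat_lit 152) (nat_lit 0) (XT.nd (nat_lit 78) (nat_lit 76) (nat_lit 0) (XT.lf (nat_lit 0) (nat_lit 80080210228) (nat_lit 76) (nat_lit 239713907780) (nat_lit 152) (nat_lit 17207175739) (nat_lit 17) (nat_lit 5) (nat_lit 18) (nat_lit 5) (nat_lit 19) (nat_lit 4) (nat_lit 327) (nat_lit 302) (nat_lit 151)) (XT.lf (nat_lit 0) (nat_lit 36006638518) (nat_lit 152) (nat_lit 122302380566) (nat_lit 76) (nat_lit 197973186415) (nat_lit 16) (nat_lit 5) (nat_lit 18) (nat_lit 5) (nat_lit 17) (nat_lit 5) (nat_lit 328) (nat_lit 302) (nat_lit 150))) (XT.nd (nat_lit 78) (nat_lit 0) (nat_lit 0) (XT.lf (nat_lit 0) (nat_lit 23830796638) (nat_lit 152) (nat_lit 69290135225) (nat_lit 228) (nat_lit 283903062757) (nat_lit 14) (nat_lit 5) (nat_lit 16) (nat_lit 5) (nat_lit 17) (nat_lit 5) (nat_lit 329) (nat_lit 302) (nat_lit 149)) (XT.lf (nat_lit 0) (nat_lit 158880818019) (nat_lit 228) (nat_lit 211280340939)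 (nat_lit 76) (nat_lit 28937852216) (nat_lit 14) (nat_lit 5) (nat_lit 17) (nat_lit 5) (nat_lit 15) (nat_lit 4) (nat_lit 330) (nat_lit 302) (nat_lit 148))))) (XT.nd (nat_lit 234) (nat_lit 228) (nat_lit 0) (XT.nd (nat_lit 78) (nat_lit 76) (nat_lit 0) (XT.lf (nat_lit 0) (nat_lit 231701127666) (nat_lit 228) (nat_lit 59814382771) (nat_lit 76) (nat_lit 131280548240) (nat_lit 14) (nat_lit 5) (nat_lit 17) (nat_lit 5) (nat_lit 15) (nat_lit 4) (nat_lit 331) (nat_lit 302) (nat_lit 147)) (XT.nd (nat_lit 78) (nat_lit 0) (nat_lit 0) (XT.lf (nat_lit 0) (nat_lit 109232956887) (nat_lit 76) (nat_lit 203741057500) (nat_lit 152) (nat_lit 135204699625) (nat_lit 13) (nat_lit 5) (nat_lit 14) (nat_lit 5) (nat_lit 15) (nat_lit 4) (nat_lit 332) (nat_lit 302) (nat_lit 146)) (XT.lf (nat_lit 0) (nat_lit 295205614912) (nat_lit 76) (nat_lit 107178449060) (nat_lit 152) (nat_lit 73077091446) (nat_lit 13) (nat_lit 5)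 (nat_lit 14) (nat_lit 5) (nat_lit 15) (nat_lit 4) (nat_lit 333) (nat_lit 302) (nat_lit 145)))) (XT.nd (nat_lit 156) (nat_lit 76) (nat_lit 0) (XT.nd (nat_lit 78) (nat_lit 152) (nat_lit 0) (XT.lf (nat_lit 0) (nat_lit 496055932102) (nat_lit 76) (nat_lit 2890893478) (nat_lit 152) (nat_lit 5979374097) (nat_lit 13) (nat_lit 5) (nat_lit 14) (nat_lit 5) (nat_lit 15) (nat_lit 4) (nat_lit 334) (nat_lit 302) (nat_lit 144)) (XT.lf (nat_lit 0) (nat_lit 70376696696) (nat_lit 152) (nat_lit 355240244250) (nat_lit 76) (nat_lit 110426271741) (nat_lit 11) (nat_lit 5) (nat_lit 13) (nat_lit 5) (nat_lit 12) (nat_lit 4) (nat_lit 335) (nat_lit 302) (nat_lit 143))) (XT.nd (nat_lit 78) (nat_lit 76) (nat_lit 0) (XT.lf (nat_lit 0) (nat_lit 152842042193) (nat_lit 152) (nat_lit 183712505780) (nat_lit 76) (nat_lit 233056707793) (nat_lit 11) (nat_lit 5) (nat_lit 13) (nat_lit 5) (nat_lit 12) (nat_lit 4) (nat_lit 336)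 (nat_lit 302) (nat_lit 142)) (XT.lf (nat_lit 0) (nat_lit 1618266365) (nat_lit 76) (nat_lit 240325188792) (nat_lit 152) (nat_lit 363918180086) (nat_lit 10) (nat_lit 5) (nat_lit 11) (nat_lit 5) (nat_lit 12) (nat_lit 4) (nat_lit 337) (nat_lit 302) (nat_lit 141)))))) (XT.nd (nat_lit 546) (nat_lit 76) (nat_lit 0) (XT.nd (nat_lit 234) (nat_lit 228) (nat_lit 0) (XT.nd (nat_lit 78) (nat_lit 0) (nat_lit 0) (XT.lf (nat_lit 0) (nat_lit 212223259117) (nat_lit 76) (nat_lit 130972670662) (nat_lit 152) (nat_lit 301414279534) (nat_lit 10) (nat_lit 5) (nat_lit 11) (nat_lit 5) (nat_lit 12) (nat_lit 4) (nat_lit 338) (nat_lit 302) (nat_lit 140)) (XT.nd (nat_lit 78) (nat_lit 0) (nat_lit 0) (XT.lf (nat_lit 0) (nat_lit 439676527072) (nat_lit 76) (nat_lit 12872004138) (nat_lit 152) (nat_lit 233910143907) (nat_lit 10) (nat_lit 5) (nat_lit 11) (nat_lit 5) (nat_lit 12) (nat_lit 4) (nat_lit 339) (nat_lit 302)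 (nat_lit 139)) (XT.lf (nat_lit 0) (nat_lit 573407251455) (nat_lit 152) (nat_lit 49087058705) (nat_lit 0) (nat_lit 108940075277) (nat_lit 10) (nat_lit 5) (nat_lit 12) (nat_lit 4) (nat_lit 10) (nat_lit 4) (nat_lit 340) (nat_lit 302) (nat_lit 138)))) (XT.nd (nat_lit 156) (nat_lit 76) (nat_lit 0) (XT.nd (nat_lit 78) (nat_lit 76) (nat_lit 0) (XT.lf (nat_lit 0) (nat_lit 172729835565) (nat_lit 76) (nat_lit 535693266120) (nat_lit 76) (nat_lit 71225976408) (nat_lit 9) (nat_lit 4) (nat_lit 10) (nat_lit 5) (nat_lit 10) (nat_lit 4) (nat_lit 341) (nat_lit 302) (nat_lit 137)) (XT.lf (nat_lit 0) (nat_lit 22769694376) (nat_lit 152) (nat_lit 417106430534) (nat_lit 76) (nat_lit 391691340142) (nat_lit 8) (nat_lit 5) (nat_lit 10) (nat_lit 5) (nat_lit 9) (nat_lit 4) (nat_lit 342) (nat_lit 302) (nat_lit 136))) (XT.nd (nat_lit 78) (nat_lit 76) (nat_lit 0) (XT.lf (nat_lit 0) (nat_lit 120436908906) (nat_lit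 152) (nat_lit 213958721647) (nat_lit 76) (nat_lit 553095695036) (nat_lit 8) (nat_lit 5) (nat_lit 10) (nat_lit 5) (nat_lit 9) (nat_lit 4) (nat_lit 343) (nat_lit 302) (nat_lit 135)) (XT.lf (nat_lit 0) (nat_lit 5727206937) (nat_lit 76) (nat_lit 220327980196) (nat_lit 152) (nat_lit 721822892988) (nat_lit 7) (nat_lit 5) (nat_lit 8) (nat_lit 5) (nat_lit 9) (nat_lit 4) (nat_lit 344) (nat_lit 302) (nat_lit 134))))) (XT.nd (nat_lit 312) (nat_lit 76) (nat_lit 0) (XT.nd (nat_lit 156) (nat_lit 0) (nat_lit 0) (XT.nd (nat_lit 78) (nat_lit 0) (nat_lit 0) (XT.lf (nat_lit 0) (nat_lit 255155939201) (nat_lit 76) (nat_lit 90816947795) (nat_lit 152) (nat_lit 666654891336) (nat_lit 7) (nat_lit 5) (nat_lit 8) (nat_lit 5) (nat_lit 9) (nat_lit 4) (nat_lit 345) (nat_lit 302) (nat_lit 133)) (XT.lf (nat_lit 0) (nat_lit 476663727622) (nat_lit 152) (nat_lit 559198344257) (nat_lit 0) (nat_lit 46601002602) (nat_lit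 7) (nat_lit 5) (nat_lit 9) (nat_lit 4) (nat_lit 7) (nat_lit 4) (nat_lit 346) (nat_lit 302) (nat_lit 132))) (XT.nd (nat_lit 78) (nat_lit 0) (nat_lit 0) (XT.lf (nat_lit 0) (nat_lit 620168672475) (nat_lit 152) (nat_lit 347421933739) (nat_lit 0) (nat_lit 190105881209) (nat_lit 7) (nat_lit 5) (nat_lit 9) (nat_lit 4) (nat_lit 7) (nat_lit 4) (nat_lit 347) (nat_lit 302) (nat_lit 131)) (XT.lf (nat_lit 0) (nat_lit 775153971449) (nat_lit 152) (nat_lit 118703486478) (nat_lit 0) (nat_lit 345091118844) (nat_lit 7) (nat_lit 5) (nat_lit 9) (nat_lit 4) (nat_lit 7) (nat_lit 4) (nat_lit 348) (nat_lit 302) (nat_lit 130)))) (XT.nd (nat_lit 156) (nat_lit 0) (nat_lit 0) (XT.nd (nat_lit 78) (nat_lit 0) (nat_lit 0) (XT.lf (nat_lit 0) (nat_lit 135069067912) (nat_lit 76) (nat_lit 810717402364) (nat_lit 76) (nat_lit 380654492964) (nat_lit 6) (nat_lit 4) (nat_lit 7) (nat_lit 5) (nat_lit 7) (nat_lit 4) (nat_lit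 349) (nat_lit 302) (nat_lit 129)) (XT.lf (nat_lit 0) (nat_lit 415894130434) (nat_lit 76) (nat_lit 717420965056) (nat_lit 76) (nat_lit 287358003067) (nat_lit 6) (nat_lit 4) (nat_lit 7) (nat_lit 5) (nat_lit 7) (nat_lit 4) (nat_lit 350) (nat_lit 302) (nat_lit 128))) (XT.nd (nat_lit 78) (nat_lit 0) (nat_lit 0) (XT.lf (nat_lit 0) (nat_lit 719185134366) (nat_lit 76) (nat_lit 616660841906) (nat_lit 76) (nat_lit 186597831224) (nat_lit 6) (nat_lit 4) (nat_lit 7) (nat_lit 5) (nat_lit 7) (nat_lit 4) (nat_lit 351) (nat_lit 302) (nat_lit 127)) (XT.lf (nat_lit 0) (nat_lit 1046739359734) (nat_lit 76) (nat_lit 507839935888) (nat_lit 76) (nat_lit 77776880120) (nat_lit 6) (nat_lit 4) (nat_lit 7) (nat_lit 5) (nat_lit 7) (nat_lit 4) (nat_lit 352) (nat_lit 302) (nat_lit 126))))))))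
noncomputable def xc110 : XT := (XT.nd (nat_lit 38532) (nat_lit 0) (nat_lit 76) (XT.nd (nat_lit 37440) (nat_lit 0) (nat_lit 1216) (XT.nd (nat_lit 36894) (nat_lit 0) (nat_lit 2508) (XT.nd (nat_lit 234) (nat_lit 0) (nat_lit 0) (XT.nd (nat_lit 78) (nat_lit 76) (nat_lit 0) (XT.lf (nat_lit 0) (nat_lit 37761273400) (nat_lit 152) (nat_lit 351519648840) (nat_lit 76) (nat_lit 1361704135079) (nat_lit 5) (nat_lit 5) (nat_lit 7) (nat_lit 5) (nat_lit 6) (nat_lit 4) (nat_lit 353) (nat_lit 302) (nat_lit 125)) (XT.nd (nat_lit 78) (nat_lit 76) (nat_lit 0) (XT.lf (nat_lit 0) (nat_lit 158340479410) (nat_lit 152) (nat_lit 100714938993) (nat_lit 76) (nat_lit 1619887219001) (nat_lit 5) (nat_lit 5) (nat_lit 7) (nat_lit 5) (nat_lit 6) (nat_lit 4) (nat_lit 354) (nat_lit 302) (nat_lit 124)) (XT.lf (nat_lit 0) (nat_lit 179114112843) (nat_lit 76) (nat_lit 113759581773) (nat_lit 152) (nat_lit 1723918515493) (nat_lit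 4) (nat_lit 5) (nat_lit 5) (nat_lit 5) (nat_lit 6) (nat_lit 4) (nat_lit 355) (nat_lit 302) (nat_lit 123)))) (XT.nd (nat_lit 36504) (nat_lit 0) (nat_lit 2736) (XT.nd (nat_lit 78) (nat_lit 0) (nat_lit 0) (XT.lf (nat_lit 0) (nat_lit 442032788700) (nat_lit 152) (nat_lit 1679501784909) (nat_lit 0) (nat_lit 43826117313) (nat_lit 4) (nat_lit 5) (nat_lit 6) (nat_lit 4) (nat_lit 4) (nat_lit 4) (nat_lit 356) (nat_lit 302) (nat_lit 122)) (XT.lf (nat_lit 0) (nat_lit 606079380818) (nat_lit 152) (nat_lit 1511626206749) (nat_lit 0) (nat_lit 207872681019) (nat_lit 4) (nat_lit 5) (nat_lit 6) (nat_lit 4) (nat_lit 4) (nat_lit 4) (nat_lit 357) (nat_lit 302) (nat_lit 121))) (XT.nd (nat_lit 78) (nat_lit 0) (nat_lit 0) (XT.lf (nat_lit 0) (nat_lit 27041473641) (nat_lit 532) (nat_lit 14495811101) (nat_lit 532) (nat_lit 14495811101) (nat_lit 40) (nat_lit 3) (nat_lit 47) (nat_lit 3) (nat_lit 47) (nat_lit 5)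 (nat_lit 303) (nat_lit 303) (nat_lit 174)) (XT.lf (nat_lit 76) (nat_lit 21451558031) (nat_lit 0) (nat_lit 35315314782) (nat_lit 532) (nat_lit 59740297896) (nat_lit 41) (nat_lit 5) (nat_lit 40) (nat_lit 3) (nat_lit 47) (nat_lit 5) (nat_lit 304) (nat_lit 303) (nat_lit 173))))) (XT.nd (nat_lit 234) (nat_lit 304) (nat_lit 0) (XT.nd (nat_lit 78) (nat_lit 0) (nat_lit 0) (XT.lf (nat_lit 0) (nat_lit 60869478436) (nat_lit 456) (nat_lit 44073109951) (nat_lit 532) (nat_lit 16264524386) (nat_lit 41) (nat_lit 5) (nat_lit 47) (nat_lit 5) (nat_lit 48) (nat_lit 5) (nat_lit 305) (nat_lit 303) (nat_lit 172)) (XT.nd (nat_lit 78) (nat_lit 0) (nat_lit 0) (XT.lf (nat_lit 76) (nat_lit 10600712565) (nat_lit 0) (nat_lit 55871371772) (nat_lit 532) (nat_lit 59717224374) (nat_lit 42) (nat_lit 5) (nat_lit 41) (nat_lit 5) (nat_lit 48) (nat_lit 5) (nat_lit 306) (nat_lit 303) (nat_lit 171)) (XT.lf (nat_lit 76) (nat_lit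 72154634941) (nat_lit 0) (nat_lit 1572889763) (nat_lit 532) (nat_lit 57746187258) (nat_lit 42) (nat_lit 5) (nat_lit 41) (nat_lit 5) (nat_lit 48) (nat_lit 5) (nat_lit 307) (nat_lit 303) (nat_lit 170)))) (XT.nd (nat_lit 156) (nat_lit 380) (nat_lit 0) (XT.nd (nat_lit 78) (nat_lit 0) (nat_lit 0) (XT.lf (nat_lit 76) (nat_lit 83354519) (nat_lit 0) (nat_lit 82854194964) (nat_lit 532) (nat_lit 54133387648) (nat_lit 43) (nat_lit 5) (nat_lit 42) (nat_lit 5) (nat_lit 49) (nat_lit 5) (nat_lit 308) (nat_lit 303) (nat_lit 169)) (XT.lf (nat_lit 76) (nat_lit 67568214276) (nat_lit 0) (nat_lit 26977514027) (nat_lit 532) (nat_lit 48437305320) (nat_lit 43) (nat_lit 5) (nat_lit 42) (nat_lit 5) (nat_lit 49) (nat_lit 5) (nat_lit 309) (nat_lit 303) (nat_lit 168))) (XT.nd (nat_lit 78) (nat_lit 456) (nat_lit 0) (XT.lf (nat_lit 0) (nat_lit 107884765225) (nat_lit 456) (nat_lit 9719064568) (nat_lit 76) (nat_lit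 31700093101) (nat_lit 43) (nat_lit 5) (nat_lit 49) (nat_lit 5) (nat_lit 44) (nat_lit 5) (nat_lit 310) (nat_lit 303) (nat_lit 167)) (XT.lf (nat_lit 0) (nat_lit 63718835093) (nat_lit 456) (nat_lit 60804939816) (nat_lit 532) (nat_lit 31428081675) (nat_lit 37) (nat_lit 5) (nat_lit 43) (nat_lit 5) (nat_lit 44) (nat_lit 5) (nat_lit 311) (nat_lit 303) (nat_lit 166)))))) (XT.nd (nat_lit 546) (nat_lit 532) (nat_lit 0) (XT.nd (nat_lit 234) (nat_lit 456) (nat_lit 0) (XT.nd (nat_lit 78) (nat_lit 304) (nat_lit 0) (XT.lf (nat_lit 0) (nat_lit 142779191868) (nat_lit 532) (nat_lit 19545998134) (nat_lit 76) (nat_lit 783613218) (nat_lit 37) (nat_lit 5) (nat_lit 44) (nat_lit 5) (nat_lit 38) (nat_lit 5) (nat_lit 312) (nat_lit 303) (nat_lit 165)) (XT.nd (nat_lit 78) (nat_lit 76) (nat_lit 0) (XT.lf (nat_lit 0) (nat_lit 60397704698) (nat_lit 228) (nat_lit 105128986365) (nat_lit 304) (nat_lit 5069083697) (nat_lit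 34) (nat_lit 5) (nat_lit 37) (nat_lit 5) (nat_lit 38) (nat_lit 5) (nat_lit 313) (nat_lit 303) (nat_lit 164)) (XT.lf (nat_lit 0) (nat_lit 11389440120) (nat_lit 304) (nat_lit 31079074002) (nat_lit 76) (nat_lit 136147390151) (nat_lit 33) (nat_lit 5) (nat_lit 37) (nat_lit 5) (nat_lit 34) (nat_lit 5) (nat_lit 314) (nat_lit 303) (nat_lit 163)))) (XT.nd (nat_lit 156) (nat_lit 228) (nat_lit 0) (XT.nd (nat_lit 78) (nat_lit 0) (nat_lit 0) (XT.lf (nat_lit 0) (nat_lit 30908904487) (nat_lit 304) (nat_lit 130708972761) (nat_lit 76) (nat_lit 25487784931) (nat_lit 30) (nat_lit 5) (nat_lit 34) (nat_lit 5) (nat_lit 31) (nat_lit 5) (nat_lit 315) (nat_lit 303) (nat_lit 162)) (XT.lf (nat_lit 0) (nat_lit 53964602850) (nat_lit 304) (nat_lit 44694031987) (nat_lit 76) (nat_lit 97457992528) (nat_lit 30) (nat_lit 5) (nat_lit 34) (nat_lit 5) (nat_lit 31) (nat_lit 5) (nat_lit 316) (nat_lit 303) (nat_lit 161)))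 (XT.nd (nat_lit 78) (nat_lit 0) (nat_lit 0) (XT.lf (nat_lit 0) (nat_lit 50740077950) (nat_lit 228) (nat_lit 29344766255) (nat_lit 304) (nat_lit 125666019330) (nat_lit 27) (nat_lit 5) (nat_lit 30) (nat_lit 5) (nat_lit 31) (nat_lit 5) (nat_lit 317) (nat_lit 303) (nat_lit 160)) (XT.lf (nat_lit 0) (nat_lit 110642873373) (nat_lit 304) (nat_lit 60833990006) (nat_lit 76) (nat_lit 44491122421) (nat_lit 27) (nat_lit 5) (nat_lit 31) (nat_lit 5) (nat_lit 28) (nat_lit 5) (nat_lit 318) (nat_lit 303) (nat_lit 159))))) (XT.nd (nat_lit 234) (nat_lit 228) (nat_lit 0) (XT.nd (nat_lit 78) (nat_lit 152) (nat_lit 0) (XT.lf (nat_lit 0) (nat_lit 42226865688) (nat_lit 152) (nat_lit 103196249108) (nat_lit 228) (nat_lit 81437158088) (nat_lit 25) (nat_lit 5) (nat_lit 27) (nat_lit 5) (nat_lit 28) (nat_lit 5) (nat_lit 319) (nat_lit 303) (nat_lit 158)) (XT.nd (nat_lit 78) (nat_lit 152) (nat_lit 0) (XT.lf (nat_lit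 0) (nat_lit 156992038197) (nat_lit 152) (nat_lit 27656865851) (nat_lit 228) (nat_lit 53841989190) (nat_lit 25) (nat_lit 5) (nat_lit 27) (nat_lit 5) (nat_lit 28) (nat_lit 5) (nat_lit 320) (nat_lit 303) (nat_lit 157)) (XT.lf (nat_lit 0) (nat_lit 30094780579) (nat_lit 152) (nat_lit 198938501267) (nat_lit 228) (nat_lit 21857039885) (nat_lit 23) (nat_lit 5) (nat_lit 25) (nat_lit 5) (nat_lit 26) (nat_lit 5) (nat_lit 321) (nat_lit 303) (nat_lit 156)))) (XT.nd (nat_lit 156) (nat_lit 0) (nat_lit 0) (XT.nd (nat_lit 78) (nat_lit 152) (nat_lit 0) (XT.lf (nat_lit 0) (nat_lit 15056460794) (nat_lit 228) (nat_lit 109934207030) (nat_lit 76) (nat_lit 139026276233) (nat_lit 22) (nat_lit 5) (nat_lit 25) (nat_lit 5) (nat_lit 23) (nat_lit 5) (nat_lit 322) (nat_lit 303) (nat_lit 155)) (XT.lf (nat_lit 0) (nat_lit 9714038020) (nat_lit 152) (nat_lit 44261624795) (nat_lit 228) (nat_lit 224153939024) (nat_lit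 20) (nat_lit 5) (nat_lit 22) (nat_lit 5) (nat_lit 23) (nat_lit 5) (nat_lit 323) (nat_lit 303) (nat_lit 154))) (XT.nd (nat_lit 78) (nat_lit 0) (nat_lit 0) (XT.lf (nat_lit 0) (nat_lit 100124485895) (nat_lit 228) (nat_lit 149055269073) (nat_lit 76) (nat_lit 43862230885) (nat_lit 20) (nat_lit 5) (nat_lit 23) (nat_lit 5) (nat_lit 21) (nat_lit 5) (nat_lit 324) (nat_lit 303) (nat_lit 153)) (XT.lf (nat_lit 0) (nat_lit 151114729552) (nat_lit 228) (nat_lit 21296008156) (nat_lit 76) (nat_lit 136644662069) (nat_lit 20) (nat_lit 5) (nat_lit 23) (nat_lit 5) (nat_lit 21) (nat_lit 5) (nat_lit 325) (nat_lit 303) (nat_lit 152))))))) (XT.nd (nat_lit 1092) (nat_lit 380) (nat_lit 0) (XT.nd (nat_lit 546) (nat_lit 304) (nat_lit 0) (XT.nd (nat_lit 234) (nat_lit 228) (nat_lit 0) (XT.nd (nat_lit 78) (nat_lit 76) (nat_lit 0) (XT.lf (nat_lit 0) (nat_lit 122828166323) (nat_lit 152) (nat_lit 86309919084) (nat_lit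 228) (nat_lit 116975490332) (nat_lit 18) (nat_lit 5) (nat_lit 20) (nat_lit 5) (nat_lit 21) (nat_lit 5) (nat_lit 326) (nat_lit 303) (nat_lit 151)) (XT.nd (nat_lit 78) (nat_lit 76) (nat_lit 0) (XT.lf (nat_lit 0) (nat_lit 272561209381) (nat_lit 228) (nat_lit 64972373174) (nat_lit 76) (nat_lit 6942191568) (nat_lit 18) (nat_lit 5) (nat_lit 21) (nat_lit 5) (nat_lit 19) (nat_lit 4) (nat_lit 327) (nat_lit 303) (nat_lit 150)) (XT.lf (nat_lit 0) (nat_lit 86490306142) (nat_lit 76) (nat_lit 258889672213) (nat_lit 152) (nat_lit 18581226709) (nat_lit 17) (nat_lit 5) (nat_lit 18) (nat_lit 5) (nat_lit 19) (nat_lit 4) (nat_lit 328) (nat_lit 303) (nat_lit 149)))) (XT.nd (nat_lit 156) (nat_lit 0) (nat_lit 0) (XT.nd (nat_lit 78) (nat_lit 152) (nat_lit 0) (XT.lf (nat_lit 0) (nat_lit 38889388927) (nat_lit 152) (nat_lit 132083042679) (nat_lit 76) (nat_lit 213812167889) (nat_lit 16) (nat_lit 5) (nat_lit 18)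 (nat_lit 5) (nat_lit 17) (nat_lit 5) (nat_lit 329) (nat_lit 303) (nat_lit 148)) (XT.lf (nat_lit 0) (nat_lit 25740699376) (nat_lit 152) (nat_lit 74832044677) (nat_lit 228) (nat_lit 306612994591) (nat_lit 14) (nat_lit 5) (nat_lit 16) (nat_lit 5) (nat_lit 17) (nat_lit 5) (nat_lit 330) (nat_lit 303) (nat_lit 147))) (XT.nd (nat_lit 78) (nat_lit 0) (nat_lit 0) (XT.lf (nat_lit 0) (nat_lit 171593291738) (nat_lit 228) (nat_lit 228179450387) (nat_lit 76) (nat_lit 31254025084) (nat_lit 14) (nat_lit 5) (nat_lit 17) (nat_lit 5) (nat_lit 15) (nat_lit 4) (nat_lit 331) (nat_lit 303) (nat_lit 146)) (XT.lf (nat_lit 0) (nat_lit 250239077395) (nat_lit 228) (nat_lit 64596461331) (nat_lit 76) (nat_lit 141784051998) (nat_lit 14) (nat_lit 5) (nat_lit 17) (nat_lit 5) (nat_lit 15) (nat_lit 4) (nat_lit 332) (nat_lit 303) (nat_lit 145))))) (XT.nd (nat_lit 234) (nat_lit 228) (nat_lit 0) (XT.nd (nat_lit 78) (nat_lit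 0) (nat_lit 0) (XT.lf (nat_lit 0) (nat_lit 117974587727) (nat_lit 76) (nat_lit 220039141598) (nat_lit 152) (nat_lit 146019134707) (nat_lit 13) (nat_lit 5) (nat_lit 14) (nat_lit 5) (nat_lit 15) (nat_lit 4) (nat_lit 333) (nat_lit 303) (nat_lit 144)) (XT.nd (nat_lit 78) (nat_lit 0) (nat_lit 0) (XT.lf (nat_lit 0) (nat_lit 318824836595) (nat_lit 76) (nat_lit 115751613409) (nat_lit 152) (nat_lit 78921461643) (nat_lit 13) (nat_lit 5) (nat_lit 14) (nat_lit 5) (nat_lit 15) (nat_lit 4) (nat_lit 334) (nat_lit 303) (nat_lit 143)) (XT.lf (nat_lit 0) (nat_lit 535742973790) (nat_lit 76) (nat_lit 3121135720) (nat_lit 152) (nat_lit 6456060026) (nat_lit 13) (nat_lit 5) (nat_lit 14) (nat_lit 5) (nat_lit 15) (nat_lit 4) (nat_lit 335) (nat_lit 303) (nat_lit 142)))) (XT.nd (nat_lit 156) (nat_lit 76) (nat_lit 0) (XT.nd (nat_lit 78) (nat_lit 0) (nat_lit 0) (XT.lf (nat_lit 0) (nat_lit 76008383790) (nat_lit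 152) (nat_lit 383656778527) (nat_lit 76) (nat_lit 119261380632) (nat_lit 11) (nat_lit 5) (nat_lit 13) (nat_lit 5) (nat_lit 12) (nat_lit 4) (nat_lit 336) (nat_lit 303) (nat_lit 141)) (XT.lf (nat_lit 0) (nat_lit 165070842011) (nat_lit 152) (nat_lit 198407019889) (nat_lit 76) (nat_lit 251702176964) (nat_lit 11) (nat_lit 5) (nat_lit 13) (nat_lit 5) (nat_lit 12) (nat_lit 4) (nat_lit 337) (nat_lit 303) (nat_lit 140))) (XT.nd (nat_lit 78) (nat_lit 0) (nat_lit 0) (XT.lf (nat_lit 0) (nat_lit 1750151083) (nat_lit 76) (nat_lit 259550168809) (nat_lit 152) (nat_lit 393030132837) (nat_lit 10) (nat_lit 5) (nat_lit 11) (nat_lit 5) (nat_lit 12) (nat_lit 4) (nat_lit 338) (nat_lit 303) (nat_lit 139)) (XT.lf (nat_lit 0) (nat_lit 229203363743) (nat_lit 76) (nat_lit 141449525902) (nat_lit 152) (nat_lit 325526031475) (nat_lit 10) (nat_lit 5) (nat_lit 11) (nat_lit 5) (nat_lit 12) (nat_lit 4) (nat_lit 339)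 (nat_lit 303) (nat_lit 138)))))) (XT.nd (nat_lit 546) (nat_lit 152) (nat_lit 0) (XT.nd (nat_lit 234) (nat_lit 152) (nat_lit 0) (XT.nd (nat_lit 78) (nat_lit 76) (nat_lit 0) (XT.lf (nat_lit 0) (nat_lit 474852726920) (nat_lit 76) (nat_lit 13900877049) (nat_lit 152) (nat_lit 252621667992) (nat_lit 10) (nat_lit 5) (nat_lit 11) (nat_lit 5) (nat_lit 12) (nat_lit 4) (nat_lit 340) (nat_lit 303) (nat_lit 137)) (XT.nd (nat_lit 78) (nat_lit 76) (nat_lit 0) (XT.lf (nat_lit 0) (nat_lit 619280953428) (nat_lit 152) (nat_lit 53012029415) (nat_lit 0) (nat_lit 117656061881) (nat_lit 10) (nat_lit 5) (nat_lit 12) (nat_lit 4) (nat_lit 10) (nat_lit 4) (nat_lit 341) (nat_lit 303) (nat_lit 136)) (XT.lf (nat_lit 0) (nat_lit 186550165916) (nat_lit 76) (nat_lit 578547869402) (nat_lit 76) (nat_lit 76922880517) (nat_lit 9) (nat_lit 4) (nat_lit 10) (nat_lit 5) (nat_lit 10) (nat_lit 4) (nat_lit 342) (nat_lit 303)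 (nat_lit 135)))) (XT.nd (nat_lit 156) (nat_lit 76) (nat_lit 0) (XT.nd (nat_lit 78) (nat_lit 0) (nat_lit 0) (XT.lf (nat_lit 0) (nat_lit 24592302588) (nat_lit 152) (nat_lit 450473089627) (nat_lit 76) (nat_lit 423027385999) (nat_lit 8) (nat_lit 5) (nat_lit 10) (nat_lit 5) (nat_lit 9) (nat_lit 4) (nat_lit 343) (nat_lit 303) (nat_lit 134)) (XT.lf (nat_lit 0) (nat_lit 130072817788) (nat_lit 152) (nat_lit 231073701463) (nat_lit 76) (nat_lit 597344034569) (nat_lit 8) (nat_lit 5) (nat_lit 10) (nat_lit 5) (nat_lit 9) (nat_lit 4) (nat_lit 344) (nat_lit 303) (nat_lit 133))) (XT.nd (nat_lit 78) (nat_lit 0) (nat_lit 0) (XT.lf (nat_lit 0) (nat_lit 6187057916) (nat_lit 76) (nat_lit 237953469799) (nat_lit 152) (nat_lit 779567723541) (nat_lit 7) (nat_lit 5) (nat_lit 8) (nat_lit 5) (nat_lit 9) (nat_lit 4) (nat_lit 345) (nat_lit 303) (nat_lit 132)) (XT.lf (nat_lit 0) (nat_lit 275569964730) (nat_lit 76)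 (nat_lit 98081610273) (nat_lit 152) (nat_lit 719986355897) (nat_lit 7) (nat_lit 5) (nat_lit 8) (nat_lit 5) (nat_lit 9) (nat_lit 4) (nat_lit 346) (nat_lit 303) (nat_lit 131))))) (XT.nd (nat_lit 312) (nat_lit 76) (nat_lit 0) (XT.nd (nat_lit 156) (nat_lit 76) (nat_lit 0) (XT.nd (nat_lit 78) (nat_lit 0) (nat_lit 0) (XT.lf (nat_lit 0) (nat_lit 514797634834) (nat_lit 152) (nat_lit 603932727153) (nat_lit 0) (nat_lit 50329692682) (nat_lit 7) (nat_lit 5) (nat_lit 9) (nat_lit 4) (nat_lit 7) (nat_lit 4) (nat_lit 347) (nat_lit 303) (nat_lit 130)) (XT.lf (nat_lit 0) (nat_lit 669782915349) (nat_lit 152) (nat_lit 375214313767) (nat_lit 0) (nat_lit 205314916401) (nat_lit 7) (nat_lit 5) (nat_lit 9) (nat_lit 4) (nat_lit 7) (nat_lit 4) (nat_lit 348) (nat_lit 303) (nat_lit 129))) (XT.nd (nat_lit 78) (nat_lit 76) (nat_lit 0) (XT.lf (nat_lit 0) (nat_lit 837166982754) (nat_lit 152) (nat_lit 128198492552)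 (nat_lit 0) (nat_lit 372698931218) (nat_lit 7) (nat_lit 5) (nat_lit 9) (nat_lit 4) (nat_lit 7) (nat_lit 4) (nat_lit 349) (nat_lit 303) (nat_lit 128)) (XT.lf (nat_lit 0) (nat_lit 145875833965) (nat_lit 76) (nat_lit 875574225983) (nat_lit 76) (nat_lit 411106125754) (nat_lit 6) (nat_lit 4) (nat_lit 7) (nat_lit 5) (nat_lit 7) (nat_lit 4) (nat_lit 350) (nat_lit 303) (nat_lit 127)))) (XT.nd (nat_lit 156) (nat_lit 76) (nat_lit 0) (XT.nd (nat_lit 78) (nat_lit 0) (nat_lit 0) (XT.lf (nat_lit 0) (nat_lit 449166809590) (nat_lit 76) (nat_lit 774814115806) (nat_lit 76) (nat_lit 310345970491) (nat_lit 6) (nat_lit 4) (nat_lit 7) (nat_lit 5) (nat_lit 7) (nat_lit 4) (nat_lit 351) (nat_lit 303) (nat_lit 126)) (XT.lf (nat_lit 0) (nat_lit 776721008747) (nat_lit 76) (nat_lit 665993221801) (nat_lit 76) (nat_lit 201525034740) (nat_lit 6) (nat_lit 4) (nat_lit 7) (nat_lit 5) (nat_lit 7) (nat_lit 4) (nat_lit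 352) (nat_lit 303) (nat_lit 125))) (XT.nd (nat_lit 78) (nat_lit 76) (nat_lit 0) (XT.lf (nat_lit 0) (nat_lit 1130479493357) (nat_lit 76) (nat_lit 548466679410) (nat_lit 76) (nat_lit 83998453694) (nat_lit 6) (nat_lit 4) (nat_lit 7) (nat_lit 5) (nat_lit 7) (nat_lit 4) (nat_lit 353) (nat_lit 303) (nat_lit 124)) (XT.lf (nat_lit 0) (nat_lit 40782682661) (nat_lit 152) (nat_lit 379640281570) (nat_lit 76) (nat_lit 1470640856516) (nat_lit 5) (nat_lit 5) (nat_lit 7) (nat_lit 5) (nat_lit 6) (nat_lit 4) (nat_lit 354) (nat_lit 303) (nat_lit 123))))))))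
noncomputable def xc111 : XT := (XT.nd (nat_lit 38688) (nat_lit 0) (nat_lit 76) (XT.nd (nat_lit 37596) (nat_lit 0) (nat_lit 988) (XT.nd (nat_lit 37050) (nat_lit 0) (nat_lit 2204) (XT.nd (nat_lit 36738) (nat_lit 0) (nat_lit 2736) (XT.nd (nat_lit 78) (nat_lit 76) (nat_lit 0) (XT.lf (nat_lit 0) (nat_lit 171008187568) (nat_lit 152) (nat_lit 108771264503) (nat_lit 76) (nat_lit 1749478558216) (nat_lit 5) (nat_lit 5) (nat_lit 7) (nat_lit 5) (nat_lit 6) (nat_lit 4) (nat_lit 355) (nat_lit 303) (nat_lit 122)) (XT.nd (nat_lit 36582) (nat_lit 0) (nat_lit 2736) (XT.lf (nat_lit 0) (nat_lit 193444089464) (nat_lit 76) (nat_lit 122859956109) (nat_lit 152) (nat_lit 1861831504425) (nat_lit 4) (nat_lit 5) (nat_lit 5) (nat_lit 5) (nat_lit 6) (nat_lit 4) (nat_lit 356) (nat_lit 303) (nat_lit 121)) (XT.lf (nat_lit 0) (nat_lit 29209375719) (nat_lit 532) (nat_lit 15652990752) (nat_lit 532) (nat_lit 15652990752)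 (nat_lit 40) (nat_lit 3) (nat_lit 47) (nat_lit 3) (nat_lit 47) (nat_lit 5) (nat_lit 304) (nat_lit 304) (nat_lit 172)))) (XT.nd (nat_lit 156) (nat_lit 0) (nat_lit 76) (XT.nd (nat_lit 78) (nat_lit 0) (nat_lit 76) (XT.lf (nat_lit 76) (nat_lit 23172527314) (nat_lit 0) (nat_lit 38144301073) (nat_lit 532) (nat_lit 64510191309) (nat_lit 41) (nat_lit 5) (nat_lit 40) (nat_lit 3) (nat_lit 47) (nat_lit 5) (nat_lit 305) (nat_lit 304) (nat_lit 171)) (XT.lf (nat_lit 0) (nat_lit 65746921242) (nat_lit 456) (nat_lit 47593718224) (nat_lit 532) (nat_lit 17562378038) (nat_lit 41) (nat_lit 5) (nat_lit 47) (nat_lit 5) (nat_lit 48) (nat_lit 5) (nat_lit 306) (nat_lit 304) (nat_lit 170))) (XT.nd (nat_lit 78) (nat_lit 0) (nat_lit 0) (XT.lf (nat_lit 76) (nat_lit 11453877422) (nat_lit 0) (nat_lit 60343396998) (nat_lit 532) (nat_lit 64486554076) (nat_lit 42) (nat_lit 5) (nat_lit 41) (nat_lit 5) (nat_lit 48) (nat_lit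 5) (nat_lit 307) (nat_lit 304) (nat_lit 169)) (XT.lf (nat_lit 76) (nat_lit 77931735229) (nat_lit 0) (nat_lit 1700864911) (nat_lit 532) (nat_lit 62358430158) (nat_lit 42) (nat_lit 5) (nat_lit 41) (nat_lit 5) (nat_lit 48) (nat_lit 5) (nat_lit 308) (nat_lit 304) (nat_lit 168))))) (XT.nd (nat_lit 234) (nat_lit 684) (nat_lit 0) (XT.nd (nat_lit 78) (nat_lit 0) (nat_lit 0) (XT.lf (nat_lit 76) (nat_lit 95246869) (nat_lit 0) (nat_lit 89483748781) (nat_lit 532) (nat_lit 58457074460) (nat_lit 43) (nat_lit 5) (nat_lit 42) (nat_lit 5) (nat_lit 49) (nat_lit 5) (nat_lit 309) (nat_lit 304) (nat_lit 167)) (XT.nd (nat_lit 78) (nat_lit 0) (nat_lit 76) (XT.lf (nat_lit 76) (nat_lit 72978508445) (nat_lit 0) (nat_lit 29136843130) (nat_lit 532) (nat_lit 52305822893) (nat_lit 43) (nat_lit 5) (nat_lit 42) (nat_lit 5) (nat_lit 49) (nat_lit 5) (nat_lit 310) (nat_lit 304) (nat_lit 166)) (XT.lf (nat_lit 0) (nat_lit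 116521044479) (nat_lit 456) (nat_lit 10491621215) (nat_lit 76) (nat_lit 34235108369) (nat_lit 43) (nat_lit 5) (nat_lit 49) (nat_lit 5) (nat_lit 44) (nat_lit 5) (nat_lit 311) (nat_lit 304) (nat_lit 165)))) (XT.nd (nat_lit 156) (nat_lit 304) (nat_lit 0) (XT.nd (nat_lit 78) (nat_lit 0) (nat_lit 0) (XT.lf (nat_lit 0) (nat_lit 68821184633) (nat_lit 456) (nat_lit 65669699511) (nat_lit 532) (nat_lit 33936683259) (nat_lit 37) (nat_lit 5) (nat_lit 43) (nat_lit 5) (nat_lit 44) (nat_lit 5) (nat_lit 312) (nat_lit 304) (nat_lit 164)) (XT.lf (nat_lit 0) (nat_lit 154206340622) (nat_lit 532) (nat_lit 21104780571) (nat_lit 76) (nat_lit 845981649) (nat_lit 37) (nat_lit 5) (nat_lit 44) (nat_lit 5) (nat_lit 38) (nat_lit 5) (nat_lit 313) (nat_lit 304) (nat_lit 163))) (XT.nd (nat_lit 78) (nat_lit 76) (nat_lit 0) (XT.lf (nat_lit 0) (nat_lit 65234294503) (nat_lit 228) (nat_lit 113539103502) (nat_lit 304)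 (nat_lit 5469654889) (nat_lit 34) (nat_lit 5) (nat_lit 37) (nat_lit 5) (nat_lit 38) (nat_lit 5) (nat_lit 314) (nat_lit 304) (nat_lit 162)) (XT.lf (nat_lit 0) (nat_lit 12304954227) (nat_lit 304) (nat_lit 33560735019) (nat_lit 76) (nat_lit 147039123127) (nat_lit 33) (nat_lit 5) (nat_lit 37) (nat_lit 5) (nat_lit 34) (nat_lit 5) (nat_lit 315) (nat_lit 304) (nat_lit 161)))))) (XT.nd (nat_lit 546) (nat_lit 456) (nat_lit 0) (XT.nd (nat_lit 234) (nat_lit 304) (nat_lit 0) (XT.nd (nat_lit 78) (nat_lit 228) (nat_lit 0) (XT.lf (nat_lit 0) (nat_lit 33385771867) (nat_lit 304) (nat_lit 141160807423) (nat_lit 76) (nat_lit 27527189082) (nat_lit 30) (nat_lit 5) (nat_lit 34) (nat_lit 5) (nat_lit 31) (nat_lit 5) (nat_lit 316) (nat_lit 304) (nat_lit 160)) (XT.nd (nat_lit 78) (nat_lit 228) (nat_lit 0) (XT.lf (nat_lit 0) (nat_lit 58285618320) (nat_lit 304) (nat_lit 48265033103) (nat_lit 76) (nat_lit 105254985038)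 (nat_lit 30) (nat_lit 5) (nat_lit 34) (nat_lit 5) (nat_lit 31) (nat_lit 5) (nat_lit 317) (nat_lit 304) (nat_lit 159)) (XT.lf (nat_lit 0) (nat_lit 54803691162) (nat_lit 228) (nat_lit 31691608828) (nat_lit 304) (nat_lit 135715326840) (nat_lit 27) (nat_lit 5) (nat_lit 30) (nat_lit 5) (nat_lit 31) (nat_lit 5) (nat_lit 318) (nat_lit 304) (nat_lit 158)))) (XT.nd (nat_lit 156) (nat_lit 152) (nat_lit 0) (XT.nd (nat_lit 78) (nat_lit 152) (nat_lit 0) (XT.lf (nat_lit 0) (nat_lit 119497716219) (nat_lit 304) (nat_lit 65696361987) (nat_lit 76) (nat_lit 48051062004) (nat_lit 27) (nat_lit 5) (nat_lit 31) (nat_lit 5) (nat_lit 28) (nat_lit 5) (nat_lit 319) (nat_lit 304) (nat_lit 157)) (XT.lf (nat_lit 0) (nat_lit 45609252107) (nat_lit 152) (nat_lit 111450973940) (nat_lit 228) (nat_lit 87948597132) (nat_lit 25) (nat_lit 5) (nat_lit 27) (nat_lit 5) (nat_lit 28) (nat_lit 5) (nat_lit 320) (nat_lit 304) (nat_lit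 156))) (XT.nd (nat_lit 78) (nat_lit 152) (nat_lit 0) (XT.lf (nat_lit 0) (nat_lit 169555324553) (nat_lit 152) (nat_lit 29868512253) (nat_lit 228) (nat_lit 58146076471) (nat_lit 25) (nat_lit 5) (nat_lit 27) (nat_lit 5) (nat_lit 28) (nat_lit 5) (nat_lit 321) (nat_lit 304) (nat_lit 155)) (XT.lf (nat_lit 0) (nat_lit 32506410893) (nat_lit 152) (nat_lit 214852447655) (nat_lit 228) (nat_lit 23602446727) (nat_lit 23) (nat_lit 5) (nat_lit 25) (nat_lit 5) (nat_lit 26) (nat_lit 5) (nat_lit 322) (nat_lit 304) (nat_lit 154))))) (XT.nd (nat_lit 234) (nat_lit 228) (nat_lit 0) (XT.nd (nat_lit 78) (nat_lit 152) (nat_lit 0) (XT.lf (nat_lit 0) (nat_lit 16263754005) (nat_lit 228) (nat_lit 118725041600) (nat_lit 76) (nat_lit 150149274100) (nat_lit 22) (nat_lit 5) (nat_lit 25) (nat_lit 5) (nat_lit 23) (nat_lit 5) (nat_lit 323) (nat_lit 304) (nat_lit 153)) (XT.nd (nat_lit 78) (nat_lit 0) (nat_lit 0) (XT.lf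 (nat_lit 0) (nat_lit 10494964269) (nat_lit 152) (nat_lit 47801413731) (nat_lit 228) (nat_lit 242083371821) (nat_lit 20) (nat_lit 5) (nat_lit 22) (nat_lit 5) (nat_lit 23) (nat_lit 5) (nat_lit 324) (nat_lit 304) (nat_lit 152)) (XT.lf (nat_lit 0) (nat_lit 108136935138) (nat_lit 228) (nat_lit 160975990662) (nat_lit 76) (nat_lit 47372213031) (nat_lit 20) (nat_lit 5) (nat_lit 23) (nat_lit 5) (nat_lit 21) (nat_lit 5) (nat_lit 325) (nat_lit 304) (nat_lit 151)))) (XT.nd (nat_lit 156) (nat_lit 76) (nat_lit 0) (XT.nd (nat_lit 78) (nat_lit 152) (nat_lit 0) (XT.lf (nat_lit 0) (nat_lit 163206213816) (nat_lit 228) (nat_lit 22996262941) (nat_lit 76) (nat_lit 147577164363) (nat_lit 20) (nat_lit 5) (nat_lit 23) (nat_lit 5) (nat_lit 21) (nat_lit 5) (nat_lit 326) (nat_lit 304) (nat_lit 150)) (XT.lf (nat_lit 0) (nat_lit 132657758765) (nat_lit 152) (nat_lit 93213588873) (nat_lit 228) (nat_lit 126331131218)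 (nat_lit 18) (nat_lit 5) (nat_lit 20) (nat_lit 5) (nat_lit 21) (nat_lit 5) (nat_lit 327) (nat_lit 304) (nat_lit 149))) (XT.nd (nat_lit 78) (nat_lit 76) (nat_lit 0) (XT.lf (nat_lit 0) (nat_lit 294368182450) (nat_lit 228) (nat_lit 70166926869) (nat_lit 76) (nat_lit 7498555342) (nat_lit 18) (nat_lit 5) (nat_lit 21) (nat_lit 5) (nat_lit 19) (nat_lit 4) (nat_lit 328) (nat_lit 304) (nat_lit 148)) (XT.lf (nat_lit 0) (nat_lit 93412684865) (nat_lit 76) (nat_lit 279599690135) (nat_lit 152) (nat_lit 20065561703) (nat_lit 17) (nat_lit 5) (nat_lit 18) (nat_lit 5) (nat_lit 19) (nat_lit 4) (nat_lit 329) (nat_lit 304) (nat_lit 147))))))) (XT.nd (nat_lit 1092) (nat_lit 304) (nat_lit 0) (XT.nd (nat_lit 546) (nat_lit 304) (nat_lit 0) (XT.nd (nat_lit 234) (nat_lit 76) (nat_lit 0) (XT.nd (nat_lit 78) (nat_lit 152) (nat_lit 0) (XT.lf (nat_lit 0) (nat_lit 42002442758) (nat_lit 152) (nat_lit 142646661118)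 (nat_lit 76) (nat_lit 230918107166) (nat_lit 16) (nat_lit 5) (nat_lit 18) (nat_lit 5) (nat_lit 17) (nat_lit 5) (nat_lit 330) (nat_lit 304) (nat_lit 146)) (XT.nd (nat_lit 78) (nat_lit 0) (nat_lit 0) (XT.lf (nat_lit 0) (nat_lit 27802903720) (nat_lit 152) (nat_lit 80817492541) (nat_lit 228) (nat_lit 331140050974) (nat_lit 14) (nat_lit 5) (nat_lit 16) (nat_lit 5) (nat_lit 17) (nat_lit 5) (nat_lit 331) (nat_lit 304) (nat_lit 145)) (XT.lf (nat_lit 0) (nat_lit 185322476851) (nat_lit 228) (nat_lit 246430961916) (nat_lit 76) (nat_lit 33755328478) (nat_lit 14) (nat_lit 5) (nat_lit 17) (nat_lit 5) (nat_lit 15) (nat_lit 4) (nat_lit 332) (nat_lit 304) (nat_lit 144)))) (XT.nd (nat_lit 156) (nat_lit 0) (nat_lit 0) (XT.nd (nat_lit 78) (nat_lit 76) (nat_lit 0) (XT.lf (nat_lit 0) (nat_lit 270259797822) (nat_lit 228) (nat_lit 69761544439) (nat_lit 76) (nat_lit 153127684850) (nat_lit 14) (nat_lit 5) (nat_lit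 17) (nat_lit 5) (nat_lit 15) (nat_lit 4) (nat_lit 333) (nat_lit 304) (nat_lit 143)) (XT.lf (nat_lit 0) (nat_lit 127415121865) (nat_lit 76) (nat_lit 237641243689) (nat_lit 152) (nat_lit 157699001484) (nat_lit 13) (nat_lit 5) (nat_lit 14) (nat_lit 5) (nat_lit 15) (nat_lit 4) (nat_lit 334) (nat_lit 304) (nat_lit 142))) (XT.nd (nat_lit 78) (nat_lit 0) (nat_lit 0) (XT.lf (nat_lit 0) (nat_lit 344333200485) (nat_lit 76) (nat_lit 125010789485) (nat_lit 152) (nat_lit 85233637835) (nat_lit 13) (nat_lit 5) (nat_lit 14) (nat_lit 5) (nat_lit 15) (nat_lit 4) (nat_lit 335) (nat_lit 304) (nat_lit 141)) (XT.lf (nat_lit 0) (nat_lit 578604612584) (nat_lit 76) (nat_lit 3369944173) (nat_lit 152) (nat_lit 6971118217) (nat_lit 13) (nat_lit 5) (nat_lit 14) (nat_lit 5) (nat_lit 15) (nat_lit 4) (nat_lit 336) (nat_lit 304) (nat_lit 140))))) (XT.nd (nat_lit 234) (nat_lit 76) (nat_lit 0) (XT.nd (nat_lit 78) (nat_lit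 76) (nat_lit 0) (XT.lf (nat_lit 0) (nat_lit 82090384532) (nat_lit 152) (nat_lit 414347018629) (nat_lit 76) (nat_lit 128803154552) (nat_lit 11) (nat_lit 5) (nat_lit 13) (nat_lit 5) (nat_lit 12) (nat_lit 4) (nat_lit 337) (nat_lit 304) (nat_lit 139)) (XT.nd (nat_lit 78) (nat_lit 76) (nat_lit 0) (XT.lf (nat_lit 0) (nat_lit 178277740890) (nat_lit 152) (nat_lit 214277449832) (nat_lit 76) (nat_lit 271839150631) (nat_lit 11) (nat_lit 5) (nat_lit 13) (nat_lit 5) (nat_lit 12) (nat_lit 4) (nat_lit 338) (nat_lit 304) (nat_lit 138)) (XT.lf (nat_lit 0) (nat_lit 1892240852) (nat_lit 76) (nat_lit 280313294894) (nat_lit 152) (nat_lit 424471256037) (nat_lit 10) (nat_lit 5) (nat_lit 11) (nat_lit 5) (nat_lit 12) (nat_lit 4) (nat_lit 339) (nat_lit 304) (nat_lit 137)))) (XT.nd (nat_lit 156) (nat_lit 76) (nat_lit 0) (XT.nd (nat_lit 78) (nat_lit 0) (nat_lit 0) (XT.lf (nat_lit 0) (nat_lit 247541556622) (nat_lit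 76) (nat_lit 152764666289) (nat_lit 152) (nat_lit 351566921930) (nat_lit 10) (nat_lit 5) (nat_lit 11) (nat_lit 5) (nat_lit 12) (nat_lit 4) (nat_lit 340) (nat_lit 304) (nat_lit 136)) (XT.lf (nat_lit 0) (nat_lit 512842726352) (nat_lit 76) (nat_lit 15012186393) (nat_lit 152) (nat_lit 272830297670) (nat_lit 10) (nat_lit 5) (nat_lit 11) (nat_lit 5) (nat_lit 12) (nat_lit 4) (nat_lit 341) (nat_lit 304) (nat_lit 135))) (XT.nd (nat_lit 78) (nat_lit 76) (nat_lit 0) (XT.lf (nat_lit 0) (nat_lit 668824391514) (nat_lit 152) (nat_lit 57251282247) (nat_lit 0) (nat_lit 127069216053) (nat_lit 10) (nat_lit 5) (nat_lit 12) (nat_lit 4) (nat_lit 10) (nat_lit 4) (nat_lit 342) (nat_lit 304) (nat_lit 134)) (XT.lf (nat_lit 0) (nat_lit 201475845432) (nat_lit 76) (nat_lit 624830963351) (nat_lit 76) (nat_lit 83075704439) (nat_lit 9) (nat_lit 4) (nat_lit 10) (nat_lit 5) (nat_lit 10) (nat_lit 4) (nat_lit 343) (nat_lit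 304) (nat_lit 133)))))) (XT.nd (nat_lit 546) (nat_lit 152) (nat_lit 0) (XT.nd (nat_lit 234) (nat_lit 0) (nat_lit 0) (XT.nd (nat_lit 78) (nat_lit 76) (nat_lit 0) (XT.lf (nat_lit 0) (nat_lit 26560572137) (nat_lit 152) (nat_lit 486509346135) (nat_lit 76) (nat_lit 456870210147) (nat_lit 8) (nat_lit 5) (nat_lit 10) (nat_lit 5) (nat_lit 9) (nat_lit 4) (nat_lit 344) (nat_lit 304) (nat_lit 132)) (XT.nd (nat_lit 78) (nat_lit 76) (nat_lit 0) (XT.lf (nat_lit 0) (nat_lit 140479462972) (nat_lit 152) (nat_lit 249558124744) (nat_lit 76) (nat_lit 645132143695) (nat_lit 8) (nat_lit 5) (nat_lit 10) (nat_lit 5) (nat_lit 9) (nat_lit 4) (nat_lit 345) (nat_lit 304) (nat_lit 131)) (XT.lf (nat_lit 0) (nat_lit 6683458099) (nat_lit 76) (nat_lit 256989105396) (nat_lit 152) (nat_lit 841932283327) (nat_lit 7) (nat_lit 5) (nat_lit 8) (nat_lit 5) (nat_lit 9) (nat_lit 4) (nat_lit 346) (nat_lit 304) (nat_lit 130))))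 (XT.nd (nat_lit 156) (nat_lit 0) (nat_lit 0) (XT.nd (nat_lit 78) (nat_lit 0) (nat_lit 0) (XT.lf (nat_lit 0) (nat_lit 297616891120) (nat_lit 76) (nat_lit 105927544663) (nat_lit 152) (nat_lit 777584469834) (nat_lit 7) (nat_lit 5) (nat_lit 8) (nat_lit 5) (nat_lit 9) (nat_lit 4) (nat_lit 347) (nat_lit 304) (nat_lit 129)) (XT.lf (nat_lit 0) (nat_lit 555982139210) (nat_lit 152) (nat_lit 652246072482) (nat_lit 0) (nat_lit 54356590963) (nat_lit 7) (nat_lit 5) (nat_lit 9) (nat_lit 4) (nat_lit 7) (nat_lit 4) (nat_lit 348) (nat_lit 304) (nat_lit 128))) (XT.nd (nat_lit 78) (nat_lit 0) (nat_lit 0) (XT.lf (nat_lit 0) (nat_lit 723366190789) (nat_lit 152) (nat_lit 405230280310) (nat_lit 0) (nat_lit 221740593849) (nat_lit 7) (nat_lit 5) (nat_lit 9) (nat_lit 4) (nat_lit 7) (nat_lit 4) (nat_lit 349) (nat_lit 304) (nat_lit 127)) (XT.lf (nat_lit 0) (nat_lit 904140936015) (nat_lit 152) (nat_lit 138453280699)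 (nat_lit 0) (nat_lit 402515293989) (nat_lit 7) (nat_lit 5) (nat_lit 9) (nat_lit 4) (nat_lit 7) (nat_lit 4) (nat_lit 350) (nat_lit 304) (nat_lit 126))))) (XT.nd (nat_lit 312) (nat_lit 76) (nat_lit 0) (XT.nd (nat_lit 156) (nat_lit 0) (nat_lit 0) (XT.nd (nat_lit 78) (nat_lit 0) (nat_lit 0) (XT.lf (nat_lit 0) (nat_lit 157546964314) (nat_lit 76) (nat_lit 945619676604) (nat_lit 76) (nat_lit 443993992832) (nat_lit 6) (nat_lit 4) (nat_lit 7) (nat_lit 5) (nat_lit 7) (nat_lit 4) (nat_lit 351) (nat_lit 304) (nat_lit 125)) (XT.lf (nat_lit 0) (nat_lit 485101139201) (nat_lit 76) (nat_lit 836798793721) (nat_lit 76) (nat_lit 335173071295) (nat_lit 6) (nat_lit 4) (nat_lit 7) (nat_lit 5) (nat_lit 7) (nat_lit 4) (nat_lit 352) (nat_lit 304) (nat_lit 124))) (XT.nd (nat_lit 78) (nat_lit 0) (nat_lit 0) (XT.lf (nat_lit 0) (nat_lit 838859601339) (nat_lit 76) (nat_lit 719272261629) (nat_lit 76) (nat_lit 217646503412)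 (nat_lit 6) (nat_lit 4) (nat_lit 7) (nat_lit 5) (nat_lit 7) (nat_lit 4) (nat_lit 353) (nat_lit 304) (nat_lit 123)) (XT.lf (nat_lit 0) (nat_lit 1220918697170) (nat_lit 76) (nat_lit 592343626803) (nat_lit 76) (nat_lit 90717835446) (nat_lit 6) (nat_lit 4) (nat_lit 7) (nat_lit 5) (nat_lit 7) (nat_lit 4) (nat_lit 354) (nat_lit 304) (nat_lit 122)))) (XT.nd (nat_lit 36738) (nat_lit 0) (nat_lit 2660) (XT.nd (nat_lit 78) (nat_lit 0) (nat_lit 0) (XT.lf (nat_lit 0) (nat_lit 44045732278) (nat_lit 152) (nat_lit 410010698901) (nat_lit 76) (nat_lit 1588292459940) (nat_lit 5) (nat_lit 5) (nat_lit 7) (nat_lit 5) (nat_lit 6) (nat_lit 4) (nat_lit 355) (nat_lit 304) (nat_lit 121)) (XT.lf (nat_lit 0) (nat_lit 184689245355) (nat_lit 152) (nat_lit 117472220114) (nat_lit 76) (nat_lit 1889437152968) (nat_lit 5) (nat_lit 5) (nat_lit 7) (nat_lit 5) (nat_lit 6) (nat_lit 4) (nat_lit 356) (nat_lit 304) (nat_lit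 120))) (XT.nd (nat_lit 78) (nat_lit 0) (nat_lit 0) (XT.lf (nat_lit 0) (nat_lit 31550055978) (nat_lit 532) (nat_lit 16903099321) (nat_lit 532) (nat_lit 16903099321) (nat_lit 40) (nat_lit 3) (nat_lit 47) (nat_lit 3) (nat_lit 47) (nat_lit 5) (nat_lit 305) (nat_lit 305) (nat_lit 170)) (XT.lf (nat_lit 76) (nat_lit 25030482997) (nat_lit 0) (nat_lit 41199069703) (nat_lit 532) (nat_lit 69663007283) (nat_lit 41) (nat_lit 5) (nat_lit 40) (nat_lit 3) (nat_lit 47) (nat_lit 5) (nat_lit 306) (nat_lit 305) (nat_lit 169))))))))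
noncomputable def xc112 : XT := (XT.nd (nat_lit 2184) (nat_lit 684) (nat_lit 0) (XT.nd (nat_lit 1092) (nat_lit 988) (nat_lit 0) (XT.nd (nat_lit 546) (nat_lit 760) (nat_lit 0) (XT.nd (nat_lit 234) (nat_lit 304) (nat_lit 0) (XT.nd (nat_lit 78) (nat_lit 0) (nat_lit 0) (XT.lf (nat_lit 0) (nat_lit 71013434656) (nat_lit 456) (nat_lit 51396722777) (nat_lit 532) (nat_lit 18964531948) (nat_lit 41) (nat_lit 5) (nat_lit 47) (nat_lit 5) (nat_lit 48) (nat_lit 5) (nat_lit 307) (nat_lit 305) (nat_lit 168)) (XT.nd (nat_lit 78) (nat_lit 0) (nat_lit 0) (XT.lf (nat_lit 76) (nat_lit 12374566776) (nat_lit 0) (nat_lit 65172853912) (nat_lit 532) (nat_lit 69638578328) (nat_lit 42) (nat_lit 5) (nat_lit 41) (nat_lit 5) (nat_lit 48) (nat_lit 5) (nat_lit 308) (nat_lit 305) (nat_lit 167)) (XT.lf (nat_lit 76) (nat_lit 84170328825) (nat_lit 0) (nat_lit 1838772210) (nat_lit 532) (nat_lit 67340715612) (nat_lit 42)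 (nat_lit 5) (nat_lit 41) (nat_lit 5) (nat_lit 48) (nat_lit 5) (nat_lit 309) (nat_lit 305) (nat_lit 166)))) (XT.nd (nat_lit 156) (nat_lit 380) (nat_lit 0) (XT.nd (nat_lit 78) (nat_lit 0) (nat_lit 0) (XT.lf (nat_lit 76) (nat_lit 107345347) (nat_lit 0) (nat_lit 96643493110) (nat_lit 532) (nat_lit 63127652590) (nat_lit 43) (nat_lit 5) (nat_lit 42) (nat_lit 5) (nat_lit 49) (nat_lit 5) (nat_lit 310) (nat_lit 305) (nat_lit 165)) (XT.lf (nat_lit 76) (nat_lit 78820936091) (nat_lit 0) (nat_lit 31468757643) (nat_lit 532) (nat_lit 56484744441) (nat_lit 43) (nat_lit 5) (nat_lit 42) (nat_lit 5) (nat_lit 49) (nat_lit 5) (nat_lit 311) (nat_lit 305) (nat_lit 164))) (XT.nd (nat_lit 78) (nat_lit 456) (nat_lit 0) (XT.lf (nat_lit 0) (nat_lit 125847441718) (nat_lit 456) (nat_lit 11326691210) (nat_lit 76) (nat_lit 36973066403) (nat_lit 43) (nat_lit 5) (nat_lit 49) (nat_lit 5) (nat_lit 44) (nat_lit 5) (nat_lit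 312) (nat_lit 305) (nat_lit 163)) (XT.lf (nat_lit 0) (nat_lit 74331031266) (nat_lit 456) (nat_lit 70923587981) (nat_lit 532) (nat_lit 36646778285) (nat_lit 37) (nat_lit 5) (nat_lit 43) (nat_lit 5) (nat_lit 44) (nat_lit 5) (nat_lit 313) (nat_lit 305) (nat_lit 162))))) (XT.nd (nat_lit 234) (nat_lit 456) (nat_lit 0) (XT.nd (nat_lit 78) (nat_lit 304) (nat_lit 0) (XT.lf (nat_lit 0) (nat_lit 166546974590) (nat_lit 532) (nat_lit 22788964274) (nat_lit 76) (nat_lit 913385297) (nat_lit 37) (nat_lit 5) (nat_lit 44) (nat_lit 5) (nat_lit 38) (nat_lit 5) (nat_lit 314) (nat_lit 305) (nat_lit 161)) (XT.nd (nat_lit 78) (nat_lit 76) (nat_lit 0) (XT.lf (nat_lit 0) (nat_lit 70457130509) (nat_lit 228) (nat_lit 122622058795) (nat_lit 304) (nat_lit 5902978735) (nat_lit 34) (nat_lit 5) (nat_lit 37) (nat_lit 5) (nat_lit 38) (nat_lit 5) (nat_lit 315) (nat_lit 305) (nat_lit 160)) (XT.lf (nat_lit 0) (nat_lit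 13293087616) (nat_lit 304) (nat_lit 36241594418) (nat_lit 76) (nat_lit 158802203049) (nat_lit 33) (nat_lit 5) (nat_lit 37) (nat_lit 5) (nat_lit 34) (nat_lit 5) (nat_lit 316) (nat_lit 305) (nat_lit 159)))) (XT.nd (nat_lit 156) (nat_lit 228) (nat_lit 0) (XT.nd (nat_lit 78) (nat_lit 0) (nat_lit 0) (XT.lf (nat_lit 0) (nat_lit 36060195877) (nat_lit 304) (nat_lit 152449485496) (nat_lit 76) (nat_lit 29729691160) (nat_lit 30) (nat_lit 5) (nat_lit 34) (nat_lit 5) (nat_lit 31) (nat_lit 5) (nat_lit 317) (nat_lit 305) (nat_lit 158)) (XT.lf (nat_lit 0) (nat_lit 62951766176) (nat_lit 304) (nat_lit 52122359343) (nat_lit 76) (nat_lit 113675686574) (nat_lit 30) (nat_lit 5) (nat_lit 34) (nat_lit 5) (nat_lit 31) (nat_lit 5) (nat_lit 318) (nat_lit 305) (nat_lit 157))) (XT.nd (nat_lit 78) (nat_lit 0) (nat_lit 0) (XT.lf (nat_lit 0) (nat_lit 59191764727) (nat_lit 228) (nat_lit 34226304195) (nat_lit 304)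 (nat_lit 146569145891) (nat_lit 27) (nat_lit 5) (nat_lit 30) (nat_lit 5) (nat_lit 31) (nat_lit 5) (nat_lit 319) (nat_lit 305) (nat_lit 156)) (XT.lf (nat_lit 0) (nat_lit 129060459595) (nat_lit 304) (nat_lit 70948343905) (nat_lit 76) (nat_lit 51895704055) (nat_lit 27) (nat_lit 5) (nat_lit 31) (nat_lit 5) (nat_lit 28) (nat_lit 5) (nat_lit 320) (nat_lit 305) (nat_lit 155)))))) (XT.nd (nat_lit 546) (nat_lit 456) (nat_lit 0) (XT.nd (nat_lit 234) (nat_lit 228) (nat_lit 0) (XT.nd (nat_lit 78) (nat_lit 152) (nat_lit 0) (XT.lf (nat_lit 0) (nat_lit 49261624961) (nat_lit 152) (nat_lit 120366215868) (nat_lit 228) (nat_lit 94981455408) (nat_lit 25) (nat_lit 5) (nat_lit 27) (nat_lit 5) (nat_lit 28) (nat_lit 5) (nat_lit 321) (nat_lit 305) (nat_lit 154)) (XT.nd (nat_lit 78) (nat_lit 152) (nat_lit 0) (XT.lf (nat_lit 0) (nat_lit 183123114114) (nat_lit 152) (nat_lit 32257219170) (nat_lit 228) (nat_lit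 62794957501) (nat_lit 25) (nat_lit 5) (nat_lit 27) (nat_lit 5) (nat_lit 28) (nat_lit 5) (nat_lit 322) (nat_lit 305) (nat_lit 153)) (XT.lf (nat_lit 0) (nat_lit 35110394159) (nat_lit 152) (nat_lit 232039671491) (nat_lit 228) (nat_lit 25487936406) (nat_lit 23) (nat_lit 5) (nat_lit 25) (nat_lit 5) (nat_lit 26) (nat_lit 5) (nat_lit 323) (nat_lit 305) (nat_lit 152)))) (XT.nd (nat_lit 156) (nat_lit 0) (nat_lit 0) (XT.nd (nat_lit 78) (nat_lit 152) (nat_lit 0) (XT.lf (nat_lit 0) (nat_lit 17567234595) (nat_lit 228) (nat_lit 128219699599) (nat_lit 76) (nat_lit 162161984005) (nat_lit 22) (nat_lit 5) (nat_lit 25) (nat_lit 5) (nat_lit 23) (nat_lit 5) (nat_lit 324) (nat_lit 305) (nat_lit 151)) (XT.lf (nat_lit 0) (nat_lit 11337822048) (nat_lit 152) (nat_lit 51624548564) (nat_lit 228) (nat_lit 261447570438) (nat_lit 20) (nat_lit 5) (nat_lit 22) (nat_lit 5) (nat_lit 23) (nat_lit 5) (nat_lit 325) (nat_lit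 305) (nat_lit 150))) (XT.nd (nat_lit 78) (nat_lit 0) (nat_lit 0) (XT.lf (nat_lit 0) (nat_lit 116790025041) (nat_lit 228) (nat_lit 173850897816) (nat_lit 76) (nat_lit 51162850562) (nat_lit 20) (nat_lit 5) (nat_lit 23) (nat_lit 5) (nat_lit 21) (nat_lit 5) (nat_lit 326) (nat_lit 305) (nat_lit 149)) (XT.lf (nat_lit 0) (nat_lit 176264687858) (nat_lit 228) (nat_lit 24833026848) (nat_lit 76) (nat_lit 159384134261) (nat_lit 20) (nat_lit 5) (nat_lit 23) (nat_lit 5) (nat_lit 21) (nat_lit 5) (nat_lit 327) (nat_lit 305) (nat_lit 148))))) (XT.nd (nat_lit 234) (nat_lit 228) (nat_lit 0) (XT.nd (nat_lit 78) (nat_lit 76) (nat_lit 0) (XT.lf (nat_lit 0) (nat_lit 143273242238) (nat_lit 152) (nat_lit 100669712559) (nat_lit 228) (nat_lit 136435565525) (nat_lit 18) (nat_lit 5) (nat_lit 20) (nat_lit 5) (nat_lit 21) (nat_lit 5) (nat_lit 328) (nat_lit 305) (nat_lit 147)) (XT.nd (nat_lit 78) (nat_lit 76) (nat_lit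 0) (XT.lf (nat_lit 0) (nat_lit 317919417155) (nat_lit 228) (nat_lit 75777506533) (nat_lit 76) (nat_lit 8099287204) (nat_lit 18) (nat_lit 5) (nat_lit 21) (nat_lit 5) (nat_lit 19) (nat_lit 4) (nat_lit 329) (nat_lit 305) (nat_lit 146)) (XT.lf (nat_lit 0) (nat_lit 100888403900) (nat_lit 76) (nat_lit 301966674387) (nat_lit 152) (nat_lit 21668952093) (nat_lit 17) (nat_lit 5) (nat_lit 18) (nat_lit 5) (nat_lit 19) (nat_lit 4) (nat_lit 330) (nat_lit 305) (nat_lit 145)))) (XT.nd (nat_lit 156) (nat_lit 0) (nat_lit 0) (XT.nd (nat_lit 78) (nat_lit 152) (nat_lit 0) (XT.lf (nat_lit 0) (nat_lit 45364269451) (nat_lit 152) (nat_lit 154055800578) (nat_lit 76) (nat_lit 249392383795) (nat_lit 16) (nat_lit 5) (nat_lit 18) (nat_lit 5) (nat_lit 17) (nat_lit 5) (nat_lit 331) (nat_lit 305) (nat_lit 144)) (XT.lf (nat_lit 0) (nat_lit 30029663791) (nat_lit 152) (nat_lit 87281935402) (nat_lit 228) (nat_lit 357629554791)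 (nat_lit 14) (nat_lit 5) (nat_lit 16) (nat_lit 5) (nat_lit 17) (nat_lit 5) (nat_lit 332) (nat_lit 305) (nat_lit 143))) (XT.nd (nat_lit 78) (nat_lit 0) (nat_lit 0) (XT.lf (nat_lit 0) (nat_lit 200149751143) (nat_lit 228) (nat_lit 266143000167) (nat_lit 76) (nat_lit 36456596138) (nat_lit 14) (nat_lit 5) (nat_lit 17) (nat_lit 5) (nat_lit 15) (nat_lit 4) (nat_lit 333) (nat_lit 305) (nat_lit 142)) (XT.lf (nat_lit 0) (nat_lit 291881948448) (nat_lit 228) (nat_lit 75340209937) (nat_lit 76) (nat_lit 165378678695) (nat_lit 14) (nat_lit 5) (nat_lit 17) (nat_lit 5) (nat_lit 15) (nat_lit 4) (nat_lit 334) (nat_lit 305) (nat_lit 141))))))) (XT.nd (nat_lit 1092) (nat_lit 152) (nat_lit 0) (XT.nd (nat_lit 546) (nat_lit 228) (nat_lit 0) (XT.nd (nat_lit 234) (nat_lit 228) (nat_lit 0) (XT.nd (nat_lit 78) (nat_lit 0) (nat_lit 0) (XT.lf (nat_lit 0) (nat_lit 137610532505) (nat_lit 76) (nat_lit 256651660780)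 (nat_lit 152) (nat_lit 170313494992) (nat_lit 13) (nat_lit 5) (nat_lit 14) (nat_lit 5) (nat_lit 15) (nat_lit 4) (nat_lit 335) (nat_lit 305) (nat_lit 140)) (XT.nd (nat_lit 78) (nat_lit 0) (nat_lit 0) (XT.lf (nat_lit 0) (nat_lit 371881894386) (nat_lit 76) (nat_lit 135010835602) (nat_lit 152) (nat_lit 92051007926) (nat_lit 13) (nat_lit 5) (nat_lit 14) (nat_lit 5) (nat_lit 15) (nat_lit 4) (nat_lit 336) (nat_lit 305) (nat_lit 139)) (XT.lf (nat_lit 0) (nat_lit 624894868501) (nat_lit 76) (nat_lit 3638783187) (nat_lit 152) (nat_lit 7527584586) (nat_lit 13) (nat_lit 5) (nat_lit 14) (nat_lit 5) (nat_lit 15) (nat_lit 4) (nat_lit 337) (nat_lit 305) (nat_lit 138)))) (XT.nd (nat_lit 156) (nat_lit 76) (nat_lit 0) (XT.nd (nat_lit 78) (nat_lit 0) (nat_lit 0) (XT.lf (nat_lit 0) (nat_lit 88658755589) (nat_lit 152) (nat_lit 447492806372) (nat_lit 76) (nat_lit 139108147203) (nat_lit 11) (nat_lit 5) (nat_lit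 13) (nat_lit 5) (nat_lit 12) (nat_lit 4) (nat_lit 338) (nat_lit 305) (nat_lit 137)) (XT.lf (nat_lit 0) (nat_lit 192541015989) (nat_lit 152) (nat_lit 231417818274) (nat_lit 76) (nat_lit 293586968132) (nat_lit 11) (nat_lit 5) (nat_lit 13) (nat_lit 5) (nat_lit 12) (nat_lit 4) (nat_lit 339) (nat_lit 305) (nat_lit 136))) (XT.nd (nat_lit 78) (nat_lit 0) (nat_lit 0) (XT.lf (nat_lit 0) (nat_lit 2045401397) (nat_lit 76) (nat_lit 302737597666) (nat_lit 152) (nat_lit 458427852758) (nat_lit 10) (nat_lit 5) (nat_lit 11) (nat_lit 5) (nat_lit 12) (nat_lit 4) (nat_lit 340) (nat_lit 305) (nat_lit 135)) (XT.lf (nat_lit 0) (nat_lit 267346530483) (nat_lit 76) (nat_lit 164985135130) (nat_lit 152) (nat_lit 379691253683) (nat_lit 10) (nat_lit 5) (nat_lit 11) (nat_lit 5) (nat_lit 12) (nat_lit 4) (nat_lit 341) (nat_lit 305) (nat_lit 134))))) (XT.nd (nat_lit 234) (nat_lit 152) (nat_lit 0) (XT.nd (nat_lit 78)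 (nat_lit 76) (nat_lit 0) (XT.lf (nat_lit 0) (nat_lit 553871671618) (nat_lit 76) (nat_lit 16212509025) (nat_lit 152) (nat_lit 294655775186) (nat_lit 10) (nat_lit 5) (nat_lit 11) (nat_lit 5) (nat_lit 12) (nat_lit 4) (nat_lit 342) (nat_lit 305) (nat_lit 133)) (XT.nd (nat_lit 78) (nat_lit 76) (nat_lit 0) (XT.lf (nat_lit 0) (nat_lit 722331167433) (nat_lit 152) (nat_lit 61829919187) (nat_lit 0) (nat_lit 137235327088) (nat_lit 10) (nat_lit 5) (nat_lit 12) (nat_lit 4) (nat_lit 10) (nat_lit 4) (nat_lit 343) (nat_lit 305) (nat_lit 132)) (XT.lf (nat_lit 0) (nat_lit 217595341601) (nat_lit 76) (nat_lit 674816809757) (nat_lit 76) (nat_lit 89720897867) (nat_lit 9) (nat_lit 4) (nat_lit 10) (nat_lit 5) (nat_lit 10) (nat_lit 4) (nat_lit 344) (nat_lit 305) (nat_lit 131)))) (XT.nd (nat_lit 156) (nat_lit 76) (nat_lit 0) (XT.nd (nat_lit 78) (nat_lit 0) (nat_lit 0) (XT.lf (nat_lit 0) (nat_lit 28686176946)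 (nat_lit 152) (nat_lit 525428730088) (nat_lit 76) (nat_lit 493420369885) (nat_lit 8) (nat_lit 5) (nat_lit 10) (nat_lit 5) (nat_lit 9) (nat_lit 4) (nat_lit 345) (nat_lit 305) (nat_lit 130)) (XT.lf (nat_lit 0) (nat_lit 151718522822) (nat_lit 152) (nat_lit 269521512004) (nat_lit 76) (nat_lit 696743217900) (nat_lit 8) (nat_lit 5) (nat_lit 10) (nat_lit 5) (nat_lit 9) (nat_lit 4) (nat_lit 346) (nat_lit 305) (nat_lit 129))) (XT.nd (nat_lit 78) (nat_lit 0) (nat_lit 0) (XT.lf (nat_lit 0) (nat_lit 7219365499) (nat_lit 76) (nat_lit 277547683428) (nat_lit 152) (nat_lit 909286130312) (nat_lit 7) (nat_lit 5) (nat_lit 8) (nat_lit 5) (nat_lit 9) (nat_lit 4) (nat_lit 347) (nat_lit 305) (nat_lit 128)) (XT.lf (nat_lit 0) (nat_lit 321427381995) (nat_lit 76) (nat_lit 114401238607) (nat_lit 152) (nat_lit 839790546235) (nat_lit 7) (nat_lit 5) (nat_lit 8) (nat_lit 5) (nat_lit 9) (nat_lit 4) (nat_lit 348)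 (nat_lit 305) (nat_lit 127)))))) (XT.nd (nat_lit 546) (nat_lit 76) (nat_lit 0) (XT.nd (nat_lit 234) (nat_lit 76) (nat_lit 0) (XT.nd (nat_lit 78) (nat_lit 0) (nat_lit 0) (XT.lf (nat_lit 0) (nat_lit 600461304988) (nat_lit 152) (nat_lit 704424667022) (nat_lit 0) (nat_lit 58705566514) (nat_lit 7) (nat_lit 5) (nat_lit 9) (nat_lit 4) (nat_lit 7) (nat_lit 4) (nat_lit 349) (nat_lit 305) (nat_lit 126)) (XT.nd (nat_lit 78) (nat_lit 0) (nat_lit 0) (XT.lf (nat_lit 0) (nat_lit 781236036646) (nat_lit 152) (nat_lit 437647692310) (nat_lit 0) (nat_lit 239480256426) (nat_lit 7) (nat_lit 5) (nat_lit 9) (nat_lit 4) (nat_lit 7) (nat_lit 4) (nat_lit 350) (nat_lit 305) (nat_lit 125)) (XT.lf (nat_lit 0) (nat_lit 976472720705) (nat_lit 152) (nat_lit 149528607577) (nat_lit 0) (nat_lit 434716901831) (nat_lit 7) (nat_lit 5) (nat_lit 9) (nat_lit 4) (nat_lit 7) (nat_lit 4) (nat_lit 351) (nat_lit 305) (nat_lit 124))))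 (XT.nd (nat_lit 156) (nat_lit 0) (nat_lit 0) (XT.nd (nat_lit 78) (nat_lit 0) (nat_lit 0) (XT.lf (nat_lit 0) (nat_lit 170151633351) (nat_lit 76) (nat_lit 1021268832817) (nat_lit 76) (nat_lit 479512978151) (nat_lit 6) (nat_lit 4) (nat_lit 7) (nat_lit 5) (nat_lit 7) (nat_lit 4) (nat_lit 352) (nat_lit 305) (nat_lit 123)) (XT.lf (nat_lit 0) (nat_lit 523910074682) (nat_lit 76) (nat_lit 903742310260) (nat_lit 76) (nat_lit 361986422455) (nat_lit 6) (nat_lit 4) (nat_lit 7) (nat_lit 5) (nat_lit 7) (nat_lit 4) (nat_lit 353) (nat_lit 305) (nat_lit 122))) (XT.nd (nat_lit 78) (nat_lit 0) (nat_lit 0) (XT.lf (nat_lit 0) (nat_lit 905969151247) (nat_lit 76) (nat_lit 776813684263) (nat_lit 76) (nat_lit 235057765774) (nat_lit 6) (nat_lit 4) (nat_lit 7) (nat_lit 5) (nat_lit 7) (nat_lit 4) (nat_lit 354) (nat_lit 305) (nat_lit 121)) (XT.lf (nat_lit 0) (nat_lit 1318592916833) (nat_lit 76) (nat_lit 639730785192)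 (nat_lit 76) (nat_lit 97974838290) (nat_lit 6) (nat_lit 4) (nat_lit 7) (nat_lit 5) (nat_lit 7) (nat_lit 4) (nat_lit 355) (nat_lit 305) (nat_lit 120))))) (XT.nd (nat_lit 36894) (nat_lit 0) (nat_lit 2736) (XT.nd (nat_lit 36738) (nat_lit 0) (nat_lit 2660) (XT.lf (nat_lit 0) (nat_lit 47569763807) (nat_lit 152) (nat_lit 442810864489) (nat_lit 76) (nat_lit 1715356143860) (nat_lit 5) (nat_lit 5) (nat_lit 7) (nat_lit 5) (nat_lit 6) (nat_lit 4) (nat_lit 356) (nat_lit 305) (nat_lit 119)) (XT.nd (nat_lit 78) (nat_lit 0) (nat_lit 0) (XT.lf (nat_lit 0) (nat_lit 34077429970) (nat_lit 532) (nat_lit 18253520543) (nat_lit 532) (nat_lit 18253520543) (nat_lit 40) (nat_lit 3) (nat_lit 47) (nat_lit 3) (nat_lit 47) (nat_lit 5) (nat_lit 306) (nat_lit 306) (nat_lit 168)) (XT.lf (nat_lit 76) (nat_lit 27036482593) (nat_lit 0) (nat_lit 44497759806) (nat_lit 532) (nat_lit 75229189730) (nat_lit 41) (nat_lit 5)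 (nat_lit 40) (nat_lit 3) (nat_lit 47) (nat_lit 5) (nat_lit 307) (nat_lit 306) (nat_lit 167)))) (XT.nd (nat_lit 156) (nat_lit 0) (nat_lit 0) (XT.nd (nat_lit 78) (nat_lit 0) (nat_lit 0) (XT.lf (nat_lit 0) (nat_lit 76700304795) (nat_lit 456) (nat_lit 55504608658) (nat_lit 532) (nat_lit 20479262806) (nat_lit 41) (nat_lit 5) (nat_lit 47) (nat_lit 5) (nat_lit 48) (nat_lit 5) (nat_lit 308) (nat_lit 306) (nat_lit 166)) (XT.lf (nat_lit 76) (nat_lit 13368286542) (nat_lit 0) (nat_lit 70388384175) (nat_lit 532) (nat_lit 75203748892) (nat_lit 42) (nat_lit 5) (nat_lit 41) (nat_lit 5) (nat_lit 48) (nat_lit 5) (nat_lit 309) (nat_lit 306) (nat_lit 165))) (XT.nd (nat_lit 78) (nat_lit 0) (nat_lit 76) (XT.lf (nat_lit 76) (nat_lit 90907431449) (nat_lit 0) (nat_lit 1987449866) (nat_lit 532) (nat_lit 72722495359) (nat_lit 42) (nat_lit 5) (nat_lit 41) (nat_lit 5) (nat_lit 48) (nat_lit 5) (nat_lit 310) (nat_lit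 306) (nat_lit 164)) (XT.lf (nat_lit 76) (nat_lit 119772762) (nat_lit 0) (nat_lit 104375867987) (nat_lit 532) (nat_lit 68172731202) (nat_lit 43) (nat_lit 5) (nat_lit 42) (nat_lit 5) (nat_lit 49) (nat_lit 5) (nat_lit 311) (nat_lit 306) (nat_lit 163))))))))
noncomputable def xc113 : XT := (XT.nd (nat_lit 2184) (nat_lit 380) (nat_lit 0) (XT.nd (nat_lit 1092) (nat_lit 836) (nat_lit 0) (XT.nd (nat_lit 546) (nat_lit 608) (nat_lit 0) (XT.nd (nat_lit 234) (nat_lit 532) (nat_lit 0) (XT.nd (nat_lit 78) (nat_lit 380) (nat_lit 0) (XT.lf (nat_lit 76) (nat_lit 85130166337) (nat_lit 0) (nat_lit 33987087354) (nat_lit 532) (nat_lit 60998770667) (nat_lit 43) (nat_lit 5) (nat_lit 42) (nat_lit 5) (nat_lit 49) (nat_lit 5) (nat_lit 312) (nat_lit 306) (nat_lit 162)) (XT.nd (nat_lit 78) (nat_lit 456) (nat_lit 0) (XT.lf (nat_lit 0) (nat_lit 135919278277) (nat_lit 456) (nat_lit 12229174497) (nat_lit 76) (nat_lit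 39930182433) (nat_lit 43) (nat_lit 5) (nat_lit 49) (nat_lit 5) (nat_lit 44) (nat_lit 5) (nat_lit 313) (nat_lit 306) (nat_lit 161)) (XT.lf (nat_lit 0) (nat_lit 80281073321) (nat_lit 456) (nat_lit 76597742945) (nat_lit 532) (nat_lit 39574371341) (nat_lit 37) (nat_lit 5) (nat_lit 43) (nat_lit 5) (nat_lit 44) (nat_lit 5) (nat_lit 314) (nat_lit 306) (nat_lit 160)))) (XT.nd (nat_lit 156) (nat_lit 304) (nat_lit 0) (XT.nd (nat_lit 78) (nat_lit 228) (nat_lit 0) (XT.lf (nat_lit 0) (nat_lit 179874270552) (nat_lit 532) (nat_lit 24608481671) (nat_lit 76) (nat_lit 986220451) (nat_lit 37) (nat_lit 5) (nat_lit 44) (nat_lit 5) (nat_lit 38) (nat_lit 5) (nat_lit 315) (nat_lit 306) (nat_lit 159)) (XT.lf (nat_lit 0) (nat_lit 76097209562) (nat_lit 228) (nat_lit 132431675190) (nat_lit 304) (nat_lit 6371574592) (nat_lit 34) (nat_lit 5) (nat_lit 37) (nat_lit 5) (nat_lit 38) (nat_lit 5) (nat_lit 316) (nat_lit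 306) (nat_lit 158))) (XT.nd (nat_lit 78) (nat_lit 228) (nat_lit 0) (XT.lf (nat_lit 0) (nat_lit 14359738545) (nat_lit 304) (nat_lit 39137493129) (nat_lit 76) (nat_lit 171506336488) (nat_lit 33) (nat_lit 5) (nat_lit 37) (nat_lit 5) (nat_lit 34) (nat_lit 5) (nat_lit 317) (nat_lit 306) (nat_lit 157)) (XT.lf (nat_lit 0) (nat_lit 38948065612) (nat_lit 304) (nat_lit 164641855068) (nat_lit 76) (nat_lit 32108346761) (nat_lit 30) (nat_lit 5) (nat_lit 34) (nat_lit 5) (nat_lit 31) (nat_lit 5) (nat_lit 318) (nat_lit 306) (nat_lit 156))))) (XT.nd (nat_lit 234) (nat_lit 380) (nat_lit 0) (XT.nd (nat_lit 78) (nat_lit 228) (nat_lit 0) (XT.lf (nat_lit 0) (nat_lit 67990735307) (nat_lit 304) (nat_lit 56288824695) (nat_lit 76) (nat_lit 122770001044) (nat_lit 30) (nat_lit 5) (nat_lit 34) (nat_lit 5) (nat_lit 31) (nat_lit 5) (nat_lit 319) (nat_lit 306) (nat_lit 155)) (XT.nd (nat_lit 78) (nat_lit 0) (nat_lit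 0) (XT.lf (nat_lit 0) (nat_lit 63930345164) (nat_lit 228) (nat_lit 36963865543) (nat_lit 304) (nat_lit 158291756527) (nat_lit 27) (nat_lit 5) (nat_lit 30) (nat_lit 5) (nat_lit 31) (nat_lit 5) (nat_lit 320) (nat_lit 306) (nat_lit 154)) (XT.lf (nat_lit 0) (nat_lit 139387805002) (nat_lit 304) (nat_lit 76621016081) (nat_lit 76) (nat_lit 56047837995) (nat_lit 27) (nat_lit 5) (nat_lit 31) (nat_lit 5) (nat_lit 28) (nat_lit 5) (nat_lit 321) (nat_lit 306) (nat_lit 153)))) (XT.nd (nat_lit 156) (nat_lit 228) (nat_lit 0) (XT.nd (nat_lit 78) (nat_lit 0) (nat_lit 0) (XT.lf (nat_lit 0) (nat_lit 53205669400) (nat_lit 152) (nat_lit 129994796412) (nat_lit 228) (nat_lit 102577374537) (nat_lit 25) (nat_lit 5) (nat_lit 27) (nat_lit 5) (nat_lit 28) (nat_lit 5) (nat_lit 322) (nat_lit 306) (nat_lit 152)) (XT.lf (nat_lit 0) (nat_lit 197775846986) (nat_lit 152) (nat_lit 34837133070) (nat_lit 228) (nat_lit 67816149191)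 (nat_lit 25) (nat_lit 5) (nat_lit 27) (nat_lit 5) (nat_lit 28) (nat_lit 5) (nat_lit 323) (nat_lit 306) (nat_lit 151))) (XT.nd (nat_lit 78) (nat_lit 76) (nat_lit 0) (XT.lf (nat_lit 0) (nat_lit 37922200995) (nat_lit 152) (nat_lit 250602011897) (nat_lit 228) (nat_lit 27524651308) (nat_lit 23) (nat_lit 5) (nat_lit 25) (nat_lit 5) (nat_lit 26) (nat_lit 5) (nat_lit 324) (nat_lit 306) (nat_lit 150)) (XT.lf (nat_lit 0) (nat_lit 18974654061) (nat_lit 228) (nat_lit 138474407486) (nat_lit 76) (nat_lit 175135601142) (nat_lit 22) (nat_lit 5) (nat_lit 25) (nat_lit 5) (nat_lit 23) (nat_lit 5) (nat_lit 325) (nat_lit 306) (nat_lit 149)))))) (XT.nd (nat_lit 546) (nat_lit 380) (nat_lit 0) (XT.nd (nat_lit 234) (nat_lit 304) (nat_lit 0) (XT.nd (nat_lit 78) (nat_lit 0) (nat_lit 0) (XT.lf (nat_lit 0) (nat_lit 12247643283) (nat_lit 152) (nat_lit 55753673744) (nat_lit 228) (nat_lit 282361257478) (nat_lit 20)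 (nat_lit 5) (nat_lit 22) (nat_lit 5) (nat_lit 23) (nat_lit 5) (nat_lit 326) (nat_lit 306) (nat_lit 148)) (XT.nd (nat_lit 78) (nat_lit 0) (nat_lit 0) (XT.lf (nat_lit 0) (nat_lit 126135057542) (nat_lit 228) (nat_lit 187756250078) (nat_lit 76) (nat_lit 55256616338) (nat_lit 20) (nat_lit 5) (nat_lit 23) (nat_lit 5) (nat_lit 21) (nat_lit 5) (nat_lit 327) (nat_lit 306) (nat_lit 147)) (XT.lf (nat_lit 0) (nat_lit 190367557792) (nat_lit 228) (nat_lit 26817150881) (nat_lit 76) (nat_lit 172135548086) (nat_lit 20) (nat_lit 5) (nat_lit 23) (nat_lit 5) (nat_lit 21) (nat_lit 5) (nat_lit 328) (nat_lit 306) (nat_lit 146)))) (XT.nd (nat_lit 156) (nat_lit 152) (nat_lit 0) (XT.nd (nat_lit 78) (nat_lit 0) (nat_lit 0) (XT.lf (nat_lit 0) (nat_lit 154737555982) (nat_lit 152) (nat_lit 108722463583) (nat_lit 228) (nat_lit 147348647915) (nat_lit 18) (nat_lit 5) (nat_lit 20) (nat_lit 5) (nat_lit 21) (nat_lit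 5) (nat_lit 329) (nat_lit 306) (nat_lit 145)) (XT.lf (nat_lit 0) (nat_lit 343354496684) (nat_lit 228) (nat_lit 81837328382) (nat_lit 76) (nat_lit 8747956719) (nat_lit 18) (nat_lit 5) (nat_lit 21) (nat_lit 5) (nat_lit 19) (nat_lit 4) (nat_lit 330) (nat_lit 306) (nat_lit 144))) (XT.nd (nat_lit 78) (nat_lit 76) (nat_lit 0) (XT.lf (nat_lit 0) (nat_lit 108961794666) (nat_lit 76) (nat_lit 326123158750) (nat_lit 152) (nat_lit 23400878286) (nat_lit 17) (nat_lit 5) (nat_lit 18) (nat_lit 5) (nat_lit 19) (nat_lit 4) (nat_lit 331) (nat_lit 306) (nat_lit 143)) (XT.lf (nat_lit 0) (nat_lit 48994809560) (nat_lit 152) (nat_lit 166378041177) (nat_lit 76) (nat_lit 269344484424) (nat_lit 16) (nat_lit 5) (nat_lit 18) (nat_lit 5) (nat_lit 17) (nat_lit 5) (nat_lit 332) (nat_lit 306) (nat_lit 142))))) (XT.nd (nat_lit 234) (nat_lit 228) (nat_lit 0) (XT.nd (nat_lit 78) (nat_lit 0) (nat_lit 0) (XT.lf (nat_lit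 0) (nat_lit 32434204052) (nat_lit 152) (nat_lit 94263670153) (nat_lit 228) (nat_lit 386238461475) (nat_lit 14) (nat_lit 5) (nat_lit 16) (nat_lit 5) (nat_lit 17) (nat_lit 5) (nat_lit 333) (nat_lit 306) (nat_lit 141)) (XT.nd (nat_lit 78) (nat_lit 0) (nat_lit 0) (XT.lf (nat_lit 0) (nat_lit 216162996790) (nat_lit 228) (nat_lit 287432349387) (nat_lit 76) (nat_lit 39373845178) (nat_lit 14) (nat_lit 5) (nat_lit 17) (nat_lit 5) (nat_lit 15) (nat_lit 4) (nat_lit 334) (nat_lit 306) (nat_lit 140)) (XT.lf (nat_lit 0) (nat_lit 315233676134) (nat_lit 228) (nat_lit 81365490812) (nat_lit 76) (nat_lit 178609640906) (nat_lit 14) (nat_lit 5) (nat_lit 17) (nat_lit 5) (nat_lit 15) (nat_lit 4) (nat_lit 335) (nat_lit 306) (nat_lit 139)))) (XT.nd (nat_lit 156) (nat_lit 152) (nat_lit 0) (XT.nd (nat_lit 78) (nat_lit 0) (nat_lit 0) (XT.lf (nat_lit 0) (nat_lit 148621262016) (nat_lit 76) (nat_lit 277183037122)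 (nat_lit 152) (nat_lit 183937351503) (nat_lit 13) (nat_lit 5) (nat_lit 14) (nat_lit 5) (nat_lit 15) (nat_lit 4) (nat_lit 336) (nat_lit 306) (nat_lit 138)) (XT.lf (nat_lit 0) (nat_lit 401634193076) (nat_lit 76) (nat_lit 145811001969) (nat_lit 152) (nat_lit 99413956070) (nat_lit 13) (nat_lit 5) (nat_lit 14) (nat_lit 5) (nat_lit 15) (nat_lit 4) (nat_lit 337) (nat_lit 306) (nat_lit 137))) (XT.nd (nat_lit 78) (nat_lit 152) (nat_lit 0) (XT.lf (nat_lit 0) (nat_lit 674888075702) (nat_lit 76) (nat_lit 3929237248) (nat_lit 152) (nat_lit 8128742751) (nat_lit 13) (nat_lit 5) (nat_lit 14) (nat_lit 5) (nat_lit 15) (nat_lit 4) (nat_lit 338) (nat_lit 306) (nat_lit 136)) (XT.lf (nat_lit 0) (nat_lit 95752433655) (nat_lit 152) (nat_lit 483290538710) (nat_lit 76) (nat_lit 150237433655) (nat_lit 11) (nat_lit 5) (nat_lit 13) (nat_lit 5) (nat_lit 12) (nat_lit 4) (nat_lit 339) (nat_lit 306) (nat_lit 135)))))))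 (XT.nd (nat_lit 1092) (nat_lit 0) (nat_lit 0) (XT.nd (nat_lit 546) (nat_lit 152) (nat_lit 0) (XT.nd (nat_lit 234) (nat_lit 152) (nat_lit 0) (XT.nd (nat_lit 78) (nat_lit 76) (nat_lit 0) (XT.lf (nat_lit 0) (nat_lit 207945202470) (nat_lit 152) (nat_lit 249929676911) (nat_lit 76) (nat_lit 317074513245) (nat_lit 11) (nat_lit 5) (nat_lit 13) (nat_lit 5) (nat_lit 12) (nat_lit 4) (nat_lit 340) (nat_lit 306) (nat_lit 134)) (XT.nd (nat_lit 78) (nat_lit 0) (nat_lit 0) (XT.lf (nat_lit 0) (nat_lit 2210560668) (nat_lit 76) (nat_lit 326955953200) (nat_lit 152) (nat_lit 495101134681) (nat_lit 10) (nat_lit 5) (nat_lit 11) (nat_lit 5) (nat_lit 12) (nat_lit 4) (nat_lit 341) (nat_lit 306) (nat_lit 133)) (XT.lf (nat_lit 0) (nat_lit 288735666957) (nat_lit 76) (nat_lit 178183341978) (nat_lit 152) (nat_lit 410065677776) (nat_lit 10) (nat_lit 5) (nat_lit 11) (nat_lit 5) (nat_lit 12) (nat_lit 4) (nat_lit 342)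 (nat_lit 306) (nat_lit 132)))) (XT.nd (nat_lit 156) (nat_lit 152) (nat_lit 0) (XT.nd (nat_lit 78) (nat_lit 0) (nat_lit 0) (XT.lf (nat_lit 0) (nat_lit 598182714640) (nat_lit 76) (nat_lit 17508950522) (nat_lit 152) (nat_lit 318227425903) (nat_lit 10) (nat_lit 5) (nat_lit 11) (nat_lit 5) (nat_lit 12) (nat_lit 4) (nat_lit 343) (nat_lit 306) (nat_lit 131)) (XT.lf (nat_lit 0) (nat_lit 780118367787) (nat_lit 152) (nat_lit 66775056173) (nat_lit 0) (nat_lit 148214645153) (nat_lit 10) (nat_lit 5) (nat_lit 12) (nat_lit 4) (nat_lit 10) (nat_lit 4) (nat_lit 344) (nat_lit 306) (nat_lit 130))) (XT.nd (nat_lit 78) (nat_lit 76) (nat_lit 0) (XT.lf (nat_lit 0) (nat_lit 235004193667) (nat_lit 76) (nat_lit 728801613847) (nat_lit 76) (nat_lit 96897829875) (nat_lit 9) (nat_lit 4) (nat_lit 10) (nat_lit 5) (nat_lit 10) (nat_lit 4) (nat_lit 345) (nat_lit 306) (nat_lit 129)) (XT.lf (nat_lit 0) (nat_lit 30981721854)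 (nat_lit 152) (nat_lit 567461859311) (nat_lit 76) (nat_lit 532894464947) (nat_lit 8) (nat_lit 5) (nat_lit 10) (nat_lit 5) (nat_lit 9) (nat_lit 4) (nat_lit 346) (nat_lit 306) (nat_lit 128))))) (XT.nd (nat_lit 234) (nat_lit 76) (nat_lit 0) (XT.nd (nat_lit 78) (nat_lit 76) (nat_lit 0) (XT.lf (nat_lit 0) (nat_lit 163856607197) (nat_lit 152) (nat_lit 291082150386) (nat_lit 76) (nat_lit 752483106324) (nat_lit 8) (nat_lit 5) (nat_lit 10) (nat_lit 5) (nat_lit 9) (nat_lit 4) (nat_lit 347) (nat_lit 306) (nat_lit 127)) (XT.nd (nat_lit 78) (nat_lit 0) (nat_lit 0) (XT.lf (nat_lit 0) (nat_lit 7797969910) (nat_lit 76) (nat_lit 299751026223) (nat_lit 152) (nat_lit 982028390009) (nat_lit 7) (nat_lit 5) (nat_lit 8) (nat_lit 5) (nat_lit 9) (nat_lit 4) (nat_lit 348) (nat_lit 306) (nat_lit 126)) (XT.lf (nat_lit 0) (nat_lit 347142549565) (nat_lit 76) (nat_lit 123552900771) (nat_lit 152) (nat_lit 906973205927)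 (nat_lit 7) (nat_lit 5) (nat_lit 8) (nat_lit 5) (nat_lit 9) (nat_lit 4) (nat_lit 349) (nat_lit 306) (nat_lit 125)))) (XT.nd (nat_lit 156) (nat_lit 76) (nat_lit 0) (XT.nd (nat_lit 78) (nat_lit 0) (nat_lit 0) (XT.lf (nat_lit 0) (nat_lit 648498719196) (nat_lit 152) (nat_lit 760777704806) (nat_lit 0) (nat_lit 63402396158) (nat_lit 7) (nat_lit 5) (nat_lit 9) (nat_lit 4) (nat_lit 7) (nat_lit 4) (nat_lit 350) (nat_lit 306) (nat_lit 124)) (XT.lf (nat_lit 0) (nat_lit 843735391623) (nat_lit 152) (nat_lit 472658641419) (nat_lit 0) (nat_lit 258639032794) (nat_lit 7) (nat_lit 5) (nat_lit 9) (nat_lit 4) (nat_lit 7) (nat_lit 4) (nat_lit 351) (nat_lit 306) (nat_lit 123))) (XT.nd (nat_lit 78) (nat_lit 76) (nat_lit 0) (XT.lf (nat_lit 0) (nat_lit 1054590975441) (nat_lit 152) (nat_lit 161490094075) (nat_lit 0) (nat_lit 469494583472) (nat_lit 7) (nat_lit 5) (nat_lit 9) (nat_lit 4) (nat_lit 7) (nat_lit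 4) (nat_lit 352) (nat_lit 306) (nat_lit 122)) (XT.lf (nat_lit 0) (nat_lit 183764545820) (nat_lit 76) (nat_lit 1102969981146) (nat_lit 76) (nat_lit 517873558493) (nat_lit 6) (nat_lit 4) (nat_lit 7) (nat_lit 5) (nat_lit 7) (nat_lit 4) (nat_lit 353) (nat_lit 306) (nat_lit 121)))))) (XT.nd (nat_lit 37284) (nat_lit 0) (nat_lit 2052) (XT.nd (nat_lit 36972) (nat_lit 0) (nat_lit 2584) (XT.nd (nat_lit 78) (nat_lit 0) (nat_lit 0) (XT.lf (nat_lit 0) (nat_lit 565823604546) (nat_lit 76) (nat_lit 976041363325) (nat_lit 76) (nat_lit 390944912260) (nat_lit 6) (nat_lit 4) (nat_lit 7) (nat_lit 5) (nat_lit 7) (nat_lit 4) (nat_lit 354) (nat_lit 306) (nat_lit 120)) (XT.nd (nat_lit 78) (nat_lit 0) (nat_lit 0) (XT.lf (nat_lit 0) (nat_lit 978447353615) (nat_lit 76) (nat_lit 838958471823) (nat_lit 76) (nat_lit 253861994451) (nat_lit 6) (nat_lit 4) (nat_lit 7) (nat_lit 5) (nat_lit 7) (nat_lit 4) (nat_lit 355)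 (nat_lit 306) (nat_lit 119)) (XT.lf (nat_lit 0) (nat_lit 1424080970799) (nat_lit 76) (nat_lit 690908963580) (nat_lit 76) (nat_lit 105812461849) (nat_lit 6) (nat_lit 4) (nat_lit 7) (nat_lit 5) (nat_lit 7) (nat_lit 4) (nat_lit 356) (nat_lit 306) (nat_lit 118)))) (XT.nd (nat_lit 156) (nat_lit 0) (nat_lit 76) (XT.nd (nat_lit 78) (nat_lit 0) (nat_lit 0) (XT.lf (nat_lit 0) (nat_lit 36806513183) (nat_lit 532) (nat_lit 19712236065) (nat_lit 532) (nat_lit 19712236065) (nat_lit 40) (nat_lit 3) (nat_lit 47) (nat_lit 3) (nat_lit 47) (nat_lit 5) (nat_lit 307) (nat_lit 307) (nat_lit 166)) (XT.lf (nat_lit 76) (nat_lit 29202454146) (nat_lit 0) (nat_lit 48059950726) (nat_lit 532) (nat_lit 81241645162) (nat_lit 41) (nat_lit 5) (nat_lit 40) (nat_lit 3) (nat_lit 47) (nat_lit 5) (nat_lit 308) (nat_lit 307) (nat_lit 165))) (XT.nd (nat_lit 78) (nat_lit 0) (nat_lit 0) (XT.lf (nat_lit 0) (nat_lit 82841297771)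 (nat_lit 456) (nat_lit 59941674932) (nat_lit 532) (nat_lit 22115519042) (nat_lit 41) (nat_lit 5) (nat_lit 47) (nat_lit 5) (nat_lit 48) (nat_lit 5) (nat_lit 309) (nat_lit 307) (nat_lit 164)) (XT.lf (nat_lit 76) (nat_lit 14440968278) (nat_lit 0) (nat_lit 76020914056) (nat_lit 532) (nat_lit 81214977042) (nat_lit 42) (nat_lit 5) (nat_lit 41) (nat_lit 5) (nat_lit 48) (nat_lit 5) (nat_lit 310) (nat_lit 307) (nat_lit 163))))) (XT.nd (nat_lit 312) (nat_lit 608) (nat_lit 0) (XT.nd (nat_lit 156) (nat_lit 0) (nat_lit 76) (XT.nd (nat_lit 78) (nat_lit 0) (nat_lit 76) (XT.lf (nat_lit 76) (nat_lit 98183006348) (nat_lit 0) (nat_lit 2147796918) (nat_lit 532) (nat_lit 78535598913) (nat_lit 42) (nat_lit 5) (nat_lit 41) (nat_lit 5) (nat_lit 48) (nat_lit 5) (nat_lit 311) (nat_lit 307) (nat_lit 162)) (XT.lf (nat_lit 76) (nat_lit 132646582) (nat_lit 0) (nat_lit 112726705111) (nat_lit 532) (nat_lit 73622148467)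 (nat_lit 43) (nat_lit 5) (nat_lit 42) (nat_lit 5) (nat_lit 49) (nat_lit 5) (nat_lit 312) (nat_lit 307) (nat_lit 161))) (XT.nd (nat_lit 78) (nat_lit 0) (nat_lit 76) (XT.lf (nat_lit 76) (nat_lit 91943627791) (nat_lit 0) (nat_lit 36706765161) (nat_lit 532) (nat_lit 65874597106) (nat_lit 43) (nat_lit 5) (nat_lit 42) (nat_lit 5) (nat_lit 49) (nat_lit 5) (nat_lit 313) (nat_lit 307) (nat_lit 160)) (XT.lf (nat_lit 0) (nat_lit 146796285235) (nat_lit 456) (nat_lit 13204377448) (nat_lit 76) (nat_lit 43123971786) (nat_lit 43) (nat_lit 5) (nat_lit 49) (nat_lit 5) (nat_lit 44) (nat_lit 5) (nat_lit 314) (nat_lit 307) (nat_lit 159)))) (XT.nd (nat_lit 156) (nat_lit 304) (nat_lit 0) (XT.nd (nat_lit 78) (nat_lit 0) (nat_lit 0) (XT.lf (nat_lit 0) (nat_lit 86706610929) (nat_lit 456) (nat_lit 82725792084) (nat_lit 532) (nat_lit 42736763772) (nat_lit 37) (nat_lit 5) (nat_lit 43) (nat_lit 5) (nat_lit 44)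 (nat_lit 5) (nat_lit 315) (nat_lit 307) (nat_lit 158)) (XT.lf (nat_lit 0) (nat_lit 194267245457) (nat_lit 532) (nat_lit 26574074003) (nat_lit 76) (nat_lit 1064916038) (nat_lit 37) (nat_lit 5) (nat_lit 44) (nat_lit 5) (nat_lit 38) (nat_lit 5) (nat_lit 316) (nat_lit 307) (nat_lit 157))) (XT.nd (nat_lit 78) (nat_lit 76) (nat_lit 0) (XT.lf (nat_lit 0) (nat_lit 82187994397) (nat_lit 228) (nat_lit 143026082055) (nat_lit 304) (nat_lit 6878177751) (nat_lit 34) (nat_lit 5) (nat_lit 37) (nat_lit 5) (nat_lit 38) (nat_lit 5) (nat_lit 317) (nat_lit 307) (nat_lit 156)) (XT.lf (nat_lit 0) (nat_lit 15511264473) (nat_lit 304) (nat_lit 42265552899) (nat_lit 76) (nat_lit 185226806709) (nat_lit 33) (nat_lit 5) (nat_lit 37) (nat_lit 5) (nat_lit 34) (nat_lit 5) (nat_lit 318) (nat_lit 307) (nat_lit 155))))))))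
noncomputable def xc114 : XT := (XT.nd (nat_lit 2184) (nat_lit 228) (nat_lit 0) (XT.nd (nat_lit 1092) (nat_lit 608) (nat_lit 0) (XT.nd (nat_lit 546) (nat_lit 456) (nat_lit 0) (XT.nd (nat_lit 234) (nat_lit 304) (nat_lit 0) (XT.nd (nat_lit 78) (nat_lit 228) (nat_lit 0) (XT.lf (nat_lit 0) (nat_lit 42066529229) (nat_lit 304) (nat_lit 177810126256) (nat_lit 76) (nat_lit 34677254821) (nat_lit 30) (nat_lit 5) (nat_lit 34) (nat_lit 5) (nat_lit 31) (nat_lit 5) (nat_lit 319) (nat_lit 307) (nat_lit 154)) (XT.nd (nat_lit 78) (nat_lit 228) (nat_lit 0) (XT.lf (nat_lit 0) (nat_lit 73432418547) (nat_lit 304) (nat_lit 60789081394) (nat_lit 76) (nat_lit 132591823646) (nat_lit 30) (nat_lit 5) (nat_lit 34) (nat_lit 5) (nat_lit 31) (nat_lit 5) (nat_lit 320) (nat_lit 307) (nat_lit 153)) (XT.lf (nat_lit 0) (nat_lit 69047549919) (nat_lit 228) (nat_lit 39920509263) (nat_lit 304) (nat_lit 170952592732) (nat_lit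 27) (nat_lit 5) (nat_lit 30) (nat_lit 5) (nat_lit 31) (nat_lit 5) (nat_lit 321) (nat_lit 307) (nat_lit 152)))) (XT.nd (nat_lit 156) (nat_lit 152) (nat_lit 0) (XT.nd (nat_lit 78) (nat_lit 152) (nat_lit 0) (XT.lf (nat_lit 0) (nat_lit 150540980157) (nat_lit 304) (nat_lit 82747957882) (nat_lit 76) (nat_lit 60532074512) (nat_lit 27) (nat_lit 5) (nat_lit 31) (nat_lit 5) (nat_lit 28) (nat_lit 5) (nat_lit 322) (nat_lit 307) (nat_lit 151)) (XT.lf (nat_lit 0) (nat_lit 57464793084) (nat_lit 152) (nat_lit 140393765649) (nat_lit 228) (nat_lit 110781337731) (nat_lit 25) (nat_lit 5) (nat_lit 27) (nat_lit 5) (nat_lit 28) (nat_lit 5) (nat_lit 323) (nat_lit 307) (nat_lit 150))) (XT.nd (nat_lit 78) (nat_lit 152) (nat_lit 0) (XT.lf (nat_lit 0) (nat_lit 213600387090) (nat_lit 152) (nat_lit 37623534756) (nat_lit 228) (nat_lit 73239379303) (nat_lit 25) (nat_lit 5) (nat_lit 27) (nat_lit 5) (nat_lit 28) (nat_lit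 5) (nat_lit 324) (nat_lit 307) (nat_lit 149)) (XT.lf (nat_lit 0) (nat_lit 40958527918) (nat_lit 152) (nat_lit 270649458417) (nat_lit 228) (nat_lit 29724634378) (nat_lit 23) (nat_lit 5) (nat_lit 25) (nat_lit 5) (nat_lit 26) (nat_lit 5) (nat_lit 325) (nat_lit 307) (nat_lit 148))))) (XT.nd (nat_lit 234) (nat_lit 228) (nat_lit 0) (XT.nd (nat_lit 78) (nat_lit 152) (nat_lit 0) (XT.lf (nat_lit 0) (nat_lit 20494375955) (nat_lit 228) (nat_lit 149549901168) (nat_lit 76) (nat_lit 189147013719) (nat_lit 22) (nat_lit 5) (nat_lit 25) (nat_lit 5) (nat_lit 23) (nat_lit 5) (nat_lit 326) (nat_lit 307) (nat_lit 147)) (XT.nd (nat_lit 78) (nat_lit 0) (nat_lit 0) (XT.lf (nat_lit 0) (nat_lit 13229851412) (nat_lit 152) (nat_lit 60213248590) (nat_lit 228) (nat_lit 304948341723) (nat_lit 20) (nat_lit 5) (nat_lit 22) (nat_lit 5) (nat_lit 23) (nat_lit 5) (nat_lit 327) (nat_lit 307) (nat_lit 146)) (XT.lf (nat_lit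 0) (nat_lit 136227431502) (nat_lit 228) (nat_lit 202774418496) (nat_lit 76) (nat_lit 59677778131) (nat_lit 20) (nat_lit 5) (nat_lit 23) (nat_lit 5) (nat_lit 21) (nat_lit 5) (nat_lit 328) (nat_lit 307) (nat_lit 145)))) (XT.nd (nat_lit 156) (nat_lit 76) (nat_lit 0) (XT.nd (nat_lit 78) (nat_lit 152) (nat_lit 0) (XT.lf (nat_lit 0) (nat_lit 205598415523) (nat_lit 228) (nat_lit 28960364074) (nat_lit 76) (nat_lit 185906977568) (nat_lit 20) (nat_lit 5) (nat_lit 23) (nat_lit 5) (nat_lit 21) (nat_lit 5) (nat_lit 329) (nat_lit 307) (nat_lit 144)) (XT.lf (nat_lit 0) (nat_lit 167118664682) (nat_lit 152) (nat_lit 117419552524) (nat_lit 228) (nat_lit 159135028387) (nat_lit 18) (nat_lit 5) (nat_lit 20) (nat_lit 5) (nat_lit 21) (nat_lit 5) (nat_lit 330) (nat_lit 307) (nat_lit 143))) (XT.nd (nat_lit 78) (nat_lit 76) (nat_lit 0) (XT.lf (nat_lit 0) (nat_lit 370824164852) (nat_lit 228) (nat_lit 88382275323)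 (nat_lit 76) (nat_lit 9448416146) (nat_lit 18) (nat_lit 5) (nat_lit 21) (nat_lit 5) (nat_lit 19) (nat_lit 4) (nat_lit 331) (nat_lit 307) (nat_lit 142)) (XT.lf (nat_lit 0) (nat_lit 117680725940) (nat_lit 76) (nat_lit 352212283066) (nat_lit 152) (nat_lit 25271585403) (nat_lit 17) (nat_lit 5) (nat_lit 18) (nat_lit 5) (nat_lit 19) (nat_lit 4) (nat_lit 332) (nat_lit 307) (nat_lit 141)))))) (XT.nd (nat_lit 546) (nat_lit 304) (nat_lit 0) (XT.nd (nat_lit 234) (nat_lit 76) (nat_lit 0) (XT.nd (nat_lit 78) (nat_lit 152) (nat_lit 0) (XT.lf (nat_lit 0) (nat_lit 52915593359) (nat_lit 152) (nat_lit 179686378223) (nat_lit 76) (nat_lit 290892651824) (nat_lit 16) (nat_lit 5) (nat_lit 18) (nat_lit 5) (nat_lit 17) (nat_lit 5) (nat_lit 333) (nat_lit 307) (nat_lit 140)) (XT.nd (nat_lit 78) (nat_lit 0) (nat_lit 0) (XT.lf (nat_lit 0) (nat_lit 35030798364) (nat_lit 152) (nat_lit 101804060678) (nat_lit 228)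 (nat_lit 417136288651) (nat_lit 14) (nat_lit 5) (nat_lit 16) (nat_lit 5) (nat_lit 17) (nat_lit 5) (nat_lit 334) (nat_lit 307) (nat_lit 139)) (XT.lf (nat_lit 0) (nat_lit 233457121542) (nat_lit 228) (nat_lit 310425144819) (nat_lit 76) (nat_lit 42524371233) (nat_lit 14) (nat_lit 5) (nat_lit 17) (nat_lit 5) (nat_lit 15) (nat_lit 4) (nat_lit 335) (nat_lit 307) (nat_lit 138)))) (XT.nd (nat_lit 156) (nat_lit 0) (nat_lit 0) (XT.nd (nat_lit 78) (nat_lit 76) (nat_lit 0) (XT.lf (nat_lit 0) (nat_lit 340453374864) (nat_lit 228) (nat_lit 87873070337) (nat_lit 76) (nat_lit 192898984809) (nat_lit 14) (nat_lit 5) (nat_lit 17) (nat_lit 5) (nat_lit 15) (nat_lit 4) (nat_lit 336) (nat_lit 307) (nat_lit 137)) (XT.lf (nat_lit 0) (nat_lit 160512580698) (nat_lit 76) (nat_lit 299357031499) (nat_lit 152) (nat_lit 198651291022) (nat_lit 13) (nat_lit 5) (nat_lit 14) (nat_lit 5) (nat_lit 15) (nat_lit 4) (nat_lit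 337) (nat_lit 307) (nat_lit 136))) (XT.nd (nat_lit 78) (nat_lit 0) (nat_lit 0) (XT.lf (nat_lit 0) (nat_lit 433766426412) (nat_lit 76) (nat_lit 157475281577) (nat_lit 152) (nat_lit 107366101629) (nat_lit 13) (nat_lit 5) (nat_lit 14) (nat_lit 5) (nat_lit 15) (nat_lit 4) (nat_lit 338) (nat_lit 307) (nat_lit 135)) (XT.lf (nat_lit 0) (nat_lit 728880508693) (nat_lit 76) (nat_lit 4243020164) (nat_lit 152) (nat_lit 8778143165) (nat_lit 13) (nat_lit 5) (nat_lit 14) (nat_lit 5) (nat_lit 15) (nat_lit 4) (nat_lit 339) (nat_lit 307) (nat_lit 134))))) (XT.nd (nat_lit 234) (nat_lit 76) (nat_lit 0) (XT.nd (nat_lit 78) (nat_lit 76) (nat_lit 0) (XT.lf (nat_lit 0) (nat_lit 103413466497) (nat_lit 152) (nat_lit 521952331044) (nat_lit 76) (nat_lit 162256972480) (nat_lit 11) (nat_lit 5) (nat_lit 13) (nat_lit 5) (nat_lit 12) (nat_lit 4) (nat_lit 340) (nat_lit 307) (nat_lit 133)) (XT.nd (nat_lit 78) (nat_lit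 76) (nat_lit 0) (XT.lf (nat_lit 0) (nat_lit 224581594733) (nat_lit 152) (nat_lit 269922707764) (nat_lit 76) (nat_lit 342440978131) (nat_lit 11) (nat_lit 5) (nat_lit 13) (nat_lit 5) (nat_lit 12) (nat_lit 4) (nat_lit 341) (nat_lit 307) (nat_lit 132)) (XT.lf (nat_lit 0) (nat_lit 2388714813) (nat_lit 76) (nat_lit 353111870231) (nat_lit 152) (nat_lit 534708414158) (nat_lit 10) (nat_lit 5) (nat_lit 11) (nat_lit 5) (nat_lit 12) (nat_lit 4) (nat_lit 342) (nat_lit 307) (nat_lit 131)))) (XT.nd (nat_lit 156) (nat_lit 76) (nat_lit 0) (XT.nd (nat_lit 78) (nat_lit 0) (nat_lit 0) (XT.lf (nat_lit 0) (nat_lit 311835732622) (nat_lit 76) (nat_lit 192437491535) (nat_lit 152) (nat_lit 442870180796) (nat_lit 10) (nat_lit 5) (nat_lit 11) (nat_lit 5) (nat_lit 12) (nat_lit 4) (nat_lit 343) (nat_lit 307) (nat_lit 130)) (XT.lf (nat_lit 0) (nat_lit 646038454318) (nat_lit 76) (nat_lit 18909187118) (nat_lit 152)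 (nat_lit 343684924418) (nat_lit 10) (nat_lit 5) (nat_lit 11) (nat_lit 5) (nat_lit 12) (nat_lit 4) (nat_lit 344) (nat_lit 307) (nat_lit 129))) (XT.nd (nat_lit 78) (nat_lit 76) (nat_lit 0) (XT.lf (nat_lit 0) (nat_lit 842528443314) (nat_lit 152) (nat_lit 72115983378) (nat_lit 0) (nat_lit 160072238489) (nat_lit 10) (nat_lit 5) (nat_lit 12) (nat_lit 4) (nat_lit 10) (nat_lit 4) (nat_lit 345) (nat_lit 307) (nat_lit 128)) (XT.lf (nat_lit 0) (nat_lit 253805579176) (nat_lit 76) (nat_lit 787105279400) (nat_lit 76) (nat_lit 104649021987) (nat_lit 9) (nat_lit 4) (nat_lit 10) (nat_lit 5) (nat_lit 10) (nat_lit 4) (nat_lit 346) (nat_lit 307) (nat_lit 127))))))) (XT.nd (nat_lit 37986) (nat_lit 0) (nat_lit 1292) (XT.nd (nat_lit 546) (nat_lit 76) (nat_lit 0) (XT.nd (nat_lit 234) (nat_lit 0) (nat_lit 0) (XT.nd (nat_lit 78) (nat_lit 76) (nat_lit 0) (XT.lf (nat_lit 0) (nat_lit 33460817517) (nat_lit 152)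 (nat_lit 612857805668) (nat_lit 76) (nat_lit 575526421210) (nat_lit 8) (nat_lit 5) (nat_lit 10) (nat_lit 5) (nat_lit 9) (nat_lit 4) (nat_lit 347) (nat_lit 307) (nat_lit 126)) (XT.nd (nat_lit 78) (nat_lit 76) (nat_lit 0) (XT.lf (nat_lit 0) (nat_lit 176965652361) (nat_lit 152) (nat_lit 314367794280) (nat_lit 76) (nat_lit 812682124336) (nat_lit 8) (nat_lit 5) (nat_lit 10) (nat_lit 5) (nat_lit 9) (nat_lit 4) (nat_lit 348) (nat_lit 307) (nat_lit 125)) (XT.lf (nat_lit 0) (nat_lit 8422712142) (nat_lit 76) (nat_lit 323730703761) (nat_lit 152) (nat_lit 1060590120463) (nat_lit 7) (nat_lit 5) (nat_lit 8) (nat_lit 5) (nat_lit 9) (nat_lit 4) (nat_lit 349) (nat_lit 307) (nat_lit 124)))) (XT.nd (nat_lit 156) (nat_lit 0) (nat_lit 0) (XT.nd (nat_lit 78) (nat_lit 0) (nat_lit 0) (XT.lf (nat_lit 0) (nat_lit 374914791160) (nat_lit 76) (nat_lit 133436758240) (nat_lit 152) (nat_lit 979530561709) (nat_lit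 7) (nat_lit 5) (nat_lit 8) (nat_lit 5) (nat_lit 9) (nat_lit 4) (nat_lit 350) (nat_lit 307) (nat_lit 123)) (XT.lf (nat_lit 0) (nat_lit 700379053811) (nat_lit 152) (nat_lit 821639119083) (nat_lit 0) (nat_lit 68474917345) (nat_lit 7) (nat_lit 5) (nat_lit 9) (nat_lit 4) (nat_lit 7) (nat_lit 4) (nat_lit 351) (nat_lit 307) (nat_lit 122))) (XT.nd (nat_lit 78) (nat_lit 0) (nat_lit 0) (XT.lf (nat_lit 0) (nat_lit 911234627656) (nat_lit 152) (nat_lit 510470590041) (nat_lit 0) (nat_lit 279330460505) (nat_lit 7) (nat_lit 5) (nat_lit 9) (nat_lit 4) (nat_lit 7) (nat_lit 4) (nat_lit 352) (nat_lit 307) (nat_lit 121)) (XT.lf (nat_lit 0) (nat_lit 1138958628201) (nat_lit 152) (nat_lit 174408613924) (nat_lit 0) (nat_lit 507054432638) (nat_lit 7) (nat_lit 5) (nat_lit 9) (nat_lit 4) (nat_lit 7) (nat_lit 4) (nat_lit 353) (nat_lit 307) (nat_lit 120))))) (XT.nd (nat_lit 37128) (nat_lit 0) (nat_lit 2584) (XT.nd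 (nat_lit 78) (nat_lit 0) (nat_lit 0) (XT.lf (nat_lit 0) (nat_lit 198466379754) (nat_lit 76) (nat_lit 1191207272457) (nat_lit 76) (nat_lit 559303050587) (nat_lit 6) (nat_lit 4) (nat_lit 7) (nat_lit 5) (nat_lit 7) (nat_lit 4) (nat_lit 354) (nat_lit 307) (nat_lit 119)) (XT.nd (nat_lit 36972) (nat_lit 0) (nat_lit 2584) (XT.lf (nat_lit 0) (nat_lit 611090113529) (nat_lit 76) (nat_lit 1054124387964) (nat_lit 76) (nat_lit 422220141736) (nat_lit 6) (nat_lit 4) (nat_lit 7) (nat_lit 5) (nat_lit 7) (nat_lit 4) (nat_lit 355) (nat_lit 307) (nat_lit 118)) (XT.lf (nat_lit 0) (nat_lit 39753510932) (nat_lit 532) (nat_lit 21287872254) (nat_lit 532) (nat_lit 21287872254) (nat_lit 40) (nat_lit 3) (nat_lit 47) (nat_lit 3) (nat_lit 47) (nat_lit 5) (nat_lit 308) (nat_lit 308) (nat_lit 164)))) (XT.nd (nat_lit 156) (nat_lit 0) (nat_lit 76) (XT.nd (nat_lit 78) (nat_lit 0) (nat_lit 76) (XT.lf (nat_lit 76) (nat_lit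 31541267886) (nat_lit 0) (nat_lit 51906778794) (nat_lit 532) (nat_lit 87735935839) (nat_lit 41) (nat_lit 5) (nat_lit 40) (nat_lit 3) (nat_lit 47) (nat_lit 5) (nat_lit 309) (nat_lit 308) (nat_lit 163)) (XT.lf (nat_lit 0) (nat_lit 89472861360) (nat_lit 456) (nat_lit 64734177635) (nat_lit 532) (nat_lit 23882973194) (nat_lit 41) (nat_lit 5) (nat_lit 47) (nat_lit 5) (nat_lit 48) (nat_lit 5) (nat_lit 310) (nat_lit 308) (nat_lit 162))) (XT.nd (nat_lit 78) (nat_lit 0) (nat_lit 0) (XT.lf (nat_lit 76) (nat_lit 15599005354) (nat_lit 0) (nat_lit 82103838165) (nat_lit 532) (nat_lit 87707826988) (nat_lit 42) (nat_lit 5) (nat_lit 41) (nat_lit 5) (nat_lit 48) (nat_lit 5) (nat_lit 311) (nat_lit 308) (nat_lit 161)) (XT.lf (nat_lit 76) (nat_lit 106040202053) (nat_lit 0) (nat_lit 2320778990) (nat_lit 532) (nat_lit 84814420699) (nat_lit 42) (nat_lit 5) (nat_lit 41) (nat_lit 5) (nat_lit 48) (nat_lit 5)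 (nat_lit 312) (nat_lit 308) (nat_lit 160)))))) (XT.nd (nat_lit 546) (nat_lit 760) (nat_lit 0) (XT.nd (nat_lit 234) (nat_lit 684) (nat_lit 0) (XT.nd (nat_lit 78) (nat_lit 0) (nat_lit 0) (XT.lf (nat_lit 76) (nat_lit 146080668) (nat_lit 0) (nat_lit 121745499686) (nat_lit 532) (nat_lit 79508146998) (nat_lit 43) (nat_lit 5) (nat_lit 42) (nat_lit 5) (nat_lit 49) (nat_lit 5) (nat_lit 313) (nat_lit 308) (nat_lit 159)) (XT.nd (nat_lit 78) (nat_lit 0) (nat_lit 76) (XT.lf (nat_lit 76) (nat_lit 99301731310) (nat_lit 0) (nat_lit 39643915787) (nat_lit 532) (nat_lit 71141071035) (nat_lit 43) (nat_lit 5) (nat_lit 42) (nat_lit 5) (nat_lit 49) (nat_lit 5) (nat_lit 314) (nat_lit 308) (nat_lit 158)) (XT.lf (nat_lit 0) (nat_lit 158542958472) (nat_lit 456) (nat_lit 14258043309) (nat_lit 76) (nat_lit 46573353485) (nat_lit 43) (nat_lit 5) (nat_lit 49) (nat_lit 5) (nat_lit 44) (nat_lit 5) (nat_lit 315) (nat_lit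 308) (nat_lit 157)))) (XT.nd (nat_lit 156) (nat_lit 304) (nat_lit 0) (XT.nd (nat_lit 78) (nat_lit 0) (nat_lit 0) (XT.lf (nat_lit 0) (nat_lit 93645756181) (nat_lit 456) (nat_lit 89344052384) (nat_lit 532) (nat_lit 46152655083) (nat_lit 37) (nat_lit 5) (nat_lit 43) (nat_lit 5) (nat_lit 44) (nat_lit 5) (nat_lit 316) (nat_lit 308) (nat_lit 156)) (XT.lf (nat_lit 0) (nat_lit 209811225626) (nat_lit 532) (nat_lit 28697354003) (nat_lit 76) (nat_lit 1149936097) (nat_lit 37) (nat_lit 5) (nat_lit 44) (nat_lit 5) (nat_lit 38) (nat_lit 5) (nat_lit 317) (nat_lit 308) (nat_lit 155))) (XT.nd (nat_lit 78) (nat_lit 76) (nat_lit 0) (XT.lf (nat_lit 0) (nat_lit 88765612883) (nat_lit 228) (nat_lit 154468059608) (nat_lit 304) (nat_lit 7425754667) (nat_lit 34) (nat_lit 5) (nat_lit 37) (nat_lit 5) (nat_lit 38) (nat_lit 5) (nat_lit 318) (nat_lit 308) (nat_lit 154)) (XT.lf (nat_lit 0) (nat_lit 16754520608) (nat_lit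 304) (nat_lit 45644276829) (nat_lit 76) (nat_lit 200044919783) (nat_lit 33) (nat_lit 5) (nat_lit 37) (nat_lit 5) (nat_lit 34) (nat_lit 5) (nat_lit 319) (nat_lit 308) (nat_lit 153))))) (XT.nd (nat_lit 234) (nat_lit 304) (nat_lit 0) (XT.nd (nat_lit 78) (nat_lit 228) (nat_lit 0) (XT.lf (nat_lit 0) (nat_lit 45434096396) (nat_lit 304) (nat_lit 192032298137) (nat_lit 76) (nat_lit 37451641242) (nat_lit 30) (nat_lit 5) (nat_lit 34) (nat_lit 5) (nat_lit 31) (nat_lit 5) (nat_lit 320) (nat_lit 308) (nat_lit 152)) (XT.nd (nat_lit 78) (nat_lit 228) (nat_lit 0) (XT.lf (nat_lit 0) (nat_lit 79309090575) (nat_lit 304) (nat_lit 65649765111) (nat_lit 76) (nat_lit 143199360310) (nat_lit 30) (nat_lit 5) (nat_lit 34) (nat_lit 5) (nat_lit 31) (nat_lit 5) (nat_lit 321) (nat_lit 308) (nat_lit 151)) (XT.lf (nat_lit 0) (nat_lit 74573734865) (nat_lit 228) (nat_lit 43113750893) (nat_lit 304) (nat_lit 184626653102)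 (nat_lit 27) (nat_lit 5) (nat_lit 30) (nat_lit 5) (nat_lit 31) (nat_lit 5) (nat_lit 322) (nat_lit 308) (nat_lit 150)))) (XT.nd (nat_lit 156) (nat_lit 152) (nat_lit 0) (XT.nd (nat_lit 78) (nat_lit 152) (nat_lit 0) (XT.lf (nat_lit 0) (nat_lit 162586102495) (nat_lit 304) (nat_lit 89365445844) (nat_lit 76) (nat_lit 65374991535) (nat_lit 27) (nat_lit 5) (nat_lit 31) (nat_lit 5) (nat_lit 28) (nat_lit 5) (nat_lit 323) (nat_lit 308) (nat_lit 149)) (XT.lf (nat_lit 0) (nat_lit 62064265739) (nat_lit 152) (nat_lit 151624740087) (nat_lit 228) (nat_lit 119641935654) (nat_lit 25) (nat_lit 5) (nat_lit 27) (nat_lit 5) (nat_lit 28) (nat_lit 5) (nat_lit 324) (nat_lit 308) (nat_lit 148))) (XT.nd (nat_lit 78) (nat_lit 152) (nat_lit 0) (XT.lf (nat_lit 0) (nat_lit 230690537694) (nat_lit 152) (nat_lit 40632929746) (nat_lit 228) (nat_lit 79096761966) (nat_lit 25) (nat_lit 5) (nat_lit 27) (nat_lit 5) (nat_lit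 28) (nat_lit 5) (nat_lit 325) (nat_lit 308) (nat_lit 147)) (XT.lf (nat_lit 0) (nat_lit 44237397089) (nat_lit 152) (nat_lit 292300802580) (nat_lit 228) (nat_lit 32100899852) (nat_lit 23) (nat_lit 5) (nat_lit 25) (nat_lit 5) (nat_lit 26) (nat_lit 5) (nat_lit 326) (nat_lit 308) (nat_lit 146))))))))
noncomputable def xc115 : XT := (XT.nd (nat_lit 2184) (nat_lit 76) (nat_lit 0) (XT.nd (nat_lit 1092) (nat_lit 456) (nat_lit 0) (XT.nd (nat_lit 546) (nat_lit 304) (nat_lit 0) (XT.nd (nat_lit 234) (nat_lit 228) (nat_lit 0) (XT.nd (nat_lit 78) (nat_lit 152) (nat_lit 0) (XT.lf (nat_lit 0) (nat_lit 22135426006) (nat_lit 228) (nat_lit 161511785137) (nat_lit 76) (nat_lit 204279258773) (nat_lit 22) (nat_lit 5) (nat_lit 25) (nat_lit 5) (nat_lit 23) (nat_lit 5) (nat_lit 327) (nat_lit 308) (nat_lit 145)) (XT.nd (nat_lit 78) (nat_lit 0) (nat_lit 0) (XT.lf (nat_lit 0) (nat_lit 14290294279) (nat_lit 152)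 (nat_lit 65029692004) (nat_lit 228) (nat_lit 329342651830) (nat_lit 20) (nat_lit 5) (nat_lit 22) (nat_lit 5) (nat_lit 23) (nat_lit 5) (nat_lit 328) (nat_lit 308) (nat_lit 144)) (XT.lf (nat_lit 0) (nat_lit 147126971492) (nat_lit 228) (nat_lit 218994373016) (nat_lit 76) (nat_lit 64452542635) (nat_lit 20) (nat_lit 5) (nat_lit 23) (nat_lit 5) (nat_lit 21) (nat_lit 5) (nat_lit 329) (nat_lit 308) (nat_lit 143)))) (XT.nd (nat_lit 156) (nat_lit 76) (nat_lit 0) (XT.nd (nat_lit 78) (nat_lit 152) (nat_lit 0) (XT.lf (nat_lit 0) (nat_lit 222047534571) (nat_lit 228) (nat_lit 31275342311) (nat_lit 76) (nat_lit 200780037860) (nat_lit 20) (nat_lit 5) (nat_lit 23) (nat_lit 5) (nat_lit 21) (nat_lit 5) (nat_lit 330) (nat_lit 308) (nat_lit 142)) (XT.lf (nat_lit 0) (nat_lit 180489961888) (nat_lit 152) (nat_lit 126812509605) (nat_lit 228) (nat_lit 171864534910) (nat_lit 18) (nat_lit 5) (nat_lit 20) (nat_lit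 5) (nat_lit 21) (nat_lit 5) (nat_lit 331) (nat_lit 308) (nat_lit 141))) (XT.nd (nat_lit 78) (nat_lit 76) (nat_lit 0) (XT.lf (nat_lit 0) (nat_lit 400491219810) (nat_lit 228) (nat_lit 95451108952) (nat_lit 76) (nat_lit 10204823466) (nat_lit 18) (nat_lit 5) (nat_lit 21) (nat_lit 5) (nat_lit 19) (nat_lit 4) (nat_lit 332) (nat_lit 308) (nat_lit 140)) (XT.lf (nat_lit 0) (nat_lit 127096888149) (nat_lit 76) (nat_lit 380388641239) (nat_lit 152) (nat_lit 27292143556) (nat_lit 17) (nat_lit 5) (nat_lit 18) (nat_lit 5) (nat_lit 19) (nat_lit 4) (nat_lit 333) (nat_lit 308) (nat_lit 139))))) (XT.nd (nat_lit 234) (nat_lit 76) (nat_lit 0) (XT.nd (nat_lit 78) (nat_lit 152) (nat_lit 0) (XT.lf (nat_lit 0) (nat_lit 57149868806) (nat_lit 152) (nat_lit 194059654181) (nat_lit 76) (nat_lit 314164585786) (nat_lit 16) (nat_lit 5) (nat_lit 18) (nat_lit 5) (nat_lit 17) (nat_lit 5) (nat_lit 334) (nat_lit 308) (nat_lit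 138)) (XT.nd (nat_lit 78) (nat_lit 0) (nat_lit 0) (XT.lf (nat_lit 0) (nat_lit 37834855159) (nat_lit 152) (nat_lit 109947782749) (nat_lit 228) (nat_lit 450506120290) (nat_lit 14) (nat_lit 5) (nat_lit 16) (nat_lit 5) (nat_lit 17) (nat_lit 5) (nat_lit 335) (nat_lit 308) (nat_lit 137)) (XT.lf (nat_lit 0) (nat_lit 252134621487) (nat_lit 228) (nat_lit 335257619609) (nat_lit 76) (nat_lit 45926851145) (nat_lit 14) (nat_lit 5) (nat_lit 17) (nat_lit 5) (nat_lit 15) (nat_lit 4) (nat_lit 336) (nat_lit 308) (nat_lit 136)))) (XT.nd (nat_lit 156) (nat_lit 0) (nat_lit 0) (XT.nd (nat_lit 78) (nat_lit 76) (nat_lit 0) (XT.lf (nat_lit 0) (nat_lit 367690506169) (nat_lit 228) (nat_lit 94901493005) (nat_lit 76) (nat_lit 208331394532) (nat_lit 14) (nat_lit 5) (nat_lit 17) (nat_lit 5) (nat_lit 15) (nat_lit 4) (nat_lit 337) (nat_lit 308) (nat_lit 135)) (XT.lf (nat_lit 0) (nat_lit 173354974089) (nat_lit 76)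 (nat_lit 323305037954) (nat_lit 152) (nat_lit 214542495297) (nat_lit 13) (nat_lit 5) (nat_lit 14) (nat_lit 5) (nat_lit 15) (nat_lit 4) (nat_lit 338) (nat_lit 308) (nat_lit 134))) (XT.nd (nat_lit 78) (nat_lit 0) (nat_lit 0) (XT.lf (nat_lit 0) (nat_lit 468469024724) (nat_lit 76) (nat_lit 170072789229) (nat_lit 152) (nat_lit 115954557345) (nat_lit 13) (nat_lit 5) (nat_lit 14) (nat_lit 5) (nat_lit 15) (nat_lit 4) (nat_lit 339) (nat_lit 308) (nat_lit 133)) (XT.lf (nat_lit 0) (nat_lit 787192138462) (nat_lit 76) (nat_lit 4581985041) (nat_lit 152) (nat_lit 9479623864) (nat_lit 13) (nat_lit 5) (nat_lit 14) (nat_lit 5) (nat_lit 15) (nat_lit 4) (nat_lit 340) (nat_lit 308) (nat_lit 132)))))) (XT.nd (nat_lit 546) (nat_lit 152) (nat_lit 0) (XT.nd (nat_lit 234) (nat_lit 76) (nat_lit 0) (XT.nd (nat_lit 78) (nat_lit 76) (nat_lit 0) (XT.lf (nat_lit 0) (nat_lit 111687262396) (nat_lit 152) (nat_lit 563707273731)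 (nat_lit 76) (nat_lit 175237996785) (nat_lit 11) (nat_lit 5) (nat_lit 13) (nat_lit 5) (nat_lit 12) (nat_lit 4) (nat_lit 341) (nat_lit 308) (nat_lit 131)) (XT.nd (nat_lit 78) (nat_lit 76) (nat_lit 0) (XT.lf (nat_lit 0) (nat_lit 242548787663) (nat_lit 152) (nat_lit 291515372722) (nat_lit 76) (nat_lit 369836688332) (nat_lit 11) (nat_lit 5) (nat_lit 13) (nat_lit 5) (nat_lit 12) (nat_lit 4) (nat_lit 342) (nat_lit 308) (nat_lit 130)) (XT.lf (nat_lit 0) (nat_lit 2580934506) (nat_lit 76) (nat_lit 381360340404) (nat_lit 152) (nat_lit 577484391733) (nat_lit 10) (nat_lit 5) (nat_lit 11) (nat_lit 5) (nat_lit 12) (nat_lit 4) (nat_lit 343) (nat_lit 308) (nat_lit 129)))) (XT.nd (nat_lit 156) (nat_lit 76) (nat_lit 0) (XT.nd (nat_lit 78) (nat_lit 0) (nat_lit 0) (XT.lf (nat_lit 0) (nat_lit 336783630590) (nat_lit 76) (nat_lit 207832046927) (nat_lit 152) (nat_lit 478299151226) (nat_lit 10) (nat_lit 5)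 (nat_lit 11) (nat_lit 5) (nat_lit 12) (nat_lit 4) (nat_lit 344) (nat_lit 308) (nat_lit 128)) (XT.lf (nat_lit 0) (nat_lit 697722493033) (nat_lit 76) (nat_lit 20421511041) (nat_lit 152) (nat_lit 371179122044) (nat_lit 10) (nat_lit 5) (nat_lit 11) (nat_lit 5) (nat_lit 12) (nat_lit 4) (nat_lit 345) (nat_lit 308) (nat_lit 127))) (XT.nd (nat_lit 78) (nat_lit 76) (nat_lit 0) (XT.lf (nat_lit 0) (nat_lit 909931238416) (nat_lit 152) (nat_lit 77884338447) (nat_lit 0) (nat_lit 172878379129) (nat_lit 10) (nat_lit 5) (nat_lit 12) (nat_lit 4) (nat_lit 10) (nat_lit 4) (nat_lit 346) (nat_lit 308) (nat_lit 126)) (XT.lf (nat_lit 0) (nat_lit 274110925729) (nat_lit 76) (nat_lit 850073304328) (nat_lit 76) (nat_lit 113020399955) (nat_lit 9) (nat_lit 4) (nat_lit 10) (nat_lit 5) (nat_lit 10) (nat_lit 4) (nat_lit 347) (nat_lit 308) (nat_lit 125))))) (XT.nd (nat_lit 234) (nat_lit 0) (nat_lit 0) (XT.nd (nat_lit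 78) (nat_lit 76) (nat_lit 0) (XT.lf (nat_lit 0) (nat_lit 36138161241) (nat_lit 152) (nat_lit 661885570736) (nat_lit 76) (nat_lit 621568877042) (nat_lit 8) (nat_lit 5) (nat_lit 10) (nat_lit 5) (nat_lit 9) (nat_lit 4) (nat_lit 348) (nat_lit 308) (nat_lit 124)) (XT.nd (nat_lit 78) (nat_lit 76) (nat_lit 0) (XT.lf (nat_lit 0) (nat_lit 191123347441) (nat_lit 152) (nat_lit 339516422095) (nat_lit 76) (nat_lit 877697011075) (nat_lit 8) (nat_lit 5) (nat_lit 10) (nat_lit 5) (nat_lit 9) (nat_lit 4) (nat_lit 349) (nat_lit 308) (nat_lit 123)) (XT.lf (nat_lit 0) (nat_lit 9097304696) (nat_lit 76) (nat_lit 349628813217) (nat_lit 152) (nat_lit 1145436866496) (nat_lit 7) (nat_lit 5) (nat_lit 8) (nat_lit 5) (nat_lit 9) (nat_lit 4) (nat_lit 350) (nat_lit 308) (nat_lit 122)))) (XT.nd (nat_lit 156) (nat_lit 0) (nat_lit 0) (XT.nd (nat_lit 78) (nat_lit 0) (nat_lit 0) (XT.lf (nat_lit 0) (nat_lit 404908692584)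 (nat_lit 76) (nat_lit 144111377746) (nat_lit 152) (nat_lit 1057892577383) (nat_lit 7) (nat_lit 5) (nat_lit 8) (nat_lit 5) (nat_lit 9) (nat_lit 4) (nat_lit 351) (nat_lit 308) (nat_lit 121)) (XT.lf (nat_lit 0) (nat_lit 756409752840) (nat_lit 152) (nat_lit 887369560932) (nat_lit 0) (nat_lit 73953193221) (nat_lit 7) (nat_lit 5) (nat_lit 9) (nat_lit 4) (nat_lit 7) (nat_lit 4) (nat_lit 352) (nat_lit 308) (nat_lit 120))) (XT.nd (nat_lit 78) (nat_lit 0) (nat_lit 0) (XT.lf (nat_lit 0) (nat_lit 984133744835) (nat_lit 152) (nat_lit 551307600506) (nat_lit 0) (nat_lit 301677158909) (nat_lit 7) (nat_lit 5) (nat_lit 9) (nat_lit 4) (nat_lit 7) (nat_lit 4) (nat_lit 353) (nat_lit 308) (nat_lit 119)) (XT.lf (nat_lit 0) (nat_lit 1230075639723) (nat_lit 152) (nat_lit 188360713465) (nat_lit 0) (nat_lit 547619029438) (nat_lit 7) (nat_lit 5) (nat_lit 9) (nat_lit 4) (nat_lit 7) (nat_lit 4) (nat_lit 354) (nat_lit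 308) (nat_lit 118))))))) (XT.nd (nat_lit 38064) (nat_lit 0) (nat_lit 608) (XT.nd (nat_lit 37518) (nat_lit 0) (nat_lit 1824) (XT.nd (nat_lit 37206) (nat_lit 0) (nat_lit 2660) (XT.nd (nat_lit 37050) (nat_lit 0) (nat_lit 2584) (XT.lf (nat_lit 0) (nat_lit 214344264781) (nat_lit 76) (nat_lit 1286503590895) (nat_lit 76) (nat_lit 604046958056) (nat_lit 6) (nat_lit 4) (nat_lit 7) (nat_lit 5) (nat_lit 7) (nat_lit 4) (nat_lit 355) (nat_lit 308) (nat_lit 117)) (XT.nd (nat_lit 78) (nat_lit 0) (nat_lit 0) (XT.lf (nat_lit 0) (nat_lit 42935915172) (nat_lit 532) (nat_lit 22989750888) (nat_lit 532) (nat_lit 22989750888) (nat_lit 40) (nat_lit 3) (nat_lit 47) (nat_lit 3) (nat_lit 47) (nat_lit 5) (nat_lit 309) (nat_lit 309) (nat_lit 162)) (XT.lf (nat_lit 76) (nat_lit 34066813323) (nat_lit 0) (nat_lit 56061063219) (nat_lit 532) (nat_lit 94750488917) (nat_lit 41) (nat_lit 5) (nat_lit 40) (nat_lit 3) (nat_lit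 47) (nat_lit 5) (nat_lit 310) (nat_lit 309) (nat_lit 161)))) (XT.nd (nat_lit 156) (nat_lit 0) (nat_lit 0) (XT.nd (nat_lit 78) (nat_lit 0) (nat_lit 0) (XT.lf (nat_lit 0) (nat_lit 96634342332) (nat_lit 456) (nat_lit 69910484469) (nat_lit 532) (nat_lit 25792078667) (nat_lit 41) (nat_lit 5) (nat_lit 47) (nat_lit 5) (nat_lit 48) (nat_lit 5) (nat_lit 311) (nat_lit 309) (nat_lit 160)) (XT.lf (nat_lit 76) (nat_lit 16849291706) (nat_lit 0) (nat_lit 88673217735) (nat_lit 532) (nat_lit 94720725251) (nat_lit 42) (nat_lit 5) (nat_lit 41) (nat_lit 5) (nat_lit 48) (nat_lit 5) (nat_lit 312) (nat_lit 309) (nat_lit 159))) (XT.nd (nat_lit 78) (nat_lit 0) (nat_lit 76) (XT.lf (nat_lit 76) (nat_lit 114525608888) (nat_lit 0) (nat_lit 2507434381) (nat_lit 532) (nat_lit 91596122599) (nat_lit 42) (nat_lit 5) (nat_lit 41) (nat_lit 5) (nat_lit 48) (nat_lit 5) (nat_lit 313) (nat_lit 309) (nat_lit 158)) (XT.lf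 (nat_lit 76) (nat_lit 160186839) (nat_lit 0) (nat_lit 131485703932) (nat_lit 532) (nat_lit 85865563722) (nat_lit 43) (nat_lit 5) (nat_lit 42) (nat_lit 5) (nat_lit 49) (nat_lit 5) (nat_lit 314) (nat_lit 309) (nat_lit 157))))) (XT.nd (nat_lit 234) (nat_lit 532) (nat_lit 0) (XT.nd (nat_lit 78) (nat_lit 380) (nat_lit 0) (XT.lf (nat_lit 76) (nat_lit 107248110294) (nat_lit 0) (nat_lit 42815951524) (nat_lit 532) (nat_lit 76829361314) (nat_lit 43) (nat_lit 5) (nat_lit 42) (nat_lit 5) (nat_lit 49) (nat_lit 5) (nat_lit 315) (nat_lit 309) (nat_lit 156)) (XT.nd (nat_lit 78) (nat_lit 456) (nat_lit 0) (XT.lf (nat_lit 0) (nat_lit 171228941804) (nat_lit 456) (nat_lit 15396385388) (nat_lit 76) (nat_lit 50298762192) (nat_lit 43) (nat_lit 5) (nat_lit 49) (nat_lit 5) (nat_lit 44) (nat_lit 5) (nat_lit 316) (nat_lit 309) (nat_lit 155)) (XT.lf (nat_lit 0) (nat_lit 101139659798) (nat_lit 456) (nat_lit 96491745414)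 (nat_lit 532) (nat_lit 49842252785) (nat_lit 37) (nat_lit 5) (nat_lit 43) (nat_lit 5) (nat_lit 44) (nat_lit 5) (nat_lit 317) (nat_lit 309) (nat_lit 154)))) (XT.nd (nat_lit 156) (nat_lit 304) (nat_lit 0) (XT.nd (nat_lit 78) (nat_lit 228) (nat_lit 0) (XT.lf (nat_lit 0) (nat_lit 226598353214) (nat_lit 532) (nat_lit 30990873874) (nat_lit 76) (nat_lit 1241782474) (nat_lit 37) (nat_lit 5) (nat_lit 44) (nat_lit 5) (nat_lit 38) (nat_lit 5) (nat_lit 318) (nat_lit 309) (nat_lit 153)) (XT.lf (nat_lit 0) (nat_lit 95869072935) (nat_lit 228) (nat_lit 166825410917) (nat_lit 304) (nat_lit 8017519684) (nat_lit 34) (nat_lit 5) (nat_lit 37) (nat_lit 5) (nat_lit 38) (nat_lit 5) (nat_lit 319) (nat_lit 309) (nat_lit 152))) (XT.nd (nat_lit 78) (nat_lit 228) (nat_lit 0) (XT.lf (nat_lit 0) (nat_lit 18096901269) (nat_lit 304) (nat_lit 49293658223) (nat_lit 76) (nat_lit 216048486391) (nat_lit 33) (nat_lit 5)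 (nat_lit 37) (nat_lit 5) (nat_lit 34) (nat_lit 5) (nat_lit 320) (nat_lit 309) (nat_lit 151)) (XT.lf (nat_lit 0) (nat_lit 49070748686) (nat_lit 304) (nat_lit 207392620141) (nat_lit 76) (nat_lit 40447949183) (nat_lit 30) (nat_lit 5) (nat_lit 34) (nat_lit 5) (nat_lit 31) (nat_lit 5) (nat_lit 321) (nat_lit 309) (nat_lit 150)))))) (XT.nd (nat_lit 546) (nat_lit 608) (nat_lit 0) (XT.nd (nat_lit 234) (nat_lit 380) (nat_lit 0) (XT.nd (nat_lit 78) (nat_lit 228) (nat_lit 0) (XT.lf (nat_lit 0) (nat_lit 85655599839) (nat_lit 304) (nat_lit 70899652017) (nat_lit 76) (nat_lit 154655472692) (nat_lit 30) (nat_lit 5) (nat_lit 34) (nat_lit 5) (nat_lit 31) (nat_lit 5) (nat_lit 322) (nat_lit 309) (nat_lit 149)) (XT.nd (nat_lit 78) (nat_lit 0) (nat_lit 0) (XT.lf (nat_lit 0) (nat_lit 80541674937) (nat_lit 228) (nat_lit 46562508791) (nat_lit 304) (nat_lit 199394944602) (nat_lit 27) (nat_lit 5) (nat_lit 30)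 (nat_lit 5) (nat_lit 31) (nat_lit 5) (nat_lit 323) (nat_lit 309) (nat_lit 148)) (XT.lf (nat_lit 0) (nat_lit 175594571563) (nat_lit 304) (nat_lit 96512667908) (nat_lit 76) (nat_lit 70605291836) (nat_lit 27) (nat_lit 5) (nat_lit 31) (nat_lit 5) (nat_lit 28) (nat_lit 5) (nat_lit 324) (nat_lit 309) (nat_lit 147)))) (XT.nd (nat_lit 156) (nat_lit 228) (nat_lit 0) (XT.nd (nat_lit 78) (nat_lit 0) (nat_lit 0) (XT.lf (nat_lit 0) (nat_lit 67031369625) (nat_lit 152) (nat_lit 163754267636) (nat_lit 228) (nat_lit 129211653765) (nat_lit 25) (nat_lit 5) (nat_lit 27) (nat_lit 5) (nat_lit 28) (nat_lit 5) (nat_lit 325) (nat_lit 309) (nat_lit 146)) (XT.lf (nat_lit 0) (nat_lit 249147597956) (nat_lit 152) (nat_lit 43883145923) (nat_lit 228) (nat_lit 85422987422) (nat_lit 25) (nat_lit 5) (nat_lit 27) (nat_lit 5) (nat_lit 28) (nat_lit 5) (nat_lit 326) (nat_lit 309) (nat_lit 145))) (XT.nd (nat_lit 78) (nat_lit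 76) (nat_lit 0) (XT.lf (nat_lit 0) (nat_lit 47778263802) (nat_lit 152) (nat_lit 315684341658) (nat_lit 228) (nat_lit 34667509840) (nat_lit 23) (nat_lit 5) (nat_lit 25) (nat_lit 5) (nat_lit 26) (nat_lit 5) (nat_lit 327) (nat_lit 309) (nat_lit 144)) (XT.lf (nat_lit 0) (nat_lit 23907546072) (nat_lit 228) (nat_lit 174430920570) (nat_lit 76) (nat_lit 220622014389) (nat_lit 22) (nat_lit 5) (nat_lit 25) (nat_lit 5) (nat_lit 23) (nat_lit 5) (nat_lit 328) (nat_lit 309) (nat_lit 143))))) (XT.nd (nat_lit 312) (nat_lit 304) (nat_lit 0) (XT.nd (nat_lit 156) (nat_lit 152) (nat_lit 0) (XT.nd (nat_lit 78) (nat_lit 0) (nat_lit 0) (XT.lf (nat_lit 0) (nat_lit 15435279443) (nat_lit 152) (nat_lit 70231538838) (nat_lit 228) (nat_lit 355688728902) (nat_lit 20) (nat_lit 5) (nat_lit 22) (nat_lit 5) (nat_lit 23) (nat_lit 5) (nat_lit 329) (nat_lit 309) (nat_lit 142)) (XT.lf (nat_lit 0) (nat_lit 158898282736)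 (nat_lit 228) (nat_lit 236512209071) (nat_lit 76) (nat_lit 69609210942) (nat_lit 20) (nat_lit 5) (nat_lit 23) (nat_lit 5) (nat_lit 21) (nat_lit 5) (nat_lit 330) (nat_lit 309) (nat_lit 141))) (XT.nd (nat_lit 78) (nat_lit 152) (nat_lit 0) (XT.lf (nat_lit 0) (nat_lit 239812405414) (nat_lit 228) (nat_lit 33775782857) (nat_lit 76) (nat_lit 216842871348) (nat_lit 20) (nat_lit 5) (nat_lit 23) (nat_lit 5) (nat_lit 21) (nat_lit 5) (nat_lit 331) (nat_lit 309) (nat_lit 140)) (XT.lf (nat_lit 0) (nat_lit 194930705506) (nat_lit 152) (nat_lit 136956989866) (nat_lit 228) (nat_lit 185612586807) (nat_lit 18) (nat_lit 5) (nat_lit 20) (nat_lit 5) (nat_lit 21) (nat_lit 5) (nat_lit 332) (nat_lit 309) (nat_lit 139)))) (XT.nd (nat_lit 156) (nat_lit 228) (nat_lit 0) (XT.nd (nat_lit 78) (nat_lit 76) (nat_lit 0) (XT.lf (nat_lit 0) (nat_lit 432531479133) (nat_lit 228) (nat_lit 103085698700) (nat_lit 76) (nat_lit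 11021667186) (nat_lit 18) (nat_lit 5) (nat_lit 21) (nat_lit 5) (nat_lit 19) (nat_lit 4) (nat_lit 333) (nat_lit 309) (nat_lit 138)) (XT.lf (nat_lit 0) (nat_lit 137266100220) (nat_lit 76) (nat_lit 410819197153) (nat_lit 152) (nat_lit 29474513087) (nat_lit 17) (nat_lit 5) (nat_lit 18) (nat_lit 5) (nat_lit 19) (nat_lit 4) (nat_lit 334) (nat_lit 309) (nat_lit 137))) (XT.nd (nat_lit 78) (nat_lit 152) (nat_lit 0) (XT.lf (nat_lit 0) (nat_lit 61722739636) (nat_lit 152) (nat_lit 209583025366) (nat_lit 76) (nat_lit 339298200022) (nat_lit 16) (nat_lit 5) (nat_lit 18) (nat_lit 5) (nat_lit 17) (nat_lit 5) (nat_lit 335) (nat_lit 309) (nat_lit 136)) (XT.lf (nat_lit 0) (nat_lit 40863009249) (nat_lit 152) (nat_lit 118743088579) (nat_lit 228) (nat_lit 486545691315) (nat_lit 14) (nat_lit 5) (nat_lit 16) (nat_lit 5) (nat_lit 17) (nat_lit 5) (nat_lit 336) (nat_lit 309) (nat_lit 135))))))))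
noncomputable def xc116 : XT := (XT.nd (nat_lit 39234) (nat_lit 0) (nat_lit 228) (XT.nd (nat_lit 1092) (nat_lit 76) (nat_lit 0) (XT.nd (nat_lit 546) (nat_lit 228) (nat_lit 0) (XT.nd (nat_lit 234) (nat_lit 152) (nat_lit 0) (XT.nd (nat_lit 78) (nat_lit 76) (nat_lit 0) (XT.lf (nat_lit 0) (nat_lit 272306188720) (nat_lit 228) (nat_lit 362076911623) (nat_lit 76) (nat_lit 49601453809) (nat_lit 14) (nat_lit 5) (nat_lit 17) (nat_lit 5) (nat_lit 15) (nat_lit 4) (nat_lit 337) (nat_lit 309) (nat_lit 134)) (XT.nd (nat_lit 78) (nat_lit 76) (nat_lit 0) (XT.lf (nat_lit 0) (nat_lit 397106485102) (nat_lit 228) (nat_lit 102492392487) (nat_lit 76) (nat_lit 224998326994) (nat_lit 14) (nat_lit 5) (nat_lit 17) (nat_lit 5) (nat_lit 15) (nat_lit 4) (nat_lit 338) (nat_lit 309) (nat_lit 133)) (XT.lf (nat_lit 0) (nat_lit 187224561089) (nat_lit 76) (nat_lit 349168964255) (nat_lit 152) (nat_lit 231705124167) (nat_lit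 13) (nat_lit 5) (nat_lit 14) (nat_lit 5) (nat_lit 15) (nat_lit 4) (nat_lit 339) (nat_lit 309) (nat_lit 132)))) (XT.nd (nat_lit 156) (nat_lit 152) (nat_lit 0) (XT.nd (nat_lit 78) (nat_lit 0) (nat_lit 0) (XT.lf (nat_lit 0) (nat_lit 505947647695) (nat_lit 76) (nat_lit 183678170945) (nat_lit 152) (nat_lit 125230208272) (nat_lit 13) (nat_lit 5) (nat_lit 14) (nat_lit 5) (nat_lit 15) (nat_lit 4) (nat_lit 340) (nat_lit 309) (nat_lit 131)) (XT.lf (nat_lit 0) (nat_lit 850168528977) (nat_lit 76) (nat_lit 4948135121) (nat_lit 152) (nat_lit 10237332977) (nat_lit 13) (nat_lit 5) (nat_lit 14) (nat_lit 5) (nat_lit 15) (nat_lit 4) (nat_lit 341) (nat_lit 309) (nat_lit 130))) (XT.nd (nat_lit 78) (nat_lit 0) (nat_lit 0) (XT.lf (nat_lit 0) (nat_lit 120622859453) (nat_lit 152) (nat_lit 608802789275) (nat_lit 76) (nat_lit 189257436481) (nat_lit 11) (nat_lit 5) (nat_lit 13) (nat_lit 5) (nat_lit 12) (nat_lit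 4) (nat_lit 342) (nat_lit 309) (nat_lit 129)) (XT.lf (nat_lit 0) (nat_lit 261953261107) (nat_lit 152) (nat_lit 314835615174) (nat_lit 76) (nat_lit 399423993726) (nat_lit 11) (nat_lit 5) (nat_lit 13) (nat_lit 5) (nat_lit 12) (nat_lit 4) (nat_lit 343) (nat_lit 309) (nat_lit 128))))) (XT.nd (nat_lit 234) (nat_lit 152) (nat_lit 0) (XT.nd (nat_lit 78) (nat_lit 0) (nat_lit 0) (XT.lf (nat_lit 0) (nat_lit 2788371635) (nat_lit 76) (nat_lit 411868756589) (nat_lit 152) (nat_lit 623682546744) (nat_lit 10) (nat_lit 5) (nat_lit 11) (nat_lit 5) (nat_lit 12) (nat_lit 4) (nat_lit 344) (nat_lit 309) (nat_lit 127)) (XT.nd (nat_lit 78) (nat_lit 0) (nat_lit 0) (XT.lf (nat_lit 0) (nat_lit 363727212119) (nat_lit 76) (nat_lit 224458230082) (nat_lit 152) (nat_lit 516562531168) (nat_lit 10) (nat_lit 5) (nat_lit 11) (nat_lit 5) (nat_lit 12) (nat_lit 4) (nat_lit 345) (nat_lit 309) (nat_lit 126)) (XT.lf (nat_lit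 0) (nat_lit 753541117552) (nat_lit 76) (nat_lit 22054879518) (nat_lit 152) (nat_lit 400872940552) (nat_lit 10) (nat_lit 5) (nat_lit 11) (nat_lit 5) (nat_lit 12) (nat_lit 4) (nat_lit 346) (nat_lit 309) (nat_lit 125)))) (XT.nd (nat_lit 156) (nat_lit 76) (nat_lit 0) (XT.nd (nat_lit 78) (nat_lit 76) (nat_lit 0) (XT.lf (nat_lit 0) (nat_lit 982726182994) (nat_lit 152) (nat_lit 84114293684) (nat_lit 0) (nat_lit 186708959438) (nat_lit 10) (nat_lit 5) (nat_lit 12) (nat_lit 4) (nat_lit 10) (nat_lit 4) (nat_lit 347) (nat_lit 309) (nat_lit 124)) (XT.lf (nat_lit 0) (nat_lit 296040571580) (nat_lit 76) (nat_lit 918078827948) (nat_lit 76) (nat_lit 122061565738) (nat_lit 9) (nat_lit 4) (nat_lit 10) (nat_lit 5) (nat_lit 10) (nat_lit 4) (nat_lit 348) (nat_lit 309) (nat_lit 123))) (XT.nd (nat_lit 78) (nat_lit 0) (nat_lit 0) (XT.lf (nat_lit 0) (nat_lit 39029624225) (nat_lit 152) (nat_lit 714835679610)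 (nat_lit 76) (nat_lit 671294680532) (nat_lit 8) (nat_lit 5) (nat_lit 10) (nat_lit 5) (nat_lit 9) (nat_lit 4) (nat_lit 349) (nat_lit 309) (nat_lit 122)) (XT.lf (nat_lit 0) (nat_lit 206413594944) (nat_lit 152) (nat_lit 366677053655) (nat_lit 76) (nat_lit 947913043559) (nat_lit 8) (nat_lit 5) (nat_lit 10) (nat_lit 5) (nat_lit 9) (nat_lit 4) (nat_lit 350) (nat_lit 309) (nat_lit 121)))))) (XT.nd (nat_lit 37596) (nat_lit 0) (nat_lit 2280) (XT.nd (nat_lit 234) (nat_lit 0) (nat_lit 0) (XT.nd (nat_lit 78) (nat_lit 0) (nat_lit 0) (XT.lf (nat_lit 0) (nat_lit 9825754009) (nat_lit 76) (nat_lit 377598820910) (nat_lit 152) (nat_lit 1237071418350) (nat_lit 7) (nat_lit 5) (nat_lit 8) (nat_lit 5) (nat_lit 9) (nat_lit 4) (nat_lit 351) (nat_lit 309) (nat_lit 120)) (XT.nd (nat_lit 78) (nat_lit 0) (nat_lit 0) (XT.lf (nat_lit 0) (nat_lit 437302003674) (nat_lit 76) (nat_lit 155640012629) (nat_lit 152) (nat_lit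 1142523615550) (nat_lit 7) (nat_lit 5) (nat_lit 8) (nat_lit 5) (nat_lit 9) (nat_lit 4) (nat_lit 352) (nat_lit 309) (nat_lit 119)) (XT.lf (nat_lit 0) (nat_lit 816922854334) (nat_lit 152) (nat_lit 958358536234) (nat_lit 0) (nat_lit 79869690867) (nat_lit 7) (nat_lit 5) (nat_lit 9) (nat_lit 4) (nat_lit 7) (nat_lit 4) (nat_lit 353) (nat_lit 309) (nat_lit 118)))) (XT.nd (nat_lit 37206) (nat_lit 0) (nat_lit 2508) (XT.nd (nat_lit 78) (nat_lit 0) (nat_lit 0) (XT.lf (nat_lit 0) (nat_lit 1062864741891) (nat_lit 152) (nat_lit 595411662646) (nat_lit 0) (nat_lit 325811555870) (nat_lit 7) (nat_lit 5) (nat_lit 9) (nat_lit 4) (nat_lit 7) (nat_lit 4) (nat_lit 354) (nat_lit 309) (nat_lit 117)) (XT.lf (nat_lit 0) (nat_lit 1328481966335) (nat_lit 152) (nat_lit 203429065078) (nat_lit 0) (nat_lit 591428759430) (nat_lit 7) (nat_lit 5) (nat_lit 9) (nat_lit 4) (nat_lit 7) (nat_lit 4) (nat_lit 355) (nat_lit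 309) (nat_lit 116))) (XT.nd (nat_lit 78) (nat_lit 0) (nat_lit 0) (XT.lf (nat_lit 0) (nat_lit 46372608829) (nat_lit 532) (nat_lit 24827944037) (nat_lit 532) (nat_lit 24827944037) (nat_lit 40) (nat_lit 3) (nat_lit 47) (nat_lit 3) (nat_lit 47) (nat_lit 5) (nat_lit 310) (nat_lit 310) (nat_lit 160)) (XT.lf (nat_lit 76) (nat_lit 36794082262) (nat_lit 0) (nat_lit 60547441864) (nat_lit 532) (nat_lit 102326822793) (nat_lit 41) (nat_lit 5) (nat_lit 40) (nat_lit 3) (nat_lit 47) (nat_lit 5) (nat_lit 311) (nat_lit 310) (nat_lit 159))))) (XT.nd (nat_lit 234) (nat_lit 304) (nat_lit 0) (XT.nd (nat_lit 78) (nat_lit 0) (nat_lit 0) (XT.lf (nat_lit 0) (nat_lit 104368220775) (nat_lit 456) (nat_lit 75501242143) (nat_lit 532) (nat_lit 27854131190) (nat_lit 41) (nat_lit 5) (nat_lit 47) (nat_lit 5) (nat_lit 48) (nat_lit 5) (nat_lit 312) (nat_lit 310) (nat_lit 158)) (XT.nd (nat_lit 78) (nat_lit 0) (nat_lit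 0) (XT.lf (nat_lit 76) (nat_lit 18199263441) (nat_lit 0) (nat_lit 95767994664) (nat_lit 532) (nat_lit 102295187201) (nat_lit 42) (nat_lit 5) (nat_lit 41) (nat_lit 5) (nat_lit 48) (nat_lit 5) (nat_lit 313) (nat_lit 310) (nat_lit 157)) (XT.lf (nat_lit 76) (nat_lit 123689535746) (nat_lit 0) (nat_lit 2708880530) (nat_lit 532) (nat_lit 98920853083) (nat_lit 42) (nat_lit 5) (nat_lit 41) (nat_lit 5) (nat_lit 48) (nat_lit 5) (nat_lit 314) (nat_lit 310) (nat_lit 156)))) (XT.nd (nat_lit 156) (nat_lit 380) (nat_lit 0) (XT.nd (nat_lit 78) (nat_lit 0) (nat_lit 0) (XT.lf (nat_lit 76) (nat_lit 175076304) (nat_lit 0) (nat_lit 142005044018) (nat_lit 532) (nat_lit 92732035297) (nat_lit 43) (nat_lit 5) (nat_lit 42) (nat_lit 5) (nat_lit 49) (nat_lit 5) (nat_lit 315) (nat_lit 310) (nat_lit 155)) (XT.lf (nat_lit 76) (nat_lit 115829879967) (nat_lit 0) (nat_lit 46241675583) (nat_lit 532) (nat_lit 82973142144)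 (nat_lit 43) (nat_lit 5) (nat_lit 42) (nat_lit 5) (nat_lit 49) (nat_lit 5) (nat_lit 316) (nat_lit 310) (nat_lit 154))) (XT.nd (nat_lit 78) (nat_lit 456) (nat_lit 0) (XT.lf (nat_lit 0) (nat_lit 184929440495) (nat_lit 456) (nat_lit 16626123152) (nat_lit 76) (nat_lit 54322269159) (nat_lit 43) (nat_lit 5) (nat_lit 49) (nat_lit 5) (nat_lit 44) (nat_lit 5) (nat_lit 317) (nat_lit 310) (nat_lit 153)) (XT.lf (nat_lit 0) (nat_lit 109232755698) (nat_lit 456) (nat_lit 104211229799) (nat_lit 532) (nat_lit 53827391320) (nat_lit 37) (nat_lit 5) (nat_lit 43) (nat_lit 5) (nat_lit 44) (nat_lit 5) (nat_lit 318) (nat_lit 310) (nat_lit 152))))))) (XT.nd (nat_lit 1092) (nat_lit 760) (nat_lit 0) (XT.nd (nat_lit 546) (nat_lit 532) (nat_lit 0) (XT.nd (nat_lit 234) (nat_lit 456) (nat_lit 0) (XT.nd (nat_lit 78) (nat_lit 304) (nat_lit 0) (XT.lf (nat_lit 0) (nat_lit 244728132940) (nat_lit 532) (nat_lit 33468198953)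 (nat_lit 76) (nat_lit 1340997747) (nat_lit 37) (nat_lit 5) (nat_lit 44) (nat_lit 5) (nat_lit 38) (nat_lit 5) (nat_lit 319) (nat_lit 310) (nat_lit 151)) (XT.nd (nat_lit 78) (nat_lit 76) (nat_lit 0) (XT.lf (nat_lit 0) (nat_lit 103540494364) (nat_lit 228) (nat_lit 180171363664) (nat_lit 304) (nat_lit 8656953360) (nat_lit 34) (nat_lit 5) (nat_lit 37) (nat_lit 5) (nat_lit 38) (nat_lit 5) (nat_lit 320) (nat_lit 310) (nat_lit 150)) (XT.lf (nat_lit 0) (nat_lit 19546384349) (nat_lit 304) (nat_lit 53235298384) (nat_lit 76) (nat_lit 233332342176) (nat_lit 33) (nat_lit 5) (nat_lit 37) (nat_lit 5) (nat_lit 34) (nat_lit 5) (nat_lit 321) (nat_lit 310) (nat_lit 149)))) (XT.nd (nat_lit 156) (nat_lit 228) (nat_lit 0) (XT.nd (nat_lit 78) (nat_lit 0) (nat_lit 0) (XT.lf (nat_lit 0) (nat_lit 52998058597) (nat_lit 304) (nat_lit 223982090583) (nat_lit 76) (nat_lit 43683936559) (nat_lit 30) (nat_lit 5) (nat_lit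 34) (nat_lit 5) (nat_lit 31) (nat_lit 5) (nat_lit 322) (nat_lit 310) (nat_lit 148)) (XT.lf (nat_lit 0) (nat_lit 92509575619) (nat_lit 304) (nat_lit 76569828651) (nat_lit 76) (nat_lit 167028050731) (nat_lit 30) (nat_lit 5) (nat_lit 34) (nat_lit 5) (nat_lit 31) (nat_lit 5) (nat_lit 323) (nat_lit 310) (nat_lit 147))) (XT.nd (nat_lit 78) (nat_lit 0) (nat_lit 0) (XT.lf (nat_lit 0) (nat_lit 86986759003) (nat_lit 228) (nat_lit 50287216135) (nat_lit 304) (nat_lit 215344962026) (nat_lit 27) (nat_lit 5) (nat_lit 30) (nat_lit 5) (nat_lit 31) (nat_lit 5) (nat_lit 324) (nat_lit 310) (nat_lit 146)) (XT.lf (nat_lit 0) (nat_lit 189643492628) (nat_lit 304) (nat_lit 104231955000) (nat_lit 76) (nat_lit 76253973223) (nat_lit 27) (nat_lit 5) (nat_lit 31) (nat_lit 5) (nat_lit 28) (nat_lit 5) (nat_lit 325) (nat_lit 310) (nat_lit 145))))) (XT.nd (nat_lit 234) (nat_lit 228) (nat_lit 0) (XT.nd (nat_lit 78)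 (nat_lit 152) (nat_lit 0) (XT.lf (nat_lit 0) (nat_lit 72395561831) (nat_lit 152) (nat_lit 176854221823) (nat_lit 228) (nat_lit 139547182824) (nat_lit 25) (nat_lit 5) (nat_lit 27) (nat_lit 5) (nat_lit 28) (nat_lit 5) (nat_lit 326) (nat_lit 310) (nat_lit 144)) (XT.nd (nat_lit 78) (nat_lit 152) (nat_lit 0) (XT.lf (nat_lit 0) (nat_lit 269080963789) (nat_lit 152) (nat_lit 47393439056) (nat_lit 228) (nat_lit 92255527117) (nat_lit 25) (nat_lit 5) (nat_lit 27) (nat_lit 5) (nat_lit 28) (nat_lit 5) (nat_lit 327) (nat_lit 310) (nat_lit 143)) (XT.lf (nat_lit 0) (nat_lit 51602132370) (nat_lit 152) (nat_lit 340938638777) (nat_lit 228) (nat_lit 37439657198) (nat_lit 23) (nat_lit 5) (nat_lit 25) (nat_lit 5) (nat_lit 26) (nat_lit 5) (nat_lit 328) (nat_lit 310) (nat_lit 142)))) (XT.nd (nat_lit 156) (nat_lit 0) (nat_lit 0) (XT.nd (nat_lit 78) (nat_lit 152) (nat_lit 0) (XT.lf (nat_lit 0) (nat_lit 25821252284)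 (nat_lit 228) (nat_lit 188383844681) (nat_lit 76) (nat_lit 238272131262) (nat_lit 22) (nat_lit 5) (nat_lit 25) (nat_lit 5) (nat_lit 23) (nat_lit 5) (nat_lit 329) (nat_lit 310) (nat_lit 141)) (XT.lf (nat_lit 0) (nat_lit 16671612104) (nat_lit 152) (nat_lit 75849608819) (nat_lit 228) (nat_lit 384142682604) (nat_lit 20) (nat_lit 5) (nat_lit 22) (nat_lit 5) (nat_lit 23) (nat_lit 5) (nat_lit 330) (nat_lit 310) (nat_lit 140))) (XT.nd (nat_lit 78) (nat_lit 0) (nat_lit 0) (XT.lf (nat_lit 0) (nat_lit 171611134315) (nat_lit 228) (nat_lit 255431716501) (nat_lit 76) (nat_lit 75178346390) (nat_lit 20) (nat_lit 5) (nat_lit 23) (nat_lit 5) (nat_lit 21) (nat_lit 5) (nat_lit 331) (nat_lit 310) (nat_lit 139)) (XT.lf (nat_lit 0) (nat_lit 258998313552) (nat_lit 228) (nat_lit 36476485026) (nat_lit 76) (nat_lit 234190670105) (nat_lit 20) (nat_lit 5) (nat_lit 23) (nat_lit 5) (nat_lit 21) (nat_lit 5) (nat_lit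 332) (nat_lit 310) (nat_lit 138)))))) (XT.nd (nat_lit 546) (nat_lit 304) (nat_lit 0) (XT.nd (nat_lit 234) (nat_lit 228) (nat_lit 0) (XT.nd (nat_lit 78) (nat_lit 76) (nat_lit 0) (XT.lf (nat_lit 0) (nat_lit 210526487963) (nat_lit 152) (nat_lit 147913102803) (nat_lit 228) (nat_lit 200460641337) (nat_lit 18) (nat_lit 5) (nat_lit 20) (nat_lit 5) (nat_lit 21) (nat_lit 5) (nat_lit 333) (nat_lit 310) (nat_lit 137)) (XT.nd (nat_lit 78) (nat_lit 76) (nat_lit 0) (XT.lf (nat_lit 0) (nat_lit 467134821998) (nat_lit 228) (nat_lit 111331269473) (nat_lit 76) (nat_lit 11903793087) (nat_lit 18) (nat_lit 5) (nat_lit 21) (nat_lit 5) (nat_lit 19) (nat_lit 4) (nat_lit 334) (nat_lit 310) (nat_lit 136)) (XT.lf (nat_lit 0) (nat_lit 148248640827) (nat_lit 76) (nat_lit 443684273920) (nat_lit 152) (nat_lit 31831615120) (nat_lit 17) (nat_lit 5) (nat_lit 18) (nat_lit 5) (nat_lit 19) (nat_lit 4) (nat_lit 335) (nat_lit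 310) (nat_lit 135)))) (XT.nd (nat_lit 156) (nat_lit 0) (nat_lit 0) (XT.nd (nat_lit 78) (nat_lit 152) (nat_lit 0) (XT.lf (nat_lit 0) (nat_lit 66661314402) (nat_lit 152) (nat_lit 226348466136) (nat_lit 76) (nat_lit 366442439574) (nat_lit 16) (nat_lit 5) (nat_lit 18) (nat_lit 5) (nat_lit 17) (nat_lit 5) (nat_lit 336) (nat_lit 310) (nat_lit 134)) (XT.lf (nat_lit 0) (nat_lit 44133220836) (nat_lit 152) (nat_lit 128242092601) (nat_lit 228) (nat_lit 525468559071) (nat_lit 14) (nat_lit 5) (nat_lit 16) (nat_lit 5) (nat_lit 17) (nat_lit 5) (nat_lit 337) (nat_lit 310) (nat_lit 133))) (XT.nd (nat_lit 78) (nat_lit 0) (nat_lit 0) (XT.lf (nat_lit 0) (nat_lit 294091367558) (nat_lit 228) (nat_lit 391041934962) (nat_lit 76) (nat_lit 53569959836) (nat_lit 14) (nat_lit 5) (nat_lit 17) (nat_lit 5) (nat_lit 15) (nat_lit 4) (nat_lit 338) (nat_lit 310) (nat_lit 132)) (XT.lf (nat_lit 0) (nat_lit 428875637003)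 (nat_lit 228) (nat_lit 110690737969) (nat_lit 76) (nat_lit 242998554008) (nat_lit 14) (nat_lit 5) (nat_lit 17) (nat_lit 5) (nat_lit 15) (nat_lit 4) (nat_lit 339) (nat_lit 310) (nat_lit 131))))) (XT.nd (nat_lit 234) (nat_lit 228) (nat_lit 0) (XT.nd (nat_lit 78) (nat_lit 0) (nat_lit 0) (XT.lf (nat_lit 0) (nat_lit 202203545415) (nat_lit 76) (nat_lit 377102072671) (nat_lit 152) (nat_lit 250240873303) (nat_lit 13) (nat_lit 5) (nat_lit 14) (nat_lit 5) (nat_lit 15) (nat_lit 4) (nat_lit 340) (nat_lit 310) (nat_lit 130)) (XT.nd (nat_lit 78) (nat_lit 0) (nat_lit 0) (XT.lf (nat_lit 0) (nat_lit 546424403436) (nat_lit 76) (nat_lit 198372046173) (nat_lit 152) (nat_lit 135248013085) (nat_lit 13) (nat_lit 5) (nat_lit 14) (nat_lit 5) (nat_lit 15) (nat_lit 4) (nat_lit 341) (nat_lit 310) (nat_lit 129)) (XT.lf (nat_lit 0) (nat_lit 918182885300) (nat_lit 76) (nat_lit 5343635515) (nat_lit 152) (nat_lit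 11055753088) (nat_lit 13) (nat_lit 5) (nat_lit 14) (nat_lit 5) (nat_lit 15) (nat_lit 4) (nat_lit 342) (nat_lit 310) (nat_lit 128)))) (XT.nd (nat_lit 156) (nat_lit 76) (nat_lit 0) (XT.nd (nat_lit 78) (nat_lit 0) (nat_lit 0) (XT.lf (nat_lit 0) (nat_lit 130273216386) (nat_lit 152) (nat_lit 657506098189) (nat_lit 76) (nat_lit 204398374296) (nat_lit 11) (nat_lit 5) (nat_lit 13) (nat_lit 5) (nat_lit 12) (nat_lit 4) (nat_lit 343) (nat_lit 310) (nat_lit 127)) (XT.lf (nat_lit 0) (nat_lit 282910011048) (nat_lit 152) (nat_lit 340021617882) (nat_lit 76) (nat_lit 431378230720) (nat_lit 11) (nat_lit 5) (nat_lit 13) (nat_lit 5) (nat_lit 12) (nat_lit 4) (nat_lit 344) (nat_lit 310) (nat_lit 126))) (XT.nd (nat_lit 78) (nat_lit 0) (nat_lit 0) (XT.lf (nat_lit 0) (nat_lit 3012266442) (nat_lit 76) (nat_lit 444817904710) (nat_lit 152) (nat_lit 673576639228) (nat_lit 10) (nat_lit 5) (nat_lit 11) (nat_lit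 5) (nat_lit 12) (nat_lit 4) (nat_lit 345) (nat_lit 310) (nat_lit 125)) (XT.lf (nat_lit 0) (nat_lit 392826153048) (nat_lit 76) (nat_lit 242414562186) (nat_lit 152) (nat_lit 557887060277) (nat_lit 10) (nat_lit 5) (nat_lit 11) (nat_lit 5) (nat_lit 12) (nat_lit 4) (nat_lit 346) (nat_lit 310) (nat_lit 124))))))))
noncomputable def xc117 : XT := (XT.nd (nat_lit 39390) (nat_lit 0) (nat_lit 0) (XT.nd (nat_lit 38298) (nat_lit 0) (nat_lit 1140) (XT.nd (nat_lit 546) (nat_lit 0) (nat_lit 0) (XT.nd (nat_lit 234) (nat_lit 152) (nat_lit 0) (XT.nd (nat_lit 78) (nat_lit 76) (nat_lit 0) (XT.lf (nat_lit 0) (nat_lit 813825114326) (nat_lit 76) (nat_lit 23818967747) (nat_lit 152) (nat_lit 432942337477) (nat_lit 10) (nat_lit 5) (nat_lit 11) (nat_lit 5) (nat_lit 12) (nat_lit 4) (nat_lit 347) (nat_lit 310) (nat_lit 123)) (XT.nd (nat_lit 78) (nat_lit 76) (nat_lit 0) (XT.lf (nat_lit 0) (nat_lit 1061344659582)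 (nat_lit 152) (nat_lit 90842758304) (nat_lit 0) (nat_lit 201645941951) (nat_lit 10) (nat_lit 5) (nat_lit 12) (nat_lit 4) (nat_lit 10) (nat_lit 4) (nat_lit 348) (nat_lit 310) (nat_lit 122)) (XT.lf (nat_lit 0) (nat_lit 319724478994) (nat_lit 76) (nat_lit 991524842065) (nat_lit 76) (nat_lit 131826091295) (nat_lit 9) (nat_lit 4) (nat_lit 10) (nat_lit 5) (nat_lit 10) (nat_lit 4) (nat_lit 349) (nat_lit 310) (nat_lit 121)))) (XT.nd (nat_lit 156) (nat_lit 76) (nat_lit 0) (XT.nd (nat_lit 78) (nat_lit 0) (nat_lit 0) (XT.lf (nat_lit 0) (nat_lit 42152345745) (nat_lit 152) (nat_lit 772021902305) (nat_lit 76) (nat_lit 724998506454) (nat_lit 8) (nat_lit 5) (nat_lit 10) (nat_lit 5) (nat_lit 9) (nat_lit 4) (nat_lit 350) (nat_lit 310) (nat_lit 120)) (XT.lf (nat_lit 0) (nat_lit 222927008078) (nat_lit 152) (nat_lit 396010633064) (nat_lit 76) (nat_lit 1023746319896) (nat_lit 8) (nat_lit 5) (nat_lit 10)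 (nat_lit 5) (nat_lit 9) (nat_lit 4) (nat_lit 351) (nat_lit 310) (nat_lit 119))) (XT.nd (nat_lit 78) (nat_lit 0) (nat_lit 0) (XT.lf (nat_lit 0) (nat_lit 10612384406) (nat_lit 76) (nat_lit 407806471642) (nat_lit 152) (nat_lit 1336036791056) (nat_lit 7) (nat_lit 5) (nat_lit 8) (nat_lit 5) (nat_lit 9) (nat_lit 4) (nat_lit 352) (nat_lit 310) (nat_lit 118)) (XT.lf (nat_lit 0) (nat_lit 472286691816) (nat_lit 76) (nat_lit 168090977582) (nat_lit 152) (nat_lit 1233925189273) (nat_lit 7) (nat_lit 5) (nat_lit 8) (nat_lit 5) (nat_lit 9) (nat_lit 4) (nat_lit 353) (nat_lit 310) (nat_lit 117))))) (XT.nd (nat_lit 37440) (nat_lit 0) (nat_lit 2584) (XT.nd (nat_lit 37284) (nat_lit 0) (nat_lit 2508) (XT.lf (nat_lit 0) (nat_lit 882276958114) (nat_lit 152) (nat_lit 1035026713669) (nat_lit 0) (nat_lit 86259473774) (nat_lit 7) (nat_lit 5) (nat_lit 9) (nat_lit 4) (nat_lit 7) (nat_lit 4) (nat_lit 354) (nat_lit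 310) (nat_lit 116)) (XT.nd (nat_lit 78) (nat_lit 0) (nat_lit 0) (XT.lf (nat_lit 0) (nat_lit 50083978273) (nat_lit 532) (nat_lit 26813333434) (nat_lit 532) (nat_lit 26813333434) (nat_lit 40) (nat_lit 3) (nat_lit 47) (nat_lit 3) (nat_lit 47) (nat_lit 5) (nat_lit 311) (nat_lit 311) (nat_lit 158)) (XT.lf (nat_lit 76) (nat_lit 39739258254) (nat_lit 0) (nat_lit 65392517724) (nat_lit 532) (nat_lit 110509791972) (nat_lit 41) (nat_lit 5) (nat_lit 40) (nat_lit 3) (nat_lit 47) (nat_lit 5) (nat_lit 312) (nat_lit 311) (nat_lit 157)))) (XT.nd (nat_lit 156) (nat_lit 0) (nat_lit 0) (XT.nd (nat_lit 78) (nat_lit 0) (nat_lit 0) (XT.lf (nat_lit 0) (nat_lit 112720362812) (nat_lit 456) (nat_lit 81539557320) (nat_lit 532) (nat_lit 30081335339) (nat_lit 41) (nat_lit 5) (nat_lit 47) (nat_lit 5) (nat_lit 48) (nat_lit 5) (nat_lit 313) (nat_lit 311) (nat_lit 156)) (XT.lf (nat_lit 76) (nat_lit 19656943541) (nat_lit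 0) (nat_lit 103430222570) (nat_lit 532) (nat_lit 110476062063) (nat_lit 42) (nat_lit 5) (nat_lit 41) (nat_lit 5) (nat_lit 48) (nat_lit 5) (nat_lit 314) (nat_lit 311) (nat_lit 155))) (XT.nd (nat_lit 78) (nat_lit 0) (nat_lit 76) (XT.lf (nat_lit 76) (nat_lit 133586308813) (nat_lit 0) (nat_lit 2926320910) (nat_lit 532) (nat_lit 106831984187) (nat_lit 42) (nat_lit 5) (nat_lit 41) (nat_lit 5) (nat_lit 48) (nat_lit 5) (nat_lit 315) (nat_lit 311) (nat_lit 154)) (XT.lf (nat_lit 76) (nat_lit 190860973) (nat_lit 0) (nat_lit 153365862296) (nat_lit 532) (nat_lit 100148220273) (nat_lit 43) (nat_lit 5) (nat_lit 42) (nat_lit 5) (nat_lit 49) (nat_lit 5) (nat_lit 316) (nat_lit 311) (nat_lit 153)))))) (XT.nd (nat_lit 546) (nat_lit 608) (nat_lit 0) (XT.nd (nat_lit 234) (nat_lit 532) (nat_lit 0) (XT.nd (nat_lit 78) (nat_lit 380) (nat_lit 0) (XT.lf (nat_lit 76) (nat_lit 125097917184) (nat_lit 0) (nat_lit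 49941393663) (nat_lit 532) (nat_lit 89608791804) (nat_lit 43) (nat_lit 5) (nat_lit 42) (nat_lit 5) (nat_lit 49) (nat_lit 5) (nat_lit 317) (nat_lit 311) (nat_lit 152)) (XT.nd (nat_lit 78) (nat_lit 456) (nat_lit 0) (XT.lf (nat_lit 0) (nat_lit 199725667602) (nat_lit 456) (nat_lit 17954521418) (nat_lit 76) (nat_lit 58667712893) (nat_lit 43) (nat_lit 5) (nat_lit 49) (nat_lit 5) (nat_lit 44) (nat_lit 5) (nat_lit 318) (nat_lit 311) (nat_lit 151)) (XT.lf (nat_lit 0) (nat_lit 117973024915) (nat_lit 456) (nat_lit 112548252284) (nat_lit 532) (nat_lit 58131660740) (nat_lit 37) (nat_lit 5) (nat_lit 43) (nat_lit 5) (nat_lit 44) (nat_lit 5) (nat_lit 319) (nat_lit 311) (nat_lit 150)))) (XT.nd (nat_lit 156) (nat_lit 304) (nat_lit 0) (XT.nd (nat_lit 78) (nat_lit 228) (nat_lit 0) (XT.lf (nat_lit 0) (nat_lit 264308022351) (nat_lit 532) (nat_lit 36143987491) (nat_lit 76) (nat_lit 1448168406) (nat_lit 37)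 (nat_lit 5) (nat_lit 44) (nat_lit 5) (nat_lit 38) (nat_lit 5) (nat_lit 320) (nat_lit 311) (nat_lit 149)) (XT.lf (nat_lit 0) (nat_lit 111825359080) (nat_lit 228) (nat_lit 194585004062) (nat_lit 304) (nat_lit 9347822473) (nat_lit 34) (nat_lit 5) (nat_lit 37) (nat_lit 5) (nat_lit 38) (nat_lit 5) (nat_lit 321) (nat_lit 311) (nat_lit 148))) (XT.nd (nat_lit 78) (nat_lit 228) (nat_lit 0) (XT.lf (nat_lit 0) (nat_lit 21111579131) (nat_lit 304) (nat_lit 57492534037) (nat_lit 76) (nat_lit 251998909724) (nat_lit 33) (nat_lit 5) (nat_lit 37) (nat_lit 5) (nat_lit 34) (nat_lit 5) (nat_lit 322) (nat_lit 311) (nat_lit 147)) (XT.lf (nat_lit 0) (nat_lit 57239317908) (nat_lit 304) (nat_lit 241898995305) (nat_lit 76) (nat_lit 47178781321) (nat_lit 30) (nat_lit 5) (nat_lit 34) (nat_lit 5) (nat_lit 31) (nat_lit 5) (nat_lit 323) (nat_lit 311) (nat_lit 146))))) (XT.nd (nat_lit 234) (nat_lit 380) (nat_lit 0)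 (XT.nd (nat_lit 78) (nat_lit 228) (nat_lit 0) (XT.lf (nat_lit 0) (nat_lit 99911651504) (nat_lit 304) (nat_lit 82693875568) (nat_lit 76) (nat_lit 180390415009) (nat_lit 30) (nat_lit 5) (nat_lit 34) (nat_lit 5) (nat_lit 31) (nat_lit 5) (nat_lit 324) (nat_lit 311) (nat_lit 145)) (XT.nd (nat_lit 78) (nat_lit 0) (nat_lit 0) (XT.lf (nat_lit 0) (nat_lit 93947200127) (nat_lit 228) (nat_lit 54309941918) (nat_lit 304) (nat_lit 232571205983) (nat_lit 27) (nat_lit 5) (nat_lit 30) (nat_lit 5) (nat_lit 31) (nat_lit 5) (nat_lit 325) (nat_lit 311) (nat_lit 144)) (XT.lf (nat_lit 0) (nat_lit 204816134024) (nat_lit 304) (nat_lit 112569031340) (nat_lit 76) (nat_lit 82354512309) (nat_lit 27) (nat_lit 5) (nat_lit 31) (nat_lit 5) (nat_lit 28) (nat_lit 5) (nat_lit 326) (nat_lit 311) (nat_lit 143)))) (XT.nd (nat_lit 156) (nat_lit 228) (nat_lit 0) (XT.nd (nat_lit 78) (nat_lit 0) (nat_lit 0) (XT.lf (nat_lit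 0) (nat_lit 78188649367) (nat_lit 152) (nat_lit 191002227586) (nat_lit 228) (nat_lit 150709754396) (nat_lit 25) (nat_lit 5) (nat_lit 27) (nat_lit 5) (nat_lit 28) (nat_lit 5) (nat_lit 327) (nat_lit 311) (nat_lit 142)) (XT.lf (nat_lit 0) (nat_lit 290608776623) (nat_lit 152) (nat_lit 51184606790) (nat_lit 228) (nat_lit 99634855348) (nat_lit 25) (nat_lit 5) (nat_lit 27) (nat_lit 5) (nat_lit 28) (nat_lit 5) (nat_lit 328) (nat_lit 311) (nat_lit 141))) (XT.nd (nat_lit 78) (nat_lit 76) (nat_lit 0) (XT.lf (nat_lit 0) (nat_lit 55731681101) (nat_lit 152) (nat_lit 368213343894) (nat_lit 228) (nat_lit 40433755160) (nat_lit 23) (nat_lit 5) (nat_lit 25) (nat_lit 5) (nat_lit 26) (nat_lit 5) (nat_lit 329) (nat_lit 311) (nat_lit 140)) (XT.lf (nat_lit 0) (nat_lit 27887897704) (nat_lit 228) (nat_lit 203453223780) (nat_lit 76) (nat_lit 257334206737) (nat_lit 22) (nat_lit 5) (nat_lit 25) (nat_lit 5) (nat_lit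 23) (nat_lit 5) (nat_lit 330) (nat_lit 311) (nat_lit 139))))))) (XT.nd (nat_lit 1092) (nat_lit 304) (nat_lit 0) (XT.nd (nat_lit 546) (nat_lit 380) (nat_lit 0) (XT.nd (nat_lit 234) (nat_lit 304) (nat_lit 0) (XT.nd (nat_lit 78) (nat_lit 0) (nat_lit 0) (XT.lf (nat_lit 0) (nat_lit 18006635916) (nat_lit 152) (nat_lit 81917189042) (nat_lit 228) (nat_lit 414873115893) (nat_lit 20) (nat_lit 5) (nat_lit 22) (nat_lit 5) (nat_lit 23) (nat_lit 5) (nat_lit 331) (nat_lit 311) (nat_lit 138)) (XT.nd (nat_lit 78) (nat_lit 0) (nat_lit 0) (XT.lf (nat_lit 0) (nat_lit 185340872935) (nat_lit 228) (nat_lit 275864994137) (nat_lit 76) (nat_lit 81192955813) (nat_lit 20) (nat_lit 5) (nat_lit 23) (nat_lit 5) (nat_lit 21) (nat_lit 5) (nat_lit 332) (nat_lit 311) (nat_lit 137)) (XT.lf (nat_lit 0) (nat_lit 279718963705) (nat_lit 228) (nat_lit 39393437454) (nat_lit 76) (nat_lit 252926240113) (nat_lit 20) (nat_lit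 5) (nat_lit 23) (nat_lit 5) (nat_lit 21) (nat_lit 5) (nat_lit 333) (nat_lit 311) (nat_lit 136)))) (XT.nd (nat_lit 156) (nat_lit 152) (nat_lit 0) (XT.nd (nat_lit 78) (nat_lit 0) (nat_lit 0) (XT.lf (nat_lit 0) (nat_lit 227369743846) (nat_lit 152) (nat_lit 159745768439) (nat_lit 228) (nat_lit 216496676103) (nat_lit 18) (nat_lit 5) (nat_lit 20) (nat_lit 5) (nat_lit 21) (nat_lit 5) (nat_lit 334) (nat_lit 311) (nat_lit 135)) (XT.lf (nat_lit 0) (nat_lit 504506314664) (nat_lit 228) (nat_lit 120236669244) (nat_lit 76) (nat_lit 12856433062) (nat_lit 18) (nat_lit 5) (nat_lit 21) (nat_lit 5) (nat_lit 19) (nat_lit 4) (nat_lit 335) (nat_lit 311) (nat_lit 134))) (XT.nd (nat_lit 78) (nat_lit 76) (nat_lit 0) (XT.lf (nat_lit 0) (nat_lit 160109605986) (nat_lit 76) (nat_lit 479178622310) (nat_lit 152) (nat_lit 34377407864) (nat_lit 17) (nat_lit 5) (nat_lit 18) (nat_lit 5) (nat_lit 19) (nat_lit 4) (nat_lit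 336) (nat_lit 311) (nat_lit 133)) (XT.lf (nat_lit 0) (nat_lit 71994867355) (nat_lit 152) (nat_lit 244455313541) (nat_lit 76) (nat_lit 395758163573) (nat_lit 16) (nat_lit 5) (nat_lit 18) (nat_lit 5) (nat_lit 17) (nat_lit 5) (nat_lit 337) (nat_lit 311) (nat_lit 132))))) (XT.nd (nat_lit 234) (nat_lit 228) (nat_lit 0) (XT.nd (nat_lit 78) (nat_lit 0) (nat_lit 0) (XT.lf (nat_lit 0) (nat_lit 47664882317) (nat_lit 152) (nat_lit 138501080153) (nat_lit 228) (nat_lit 567505368600) (nat_lit 14) (nat_lit 5) (nat_lit 16) (nat_lit 5) (nat_lit 17) (nat_lit 5) (nat_lit 338) (nat_lit 311) (nat_lit 131)) (XT.nd (nat_lit 78) (nat_lit 0) (nat_lit 0) (XT.lf (nat_lit 0) (nat_lit 317619263160) (nat_lit 228) (nat_lit 422324321316) (nat_lit 76) (nat_lit 57855890747) (nat_lit 14) (nat_lit 5) (nat_lit 17) (nat_lit 5) (nat_lit 15) (nat_lit 4) (nat_lit 339) (nat_lit 311) (nat_lit 130)) (XT.lf (nat_lit 0) (nat_lit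 463186230738) (nat_lit 228) (nat_lit 119545100300) (nat_lit 76) (nat_lit 262438747703) (nat_lit 14) (nat_lit 5) (nat_lit 17) (nat_lit 5) (nat_lit 15) (nat_lit 4) (nat_lit 340) (nat_lit 311) (nat_lit 129)))) (XT.nd (nat_lit 156) (nat_lit 152) (nat_lit 0) (XT.nd (nat_lit 78) (nat_lit 0) (nat_lit 0) (XT.lf (nat_lit 0) (nat_lit 218380703052) (nat_lit 76) (nat_lit 407269888070) (nat_lit 152) (nat_lit 270259576641) (nat_lit 13) (nat_lit 5) (nat_lit 14) (nat_lit 5) (nat_lit 15) (nat_lit 4) (nat_lit 341) (nat_lit 311) (nat_lit 128)) (XT.lf (nat_lit 0) (nat_lit 590139164974) (nat_lit 76) (nat_lit 214241485408) (nat_lit 152) (nat_lit 146067329570) (nat_lit 13) (nat_lit 5) (nat_lit 14) (nat_lit 5) (nat_lit 15) (nat_lit 4) (nat_lit 342) (nat_lit 311) (nat_lit 127))) (XT.nd (nat_lit 78) (nat_lit 152) (nat_lit 0) (XT.lf (nat_lit 0) (nat_lit 991638265441) (nat_lit 76) (nat_lit 5770825932) (nat_lit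 152) (nat_lit 11939727630) (nat_lit 13) (nat_lit 5) (nat_lit 14) (nat_lit 5) (nat_lit 15) (nat_lit 4) (nat_lit 343) (nat_lit 311) (nat_lit 126)) (XT.lf (nat_lit 0) (nat_lit 140695526523) (nat_lit 152) (nat_lit 710105802242) (nat_lit 76) (nat_lit 220750538217) (nat_lit 11) (nat_lit 5) (nat_lit 13) (nat_lit 5) (nat_lit 12) (nat_lit 4) (nat_lit 344) (nat_lit 311) (nat_lit 125)))))) (XT.nd (nat_lit 546) (nat_lit 76) (nat_lit 0) (XT.nd (nat_lit 234) (nat_lit 152) (nat_lit 0) (XT.nd (nat_lit 78) (nat_lit 76) (nat_lit 0) (XT.lf (nat_lit 0) (nat_lit 305543231215) (nat_lit 152) (nat_lit 367222621569) (nat_lit 76) (nat_lit 465888761380) (nat_lit 11) (nat_lit 5) (nat_lit 13) (nat_lit 5) (nat_lit 12) (nat_lit 4) (nat_lit 345) (nat_lit 311) (nat_lit 124)) (XT.nd (nat_lit 78) (nat_lit 0) (nat_lit 0) (XT.lf (nat_lit 0) (nat_lit 3253955127) (nat_lit 76) (nat_lit 480403034955) (nat_lit 152) (nat_lit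 727462332047) (nat_lit 10) (nat_lit 5) (nat_lit 11) (nat_lit 5) (nat_lit 12) (nat_lit 4) (nat_lit 346) (nat_lit 311) (nat_lit 123)) (XT.lf (nat_lit 0) (nat_lit 424252900264) (nat_lit 76) (nat_lit 261807447409) (nat_lit 152) (nat_lit 602517619249) (nat_lit 10) (nat_lit 5) (nat_lit 11) (nat_lit 5) (nat_lit 12) (nat_lit 4) (nat_lit 347) (nat_lit 311) (nat_lit 122)))) (XT.nd (nat_lit 156) (nat_lit 152) (nat_lit 0) (XT.nd (nat_lit 78) (nat_lit 0) (nat_lit 0) (XT.lf (nat_lit 0) (nat_lit 878931729927) (nat_lit 76) (nat_lit 25724226138) (nat_lit 152) (nat_lit 467577348688) (nat_lit 10) (nat_lit 5) (nat_lit 11) (nat_lit 5) (nat_lit 12) (nat_lit 4) (nat_lit 348) (nat_lit 311) (nat_lit 121)) (XT.lf (nat_lit 0) (nat_lit 1146252559808) (nat_lit 152) (nat_lit 98109596943) (nat_lit 0) (nat_lit 217777845151) (nat_lit 10) (nat_lit 5) (nat_lit 12) (nat_lit 4) (nat_lit 10) (nat_lit 4) (nat_lit 349) (nat_lit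 311) (nat_lit 120))) (XT.nd (nat_lit 78) (nat_lit 76) (nat_lit 0) (XT.lf (nat_lit 0) (nat_lit 345303004604) (nat_lit 76) (nat_lit 1070846578986) (nat_lit 76) (nat_lit 142371835918) (nat_lit 9) (nat_lit 4) (nat_lit 10) (nat_lit 5) (nat_lit 10) (nat_lit 4) (nat_lit 350) (nat_lit 311) (nat_lit 119)) (XT.lf (nat_lit 0) (nat_lit 45524834829) (nat_lit 152) (nat_lit 833783112931) (nat_lit 76) (nat_lit 782998602574) (nat_lit 8) (nat_lit 5) (nat_lit 10) (nat_lit 5) (nat_lit 9) (nat_lit 4) (nat_lit 351) (nat_lit 311) (nat_lit 118))))) (XT.nd (nat_lit 37596) (nat_lit 0) (nat_lit 2508) (XT.nd (nat_lit 156) (nat_lit 0) (nat_lit 0) (XT.nd (nat_lit 78) (nat_lit 76) (nat_lit 0) (XT.lf (nat_lit 0) (nat_lit 240761447821) (nat_lit 152) (nat_lit 427690982266) (nat_lit 76) (nat_lit 1105646225120) (nat_lit 8) (nat_lit 5) (nat_lit 10) (nat_lit 5) (nat_lit 9) (nat_lit 4) (nat_lit 352) (nat_lit 311) (nat_lit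 117)) (XT.lf (nat_lit 0) (nat_lit 11461863907) (nat_lit 76) (nat_lit 440430770802) (nat_lit 152) (nat_lit 1442919442191) (nat_lit 7) (nat_lit 5) (nat_lit 8) (nat_lit 5) (nat_lit 9) (nat_lit 4) (nat_lit 353) (nat_lit 311) (nat_lit 116))) (XT.nd (nat_lit 37362) (nat_lit 0) (nat_lit 2508) (XT.lf (nat_lit 0) (nat_lit 510070079706) (nat_lit 76) (nat_lit 181538053408) (nat_lit 152) (nat_lit 1332638933907) (nat_lit 7) (nat_lit 5) (nat_lit 8) (nat_lit 5) (nat_lit 9) (nat_lit 4) (nat_lit 354) (nat_lit 311) (nat_lit 115)) (XT.lf (nat_lit 0) (nat_lit 54092034615) (nat_lit 532) (nat_lit 28957674691) (nat_lit 532) (nat_lit 28957674691) (nat_lit 40) (nat_lit 3) (nat_lit 47) (nat_lit 3) (nat_lit 47) (nat_lit 5) (nat_lit 312) (nat_lit 312) (nat_lit 156)))) (XT.nd (nat_lit 156) (nat_lit 0) (nat_lit 76) (XT.nd (nat_lit 78) (nat_lit 0) (nat_lit 76) (XT.lf (nat_lit 76) (nat_lit 42919813019) (nat_lit 0)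 (nat_lit 70625016973) (nat_lit 532) (nat_lit 119347851870) (nat_lit 41) (nat_lit 5) (nat_lit 40) (nat_lit 3) (nat_lit 47) (nat_lit 5) (nat_lit 313) (nat_lit 312) (nat_lit 155)) (XT.lf (nat_lit 0) (nat_lit 121740293257) (nat_lit 456) (nat_lit 88061192247) (nat_lit 532) (nat_lit 32486876505) (nat_lit 41) (nat_lit 5) (nat_lit 47) (nat_lit 5) (nat_lit 48) (nat_lit 5) (nat_lit 314) (nat_lit 312) (nat_lit 154))) (XT.nd (nat_lit 78) (nat_lit 0) (nat_lit 0) (XT.lf (nat_lit 76) (nat_lit 21230989958) (nat_lit 0) (nat_lit 111705316243) (nat_lit 532) (nat_lit 119311797821) (nat_lit 42) (nat_lit 5) (nat_lit 41) (nat_lit 5) (nat_lit 48) (nat_lit 5) (nat_lit 315) (nat_lit 312) (nat_lit 153)) (XT.lf (nat_lit 76) (nat_lit 144274594012) (nat_lit 0) (nat_lit 3161052386) (nat_lit 532) (nat_lit 115376367730) (nat_lit 42) (nat_lit 5) (nat_lit 41) (nat_lit 5) (nat_lit 48) (nat_lit 5) (nat_lit 316) (nat_lit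 312) (nat_lit 152))))))))
noncomputable def xc118 : XT := (XT.nd (nat_lit 2184) (nat_lit 456) (nat_lit 0) (XT.nd (nat_lit 1092) (nat_lit 760) (nat_lit 0) (XT.nd (nat_lit 546) (nat_lit 760) (nat_lit 0) (XT.nd (nat_lit 234) (nat_lit 684) (nat_lit 0) (XT.nd (nat_lit 78) (nat_lit 0) (nat_lit 0) (XT.lf (nat_lit 76) (nat_lit 207654683) (nat_lit 0) (nat_lit 165635486867) (nat_lit 532) (nat_lit 108158039273) (nat_lit 43) (nat_lit 5) (nat_lit 42) (nat_lit 5) (nat_lit 49) (nat_lit 5) (nat_lit 317) (nat_lit 312) (nat_lit 151)) (XT.nd (nat_lit 78) (nat_lit 0) (nat_lit 76) (XT.lf (nat_lit 76) (nat_lit 135107162440) (nat_lit 0) (nat_lit 53937034403) (nat_lit 532) (nat_lit 96775607536) (nat_lit 43) (nat_lit 5) (nat_lit 42) (nat_lit 5) (nat_lit 49) (nat_lit 5) (nat_lit 318) (nat_lit 312) (nat_lit 150)) (XT.lf (nat_lit 0) (nat_lit 215705325834) (nat_lit 456) (nat_lit 19389432868) (nat_lit 76) (nat_lit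 63360840317) (nat_lit 43) (nat_lit 5) (nat_lit 49) (nat_lit 5) (nat_lit 44) (nat_lit 5) (nat_lit 319) (nat_lit 312) (nat_lit 149)))) (XT.nd (nat_lit 156) (nat_lit 304) (nat_lit 0) (XT.nd (nat_lit 78) (nat_lit 0) (nat_lit 0) (XT.lf (nat_lit 0) (nat_lit 127412280456) (nat_lit 456) (nat_lit 121552218864) (nat_lit 532) (nat_lit 62780545893) (nat_lit 37) (nat_lit 5) (nat_lit 43) (nat_lit 5) (nat_lit 44) (nat_lit 5) (nat_lit 320) (nat_lit 312) (nat_lit 148)) (XT.lf (nat_lit 0) (nat_lit 285454069126) (nat_lit 532) (nat_lit 39034076982) (nat_lit 76) (nat_lit 1563928291) (nat_lit 37) (nat_lit 5) (nat_lit 44) (nat_lit 5) (nat_lit 38) (nat_lit 5) (nat_lit 321) (nat_lit 312) (nat_lit 147))) (XT.nd (nat_lit 78) (nat_lit 76) (nat_lit 0) (XT.lf (nat_lit 0) (nat_lit 120772781124) (nat_lit 228) (nat_lit 210151745492) (nat_lit 304) (nat_lit 10094201807) (nat_lit 34) (nat_lit 5) (nat_lit 37) (nat_lit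 5) (nat_lit 38) (nat_lit 5) (nat_lit 322) (nat_lit 312) (nat_lit 146)) (XT.lf (nat_lit 0) (nat_lit 22801777782) (nat_lit 304) (nat_lit 62090575119) (nat_lit 76) (nat_lit 272158805503) (nat_lit 33) (nat_lit 5) (nat_lit 37) (nat_lit 5) (nat_lit 34) (nat_lit 5) (nat_lit 323) (nat_lit 312) (nat_lit 145))))) (XT.nd (nat_lit 234) (nat_lit 304) (nat_lit 0) (XT.nd (nat_lit 78) (nat_lit 228) (nat_lit 0) (XT.lf (nat_lit 0) (nat_lit 61819676152) (nat_lit 304) (nat_lit 261249489582) (nat_lit 76) (nat_lit 50953195141) (nat_lit 30) (nat_lit 5) (nat_lit 34) (nat_lit 5) (nat_lit 31) (nat_lit 5) (nat_lit 324) (nat_lit 312) (nat_lit 144)) (XT.nd (nat_lit 78) (nat_lit 228) (nat_lit 0) (XT.lf (nat_lit 0) (nat_lit 107905706598) (nat_lit 304) (nat_lit 89308065847) (nat_lit 76) (nat_lit 194821751279) (nat_lit 30) (nat_lit 5) (nat_lit 34) (nat_lit 5) (nat_lit 31) (nat_lit 5) (nat_lit 325) (nat_lit 312) (nat_lit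 143)) (XT.lf (nat_lit 0) (nat_lit 101464262491) (nat_lit 228) (nat_lit 58654521644) (nat_lit 304) (nat_lit 251175742478) (nat_lit 27) (nat_lit 5) (nat_lit 30) (nat_lit 5) (nat_lit 31) (nat_lit 5) (nat_lit 326) (nat_lit 312) (nat_lit 142)))) (XT.nd (nat_lit 156) (nat_lit 152) (nat_lit 0) (XT.nd (nat_lit 78) (nat_lit 152) (nat_lit 0) (XT.lf (nat_lit 0) (nat_lit 221202420962) (nat_lit 304) (nat_lit 121573284936) (nat_lit 76) (nat_lit 88943062962) (nat_lit 27) (nat_lit 5) (nat_lit 31) (nat_lit 5) (nat_lit 28) (nat_lit 5) (nat_lit 327) (nat_lit 312) (nat_lit 141)) (XT.lf (nat_lit 0) (nat_lit 84444978104) (nat_lit 152) (nat_lit 206282121172) (nat_lit 228) (nat_lit 162765503323) (nat_lit 25) (nat_lit 5) (nat_lit 27) (nat_lit 5) (nat_lit 28) (nat_lit 5) (nat_lit 328) (nat_lit 312) (nat_lit 140))) (XT.nd (nat_lit 78) (nat_lit 152) (nat_lit 0) (XT.lf (nat_lit 0) (nat_lit 313858623927) (nat_lit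 152) (nat_lit 55279111795) (nat_lit 228) (nat_lit 107604688753) (nat_lit 25) (nat_lit 5) (nat_lit 27) (nat_lit 5) (nat_lit 28) (nat_lit 5) (nat_lit 329) (nat_lit 312) (nat_lit 139)) (XT.lf (nat_lit 0) (nat_lit 60191397123) (nat_lit 152) (nat_lit 397670080486) (nat_lit 228) (nat_lit 43667534265) (nat_lit 23) (nat_lit 5) (nat_lit 25) (nat_lit 5) (nat_lit 26) (nat_lit 5) (nat_lit 330) (nat_lit 312) (nat_lit 138)))))) (XT.nd (nat_lit 546) (nat_lit 304) (nat_lit 0) (XT.nd (nat_lit 234) (nat_lit 228) (nat_lit 0) (XT.nd (nat_lit 78) (nat_lit 152) (nat_lit 0) (XT.lf (nat_lit 0) (nat_lit 30119739910) (nat_lit 228) (nat_lit 219728342728) (nat_lit 76) (nat_lit 277921204742) (nat_lit 22) (nat_lit 5) (nat_lit 25) (nat_lit 5) (nat_lit 23) (nat_lit 5) (nat_lit 331) (nat_lit 312) (nat_lit 137)) (XT.nd (nat_lit 78) (nat_lit 0) (nat_lit 0) (XT.lf (nat_lit 0) (nat_lit 19448276910) (nat_lit 152) (nat_lit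 88470231104) (nat_lit 228) (nat_lit 448062123841) (nat_lit 20) (nat_lit 5) (nat_lit 22) (nat_lit 5) (nat_lit 23) (nat_lit 5) (nat_lit 332) (nat_lit 312) (nat_lit 136)) (XT.lf (nat_lit 0) (nat_lit 200168869686) (nat_lit 228) (nat_lit 297933113691) (nat_lit 76) (nat_lit 87688685242) (nat_lit 20) (nat_lit 5) (nat_lit 23) (nat_lit 5) (nat_lit 21) (nat_lit 5) (nat_lit 333) (nat_lit 312) (nat_lit 135)))) (XT.nd (nat_lit 156) (nat_lit 76) (nat_lit 0) (XT.nd (nat_lit 78) (nat_lit 152) (nat_lit 0) (XT.lf (nat_lit 0) (nat_lit 302097153872) (nat_lit 228) (nat_lit 42543912473) (nat_lit 76) (nat_lit 273160610585) (nat_lit 20) (nat_lit 5) (nat_lit 23) (nat_lit 5) (nat_lit 21) (nat_lit 5) (nat_lit 334) (nat_lit 312) (nat_lit 134)) (XT.lf (nat_lit 0) (nat_lit 245560298015) (nat_lit 152) (nat_lit 172525101906) (nat_lit 228) (nat_lit 233815710138) (nat_lit 18) (nat_lit 5) (nat_lit 20) (nat_lit 5) (nat_lit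 21) (nat_lit 5) (nat_lit 335) (nat_lit 312) (nat_lit 133))) (XT.nd (nat_lit 78) (nat_lit 76) (nat_lit 0) (XT.lf (nat_lit 0) (nat_lit 544867425895) (nat_lit 228) (nat_lit 129854658180) (nat_lit 76) (nat_lit 13885236226) (nat_lit 18) (nat_lit 5) (nat_lit 21) (nat_lit 5) (nat_lit 19) (nat_lit 4) (nat_lit 336) (nat_lit 312) (nat_lit 132)) (XT.lf (nat_lit 0) (nat_lit 172919295155) (nat_lit 76) (nat_lit 517512574712) (nat_lit 152) (nat_lit 37126969093) (nat_lit 17) (nat_lit 5) (nat_lit 18) (nat_lit 5) (nat_lit 19) (nat_lit 4) (nat_lit 337) (nat_lit 312) (nat_lit 131))))) (XT.nd (nat_lit 234) (nat_lit 76) (nat_lit 0) (XT.nd (nat_lit 78) (nat_lit 152) (nat_lit 0) (XT.lf (nat_lit 0) (nat_lit 77755012128) (nat_lit 152) (nat_lit 264010855663) (nat_lit 76) (nat_lit 427419098579) (nat_lit 16) (nat_lit 5) (nat_lit 18) (nat_lit 5) (nat_lit 17) (nat_lit 5) (nat_lit 338) (nat_lit 312) (nat_lit 130))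 (XT.nd (nat_lit 78) (nat_lit 0) (nat_lit 0) (XT.lf (nat_lit 0) (nat_lit 51478933510) (nat_lit 152) (nat_lit 149580840900) (nat_lit 228) (nat_lit 612905219215) (nat_lit 14) (nat_lit 5) (nat_lit 16) (nat_lit 5) (nat_lit 17) (nat_lit 5) (nat_lit 339) (nat_lit 312) (nat_lit 129)) (XT.lf (nat_lit 0) (nat_lit 343029306782) (nat_lit 228) (nat_lit 456109436739) (nat_lit 76) (nat_lit 62484648464) (nat_lit 14) (nat_lit 5) (nat_lit 17) (nat_lit 5) (nat_lit 15) (nat_lit 4) (nat_lit 340) (nat_lit 312) (nat_lit 128)))) (XT.nd (nat_lit 156) (nat_lit 0) (nat_lit 0) (XT.nd (nat_lit 78) (nat_lit 76) (nat_lit 0) (XT.lf (nat_lit 0) (nat_lit 500241594539) (nat_lit 228) (nat_lit 129107939544) (nat_lit 76) (nat_lit 283434112758) (nat_lit 14) (nat_lit 5) (nat_lit 17) (nat_lit 5) (nat_lit 15) (nat_lit 4) (nat_lit 341) (nat_lit 312) (nat_lit 127)) (XT.lf (nat_lit 0) (nat_lit 235851908614) (nat_lit 76) (nat_lit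 439851178691) (nat_lit 152) (nat_lit 291879857067) (nat_lit 13) (nat_lit 5) (nat_lit 14) (nat_lit 5) (nat_lit 15) (nat_lit 4) (nat_lit 342) (nat_lit 312) (nat_lit 126))) (XT.nd (nat_lit 78) (nat_lit 0) (nat_lit 0) (XT.lf (nat_lit 0) (nat_lit 637350991984) (nat_lit 76) (nat_lit 231380526070) (nat_lit 152) (nat_lit 157752266209) (nat_lit 13) (nat_lit 5) (nat_lit 14) (nat_lit 5) (nat_lit 15) (nat_lit 4) (nat_lit 343) (nat_lit 312) (nat_lit 125)) (XT.lf (nat_lit 0) (nat_lit 1070969969096) (nat_lit 76) (nat_lit 6232234441) (nat_lit 152) (nat_lit 12894489426) (nat_lit 13) (nat_lit 5) (nat_lit 14) (nat_lit 5) (nat_lit 15) (nat_lit 4) (nat_lit 344) (nat_lit 312) (nat_lit 124))))))) (XT.nd (nat_lit 38454) (nat_lit 0) (nat_lit 1216) (XT.nd (nat_lit 546) (nat_lit 152) (nat_lit 0) (XT.nd (nat_lit 234) (nat_lit 76) (nat_lit 0) (XT.nd (nat_lit 78) (nat_lit 76) (nat_lit 0) (XT.lf (nat_lit 0) (nat_lit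 151951556871) (nat_lit 152) (nat_lit 766913594437) (nat_lit 76) (nat_lit 238410833313) (nat_lit 11) (nat_lit 5) (nat_lit 13) (nat_lit 5) (nat_lit 12) (nat_lit 4) (nat_lit 345) (nat_lit 312) (nat_lit 123)) (XT.nd (nat_lit 78) (nat_lit 76) (nat_lit 0) (XT.lf (nat_lit 0) (nat_lit 329987049181) (nat_lit 152) (nat_lit 396599809087) (nat_lit 76) (nat_lit 503160095659) (nat_lit 11) (nat_lit 5) (nat_lit 13) (nat_lit 5) (nat_lit 12) (nat_lit 4) (nat_lit 346) (nat_lit 312) (nat_lit 122)) (XT.lf (nat_lit 0) (nat_lit 3514877993) (nat_lit 76) (nat_lit 518835018722) (nat_lit 152) (nat_lit 785658942823) (nat_lit 10) (nat_lit 5) (nat_lit 11) (nat_lit 5) (nat_lit 12) (nat_lit 4) (nat_lit 347) (nat_lit 312) (nat_lit 121)))) (XT.nd (nat_lit 156) (nat_lit 76) (nat_lit 0) (XT.nd (nat_lit 78) (nat_lit 0) (nat_lit 0) (XT.lf (nat_lit 0) (nat_lit 458193693819) (nat_lit 76) (nat_lit 282751803360) (nat_lit 152)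 (nat_lit 650718680837) (nat_lit 10) (nat_lit 5) (nat_lit 11) (nat_lit 5) (nat_lit 12) (nat_lit 4) (nat_lit 348) (nat_lit 312) (nat_lit 120)) (XT.lf (nat_lit 0) (nat_lit 949246788260) (nat_lit 76) (nat_lit 27781942153) (nat_lit 152) (nat_lit 504983214405) (nat_lit 10) (nat_lit 5) (nat_lit 11) (nat_lit 5) (nat_lit 12) (nat_lit 4) (nat_lit 349) (nat_lit 312) (nat_lit 119))) (XT.nd (nat_lit 78) (nat_lit 76) (nat_lit 0) (XT.lf (nat_lit 0) (nat_lit 1237953045336) (nat_lit 152) (nat_lit 105957865705) (nat_lit 0) (nat_lit 235200268103) (nat_lit 10) (nat_lit 5) (nat_lit 12) (nat_lit 4) (nat_lit 10) (nat_lit 4) (nat_lit 350) (nat_lit 312) (nat_lit 118)) (XT.lf (nat_lit 0) (nat_lit 372927731333) (nat_lit 76) (nat_lit 1156514090589) (nat_lit 76) (nat_lit 153761288998) (nat_lit 9) (nat_lit 4) (nat_lit 10) (nat_lit 5) (nat_lit 10) (nat_lit 4) (nat_lit 351) (nat_lit 312) (nat_lit 117))))) (XT.nd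 (nat_lit 37596) (nat_lit 0) (nat_lit 2508) (XT.nd (nat_lit 78) (nat_lit 76) (nat_lit 0) (XT.lf (nat_lit 0) (nat_lit 49167080038) (nat_lit 152) (nat_lit 900485297666) (nat_lit 76) (nat_lit 845638675625) (nat_lit 8) (nat_lit 5) (nat_lit 10) (nat_lit 5) (nat_lit 9) (nat_lit 4) (nat_lit 352) (nat_lit 312) (nat_lit 116)) (XT.nd (nat_lit 78) (nat_lit 76) (nat_lit 0) (XT.lf (nat_lit 0) (nat_lit 260022602927) (nat_lit 152) (nat_lit 461905830940) (nat_lit 76) (nat_lit 1194098094283) (nat_lit 8) (nat_lit 5) (nat_lit 10) (nat_lit 5) (nat_lit 9) (nat_lit 4) (nat_lit 353) (nat_lit 312) (nat_lit 115)) (XT.lf (nat_lit 0) (nat_lit 12379232042) (nat_lit 76) (nat_lit 475665045076) (nat_lit 152) (nat_lit 1558352747096) (nat_lit 7) (nat_lit 5) (nat_lit 8) (nat_lit 5) (nat_lit 9) (nat_lit 4) (nat_lit 354) (nat_lit 312) (nat_lit 114)))) (XT.nd (nat_lit 156) (nat_lit 0) (nat_lit 76) (XT.nd (nat_lit 78) (nat_lit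 0) (nat_lit 0) (XT.lf (nat_lit 0) (nat_lit 58420544573) (nat_lit 532) (nat_lit 31273666738) (nat_lit 532) (nat_lit 31273666738) (nat_lit 40) (nat_lit 3) (nat_lit 47) (nat_lit 3) (nat_lit 47) (nat_lit 5) (nat_lit 313) (nat_lit 313) (nat_lit 154)) (XT.lf (nat_lit 76) (nat_lit 46354610427) (nat_lit 0) (nat_lit 76275959545) (nat_lit 532) (nat_lit 128893345091) (nat_lit 41) (nat_lit 5) (nat_lit 40) (nat_lit 3) (nat_lit 47) (nat_lit 5) (nat_lit 314) (nat_lit 313) (nat_lit 153))) (XT.nd (nat_lit 78) (nat_lit 0) (nat_lit 0) (XT.lf (nat_lit 0) (nat_lit 131481489814) (nat_lit 456) (nat_lit 95104776191) (nat_lit 532) (nat_lit 35084998727) (nat_lit 41) (nat_lit 5) (nat_lit 47) (nat_lit 5) (nat_lit 48) (nat_lit 5) (nat_lit 315) (nat_lit 313) (nat_lit 152)) (XT.lf (nat_lit 76) (nat_lit 22930747389) (nat_lit 0) (nat_lit 120642320990) (nat_lit 532) (nat_lit 128854727581) (nat_lit 42) (nat_lit 5) (nat_lit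 41) (nat_lit 5) (nat_lit 48) (nat_lit 5) (nat_lit 316) (nat_lit 313) (nat_lit 151)))))) (XT.nd (nat_lit 546) (nat_lit 836) (nat_lit 0) (XT.nd (nat_lit 234) (nat_lit 532) (nat_lit 0) (XT.nd (nat_lit 78) (nat_lit 0) (nat_lit 76) (XT.lf (nat_lit 76) (nat_lit 155817745084) (nat_lit 0) (nat_lit 3414473102) (nat_lit 532) (nat_lit 124604612273) (nat_lit 42) (nat_lit 5) (nat_lit 41) (nat_lit 5) (nat_lit 48) (nat_lit 5) (nat_lit 317) (nat_lit 313) (nat_lit 150)) (XT.nd (nat_lit 78) (nat_lit 0) (nat_lit 0) (XT.lf (nat_lit 76) (nat_lit 225574356) (nat_lit 0) (nat_lit 178886630674) (nat_lit 532) (nat_lit 116808934626) (nat_lit 43) (nat_lit 5) (nat_lit 42) (nat_lit 5) (nat_lit 49) (nat_lit 5) (nat_lit 318) (nat_lit 313) (nat_lit 149)) (XT.lf (nat_lit 76) (nat_lit 145916945897) (nat_lit 0) (nat_lit 58252279431) (nat_lit 532) (nat_lit 104516037815) (nat_lit 43) (nat_lit 5) (nat_lit 42) (nat_lit 5)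 (nat_lit 49) (nat_lit 5) (nat_lit 319) (nat_lit 313) (nat_lit 148)))) (XT.nd (nat_lit 156) (nat_lit 228) (nat_lit 0) (XT.nd (nat_lit 78) (nat_lit 456) (nat_lit 0) (XT.lf (nat_lit 0) (nat_lit 232963127779) (nat_lit 456) (nat_lit 20939344131) (nat_lit 76) (nat_lit 68429459250) (nat_lit 43) (nat_lit 5) (nat_lit 49) (nat_lit 5) (nat_lit 44) (nat_lit 5) (nat_lit 320) (nat_lit 313) (nat_lit 147)) (XT.lf (nat_lit 0) (nat_lit 137606474782) (nat_lit 456) (nat_lit 131276487591) (nat_lit 532) (nat_lit 67801576921) (nat_lit 37) (nat_lit 5) (nat_lit 43) (nat_lit 5) (nat_lit 44) (nat_lit 5) (nat_lit 321) (nat_lit 313) (nat_lit 146))) (XT.nd (nat_lit 78) (nat_lit 228) (nat_lit 0) (XT.lf (nat_lit 0) (nat_lit 308291599206) (nat_lit 532) (nat_lit 42155577567) (nat_lit 76) (nat_lit 1688962318) (nat_lit 37) (nat_lit 5) (nat_lit 44) (nat_lit 5) (nat_lit 38) (nat_lit 5) (nat_lit 322) (nat_lit 313) (nat_lit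 145)) (XT.lf (nat_lit 0) (nat_lit 130435798160) (nat_lit 228) (nat_lit 226963834638) (nat_lit 304) (nat_lit 10900497842) (nat_lit 34) (nat_lit 5) (nat_lit 37) (nat_lit 5) (nat_lit 38) (nat_lit 5) (nat_lit 323) (nat_lit 313) (nat_lit 144))))) (XT.nd (nat_lit 312) (nat_lit 304) (nat_lit 0) (XT.nd (nat_lit 156) (nat_lit 228) (nat_lit 0) (XT.nd (nat_lit 78) (nat_lit 228) (nat_lit 0) (XT.lf (nat_lit 0) (nat_lit 24627010814) (nat_lit 304) (nat_lit 67056653741) (nat_lit 76) (nat_lit 293931495370) (nat_lit 33) (nat_lit 5) (nat_lit 37) (nat_lit 5) (nat_lit 34) (nat_lit 5) (nat_lit 324) (nat_lit 313) (nat_lit 143)) (XT.lf (nat_lit 0) (nat_lit 66766290034) (nat_lit 304) (nat_lit 282148226743) (nat_lit 76) (nat_lit 55029546186) (nat_lit 30) (nat_lit 5) (nat_lit 34) (nat_lit 5) (nat_lit 31) (nat_lit 5) (nat_lit 325) (nat_lit 313) (nat_lit 142))) (XT.nd (nat_lit 78) (nat_lit 228) (nat_lit 0) (XT.lf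 (nat_lit 0) (nat_lit 116539125894) (nat_lit 304) (nat_lit 96451579628) (nat_lit 76) (nat_lit 210407579746) (nat_lit 30) (nat_lit 5) (nat_lit 34) (nat_lit 5) (nat_lit 31) (nat_lit 5) (nat_lit 326) (nat_lit 313) (nat_lit 141)) (XT.lf (nat_lit 0) (nat_lit 109582506332) (nat_lit 228) (nat_lit 63346698510) (nat_lit 304) (nat_lit 271268807378) (nat_lit 27) (nat_lit 5) (nat_lit 30) (nat_lit 5) (nat_lit 31) (nat_lit 5) (nat_lit 327) (nat_lit 313) (nat_lit 140)))) (XT.nd (nat_lit 156) (nat_lit 152) (nat_lit 0) (XT.nd (nat_lit 78) (nat_lit 152) (nat_lit 0) (XT.lf (nat_lit 0) (nat_lit 238899468733) (nat_lit 304) (nat_lit 131298059843) (nat_lit 76) (nat_lit 96058670608) (nat_lit 27) (nat_lit 5) (nat_lit 31) (nat_lit 5) (nat_lit 28) (nat_lit 5) (nat_lit 328) (nat_lit 313) (nat_lit 139)) (XT.lf (nat_lit 0) (nat_lit 91201636698) (nat_lit 152) (nat_lit 222784446849) (nat_lit 228) (nat_lit 175785859308)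 (nat_lit 25) (nat_lit 5) (nat_lit 27) (nat_lit 5) (nat_lit 28) (nat_lit 5) (nat_lit 329) (nat_lit 313) (nat_lit 138))) (XT.nd (nat_lit 78) (nat_lit 152) (nat_lit 0) (XT.lf (nat_lit 0) (nat_lit 338968295643) (nat_lit 152) (nat_lit 59701214797) (nat_lit 228) (nat_lit 116212245074) (nat_lit 25) (nat_lit 5) (nat_lit 27) (nat_lit 5) (nat_lit 28) (nat_lit 5) (nat_lit 330) (nat_lit 313) (nat_lit 137)) (XT.lf (nat_lit 0) (nat_lit 65007721868) (nat_lit 152) (nat_lit 429483403214) (nat_lit 228) (nat_lit 47160147134) (nat_lit 23) (nat_lit 5) (nat_lit 25) (nat_lit 5) (nat_lit 26) (nat_lit 5) (nat_lit 331) (nat_lit 313) (nat_lit 136))))))))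
noncomputable def xc119 : XT := (XT.nd (nat_lit 39702) (nat_lit 0) (nat_lit 228) (XT.nd (nat_lit 1092) (nat_lit 380) (nat_lit 0) (XT.nd (nat_lit 546) (nat_lit 304) (nat_lit 0) (XT.nd (nat_lit 234) (nat_lit 228) (nat_lit 0) (XT.nd (nat_lit 78) (nat_lit 152) (nat_lit 0) (XT.lf (nat_lit 0) (nat_lit 32530013881) (nat_lit 228) (nat_lit 237305633676) (nat_lit 76) (nat_lit 300155125287) (nat_lit 22) (nat_lit 5) (nat_lit 25) (nat_lit 5) (nat_lit 23) (nat_lit 5) (nat_lit 332) (nat_lit 313) (nat_lit 135)) (XT.nd (nat_lit 78) (nat_lit 0) (nat_lit 0) (XT.lf (nat_lit 0) (nat_lit 21005090811) (nat_lit 152) (nat_lit 95547564047) (nat_lit 228) (nat_lit 483906372449) (nat_lit 20) (nat_lit 5) (nat_lit 22) (nat_lit 5) (nat_lit 23) (nat_lit 5) (nat_lit 333) (nat_lit 313) (nat_lit 134)) (XT.lf (nat_lit 0) (nat_lit 216183002474) (nat_lit 228) (nat_lit 321766836881) (nat_lit 76) (nat_lit 94704031230) (nat_lit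 20) (nat_lit 5) (nat_lit 23) (nat_lit 5) (nat_lit 21) (nat_lit 5) (nat_lit 334) (nat_lit 313) (nat_lit 133)))) (XT.nd (nat_lit 156) (nat_lit 76) (nat_lit 0) (XT.nd (nat_lit 78) (nat_lit 152) (nat_lit 0) (XT.lf (nat_lit 0) (nat_lit 326265503231) (nat_lit 228) (nat_lit 45946568151) (nat_lit 76) (nat_lit 295013691995) (nat_lit 20) (nat_lit 5) (nat_lit 23) (nat_lit 5) (nat_lit 21) (nat_lit 5) (nat_lit 335) (nat_lit 313) (nat_lit 132)) (XT.lf (nat_lit 0) (nat_lit 265205957472) (nat_lit 152) (nat_lit 186326828844) (nat_lit 228) (nat_lit 252520366767) (nat_lit 18) (nat_lit 5) (nat_lit 20) (nat_lit 5) (nat_lit 21) (nat_lit 5) (nat_lit 336) (nat_lit 313) (nat_lit 131))) (XT.nd (nat_lit 78) (nat_lit 76) (nat_lit 0) (XT.lf (nat_lit 0) (nat_lit 588457339563) (nat_lit 228) (nat_lit 140242220988) (nat_lit 76) (nat_lit 14996302482) (nat_lit 18) (nat_lit 5) (nat_lit 21) (nat_lit 5) (nat_lit 19) (nat_lit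 4) (nat_lit 337) (nat_lit 313) (nat_lit 130)) (XT.lf (nat_lit 0) (nat_lit 186753628111) (nat_lit 76) (nat_lit 558913291437) (nat_lit 152) (nat_lit 40096585296) (nat_lit 17) (nat_lit 5) (nat_lit 18) (nat_lit 5) (nat_lit 19) (nat_lit 4) (nat_lit 338) (nat_lit 313) (nat_lit 129))))) (XT.nd (nat_lit 234) (nat_lit 76) (nat_lit 0) (XT.nd (nat_lit 78) (nat_lit 152) (nat_lit 0) (XT.lf (nat_lit 0) (nat_lit 83975889251) (nat_lit 152) (nat_lit 285130967118) (nat_lit 76) (nat_lit 461612868168) (nat_lit 16) (nat_lit 5) (nat_lit 18) (nat_lit 5) (nat_lit 17) (nat_lit 5) (nat_lit 339) (nat_lit 313) (nat_lit 128)) (XT.nd (nat_lit 78) (nat_lit 0) (nat_lit 0) (XT.lf (nat_lit 0) (nat_lit 55597986024) (nat_lit 152) (nat_lit 161547028966) (nat_lit 228) (nat_lit 661937140463) (nat_lit 14) (nat_lit 5) (nat_lit 16) (nat_lit 5) (nat_lit 17) (nat_lit 5) (nat_lit 340) (nat_lit 313) (nat_lit 127)) (XT.lf (nat_lit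 0) (nat_lit 370472082197) (nat_lit 228) (nat_lit 492597479844) (nat_lit 76) (nat_lit 67483665933) (nat_lit 14) (nat_lit 5) (nat_lit 17) (nat_lit 5) (nat_lit 15) (nat_lit 4) (nat_lit 341) (nat_lit 313) (nat_lit 126)))) (XT.nd (nat_lit 156) (nat_lit 0) (nat_lit 0) (XT.nd (nat_lit 78) (nat_lit 76) (nat_lit 0) (XT.lf (nat_lit 0) (nat_lit 540261321058) (nat_lit 228) (nat_lit 139435915602) (nat_lit 76) (nat_lit 306109069178) (nat_lit 14) (nat_lit 5) (nat_lit 17) (nat_lit 5) (nat_lit 15) (nat_lit 4) (nat_lit 342) (nat_lit 313) (nat_lit 125)) (XT.lf (nat_lit 0) (nat_lit 254720703722) (nat_lit 76) (nat_lit 475039015421) (nat_lit 152) (nat_lit 315229829218) (nat_lit 13) (nat_lit 5) (nat_lit 14) (nat_lit 5) (nat_lit 15) (nat_lit 4) (nat_lit 343) (nat_lit 313) (nat_lit 124))) (XT.nd (nat_lit 78) (nat_lit 0) (nat_lit 0) (XT.lf (nat_lit 0) (nat_lit 688339666176) (nat_lit 76) (nat_lit 249890729669)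 (nat_lit 152) (nat_lit 170372061937) (nat_lit 13) (nat_lit 5) (nat_lit 14) (nat_lit 5) (nat_lit 15) (nat_lit 4) (nat_lit 344) (nat_lit 313) (nat_lit 123)) (XT.lf (nat_lit 0) (nat_lit 1156648117395) (nat_lit 76) (nat_lit 6730592376) (nat_lit 152) (nat_lit 13925691572) (nat_lit 13) (nat_lit 5) (nat_lit 14) (nat_lit 5) (nat_lit 15) (nat_lit 4) (nat_lit 345) (nat_lit 313) (nat_lit 122)))))) (XT.nd (nat_lit 546) (nat_lit 76) (nat_lit 0) (XT.nd (nat_lit 234) (nat_lit 76) (nat_lit 0) (XT.nd (nat_lit 78) (nat_lit 76) (nat_lit 0) (XT.lf (nat_lit 0) (nat_lit 164108014262) (nat_lit 152) (nat_lit 828266105874) (nat_lit 76) (nat_lit 257483916061) (nat_lit 11) (nat_lit 5) (nat_lit 13) (nat_lit 5) (nat_lit 12) (nat_lit 4) (nat_lit 346) (nat_lit 313) (nat_lit 121)) (XT.nd (nat_lit 78) (nat_lit 76) (nat_lit 0) (XT.lf (nat_lit 0) (nat_lit 356386321302) (nat_lit 152) (nat_lit 428327260371) (nat_lit 76)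 (nat_lit 543413103388) (nat_lit 11) (nat_lit 5) (nat_lit 13) (nat_lit 5) (nat_lit 12) (nat_lit 4) (nat_lit 347) (nat_lit 313) (nat_lit 120)) (XT.lf (nat_lit 0) (nat_lit 3796588171) (nat_lit 76) (nat_lit 560341598144) (nat_lit 152) (nat_lit 848511336072) (nat_lit 10) (nat_lit 5) (nat_lit 11) (nat_lit 5) (nat_lit 12) (nat_lit 4) (nat_lit 348) (nat_lit 313) (nat_lit 119)))) (XT.nd (nat_lit 156) (nat_lit 76) (nat_lit 0) (XT.nd (nat_lit 78) (nat_lit 0) (nat_lit 0) (XT.lf (nat_lit 0) (nat_lit 494849670748) (nat_lit 76) (nat_lit 305371742003) (nat_lit 152) (nat_lit 702775876991) (nat_lit 10) (nat_lit 5) (nat_lit 11) (nat_lit 5) (nat_lit 12) (nat_lit 4) (nat_lit 349) (nat_lit 313) (nat_lit 118)) (XT.lf (nat_lit 0) (nat_lit 1025186977083) (nat_lit 76) (nat_lit 30004307131) (nat_lit 152) (nat_lit 545381595342) (nat_lit 10) (nat_lit 5) (nat_lit 11) (nat_lit 5) (nat_lit 12) (nat_lit 4) (nat_lit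 350) (nat_lit 313) (nat_lit 117))) (XT.nd (nat_lit 78) (nat_lit 76) (nat_lit 0) (XT.lf (nat_lit 0) (nat_lit 1336989529655) (nat_lit 152) (nat_lit 114434067156) (nat_lit 0) (nat_lit 254016457023) (nat_lit 10) (nat_lit 5) (nat_lit 12) (nat_lit 4) (nat_lit 10) (nat_lit 4) (nat_lit 351) (nat_lit 313) (nat_lit 116)) (XT.lf (nat_lit 0) (nat_lit 402762366815) (nat_lit 76) (nat_lit 1249035033752) (nat_lit 76) (nat_lit 166061940237) (nat_lit 9) (nat_lit 4) (nat_lit 10) (nat_lit 5) (nat_lit 10) (nat_lit 4) (nat_lit 352) (nat_lit 313) (nat_lit 115))))) (XT.nd (nat_lit 37752) (nat_lit 0) (nat_lit 2508) (XT.nd (nat_lit 37596) (nat_lit 0) (nat_lit 2432) (XT.lf (nat_lit 0) (nat_lit 53100667997) (nat_lit 152) (nat_lit 972523723417) (nat_lit 76) (nat_lit 913289928150) (nat_lit 8) (nat_lit 5) (nat_lit 10) (nat_lit 5) (nat_lit 9) (nat_lit 4) (nat_lit 353) (nat_lit 313) (nat_lit 114)) (XT.nd (nat_lit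 78) (nat_lit 0) (nat_lit 0) (XT.lf (nat_lit 0) (nat_lit 63095171667) (nat_lit 532) (nat_lit 33775026874) (nat_lit 532) (nat_lit 33775026874) (nat_lit 40) (nat_lit 3) (nat_lit 47) (nat_lit 3) (nat_lit 47) (nat_lit 5) (nat_lit 314) (nat_lit 314) (nat_lit 152)) (XT.lf (nat_lit 76) (nat_lit 50064018671) (nat_lit 0) (nat_lit 82378843248) (nat_lit 532) (nat_lit 139202810874) (nat_lit 41) (nat_lit 5) (nat_lit 40) (nat_lit 3) (nat_lit 47) (nat_lit 5) (nat_lit 315) (nat_lit 314) (nat_lit 151)))) (XT.nd (nat_lit 156) (nat_lit 0) (nat_lit 0) (XT.nd (nat_lit 78) (nat_lit 0) (nat_lit 0) (XT.lf (nat_lit 0) (nat_lit 142001700611) (nat_lit 456) (nat_lit 102712033941) (nat_lit 532) (nat_lit 37891088836) (nat_lit 41) (nat_lit 5) (nat_lit 47) (nat_lit 5) (nat_lit 48) (nat_lit 5) (nat_lit 316) (nat_lit 314) (nat_lit 150)) (XT.lf (nat_lit 76) (nat_lit 24766303061) (nat_lit 0) (nat_lit 130294203452) (nat_lit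 532) (nat_lit 139161379050) (nat_lit 42) (nat_lit 5) (nat_lit 41) (nat_lit 5) (nat_lit 48) (nat_lit 5) (nat_lit 317) (nat_lit 314) (nat_lit 149))) (XT.nd (nat_lit 78) (nat_lit 0) (nat_lit 76) (XT.lf (nat_lit 76) (nat_lit 168284179395) (nat_lit 0) (nat_lit 3688090935) (nat_lit 532) (nat_lit 134571382424) (nat_lit 42) (nat_lit 5) (nat_lit 41) (nat_lit 5) (nat_lit 48) (nat_lit 5) (nat_lit 318) (nat_lit 314) (nat_lit 148)) (XT.lf (nat_lit 76) (nat_lit 244741102) (nat_lit 0) (nat_lit 193197822495) (nat_lit 532) (nat_lit 126152150948) (nat_lit 43) (nat_lit 5) (nat_lit 42) (nat_lit 5) (nat_lit 49) (nat_lit 5) (nat_lit 319) (nat_lit 314) (nat_lit 147))))))) (XT.nd (nat_lit 1092) (nat_lit 836) (nat_lit 0) (XT.nd (nat_lit 546) (nat_lit 608) (nat_lit 0) (XT.nd (nat_lit 234) (nat_lit 532) (nat_lit 0) (XT.nd (nat_lit 78) (nat_lit 380) (nat_lit 0) (XT.lf (nat_lit 76) (nat_lit 157591339344) (nat_lit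 0) (nat_lit 62912703792) (nat_lit 532) (nat_lit 112875933389) (nat_lit 43) (nat_lit 5) (nat_lit 42) (nat_lit 5) (nat_lit 49) (nat_lit 5) (nat_lit 320) (nat_lit 314) (nat_lit 146)) (XT.nd (nat_lit 78) (nat_lit 456) (nat_lit 0) (XT.lf (nat_lit 0) (nat_lit 251601357596) (nat_lit 456) (nat_lit 22613425675) (nat_lit 76) (nat_lit 73903603119) (nat_lit 43) (nat_lit 5) (nat_lit 49) (nat_lit 5) (nat_lit 44) (nat_lit 5) (nat_lit 321) (nat_lit 314) (nat_lit 145)) (XT.lf (nat_lit 0) (nat_lit 148616031764) (nat_lit 456) (nat_lit 141778684804) (nat_lit 532) (nat_lit 73224491960) (nat_lit 37) (nat_lit 5) (nat_lit 43) (nat_lit 5) (nat_lit 44) (nat_lit 5) (nat_lit 322) (nat_lit 314) (nat_lit 144)))) (XT.nd (nat_lit 156) (nat_lit 304) (nat_lit 0) (XT.nd (nat_lit 78) (nat_lit 228) (nat_lit 0) (XT.lf (nat_lit 0) (nat_lit 332955959850) (nat_lit 532) (nat_lit 45526973042) (nat_lit 76) (nat_lit 1824010514)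 (nat_lit 37) (nat_lit 5) (nat_lit 44) (nat_lit 5) (nat_lit 38) (nat_lit 5) (nat_lit 323) (nat_lit 314) (nat_lit 143)) (XT.lf (nat_lit 0) (nat_lit 140871686144) (nat_lit 228) (nat_lit 245120898119) (nat_lit 304) (nat_lit 11771474475) (nat_lit 34) (nat_lit 5) (nat_lit 37) (nat_lit 5) (nat_lit 38) (nat_lit 5) (nat_lit 324) (nat_lit 314) (nat_lit 142))) (XT.nd (nat_lit 78) (nat_lit 228) (nat_lit 0) (XT.lf (nat_lit 0) (nat_lit 26598106873) (nat_lit 304) (nat_lit 72420185194) (nat_lit 76) (nat_lit 317446002505) (nat_lit 33) (nat_lit 5) (nat_lit 37) (nat_lit 5) (nat_lit 34) (nat_lit 5) (nat_lit 325) (nat_lit 314) (nat_lit 141)) (XT.lf (nat_lit 0) (nat_lit 72108484689) (nat_lit 304) (nat_lit 304719037209) (nat_lit 76) (nat_lit 59431991700) (nat_lit 30) (nat_lit 5) (nat_lit 34) (nat_lit 5) (nat_lit 31) (nat_lit 5) (nat_lit 326) (nat_lit 314) (nat_lit 140))))) (XT.nd (nat_lit 234) (nat_lit 380)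 (nat_lit 0) (XT.nd (nat_lit 78) (nat_lit 228) (nat_lit 0) (XT.lf (nat_lit 0) (nat_lit 125863081384) (nat_lit 304) (nat_lit 104166735931) (nat_lit 76) (nat_lit 227240261884) (nat_lit 30) (nat_lit 5) (nat_lit 34) (nat_lit 5) (nat_lit 31) (nat_lit 5) (nat_lit 327) (nat_lit 314) (nat_lit 139)) (XT.nd (nat_lit 78) (nat_lit 0) (nat_lit 0) (XT.lf (nat_lit 0) (nat_lit 118350052347) (nat_lit 228) (nat_lit 68414275898) (nat_lit 304) (nat_lit 292969459345) (nat_lit 27) (nat_lit 5) (nat_lit 30) (nat_lit 5) (nat_lit 31) (nat_lit 5) (nat_lit 328) (nat_lit 314) (nat_lit 138)) (XT.lf (nat_lit 0) (nat_lit 258012158480) (nat_lit 304) (nat_lit 141800971942) (nat_lit 76) (nat_lit 103743503668) (nat_lit 27) (nat_lit 5) (nat_lit 31) (nat_lit 5) (nat_lit 28) (nat_lit 5) (nat_lit 329) (nat_lit 314) (nat_lit 137)))) (XT.nd (nat_lit 156) (nat_lit 228) (nat_lit 0) (XT.nd (nat_lit 78) (nat_lit 0) (nat_lit 0)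 (XT.lf (nat_lit 0) (nat_lit 98498676710) (nat_lit 152) (nat_lit 240606993392) (nat_lit 228) (nat_lit 189847969925) (nat_lit 25) (nat_lit 5) (nat_lit 27) (nat_lit 5) (nat_lit 28) (nat_lit 5) (nat_lit 330) (nat_lit 314) (nat_lit 136)) (XT.lf (nat_lit 0) (nat_lit 366086601032) (nat_lit 152) (nat_lit 64477118273) (nat_lit 228) (nat_lit 125508522710) (nat_lit 25) (nat_lit 5) (nat_lit 27) (nat_lit 5) (nat_lit 28) (nat_lit 5) (nat_lit 331) (nat_lit 314) (nat_lit 135))) (XT.nd (nat_lit 78) (nat_lit 76) (nat_lit 0) (XT.lf (nat_lit 0) (nat_lit 70209208080) (nat_lit 152) (nat_lit 463841832235) (nat_lit 228) (nat_lit 50932281715) (nat_lit 23) (nat_lit 5) (nat_lit 25) (nat_lit 5) (nat_lit 26) (nat_lit 5) (nat_lit 332) (nat_lit 314) (nat_lit 134)) (XT.lf (nat_lit 0) (nat_lit 35133010652) (nat_lit 228) (nat_lit 256289247205) (nat_lit 76) (nat_lit 324167727495) (nat_lit 22) (nat_lit 5) (nat_lit 25)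 (nat_lit 5) (nat_lit 23) (nat_lit 5) (nat_lit 333) (nat_lit 314) (nat_lit 133)))))) (XT.nd (nat_lit 546) (nat_lit 380) (nat_lit 0) (XT.nd (nat_lit 234) (nat_lit 304) (nat_lit 0) (XT.nd (nat_lit 78) (nat_lit 0) (nat_lit 0) (XT.lf (nat_lit 0) (nat_lit 22686314048) (nat_lit 152) (nat_lit 103191124360) (nat_lit 228) (nat_lit 522618263848) (nat_lit 20) (nat_lit 5) (nat_lit 22) (nat_lit 5) (nat_lit 23) (nat_lit 5) (nat_lit 334) (nat_lit 314) (nat_lit 132)) (XT.nd (nat_lit 78) (nat_lit 0) (nat_lit 0) (XT.lf (nat_lit 0) (nat_lit 233478176976) (nat_lit 228) (nat_lit 347507390017) (nat_lit 76) (nat_lit 102280569065) (nat_lit 20) (nat_lit 5) (nat_lit 23) (nat_lit 5) (nat_lit 21) (nat_lit 5) (nat_lit 335) (nat_lit 314) (nat_lit 131)) (XT.lf (nat_lit 0) (nat_lit 352367238216) (nat_lit 228) (nat_lit 49621558589) (nat_lit 76) (nat_lit 318614986740) (nat_lit 20) (nat_lit 5) (nat_lit 23) (nat_lit 5)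 (nat_lit 21) (nat_lit 5) (nat_lit 336) (nat_lit 314) (nat_lit 130)))) (XT.nd (nat_lit 156) (nat_lit 152) (nat_lit 0) (XT.nd (nat_lit 78) (nat_lit 0) (nat_lit 0) (XT.lf (nat_lit 0) (nat_lit 286423150476) (nat_lit 152) (nat_lit 201232734056) (nat_lit 228) (nat_lit 272721481548) (nat_lit 18) (nat_lit 5) (nat_lit 20) (nat_lit 5) (nat_lit 21) (nat_lit 5) (nat_lit 337) (nat_lit 314) (nat_lit 129)) (XT.lf (nat_lit 0) (nat_lit 635534372198) (nat_lit 228) (nat_lit 151460904355) (nat_lit 76) (nat_lit 16196218750) (nat_lit 18) (nat_lit 5) (nat_lit 21) (nat_lit 5) (nat_lit 19) (nat_lit 4) (nat_lit 338) (nat_lit 314) (nat_lit 128))) (XT.nd (nat_lit 78) (nat_lit 76) (nat_lit 0) (XT.lf (nat_lit 0) (nat_lit 201694595094) (nat_lit 76) (nat_lit 603626106765) (nat_lit 152) (nat_lit 43303848021) (nat_lit 17) (nat_lit 5) (nat_lit 18) (nat_lit 5) (nat_lit 19) (nat_lit 4) (nat_lit 339) (nat_lit 314) (nat_lit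 127)) (XT.lf (nat_lit 0) (nat_lit 90694368616) (nat_lit 152) (nat_lit 307940795485) (nat_lit 76) (nat_lit 498542104841) (nat_lit 16) (nat_lit 5) (nat_lit 18) (nat_lit 5) (nat_lit 17) (nat_lit 5) (nat_lit 340) (nat_lit 314) (nat_lit 126))))) (XT.nd (nat_lit 312) (nat_lit 152) (nat_lit 0) (XT.nd (nat_lit 156) (nat_lit 76) (nat_lit 0) (XT.nd (nat_lit 78) (nat_lit 0) (nat_lit 0) (XT.lf (nat_lit 0) (nat_lit 60046457478) (nat_lit 152) (nat_lit 174470551910) (nat_lit 228) (nat_lit 714891686211) (nat_lit 14) (nat_lit 5) (nat_lit 16) (nat_lit 5) (nat_lit 17) (nat_lit 5) (nat_lit 341) (nat_lit 314) (nat_lit 125)) (XT.lf (nat_lit 0) (nat_lit 400110218177) (nat_lit 228) (nat_lit 532004667949) (nat_lit 76) (nat_lit 72882569762) (nat_lit 14) (nat_lit 5) (nat_lit 17) (nat_lit 5) (nat_lit 15) (nat_lit 4) (nat_lit 342) (nat_lit 314) (nat_lit 124))) (XT.nd (nat_lit 78) (nat_lit 76) (nat_lit 0) (XT.lf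 (nat_lit 0) (nat_lit 583482568783) (nat_lit 228) (nat_lit 150590223774) (nat_lit 76) (nat_lit 330597989671) (nat_lit 14) (nat_lit 5) (nat_lit 17) (nat_lit 5) (nat_lit 15) (nat_lit 4) (nat_lit 343) (nat_lit 314) (nat_lit 123)) (XT.lf (nat_lit 0) (nat_lit 275098910791) (nat_lit 76) (nat_lit 513041915834) (nat_lit 152) (nat_lit 340447858548) (nat_lit 13) (nat_lit 5) (nat_lit 14) (nat_lit 5) (nat_lit 15) (nat_lit 4) (nat_lit 344) (nat_lit 314) (nat_lit 122)))) (XT.nd (nat_lit 156) (nat_lit 152) (nat_lit 0) (XT.nd (nat_lit 78) (nat_lit 0) (nat_lit 0) (XT.lf (nat_lit 0) (nat_lit 743407349443) (nat_lit 76) (nat_lit 269881783579) (nat_lit 152) (nat_lit 184001496329) (nat_lit 13) (nat_lit 5) (nat_lit 14) (nat_lit 5) (nat_lit 15) (nat_lit 4) (nat_lit 345) (nat_lit 314) (nat_lit 121)) (XT.lf (nat_lit 0) (nat_lit 1249180438984) (nat_lit 76) (nat_lit 7268850448) (nat_lit 152) (nat_lit 15039440821)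 (nat_lit 13) (nat_lit 5) (nat_lit 14) (nat_lit 5) (nat_lit 15) (nat_lit 4) (nat_lit 346) (nat_lit 314) (nat_lit 120))) (XT.nd (nat_lit 78) (nat_lit 0) (nat_lit 0) (XT.lf (nat_lit 0) (nat_lit 177236940760) (nat_lit 152) (nat_lit 894526900415) (nat_lit 76) (nat_lit 278082814602) (nat_lit 11) (nat_lit 5) (nat_lit 13) (nat_lit 5) (nat_lit 12) (nat_lit 4) (nat_lit 347) (nat_lit 314) (nat_lit 119)) (XT.lf (nat_lit 0) (nat_lit 384897491226) (nat_lit 152) (nat_lit 462592983859) (nat_lit 76) (nat_lit 586886323193) (nat_lit 11) (nat_lit 5) (nat_lit 13) (nat_lit 5) (nat_lit 12) (nat_lit 4) (nat_lit 348) (nat_lit 314) (nat_lit 118))))))))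
noncomputable def xc120 : XT := (XT.nd (nat_lit 39780) (nat_lit 0) (nat_lit 76) (XT.nd (nat_lit 38688) (nat_lit 0) (nat_lit 836) (XT.nd (nat_lit 38142) (nat_lit 0) (nat_lit 2128) (XT.nd (nat_lit 234) (nat_lit 76) (nat_lit 0) (XT.nd (nat_lit 78) (nat_lit 0) (nat_lit 0) (XT.lf (nat_lit 0) (nat_lit 4100760987) (nat_lit 76) (nat_lit 605168735601) (nat_lit 152) (nat_lit 916391966742) (nat_lit 10) (nat_lit 5) (nat_lit 11) (nat_lit 5) (nat_lit 12) (nat_lit 4) (nat_lit 349) (nat_lit 314) (nat_lit 117)) (XT.nd (nat_lit 78) (nat_lit 0) (nat_lit 0) (XT.lf (nat_lit 0) (nat_lit 534438057152) (nat_lit 76) (nat_lit 329801305073) (nat_lit 152) (nat_lit 758997691396) (nat_lit 10) (nat_lit 5) (nat_lit 11) (nat_lit 5) (nat_lit 12) (nat_lit 4) (nat_lit 350) (nat_lit 314) (nat_lit 116)) (XT.lf (nat_lit 0) (nat_lit 1107202317420) (nat_lit 76) (nat_lit 32404488469) (nat_lit 152) (nat_lit 589011886160) (nat_lit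 10) (nat_lit 5) (nat_lit 11) (nat_lit 5) (nat_lit 12) (nat_lit 4) (nat_lit 351) (nat_lit 314) (nat_lit 115)))) (XT.nd (nat_lit 37752) (nat_lit 0) (nat_lit 2356) (XT.nd (nat_lit 78) (nat_lit 76) (nat_lit 0) (XT.lf (nat_lit 0) (nat_lit 1443948898382) (nat_lit 152) (nat_lit 123588425753) (nat_lit 0) (nat_lit 274337917166) (nat_lit 10) (nat_lit 5) (nat_lit 12) (nat_lit 4) (nat_lit 10) (nat_lit 4) (nat_lit 352) (nat_lit 314) (nat_lit 114)) (XT.lf (nat_lit 0) (nat_lit 434983713650) (nat_lit 76) (nat_lit 1348957678630) (nat_lit 76) (nat_lit 179346679510) (nat_lit 9) (nat_lit 4) (nat_lit 10) (nat_lit 5) (nat_lit 10) (nat_lit 4) (nat_lit 353) (nat_lit 314) (nat_lit 113))) (XT.nd (nat_lit 78) (nat_lit 0) (nat_lit 0) (XT.lf (nat_lit 0) (nat_lit 68143628619) (nat_lit 532) (nat_lit 36476571888) (nat_lit 532) (nat_lit 36476571888) (nat_lit 40) (nat_lit 3) (nat_lit 47) (nat_lit 3) (nat_lit 47) (nat_lit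 5) (nat_lit 315) (nat_lit 315) (nat_lit 150)) (XT.lf (nat_lit 76) (nat_lit 54070031290) (nat_lit 0) (nat_lit 88969842528) (nat_lit 532) (nat_lit 150337319502) (nat_lit 41) (nat_lit 5) (nat_lit 40) (nat_lit 3) (nat_lit 47) (nat_lit 5) (nat_lit 316) (nat_lit 315) (nat_lit 149))))) (XT.nd (nat_lit 234) (nat_lit 304) (nat_lit 0) (XT.nd (nat_lit 78) (nat_lit 0) (nat_lit 0) (XT.lf (nat_lit 0) (nat_lit 153363286945) (nat_lit 456) (nat_lit 110928032712) (nat_lit 532) (nat_lit 40921767412) (nat_lit 41) (nat_lit 5) (nat_lit 47) (nat_lit 5) (nat_lit 48) (nat_lit 5) (nat_lit 317) (nat_lit 315) (nat_lit 148)) (XT.nd (nat_lit 78) (nat_lit 0) (nat_lit 0) (XT.lf (nat_lit 76) (nat_lit 26748546847) (nat_lit 0) (nat_lit 140718165640) (nat_lit 532) (nat_lit 150292808975) (nat_lit 42) (nat_lit 5) (nat_lit 41) (nat_lit 5) (nat_lit 48) (nat_lit 5) (nat_lit 318) (nat_lit 315) (nat_lit 147)) (XT.lf (nat_lit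 76) (nat_lit 181747783692) (nat_lit 0) (nat_lit 3983532572) (nat_lit 532) (nat_lit 145335722279) (nat_lit 42) (nat_lit 5) (nat_lit 41) (nat_lit 5) (nat_lit 48) (nat_lit 5) (nat_lit 319) (nat_lit 315) (nat_lit 146)))) (XT.nd (nat_lit 156) (nat_lit 380) (nat_lit 0) (XT.nd (nat_lit 78) (nat_lit 0) (nat_lit 0) (XT.lf (nat_lit 76) (nat_lit 265281293) (nat_lit 0) (nat_lit 208653872374) (nat_lit 532) (nat_lit 136243038347) (nat_lit 43) (nat_lit 5) (nat_lit 42) (nat_lit 5) (nat_lit 49) (nat_lit 5) (nat_lit 320) (nat_lit 315) (nat_lit 145)) (XT.lf (nat_lit 76) (nat_lit 170199536217) (nat_lit 0) (nat_lit 67945927577) (nat_lit 532) (nat_lit 121904818544) (nat_lit 43) (nat_lit 5) (nat_lit 42) (nat_lit 5) (nat_lit 49) (nat_lit 5) (nat_lit 321) (nat_lit 315) (nat_lit 144))) (XT.nd (nat_lit 78) (nat_lit 456) (nat_lit 0) (XT.lf (nat_lit 0) (nat_lit 271730477515) (nat_lit 456) (nat_lit 24421585817)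 (nat_lit 76) (nat_lit 79815708867) (nat_lit 43) (nat_lit 5) (nat_lit 49) (nat_lit 5) (nat_lit 44) (nat_lit 5) (nat_lit 322) (nat_lit 315) (nat_lit 143)) (XT.lf (nat_lit 0) (nat_lit 160506205080) (nat_lit 456) (nat_lit 153121046636) (nat_lit 532) (nat_lit 79081412982) (nat_lit 37) (nat_lit 5) (nat_lit 43) (nat_lit 5) (nat_lit 44) (nat_lit 5) (nat_lit 323) (nat_lit 315) (nat_lit 142)))))) (XT.nd (nat_lit 546) (nat_lit 532) (nat_lit 0) (XT.nd (nat_lit 234) (nat_lit 456) (nat_lit 0) (XT.nd (nat_lit 78) (nat_lit 304) (nat_lit 0) (XT.lf (nat_lit 0) (nat_lit 359593322018) (nat_lit 532) (nat_lit 49168230052) (nat_lit 76) (nat_lit 1969872379) (nat_lit 37) (nat_lit 5) (nat_lit 44) (nat_lit 5) (nat_lit 38) (nat_lit 5) (nat_lit 324) (nat_lit 315) (nat_lit 141)) (XT.nd (nat_lit 78) (nat_lit 76) (nat_lit 0) (XT.lf (nat_lit 0) (nat_lit 152142299062) (nat_lit 228) (nat_lit 264730532854) (nat_lit 304)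 (nat_lit 12712280915) (nat_lit 34) (nat_lit 5) (nat_lit 37) (nat_lit 5) (nat_lit 38) (nat_lit 5) (nat_lit 325) (nat_lit 315) (nat_lit 140)) (XT.lf (nat_lit 0) (nat_lit 28726757201) (nat_lit 304) (nat_lit 78212941945) (nat_lit 76) (nat_lit 342841671994) (nat_lit 33) (nat_lit 5) (nat_lit 37) (nat_lit 5) (nat_lit 34) (nat_lit 5) (nat_lit 326) (nat_lit 315) (nat_lit 139)))) (XT.nd (nat_lit 156) (nat_lit 228) (nat_lit 0) (XT.nd (nat_lit 78) (nat_lit 0) (nat_lit 0) (XT.lf (nat_lit 0) (nat_lit 77877927741) (nat_lit 304) (nat_lit 329095661975) (nat_lit 76) (nat_lit 64186621183) (nat_lit 30) (nat_lit 5) (nat_lit 34) (nat_lit 5) (nat_lit 31) (nat_lit 5) (nat_lit 327) (nat_lit 315) (nat_lit 138)) (XT.lf (nat_lit 0) (nat_lit 135932835559) (nat_lit 304) (nat_lit 112499243129) (nat_lit 76) (nat_lit 245419547786) (nat_lit 30) (nat_lit 5) (nat_lit 34) (nat_lit 5) (nat_lit 31) (nat_lit 5) (nat_lit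 328) (nat_lit 315) (nat_lit 137))) (XT.nd (nat_lit 78) (nat_lit 0) (nat_lit 0) (XT.lf (nat_lit 0) (nat_lit 127818867157) (nat_lit 228) (nat_lit 73887282089) (nat_lit 304) (nat_lit 316406285107) (nat_lit 27) (nat_lit 5) (nat_lit 30) (nat_lit 5) (nat_lit 31) (nat_lit 5) (nat_lit 329) (nat_lit 315) (nat_lit 136)) (XT.lf (nat_lit 0) (nat_lit 278653758943) (nat_lit 304) (nat_lit 153144250068) (nat_lit 76) (nat_lit 112043103484) (nat_lit 27) (nat_lit 5) (nat_lit 31) (nat_lit 5) (nat_lit 28) (nat_lit 5) (nat_lit 330) (nat_lit 315) (nat_lit 135))))) (XT.nd (nat_lit 234) (nat_lit 228) (nat_lit 0) (XT.nd (nat_lit 78) (nat_lit 152) (nat_lit 0) (XT.lf (nat_lit 0) (nat_lit 106379350233) (nat_lit 152) (nat_lit 259855373503) (nat_lit 228) (nat_lit 205035157546) (nat_lit 25) (nat_lit 5) (nat_lit 27) (nat_lit 5) (nat_lit 28) (nat_lit 5) (nat_lit 331) (nat_lit 315) (nat_lit 134)) (XT.nd (nat_lit 78)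 (nat_lit 152) (nat_lit 0) (XT.lf (nat_lit 0) (nat_lit 395374250768) (nat_lit 152) (nat_lit 69635121661) (nat_lit 228) (nat_lit 135548602700) (nat_lit 25) (nat_lit 5) (nat_lit 27) (nat_lit 5) (nat_lit 28) (nat_lit 5) (nat_lit 332) (nat_lit 315) (nat_lit 133)) (XT.lf (nat_lit 0) (nat_lit 75826689293) (nat_lit 152) (nat_lit 500948970278) (nat_lit 228) (nat_lit 55006283672) (nat_lit 23) (nat_lit 5) (nat_lit 25) (nat_lit 5) (nat_lit 26) (nat_lit 5) (nat_lit 333) (nat_lit 315) (nat_lit 132)))) (XT.nd (nat_lit 156) (nat_lit 0) (nat_lit 0) (XT.nd (nat_lit 78) (nat_lit 152) (nat_lit 0) (XT.lf (nat_lit 0) (nat_lit 37944162187) (nat_lit 228) (nat_lit 276791669247) (nat_lit 76) (nat_lit 350101310463) (nat_lit 22) (nat_lit 5) (nat_lit 25) (nat_lit 5) (nat_lit 23) (nat_lit 5) (nat_lit 334) (nat_lit 315) (nat_lit 131)) (XT.lf (nat_lit 0) (nat_lit 24501918735) (nat_lit 152) (nat_lit 111446204424)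 (nat_lit 228) (nat_lit 564427194779) (nat_lit 20) (nat_lit 5) (nat_lit 22) (nat_lit 5) (nat_lit 23) (nat_lit 5) (nat_lit 335) (nat_lit 315) (nat_lit 130))) (XT.nd (nat_lit 78) (nat_lit 0) (nat_lit 0) (XT.lf (nat_lit 0) (nat_lit 252156889215) (nat_lit 228) (nat_lit 375307300650) (nat_lit 76) (nat_lit 110463199206) (nat_lit 20) (nat_lit 5) (nat_lit 23) (nat_lit 5) (nat_lit 21) (nat_lit 5) (nat_lit 336) (nat_lit 315) (nat_lit 129)) (XT.lf (nat_lit 0) (nat_lit 380557041421) (nat_lit 228) (nat_lit 53590653121) (nat_lit 76) (nat_lit 344104356621) (nat_lit 20) (nat_lit 5) (nat_lit 23) (nat_lit 5) (nat_lit 21) (nat_lit 5) (nat_lit 337) (nat_lit 315) (nat_lit 128))))))) (XT.nd (nat_lit 1092) (nat_lit 0) (nat_lit 0) (XT.nd (nat_lit 546) (nat_lit 304) (nat_lit 0) (XT.nd (nat_lit 234) (nat_lit 228) (nat_lit 0) (XT.nd (nat_lit 78) (nat_lit 76) (nat_lit 0) (XT.lf (nat_lit 0) (nat_lit 309337616716)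 (nat_lit 152) (nat_lit 217331146079) (nat_lit 228) (nat_lit 294538758920) (nat_lit 18) (nat_lit 5) (nat_lit 20) (nat_lit 5) (nat_lit 21) (nat_lit 5) (nat_lit 338) (nat_lit 315) (nat_lit 127)) (XT.nd (nat_lit 78) (nat_lit 76) (nat_lit 0) (XT.lf (nat_lit 0) (nat_lit 686377503894) (nat_lit 228) (nat_lit 163577181443) (nat_lit 76) (nat_lit 17492098066) (nat_lit 18) (nat_lit 5) (nat_lit 21) (nat_lit 5) (nat_lit 19) (nat_lit 4) (nat_lit 339) (nat_lit 315) (nat_lit 126)) (XT.lf (nat_lit 0) (nat_lit 217830742893) (nat_lit 76) (nat_lit 651915982698) (nat_lit 152) (nat_lit 46767757973) (nat_lit 17) (nat_lit 5) (nat_lit 18) (nat_lit 5) (nat_lit 19) (nat_lit 4) (nat_lit 340) (nat_lit 315) (nat_lit 125)))) (XT.nd (nat_lit 156) (nat_lit 0) (nat_lit 0) (XT.nd (nat_lit 78) (nat_lit 152) (nat_lit 0) (XT.lf (nat_lit 0) (nat_lit 97950268092) (nat_lit 152) (nat_lit 332575502708) (nat_lit 76) (nat_lit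 538425650887) (nat_lit 16) (nat_lit 5) (nat_lit 18) (nat_lit 5) (nat_lit 17) (nat_lit 5) (nat_lit 341) (nat_lit 315) (nat_lit 124)) (XT.lf (nat_lit 0) (nat_lit 64850716406) (nat_lit 152) (nat_lit 188427990838) (nat_lit 228) (nat_lit 772082656320) (nat_lit 14) (nat_lit 5) (nat_lit 16) (nat_lit 5) (nat_lit 17) (nat_lit 5) (nat_lit 342) (nat_lit 315) (nat_lit 123))) (XT.nd (nat_lit 78) (nat_lit 0) (nat_lit 0) (XT.lf (nat_lit 0) (nat_lit 432119352335) (nat_lit 228) (nat_lit 574564518166) (nat_lit 76) (nat_lit 78713355860) (nat_lit 14) (nat_lit 5) (nat_lit 17) (nat_lit 5) (nat_lit 15) (nat_lit 4) (nat_lit 343) (nat_lit 315) (nat_lit 122)) (XT.lf (nat_lit 0) (nat_lit 630161467530) (nat_lit 228) (nat_lit 162636957213) (nat_lit 76) (nat_lit 357045995990) (nat_lit 14) (nat_lit 5) (nat_lit 17) (nat_lit 5) (nat_lit 15) (nat_lit 4) (nat_lit 344) (nat_lit 315) (nat_lit 121))))) (XT.nd (nat_lit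 234) (nat_lit 228) (nat_lit 0) (XT.nd (nat_lit 78) (nat_lit 0) (nat_lit 0) (XT.lf (nat_lit 0) (nat_lit 297107295852) (nat_lit 76) (nat_lit 554085079782) (nat_lit 152) (nat_lit 367683381155) (nat_lit 13) (nat_lit 5) (nat_lit 14) (nat_lit 5) (nat_lit 15) (nat_lit 4) (nat_lit 345) (nat_lit 315) (nat_lit 120)) (XT.nd (nat_lit 78) (nat_lit 0) (nat_lit 0) (XT.lf (nat_lit 0) (nat_lit 802880374618) (nat_lit 76) (nat_lit 291472150970) (nat_lit 152) (nat_lit 198721332631) (nat_lit 13) (nat_lit 5) (nat_lit 14) (nat_lit 5) (nat_lit 15) (nat_lit 4) (nat_lit 346) (nat_lit 315) (nat_lit 119)) (XT.lf (nat_lit 0) (nat_lit 1349115278935) (nat_lit 76) (nat_lit 7850196173) (nat_lit 152) (nat_lit 16242333676) (nat_lit 13) (nat_lit 5) (nat_lit 14) (nat_lit 5) (nat_lit 15) (nat_lit 4) (nat_lit 347) (nat_lit 315) (nat_lit 118)))) (XT.nd (nat_lit 156) (nat_lit 76) (nat_lit 0) (XT.nd (nat_lit 78) (nat_lit 0)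 (nat_lit 0) (XT.lf (nat_lit 0) (nat_lit 191416140669) (nat_lit 152) (nat_lit 966088628984) (nat_lit 76) (nat_lit 300329598597) (nat_lit 11) (nat_lit 5) (nat_lit 13) (nat_lit 5) (nat_lit 12) (nat_lit 4) (nat_lit 348) (nat_lit 315) (nat_lit 117)) (XT.lf (nat_lit 0) (nat_lit 415689517050) (nat_lit 152) (nat_lit 499600030472) (nat_lit 76) (nat_lit 633837376110) (nat_lit 11) (nat_lit 5) (nat_lit 13) (nat_lit 5) (nat_lit 12) (nat_lit 4) (nat_lit 349) (nat_lit 315) (nat_lit 116))) (XT.nd (nat_lit 78) (nat_lit 0) (nat_lit 0) (XT.lf (nat_lit 0) (nat_lit 4429204036) (nat_lit 76) (nat_lit 653582071216) (nat_lit 152) (nat_lit 989703087272) (nat_lit 10) (nat_lit 5) (nat_lit 11) (nat_lit 5) (nat_lit 12) (nat_lit 4) (nat_lit 350) (nat_lit 315) (nat_lit 115)) (XT.lf (nat_lit 0) (nat_lit 577193455585) (nat_lit 76) (nat_lit 356185258337) (nat_lit 152) (nat_lit 819717287439) (nat_lit 10) (nat_lit 5)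 (nat_lit 11) (nat_lit 5) (nat_lit 12) (nat_lit 4) (nat_lit 351) (nat_lit 315) (nat_lit 114)))))) (XT.nd (nat_lit 38298) (nat_lit 0) (nat_lit 1520) (XT.nd (nat_lit 37986) (nat_lit 0) (nat_lit 2356) (XT.nd (nat_lit 37830) (nat_lit 0) (nat_lit 2280) (XT.lf (nat_lit 0) (nat_lit 1195778830463) (nat_lit 76) (nat_lit 34996707601) (nat_lit 152) (nat_lit 636132634026) (nat_lit 10) (nat_lit 5) (nat_lit 11) (nat_lit 5) (nat_lit 12) (nat_lit 4) (nat_lit 352) (nat_lit 315) (nat_lit 113)) (XT.nd (nat_lit 78) (nat_lit 0) (nat_lit 0) (XT.lf (nat_lit 0) (nat_lit 73595841831) (nat_lit 532) (nat_lit 39394305719) (nat_lit 532) (nat_lit 39394305719) (nat_lit 40) (nat_lit 3) (nat_lit 47) (nat_lit 3) (nat_lit 47) (nat_lit 5) (nat_lit 316) (nat_lit 316) (nat_lit 148)) (XT.lf (nat_lit 76) (nat_lit 58396397790) (nat_lit 0) (nat_lit 96088023054) (nat_lit 532) (nat_lit 162362833661) (nat_lit 41) (nat_lit 5) (nat_lit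 40) (nat_lit 3) (nat_lit 47) (nat_lit 5) (nat_lit 317) (nat_lit 316) (nat_lit 147)))) (XT.nd (nat_lit 156) (nat_lit 0) (nat_lit 0) (XT.nd (nat_lit 78) (nat_lit 0) (nat_lit 0) (XT.lf (nat_lit 0) (nat_lit 165633593286) (nat_lit 456) (nat_lit 119801448902) (nat_lit 532) (nat_lit 44194987089) (nat_lit 41) (nat_lit 5) (nat_lit 47) (nat_lit 5) (nat_lit 48) (nat_lit 5) (nat_lit 318) (nat_lit 316) (nat_lit 146)) (XT.lf (nat_lit 76) (nat_lit 28889236100) (nat_lit 0) (nat_lit 151975984041) (nat_lit 532) (nat_lit 162314964490) (nat_lit 42) (nat_lit 5) (nat_lit 41) (nat_lit 5) (nat_lit 48) (nat_lit 5) (nat_lit 319) (nat_lit 316) (nat_lit 145))) (XT.nd (nat_lit 78) (nat_lit 0) (nat_lit 76) (XT.lf (nat_lit 76) (nat_lit 196288352225) (nat_lit 0) (nat_lit 4302553280) (nat_lit 532) (nat_lit 156961404873) (nat_lit 42) (nat_lit 5) (nat_lit 41) (nat_lit 5) (nat_lit 48) (nat_lit 5) (nat_lit 320) (nat_lit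 316) (nat_lit 144)) (XT.lf (nat_lit 76) (nat_lit 287327616) (nat_lit 0) (nat_lit 225346374277) (nat_lit 532) (nat_lit 147141380011) (nat_lit 43) (nat_lit 5) (nat_lit 42) (nat_lit 5) (nat_lit 49) (nat_lit 5) (nat_lit 321) (nat_lit 316) (nat_lit 143))))) (XT.nd (nat_lit 234) (nat_lit 532) (nat_lit 0) (XT.nd (nat_lit 78) (nat_lit 380) (nat_lit 0) (XT.lf (nat_lit 76) (nat_lit 183816261910) (nat_lit 0) (nat_lit 73381779665) (nat_lit 532) (nat_lit 131656184209) (nat_lit 43) (nat_lit 5) (nat_lit 42) (nat_lit 5) (nat_lit 49) (nat_lit 5) (nat_lit 322) (nat_lit 316) (nat_lit 142)) (XT.nd (nat_lit 78) (nat_lit 456) (nat_lit 0) (XT.lf (nat_lit 0) (nat_lit 293469782753) (nat_lit 456) (nat_lit 26374529151) (nat_lit 76) (nat_lit 86200809110) (nat_lit 43) (nat_lit 5) (nat_lit 49) (nat_lit 5) (nat_lit 44) (nat_lit 5) (nat_lit 323) (nat_lit 316) (nat_lit 141)) (XT.lf (nat_lit 0) (nat_lit 173347465182)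 (nat_lit 456) (nat_lit 165370787850) (nat_lit 532) (nat_lit 85407035816) (nat_lit 37) (nat_lit 5) (nat_lit 43) (nat_lit 5) (nat_lit 44) (nat_lit 5) (nat_lit 324) (nat_lit 316) (nat_lit 140)))) (XT.nd (nat_lit 156) (nat_lit 304) (nat_lit 0) (XT.nd (nat_lit 78) (nat_lit 228) (nat_lit 0) (XT.lf (nat_lit 0) (nat_lit 388361546850) (nat_lit 532) (nat_lit 53100916138) (nat_lit 76) (nat_lit 2127411607) (nat_lit 37) (nat_lit 5) (nat_lit 44) (nat_lit 5) (nat_lit 38) (nat_lit 5) (nat_lit 325) (nat_lit 316) (nat_lit 139)) (XT.lf (nat_lit 0) (nat_lit 164314435753) (nat_lit 228) (nat_lit 285908943663) (nat_lit 304) (nat_lit 13728481909) (nat_lit 34) (nat_lit 5) (nat_lit 37) (nat_lit 5) (nat_lit 38) (nat_lit 5) (nat_lit 326) (nat_lit 316) (nat_lit 138))) (XT.nd (nat_lit 78) (nat_lit 228) (nat_lit 0) (XT.lf (nat_lit 0) (nat_lit 31025585172) (nat_lit 304) (nat_lit 84469241648) (nat_lit 76) (nat_lit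 370268996569) (nat_lit 33) (nat_lit 5) (nat_lit 37) (nat_lit 5) (nat_lit 34) (nat_lit 5) (nat_lit 327) (nat_lit 316) (nat_lit 137)) (XT.lf (nat_lit 0) (nat_lit 84108817204) (nat_lit 304) (nat_lit 355422544862) (nat_lit 76) (nat_lit 69321611017) (nat_lit 30) (nat_lit 5) (nat_lit 34) (nat_lit 5) (nat_lit 31) (nat_lit 5) (nat_lit 328) (nat_lit 316) (nat_lit 136))))))))
noncomputable def xc121 : XT := (XT.nd (nat_lit 40014) (nat_lit 0) (nat_lit 228) (XT.nd (nat_lit 1092) (nat_lit 456) (nat_lit 0) (XT.nd (nat_lit 546) (nat_lit 456) (nat_lit 0) (XT.nd (nat_lit 234) (nat_lit 380) (nat_lit 0) (XT.nd (nat_lit 78) (nat_lit 228) (nat_lit 0) (XT.lf (nat_lit 0) (nat_lit 146808069111) (nat_lit 304) (nat_lit 121498469551) (nat_lit 76) (nat_lit 265053167294) (nat_lit 30) (nat_lit 5) (nat_lit 34) (nat_lit 5) (nat_lit 31) (nat_lit 5) (nat_lit 329) (nat_lit 316) (nat_lit 135)) (XT.nd (nat_lit 78) (nat_lit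 0) (nat_lit 0) (XT.lf (nat_lit 0) (nat_lit 138045071506) (nat_lit 228) (nat_lit 79798148159) (nat_lit 304) (nat_lit 341718161212) (nat_lit 27) (nat_lit 5) (nat_lit 30) (nat_lit 5) (nat_lit 31) (nat_lit 5) (nat_lit 330) (nat_lit 316) (nat_lit 134)) (XT.lf (nat_lit 0) (nat_lit 300946597883) (nat_lit 304) (nat_lit 165395104519) (nat_lit 76) (nat_lit 121006654234) (nat_lit 27) (nat_lit 5) (nat_lit 31) (nat_lit 5) (nat_lit 28) (nat_lit 5) (nat_lit 331) (nat_lit 316) (nat_lit 133)))) (XT.nd (nat_lit 156) (nat_lit 228) (nat_lit 0) (XT.nd (nat_lit 78) (nat_lit 0) (nat_lit 0) (XT.lf (nat_lit 0) (nat_lit 114890366450) (nat_lit 152) (nat_lit 280643649612) (nat_lit 228) (nat_lit 221437412903) (nat_lit 25) (nat_lit 5) (nat_lit 27) (nat_lit 5) (nat_lit 28) (nat_lit 5) (nat_lit 332) (nat_lit 316) (nat_lit 132)) (XT.lf (nat_lit 0) (nat_lit 427004809531) (nat_lit 152) (nat_lit 75205789012) (nat_lit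 228) (nat_lit 146391974947) (nat_lit 25) (nat_lit 5) (nat_lit 27) (nat_lit 5) (nat_lit 28) (nat_lit 5) (nat_lit 333) (nat_lit 316) (nat_lit 131))) (XT.nd (nat_lit 78) (nat_lit 76) (nat_lit 0) (XT.lf (nat_lit 0) (nat_lit 81893462783) (nat_lit 152) (nat_lit 541024709114) (nat_lit 228) (nat_lit 59406288612) (nat_lit 23) (nat_lit 5) (nat_lit 25) (nat_lit 5) (nat_lit 26) (nat_lit 5) (nat_lit 334) (nat_lit 316) (nat_lit 130)) (XT.lf (nat_lit 0) (nat_lit 40980132990) (nat_lit 228) (nat_lit 298934387445) (nat_lit 76) (nat_lit 378109556562) (nat_lit 22) (nat_lit 5) (nat_lit 25) (nat_lit 5) (nat_lit 23) (nat_lit 5) (nat_lit 335) (nat_lit 316) (nat_lit 129))))) (XT.nd (nat_lit 234) (nat_lit 304) (nat_lit 0) (XT.nd (nat_lit 78) (nat_lit 0) (nat_lit 0) (XT.lf (nat_lit 0) (nat_lit 26462671998) (nat_lit 152) (nat_lit 120361720836) (nat_lit 228) (nat_lit 609580915821) (nat_lit 20) (nat_lit 5) (nat_lit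 22) (nat_lit 5) (nat_lit 23) (nat_lit 5) (nat_lit 336) (nat_lit 316) (nat_lit 128)) (XT.nd (nat_lit 78) (nat_lit 0) (nat_lit 0) (XT.lf (nat_lit 0) (nat_lit 272329833082) (nat_lit 228) (nat_lit 405331301225) (nat_lit 76) (nat_lit 119300413422) (nat_lit 20) (nat_lit 5) (nat_lit 23) (nat_lit 5) (nat_lit 21) (nat_lit 5) (nat_lit 337) (nat_lit 316) (nat_lit 127)) (XT.lf (nat_lit 0) (nat_lit 411001968374) (nat_lit 228) (nat_lit 57877365113) (nat_lit 76) (nat_lit 371632851705) (nat_lit 20) (nat_lit 5) (nat_lit 23) (nat_lit 5) (nat_lit 21) (nat_lit 5) (nat_lit 338) (nat_lit 316) (nat_lit 126)))) (XT.nd (nat_lit 156) (nat_lit 152) (nat_lit 0) (XT.nd (nat_lit 78) (nat_lit 0) (nat_lit 0) (XT.lf (nat_lit 0) (nat_lit 334085152633) (nat_lit 152) (nat_lit 234717460553) (nat_lit 228) (nat_lit 318101481417) (nat_lit 18) (nat_lit 5) (nat_lit 20) (nat_lit 5) (nat_lit 21) (nat_lit 5) (nat_lit 339) (nat_lit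 316) (nat_lit 125)) (XT.lf (nat_lit 0) (nat_lit 741288031639) (nat_lit 228) (nat_lit 176662845618) (nat_lit 76) (nat_lit 18891621789) (nat_lit 18) (nat_lit 5) (nat_lit 21) (nat_lit 5) (nat_lit 19) (nat_lit 4) (nat_lit 340) (nat_lit 316) (nat_lit 124))) (XT.nd (nat_lit 78) (nat_lit 76) (nat_lit 0) (XT.lf (nat_lit 0) (nat_lit 235257699745) (nat_lit 76) (nat_lit 704069079037) (nat_lit 152) (nat_lit 50508837485) (nat_lit 17) (nat_lit 5) (nat_lit 18) (nat_lit 5) (nat_lit 19) (nat_lit 4) (nat_lit 341) (nat_lit 316) (nat_lit 123)) (XT.lf (nat_lit 0) (nat_lit 105786589596) (nat_lit 152) (nat_lit 359181065888) (nat_lit 76) (nat_lit 581499855271) (nat_lit 16) (nat_lit 5) (nat_lit 18) (nat_lit 5) (nat_lit 17) (nat_lit 5) (nat_lit 342) (nat_lit 316) (nat_lit 122)))))) (XT.nd (nat_lit 546) (nat_lit 76) (nat_lit 0) (XT.nd (nat_lit 234) (nat_lit 228) (nat_lit 0) (XT.nd (nat_lit 78) (nat_lit 0) (nat_lit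 0) (XT.lf (nat_lit 0) (nat_lit 70039238678) (nat_lit 152) (nat_lit 203502054158) (nat_lit 228) (nat_lit 833848956079) (nat_lit 14) (nat_lit 5) (nat_lit 16) (nat_lit 5) (nat_lit 17) (nat_lit 5) (nat_lit 343) (nat_lit 316) (nat_lit 121)) (XT.nd (nat_lit 78) (nat_lit 0) (nat_lit 0) (XT.lf (nat_lit 0) (nat_lit 466689172044) (nat_lit 228) (nat_lit 620529231043) (nat_lit 76) (nat_lit 85010579093) (nat_lit 14) (nat_lit 5) (nat_lit 17) (nat_lit 5) (nat_lit 15) (nat_lit 4) (nat_lit 344) (nat_lit 316) (nat_lit 120)) (XT.lf (nat_lit 0) (nat_lit 680574636342) (nat_lit 228) (nat_lit 175647498442) (nat_lit 76) (nat_lit 385609818969) (nat_lit 14) (nat_lit 5) (nat_lit 17) (nat_lit 5) (nat_lit 15) (nat_lit 4) (nat_lit 345) (nat_lit 316) (nat_lit 119)))) (XT.nd (nat_lit 156) (nat_lit 152) (nat_lit 0) (XT.nd (nat_lit 78) (nat_lit 0) (nat_lit 0) (XT.lf (nat_lit 0) (nat_lit 320876284353) (nat_lit 76) (nat_lit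 598411723855) (nat_lit 152) (nat_lit 397097789236) (nat_lit 13) (nat_lit 5) (nat_lit 14) (nat_lit 5) (nat_lit 15) (nat_lit 4) (nat_lit 346) (nat_lit 316) (nat_lit 118)) (XT.lf (nat_lit 0) (nat_lit 867111179433) (nat_lit 76) (nat_lit 314789772761) (nat_lit 152) (nat_lit 214618796268) (nat_lit 13) (nat_lit 5) (nat_lit 14) (nat_lit 5) (nat_lit 15) (nat_lit 4) (nat_lit 347) (nat_lit 316) (nat_lit 117))) (XT.nd (nat_lit 78) (nat_lit 152) (nat_lit 0) (XT.lf (nat_lit 0) (nat_lit 1457044848329) (nat_lit 76) (nat_lit 8478072713) (nat_lit 152) (nat_lit 17541495394) (nat_lit 13) (nat_lit 5) (nat_lit 14) (nat_lit 5) (nat_lit 15) (nat_lit 4) (nat_lit 348) (nat_lit 316) (nat_lit 116)) (XT.lf (nat_lit 0) (nat_lit 206729641669) (nat_lit 152) (nat_lit 1043375356251) (nat_lit 76) (nat_lit 324356102653) (nat_lit 11) (nat_lit 5) (nat_lit 13) (nat_lit 5) (nat_lit 12) (nat_lit 4) (nat_lit 349) (nat_lit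 316) (nat_lit 115))))) (XT.nd (nat_lit 38064) (nat_lit 0) (nat_lit 2280) (XT.nd (nat_lit 78) (nat_lit 76) (nat_lit 0) (XT.lf (nat_lit 0) (nat_lit 448944872623) (nat_lit 152) (nat_lit 539567696750) (nat_lit 76) (nat_lit 684544492281) (nat_lit 11) (nat_lit 5) (nat_lit 13) (nat_lit 5) (nat_lit 12) (nat_lit 4) (nat_lit 350) (nat_lit 316) (nat_lit 114)) (XT.nd (nat_lit 78) (nat_lit 0) (nat_lit 0) (XT.lf (nat_lit 0) (nat_lit 4783868008) (nat_lit 76) (nat_lit 705868496968) (nat_lit 152) (nat_lit 1068879131227) (nat_lit 10) (nat_lit 5) (nat_lit 11) (nat_lit 5) (nat_lit 12) (nat_lit 4) (nat_lit 351) (nat_lit 316) (nat_lit 113)) (XT.lf (nat_lit 0) (nat_lit 623369235410) (nat_lit 76) (nat_lit 384679949425) (nat_lit 152) (nat_lit 885294482447) (nat_lit 10) (nat_lit 5) (nat_lit 11) (nat_lit 5) (nat_lit 12) (nat_lit 4) (nat_lit 352) (nat_lit 316) (nat_lit 112)))) (XT.nd (nat_lit 156) (nat_lit 0)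 (nat_lit 76) (XT.nd (nat_lit 78) (nat_lit 0) (nat_lit 0) (XT.lf (nat_lit 0) (nat_lit 79484128968) (nat_lit 532) (nat_lit 42545514168) (nat_lit 532) (nat_lit 42545514168) (nat_lit 40) (nat_lit 3) (nat_lit 47) (nat_lit 3) (nat_lit 47) (nat_lit 5) (nat_lit 317) (nat_lit 317) (nat_lit 146)) (XT.lf (nat_lit 76) (nat_lit 63068764617) (nat_lit 0) (nat_lit 103775573407) (nat_lit 532) (nat_lit 175350598865) (nat_lit 41) (nat_lit 5) (nat_lit 40) (nat_lit 3) (nat_lit 47) (nat_lit 5) (nat_lit 318) (nat_lit 317) (nat_lit 145))) (XT.nd (nat_lit 78) (nat_lit 0) (nat_lit 0) (XT.lf (nat_lit 0) (nat_lit 178885346752) (nat_lit 456) (nat_lit 129384856286) (nat_lit 532) (nat_lit 47730138768) (nat_lit 41) (nat_lit 5) (nat_lit 47) (nat_lit 5) (nat_lit 48) (nat_lit 5) (nat_lit 319) (nat_lit 317) (nat_lit 144)) (XT.lf (nat_lit 76) (nat_lit 31201065578) (nat_lit 0) (nat_lit 164134375822) (nat_lit 532) (nat_lit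 175299073512) (nat_lit 42) (nat_lit 5) (nat_lit 41) (nat_lit 5) (nat_lit 48) (nat_lit 5) (nat_lit 320) (nat_lit 317) (nat_lit 143))))))) (XT.nd (nat_lit 1092) (nat_lit 912) (nat_lit 0) (XT.nd (nat_lit 546) (nat_lit 684) (nat_lit 0) (XT.nd (nat_lit 234) (nat_lit 532) (nat_lit 0) (XT.nd (nat_lit 78) (nat_lit 0) (nat_lit 76) (XT.lf (nat_lit 76) (nat_lit 211992059839) (nat_lit 0) (nat_lit 4647047410) (nat_lit 532) (nat_lit 169517309728) (nat_lit 42) (nat_lit 5) (nat_lit 41) (nat_lit 5) (nat_lit 48) (nat_lit 5) (nat_lit 321) (nat_lit 317) (nat_lit 142)) (XT.nd (nat_lit 78) (nat_lit 0) (nat_lit 0) (XT.lf (nat_lit 76) (nat_lit 311020118) (nat_lit 0) (nat_lit 243374248925) (nat_lit 532) (nat_lit 158911746135) (nat_lit 43) (nat_lit 5) (nat_lit 42) (nat_lit 5) (nat_lit 49) (nat_lit 5) (nat_lit 322) (nat_lit 317) (nat_lit 141)) (XT.lf (nat_lit 76) (nat_lit 198522216837) (nat_lit 0) (nat_lit 79252474544)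 (nat_lit 532) (nat_lit 142187804616) (nat_lit 43) (nat_lit 5) (nat_lit 42) (nat_lit 5) (nat_lit 49) (nat_lit 5) (nat_lit 323) (nat_lit 317) (nat_lit 140)))) (XT.nd (nat_lit 156) (nat_lit 228) (nat_lit 0) (XT.nd (nat_lit 78) (nat_lit 456) (nat_lit 0) (XT.lf (nat_lit 0) (nat_lit 316948108718) (nat_lit 456) (nat_lit 28483819731) (nat_lit 76) (nat_lit 93096739694) (nat_lit 43) (nat_lit 5) (nat_lit 49) (nat_lit 5) (nat_lit 44) (nat_lit 5) (nat_lit 324) (nat_lit 317) (nat_lit 139)) (XT.lf (nat_lit 0) (nat_lit 187215917142) (nat_lit 456) (nat_lit 178600500161) (nat_lit 532) (nat_lit 92238835474) (nat_lit 37) (nat_lit 5) (nat_lit 43) (nat_lit 5) (nat_lit 44) (nat_lit 5) (nat_lit 325) (nat_lit 317) (nat_lit 138))) (XT.nd (nat_lit 78) (nat_lit 228) (nat_lit 0) (XT.lf (nat_lit 0) (nat_lit 419431121378) (nat_lit 532) (nat_lit 57348327290) (nat_lit 76) (nat_lit 2297561186) (nat_lit 37) (nat_lit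 5) (nat_lit 44) (nat_lit 5) (nat_lit 38) (nat_lit 5) (nat_lit 326) (nat_lit 317) (nat_lit 137)) (XT.lf (nat_lit 0) (nat_lit 177460235990) (nat_lit 228) (nat_lit 308781631877) (nat_lit 304) (nat_lit 14826090469) (nat_lit 34) (nat_lit 5) (nat_lit 37) (nat_lit 5) (nat_lit 38) (nat_lit 5) (nat_lit 327) (nat_lit 317) (nat_lit 136))))) (XT.nd (nat_lit 234) (nat_lit 380) (nat_lit 0) (XT.nd (nat_lit 78) (nat_lit 228) (nat_lit 0) (XT.lf (nat_lit 0) (nat_lit 33508221316) (nat_lit 304) (nat_lit 91226150277) (nat_lit 76) (nat_lit 399890508421) (nat_lit 33) (nat_lit 5) (nat_lit 37) (nat_lit 5) (nat_lit 34) (nat_lit 5) (nat_lit 328) (nat_lit 317) (nat_lit 135)) (XT.nd (nat_lit 78) (nat_lit 0) (nat_lit 0) (XT.lf (nat_lit 0) (nat_lit 90838084346) (nat_lit 304) (nat_lit 383855688240) (nat_lit 76) (nat_lit 74867391459) (nat_lit 30) (nat_lit 5) (nat_lit 34) (nat_lit 5) (nat_lit 31) (nat_lit 5) (nat_lit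 329) (nat_lit 317) (nat_lit 134)) (XT.lf (nat_lit 0) (nat_lit 158553234794) (nat_lit 304) (nat_lit 131217735808) (nat_lit 76) (nat_lit 286257468418) (nat_lit 30) (nat_lit 5) (nat_lit 34) (nat_lit 5) (nat_lit 31) (nat_lit 5) (nat_lit 330) (nat_lit 317) (nat_lit 133)))) (XT.nd (nat_lit 156) (nat_lit 152) (nat_lit 0) (XT.nd (nat_lit 78) (nat_lit 0) (nat_lit 0) (XT.lf (nat_lit 0) (nat_lit 149089273058) (nat_lit 228) (nat_lit 86181900134) (nat_lit 304) (nat_lit 369055076813) (nat_lit 27) (nat_lit 5) (nat_lit 30) (nat_lit 5) (nat_lit 31) (nat_lit 5) (nat_lit 331) (nat_lit 317) (nat_lit 132)) (XT.lf (nat_lit 0) (nat_lit 325022787154) (nat_lit 304) (nat_lit 178626125129) (nat_lit 76) (nat_lit 130687274426) (nat_lit 27) (nat_lit 5) (nat_lit 31) (nat_lit 5) (nat_lit 28) (nat_lit 5) (nat_lit 332) (nat_lit 317) (nat_lit 131))) (XT.nd (nat_lit 78) (nat_lit 0) (nat_lit 0) (XT.lf (nat_lit 0) (nat_lit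 124082168638) (nat_lit 152) (nat_lit 303095009746) (nat_lit 228) (nat_lit 239151928186) (nat_lit 25) (nat_lit 5) (nat_lit 27) (nat_lit 5) (nat_lit 28) (nat_lit 5) (nat_lit 333) (nat_lit 317) (nat_lit 130)) (XT.lf (nat_lit 0) (nat_lit 461165724731) (nat_lit 152) (nat_lit 81222130064) (nat_lit 228) (nat_lit 158102890582) (nat_lit 25) (nat_lit 5) (nat_lit 27) (nat_lit 5) (nat_lit 28) (nat_lit 5) (nat_lit 334) (nat_lit 317) (nat_lit 129)))))) (XT.nd (nat_lit 546) (nat_lit 380) (nat_lit 0) (XT.nd (nat_lit 234) (nat_lit 152) (nat_lit 0) (XT.nd (nat_lit 78) (nat_lit 228) (nat_lit 0) (XT.lf (nat_lit 0) (nat_lit 88445487085) (nat_lit 152) (nat_lit 584306532563) (nat_lit 228) (nat_lit 64158364957) (nat_lit 23) (nat_lit 5) (nat_lit 25) (nat_lit 5) (nat_lit 26) (nat_lit 5) (nat_lit 335) (nat_lit 317) (nat_lit 128)) (XT.nd (nat_lit 78) (nat_lit 152) (nat_lit 0) (XT.lf (nat_lit 0) (nat_lit 44258918996)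 (nat_lit 228) (nat_lit 322848610885) (nat_lit 76) (nat_lit 408358442197) (nat_lit 22) (nat_lit 5) (nat_lit 25) (nat_lit 5) (nat_lit 23) (nat_lit 5) (nat_lit 336) (nat_lit 317) (nat_lit 127)) (XT.lf (nat_lit 0) (nat_lit 28580199958) (nat_lit 152) (nat_lit 129990504231) (nat_lit 228) (nat_lit 658346999391) (nat_lit 20) (nat_lit 5) (nat_lit 22) (nat_lit 5) (nat_lit 23) (nat_lit 5) (nat_lit 337) (nat_lit 317) (nat_lit 126)))) (XT.nd (nat_lit 156) (nat_lit 152) (nat_lit 0) (XT.nd (nat_lit 78) (nat_lit 0) (nat_lit 0) (XT.lf (nat_lit 0) (nat_lit 294116556431) (nat_lit 228) (nat_lit 437757305085) (nat_lit 76) (nat_lit 128844582194) (nat_lit 20) (nat_lit 5) (nat_lit 23) (nat_lit 5) (nat_lit 21) (nat_lit 5) (nat_lit 338) (nat_lit 317) (nat_lit 125)) (XT.lf (nat_lit 0) (nat_lit 443882437605) (nat_lit 228) (nat_lit 62507091139) (nat_lit 76) (nat_lit 401363605488) (nat_lit 20) (nat_lit 5) (nat_lit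 23) (nat_lit 5) (nat_lit 21) (nat_lit 5) (nat_lit 339) (nat_lit 317) (nat_lit 124))) (XT.nd (nat_lit 78) (nat_lit 0) (nat_lit 0) (XT.lf (nat_lit 0) (nat_lit 360812416301) (nat_lit 152) (nat_lit 253494705466) (nat_lit 228) (nat_lit 343549275671) (nat_lit 18) (nat_lit 5) (nat_lit 20) (nat_lit 5) (nat_lit 21) (nat_lit 5) (nat_lit 340) (nat_lit 317) (nat_lit 123)) (XT.lf (nat_lit 0) (nat_lit 800591354892) (nat_lit 228) (nat_lit 190795435733) (nat_lit 76) (nat_lit 20403085172) (nat_lit 18) (nat_lit 5) (nat_lit 21) (nat_lit 5) (nat_lit 19) (nat_lit 4) (nat_lit 341) (nat_lit 317) (nat_lit 122))))) (XT.nd (nat_lit 312) (nat_lit 76) (nat_lit 0) (XT.nd (nat_lit 156) (nat_lit 152) (nat_lit 0) (XT.nd (nat_lit 78) (nat_lit 76) (nat_lit 0) (XT.lf (nat_lit 0) (nat_lit 254078742182) (nat_lit 76) (nat_lit 760394449086) (nat_lit 152) (nat_lit 54549252023) (nat_lit 17) (nat_lit 5) (nat_lit 18) (nat_lit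 5) (nat_lit 19) (nat_lit 4) (nat_lit 342) (nat_lit 317) (nat_lit 121)) (XT.lf (nat_lit 0) (nat_lit 114249774014) (nat_lit 152) (nat_lit 387915142177) (nat_lit 76) (nat_lit 628019974276) (nat_lit 16) (nat_lit 5) (nat_lit 18) (nat_lit 5) (nat_lit 17) (nat_lit 5) (nat_lit 343) (nat_lit 317) (nat_lit 120))) (XT.nd (nat_lit 78) (nat_lit 0) (nat_lit 0) (XT.lf (nat_lit 0) (nat_lit 75642776400) (nat_lit 152) (nat_lit 219782067645) (nat_lit 228) (nat_lit 900556604435) (nat_lit 14) (nat_lit 5) (nat_lit 16) (nat_lit 5) (nat_lit 17) (nat_lit 5) (nat_lit 344) (nat_lit 317) (nat_lit 119)) (XT.lf (nat_lit 0) (nat_lit 504024538595) (nat_lit 228) (nat_lit 670171184945) (nat_lit 76) (nat_lit 91811558106) (nat_lit 14) (nat_lit 5) (nat_lit 17) (nat_lit 5) (nat_lit 15) (nat_lit 4) (nat_lit 345) (nat_lit 317) (nat_lit 118)))) (XT.nd (nat_lit 156) (nat_lit 0) (nat_lit 0) (XT.nd (nat_lit 78) (nat_lit 76)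 (nat_lit 0) (XT.lf (nat_lit 0) (nat_lit 735020822793) (nat_lit 228) (nat_lit 189698942223) (nat_lit 76) (nat_lit 416458727343) (nat_lit 14) (nat_lit 5) (nat_lit 17) (nat_lit 5) (nat_lit 15) (nat_lit 4) (nat_lit 346) (nat_lit 317) (nat_lit 117)) (XT.lf (nat_lit 0) (nat_lit 346546734180) (nat_lit 76) (nat_lit 646284522609) (nat_lit 152) (nat_lit 428865387399) (nat_lit 13) (nat_lit 5) (nat_lit 14) (nat_lit 5) (nat_lit 15) (nat_lit 4) (nat_lit 347) (nat_lit 317) (nat_lit 116))) (XT.nd (nat_lit 78) (nat_lit 0) (nat_lit 0) (XT.lf (nat_lit 0) (nat_lit 936480395157) (nat_lit 76) (nat_lit 339972825735) (nat_lit 152) (nat_lit 231788091659) (nat_lit 13) (nat_lit 5) (nat_lit 14) (nat_lit 5) (nat_lit 15) (nat_lit 4) (nat_lit 348) (nat_lit 317) (nat_lit 115)) (XT.lf (nat_lit 0) (nat_lit 1573608733760) (nat_lit 76) (nat_lit 9156199227) (nat_lit 152) (nat_lit 18944622145) (nat_lit 13) (nat_lit 5)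 (nat_lit 14) (nat_lit 5) (nat_lit 15) (nat_lit 4) (nat_lit 349) (nat_lit 317) (nat_lit 114))))))))
noncomputable def xc122 : XT := (XT.nd (nat_lit 40170) (nat_lit 0) (nat_lit 0) (XT.nd (nat_lit 39078) (nat_lit 0) (nat_lit 456) (XT.nd (nat_lit 38532) (nat_lit 0) (nat_lit 1672) (XT.nd (nat_lit 38220) (nat_lit 0) (nat_lit 2204) (XT.nd (nat_lit 78) (nat_lit 0) (nat_lit 0) (XT.lf (nat_lit 0) (nat_lit 223268192826) (nat_lit 152) (nat_lit 1126845073492) (nat_lit 76) (nat_lit 350304707608) (nat_lit 11) (nat_lit 5) (nat_lit 13) (nat_lit 5) (nat_lit 12) (nat_lit 4) (nat_lit 350) (nat_lit 317) (nat_lit 113)) (XT.nd (nat_lit 38064) (nat_lit 0) (nat_lit 2204) (XT.lf (nat_lit 0) (nat_lit 484860628936) (nat_lit 152) (nat_lit 582732824288) (nat_lit 76) (nat_lit 739308159759) (nat_lit 11) (nat_lit 5) (nat_lit 13) (nat_lit 5) (nat_lit 12) (nat_lit 4) (nat_lit 351) (nat_lit 317) (nat_lit 112)) (XT.lf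 (nat_lit 0) (nat_lit 85843390656) (nat_lit 532) (nat_lit 45948867228) (nat_lit 532) (nat_lit 45948867228) (nat_lit 40) (nat_lit 3) (nat_lit 47) (nat_lit 3) (nat_lit 47) (nat_lit 5) (nat_lit 318) (nat_lit 318) (nat_lit 144)))) (XT.nd (nat_lit 156) (nat_lit 0) (nat_lit 76) (XT.nd (nat_lit 78) (nat_lit 0) (nat_lit 76) (XT.lf (nat_lit 76) (nat_lit 68114827347) (nat_lit 0) (nat_lit 112078055244) (nat_lit 532) (nat_lit 189377565251) (nat_lit 41) (nat_lit 5) (nat_lit 40) (nat_lit 3) (nat_lit 47) (nat_lit 5) (nat_lit 319) (nat_lit 318) (nat_lit 143)) (XT.lf (nat_lit 0) (nat_lit 193197088417) (nat_lit 456) (nat_lit 139735037340) (nat_lit 532) (nat_lit 51548166393) (nat_lit 41) (nat_lit 5) (nat_lit 47) (nat_lit 5) (nat_lit 48) (nat_lit 5) (nat_lit 320) (nat_lit 318) (nat_lit 142))) (XT.nd (nat_lit 78) (nat_lit 0) (nat_lit 0) (XT.lf (nat_lit 76) (nat_lit 33697742895) (nat_lit 0) (nat_lit 177265394284)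 (nat_lit 532) (nat_lit 189322066491) (nat_lit 42) (nat_lit 5) (nat_lit 41) (nat_lit 5) (nat_lit 48) (nat_lit 5) (nat_lit 321) (nat_lit 318) (nat_lit 141)) (XT.lf (nat_lit 76) (nat_lit 228951972839) (nat_lit 0) (nat_lit 5019059718) (nat_lit 532) (nat_lit 183077830708) (nat_lit 42) (nat_lit 5) (nat_lit 41) (nat_lit 5) (nat_lit 48) (nat_lit 5) (nat_lit 322) (nat_lit 318) (nat_lit 140))))) (XT.nd (nat_lit 234) (nat_lit 684) (nat_lit 0) (XT.nd (nat_lit 78) (nat_lit 0) (nat_lit 0) (XT.lf (nat_lit 76) (nat_lit 336507259) (nat_lit 0) (nat_lit 262844330047) (nat_lit 532) (nat_lit 171623876262) (nat_lit 43) (nat_lit 5) (nat_lit 42) (nat_lit 5) (nat_lit 49) (nat_lit 5) (nat_lit 323) (nat_lit 318) (nat_lit 139)) (XT.nd (nat_lit 78) (nat_lit 0) (nat_lit 76) (XT.lf (nat_lit 76) (nat_lit 214404554862) (nat_lit 0) (nat_lit 85592803256) (nat_lit 532) (nat_lit 153562079388) (nat_lit 43) (nat_lit 5)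 (nat_lit 42) (nat_lit 5) (nat_lit 49) (nat_lit 5) (nat_lit 324) (nat_lit 318) (nat_lit 138)) (XT.lf (nat_lit 0) (nat_lit 342304594713) (nat_lit 456) (nat_lit 30761949390) (nat_lit 76) (nat_lit 100544363862) (nat_lit 43) (nat_lit 5) (nat_lit 49) (nat_lit 5) (nat_lit 44) (nat_lit 5) (nat_lit 325) (nat_lit 318) (nat_lit 137)))) (XT.nd (nat_lit 156) (nat_lit 304) (nat_lit 0) (XT.nd (nat_lit 78) (nat_lit 0) (nat_lit 0) (XT.lf (nat_lit 0) (nat_lit 202193751853) (nat_lit 456) (nat_lit 192888582425) (nat_lit 532) (nat_lit 99617287985) (nat_lit 37) (nat_lit 5) (nat_lit 43) (nat_lit 5) (nat_lit 44) (nat_lit 5) (nat_lit 326) (nat_lit 318) (nat_lit 136)) (XT.lf (nat_lit 0) (nat_lit 452986169028) (nat_lit 532) (nat_lit 61935625795) (nat_lit 76) (nat_lit 2481328916) (nat_lit 37) (nat_lit 5) (nat_lit 44) (nat_lit 5) (nat_lit 38) (nat_lit 5) (nat_lit 327) (nat_lit 318) (nat_lit 135))) (XT.nd (nat_lit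 78) (nat_lit 76) (nat_lit 0) (XT.lf (nat_lit 0) (nat_lit 191657608175) (nat_lit 228) (nat_lit 333484139039) (nat_lit 304) (nat_lit 16011603296) (nat_lit 34) (nat_lit 5) (nat_lit 37) (nat_lit 5) (nat_lit 38) (nat_lit 5) (nat_lit 328) (nat_lit 318) (nat_lit 134)) (XT.lf (nat_lit 0) (nat_lit 36189384278) (nat_lit 304) (nat_lit 98523701573) (nat_lit 76) (nat_lit 431881742345) (nat_lit 33) (nat_lit 5) (nat_lit 37) (nat_lit 5) (nat_lit 34) (nat_lit 5) (nat_lit 329) (nat_lit 318) (nat_lit 133)))))) (XT.nd (nat_lit 546) (nat_lit 456) (nat_lit 0) (XT.nd (nat_lit 234) (nat_lit 304) (nat_lit 0) (XT.nd (nat_lit 78) (nat_lit 228) (nat_lit 0) (XT.lf (nat_lit 0) (nat_lit 98105612718) (nat_lit 304) (nat_lit 414563577274) (nat_lit 76) (nat_lit 80856826980) (nat_lit 30) (nat_lit 5) (nat_lit 34) (nat_lit 5) (nat_lit 31) (nat_lit 5) (nat_lit 330) (nat_lit 318) (nat_lit 132)) (XT.nd (nat_lit 78) (nat_lit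 228) (nat_lit 0) (XT.lf (nat_lit 0) (nat_lit 171237939525) (nat_lit 304) (nat_lit 141714630576) (nat_lit 76) (nat_lit 309158106822) (nat_lit 30) (nat_lit 5) (nat_lit 34) (nat_lit 5) (nat_lit 31) (nat_lit 5) (nat_lit 331) (nat_lit 318) (nat_lit 131)) (XT.lf (nat_lit 0) (nat_lit 161016925732) (nat_lit 228) (nat_lit 93076366516) (nat_lit 304) (nat_lit 398579022312) (nat_lit 27) (nat_lit 5) (nat_lit 30) (nat_lit 5) (nat_lit 31) (nat_lit 5) (nat_lit 332) (nat_lit 318) (nat_lit 130)))) (XT.nd (nat_lit 156) (nat_lit 152) (nat_lit 0) (XT.nd (nat_lit 78) (nat_lit 152) (nat_lit 0) (XT.lf (nat_lit 0) (nat_lit 351025005737) (nat_lit 304) (nat_lit 192915711237) (nat_lit 76) (nat_lit 141142331700) (nat_lit 27) (nat_lit 5) (nat_lit 31) (nat_lit 5) (nat_lit 28) (nat_lit 5) (nat_lit 333) (nat_lit 318) (nat_lit 129)) (XT.lf (nat_lit 0) (nat_lit 134009233274) (nat_lit 152) (nat_lit 327342497499) (nat_lit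 228) (nat_lit 258283672848) (nat_lit 25) (nat_lit 5) (nat_lit 27) (nat_lit 5) (nat_lit 28) (nat_lit 5) (nat_lit 334) (nat_lit 318) (nat_lit 128))) (XT.nd (nat_lit 78) (nat_lit 152) (nat_lit 0) (XT.lf (nat_lit 0) (nat_lit 498059437474) (nat_lit 152) (nat_lit 87719795814) (nat_lit 228) (nat_lit 170750742576) (nat_lit 25) (nat_lit 5) (nat_lit 27) (nat_lit 5) (nat_lit 28) (nat_lit 5) (nat_lit 335) (nat_lit 318) (nat_lit 127)) (XT.lf (nat_lit 0) (nat_lit 95521595255) (nat_lit 152) (nat_lit 631050923755) (nat_lit 228) (nat_lit 69290668290) (nat_lit 23) (nat_lit 5) (nat_lit 25) (nat_lit 5) (nat_lit 26) (nat_lit 5) (nat_lit 336) (nat_lit 318) (nat_lit 126))))) (XT.nd (nat_lit 234) (nat_lit 228) (nat_lit 0) (XT.nd (nat_lit 78) (nat_lit 152) (nat_lit 0) (XT.lf (nat_lit 0) (nat_lit 47799954332) (nat_lit 228) (nat_lit 348676047461) (nat_lit 76) (nat_lit 441027221404) (nat_lit 22) (nat_lit 5) (nat_lit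 25) (nat_lit 5) (nat_lit 23) (nat_lit 5) (nat_lit 337) (nat_lit 318) (nat_lit 125)) (XT.nd (nat_lit 78) (nat_lit 0) (nat_lit 0) (XT.lf (nat_lit 0) (nat_lit 30867056798) (nat_lit 152) (nat_lit 140389612306) (nat_lit 228) (nat_lit 711014425241) (nat_lit 20) (nat_lit 5) (nat_lit 22) (nat_lit 5) (nat_lit 23) (nat_lit 5) (nat_lit 338) (nat_lit 318) (nat_lit 124)) (XT.lf (nat_lit 0) (nat_lit 317646169614) (nat_lit 228) (nat_lit 472777460618) (nat_lit 76) (nat_lit 139152265109) (nat_lit 20) (nat_lit 5) (nat_lit 23) (nat_lit 5) (nat_lit 21) (nat_lit 5) (nat_lit 339) (nat_lit 318) (nat_lit 123)))) (XT.nd (nat_lit 156) (nat_lit 76) (nat_lit 0) (XT.nd (nat_lit 78) (nat_lit 152) (nat_lit 0) (XT.lf (nat_lit 0) (nat_lit 479393299899) (nat_lit 228) (nat_lit 67507261325) (nat_lit 76) (nat_lit 433472801649) (nat_lit 20) (nat_lit 5) (nat_lit 23) (nat_lit 5) (nat_lit 21) (nat_lit 5) (nat_lit 340) (nat_lit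 318) (nat_lit 122)) (XT.lf (nat_lit 0) (nat_lit 389677796657) (nat_lit 152) (nat_lit 273774151646) (nat_lit 228) (nat_lit 371032939724) (nat_lit 18) (nat_lit 5) (nat_lit 20) (nat_lit 5) (nat_lit 21) (nat_lit 5) (nat_lit 341) (nat_lit 318) (nat_lit 121))) (XT.nd (nat_lit 78) (nat_lit 76) (nat_lit 0) (XT.lf (nat_lit 0) (nat_lit 864638903958) (nat_lit 228) (nat_lit 206058695476) (nat_lit 76) (nat_lit 22035446560) (nat_lit 18) (nat_lit 5) (nat_lit 21) (nat_lit 5) (nat_lit 19) (nat_lit 4) (nat_lit 342) (nat_lit 318) (nat_lit 120)) (XT.lf (nat_lit 0) (nat_lit 274405407175) (nat_lit 76) (nat_lit 821225871033) (nat_lit 152) (nat_lit 58912941447) (nat_lit 17) (nat_lit 5) (nat_lit 18) (nat_lit 5) (nat_lit 19) (nat_lit 4) (nat_lit 343) (nat_lit 318) (nat_lit 119))))))) (XT.nd (nat_lit 39156) (nat_lit 0) (nat_lit 684) (XT.nd (nat_lit 546) (nat_lit 152) (nat_lit 0) (XT.nd (nat_lit 234) (nat_lit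 76) (nat_lit 0) (XT.nd (nat_lit 78) (nat_lit 152) (nat_lit 0) (XT.lf (nat_lit 0) (nat_lit 123389976486) (nat_lit 152) (nat_lit 418948002915) (nat_lit 76) (nat_lit 678261684173) (nat_lit 16) (nat_lit 5) (nat_lit 18) (nat_lit 5) (nat_lit 17) (nat_lit 5) (nat_lit 344) (nat_lit 318) (nat_lit 118)) (XT.nd (nat_lit 78) (nat_lit 0) (nat_lit 0) (XT.lf (nat_lit 0) (nat_lit 81694540272) (nat_lit 152) (nat_lit 237364503730) (nat_lit 228) (nat_lit 972600902912) (nat_lit 14) (nat_lit 5) (nat_lit 16) (nat_lit 5) (nat_lit 17) (nat_lit 5) (nat_lit 345) (nat_lit 318) (nat_lit 117)) (XT.lf (nat_lit 0) (nat_lit 544346701260) (nat_lit 228) (nat_lit 723784550023) (nat_lit 76) (nat_lit 99156596511) (nat_lit 14) (nat_lit 5) (nat_lit 17) (nat_lit 5) (nat_lit 15) (nat_lit 4) (nat_lit 346) (nat_lit 318) (nat_lit 116)))) (XT.nd (nat_lit 156) (nat_lit 0) (nat_lit 0) (XT.nd (nat_lit 78) (nat_lit 76) (nat_lit 0)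 (XT.lf (nat_lit 0) (nat_lit 793822673410) (nat_lit 228) (nat_lit 204874552308) (nat_lit 76) (nat_lit 449775530861) (nat_lit 14) (nat_lit 5) (nat_lit 17) (nat_lit 5) (nat_lit 15) (nat_lit 4) (nat_lit 347) (nat_lit 318) (nat_lit 115)) (XT.lf (nat_lit 0) (nat_lit 374270770479) (nat_lit 76) (nat_lit 697987165115) (nat_lit 152) (nat_lit 463174425511) (nat_lit 13) (nat_lit 5) (nat_lit 14) (nat_lit 5) (nat_lit 15) (nat_lit 4) (nat_lit 348) (nat_lit 318) (nat_lit 114))) (XT.nd (nat_lit 78) (nat_lit 0) (nat_lit 0) (XT.lf (nat_lit 0) (nat_lit 1011399102292) (nat_lit 76) (nat_lit 367170541329) (nat_lit 152) (nat_lit 250330960398) (nat_lit 13) (nat_lit 5) (nat_lit 14) (nat_lit 5) (nat_lit 15) (nat_lit 4) (nat_lit 349) (nat_lit 318) (nat_lit 113)) (XT.lf (nat_lit 0) (nat_lit 1699497687574) (nat_lit 76) (nat_lit 9888592883) (nat_lit 152) (nat_lit 20460026553) (nat_lit 13) (nat_lit 5) (nat_lit 14)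 (nat_lit 5) (nat_lit 15) (nat_lit 4) (nat_lit 350) (nat_lit 318) (nat_lit 112))))) (XT.nd (nat_lit 38298) (nat_lit 0) (nat_lit 2280) (XT.nd (nat_lit 38142) (nat_lit 0) (nat_lit 2204) (XT.lf (nat_lit 0) (nat_lit 241129802422) (nat_lit 152) (nat_lit 1216992412517) (nat_lit 76) (nat_lit 378329184305) (nat_lit 11) (nat_lit 5) (nat_lit 13) (nat_lit 5) (nat_lit 12) (nat_lit 4) (nat_lit 351) (nat_lit 318) (nat_lit 111)) (XT.nd (nat_lit 78) (nat_lit 0) (nat_lit 0) (XT.lf (nat_lit 0) (nat_lit 92711317472) (nat_lit 532) (nat_lit 49624529630) (nat_lit 532) (nat_lit 49624529630) (nat_lit 40) (nat_lit 3) (nat_lit 47) (nat_lit 3) (nat_lit 47) (nat_lit 5) (nat_lit 319) (nat_lit 319) (nat_lit 142)) (XT.lf (nat_lit 76) (nat_lit 73564494982) (nat_lit 0) (nat_lit 121044673432) (nat_lit 532) (nat_lit 204526843239) (nat_lit 41) (nat_lit 5) (nat_lit 40) (nat_lit 3) (nat_lit 47) (nat_lit 5) (nat_lit 320)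 (nat_lit 319) (nat_lit 141)))) (XT.nd (nat_lit 156) (nat_lit 0) (nat_lit 0) (XT.nd (nat_lit 78) (nat_lit 0) (nat_lit 0) (XT.lf (nat_lit 0) (nat_lit 208653639034) (nat_lit 456) (nat_lit 150913319538) (nat_lit 532) (nat_lit 55671690934) (nat_lit 41) (nat_lit 5) (nat_lit 47) (nat_lit 5) (nat_lit 48) (nat_lit 5) (nat_lit 321) (nat_lit 319) (nat_lit 140)) (XT.lf (nat_lit 76) (nat_lit 36394069931) (nat_lit 0) (nat_lit 191446855934) (nat_lit 532) (nat_lit 204467031997) (nat_lit 42) (nat_lit 5) (nat_lit 41) (nat_lit 5) (nat_lit 48) (nat_lit 5) (nat_lit 322) (nat_lit 319) (nat_lit 139))) (XT.nd (nat_lit 78) (nat_lit 0) (nat_lit 76) (XT.lf (nat_lit 76) (nat_lit 247268600671) (nat_lit 0) (nat_lit 5420797558) (nat_lit 532) (nat_lit 197723316597) (nat_lit 42) (nat_lit 5) (nat_lit 41) (nat_lit 5) (nat_lit 48) (nat_lit 5) (nat_lit 323) (nat_lit 319) (nat_lit 138)) (XT.lf (nat_lit 76) (nat_lit 363946986)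 (nat_lit 0) (nat_lit 283871997514) (nat_lit 532) (nat_lit 185353092291) (nat_lit 43) (nat_lit 5) (nat_lit 42) (nat_lit 5) (nat_lit 49) (nat_lit 5) (nat_lit 324) (nat_lit 319) (nat_lit 137)))))) (XT.nd (nat_lit 546) (nat_lit 760) (nat_lit 0) (XT.nd (nat_lit 234) (nat_lit 532) (nat_lit 0) (XT.nd (nat_lit 78) (nat_lit 380) (nat_lit 0) (XT.lf (nat_lit 76) (nat_lit 231557399942) (nat_lit 0) (nat_lit 92440339612) (nat_lit 532) (nat_lit 165846403081) (nat_lit 43) (nat_lit 5) (nat_lit 42) (nat_lit 5) (nat_lit 49) (nat_lit 5) (nat_lit 325) (nat_lit 319) (nat_lit 136)) (XT.nd (nat_lit 78) (nat_lit 456) (nat_lit 0) (XT.lf (nat_lit 0) (nat_lit 369689508670) (nat_lit 456) (nat_lit 33222411583) (nat_lit 76) (nat_lit 108587814371) (nat_lit 43) (nat_lit 5) (nat_lit 49) (nat_lit 5) (nat_lit 44) (nat_lit 5) (nat_lit 326) (nat_lit 319) (nat_lit 135)) (XT.lf (nat_lit 0) (nat_lit 218369733259) (nat_lit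 456) (nat_lit 208319705243) (nat_lit 532) (nat_lit 107586110043) (nat_lit 37) (nat_lit 5) (nat_lit 43) (nat_lit 5) (nat_lit 44) (nat_lit 5) (nat_lit 327) (nat_lit 319) (nat_lit 134)))) (XT.nd (nat_lit 156) (nat_lit 304) (nat_lit 0) (XT.nd (nat_lit 78) (nat_lit 228) (nat_lit 0) (XT.lf (nat_lit 0) (nat_lit 489225540894) (nat_lit 532) (nat_lit 66889989167) (nat_lit 76) (nat_lit 2679803366) (nat_lit 37) (nat_lit 5) (nat_lit 44) (nat_lit 5) (nat_lit 38) (nat_lit 5) (nat_lit 328) (nat_lit 319) (nat_lit 133)) (XT.lf (nat_lit 0) (nat_lit 206990691199) (nat_lit 228) (nat_lit 360162850110) (nat_lit 304) (nat_lit 17292039095) (nat_lit 34) (nat_lit 5) (nat_lit 37) (nat_lit 5) (nat_lit 38) (nat_lit 5) (nat_lit 329) (nat_lit 319) (nat_lit 132))) (XT.nd (nat_lit 78) (nat_lit 228) (nat_lit 0) (XT.lf (nat_lit 0) (nat_lit 39084968196) (nat_lit 304) (nat_lit 106405134113) (nat_lit 76) (nat_lit 466432275945)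 (nat_lit 33) (nat_lit 5) (nat_lit 37) (nat_lit 5) (nat_lit 34) (nat_lit 5) (nat_lit 330) (nat_lit 319) (nat_lit 131)) (XT.lf (nat_lit 0) (nat_lit 105954474651) (nat_lit 304) (nat_lit 447728178181) (nat_lit 76) (nat_lit 87325411036) (nat_lit 30) (nat_lit 5) (nat_lit 34) (nat_lit 5) (nat_lit 31) (nat_lit 5) (nat_lit 331) (nat_lit 319) (nat_lit 130))))) (XT.nd (nat_lit 312) (nat_lit 380) (nat_lit 0) (XT.nd (nat_lit 156) (nat_lit 152) (nat_lit 0) (XT.nd (nat_lit 78) (nat_lit 228) (nat_lit 0) (XT.lf (nat_lit 0) (nat_lit 184937357016) (nat_lit 304) (nat_lit 153051351693) (nat_lit 76) (nat_lit 333890790458) (nat_lit 30) (nat_lit 5) (nat_lit 34) (nat_lit 5) (nat_lit 31) (nat_lit 5) (nat_lit 332) (nat_lit 319) (nat_lit 129)) (XT.lf (nat_lit 0) (nat_lit 173898717744) (nat_lit 228) (nat_lit 100522402425) (nat_lit 304) (nat_lit 430464949168) (nat_lit 27) (nat_lit 5) (nat_lit 30) (nat_lit 5) (nat_lit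 31) (nat_lit 5) (nat_lit 333) (nat_lit 319) (nat_lit 128))) (XT.nd (nat_lit 78) (nat_lit 152) (nat_lit 0) (XT.lf (nat_lit 0) (nat_lit 379107345368) (nat_lit 304) (nat_lit 208348536121) (nat_lit 76) (nat_lit 152433782810) (nat_lit 27) (nat_lit 5) (nat_lit 31) (nat_lit 5) (nat_lit 28) (nat_lit 5) (nat_lit 334) (nat_lit 319) (nat_lit 127)) (XT.lf (nat_lit 0) (nat_lit 144730393014) (nat_lit 152) (nat_lit 353529800396) (nat_lit 228) (nat_lit 278946015516) (nat_lit 25) (nat_lit 5) (nat_lit 27) (nat_lit 5) (nat_lit 28) (nat_lit 5) (nat_lit 335) (nat_lit 319) (nat_lit 126)))) (XT.nd (nat_lit 156) (nat_lit 228) (nat_lit 0) (XT.nd (nat_lit 78) (nat_lit 152) (nat_lit 0) (XT.lf (nat_lit 0) (nat_lit 537904582359) (nat_lit 152) (nat_lit 94737289755) (nat_lit 228) (nat_lit 184410476834) (nat_lit 25) (nat_lit 5) (nat_lit 27) (nat_lit 5) (nat_lit 28) (nat_lit 5) (nat_lit 336) (nat_lit 319) (nat_lit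 125)) (XT.lf (nat_lit 0) (nat_lit 103163725141) (nat_lit 152) (nat_lit 681534884990) (nat_lit 228) (nat_lit 74833608084) (nat_lit 23) (nat_lit 5) (nat_lit 25) (nat_lit 5) (nat_lit 26) (nat_lit 5) (nat_lit 337) (nat_lit 319) (nat_lit 124))) (XT.nd (nat_lit 78) (nat_lit 152) (nat_lit 0) (XT.lf (nat_lit 0) (nat_lit 51624226585) (nat_lit 228) (nat_lit 376569743489) (nat_lit 76) (nat_lit 476309488136) (nat_lit 22) (nat_lit 5) (nat_lit 25) (nat_lit 5) (nat_lit 23) (nat_lit 5) (nat_lit 338) (nat_lit 319) (nat_lit 123)) (XT.lf (nat_lit 0) (nat_lit 33336799295) (nat_lit 152) (nat_lit 151620667896) (nat_lit 228) (nat_lit 767895292823) (nat_lit 20) (nat_lit 5) (nat_lit 22) (nat_lit 5) (nat_lit 23) (nat_lit 5) (nat_lit 339) (nat_lit 319) (nat_lit 122))))))))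
noncomputable def xc123 : XT := (XT.nd (nat_lit 40404) (nat_lit 0) (nat_lit 0) (XT.nd (nat_lit 39312) (nat_lit 0) (nat_lit 912) (XT.nd (nat_lit 546) (nat_lit 76) (nat_lit 0) (XT.nd (nat_lit 234) (nat_lit 304) (nat_lit 0) (XT.nd (nat_lit 78) (nat_lit 152) (nat_lit 0) (XT.lf (nat_lit 0) (nat_lit 343058110669) (nat_lit 228) (nat_lit 510599289778) (nat_lit 76) (nat_lit 150284546060) (nat_lit 20) (nat_lit 5) (nat_lit 23) (nat_lit 5) (nat_lit 21) (nat_lit 5) (nat_lit 340) (nat_lit 319) (nat_lit 121)) (XT.nd (nat_lit 78) (nat_lit 152) (nat_lit 0) (XT.lf (nat_lit 0) (nat_lit 517744993045) (nat_lit 228) (nat_lit 72907501778) (nat_lit 76) (nat_lit 468150718135) (nat_lit 20) (nat_lit 5) (nat_lit 23) (nat_lit 5) (nat_lit 21) (nat_lit 5) (nat_lit 341) (nat_lit 319) (nat_lit 120)) (XT.lf (nat_lit 0) (nat_lit 420852352224) (nat_lit 152) (nat_lit 295675972104) (nat_lit 228) (nat_lit 400715336561)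 (nat_lit 18) (nat_lit 5) (nat_lit 20) (nat_lit 5) (nat_lit 21) (nat_lit 5) (nat_lit 342) (nat_lit 319) (nat_lit 119)))) (XT.nd (nat_lit 156) (nat_lit 228) (nat_lit 0) (XT.nd (nat_lit 78) (nat_lit 76) (nat_lit 0) (XT.lf (nat_lit 0) (nat_lit 933810222613) (nat_lit 228) (nat_lit 222543069514) (nat_lit 76) (nat_lit 23798380514) (nat_lit 18) (nat_lit 5) (nat_lit 21) (nat_lit 5) (nat_lit 19) (nat_lit 4) (nat_lit 343) (nat_lit 319) (nat_lit 118)) (XT.lf (nat_lit 0) (nat_lit 296358153208) (nat_lit 76) (nat_lit 886923825850) (nat_lit 152) (nat_lit 63625761796) (nat_lit 17) (nat_lit 5) (nat_lit 18) (nat_lit 5) (nat_lit 19) (nat_lit 4) (nat_lit 344) (nat_lit 319) (nat_lit 117))) (XT.nd (nat_lit 78) (nat_lit 152) (nat_lit 0) (XT.lf (nat_lit 0) (nat_lit 133261363692) (nat_lit 152) (nat_lit 452463542534) (nat_lit 76) (nat_lit 732522714890) (nat_lit 16) (nat_lit 5) (nat_lit 18) (nat_lit 5) (nat_lit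 17) (nat_lit 5) (nat_lit 345) (nat_lit 319) (nat_lit 116)) (XT.lf (nat_lit 0) (nat_lit 88230396497) (nat_lit 152) (nat_lit 256353553152) (nat_lit 228) (nat_lit 1050408778061) (nat_lit 14) (nat_lit 5) (nat_lit 16) (nat_lit 5) (nat_lit 17) (nat_lit 5) (nat_lit 346) (nat_lit 319) (nat_lit 115))))) (XT.nd (nat_lit 234) (nat_lit 0) (nat_lit 0) (XT.nd (nat_lit 78) (nat_lit 76) (nat_lit 0) (XT.lf (nat_lit 0) (nat_lit 587894608466) (nat_lit 228) (nat_lit 781687031346) (nat_lit 76) (nat_lit 107089221760) (nat_lit 14) (nat_lit 5) (nat_lit 17) (nat_lit 5) (nat_lit 15) (nat_lit 4) (nat_lit 347) (nat_lit 319) (nat_lit 114)) (XT.nd (nat_lit 78) (nat_lit 76) (nat_lit 0) (XT.lf (nat_lit 0) (nat_lit 857328645714) (nat_lit 228) (nat_lit 221264254753) (nat_lit 76) (nat_lit 485757663633) (nat_lit 14) (nat_lit 5) (nat_lit 17) (nat_lit 5) (nat_lit 15) (nat_lit 4) (nat_lit 348) (nat_lit 319) (nat_lit 113))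 (XT.lf (nat_lit 0) (nat_lit 404212687231) (nat_lit 76) (nat_lit 753826036041) (nat_lit 152) (nat_lit 500228214188) (nat_lit 13) (nat_lit 5) (nat_lit 14) (nat_lit 5) (nat_lit 15) (nat_lit 4) (nat_lit 349) (nat_lit 319) (nat_lit 112)))) (XT.nd (nat_lit 38376) (nat_lit 0) (nat_lit 2052) (XT.nd (nat_lit 38298) (nat_lit 0) (nat_lit 2052) (XT.lf (nat_lit 0) (nat_lit 1092311266692) (nat_lit 76) (nat_lit 396544089929) (nat_lit 152) (nat_lit 270357284116) (nat_lit 13) (nat_lit 5) (nat_lit 14) (nat_lit 5) (nat_lit 15) (nat_lit 4) (nat_lit 350) (nat_lit 319) (nat_lit 111)) (XT.lf (nat_lit 0) (nat_lit 100128613443) (nat_lit 532) (nat_lit 53594280258) (nat_lit 532) (nat_lit 53594280258) (nat_lit 40) (nat_lit 3) (nat_lit 47) (nat_lit 3) (nat_lit 47) (nat_lit 5) (nat_lit 320) (nat_lit 320) (nat_lit 140))) (XT.nd (nat_lit 78) (nat_lit 0) (nat_lit 76) (XT.lf (nat_lit 76) (nat_lit 79450067344) (nat_lit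 0) (nat_lit 130728567753) (nat_lit 532) (nat_lit 220888195746) (nat_lit 41) (nat_lit 5) (nat_lit 40) (nat_lit 3) (nat_lit 47) (nat_lit 5) (nat_lit 321) (nat_lit 320) (nat_lit 139)) (XT.lf (nat_lit 0) (nat_lit 225346601919) (nat_lit 456) (nat_lit 162985938608) (nat_lit 532) (nat_lit 60125144342) (nat_lit 41) (nat_lit 5) (nat_lit 47) (nat_lit 5) (nat_lit 48) (nat_lit 5) (nat_lit 322) (nat_lit 320) (nat_lit 138)))))) (XT.nd (nat_lit 546) (nat_lit 912) (nat_lit 0) (XT.nd (nat_lit 234) (nat_lit 304) (nat_lit 0) (XT.nd (nat_lit 78) (nat_lit 0) (nat_lit 0) (XT.lf (nat_lit 76) (nat_lit 39306030715) (nat_lit 0) (nat_lit 206762801688) (nat_lit 532) (nat_lit 220823708846) (nat_lit 42) (nat_lit 5) (nat_lit 41) (nat_lit 5) (nat_lit 48) (nat_lit 5) (nat_lit 323) (nat_lit 320) (nat_lit 137)) (XT.nd (nat_lit 78) (nat_lit 0) (nat_lit 76) (XT.lf (nat_lit 76) (nat_lit 267050491678) (nat_lit 0) (nat_lit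 5854644028) (nat_lit 532) (nat_lit 213540547007) (nat_lit 42) (nat_lit 5) (nat_lit 41) (nat_lit 5) (nat_lit 48) (nat_lit 5) (nat_lit 324) (nat_lit 320) (nat_lit 136)) (XT.lf (nat_lit 76) (nat_lit 393507829) (nat_lit 0) (nat_lit 306581861108) (nat_lit 532) (nat_lit 200180744621) (nat_lit 43) (nat_lit 5) (nat_lit 42) (nat_lit 5) (nat_lit 49) (nat_lit 5) (nat_lit 325) (nat_lit 320) (nat_lit 135)))) (XT.nd (nat_lit 156) (nat_lit 380) (nat_lit 0) (XT.nd (nat_lit 78) (nat_lit 0) (nat_lit 76) (XT.lf (nat_lit 76) (nat_lit 250082404052) (nat_lit 0) (nat_lit 99835662885) (nat_lit 532) (nat_lit 179113564351) (nat_lit 43) (nat_lit 5) (nat_lit 42) (nat_lit 5) (nat_lit 49) (nat_lit 5) (nat_lit 326) (nat_lit 320) (nat_lit 134)) (XT.lf (nat_lit 0) (nat_lit 399265137797) (nat_lit 456) (nat_lit 35879781192) (nat_lit 76) (nat_lit 117274754987) (nat_lit 43) (nat_lit 5) (nat_lit 49) (nat_lit 5) (nat_lit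 44) (nat_lit 5) (nat_lit 327) (nat_lit 320) (nat_lit 133))) (XT.nd (nat_lit 78) (nat_lit 0) (nat_lit 0) (XT.lf (nat_lit 0) (nat_lit 235839724521) (nat_lit 456) (nat_lit 224985312719) (nat_lit 532) (nat_lit 116192517897) (nat_lit 37) (nat_lit 5) (nat_lit 43) (nat_lit 5) (nat_lit 44) (nat_lit 5) (nat_lit 328) (nat_lit 320) (nat_lit 132)) (XT.lf (nat_lit 0) (nat_lit 528363994268) (nat_lit 532) (nat_lit 72240771041) (nat_lit 76) (nat_lit 2894160318) (nat_lit 37) (nat_lit 5) (nat_lit 44) (nat_lit 5) (nat_lit 38) (nat_lit 5) (nat_lit 329) (nat_lit 320) (nat_lit 131))))) (XT.nd (nat_lit 234) (nat_lit 380) (nat_lit 0) (XT.nd (nat_lit 78) (nat_lit 304) (nat_lit 0) (XT.lf (nat_lit 0) (nat_lit 223550353192) (nat_lit 228) (nat_lit 388975860928) (nat_lit 304) (nat_lit 18674980014) (nat_lit 34) (nat_lit 5) (nat_lit 37) (nat_lit 5) (nat_lit 38) (nat_lit 5) (nat_lit 330) (nat_lit 320) (nat_lit 130))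 (XT.nd (nat_lit 78) (nat_lit 228) (nat_lit 0) (XT.lf (nat_lit 0) (nat_lit 42212137029) (nat_lit 304) (nat_lit 114917147392) (nat_lit 76) (nat_lit 503746853059) (nat_lit 33) (nat_lit 5) (nat_lit 37) (nat_lit 5) (nat_lit 34) (nat_lit 5) (nat_lit 331) (nat_lit 320) (nat_lit 129)) (XT.lf (nat_lit 0) (nat_lit 114431186631) (nat_lit 304) (nat_lit 483546016390) (nat_lit 76) (nat_lit 94311476411) (nat_lit 30) (nat_lit 5) (nat_lit 34) (nat_lit 5) (nat_lit 31) (nat_lit 5) (nat_lit 332) (nat_lit 320) (nat_lit 128)))) (XT.nd (nat_lit 156) (nat_lit 152) (nat_lit 0) (XT.nd (nat_lit 78) (nat_lit 228) (nat_lit 0) (XT.lf (nat_lit 0) (nat_lit 199732673362) (nat_lit 304) (nat_lit 165295074601) (nat_lit 76) (nat_lit 360602083780) (nat_lit 30) (nat_lit 5) (nat_lit 34) (nat_lit 5) (nat_lit 31) (nat_lit 5) (nat_lit 333) (nat_lit 320) (nat_lit 127)) (XT.lf (nat_lit 0) (nat_lit 187810990638) (nat_lit 228)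 (nat_lit 108564131680) (nat_lit 304) (nat_lit 464901806513) (nat_lit 27) (nat_lit 5) (nat_lit 30) (nat_lit 5) (nat_lit 31) (nat_lit 5) (nat_lit 334) (nat_lit 320) (nat_lit 126))) (XT.nd (nat_lit 78) (nat_lit 152) (nat_lit 0) (XT.lf (nat_lit 0) (nat_lit 409436223784) (nat_lit 304) (nat_lit 225016048627) (nat_lit 76) (nat_lit 164628540797) (nat_lit 27) (nat_lit 5) (nat_lit 31) (nat_lit 5) (nat_lit 28) (nat_lit 5) (nat_lit 335) (nat_lit 320) (nat_lit 125)) (XT.lf (nat_lit 0) (nat_lit 156309185462) (nat_lit 152) (nat_lit 381812101350) (nat_lit 228) (nat_lit 301261395694) (nat_lit 25) (nat_lit 5) (nat_lit 27) (nat_lit 5) (nat_lit 28) (nat_lit 5) (nat_lit 336) (nat_lit 320) (nat_lit 124))))))) (XT.nd (nat_lit 39390) (nat_lit 0) (nat_lit 1064) (XT.nd (nat_lit 546) (nat_lit 380) (nat_lit 0) (XT.nd (nat_lit 234) (nat_lit 304) (nat_lit 0) (XT.nd (nat_lit 78) (nat_lit 228) (nat_lit 0) (XT.lf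 (nat_lit 0) (nat_lit 580937283213) (nat_lit 152) (nat_lit 102316196011) (nat_lit 228) (nat_lit 199163036219) (nat_lit 25) (nat_lit 5) (nat_lit 27) (nat_lit 5) (nat_lit 28) (nat_lit 5) (nat_lit 337) (nat_lit 320) (nat_lit 123)) (XT.nd (nat_lit 78) (nat_lit 76) (nat_lit 0) (XT.lf (nat_lit 0) (nat_lit 111417168031) (nat_lit 152) (nat_lit 736057579197) (nat_lit 228) (nat_lit 80820027810) (nat_lit 23) (nat_lit 5) (nat_lit 25) (nat_lit 5) (nat_lit 26) (nat_lit 5) (nat_lit 338) (nat_lit 320) (nat_lit 122)) (XT.lf (nat_lit 0) (nat_lit 55754401257) (nat_lit 228) (nat_lit 406694990518) (nat_lit 76) (nat_lit 514414323506) (nat_lit 22) (nat_lit 5) (nat_lit 25) (nat_lit 5) (nat_lit 23) (nat_lit 5) (nat_lit 339) (nat_lit 320) (nat_lit 121)))) (XT.nd (nat_lit 156) (nat_lit 152) (nat_lit 0) (XT.nd (nat_lit 78) (nat_lit 0) (nat_lit 0) (XT.lf (nat_lit 0) (nat_lit 36004067272) (nat_lit 152) (nat_lit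 163750224111) (nat_lit 228) (nat_lit 829326670675) (nat_lit 20) (nat_lit 5) (nat_lit 22) (nat_lit 5) (nat_lit 23) (nat_lit 5) (nat_lit 340) (nat_lit 320) (nat_lit 120)) (XT.lf (nat_lit 0) (nat_lit 370502971703) (nat_lit 228) (nat_lit 551446917726) (nat_lit 76) (nat_lit 162307395258) (nat_lit 20) (nat_lit 5) (nat_lit 23) (nat_lit 5) (nat_lit 21) (nat_lit 5) (nat_lit 341) (nat_lit 320) (nat_lit 119))) (XT.nd (nat_lit 78) (nat_lit 152) (nat_lit 0) (XT.lf (nat_lit 0) (nat_lit 559164788952) (nat_lit 228) (nat_lit 78739810036) (nat_lit 76) (nat_lit 505602854765) (nat_lit 20) (nat_lit 5) (nat_lit 23) (nat_lit 5) (nat_lit 21) (nat_lit 5) (nat_lit 342) (nat_lit 320) (nat_lit 118)) (XT.lf (nat_lit 0) (nat_lit 454520824896) (nat_lit 152) (nat_lit 319329954130) (nat_lit 228) (nat_lit 432772359147) (nat_lit 18) (nat_lit 5) (nat_lit 20) (nat_lit 5) (nat_lit 21) (nat_lit 5) (nat_lit 343) (nat_lit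 320) (nat_lit 117))))) (XT.nd (nat_lit 234) (nat_lit 228) (nat_lit 0) (XT.nd (nat_lit 78) (nat_lit 152) (nat_lit 0) (XT.lf (nat_lit 0) (nat_lit 1008515217325) (nat_lit 228) (nat_lit 240346239354) (nat_lit 76) (nat_lit 25702335172) (nat_lit 18) (nat_lit 5) (nat_lit 21) (nat_lit 5) (nat_lit 19) (nat_lit 4) (nat_lit 344) (nat_lit 320) (nat_lit 116)) (XT.nd (nat_lit 78) (nat_lit 76) (nat_lit 0) (XT.lf (nat_lit 0) (nat_lit 320067074206) (nat_lit 76) (nat_lit 957877633439) (nat_lit 152) (nat_lit 68715638440) (nat_lit 17) (nat_lit 5) (nat_lit 18) (nat_lit 5) (nat_lit 19) (nat_lit 4) (nat_lit 345) (nat_lit 320) (nat_lit 115)) (XT.lf (nat_lit 0) (nat_lit 143922434899) (nat_lit 152) (nat_lit 488660368209) (nat_lit 76) (nat_lit 791124614372) (nat_lit 16) (nat_lit 5) (nat_lit 18) (nat_lit 5) (nat_lit 17) (nat_lit 5) (nat_lit 346) (nat_lit 320) (nat_lit 114)))) (XT.nd (nat_lit 156) (nat_lit 76)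 (nat_lit 0) (XT.nd (nat_lit 78) (nat_lit 0) (nat_lit 0) (XT.lf (nat_lit 0) (nat_lit 95289079420) (nat_lit 152) (nat_lit 276861742346) (nat_lit 228) (nat_lit 1134441311339) (nat_lit 14) (nat_lit 5) (nat_lit 16) (nat_lit 5) (nat_lit 17) (nat_lit 5) (nat_lit 347) (nat_lit 320) (nat_lit 113)) (XT.lf (nat_lit 0) (nat_lit 634926323838) (nat_lit 228) (nat_lit 844221751502) (nat_lit 76) (nat_lit 115656443115) (nat_lit 14) (nat_lit 5) (nat_lit 17) (nat_lit 5) (nat_lit 15) (nat_lit 4) (nat_lit 348) (nat_lit 320) (nat_lit 112))) (XT.nd (nat_lit 78) (nat_lit 76) (nat_lit 0) (XT.lf (nat_lit 0) (nat_lit 925915073200) (nat_lit 228) (nat_lit 238965170733) (nat_lit 76) (nat_lit 524618354144) (nat_lit 14) (nat_lit 5) (nat_lit 17) (nat_lit 5) (nat_lit 15) (nat_lit 4) (nat_lit 349) (nat_lit 320) (nat_lit 111)) (XT.lf (nat_lit 0) (nat_lit 436549920928) (nat_lit 76) (nat_lit 814132031233) (nat_lit 152)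 (nat_lit 540246329550) (nat_lit 13) (nat_lit 5) (nat_lit 14) (nat_lit 5) (nat_lit 15) (nat_lit 4) (nat_lit 350) (nat_lit 320) (nat_lit 110)))))) (XT.nd (nat_lit 546) (nat_lit 988) (nat_lit 0) (XT.nd (nat_lit 234) (nat_lit 0) (nat_lit 76) (XT.nd (nat_lit 78) (nat_lit 0) (nat_lit 0) (XT.lf (nat_lit 0) (nat_lit 108139237372) (nat_lit 532) (nat_lit 57881641144) (nat_lit 532) (nat_lit 57881641144) (nat_lit 40) (nat_lit 3) (nat_lit 47) (nat_lit 3) (nat_lit 47) (nat_lit 5) (nat_lit 321) (nat_lit 321) (nat_lit 138)) (XT.nd (nat_lit 78) (nat_lit 0) (nat_lit 76) (XT.lf (nat_lit 76) (nat_lit 85806426610) (nat_lit 0) (nat_lit 141187127905) (nat_lit 532) (nat_lit 238558569862) (nat_lit 41) (nat_lit 5) (nat_lit 40) (nat_lit 3) (nat_lit 47) (nat_lit 5) (nat_lit 322) (nat_lit 321) (nat_lit 137)) (XT.lf (nat_lit 0) (nat_lit 243374906001) (nat_lit 456) (nat_lit 176024430902) (nat_lit 532) (nat_lit 64934914233)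 (nat_lit 41) (nat_lit 5) (nat_lit 47) (nat_lit 5) (nat_lit 48) (nat_lit 5) (nat_lit 323) (nat_lit 321) (nat_lit 136)))) (XT.nd (nat_lit 156) (nat_lit 0) (nat_lit 76) (XT.nd (nat_lit 78) (nat_lit 0) (nat_lit 0) (XT.lf (nat_lit 76) (nat_lit 42450886277) (nat_lit 0) (nat_lit 223303994958) (nat_lit 532) (nat_lit 238489017667) (nat_lit 42) (nat_lit 5) (nat_lit 41) (nat_lit 5) (nat_lit 48) (nat_lit 5) (nat_lit 324) (nat_lit 321) (nat_lit 135)) (XT.lf (nat_lit 76) (nat_lit 288414876479) (nat_lit 0) (nat_lit 6323172157) (nat_lit 532) (nat_lit 230623246428) (nat_lit 42) (nat_lit 5) (nat_lit 41) (nat_lit 5) (nat_lit 48) (nat_lit 5) (nat_lit 325) (nat_lit 321) (nat_lit 134))) (XT.nd (nat_lit 78) (nat_lit 0) (nat_lit 0) (XT.lf (nat_lit 76) (nat_lit 425370043) (nat_lit 0) (nat_lit 331108498981) (nat_lit 532) (nat_lit 216194694027) (nat_lit 43) (nat_lit 5) (nat_lit 42) (nat_lit 5) (nat_lit 49) (nat_lit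 5) (nat_lit 326) (nat_lit 321) (nat_lit 133)) (XT.lf (nat_lit 76) (nat_lit 270089349699) (nat_lit 0) (nat_lit 107822598309) (nat_lit 532) (nat_lit 193442177126) (nat_lit 43) (nat_lit 5) (nat_lit 42) (nat_lit 5) (nat_lit 49) (nat_lit 5) (nat_lit 327) (nat_lit 321) (nat_lit 132))))) (XT.nd (nat_lit 312) (nat_lit 532) (nat_lit 0) (XT.nd (nat_lit 156) (nat_lit 228) (nat_lit 0) (XT.nd (nat_lit 78) (nat_lit 456) (nat_lit 0) (XT.lf (nat_lit 0) (nat_lit 431206750426) (nat_lit 456) (nat_lit 38749800760) (nat_lit 76) (nat_lit 126656662912) (nat_lit 43) (nat_lit 5) (nat_lit 49) (nat_lit 5) (nat_lit 44) (nat_lit 5) (nat_lit 328) (nat_lit 321) (nat_lit 131)) (XT.lf (nat_lit 0) (nat_lit 254707256222) (nat_lit 456) (nat_lit 242984164362) (nat_lit 532) (nat_lit 125487506992) (nat_lit 37) (nat_lit 5) (nat_lit 43) (nat_lit 5) (nat_lit 44) (nat_lit 5) (nat_lit 329) (nat_lit 321) (nat_lit 130))) (XT.nd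 (nat_lit 78) (nat_lit 228) (nat_lit 0) (XT.lf (nat_lit 0) (nat_lit 570633465406) (nat_lit 532) (nat_lit 78019674991) (nat_lit 76) (nat_lit 3125669724) (nat_lit 37) (nat_lit 5) (nat_lit 44) (nat_lit 5) (nat_lit 38) (nat_lit 5) (nat_lit 330) (nat_lit 321) (nat_lit 129)) (XT.lf (nat_lit 0) (nat_lit 241434730124) (nat_lit 228) (nat_lit 420093915064) (nat_lit 304) (nat_lit 20168616438) (nat_lit 34) (nat_lit 5) (nat_lit 37) (nat_lit 5) (nat_lit 38) (nat_lit 5) (nat_lit 331) (nat_lit 321) (nat_lit 128)))) (XT.nd (nat_lit 156) (nat_lit 228) (nat_lit 0) (XT.nd (nat_lit 78) (nat_lit 228) (nat_lit 0) (XT.lf (nat_lit 0) (nat_lit 45589426389) (nat_lit 304) (nat_lit 124110178434) (nat_lit 76) (nat_lit 544046597050) (nat_lit 33) (nat_lit 5) (nat_lit 37) (nat_lit 5) (nat_lit 34) (nat_lit 5) (nat_lit 332) (nat_lit 321) (nat_lit 127)) (XT.lf (nat_lit 0) (nat_lit 123585985066) (nat_lit 304) (nat_lit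 522229341009) (nat_lit 76) (nat_lit 101856422380) (nat_lit 30) (nat_lit 5) (nat_lit 34) (nat_lit 5) (nat_lit 31) (nat_lit 5) (nat_lit 333) (nat_lit 321) (nat_lit 126))) (XT.nd (nat_lit 78) (nat_lit 228) (nat_lit 0) (XT.lf (nat_lit 0) (nat_lit 215711568254) (nat_lit 304) (nat_lit 178518350299) (nat_lit 76) (nat_lit 389450276275) (nat_lit 30) (nat_lit 5) (nat_lit 34) (nat_lit 5) (nat_lit 31) (nat_lit 5) (nat_lit 334) (nat_lit 321) (nat_lit 125)) (XT.lf (nat_lit 0) (nat_lit 202836191798) (nat_lit 228) (nat_lit 117249208253) (nat_lit 304) (nat_lit 502093660750) (nat_lit 27) (nat_lit 5) (nat_lit 30) (nat_lit 5) (nat_lit 31) (nat_lit 5) (nat_lit 335) (nat_lit 321) (nat_lit 124))))))))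
noncomputable def xc124 : XT := (XT.nd (nat_lit 40716) (nat_lit 0) (nat_lit 152) (XT.nd (nat_lit 39624) (nat_lit 0) (nat_lit 988) (XT.nd (nat_lit 546) (nat_lit 456) (nat_lit 0) (XT.nd (nat_lit 234) (nat_lit 380) (nat_lit 0) (XT.nd (nat_lit 78) (nat_lit 152) (nat_lit 0) (XT.lf (nat_lit 0) (nat_lit 442191370988) (nat_lit 304) (nat_lit 243017014973) (nat_lit 76) (nat_lit 177798871525) (nat_lit 27) (nat_lit 5) (nat_lit 31) (nat_lit 5) (nat_lit 28) (nat_lit 5) (nat_lit 336) (nat_lit 321) (nat_lit 123)) (XT.nd (nat_lit 78) (nat_lit 0) (nat_lit 0) (XT.lf (nat_lit 0) (nat_lit 168814229804) (nat_lit 152) (nat_lit 412356998231) (nat_lit 228) (nat_lit 325362049236) (nat_lit 25) (nat_lit 5) (nat_lit 27) (nat_lit 5) (nat_lit 28) (nat_lit 5) (nat_lit 337) (nat_lit 321) (nat_lit 122)) (XT.lf (nat_lit 0) (nat_lit 627412552448) (nat_lit 152) (nat_lit 110501425742) (nat_lit 228) (nat_lit 215095840123)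 (nat_lit 25) (nat_lit 5) (nat_lit 27) (nat_lit 5) (nat_lit 28) (nat_lit 5) (nat_lit 338) (nat_lit 321) (nat_lit 121)))) (XT.nd (nat_lit 156) (nat_lit 152) (nat_lit 0) (XT.nd (nat_lit 78) (nat_lit 76) (nat_lit 0) (XT.lf (nat_lit 0) (nat_lit 120330837152) (nat_lit 152) (nat_lit 794942102720) (nat_lit 228) (nat_lit 87285399478) (nat_lit 23) (nat_lit 5) (nat_lit 25) (nat_lit 5) (nat_lit 26) (nat_lit 5) (nat_lit 339) (nat_lit 321) (nat_lit 120)) (XT.lf (nat_lit 0) (nat_lit 60214956156) (nat_lit 228) (nat_lit 439230304737) (nat_lit 76) (nat_lit 555567534818) (nat_lit 22) (nat_lit 5) (nat_lit 25) (nat_lit 5) (nat_lit 23) (nat_lit 5) (nat_lit 340) (nat_lit 321) (nat_lit 119))) (XT.nd (nat_lit 78) (nat_lit 0) (nat_lit 0) (XT.lf (nat_lit 0) (nat_lit 38884670460) (nat_lit 152) (nat_lit 176850158691) (nat_lit 228) (nat_lit 895672593788) (nat_lit 20) (nat_lit 5) (nat_lit 22) (nat_lit 5) (nat_lit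 23) (nat_lit 5) (nat_lit 341) (nat_lit 321) (nat_lit 118)) (XT.lf (nat_lit 0) (nat_lit 400143391349) (nat_lit 228) (nat_lit 595562400881) (nat_lit 76) (nat_lit 175292060193) (nat_lit 20) (nat_lit 5) (nat_lit 23) (nat_lit 5) (nat_lit 21) (nat_lit 5) (nat_lit 342) (nat_lit 321) (nat_lit 117))))) (XT.nd (nat_lit 234) (nat_lit 304) (nat_lit 0) (XT.nd (nat_lit 78) (nat_lit 152) (nat_lit 0) (XT.lf (nat_lit 0) (nat_lit 603898140503) (nat_lit 228) (nat_lit 85038744596) (nat_lit 76) (nat_lit 546051151029) (nat_lit 20) (nat_lit 5) (nat_lit 23) (nat_lit 5) (nat_lit 21) (nat_lit 5) (nat_lit 343) (nat_lit 321) (nat_lit 116)) (XT.nd (nat_lit 78) (nat_lit 0) (nat_lit 0) (XT.lf (nat_lit 0) (nat_lit 490882734796) (nat_lit 152) (nat_lit 344876268377) (nat_lit 228) (nat_lit 467393972692) (nat_lit 18) (nat_lit 5) (nat_lit 20) (nat_lit 5) (nat_lit 21) (nat_lit 5) (nat_lit 344) (nat_lit 321) (nat_lit 115))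 (XT.lf (nat_lit 0) (nat_lit 1089196586376) (nat_lit 228) (nat_lit 259573702116) (nat_lit 76) (nat_lit 27758594187) (nat_lit 18) (nat_lit 5) (nat_lit 21) (nat_lit 5) (nat_lit 19) (nat_lit 4) (nat_lit 345) (nat_lit 321) (nat_lit 114)))) (XT.nd (nat_lit 234) (nat_lit 152) (nat_lit 0) (XT.nd (nat_lit 78) (nat_lit 76) (nat_lit 0) (XT.lf (nat_lit 0) (nat_lit 345672670544) (nat_lit 76) (nat_lit 1034507759685) (nat_lit 152) (nat_lit 74212731507) (nat_lit 17) (nat_lit 5) (nat_lit 18) (nat_lit 5) (nat_lit 19) (nat_lit 4) (nat_lit 346) (nat_lit 321) (nat_lit 113)) (XT.lf (nat_lit 0) (nat_lit 155436368676) (nat_lit 152) (nat_lit 527752976706) (nat_lit 76) (nat_lit 854414654072) (nat_lit 16) (nat_lit 5) (nat_lit 18) (nat_lit 5) (nat_lit 17) (nat_lit 5) (nat_lit 347) (nat_lit 321) (nat_lit 112))) (XT.nd (nat_lit 38532) (nat_lit 0) (nat_lit 1976) (XT.lf (nat_lit 0) (nat_lit 685720555513) (nat_lit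 228) (nat_lit 911759283845) (nat_lit 76) (nat_lit 124909030250) (nat_lit 14) (nat_lit 5) (nat_lit 17) (nat_lit 5) (nat_lit 15) (nat_lit 4) (nat_lit 349) (nat_lit 321) (nat_lit 110)) (XT.lf (nat_lit 0) (nat_lit 116790663445) (nat_lit 532) (nat_lit 62512016799) (nat_lit 532) (nat_lit 62512016799) (nat_lit 40) (nat_lit 3) (nat_lit 47) (nat_lit 3) (nat_lit 47) (nat_lit 5) (nat_lit 322) (nat_lit 322) (nat_lit 136)))))) (XT.nd (nat_lit 546) (nat_lit 988) (nat_lit 0) (XT.nd (nat_lit 234) (nat_lit 0) (nat_lit 76) (XT.nd (nat_lit 78) (nat_lit 0) (nat_lit 76) (XT.lf (nat_lit 76) (nat_lit 92671244132) (nat_lit 0) (nat_lit 152482333675) (nat_lit 532) (nat_lit 257642671138) (nat_lit 41) (nat_lit 5) (nat_lit 40) (nat_lit 3) (nat_lit 47) (nat_lit 5) (nat_lit 323) (nat_lit 322) (nat_lit 135)) (XT.nd (nat_lit 78) (nat_lit 0) (nat_lit 0) (XT.lf (nat_lit 0) (nat_lit 262845392247) (nat_lit 456) (nat_lit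 190106057188) (nat_lit 532) (nat_lit 70129500191) (nat_lit 41) (nat_lit 5) (nat_lit 47) (nat_lit 5) (nat_lit 48) (nat_lit 5) (nat_lit 324) (nat_lit 322) (nat_lit 134)) (XT.lf (nat_lit 76) (nat_lit 45847277056) (nat_lit 0) (nat_lit 241168459561) (nat_lit 532) (nat_lit 257567635062) (nat_lit 42) (nat_lit 5) (nat_lit 41) (nat_lit 5) (nat_lit 48) (nat_lit 5) (nat_lit 325) (nat_lit 322) (nat_lit 133)))) (XT.nd (nat_lit 156) (nat_lit 0) (nat_lit 76) (XT.nd (nat_lit 78) (nat_lit 0) (nat_lit 76) (XT.lf (nat_lit 76) (nat_lit 311488362780) (nat_lit 0) (nat_lit 6829160195) (nat_lit 532) (nat_lit 249072639459) (nat_lit 42) (nat_lit 5) (nat_lit 41) (nat_lit 5) (nat_lit 48) (nat_lit 5) (nat_lit 326) (nat_lit 322) (nat_lit 132)) (XT.lf (nat_lit 76) (nat_lit 459726797) (nat_lit 0) (nat_lit 357597255191) (nat_lit 532) (nat_lit 233489832167) (nat_lit 43) (nat_lit 5) (nat_lit 42) (nat_lit 5) (nat_lit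 49) (nat_lit 5) (nat_lit 327) (nat_lit 322) (nat_lit 131))) (XT.nd (nat_lit 78) (nat_lit 0) (nat_lit 76) (XT.lf (nat_lit 76) (nat_lit 291696800591) (nat_lit 0) (nat_lit 116448476813) (nat_lit 532) (nat_lit 208917146312) (nat_lit 43) (nat_lit 5) (nat_lit 42) (nat_lit 5) (nat_lit 49) (nat_lit 5) (nat_lit 328) (nat_lit 322) (nat_lit 130)) (XT.lf (nat_lit 0) (nat_lit 465703634773) (nat_lit 456) (nat_lit 41849473670) (nat_lit 76) (nat_lit 136789133810) (nat_lit 43) (nat_lit 5) (nat_lit 49) (nat_lit 5) (nat_lit 44) (nat_lit 5) (nat_lit 329) (nat_lit 322) (nat_lit 129))))) (XT.nd (nat_lit 234) (nat_lit 532) (nat_lit 0) (XT.nd (nat_lit 78) (nat_lit 228) (nat_lit 0) (XT.lf (nat_lit 0) (nat_lit 275084139993) (nat_lit 456) (nat_lit 262422920339) (nat_lit 532) (nat_lit 135526154038) (nat_lit 37) (nat_lit 5) (nat_lit 43) (nat_lit 5) (nat_lit 44) (nat_lit 5) (nat_lit 330) (nat_lit 322) (nat_lit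 128)) (XT.nd (nat_lit 78) (nat_lit 228) (nat_lit 0) (XT.lf (nat_lit 0) (nat_lit 616284444075) (nat_lit 532) (nat_lit 84260942292) (nat_lit 76) (nat_lit 3375703222) (nat_lit 37) (nat_lit 5) (nat_lit 44) (nat_lit 5) (nat_lit 38) (nat_lit 5) (nat_lit 331) (nat_lit 322) (nat_lit 127)) (XT.lf (nat_lit 0) (nat_lit 260749807467) (nat_lit 228) (nat_lit 453701415633) (nat_lit 304) (nat_lit 21781795417) (nat_lit 34) (nat_lit 5) (nat_lit 37) (nat_lit 5) (nat_lit 38) (nat_lit 5) (nat_lit 332) (nat_lit 322) (nat_lit 126)))) (XT.nd (nat_lit 156) (nat_lit 228) (nat_lit 0) (XT.nd (nat_lit 78) (nat_lit 228) (nat_lit 0) (XT.lf (nat_lit 0) (nat_lit 49236853474) (nat_lit 304) (nat_lit 134038700572) (nat_lit 76) (nat_lit 587570321167) (nat_lit 33) (nat_lit 5) (nat_lit 37) (nat_lit 5) (nat_lit 34) (nat_lit 5) (nat_lit 333) (nat_lit 322) (nat_lit 125)) (XT.lf (nat_lit 0) (nat_lit 133473124078) (nat_lit 304)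 (nat_lit 564007382484) (nat_lit 76) (nat_lit 110004960053) (nat_lit 30) (nat_lit 5) (nat_lit 34) (nat_lit 5) (nat_lit 31) (nat_lit 5) (nat_lit 334) (nat_lit 322) (nat_lit 124))) (XT.nd (nat_lit 78) (nat_lit 228) (nat_lit 0) (XT.lf (nat_lit 0) (nat_lit 232968734647) (nat_lit 304) (nat_lit 192799535169) (nat_lit 76) (nat_lit 420606320490) (nat_lit 30) (nat_lit 5) (nat_lit 34) (nat_lit 5) (nat_lit 31) (nat_lit 5) (nat_lit 335) (nat_lit 322) (nat_lit 123)) (XT.lf (nat_lit 0) (nat_lit 219063363127) (nat_lit 228) (nat_lit 126629098651) (nat_lit 304) (nat_lit 542260904737) (nat_lit 27) (nat_lit 5) (nat_lit 30) (nat_lit 5) (nat_lit 31) (nat_lit 5) (nat_lit 336) (nat_lit 322) (nat_lit 122))))))) (XT.nd (nat_lit 39702) (nat_lit 0) (nat_lit 836) (XT.nd (nat_lit 546) (nat_lit 304) (nat_lit 0) (XT.nd (nat_lit 234) (nat_lit 380) (nat_lit 0) (XT.nd (nat_lit 78) (nat_lit 152) (nat_lit 0) (XT.lf (nat_lit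 0) (nat_lit 477566894404) (nat_lit 304) (nat_lit 262458103928) (nat_lit 76) (nat_lit 192022821940) (nat_lit 27) (nat_lit 5) (nat_lit 31) (nat_lit 5) (nat_lit 28) (nat_lit 5) (nat_lit 337) (nat_lit 322) (nat_lit 121)) (XT.nd (nat_lit 78) (nat_lit 0) (nat_lit 0) (XT.lf (nat_lit 0) (nat_lit 182319633539) (nat_lit 152) (nat_lit 445345497025) (nat_lit 228) (nat_lit 351390791885) (nat_lit 25) (nat_lit 5) (nat_lit 27) (nat_lit 5) (nat_lit 28) (nat_lit 5) (nat_lit 338) (nat_lit 322) (nat_lit 120)) (XT.lf (nat_lit 0) (nat_lit 677605802339) (nat_lit 152) (nat_lit 119341483260) (nat_lit 228) (nat_lit 232303302434) (nat_lit 25) (nat_lit 5) (nat_lit 27) (nat_lit 5) (nat_lit 28) (nat_lit 5) (nat_lit 339) (nat_lit 322) (nat_lit 119)))) (XT.nd (nat_lit 156) (nat_lit 152) (nat_lit 0) (XT.nd (nat_lit 78) (nat_lit 76) (nat_lit 0) (XT.lf (nat_lit 0) (nat_lit 129957557620) (nat_lit 152) (nat_lit 858537399940)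 (nat_lit 228) (nat_lit 94268033771) (nat_lit 23) (nat_lit 5) (nat_lit 25) (nat_lit 5) (nat_lit 26) (nat_lit 5) (nat_lit 340) (nat_lit 322) (nat_lit 118)) (XT.lf (nat_lit 0) (nat_lit 65032326516) (nat_lit 228) (nat_lit 474368484756) (nat_lit 76) (nat_lit 600012993701) (nat_lit 22) (nat_lit 5) (nat_lit 25) (nat_lit 5) (nat_lit 23) (nat_lit 5) (nat_lit 341) (nat_lit 322) (nat_lit 117))) (XT.nd (nat_lit 78) (nat_lit 0) (nat_lit 0) (XT.lf (nat_lit 0) (nat_lit 41995682271) (nat_lit 152) (nat_lit 190998099929) (nat_lit 228) (nat_lit 967326220787) (nat_lit 20) (nat_lit 5) (nat_lit 22) (nat_lit 5) (nat_lit 23) (nat_lit 5) (nat_lit 342) (nat_lit 322) (nat_lit 116)) (XT.lf (nat_lit 0) (nat_lit 432155018615) (nat_lit 228) (nat_lit 643207161244) (nat_lit 76) (nat_lit 189315487863) (nat_lit 20) (nat_lit 5) (nat_lit 23) (nat_lit 5) (nat_lit 21) (nat_lit 5) (nat_lit 343) (nat_lit 322) (nat_lit 115)))))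 (XT.nd (nat_lit 234) (nat_lit 152) (nat_lit 0) (XT.nd (nat_lit 78) (nat_lit 152) (nat_lit 0) (XT.lf (nat_lit 0) (nat_lit 652210136149) (nat_lit 228) (nat_lit 91841629620) (nat_lit 76) (nat_lit 589735301310) (nat_lit 20) (nat_lit 5) (nat_lit 23) (nat_lit 5) (nat_lit 21) (nat_lit 5) (nat_lit 344) (nat_lit 322) (nat_lit 114)) (XT.nd (nat_lit 78) (nat_lit 0) (nat_lit 0) (XT.lf (nat_lit 0) (nat_lit 530153562692) (nat_lit 152) (nat_lit 372466299473) (nat_lit 228) (nat_lit 504785340312) (nat_lit 18) (nat_lit 5) (nat_lit 20) (nat_lit 5) (nat_lit 21) (nat_lit 5) (nat_lit 345) (nat_lit 322) (nat_lit 113)) (XT.lf (nat_lit 0) (nat_lit 1176332443315) (nat_lit 228) (nat_lit 280339395622) (nat_lit 76) (nat_lit 29979343623) (nat_lit 18) (nat_lit 5) (nat_lit 21) (nat_lit 5) (nat_lit 19) (nat_lit 4) (nat_lit 346) (nat_lit 322) (nat_lit 112)))) (XT.nd (nat_lit 38766) (nat_lit 0) (nat_lit 1824) (XT.nd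 (nat_lit 78) (nat_lit 76) (nat_lit 0) (XT.lf (nat_lit 0) (nat_lit 373326681720) (nat_lit 76) (nat_lit 1117268308075) (nat_lit 152) (nat_lit 80149614562) (nat_lit 17) (nat_lit 5) (nat_lit 18) (nat_lit 5) (nat_lit 19) (nat_lit 4) (nat_lit 347) (nat_lit 322) (nat_lit 111)) (XT.lf (nat_lit 0) (nat_lit 167871397327) (nat_lit 152) (nat_lit 569973025404) (nat_lit 76) (nat_lit 922767886883) (nat_lit 16) (nat_lit 5) (nat_lit 18) (nat_lit 5) (nat_lit 17) (nat_lit 5) (nat_lit 348) (nat_lit 322) (nat_lit 110))) (XT.nd (nat_lit 78) (nat_lit 0) (nat_lit 0) (XT.lf (nat_lit 0) (nat_lit 126134162647) (nat_lit 532) (nat_lit 67512844709) (nat_lit 532) (nat_lit 67512844709) (nat_lit 40) (nat_lit 3) (nat_lit 47) (nat_lit 3) (nat_lit 47) (nat_lit 5) (nat_lit 323) (nat_lit 323) (nat_lit 134)) (XT.lf (nat_lit 76) (nat_lit 100085203774) (nat_lit 0) (nat_lit 164681122305) (nat_lit 532) (nat_lit 278253583874)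 (nat_lit 41) (nat_lit 5) (nat_lit 40) (nat_lit 3) (nat_lit 47) (nat_lit 5) (nat_lit 324) (nat_lit 323) (nat_lit 133)))))) (XT.nd (nat_lit 546) (nat_lit 760) (nat_lit 0) (XT.nd (nat_lit 234) (nat_lit 304) (nat_lit 0) (XT.nd (nat_lit 78) (nat_lit 0) (nat_lit 0) (XT.lf (nat_lit 0) (nat_lit 283873446951) (nat_lit 456) (nat_lit 205314260397) (nat_lit 532) (nat_lit 75739682583) (nat_lit 41) (nat_lit 5) (nat_lit 47) (nat_lit 5) (nat_lit 48) (nat_lit 5) (nat_lit 325) (nat_lit 323) (nat_lit 132)) (XT.nd (nat_lit 78) (nat_lit 0) (nat_lit 0) (XT.lf (nat_lit 76) (nat_lit 49515333463) (nat_lit 0) (nat_lit 260462060646) (nat_lit 532) (nat_lit 278172613753) (nat_lit 42) (nat_lit 5) (nat_lit 41) (nat_lit 5) (nat_lit 48) (nat_lit 5) (nat_lit 326) (nat_lit 323) (nat_lit 131)) (XT.lf (nat_lit 76) (nat_lit 336407685731) (nat_lit 0) (nat_lit 7375608121) (nat_lit 532) (nat_lit 268998050510) (nat_lit 42)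 (nat_lit 5) (nat_lit 41) (nat_lit 5) (nat_lit 48) (nat_lit 5) (nat_lit 327) (nat_lit 323) (nat_lit 130)))) (XT.nd (nat_lit 156) (nat_lit 380) (nat_lit 0) (XT.nd (nat_lit 78) (nat_lit 0) (nat_lit 0) (XT.lf (nat_lit 76) (nat_lit 496785419) (nat_lit 0) (nat_lit 386205101013) (nat_lit 532) (nat_lit 252168643755) (nat_lit 43) (nat_lit 5) (nat_lit 42) (nat_lit 5) (nat_lit 49) (nat_lit 5) (nat_lit 328) (nat_lit 323) (nat_lit 129)) (XT.lf (nat_lit 76) (nat_lit 315032804341) (nat_lit 0) (nat_lit 125764415520) (nat_lit 532) (nat_lit 225630170809) (nat_lit 43) (nat_lit 5) (nat_lit 42) (nat_lit 5) (nat_lit 49) (nat_lit 5) (nat_lit 329) (nat_lit 323) (nat_lit 128))) (XT.nd (nat_lit 78) (nat_lit 456) (nat_lit 0) (XT.lf (nat_lit 0) (nat_lit 502960220747) (nat_lit 456) (nat_lit 45197164801) (nat_lit 76) (nat_lit 147732211244) (nat_lit 43) (nat_lit 5) (nat_lit 49) (nat_lit 5) (nat_lit 44) (nat_lit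 5) (nat_lit 330) (nat_lit 323) (nat_lit 127)) (XT.lf (nat_lit 0) (nat_lit 297091131202) (nat_lit 456) (nat_lit 283416773537) (nat_lit 532) (nat_lit 146367943281) (nat_lit 37) (nat_lit 5) (nat_lit 43) (nat_lit 5) (nat_lit 44) (nat_lit 5) (nat_lit 331) (nat_lit 323) (nat_lit 126))))) (XT.nd (nat_lit 234) (nat_lit 456) (nat_lit 0) (XT.nd (nat_lit 78) (nat_lit 304) (nat_lit 0) (XT.lf (nat_lit 0) (nat_lit 665587458035) (nat_lit 532) (nat_lit 91001554731) (nat_lit 76) (nat_lit 3645742266) (nat_lit 37) (nat_lit 5) (nat_lit 44) (nat_lit 5) (nat_lit 38) (nat_lit 5) (nat_lit 332) (nat_lit 323) (nat_lit 125)) (XT.nd (nat_lit 78) (nat_lit 76) (nat_lit 0) (XT.lf (nat_lit 0) (nat_lit 281610048353) (nat_lit 228) (nat_lit 489997518051) (nat_lit 304) (nat_lit 23524072987) (nat_lit 34) (nat_lit 5) (nat_lit 37) (nat_lit 5) (nat_lit 38) (nat_lit 5) (nat_lit 333) (nat_lit 323) (nat_lit 124)) (XT.lf (nat_lit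 0) (nat_lit 53176035783) (nat_lit 304) (nat_lit 144761546157) (nat_lit 76) (nat_lit 634575943734) (nat_lit 33) (nat_lit 5) (nat_lit 37) (nat_lit 5) (nat_lit 34) (nat_lit 5) (nat_lit 334) (nat_lit 323) (nat_lit 123)))) (XT.nd (nat_lit 156) (nat_lit 228) (nat_lit 0) (XT.nd (nat_lit 78) (nat_lit 0) (nat_lit 0) (XT.lf (nat_lit 0) (nat_lit 144151197089) (nat_lit 304) (nat_lit 609127710904) (nat_lit 76) (nat_lit 118805377332) (nat_lit 30) (nat_lit 5) (nat_lit 34) (nat_lit 5) (nat_lit 31) (nat_lit 5) (nat_lit 335) (nat_lit 323) (nat_lit 122)) (XT.lf (nat_lit 0) (nat_lit 251606439979) (nat_lit 304) (nat_lit 208223255225) (nat_lit 76) (nat_lit 454254845088) (nat_lit 30) (nat_lit 5) (nat_lit 34) (nat_lit 5) (nat_lit 31) (nat_lit 5) (nat_lit 336) (nat_lit 323) (nat_lit 121))) (XT.nd (nat_lit 78) (nat_lit 0) (nat_lit 0) (XT.lf (nat_lit 0) (nat_lit 236588668790) (nat_lit 228) (nat_lit 136759386881)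 (nat_lit 304) (nat_lit 585641563749) (nat_lit 27) (nat_lit 5) (nat_lit 30) (nat_lit 5) (nat_lit 31) (nat_lit 5) (nat_lit 337) (nat_lit 323) (nat_lit 120)) (XT.lf (nat_lit 0) (nat_lit 515772429201) (nat_lit 304) (nat_lit 283454518838) (nat_lit 76) (nat_lit 207384682582) (nat_lit 27) (nat_lit 5) (nat_lit 31) (nat_lit 5) (nat_lit 28) (nat_lit 5) (nat_lit 338) (nat_lit 323) (nat_lit 119))))))))
noncomputable def xc125 : XT := (XT.nd (nat_lit 40950) (nat_lit 0) (nat_lit 228) (XT.nd (nat_lit 39858) (nat_lit 0) (nat_lit 456) (XT.nd (nat_lit 546) (nat_lit 228) (nat_lit 0) (XT.nd (nat_lit 234) (nat_lit 228) (nat_lit 0) (XT.nd (nat_lit 78) (nat_lit 152) (nat_lit 0) (XT.lf (nat_lit 0) (nat_lit 196905431717) (nat_lit 152) (nat_lit 480973084434) (nat_lit 228) (nat_lit 379501865515) (nat_lit 25) (nat_lit 5) (nat_lit 27) (nat_lit 5) (nat_lit 28) (nat_lit 5) (nat_lit 339) (nat_lit 323) (nat_lit 118))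 (XT.nd (nat_lit 78) (nat_lit 152) (nat_lit 0) (XT.lf (nat_lit 0) (nat_lit 731814477170) (nat_lit 152) (nat_lit 128888753445) (nat_lit 228) (nat_lit 250887390962) (nat_lit 25) (nat_lit 5) (nat_lit 27) (nat_lit 5) (nat_lit 28) (nat_lit 5) (nat_lit 340) (nat_lit 323) (nat_lit 117)) (XT.lf (nat_lit 0) (nat_lit 140354379561) (nat_lit 152) (nat_lit 927220331065) (nat_lit 228) (nat_lit 101809307007) (nat_lit 23) (nat_lit 5) (nat_lit 25) (nat_lit 5) (nat_lit 26) (nat_lit 5) (nat_lit 341) (nat_lit 323) (nat_lit 116)))) (XT.nd (nat_lit 156) (nat_lit 0) (nat_lit 0) (XT.nd (nat_lit 78) (nat_lit 152) (nat_lit 0) (XT.lf (nat_lit 0) (nat_lit 70235061701) (nat_lit 228) (nat_lit 512317754036) (nat_lit 76) (nat_lit 648014081291) (nat_lit 22) (nat_lit 5) (nat_lit 25) (nat_lit 5) (nat_lit 23) (nat_lit 5) (nat_lit 342) (nat_lit 323) (nat_lit 115)) (XT.lf (nat_lit 0) (nat_lit 45355541049) (nat_lit 152)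 (nat_lit 206277886660) (nat_lit 228) (nat_lit 1044712163697) (nat_lit 20) (nat_lit 5) (nat_lit 22) (nat_lit 5) (nat_lit 23) (nat_lit 5) (nat_lit 343) (nat_lit 323) (nat_lit 114))) (XT.nd (nat_lit 78) (nat_lit 0) (nat_lit 0) (XT.lf (nat_lit 0) (nat_lit 466727553814) (nat_lit 228) (nat_lit 694663535493) (nat_lit 76) (nat_lit 204460780780) (nat_lit 20) (nat_lit 5) (nat_lit 23) (nat_lit 5) (nat_lit 21) (nat_lit 5) (nat_lit 344) (nat_lit 323) (nat_lit 113)) (XT.lf (nat_lit 0) (nat_lit 704387070846) (nat_lit 228) (nat_lit 99188776053) (nat_lit 76) (nat_lit 636914175311) (nat_lit 20) (nat_lit 5) (nat_lit 23) (nat_lit 5) (nat_lit 21) (nat_lit 5) (nat_lit 345) (nat_lit 323) (nat_lit 112))))) (XT.nd (nat_lit 39000) (nat_lit 0) (nat_lit 1748) (XT.nd (nat_lit 156) (nat_lit 76) (nat_lit 0) (XT.lf (nat_lit 0) (nat_lit 572566026987) (nat_lit 152) (nat_lit 402263543097) (nat_lit 228) (nat_lit 545168038769)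 (nat_lit 18) (nat_lit 5) (nat_lit 20) (nat_lit 5) (nat_lit 21) (nat_lit 5) (nat_lit 346) (nat_lit 323) (nat_lit 111)) (XT.nd (nat_lit 38766) (nat_lit 0) (nat_lit 1748) (XT.lf (nat_lit 0) (nat_lit 403192985610) (nat_lit 76) (nat_lit 1206649710662) (nat_lit 152) (nat_lit 86561467587) (nat_lit 17) (nat_lit 5) (nat_lit 18) (nat_lit 5) (nat_lit 19) (nat_lit 4) (nat_lit 348) (nat_lit 323) (nat_lit 109)) (XT.lf (nat_lit 0) (nat_lit 136225106674) (nat_lit 532) (nat_lit 72913757888) (nat_lit 532) (nat_lit 72913757888) (nat_lit 40) (nat_lit 3) (nat_lit 47) (nat_lit 3) (nat_lit 47) (nat_lit 5) (nat_lit 324) (nat_lit 324) (nat_lit 132)))) (XT.nd (nat_lit 156) (nat_lit 0) (nat_lit 76) (XT.nd (nat_lit 78) (nat_lit 0) (nat_lit 76) (XT.lf (nat_lit 76) (nat_lit 108092243079) (nat_lit 0) (nat_lit 177855785217) (nat_lit 532) (nat_lit 300513441096) (nat_lit 41) (nat_lit 5) (nat_lit 40) (nat_lit 3) (nat_lit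 47) (nat_lit 5) (nat_lit 325) (nat_lit 324) (nat_lit 131)) (XT.lf (nat_lit 0) (nat_lit 306583685639) (nat_lit 456) (nat_lit 221739160003) (nat_lit 532) (nat_lit 81798704905) (nat_lit 41) (nat_lit 5) (nat_lit 47) (nat_lit 5) (nat_lit 48) (nat_lit 5) (nat_lit 326) (nat_lit 324) (nat_lit 130))) (XT.nd (nat_lit 78) (nat_lit 0) (nat_lit 0) (XT.lf (nat_lit 76) (nat_lit 53476795260) (nat_lit 0) (nat_lit 281299132081) (nat_lit 532) (nat_lit 300426052385) (nat_lit 42) (nat_lit 5) (nat_lit 41) (nat_lit 5) (nat_lit 48) (nat_lit 5) (nat_lit 327) (nat_lit 324) (nat_lit 129)) (XT.lf (nat_lit 76) (nat_lit 363320518293) (nat_lit 0) (nat_lit 7965755460) (nat_lit 532) (nat_lit 290517551524) (nat_lit 42) (nat_lit 5) (nat_lit 41) (nat_lit 5) (nat_lit 48) (nat_lit 5) (nat_lit 328) (nat_lit 324) (nat_lit 128)))))) (XT.nd (nat_lit 546) (nat_lit 760) (nat_lit 0) (XT.nd (nat_lit 234) (nat_lit 684) (nat_lit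 0) (XT.nd (nat_lit 78) (nat_lit 0) (nat_lit 0) (XT.lf (nat_lit 76) (nat_lit 536768718) (nat_lit 0) (nat_lit 417101565169) (nat_lit 532) (nat_lit 272341813766) (nat_lit 43) (nat_lit 5) (nat_lit 42) (nat_lit 5) (nat_lit 49) (nat_lit 5) (nat_lit 329) (nat_lit 324) (nat_lit 127)) (XT.nd (nat_lit 78) (nat_lit 0) (nat_lit 76) (XT.lf (nat_lit 76) (nat_lit 340235651341) (nat_lit 0) (nat_lit 135825620684) (nat_lit 532) (nat_lit 243680286798) (nat_lit 43) (nat_lit 5) (nat_lit 42) (nat_lit 5) (nat_lit 49) (nat_lit 5) (nat_lit 330) (nat_lit 324) (nat_lit 126)) (XT.lf (nat_lit 0) (nat_lit 543197291486) (nat_lit 456) (nat_lit 48812709280) (nat_lit 76) (nat_lit 159550742473) (nat_lit 43) (nat_lit 5) (nat_lit 49) (nat_lit 5) (nat_lit 44) (nat_lit 5) (nat_lit 331) (nat_lit 324) (nat_lit 125)))) (XT.nd (nat_lit 156) (nat_lit 304) (nat_lit 0) (XT.nd (nat_lit 78) (nat_lit 0) (nat_lit 0) (XT.lf (nat_lit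 0) (nat_lit 320858644613) (nat_lit 456) (nat_lit 306090132198) (nat_lit 532) (nat_lit 158077118902) (nat_lit 37) (nat_lit 5) (nat_lit 43) (nat_lit 5) (nat_lit 44) (nat_lit 5) (nat_lit 332) (nat_lit 324) (nat_lit 124)) (XT.lf (nat_lit 0) (nat_lit 718834676244) (nat_lit 532) (nat_lit 98281453677) (nat_lit 76) (nat_lit 3937386888) (nat_lit 37) (nat_lit 5) (nat_lit 44) (nat_lit 5) (nat_lit 38) (nat_lit 5) (nat_lit 333) (nat_lit 324) (nat_lit 123))) (XT.nd (nat_lit 78) (nat_lit 76) (nat_lit 0) (XT.lf (nat_lit 0) (nat_lit 304139071946) (nat_lit 228) (nat_lit 529197310207) (nat_lit 304) (nat_lit 25405770720) (nat_lit 34) (nat_lit 5) (nat_lit 37) (nat_lit 5) (nat_lit 38) (nat_lit 5) (nat_lit 334) (nat_lit 324) (nat_lit 122)) (XT.lf (nat_lit 0) (nat_lit 57430319290) (nat_lit 304) (nat_lit 156342255119) (nat_lit 76) (nat_lit 685342016552) (nat_lit 33) (nat_lit 5) (nat_lit 37) (nat_lit 5) (nat_lit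 34) (nat_lit 5) (nat_lit 335) (nat_lit 324) (nat_lit 121))))) (XT.nd (nat_lit 234) (nat_lit 304) (nat_lit 0) (XT.nd (nat_lit 78) (nat_lit 228) (nat_lit 0) (XT.lf (nat_lit 0) (nat_lit 155683484116) (nat_lit 304) (nat_lit 657857703000) (nat_lit 76) (nat_lit 128309825073) (nat_lit 30) (nat_lit 5) (nat_lit 34) (nat_lit 5) (nat_lit 31) (nat_lit 5) (nat_lit 336) (nat_lit 324) (nat_lit 120)) (XT.nd (nat_lit 78) (nat_lit 228) (nat_lit 0) (XT.lf (nat_lit 0) (nat_lit 271735132269) (nat_lit 304) (nat_lit 224880907516) (nat_lit 76) (nat_lit 490595248949) (nat_lit 30) (nat_lit 5) (nat_lit 34) (nat_lit 5) (nat_lit 31) (nat_lit 5) (nat_lit 337) (nat_lit 324) (nat_lit 119)) (XT.lf (nat_lit 0) (nat_lit 255515965150) (nat_lit 228) (nat_lit 147700103827) (nat_lit 304) (nat_lit 632492705920) (nat_lit 27) (nat_lit 5) (nat_lit 30) (nat_lit 5) (nat_lit 31) (nat_lit 5) (nat_lit 338) (nat_lit 324) (nat_lit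 118)))) (XT.nd (nat_lit 156) (nat_lit 152) (nat_lit 0) (XT.nd (nat_lit 78) (nat_lit 152) (nat_lit 0) (XT.lf (nat_lit 0) (nat_lit 557034380639) (nat_lit 304) (nat_lit 306130680239) (nat_lit 76) (nat_lit 223975487100) (nat_lit 27) (nat_lit 5) (nat_lit 31) (nat_lit 5) (nat_lit 28) (nat_lit 5) (nat_lit 339) (nat_lit 324) (nat_lit 117)) (XT.lf (nat_lit 0) (nat_lit 212658061295) (nat_lit 152) (nat_lit 519450886304) (nat_lit 228) (nat_lit 409861852101) (nat_lit 25) (nat_lit 5) (nat_lit 27) (nat_lit 5) (nat_lit 28) (nat_lit 5) (nat_lit 340) (nat_lit 324) (nat_lit 116))) (XT.nd (nat_lit 78) (nat_lit 152) (nat_lit 0) (XT.lf (nat_lit 0) (nat_lit 790359815937) (nat_lit 152) (nat_lit 139199812161) (nat_lit 228) (nat_lit 270958231632) (nat_lit 25) (nat_lit 5) (nat_lit 27) (nat_lit 5) (nat_lit 28) (nat_lit 5) (nat_lit 341) (nat_lit 324) (nat_lit 115)) (XT.lf (nat_lit 0) (nat_lit 151582916253) (nat_lit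 152) (nat_lit 1001397905365) (nat_lit 228) (nat_lit 109953906278) (nat_lit 23) (nat_lit 5) (nat_lit 25) (nat_lit 5) (nat_lit 26) (nat_lit 5) (nat_lit 342) (nat_lit 324) (nat_lit 114))))))) (XT.nd (nat_lit 40092) (nat_lit 0) (nat_lit 0) (XT.nd (nat_lit 39546) (nat_lit 0) (nat_lit 1064) (XT.nd (nat_lit 39234) (nat_lit 0) (nat_lit 1520) (XT.nd (nat_lit 78) (nat_lit 152) (nat_lit 0) (XT.lf (nat_lit 0) (nat_lit 75853994435) (nat_lit 228) (nat_lit 553302994747) (nat_lit 76) (nat_lit 699855249028) (nat_lit 22) (nat_lit 5) (nat_lit 25) (nat_lit 5) (nat_lit 23) (nat_lit 5) (nat_lit 343) (nat_lit 324) (nat_lit 113)) (XT.nd (nat_lit 78) (nat_lit 0) (nat_lit 0) (XT.lf (nat_lit 0) (nat_lit 48984159398) (nat_lit 152) (nat_lit 222780065069) (nat_lit 228) (nat_lit 1128289004116) (nat_lit 20) (nat_lit 5) (nat_lit 22) (nat_lit 5) (nat_lit 23) (nat_lit 5) (nat_lit 344) (nat_lit 324) (nat_lit 112)) (XT.lf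 (nat_lit 0) (nat_lit 504065872753) (nat_lit 228) (nat_lit 750236448020) (nat_lit 76) (nat_lit 220817689442) (nat_lit 20) (nat_lit 5) (nat_lit 23) (nat_lit 5) (nat_lit 21) (nat_lit 5) (nat_lit 345) (nat_lit 324) (nat_lit 111)))) (XT.nd (nat_lit 156) (nat_lit 0) (nat_lit 76) (XT.nd (nat_lit 78) (nat_lit 0) (nat_lit 0) (XT.lf (nat_lit 0) (nat_lit 147123296118) (nat_lit 532) (nat_lit 78746760441) (nat_lit 532) (nat_lit 78746760441) (nat_lit 40) (nat_lit 3) (nat_lit 47) (nat_lit 3) (nat_lit 47) (nat_lit 5) (nat_lit 325) (nat_lit 325) (nat_lit 130)) (XT.lf (nat_lit 76) (nat_lit 116739813715) (nat_lit 0) (nat_lit 192084396463) (nat_lit 532) (nat_lit 324554148167) (nat_lit 41) (nat_lit 5) (nat_lit 40) (nat_lit 3) (nat_lit 47) (nat_lit 5) (nat_lit 326) (nat_lit 325) (nat_lit 129))) (XT.nd (nat_lit 78) (nat_lit 0) (nat_lit 0) (XT.lf (nat_lit 0) (nat_lit 331110691646) (nat_lit 456) (nat_lit 239478085990)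 (nat_lit 532) (nat_lit 88342470739) (nat_lit 41) (nat_lit 5) (nat_lit 47) (nat_lit 5) (nat_lit 48) (nat_lit 5) (nat_lit 327) (nat_lit 325) (nat_lit 128)) (XT.lf (nat_lit 76) (nat_lit 57755140457) (nat_lit 0) (nat_lit 303803154026) (nat_lit 532) (nat_lit 324459818959) (nat_lit 42) (nat_lit 5) (nat_lit 41) (nat_lit 5) (nat_lit 48) (nat_lit 5) (nat_lit 328) (nat_lit 325) (nat_lit 127))))) (XT.nd (nat_lit 234) (nat_lit 532) (nat_lit 0) (XT.nd (nat_lit 78) (nat_lit 0) (nat_lit 76) (XT.lf (nat_lit 76) (nat_lit 392386346401) (nat_lit 0) (nat_lit 8603100506) (nat_lit 532) (nat_lit 313758661557) (nat_lit 42) (nat_lit 5) (nat_lit 41) (nat_lit 5) (nat_lit 48) (nat_lit 5) (nat_lit 329) (nat_lit 325) (nat_lit 126)) (XT.nd (nat_lit 78) (nat_lit 0) (nat_lit 0) (XT.lf (nat_lit 76) (nat_lit 579916375) (nat_lit 0) (nat_lit 450469738459) (nat_lit 532) (nat_lit 294128883242) (nat_lit 43) (nat_lit 5) (nat_lit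 42) (nat_lit 5) (nat_lit 49) (nat_lit 5) (nat_lit 330) (nat_lit 325) (nat_lit 125)) (XT.lf (nat_lit 76) (nat_lit 367454694337) (nat_lit 0) (nat_lit 146691714854) (nat_lit 532) (nat_lit 263174454534) (nat_lit 43) (nat_lit 5) (nat_lit 42) (nat_lit 5) (nat_lit 49) (nat_lit 5) (nat_lit 331) (nat_lit 325) (nat_lit 124)))) (XT.nd (nat_lit 156) (nat_lit 228) (nat_lit 0) (XT.nd (nat_lit 78) (nat_lit 456) (nat_lit 0) (XT.lf (nat_lit 0) (nat_lit 586653291780) (nat_lit 456) (nat_lit 52717529944) (nat_lit 76) (nat_lit 172314762715) (nat_lit 43) (nat_lit 5) (nat_lit 49) (nat_lit 5) (nat_lit 44) (nat_lit 5) (nat_lit 332) (nat_lit 325) (nat_lit 123)) (XT.lf (nat_lit 0) (nat_lit 346527527296) (nat_lit 456) (nat_lit 330577357159) (nat_lit 532) (nat_lit 170723065641) (nat_lit 37) (nat_lit 5) (nat_lit 43) (nat_lit 5) (nat_lit 44) (nat_lit 5) (nat_lit 333) (nat_lit 325) (nat_lit 122))) (XT.nd (nat_lit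 78) (nat_lit 228) (nat_lit 0) (XT.lf (nat_lit 0) (nat_lit 776341640300) (nat_lit 532) (nat_lit 106143776699) (nat_lit 76) (nat_lit 4252365186) (nat_lit 37) (nat_lit 5) (nat_lit 44) (nat_lit 5) (nat_lit 38) (nat_lit 5) (nat_lit 334) (nat_lit 325) (nat_lit 121)) (XT.lf (nat_lit 0) (nat_lit 328470386081) (nat_lit 228) (nat_lit 571533087061) (nat_lit 304) (nat_lit 27438036813) (nat_lit 34) (nat_lit 5) (nat_lit 37) (nat_lit 5) (nat_lit 38) (nat_lit 5) (nat_lit 335) (nat_lit 325) (nat_lit 120)))))) (XT.nd (nat_lit 546) (nat_lit 380) (nat_lit 0) (XT.nd (nat_lit 234) (nat_lit 380) (nat_lit 0) (XT.nd (nat_lit 78) (nat_lit 228) (nat_lit 0) (XT.lf (nat_lit 0) (nat_lit 62024916853) (nat_lit 304) (nat_lit 168849451433) (nat_lit 76) (nat_lit 740169375578) (nat_lit 33) (nat_lit 5) (nat_lit 37) (nat_lit 5) (nat_lit 34) (nat_lit 5) (nat_lit 336) (nat_lit 325) (nat_lit 119)) (XT.nd (nat_lit 78) (nat_lit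 0) (nat_lit 0) (XT.lf (nat_lit 0) (nat_lit 168138326819) (nat_lit 304) (nat_lit 710486126531) (nat_lit 76) (nat_lit 138574626129) (nat_lit 30) (nat_lit 5) (nat_lit 34) (nat_lit 5) (nat_lit 31) (nat_lit 5) (nat_lit 337) (nat_lit 325) (nat_lit 118)) (XT.lf (nat_lit 0) (nat_lit 293474094679) (nat_lit 304) (nat_lit 242871201683) (nat_lit 76) (nat_lit 529842882800) (nat_lit 30) (nat_lit 5) (nat_lit 34) (nat_lit 5) (nat_lit 31) (nat_lit 5) (nat_lit 338) (nat_lit 325) (nat_lit 117)))) (XT.nd (nat_lit 156) (nat_lit 152) (nat_lit 0) (XT.nd (nat_lit 78) (nat_lit 0) (nat_lit 0) (XT.lf (nat_lit 0) (nat_lit 275957416279) (nat_lit 228) (nat_lit 159516082980) (nat_lit 304) (nat_lit 683091965562) (nat_lit 27) (nat_lit 5) (nat_lit 30) (nat_lit 5) (nat_lit 31) (nat_lit 5) (nat_lit 339) (nat_lit 325) (nat_lit 116)) (XT.lf (nat_lit 0) (nat_lit 601597265780) (nat_lit 304) (nat_lit 330620963099) (nat_lit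 76) (nat_lit 241893551711) (nat_lit 27) (nat_lit 5) (nat_lit 31) (nat_lit 5) (nat_lit 28) (nat_lit 5) (nat_lit 340) (nat_lit 325) (nat_lit 115))) (XT.nd (nat_lit 78) (nat_lit 0) (nat_lit 0) (XT.lf (nat_lit 0) (nat_lit 229670873415) (nat_lit 152) (nat_lit 561006918727) (nat_lit 228) (nat_lit 442650660819) (nat_lit 25) (nat_lit 5) (nat_lit 27) (nat_lit 5) (nat_lit 28) (nat_lit 5) (nat_lit 341) (nat_lit 325) (nat_lit 114)) (XT.lf (nat_lit 0) (nat_lit 853588756042) (nat_lit 152) (nat_lit 150335761503) (nat_lit 228) (nat_lit 292634761042) (nat_lit 25) (nat_lit 5) (nat_lit 27) (nat_lit 5) (nat_lit 28) (nat_lit 5) (nat_lit 342) (nat_lit 325) (nat_lit 113))))) (XT.nd (nat_lit 39390) (nat_lit 0) (nat_lit 1520) (XT.nd (nat_lit 156) (nat_lit 152) (nat_lit 0) (XT.nd (nat_lit 78) (nat_lit 76) (nat_lit 0) (XT.lf (nat_lit 0) (nat_lit 163709709299) (nat_lit 152) (nat_lit 1081509693053) (nat_lit 228)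 (nat_lit 118750094218) (nat_lit 23) (nat_lit 5) (nat_lit 25) (nat_lit 5) (nat_lit 26) (nat_lit 5) (nat_lit 343) (nat_lit 325) (nat_lit 112)) (XT.lf (nat_lit 0) (nat_lit 81922423556) (nat_lit 228) (nat_lit 597567080338) (nat_lit 76) (nat_lit 755843704301) (nat_lit 22) (nat_lit 5) (nat_lit 25) (nat_lit 5) (nat_lit 23) (nat_lit 5) (nat_lit 344) (nat_lit 325) (nat_lit 111))) (XT.nd (nat_lit 39156) (nat_lit 0) (nat_lit 1520) (XT.lf (nat_lit 0) (nat_lit 52903042241) (nat_lit 152) (nat_lit 240602425244) (nat_lit 228) (nat_lit 1218552010697) (nat_lit 20) (nat_lit 5) (nat_lit 22) (nat_lit 5) (nat_lit 23) (nat_lit 5) (nat_lit 345) (nat_lit 325) (nat_lit 110)) (XT.lf (nat_lit 0) (nat_lit 158893314910) (nat_lit 532) (nat_lit 85046417191) (nat_lit 532) (nat_lit 85046417191) (nat_lit 40) (nat_lit 3) (nat_lit 47) (nat_lit 3) (nat_lit 47) (nat_lit 5) (nat_lit 326) (nat_lit 326) (nat_lit 128)))) (XT.nd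 (nat_lit 156) (nat_lit 0) (nat_lit 76) (XT.nd (nat_lit 78) (nat_lit 0) (nat_lit 76) (XT.lf (nat_lit 76) (nat_lit 126079162726) (nat_lit 0) (nat_lit 207451275434) (nat_lit 532) (nat_lit 350518164334) (nat_lit 41) (nat_lit 5) (nat_lit 40) (nat_lit 3) (nat_lit 47) (nat_lit 5) (nat_lit 327) (nat_lit 326) (nat_lit 127)) (XT.lf (nat_lit 0) (nat_lit 357599813744) (nat_lit 456) (nat_lit 258636155561) (nat_lit 532) (nat_lit 95409756464) (nat_lit 41) (nat_lit 5) (nat_lit 47) (nat_lit 5) (nat_lit 48) (nat_lit 5) (nat_lit 328) (nat_lit 326) (nat_lit 126))) (XT.nd (nat_lit 78) (nat_lit 0) (nat_lit 0) (XT.lf (nat_lit 76) (nat_lit 62375724514) (nat_lit 0) (nat_lit 328107484691) (nat_lit 532) (nat_lit 350416332170) (nat_lit 42) (nat_lit 5) (nat_lit 41) (nat_lit 5) (nat_lit 48) (nat_lit 5) (nat_lit 329) (nat_lit 326) (nat_lit 125)) (XT.lf (nat_lit 76) (nat_lit 423777414132) (nat_lit 0) (nat_lit 9291421086)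 (nat_lit 532) (nat_lit 338859102347) (nat_lit 42) (nat_lit 5) (nat_lit 41) (nat_lit 5) (nat_lit 48) (nat_lit 5) (nat_lit 330) (nat_lit 326) (nat_lit 124))))))))
noncomputable def xc126 : XT := (XT.nd (nat_lit 41418) (nat_lit 0) (nat_lit 152) (XT.nd (nat_lit 40326) (nat_lit 0) (nat_lit 532) (XT.nd (nat_lit 546) (nat_lit 760) (nat_lit 0) (XT.nd (nat_lit 234) (nat_lit 684) (nat_lit 0) (XT.nd (nat_lit 78) (nat_lit 0) (nat_lit 0) (XT.lf (nat_lit 76) (nat_lit 626486434) (nat_lit 0) (nat_lit 486507358753) (nat_lit 532) (nat_lit 317658957598) (nat_lit 43) (nat_lit 5) (nat_lit 42) (nat_lit 5) (nat_lit 49) (nat_lit 5) (nat_lit 331) (nat_lit 326) (nat_lit 123)) (XT.nd (nat_lit 78) (nat_lit 0) (nat_lit 76) (XT.lf (nat_lit 76) (nat_lit 396851233541) (nat_lit 0) (nat_lit 158427090206) (nat_lit 532) (nat_lit 284228192096) (nat_lit 43) (nat_lit 5) (nat_lit 42) (nat_lit 5) (nat_lit 49) (nat_lit 5)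 (nat_lit 332) (nat_lit 326) (nat_lit 122)) (XT.lf (nat_lit 0) (nat_lit 633585741144) (nat_lit 456) (nat_lit 56934764234) (nat_lit 76) (nat_lit 186099910163) (nat_lit 43) (nat_lit 5) (nat_lit 49) (nat_lit 5) (nat_lit 44) (nat_lit 5) (nat_lit 333) (nat_lit 326) (nat_lit 121)))) (XT.nd (nat_lit 156) (nat_lit 304) (nat_lit 0) (XT.nd (nat_lit 78) (nat_lit 0) (nat_lit 0) (XT.lf (nat_lit 0) (nat_lit 374249893330) (nat_lit 456) (nat_lit 357023558065) (nat_lit 532) (nat_lit 184380719900) (nat_lit 37) (nat_lit 5) (nat_lit 43) (nat_lit 5) (nat_lit 44) (nat_lit 5) (nat_lit 334) (nat_lit 326) (nat_lit 120)) (XT.lf (nat_lit 0) (nat_lit 838449134381) (nat_lit 532) (nat_lit 114635113135) (nat_lit 76) (nat_lit 4592543553) (nat_lit 37) (nat_lit 5) (nat_lit 44) (nat_lit 5) (nat_lit 38) (nat_lit 5) (nat_lit 335) (nat_lit 326) (nat_lit 119))) (XT.nd (nat_lit 78) (nat_lit 76) (nat_lit 0) (XT.lf (nat_lit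 0) (nat_lit 354748178472) (nat_lit 228) (nat_lit 617255727199) (nat_lit 304) (nat_lit 29632912093) (nat_lit 34) (nat_lit 5) (nat_lit 37) (nat_lit 5) (nat_lit 38) (nat_lit 5) (nat_lit 336) (nat_lit 326) (nat_lit 118)) (XT.lf (nat_lit 0) (nat_lit 66987057681) (nat_lit 304) (nat_lit 182357249714) (nat_lit 76) (nat_lit 799382923654) (nat_lit 33) (nat_lit 5) (nat_lit 37) (nat_lit 5) (nat_lit 34) (nat_lit 5) (nat_lit 337) (nat_lit 326) (nat_lit 117))))) (XT.nd (nat_lit 234) (nat_lit 304) (nat_lit 0) (XT.nd (nat_lit 78) (nat_lit 228) (nat_lit 0) (XT.lf (nat_lit 0) (nat_lit 181589533546) (nat_lit 304) (nat_lit 767324851436) (nat_lit 76) (nat_lit 149660609122) (nat_lit 30) (nat_lit 5) (nat_lit 34) (nat_lit 5) (nat_lit 31) (nat_lit 5) (nat_lit 338) (nat_lit 326) (nat_lit 116)) (XT.nd (nat_lit 78) (nat_lit 228) (nat_lit 0) (XT.lf (nat_lit 0) (nat_lit 316952152421) (nat_lit 304) (nat_lit 262300744839)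 (nat_lit 76) (nat_lit 572230325371) (nat_lit 30) (nat_lit 5) (nat_lit 34) (nat_lit 5) (nat_lit 31) (nat_lit 5) (nat_lit 339) (nat_lit 326) (nat_lit 115)) (XT.lf (nat_lit 0) (nat_lit 298034158688) (nat_lit 228) (nat_lit 172277344624) (nat_lit 304) (nat_lit 737739188349) (nat_lit 27) (nat_lit 5) (nat_lit 30) (nat_lit 5) (nat_lit 31) (nat_lit 5) (nat_lit 340) (nat_lit 326) (nat_lit 114)))) (XT.nd (nat_lit 156) (nat_lit 152) (nat_lit 0) (XT.nd (nat_lit 78) (nat_lit 152) (nat_lit 0) (XT.lf (nat_lit 0) (nat_lit 649725162518) (nat_lit 304) (nat_lit 357070493062) (nat_lit 76) (nat_lit 261245057833) (nat_lit 27) (nat_lit 5) (nat_lit 31) (nat_lit 5) (nat_lit 28) (nat_lit 5) (nat_lit 341) (nat_lit 326) (nat_lit 113)) (XT.lf (nat_lit 0) (nat_lit 248044686649) (nat_lit 152) (nat_lit 605887439233) (nat_lit 228) (nat_lit 478062594128) (nat_lit 25) (nat_lit 5) (nat_lit 27) (nat_lit 5) (nat_lit 28)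 (nat_lit 5) (nat_lit 342) (nat_lit 326) (nat_lit 112))) (XT.nd (nat_lit 78) (nat_lit 152) (nat_lit 0) (XT.lf (nat_lit 0) (nat_lit 921875989266) (nat_lit 152) (nat_lit 162362591875) (nat_lit 228) (nat_lit 316045431225) (nat_lit 25) (nat_lit 5) (nat_lit 27) (nat_lit 5) (nat_lit 28) (nat_lit 5) (nat_lit 343) (nat_lit 326) (nat_lit 111)) (XT.lf (nat_lit 0) (nat_lit 176806622999) (nat_lit 152) (nat_lit 1168030430139) (nat_lit 228) (nat_lit 128249994963) (nat_lit 23) (nat_lit 5) (nat_lit 25) (nat_lit 5) (nat_lit 26) (nat_lit 5) (nat_lit 344) (nat_lit 326) (nat_lit 110)))))) (XT.nd (nat_lit 546) (nat_lit 760) (nat_lit 0) (XT.nd (nat_lit 234) (nat_lit 0) (nat_lit 76) (XT.nd (nat_lit 78) (nat_lit 0) (nat_lit 0) (XT.lf (nat_lit 0) (nat_lit 171604913077) (nat_lit 532) (nat_lit 91850058476) (nat_lit 532) (nat_lit 91850058476) (nat_lit 40) (nat_lit 3) (nat_lit 47) (nat_lit 3) (nat_lit 47) (nat_lit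 5) (nat_lit 327) (nat_lit 327) (nat_lit 126)) (XT.nd (nat_lit 78) (nat_lit 0) (nat_lit 76) (XT.lf (nat_lit 76) (nat_lit 136165636274) (nat_lit 0) (nat_lit 224047486568) (nat_lit 532) (nat_lit 378559346831) (nat_lit 41) (nat_lit 5) (nat_lit 40) (nat_lit 3) (nat_lit 47) (nat_lit 5) (nat_lit 328) (nat_lit 327) (nat_lit 125)) (XT.lf (nat_lit 0) (nat_lit 386208027553) (nat_lit 456) (nat_lit 279326895993) (nat_lit 532) (nat_lit 103042441017) (nat_lit 41) (nat_lit 5) (nat_lit 47) (nat_lit 5) (nat_lit 48) (nat_lit 5) (nat_lit 329) (nat_lit 327) (nat_lit 124)))) (XT.nd (nat_lit 156) (nat_lit 0) (nat_lit 76) (XT.nd (nat_lit 78) (nat_lit 0) (nat_lit 0) (XT.lf (nat_lit 76) (nat_lit 67365930640) (nat_lit 0) (nat_lit 354356150632) (nat_lit 532) (nat_lit 378449405286) (nat_lit 42) (nat_lit 5) (nat_lit 41) (nat_lit 5) (nat_lit 48) (nat_lit 5) (nat_lit 330) (nat_lit 327) (nat_lit 123)) (XT.lf (nat_lit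 76) (nat_lit 457679744452) (nat_lit 0) (nat_lit 10034796963) (nat_lit 532) (nat_lit 365967614370) (nat_lit 42) (nat_lit 5) (nat_lit 41) (nat_lit 5) (nat_lit 48) (nat_lit 5) (nat_lit 331) (nat_lit 327) (nat_lit 122))) (XT.nd (nat_lit 78) (nat_lit 0) (nat_lit 0) (XT.lf (nat_lit 76) (nat_lit 676756883) (nat_lit 0) (nat_lit 525427982791) (nat_lit 532) (nat_lit 343071471613) (nat_lit 43) (nat_lit 5) (nat_lit 42) (nat_lit 5) (nat_lit 49) (nat_lit 5) (nat_lit 332) (nat_lit 327) (nat_lit 121)) (XT.lf (nat_lit 76) (nat_lit 428599472533) (nat_lit 0) (nat_lit 171101290142) (nat_lit 532) (nat_lit 306966259878) (nat_lit 43) (nat_lit 5) (nat_lit 42) (nat_lit 5) (nat_lit 49) (nat_lit 5) (nat_lit 333) (nat_lit 327) (nat_lit 120))))) (XT.nd (nat_lit 234) (nat_lit 532) (nat_lit 0) (XT.nd (nat_lit 78) (nat_lit 456) (nat_lit 0) (XT.lf (nat_lit 0) (nat_lit 684272759919) (nat_lit 456) (nat_lit 61489401250)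 (nat_lit 76) (nat_lit 200987874195) (nat_lit 43) (nat_lit 5) (nat_lit 49) (nat_lit 5) (nat_lit 44) (nat_lit 5) (nat_lit 334) (nat_lit 327) (nat_lit 119)) (XT.nd (nat_lit 78) (nat_lit 0) (nat_lit 0) (XT.lf (nat_lit 0) (nat_lit 404190025271) (nat_lit 456) (nat_lit 385585453284) (nat_lit 532) (nat_lit 199131013748) (nat_lit 37) (nat_lit 5) (nat_lit 43) (nat_lit 5) (nat_lit 44) (nat_lit 5) (nat_lit 335) (nat_lit 327) (nat_lit 118)) (XT.lf (nat_lit 0) (nat_lit 905525204756) (nat_lit 532) (nat_lit 123805780125) (nat_lit 76) (nat_lit 4959937737) (nat_lit 37) (nat_lit 5) (nat_lit 44) (nat_lit 5) (nat_lit 38) (nat_lit 5) (nat_lit 336) (nat_lit 327) (nat_lit 117)))) (XT.nd (nat_lit 156) (nat_lit 228) (nat_lit 0) (XT.nd (nat_lit 78) (nat_lit 76) (nat_lit 0) (XT.lf (nat_lit 0) (nat_lit 383128171214) (nat_lit 228) (nat_lit 666636179522) (nat_lit 304) (nat_lit 32003401315) (nat_lit 34) (nat_lit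 5) (nat_lit 37) (nat_lit 5) (nat_lit 38) (nat_lit 5) (nat_lit 337) (nat_lit 327) (nat_lit 116)) (XT.lf (nat_lit 0) (nat_lit 72346148735) (nat_lit 304) (nat_lit 196945694375) (nat_lit 76) (nat_lit 863333555857) (nat_lit 33) (nat_lit 5) (nat_lit 37) (nat_lit 5) (nat_lit 34) (nat_lit 5) (nat_lit 338) (nat_lit 327) (nat_lit 115))) (XT.nd (nat_lit 78) (nat_lit 0) (nat_lit 0) (XT.lf (nat_lit 0) (nat_lit 196116816756) (nat_lit 304) (nat_lit 828710697903) (nat_lit 76) (nat_lit 161633468914) (nat_lit 30) (nat_lit 5) (nat_lit 34) (nat_lit 5) (nat_lit 31) (nat_lit 5) (nat_lit 339) (nat_lit 327) (nat_lit 114)) (XT.lf (nat_lit 0) (nat_lit 342308436213) (nat_lit 304) (nat_lit 283284673271) (nat_lit 76) (nat_lit 618008761643) (nat_lit 30) (nat_lit 5) (nat_lit 34) (nat_lit 5) (nat_lit 31) (nat_lit 5) (nat_lit 340) (nat_lit 327) (nat_lit 113))))))) (XT.nd (nat_lit 40404) (nat_lit 0) (nat_lit 152) (XT.nd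 (nat_lit 39858) (nat_lit 0) (nat_lit 912) (XT.nd (nat_lit 234) (nat_lit 0) (nat_lit 0) (XT.nd (nat_lit 78) (nat_lit 152) (nat_lit 0) (XT.lf (nat_lit 0) (nat_lit 321877019217) (nat_lit 228) (nat_lit 186059510766) (nat_lit 304) (nat_lit 796758208141) (nat_lit 27) (nat_lit 5) (nat_lit 30) (nat_lit 5) (nat_lit 31) (nat_lit 5) (nat_lit 341) (nat_lit 327) (nat_lit 112)) (XT.nd (nat_lit 78) (nat_lit 152) (nat_lit 0) (XT.lf (nat_lit 0) (nat_lit 701703274521) (nat_lit 304) (nat_lit 385636006406) (nat_lit 76) (nat_lit 282144681308) (nat_lit 27) (nat_lit 5) (nat_lit 31) (nat_lit 5) (nat_lit 28) (nat_lit 5) (nat_lit 342) (nat_lit 327) (nat_lit 111)) (XT.lf (nat_lit 0) (nat_lit 267888384490) (nat_lit 152) (nat_lit 654358406087) (nat_lit 228) (nat_lit 516307499158) (nat_lit 25) (nat_lit 5) (nat_lit 27) (nat_lit 5) (nat_lit 28) (nat_lit 5) (nat_lit 343) (nat_lit 327) (nat_lit 110)))) (XT.nd (nat_lit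 39468) (nat_lit 0) (nat_lit 1140) (XT.nd (nat_lit 39390) (nat_lit 0) (nat_lit 1140) (XT.lf (nat_lit 0) (nat_lit 995626182212) (nat_lit 152) (nat_lit 175351573036) (nat_lit 228) (nat_lit 341328970815) (nat_lit 25) (nat_lit 5) (nat_lit 27) (nat_lit 5) (nat_lit 28) (nat_lit 5) (nat_lit 344) (nat_lit 327) (nat_lit 109)) (XT.lf (nat_lit 0) (nat_lit 185333420128) (nat_lit 532) (nat_lit 99198001348) (nat_lit 532) (nat_lit 99198001348) (nat_lit 40) (nat_lit 3) (nat_lit 47) (nat_lit 3) (nat_lit 47) (nat_lit 5) (nat_lit 328) (nat_lit 328) (nat_lit 124))) (XT.nd (nat_lit 78) (nat_lit 0) (nat_lit 76) (XT.lf (nat_lit 76) (nat_lit 147059007658) (nat_lit 0) (nat_lit 241971379029) (nat_lit 532) (nat_lit 408843862538) (nat_lit 41) (nat_lit 5) (nat_lit 40) (nat_lit 3) (nat_lit 47) (nat_lit 5) (nat_lit 329) (nat_lit 328) (nat_lit 123)) (XT.lf (nat_lit 0) (nat_lit 417104865838) (nat_lit 456) (nat_lit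 301672917345) (nat_lit 532) (nat_lit 111285754024) (nat_lit 41) (nat_lit 5) (nat_lit 47) (nat_lit 5) (nat_lit 48) (nat_lit 5) (nat_lit 330) (nat_lit 328) (nat_lit 122))))) (XT.nd (nat_lit 234) (nat_lit 304) (nat_lit 0) (XT.nd (nat_lit 78) (nat_lit 0) (nat_lit 0) (XT.lf (nat_lit 76) (nat_lit 72755332119) (nat_lit 0) (nat_lit 382704700266) (nat_lit 532) (nat_lit 408725157556) (nat_lit 42) (nat_lit 5) (nat_lit 41) (nat_lit 5) (nat_lit 48) (nat_lit 5) (nat_lit 331) (nat_lit 328) (nat_lit 121)) (XT.nd (nat_lit 78) (nat_lit 0) (nat_lit 76) (XT.lf (nat_lit 76) (nat_lit 494294241626) (nat_lit 0) (nat_lit 10837634039) (nat_lit 532) (nat_lit 395244838193) (nat_lit 42) (nat_lit 5) (nat_lit 41) (nat_lit 5) (nat_lit 48) (nat_lit 5) (nat_lit 332) (nat_lit 328) (nat_lit 120)) (XT.lf (nat_lit 76) (nat_lit 731027349) (nat_lit 0) (nat_lit 567462251710) (nat_lit 532) (nat_lit 370517015651) (nat_lit 43)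 (nat_lit 5) (nat_lit 42) (nat_lit 5) (nat_lit 49) (nat_lit 5) (nat_lit 333) (nat_lit 328) (nat_lit 119)))) (XT.nd (nat_lit 156) (nat_lit 380) (nat_lit 0) (XT.nd (nat_lit 78) (nat_lit 0) (nat_lit 76) (XT.lf (nat_lit 76) (nat_lit 462887550628) (nat_lit 0) (nat_lit 184789421406) (nat_lit 532) (nat_lit 331523399844) (nat_lit 43) (nat_lit 5) (nat_lit 42) (nat_lit 5) (nat_lit 49) (nat_lit 5) (nat_lit 334) (nat_lit 328) (nat_lit 118)) (XT.lf (nat_lit 0) (nat_lit 739014717443) (nat_lit 456) (nat_lit 66408429787) (nat_lit 76) (nat_lit 217066879457) (nat_lit 43) (nat_lit 5) (nat_lit 49) (nat_lit 5) (nat_lit 44) (nat_lit 5) (nat_lit 335) (nat_lit 328) (nat_lit 117))) (XT.nd (nat_lit 78) (nat_lit 0) (nat_lit 0) (XT.lf (nat_lit 0) (nat_lit 436525347727) (nat_lit 456) (nat_lit 416432298611) (nat_lit 532) (nat_lit 215061354463) (nat_lit 37) (nat_lit 5) (nat_lit 43) (nat_lit 5) (nat_lit 44) (nat_lit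 5) (nat_lit 336) (nat_lit 328) (nat_lit 116)) (XT.lf (nat_lit 0) (nat_lit 977967340841) (nat_lit 532) (nat_lit 133710120741) (nat_lit 76) (nat_lit 5356724782) (nat_lit 37) (nat_lit 5) (nat_lit 44) (nat_lit 5) (nat_lit 38) (nat_lit 5) (nat_lit 337) (nat_lit 328) (nat_lit 115)))))) (XT.nd (nat_lit 40014) (nat_lit 0) (nat_lit 760) (XT.nd (nat_lit 234) (nat_lit 228) (nat_lit 0) (XT.nd (nat_lit 78) (nat_lit 304) (nat_lit 0) (XT.lf (nat_lit 0) (nat_lit 413778543622) (nat_lit 228) (nat_lit 719967068866) (nat_lit 304) (nat_lit 34563550181) (nat_lit 34) (nat_lit 5) (nat_lit 37) (nat_lit 5) (nat_lit 38) (nat_lit 5) (nat_lit 338) (nat_lit 328) (nat_lit 114)) (XT.nd (nat_lit 78) (nat_lit 228) (nat_lit 0) (XT.lf (nat_lit 0) (nat_lit 78133949036) (nat_lit 304) (nat_lit 212701233914) (nat_lit 76) (nat_lit 932400238877) (nat_lit 33) (nat_lit 5) (nat_lit 37) (nat_lit 5) (nat_lit 34) (nat_lit 5) (nat_lit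 339) (nat_lit 328) (nat_lit 113)) (XT.lf (nat_lit 0) (nat_lit 211806265428) (nat_lit 304) (nat_lit 895007432296) (nat_lit 76) (nat_lit 174564155911) (nat_lit 30) (nat_lit 5) (nat_lit 34) (nat_lit 5) (nat_lit 31) (nat_lit 5) (nat_lit 340) (nat_lit 328) (nat_lit 112)))) (XT.nd (nat_lit 156) (nat_lit 0) (nat_lit 0) (XT.nd (nat_lit 78) (nat_lit 228) (nat_lit 0) (XT.lf (nat_lit 0) (nat_lit 369693206787) (nat_lit 304) (nat_lit 305947334689) (nat_lit 76) (nat_lit 667449471356) (nat_lit 30) (nat_lit 5) (nat_lit 34) (nat_lit 5) (nat_lit 31) (nat_lit 5) (nat_lit 341) (nat_lit 328) (nat_lit 111)) (XT.lf (nat_lit 0) (nat_lit 347627290352) (nat_lit 228) (nat_lit 200944253255) (nat_lit 304) (nat_lit 860498765961) (nat_lit 27) (nat_lit 5) (nat_lit 30) (nat_lit 5) (nat_lit 31) (nat_lit 5) (nat_lit 342) (nat_lit 328) (nat_lit 110))) (XT.nd (nat_lit 39546) (nat_lit 0) (nat_lit 988) (XT.lf (nat_lit 0)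 (nat_lit 757839621360) (nat_lit 304) (nat_lit 416486778807) (nat_lit 76) (nat_lit 304716271973) (nat_lit 27) (nat_lit 5) (nat_lit 31) (nat_lit 5) (nat_lit 28) (nat_lit 5) (nat_lit 343) (nat_lit 328) (nat_lit 109)) (XT.lf (nat_lit 0) (nat_lit 200160191479) (nat_lit 532) (nat_lit 107133788468) (nat_lit 532) (nat_lit 107133788468) (nat_lit 40) (nat_lit 3) (nat_lit 47) (nat_lit 3) (nat_lit 47) (nat_lit 5) (nat_lit 329) (nat_lit 329) (nat_lit 122))))) (XT.nd (nat_lit 312) (nat_lit 228) (nat_lit 0) (XT.nd (nat_lit 156) (nat_lit 0) (nat_lit 76) (XT.nd (nat_lit 78) (nat_lit 0) (nat_lit 76) (XT.lf (nat_lit 76) (nat_lit 158823831564) (nat_lit 0) (nat_lit 261329169542) (nat_lit 532) (nat_lit 441551172606) (nat_lit 41) (nat_lit 5) (nat_lit 40) (nat_lit 3) (nat_lit 47) (nat_lit 5) (nat_lit 330) (nat_lit 329) (nat_lit 121)) (XT.lf (nat_lit 0) (nat_lit 450473423213) (nat_lit 456) (nat_lit 325806638998)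 (nat_lit 532) (nat_lit 120188543809) (nat_lit 41) (nat_lit 5) (nat_lit 47) (nat_lit 5) (nat_lit 48) (nat_lit 5) (nat_lit 331) (nat_lit 329) (nat_lit 120))) (XT.nd (nat_lit 78) (nat_lit 0) (nat_lit 0) (XT.lf (nat_lit 76) (nat_lit 78575867594) (nat_lit 0) (nat_lit 413321125657) (nat_lit 532) (nat_lit 441422998562) (nat_lit 42) (nat_lit 5) (nat_lit 41) (nat_lit 5) (nat_lit 48) (nat_lit 5) (nat_lit 332) (nat_lit 329) (nat_lit 119)) (XT.lf (nat_lit 76) (nat_lit 533837881795) (nat_lit 0) (nat_lit 11704690474) (nat_lit 532) (nat_lit 426864266361) (nat_lit 42) (nat_lit 5) (nat_lit 41) (nat_lit 5) (nat_lit 48) (nat_lit 5) (nat_lit 333) (nat_lit 329) (nat_lit 118)))) (XT.nd (nat_lit 156) (nat_lit 380) (nat_lit 0) (XT.nd (nat_lit 78) (nat_lit 0) (nat_lit 0) (XT.lf (nat_lit 76) (nat_lit 789620919) (nat_lit 0) (nat_lit 612859257821) (nat_lit 532) (nat_lit 400158227992) (nat_lit 43) (nat_lit 5)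 (nat_lit 42) (nat_lit 5) (nat_lit 49) (nat_lit 5) (nat_lit 334) (nat_lit 329) (nat_lit 117)) (XT.lf (nat_lit 76) (nat_lit 499918657810) (nat_lit 0) (nat_lit 199572599168) (nat_lit 532) (nat_lit 358045133950) (nat_lit 43) (nat_lit 5) (nat_lit 42) (nat_lit 5) (nat_lit 49) (nat_lit 5) (nat_lit 335) (nat_lit 329) (nat_lit 116))) (XT.nd (nat_lit 78) (nat_lit 456) (nat_lit 0) (XT.lf (nat_lit 0) (nat_lit 798136012064) (nat_lit 456) (nat_lit 71720998236) (nat_lit 76) (nat_lit 234432208659) (nat_lit 43) (nat_lit 5) (nat_lit 49) (nat_lit 5) (nat_lit 44) (nat_lit 5) (nat_lit 336) (nat_lit 329) (nat_lit 115)) (XT.lf (nat_lit 0) (nat_lit 471447478798) (nat_lit 456) (nat_lit 449746890272) (nat_lit 532) (nat_lit 232266142462) (nat_lit 37) (nat_lit 5) (nat_lit 43) (nat_lit 5) (nat_lit 44) (nat_lit 5) (nat_lit 337) (nat_lit 329) (nat_lit 114))))))))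
noncomputable def xc127 : XT := (XT.nd (nat_lit 81510) (nat_lit 0) (nat_lit 304) (XT.nd (nat_lit 40716) (nat_lit 0) (nat_lit 0) (XT.nd (nat_lit 40170) (nat_lit 0) (nat_lit 532) (XT.nd (nat_lit 234) (nat_lit 228) (nat_lit 0) (XT.nd (nat_lit 78) (nat_lit 304) (nat_lit 0) (XT.lf (nat_lit 0) (nat_lit 1056204830736) (nat_lit 532) (nat_lit 144406825981) (nat_lit 76) (nat_lit 5785255929) (nat_lit 37) (nat_lit 5) (nat_lit 44) (nat_lit 5) (nat_lit 38) (nat_lit 5) (nat_lit 338) (nat_lit 329) (nat_lit 113)) (XT.nd (nat_lit 78) (nat_lit 76) (nat_lit 0) (XT.lf (nat_lit 0) (nat_lit 446880928887) (nat_lit 228) (nat_lit 777564430073) (nat_lit 304) (nat_lit 37328528538) (nat_lit 34) (nat_lit 5) (nat_lit 37) (nat_lit 5) (nat_lit 38) (nat_lit 5) (nat_lit 339) (nat_lit 329) (nat_lit 112)) (XT.lf (nat_lit 0) (nat_lit 84384757896) (nat_lit 304) (nat_lit 229717233165) (nat_lit 76) (nat_lit 1006992256746)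 (nat_lit 33) (nat_lit 5) (nat_lit 37) (nat_lit 5) (nat_lit 34) (nat_lit 5) (nat_lit 340) (nat_lit 329) (nat_lit 111)))) (XT.nd (nat_lit 39780) (nat_lit 0) (nat_lit 760) (XT.nd (nat_lit 78) (nat_lit 0) (nat_lit 0) (XT.lf (nat_lit 0) (nat_lit 228750855252) (nat_lit 304) (nat_lit 966607922765) (nat_lit 76) (nat_lit 188529296515) (nat_lit 30) (nat_lit 5) (nat_lit 34) (nat_lit 5) (nat_lit 31) (nat_lit 5) (nat_lit 341) (nat_lit 329) (nat_lit 110)) (XT.lf (nat_lit 0) (nat_lit 399268745358) (nat_lit 304) (nat_lit 330423025061) (nat_lit 76) (nat_lit 720845436594) (nat_lit 30) (nat_lit 5) (nat_lit 34) (nat_lit 5) (nat_lit 31) (nat_lit 5) (nat_lit 342) (nat_lit 329) (nat_lit 109))) (XT.nd (nat_lit 78) (nat_lit 0) (nat_lit 0) (XT.lf (nat_lit 0) (nat_lit 216173090594) (nat_lit 532) (nat_lit 115704446117) (nat_lit 532) (nat_lit 115704446117) (nat_lit 40) (nat_lit 3) (nat_lit 47) (nat_lit 3) (nat_lit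 47) (nat_lit 5) (nat_lit 330) (nat_lit 330) (nat_lit 120)) (XT.lf (nat_lit 76) (nat_lit 171529826647) (nat_lit 0) (nat_lit 282235571857) (nat_lit 532) (nat_lit 476875095858) (nat_lit 41) (nat_lit 5) (nat_lit 40) (nat_lit 3) (nat_lit 47) (nat_lit 5) (nat_lit 331) (nat_lit 330) (nat_lit 119))))) (XT.nd (nat_lit 234) (nat_lit 304) (nat_lit 0) (XT.nd (nat_lit 78) (nat_lit 0) (nat_lit 0) (XT.lf (nat_lit 0) (nat_lit 486511441195) (nat_lit 456) (nat_lit 351871074324) (nat_lit 532) (nat_lit 129803566839) (nat_lit 41) (nat_lit 5) (nat_lit 47) (nat_lit 5) (nat_lit 48) (nat_lit 5) (nat_lit 332) (nat_lit 330) (nat_lit 118)) (XT.nd (nat_lit 78) (nat_lit 0) (nat_lit 0) (XT.lf (nat_lit 76) (nat_lit 84862030370) (nat_lit 0) (nat_lit 446386858035) (nat_lit 532) (nat_lit 476736691329) (nat_lit 42) (nat_lit 5) (nat_lit 41) (nat_lit 5) (nat_lit 48) (nat_lit 5) (nat_lit 333) (nat_lit 330) (nat_lit 117))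 (XT.lf (nat_lit 76) (nat_lit 576544998791) (nat_lit 0) (nat_lit 12641104903) (nat_lit 532) (nat_lit 461013271449) (nat_lit 42) (nat_lit 5) (nat_lit 41) (nat_lit 5) (nat_lit 48) (nat_lit 5) (nat_lit 334) (nat_lit 330) (nat_lit 116)))) (XT.nd (nat_lit 156) (nat_lit 380) (nat_lit 0) (XT.nd (nat_lit 78) (nat_lit 0) (nat_lit 0) (XT.lf (nat_lit 76) (nat_lit 852886085) (nat_lit 0) (nat_lit 661888020715) (nat_lit 532) (nat_lit 432170758563) (nat_lit 43) (nat_lit 5) (nat_lit 42) (nat_lit 5) (nat_lit 49) (nat_lit 5) (nat_lit 335) (nat_lit 330) (nat_lit 115)) (XT.lf (nat_lit 76) (nat_lit 539912238853) (nat_lit 0) (nat_lit 215538427721) (nat_lit 532) (nat_lit 386688626455) (nat_lit 43) (nat_lit 5) (nat_lit 42) (nat_lit 5) (nat_lit 49) (nat_lit 5) (nat_lit 336) (nat_lit 330) (nat_lit 114))) (XT.nd (nat_lit 78) (nat_lit 456) (nat_lit 0) (XT.lf (nat_lit 0) (nat_lit 861986993530) (nat_lit 456) (nat_lit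 77458587272) (nat_lit 76) (nat_lit 253186767215) (nat_lit 43) (nat_lit 5) (nat_lit 49) (nat_lit 5) (nat_lit 44) (nat_lit 5) (nat_lit 337) (nat_lit 330) (nat_lit 113)) (XT.lf (nat_lit 0) (nat_lit 509163365625) (nat_lit 456) (nat_lit 485726648157) (nat_lit 532) (nat_lit 250847330673) (nat_lit 37) (nat_lit 5) (nat_lit 43) (nat_lit 5) (nat_lit 44) (nat_lit 5) (nat_lit 338) (nat_lit 330) (nat_lit 112)))))) (XT.nd (nat_lit 40248) (nat_lit 0) (nat_lit 532) (XT.nd (nat_lit 234) (nat_lit 228) (nat_lit 0) (XT.nd (nat_lit 78) (nat_lit 304) (nat_lit 0) (XT.lf (nat_lit 0) (nat_lit 1140701305182) (nat_lit 532) (nat_lit 155959282538) (nat_lit 76) (nat_lit 6248070542) (nat_lit 37) (nat_lit 5) (nat_lit 44) (nat_lit 5) (nat_lit 38) (nat_lit 5) (nat_lit 339) (nat_lit 330) (nat_lit 111)) (XT.nd (nat_lit 78) (nat_lit 76) (nat_lit 0) (XT.lf (nat_lit 0) (nat_lit 482631490454) (nat_lit 228) (nat_lit 839769580791)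 (nat_lit 304) (nat_lit 40314720237) (nat_lit 34) (nat_lit 5) (nat_lit 37) (nat_lit 5) (nat_lit 38) (nat_lit 5) (nat_lit 340) (nat_lit 330) (nat_lit 110)) (XT.lf (nat_lit 0) (nat_lit 91135618206) (nat_lit 304) (nat_lit 248094526546) (nat_lit 76) (nat_lit 1087551636221) (nat_lit 33) (nat_lit 5) (nat_lit 37) (nat_lit 5) (nat_lit 34) (nat_lit 5) (nat_lit 341) (nat_lit 330) (nat_lit 109)))) (XT.nd (nat_lit 39858) (nat_lit 0) (nat_lit 760) (XT.nd (nat_lit 39780) (nat_lit 0) (nat_lit 760) (XT.lf (nat_lit 0) (nat_lit 247050999624) (nat_lit 304) (nat_lit 1043936467324) (nat_lit 76) (nat_lit 203611647207) (nat_lit 30) (nat_lit 5) (nat_lit 34) (nat_lit 5) (nat_lit 31) (nat_lit 5) (nat_lit 342) (nat_lit 330) (nat_lit 108)) (XT.lf (nat_lit 0) (nat_lit 233467009684) (nat_lit 532) (nat_lit 124960762858) (nat_lit 532) (nat_lit 124960762858) (nat_lit 40) (nat_lit 3) (nat_lit 47) (nat_lit 3) (nat_lit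 47) (nat_lit 5) (nat_lit 331) (nat_lit 331) (nat_lit 118))) (XT.nd (nat_lit 78) (nat_lit 0) (nat_lit 76) (XT.lf (nat_lit 76) (nat_lit 185252288703) (nat_lit 0) (nat_lit 304814476549) (nat_lit 532) (nat_lit 515024957303) (nat_lit 41) (nat_lit 5) (nat_lit 40) (nat_lit 3) (nat_lit 47) (nat_lit 5) (nat_lit 332) (nat_lit 331) (nat_lit 117)) (XT.lf (nat_lit 0) (nat_lit 525432480055) (nat_lit 456) (nat_lit 380020678142) (nat_lit 532) (nat_lit 140187800340) (nat_lit 41) (nat_lit 5) (nat_lit 47) (nat_lit 5) (nat_lit 48) (nat_lit 5) (nat_lit 333) (nat_lit 331) (nat_lit 116))))) (XT.nd (nat_lit 234) (nat_lit 304) (nat_lit 0) (XT.nd (nat_lit 78) (nat_lit 0) (nat_lit 0) (XT.lf (nat_lit 76) (nat_lit 91651072849) (nat_lit 0) (nat_lit 482097842966) (nat_lit 532) (nat_lit 514875500505) (nat_lit 42) (nat_lit 5) (nat_lit 41) (nat_lit 5) (nat_lit 48) (nat_lit 5) (nat_lit 334) (nat_lit 331) (nat_lit 115))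 (XT.nd (nat_lit 78) (nat_lit 0) (nat_lit 76) (XT.lf (nat_lit 76) (nat_lit 622668672814) (nat_lit 0) (nat_lit 13652426895) (nat_lit 532) (nat_lit 497894216378) (nat_lit 42) (nat_lit 5) (nat_lit 41) (nat_lit 5) (nat_lit 48) (nat_lit 5) (nat_lit 335) (nat_lit 331) (nat_lit 114)) (XT.lf (nat_lit 76) (nat_lit 921198841) (nat_lit 0) (nat_lit 714839081464) (nat_lit 532) (nat_lit 466744309794) (nat_lit 43) (nat_lit 5) (nat_lit 42) (nat_lit 5) (nat_lit 49) (nat_lit 5) (nat_lit 336) (nat_lit 331) (nat_lit 113)))) (XT.nd (nat_lit 156) (nat_lit 380) (nat_lit 0) (XT.nd (nat_lit 78) (nat_lit 0) (nat_lit 76) (XT.lf (nat_lit 76) (nat_lit 583105293766) (nat_lit 0) (nat_lit 232781519616) (nat_lit 532) (nat_lit 417623615225) (nat_lit 43) (nat_lit 5) (nat_lit 42) (nat_lit 5) (nat_lit 49) (nat_lit 5) (nat_lit 337) (nat_lit 331) (nat_lit 112)) (XT.lf (nat_lit 0) (nat_lit 930946039177) (nat_lit 456) (nat_lit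 83655196389) (nat_lit 76) (nat_lit 273441693043) (nat_lit 43) (nat_lit 5) (nat_lit 49) (nat_lit 5) (nat_lit 44) (nat_lit 5) (nat_lit 338) (nat_lit 331) (nat_lit 111))) (XT.nd (nat_lit 78) (nat_lit 0) (nat_lit 0) (XT.lf (nat_lit 0) (nat_lit 549896510769) (nat_lit 456) (nat_lit 524584785722) (nat_lit 532) (nat_lit 270915028660) (nat_lit 37) (nat_lit 5) (nat_lit 43) (nat_lit 5) (nat_lit 44) (nat_lit 5) (nat_lit 339) (nat_lit 331) (nat_lit 110)) (XT.lf (nat_lit 0) (nat_lit 1231957485031) (nat_lit 532) (nat_lit 168435948390) (nat_lit 76) (nat_lit 6747911161) (nat_lit 37) (nat_lit 5) (nat_lit 44) (nat_lit 5) (nat_lit 38) (nat_lit 5) (nat_lit 340) (nat_lit 331) (nat_lit 109))))))) (XT.nd (nat_lit 80964) (nat_lit 0) (nat_lit 456) (XT.nd (nat_lit 40404) (nat_lit 0) (nat_lit 228) (XT.nd (nat_lit 40092) (nat_lit 0) (nat_lit 532) (XT.nd (nat_lit 39936) (nat_lit 0) (nat_lit 456) (XT.lf (nat_lit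 0) (nat_lit 521242084499) (nat_lit 228) (nat_lit 906951144092) (nat_lit 304) (nat_lit 43539820195) (nat_lit 34) (nat_lit 5) (nat_lit 37) (nat_lit 5) (nat_lit 38) (nat_lit 5) (nat_lit 341) (nat_lit 331) (nat_lit 108)) (XT.nd (nat_lit 78) (nat_lit 0) (nat_lit 0) (XT.lf (nat_lit 0) (nat_lit 252144432052) (nat_lit 532) (nat_lit 134957590495) (nat_lit 532) (nat_lit 134957590495) (nat_lit 40) (nat_lit 3) (nat_lit 47) (nat_lit 3) (nat_lit 47) (nat_lit 5) (nat_lit 332) (nat_lit 332) (nat_lit 116)) (XT.lf (nat_lit 76) (nat_lit 200072536892) (nat_lit 0) (nat_lit 329199685207) (nat_lit 532) (nat_lit 556226828524) (nat_lit 41) (nat_lit 5) (nat_lit 40) (nat_lit 3) (nat_lit 47) (nat_lit 5) (nat_lit 333) (nat_lit 332) (nat_lit 115)))) (XT.nd (nat_lit 156) (nat_lit 0) (nat_lit 0) (XT.nd (nat_lit 78) (nat_lit 0) (nat_lit 0) (XT.lf (nat_lit 0) (nat_lit 567467184396) (nat_lit 456) (nat_lit 410422261982)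 (nat_lit 532) (nat_lit 151402779917) (nat_lit 41) (nat_lit 5) (nat_lit 47) (nat_lit 5) (nat_lit 48) (nat_lit 5) (nat_lit 334) (nat_lit 332) (nat_lit 114)) (XT.lf (nat_lit 76) (nat_lit 98983227306) (nat_lit 0) (nat_lit 520665701514) (nat_lit 532) (nat_lit 556065432410) (nat_lit 42) (nat_lit 5) (nat_lit 41) (nat_lit 5) (nat_lit 48) (nat_lit 5) (nat_lit 335) (nat_lit 332) (nat_lit 113))) (XT.nd (nat_lit 78) (nat_lit 0) (nat_lit 76) (XT.lf (nat_lit 76) (nat_lit 672482230185) (nat_lit 0) (nat_lit 14744649853) (nat_lit 532) (nat_lit 537725653562) (nat_lit 42) (nat_lit 5) (nat_lit 41) (nat_lit 5) (nat_lit 48) (nat_lit 5) (nat_lit 336) (nat_lit 332) (nat_lit 112)) (XT.lf (nat_lit 76) (nat_lit 994964937) (nat_lit 0) (nat_lit 772026224349) (nat_lit 532) (nat_lit 504083760737) (nat_lit 43) (nat_lit 5) (nat_lit 42) (nat_lit 5) (nat_lit 49) (nat_lit 5) (nat_lit 337) (nat_lit 332) (nat_lit 111)))))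 (XT.nd (nat_lit 40248) (nat_lit 0) (nat_lit 228) (XT.nd (nat_lit 78) (nat_lit 380) (nat_lit 0) (XT.lf (nat_lit 76) (nat_lit 629753782258) (nat_lit 0) (nat_lit 251404056340) (nat_lit 532) (nat_lit 451033417554) (nat_lit 43) (nat_lit 5) (nat_lit 42) (nat_lit 5) (nat_lit 49) (nat_lit 5) (nat_lit 338) (nat_lit 332) (nat_lit 110)) (XT.nd (nat_lit 78) (nat_lit 456) (nat_lit 0) (XT.lf (nat_lit 0) (nat_lit 1005421796182) (nat_lit 456) (nat_lit 90347545343) (nat_lit 76) (nat_lit 295317015155) (nat_lit 43) (nat_lit 5) (nat_lit 49) (nat_lit 5) (nat_lit 44) (nat_lit 5) (nat_lit 339) (nat_lit 332) (nat_lit 109)) (XT.lf (nat_lit 0) (nat_lit 593888296697) (nat_lit 456) (nat_lit 566551573477) (nat_lit 532) (nat_lit 292588155108) (nat_lit 37) (nat_lit 5) (nat_lit 43) (nat_lit 5) (nat_lit 44) (nat_lit 5) (nat_lit 340) (nat_lit 332) (nat_lit 108)))) (XT.nd (nat_lit 156) (nat_lit 0) (nat_lit 76) (XT.nd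 (nat_lit 78) (nat_lit 0) (nat_lit 0) (XT.lf (nat_lit 0) (nat_lit 272316039422) (nat_lit 532) (nat_lit 145754169107) (nat_lit 532) (nat_lit 145754169107) (nat_lit 40) (nat_lit 3) (nat_lit 47) (nat_lit 3) (nat_lit 47) (nat_lit 5) (nat_lit 333) (nat_lit 333) (nat_lit 114)) (XT.lf (nat_lit 76) (nat_lit 216078395650) (nat_lit 0) (nat_lit 355535703349) (nat_lit 532) (nat_lit 600724867327) (nat_lit 41) (nat_lit 5) (nat_lit 40) (nat_lit 3) (nat_lit 47) (nat_lit 5) (nat_lit 334) (nat_lit 333) (nat_lit 113))) (XT.nd (nat_lit 78) (nat_lit 0) (nat_lit 0) (XT.lf (nat_lit 0) (nat_lit 612864649971) (nat_lit 456) (nat_lit 443255982573) (nat_lit 532) (nat_lit 163514964201) (nat_lit 41) (nat_lit 5) (nat_lit 47) (nat_lit 5) (nat_lit 48) (nat_lit 5) (nat_lit 335) (nat_lit 333) (nat_lit 112)) (XT.lf (nat_lit 76) (nat_lit 106901944329) (nat_lit 0) (nat_lit 562318984308) (nat_lit 532) (nat_lit 600550574293)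 (nat_lit 42) (nat_lit 5) (nat_lit 41) (nat_lit 5) (nat_lit 48) (nat_lit 5) (nat_lit 336) (nat_lit 333) (nat_lit 111)))))) (XT.nd (nat_lit 40716) (nat_lit 0) (nat_lit 0) (XT.nd (nat_lit 40404) (nat_lit 76) (nat_lit 0) (XT.nd (nat_lit 78) (nat_lit 0) (nat_lit 76) (XT.lf (nat_lit 76) (nat_lit 726280863080) (nat_lit 0) (nat_lit 15924246538) (nat_lit 532) (nat_lit 580743620005) (nat_lit 42) (nat_lit 5) (nat_lit 41) (nat_lit 5) (nat_lit 48) (nat_lit 5) (nat_lit 337) (nat_lit 333) (nat_lit 110)) (XT.nd (nat_lit 78) (nat_lit 0) (nat_lit 0) (XT.lf (nat_lit 76) (nat_lit 1074622309) (nat_lit 0) (nat_lit 833788336330) (nat_lit 532) (nat_lit 544410381144) (nat_lit 43) (nat_lit 5) (nat_lit 42) (nat_lit 5) (nat_lit 49) (nat_lit 5) (nat_lit 338) (nat_lit 333) (nat_lit 109)) (XT.lf (nat_lit 76) (nat_lit 680134140557) (nat_lit 0) (nat_lit 271516393841) (nat_lit 532) (nat_lit 487116016466) (nat_lit 43)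 (nat_lit 5) (nat_lit 42) (nat_lit 5) (nat_lit 49) (nat_lit 5) (nat_lit 339) (nat_lit 333) (nat_lit 108)))) (XT.nd (nat_lit 156) (nat_lit 0) (nat_lit 76) (XT.nd (nat_lit 78) (nat_lit 0) (nat_lit 0) (XT.lf (nat_lit 0) (nat_lit 294101367849) (nat_lit 532) (nat_lit 157414478091) (nat_lit 532) (nat_lit 157414478091) (nat_lit 40) (nat_lit 3) (nat_lit 47) (nat_lit 3) (nat_lit 47) (nat_lit 5) (nat_lit 334) (nat_lit 334) (nat_lit 112)) (XT.lf (nat_lit 76) (nat_lit 233364715147) (nat_lit 0) (nat_lit 383978596761) (nat_lit 532) (nat_lit 648782764568) (nat_lit 41) (nat_lit 5) (nat_lit 40) (nat_lit 3) (nat_lit 47) (nat_lit 5) (nat_lit 335) (nat_lit 334) (nat_lit 111))) (XT.nd (nat_lit 78) (nat_lit 0) (nat_lit 0) (XT.lf (nat_lit 0) (nat_lit 661893899836) (nat_lit 456) (nat_lit 478716409425) (nat_lit 532) (nat_lit 176596128665) (nat_lit 41) (nat_lit 5) (nat_lit 47) (nat_lit 5) (nat_lit 48) (nat_lit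 5) (nat_lit 336) (nat_lit 334) (nat_lit 110)) (XT.lf (nat_lit 76) (nat_lit 115454150320) (nat_lit 0) (nat_lit 607304525920) (nat_lit 532) (nat_lit 648594540753) (nat_lit 42) (nat_lit 5) (nat_lit 41) (nat_lit 5) (nat_lit 48) (nat_lit 5) (nat_lit 337) (nat_lit 334) (nat_lit 109))))) (XT.nd (nat_lit 40560) (nat_lit 0) (nat_lit 0) (XT.nd (nat_lit 40404) (nat_lit 76) (nat_lit 0) (XT.nd (nat_lit 78) (nat_lit 0) (nat_lit 76) (XT.lf (nat_lit 76) (nat_lit 784383378834) (nat_lit 0) (nat_lit 17198207434) (nat_lit 532) (nat_lit 627203036010) (nat_lit 42) (nat_lit 5) (nat_lit 41) (nat_lit 5) (nat_lit 48) (nat_lit 5) (nat_lit 338) (nat_lit 334) (nat_lit 108)) (XT.lf (nat_lit 76) (nat_lit 1160643685) (nat_lit 0) (nat_lit 900491415267) (nat_lit 532) (nat_lit 587963142661) (nat_lit 43) (nat_lit 5) (nat_lit 42) (nat_lit 5) (nat_lit 49) (nat_lit 5) (nat_lit 339) (nat_lit 334) (nat_lit 107))) (XT.nd (nat_lit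 78) (nat_lit 0) (nat_lit 0) (XT.lf (nat_lit 0) (nat_lit 317629516091) (nat_lit 532) (nat_lit 170007615296) (nat_lit 532) (nat_lit 170007615296) (nat_lit 40) (nat_lit 3) (nat_lit 47) (nat_lit 3) (nat_lit 47) (nat_lit 5) (nat_lit 335) (nat_lit 335) (nat_lit 110)) (XT.lf (nat_lit 76) (nat_lit 252033933378) (nat_lit 0) (nat_lit 414696916347) (nat_lit 532) (nat_lit 700685306733) (nat_lit 41) (nat_lit 5) (nat_lit 40) (nat_lit 3) (nat_lit 47) (nat_lit 5) (nat_lit 336) (nat_lit 335) (nat_lit 109)))) (XT.nd (nat_lit 40560) (nat_lit 76) (nat_lit 0) (XT.nd (nat_lit 78) (nat_lit 0) (nat_lit 0) (XT.lf (nat_lit 0) (nat_lit 714845478580) (nat_lit 456) (nat_lit 517013677807) (nat_lit 532) (nat_lit 190723790947) (nat_lit 41) (nat_lit 5) (nat_lit 47) (nat_lit 5) (nat_lit 48) (nat_lit 5) (nat_lit 337) (nat_lit 335) (nat_lit 108)) (XT.lf (nat_lit 76) (nat_lit 124690525593) (nat_lit 0) (nat_lit 655888907598)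 (nat_lit 532) (nat_lit 700482035869) (nat_lit 42) (nat_lit 5) (nat_lit 41) (nat_lit 5) (nat_lit 48) (nat_lit 5) (nat_lit 338) (nat_lit 335) (nat_lit 107))) (XT.nd (nat_lit 78) (nat_lit 0) (nat_lit 0) (XT.lf (nat_lit 0) (nat_lit 343039910655) (nat_lit 532) (nat_lit 183608206480) (nat_lit 532) (nat_lit 183608206480) (nat_lit 40) (nat_lit 3) (nat_lit 47) (nat_lit 3) (nat_lit 47) (nat_lit 5) (nat_lit 336) (nat_lit 336) (nat_lit 108)) (XT.lf (nat_lit 76) (nat_lit 272196683216) (nat_lit 0) (nat_lit 447872696957) (nat_lit 532) (nat_lit 756740063541) (nat_lit 41) (nat_lit 5) (nat_lit 40) (nat_lit 3) (nat_lit 47) (nat_lit 5) (nat_lit 337) (nat_lit 336) (nat_lit 107))))))))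

set_option maxRecDepth 10000000 in
noncomputable def Tp : PT := (PT.nd (nat_lit 5374590) (PT.nd (nat_lit 5090358) (PT.nd (nat_lit 4846374) pc0 pc1) (PT.nd (nat_lit 162552) pc2 pc3)) (PT.nd (nat_lit 162474) (PT.nd (nat_lit 81510) pc4 pc5) (PT.nd (nat_lit 120354) pc6 pc7)))

set_option maxRecDepth 10000000 in
noncomputable def Tx : XT := (XT.nd (nat_lit 8440614) (nat_lit 0) (nat_lit 76) XT.nil (XT.nd (nat_lit 5240118) (nat_lit 0) (nat_lit 0) (XT.nd (nat_lit 2475174) (nat_lit 0) (nat_lit 0) (XT.nd (nat_lit 1705392) (nat_lit 0) (nat_lit 0) (XT.nd (nat_lit 1215318) (nat_lit 0) (nat_lit 0) (XT.nd (nat_lit 851058) (nat_lit 0) (nat_lit 0) (XT.nd (nat_lit 607308) (nat_lit 0) (nat_lit 0) (XT.nd (nat_lit 405834) (nat_lit 0) (nat_lit 0) (XT.nd (nat_lit 283920) (nat_lit 0) (nat_lit 0) xc0 xc1) (XT.nd (nat_lit 120432) (nat_lit 0) (nat_lit 0) xc2 xc3)) (XT.nd (nat_lit 122538) (nat_lit 0) (nat_lit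 0) (XT.nd (nat_lit 42432) (nat_lit 0) (nat_lit 0) xc4 xc5) (XT.nd (nat_lit 42042) (nat_lit 0) (nat_lit 0) xc6 xc7))) (XT.nd (nat_lit 201786) (nat_lit 0) (nat_lit 0) (XT.nd (nat_lit 82914) (nat_lit 0) (nat_lit 0) (XT.nd (nat_lit 41496) (nat_lit 0) (nat_lit 0) xc8 xc9) (XT.nd (nat_lit 41184) (nat_lit 0) (nat_lit 0) xc10 xc11)) (XT.nd (nat_lit 81510) (nat_lit 0) (nat_lit 0) (XT.nd (nat_lit 40794) (nat_lit 0) (nat_lit 0) xc12 xc13) (XT.nd (nat_lit 40560) (nat_lit 0) (nat_lit 0) xc14 xc15)))) (XT.nd (nat_lit 282672) (nat_lit 0) (nat_lit 0) (XT.nd (nat_lit 124566) (nat_lit 0) (nat_lit 0) (XT.nd (nat_lit 80262) (nat_lit 0) (nat_lit 0) (XT.nd (nat_lit 40170) (nat_lit 0) (nat_lit 0) xc16 xc17) (XT.nd (nat_lit 4368) (nat_lit 0) (nat_lit 0) xc18 xc19)) (XT.nd (nat_lit 79326) (nat_lit 0) (nat_lit 0) (XT.nd (nat_lit 39702) (nat_lit 0) (nat_lit 0) xc20 xc21) (XT.nd (nat_lit 39468) (nat_lit 0) (nat_lit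 0) xc22 xc23))) (XT.nd (nat_lit 121368) (nat_lit 0) (nat_lit 0) (XT.nd (nat_lit 43524) (nat_lit 0) (nat_lit 0) (XT.nd (nat_lit 4368) (nat_lit 0) (nat_lit 0) xc24 xc25) (XT.nd (nat_lit 39000) (nat_lit 0) (nat_lit 0) xc26 xc27)) (XT.nd (nat_lit 43056) (nat_lit 0) (nat_lit 0) (XT.nd (nat_lit 4368) (nat_lit 0) (nat_lit 0) xc28 xc29) (XT.nd (nat_lit 38532) (nat_lit 0) (nat_lit 0) xc30 xc31))))) (XT.nd (nat_lit 403728) (nat_lit 0) (nat_lit 0) (XT.nd (nat_lit 203736) (nat_lit 0) (nat_lit 0) (XT.nd (nat_lit 119106) (nat_lit 0) (nat_lit 0) (XT.nd (nat_lit 76596) (nat_lit 0) (nat_lit 0) (XT.nd (nat_lit 38298) (nat_lit 0) (nat_lit 0) xc32 xc33) (XT.nd (nat_lit 4368) (nat_lit 76) (nat_lit 0) xc34 xc35)) (XT.nd (nat_lit 42354) (nat_lit 0) (nat_lit 0) (XT.nd (nat_lit 37908) (nat_lit 0) (nat_lit 152) xc36 xc37) (XT.nd (nat_lit 37830) (nat_lit 0) (nat_lit 0) xc38 xc39))) (XT.nd (nat_lit 116922) (nat_lit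 0) (nat_lit 0) (XT.nd (nat_lit 75114) (nat_lit 0) (nat_lit 0) (XT.nd (nat_lit 37596) (nat_lit 0) (nat_lit 0) xc40 xc41) (XT.nd (nat_lit 4446) (nat_lit 152) (nat_lit 0) xc42 xc43)) (XT.nd (nat_lit 41574) (nat_lit 0) (nat_lit 0) (XT.nd (nat_lit 4368) (nat_lit 152) (nat_lit 0) xc44 xc45) (XT.nd (nat_lit 4446) (nat_lit 0) (nat_lit 0) xc46 xc47)))) (XT.nd (nat_lit 165672) (nat_lit 0) (nat_lit 0) (XT.nd (nat_lit 82602) (nat_lit 0) (nat_lit 0) (XT.nd (nat_lit 41262) (nat_lit 0) (nat_lit 0) (XT.nd (nat_lit 36816) (nat_lit 0) (nat_lit 228) xc48 xc49) (XT.nd (nat_lit 36894) (nat_lit 0) (nat_lit 152) xc50 xc51)) (XT.nd (nat_lit 41418) (nat_lit 0) (nat_lit 0) (XT.nd (nat_lit 36972) (nat_lit 0) (nat_lit 152) xc52 xc53) (XT.nd (nat_lit 37206) (nat_lit 0) (nat_lit 152) xc54 xc55))) (XT.nd (nat_lit 116454) (nat_lit 0) (nat_lit 0) (XT.nd (nat_lit 74568) (nat_lit 0) (nat_lit 0) (XT.nd (nat_lit 37206)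 (nat_lit 0) (nat_lit 0) xc56 xc57) (XT.nd (nat_lit 4446) (nat_lit 228) (nat_lit 0) xc58 xc59)) (XT.nd (nat_lit 41886) (nat_lit 0) (nat_lit 0) (XT.nd (nat_lit 4368) (nat_lit 152) (nat_lit 0) xc60 xc61) (XT.nd (nat_lit 4446) (nat_lit 152) (nat_lit 0) xc62 xc63)))))) (XT.nd (nat_lit 893568) (nat_lit 0) (nat_lit 152) (XT.nd (nat_lit 407082) (nat_lit 0) (nat_lit 152) (XT.nd (nat_lit 202410) (nat_lit 0) (nat_lit 152) (XT.nd (nat_lit 84162) (nat_lit 0) (nat_lit 0) (XT.nd (nat_lit 42042) (nat_lit 0) (nat_lit 0) (XT.nd (nat_lit 37596) (nat_lit 0) (nat_lit 152) xc64 xc65) (XT.nd (nat_lit 37674) (nat_lit 0) (nat_lit 152) xc66 xc67)) (XT.nd (nat_lit 75738) (nat_lit 0) (nat_lit 152) (XT.nd (nat_lit 37752) (nat_lit 0) (nat_lit 152) xc68 xc69) (XT.nd (nat_lit 4446) (nat_lit 0) (nat_lit 0) xc70 xc71))) (XT.nd (nat_lit 85176) (nat_lit 0) (nat_lit 0) (XT.nd (nat_lit 42510) (nat_lit 0) (nat_lit 0) (XT.nd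 (nat_lit 38064) (nat_lit 0) (nat_lit 76) xc72 xc73) (XT.nd (nat_lit 38220) (nat_lit 0) (nat_lit 0) xc74 xc75)) (XT.nd (nat_lit 76596) (nat_lit 0) (nat_lit 0) (XT.nd (nat_lit 38220) (nat_lit 0) (nat_lit 0) xc76 xc77) (XT.nd (nat_lit 4446) (nat_lit 0) (nat_lit 0) xc78 xc79)))) (XT.nd (nat_lit 241566) (nat_lit 0) (nat_lit 0) (XT.nd (nat_lit 120354) (nat_lit 0) (nat_lit 0) (XT.nd (nat_lit 42978) (nat_lit 0) (nat_lit 0) (XT.nd (nat_lit 38532) (nat_lit 0) (nat_lit 0) xc80 xc81) (XT.nd (nat_lit 38610) (nat_lit 0) (nat_lit 0) xc82 xc83)) (XT.nd (nat_lit 43212) (nat_lit 0) (nat_lit 0) (XT.nd (nat_lit 38766) (nat_lit 0) (nat_lit 76) xc84 xc85) (XT.nd (nat_lit 38922) (nat_lit 0) (nat_lit 0) xc86 xc87))) (XT.nd (nat_lit 122070) (nat_lit 0) (nat_lit 0) (XT.nd (nat_lit 43524) (nat_lit 0) (nat_lit 0) (XT.nd (nat_lit 4368) (nat_lit 0) (nat_lit 0) xc88 xc89) (XT.nd (nat_lit 39234) (nat_lit 0) (nat_lit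 0) xc90 xc91)) (XT.nd (nat_lit 43758) (nat_lit 0) (nat_lit 0) (XT.nd (nat_lit 4368) (nat_lit 0) (nat_lit 0) xc92 xc93) (XT.nd (nat_lit 39468) (nat_lit 0) (nat_lit 0) xc94 xc95))))) (XT.nd (nat_lit 609180) (nat_lit 0) (nat_lit 152) (XT.nd (nat_lit 283920) (nat_lit 0) (nat_lit 76) (XT.nd (nat_lit 123630) (nat_lit 0) (nat_lit 0) (XT.nd (nat_lit 44070) (nat_lit 0) (nat_lit 0) (XT.nd (nat_lit 39624) (nat_lit 0) (nat_lit 0) xc96 xc97) (XT.nd (nat_lit 39702) (nat_lit 0) (nat_lit 0) xc98 xc99)) (XT.nd (nat_lit 79872) (nat_lit 0) (nat_lit 0) (XT.nd (nat_lit 39858) (nat_lit 0) (nat_lit 0) xc100 xc101) (XT.nd (nat_lit 40170) (nat_lit 0) (nat_lit 0) xc102 xc103))) (XT.nd (nat_lit 125658) (nat_lit 0) (nat_lit 0) (XT.nd (nat_lit 44694) (nat_lit 0) (nat_lit 0) (XT.nd (nat_lit 40248) (nat_lit 0) (nat_lit 0) xc104 xc105) (XT.nd (nat_lit 40404) (nat_lit 0) (nat_lit 0) xc106 xc107)) (XT.nd (nat_lit 81276)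 (nat_lit 0) (nat_lit 0) (XT.nd (nat_lit 40560) (nat_lit 0) (nat_lit 0) xc108 xc109) (XT.nd (nat_lit 40794) (nat_lit 0) (nat_lit 0) xc110 xc111)))) (XT.nd (nat_lit 369018) (nat_lit 0) (nat_lit 304) (XT.nd (nat_lit 164892) (nat_lit 0) (nat_lit 152) (XT.nd (nat_lit 82212) (nat_lit 0) (nat_lit 76) (XT.nd (nat_lit 41028) (nat_lit 0) (nat_lit 76) xc112 xc113) (XT.nd (nat_lit 41262) (nat_lit 0) (nat_lit 0) xc114 xc115)) (XT.nd (nat_lit 120354) (nat_lit 0) (nat_lit 0) (XT.nd (nat_lit 41418) (nat_lit 0) (nat_lit 0) xc116 xc117) (XT.nd (nat_lit 41808) (nat_lit 0) (nat_lit 76) xc118 xc119))) (XT.nd (nat_lit 283452) (nat_lit 0) (nat_lit 380) (XT.nd (nat_lit 121992) (nat_lit 0) (nat_lit 152) (XT.nd (nat_lit 79716) (nat_lit 0) (nat_lit 76) xc120 xc121) (XT.nd (nat_lit 80496) (nat_lit 0) (nat_lit 152) xc122 xc123)) (XT.nd (nat_lit 202800) (nat_lit 0) (nat_lit 684) (XT.nd (nat_lit 81510) (nat_lit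 0) (nat_lit 228) xc124 xc125) (XT.nd (nat_lit 122460) (nat_lit 0) (nat_lit 532) xc126 xc127))))))) XT.nil))

set_option maxRecDepth 10000000 in
noncomputable def Te : XT := XT.nil

set_option maxRecDepth 10000000 in
noncomputable def Tz : ZL := (ZL.cons (nat_lit 76) (nat_lit 6) (nat_lit 198627594908951144256) (ZL.cons (nat_lit 152) (nat_lit 6) (nat_lit 192176780040336835856) (ZL.cons (nat_lit 228) (nat_lit 3) (nat_lit 95813118673922355828) (ZL.cons (nat_lit 304) (nat_lit 6) (nat_lit 185209899982233382782) (ZL.cons (nat_lit 380) (nat_lit 6) (nat_lit 179340560072172794198) (ZL.cons (nat_lit 456) (nat_lit 3) (nat_lit 89415399159932635897) (ZL.cons (nat_lit 532) (nat_lit 6) (nat_lit 173001672969307358530) (ZL.cons (nat_lit 608) (nat_lit 6) (nat_lit 167687980965519299798) (ZL.cons (nat_lit 684) (nat_lit 3) (nat_lit 83607989671506167304) (ZL.cons (nat_lit 760) (nat_lit 6) (nat_lit 161949193601428196370)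 (ZL.cons (nat_lit 836) (nat_lit 6) (nat_lit 157170105162382593364) (ZL.cons (nat_lit 912) (nat_lit 3) (nat_lit 78366533311512146131) (ZL.cons (nat_lit 988) (nat_lit 6) (nat_lit 152008689648213342118) (ZL.cons (nat_lit 1064) (nat_lit 6) (nat_lit 147748066368996466234) (ZL.cons (nat_lit 1140) (nat_lit 3) (nat_lit 73671700527387908532) (ZL.cons (nat_lit 1216) (nat_lit 6) (nat_lit 143925948647422749786) (ZL.cons (nat_lit 1292) (nat_lit 6) (nat_lit 143146593227442240276) (ZL.cons (nat_lit 1368) (nat_lit 6) (nat_lit 139393396193902486856) (ZL.cons (nat_lit 1444) (nat_lit 3) (nat_lit 69509353044071313258) (ZL.cons (nat_lit 1520) (nat_lit 6) (nat_lit 136061568786550395298) (ZL.cons (nat_lit 1596) (nat_lit 6) (nat_lit 135339943397679553162) (ZL.cons (nat_lit 1672) (nat_lit 6) (nat_lit 133131366842972027286) (ZL.cons (nat_lit 1748) (nat_lit 6) (nat_lit 132088505080850276076) (ZL.cons (nat_lit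 1824) (nat_lit 3) (nat_lit 65870784898869647140) (ZL.cons (nat_lit 1900) (nat_lit 6) (nat_lit 129245123355036547696) (ZL.cons (nat_lit 1976) (nat_lit 6) (nat_lit 128576951698674656826) (ZL.cons (nat_lit 2052) (nat_lit 6) (nat_lit 126792948550752064442) (ZL.cons (nat_lit 2128) (nat_lit 6) (nat_lit 125827335808046739248) (ZL.cons (nat_lit 2204) (nat_lit 3) (nat_lit 62753049717397915087) (ZL.cons (nat_lit 2280) (nat_lit 6) (nat_lit 124717449261749214560) (ZL.cons (nat_lit 2356) (nat_lit 6) (nat_lit 123476428105762931658) (ZL.cons (nat_lit 2432) (nat_lit 6) (nat_lit 122857750646168588260) (ZL.cons (nat_lit 2508) (nat_lit 6) (nat_lit 123006326232982055240) (ZL.cons (nat_lit 2584) (nat_lit 6) (nat_lit 121510297286920811494) (ZL.cons (nat_lit 2660) (nat_lit 6) (nat_lit 120616211414045510388) (ZL.cons (nat_lit 2736) (nat_lit 3) (nat_lit 60159385163851038032) (ZL.cons (nat_lit 2812) (nat_lit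 6) (nat_lit 119917292205927240270) (ZL.cons (nat_lit 2888) (nat_lit 6) (nat_lit 118768198542976978320) (ZL.cons (nat_lit 2964) (nat_lit 6) (nat_lit 118195349043352586288) (ZL.cons (nat_lit 3040) (nat_lit 3) (nat_lit 58559904887605864442) (ZL.cons (nat_lit 3116) (nat_lit 6) (nat_lit 117293363792249457920) (ZL.cons (nat_lit 3192) (nat_lit 6) (nat_lit 117815054311611757506) (ZL.cons (nat_lit 3268) (nat_lit 6) (nat_lit 118687972832672626450) (ZL.cons (nat_lit 3344) (nat_lit 6) (nat_lit 117302760845578882240) (ZL.cons (nat_lit 3420) (nat_lit 6) (nat_lit 116474903555879529364) (ZL.cons (nat_lit 3496) (nat_lit 3) (nat_lit 58099747571299285828) (ZL.cons (nat_lit 3572) (nat_lit 6) (nat_lit 115126097966333798438) (ZL.cons (nat_lit 3648) (nat_lit 6) (nat_lit 115487090321772274838) (ZL.cons (nat_lit 3724) (nat_lit 6) (nat_lit 116211214246607381574) (ZL.cons (nat_lit 3800) (nat_lit 6) (nat_lit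 115147238632764546438) (ZL.cons (nat_lit 3876) (nat_lit 6) (nat_lit 114616822429408627886) (ZL.cons (nat_lit 3952) (nat_lit 3) (nat_lit 56726811265353388533) (ZL.cons (nat_lit 4028) (nat_lit 6) (nat_lit 113641060869107524430) (ZL.cons (nat_lit 4104) (nat_lit 6) (nat_lit 114204486630018807980) (ZL.cons (nat_lit 4180) (nat_lit 6) (nat_lit 113437952102519407168) (ZL.cons (nat_lit 4256) (nat_lit 3) (nat_lit 56591472156222223162) (ZL.cons (nat_lit 4332) (nat_lit 6) (nat_lit 112266026519823937382) (ZL.cons (nat_lit 4408) (nat_lit 6) (nat_lit 112655898263697491896) (ZL.cons (nat_lit 4484) (nat_lit 6) (nat_lit 112164772149479048792) (ZL.cons (nat_lit 4560) (nat_lit 3) (nat_lit 55676919461111027703) (ZL.cons (nat_lit 4636) (nat_lit 6) (nat_lit 111556272327694862556) (ZL.cons (nat_lit 4712) (nat_lit 3) (nat_lit 55660077001775690148) (ZL.cons (nat_lit 4788) (nat_lit 6) (nat_lit 110899092520167941424)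 (ZL.cons (nat_lit 4864) (nat_lit 1) (nat_lit 18446744073709551617) ZL.nil))))))))))))))))))))))))))))))))))))))))))))))))))))))))))))))))

noncomputable def vl : XL := ⟨(nat_lit 0), (nat_lit 76), (nat_lit 33387935), (nat_lit 228), (nat_lit 550961677), (nat_lit 76), (nat_lit 33387935), (nat_lit 1), (nat_lit 5), (nat_lit 3), (nat_lit 4), (nat_lit 1), (nat_lit 4), (nat_lit 0), (nat_lit 0), (nat_lit 0)⟩

noncomputable def cp0 : Nat := (nat_lit 43387729677521687381388457532767199538699679428634929420396338524089790858774043282945719971152267798471236332072451424268214479180465718322421084248932444564564596294360170003726557946852757114264245746543214855092539296684566448202000559913082039365266380408010818428316894521499976608346598283566820062533937483437028588509746886487436802837894437202871060276699119547259169103758919649072848674989280129327948863151429405854681741456576082478420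44069166436815647336866833360415268982719194317337827165645799781455639873681285334892978198718142041028672702580786068027618429481130517668621758216958179248257728059653285686619528474867664588251710064142669293741058753267351007042363604599564834058386123186859971059275472365730281723394586490258622611313460812068520579677798128958773503076301629714617381979064871143696467777718351466212553707143600985519059928022431433961246035253738075003002298941205694038018117605150533036010221413579590464114334119368267758390866203005786830371629584254397133437874060757173492482905497928316948770899095817976103874375958905106042121392105982925476645836277495443864034925116709516485528665217877265910456698987971311223274001217847874011454829166009971490583340164600472292072391593160851824903155003487116267719456686106138241072904095992483263506599609359599203801767039700454889693249457689484512706980172808416148510161940581484727067868408424129425350139374294244459066355379481487837331696427588288527903826136406182905600486146048)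

noncomputable def cp1 : Nat := (nat_lit 515951507273325057173143780750381872090582854622028182417680933799564116489955450588701177224501651395158116296443746356369470550726622840331008699780245675210382094616750435139506382889018316224519622015014561793219254070586409660125651025370079674795887556746784700575708108860271482296948862067403863014514128925771206745619296674410295369924351874826601178852614023786973610101984620741225352562871767335871952021629552450220264648601414945202330337879758759699635993055093058275434691282259437865157566037333823673933503888573485488026717641410394873352344922299467687304548349176566296196708611411572431549767183599107651374110403686141669619105279864498476806657978808785801462096627814714380622614982204778646069488528326734846090507020545338549161707318315160641653026143155266021366997021352554539728272900040383841035806676379652412296519355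7507175280874018238612646051888004756963209606156435980632124756224515105447506720758255540379226897678692892954763674551515919989542199914458049731803457791131934256933898675454486894494270052163794903592547169569160379856819698799417439141934724831162437541408464397889284470814321925785179140868500550484344421761676616622626892050359471413769583243393371611739286638586557870840890222916939534151833239256934292748006733717667469427587955165314840951505527216816037340205995200729579796398887650188300738697263365012434387300096266120597677817868142429992235353107385959387050345605514612603234614778829044845629528377323945984)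

noncomputable def rc0 : Nat := (nat_lit 515951507273325057173143780750381872090582854622028182417680933799564116489955450588701177224501651395158116296443746356369470550726622840331008699780245675210382094616750435139506382889018316224519622015014561793219254070586409660125651025370079674795887556746784700575708108860271482296948862067403863014514128925771206745619296674410295369924351874826601178852614023786973610101984620741225352562871767335871952021629552450220264648601414945202330337879758759699635993055093058275434691282259437865157566037333823673933503888573485488026717641410394873352344922299467687304548349176566296196708611411572431549767183599107651374110403686141669619105279864498476806657978808785801462096627814714380622614982204778646069488528326734846090507020545338549161707318315160641653026143155266021366997021352554539728272900040383841035806676379652412296519355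7507175280874018238612646051888004756963209606156435980632124756224515105447506720758255540379226897678692892954763674551515919989542199914458049731803457791131934256933898675454486894494270052163794903592547169569160379856819698799417439141934724831162437541408464397889284470814321925785179140868500550484344421761676616622626892050359471413769583243393371611739286638586557870840890222916939534151833239256934292748006733717667469427587955165314840951505527216816037340205995200729579796398887650188300738697263365012434387300096266120597677817868142429992235353107385959387050345605514612603234614778829044845629528377323945984)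

end Vale.Agent.Lib.P154.PChain.BQ.S2
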