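import Vale.Agent.Lib.P154.PChain.BQ.R2_0

set_option linter.all false

namespace Vale.Agent.Lib.P154.PChain.BQ.S3

open Vale.Agent.Lib.P154.Chain

noncomputable def pc0 : PT := (PT.nd (nat_lit 4602858) (PT.nd (nat_lit 4440462) (PT.nd (nat_lit 4359264) (PT.nd (nat_lit 4318626) (PT.nd (nat_lit 4278144) (PT.nd (nat_lit 4278066) PT.nil (PT.lf (nat_lit 76) (nat_lit 6) (nat_lit 1) (nat_lit 3) (nat_lit 142) (nat_lit 105) (nat_lit 143))) (PT.lf (nat_lit 76) (nat_lit 6) (nat_lit 1) (nat_lit 1) (nat_lit 143) (nat_lit 105) (nat_lit 142))) (PT.nd (nat_lit 78) (PT.lf (nat_lit 152) (nat_lit 6) (nat_lit 2) (nat_lit 3) (nat_lit 141) (nat_lit 106) (nat_lit 143)) (PT.nd (nat_lit 78) (PT.lf (nat_lit 228) (nat_lit 3) (nat_lit 3) (nat_lit 1) (nat_lit 142) (nat_lit 106) (nat_lit 142)) (PT.lf (nat_lit 152) (nat_lit 6) (nat_lit 2) (nat_lit 1) (nat_lit 143) (nat_lit 106) (nat_lit 141))))) (PT.nd (nat_lit 40560)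 (PT.nd (nat_lit 78) (PT.lf (nat_lit 304) (nat_lit 6) (nat_lit 4) (nat_lit 3) (nat_lit 141) (nat_lit 107) (nat_lit 142)) (PT.lf (nat_lit 304) (nat_lit 6) (nat_lit 4) (nat_lit 1) (nat_lit 142) (nat_lit 107) (nat_lit 141))) (PT.nd (nat_lit 78) (PT.lf (nat_lit 380) (nat_lit 6) (nat_lit 5) (nat_lit 3) (nat_lit 140) (nat_lit 108) (nat_lit 142)) (PT.nd (nat_lit 78) (PT.lf (nat_lit 456) (nat_lit 3) (nat_lit 6) (nat_lit 1) (nat_lit 141) (nat_lit 108) (nat_lit 141)) (PT.lf (nat_lit 380) (nat_lit 6) (nat_lit 5) (nat_lit 1) (nat_lit 142) (nat_lit 108) (nat_lit 140)))))) (PT.nd (nat_lit 81198) (PT.nd (nat_lit 40560) (PT.nd (nat_lit 78) (PT.lf (nat_lit 532) (nat_lit 6) (nat_lit 7) (nat_lit 3) (nat_lit 140) (nat_lit 109) (nat_lit 141)) (PT.lf (nat_lit 532) (nat_lit 6) (nat_lit 7) (nat_lit 1) (nat_lit 141) (nat_lit 109) (nat_lit 140))) (PT.nd (nat_lit 78) (PT.lf (nat_lit 608) (nat_lit 6) (nat_lit 8)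 (nat_lit 3) (nat_lit 139) (nat_lit 110) (nat_lit 141)) (PT.nd (nat_lit 78) (PT.lf (nat_lit 684) (nat_lit 3) (nat_lit 9) (nat_lit 1) (nat_lit 140) (nat_lit 110) (nat_lit 140)) (PT.lf (nat_lit 608) (nat_lit 6) (nat_lit 8) (nat_lit 1) (nat_lit 141) (nat_lit 110) (nat_lit 139))))) (PT.nd (nat_lit 40560) (PT.nd (nat_lit 78) (PT.lf (nat_lit 760) (nat_lit 6) (nat_lit 10) (nat_lit 3) (nat_lit 139) (nat_lit 111) (nat_lit 140)) (PT.lf (nat_lit 760) (nat_lit 6) (nat_lit 10) (nat_lit 1) (nat_lit 140) (nat_lit 111) (nat_lit 139))) (PT.nd (nat_lit 78) (PT.lf (nat_lit 836) (nat_lit 6) (nat_lit 11) (nat_lit 3) (nat_lit 138) (nat_lit 112) (nat_lit 140)) (PT.nd (nat_lit 78) (PT.lf (nat_lit 912) (nat_lit 3) (nat_lit 12) (nat_lit 1) (nat_lit 139) (nat_lit 112) (nat_lit 139)) (PT.lf (nat_lit 836) (nat_lit 6) (nat_lit 11) (nat_lit 1) (nat_lit 140) (nat_lit 112) (nat_lit 138))))))) (PT.nd (nat_lit 121836) (PT.nd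 (nat_lit 81120) (PT.nd (nat_lit 40560) (PT.nd (nat_lit 78) (PT.lf (nat_lit 988) (nat_lit 6) (nat_lit 13) (nat_lit 3) (nat_lit 138) (nat_lit 113) (nat_lit 139)) (PT.lf (nat_lit 988) (nat_lit 6) (nat_lit 13) (nat_lit 1) (nat_lit 139) (nat_lit 113) (nat_lit 138))) (PT.nd (nat_lit 78) (PT.lf (nat_lit 1064) (nat_lit 6) (nat_lit 14) (nat_lit 3) (nat_lit 137) (nat_lit 114) (nat_lit 139)) (PT.nd (nat_lit 78) (PT.lf (nat_lit 1140) (nat_lit 3) (nat_lit 15) (nat_lit 1) (nat_lit 138) (nat_lit 114) (nat_lit 138)) (PT.lf (nat_lit 1064) (nat_lit 6) (nat_lit 14) (nat_lit 1) (nat_lit 139) (nat_lit 114) (nat_lit 137))))) (PT.nd (nat_lit 156) (PT.nd (nat_lit 78) (PT.lf (nat_lit 1216) (nat_lit 6) (nat_lit 16) (nat_lit 3) (nat_lit 136) (nat_lit 115) (nat_lit 139)) (PT.lf (nat_lit 1292) (nat_lit 6) (nat_lit 17) (nat_lit 3) (nat_lit 137) (nat_lit 115) (nat_lit 138))) (PT.nd (nat_lit 78) (PT.lf (nat_lit 1292)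 (nat_lit 6) (nat_lit 17) (nat_lit 1) (nat_lit 138) (nat_lit 115) (nat_lit 137)) (PT.nd (nat_lit 40404) (PT.lf (nat_lit 1216) (nat_lit 6) (nat_lit 16) (nat_lit 1) (nat_lit 139) (nat_lit 115) (nat_lit 136)) (PT.lf (nat_lit 1368) (nat_lit 6) (nat_lit 18) (nat_lit 3) (nat_lit 136) (nat_lit 116) (nat_lit 138)))))) (PT.nd (nat_lit 40716) (PT.nd (nat_lit 40482) (PT.nd (nat_lit 78) (PT.lf (nat_lit 1444) (nat_lit 3) (nat_lit 19) (nat_lit 1) (nat_lit 137) (nat_lit 116) (nat_lit 137)) (PT.lf (nat_lit 1368) (nat_lit 6) (nat_lit 18) (nat_lit 1) (nat_lit 138) (nat_lit 116) (nat_lit 136))) (PT.nd (nat_lit 78) (PT.lf (nat_lit 1520) (nat_lit 6) (nat_lit 20) (nat_lit 3) (nat_lit 135) (nat_lit 117) (nat_lit 138)) (PT.nd (nat_lit 78) (PT.lf (nat_lit 1596) (nat_lit 6) (nat_lit 21) (nat_lit 3) (nat_lit 136) (nat_lit 117) (nat_lit 137)) (PT.lf (nat_lit 1596) (nat_lit 6) (nat_lit 21) (nat_lit 1) (nat_lit 137)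 (nat_lit 117) (nat_lit 136))))) (PT.nd (nat_lit 40482) (PT.nd (nat_lit 40326) (PT.lf (nat_lit 1520) (nat_lit 6) (nat_lit 20) (nat_lit 1) (nat_lit 138) (nat_lit 117) (nat_lit 135)) (PT.nd (nat_lit 78) (PT.lf (nat_lit 1672) (nat_lit 6) (nat_lit 22) (nat_lit 3) (nat_lit 134) (nat_lit 118) (nat_lit 138)) (PT.lf (nat_lit 1748) (nat_lit 6) (nat_lit 23) (nat_lit 3) (nat_lit 135) (nat_lit 118) (nat_lit 137)))) (PT.nd (nat_lit 78) (PT.lf (nat_lit 1824) (nat_lit 3) (nat_lit 24) (nat_lit 1) (nat_lit 136) (nat_lit 118) (nat_lit 136)) (PT.nd (nat_lit 78) (PT.lf (nat_lit 1748) (nat_lit 6) (nat_lit 23) (nat_lit 1) (nat_lit 137) (nat_lit 118) (nat_lit 135)) (PT.lf (nat_lit 1672) (nat_lit 6) (nat_lit 22) (nat_lit 1) (nat_lit 138) (nat_lit 118) (nat_lit 134))))))))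
noncomputable def pc1 : PT := (PT.nd (nat_lit 122148) (PT.nd (nat_lit 81198) (PT.nd (nat_lit 40638) (PT.nd (nat_lit 156) (PT.nd (nat_lit 78) (PT.lf (nat_lit 1900) (nat_lit 6) (nat_lit 25) (nat_lit 3) (nat_lit 134) (nat_lit 119) (nat_lit 137)) (PT.lf (nat_lit 1976) (nat_lit 6) (nat_lit 26) (nat_lit 3) (nat_lit 135) (nat_lit 119) (nat_lit 136))) (PT.nd (nat_lit 78) (PT.lf (nat_lit 1976) (nat_lit 6) (nat_lit 26) (nat_lit 1) (nat_lit 136) (nat_lit 119) (nat_lit 135)) (PT.nd (nat_lit 40326) (PT.lf (nat_lit 1900) (nat_lit 6) (nat_lit 25) (nat_lit 1) (nat_lit 137) (nat_lit 119) (nat_lit 134)) (PT.lf (nat_lit 2052) (nat_lit 6) (nat_lit 27) (nat_lit 3) (nat_lit 133) (nat_lit 120) (nat_lit 137))))) (PT.nd (nat_lit 156) (PT.nd (nat_lit 78) (PT.lf (nat_lit 2128) (nat_lit 6) (nat_lit 28) (nat_lit 3) (nat_lit 134) (nat_lit 120) (nat_lit 136)) (PT.lf (nat_lit 2204) (nat_lit 3) (nat_lit 29) (nat_lit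 1) (nat_lit 135) (nat_lit 120) (nat_lit 135))) (PT.nd (nat_lit 78) (PT.lf (nat_lit 2128) (nat_lit 6) (nat_lit 28) (nat_lit 1) (nat_lit 136) (nat_lit 120) (nat_lit 134)) (PT.nd (nat_lit 40248) (PT.lf (nat_lit 2052) (nat_lit 6) (nat_lit 27) (nat_lit 1) (nat_lit 137) (nat_lit 120) (nat_lit 133)) (PT.lf (nat_lit 2280) (nat_lit 6) (nat_lit 30) (nat_lit 3) (nat_lit 132) (nat_lit 121) (nat_lit 137)))))) (PT.nd (nat_lit 40482) (PT.nd (nat_lit 156) (PT.nd (nat_lit 78) (PT.lf (nat_lit 2356) (nat_lit 6) (nat_lit 31) (nat_lit 3) (nat_lit 133) (nat_lit 121) (nat_lit 136)) (PT.lf (nat_lit 2432) (nat_lit 6) (nat_lit 32) (nat_lit 3) (nat_lit 134) (nat_lit 121) (nat_lit 135))) (PT.nd (nat_lit 78) (PT.lf (nat_lit 2432) (nat_lit 6) (nat_lit 32) (nat_lit 1) (nat_lit 135) (nat_lit 121) (nat_lit 134)) (PT.nd (nat_lit 78) (PT.lf (nat_lit 2356) (nat_lit 6) (nat_lit 31) (nat_lit 1) (nat_lit 136) (nat_lit 121)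 (nat_lit 133)) (PT.lf (nat_lit 2280) (nat_lit 6) (nat_lit 30) (nat_lit 1) (nat_lit 137) (nat_lit 121) (nat_lit 132))))) (PT.nd (nat_lit 234) (PT.nd (nat_lit 78) (PT.lf (nat_lit 2508) (nat_lit 6) (nat_lit 33) (nat_lit 3) (nat_lit 131) (nat_lit 122) (nat_lit 137)) (PT.nd (nat_lit 78) (PT.lf (nat_lit 2584) (nat_lit 6) (nat_lit 34) (nat_lit 3) (nat_lit 132) (nat_lit 122) (nat_lit 136)) (PT.lf (nat_lit 2660) (nat_lit 6) (nat_lit 35) (nat_lit 3) (nat_lit 133) (nat_lit 122) (nat_lit 135)))) (PT.nd (nat_lit 78) (PT.lf (nat_lit 2736) (nat_lit 3) (nat_lit 36) (nat_lit 1) (nat_lit 134) (nat_lit 122) (nat_lit 134)) (PT.nd (nat_lit 78) (PT.lf (nat_lit 2660) (nat_lit 6) (nat_lit 35) (nat_lit 1) (nat_lit 135) (nat_lit 122) (nat_lit 133)) (PT.lf (nat_lit 2584) (nat_lit 6) (nat_lit 34) (nat_lit 1) (nat_lit 136) (nat_lit 122) (nat_lit 132))))))) (PT.nd (nat_lit 80964) (PT.nd (nat_lit 40482) (PT.nd (nat_lit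 40248) (PT.nd (nat_lit 40170) (PT.lf (nat_lit 2508) (nat_lit 6) (nat_lit 33) (nat_lit 1) (nat_lit 137) (nat_lit 122) (nat_lit 131)) (PT.lf (nat_lit 2812) (nat_lit 6) (nat_lit 37) (nat_lit 3) (nat_lit 131) (nat_lit 123) (nat_lit 136))) (PT.nd (nat_lit 78) (PT.lf (nat_lit 2888) (nat_lit 6) (nat_lit 38) (nat_lit 3) (nat_lit 132) (nat_lit 123) (nat_lit 135)) (PT.nd (nat_lit 78) (PT.lf (nat_lit 2964) (nat_lit 6) (nat_lit 39) (nat_lit 3) (nat_lit 133) (nat_lit 123) (nat_lit 134)) (PT.lf (nat_lit 2964) (nat_lit 6) (nat_lit 39) (nat_lit 1) (nat_lit 134) (nat_lit 123) (nat_lit 133))))) (PT.nd (nat_lit 40248) (PT.nd (nat_lit 78) (PT.lf (nat_lit 2888) (nat_lit 6) (nat_lit 38) (nat_lit 1) (nat_lit 135) (nat_lit 123) (nat_lit 132)) (PT.lf (nat_lit 2812) (nat_lit 6) (nat_lit 37) (nat_lit 1) (nat_lit 136) (nat_lit 123) (nat_lit 131))) (PT.nd (nat_lit 78) (PT.lf (nat_lit 3268) (nat_lit 6) (nat_lit 43)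 (nat_lit 3) (nat_lit 130) (nat_lit 124) (nat_lit 136)) (PT.nd (nat_lit 78) (PT.lf (nat_lit 3344) (nat_lit 6) (nat_lit 44) (nat_lit 3) (nat_lit 131) (nat_lit 124) (nat_lit 135)) (PT.lf (nat_lit 3420) (nat_lit 6) (nat_lit 45) (nat_lit 3) (nat_lit 132) (nat_lit 124) (nat_lit 134)))))) (PT.nd (nat_lit 40404) (PT.nd (nat_lit 156) (PT.nd (nat_lit 78) (PT.lf (nat_lit 3496) (nat_lit 3) (nat_lit 46) (nat_lit 1) (nat_lit 133) (nat_lit 124) (nat_lit 133)) (PT.lf (nat_lit 3420) (nat_lit 6) (nat_lit 45) (nat_lit 1) (nat_lit 134) (nat_lit 124) (nat_lit 132))) (PT.nd (nat_lit 78) (PT.lf (nat_lit 3344) (nat_lit 6) (nat_lit 44) (nat_lit 1) (nat_lit 135) (nat_lit 124) (nat_lit 131)) (PT.nd (nat_lit 40092) (PT.lf (nat_lit 3268) (nat_lit 6) (nat_lit 43) (nat_lit 1) (nat_lit 136) (nat_lit 124) (nat_lit 130)) (PT.lf (nat_lit 3192) (nat_lit 6) (nat_lit 42) (nat_lit 3) (nat_lit 129) (nat_lit 125) (nat_lit 136)))))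 (PT.nd (nat_lit 234) (PT.nd (nat_lit 78) (PT.lf (nat_lit 3724) (nat_lit 6) (nat_lit 49) (nat_lit 3) (nat_lit 130) (nat_lit 125) (nat_lit 135)) (PT.nd (nat_lit 78) (PT.lf (nat_lit 3800) (nat_lit 6) (nat_lit 50) (nat_lit 3) (nat_lit 131) (nat_lit 125) (nat_lit 134)) (PT.lf (nat_lit 3876) (nat_lit 6) (nat_lit 51) (nat_lit 3) (nat_lit 132) (nat_lit 125) (nat_lit 133)))) (PT.nd (nat_lit 78) (PT.lf (nat_lit 3876) (nat_lit 6) (nat_lit 51) (nat_lit 1) (nat_lit 133) (nat_lit 125) (nat_lit 132)) (PT.nd (nat_lit 78) (PT.lf (nat_lit 3800) (nat_lit 6) (nat_lit 50) (nat_lit 1) (nat_lit 134) (nat_lit 125) (nat_lit 131)) (PT.lf (nat_lit 3724) (nat_lit 6) (nat_lit 49) (nat_lit 1) (nat_lit 135) (nat_lit 125) (nat_lit 130))))))))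
noncomputable def pc2 : PT := (PT.nd (nat_lit 121212) (PT.nd (nat_lit 80574) (PT.nd (nat_lit 40326) (PT.nd (nat_lit 40092) (PT.nd (nat_lit 40014) (PT.lf (nat_lit 3192) (nat_lit 6) (nat_lit 42) (nat_lit 1) (nat_lit 136) (nat_lit 125) (nat_lit 129)) (PT.lf (nat_lit 3116) (nat_lit 6) (nat_lit 41) (nat_lit 3) (nat_lit 128) (nat_lit 126) (nat_lit 136))) (PT.nd (nat_lit 78) (PT.lf (nat_lit 3648) (nat_lit 6) (nat_lit 48) (nat_lit 3) (nat_lit 129) (nat_lit 126) (nat_lit 135)) (PT.nd (nat_lit 78) (PT.lf (nat_lit 4104) (nat_lit 6) (nat_lit 54) (nat_lit 3) (nat_lit 130) (nat_lit 126) (nat_lit 134)) (PT.lf (nat_lit 4180) (nat_lit 6) (nat_lit 55) (nat_lit 3) (nat_lit 131) (nat_lit 126) (nat_lit 133))))) (PT.nd (nat_lit 156) (PT.nd (nat_lit 78) (PT.lf (nat_lit 4256) (nat_lit 3) (nat_lit 56) (nat_lit 1) (nat_lit 132) (nat_lit 126) (nat_lit 132)) (PT.lf (nat_lit 4180) (nat_lit 6) (nat_lit 55) (nat_lit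 1) (nat_lit 133) (nat_lit 126) (nat_lit 131))) (PT.nd (nat_lit 78) (PT.lf (nat_lit 4104) (nat_lit 6) (nat_lit 54) (nat_lit 1) (nat_lit 134) (nat_lit 126) (nat_lit 130)) (PT.nd (nat_lit 78) (PT.lf (nat_lit 3648) (nat_lit 6) (nat_lit 48) (nat_lit 1) (nat_lit 135) (nat_lit 126) (nat_lit 129)) (PT.lf (nat_lit 3116) (nat_lit 6) (nat_lit 41) (nat_lit 1) (nat_lit 136) (nat_lit 126) (nat_lit 128)))))) (PT.nd (nat_lit 390) (PT.nd (nat_lit 156) (PT.nd (nat_lit 78) (PT.lf (nat_lit 3040) (nat_lit 3) (nat_lit 40) (nat_lit 3) (nat_lit 127) (nat_lit 127) (nat_lit 136)) (PT.lf (nat_lit 3572) (nat_lit 6) (nat_lit 47) (nat_lit 3) (nat_lit 128) (nat_lit 127) (nat_lit 135))) (PT.nd (nat_lit 78) (PT.lf (nat_lit 4028) (nat_lit 6) (nat_lit 53) (nat_lit 3) (nat_lit 129) (nat_lit 127) (nat_lit 134)) (PT.nd (nat_lit 78) (PT.lf (nat_lit 4408) (nat_lit 6) (nat_lit 58) (nat_lit 3) (nat_lit 130) (nat_lit 127) (nat_lit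 133)) (PT.lf (nat_lit 4484) (nat_lit 6) (nat_lit 59) (nat_lit 3) (nat_lit 131) (nat_lit 127) (nat_lit 132))))) (PT.nd (nat_lit 234) (PT.nd (nat_lit 78) (PT.lf (nat_lit 4484) (nat_lit 6) (nat_lit 59) (nat_lit 1) (nat_lit 132) (nat_lit 127) (nat_lit 131)) (PT.nd (nat_lit 78) (PT.lf (nat_lit 4408) (nat_lit 6) (nat_lit 58) (nat_lit 1) (nat_lit 133) (nat_lit 127) (nat_lit 130)) (PT.lf (nat_lit 4028) (nat_lit 6) (nat_lit 53) (nat_lit 1) (nat_lit 134) (nat_lit 127) (nat_lit 129)))) (PT.nd (nat_lit 78) (PT.lf (nat_lit 3572) (nat_lit 6) (nat_lit 47) (nat_lit 1) (nat_lit 135) (nat_lit 127) (nat_lit 128)) (PT.nd (nat_lit 39858) (PT.lf (nat_lit 3040) (nat_lit 3) (nat_lit 40) (nat_lit 0) (nat_lit 136) (nat_lit 127) (nat_lit 127)) (PT.lf (nat_lit 3116) (nat_lit 6) (nat_lit 41) (nat_lit 5) (nat_lit 126) (nat_lit 128) (nat_lit 136))))))) (PT.nd (nat_lit 40482) (PT.nd (nat_lit 390) (PT.nd (nat_lit 156)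 (PT.nd (nat_lit 78) (PT.lf (nat_lit 3572) (nat_lit 6) (nat_lit 47) (nat_lit 5) (nat_lit 127) (nat_lit 128) (nat_lit 135)) (PT.lf (nat_lit 3952) (nat_lit 3) (nat_lit 52) (nat_lit 3) (nat_lit 128) (nat_lit 128) (nat_lit 134))) (PT.nd (nat_lit 78) (PT.lf (nat_lit 4332) (nat_lit 6) (nat_lit 57) (nat_lit 3) (nat_lit 129) (nat_lit 128) (nat_lit 133)) (PT.nd (nat_lit 78) (PT.lf (nat_lit 4636) (nat_lit 6) (nat_lit 61) (nat_lit 3) (nat_lit 130) (nat_lit 128) (nat_lit 132)) (PT.lf (nat_lit 4712) (nat_lit 3) (nat_lit 62) (nat_lit 1) (nat_lit 131) (nat_lit 128) (nat_lit 131))))) (PT.nd (nat_lit 156) (PT.nd (nat_lit 78) (PT.lf (nat_lit 4636) (nat_lit 6) (nat_lit 61) (nat_lit 1) (nat_lit 132) (nat_lit 128) (nat_lit 130)) (PT.lf (nat_lit 4332) (nat_lit 6) (nat_lit 57) (nat_lit 1) (nat_lit 133) (nat_lit 128) (nat_lit 129))) (PT.nd (nat_lit 78) (PT.lf (nat_lit 3952) (nat_lit 3) (nat_lit 52) (nat_lit 0)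 (nat_lit 134) (nat_lit 128) (nat_lit 128)) (PT.nd (nat_lit 78) (PT.lf (nat_lit 3572) (nat_lit 6) (nat_lit 47) (nat_lit 0) (nat_lit 135) (nat_lit 128) (nat_lit 127)) (PT.lf (nat_lit 3116) (nat_lit 6) (nat_lit 41) (nat_lit 0) (nat_lit 136) (nat_lit 128) (nat_lit 126)))))) (PT.nd (nat_lit 390) (PT.nd (nat_lit 156) (PT.nd (nat_lit 78) (PT.lf (nat_lit 3192) (nat_lit 6) (nat_lit 42) (nat_lit 5) (nat_lit 125) (nat_lit 129) (nat_lit 136)) (PT.lf (nat_lit 3648) (nat_lit 6) (nat_lit 48) (nat_lit 5) (nat_lit 126) (nat_lit 129) (nat_lit 135))) (PT.nd (nat_lit 78) (PT.lf (nat_lit 4028) (nat_lit 6) (nat_lit 53) (nat_lit 5) (nat_lit 127) (nat_lit 129) (nat_lit 134)) (PT.nd (nat_lit 78) (PT.lf (nat_lit 4332) (nat_lit 6) (nat_lit 57) (nat_lit 5) (nat_lit 128) (nat_lit 129) (nat_lit 133)) (PT.lf (nat_lit 4560) (nat_lit 3) (nat_lit 60) (nat_lit 3) (nat_lit 129) (nat_lit 129) (nat_lit 132))))) (PT.nd (nat_lit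 234) (PT.nd (nat_lit 78) (PT.lf (nat_lit 4788) (nat_lit 6) (nat_lit 63) (nat_lit 3) (nat_lit 130) (nat_lit 129) (nat_lit 131)) (PT.nd (nat_lit 78) (PT.lf (nat_lit 4788) (nat_lit 6) (nat_lit 63) (nat_lit 1) (nat_lit 131) (nat_lit 129) (nat_lit 130)) (PT.lf (nat_lit 4560) (nat_lit 3) (nat_lit 60) (nat_lit 0) (nat_lit 132) (nat_lit 129) (nat_lit 129)))) (PT.nd (nat_lit 78) (PT.lf (nat_lit 4332) (nat_lit 6) (nat_lit 57) (nat_lit 0) (nat_lit 133) (nat_lit 129) (nat_lit 128)) (PT.nd (nat_lit 78) (PT.lf (nat_lit 4028) (nat_lit 6) (nat_lit 53) (nat_lit 0) (nat_lit 134) (nat_lit 129) (nat_lit 127)) (PT.lf (nat_lit 3648) (nat_lit 6) (nat_lit 48) (nat_lit 0) (nat_lit 135) (nat_lit 129) (nat_lit 126))))))))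
noncomputable def pc3 : PT := (PT.nd (nat_lit 80730) (PT.nd (nat_lit 40404) (PT.nd (nat_lit 40014) (PT.nd (nat_lit 39780) (PT.nd (nat_lit 39702) (PT.lf (nat_lit 3192) (nat_lit 6) (nat_lit 42) (nat_lit 0) (nat_lit 136) (nat_lit 129) (nat_lit 125)) (PT.lf (nat_lit 3268) (nat_lit 6) (nat_lit 43) (nat_lit 5) (nat_lit 124) (nat_lit 130) (nat_lit 136))) (PT.nd (nat_lit 78) (PT.lf (nat_lit 3724) (nat_lit 6) (nat_lit 49) (nat_lit 5) (nat_lit 125) (nat_lit 130) (nat_lit 135)) (PT.nd (nat_lit 78) (PT.lf (nat_lit 4104) (nat_lit 6) (nat_lit 54) (nat_lit 5) (nat_lit 126) (nat_lit 130) (nat_lit 134)) (PT.lf (nat_lit 4408) (nat_lit 6) (nat_lit 58) (nat_lit 5) (nat_lit 127) (nat_lit 130) (nat_lit 133))))) (PT.nd (nat_lit 156) (PT.nd (nat_lit 78) (PT.lf (nat_lit 4636) (nat_lit 6) (nat_lit 61) (nat_lit 5) (nat_lit 128) (nat_lit 130) (nat_lit 132)) (PT.lf (nat_lit 4788) (nat_lit 6) (nat_lit 63) (nat_lit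 5) (nat_lit 129) (nat_lit 130) (nat_lit 131))) (PT.nd (nat_lit 78) (PT.lf (nat_lit 4864) (nat_lit 1) (nat_lit 64) (nat_lit 0) (nat_lit 130) (nat_lit 130) (nat_lit 130)) (PT.nd (nat_lit 78) (PT.lf (nat_lit 4788) (nat_lit 6) (nat_lit 63) (nat_lit 0) (nat_lit 131) (nat_lit 130) (nat_lit 129)) (PT.lf (nat_lit 4636) (nat_lit 6) (nat_lit 61) (nat_lit 0) (nat_lit 132) (nat_lit 130) (nat_lit 128)))))) (PT.nd (nat_lit 39858) (PT.nd (nat_lit 156) (PT.nd (nat_lit 78) (PT.lf (nat_lit 4408) (nat_lit 6) (nat_lit 58) (nat_lit 0) (nat_lit 133) (nat_lit 130) (nat_lit 127)) (PT.lf (nat_lit 4104) (nat_lit 6) (nat_lit 54) (nat_lit 0) (nat_lit 134) (nat_lit 130) (nat_lit 126))) (PT.nd (nat_lit 78) (PT.lf (nat_lit 3724) (nat_lit 6) (nat_lit 49) (nat_lit 0) (nat_lit 135) (nat_lit 130) (nat_lit 125)) (PT.nd (nat_lit 39546) (PT.lf (nat_lit 3268) (nat_lit 6) (nat_lit 43) (nat_lit 0) (nat_lit 136) (nat_lit 130)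 (nat_lit 124)) (PT.lf (nat_lit 2508) (nat_lit 6) (nat_lit 33) (nat_lit 5) (nat_lit 122) (nat_lit 131) (nat_lit 137))))) (PT.nd (nat_lit 234) (PT.nd (nat_lit 78) (PT.lf (nat_lit 2812) (nat_lit 6) (nat_lit 37) (nat_lit 5) (nat_lit 123) (nat_lit 131) (nat_lit 136)) (PT.nd (nat_lit 78) (PT.lf (nat_lit 3344) (nat_lit 6) (nat_lit 44) (nat_lit 5) (nat_lit 124) (nat_lit 131) (nat_lit 135)) (PT.lf (nat_lit 3800) (nat_lit 6) (nat_lit 50) (nat_lit 5) (nat_lit 125) (nat_lit 131) (nat_lit 134)))) (PT.nd (nat_lit 78) (PT.lf (nat_lit 4180) (nat_lit 6) (nat_lit 55) (nat_lit 5) (nat_lit 126) (nat_lit 131) (nat_lit 133)) (PT.nd (nat_lit 78) (PT.lf (nat_lit 4484) (nat_lit 6) (nat_lit 59) (nat_lit 5) (nat_lit 127) (nat_lit 131) (nat_lit 132)) (PT.lf (nat_lit 4712) (nat_lit 3) (nat_lit 62) (nat_lit 4) (nat_lit 128) (nat_lit 131) (nat_lit 131))))))) (PT.nd (nat_lit 40092) (PT.nd (nat_lit 390) (PT.nd (nat_lit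 156) (PT.nd (nat_lit 78) (PT.lf (nat_lit 4788) (nat_lit 6) (nat_lit 63) (nat_lit 4) (nat_lit 129) (nat_lit 131) (nat_lit 130)) (PT.lf (nat_lit 4788) (nat_lit 6) (nat_lit 63) (nat_lit 2) (nat_lit 130) (nat_lit 131) (nat_lit 129))) (PT.nd (nat_lit 78) (PT.lf (nat_lit 4712) (nat_lit 3) (nat_lit 62) (nat_lit 0) (nat_lit 131) (nat_lit 131) (nat_lit 128)) (PT.nd (nat_lit 78) (PT.lf (nat_lit 4484) (nat_lit 6) (nat_lit 59) (nat_lit 0) (nat_lit 132) (nat_lit 131) (nat_lit 127)) (PT.lf (nat_lit 4180) (nat_lit 6) (nat_lit 55) (nat_lit 0) (nat_lit 133) (nat_lit 131) (nat_lit 126))))) (PT.nd (nat_lit 156) (PT.nd (nat_lit 78) (PT.lf (nat_lit 3800) (nat_lit 6) (nat_lit 50) (nat_lit 0) (nat_lit 134) (nat_lit 131) (nat_lit 125)) (PT.lf (nat_lit 3344) (nat_lit 6) (nat_lit 44) (nat_lit 0) (nat_lit 135) (nat_lit 131) (nat_lit 124))) (PT.nd (nat_lit 78) (PT.lf (nat_lit 2812) (nat_lit 6) (nat_lit 37) (nat_lit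 0) (nat_lit 136) (nat_lit 131) (nat_lit 123)) (PT.nd (nat_lit 39390) (PT.lf (nat_lit 2508) (nat_lit 6) (nat_lit 33) (nat_lit 0) (nat_lit 137) (nat_lit 131) (nat_lit 122)) (PT.lf (nat_lit 2280) (nat_lit 6) (nat_lit 30) (nat_lit 5) (nat_lit 121) (nat_lit 132) (nat_lit 137)))))) (PT.nd (nat_lit 390) (PT.nd (nat_lit 156) (PT.nd (nat_lit 78) (PT.lf (nat_lit 2584) (nat_lit 6) (nat_lit 34) (nat_lit 5) (nat_lit 122) (nat_lit 132) (nat_lit 136)) (PT.lf (nat_lit 2888) (nat_lit 6) (nat_lit 38) (nat_lit 5) (nat_lit 123) (nat_lit 132) (nat_lit 135))) (PT.nd (nat_lit 78) (PT.lf (nat_lit 3420) (nat_lit 6) (nat_lit 45) (nat_lit 5) (nat_lit 124) (nat_lit 132) (nat_lit 134)) (PT.nd (nat_lit 78) (PT.lf (nat_lit 3876) (nat_lit 6) (nat_lit 51) (nat_lit 5) (nat_lit 125) (nat_lit 132) (nat_lit 133)) (PT.lf (nat_lit 4256) (nat_lit 3) (nat_lit 56) (nat_lit 4) (nat_lit 126) (nat_lit 132) (nat_lit 132))))) (PT.nd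 (nat_lit 234) (PT.nd (nat_lit 78) (PT.lf (nat_lit 4484) (nat_lit 6) (nat_lit 59) (nat_lit 4) (nat_lit 127) (nat_lit 132) (nat_lit 131)) (PT.nd (nat_lit 78) (PT.lf (nat_lit 4636) (nat_lit 6) (nat_lit 61) (nat_lit 4) (nat_lit 128) (nat_lit 132) (nat_lit 130)) (PT.lf (nat_lit 4560) (nat_lit 3) (nat_lit 60) (nat_lit 2) (nat_lit 129) (nat_lit 132) (nat_lit 129)))) (PT.nd (nat_lit 78) (PT.lf (nat_lit 4636) (nat_lit 6) (nat_lit 61) (nat_lit 2) (nat_lit 130) (nat_lit 132) (nat_lit 128)) (PT.nd (nat_lit 78) (PT.lf (nat_lit 4484) (nat_lit 6) (nat_lit 59) (nat_lit 2) (nat_lit 131) (nat_lit 132) (nat_lit 127)) (PT.lf (nat_lit 4256) (nat_lit 3) (nat_lit 56) (nat_lit 0) (nat_lit 132) (nat_lit 132) (nat_lit 126))))))))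
noncomputable def pc4 : PT := (PT.nd (nat_lit 40794) (PT.nd (nat_lit 40014) (PT.nd (nat_lit 39624) (PT.nd (nat_lit 156) (PT.nd (nat_lit 78) (PT.lf (nat_lit 3876) (nat_lit 6) (nat_lit 51) (nat_lit 0) (nat_lit 133) (nat_lit 132) (nat_lit 125)) (PT.lf (nat_lit 3420) (nat_lit 6) (nat_lit 45) (nat_lit 0) (nat_lit 134) (nat_lit 132) (nat_lit 124))) (PT.nd (nat_lit 78) (PT.lf (nat_lit 2888) (nat_lit 6) (nat_lit 38) (nat_lit 0) (nat_lit 135) (nat_lit 132) (nat_lit 123)) (PT.nd (nat_lit 78) (PT.lf (nat_lit 2584) (nat_lit 6) (nat_lit 34) (nat_lit 0) (nat_lit 136) (nat_lit 132) (nat_lit 122)) (PT.lf (nat_lit 2280) (nat_lit 6) (nat_lit 30) (nat_lit 0) (nat_lit 137) (nat_lit 132) (nat_lit 121))))) (PT.nd (nat_lit 156) (PT.nd (nat_lit 78) (PT.lf (nat_lit 2052) (nat_lit 6) (nat_lit 27) (nat_lit 5) (nat_lit 120) (nat_lit 133) (nat_lit 137)) (PT.lf (nat_lit 2356) (nat_lit 6) (nat_lit 31) (nat_lit 5) (nat_lit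 121) (nat_lit 133) (nat_lit 136))) (PT.nd (nat_lit 78) (PT.lf (nat_lit 2660) (nat_lit 6) (nat_lit 35) (nat_lit 5) (nat_lit 122) (nat_lit 133) (nat_lit 135)) (PT.nd (nat_lit 78) (PT.lf (nat_lit 2964) (nat_lit 6) (nat_lit 39) (nat_lit 5) (nat_lit 123) (nat_lit 133) (nat_lit 134)) (PT.lf (nat_lit 3496) (nat_lit 3) (nat_lit 46) (nat_lit 4) (nat_lit 124) (nat_lit 133) (nat_lit 133)))))) (PT.nd (nat_lit 390) (PT.nd (nat_lit 156) (PT.nd (nat_lit 78) (PT.lf (nat_lit 3876) (nat_lit 6) (nat_lit 51) (nat_lit 4) (nat_lit 125) (nat_lit 133) (nat_lit 132)) (PT.lf (nat_lit 4180) (nat_lit 6) (nat_lit 55) (nat_lit 4) (nat_lit 126) (nat_lit 133) (nat_lit 131))) (PT.nd (nat_lit 78) (PT.lf (nat_lit 4408) (nat_lit 6) (nat_lit 58) (nat_lit 4) (nat_lit 127) (nat_lit 133) (nat_lit 130)) (PT.nd (nat_lit 78) (PT.lf (nat_lit 4332) (nat_lit 6) (nat_lit 57) (nat_lit 4) (nat_lit 128) (nat_lit 133) (nat_lit 129)) (PT.lf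 (nat_lit 4332) (nat_lit 6) (nat_lit 57) (nat_lit 2) (nat_lit 129) (nat_lit 133) (nat_lit 128))))) (PT.nd (nat_lit 156) (PT.nd (nat_lit 78) (PT.lf (nat_lit 4408) (nat_lit 6) (nat_lit 58) (nat_lit 2) (nat_lit 130) (nat_lit 133) (nat_lit 127)) (PT.lf (nat_lit 4180) (nat_lit 6) (nat_lit 55) (nat_lit 2) (nat_lit 131) (nat_lit 133) (nat_lit 126))) (PT.nd (nat_lit 78) (PT.lf (nat_lit 3876) (nat_lit 6) (nat_lit 51) (nat_lit 2) (nat_lit 132) (nat_lit 133) (nat_lit 125)) (PT.nd (nat_lit 78) (PT.lf (nat_lit 3496) (nat_lit 3) (nat_lit 46) (nat_lit 0) (nat_lit 133) (nat_lit 133) (nat_lit 124)) (PT.lf (nat_lit 2964) (nat_lit 6) (nat_lit 39) (nat_lit 0) (nat_lit 134) (nat_lit 133) (nat_lit 123))))))) (PT.nd (nat_lit 39858) (PT.nd (nat_lit 39468) (PT.nd (nat_lit 156) (PT.nd (nat_lit 78) (PT.lf (nat_lit 2660) (nat_lit 6) (nat_lit 35) (nat_lit 0) (nat_lit 135) (nat_lit 133) (nat_lit 122)) (PT.lf (nat_lit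 2356) (nat_lit 6) (nat_lit 31) (nat_lit 0) (nat_lit 136) (nat_lit 133) (nat_lit 121))) (PT.nd (nat_lit 39156) (PT.lf (nat_lit 2052) (nat_lit 6) (nat_lit 27) (nat_lit 0) (nat_lit 137) (nat_lit 133) (nat_lit 120)) (PT.nd (nat_lit 78) (PT.lf (nat_lit 1672) (nat_lit 6) (nat_lit 22) (nat_lit 5) (nat_lit 118) (nat_lit 134) (nat_lit 138)) (PT.lf (nat_lit 1900) (nat_lit 6) (nat_lit 25) (nat_lit 5) (nat_lit 119) (nat_lit 134) (nat_lit 137))))) (PT.nd (nat_lit 156) (PT.nd (nat_lit 78) (PT.lf (nat_lit 2128) (nat_lit 6) (nat_lit 28) (nat_lit 5) (nat_lit 120) (nat_lit 134) (nat_lit 136)) (PT.lf (nat_lit 2432) (nat_lit 6) (nat_lit 32) (nat_lit 5) (nat_lit 121) (nat_lit 134) (nat_lit 135))) (PT.nd (nat_lit 78) (PT.lf (nat_lit 2736) (nat_lit 3) (nat_lit 36) (nat_lit 4) (nat_lit 122) (nat_lit 134) (nat_lit 134)) (PT.nd (nat_lit 78) (PT.lf (nat_lit 2964) (nat_lit 6) (nat_lit 39) (nat_lit 4) (nat_lit 123)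 (nat_lit 134) (nat_lit 133)) (PT.lf (nat_lit 3420) (nat_lit 6) (nat_lit 45) (nat_lit 4) (nat_lit 124) (nat_lit 134) (nat_lit 132)))))) (PT.nd (nat_lit 390) (PT.nd (nat_lit 156) (PT.nd (nat_lit 78) (PT.lf (nat_lit 3800) (nat_lit 6) (nat_lit 50) (nat_lit 4) (nat_lit 125) (nat_lit 134) (nat_lit 131)) (PT.lf (nat_lit 4104) (nat_lit 6) (nat_lit 54) (nat_lit 4) (nat_lit 126) (nat_lit 134) (nat_lit 130))) (PT.nd (nat_lit 78) (PT.lf (nat_lit 4028) (nat_lit 6) (nat_lit 53) (nat_lit 4) (nat_lit 127) (nat_lit 134) (nat_lit 129)) (PT.nd (nat_lit 78) (PT.lf (nat_lit 3952) (nat_lit 3) (nat_lit 52) (nat_lit 2) (nat_lit 128) (nat_lit 134) (nat_lit 128)) (PT.lf (nat_lit 4028) (nat_lit 6) (nat_lit 53) (nat_lit 2) (nat_lit 129) (nat_lit 134) (nat_lit 127))))) (PT.nd (nat_lit 234) (PT.nd (nat_lit 78) (PT.lf (nat_lit 4104) (nat_lit 6) (nat_lit 54) (nat_lit 2) (nat_lit 130) (nat_lit 134) (nat_lit 126)) (PT.nd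 (nat_lit 78) (PT.lf (nat_lit 3800) (nat_lit 6) (nat_lit 50) (nat_lit 2) (nat_lit 131) (nat_lit 134) (nat_lit 125)) (PT.lf (nat_lit 3420) (nat_lit 6) (nat_lit 45) (nat_lit 2) (nat_lit 132) (nat_lit 134) (nat_lit 124)))) (PT.nd (nat_lit 78) (PT.lf (nat_lit 2964) (nat_lit 6) (nat_lit 39) (nat_lit 2) (nat_lit 133) (nat_lit 134) (nat_lit 123)) (PT.nd (nat_lit 78) (PT.lf (nat_lit 2736) (nat_lit 3) (nat_lit 36) (nat_lit 0) (nat_lit 134) (nat_lit 134) (nat_lit 122)) (PT.lf (nat_lit 2432) (nat_lit 6) (nat_lit 32) (nat_lit 0) (nat_lit 135) (nat_lit 134) (nat_lit 121))))))))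
noncomputable def pc5 : PT := (PT.nd (nat_lit 40560) (PT.nd (nat_lit 39702) (PT.nd (nat_lit 39312) (PT.nd (nat_lit 156) (PT.nd (nat_lit 78) (PT.lf (nat_lit 2128) (nat_lit 6) (nat_lit 28) (nat_lit 0) (nat_lit 136) (nat_lit 134) (nat_lit 120)) (PT.lf (nat_lit 1900) (nat_lit 6) (nat_lit 25) (nat_lit 0) (nat_lit 137) (nat_lit 134) (nat_lit 119))) (PT.nd (nat_lit 39000) (PT.lf (nat_lit 1672) (nat_lit 6) (nat_lit 22) (nat_lit 0) (nat_lit 138) (nat_lit 134) (nat_lit 118)) (PT.nd (nat_lit 78) (PT.lf (nat_lit 1520) (nat_lit 6) (nat_lit 20) (nat_lit 5) (nat_lit 117) (nat_lit 135) (nat_lit 138)) (PT.lf (nat_lit 1748) (nat_lit 6) (nat_lit 23) (nat_lit 5) (nat_lit 118) (nat_lit 135) (nat_lit 137))))) (PT.nd (nat_lit 156) (PT.nd (nat_lit 78) (PT.lf (nat_lit 1976) (nat_lit 6) (nat_lit 26) (nat_lit 5) (nat_lit 119) (nat_lit 135) (nat_lit 136)) (PT.lf (nat_lit 2204) (nat_lit 3) (nat_lit 29) (nat_lit 4)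 (nat_lit 120) (nat_lit 135) (nat_lit 135))) (PT.nd (nat_lit 78) (PT.lf (nat_lit 2432) (nat_lit 6) (nat_lit 32) (nat_lit 4) (nat_lit 121) (nat_lit 135) (nat_lit 134)) (PT.nd (nat_lit 78) (PT.lf (nat_lit 2660) (nat_lit 6) (nat_lit 35) (nat_lit 4) (nat_lit 122) (nat_lit 135) (nat_lit 133)) (PT.lf (nat_lit 2888) (nat_lit 6) (nat_lit 38) (nat_lit 4) (nat_lit 123) (nat_lit 135) (nat_lit 132)))))) (PT.nd (nat_lit 390) (PT.nd (nat_lit 156) (PT.nd (nat_lit 78) (PT.lf (nat_lit 3344) (nat_lit 6) (nat_lit 44) (nat_lit 4) (nat_lit 124) (nat_lit 135) (nat_lit 131)) (PT.lf (nat_lit 3724) (nat_lit 6) (nat_lit 49) (nat_lit 4) (nat_lit 125) (nat_lit 135) (nat_lit 130))) (PT.nd (nat_lit 78) (PT.lf (nat_lit 3648) (nat_lit 6) (nat_lit 48) (nat_lit 4) (nat_lit 126) (nat_lit 135) (nat_lit 129)) (PT.nd (nat_lit 78) (PT.lf (nat_lit 3572) (nat_lit 6) (nat_lit 47) (nat_lit 4) (nat_lit 127) (nat_lit 135) (nat_lit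 128)) (PT.lf (nat_lit 3572) (nat_lit 6) (nat_lit 47) (nat_lit 2) (nat_lit 128) (nat_lit 135) (nat_lit 127))))) (PT.nd (nat_lit 234) (PT.nd (nat_lit 78) (PT.lf (nat_lit 3648) (nat_lit 6) (nat_lit 48) (nat_lit 2) (nat_lit 129) (nat_lit 135) (nat_lit 126)) (PT.nd (nat_lit 78) (PT.lf (nat_lit 3724) (nat_lit 6) (nat_lit 49) (nat_lit 2) (nat_lit 130) (nat_lit 135) (nat_lit 125)) (PT.lf (nat_lit 3344) (nat_lit 6) (nat_lit 44) (nat_lit 2) (nat_lit 131) (nat_lit 135) (nat_lit 124)))) (PT.nd (nat_lit 78) (PT.lf (nat_lit 2888) (nat_lit 6) (nat_lit 38) (nat_lit 2) (nat_lit 132) (nat_lit 135) (nat_lit 123)) (PT.nd (nat_lit 78) (PT.lf (nat_lit 2660) (nat_lit 6) (nat_lit 35) (nat_lit 2) (nat_lit 133) (nat_lit 135) (nat_lit 122)) (PT.lf (nat_lit 2432) (nat_lit 6) (nat_lit 32) (nat_lit 2) (nat_lit 134) (nat_lit 135) (nat_lit 121))))))) (PT.nd (nat_lit 39546) (PT.nd (nat_lit 39156) (PT.nd (nat_lit 156)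 (PT.nd (nat_lit 78) (PT.lf (nat_lit 2204) (nat_lit 3) (nat_lit 29) (nat_lit 0) (nat_lit 135) (nat_lit 135) (nat_lit 120)) (PT.lf (nat_lit 1976) (nat_lit 6) (nat_lit 26) (nat_lit 0) (nat_lit 136) (nat_lit 135) (nat_lit 119))) (PT.nd (nat_lit 78) (PT.lf (nat_lit 1748) (nat_lit 6) (nat_lit 23) (nat_lit 0) (nat_lit 137) (nat_lit 135) (nat_lit 118)) (PT.nd (nat_lit 38844) (PT.lf (nat_lit 1520) (nat_lit 6) (nat_lit 20) (nat_lit 0) (nat_lit 138) (nat_lit 135) (nat_lit 117)) (PT.lf (nat_lit 1216) (nat_lit 6) (nat_lit 16) (nat_lit 5) (nat_lit 115) (nat_lit 136) (nat_lit 139))))) (PT.nd (nat_lit 156) (PT.nd (nat_lit 78) (PT.lf (nat_lit 1368) (nat_lit 6) (nat_lit 18) (nat_lit 5) (nat_lit 116) (nat_lit 136) (nat_lit 138)) (PT.lf (nat_lit 1596) (nat_lit 6) (nat_lit 21) (nat_lit 5) (nat_lit 117) (nat_lit 136) (nat_lit 137))) (PT.nd (nat_lit 78) (PT.lf (nat_lit 1824) (nat_lit 3) (nat_lit 24) (nat_lit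 4) (nat_lit 118) (nat_lit 136) (nat_lit 136)) (PT.nd (nat_lit 78) (PT.lf (nat_lit 1976) (nat_lit 6) (nat_lit 26) (nat_lit 4) (nat_lit 119) (nat_lit 136) (nat_lit 135)) (PT.lf (nat_lit 2128) (nat_lit 6) (nat_lit 28) (nat_lit 4) (nat_lit 120) (nat_lit 136) (nat_lit 134)))))) (PT.nd (nat_lit 390) (PT.nd (nat_lit 156) (PT.nd (nat_lit 78) (PT.lf (nat_lit 2356) (nat_lit 6) (nat_lit 31) (nat_lit 4) (nat_lit 121) (nat_lit 136) (nat_lit 133)) (PT.lf (nat_lit 2584) (nat_lit 6) (nat_lit 34) (nat_lit 4) (nat_lit 122) (nat_lit 136) (nat_lit 132))) (PT.nd (nat_lit 78) (PT.lf (nat_lit 2812) (nat_lit 6) (nat_lit 37) (nat_lit 4) (nat_lit 123) (nat_lit 136) (nat_lit 131)) (PT.nd (nat_lit 78) (PT.lf (nat_lit 3268) (nat_lit 6) (nat_lit 43) (nat_lit 4) (nat_lit 124) (nat_lit 136) (nat_lit 130)) (PT.lf (nat_lit 3192) (nat_lit 6) (nat_lit 42) (nat_lit 4) (nat_lit 125) (nat_lit 136) (nat_lit 129))))) (PT.nd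 (nat_lit 234) (PT.nd (nat_lit 78) (PT.lf (nat_lit 3116) (nat_lit 6) (nat_lit 41) (nat_lit 4) (nat_lit 126) (nat_lit 136) (nat_lit 128)) (PT.nd (nat_lit 78) (PT.lf (nat_lit 3040) (nat_lit 3) (nat_lit 40) (nat_lit 2) (nat_lit 127) (nat_lit 136) (nat_lit 127)) (PT.lf (nat_lit 3116) (nat_lit 6) (nat_lit 41) (nat_lit 2) (nat_lit 128) (nat_lit 136) (nat_lit 126)))) (PT.nd (nat_lit 78) (PT.lf (nat_lit 3192) (nat_lit 6) (nat_lit 42) (nat_lit 2) (nat_lit 129) (nat_lit 136) (nat_lit 125)) (PT.nd (nat_lit 78) (PT.lf (nat_lit 3268) (nat_lit 6) (nat_lit 43) (nat_lit 2) (nat_lit 130) (nat_lit 136) (nat_lit 124)) (PT.lf (nat_lit 2812) (nat_lit 6) (nat_lit 37) (nat_lit 2) (nat_lit 131) (nat_lit 136) (nat_lit 123))))))))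
noncomputable def pc6 : PT := (PT.nd (nat_lit 40872) (PT.nd (nat_lit 39390) (PT.nd (nat_lit 390) (PT.nd (nat_lit 156) (PT.nd (nat_lit 78) (PT.lf (nat_lit 2584) (nat_lit 6) (nat_lit 34) (nat_lit 2) (nat_lit 132) (nat_lit 136) (nat_lit 122)) (PT.lf (nat_lit 2356) (nat_lit 6) (nat_lit 31) (nat_lit 2) (nat_lit 133) (nat_lit 136) (nat_lit 121))) (PT.nd (nat_lit 78) (PT.lf (nat_lit 2128) (nat_lit 6) (nat_lit 28) (nat_lit 2) (nat_lit 134) (nat_lit 136) (nat_lit 120)) (PT.nd (nat_lit 78) (PT.lf (nat_lit 1976) (nat_lit 6) (nat_lit 26) (nat_lit 2) (nat_lit 135) (nat_lit 136) (nat_lit 119)) (PT.lf (nat_lit 1824) (nat_lit 3) (nat_lit 24) (nat_lit 0) (nat_lit 136) (nat_lit 136) (nat_lit 118))))) (PT.nd (nat_lit 156) (PT.nd (nat_lit 78) (PT.lf (nat_lit 1596) (nat_lit 6) (nat_lit 21) (nat_lit 0) (nat_lit 137) (nat_lit 136) (nat_lit 117)) (PT.lf (nat_lit 1368) (nat_lit 6) (nat_lit 18) (nat_lit 0) (nat_lit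 138) (nat_lit 136) (nat_lit 116))) (PT.nd (nat_lit 38688) (PT.lf (nat_lit 1216) (nat_lit 6) (nat_lit 16) (nat_lit 0) (nat_lit 139) (nat_lit 136) (nat_lit 115)) (PT.nd (nat_lit 78) (PT.lf (nat_lit 1064) (nat_lit 6) (nat_lit 14) (nat_lit 5) (nat_lit 114) (nat_lit 137) (nat_lit 139)) (PT.lf (nat_lit 1292) (nat_lit 6) (nat_lit 17) (nat_lit 5) (nat_lit 115) (nat_lit 137) (nat_lit 138)))))) (PT.nd (nat_lit 390) (PT.nd (nat_lit 156) (PT.nd (nat_lit 78) (PT.lf (nat_lit 1444) (nat_lit 3) (nat_lit 19) (nat_lit 4) (nat_lit 116) (nat_lit 137) (nat_lit 137)) (PT.lf (nat_lit 1596) (nat_lit 6) (nat_lit 21) (nat_lit 4) (nat_lit 117) (nat_lit 137) (nat_lit 136))) (PT.nd (nat_lit 78) (PT.lf (nat_lit 1748) (nat_lit 6) (nat_lit 23) (nat_lit 4) (nat_lit 118) (nat_lit 137) (nat_lit 135)) (PT.nd (nat_lit 78) (PT.lf (nat_lit 1900) (nat_lit 6) (nat_lit 25) (nat_lit 4) (nat_lit 119) (nat_lit 137) (nat_lit 134))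 (PT.lf (nat_lit 2052) (nat_lit 6) (nat_lit 27) (nat_lit 4) (nat_lit 120) (nat_lit 137) (nat_lit 133))))) (PT.nd (nat_lit 858) (PT.nd (nat_lit 78) (PT.lf (nat_lit 2280) (nat_lit 6) (nat_lit 30) (nat_lit 4) (nat_lit 121) (nat_lit 137) (nat_lit 132)) (PT.nd (nat_lit 702) (PT.lf (nat_lit 2508) (nat_lit 6) (nat_lit 33) (nat_lit 4) (nat_lit 122) (nat_lit 137) (nat_lit 131)) (PT.lf (nat_lit 2508) (nat_lit 6) (nat_lit 33) (nat_lit 2) (nat_lit 131) (nat_lit 137) (nat_lit 122)))) (PT.nd (nat_lit 78) (PT.lf (nat_lit 2280) (nat_lit 6) (nat_lit 30) (nat_lit 2) (nat_lit 132) (nat_lit 137) (nat_lit 121)) (PT.nd (nat_lit 78) (PT.lf (nat_lit 2052) (nat_lit 6) (nat_lit 27) (nat_lit 2) (nat_lit 133) (nat_lit 137) (nat_lit 120)) (PT.lf (nat_lit 1900) (nat_lit 6) (nat_lit 25) (nat_lit 2) (nat_lit 134) (nat_lit 137) (nat_lit 119))))))) (PT.nd (nat_lit 39234) (PT.nd (nat_lit 38844) (PT.nd (nat_lit 156) (PT.nd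 (nat_lit 78) (PT.lf (nat_lit 1748) (nat_lit 6) (nat_lit 23) (nat_lit 2) (nat_lit 135) (nat_lit 137) (nat_lit 118)) (PT.lf (nat_lit 1596) (nat_lit 6) (nat_lit 21) (nat_lit 2) (nat_lit 136) (nat_lit 137) (nat_lit 117))) (PT.nd (nat_lit 78) (PT.lf (nat_lit 1444) (nat_lit 3) (nat_lit 19) (nat_lit 0) (nat_lit 137) (nat_lit 137) (nat_lit 116)) (PT.nd (nat_lit 78) (PT.lf (nat_lit 1292) (nat_lit 6) (nat_lit 17) (nat_lit 0) (nat_lit 138) (nat_lit 137) (nat_lit 115)) (PT.lf (nat_lit 1064) (nat_lit 6) (nat_lit 14) (nat_lit 0) (nat_lit 139) (nat_lit 137) (nat_lit 114))))) (PT.nd (nat_lit 156) (PT.nd (nat_lit 78) (PT.lf (nat_lit 836) (nat_lit 6) (nat_lit 11) (nat_lit 5) (nat_lit 112) (nat_lit 138) (nat_lit 140)) (PT.lf (nat_lit 988) (nat_lit 6) (nat_lit 13) (nat_lit 5) (nat_lit 113) (nat_lit 138) (nat_lit 139))) (PT.nd (nat_lit 78) (PT.lf (nat_lit 1140) (nat_lit 3) (nat_lit 15) (nat_lit 4) (nat_lit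 114) (nat_lit 138) (nat_lit 138)) (PT.nd (nat_lit 78) (PT.lf (nat_lit 1292) (nat_lit 6) (nat_lit 17) (nat_lit 4) (nat_lit 115) (nat_lit 138) (nat_lit 137)) (PT.lf (nat_lit 1368) (nat_lit 6) (nat_lit 18) (nat_lit 4) (nat_lit 116) (nat_lit 138) (nat_lit 136)))))) (PT.nd (nat_lit 1560) (PT.nd (nat_lit 1326) (PT.nd (nat_lit 78) (PT.lf (nat_lit 1520) (nat_lit 6) (nat_lit 20) (nat_lit 4) (nat_lit 117) (nat_lit 138) (nat_lit 135)) (PT.lf (nat_lit 1672) (nat_lit 6) (nat_lit 22) (nat_lit 4) (nat_lit 118) (nat_lit 138) (nat_lit 134))) (PT.nd (nat_lit 78) (PT.lf (nat_lit 1672) (nat_lit 6) (nat_lit 22) (nat_lit 2) (nat_lit 134) (nat_lit 138) (nat_lit 118)) (PT.nd (nat_lit 78) (PT.lf (nat_lit 1520) (nat_lit 6) (nat_lit 20) (nat_lit 2) (nat_lit 135) (nat_lit 138) (nat_lit 117)) (PT.lf (nat_lit 1368) (nat_lit 6) (nat_lit 18) (nat_lit 2) (nat_lit 136) (nat_lit 138) (nat_lit 116))))) (PT.nd (nat_lit 234)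 (PT.nd (nat_lit 78) (PT.lf (nat_lit 1292) (nat_lit 6) (nat_lit 17) (nat_lit 2) (nat_lit 137) (nat_lit 138) (nat_lit 115)) (PT.nd (nat_lit 78) (PT.lf (nat_lit 1140) (nat_lit 3) (nat_lit 15) (nat_lit 0) (nat_lit 138) (nat_lit 138) (nat_lit 114)) (PT.lf (nat_lit 988) (nat_lit 6) (nat_lit 13) (nat_lit 0) (nat_lit 139) (nat_lit 138) (nat_lit 113)))) (PT.nd (nat_lit 38298) (PT.lf (nat_lit 836) (nat_lit 6) (nat_lit 11) (nat_lit 0) (nat_lit 140) (nat_lit 138) (nat_lit 112)) (PT.nd (nat_lit 78) (PT.lf (nat_lit 608) (nat_lit 6) (nat_lit 8) (nat_lit 5) (nat_lit 110) (nat_lit 139) (nat_lit 141)) (PT.lf (nat_lit 760) (nat_lit 6) (nat_lit 10) (nat_lit 5) (nat_lit 111) (nat_lit 139) (nat_lit 140))))))))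
noncomputable def pc7 : PT := (PT.nd (nat_lit 80886) (PT.nd (nat_lit 40326) (PT.nd (nat_lit 1950) (PT.nd (nat_lit 156) (PT.nd (nat_lit 78) (PT.lf (nat_lit 912) (nat_lit 3) (nat_lit 12) (nat_lit 4) (nat_lit 112) (nat_lit 139) (nat_lit 139)) (PT.lf (nat_lit 988) (nat_lit 6) (nat_lit 13) (nat_lit 4) (nat_lit 113) (nat_lit 139) (nat_lit 138))) (PT.nd (nat_lit 78) (PT.lf (nat_lit 1064) (nat_lit 6) (nat_lit 14) (nat_lit 4) (nat_lit 114) (nat_lit 139) (nat_lit 137)) (PT.nd (nat_lit 1638) (PT.lf (nat_lit 1216) (nat_lit 6) (nat_lit 16) (nat_lit 4) (nat_lit 115) (nat_lit 139) (nat_lit 136)) (PT.lf (nat_lit 1216) (nat_lit 6) (nat_lit 16) (nat_lit 2) (nat_lit 136) (nat_lit 139) (nat_lit 115))))) (PT.nd (nat_lit 156) (PT.nd (nat_lit 78) (PT.lf (nat_lit 1064) (nat_lit 6) (nat_lit 14) (nat_lit 2) (nat_lit 137) (nat_lit 139) (nat_lit 114)) (PT.lf (nat_lit 988) (nat_lit 6) (nat_lit 13) (nat_lit 2) (nat_lit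 138) (nat_lit 139) (nat_lit 113))) (PT.nd (nat_lit 78) (PT.lf (nat_lit 912) (nat_lit 3) (nat_lit 12) (nat_lit 0) (nat_lit 139) (nat_lit 139) (nat_lit 112)) (PT.nd (nat_lit 78) (PT.lf (nat_lit 760) (nat_lit 6) (nat_lit 10) (nat_lit 0) (nat_lit 140) (nat_lit 139) (nat_lit 111)) (PT.lf (nat_lit 608) (nat_lit 6) (nat_lit 8) (nat_lit 0) (nat_lit 141) (nat_lit 139) (nat_lit 110)))))) (PT.nd (nat_lit 2340) (PT.nd (nat_lit 156) (PT.nd (nat_lit 78) (PT.lf (nat_lit 380) (nat_lit 6) (nat_lit 5) (nat_lit 5) (nat_lit 108) (nat_lit 140) (nat_lit 142)) (PT.lf (nat_lit 532) (nat_lit 6) (nat_lit 7) (nat_lit 5) (nat_lit 109) (nat_lit 140) (nat_lit 141))) (PT.nd (nat_lit 78) (PT.lf (nat_lit 684) (nat_lit 3) (nat_lit 9) (nat_lit 4) (nat_lit 110) (nat_lit 140) (nat_lit 140)) (PT.nd (nat_lit 78) (PT.lf (nat_lit 760) (nat_lit 6) (nat_lit 10) (nat_lit 4) (nat_lit 111) (nat_lit 140) (nat_lit 139)) (PT.lf (nat_lit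 836) (nat_lit 6) (nat_lit 11) (nat_lit 4) (nat_lit 112) (nat_lit 140) (nat_lit 138))))) (PT.nd (nat_lit 234) (PT.nd (nat_lit 78) (PT.lf (nat_lit 836) (nat_lit 6) (nat_lit 11) (nat_lit 2) (nat_lit 138) (nat_lit 140) (nat_lit 112)) (PT.nd (nat_lit 78) (PT.lf (nat_lit 760) (nat_lit 6) (nat_lit 10) (nat_lit 2) (nat_lit 139) (nat_lit 140) (nat_lit 111)) (PT.lf (nat_lit 684) (nat_lit 3) (nat_lit 9) (nat_lit 0) (nat_lit 140) (nat_lit 140) (nat_lit 110)))) (PT.nd (nat_lit 78) (PT.lf (nat_lit 532) (nat_lit 6) (nat_lit 7) (nat_lit 0) (nat_lit 141) (nat_lit 140) (nat_lit 109)) (PT.nd (nat_lit 37830) (PT.lf (nat_lit 380) (nat_lit 6) (nat_lit 5) (nat_lit 0) (nat_lit 142) (nat_lit 140) (nat_lit 108)) (PT.lf (nat_lit 152) (nat_lit 6) (nat_lit 2) (nat_lit 5) (nat_lit 106) (nat_lit 141) (nat_lit 143))))))) (PT.nd (nat_lit 40560) (PT.nd (nat_lit 2574) (PT.nd (nat_lit 156) (PT.nd (nat_lit 78) (PT.lf (nat_lit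 304) (nat_lit 6) (nat_lit 4) (nat_lit 5) (nat_lit 107) (nat_lit 141) (nat_lit 142)) (PT.lf (nat_lit 456) (nat_lit 3) (nat_lit 6) (nat_lit 4) (nat_lit 108) (nat_lit 141) (nat_lit 141))) (PT.nd (nat_lit 78) (PT.lf (nat_lit 532) (nat_lit 6) (nat_lit 7) (nat_lit 4) (nat_lit 109) (nat_lit 141) (nat_lit 140)) (PT.nd (nat_lit 2262) (PT.lf (nat_lit 608) (nat_lit 6) (nat_lit 8) (nat_lit 4) (nat_lit 110) (nat_lit 141) (nat_lit 139)) (PT.lf (nat_lit 608) (nat_lit 6) (nat_lit 8) (nat_lit 2) (nat_lit 139) (nat_lit 141) (nat_lit 110))))) (PT.nd (nat_lit 156) (PT.nd (nat_lit 78) (PT.lf (nat_lit 532) (nat_lit 6) (nat_lit 7) (nat_lit 2) (nat_lit 140) (nat_lit 141) (nat_lit 109)) (PT.lf (nat_lit 456) (nat_lit 3) (nat_lit 6) (nat_lit 0) (nat_lit 141) (nat_lit 141) (nat_lit 108))) (PT.nd (nat_lit 78) (PT.lf (nat_lit 304) (nat_lit 6) (nat_lit 4) (nat_lit 0) (nat_lit 142) (nat_lit 141) (nat_lit 107)) (PT.nd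 (nat_lit 37674) (PT.lf (nat_lit 152) (nat_lit 6) (nat_lit 2) (nat_lit 0) (nat_lit 143) (nat_lit 141) (nat_lit 106)) (PT.lf (nat_lit 76) (nat_lit 6) (nat_lit 1) (nat_lit 5) (nat_lit 105) (nat_lit 142) (nat_lit 143)))))) (PT.nd (nat_lit 2808) (PT.nd (nat_lit 156) (PT.nd (nat_lit 78) (PT.lf (nat_lit 228) (nat_lit 3) (nat_lit 3) (nat_lit 4) (nat_lit 106) (nat_lit 142) (nat_lit 142)) (PT.lf (nat_lit 304) (nat_lit 6) (nat_lit 4) (nat_lit 4) (nat_lit 107) (nat_lit 142) (nat_lit 141))) (PT.nd (nat_lit 2496) (PT.lf (nat_lit 380) (nat_lit 6) (nat_lit 5) (nat_lit 4) (nat_lit 108) (nat_lit 142) (nat_lit 140)) (PT.nd (nat_lit 78) (PT.lf (nat_lit 380) (nat_lit 6) (nat_lit 5) (nat_lit 2) (nat_lit 140) (nat_lit 142) (nat_lit 108)) (PT.lf (nat_lit 304) (nat_lit 6) (nat_lit 4) (nat_lit 2) (nat_lit 141) (nat_lit 142) (nat_lit 107))))) (PT.nd (nat_lit 37830) (PT.nd (nat_lit 78) (PT.lf (nat_lit 228) (nat_lit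 3) (nat_lit 3) (nat_lit 0) (nat_lit 142) (nat_lit 142) (nat_lit 106)) (PT.nd (nat_lit 37674) (PT.lf (nat_lit 76) (nat_lit 6) (nat_lit 1) (nat_lit 0) (nat_lit 143) (nat_lit 142) (nat_lit 105)) (PT.lf (nat_lit 76) (nat_lit 6) (nat_lit 1) (nat_lit 4) (nat_lit 105) (nat_lit 143) (nat_lit 142)))) (PT.nd (nat_lit 2730) (PT.lf (nat_lit 152) (nat_lit 6) (nat_lit 2) (nat_lit 4) (nat_lit 106) (nat_lit 143) (nat_lit 141)) (PT.nd (nat_lit 78) (PT.lf (nat_lit 152) (nat_lit 6) (nat_lit 2) (nat_lit 2) (nat_lit 141) (nat_lit 143) (nat_lit 106)) (PT.lf (nat_lit 76) (nat_lit 6) (nat_lit 1) (nat_lit 2) (nat_lit 142) (nat_lit 143) (nat_lit 105))))))))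
noncomputable def xc0 : XT := (XT.nd (nat_lit 162240) (nat_lit 0) (nat_lit 0) (XT.nd (nat_lit 121524) (nat_lit 0) (nat_lit 0) (XT.nd (nat_lit 81042) (nat_lit 0) (nat_lit 0) (XT.nd (nat_lit 40560) (nat_lit 0) (nat_lit 0) (XT.nd (nat_lit 40482) (nat_lit 0) (nat_lit 0) (XT.lf (nat_lit 0) (nat_lit 2608673863) (nat_lit 152) (nat_lit 534752650682) (nat_lit 0) (nat_lit 2608673863) (nat_lit 1) (nat_lit 5) (nat_lit 3) (nat_lit 4) (nat_lit 1) (nat_lit 4) (nat_lit 348) (nat_lit 216) (nat_lit 216)) (XT.lf (nat_lit 0) (nat_lit 1235654357) (nat_lit 152) (nat_lit 460520921605) (nat_lit 0) (nat_lit 1235654357) (nat_lit 1) (nat_lit 5) (nat_lit 3) (nat_lit 4) (nat_lit 1) (nat_lit 4) (nat_lit 346) (nat_lit 217) (nat_lit 217))) (XT.nd (nat_lit 78) (nat_lit 0) (nat_lit 0) (XT.lf (nat_lit 0) (nat_lit 3836749182) (nat_lit 152) (nat_lit 992390084334) (nat_lit 0) (nat_lit 3773951940) (nat_lit 1) (nat_lit 5) (nat_lit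 3) (nat_lit 4) (nat_lit 1) (nat_lit 4) (nat_lit 347) (nat_lit 217) (nat_lit 216)) (XT.nd (nat_lit 40326) (nat_lit 0) (nat_lit 152) (XT.lf (nat_lit 0) (nat_lit 5251182081) (nat_lit 152) (nat_lit 1069560038972) (nat_lit 0) (nat_lit 5130239243) (nat_lit 1) (nat_lit 5) (nat_lit 3) (nat_lit 4) (nat_lit 1) (nat_lit 4) (nat_lit 348) (nat_lit 217) (nat_lit 215)) (XT.lf (nat_lit 0) (nat_lit 396958112859) (nat_lit 76) (nat_lit 21209902) (nat_lit 76) (nat_lit 21209902) (nat_lit 3) (nat_lit 4) (nat_lit 4) (nat_lit 5) (nat_lit 4) (nat_lit 4) (nat_lit 344) (nat_lit 218) (nat_lit 218))))) (XT.nd (nat_lit 156) (nat_lit 0) (nat_lit 0) (XT.nd (nat_lit 78) (nat_lit 0) (nat_lit 0) (XT.lf (nat_lit 0) (nat_lit 1214590202) (nat_lit 152) (nat_lit 855092511207) (nat_lit 0) (nat_lit 1146769180) (nat_lit 1) (nat_lit 5) (nat_lit 3) (nat_lit 4) (nat_lit 1) (nat_lit 4) (nat_lit 345) (nat_lit 218) (nat_lit 217)) (XT.lf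 (nat_lit 0) (nat_lit 2507849819) (nat_lit 152) (nat_lit 921100959826) (nat_lit 0) (nat_lit 2377231554) (nat_lit 1) (nat_lit 5) (nat_lit 3) (nat_lit 4) (nat_lit 1) (nat_lit 4) (nat_lit 346) (nat_lit 218) (nat_lit 216))) (XT.nd (nat_lit 78) (nat_lit 0) (nat_lit 0) (XT.lf (nat_lit 0) (nat_lit 3844327398) (nat_lit 152) (nat_lit 992503938558) (nat_lit 0) (nat_lit 3655563538) (nat_lit 1) (nat_lit 5) (nat_lit 3) (nat_lit 4) (nat_lit 1) (nat_lit 4) (nat_lit 347) (nat_lit 218) (nat_lit 215)) (XT.nd (nat_lit 40170) (nat_lit 0) (nat_lit 152) (XT.lf (nat_lit 0) (nat_lit 5231942808) (nat_lit 152) (nat_lit 1069724576165) (nat_lit 0) (nat_lit 4989340433) (nat_lit 1) (nat_lit 5) (nat_lit 3) (nat_lit 4) (nat_lit 1) (nat_lit 4) (nat_lit 348) (nat_lit 218) (nat_lit 214)) (XT.lf (nat_lit 0) (nat_lit 338090908098) (nat_lit 76) (nat_lit 1166761554) (nat_lit 76) (nat_lit 1166761554) (nat_lit 3) (nat_lit 4)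 (nat_lit 4) (nat_lit 5) (nat_lit 4) (nat_lit 4) (nat_lit 342) (nat_lit 219) (nat_lit 219)))))) (XT.nd (nat_lit 390) (nat_lit 0) (nat_lit 0) (XT.nd (nat_lit 156) (nat_lit 76) (nat_lit 0) (XT.nd (nat_lit 78) (nat_lit 76) (nat_lit 0) (XT.lf (nat_lit 0) (nat_lit 732815806226) (nat_lit 76) (nat_lit 1254613627) (nat_lit 76) (nat_lit 1177704587) (nat_lit 3) (nat_lit 4) (nat_lit 4) (nat_lit 5) (nat_lit 4) (nat_lit 4) (nat_lit 343) (nat_lit 219) (nat_lit 218)) (XT.lf (nat_lit 0) (nat_lit 1038076) (nat_lit 152) (nat_lit 145993056) (nat_lit 76) (nat_lit 793855642524) (nat_lit 2) (nat_lit 5) (nat_lit 4) (nat_lit 5) (nat_lit 3) (nat_lit 4) (nat_lit 344) (nat_lit 219) (nat_lit 217))) (XT.nd (nat_lit 78) (nat_lit 0) (nat_lit 0) (XT.lf (nat_lit 0) (nat_lit 1222774675) (nat_lit 152) (nat_lit 855215473768) (nat_lit 0) (nat_lit 1018909706) (nat_lit 1) (nat_lit 5) (nat_lit 3) (nat_lit 4) (nat_lit 1) (nat_lit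 4) (nat_lit 345) (nat_lit 219) (nat_lit 216)) (XT.nd (nat_lit 78) (nat_lit 0) (nat_lit 0) (XT.lf (nat_lit 0) (nat_lit 2487071404) (nat_lit 152) (nat_lit 921278659994) (nat_lit 0) (nat_lit 2225060840) (nat_lit 1) (nat_lit 5) (nat_lit 3) (nat_lit 4) (nat_lit 1) (nat_lit 4) (nat_lit 346) (nat_lit 219) (nat_lit 215)) (XT.lf (nat_lit 0) (nat_lit 3796731495) (nat_lit 152) (nat_lit 992732321696) (nat_lit 0) (nat_lit 3480882416) (nat_lit 1) (nat_lit 5) (nat_lit 3) (nat_lit 4) (nat_lit 1) (nat_lit 4) (nat_lit 347) (nat_lit 219) (nat_lit 214))))) (XT.nd (nat_lit 40092) (nat_lit 0) (nat_lit 152) (XT.nd (nat_lit 40014) (nat_lit 0) (nat_lit 152) (XT.lf (nat_lit 0) (nat_lit 5159515896) (nat_lit 152) (nat_lit 1069999887980) (nat_lit 0) (nat_lit 4793816342) (nat_lit 1) (nat_lit 5) (nat_lit 3) (nat_lit 4) (nat_lit 1) (nat_lit 4) (nat_lit 348) (nat_lit 219) (nat_lit 213)) (XT.lf (nat_lit 0) (nat_lit 287442832846)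 (nat_lit 76) (nat_lit 2240773653) (nat_lit 76) (nat_lit 2240773653) (nat_lit 3) (nat_lit 4) (nat_lit 4) (nat_lit 5) (nat_lit 4) (nat_lit 4) (nat_lit 340) (nat_lit 220) (nat_lit 220))) (XT.nd (nat_lit 78) (nat_lit 0) (nat_lit 0) (XT.lf (nat_lit 0) (nat_lit 623619119262) (nat_lit 76) (nat_lit 3473232456) (nat_lit 76) (nat_lit 3390170693) (nat_lit 3) (nat_lit 4) (nat_lit 4) (nat_lit 5) (nat_lit 4) (nat_lit 4) (nat_lit 341) (nat_lit 220) (nat_lit 219)) (XT.nd (nat_lit 78) (nat_lit 0) (nat_lit 0) (XT.lf (nat_lit 0) (nat_lit 676117526456) (nat_lit 76) (nat_lit 2446522327) (nat_lit 76) (nat_lit 2286551526) (nat_lit 3) (nat_lit 4) (nat_lit 4) (nat_lit 5) (nat_lit 4) (nat_lit 4) (nat_lit 342) (nat_lit 220) (nat_lit 218)) (XT.lf (nat_lit 0) (nat_lit 732691988949) (nat_lit 76) (nat_lit 1395332714) (nat_lit 76) (nat_lit 1164149839) (nat_lit 3) (nat_lit 4) (nat_lit 4) (nat_lit 5) (nat_lit 4) (nat_lit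 4) (nat_lit 343) (nat_lit 220) (nat_lit 217))))))) (XT.nd (nat_lit 40560) (nat_lit 0) (nat_lit 0) (XT.nd (nat_lit 40170) (nat_lit 0) (nat_lit 152) (XT.nd (nat_lit 156) (nat_lit 0) (nat_lit 0) (XT.nd (nat_lit 78) (nat_lit 152) (nat_lit 0) (XT.lf (nat_lit 0) (nat_lit 793677762814) (nat_lit 76) (nat_lit 313434344) (nat_lit 76) (nat_lit 16314365) (nat_lit 3) (nat_lit 4) (nat_lit 4) (nat_lit 5) (nat_lit 4) (nat_lit 4) (nat_lit 344) (nat_lit 220) (nat_lit 216)) (XT.lf (nat_lit 0) (nat_lit 1171371099) (nat_lit 152) (nat_lit 855462127558) (nat_lit 0) (nat_lit 830254094) (nat_lit 1) (nat_lit 5) (nat_lit 3) (nat_lit 4) (nat_lit 1) (nat_lit 4) (nat_lit 345) (nat_lit 220) (nat_lit 215))) (XT.nd (nat_lit 78) (nat_lit 0) (nat_lit 0) (XT.lf (nat_lit 0) (nat_lit 2408850339) (nat_lit 152) (nat_lit 921575996754) (nat_lit 0) (nat_lit 2013894821) (nat_lit 1) (nat_lit 5) (nat_lit 3) (nat_lit 4) (nat_lit 1)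 (nat_lit 4) (nat_lit 346) (nat_lit 220) (nat_lit 214)) (XT.nd (nat_lit 78) (nat_lit 0) (nat_lit 0) (XT.lf (nat_lit 0) (nat_lit 3693679422) (nat_lit 152) (nat_lit 993076587131) (nat_lit 0) (nat_lit 3248873427) (nat_lit 1) (nat_lit 5) (nat_lit 3) (nat_lit 4) (nat_lit 1) (nat_lit 4) (nat_lit 347) (nat_lit 220) (nat_lit 213)) (XT.lf (nat_lit 0) (nat_lit 5033472149) (nat_lit 152) (nat_lit 1070387605892) (nat_lit 0) (nat_lit 4542508307) (nat_lit 1) (nat_lit 5) (nat_lit 3) (nat_lit 4) (nat_lit 1) (nat_lit 4) (nat_lit 348) (nat_lit 220) (nat_lit 212))))) (XT.nd (nat_lit 156) (nat_lit 0) (nat_lit 0) (XT.nd (nat_lit 78) (nat_lit 0) (nat_lit 0) (XT.lf (nat_lit 0) (nat_lit 243827021563) (nat_lit 76) (nat_lit 3260803014) (nat_lit 76) (nat_lit 3260803014) (nat_lit 3) (nat_lit 4) (nat_lit 4) (nat_lit 5) (nat_lit 4) (nat_lit 4) (nat_lit 338) (nat_lit 221) (nat_lit 221)) (XT.lf (nat_lit 0) (nat_lit 529628374915)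 (nat_lit 76) (nat_lit 5567148784) (nat_lit 76) (nat_lit 5477442081) (nat_lit 3) (nat_lit 4) (nat_lit 4) (nat_lit 5) (nat_lit 4) (nat_lit 4) (nat_lit 339) (nat_lit 221) (nat_lit 220))) (XT.nd (nat_lit 78) (nat_lit 0) (nat_lit 0) (XT.lf (nat_lit 0) (nat_lit 574816232774) (nat_lit 76) (nat_lit 4603586464) (nat_lit 76) (nat_lit 4430817999) (nat_lit 3) (nat_lit 4) (nat_lit 4) (nat_lit 5) (nat_lit 4) (nat_lit 4) (nat_lit 340) (nat_lit 221) (nat_lit 219)) (XT.nd (nat_lit 78) (nat_lit 0) (nat_lit 0) (XT.lf (nat_lit 0) (nat_lit 623485396602) (nat_lit 76) (nat_lit 3625209070) (nat_lit 76) (nat_lit 3375531565) (nat_lit 3) (nat_lit 4) (nat_lit 4) (nat_lit 5) (nat_lit 4) (nat_lit 4) (nat_lit 341) (nat_lit 221) (nat_lit 218)) (XT.lf (nat_lit 0) (nat_lit 675924276259) (nat_lit 76) (nat_lit 2626218810) (nat_lit 76) (nat_lit 2305329232) (nat_lit 3) (nat_lit 4) (nat_lit 4) (nat_lit 5) (nat_lit 4) (nat_lit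 4) (nat_lit 342) (nat_lit 221) (nat_lit 217)))))) (XT.nd (nat_lit 390) (nat_lit 0) (nat_lit 0) (XT.nd (nat_lit 156) (nat_lit 152) (nat_lit 0) (XT.nd (nat_lit 78) (nat_lit 0) (nat_lit 0) (XT.lf (nat_lit 0) (nat_lit 732443620662) (nat_lit 76) (nat_lit 1600695741) (nat_lit 76) (nat_lit 1213869058) (nat_lit 3) (nat_lit 4) (nat_lit 4) (nat_lit 5) (nat_lit 4) (nat_lit 4) (nat_lit 343) (nat_lit 221) (nat_lit 216)) (XT.lf (nat_lit 0) (nat_lit 793378359259) (nat_lit 76) (nat_lit 542562690) (nat_lit 76) (nat_lit 94683132) (nat_lit 3) (nat_lit 4) (nat_lit 4) (nat_lit 5) (nat_lit 4) (nat_lit 4) (nat_lit 344) (nat_lit 221) (nat_lit 215))) (XT.nd (nat_lit 78) (nat_lit 0) (nat_lit 0) (XT.lf (nat_lit 0) (nat_lit 1060074861) (nat_lit 152) (nat_lit 855833934228) (nat_lit 0) (nat_lit 579684387) (nat_lit 1) (nat_lit 5) (nat_lit 3) (nat_lit 4) (nat_lit 1) (nat_lit 4) (nat_lit 345) (nat_lit 221) (nat_lit 214))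 (XT.nd (nat_lit 78) (nat_lit 0) (nat_lit 0) (XT.lf (nat_lit 0) (nat_lit 2272723093) (nat_lit 152) (nat_lit 921994732100) (nat_lit 0) (nat_lit 1742482143) (nat_lit 1) (nat_lit 5) (nat_lit 3) (nat_lit 4) (nat_lit 1) (nat_lit 4) (nat_lit 346) (nat_lit 221) (nat_lit 213)) (XT.lf (nat_lit 0) (nat_lit 3534560502) (nat_lit 152) (nat_lit 993538774955) (nat_lit 0) (nat_lit 2958161703) (nat_lit 1) (nat_lit 5) (nat_lit 3) (nat_lit 4) (nat_lit 1) (nat_lit 4) (nat_lit 347) (nat_lit 221) (nat_lit 212))))) (XT.nd (nat_lit 39780) (nat_lit 0) (nat_lit 152) (XT.nd (nat_lit 39702) (nat_lit 0) (nat_lit 152) (XT.lf (nat_lit 0) (nat_lit 4853064642) (nat_lit 152) (nat_lit 1070890027491) (nat_lit 0) (nat_lit 4233927095) (nat_lit 1) (nat_lit 5) (nat_lit 3) (nat_lit 4) (nat_lit 1) (nat_lit 4) (nat_lit 348) (nat_lit 221) (nat_lit 211)) (XT.lf (nat_lit 0) (nat_lit 206224783159) (nat_lit 76) (nat_lit 4242489845)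 (nat_lit 76) (nat_lit 4242489845) (nat_lit 3) (nat_lit 4) (nat_lit 4) (nat_lit 5) (nat_lit 4) (nat_lit 4) (nat_lit 336) (nat_lit 222) (nat_lit 222))) (XT.nd (nat_lit 78) (nat_lit 0) (nat_lit 0) (XT.lf (nat_lit 0) (nat_lit 448644500629) (nat_lit 76) (nat_lit 7569497481) (nat_lit 76) (nat_lit 7472614241) (nat_lit 3) (nat_lit 4) (nat_lit 4) (nat_lit 5) (nat_lit 4) (nat_lit 4) (nat_lit 337) (nat_lit 222) (nat_lit 221)) (XT.nd (nat_lit 78) (nat_lit 0) (nat_lit 0) (XT.lf (nat_lit 0) (nat_lit 487579055574) (nat_lit 76) (nat_lit 6653408319) (nat_lit 76) (nat_lit 6466818376) (nat_lit 3) (nat_lit 4) (nat_lit 4) (nat_lit 5) (nat_lit 4) (nat_lit 4) (nat_lit 338) (nat_lit 222) (nat_lit 220)) (XT.lf (nat_lit 0) (nat_lit 529483954443) (nat_lit 76) (nat_lit 5731283528) (nat_lit 76) (nat_lit 5461631823) (nat_lit 3) (nat_lit 4) (nat_lit 4) (nat_lit 5) (nat_lit 4) (nat_lit 4) (nat_lit 339) (nat_lit 222)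 (nat_lit 219))))))))
noncomputable def xc1 : XT := (XT.nd (nat_lit 41028) (nat_lit 0) (nat_lit 0) (XT.nd (nat_lit 40248) (nat_lit 0) (nat_lit 152) (XT.nd (nat_lit 390) (nat_lit 152) (nat_lit 0) (XT.nd (nat_lit 156) (nat_lit 0) (nat_lit 0) (XT.nd (nat_lit 78) (nat_lit 0) (nat_lit 0) (XT.lf (nat_lit 0) (nat_lit 574607522562) (nat_lit 76) (nat_lit 4797658666) (nat_lit 76) (nat_lit 4451097921) (nat_lit 3) (nat_lit 4) (nat_lit 4) (nat_lit 5) (nat_lit 4) (nat_lit 4) (nat_lit 340) (nat_lit 222) (nat_lit 218)) (XT.lf (nat_lit 0) (nat_lit 623217158853) (nat_lit 76) (nat_lit 3847001140) (nat_lit 76) (nat_lit 3429228322) (nat_lit 3) (nat_lit 4) (nat_lit 4) (nat_lit 5) (nat_lit 4) (nat_lit 4) (nat_lit 341) (nat_lit 222) (nat_lit 217))) (XT.nd (nat_lit 78) (nat_lit 0) (nat_lit 0) (XT.lf (nat_lit 0) (nat_lit 675600920420) (nat_lit 76) (nat_lit 2873677424) (nat_lit 76) (nat_lit 2389967501) (nat_lit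 3) (nat_lit 4) (nat_lit 4) (nat_lit 5) (nat_lit 4) (nat_lit 4) (nat_lit 342) (nat_lit 222) (nat_lit 216)) (XT.nd (nat_lit 78) (nat_lit 0) (nat_lit 0) (XT.lf (nat_lit 0) (nat_lit 732069229554) (nat_lit 76) (nat_lit 1871919674) (nat_lit 76) (nat_lit 1327156876) (nat_lit 3) (nat_lit 4) (nat_lit 4) (nat_lit 5) (nat_lit 4) (nat_lit 4) (nat_lit 343) (nat_lit 222) (nat_lit 215)) (XT.lf (nat_lit 0) (nat_lit 792956713273) (nat_lit 76) (nat_lit 835791548) (nat_lit 76) (nat_lit 234498310) (nat_lit 3) (nat_lit 4) (nat_lit 4) (nat_lit 5) (nat_lit 4) (nat_lit 4) (nat_lit 344) (nat_lit 222) (nat_lit 214))))) (XT.nd (nat_lit 156) (nat_lit 0) (nat_lit 0) (XT.nd (nat_lit 78) (nat_lit 0) (nat_lit 0) (XT.lf (nat_lit 0) (nat_lit 888226427) (nat_lit 152) (nat_lit 856333097077) (nat_lit 0) (nat_lit 265715724) (nat_lit 1) (nat_lit 5) (nat_lit 3) (nat_lit 4) (nat_lit 1) (nat_lit 4) (nat_lit 345) (nat_lit 222)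 (nat_lit 213)) (XT.lf (nat_lit 0) (nat_lit 2077882985) (nat_lit 152) (nat_lit 922537347426) (nat_lit 0) (nat_lit 1409214434) (nat_lit 1) (nat_lit 5) (nat_lit 3) (nat_lit 4) (nat_lit 1) (nat_lit 4) (nat_lit 346) (nat_lit 222) (nat_lit 212))) (XT.nd (nat_lit 78) (nat_lit 0) (nat_lit 0) (XT.lf (nat_lit 0) (nat_lit 3318431806) (nat_lit 152) (nat_lit 994121624057) (nat_lit 0) (nat_lit 2607024508) (nat_lit 1) (nat_lit 5) (nat_lit 3) (nat_lit 4) (nat_lit 1) (nat_lit 4) (nat_lit 347) (nat_lit 222) (nat_lit 211)) (XT.nd (nat_lit 39546) (nat_lit 0) (nat_lit 152) (XT.lf (nat_lit 0) (nat_lit 4617224292) (nat_lit 152) (nat_lit 1071510130089) (nat_lit 0) (nat_lit 3866244078) (nat_lit 1) (nat_lit 5) (nat_lit 3) (nat_lit 4) (nat_lit 1) (nat_lit 4) (nat_lit 348) (nat_lit 222) (nat_lit 210)) (XT.lf (nat_lit 0) (nat_lit 173761517415) (nat_lit 76) (nat_lit 5199878222) (nat_lit 76) (nat_lit 5199878222) (nat_lit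 3) (nat_lit 4) (nat_lit 4) (nat_lit 5) (nat_lit 4) (nat_lit 4) (nat_lit 334) (nat_lit 223) (nat_lit 223)))))) (XT.nd (nat_lit 390) (nat_lit 0) (nat_lit 0) (XT.nd (nat_lit 156) (nat_lit 0) (nat_lit 0) (XT.nd (nat_lit 78) (nat_lit 0) (nat_lit 0) (XT.lf (nat_lit 0) (nat_lit 378779764143) (nat_lit 76) (nat_lit 9509913927) (nat_lit 76) (nat_lit 9405280028) (nat_lit 3) (nat_lit 4) (nat_lit 4) (nat_lit 5) (nat_lit 4) (nat_lit 4) (nat_lit 335) (nat_lit 223) (nat_lit 222)) (XT.lf (nat_lit 0) (nat_lit 412368579761) (nat_lit 76) (nat_lit 8627326164) (nat_lit 76) (nat_lit 8425809026) (nat_lit 3) (nat_lit 4) (nat_lit 4) (nat_lit 5) (nat_lit 4) (nat_lit 4) (nat_lit 336) (nat_lit 223) (nat_lit 221))) (XT.nd (nat_lit 78) (nat_lit 0) (nat_lit 0) (XT.lf (nat_lit 0) (nat_lit 448488526519) (nat_lit 76) (nat_lit 7746763004) (nat_lit 76) (nat_lit 7455539163) (nat_lit 3) (nat_lit 4) (nat_lit 4) (nat_lit 5)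 (nat_lit 4) (nat_lit 4) (nat_lit 337) (nat_lit 223) (nat_lit 220)) (XT.nd (nat_lit 78) (nat_lit 0) (nat_lit 0) (XT.lf (nat_lit 0) (nat_lit 487353648545) (nat_lit 76) (nat_lit 6863006296) (nat_lit 76) (nat_lit 6488720692) (nat_lit 3) (nat_lit 4) (nat_lit 4) (nat_lit 5) (nat_lit 4) (nat_lit 4) (nat_lit 338) (nat_lit 223) (nat_lit 219)) (XT.lf (nat_lit 0) (nat_lit 529194257673) (nat_lit 76) (nat_lit 5970818963) (nat_lit 76) (nat_lit 5519624320) (nat_lit 3) (nat_lit 4) (nat_lit 4) (nat_lit 5) (nat_lit 4) (nat_lit 4) (nat_lit 339) (nat_lit 223) (nat_lit 218))))) (XT.nd (nat_lit 156) (nat_lit 0) (nat_lit 0) (XT.nd (nat_lit 78) (nat_lit 0) (nat_lit 0) (XT.lf (nat_lit 0) (nat_lit 574258298255) (nat_lit 76) (nat_lit 5064913969) (nat_lit 76) (nat_lit 4542507252) (nat_lit 3) (nat_lit 4) (nat_lit 4) (nat_lit 5) (nat_lit 4) (nat_lit 4) (nat_lit 340) (nat_lit 223) (nat_lit 217)) (XT.lf (nat_lit 0)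 (nat_lit 622812816456) (nat_lit 76) (nat_lit 4139922987) (nat_lit 76) (nat_lit 3551579165) (nat_lit 3) (nat_lit 4) (nat_lit 4) (nat_lit 5) (nat_lit 4) (nat_lit 4) (nat_lit 341) (nat_lit 223) (nat_lit 216))) (XT.nd (nat_lit 78) (nat_lit 0) (nat_lit 0) (XT.lf (nat_lit 0) (nat_lit 675145542755) (nat_lit 76) (nat_lit 3190364590) (nat_lit 76) (nat_lit 2540967893) (nat_lit 3) (nat_lit 4) (nat_lit 4) (nat_lit 5) (nat_lit 4) (nat_lit 4) (nat_lit 342) (nat_lit 223) (nat_lit 215)) (XT.nd (nat_lit 78) (nat_lit 0) (nat_lit 0) (XT.lf (nat_lit 0) (nat_lit 731566597011) (nat_lit 76) (nat_lit 2210611765) (nat_lit 76) (nat_lit 1504684629) (nat_lit 3) (nat_lit 4) (nat_lit 4) (nat_lit 5) (nat_lit 4) (nat_lit 4) (nat_lit 343) (nat_lit 223) (nat_lit 214)) (XT.lf (nat_lit 0) (nat_lit 792410326213) (nat_lit 76) (nat_lit 1194858569) (nat_lit 76) (nat_lit 436588433) (nat_lit 3) (nat_lit 4) (nat_lit 4) (nat_lit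 5) (nat_lit 4) (nat_lit 4) (nat_lit 344) (nat_lit 223) (nat_lit 213))))))) (XT.nd (nat_lit 40092) (nat_lit 0) (nat_lit 0) (XT.nd (nat_lit 39702) (nat_lit 0) (nat_lit 152) (XT.nd (nat_lit 156) (nat_lit 0) (nat_lit 0) (XT.nd (nat_lit 78) (nat_lit 0) (nat_lit 0) (XT.lf (nat_lit 0) (nat_lit 539372601) (nat_lit 76) (nat_lit 117265680) (nat_lit 152) (nat_lit 856847139273) (nat_lit 1) (nat_lit 5) (nat_lit 2) (nat_lit 5) (nat_lit 3) (nat_lit 4) (nat_lit 345) (nat_lit 223) (nat_lit 212)) (XT.lf (nat_lit 0) (nat_lit 1823175407) (nat_lit 152) (nat_lit 923207058232) (nat_lit 0) (nat_lit 1012116776) (nat_lit 1) (nat_lit 5) (nat_lit 3) (nat_lit 4) (nat_lit 1) (nat_lit 4) (nat_lit 346) (nat_lit 223) (nat_lit 211))) (XT.nd (nat_lit 78) (nat_lit 0) (nat_lit 0) (XT.lf (nat_lit 0) (nat_lit 3044012573) (nat_lit 152) (nat_lit 994828588359) (nat_lit 0) (nat_lit 2193381028) (nat_lit 1) (nat_lit 5) (nat_lit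 3) (nat_lit 4) (nat_lit 1) (nat_lit 4) (nat_lit 347) (nat_lit 223) (nat_lit 210)) (XT.nd (nat_lit 39390) (nat_lit 0) (nat_lit 152) (XT.lf (nat_lit 0) (nat_lit 4324553527) (nat_lit 152) (nat_lit 1072251588369) (nat_lit 0) (nat_lit 3437280393) (nat_lit 1) (nat_lit 5) (nat_lit 3) (nat_lit 4) (nat_lit 1) (nat_lit 4) (nat_lit 348) (nat_lit 223) (nat_lit 209)) (XT.lf (nat_lit 0) (nat_lit 145686059868) (nat_lit 76) (nat_lit 6145694601) (nat_lit 76) (nat_lit 6145694601) (nat_lit 3) (nat_lit 4) (nat_lit 4) (nat_lit 5) (nat_lit 4) (nat_lit 4) (nat_lit 332) (nat_lit 224) (nat_lit 224))))) (XT.nd (nat_lit 156) (nat_lit 0) (nat_lit 0) (XT.nd (nat_lit 78) (nat_lit 0) (nat_lit 0) (XT.lf (nat_lit 0) (nat_lit 318413166763) (nat_lit 76) (nat_lit 11415131465) (nat_lit 76) (nat_lit 11302126854) (nat_lit 3) (nat_lit 4) (nat_lit 4) (nat_lit 5) (nat_lit 4) (nat_lit 4) (nat_lit 333) (nat_lit 224) (nat_lit 223))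 (XT.lf (nat_lit 0) (nat_lit 347435569350) (nat_lit 76) (nat_lit 10553490635) (nat_lit 76) (nat_lit 10335852125) (nat_lit 3) (nat_lit 4) (nat_lit 4) (nat_lit 5) (nat_lit 4) (nat_lit 4) (nat_lit 334) (nat_lit 224) (nat_lit 222))) (XT.nd (nat_lit 78) (nat_lit 0) (nat_lit 0) (XT.lf (nat_lit 0) (nat_lit 378611312104) (nat_lit 76) (nat_lit 9701360692) (nat_lit 76) (nat_lit 9386838943) (nat_lit 3) (nat_lit 4) (nat_lit 4) (nat_lit 5) (nat_lit 4) (nat_lit 4) (nat_lit 335) (nat_lit 224) (nat_lit 221)) (XT.nd (nat_lit 78) (nat_lit 0) (nat_lit 0) (XT.lf (nat_lit 0) (nat_lit 412125140170) (nat_lit 76) (nat_lit 8853691980) (nat_lit 76) (nat_lit 8449463527) (nat_lit 3) (nat_lit 4) (nat_lit 4) (nat_lit 5) (nat_lit 4) (nat_lit 4) (nat_lit 336) (nat_lit 224) (nat_lit 220)) (XT.lf (nat_lit 0) (nat_lit 448175654008) (nat_lit 76) (nat_lit 8005461274) (nat_lit 76) (nat_lit 7518171059) (nat_lit 3) (nat_lit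 4) (nat_lit 4) (nat_lit 5) (nat_lit 4) (nat_lit 4) (nat_lit 337) (nat_lit 224) (nat_lit 219)))))) (XT.nd (nat_lit 390) (nat_lit 152) (nat_lit 0) (XT.nd (nat_lit 156) (nat_lit 0) (nat_lit 0) (XT.nd (nat_lit 78) (nat_lit 0) (nat_lit 0) (XT.lf (nat_lit 0) (nat_lit 486976486294) (nat_lit 76) (nat_lit 7151642023) (nat_lit 76) (nat_lit 6587442769) (nat_lit 3) (nat_lit 4) (nat_lit 4) (nat_lit 5) (nat_lit 4) (nat_lit 4) (nat_lit 338) (nat_lit 224) (nat_lit 218)) (XT.lf (nat_lit 0) (nat_lit 528757567885) (nat_lit 76) (nat_lit 6287174558) (nat_lit 76) (nat_lit 5651763231) (nat_lit 3) (nat_lit 4) (nat_lit 4) (nat_lit 5) (nat_lit 4) (nat_lit 4) (nat_lit 339) (nat_lit 224) (nat_lit 217))) (XT.nd (nat_lit 78) (nat_lit 0) (nat_lit 0) (XT.lf (nat_lit 0) (nat_lit 573766490377) (nat_lit 76) (nat_lit 5406936108) (nat_lit 76) (nat_lit 4705587676) (nat_lit 3) (nat_lit 4) (nat_lit 4) (nat_lit 5) (nat_lit 4)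 (nat_lit 4) (nat_lit 340) (nat_lit 224) (nat_lit 216)) (XT.nd (nat_lit 78) (nat_lit 0) (nat_lit 0) (XT.lf (nat_lit 0) (nat_lit 622269973310) (nat_lit 76) (nat_lit 4505710445) (nat_lit 76) (nat_lit 3743309138) (nat_lit 3) (nat_lit 4) (nat_lit 4) (nat_lit 5) (nat_lit 4) (nat_lit 4) (nat_lit 341) (nat_lit 224) (nat_lit 215)) (XT.lf (nat_lit 0) (nat_lit 674555444730) (nat_lit 76) (nat_lit 3578156973) (nat_lit 76) (nat_lit 2759225226) (nat_lit 3) (nat_lit 4) (nat_lit 4) (nat_lit 5) (nat_lit 4) (nat_lit 4) (nat_lit 342) (nat_lit 224) (nat_lit 214))))) (XT.nd (nat_lit 156) (nat_lit 152) (nat_lit 0) (XT.nd (nat_lit 78) (nat_lit 0) (nat_lit 0) (XT.lf (nat_lit 0) (nat_lit 730932744470) (nat_lit 76) (nat_lit 2618779079) (nat_lit 76) (nat_lit 1747504332) (nat_lit 3) (nat_lit 4) (nat_lit 4) (nat_lit 5) (nat_lit 4) (nat_lit 4) (nat_lit 343) (nat_lit 224) (nat_lit 213)) (XT.lf (nat_lit 0) (nat_lit 791735960230)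 (nat_lit 76) (nat_lit 1621891559) (nat_lit 76) (nat_lit 702151072) (nat_lit 3) (nat_lit 4) (nat_lit 4) (nat_lit 5) (nat_lit 4) (nat_lit 4) (nat_lit 344) (nat_lit 224) (nat_lit 212))) (XT.nd (nat_lit 78) (nat_lit 76) (nat_lit 0) (XT.lf (nat_lit 0) (nat_lit 370769910) (nat_lit 152) (nat_lit 204537855) (nat_lit 76) (nat_lit 856948358284) (nat_lit 2) (nat_lit 5) (nat_lit 4) (nat_lit 5) (nat_lit 3) (nat_lit 4) (nat_lit 345) (nat_lit 224) (nat_lit 211)) (XT.nd (nat_lit 78) (nat_lit 0) (nat_lit 0) (XT.lf (nat_lit 0) (nat_lit 1507090980) (nat_lit 152) (nat_lit 924007833174) (nat_lit 0) (nat_lit 548835996) (nat_lit 1) (nat_lit 5) (nat_lit 3) (nat_lit 4) (nat_lit 1) (nat_lit 4) (nat_lit 346) (nat_lit 224) (nat_lit 210)) (XT.lf (nat_lit 0) (nat_lit 2709676615) (nat_lit 152) (nat_lit 995663857278) (nat_lit 0) (nat_lit 1714780043) (nat_lit 1) (nat_lit 5) (nat_lit 3) (nat_lit 4) (nat_lit 1) (nat_lit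 4) (nat_lit 347) (nat_lit 224) (nat_lit 209))))))))
noncomputable def xc2 : XT := (XT.nd (nat_lit 79716) (nat_lit 0) (nat_lit 0) (XT.nd (nat_lit 39936) (nat_lit 0) (nat_lit 0) (XT.nd (nat_lit 39546) (nat_lit 0) (nat_lit 152) (XT.nd (nat_lit 39312) (nat_lit 0) (nat_lit 152) (XT.nd (nat_lit 39234) (nat_lit 0) (nat_lit 152) (XT.lf (nat_lit 0) (nat_lit 3973318001) (nat_lit 152) (nat_lit 1073118796157) (nat_lit 0) (nat_lit 2944494033) (nat_lit 1) (nat_lit 5) (nat_lit 3) (nat_lit 4) (nat_lit 1) (nat_lit 4) (nat_lit 348) (nat_lit 224) (nat_lit 208)) (XT.lf (nat_lit 0) (nat_lit 121352965456) (nat_lit 76) (nat_lit 7091590672) (nat_lit 76) (nat_lit 7091590672) (nat_lit 3) (nat_lit 4) (nat_lit 4) (nat_lit 5) (nat_lit 4) (nat_lit 4) (nat_lit 330) (nat_lit 225) (nat_lit 225))) (XT.nd (nat_lit 78) (nat_lit 0) (nat_lit 0) (XT.lf (nat_lit 0) (nat_lit 266152185029) (nat_lit 76) (nat_lit 13309501467) (nat_lit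 76) (nat_lit 13187456488) (nat_lit 3) (nat_lit 4) (nat_lit 4) (nat_lit 5) (nat_lit 4) (nat_lit 4) (nat_lit 331) (nat_lit 225) (nat_lit 224)) (XT.nd (nat_lit 78) (nat_lit 0) (nat_lit 0) (XT.lf (nat_lit 0) (nat_lit 291277657017) (nat_lit 76) (nat_lit 12457422129) (nat_lit 76) (nat_lit 12222372539) (nat_lit 3) (nat_lit 4) (nat_lit 4) (nat_lit 5) (nat_lit 4) (nat_lit 4) (nat_lit 332) (nat_lit 225) (nat_lit 223)) (XT.lf (nat_lit 0) (nat_lit 318231238561) (nat_lit 76) (nat_lit 11621893971) (nat_lit 76) (nat_lit 11282210482) (nat_lit 3) (nat_lit 4) (nat_lit 4) (nat_lit 5) (nat_lit 4) (nat_lit 4) (nat_lit 333) (nat_lit 225) (nat_lit 222))))) (XT.nd (nat_lit 156) (nat_lit 0) (nat_lit 0) (XT.nd (nat_lit 78) (nat_lit 0) (nat_lit 0) (XT.lf (nat_lit 0) (nat_lit 347172654591) (nat_lit 76) (nat_lit 10797965715) (nat_lit 76) (nat_lit 10361398987) (nat_lit 3) (nat_lit 4) (nat_lit 4) (nat_lit 5) (nat_lit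 4) (nat_lit 4) (nat_lit 334) (nat_lit 225) (nat_lit 221)) (XT.lf (nat_lit 0) (nat_lit 378273409793) (nat_lit 76) (nat_lit 9980754824) (nat_lit 76) (nat_lit 9454481392) (nat_lit 3) (nat_lit 4) (nat_lit 4) (nat_lit 5) (nat_lit 4) (nat_lit 4) (nat_lit 335) (nat_lit 225) (nat_lit 220))) (XT.nd (nat_lit 78) (nat_lit 0) (nat_lit 0) (XT.lf (nat_lit 0) (nat_lit 411717804939) (nat_lit 76) (nat_lit 9165418565) (nat_lit 76) (nat_lit 8556083371) (nat_lit 3) (nat_lit 4) (nat_lit 4) (nat_lit 5) (nat_lit 4) (nat_lit 4) (nat_lit 336) (nat_lit 225) (nat_lit 219)) (XT.nd (nat_lit 78) (nat_lit 0) (nat_lit 0) (XT.lf (nat_lit 0) (nat_lit 447704029037) (nat_lit 76) (nat_lit 8347125317) (nat_lit 76) (nat_lit 7660881083) (nat_lit 3) (nat_lit 4) (nat_lit 4) (nat_lit 5) (nat_lit 4) (nat_lit 4) (nat_lit 337) (nat_lit 225) (nat_lit 218)) (XT.lf (nat_lit 0) (nat_lit 486445333785) (nat_lit 76) (nat_lit 7521025934)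 (nat_lit 76) (nat_lit 6763569627) (nat_lit 3) (nat_lit 4) (nat_lit 4) (nat_lit 5) (nat_lit 4) (nat_lit 4) (nat_lit 338) (nat_lit 225) (nat_lit 217)))))) (XT.nd (nat_lit 390) (nat_lit 152) (nat_lit 0) (XT.nd (nat_lit 156) (nat_lit 0) (nat_lit 0) (XT.nd (nat_lit 78) (nat_lit 0) (nat_lit 0) (XT.lf (nat_lit 0) (nat_lit 528171297287) (nat_lit 76) (nat_lit 6682225013) (nat_lit 76) (nat_lit 5858831601) (nat_lit 3) (nat_lit 4) (nat_lit 4) (nat_lit 5) (nat_lit 4) (nat_lit 4) (nat_lit 339) (nat_lit 225) (nat_lit 216)) (XT.lf (nat_lit 0) (nat_lit 573129184510) (nat_lit 76) (nat_lit 5825751882) (nat_lit 76) (nat_lit 4941305595) (nat_lit 3) (nat_lit 4) (nat_lit 4) (nat_lit 5) (nat_lit 4) (nat_lit 4) (nat_lit 340) (nat_lit 225) (nat_lit 215))) (XT.nd (nat_lit 78) (nat_lit 0) (nat_lit 0) (XT.lf (nat_lit 0) (nat_lit 621585412565) (nat_lit 76) (nat_lit 4946531144) (nat_lit 76) (nat_lit 4005554417) (nat_lit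 3) (nat_lit 4) (nat_lit 4) (nat_lit 5) (nat_lit 4) (nat_lit 4) (nat_lit 341) (nat_lit 225) (nat_lit 214)) (XT.nd (nat_lit 78) (nat_lit 0) (nat_lit 0) (XT.lf (nat_lit 0) (nat_lit 673827129469) (nat_lit 76) (nat_lit 4039352602) (nat_lit 76) (nat_lit 3046032876) (nat_lit 3) (nat_lit 4) (nat_lit 4) (nat_lit 5) (nat_lit 4) (nat_lit 4) (nat_lit 342) (nat_lit 225) (nat_lit 213)) (XT.lf (nat_lit 0) (nat_lit 730163915766) (nat_lit 76) (nat_lit 3098840384) (nat_lit 76) (nat_lit 2057054917) (nat_lit 3) (nat_lit 4) (nat_lit 4) (nat_lit 5) (nat_lit 4) (nat_lit 4) (nat_lit 343) (nat_lit 225) (nat_lit 212))))) (XT.nd (nat_lit 156) (nat_lit 76) (nat_lit 0) (XT.nd (nat_lit 78) (nat_lit 76) (nat_lit 0) (XT.lf (nat_lit 0) (nat_lit 790929619080) (nat_lit 76) (nat_lit 2119421084) (nat_lit 76) (nat_lit 1032759931) (nat_lit 3) (nat_lit 4) (nat_lit 4) (nat_lit 5) (nat_lit 4) (nat_lit 4) (nat_lit 344) (nat_lit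 225) (nat_lit 211)) (XT.lf (nat_lit 0) (nat_lit 31868268) (nat_lit 152) (nat_lit 1062882762) (nat_lit 76) (nat_lit 856451924494) (nat_lit 2) (nat_lit 5) (nat_lit 4) (nat_lit 5) (nat_lit 3) (nat_lit 4) (nat_lit 345) (nat_lit 225) (nat_lit 210))) (XT.nd (nat_lit 78) (nat_lit 0) (nat_lit 0) (XT.lf (nat_lit 0) (nat_lit 1127756613) (nat_lit 152) (nat_lit 924944417585) (nat_lit 0) (nat_lit 16626727) (nat_lit 1) (nat_lit 5) (nat_lit 3) (nat_lit 4) (nat_lit 1) (nat_lit 4) (nat_lit 346) (nat_lit 225) (nat_lit 209)) (XT.nd (nat_lit 78) (nat_lit 0) (nat_lit 0) (XT.lf (nat_lit 0) (nat_lit 2313442681) (nat_lit 152) (nat_lit 996632380557) (nat_lit 0) (nat_lit 1168385398) (nat_lit 1) (nat_lit 5) (nat_lit 3) (nat_lit 4) (nat_lit 1) (nat_lit 4) (nat_lit 347) (nat_lit 225) (nat_lit 208)) (XT.lf (nat_lit 0) (nat_lit 3561436320) (nat_lit 152) (nat_lit 1074116892462) (nat_lit 0) (nat_lit 2384964782) (nat_lit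 1) (nat_lit 5) (nat_lit 3) (nat_lit 4) (nat_lit 1) (nat_lit 4) (nat_lit 348) (nat_lit 225) (nat_lit 207))))))) (XT.nd (nat_lit 780) (nat_lit 152) (nat_lit 0) (XT.nd (nat_lit 390) (nat_lit 0) (nat_lit 0) (XT.nd (nat_lit 156) (nat_lit 0) (nat_lit 0) (XT.nd (nat_lit 78) (nat_lit 0) (nat_lit 0) (XT.lf (nat_lit 0) (nat_lit 100207311059) (nat_lit 76) (nat_lit 8048355942) (nat_lit 76) (nat_lit 8048355942) (nat_lit 3) (nat_lit 4) (nat_lit 4) (nat_lit 5) (nat_lit 4) (nat_lit 4) (nat_lit 328) (nat_lit 226) (nat_lit 226)) (XT.lf (nat_lit 0) (nat_lit 220799953903) (nat_lit 76) (nat_lit 15215447700) (nat_lit 76) (nat_lit 15083639122) (nat_lit 3) (nat_lit 4) (nat_lit 4) (nat_lit 5) (nat_lit 4) (nat_lit 4) (nat_lit 329) (nat_lit 226) (nat_lit 225))) (XT.nd (nat_lit 78) (nat_lit 0) (nat_lit 0) (XT.lf (nat_lit 0) (nat_lit 242603911175) (nat_lit 76) (nat_lit 14362496905) (nat_lit 76) (nat_lit 14108643347)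 (nat_lit 3) (nat_lit 4) (nat_lit 4) (nat_lit 5) (nat_lit 4) (nat_lit 4) (nat_lit 330) (nat_lit 226) (nat_lit 224)) (XT.nd (nat_lit 78) (nat_lit 0) (nat_lit 0) (XT.lf (nat_lit 0) (nat_lit 265955702571) (nat_lit 76) (nat_lit 13532804974) (nat_lit 76) (nat_lit 13165946806) (nat_lit 3) (nat_lit 4) (nat_lit 4) (nat_lit 5) (nat_lit 4) (nat_lit 4) (nat_lit 331) (nat_lit 226) (nat_lit 223)) (XT.lf (nat_lit 0) (nat_lit 290993709077) (nat_lit 76) (nat_lit 12721455217) (nat_lit 76) (nat_lit 12249963150) (nat_lit 3) (nat_lit 4) (nat_lit 4) (nat_lit 5) (nat_lit 4) (nat_lit 4) (nat_lit 332) (nat_lit 226) (nat_lit 222))))) (XT.nd (nat_lit 156) (nat_lit 0) (nat_lit 0) (XT.nd (nat_lit 78) (nat_lit 0) (nat_lit 0) (XT.lf (nat_lit 0) (nat_lit 317866304065) (nat_lit 76) (nat_lit 11923639633) (nat_lit 76) (nat_lit 11355264327) (nat_lit 3) (nat_lit 4) (nat_lit 4) (nat_lit 5) (nat_lit 4) (nat_lit 4) (nat_lit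 333) (nat_lit 226) (nat_lit 221)) (XT.lf (nat_lit 0) (nat_lit 346732732541) (nat_lit 76) (nat_lit 11134630427) (nat_lit 76) (nat_lit 10476548418) (nat_lit 3) (nat_lit 4) (nat_lit 4) (nat_lit 5) (nat_lit 4) (nat_lit 4) (nat_lit 334) (nat_lit 226) (nat_lit 220))) (XT.nd (nat_lit 78) (nat_lit 0) (nat_lit 0) (XT.lf (nat_lit 0) (nat_lit 377764054824) (nat_lit 76) (nat_lit 10349751990) (nat_lit 76) (nat_lit 9608608217) (nat_lit 3) (nat_lit 4) (nat_lit 4) (nat_lit 5) (nat_lit 4) (nat_lit 4) (nat_lit 335) (nat_lit 226) (nat_lit 219)) (XT.nd (nat_lit 78) (nat_lit 0) (nat_lit 0) (XT.lf (nat_lit 0) (nat_lit 411144160230) (nat_lit 76) (nat_lit 9564353188) (nat_lit 76) (nat_lit 8746300377) (nat_lit 3) (nat_lit 4) (nat_lit 4) (nat_lit 5) (nat_lit 4) (nat_lit 4) (nat_lit 336) (nat_lit 226) (nat_lit 218)) (XT.lf (nat_lit 0) (nat_lit 447070856791) (nat_lit 76) (nat_lit 8773779808) (nat_lit 76) (nat_lit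 7884514923) (nat_lit 3) (nat_lit 4) (nat_lit 4) (nat_lit 5) (nat_lit 4) (nat_lit 4) (nat_lit 337) (nat_lit 226) (nat_lit 217)))))) (XT.nd (nat_lit 390) (nat_lit 152) (nat_lit 0) (XT.nd (nat_lit 156) (nat_lit 0) (nat_lit 0) (XT.nd (nat_lit 78) (nat_lit 0) (nat_lit 0) (XT.lf (nat_lit 0) (nat_lit 485757043449) (nat_lit 76) (nat_lit 7973346970) (nat_lit 76) (nat_lit 7018144980) (nat_lit 3) (nat_lit 4) (nat_lit 4) (nat_lit 5) (nat_lit 4) (nat_lit 4) (nat_lit 338) (nat_lit 226) (nat_lit 216)) (XT.lf (nat_lit 0) (nat_lit 527431971682) (nat_lit 76) (nat_lit 7158311368) (nat_lit 76) (nat_lit 6142056503) (nat_lit 3) (nat_lit 4) (nat_lit 4) (nat_lit 5) (nat_lit 4) (nat_lit 4) (nat_lit 339) (nat_lit 226) (nat_lit 215))) (XT.nd (nat_lit 78) (nat_lit 0) (nat_lit 0) (XT.lf (nat_lit 0) (nat_lit 572342604028) (nat_lit 76) (nat_lit 6323843161) (nat_lit 76) (nat_lit 5251057857) (nat_lit 3) (nat_lit 4) (nat_lit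 4) (nat_lit 5) (nat_lit 4) (nat_lit 4) (nat_lit 340) (nat_lit 226) (nat_lit 214)) (XT.nd (nat_lit 78) (nat_lit 0) (nat_lit 0) (XT.lf (nat_lit 0) (nat_lit 620755077565) (nat_lit 76) (nat_lit 5464997354) (nat_lit 76) (nat_lit 4339869050) (nat_lit 3) (nat_lit 4) (nat_lit 4) (nat_lit 5) (nat_lit 4) (nat_lit 4) (nat_lit 341) (nat_lit 226) (nat_lit 213)) (XT.lf (nat_lit 0) (nat_lit 672956281027) (nat_lit 76) (nat_lit 4576684489) (nat_lit 76) (nat_lit 3403090444) (nat_lit 3) (nat_lit 4) (nat_lit 4) (nat_lit 5) (nat_lit 4) (nat_lit 4) (nat_lit 342) (nat_lit 226) (nat_lit 212))))) (XT.nd (nat_lit 156) (nat_lit 152) (nat_lit 0) (XT.nd (nat_lit 78) (nat_lit 0) (nat_lit 0) (XT.lf (nat_lit 0) (nat_lit 729255554879) (nat_lit 76) (nat_lit 3653640489) (nat_lit 76) (nat_lit 2435170759) (nat_lit 3) (nat_lit 4) (nat_lit 4) (nat_lit 5) (nat_lit 4) (nat_lit 4) (nat_lit 343) (nat_lit 226) (nat_lit 211)) (XT.lf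 (nat_lit 0) (nat_lit 789986524447) (nat_lit 76) (nat_lit 2690395466) (nat_lit 76) (nat_lit 1430374175) (nat_lit 3) (nat_lit 4) (nat_lit 4) (nat_lit 5) (nat_lit 4) (nat_lit 4) (nat_lit 344) (nat_lit 226) (nat_lit 210))) (XT.nd (nat_lit 78) (nat_lit 152) (nat_lit 0) (XT.lf (nat_lit 0) (nat_lit 855509076958) (nat_lit 76) (nat_lit 1681241299) (nat_lit 76) (nat_lit 382746341) (nat_lit 3) (nat_lit 4) (nat_lit 4) (nat_lit 5) (nat_lit 4) (nat_lit 4) (nat_lit 345) (nat_lit 226) (nat_lit 209)) (XT.nd (nat_lit 78) (nat_lit 0) (nat_lit 0) (XT.lf (nat_lit 0) (nat_lit 85307145) (nat_lit 76) (nat_lit 607095717) (nat_lit 152) (nat_lit 925424744342) (nat_lit 1) (nat_lit 5) (nat_lit 2) (nat_lit 5) (nat_lit 3) (nat_lit 4) (nat_lit 346) (nat_lit 226) (nat_lit 208)) (XT.lf (nat_lit 0) (nat_lit 1852962718) (nat_lit 152) (nat_lit 997739897593) (nat_lit 0) (nat_lit 550959201) (nat_lit 1) (nat_lit 5) (nat_lit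 3) (nat_lit 4) (nat_lit 1) (nat_lit 4) (nat_lit 347) (nat_lit 226) (nat_lit 207))))))))
noncomputable def xc3 : XT := (XT.nd (nat_lit 40404) (nat_lit 0) (nat_lit 0) (XT.nd (nat_lit 39624) (nat_lit 0) (nat_lit 152) (XT.nd (nat_lit 39234) (nat_lit 0) (nat_lit 152) (XT.nd (nat_lit 39000) (nat_lit 0) (nat_lit 152) (XT.nd (nat_lit 38922) (nat_lit 0) (nat_lit 152) (XT.lf (nat_lit 0) (nat_lit 3086467703) (nat_lit 152) (nat_lit 1075251791929) (nat_lit 0) (nat_lit 1755376912) (nat_lit 1) (nat_lit 5) (nat_lit 3) (nat_lit 4) (nat_lit 1) (nat_lit 4) (nat_lit 348) (nat_lit 226) (nat_lit 206)) (XT.lf (nat_lit 0) (nat_lit 81771656889) (nat_lit 76) (nat_lit 9026104747) (nat_lit 76) (nat_lit 9026104747) (nat_lit 3) (nat_lit 4) (nat_lit 4) (nat_lit 5) (nat_lit 4) (nat_lit 4) (nat_lit 326) (nat_lit 227) (nat_lit 227))) (XT.nd (nat_lit 78) (nat_lit 0) (nat_lit 0) (XT.lf (nat_lit 0) (nat_lit 181327113857)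 (nat_lit 76) (nat_lit 17153865028) (nat_lit 76) (nat_lit 17011511764) (nat_lit 3) (nat_lit 4) (nat_lit 4) (nat_lit 5) (nat_lit 4) (nat_lit 4) (nat_lit 327) (nat_lit 227) (nat_lit 226)) (XT.nd (nat_lit 78) (nat_lit 0) (nat_lit 0) (XT.lf (nat_lit 0) (nat_lit 200304440802) (nat_lit 76) (nat_lit 16290372690) (nat_lit 76) (nat_lit 16016210848) (nat_lit 3) (nat_lit 4) (nat_lit 4) (nat_lit 5) (nat_lit 4) (nat_lit 4) (nat_lit 328) (nat_lit 227) (nat_lit 225)) (XT.lf (nat_lit 0) (nat_lit 220587752848) (nat_lit 76) (nat_lit 15456615488) (nat_lit 76) (nat_lit 15060408666) (nat_lit 3) (nat_lit 4) (nat_lit 4) (nat_lit 5) (nat_lit 4) (nat_lit 4) (nat_lit 329) (nat_lit 227) (nat_lit 224))))) (XT.nd (nat_lit 156) (nat_lit 0) (nat_lit 0) (XT.nd (nat_lit 78) (nat_lit 0) (nat_lit 0) (XT.lf (nat_lit 0) (nat_lit 242297247400) (nat_lit 76) (nat_lit 14647652639) (nat_lit 76) (nat_lit 14138441207) (nat_lit 3)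 (nat_lit 4) (nat_lit 4) (nat_lit 5) (nat_lit 4) (nat_lit 4) (nat_lit 330) (nat_lit 227) (nat_lit 223)) (XT.lf (nat_lit 0) (nat_lit 265561573315) (nat_lit 76) (nat_lit 13858690289) (nat_lit 76) (nat_lit 13244844958) (nat_lit 3) (nat_lit 4) (nat_lit 4) (nat_lit 5) (nat_lit 4) (nat_lit 4) (nat_lit 331) (nat_lit 227) (nat_lit 222))) (XT.nd (nat_lit 78) (nat_lit 0) (nat_lit 0) (XT.lf (nat_lit 0) (nat_lit 290518593263) (nat_lit 76) (nat_lit 13085053106) (nat_lit 76) (nat_lit 12374324535) (nat_lit 3) (nat_lit 4) (nat_lit 4) (nat_lit 5) (nat_lit 4) (nat_lit 4) (nat_lit 332) (nat_lit 227) (nat_lit 221)) (XT.nd (nat_lit 78) (nat_lit 0) (nat_lit 0) (XT.lf (nat_lit 0) (nat_lit 317316200698) (nat_lit 76) (nat_lit 12322156572) (nat_lit 76) (nat_lit 11521721298) (nat_lit 3) (nat_lit 4) (nat_lit 4) (nat_lit 5) (nat_lit 4) (nat_lit 4) (nat_lit 333) (nat_lit 227) (nat_lit 220)) (XT.lf (nat_lit 0) (nat_lit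 346113196255) (nat_lit 76) (nat_lit 11565479821) (nat_lit 76) (nat_lit 10681982784) (nat_lit 3) (nat_lit 4) (nat_lit 4) (nat_lit 5) (nat_lit 4) (nat_lit 4) (nat_lit 334) (nat_lit 227) (nat_lit 219)))))) (XT.nd (nat_lit 390) (nat_lit 0) (nat_lit 0) (XT.nd (nat_lit 156) (nat_lit 0) (nat_lit 0) (XT.nd (nat_lit 78) (nat_lit 0) (nat_lit 0) (XT.lf (nat_lit 0) (nat_lit 377080228798) (nat_lit 76) (nat_lit 10810538840) (nat_lit 76) (nat_lit 9850132765) (nat_lit 3) (nat_lit 4) (nat_lit 4) (nat_lit 5) (nat_lit 4) (nat_lit 4) (nat_lit 335) (nat_lit 227) (nat_lit 218)) (XT.lf (nat_lit 0) (nat_lit 410400806667) (nat_lit 76) (nat_lit 10052859907) (nat_lit 76) (nat_lit 9021241758) (nat_lit 3) (nat_lit 4) (nat_lit 4) (nat_lit 5) (nat_lit 4) (nat_lit 4) (nat_lit 336) (nat_lit 227) (nat_lit 217))) (XT.nd (nat_lit 78) (nat_lit 0) (nat_lit 0) (XT.lf (nat_lit 0) (nat_lit 446272385138) (nat_lit 76) (nat_lit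 9287953071) (nat_lit 76) (nat_lit 8190397817) (nat_lit 3) (nat_lit 4) (nat_lit 4) (nat_lit 5) (nat_lit 4) (nat_lit 4) (nat_lit 337) (nat_lit 227) (nat_lit 216)) (XT.nd (nat_lit 78) (nat_lit 0) (nat_lit 0) (XT.lf (nat_lit 0) (nat_lit 484907536528) (nat_lit 76) (nat_lit 8511285552) (nat_lit 76) (nat_lit 7352677423) (nat_lit 3) (nat_lit 4) (nat_lit 4) (nat_lit 5) (nat_lit 4) (nat_lit 4) (nat_lit 338) (nat_lit 227) (nat_lit 215)) (XT.lf (nat_lit 0) (nat_lit 526535209883) (nat_lit 76) (nat_lit 7718254874) (nat_lit 76) (nat_lit 6503116306) (nat_lit 3) (nat_lit 4) (nat_lit 4) (nat_lit 5) (nat_lit 4) (nat_lit 4) (nat_lit 339) (nat_lit 227) (nat_lit 214))))) (XT.nd (nat_lit 156) (nat_lit 0) (nat_lit 0) (XT.nd (nat_lit 78) (nat_lit 0) (nat_lit 0) (XT.lf (nat_lit 0) (nat_lit 571402087711) (nat_lit 76) (nat_lit 6904161599) (nat_lit 76) (nat_lit 5636680030) (nat_lit 3) (nat_lit 4) (nat_lit 4) (nat_lit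 5) (nat_lit 4) (nat_lit 4) (nat_lit 340) (nat_lit 227) (nat_lit 213)) (XT.lf (nat_lit 0) (nat_lit 619774047807) (nat_lit 76) (nat_lit 6064181468) (nat_lit 76) (nat_lit 4748234159) (nat_lit 3) (nat_lit 4) (nat_lit 4) (nat_lit 5) (nat_lit 4) (nat_lit 4) (nat_lit 341) (nat_lit 227) (nat_lit 212))) (XT.nd (nat_lit 78) (nat_lit 0) (nat_lit 0) (XT.lf (nat_lit 0) (nat_lit 671937738824) (nat_lit 76) (nat_lit 5193336821) (nat_lit 76) (nat_lit 3832513827) (nat_lit 3) (nat_lit 4) (nat_lit 4) (nat_lit 5) (nat_lit 4) (nat_lit 4) (nat_lit 342) (nat_lit 227) (nat_lit 211)) (XT.nd (nat_lit 78) (nat_lit 0) (nat_lit 0) (XT.lf (nat_lit 0) (nat_lit 728202278929) (nat_lit 76) (nat_lit 4286467099) (nat_lit 76) (nat_lit 2884092543) (nat_lit 3) (nat_lit 4) (nat_lit 4) (nat_lit 5) (nat_lit 4) (nat_lit 4) (nat_lit 343) (nat_lit 227) (nat_lit 210)) (XT.lf (nat_lit 0) (nat_lit 788901087621) (nat_lit 76) (nat_lit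 3338198257) (nat_lit 76) (nat_lit 1897350035) (nat_lit 3) (nat_lit 4) (nat_lit 4) (nat_lit 5) (nat_lit 4) (nat_lit 4) (nat_lit 344) (nat_lit 227) (nat_lit 209))))))) (XT.nd (nat_lit 39468) (nat_lit 0) (nat_lit 152) (XT.nd (nat_lit 39078) (nat_lit 0) (nat_lit 152) (XT.nd (nat_lit 156) (nat_lit 76) (nat_lit 0) (XT.nd (nat_lit 78) (nat_lit 76) (nat_lit 0) (XT.lf (nat_lit 0) (nat_lit 854393861543) (nat_lit 76) (nat_lit 2342910926) (nat_lit 76) (nat_lit 866438937) (nat_lit 3) (nat_lit 4) (nat_lit 4) (nat_lit 5) (nat_lit 4) (nat_lit 4) (nat_lit 345) (nat_lit 227) (nat_lit 208)) (XT.lf (nat_lit 0) (nat_lit 207876514) (nat_lit 152) (nat_lit 1083310102) (nat_lit 76) (nat_lit 924857309019) (nat_lit 2) (nat_lit 5) (nat_lit 4) (nat_lit 5) (nat_lit 3) (nat_lit 4) (nat_lit 346) (nat_lit 227) (nat_lit 207))) (XT.nd (nat_lit 78) (nat_lit 0) (nat_lit 0) (XT.lf (nat_lit 0) (nat_lit 1181960017) (nat_lit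 76) (nat_lit 145824671) (nat_lit 152) (nat_lit 998849423509) (nat_lit 1) (nat_lit 5) (nat_lit 2) (nat_lit 5) (nat_lit 3) (nat_lit 4) (nat_lit 347) (nat_lit 227) (nat_lit 206)) (XT.nd (nat_lit 38766) (nat_lit 0) (nat_lit 152) (XT.lf (nat_lit 0) (nat_lit 2545597520) (nat_lit 152) (nat_lit 1076530219888) (nat_lit 0) (nat_lit 1051999531) (nat_lit 1) (nat_lit 5) (nat_lit 3) (nat_lit 4) (nat_lit 1) (nat_lit 4) (nat_lit 348) (nat_lit 227) (nat_lit 205)) (XT.lf (nat_lit 0) (nat_lit 65634858015) (nat_lit 76) (nat_lit 10034441695) (nat_lit 76) (nat_lit 10034441695) (nat_lit 3) (nat_lit 4) (nat_lit 4) (nat_lit 5) (nat_lit 4) (nat_lit 4) (nat_lit 324) (nat_lit 228) (nat_lit 228))))) (XT.nd (nat_lit 156) (nat_lit 0) (nat_lit 0) (XT.nd (nat_lit 78) (nat_lit 0) (nat_lit 0) (XT.lf (nat_lit 0) (nat_lit 146847655086) (nat_lit 76) (nat_lit 19144471137) (nat_lit 76) (nat_lit 18990729612) (nat_lit 3) (nat_lit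 4) (nat_lit 4) (nat_lit 5) (nat_lit 4) (nat_lit 4) (nat_lit 325) (nat_lit 228) (nat_lit 227)) (XT.lf (nat_lit 0) (nat_lit 163424317956) (nat_lit 76) (nat_lit 18261363164) (nat_lit 76) (nat_lit 17965268375) (nat_lit 3) (nat_lit 4) (nat_lit 4) (nat_lit 5) (nat_lit 4) (nat_lit 4) (nat_lit 326) (nat_lit 228) (nat_lit 226))) (XT.nd (nat_lit 78) (nat_lit 0) (nat_lit 0) (XT.lf (nat_lit 0) (nat_lit 181097936718) (nat_lit 76) (nat_lit 17414326239) (nat_lit 76) (nat_lit 16986422872) (nat_lit 3) (nat_lit 4) (nat_lit 4) (nat_lit 5) (nat_lit 4) (nat_lit 4) (nat_lit 327) (nat_lit 228) (nat_lit 225)) (XT.nd (nat_lit 78) (nat_lit 0) (nat_lit 0) (XT.lf (nat_lit 0) (nat_lit 199973243925) (nat_lit 76) (nat_lit 16598340883) (nat_lit 76) (nat_lit 16048392536) (nat_lit 3) (nat_lit 4) (nat_lit 4) (nat_lit 5) (nat_lit 4) (nat_lit 4) (nat_lit 328) (nat_lit 228) (nat_lit 224)) (XT.lf (nat_lit 0) (nat_lit 220162093251)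 (nat_lit 76) (nat_lit 15808571628) (nat_lit 76) (nat_lit 15145618670) (nat_lit 3) (nat_lit 4) (nat_lit 4) (nat_lit 5) (nat_lit 4) (nat_lit 4) (nat_lit 329) (nat_lit 228) (nat_lit 223)))))) (XT.nd (nat_lit 390) (nat_lit 0) (nat_lit 0) (XT.nd (nat_lit 156) (nat_lit 0) (nat_lit 0) (XT.nd (nat_lit 78) (nat_lit 0) (nat_lit 0) (XT.lf (nat_lit 0) (nat_lit 241784122322) (nat_lit 76) (nat_lit 15040338359) (nat_lit 76) (nat_lit 14272751503) (nat_lit 3) (nat_lit 4) (nat_lit 4) (nat_lit 5) (nat_lit 4) (nat_lit 4) (nat_lit 330) (nat_lit 228) (nat_lit 222)) (XT.lf (nat_lit 0) (nat_lit 264967461679) (nat_lit 76) (nat_lit 14289088583) (nat_lit 76) (nat_lit 13424618488) (nat_lit 3) (nat_lit 4) (nat_lit 4) (nat_lit 5) (nat_lit 4) (nat_lit 4) (nat_lit 331) (nat_lit 228) (nat_lit 221))) (XT.nd (nat_lit 78) (nat_lit 0) (nat_lit 0) (XT.lf (nat_lit 0) (nat_lit 289849494075) (nat_lit 76) (nat_lit 13550370450)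 (nat_lit 76) (nat_lit 12596193651) (nat_lit 3) (nat_lit 4) (nat_lit 4) (nat_lit 5) (nat_lit 4) (nat_lit 4) (nat_lit 332) (nat_lit 228) (nat_lit 220)) (XT.nd (nat_lit 78) (nat_lit 0) (nat_lit 0) (XT.lf (nat_lit 0) (nat_lit 316577668590) (nat_lit 76) (nat_lit 12819806371) (nat_lit 76) (nat_lit 11782567810) (nat_lit 3) (nat_lit 4) (nat_lit 4) (nat_lit 5) (nat_lit 4) (nat_lit 4) (nat_lit 333) (nat_lit 228) (nat_lit 219)) (XT.lf (nat_lit 0) (nat_lit 345310374407) (nat_lit 76) (nat_lit 12093067077) (nat_lit 76) (nat_lit 10978919476) (nat_lit 3) (nat_lit 4) (nat_lit 4) (nat_lit 5) (nat_lit 4) (nat_lit 4) (nat_lit 334) (nat_lit 228) (nat_lit 218))))) (XT.nd (nat_lit 234) (nat_lit 0) (nat_lit 0) (XT.nd (nat_lit 78) (nat_lit 0) (nat_lit 0) (XT.lf (nat_lit 0) (nat_lit 376217879413) (nat_lit 76) (nat_lit 11365845964) (nat_lit 76) (nat_lit 10180486290) (nat_lit 3) (nat_lit 4) (nat_lit 4) (nat_lit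 5) (nat_lit 4) (nat_lit 4) (nat_lit 335) (nat_lit 228) (nat_lit 217)) (XT.nd (nat_lit 78) (nat_lit 0) (nat_lit 0) (XT.lf (nat_lit 0) (nat_lit 409483339192) (nat_lit 76) (nat_lit 10633833575) (nat_lit 76) (nat_lit 9382536796) (nat_lit 3) (nat_lit 4) (nat_lit 4) (nat_lit 5) (nat_lit 4) (nat_lit 4) (nat_lit 336) (nat_lit 228) (nat_lit 216)) (XT.lf (nat_lit 0) (nat_lit 445303882394) (nat_lit 76) (nat_lit 9892692058) (nat_lit 76) (nat_lit 8580342404) (nat_lit 3) (nat_lit 4) (nat_lit 4) (nat_lit 5) (nat_lit 4) (nat_lit 4) (nat_lit 337) (nat_lit 228) (nat_lit 215)))) (XT.nd (nat_lit 78) (nat_lit 0) (nat_lit 0) (XT.lf (nat_lit 0) (nat_lit 483891778906) (nat_lit 76) (nat_lit 9138029464) (nat_lit 76) (nat_lit 7769149370) (nat_lit 3) (nat_lit 4) (nat_lit 4) (nat_lit 5) (nat_lit 4) (nat_lit 4) (nat_lit 338) (nat_lit 228) (nat_lit 214)) (XT.nd (nat_lit 78) (nat_lit 0) (nat_lit 0) (XT.lf (nat_lit 0)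 (nat_lit 525475697744) (nat_lit 76) (nat_lit 8365373717) (nat_lit 76) (nat_lit 6944150624) (nat_lit 3) (nat_lit 4) (nat_lit 4) (nat_lit 5) (nat_lit 4) (nat_lit 4) (nat_lit 339) (nat_lit 228) (nat_lit 213)) (XT.lf (nat_lit 0) (nat_lit 570302062131) (nat_lit 76) (nat_lit 7570146118) (nat_lit 76) (nat_lit 6100457284) (nat_lit 3) (nat_lit 4) (nat_lit 4) (nat_lit 5) (nat_lit 4) (nat_lit 4) (nat_lit 340) (nat_lit 228) (nat_lit 212))))))))
noncomputable def xc4 : XT := (XT.nd (nat_lit 40092) (nat_lit 0) (nat_lit 0) (XT.nd (nat_lit 39312) (nat_lit 0) (nat_lit 152) (XT.nd (nat_lit 390) (nat_lit 152) (nat_lit 0) (XT.nd (nat_lit 156) (nat_lit 0) (nat_lit 0) (XT.nd (nat_lit 78) (nat_lit 0) (nat_lit 0) (XT.lf (nat_lit 0) (nat_lit 618636509781) (nat_lit 76) (nat_lit 6747634205) (nat_lit 76) (nat_lit 5233069686) (nat_lit 3) (nat_lit 4) (nat_lit 4) (nat_lit 5) (nat_lit 4) (nat_lit 4) (nat_lit 341) (nat_lit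 228) (nat_lit 211)) (XT.lf (nat_lit 0) (nat_lit 670765467051) (nat_lit 76) (nat_lit 5892963836) (nat_lit 76) (nat_lit 4336847755) (nat_lit 3) (nat_lit 4) (nat_lit 4) (nat_lit 5) (nat_lit 4) (nat_lit 4) (nat_lit 342) (nat_lit 228) (nat_lit 210))) (XT.nd (nat_lit 78) (nat_lit 0) (nat_lit 0) (XT.lf (nat_lit 0) (nat_lit 726997846281) (nat_lit 76) (nat_lit 5001070295) (nat_lit 76) (nat_lit 3406480548) (nat_lit 3) (nat_lit 4) (nat_lit 4) (nat_lit 5) (nat_lit 4) (nat_lit 4) (nat_lit 343) (nat_lit 228) (nat_lit 209)) (XT.nd (nat_lit 78) (nat_lit 0) (nat_lit 0) (XT.lf (nat_lit 0) (nat_lit 787666876384) (nat_lit 76) (nat_lit 4066668289) (nat_lit 76) (nat_lit 2436454775) (nat_lit 3) (nat_lit 4) (nat_lit 4) (nat_lit 5) (nat_lit 4) (nat_lit 4) (nat_lit 344) (nat_lit 228) (nat_lit 208)) (XT.lf (nat_lit 0) (nat_lit 853132077539) (nat_lit 76) (nat_lit 3084220620) (nat_lit 76) (nat_lit 1421022138) (nat_lit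 3) (nat_lit 4) (nat_lit 4) (nat_lit 5) (nat_lit 4) (nat_lit 4) (nat_lit 345) (nat_lit 228) (nat_lit 207))))) (XT.nd (nat_lit 156) (nat_lit 76) (nat_lit 0) (XT.nd (nat_lit 78) (nat_lit 76) (nat_lit 0) (XT.lf (nat_lit 0) (nat_lit 923781391678) (nat_lit 76) (nat_lit 2047905376) (nat_lit 76) (nat_lit 354165256) (nat_lit 3) (nat_lit 4) (nat_lit 4) (nat_lit 5) (nat_lit 4) (nat_lit 4) (nat_lit 346) (nat_lit 228) (nat_lit 206)) (XT.lf (nat_lit 0) (nat_lit 745779156) (nat_lit 152) (nat_lit 193172143) (nat_lit 76) (nat_lit 999275072116) (nat_lit 2) (nat_lit 5) (nat_lit 4) (nat_lit 5) (nat_lit 3) (nat_lit 4) (nat_lit 347) (nat_lit 228) (nat_lit 205))) (XT.nd (nat_lit 38610) (nat_lit 0) (nat_lit 152) (XT.lf (nat_lit 0) (nat_lit 1935620616) (nat_lit 152) (nat_lit 1077959752209) (nat_lit 0) (nat_lit 270664477) (nat_lit 1) (nat_lit 5) (nat_lit 3) (nat_lit 4) (nat_lit 1) (nat_lit 4) (nat_lit 348) (nat_lit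 228) (nat_lit 204)) (XT.nd (nat_lit 78) (nat_lit 0) (nat_lit 0) (XT.lf (nat_lit 0) (nat_lit 51442461277) (nat_lit 76) (nat_lit 11082609040) (nat_lit 76) (nat_lit 11082609040) (nat_lit 3) (nat_lit 4) (nat_lit 4) (nat_lit 5) (nat_lit 4) (nat_lit 4) (nat_lit 322) (nat_lit 229) (nat_lit 229)) (XT.lf (nat_lit 0) (nat_lit 116598187075) (nat_lit 76) (nat_lit 21206118769) (nat_lit 76) (nat_lit 21040077922) (nat_lit 3) (nat_lit 4) (nat_lit 4) (nat_lit 5) (nat_lit 4) (nat_lit 4) (nat_lit 323) (nat_lit 229) (nat_lit 228)))))) (XT.nd (nat_lit 390) (nat_lit 0) (nat_lit 0) (XT.nd (nat_lit 156) (nat_lit 0) (nat_lit 0) (XT.nd (nat_lit 78) (nat_lit 0) (nat_lit 0) (XT.lf (nat_lit 0) (nat_lit 131141200542) (nat_lit 76) (nat_lit 20294769353) (nat_lit 76) (nat_lit 19974986981) (nat_lit 3) (nat_lit 4) (nat_lit 4) (nat_lit 5) (nat_lit 4) (nat_lit 4) (nat_lit 324) (nat_lit 229) (nat_lit 227)) (XT.lf (nat_lit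 0) (nat_lit 146600143776) (nat_lit 76) (nat_lit 19425769245) (nat_lit 76) (nat_lit 18963633608) (nat_lit 3) (nat_lit 4) (nat_lit 4) (nat_lit 5) (nat_lit 4) (nat_lit 4) (nat_lit 325) (nat_lit 229) (nat_lit 226))) (XT.nd (nat_lit 78) (nat_lit 0) (nat_lit 0) (XT.lf (nat_lit 0) (nat_lit 163066625330) (nat_lit 76) (nat_lit 18593968813) (nat_lit 76) (nat_lit 18000024598) (nat_lit 3) (nat_lit 4) (nat_lit 4) (nat_lit 5) (nat_lit 4) (nat_lit 4) (nat_lit 326) (nat_lit 229) (nat_lit 225)) (XT.nd (nat_lit 78) (nat_lit 0) (nat_lit 0) (XT.lf (nat_lit 0) (nat_lit 180638224353) (nat_lit 76) (nat_lit 17794438870) (nat_lit 76) (nat_lit 17078449676) (nat_lit 3) (nat_lit 4) (nat_lit 4) (nat_lit 5) (nat_lit 4) (nat_lit 4) (nat_lit 327) (nat_lit 229) (nat_lit 224)) (XT.lf (nat_lit 0) (nat_lit 199419068840) (nat_lit 76) (nat_lit 17022441461) (nat_lit 76) (nat_lit 16193447656) (nat_lit 3) (nat_lit 4) (nat_lit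 4) (nat_lit 5) (nat_lit 4) (nat_lit 4) (nat_lit 328) (nat_lit 229) (nat_lit 223))))) (XT.nd (nat_lit 156) (nat_lit 0) (nat_lit 0) (XT.nd (nat_lit 78) (nat_lit 0) (nat_lit 0) (XT.lf (nat_lit 0) (nat_lit 219520452685) (nat_lit 76) (nat_lit 16273401786) (nat_lit 76) (nat_lit 15339774082) (nat_lit 3) (nat_lit 4) (nat_lit 4) (nat_lit 5) (nat_lit 4) (nat_lit 4) (nat_lit 329) (nat_lit 229) (nat_lit 222)) (XT.lf (nat_lit 0) (nat_lit 241061495198) (nat_lit 76) (nat_lit 15542881091) (nat_lit 76) (nat_lit 14512370148) (nat_lit 3) (nat_lit 4) (nat_lit 4) (nat_lit 5) (nat_lit 4) (nat_lit 4) (nat_lit 330) (nat_lit 229) (nat_lit 221))) (XT.nd (nat_lit 78) (nat_lit 0) (nat_lit 0) (XT.lf (nat_lit 0) (nat_lit 264169847002) (nat_lit 76) (nat_lit 14826550366) (nat_lit 76) (nat_lit 13706332720) (nat_lit 3) (nat_lit 4) (nat_lit 4) (nat_lit 5) (nat_lit 4) (nat_lit 4) (nat_lit 331) (nat_lit 229) (nat_lit 220))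 (XT.nd (nat_lit 78) (nat_lit 0) (nat_lit 0) (XT.lf (nat_lit 0) (nat_lit 288982446479) (nat_lit 76) (nat_lit 14120164687) (nat_lit 76) (nat_lit 12916885278) (nat_lit 3) (nat_lit 4) (nat_lit 4) (nat_lit 5) (nat_lit 4) (nat_lit 4) (nat_lit 332) (nat_lit 229) (nat_lit 219)) (XT.lf (nat_lit 0) (nat_lit 315646331254) (nat_lit 76) (nat_lit 13419538065) (nat_lit 76) (nat_lit 12139349617) (nat_lit 3) (nat_lit 4) (nat_lit 4) (nat_lit 5) (nat_lit 4) (nat_lit 4) (nat_lit 333) (nat_lit 229) (nat_lit 218))))))) (XT.nd (nat_lit 780) (nat_lit 152) (nat_lit 0) (XT.nd (nat_lit 390) (nat_lit 0) (nat_lit 0) (XT.nd (nat_lit 156) (nat_lit 0) (nat_lit 0) (XT.nd (nat_lit 78) (nat_lit 0) (nat_lit 0) (XT.lf (nat_lit 0) (nat_lit 344319509534) (nat_lit 76) (nat_lit 12720518639) (nat_lit 76) (nat_lit 11369118117) (nat_lit 3) (nat_lit 4) (nat_lit 4) (nat_lit 5) (nat_lit 4) (nat_lit 4) (nat_lit 334) (nat_lit 229) (nat_lit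 217)) (XT.lf (nat_lit 0) (nat_lit 375171896450) (nat_lit 76) (nat_lit 12018964071) (nat_lit 76) (nat_lit 10601626444) (nat_lit 3) (nat_lit 4) (nat_lit 4) (nat_lit 5) (nat_lit 4) (nat_lit 4) (nat_lit 335) (nat_lit 229) (nat_lit 216))) (XT.nd (nat_lit 78) (nat_lit 0) (nat_lit 0) (XT.lf (nat_lit 0) (nat_lit 408386320960) (nat_lit 76) (nat_lit 11310717000) (nat_lit 76) (nat_lit 9832326499) (nat_lit 3) (nat_lit 4) (nat_lit 4) (nat_lit 5) (nat_lit 4) (nat_lit 4) (nat_lit 336) (nat_lit 229) (nat_lit 215)) (XT.nd (nat_lit 78) (nat_lit 0) (nat_lit 0) (XT.lf (nat_lit 0) (nat_lit 444159609284) (nat_lit 76) (nat_lit 10591580408) (nat_lit 76) (nat_lit 9056659468) (nat_lit 3) (nat_lit 4) (nat_lit 4) (nat_lit 5) (nat_lit 4) (nat_lit 4) (nat_lit 337) (nat_lit 229) (nat_lit 214)) (XT.lf (nat_lit 0) (nat_lit 482703751280) (nat_lit 76) (nat_lit 9857292744) (nat_lit 76) (nat_lit 8270028804) (nat_lit 3) (nat_lit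 4) (nat_lit 4) (nat_lit 5) (nat_lit 4) (nat_lit 4) (nat_lit 338) (nat_lit 229) (nat_lit 213))))) (XT.nd (nat_lit 156) (nat_lit 0) (nat_lit 0) (XT.nd (nat_lit 78) (nat_lit 0) (nat_lit 0) (XT.lf (nat_lit 0) (nat_lit 524247156676) (nat_lit 76) (nat_lit 9103502674) (nat_lit 76) (nat_lit 7467772993) (nat_lit 3) (nat_lit 4) (nat_lit 4) (nat_lit 5) (nat_lit 4) (nat_lit 4) (nat_lit 339) (nat_lit 229) (nat_lit 212)) (XT.lf (nat_lit 0) (nat_lit 569036008617) (nat_lit 76) (nat_lit 8325743294) (nat_lit 76) (nat_lit 6645137927) (nat_lit 3) (nat_lit 4) (nat_lit 4) (nat_lit 5) (nat_lit 4) (nat_lit 4) (nat_lit 340) (nat_lit 229) (nat_lit 211))) (XT.nd (nat_lit 78) (nat_lit 0) (nat_lit 0) (XT.lf (nat_lit 0) (nat_lit 617335722521) (nat_lit 76) (nat_lit 7519405658) (nat_lit 76) (nat_lit 5797248730) (nat_lit 3) (nat_lit 4) (nat_lit 4) (nat_lit 5) (nat_lit 4) (nat_lit 4) (nat_lit 341) (nat_lit 229) (nat_lit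 210)) (XT.nd (nat_lit 78) (nat_lit 0) (nat_lit 0) (XT.lf (nat_lit 0) (nat_lit 669432518915) (nat_lit 76) (nat_lit 6679711471) (nat_lit 76) (nat_lit 4919080875) (nat_lit 3) (nat_lit 4) (nat_lit 4) (nat_lit 5) (nat_lit 4) (nat_lit 4) (nat_lit 342) (nat_lit 229) (nat_lit 209)) (XT.lf (nat_lit 0) (nat_lit 725635119556) (nat_lit 76) (nat_lit 5801684765) (nat_lit 76) (nat_lit 4005430404) (nat_lit 3) (nat_lit 4) (nat_lit 4) (nat_lit 5) (nat_lit 4) (nat_lit 4) (nat_lit 343) (nat_lit 229) (nat_lit 208)))))) (XT.nd (nat_lit 38766) (nat_lit 0) (nat_lit 152) (XT.nd (nat_lit 156) (nat_lit 152) (nat_lit 0) (XT.nd (nat_lit 78) (nat_lit 0) (nat_lit 0) (XT.lf (nat_lit 0) (nat_lit 786276576891) (nat_lit 76) (nat_lit 4880122422) (nat_lit 76) (nat_lit 3050883092) (nat_lit 3) (nat_lit 4) (nat_lit 4) (nat_lit 5) (nat_lit 4) (nat_lit 4) (nat_lit 344) (nat_lit 229) (nat_lit 207)) (XT.lf (nat_lit 0) (nat_lit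 851716247706) (nat_lit 76) (nat_lit 3909563329) (nat_lit 76) (nat_lit 2049782361) (nat_lit 3) (nat_lit 4) (nat_lit 4) (nat_lit 5) (nat_lit 4) (nat_lit 4) (nat_lit 345) (nat_lit 229) (nat_lit 206))) (XT.nd (nat_lit 78) (nat_lit 152) (nat_lit 0) (XT.lf (nat_lit 0) (nat_lit 922341922641) (nat_lit 76) (nat_lit 2884256026) (nat_lit 76) (nat_lit 996195764) (nat_lit 3) (nat_lit 4) (nat_lit 4) (nat_lit 5) (nat_lit 4) (nat_lit 4) (nat_lit 346) (nat_lit 229) (nat_lit 205)) (XT.nd (nat_lit 78) (nat_lit 76) (nat_lit 0) (XT.lf (nat_lit 0) (nat_lit 112403604) (nat_lit 152) (nat_lit 1683817404) (nat_lit 76) (nat_lit 998457817001) (nat_lit 2) (nat_lit 5) (nat_lit 4) (nat_lit 5) (nat_lit 3) (nat_lit 4) (nat_lit 347) (nat_lit 229) (nat_lit 204)) (XT.lf (nat_lit 0) (nat_lit 649616812) (nat_lit 76) (nat_lit 612874183) (nat_lit 152) (nat_lit 1078945554694) (nat_lit 1) (nat_lit 5) (nat_lit 2) (nat_lit 5) (nat_lit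 3) (nat_lit 4) (nat_lit 348) (nat_lit 229) (nat_lit 203))))) (XT.nd (nat_lit 156) (nat_lit 0) (nat_lit 0) (XT.nd (nat_lit 78) (nat_lit 0) (nat_lit 0) (XT.lf (nat_lit 0) (nat_lit 38888460564) (nat_lit 76) (nat_lit 12179619006) (nat_lit 76) (nat_lit 12179619006) (nat_lit 3) (nat_lit 4) (nat_lit 4) (nat_lit 5) (nat_lit 4) (nat_lit 4) (nat_lit 320) (nat_lit 230) (nat_lit 230)) (XT.lf (nat_lit 0) (nat_lit 89920143192) (nat_lit 76) (nat_lit 23357074955) (nat_lit 76) (nat_lit 23177750840) (nat_lit 3) (nat_lit 4) (nat_lit 4) (nat_lit 5) (nat_lit 4) (nat_lit 4) (nat_lit 321) (nat_lit 230) (nat_lit 229))) (XT.nd (nat_lit 78) (nat_lit 0) (nat_lit 0) (XT.lf (nat_lit 0) (nat_lit 102746125828) (nat_lit 76) (nat_lit 22409174921) (nat_lit 76) (nat_lit 22063809959) (nat_lit 3) (nat_lit 4) (nat_lit 4) (nat_lit 5) (nat_lit 4) (nat_lit 4) (nat_lit 322) (nat_lit 230) (nat_lit 228)) (XT.nd (nat_lit 78) (nat_lit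 0) (nat_lit 0) (XT.lf (nat_lit 0) (nat_lit 116330874860) (nat_lit 76) (nat_lit 21509920725) (nat_lit 76) (nat_lit 21010814238) (nat_lit 3) (nat_lit 4) (nat_lit 4) (nat_lit 5) (nat_lit 4) (nat_lit 4) (nat_lit 323) (nat_lit 230) (nat_lit 227)) (XT.lf (nat_lit 0) (nat_lit 130754892505) (nat_lit 76) (nat_lit 20653983454) (nat_lit 76) (nat_lit 20012523702) (nat_lit 3) (nat_lit 4) (nat_lit 4) (nat_lit 5) (nat_lit 4) (nat_lit 4) (nat_lit 324) (nat_lit 230) (nat_lit 226))))))))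
noncomputable def xc5 : XT := (XT.nd (nat_lit 1560) (nat_lit 76) (nat_lit 0) (XT.nd (nat_lit 780) (nat_lit 0) (nat_lit 0) (XT.nd (nat_lit 390) (nat_lit 0) (nat_lit 0) (XT.nd (nat_lit 156) (nat_lit 0) (nat_lit 0) (XT.nd (nat_lit 78) (nat_lit 0) (nat_lit 0) (XT.lf (nat_lit 0) (nat_lit 146103654422) (nat_lit 76) (nat_lit 19836290886) (nat_lit 76) (nat_lit 19063022557) (nat_lit 3) (nat_lit 4) (nat_lit 4) (nat_lit 5) (nat_lit 4) (nat_lit 4) (nat_lit 325) (nat_lit 230) (nat_lit 225)) (XT.lf (nat_lit 0) (nat_lit 162468116238) (nat_lit 76) (nat_lit 19051997437) (nat_lit 76) (nat_lit 18156684128) (nat_lit 3) (nat_lit 4) (nat_lit 4) (nat_lit 5) (nat_lit 4) (nat_lit 4) (nat_lit 326) (nat_lit 230) (nat_lit 224))) (XT.nd (nat_lit 78) (nat_lit 0) (nat_lit 0) (XT.lf (nat_lit 0) (nat_lit 179945252541) (nat_lit 76) (nat_lit 18296455440) (nat_lit 76) (nat_lit 17288137521) (nat_lit 3) (nat_lit 4) (nat_lit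 4) (nat_lit 5) (nat_lit 4) (nat_lit 4) (nat_lit 327) (nat_lit 230) (nat_lit 223)) (XT.nd (nat_lit 78) (nat_lit 0) (nat_lit 0) (XT.lf (nat_lit 0) (nat_lit 198638631547) (nat_lit 76) (nat_lit 17565187611) (nat_lit 76) (nat_lit 16452235793) (nat_lit 3) (nat_lit 4) (nat_lit 4) (nat_lit 5) (nat_lit 4) (nat_lit 4) (nat_lit 328) (nat_lit 230) (nat_lit 222)) (XT.lf (nat_lit 0) (nat_lit 218659028834) (nat_lit 76) (nat_lit 16853860511) (nat_lit 76) (nat_lit 15644025453) (nat_lit 3) (nat_lit 4) (nat_lit 4) (nat_lit 5) (nat_lit 4) (nat_lit 4) (nat_lit 329) (nat_lit 230) (nat_lit 221))))) (XT.nd (nat_lit 156) (nat_lit 0) (nat_lit 0) (XT.nd (nat_lit 78) (nat_lit 0) (nat_lit 0) (XT.lf (nat_lit 0) (nat_lit 240125083795) (nat_lit 76) (nat_lit 16158258867) (nat_lit 76) (nat_lit 14858717105) (nat_lit 3) (nat_lit 4) (nat_lit 4) (nat_lit 5) (nat_lit 4) (nat_lit 4) (nat_lit 330) (nat_lit 230) (nat_lit 220))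 (XT.lf (nat_lit 0) (nat_lit 263164002680) (nat_lit 76) (nat_lit 15474260595) (nat_lit 76) (nat_lit 14091657072) (nat_lit 3) (nat_lit 4) (nat_lit 4) (nat_lit 5) (nat_lit 4) (nat_lit 4) (nat_lit 331) (nat_lit 230) (nat_lit 219))) (XT.nd (nat_lit 78) (nat_lit 0) (nat_lit 0) (XT.lf (nat_lit 0) (nat_lit 287912312416) (nat_lit 76) (nat_lit 14797812374) (nat_lit 76) (nat_lit 13338299811) (nat_lit 3) (nat_lit 4) (nat_lit 4) (nat_lit 5) (nat_lit 4) (nat_lit 4) (nat_lit 332) (nat_lit 230) (nat_lit 218)) (XT.nd (nat_lit 78) (nat_lit 0) (nat_lit 0) (XT.lf (nat_lit 0) (nat_lit 314516669654) (nat_lit 76) (nat_lit 14124905620) (nat_lit 76) (nat_lit 12594180984) (nat_lit 3) (nat_lit 4) (nat_lit 4) (nat_lit 5) (nat_lit 4) (nat_lit 4) (nat_lit 333) (nat_lit 230) (nat_lit 217)) (XT.lf (nat_lit 0) (nat_lit 343134729844) (nat_lit 76) (nat_lit 13451552738) (nat_lit 76) (nat_lit 11854890997) (nat_lit 3) (nat_lit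 4) (nat_lit 4) (nat_lit 5) (nat_lit 4) (nat_lit 4) (nat_lit 334) (nat_lit 230) (nat_lit 216)))))) (XT.nd (nat_lit 390) (nat_lit 0) (nat_lit 0) (XT.nd (nat_lit 156) (nat_lit 0) (nat_lit 0) (XT.nd (nat_lit 78) (nat_lit 0) (nat_lit 0) (XT.lf (nat_lit 0) (nat_lit 373936081491) (nat_lit 76) (nat_lit 12773763489) (nat_lit 76) (nat_lit 11116048873) (nat_lit 3) (nat_lit 4) (nat_lit 4) (nat_lit 5) (nat_lit 4) (nat_lit 4) (nat_lit 335) (nat_lit 230) (nat_lit 215)) (XT.lf (nat_lit 0) (nat_lit 407103251123) (nat_lit 76) (nat_lit 12087521344) (nat_lit 76) (nat_lit 10373276288) (nat_lit 3) (nat_lit 4) (nat_lit 4) (nat_lit 5) (nat_lit 4) (nat_lit 4) (nat_lit 336) (nat_lit 230) (nat_lit 214))) (XT.nd (nat_lit 78) (nat_lit 0) (nat_lit 0) (XT.lf (nat_lit 0) (nat_lit 442832784931) (nat_lit 76) (nat_lit 11388759682) (nat_lit 76) (nat_lit 9622171626) (nat_lit 3) (nat_lit 4) (nat_lit 4) (nat_lit 5) (nat_lit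 4) (nat_lit 4) (nat_lit 337) (nat_lit 230) (nat_lit 213)) (XT.nd (nat_lit 78) (nat_lit 0) (nat_lit 0) (XT.lf (nat_lit 0) (nat_lit 481336413485) (nat_lit 76) (nat_lit 10673337694) (nat_lit 76) (nat_lit 8858283898) (nat_lit 3) (nat_lit 4) (nat_lit 4) (nat_lit 5) (nat_lit 4) (nat_lit 4) (nat_lit 338) (nat_lit 230) (nat_lit 212)) (XT.lf (nat_lit 0) (nat_lit 522842306435) (nat_lit 76) (nat_lit 9937015843) (nat_lit 76) (nat_lit 8077086361) (nat_lit 3) (nat_lit 4) (nat_lit 4) (nat_lit 5) (nat_lit 4) (nat_lit 4) (nat_lit 339) (nat_lit 230) (nat_lit 211))))) (XT.nd (nat_lit 156) (nat_lit 0) (nat_lit 0) (XT.nd (nat_lit 78) (nat_lit 0) (nat_lit 0) (XT.lf (nat_lit 0) (nat_lit 567596424630) (nat_lit 76) (nat_lit 9175430739) (nat_lit 76) (nat_lit 7273949696) (nat_lit 3) (nat_lit 4) (nat_lit 4) (nat_lit 5) (nat_lit 4) (nat_lit 4) (nat_lit 340) (nat_lit 230) (nat_lit 210)) (XT.lf (nat_lit 0) (nat_lit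 615863977658) (nat_lit 76) (nat_lit 8384069286) (nat_lit 76) (nat_lit 6444114576) (nat_lit 3) (nat_lit 4) (nat_lit 4) (nat_lit 5) (nat_lit 4) (nat_lit 4) (nat_lit 341) (nat_lit 230) (nat_lit 209))) (XT.nd (nat_lit 78) (nat_lit 0) (nat_lit 0) (XT.lf (nat_lit 0) (nat_lit 667930995463) (nat_lit 76) (nat_lit 7558241934) (nat_lit 76) (nat_lit 5582663457) (nat_lit 3) (nat_lit 4) (nat_lit 4) (nat_lit 5) (nat_lit 4) (nat_lit 4) (nat_lit 342) (nat_lit 230) (nat_lit 208)) (XT.nd (nat_lit 78) (nat_lit 0) (nat_lit 0) (XT.lf (nat_lit 0) (nat_lit 724106023336) (nat_lit 76) (nat_lit 6693054891) (nat_lit 76) (nat_lit 4684491446) (nat_lit 3) (nat_lit 4) (nat_lit 4) (nat_lit 5) (nat_lit 4) (nat_lit 4) (nat_lit 343) (nat_lit 230) (nat_lit 207)) (XT.lf (nat_lit 0) (nat_lit 784721950331) (nat_lit 76) (nat_lit 5783381123) (nat_lit 76) (nat_lit 3744276041) (nat_lit 3) (nat_lit 4) (nat_lit 4) (nat_lit 5) (nat_lit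 4) (nat_lit 4) (nat_lit 344) (nat_lit 230) (nat_lit 206))))))) (XT.nd (nat_lit 39000) (nat_lit 0) (nat_lit 76) (XT.nd (nat_lit 38610) (nat_lit 0) (nat_lit 76) (XT.nd (nat_lit 156) (nat_lit 76) (nat_lit 0) (XT.nd (nat_lit 78) (nat_lit 0) (nat_lit 0) (XT.lf (nat_lit 0) (nat_lit 850137981942) (nat_lit 76) (nat_lit 4823829971) (nat_lit 76) (nat_lit 2756445595) (nat_lit 3) (nat_lit 4) (nat_lit 4) (nat_lit 5) (nat_lit 4) (nat_lit 4) (nat_lit 345) (nat_lit 230) (nat_lit 205)) (XT.lf (nat_lit 0) (nat_lit 920741768725) (nat_lit 76) (nat_lit 3808715206) (nat_lit 76) (nat_lit 1715146298) (nat_lit 3) (nat_lit 4) (nat_lit 4) (nat_lit 5) (nat_lit 4) (nat_lit 4) (nat_lit 346) (nat_lit 230) (nat_lit 204))) (XT.nd (nat_lit 78) (nat_lit 76) (nat_lit 0) (XT.lf (nat_lit 0) (nat_lit 996951703491) (nat_lit 76) (nat_lit 2732021333) (nat_lit 76) (nat_lit 614207488) (nat_lit 3) (nat_lit 4) (nat_lit 4) (nat_lit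 5) (nat_lit 4) (nat_lit 4) (nat_lit 347) (nat_lit 230) (nat_lit 203)) (XT.nd (nat_lit 38298) (nat_lit 0) (nat_lit 76) (XT.lf (nat_lit 0) (nat_lit 535198825) (nat_lit 152) (nat_lit 1043105267) (nat_lit 76) (nat_lit 1078675137993) (nat_lit 2) (nat_lit 5) (nat_lit 4) (nat_lit 5) (nat_lit 3) (nat_lit 4) (nat_lit 348) (nat_lit 230) (nat_lit 202)) (XT.lf (nat_lit 0) (nat_lit 27708215722) (nat_lit 76) (nat_lit 13334373680) (nat_lit 76) (nat_lit 13334373680) (nat_lit 3) (nat_lit 4) (nat_lit 4) (nat_lit 5) (nat_lit 4) (nat_lit 4) (nat_lit 318) (nat_lit 231) (nat_lit 231))))) (XT.nd (nat_lit 156) (nat_lit 0) (nat_lit 0) (XT.nd (nat_lit 78) (nat_lit 0) (nat_lit 0) (XT.lf (nat_lit 0) (nat_lit 66244499804) (nat_lit 76) (nat_lit 25615272882) (nat_lit 76) (nat_lit 25421602838) (nat_lit 3) (nat_lit 4) (nat_lit 4) (nat_lit 5) (nat_lit 4) (nat_lit 4) (nat_lit 319) (nat_lit 231) (nat_lit 230)) (XT.lf (nat_lit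 0) (nat_lit 77627020663) (nat_lit 76) (nat_lit 24622711400) (nat_lit 76) (nat_lit 24249717241) (nat_lit 3) (nat_lit 4) (nat_lit 4) (nat_lit 5) (nat_lit 4) (nat_lit 4) (nat_lit 320) (nat_lit 231) (nat_lit 229))) (XT.nd (nat_lit 78) (nat_lit 0) (nat_lit 0) (XT.lf (nat_lit 0) (nat_lit 89631446000) (nat_lit 76) (nat_lit 23685181067) (nat_lit 76) (nat_lit 23146146061) (nat_lit 3) (nat_lit 4) (nat_lit 4) (nat_lit 5) (nat_lit 4) (nat_lit 4) (nat_lit 321) (nat_lit 231) (nat_lit 228)) (XT.nd (nat_lit 78) (nat_lit 0) (nat_lit 0) (XT.lf (nat_lit 0) (nat_lit 102328913148) (nat_lit 76) (nat_lit 22797126149) (nat_lit 76) (nat_lit 22104349617) (nat_lit 3) (nat_lit 4) (nat_lit 4) (nat_lit 5) (nat_lit 4) (nat_lit 4) (nat_lit 322) (nat_lit 231) (nat_lit 227)) (XT.lf (nat_lit 0) (nat_lit 115794666358) (nat_lit 76) (nat_lit 21953284098) (nat_lit 76) (nat_lit 21118154302) (nat_lit 3) (nat_lit 4) (nat_lit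 4) (nat_lit 5) (nat_lit 4) (nat_lit 4) (nat_lit 323) (nat_lit 231) (nat_lit 226)))))) (XT.nd (nat_lit 390) (nat_lit 0) (nat_lit 0) (XT.nd (nat_lit 156) (nat_lit 0) (nat_lit 0) (XT.nd (nat_lit 78) (nat_lit 0) (nat_lit 0) (XT.lf (nat_lit 0) (nat_lit 130108502686) (nat_lit 76) (nat_lit 21148654368) (nat_lit 76) (nat_lit 20181715994) (nat_lit 3) (nat_lit 4) (nat_lit 4) (nat_lit 5) (nat_lit 4) (nat_lit 4) (nat_lit 324) (nat_lit 231) (nat_lit 225)) (XT.lf (nat_lit 0) (nat_lit 145355244865) (nat_lit 76) (nat_lit 20378468782) (nat_lit 76) (nat_lit 19289485429) (nat_lit 3) (nat_lit 4) (nat_lit 4) (nat_lit 5) (nat_lit 4) (nat_lit 4) (nat_lit 325) (nat_lit 231) (nat_lit 224))) (XT.nd (nat_lit 78) (nat_lit 0) (nat_lit 0) (XT.lf (nat_lit 0) (nat_lit 161625243961) (nat_lit 76) (nat_lit 19638163280) (nat_lit 76) (nat_lit 18436175316) (nat_lit 3) (nat_lit 4) (nat_lit 4) (nat_lit 5) (nat_lit 4) (nat_lit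 4) (nat_lit 326) (nat_lit 231) (nat_lit 223)) (XT.nd (nat_lit 78) (nat_lit 0) (nat_lit 0) (XT.lf (nat_lit 0) (nat_lit 179014914782) (nat_lit 76) (nat_lit 18923350864) (nat_lit 76) (nat_lit 17616729001) (nat_lit 3) (nat_lit 4) (nat_lit 4) (nat_lit 5) (nat_lit 4) (nat_lit 4) (nat_lit 327) (nat_lit 231) (nat_lit 222)) (XT.lf (nat_lit 0) (nat_lit 197627307231) (nat_lit 76) (nat_lit 18229795609) (nat_lit 76) (nat_lit 16826290507) (nat_lit 3) (nat_lit 4) (nat_lit 4) (nat_lit 5) (nat_lit 4) (nat_lit 4) (nat_lit 328) (nat_lit 231) (nat_lit 221))))) (XT.nd (nat_lit 156) (nat_lit 0) (nat_lit 0) (XT.nd (nat_lit 78) (nat_lit 0) (nat_lit 0) (XT.lf (nat_lit 0) (nat_lit 217572716965) (nat_lit 76) (nat_lit 17553387559) (nat_lit 76) (nat_lit 16060175753) (nat_lit 3) (nat_lit 4) (nat_lit 4) (nat_lit 5) (nat_lit 4) (nat_lit 4) (nat_lit 329) (nat_lit 231) (nat_lit 220)) (XT.lf (nat_lit 0) (nat_lit 238969339007)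 (nat_lit 76) (nat_lit 16890118369) (nat_lit 76) (nat_lit 15313844801) (nat_lit 3) (nat_lit 4) (nat_lit 4) (nat_lit 5) (nat_lit 4) (nat_lit 4) (nat_lit 330) (nat_lit 231) (nat_lit 219))) (XT.nd (nat_lit 78) (nat_lit 0) (nat_lit 0) (XT.lf (nat_lit 0) (nat_lit 261943968152) (nat_lit 76) (nat_lit 16236057555) (nat_lit 76) (nat_lit 14582874948) (nat_lit 3) (nat_lit 4) (nat_lit 4) (nat_lit 5) (nat_lit 4) (nat_lit 4) (nat_lit 331) (nat_lit 231) (nat_lit 218)) (XT.nd (nat_lit 78) (nat_lit 0) (nat_lit 0) (XT.lf (nat_lit 0) (nat_lit 286632750351) (nat_lit 76) (nat_lit 15587329201) (nat_lit 76) (nat_lit 13862934521) (nat_lit 3) (nat_lit 4) (nat_lit 4) (nat_lit 5) (nat_lit 4) (nat_lit 4) (nat_lit 332) (nat_lit 231) (nat_lit 217)) (XT.lf (nat_lit 0) (nat_lit 313181989499) (nat_lit 76) (nat_lit 14940088991) (nat_lit 76) (nat_lit 13149757206) (nat_lit 3) (nat_lit 4) (nat_lit 4) (nat_lit 5) (nat_lit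 4) (nat_lit 4) (nat_lit 333) (nat_lit 231) (nat_lit 216))))))))
noncomputable def xc6 : XT := (XT.nd (nat_lit 39624) (nat_lit 0) (nat_lit 0) (XT.nd (nat_lit 780) (nat_lit 0) (nat_lit 0) (XT.nd (nat_lit 390) (nat_lit 0) (nat_lit 0) (XT.nd (nat_lit 156) (nat_lit 0) (nat_lit 0) (XT.nd (nat_lit 78) (nat_lit 0) (nat_lit 0) (XT.lf (nat_lit 0) (nat_lit 341749014421) (nat_lit 76) (nat_lit 14290501428) (nat_lit 76) (nat_lit 12439116768) (nat_lit 3) (nat_lit 4) (nat_lit 4) (nat_lit 5) (nat_lit 4) (nat_lit 4) (nat_lit 334) (nat_lit 231) (nat_lit 215)) (XT.lf (nat_lit 0) (nat_lit 372503111190) (nat_lit 76) (nat_lit 13634717104) (nat_lit 76) (nat_lit 11726802004) (nat_lit 3) (nat_lit 4) (nat_lit 4) (nat_lit 5) (nat_lit 4) (nat_lit 4) (nat_lit 335) (nat_lit 231) (nat_lit 214))) (XT.nd (nat_lit 78) (nat_lit 0) (nat_lit 0) (XT.lf (nat_lit 0) (nat_lit 405626526305) (nat_lit 76) (nat_lit 12968849889) (nat_lit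 76) (nat_lit 11008591790) (nat_lit 3) (nat_lit 4) (nat_lit 4) (nat_lit 5) (nat_lit 4) (nat_lit 4) (nat_lit 336) (nat_lit 231) (nat_lit 213)) (XT.nd (nat_lit 78) (nat_lit 0) (nat_lit 0) (XT.lf (nat_lit 0) (nat_lit 441315546671) (nat_lit 76) (nat_lit 12288953904) (nat_lit 76) (nat_lit 10280230064) (nat_lit 3) (nat_lit 4) (nat_lit 4) (nat_lit 5) (nat_lit 4) (nat_lit 4) (nat_lit 337) (nat_lit 231) (nat_lit 212)) (XT.lf (nat_lit 0) (nat_lit 479781662779) (nat_lit 76) (nat_lit 11591000136) (nat_lit 76) (nat_lit 9537400609) (nat_lit 3) (nat_lit 4) (nat_lit 4) (nat_lit 5) (nat_lit 4) (nat_lit 4) (nat_lit 338) (nat_lit 231) (nat_lit 211))))) (XT.nd (nat_lit 156) (nat_lit 0) (nat_lit 0) (XT.nd (nat_lit 78) (nat_lit 0) (nat_lit 0) (XT.lf (nat_lit 0) (nat_lit 521252821983) (nat_lit 76) (nat_lit 10870852561) (nat_lit 76) (nat_lit 8775701474) (nat_lit 3) (nat_lit 4) (nat_lit 4) (nat_lit 5) (nat_lit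 4) (nat_lit 4) (nat_lit 339) (nat_lit 231) (nat_lit 210)) (XT.lf (nat_lit 0) (nat_lit 565974779302) (nat_lit 76) (nat_lit 10124243639) (nat_lit 76) (nat_lit 7990618885) (nat_lit 3) (nat_lit 4) (nat_lit 4) (nat_lit 5) (nat_lit 4) (nat_lit 4) (nat_lit 340) (nat_lit 231) (nat_lit 209))) (XT.nd (nat_lit 78) (nat_lit 0) (nat_lit 0) (XT.lf (nat_lit 0) (nat_lit 614212553741) (nat_lit 76) (nat_lit 9346749021) (nat_lit 76) (nat_lit 7177500501) (nat_lit 3) (nat_lit 4) (nat_lit 4) (nat_lit 5) (nat_lit 4) (nat_lit 4) (nat_lit 341) (nat_lit 231) (nat_lit 208)) (XT.nd (nat_lit 78) (nat_lit 0) (nat_lit 0) (XT.lf (nat_lit 0) (nat_lit 666251998778) (nat_lit 76) (nat_lit 8533761331) (nat_lit 76) (nat_lit 6331527842) (nat_lit 3) (nat_lit 4) (nat_lit 4) (nat_lit 5) (nat_lit 4) (nat_lit 4) (nat_lit 342) (nat_lit 231) (nat_lit 207)) (XT.lf (nat_lit 0) (nat_lit 722401496311) (nat_lit 76) (nat_lit 7680462865)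 (nat_lit 76) (nat_lit 5447687738) (nat_lit 3) (nat_lit 4) (nat_lit 4) (nat_lit 5) (nat_lit 4) (nat_lit 4) (nat_lit 343) (nat_lit 231) (nat_lit 206)))))) (XT.nd (nat_lit 38454) (nat_lit 0) (nat_lit 0) (XT.nd (nat_lit 156) (nat_lit 0) (nat_lit 0) (XT.nd (nat_lit 78) (nat_lit 0) (nat_lit 0) (XT.lf (nat_lit 0) (nat_lit 782993784102) (nat_lit 76) (nat_lit 6781797038) (nat_lit 76) (nat_lit 4520742617) (nat_lit 3) (nat_lit 4) (nat_lit 4) (nat_lit 5) (nat_lit 4) (nat_lit 4) (nat_lit 344) (nat_lit 231) (nat_lit 205)) (XT.lf (nat_lit 0) (nat_lit 848387927560) (nat_lit 76) (nat_lit 5832438424) (nat_lit 76) (nat_lit 3545199472) (nat_lit 3) (nat_lit 4) (nat_lit 4) (nat_lit 5) (nat_lit 4) (nat_lit 4) (nat_lit 345) (nat_lit 231) (nat_lit 204))) (XT.nd (nat_lit 78) (nat_lit 0) (nat_lit 0) (XT.lf (nat_lit 0) (nat_lit 918971447536) (nat_lit 76) (nat_lit 4826761194) (nat_lit 76) (nat_lit 2515277305) (nat_lit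 3) (nat_lit 4) (nat_lit 4) (nat_lit 5) (nat_lit 4) (nat_lit 4) (nat_lit 346) (nat_lit 231) (nat_lit 203)) (XT.nd (nat_lit 78) (nat_lit 0) (nat_lit 0) (XT.lf (nat_lit 0) (nat_lit 995162616741) (nat_lit 76) (nat_lit 3758805779) (nat_lit 76) (nat_lit 1424872875) (nat_lit 3) (nat_lit 4) (nat_lit 4) (nat_lit 5) (nat_lit 4) (nat_lit 4) (nat_lit 347) (nat_lit 231) (nat_lit 202)) (XT.lf (nat_lit 0) (nat_lit 1077412938399) (nat_lit 76) (nat_lit 2622243555) (nat_lit 76) (nat_lit 267524525) (nat_lit 3) (nat_lit 4) (nat_lit 4) (nat_lit 5) (nat_lit 4) (nat_lit 4) (nat_lit 348) (nat_lit 231) (nat_lit 201))))) (XT.nd (nat_lit 156) (nat_lit 0) (nat_lit 0) (XT.nd (nat_lit 78) (nat_lit 0) (nat_lit 0) (XT.lf (nat_lit 0) (nat_lit 17672368105) (nat_lit 76) (nat_lit 14555774769) (nat_lit 76) (nat_lit 14555774769) (nat_lit 3) (nat_lit 4) (nat_lit 4) (nat_lit 5) (nat_lit 4) (nat_lit 4) (nat_lit 316) (nat_lit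 232) (nat_lit 232)) (XT.lf (nat_lit 0) (nat_lit 45078649257) (nat_lit 76) (nat_lit 27998541293) (nat_lit 76) (nat_lit 27789377645) (nat_lit 3) (nat_lit 4) (nat_lit 4) (nat_lit 5) (nat_lit 4) (nat_lit 4) (nat_lit 317) (nat_lit 232) (nat_lit 231))) (XT.nd (nat_lit 78) (nat_lit 0) (nat_lit 0) (XT.lf (nat_lit 0) (nat_lit 55254538943) (nat_lit 76) (nat_lit 26953298619) (nat_lit 76) (nat_lit 26550464927) (nat_lit 3) (nat_lit 4) (nat_lit 4) (nat_lit 5) (nat_lit 4) (nat_lit 4) (nat_lit 318) (nat_lit 232) (nat_lit 230)) (XT.nd (nat_lit 78) (nat_lit 0) (nat_lit 0) (XT.lf (nat_lit 0) (nat_lit 65932706836) (nat_lit 76) (nat_lit 25969627484) (nat_lit 76) (nat_lit 25387469677) (nat_lit 3) (nat_lit 4) (nat_lit 4) (nat_lit 5) (nat_lit 4) (nat_lit 4) (nat_lit 319) (nat_lit 232) (nat_lit 229)) (XT.lf (nat_lit 0) (nat_lit 77176430969) (nat_lit 76) (nat_lit 25041698727) (nat_lit 76) (nat_lit 24293500072)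 (nat_lit 3) (nat_lit 4) (nat_lit 4) (nat_lit 5) (nat_lit 4) (nat_lit 4) (nat_lit 320) (nat_lit 232) (nat_lit 228))))))) (XT.nd (nat_lit 780) (nat_lit 0) (nat_lit 0) (XT.nd (nat_lit 390) (nat_lit 0) (nat_lit 0) (XT.nd (nat_lit 156) (nat_lit 0) (nat_lit 0) (XT.nd (nat_lit 78) (nat_lit 0) (nat_lit 0) (XT.lf (nat_lit 0) (nat_lit 89052340817) (nat_lit 76) (nat_lit 24164013510) (nat_lit 76) (nat_lit 23262073330) (nat_lit 3) (nat_lit 4) (nat_lit 4) (nat_lit 5) (nat_lit 4) (nat_lit 4) (nat_lit 321) (nat_lit 232) (nat_lit 227)) (XT.lf (nat_lit 0) (nat_lit 101630812143) (nat_lit 76) (nat_lit 23331370736) (nat_lit 76) (nat_lit 22287077292) (nat_lit 3) (nat_lit 4) (nat_lit 4) (nat_lit 5) (nat_lit 4) (nat_lit 4) (nat_lit 322) (nat_lit 232) (nat_lit 226))) (XT.nd (nat_lit 78) (nat_lit 0) (nat_lit 0) (XT.lf (nat_lit 0) (nat_lit 114986384036) (nat_lit 76) (nat_lit 22538836226) (nat_lit 76) (nat_lit 21362734204)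 (nat_lit 3) (nat_lit 4) (nat_lit 4) (nat_lit 5) (nat_lit 4) (nat_lit 4) (nat_lit 323) (nat_lit 232) (nat_lit 225)) (XT.nd (nat_lit 78) (nat_lit 0) (nat_lit 0) (XT.lf (nat_lit 0) (nat_lit 129198200626) (nat_lit 76) (nat_lit 21781713478) (nat_lit 76) (nat_lit 20483566477) (nat_lit 3) (nat_lit 4) (nat_lit 4) (nat_lit 5) (nat_lit 4) (nat_lit 4) (nat_lit 324) (nat_lit 232) (nat_lit 224)) (XT.lf (nat_lit 0) (nat_lit 144350480086) (nat_lit 76) (nat_lit 21055515840) (nat_lit 76) (nat_lit 19644364228) (nat_lit 3) (nat_lit 4) (nat_lit 4) (nat_lit 5) (nat_lit 4) (nat_lit 4) (nat_lit 325) (nat_lit 232) (nat_lit 223))))) (XT.nd (nat_lit 156) (nat_lit 0) (nat_lit 0) (XT.nd (nat_lit 78) (nat_lit 0) (nat_lit 0) (XT.lf (nat_lit 0) (nat_lit 160533013700) (nat_lit 76) (nat_lit 20355939917) (nat_lit 76) (nat_lit 18840154407) (nat_lit 3) (nat_lit 4) (nat_lit 4) (nat_lit 5) (nat_lit 4) (nat_lit 4) (nat_lit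 326) (nat_lit 232) (nat_lit 222)) (XT.lf (nat_lit 0) (nat_lit 177841697964) (nat_lit 76) (nat_lit 19678840075) (nat_lit 76) (nat_lit 18066171325) (nat_lit 3) (nat_lit 4) (nat_lit 4) (nat_lit 5) (nat_lit 4) (nat_lit 4) (nat_lit 327) (nat_lit 232) (nat_lit 221))) (XT.nd (nat_lit 78) (nat_lit 0) (nat_lit 0) (XT.lf (nat_lit 0) (nat_lit 196379102860) (nat_lit 76) (nat_lit 19020203871) (nat_lit 76) (nat_lit 17317828418) (nat_lit 3) (nat_lit 4) (nat_lit 4) (nat_lit 5) (nat_lit 4) (nat_lit 4) (nat_lit 328) (nat_lit 232) (nat_lit 220)) (XT.nd (nat_lit 78) (nat_lit 0) (nat_lit 0) (XT.lf (nat_lit 0) (nat_lit 216255079675) (nat_lit 76) (nat_lit 18376128275) (nat_lit 76) (nat_lit 16590691059) (nat_lit 3) (nat_lit 4) (nat_lit 4) (nat_lit 5) (nat_lit 4) (nat_lit 4) (nat_lit 329) (nat_lit 232) (nat_lit 219)) (XT.lf (nat_lit 0) (nat_lit 237587411976) (nat_lit 76) (nat_lit 17742796542) (nat_lit 76) (nat_lit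 15880450287) (nat_lit 3) (nat_lit 4) (nat_lit 4) (nat_lit 5) (nat_lit 4) (nat_lit 4) (nat_lit 330) (nat_lit 232) (nat_lit 218)))))) (XT.nd (nat_lit 390) (nat_lit 0) (nat_lit 0) (XT.nd (nat_lit 156) (nat_lit 0) (nat_lit 0) (XT.nd (nat_lit 78) (nat_lit 0) (nat_lit 0) (XT.lf (nat_lit 0) (nat_lit 260502513584) (nat_lit 76) (nat_lit 17116455596) (nat_lit 76) (nat_lit 15182897268) (nat_lit 3) (nat_lit 4) (nat_lit 4) (nat_lit 5) (nat_lit 4) (nat_lit 4) (nat_lit 331) (nat_lit 232) (nat_lit 217)) (XT.lf (nat_lit 0) (nat_lit 285136177693) (nat_lit 76) (nat_lit 16493393787) (nat_lit 76) (nat_lit 14493898354) (nat_lit 3) (nat_lit 4) (nat_lit 4) (nat_lit 5) (nat_lit 4) (nat_lit 4) (nat_lit 332) (nat_lit 232) (nat_lit 216))) (XT.nd (nat_lit 78) (nat_lit 0) (nat_lit 0) (XT.lf (nat_lit 0) (nat_lit 311634381573) (nat_lit 76) (nat_lit 15869918896) (nat_lit 76) (nat_lit 13809370588) (nat_lit 3) (nat_lit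 4) (nat_lit 4) (nat_lit 5) (nat_lit 4) (nat_lit 4) (nat_lit 333) (nat_lit 232) (nat_lit 215)) (XT.nd (nat_lit 78) (nat_lit 0) (nat_lit 0) (XT.lf (nat_lit 0) (nat_lit 340154151617) (nat_lit 76) (nat_lit 15242336258) (nat_lit 76) (nat_lit 13125257510) (nat_lit 3) (nat_lit 4) (nat_lit 4) (nat_lit 5) (nat_lit 4) (nat_lit 4) (nat_lit 334) (nat_lit 232) (nat_lit 214)) (XT.lf (nat_lit 0) (nat_lit 370864493869) (nat_lit 76) (nat_lit 14606926864) (nat_lit 76) (nat_lit 12437505117) (nat_lit 3) (nat_lit 4) (nat_lit 4) (nat_lit 5) (nat_lit 4) (nat_lit 4) (nat_lit 335) (nat_lit 232) (nat_lit 213))))) (XT.nd (nat_lit 156) (nat_lit 0) (nat_lit 0) (XT.nd (nat_lit 78) (nat_lit 0) (nat_lit 0) (XT.lf (nat_lit 0) (nat_lit 403947395542) (nat_lit 76) (nat_lit 13959925326) (nat_lit 76) (nat_lit 11742037838) (nat_lit 3) (nat_lit 4) (nat_lit 4) (nat_lit 5) (nat_lit 4) (nat_lit 4) (nat_lit 336) (nat_lit 232) (nat_lit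 212)) (XT.lf (nat_lit 0) (nat_lit 439598903462) (nat_lit 76) (nat_lit 13297497560) (nat_lit 76) (nat_lit 11034734386) (nat_lit 3) (nat_lit 4) (nat_lit 4) (nat_lit 5) (nat_lit 4) (nat_lit 4) (nat_lit 337) (nat_lit 232) (nat_lit 211))) (XT.nd (nat_lit 78) (nat_lit 0) (nat_lit 0) (XT.lf (nat_lit 0) (nat_lit 478030285824) (nat_lit 76) (nat_lit 12615718068) (nat_lit 76) (nat_lit 10311403333) (nat_lit 3) (nat_lit 4) (nat_lit 4) (nat_lit 5) (nat_lit 4) (nat_lit 4) (nat_lit 338) (nat_lit 232) (nat_lit 210)) (XT.nd (nat_lit 78) (nat_lit 0) (nat_lit 0) (XT.lf (nat_lit 0) (nat_lit 519469284152) (nat_lit 76) (nat_lit 11910546675) (nat_lit 76) (nat_lit 9567758273) (nat_lit 3) (nat_lit 4) (nat_lit 4) (nat_lit 5) (nat_lit 4) (nat_lit 4) (nat_lit 339) (nat_lit 232) (nat_lit 209)) (XT.lf (nat_lit 0) (nat_lit 564161462882) (nat_lit 76) (nat_lit 11177804589) (nat_lit 76) (nat_lit 8799392420) (nat_lit 3)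 (nat_lit 4) (nat_lit 4) (nat_lit 5) (nat_lit 4) (nat_lit 4) (nat_lit 340) (nat_lit 232) (nat_lit 208))))))))
noncomputable def xc7 : XT := (XT.nd (nat_lit 39468) (nat_lit 0) (nat_lit 0) (XT.nd (nat_lit 38688) (nat_lit 0) (nat_lit 0) (XT.nd (nat_lit 390) (nat_lit 0) (nat_lit 0) (XT.nd (nat_lit 156) (nat_lit 0) (nat_lit 0) (XT.nd (nat_lit 78) (nat_lit 0) (nat_lit 0) (XT.lf (nat_lit 0) (nat_lit 612371664554) (nat_lit 76) (nat_lit 10413149633) (nat_lit 76) (nat_lit 8001752496) (nat_lit 3) (nat_lit 4) (nat_lit 4) (nat_lit 5) (nat_lit 4) (nat_lit 4) (nat_lit 341) (nat_lit 232) (nat_lit 207)) (XT.lf (nat_lit 0) (nat_lit 664385579251) (nat_lit 76) (nat_lit 9612050519) (nat_lit 76) (nat_lit 7170111745) (nat_lit 3) (nat_lit 4) (nat_lit 4) (nat_lit 5) (nat_lit 4) (nat_lit 4) (nat_lit 342) (nat_lit 232) (nat_lit 206))) (XT.nd (nat_lit 78) (nat_lit 0) (nat_lit 0) (XT.lf (nat_lit 0) (nat_lit 720511437580)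 (nat_lit 76) (nat_lit 8769759994) (nat_lit 76) (nat_lit 6299541925) (nat_lit 3) (nat_lit 4) (nat_lit 4) (nat_lit 5) (nat_lit 4) (nat_lit 4) (nat_lit 343) (nat_lit 232) (nat_lit 205)) (XT.nd (nat_lit 78) (nat_lit 0) (nat_lit 0) (XT.lf (nat_lit 0) (nat_lit 781081837219) (nat_lit 76) (nat_lit 7881286705) (nat_lit 76) (nat_lit 5384884105) (nat_lit 3) (nat_lit 4) (nat_lit 4) (nat_lit 5) (nat_lit 4) (nat_lit 4) (nat_lit 344) (nat_lit 232) (nat_lit 204)) (XT.lf (nat_lit 0) (nat_lit 846455713870) (nat_lit 76) (nat_lit 6941365626) (nat_lit 76) (nat_lit 4420718089) (nat_lit 3) (nat_lit 4) (nat_lit 4) (nat_lit 5) (nat_lit 4) (nat_lit 4) (nat_lit 345) (nat_lit 232) (nat_lit 203))))) (XT.nd (nat_lit 156) (nat_lit 0) (nat_lit 0) (XT.nd (nat_lit 78) (nat_lit 0) (nat_lit 0) (XT.lf (nat_lit 0) (nat_lit 917020468283) (nat_lit 76) (nat_lit 5944426855) (nat_lit 76) (nat_lit 3401330302) (nat_lit 3) (nat_lit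 4) (nat_lit 4) (nat_lit 5) (nat_lit 4) (nat_lit 4) (nat_lit 346) (nat_lit 232) (nat_lit 202)) (XT.lf (nat_lit 0) (nat_lit 993194261967) (nat_lit 76) (nat_lit 4884562605) (nat_lit 76) (nat_lit 2320679928) (nat_lit 3) (nat_lit 4) (nat_lit 4) (nat_lit 5) (nat_lit 4) (nat_lit 4) (nat_lit 347) (nat_lit 232) (nat_lit 201))) (XT.nd (nat_lit 37986) (nat_lit 0) (nat_lit 0) (XT.lf (nat_lit 0) (nat_lit 1075428495180) (nat_lit 76) (nat_lit 3755492201) (nat_lit 76) (nat_lit 1172363110) (nat_lit 3) (nat_lit 4) (nat_lit 4) (nat_lit 5) (nat_lit 4) (nat_lit 4) (nat_lit 348) (nat_lit 232) (nat_lit 200)) (XT.nd (nat_lit 78) (nat_lit 0) (nat_lit 0) (XT.lf (nat_lit 0) (nat_lit 8581609477) (nat_lit 76) (nat_lit 15852825223) (nat_lit 76) (nat_lit 15852825223) (nat_lit 3) (nat_lit 4) (nat_lit 4) (nat_lit 5) (nat_lit 4) (nat_lit 4) (nat_lit 314) (nat_lit 233) (nat_lit 233)) (XT.lf (nat_lit 0) (nat_lit 25995117354)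 (nat_lit 76) (nat_lit 30524815697) (nat_lit 76) (nat_lit 30298918958) (nat_lit 3) (nat_lit 4) (nat_lit 4) (nat_lit 5) (nat_lit 4) (nat_lit 4) (nat_lit 315) (nat_lit 233) (nat_lit 232)))))) (XT.nd (nat_lit 390) (nat_lit 0) (nat_lit 0) (XT.nd (nat_lit 156) (nat_lit 0) (nat_lit 0) (XT.nd (nat_lit 78) (nat_lit 0) (nat_lit 0) (XT.lf (nat_lit 0) (nat_lit 35169892307) (nat_lit 76) (nat_lit 29418864897) (nat_lit 76) (nat_lit 28983804510) (nat_lit 3) (nat_lit 4) (nat_lit 4) (nat_lit 5) (nat_lit 4) (nat_lit 4) (nat_lit 316) (nat_lit 233) (nat_lit 231)) (XT.lf (nat_lit 0) (nat_lit 44741912852) (nat_lit 76) (nat_lit 28381244263) (nat_lit 76) (nat_lit 27752513831) (nat_lit 3) (nat_lit 4) (nat_lit 4) (nat_lit 5) (nat_lit 4) (nat_lit 4) (nat_lit 317) (nat_lit 233) (nat_lit 230))) (XT.nd (nat_lit 78) (nat_lit 0) (nat_lit 0) (XT.lf (nat_lit 0) (nat_lit 54767902073) (nat_lit 76) (nat_lit 27405804931) (nat_lit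 76) (nat_lit 26597750385) (nat_lit 3) (nat_lit 4) (nat_lit 4) (nat_lit 5) (nat_lit 4) (nat_lit 4) (nat_lit 318) (nat_lit 233) (nat_lit 229)) (XT.nd (nat_lit 78) (nat_lit 0) (nat_lit 0) (XT.lf (nat_lit 0) (nat_lit 65307273239) (nat_lit 76) (nat_lit 26486766522) (nat_lit 76) (nat_lit 25512671128) (nat_lit 3) (nat_lit 4) (nat_lit 4) (nat_lit 5) (nat_lit 4) (nat_lit 4) (nat_lit 319) (nat_lit 233) (nat_lit 228)) (XT.lf (nat_lit 0) (nat_lit 76422481884) (nat_lit 76) (nat_lit 25618682880) (nat_lit 76) (nat_lit 24490845961) (nat_lit 3) (nat_lit 4) (nat_lit 4) (nat_lit 5) (nat_lit 4) (nat_lit 4) (nat_lit 320) (nat_lit 233) (nat_lit 227))))) (XT.nd (nat_lit 156) (nat_lit 0) (nat_lit 0) (XT.nd (nat_lit 78) (nat_lit 0) (nat_lit 0) (XT.lf (nat_lit 0) (nat_lit 88179395910) (nat_lit 76) (nat_lit 24796409808) (nat_lit 76) (nat_lit 23526219625) (nat_lit 3) (nat_lit 4) (nat_lit 4) (nat_lit 5) (nat_lit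 4) (nat_lit 4) (nat_lit 321) (nat_lit 233) (nat_lit 226)) (XT.lf (nat_lit 0) (nat_lit 100647685919) (nat_lit 76) (nat_lit 24015074575) (nat_lit 76) (nat_lit 22613075814) (nat_lit 3) (nat_lit 4) (nat_lit 4) (nat_lit 5) (nat_lit 4) (nat_lit 4) (nat_lit 322) (nat_lit 233) (nat_lit 225))) (XT.nd (nat_lit 78) (nat_lit 0) (nat_lit 0) (XT.lf (nat_lit 0) (nat_lit 113901238075) (nat_lit 76) (nat_lit 23270047047) (nat_lit 76) (nat_lit 21746003307) (nat_lit 3) (nat_lit 4) (nat_lit 4) (nat_lit 5) (nat_lit 4) (nat_lit 4) (nat_lit 323) (nat_lit 233) (nat_lit 224)) (XT.nd (nat_lit 78) (nat_lit 0) (nat_lit 0) (XT.lf (nat_lit 0) (nat_lit 128018591944) (nat_lit 76) (nat_lit 22556912246) (nat_lit 76) (nat_lit 20919863895) (nat_lit 3) (nat_lit 4) (nat_lit 4) (nat_lit 5) (nat_lit 4) (nat_lit 4) (nat_lit 324) (nat_lit 233) (nat_lit 223)) (XT.lf (nat_lit 0) (nat_lit 143083405922) (nat_lit 76) (nat_lit 21871444188)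 (nat_lit 76) (nat_lit 20129761938) (nat_lit 3) (nat_lit 4) (nat_lit 4) (nat_lit 5) (nat_lit 4) (nat_lit 4) (nat_lit 325) (nat_lit 233) (nat_lit 222))))))) (XT.nd (nat_lit 780) (nat_lit 0) (nat_lit 0) (XT.nd (nat_lit 390) (nat_lit 0) (nat_lit 0) (XT.nd (nat_lit 156) (nat_lit 0) (nat_lit 0) (XT.nd (nat_lit 78) (nat_lit 0) (nat_lit 0) (XT.lf (nat_lit 0) (nat_lit 159184952979) (nat_lit 76) (nat_lit 21209580840) (nat_lit 76) (nat_lit 19371015350) (nat_lit 3) (nat_lit 4) (nat_lit 4) (nat_lit 5) (nat_lit 4) (nat_lit 4) (nat_lit 326) (nat_lit 233) (nat_lit 221)) (XT.lf (nat_lit 0) (nat_lit 176418649691) (nat_lit 76) (nat_lit 20567400049) (nat_lit 76) (nat_lit 18639127856) (nat_lit 3) (nat_lit 4) (nat_lit 4) (nat_lit 5) (nat_lit 4) (nat_lit 4) (nat_lit 327) (nat_lit 233) (nat_lit 220))) (XT.nd (nat_lit 78) (nat_lit 0) (nat_lit 0) (XT.lf (nat_lit 0) (nat_lit 194886621667) (nat_lit 76) (nat_lit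 19941096298) (nat_lit 76) (nat_lit 17929762343) (nat_lit 3) (nat_lit 4) (nat_lit 4) (nat_lit 5) (nat_lit 4) (nat_lit 4) (nat_lit 328) (nat_lit 233) (nat_lit 219)) (XT.nd (nat_lit 78) (nat_lit 0) (nat_lit 0) (XT.lf (nat_lit 0) (nat_lit 214698308742) (nat_lit 76) (nat_lit 19326958159) (nat_lit 76) (nat_lit 17238715165) (nat_lit 3) (nat_lit 4) (nat_lit 4) (nat_lit 5) (nat_lit 4) (nat_lit 4) (nat_lit 329) (nat_lit 233) (nat_lit 218)) (XT.lf (nat_lit 0) (nat_lit 235971113506) (nat_lit 76) (nat_lit 18721346295) (nat_lit 76) (nat_lit 16561891227) (nat_lit 3) (nat_lit 4) (nat_lit 4) (nat_lit 5) (nat_lit 4) (nat_lit 4) (nat_lit 330) (nat_lit 233) (nat_lit 217))))) (XT.nd (nat_lit 156) (nat_lit 0) (nat_lit 0) (XT.nd (nat_lit 78) (nat_lit 0) (nat_lit 0) (XT.lf (nat_lit 0) (nat_lit 258831097024) (nat_lit 76) (nat_lit 18120671893) (nat_lit 76) (nat_lit 15895279720) (nat_lit 3) (nat_lit 4) (nat_lit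 4) (nat_lit 5) (nat_lit 4) (nat_lit 4) (nat_lit 331) (nat_lit 233) (nat_lit 216)) (XT.lf (nat_lit 0) (nat_lit 283413725865) (nat_lit 76) (nat_lit 17521375403) (nat_lit 76) (nat_lit 15234930355) (nat_lit 3) (nat_lit 4) (nat_lit 4) (nat_lit 5) (nat_lit 4) (nat_lit 4) (nat_lit 332) (nat_lit 233) (nat_lit 215))) (XT.nd (nat_lit 78) (nat_lit 0) (nat_lit 0) (XT.lf (nat_lit 0) (nat_lit 309864674867) (nat_lit 76) (nat_lit 16919905437) (nat_lit 76) (nat_lit 14576929950) (nat_lit 3) (nat_lit 4) (nat_lit 4) (nat_lit 5) (nat_lit 4) (nat_lit 4) (nat_lit 333) (nat_lit 233) (nat_lit 214)) (XT.nd (nat_lit 78) (nat_lit 0) (nat_lit 0) (XT.lf (nat_lit 0) (nat_lit 338340690393) (nat_lit 76) (nat_lit 16312697729) (nat_lit 76) (nat_lit 13917379242) (nat_lit 3) (nat_lit 4) (nat_lit 4) (nat_lit 5) (nat_lit 4) (nat_lit 4) (nat_lit 334) (nat_lit 233) (nat_lit 213)) (XT.lf (nat_lit 0) (nat_lit 369010519203) (nat_lit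 76) (nat_lit 15696154012) (nat_lit 76) (nat_lit 13252369784) (nat_lit 3) (nat_lit 4) (nat_lit 4) (nat_lit 5) (nat_lit 4) (nat_lit 4) (nat_lit 335) (nat_lit 233) (nat_lit 212)))))) (XT.nd (nat_lit 390) (nat_lit 0) (nat_lit 0) (XT.nd (nat_lit 156) (nat_lit 0) (nat_lit 0) (XT.nd (nat_lit 78) (nat_lit 0) (nat_lit 0) (XT.lf (nat_lit 0) (nat_lit 402055908431) (nat_lit 76) (nat_lit 15066620692) (nat_lit 76) (nat_lit 12577960779) (nat_lit 3) (nat_lit 4) (nat_lit 4) (nat_lit 5) (nat_lit 4) (nat_lit 4) (nat_lit 336) (nat_lit 233) (nat_lit 211)) (XT.lf (nat_lit 0) (nat_lit 437672682605) (nat_lit 76) (nat_lit 14420367203) (nat_lit 76) (nat_lit 11890155729) (nat_lit 3) (nat_lit 4) (nat_lit 4) (nat_lit 5) (nat_lit 4) (nat_lit 4) (nat_lit 337) (nat_lit 233) (nat_lit 210))) (XT.nd (nat_lit 78) (nat_lit 0) (nat_lit 0) (XT.lf (nat_lit 0) (nat_lit 476071904091) (nat_lit 76) (nat_lit 13753563893) (nat_lit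 76) (nat_lit 11184878751) (nat_lit 3) (nat_lit 4) (nat_lit 4) (nat_lit 5) (nat_lit 4) (nat_lit 4) (nat_lit 338) (nat_lit 233) (nat_lit 209)) (XT.nd (nat_lit 78) (nat_lit 0) (nat_lit 0) (XT.lf (nat_lit 0) (nat_lit 517481123830) (nat_lit 76) (nat_lit 13062259336) (nat_lit 76) (nat_lit 10457950428) (nat_lit 3) (nat_lit 4) (nat_lit 4) (nat_lit 5) (nat_lit 4) (nat_lit 4) (nat_lit 339) (nat_lit 233) (nat_lit 208)) (XT.lf (nat_lit 0) (nat_lit 562145729792) (nat_lit 76) (nat_lit 12342356912) (nat_lit 76) (nat_lit 9705063035) (nat_lit 3) (nat_lit 4) (nat_lit 4) (nat_lit 5) (nat_lit 4) (nat_lit 4) (nat_lit 340) (nat_lit 233) (nat_lit 207))))) (XT.nd (nat_lit 234) (nat_lit 0) (nat_lit 0) (XT.nd (nat_lit 78) (nat_lit 0) (nat_lit 0) (XT.lf (nat_lit 0) (nat_lit 610330401123) (nat_lit 76) (nat_lit 11589590532) (nat_lit 76) (nat_lit 8921755018) (nat_lit 3) (nat_lit 4) (nat_lit 4) (nat_lit 5) (nat_lit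 4) (nat_lit 4) (nat_lit 341) (nat_lit 233) (nat_lit 206)) (XT.nd (nat_lit 78) (nat_lit 0) (nat_lit 0) (XT.lf (nat_lit 0) (nat_lit 662320676617) (nat_lit 76) (nat_lit 10799499359) (nat_lit 76) (nat_lit 8103384551) (nat_lit 3) (nat_lit 4) (nat_lit 4) (nat_lit 5) (nat_lit 4) (nat_lit 4) (nat_lit 342) (nat_lit 233) (nat_lit 205)) (XT.lf (nat_lit 0) (nat_lit 718424646794) (nat_lit 76) (nat_lit 9967401372) (nat_lit 76) (nat_lit 7245102032) (nat_lit 3) (nat_lit 4) (nat_lit 4) (nat_lit 5) (nat_lit 4) (nat_lit 4) (nat_lit 343) (nat_lit 233) (nat_lit 204)))) (XT.nd (nat_lit 78) (nat_lit 0) (nat_lit 0) (XT.lf (nat_lit 0) (nat_lit 778974779625) (nat_lit 76) (nat_lit 9088365618) (nat_lit 76) (nat_lit 6341821342) (nat_lit 3) (nat_lit 4) (nat_lit 4) (nat_lit 5) (nat_lit 4) (nat_lit 4) (nat_lit 344) (nat_lit 233) (nat_lit 203)) (XT.nd (nat_lit 78) (nat_lit 0) (nat_lit 0) (XT.lf (nat_lit 0) (nat_lit 844329890714)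 (nat_lit 76) (nat_lit 8157182998) (nat_lit 76) (nat_lit 5388189706) (nat_lit 3) (nat_lit 4) (nat_lit 4) (nat_lit 5) (nat_lit 4) (nat_lit 4) (nat_lit 345) (nat_lit 233) (nat_lit 202)) (XT.lf (nat_lit 0) (nat_lit 914877269607) (nat_lit 76) (nat_lit 7168335392) (nat_lit 76) (nat_lit 4378555974) (nat_lit 3) (nat_lit 4) (nat_lit 4) (nat_lit 5) (nat_lit 4) (nat_lit 4) (nat_lit 346) (nat_lit 233) (nat_lit 201))))))))
noncomputable def xc8 : XT := (XT.nd (nat_lit 39312) (nat_lit 0) (nat_lit 0) (XT.nd (nat_lit 38532) (nat_lit 0) (nat_lit 0) (XT.nd (nat_lit 38142) (nat_lit 0) (nat_lit 0) (XT.nd (nat_lit 37908) (nat_lit 0) (nat_lit 0) (XT.nd (nat_lit 78) (nat_lit 0) (nat_lit 0) (XT.lf (nat_lit 0) (nat_lit 991034974846) (nat_lit 76) (nat_lit 6115962962) (nat_lit 76) (nat_lit 3306937132) (nat_lit 3) (nat_lit 4) (nat_lit 4) (nat_lit 5) (nat_lit 4) (nat_lit 4) (nat_lit 347) (nat_lit 233) (nat_lit 200))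 (XT.lf (nat_lit 0) (nat_lit 1073254311350) (nat_lit 76) (nat_lit 4993829427) (nat_lit 76) (nat_lit 2166982845) (nat_lit 3) (nat_lit 4) (nat_lit 4) (nat_lit 5) (nat_lit 4) (nat_lit 4) (nat_lit 348) (nat_lit 233) (nat_lit 199))) (XT.nd (nat_lit 78) (nat_lit 0) (nat_lit 0) (XT.lf (nat_lit 0) (nat_lit 262181381) (nat_lit 76) (nat_lit 17234724485) (nat_lit 76) (nat_lit 17234724485) (nat_lit 3) (nat_lit 4) (nat_lit 4) (nat_lit 5) (nat_lit 4) (nat_lit 4) (nat_lit 312) (nat_lit 234) (nat_lit 234)) (XT.nd (nat_lit 78) (nat_lit 0) (nat_lit 0) (XT.lf (nat_lit 0) (nat_lit 8621859936) (nat_lit 76) (nat_lit 33212335162) (nat_lit 76) (nat_lit 32968366683) (nat_lit 3) (nat_lit 4) (nat_lit 4) (nat_lit 5) (nat_lit 4) (nat_lit 4) (nat_lit 313) (nat_lit 234) (nat_lit 233)) (XT.lf (nat_lit 0) (nat_lit 16974387541) (nat_lit 76) (nat_lit 32037551034) (nat_lit 76) (nat_lit 31567685816) (nat_lit 3) (nat_lit 4)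 (nat_lit 4) (nat_lit 5) (nat_lit 4) (nat_lit 4) (nat_lit 314) (nat_lit 234) (nat_lit 232))))) (XT.nd (nat_lit 156) (nat_lit 0) (nat_lit 0) (XT.nd (nat_lit 78) (nat_lit 0) (nat_lit 0) (XT.lf (nat_lit 0) (nat_lit 25631442037) (nat_lit 76) (nat_lit 30938134905) (nat_lit 76) (nat_lit 30259106038) (nat_lit 3) (nat_lit 4) (nat_lit 4) (nat_lit 5) (nat_lit 4) (nat_lit 4) (nat_lit 315) (nat_lit 234) (nat_lit 231)) (XT.lf (nat_lit 0) (nat_lit 34644324488) (nat_lit 76) (nat_lit 29907571715) (nat_lit 76) (nat_lit 29034872804) (nat_lit 3) (nat_lit 4) (nat_lit 4) (nat_lit 5) (nat_lit 4) (nat_lit 4) (nat_lit 316) (nat_lit 234) (nat_lit 230))) (XT.nd (nat_lit 78) (nat_lit 0) (nat_lit 0) (XT.lf (nat_lit 0) (nat_lit 44066444567) (nat_lit 76) (nat_lit 28939754424) (nat_lit 76) (nat_lit 27887731398) (nat_lit 3) (nat_lit 4) (nat_lit 4) (nat_lit 5) (nat_lit 4) (nat_lit 4) (nat_lit 317) (nat_lit 234) (nat_lit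 229)) (XT.nd (nat_lit 78) (nat_lit 0) (nat_lit 0) (XT.lf (nat_lit 0) (nat_lit 53953637061) (nat_lit 76) (nat_lit 28028947817) (nat_lit 76) (nat_lit 26810883945) (nat_lit 3) (nat_lit 4) (nat_lit 4) (nat_lit 5) (nat_lit 4) (nat_lit 4) (nat_lit 318) (nat_lit 234) (nat_lit 228)) (XT.lf (nat_lit 0) (nat_lit 64364492739) (nat_lit 76) (nat_lit 27169754524) (nat_lit 76) (nat_lit 25797949126) (nat_lit 3) (nat_lit 4) (nat_lit 4) (nat_lit 5) (nat_lit 4) (nat_lit 4) (nat_lit 319) (nat_lit 234) (nat_lit 227)))))) (XT.nd (nat_lit 390) (nat_lit 0) (nat_lit 0) (XT.nd (nat_lit 156) (nat_lit 0) (nat_lit 0) (XT.nd (nat_lit 78) (nat_lit 0) (nat_lit 0) (XT.lf (nat_lit 0) (nat_lit 75360705562) (nat_lit 76) (nat_lit 26357083027) (nat_lit 76) (nat_lit 24842924365) (nat_lit 3) (nat_lit 4) (nat_lit 4) (nat_lit 5) (nat_lit 4) (nat_lit 4) (nat_lit 320) (nat_lit 234) (nat_lit 226)) (XT.lf (nat_lit 0) (nat_lit 87007438271)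 (nat_lit 76) (nat_lit 25586117495) (nat_lit 76) (nat_lit 23940150256) (nat_lit 3) (nat_lit 4) (nat_lit 4) (nat_lit 5) (nat_lit 4) (nat_lit 4) (nat_lit 321) (nat_lit 234) (nat_lit 225))) (XT.nd (nat_lit 78) (nat_lit 0) (nat_lit 0) (XT.lf (nat_lit 0) (nat_lit 99373708543) (nat_lit 76) (nat_lit 24852289245) (nat_lit 76) (nat_lit 23084277026) (nat_lit 3) (nat_lit 4) (nat_lit 4) (nat_lit 5) (nat_lit 4) (nat_lit 4) (nat_lit 322) (nat_lit 234) (nat_lit 224)) (XT.nd (nat_lit 78) (nat_lit 0) (nat_lit 0) (XT.lf (nat_lit 0) (nat_lit 112532797978) (nat_lit 76) (nat_lit 24151249664) (nat_lit 76) (nat_lit 22270232834) (nat_lit 3) (nat_lit 4) (nat_lit 4) (nat_lit 5) (nat_lit 4) (nat_lit 4) (nat_lit 323) (nat_lit 234) (nat_lit 223)) (XT.lf (nat_lit 0) (nat_lit 126562686366) (nat_lit 76) (nat_lit 23478844443) (nat_lit 76) (nat_lit 21493193714) (nat_lit 3) (nat_lit 4) (nat_lit 4) (nat_lit 5) (nat_lit 4)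 (nat_lit 4) (nat_lit 324) (nat_lit 234) (nat_lit 222))))) (XT.nd (nat_lit 156) (nat_lit 0) (nat_lit 0) (XT.nd (nat_lit 78) (nat_lit 0) (nat_lit 0) (XT.lf (nat_lit 0) (nat_lit 141546513787) (nat_lit 76) (nat_lit 22831088959) (nat_lit 76) (nat_lit 20748554991) (nat_lit 3) (nat_lit 4) (nat_lit 4) (nat_lit 5) (nat_lit 4) (nat_lit 4) (nat_lit 325) (nat_lit 234) (nat_lit 221)) (XT.lf (nat_lit 0) (nat_lit 157573073291) (nat_lit 76) (nat_lit 22204144661) (nat_lit 76) (nat_lit 20031903990) (nat_lit 3) (nat_lit 4) (nat_lit 4) (nat_lit 5) (nat_lit 4) (nat_lit 4) (nat_lit 326) (nat_lit 234) (nat_lit 220))) (XT.nd (nat_lit 78) (nat_lit 0) (nat_lit 0) (XT.lf (nat_lit 0) (nat_lit 174737337083) (nat_lit 76) (nat_lit 21594296324) (nat_lit 76) (nat_lit 19338993890) (nat_lit 3) (nat_lit 4) (nat_lit 4) (nat_lit 5) (nat_lit 4) (nat_lit 4) (nat_lit 327) (nat_lit 234) (nat_lit 219)) (XT.nd (nat_lit 78) (nat_lit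 0) (nat_lit 0) (XT.lf (nat_lit 0) (nat_lit 193141019319) (nat_lit 76) (nat_lit 20997930031) (nat_lit 76) (nat_lit 18665718558) (nat_lit 3) (nat_lit 4) (nat_lit 4) (nat_lit 5) (nat_lit 4) (nat_lit 4) (nat_lit 328) (nat_lit 234) (nat_lit 218)) (XT.lf (nat_lit 0) (nat_lit 212893178857) (nat_lit 76) (nat_lit 20411511760) (nat_lit 76) (nat_lit 18008088214) (nat_lit 3) (nat_lit 4) (nat_lit 4) (nat_lit 5) (nat_lit 4) (nat_lit 4) (nat_lit 329) (nat_lit 234) (nat_lit 217))))))) (XT.nd (nat_lit 780) (nat_lit 0) (nat_lit 0) (XT.nd (nat_lit 390) (nat_lit 0) (nat_lit 0) (XT.nd (nat_lit 156) (nat_lit 0) (nat_lit 0) (XT.nd (nat_lit 78) (nat_lit 0) (nat_lit 0) (XT.lf (nat_lit 0) (nat_lit 234110865531) (nat_lit 76) (nat_lit 19831566440) (nat_lit 76) (nat_lit 17362205788) (nat_lit 3) (nat_lit 4) (nat_lit 4) (nat_lit 5) (nat_lit 4) (nat_lit 4) (nat_lit 330) (nat_lit 234) (nat_lit 216)) (XT.lf (nat_lit 0)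 (nat_lit 256919813781) (nat_lit 76) (nat_lit 19254657357) (nat_lit 76) (nat_lit 16724243831) (nat_lit 3) (nat_lit 4) (nat_lit 4) (nat_lit 5) (nat_lit 4) (nat_lit 4) (nat_lit 331) (nat_lit 234) (nat_lit 215))) (XT.nd (nat_lit 78) (nat_lit 0) (nat_lit 0) (XT.lf (nat_lit 0) (nat_lit 281455187744) (nat_lit 76) (nat_lit 18677365792) (nat_lit 76) (nat_lit 16090421826) (nat_lit 3) (nat_lit 4) (nat_lit 4) (nat_lit 5) (nat_lit 4) (nat_lit 4) (nat_lit 332) (nat_lit 234) (nat_lit 214)) (XT.nd (nat_lit 78) (nat_lit 0) (nat_lit 0) (XT.lf (nat_lit 0) (nat_lit 307862382228) (nat_lit 76) (nat_lit 18096270757) (nat_lit 76) (nat_lit 15456983791) (nat_lit 3) (nat_lit 4) (nat_lit 4) (nat_lit 5) (nat_lit 4) (nat_lit 4) (nat_lit 333) (nat_lit 234) (nat_lit 213)) (XT.lf (nat_lit 0) (nat_lit 336297884313) (nat_lit 76) (nat_lit 17507928725) (nat_lit 76) (nat_lit 14820176019) (nat_lit 3) (nat_lit 4) (nat_lit 4)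 (nat_lit 5) (nat_lit 4) (nat_lit 4) (nat_lit 334) (nat_lit 234) (nat_lit 212))))) (XT.nd (nat_lit 156) (nat_lit 0) (nat_lit 0) (XT.nd (nat_lit 78) (nat_lit 0) (nat_lit 0) (XT.lf (nat_lit 0) (nat_lit 366930200678) (nat_lit 76) (nat_lit 16908853227) (nat_lit 76) (nat_lit 14176224835) (nat_lit 3) (nat_lit 4) (nat_lit 4) (nat_lit 5) (nat_lit 4) (nat_lit 4) (nat_lit 335) (nat_lit 234) (nat_lit 211)) (XT.lf (nat_lit 0) (nat_lit 399940856159) (nat_lit 76) (nat_lit 16295494184) (nat_lit 76) (nat_lit 13521314231) (nat_lit 3) (nat_lit 4) (nat_lit 4) (nat_lit 5) (nat_lit 4) (nat_lit 4) (nat_lit 336) (nat_lit 234) (nat_lit 210))) (XT.nd (nat_lit 78) (nat_lit 0) (nat_lit 0) (XT.lf (nat_lit 0) (nat_lit 435525469457) (nat_lit 76) (nat_lit 15664216876) (nat_lit 76) (nat_lit 12851563256) (nat_lit 3) (nat_lit 4) (nat_lit 4) (nat_lit 5) (nat_lit 4) (nat_lit 4) (nat_lit 337) (nat_lit 234) (nat_lit 209))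 (XT.nd (nat_lit 78) (nat_lit 0) (nat_lit 0) (XT.lf (nat_lit 0) (nat_lit 473894912354) (nat_lit 76) (nat_lit 15011280402) (nat_lit 76) (nat_lit 12163003015) (nat_lit 3) (nat_lit 4) (nat_lit 4) (nat_lit 5) (nat_lit 4) (nat_lit 4) (nat_lit 338) (nat_lit 234) (nat_lit 208)) (XT.lf (nat_lit 0) (nat_lit 515276559326) (nat_lit 76) (nat_lit 14332815507) (nat_lit 76) (nat_lit 11451553152) (nat_lit 3) (nat_lit 4) (nat_lit 4) (nat_lit 5) (nat_lit 4) (nat_lit 4) (nat_lit 339) (nat_lit 234) (nat_lit 207)))))) (XT.nd (nat_lit 390) (nat_lit 0) (nat_lit 0) (XT.nd (nat_lit 156) (nat_lit 0) (nat_lit 0) (XT.nd (nat_lit 78) (nat_lit 0) (nat_lit 0) (XT.lf (nat_lit 0) (nat_lit 559915634948) (nat_lit 76) (nat_lit 13624801659) (nat_lit 76) (nat_lit 10712997666) (nat_lit 3) (nat_lit 4) (nat_lit 4) (nat_lit 5) (nat_lit 4) (nat_lit 4) (nat_lit 340) (nat_lit 234) (nat_lit 206)) (XT.lf (nat_lit 0) (nat_lit 608076667075)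 (nat_lit 76) (nat_lit 12883043221) (nat_lit 76) (nat_lit 9942959934) (nat_lit 3) (nat_lit 4) (nat_lit 4) (nat_lit 5) (nat_lit 4) (nat_lit 4) (nat_lit 341) (nat_lit 234) (nat_lit 205))) (XT.nd (nat_lit 78) (nat_lit 0) (nat_lit 0) (XT.lf (nat_lit 0) (nat_lit 660045054416) (nat_lit 76) (nat_lit 12103144586) (nat_lit 76) (nat_lit 9136876767) (nat_lit 3) (nat_lit 4) (nat_lit 4) (nat_lit 5) (nat_lit 4) (nat_lit 4) (nat_lit 342) (nat_lit 234) (nat_lit 204)) (XT.nd (nat_lit 78) (nat_lit 0) (nat_lit 0) (XT.lf (nat_lit 0) (nat_lit 716128757786) (nat_lit 76) (nat_lit 11280484133) (nat_lit 76) (nat_lit 8289971378) (nat_lit 3) (nat_lit 4) (nat_lit 4) (nat_lit 5) (nat_lit 4) (nat_lit 4) (nat_lit 343) (nat_lit 234) (nat_lit 203)) (XT.lf (nat_lit 0) (nat_lit 776660125055) (nat_lit 76) (nat_lit 10410186838) (nat_lit 76) (nat_lit 7397225068) (nat_lit 3) (nat_lit 4) (nat_lit 4) (nat_lit 5) (nat_lit 4) (nat_lit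 4) (nat_lit 344) (nat_lit 234) (nat_lit 202))))) (XT.nd (nat_lit 156) (nat_lit 0) (nat_lit 0) (XT.nd (nat_lit 78) (nat_lit 0) (nat_lit 0) (XT.lf (nat_lit 0) (nat_lit 841997860623) (nat_lit 76) (nat_lit 9487095383) (nat_lit 76) (nat_lit 6453347487) (nat_lit 3) (nat_lit 4) (nat_lit 4) (nat_lit 5) (nat_lit 4) (nat_lit 4) (nat_lit 345) (nat_lit 234) (nat_lit 201)) (XT.lf (nat_lit 0) (nat_lit 912529151071) (nat_lit 76) (nat_lit 8505739596) (nat_lit 76) (nat_lit 5452745288) (nat_lit 3) (nat_lit 4) (nat_lit 4) (nat_lit 5) (nat_lit 4) (nat_lit 4) (nat_lit 346) (nat_lit 234) (nat_lit 200))) (XT.nd (nat_lit 78) (nat_lit 0) (nat_lit 0) (XT.lf (nat_lit 0) (nat_lit 988671959602) (nat_lit 76) (nat_lit 7460304037) (nat_lit 76) (nat_lit 4389488976) (nat_lit 3) (nat_lit 4) (nat_lit 4) (nat_lit 5) (nat_lit 4) (nat_lit 4) (nat_lit 347) (nat_lit 234) (nat_lit 199)) (XT.nd (nat_lit 37674) (nat_lit 0) (nat_lit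 76) (XT.lf (nat_lit 0) (nat_lit 1070877502858) (nat_lit 76) (nat_lit 6344593530) (nat_lit 76) (nat_lit 3257277773) (nat_lit 3) (nat_lit 4) (nat_lit 4) (nat_lit 5) (nat_lit 4) (nat_lit 4) (nat_lit 348) (nat_lit 234) (nat_lit 198)) (XT.lf (nat_lit 0) (nat_lit 11389086429) (nat_lit 152) (nat_lit 7199938065) (nat_lit 0) (nat_lit 11389086429) (nat_lit 4) (nat_lit 5) (nat_lit 6) (nat_lit 4) (nat_lit 4) (nat_lit 4) (nat_lit 310) (nat_lit 235) (nat_lit 235))))))))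
noncomputable def xc9 : XT := (XT.nd (nat_lit 1560) (nat_lit 0) (nat_lit 0) (XT.nd (nat_lit 780) (nat_lit 0) (nat_lit 0) (XT.nd (nat_lit 390) (nat_lit 0) (nat_lit 0) (XT.nd (nat_lit 156) (nat_lit 0) (nat_lit 0) (XT.nd (nat_lit 78) (nat_lit 76) (nat_lit 0) (XT.lf (nat_lit 0) (nat_lit 28828744130) (nat_lit 152) (nat_lit 7130328293) (nat_lit 0) (nat_lit 28565258173) (nat_lit 4) (nat_lit 5) (nat_lit 6) (nat_lit 4) (nat_lit 4) (nat_lit 4) (nat_lit 311) (nat_lit 235) (nat_lit 234)) (XT.lf (nat_lit 0) (nat_lit 320424834) (nat_lit 76) (nat_lit 34827901606) (nat_lit 76) (nat_lit 34320447170) (nat_lit 3) (nat_lit 4) (nat_lit 4) (nat_lit 5) (nat_lit 4) (nat_lit 4) (nat_lit 312) (nat_lit 235) (nat_lit 233))) (XT.nd (nat_lit 78) (nat_lit 0) (nat_lit 0) (XT.lf (nat_lit 0) (nat_lit 8229090593) (nat_lit 76) (nat_lit 33658719906) (nat_lit 76) (nat_lit 32925368730) (nat_lit 3) (nat_lit 4) (nat_lit 4) (nat_lit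 5) (nat_lit 4) (nat_lit 4) (nat_lit 313) (nat_lit 235) (nat_lit 232)) (XT.nd (nat_lit 78) (nat_lit 0) (nat_lit 0) (XT.lf (nat_lit 0) (nat_lit 16406774295) (nat_lit 76) (nat_lit 32565354397) (nat_lit 76) (nat_lit 31622839574) (nat_lit 3) (nat_lit 4) (nat_lit 4) (nat_lit 5) (nat_lit 4) (nat_lit 4) (nat_lit 314) (nat_lit 235) (nat_lit 231)) (XT.lf (nat_lit 0) (nat_lit 24901936289) (nat_lit 76) (nat_lit 31541325878) (nat_lit 76) (nat_lit 30405141011) (nat_lit 3) (nat_lit 4) (nat_lit 4) (nat_lit 5) (nat_lit 4) (nat_lit 4) (nat_lit 315) (nat_lit 235) (nat_lit 230))))) (XT.nd (nat_lit 156) (nat_lit 0) (nat_lit 0) (XT.nd (nat_lit 78) (nat_lit 0) (nat_lit 0) (XT.lf (nat_lit 0) (nat_lit 33764918275) (nat_lit 76) (nat_lit 30580566032) (nat_lit 76) (nat_lit 29265057049) (nat_lit 3) (nat_lit 4) (nat_lit 4) (nat_lit 5) (nat_lit 4) (nat_lit 4) (nat_lit 316) (nat_lit 235) (nat_lit 229)) (XT.lf (nat_lit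 0) (nat_lit 43048241628) (nat_lit 76) (nat_lit 29677381466) (nat_lit 76) (nat_lit 28195831636) (nat_lit 3) (nat_lit 4) (nat_lit 4) (nat_lit 5) (nat_lit 4) (nat_lit 4) (nat_lit 317) (nat_lit 235) (nat_lit 228))) (XT.nd (nat_lit 78) (nat_lit 0) (nat_lit 0) (XT.lf (nat_lit 0) (nat_lit 52806918634) (nat_lit 76) (nat_lit 28826419975) (nat_lit 76) (nat_lit 27191128621) (nat_lit 3) (nat_lit 4) (nat_lit 4) (nat_lit 5) (nat_lit 4) (nat_lit 4) (nat_lit 318) (nat_lit 235) (nat_lit 227)) (XT.nd (nat_lit 78) (nat_lit 0) (nat_lit 0) (XT.lf (nat_lit 0) (nat_lit 63098778490) (nat_lit 76) (nat_lit 28022638826) (nat_lit 76) (nat_lit 26244994207) (nat_lit 3) (nat_lit 4) (nat_lit 4) (nat_lit 5) (nat_lit 4) (nat_lit 4) (nat_lit 319) (nat_lit 235) (nat_lit 226)) (XT.lf (nat_lit 0) (nat_lit 73984809995) (nat_lit 76) (nat_lit 27261274870) (nat_lit 76) (nat_lit 25351821673) (nat_lit 3) (nat_lit 4) (nat_lit 4)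 (nat_lit 5) (nat_lit 4) (nat_lit 4) (nat_lit 320) (nat_lit 235) (nat_lit 225)))))) (XT.nd (nat_lit 390) (nat_lit 0) (nat_lit 0) (XT.nd (nat_lit 156) (nat_lit 0) (nat_lit 0) (XT.nd (nat_lit 78) (nat_lit 0) (nat_lit 0) (XT.lf (nat_lit 0) (nat_lit 85529522967) (nat_lit 76) (nat_lit 26537816321) (nat_lit 76) (nat_lit 24506318145) (nat_lit 3) (nat_lit 4) (nat_lit 4) (nat_lit 5) (nat_lit 4) (nat_lit 4) (nat_lit 321) (nat_lit 235) (nat_lit 224)) (XT.lf (nat_lit 0) (nat_lit 97801330518) (nat_lit 76) (nat_lit 25847976018) (nat_lit 76) (nat_lit 23703473231) (nat_lit 3) (nat_lit 4) (nat_lit 4) (nat_lit 5) (nat_lit 4) (nat_lit 4) (nat_lit 322) (nat_lit 235) (nat_lit 223))) (XT.nd (nat_lit 78) (nat_lit 0) (nat_lit 0) (XT.lf (nat_lit 0) (nat_lit 110872954472) (nat_lit 76) (nat_lit 25187666017) (nat_lit 76) (nat_lit 22938529331) (nat_lit 3) (nat_lit 4) (nat_lit 4) (nat_lit 5) (nat_lit 4) (nat_lit 4)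 (nat_lit 323) (nat_lit 235) (nat_lit 222)) (XT.nd (nat_lit 78) (nat_lit 0) (nat_lit 0) (XT.lf (nat_lit 0) (nat_lit 124821856303) (nat_lit 76) (nat_lit 24552973370) (nat_lit 76) (nat_lit 22206953445) (nat_lit 3) (nat_lit 4) (nat_lit 4) (nat_lit 5) (nat_lit 4) (nat_lit 4) (nat_lit 324) (nat_lit 235) (nat_lit 221)) (XT.lf (nat_lit 0) (nat_lit 139730696170) (nat_lit 76) (nat_lit 23940136937) (nat_lit 76) (nat_lit 21504410308) (nat_lit 3) (nat_lit 4) (nat_lit 4) (nat_lit 5) (nat_lit 4) (nat_lit 4) (nat_lit 325) (nat_lit 235) (nat_lit 220))))) (XT.nd (nat_lit 156) (nat_lit 0) (nat_lit 0) (XT.nd (nat_lit 78) (nat_lit 0) (nat_lit 0) (XT.lf (nat_lit 0) (nat_lit 155687822755) (nat_lit 76) (nat_lit 23345525093) (nat_lit 76) (nat_lit 20826736702) (nat_lit 3) (nat_lit 4) (nat_lit 4) (nat_lit 5) (nat_lit 4) (nat_lit 4) (nat_lit 326) (nat_lit 235) (nat_lit 219)) (XT.lf (nat_lit 0) (nat_lit 172787796808)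 (nat_lit 76) (nat_lit 22765614213) (nat_lit 76) (nat_lit 20169916783) (nat_lit 3) (nat_lit 4) (nat_lit 4) (nat_lit 5) (nat_lit 4) (nat_lit 4) (nat_lit 327) (nat_lit 235) (nat_lit 218))) (XT.nd (nat_lit 78) (nat_lit 0) (nat_lit 0) (XT.lf (nat_lit 0) (nat_lit 191131951507) (nat_lit 76) (nat_lit 22196967788) (nat_lit 76) (nat_lit 19530058284) (nat_lit 3) (nat_lit 4) (nat_lit 4) (nat_lit 5) (nat_lit 4) (nat_lit 4) (nat_lit 328) (nat_lit 235) (nat_lit 217)) (XT.nd (nat_lit 78) (nat_lit 0) (nat_lit 0) (XT.lf (nat_lit 0) (nat_lit 210828992955) (nat_lit 76) (nat_lit 21636216061) (nat_lit 76) (nat_lit 18903369453) (nat_lit 3) (nat_lit 4) (nat_lit 4) (nat_lit 5) (nat_lit 4) (nat_lit 4) (nat_lit 329) (nat_lit 235) (nat_lit 216)) (XT.lf (nat_lit 0) (nat_lit 231995644360) (nat_lit 76) (nat_lit 21080036060) (nat_lit 76) (nat_lit 18286136577) (nat_lit 3) (nat_lit 4) (nat_lit 4) (nat_lit 5) (nat_lit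 4) (nat_lit 4) (nat_lit 330) (nat_lit 235) (nat_lit 215))))))) (XT.nd (nat_lit 780) (nat_lit 0) (nat_lit 0) (XT.nd (nat_lit 390) (nat_lit 0) (nat_lit 0) (XT.nd (nat_lit 156) (nat_lit 0) (nat_lit 0) (XT.nd (nat_lit 78) (nat_lit 0) (nat_lit 0) (XT.lf (nat_lit 0) (nat_lit 254757337731) (nat_lit 76) (nat_lit 20525131902) (nat_lit 76) (nat_lit 17674701979) (nat_lit 3) (nat_lit 4) (nat_lit 4) (nat_lit 5) (nat_lit 4) (nat_lit 4) (nat_lit 331) (nat_lit 235) (nat_lit 214)) (XT.lf (nat_lit 0) (nat_lit 279248957177) (nat_lit 76) (nat_lit 19968215267) (nat_lit 76) (nat_lit 17065442344) (nat_lit 3) (nat_lit 4) (nat_lit 4) (nat_lit 5) (nat_lit 4) (nat_lit 4) (nat_lit 332) (nat_lit 235) (nat_lit 213))) (XT.nd (nat_lit 78) (nat_lit 0) (nat_lit 0) (XT.lf (nat_lit 0) (nat_lit 305615638221) (nat_lit 76) (nat_lit 19405985908) (nat_lit 76) (nat_lit 16454747245) (nat_lit 3) (nat_lit 4) (nat_lit 4) (nat_lit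 5) (nat_lit 4) (nat_lit 4) (nat_lit 333) (nat_lit 235) (nat_lit 212)) (XT.nd (nat_lit 78) (nat_lit 0) (nat_lit 0) (XT.lf (nat_lit 0) (nat_lit 334013627860) (nat_lit 76) (nat_lit 18835112096) (nat_lit 76) (nat_lit 15838997747) (nat_lit 3) (nat_lit 4) (nat_lit 4) (nat_lit 5) (nat_lit 4) (nat_lit 4) (nat_lit 334) (nat_lit 235) (nat_lit 211)) (XT.lf (nat_lit 0) (nat_lit 364611210478) (nat_lit 76) (nat_lit 18252210874) (nat_lit 76) (nat_lit 15214544964) (nat_lit 3) (nat_lit 4) (nat_lit 4) (nat_lit 5) (nat_lit 4) (nat_lit 4) (nat_lit 335) (nat_lit 235) (nat_lit 210))))) (XT.nd (nat_lit 156) (nat_lit 0) (nat_lit 0) (XT.nd (nat_lit 78) (nat_lit 0) (nat_lit 0) (XT.lf (nat_lit 0) (nat_lit 397589705084) (nat_lit 76) (nat_lit 17653828014) (nat_lit 76) (nat_lit 14577688436) (nat_lit 3) (nat_lit 4) (nat_lit 4) (nat_lit 5) (nat_lit 4) (nat_lit 4) (nat_lit 336) (nat_lit 235) (nat_lit 209)) (XT.lf (nat_lit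 0) (nat_lit 433144539792) (nat_lit 76) (nat_lit 17036417541) (nat_lit 76) (nat_lit 13924654198) (nat_lit 3) (nat_lit 4) (nat_lit 4) (nat_lit 5) (nat_lit 4) (nat_lit 4) (nat_lit 337) (nat_lit 235) (nat_lit 208))) (XT.nd (nat_lit 78) (nat_lit 0) (nat_lit 0) (XT.lf (nat_lit 0) (nat_lit 471486409922) (nat_lit 76) (nat_lit 16396320729) (nat_lit 76) (nat_lit 13251572417) (nat_lit 3) (nat_lit 4) (nat_lit 4) (nat_lit 5) (nat_lit 4) (nat_lit 4) (nat_lit 338) (nat_lit 235) (nat_lit 207)) (XT.nd (nat_lit 78) (nat_lit 0) (nat_lit 0) (XT.lf (nat_lit 0) (nat_lit 512842526553) (nat_lit 76) (nat_lit 15729744411) (nat_lit 76) (nat_lit 12554454461) (nat_lit 3) (nat_lit 4) (nat_lit 4) (nat_lit 5) (nat_lit 4) (nat_lit 4) (nat_lit 339) (nat_lit 235) (nat_lit 206)) (XT.lf (nat_lit 0) (nat_lit 557457962971) (nat_lit 76) (nat_lit 15032738504) (nat_lit 76) (nat_lit 11829169260) (nat_lit 3) (nat_lit 4) (nat_lit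 4) (nat_lit 5) (nat_lit 4) (nat_lit 4) (nat_lit 340) (nat_lit 235) (nat_lit 205)))))) (XT.nd (nat_lit 390) (nat_lit 0) (nat_lit 0) (XT.nd (nat_lit 156) (nat_lit 0) (nat_lit 0) (XT.nd (nat_lit 78) (nat_lit 0) (nat_lit 0) (XT.lf (nat_lit 0) (nat_lit 605597106946) (nat_lit 76) (nat_lit 14301172603) (nat_lit 76) (nat_lit 11071418827) (nat_lit 3) (nat_lit 4) (nat_lit 4) (nat_lit 5) (nat_lit 4) (nat_lit 4) (nat_lit 341) (nat_lit 235) (nat_lit 204)) (XT.lf (nat_lit 0) (nat_lit 657545227480) (nat_lit 76) (nat_lit 13530711503) (nat_lit 76) (nat_lit 10276712791) (nat_lit 3) (nat_lit 4) (nat_lit 4) (nat_lit 5) (nat_lit 4) (nat_lit 4) (nat_lit 342) (nat_lit 235) (nat_lit 203))) (XT.nd (nat_lit 78) (nat_lit 0) (nat_lit 0) (XT.lf (nat_lit 0) (nat_lit 713610165287) (nat_lit 76) (nat_lit 12716789509) (nat_lit 76) (nat_lit 9440341782) (nat_lit 3) (nat_lit 4) (nat_lit 4) (nat_lit 5) (nat_lit 4) (nat_lit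 4) (nat_lit 343) (nat_lit 235) (nat_lit 202)) (XT.nd (nat_lit 78) (nat_lit 0) (nat_lit 0) (XT.lf (nat_lit 0) (nat_lit 774124157036) (nat_lit 76) (nat_lit 11854583379) (nat_lit 76) (nat_lit 8557349526) (nat_lit 3) (nat_lit 4) (nat_lit 4) (nat_lit 5) (nat_lit 4) (nat_lit 4) (nat_lit 344) (nat_lit 235) (nat_lit 201)) (XT.lf (nat_lit 0) (nat_lit 839445804160) (nat_lit 76) (nat_lit 10938983744) (nat_lit 76) (nat_lit 7622503478) (nat_lit 3) (nat_lit 4) (nat_lit 4) (nat_lit 5) (nat_lit 4) (nat_lit 4) (nat_lit 345) (nat_lit 235) (nat_lit 200))))) (XT.nd (nat_lit 156) (nat_lit 0) (nat_lit 0) (XT.nd (nat_lit 78) (nat_lit 0) (nat_lit 0) (XT.lf (nat_lit 0) (nat_lit 909962197899) (nat_lit 76) (nat_lit 9964564827) (nat_lit 76) (nat_lit 6630263810) (nat_lit 3) (nat_lit 4) (nat_lit 4) (nat_lit 5) (nat_lit 4) (nat_lit 4) (nat_lit 346) (nat_lit 235) (nat_lit 199)) (XT.lf (nat_lit 0) (nat_lit 986091213181)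 (nat_lit 76) (nat_lit 8925552295) (nat_lit 76) (nat_lit 5574750581) (nat_lit 3) (nat_lit 4) (nat_lit 4) (nat_lit 5) (nat_lit 4) (nat_lit 4) (nat_lit 347) (nat_lit 235) (nat_lit 198))) (XT.nd (nat_lit 37518) (nat_lit 0) (nat_lit 76) (XT.lf (nat_lit 0) (nat_lit 1068283984910) (nat_lit 76) (nat_lit 7815789036) (nat_lit 76) (nat_lit 4449708900) (nat_lit 3) (nat_lit 4) (nat_lit 4) (nat_lit 5) (nat_lit 4) (nat_lit 4) (nat_lit 348) (nat_lit 235) (nat_lit 197)) (XT.nd (nat_lit 78) (nat_lit 0) (nat_lit 0) (XT.lf (nat_lit 0) (nat_lit 5867470674) (nat_lit 152) (nat_lit 14183710203) (nat_lit 0) (nat_lit 5867470674) (nat_lit 4) (nat_lit 5) (nat_lit 6) (nat_lit 4) (nat_lit 4) (nat_lit 4) (nat_lit 308) (nat_lit 236) (nat_lit 236)) (XT.lf (nat_lit 0) (nat_lit 17240319494) (nat_lit 152) (nat_lit 21541553076) (nat_lit 0) (nat_lit 16955754660) (nat_lit 4) (nat_lit 5) (nat_lit 6) (nat_lit 4) (nat_lit 4)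 (nat_lit 4) (nat_lit 309) (nat_lit 236) (nat_lit 235))))))))
noncomputable def xc10 : XT := (XT.nd (nat_lit 1560) (nat_lit 0) (nat_lit 0) (XT.nd (nat_lit 780) (nat_lit 0) (nat_lit 0) (XT.nd (nat_lit 390) (nat_lit 0) (nat_lit 0) (XT.nd (nat_lit 156) (nat_lit 76) (nat_lit 0) (XT.nd (nat_lit 78) (nat_lit 0) (nat_lit 0) (XT.lf (nat_lit 0) (nat_lit 22948487508) (nat_lit 152) (nat_lit 14613079623) (nat_lit 0) (nat_lit 22400436717) (nat_lit 4) (nat_lit 5) (nat_lit 6) (nat_lit 4) (nat_lit 4) (nat_lit 4) (nat_lit 310) (nat_lit 236) (nat_lit 234)) (XT.lf (nat_lit 0) (nat_lit 28893271572) (nat_lit 152) (nat_lit 7540942426) (nat_lit 0) (nat_lit 28101252302) (nat_lit 4) (nat_lit 5) (nat_lit 6) (nat_lit 4) (nat_lit 4) (nat_lit 4) (nat_lit 311) (nat_lit 236) (nat_lit 233))) (XT.nd (nat_lit 78) (nat_lit 76) (nat_lit 0) (XT.lf (nat_lit 0) (nat_lit 35109900035) (nat_lit 152) (nat_lit 283232523) (nat_lit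 0) (nat_lit 34091984026) (nat_lit 4) (nat_lit 5) (nat_lit 6) (nat_lit 4) (nat_lit 4) (nat_lit 4) (nat_lit 312) (nat_lit 236) (nat_lit 232)) (XT.nd (nat_lit 78) (nat_lit 0) (nat_lit 0) (XT.lf (nat_lit 0) (nat_lit 7441224386) (nat_lit 76) (nat_lit 34310166157) (nat_lit 76) (nat_lit 33083086501) (nat_lit 3) (nat_lit 4) (nat_lit 4) (nat_lit 5) (nat_lit 4) (nat_lit 4) (nat_lit 313) (nat_lit 236) (nat_lit 231)) (XT.lf (nat_lit 0) (nat_lit 15457015586) (nat_lit 76) (nat_lit 33292188260) (nat_lit 76) (nat_lit 31871438559) (nat_lit 3) (nat_lit 4) (nat_lit 4) (nat_lit 5) (nat_lit 4) (nat_lit 4) (nat_lit 314) (nat_lit 236) (nat_lit 230))))) (XT.nd (nat_lit 156) (nat_lit 0) (nat_lit 0) (XT.nd (nat_lit 78) (nat_lit 0) (nat_lit 0) (XT.lf (nat_lit 0) (nat_lit 23802277114) (nat_lit 76) (nat_lit 32337963084) (nat_lit 76) (nat_lit 30737889268) (nat_lit 3) (nat_lit 4) (nat_lit 4) (nat_lit 5) (nat_lit 4)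 (nat_lit 4) (nat_lit 315) (nat_lit 236) (nat_lit 229)) (XT.lf (nat_lit 0) (nat_lit 32526462373) (nat_lit 76) (nat_lit 31441835963) (nat_lit 76) (nat_lit 29675721299) (nat_lit 3) (nat_lit 4) (nat_lit 4) (nat_lit 5) (nat_lit 4) (nat_lit 4) (nat_lit 316) (nat_lit 236) (nat_lit 228))) (XT.nd (nat_lit 78) (nat_lit 0) (nat_lit 0) (XT.lf (nat_lit 0) (nat_lit 41681270238) (nat_lit 76) (nat_lit 30598496512) (nat_lit 76) (nat_lit 28678640324) (nat_lit 3) (nat_lit 4) (nat_lit 4) (nat_lit 5) (nat_lit 4) (nat_lit 4) (nat_lit 317) (nat_lit 236) (nat_lit 227)) (XT.nd (nat_lit 78) (nat_lit 0) (nat_lit 0) (XT.lf (nat_lit 0) (nat_lit 51320951422) (nat_lit 76) (nat_lit 29802947166) (nat_lit 76) (nat_lit 27740737714) (nat_lit 3) (nat_lit 4) (nat_lit 4) (nat_lit 5) (nat_lit 4) (nat_lit 4) (nat_lit 318) (nat_lit 236) (nat_lit 226)) (XT.lf (nat_lit 0) (nat_lit 61502629961) (nat_lit 76) (nat_lit 29050473558)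 (nat_lit 76) (nat_lit 26856455528) (nat_lit 3) (nat_lit 4) (nat_lit 4) (nat_lit 5) (nat_lit 4) (nat_lit 4) (nat_lit 319) (nat_lit 236) (nat_lit 225)))))) (XT.nd (nat_lit 390) (nat_lit 0) (nat_lit 0) (XT.nd (nat_lit 156) (nat_lit 0) (nat_lit 0) (XT.nd (nat_lit 78) (nat_lit 0) (nat_lit 0) (XT.lf (nat_lit 0) (nat_lit 72286641729) (nat_lit 76) (nat_lit 28336616585) (nat_lit 76) (nat_lit 26020553575) (nat_lit 3) (nat_lit 4) (nat_lit 4) (nat_lit 5) (nat_lit 4) (nat_lit 4) (nat_lit 320) (nat_lit 236) (nat_lit 224)) (XT.lf (nat_lit 0) (nat_lit 83736891980) (nat_lit 76) (nat_lit 27657145982) (nat_lit 76) (nat_lit 25228078362) (nat_lit 3) (nat_lit 4) (nat_lit 4) (nat_lit 5) (nat_lit 4) (nat_lit 4) (nat_lit 321) (nat_lit 236) (nat_lit 223))) (XT.nd (nat_lit 78) (nat_lit 0) (nat_lit 0) (XT.lf (nat_lit 0) (nat_lit 95921234050) (nat_lit 76) (nat_lit 27008035259) (nat_lit 76) (nat_lit 24474333740) (nat_lit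 3) (nat_lit 4) (nat_lit 4) (nat_lit 5) (nat_lit 4) (nat_lit 4) (nat_lit 322) (nat_lit 236) (nat_lit 222)) (XT.nd (nat_lit 78) (nat_lit 0) (nat_lit 0) (XT.lf (nat_lit 0) (nat_lit 108911871446) (nat_lit 76) (nat_lit 26385437832) (nat_lit 76) (nat_lit 23754853073) (nat_lit 3) (nat_lit 4) (nat_lit 4) (nat_lit 5) (nat_lit 4) (nat_lit 4) (nat_lit 323) (nat_lit 236) (nat_lit 221)) (XT.lf (nat_lit 0) (nat_lit 122785785724) (nat_lit 76) (nat_lit 25785664236) (nat_lit 76) (nat_lit 23065372774) (nat_lit 3) (nat_lit 4) (nat_lit 4) (nat_lit 5) (nat_lit 4) (nat_lit 4) (nat_lit 324) (nat_lit 236) (nat_lit 220))))) (XT.nd (nat_lit 156) (nat_lit 0) (nat_lit 0) (XT.nd (nat_lit 78) (nat_lit 0) (nat_lit 0) (XT.lf (nat_lit 0) (nat_lit 137625192673) (nat_lit 76) (nat_lit 25205160257) (nat_lit 76) (nat_lit 22401807032) (nat_lit 3) (nat_lit 4) (nat_lit 4) (nat_lit 5) (nat_lit 4) (nat_lit 4) (nat_lit 325) (nat_lit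 236) (nat_lit 219)) (XT.lf (nat_lit 0) (nat_lit 153518029518) (nat_lit 76) (nat_lit 24640485870) (nat_lit 76) (nat_lit 21760223606) (nat_lit 3) (nat_lit 4) (nat_lit 4) (nat_lit 5) (nat_lit 4) (nat_lit 4) (nat_lit 326) (nat_lit 236) (nat_lit 218))) (XT.nd (nat_lit 78) (nat_lit 0) (nat_lit 0) (XT.lf (nat_lit 0) (nat_lit 170558476033) (nat_lit 76) (nat_lit 24088294858) (nat_lit 76) (nat_lit 21136820521) (nat_lit 3) (nat_lit 4) (nat_lit 4) (nat_lit 5) (nat_lit 4) (nat_lit 4) (nat_lit 327) (nat_lit 236) (nat_lit 217)) (XT.nd (nat_lit 78) (nat_lit 0) (nat_lit 0) (XT.lf (nat_lit 0) (nat_lit 188847512642) (nat_lit 76) (nat_lit 23545314978) (nat_lit 76) (nat_lit 20527903536) (nat_lit 3) (nat_lit 4) (nat_lit 4) (nat_lit 5) (nat_lit 4) (nat_lit 4) (nat_lit 328) (nat_lit 236) (nat_lit 216)) (XT.lf (nat_lit 0) (nat_lit 208493518821) (nat_lit 76) (nat_lit 23008328570) (nat_lit 76) (nat_lit 19929864253)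 (nat_lit 3) (nat_lit 4) (nat_lit 4) (nat_lit 5) (nat_lit 4) (nat_lit 4) (nat_lit 329) (nat_lit 236) (nat_lit 215))))))) (XT.nd (nat_lit 780) (nat_lit 0) (nat_lit 0) (XT.nd (nat_lit 390) (nat_lit 0) (nat_lit 0) (XT.nd (nat_lit 156) (nat_lit 0) (nat_lit 0) (XT.nd (nat_lit 78) (nat_lit 0) (nat_lit 0) (XT.lf (nat_lit 0) (nat_lit 229612915349) (nat_lit 76) (nat_lit 22474153494) (nat_lit 76) (nat_lit 19339158737) (nat_lit 3) (nat_lit 4) (nat_lit 4) (nat_lit 5) (nat_lit 4) (nat_lit 4) (nat_lit 330) (nat_lit 236) (nat_lit 214)) (XT.lf (nat_lit 0) (nat_lit 252330854203) (nat_lit 76) (nat_lit 21939624266) (nat_lit 76) (nat_lit 18752286510) (nat_lit 3) (nat_lit 4) (nat_lit 4) (nat_lit 5) (nat_lit 4) (nat_lit 4) (nat_lit 331) (nat_lit 236) (nat_lit 213))) (XT.nd (nat_lit 78) (nat_lit 0) (nat_lit 0) (XT.lf (nat_lit 0) (nat_lit 276781960207) (nat_lit 76) (nat_lit 21401573308) (nat_lit 76) (nat_lit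 18165769811) (nat_lit 3) (nat_lit 4) (nat_lit 4) (nat_lit 5) (nat_lit 4) (nat_lit 4) (nat_lit 332) (nat_lit 236) (nat_lit 212)) (XT.nd (nat_lit 78) (nat_lit 0) (nat_lit 0) (XT.lf (nat_lit 0) (nat_lit 303111128805) (nat_lit 76) (nat_lit 20856812168) (nat_lit 76) (nat_lit 17576132985) (nat_lit 3) (nat_lit 4) (nat_lit 4) (nat_lit 5) (nat_lit 4) (nat_lit 4) (nat_lit 333) (nat_lit 236) (nat_lit 211)) (XT.lf (nat_lit 0) (nat_lit 331474384698) (nat_lit 76) (nat_lit 20302112632) (nat_lit 76) (nat_lit 16979881888) (nat_lit 3) (nat_lit 4) (nat_lit 4) (nat_lit 5) (nat_lit 4) (nat_lit 4) (nat_lit 334) (nat_lit 236) (nat_lit 210))))) (XT.nd (nat_lit 156) (nat_lit 0) (nat_lit 0) (XT.nd (nat_lit 78) (nat_lit 0) (nat_lit 0) (XT.lf (nat_lit 0) (nat_lit 362039806440) (nat_lit 76) (nat_lit 19734187592) (nat_lit 76) (nat_lit 16373483181) (nat_lit 3) (nat_lit 4) (nat_lit 4) (nat_lit 5) (nat_lit 4) (nat_lit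 4) (nat_lit 335) (nat_lit 236) (nat_lit 209)) (XT.lf (nat_lit 0) (nat_lit 394988522457) (nat_lit 76) (nat_lit 19149671567) (nat_lit 76) (nat_lit 15753343390) (nat_lit 3) (nat_lit 4) (nat_lit 4) (nat_lit 5) (nat_lit 4) (nat_lit 4) (nat_lit 336) (nat_lit 236) (nat_lit 208))) (XT.nd (nat_lit 78) (nat_lit 0) (nat_lit 0) (XT.lf (nat_lit 0) (nat_lit 430515784398) (nat_lit 76) (nat_lit 18545100757) (nat_lit 76) (nat_lit 15115787611) (nat_lit 3) (nat_lit 4) (nat_lit 4) (nat_lit 5) (nat_lit 4) (nat_lit 4) (nat_lit 337) (nat_lit 236) (nat_lit 207)) (XT.nd (nat_lit 78) (nat_lit 0) (nat_lit 0) (XT.lf (nat_lit 0) (nat_lit 468832124187) (nat_lit 76) (nat_lit 17916892521) (nat_lit 76) (nat_lit 14457037738) (nat_lit 3) (nat_lit 4) (nat_lit 4) (nat_lit 5) (nat_lit 4) (nat_lit 4) (nat_lit 338) (nat_lit 236) (nat_lit 206)) (XT.lf (nat_lit 0) (nat_lit 510164601614) (nat_lit 76) (nat_lit 17261324143) (nat_lit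 76) (nat_lit 13773190066) (nat_lit 3) (nat_lit 4) (nat_lit 4) (nat_lit 5) (nat_lit 4) (nat_lit 4) (nat_lit 339) (nat_lit 236) (nat_lit 205)))))) (XT.nd (nat_lit 390) (nat_lit 0) (nat_lit 0) (XT.nd (nat_lit 156) (nat_lit 0) (nat_lit 0) (XT.nd (nat_lit 78) (nat_lit 0) (nat_lit 0) (XT.lf (nat_lit 0) (nat_lit 554758149880) (nat_lit 76) (nat_lit 16574510774) (nat_lit 76) (nat_lit 13060192165) (nat_lit 3) (nat_lit 4) (nat_lit 4) (nat_lit 5) (nat_lit 4) (nat_lit 4) (nat_lit 340) (nat_lit 236) (nat_lit 204)) (XT.lf (nat_lit 0) (nat_lit 602877027048) (nat_lit 76) (nat_lit 15852382409) (nat_lit 76) (nat_lit 12313818863) (nat_lit 3) (nat_lit 4) (nat_lit 4) (nat_lit 5) (nat_lit 4) (nat_lit 4) (nat_lit 341) (nat_lit 236) (nat_lit 203))) (XT.nd (nat_lit 78) (nat_lit 0) (nat_lit 0) (XT.lf (nat_lit 0) (nat_lit 654806382020) (nat_lit 76) (nat_lit 15090659768) (nat_lit 76) (nat_lit 11529647206) (nat_lit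 3) (nat_lit 4) (nat_lit 4) (nat_lit 5) (nat_lit 4) (nat_lit 4) (nat_lit 342) (nat_lit 236) (nat_lit 202)) (XT.nd (nat_lit 78) (nat_lit 0) (nat_lit 0) (XT.lf (nat_lit 0) (nat_lit 710853944307) (nat_lit 76) (nat_lit 14284828939) (nat_lit 76) (nat_lit 10703030252) (nat_lit 3) (nat_lit 4) (nat_lit 4) (nat_lit 5) (nat_lit 4) (nat_lit 4) (nat_lit 343) (nat_lit 236) (nat_lit 201)) (XT.lf (nat_lit 0) (nat_lit 771351847610) (nat_lit 76) (nat_lit 13430114629) (nat_lit 76) (nat_lit 9829069530) (nat_lit 3) (nat_lit 4) (nat_lit 4) (nat_lit 5) (nat_lit 4) (nat_lit 4) (nat_lit 344) (nat_lit 236) (nat_lit 200))))) (XT.nd (nat_lit 156) (nat_lit 0) (nat_lit 0) (XT.nd (nat_lit 78) (nat_lit 0) (nat_lit 0) (XT.lf (nat_lit 0) (nat_lit 836658598025) (nat_lit 76) (nat_lit 12521451863) (nat_lit 76) (nat_lit 8902586012) (nat_lit 3) (nat_lit 4) (nat_lit 4) (nat_lit 5) (nat_lit 4) (nat_lit 4) (nat_lit 345) (nat_lit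 236) (nat_lit 199)) (XT.lf (nat_lit 0) (nat_lit 907161198516) (nat_lit 76) (nat_lit 11553455975) (nat_lit 76) (nat_lit 7918089427) (nat_lit 3) (nat_lit 4) (nat_lit 4) (nat_lit 5) (nat_lit 4) (nat_lit 4) (nat_lit 346) (nat_lit 236) (nat_lit 198))) (XT.nd (nat_lit 78) (nat_lit 0) (nat_lit 0) (XT.lf (nat_lit 0) (nat_lit 983277442272) (nat_lit 76) (nat_lit 10520390690) (nat_lit 76) (nat_lit 6869745720) (nat_lit 3) (nat_lit 4) (nat_lit 4) (nat_lit 5) (nat_lit 4) (nat_lit 4) (nat_lit 347) (nat_lit 236) (nat_lit 197)) (XT.nd (nat_lit 37362) (nat_lit 0) (nat_lit 76) (XT.lf (nat_lit 0) (nat_lit 1065458388514) (nat_lit 76) (nat_lit 9416134143) (nat_lit 76) (nat_lit 5751342485) (nat_lit 3) (nat_lit 4) (nat_lit 4) (nat_lit 5) (nat_lit 4) (nat_lit 4) (nat_lit 348) (nat_lit 236) (nat_lit 196)) (XT.lf (nat_lit 0) (nat_lit 821828316) (nat_lit 152) (nat_lit 20812043072) (nat_lit 0) (nat_lit 821828316)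 (nat_lit 4) (nat_lit 5) (nat_lit 6) (nat_lit 4) (nat_lit 4) (nat_lit 4) (nat_lit 306) (nat_lit 237) (nat_lit 237))))))))
noncomputable def xc11 : XT := (XT.nd (nat_lit 1560) (nat_lit 0) (nat_lit 0) (XT.nd (nat_lit 780) (nat_lit 0) (nat_lit 0) (XT.nd (nat_lit 390) (nat_lit 76) (nat_lit 0) (XT.nd (nat_lit 156) (nat_lit 0) (nat_lit 0) (XT.nd (nat_lit 78) (nat_lit 0) (nat_lit 0) (XT.lf (nat_lit 0) (nat_lit 6707058628) (nat_lit 152) (nat_lit 35131131197) (nat_lit 0) (nat_lit 6399728608) (nat_lit 4) (nat_lit 5) (nat_lit 6) (nat_lit 4) (nat_lit 4) (nat_lit 4) (nat_lit 307) (nat_lit 237) (nat_lit 236)) (XT.lf (nat_lit 0) (nat_lit 11918881170) (nat_lit 152) (nat_lit 28597680178) (nat_lit 0) (nat_lit 11326986316) (nat_lit 4) (nat_lit 5) (nat_lit 6) (nat_lit 4) (nat_lit 4) (nat_lit 4) (nat_lit 308) (nat_lit 237) (nat_lit 235))) (XT.nd (nat_lit 78) (nat_lit 0) (nat_lit 0) (XT.lf (nat_lit 0) (nat_lit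 17310009131) (nat_lit 152) (nat_lit 21985016339) (nat_lit 0) (nat_lit 16454628320) (nat_lit 4) (nat_lit 5) (nat_lit 6) (nat_lit 4) (nat_lit 4) (nat_lit 4) (nat_lit 309) (nat_lit 237) (nat_lit 234)) (XT.nd (nat_lit 78) (nat_lit 0) (nat_lit 0) (XT.lf (nat_lit 0) (nat_lit 22912389938) (nat_lit 152) (nat_lit 15253953527) (nat_lit 0) (nat_lit 21813040648) (nat_lit 4) (nat_lit 5) (nat_lit 6) (nat_lit 4) (nat_lit 4) (nat_lit 4) (nat_lit 310) (nat_lit 237) (nat_lit 233)) (XT.lf (nat_lit 0) (nat_lit 28759222883) (nat_lit 152) (nat_lit 8364603960) (nat_lit 0) (nat_lit 27433976854) (nat_lit 4) (nat_lit 5) (nat_lit 6) (nat_lit 4) (nat_lit 4) (nat_lit 4) (nat_lit 311) (nat_lit 237) (nat_lit 232))))) (XT.nd (nat_lit 156) (nat_lit 0) (nat_lit 0) (XT.nd (nat_lit 78) (nat_lit 76) (nat_lit 0) (XT.lf (nat_lit 0) (nat_lit 34885155866) (nat_lit 152) (nat_lit 1276141863) (nat_lit 0) (nat_lit 33350746189) (nat_lit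 4) (nat_lit 5) (nat_lit 6) (nat_lit 4) (nat_lit 4) (nat_lit 4) (nat_lit 312) (nat_lit 237) (nat_lit 231)) (XT.lf (nat_lit 0) (nat_lit 6253592477) (nat_lit 76) (nat_lit 35170534339) (nat_lit 76) (nat_lit 33442454618) (nat_lit 3) (nat_lit 4) (nat_lit 4) (nat_lit 5) (nat_lit 4) (nat_lit 4) (nat_lit 313) (nat_lit 237) (nat_lit 230))) (XT.nd (nat_lit 78) (nat_lit 0) (nat_lit 0) (XT.lf (nat_lit 0) (nat_lit 14119483212) (nat_lit 76) (nat_lit 34222359785) (nat_lit 76) (nat_lit 32314955948) (nat_lit 3) (nat_lit 4) (nat_lit 4) (nat_lit 5) (nat_lit 4) (nat_lit 4) (nat_lit 314) (nat_lit 237) (nat_lit 229)) (XT.nd (nat_lit 78) (nat_lit 0) (nat_lit 0) (XT.lf (nat_lit 0) (nat_lit 22325948014) (nat_lit 76) (nat_lit 33332767334) (nat_lit 76) (nat_lit 31259322651) (nat_lit 3) (nat_lit 4) (nat_lit 4) (nat_lit 5) (nat_lit 4) (nat_lit 4) (nat_lit 315) (nat_lit 237) (nat_lit 228)) (XT.lf (nat_lit 0) (nat_lit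 30921617784) (nat_lit 76) (nat_lit 32496485329) (nat_lit 76) (nat_lit 30269299120) (nat_lit 3) (nat_lit 4) (nat_lit 4) (nat_lit 5) (nat_lit 4) (nat_lit 4) (nat_lit 316) (nat_lit 237) (nat_lit 227)))))) (XT.nd (nat_lit 390) (nat_lit 0) (nat_lit 0) (XT.nd (nat_lit 156) (nat_lit 0) (nat_lit 0) (XT.nd (nat_lit 78) (nat_lit 0) (nat_lit 0) (XT.lf (nat_lit 0) (nat_lit 39957429827) (nat_lit 76) (nat_lit 31708558023) (nat_lit 76) (nat_lit 29339018550) (nat_lit 3) (nat_lit 4) (nat_lit 4) (nat_lit 5) (nat_lit 4) (nat_lit 4) (nat_lit 317) (nat_lit 237) (nat_lit 226)) (XT.lf (nat_lit 0) (nat_lit 49486929694) (nat_lit 76) (nat_lit 30964316218) (nat_lit 76) (nat_lit 28462968167) (nat_lit 3) (nat_lit 4) (nat_lit 4) (nat_lit 5) (nat_lit 4) (nat_lit 4) (nat_lit 318) (nat_lit 237) (nat_lit 225))) (XT.nd (nat_lit 78) (nat_lit 0) (nat_lit 0) (XT.lf (nat_lit 0) (nat_lit 59566588495) (nat_lit 76) (nat_lit 30259349592)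 (nat_lit 76) (nat_lit 27635956562) (nat_lit 3) (nat_lit 4) (nat_lit 4) (nat_lit 5) (nat_lit 4) (nat_lit 4) (nat_lit 319) (nat_lit 237) (nat_lit 224)) (XT.nd (nat_lit 78) (nat_lit 0) (nat_lit 0) (XT.lf (nat_lit 0) (nat_lit 70256137543) (nat_lit 76) (nat_lit 29589480565) (nat_lit 76) (nat_lit 26853082924) (nat_lit 3) (nat_lit 4) (nat_lit 4) (nat_lit 5) (nat_lit 4) (nat_lit 4) (nat_lit 320) (nat_lit 237) (nat_lit 223)) (XT.lf (nat_lit 0) (nat_lit 81618922313) (nat_lit 76) (nat_lit 28950739543) (nat_lit 76) (nat_lit 26109708004) (nat_lit 3) (nat_lit 4) (nat_lit 4) (nat_lit 5) (nat_lit 4) (nat_lit 4) (nat_lit 321) (nat_lit 237) (nat_lit 222))))) (XT.nd (nat_lit 156) (nat_lit 0) (nat_lit 0) (XT.nd (nat_lit 78) (nat_lit 0) (nat_lit 0) (XT.lf (nat_lit 0) (nat_lit 93722277825) (nat_lit 76) (nat_lit 28339341394) (nat_lit 76) (nat_lit 25401426615) (nat_lit 3) (nat_lit 4) (nat_lit 4) (nat_lit 5)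 (nat_lit 4) (nat_lit 4) (nat_lit 322) (nat_lit 237) (nat_lit 221)) (XT.lf (nat_lit 0) (nat_lit 106637927669) (nat_lit 76) (nat_lit 27751663018) (nat_lit 76) (nat_lit 24724041535) (nat_lit 3) (nat_lit 4) (nat_lit 4) (nat_lit 5) (nat_lit 4) (nat_lit 4) (nat_lit 323) (nat_lit 237) (nat_lit 220))) (XT.nd (nat_lit 78) (nat_lit 0) (nat_lit 0) (XT.lf (nat_lit 0) (nat_lit 120442409028) (nat_lit 76) (nat_lit 27184221876) (nat_lit 76) (nat_lit 24073538631) (nat_lit 3) (nat_lit 4) (nat_lit 4) (nat_lit 5) (nat_lit 4) (nat_lit 4) (nat_lit 324) (nat_lit 237) (nat_lit 219)) (XT.nd (nat_lit 78) (nat_lit 0) (nat_lit 0) (XT.lf (nat_lit 0) (nat_lit 135217526236) (nat_lit 76) (nat_lit 26633655354) (nat_lit 76) (nat_lit 23446063070) (nat_lit 3) (nat_lit 4) (nat_lit 4) (nat_lit 5) (nat_lit 4) (nat_lit 4) (nat_lit 325) (nat_lit 237) (nat_lit 218)) (XT.lf (nat_lit 0) (nat_lit 151050835544) (nat_lit 76) (nat_lit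 26096700835) (nat_lit 76) (nat_lit 22837896478) (nat_lit 3) (nat_lit 4) (nat_lit 4) (nat_lit 5) (nat_lit 4) (nat_lit 4) (nat_lit 326) (nat_lit 237) (nat_lit 217))))))) (XT.nd (nat_lit 780) (nat_lit 0) (nat_lit 0) (XT.nd (nat_lit 390) (nat_lit 0) (nat_lit 0) (XT.nd (nat_lit 156) (nat_lit 0) (nat_lit 0) (XT.nd (nat_lit 78) (nat_lit 0) (nat_lit 0) (XT.lf (nat_lit 0) (nat_lit 168036163969) (nat_lit 76) (nat_lit 25570176368) (nat_lit 76) (nat_lit 22245434905) (nat_lit 3) (nat_lit 4) (nat_lit 4) (nat_lit 5) (nat_lit 4) (nat_lit 4) (nat_lit 327) (nat_lit 237) (nat_lit 216)) (XT.lf (nat_lit 0) (nat_lit 186274165309) (nat_lit 76) (nat_lit 25050961806) (nat_lit 76) (nat_lit 21665167469) (nat_lit 3) (nat_lit 4) (nat_lit 4) (nat_lit 5) (nat_lit 4) (nat_lit 4) (nat_lit 328) (nat_lit 237) (nat_lit 215))) (XT.nd (nat_lit 78) (nat_lit 0) (nat_lit 0) (XT.lf (nat_lit 0) (nat_lit 205872916611) (nat_lit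 76) (nat_lit 24535980323) (nat_lit 76) (nat_lit 21093655546) (nat_lit 3) (nat_lit 4) (nat_lit 4) (nat_lit 5) (nat_lit 4) (nat_lit 4) (nat_lit 329) (nat_lit 237) (nat_lit 214)) (XT.nd (nat_lit 78) (nat_lit 0) (nat_lit 0) (XT.lf (nat_lit 0) (nat_lit 226948558621) (nat_lit 76) (nat_lit 24022180177) (nat_lit 76) (nat_lit 20527512400) (nat_lit 3) (nat_lit 4) (nat_lit 4) (nat_lit 5) (nat_lit 4) (nat_lit 4) (nat_lit 330) (nat_lit 237) (nat_lit 213)) (XT.lf (nat_lit 0) (nat_lit 249625984034) (nat_lit 76) (nat_lit 23506516626) (nat_lit 76) (nat_lit 19963383109) (nat_lit 3) (nat_lit 4) (nat_lit 4) (nat_lit 5) (nat_lit 4) (nat_lit 4) (nat_lit 331) (nat_lit 237) (nat_lit 212))))) (XT.nd (nat_lit 156) (nat_lit 0) (nat_lit 0) (XT.nd (nat_lit 78) (nat_lit 0) (nat_lit 0) (XT.lf (nat_lit 0) (nat_lit 274039577593) (nat_lit 76) (nat_lit 22985933887) (nat_lit 76) (nat_lit 19397924683) (nat_lit 3) (nat_lit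 4) (nat_lit 4) (nat_lit 5) (nat_lit 4) (nat_lit 4) (nat_lit 332) (nat_lit 237) (nat_lit 211)) (XT.lf (nat_lit 0) (nat_lit 300334012444) (nat_lit 76) (nat_lit 22457347023) (nat_lit 76) (nat_lit 18827786259) (nat_lit 3) (nat_lit 4) (nat_lit 4) (nat_lit 5) (nat_lit 4) (nat_lit 4) (nat_lit 333) (nat_lit 237) (nat_lit 210))) (XT.nd (nat_lit 78) (nat_lit 0) (nat_lit 0) (XT.lf (nat_lit 0) (nat_lit 328665107461) (nat_lit 76) (nat_lit 21917623670) (nat_lit 76) (nat_lit 18249589238) (nat_lit 3) (nat_lit 4) (nat_lit 4) (nat_lit 5) (nat_lit 4) (nat_lit 4) (nat_lit 334) (nat_lit 237) (nat_lit 209)) (XT.nd (nat_lit 78) (nat_lit 0) (nat_lit 0) (XT.lf (nat_lit 0) (nat_lit 359200750614) (nat_lit 76) (nat_lit 21363565465) (nat_lit 76) (nat_lit 17659907268) (nat_lit 3) (nat_lit 4) (nat_lit 4) (nat_lit 5) (nat_lit 4) (nat_lit 4) (nat_lit 335) (nat_lit 237) (nat_lit 208)) (XT.lf (nat_lit 0) (nat_lit 392121893863)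 (nat_lit 76) (nat_lit 20791889102) (nat_lit 76) (nat_lit 17055245936) (nat_lit 3) (nat_lit 4) (nat_lit 4) (nat_lit 5) (nat_lit 4) (nat_lit 4) (nat_lit 336) (nat_lit 237) (nat_lit 207)))))) (XT.nd (nat_lit 390) (nat_lit 0) (nat_lit 0) (XT.nd (nat_lit 156) (nat_lit 0) (nat_lit 0) (XT.nd (nat_lit 78) (nat_lit 0) (nat_lit 0) (XT.lf (nat_lit 0) (nat_lit 427623625464) (nat_lit 76) (nat_lit 20199206869) (nat_lit 76) (nat_lit 16432022065) (nat_lit 3) (nat_lit 4) (nat_lit 4) (nat_lit 5) (nat_lit 4) (nat_lit 4) (nat_lit 337) (nat_lit 237) (nat_lit 206)) (XT.lf (nat_lit 0) (nat_lit 465916326049) (nat_lit 76) (nat_lit 19582006574) (nat_lit 76) (nat_lit 15786542476) (nat_lit 3) (nat_lit 4) (nat_lit 4) (nat_lit 5) (nat_lit 4) (nat_lit 4) (nat_lit 338) (nat_lit 237) (nat_lit 205))) (XT.nd (nat_lit 78) (nat_lit 0) (nat_lit 0) (XT.lf (nat_lit 0) (nat_lit 507226915324) (nat_lit 76) (nat_lit 18936630734)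 (nat_lit 76) (nat_lit 15114982104) (nat_lit 3) (nat_lit 4) (nat_lit 4) (nat_lit 5) (nat_lit 4) (nat_lit 4) (nat_lit 339) (nat_lit 237) (nat_lit 204)) (XT.nd (nat_lit 78) (nat_lit 0) (nat_lit 0) (XT.lf (nat_lit 0) (nat_lit 551800196783) (nat_lit 76) (nat_lit 18259254900) (nat_lit 76) (nat_lit 14413361334) (nat_lit 3) (nat_lit 4) (nat_lit 4) (nat_lit 5) (nat_lit 4) (nat_lit 4) (nat_lit 340) (nat_lit 237) (nat_lit 203)) (XT.lf (nat_lit 0) (nat_lit 599900308389) (nat_lit 76) (nat_lit 17545864993) (nat_lit 76) (nat_lit 13677522411) (nat_lit 3) (nat_lit 4) (nat_lit 4) (nat_lit 5) (nat_lit 4) (nat_lit 4) (nat_lit 341) (nat_lit 237) (nat_lit 202))))) (XT.nd (nat_lit 234) (nat_lit 0) (nat_lit 0) (XT.nd (nat_lit 78) (nat_lit 0) (nat_lit 0) (XT.lf (nat_lit 0) (nat_lit 651812287840) (nat_lit 76) (nat_lit 16792233517) (nat_lit 76) (nat_lit 12903104810) (nat_lit 3) (nat_lit 4) (nat_lit 4) (nat_lit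 5) (nat_lit 4) (nat_lit 4) (nat_lit 342) (nat_lit 237) (nat_lit 201)) (XT.nd (nat_lit 78) (nat_lit 0) (nat_lit 0) (XT.lf (nat_lit 0) (nat_lit 707843761681) (nat_lit 76) (nat_lit 15993894508) (nat_lit 76) (nat_lit 12085519388) (nat_lit 3) (nat_lit 4) (nat_lit 4) (nat_lit 5) (nat_lit 4) (nat_lit 4) (nat_lit 343) (nat_lit 237) (nat_lit 200)) (XT.lf (nat_lit 0) (nat_lit 768326768277) (nat_lit 76) (nat_lit 15146117068) (nat_lit 76) (nat_lit 11219921196) (nat_lit 3) (nat_lit 4) (nat_lit 4) (nat_lit 5) (nat_lit 4) (nat_lit 4) (nat_lit 344) (nat_lit 237) (nat_lit 199)))) (XT.nd (nat_lit 78) (nat_lit 0) (nat_lit 0) (XT.lf (nat_lit 0) (nat_lit 833619725443) (nat_lit 76) (nat_lit 14243877330) (nat_lit 76) (nat_lit 10301180762) (nat_lit 3) (nat_lit 4) (nat_lit 4) (nat_lit 5) (nat_lit 4) (nat_lit 4) (nat_lit 345) (nat_lit 237) (nat_lit 198)) (XT.nd (nat_lit 78) (nat_lit 0) (nat_lit 0) (XT.lf (nat_lit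 0) (nat_lit 904109554408) (nat_lit 76) (nat_lit 13281828689) (nat_lit 76) (nat_lit 9323853699) (nat_lit 3) (nat_lit 4) (nat_lit 4) (nat_lit 5) (nat_lit 4) (nat_lit 4) (nat_lit 346) (nat_lit 237) (nat_lit 197)) (XT.lf (nat_lit 0) (nat_lit 980213972676) (nat_lit 76) (nat_lit 12254270116) (nat_lit 76) (nat_lit 8282148438) (nat_lit 3) (nat_lit 4) (nat_lit 4) (nat_lit 5) (nat_lit 4) (nat_lit 4) (nat_lit 347) (nat_lit 237) (nat_lit 196))))))))
noncomputable def xc12 : XT := (XT.nd (nat_lit 38688) (nat_lit 0) (nat_lit 0) (XT.nd (nat_lit 37908) (nat_lit 0) (nat_lit 0) (XT.nd (nat_lit 37518) (nat_lit 0) (nat_lit 76) (XT.nd (nat_lit 37284) (nat_lit 0) (nat_lit 76) (XT.nd (nat_lit 37206) (nat_lit 0) (nat_lit 228) (XT.lf (nat_lit 0) (nat_lit 1062383969393) (nat_lit 76) (nat_lit 11155112375) (nat_lit 76) (nat_lit 7169891912) (nat_lit 3) (nat_lit 4) (nat_lit 4) (nat_lit 5) (nat_lit 4) (nat_lit 4) (nat_lit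 348) (nat_lit 237) (nat_lit 195)) (XT.lf (nat_lit 0) (nat_lit 11935979401) (nat_lit 76) (nat_lit 3778736810) (nat_lit 76) (nat_lit 3778736810) (nat_lit 6) (nat_lit 4) (nat_lit 7) (nat_lit 5) (nat_lit 7) (nat_lit 4) (nat_lit 304) (nat_lit 238) (nat_lit 238))) (XT.nd (nat_lit 78) (nat_lit 152) (nat_lit 0) (XT.lf (nat_lit 0) (nat_lit 35664801728) (nat_lit 76) (nat_lit 3259057556) (nat_lit 76) (nat_lit 2910545313) (nat_lit 6) (nat_lit 4) (nat_lit 7) (nat_lit 5) (nat_lit 7) (nat_lit 4) (nat_lit 305) (nat_lit 238) (nat_lit 237)) (XT.nd (nat_lit 78) (nat_lit 0) (nat_lit 0) (XT.lf (nat_lit 0) (nat_lit 1842311640) (nat_lit 152) (nat_lit 41872766698) (nat_lit 0) (nat_lit 1203065197) (nat_lit 4) (nat_lit 5) (nat_lit 6) (nat_lit 4) (nat_lit 4) (nat_lit 4) (nat_lit 306) (nat_lit 238) (nat_lit 236)) (XT.lf (nat_lit 0) (nat_lit 6782323436) (nat_lit 152) (nat_lit 35610071521) (nat_lit 0) (nat_lit 5858512160)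 (nat_lit 4) (nat_lit 5) (nat_lit 6) (nat_lit 4) (nat_lit 4) (nat_lit 4) (nat_lit 307) (nat_lit 238) (nat_lit 235))))) (XT.nd (nat_lit 156) (nat_lit 0) (nat_lit 0) (XT.nd (nat_lit 78) (nat_lit 0) (nat_lit 0) (XT.lf (nat_lit 0) (nat_lit 11879895793) (nat_lit 152) (nat_lit 29289823994) (nat_lit 0) (nat_lit 10692598561) (nat_lit 4) (nat_lit 5) (nat_lit 6) (nat_lit 4) (nat_lit 4) (nat_lit 4) (nat_lit 308) (nat_lit 238) (nat_lit 234)) (XT.lf (nat_lit 0) (nat_lit 17165236547) (nat_lit 152) (nat_lit 22874570796) (nat_lit 0) (nat_lit 15733970836) (nat_lit 4) (nat_lit 5) (nat_lit 6) (nat_lit 4) (nat_lit 4) (nat_lit 4) (nat_lit 309) (nat_lit 238) (nat_lit 233))) (XT.nd (nat_lit 78) (nat_lit 0) (nat_lit 0) (XT.lf (nat_lit 0) (nat_lit 22669666236) (nat_lit 152) (nat_lit 16326295613) (nat_lit 0) (nat_lit 21012503785) (nat_lit 4) (nat_lit 5) (nat_lit 6) (nat_lit 4) (nat_lit 4) (nat_lit 4) (nat_lit 310)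 (nat_lit 238) (nat_lit 232)) (XT.nd (nat_lit 78) (nat_lit 0) (nat_lit 0) (XT.lf (nat_lit 0) (nat_lit 28425803702) (nat_lit 152) (nat_lit 9606193852) (nat_lit 0) (nat_lit 26559477603) (nat_lit 4) (nat_lit 5) (nat_lit 6) (nat_lit 4) (nat_lit 4) (nat_lit 4) (nat_lit 311) (nat_lit 238) (nat_lit 231)) (XT.lf (nat_lit 0) (nat_lit 34467759389) (nat_lit 152) (nat_lit 2674442687) (nat_lit 0) (nat_lit 32407763245) (nat_lit 4) (nat_lit 5) (nat_lit 6) (nat_lit 4) (nat_lit 4) (nat_lit 4) (nat_lit 312) (nat_lit 238) (nat_lit 230)))))) (XT.nd (nat_lit 390) (nat_lit 0) (nat_lit 0) (XT.nd (nat_lit 156) (nat_lit 0) (nat_lit 0) (XT.nd (nat_lit 78) (nat_lit 0) (nat_lit 0) (XT.lf (nat_lit 0) (nat_lit 4659157048) (nat_lit 76) (nat_lit 36244922930) (nat_lit 76) (nat_lit 34005602671) (nat_lit 3) (nat_lit 4) (nat_lit 4) (nat_lit 5) (nat_lit 4) (nat_lit 4) (nat_lit 313) (nat_lit 238) (nat_lit 229)) (XT.lf (nat_lit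 0) (nat_lit 12386251056) (nat_lit 76) (nat_lit 35361381100) (nat_lit 76) (nat_lit 32956019995) (nat_lit 3) (nat_lit 4) (nat_lit 4) (nat_lit 5) (nat_lit 4) (nat_lit 4) (nat_lit 314) (nat_lit 238) (nat_lit 228))) (XT.nd (nat_lit 78) (nat_lit 0) (nat_lit 0) (XT.lf (nat_lit 0) (nat_lit 20464200370) (nat_lit 76) (nat_lit 34531633766) (nat_lit 76) (nat_lit 31972531135) (nat_lit 3) (nat_lit 4) (nat_lit 4) (nat_lit 5) (nat_lit 4) (nat_lit 4) (nat_lit 315) (nat_lit 238) (nat_lit 227)) (XT.nd (nat_lit 78) (nat_lit 0) (nat_lit 0) (XT.lf (nat_lit 0) (nat_lit 28940874318) (nat_lit 76) (nat_lit 33750763904) (nat_lit 76) (nat_lit 31049308009) (nat_lit 3) (nat_lit 4) (nat_lit 4) (nat_lit 5) (nat_lit 4) (nat_lit 4) (nat_lit 316) (nat_lit 238) (nat_lit 226)) (XT.lf (nat_lit 0) (nat_lit 37866505044) (nat_lit 76) (nat_lit 33014144139) (nat_lit 76) (nat_lit 30180879667) (nat_lit 3) (nat_lit 4) (nat_lit 4)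 (nat_lit 5) (nat_lit 4) (nat_lit 4) (nat_lit 317) (nat_lit 238) (nat_lit 225))))) (XT.nd (nat_lit 156) (nat_lit 0) (nat_lit 0) (XT.nd (nat_lit 78) (nat_lit 0) (nat_lit 0) (XT.lf (nat_lit 0) (nat_lit 47293985173) (nat_lit 76) (nat_lit 32317409317) (nat_lit 76) (nat_lit 29362099865) (nat_lit 3) (nat_lit 4) (nat_lit 4) (nat_lit 5) (nat_lit 4) (nat_lit 4) (nat_lit 318) (nat_lit 238) (nat_lit 224)) (XT.lf (nat_lit 0) (nat_lit 57279181254) (nat_lit 76) (nat_lit 31656430638) (nat_lit 76) (nat_lit 28588116575) (nat_lit 3) (nat_lit 4) (nat_lit 4) (nat_lit 5) (nat_lit 4) (nat_lit 4) (nat_lit 319) (nat_lit 238) (nat_lit 223))) (XT.nd (nat_lit 78) (nat_lit 0) (nat_lit 0) (XT.lf (nat_lit 0) (nat_lit 67881264820) (nat_lit 76) (nat_lit 31027291191) (nat_lit 76) (nat_lit 27854343230) (nat_lit 3) (nat_lit 4) (nat_lit 4) (nat_lit 5) (nat_lit 4) (nat_lit 4) (nat_lit 320) (nat_lit 238) (nat_lit 222)) (XT.nd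 (nat_lit 78) (nat_lit 0) (nat_lit 0) (XT.lf (nat_lit 0) (nat_lit 79163063033) (nat_lit 76) (nat_lit 30426262744) (nat_lit 76) (nat_lit 27156431542) (nat_lit 3) (nat_lit 4) (nat_lit 4) (nat_lit 5) (nat_lit 4) (nat_lit 4) (nat_lit 321) (nat_lit 238) (nat_lit 221)) (XT.lf (nat_lit 0) (nat_lit 91191430993) (nat_lit 76) (nat_lit 29849783645) (nat_lit 76) (nat_lit 26490245740) (nat_lit 3) (nat_lit 4) (nat_lit 4) (nat_lit 5) (nat_lit 4) (nat_lit 4) (nat_lit 322) (nat_lit 238) (nat_lit 220))))))) (XT.nd (nat_lit 780) (nat_lit 0) (nat_lit 0) (XT.nd (nat_lit 390) (nat_lit 0) (nat_lit 0) (XT.nd (nat_lit 156) (nat_lit 0) (nat_lit 0) (XT.nd (nat_lit 78) (nat_lit 0) (nat_lit 0) (XT.lf (nat_lit 0) (nat_lit 104037647917) (nat_lit 76) (nat_lit 29294437723) (nat_lit 76) (nat_lit 25851838056) (nat_lit 3) (nat_lit 4) (nat_lit 4) (nat_lit 5) (nat_lit 4) (nat_lit 4) (nat_lit 323) (nat_lit 238) (nat_lit 219))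 (XT.lf (nat_lit 0) (nat_lit 117777839536) (nat_lit 76) (nat_lit 28756934038) (nat_lit 76) (nat_lit 25237425332) (nat_lit 3) (nat_lit 4) (nat_lit 4) (nat_lit 5) (nat_lit 4) (nat_lit 4) (nat_lit 324) (nat_lit 238) (nat_lit 218))) (XT.nd (nat_lit 78) (nat_lit 0) (nat_lit 0) (XT.lf (nat_lit 0) (nat_lit 132493429207) (nat_lit 76) (nat_lit 28234087384) (nat_lit 76) (nat_lit 24643366604) (nat_lit 3) (nat_lit 4) (nat_lit 4) (nat_lit 5) (nat_lit 4) (nat_lit 4) (nat_lit 325) (nat_lit 238) (nat_lit 217)) (XT.nd (nat_lit 78) (nat_lit 0) (nat_lit 0) (XT.lf (nat_lit 0) (nat_lit 148271620425) (nat_lit 76) (nat_lit 27722799410) (nat_lit 76) (nat_lit 24066141525) (nat_lit 3) (nat_lit 4) (nat_lit 4) (nat_lit 5) (nat_lit 4) (nat_lit 4) (nat_lit 326) (nat_lit 238) (nat_lit 216)) (XT.lf (nat_lit 0) (nat_lit 165205913581) (nat_lit 76) (nat_lit 27220040261) (nat_lit 76) (nat_lit 23502329502) (nat_lit 3) (nat_lit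 4) (nat_lit 4) (nat_lit 5) (nat_lit 4) (nat_lit 4) (nat_lit 327) (nat_lit 238) (nat_lit 215))))) (XT.nd (nat_lit 156) (nat_lit 0) (nat_lit 0) (XT.nd (nat_lit 78) (nat_lit 0) (nat_lit 0) (XT.lf (nat_lit 0) (nat_lit 183396660044) (nat_lit 76) (nat_lit 26722830624) (nat_lit 76) (nat_lit 22948589425) (nat_lit 3) (nat_lit 4) (nat_lit 4) (nat_lit 5) (nat_lit 4) (nat_lit 4) (nat_lit 328) (nat_lit 238) (nat_lit 214)) (XT.lf (nat_lit 0) (nat_lit 202951656828) (nat_lit 76) (nat_lit 26228224072) (nat_lit 76) (nat_lit 22401639873) (nat_lit 3) (nat_lit 4) (nat_lit 4) (nat_lit 5) (nat_lit 4) (nat_lit 4) (nat_lit 329) (nat_lit 238) (nat_lit 213))) (XT.nd (nat_lit 78) (nat_lit 0) (nat_lit 0) (XT.lf (nat_lit 0) (nat_lit 223986785397) (nat_lit 76) (nat_lit 25733289602) (nat_lit 76) (nat_lit 21858239663) (nat_lit 3) (nat_lit 4) (nat_lit 4) (nat_lit 5) (nat_lit 4) (nat_lit 4) (nat_lit 330) (nat_lit 238)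 (nat_lit 212)) (XT.nd (nat_lit 78) (nat_lit 0) (nat_lit 0) (XT.lf (nat_lit 0) (nat_lit 246626698364) (nat_lit 76) (nat_lit 25235094270) (nat_lit 76) (nat_lit 21315168645) (nat_lit 3) (nat_lit 4) (nat_lit 4) (nat_lit 5) (nat_lit 4) (nat_lit 4) (nat_lit 331) (nat_lit 238) (nat_lit 211)) (XT.lf (nat_lit 0) (nat_lit 271005558176) (nat_lit 76) (nat_lit 24730685807) (nat_lit 76) (nat_lit 20769208621) (nat_lit 3) (nat_lit 4) (nat_lit 4) (nat_lit 5) (nat_lit 4) (nat_lit 4) (nat_lit 332) (nat_lit 238) (nat_lit 210)))))) (XT.nd (nat_lit 390) (nat_lit 0) (nat_lit 0) (XT.nd (nat_lit 156) (nat_lit 0) (nat_lit 0) (XT.nd (nat_lit 78) (nat_lit 0) (nat_lit 0) (XT.lf (nat_lit 0) (nat_lit 297267832152) (nat_lit 76) (nat_lit 24217075126) (nat_lit 76) (nat_lit 20217124273) (nat_lit 3) (nat_lit 4) (nat_lit 4) (nat_lit 5) (nat_lit 4) (nat_lit 4) (nat_lit 333) (nat_lit 238) (nat_lit 209)) (XT.lf (nat_lit 0)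 (nat_lit 325569148580) (nat_lit 76) (nat_lit 23691218608) (nat_lit 76) (nat_lit 19655643988) (nat_lit 3) (nat_lit 4) (nat_lit 4) (nat_lit 5) (nat_lit 4) (nat_lit 4) (nat_lit 334) (nat_lit 238) (nat_lit 208))) (XT.nd (nat_lit 78) (nat_lit 0) (nat_lit 0) (XT.lf (nat_lit 0) (nat_lit 356077218965) (nat_lit 76) (nat_lit 23150000066) (nat_lit 76) (nat_lit 19081440478) (nat_lit 3) (nat_lit 4) (nat_lit 4) (nat_lit 5) (nat_lit 4) (nat_lit 4) (nat_lit 335) (nat_lit 238) (nat_lit 207)) (XT.nd (nat_lit 78) (nat_lit 0) (nat_lit 0) (XT.lf (nat_lit 0) (nat_lit 388972831874) (nat_lit 76) (nat_lit 22590212279) (nat_lit 76) (nat_lit 18491111053) (nat_lit 3) (nat_lit 4) (nat_lit 4) (nat_lit 5) (nat_lit 4) (nat_lit 4) (nat_lit 336) (nat_lit 238) (nat_lit 206)) (XT.lf (nat_lit 0) (nat_lit 424450924271) (nat_lit 76) (nat_lit 22008537987) (nat_lit 76) (nat_lit 17881157467) (nat_lit 3) (nat_lit 4) (nat_lit 4)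 (nat_lit 5) (nat_lit 4) (nat_lit 4) (nat_lit 337) (nat_lit 238) (nat_lit 205))))) (XT.nd (nat_lit 156) (nat_lit 0) (nat_lit 0) (XT.nd (nat_lit 78) (nat_lit 0) (nat_lit 0) (XT.lf (nat_lit 0) (nat_lit 462721736704) (nat_lit 76) (nat_lit 21401530229) (nat_lit 76) (nat_lit 17247965178) (nat_lit 3) (nat_lit 4) (nat_lit 4) (nat_lit 5) (nat_lit 4) (nat_lit 4) (nat_lit 338) (nat_lit 238) (nat_lit 204)) (XT.lf (nat_lit 0) (nat_lit 504012059172) (nat_lit 76) (nat_lit 20765591925) (nat_lit 76) (nat_lit 16587781937) (nat_lit 3) (nat_lit 4) (nat_lit 4) (nat_lit 5) (nat_lit 4) (nat_lit 4) (nat_lit 339) (nat_lit 238) (nat_lit 203))) (XT.nd (nat_lit 78) (nat_lit 0) (nat_lit 0) (XT.lf (nat_lit 0) (nat_lit 548566575068) (nat_lit 76) (nat_lit 20096954549) (nat_lit 76) (nat_lit 15896695546) (nat_lit 3) (nat_lit 4) (nat_lit 4) (nat_lit 5) (nat_lit 4) (nat_lit 4) (nat_lit 340) (nat_lit 238) (nat_lit 202))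 (XT.nd (nat_lit 78) (nat_lit 0) (nat_lit 0) (XT.lf (nat_lit 0) (nat_lit 596649311153) (nat_lit 76) (nat_lit 19391655807) (nat_lit 76) (nat_lit 15170610679) (nat_lit 3) (nat_lit 4) (nat_lit 4) (nat_lit 5) (nat_lit 4) (nat_lit 4) (nat_lit 341) (nat_lit 238) (nat_lit 201)) (XT.lf (nat_lit 0) (nat_lit 648545202160) (nat_lit 76) (nat_lit 18645516151) (nat_lit 76) (nat_lit 14405224610) (nat_lit 3) (nat_lit 4) (nat_lit 4) (nat_lit 5) (nat_lit 4) (nat_lit 4) (nat_lit 342) (nat_lit 238) (nat_lit 200))))))))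
noncomputable def xc13 : XT := (XT.nd (nat_lit 38532) (nat_lit 0) (nat_lit 0) (XT.nd (nat_lit 37752) (nat_lit 0) (nat_lit 0) (XT.nd (nat_lit 390) (nat_lit 0) (nat_lit 0) (XT.nd (nat_lit 156) (nat_lit 0) (nat_lit 0) (XT.nd (nat_lit 78) (nat_lit 0) (nat_lit 0) (XT.lf (nat_lit 0) (nat_lit 704561779293) (nat_lit 76) (nat_lit 17854114012) (nat_lit 76) (nat_lit 13596001718) (nat_lit 3) (nat_lit 4) (nat_lit 4) (nat_lit 5) (nat_lit 4) (nat_lit 4) (nat_lit 343) (nat_lit 238) (nat_lit 199)) (XT.lf (nat_lit 0) (nat_lit 765030992640) (nat_lit 76) (nat_lit 17012759600) (nat_lit 76) (nat_lit 12738146610) (nat_lit 3) (nat_lit 4) (nat_lit 4) (nat_lit 5) (nat_lit 4) (nat_lit 4) (nat_lit 344) (nat_lit 238) (nat_lit 198))) (XT.nd (nat_lit 78) (nat_lit 0) (nat_lit 0) (XT.lf (nat_lit 0) (nat_lit 830311178280) (nat_lit 76) (nat_lit 16116467110) (nat_lit 76) (nat_lit 11826575697) (nat_lit 3) (nat_lit 4) (nat_lit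 4) (nat_lit 5) (nat_lit 4) (nat_lit 4) (nat_lit 345) (nat_lit 238) (nat_lit 197)) (XT.nd (nat_lit 78) (nat_lit 0) (nat_lit 0) (XT.lf (nat_lit 0) (nat_lit 900789181757) (nat_lit 76) (nat_lit 15159925180) (nat_lit 76) (nat_lit 10855887080) (nat_lit 3) (nat_lit 4) (nat_lit 4) (nat_lit 5) (nat_lit 4) (nat_lit 4) (nat_lit 346) (nat_lit 238) (nat_lit 196)) (XT.lf (nat_lit 0) (nat_lit 976882650500) (nat_lit 76) (nat_lit 14137465414) (nat_lit 76) (nat_lit 9820328529) (nat_lit 3) (nat_lit 4) (nat_lit 4) (nat_lit 5) (nat_lit 4) (nat_lit 4) (nat_lit 347) (nat_lit 238) (nat_lit 195))))) (XT.nd (nat_lit 37128) (nat_lit 0) (nat_lit 228) (XT.nd (nat_lit 37050) (nat_lit 0) (nat_lit 228) (XT.lf (nat_lit 0) (nat_lit 1059042508767) (nat_lit 76) (nat_lit 13043028790) (nat_lit 76) (nat_lit 8713763400) (nat_lit 3) (nat_lit 4) (nat_lit 4) (nat_lit 5) (nat_lit 4) (nat_lit 4) (nat_lit 348) (nat_lit 238) (nat_lit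 194)) (XT.lf (nat_lit 0) (nat_lit 831968024) (nat_lit 76) (nat_lit 8069372238) (nat_lit 76) (nat_lit 8069372238) (nat_lit 6) (nat_lit 4) (nat_lit 7) (nat_lit 5) (nat_lit 7) (nat_lit 4) (nat_lit 302) (nat_lit 239) (nat_lit 239))) (XT.nd (nat_lit 78) (nat_lit 0) (nat_lit 0) (XT.lf (nat_lit 0) (nat_lit 12470784051) (nat_lit 76) (nat_lit 12134588964) (nat_lit 76) (nat_lit 11758195741) (nat_lit 6) (nat_lit 4) (nat_lit 7) (nat_lit 5) (nat_lit 7) (nat_lit 4) (nat_lit 303) (nat_lit 239) (nat_lit 238)) (XT.nd (nat_lit 78) (nat_lit 0) (nat_lit 0) (XT.lf (nat_lit 0) (nat_lit 23621754088) (nat_lit 76) (nat_lit 8048464836) (nat_lit 76) (nat_lit 7323559371) (nat_lit 6) (nat_lit 4) (nat_lit 7) (nat_lit 5) (nat_lit 7) (nat_lit 4) (nat_lit 304) (nat_lit 239) (nat_lit 237)) (XT.lf (nat_lit 0) (nat_lit 35182925982) (nat_lit 76) (nat_lit 3856158025) (nat_lit 76) (nat_lit 2808556038) (nat_lit 6) (nat_lit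 4) (nat_lit 7) (nat_lit 5) (nat_lit 7) (nat_lit 4) (nat_lit 305) (nat_lit 239) (nat_lit 236)))))) (XT.nd (nat_lit 390) (nat_lit 76) (nat_lit 0) (XT.nd (nat_lit 156) (nat_lit 0) (nat_lit 0) (XT.nd (nat_lit 78) (nat_lit 0) (nat_lit 0) (XT.lf (nat_lit 0) (nat_lit 1800207434) (nat_lit 152) (nat_lit 42620282019) (nat_lit 0) (nat_lit 517926422) (nat_lit 4) (nat_lit 5) (nat_lit 6) (nat_lit 4) (nat_lit 4) (nat_lit 4) (nat_lit 306) (nat_lit 239) (nat_lit 235)) (XT.lf (nat_lit 0) (nat_lit 6625969046) (nat_lit 152) (nat_lit 36570790334) (nat_lit 0) (nat_lit 5080202077) (nat_lit 4) (nat_lit 5) (nat_lit 6) (nat_lit 4) (nat_lit 4) (nat_lit 4) (nat_lit 307) (nat_lit 239) (nat_lit 234))) (XT.nd (nat_lit 78) (nat_lit 0) (nat_lit 0) (XT.lf (nat_lit 0) (nat_lit 11617754196) (nat_lit 152) (nat_lit 30447953447) (nat_lit 0) (nat_lit 9828018748) (nat_lit 4) (nat_lit 5) (nat_lit 6) (nat_lit 4) (nat_lit 4) (nat_lit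 4) (nat_lit 308) (nat_lit 239) (nat_lit 233)) (XT.nd (nat_lit 78) (nat_lit 0) (nat_lit 0) (XT.lf (nat_lit 0) (nat_lit 16805143831) (nat_lit 152) (nat_lit 24215487880) (nat_lit 0) (nat_lit 14789511644) (nat_lit 4) (nat_lit 5) (nat_lit 6) (nat_lit 4) (nat_lit 4) (nat_lit 4) (nat_lit 309) (nat_lit 239) (nat_lit 232)) (XT.lf (nat_lit 0) (nat_lit 22218878040) (nat_lit 152) (nat_lit 17836460503) (nat_lit 0) (nat_lit 19994082205) (nat_lit 4) (nat_lit 5) (nat_lit 6) (nat_lit 4) (nat_lit 4) (nat_lit 4) (nat_lit 310) (nat_lit 239) (nat_lit 231))))) (XT.nd (nat_lit 156) (nat_lit 76) (nat_lit 0) (XT.nd (nat_lit 78) (nat_lit 0) (nat_lit 0) (XT.lf (nat_lit 0) (nat_lit 27891038210) (nat_lit 152) (nat_lit 11273069673) (nat_lit 0) (nat_lit 25472572331) (nat_lit 4) (nat_lit 5) (nat_lit 6) (nat_lit 4) (nat_lit 4) (nat_lit 4) (nat_lit 311) (nat_lit 239) (nat_lit 230)) (XT.lf (nat_lit 0) (nat_lit 33855237141)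 (nat_lit 152) (nat_lit 4486421222) (nat_lit 0) (nat_lit 31257447147) (nat_lit 4) (nat_lit 5) (nat_lit 6) (nat_lit 4) (nat_lit 4) (nat_lit 4) (nat_lit 312) (nat_lit 239) (nat_lit 229))) (XT.nd (nat_lit 78) (nat_lit 0) (nat_lit 0) (XT.lf (nat_lit 0) (nat_lit 2648469592) (nat_lit 76) (nat_lit 37539698675) (nat_lit 76) (nat_lit 34775867834) (nat_lit 3) (nat_lit 4) (nat_lit 4) (nat_lit 5) (nat_lit 4) (nat_lit 4) (nat_lit 313) (nat_lit 239) (nat_lit 228)) (XT.nd (nat_lit 78) (nat_lit 0) (nat_lit 0) (XT.lf (nat_lit 0) (nat_lit 10247048112) (nat_lit 76) (nat_lit 36716001962) (nat_lit 76) (nat_lit 33798429595) (nat_lit 3) (nat_lit 4) (nat_lit 4) (nat_lit 5) (nat_lit 4) (nat_lit 4) (nat_lit 314) (nat_lit 239) (nat_lit 227)) (XT.lf (nat_lit 0) (nat_lit 18206001604) (nat_lit 76) (nat_lit 35941666772) (nat_lit 76) (nat_lit 32881741141) (nat_lit 3) (nat_lit 4) (nat_lit 4) (nat_lit 5) (nat_lit 4) (nat_lit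 4) (nat_lit 315) (nat_lit 239) (nat_lit 226))))))) (XT.nd (nat_lit 780) (nat_lit 0) (nat_lit 0) (XT.nd (nat_lit 390) (nat_lit 0) (nat_lit 0) (XT.nd (nat_lit 156) (nat_lit 0) (nat_lit 0) (XT.nd (nat_lit 78) (nat_lit 0) (nat_lit 0) (XT.lf (nat_lit 0) (nat_lit 26572494236) (nat_lit 76) (nat_lit 35212104451) (nat_lit 76) (nat_lit 32020370243) (nat_lit 3) (nat_lit 4) (nat_lit 4) (nat_lit 5) (nat_lit 4) (nat_lit 4) (nat_lit 316) (nat_lit 239) (nat_lit 225)) (XT.lf (nat_lit 0) (nat_lit 35396105224) (nat_lit 76) (nat_lit 34522991669) (nat_lit 76) (nat_lit 31209212481) (nat_lit 3) (nat_lit 4) (nat_lit 4) (nat_lit 5) (nat_lit 4) (nat_lit 4) (nat_lit 317) (nat_lit 239) (nat_lit 224))) (XT.nd (nat_lit 78) (nat_lit 0) (nat_lit 0) (XT.lf (nat_lit 0) (nat_lit 44729122633) (nat_lit 76) (nat_lit 33870244793) (nat_lit 76) (nat_lit 30443460995) (nat_lit 3) (nat_lit 4) (nat_lit 4) (nat_lit 5) (nat_lit 4)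 (nat_lit 4) (nat_lit 318) (nat_lit 239) (nat_lit 223)) (XT.nd (nat_lit 78) (nat_lit 0) (nat_lit 0) (XT.lf (nat_lit 0) (nat_lit 54626853232) (nat_lit 76) (nat_lit 33249995694) (nat_lit 76) (nat_lit 29718577997) (nat_lit 3) (nat_lit 4) (nat_lit 4) (nat_lit 5) (nat_lit 4) (nat_lit 4) (nat_lit 319) (nat_lit 239) (nat_lit 222)) (XT.lf (nat_lit 0) (nat_lit 65147950241) (nat_lit 76) (nat_lit 32658568822) (nat_lit 76) (nat_lit 29030267885) (nat_lit 3) (nat_lit 4) (nat_lit 4) (nat_lit 5) (nat_lit 4) (nat_lit 4) (nat_lit 320) (nat_lit 239) (nat_lit 221))))) (XT.nd (nat_lit 156) (nat_lit 0) (nat_lit 0) (XT.nd (nat_lit 78) (nat_lit 0) (nat_lit 0) (XT.lf (nat_lit 0) (nat_lit 76354760901) (nat_lit 76) (nat_lit 32092459425) (nat_lit 76) (nat_lit 28374451785) (nat_lit 3) (nat_lit 4) (nat_lit 4) (nat_lit 5) (nat_lit 4) (nat_lit 4) (nat_lit 321) (nat_lit 239) (nat_lit 220)) (XT.lf (nat_lit 0) (nat_lit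 88313695941) (nat_lit 76) (nat_lit 31548312780) (nat_lit 76) (nat_lit 27747243378) (nat_lit 3) (nat_lit 4) (nat_lit 4) (nat_lit 5) (nat_lit 4) (nat_lit 4) (nat_lit 322) (nat_lit 239) (nat_lit 219))) (XT.nd (nat_lit 78) (nat_lit 0) (nat_lit 0) (XT.lf (nat_lit 0) (nat_lit 101095623126) (nat_lit 76) (nat_lit 31022904315) (nat_lit 76) (nat_lit 27144925873) (nat_lit 3) (nat_lit 4) (nat_lit 4) (nat_lit 5) (nat_lit 4) (nat_lit 4) (nat_lit 323) (nat_lit 239) (nat_lit 218)) (XT.nd (nat_lit 78) (nat_lit 0) (nat_lit 0) (XT.lf (nat_lit 0) (nat_lit 114776287207) (nat_lit 76) (nat_lit 30513120499) (nat_lit 76) (nat_lit 26563929983) (nat_lit 3) (nat_lit 4) (nat_lit 4) (nat_lit 5) (nat_lit 4) (nat_lit 4) (nat_lit 324) (nat_lit 239) (nat_lit 217)) (XT.lf (nat_lit 0) (nat_lit 129436758788) (nat_lit 76) (nat_lit 30015940389) (nat_lit 76) (nat_lit 26000812769) (nat_lit 3) (nat_lit 4) (nat_lit 4) (nat_lit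 5) (nat_lit 4) (nat_lit 4) (nat_lit 325) (nat_lit 239) (nat_lit 216)))))) (XT.nd (nat_lit 390) (nat_lit 0) (nat_lit 0) (XT.nd (nat_lit 156) (nat_lit 0) (nat_lit 0) (XT.nd (nat_lit 78) (nat_lit 0) (nat_lit 0) (XT.lf (nat_lit 0) (nat_lit 145163914738) (nat_lit 76) (nat_lit 29528417734) (nat_lit 76) (nat_lit 25452237239) (nat_lit 3) (nat_lit 4) (nat_lit 4) (nat_lit 5) (nat_lit 4) (nat_lit 4) (nat_lit 326) (nat_lit 239) (nat_lit 215)) (XT.lf (nat_lit 0) (nat_lit 162050953016) (nat_lit 76) (nat_lit 29047663510) (nat_lit 76) (nat_lit 24914952575) (nat_lit 3) (nat_lit 4) (nat_lit 4) (nat_lit 5) (nat_lit 4) (nat_lit 4) (nat_lit 327) (nat_lit 239) (nat_lit 214))) (XT.nd (nat_lit 78) (nat_lit 0) (nat_lit 0) (XT.lf (nat_lit 0) (nat_lit 180197944962) (nat_lit 76) (nat_lit 28570828804) (nat_lit 76) (nat_lit 24385774869) (nat_lit 3) (nat_lit 4) (nat_lit 4) (nat_lit 5) (nat_lit 4) (nat_lit 4) (nat_lit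 328) (nat_lit 239) (nat_lit 213)) (XT.nd (nat_lit 78) (nat_lit 0) (nat_lit 0) (XT.lf (nat_lit 0) (nat_lit 199712428305) (nat_lit 76) (nat_lit 28095087928) (nat_lit 76) (nat_lit 23861568253) (nat_lit 3) (nat_lit 4) (nat_lit 4) (nat_lit 5) (nat_lit 4) (nat_lit 4) (nat_lit 329) (nat_lit 239) (nat_lit 212)) (XT.lf (nat_lit 0) (nat_lit 220710044428) (nat_lit 76) (nat_lit 27617621677) (nat_lit 76) (nat_lit 23339226316) (nat_lit 3) (nat_lit 4) (nat_lit 4) (nat_lit 5) (nat_lit 4) (nat_lit 4) (nat_lit 330) (nat_lit 239) (nat_lit 211))))) (XT.nd (nat_lit 234) (nat_lit 0) (nat_lit 0) (XT.nd (nat_lit 78) (nat_lit 0) (nat_lit 0) (XT.lf (nat_lit 0) (nat_lit 243315223649) (nat_lit 76) (nat_lit 27135600622) (nat_lit 76) (nat_lit 22815653700) (nat_lit 3) (nat_lit 4) (nat_lit 4) (nat_lit 5) (nat_lit 4) (nat_lit 4) (nat_lit 331) (nat_lit 239) (nat_lit 210)) (XT.nd (nat_lit 78) (nat_lit 0) (nat_lit 0) (XT.lf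 (nat_lit 0) (nat_lit 267661922585) (nat_lit 76) (nat_lit 26646168341) (nat_lit 76) (nat_lit 22287747752) (nat_lit 3) (nat_lit 4) (nat_lit 4) (nat_lit 5) (nat_lit 4) (nat_lit 4) (nat_lit 332) (nat_lit 239) (nat_lit 209)) (XT.lf (nat_lit 0) (nat_lit 293894417971) (nat_lit 76) (nat_lit 26146424495) (nat_lit 76) (nat_lit 21752380140) (nat_lit 3) (nat_lit 4) (nat_lit 4) (nat_lit 5) (nat_lit 4) (nat_lit 4) (nat_lit 333) (nat_lit 239) (nat_lit 208)))) (XT.nd (nat_lit 78) (nat_lit 0) (nat_lit 0) (XT.lf (nat_lit 0) (nat_lit 322168161631) (nat_lit 76) (nat_lit 25633407639) (nat_lit 76) (nat_lit 21206378315) (nat_lit 3) (nat_lit 4) (nat_lit 4) (nat_lit 5) (nat_lit 4) (nat_lit 4) (nat_lit 334) (nat_lit 239) (nat_lit 207)) (XT.nd (nat_lit 78) (nat_lit 0) (nat_lit 0) (XT.lf (nat_lit 0) (nat_lit 352650701677) (nat_lit 76) (nat_lit 25104077673) (nat_lit 76) (nat_lit 20646506712) (nat_lit 3) (nat_lit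 4) (nat_lit 4) (nat_lit 5) (nat_lit 4) (nat_lit 4) (nat_lit 335) (nat_lit 239) (nat_lit 206)) (XT.lf (nat_lit 0) (nat_lit 385522675381) (nat_lit 76) (nat_lit 24555297827) (nat_lit 76) (nat_lit 20069447572) (nat_lit 3) (nat_lit 4) (nat_lit 4) (nat_lit 5) (nat_lit 4) (nat_lit 4) (nat_lit 336) (nat_lit 239) (nat_lit 205))))))))
noncomputable def xc14 : XT := (XT.nd (nat_lit 38376) (nat_lit 0) (nat_lit 0) (XT.nd (nat_lit 780) (nat_lit 0) (nat_lit 0) (XT.nd (nat_lit 390) (nat_lit 0) (nat_lit 0) (XT.nd (nat_lit 156) (nat_lit 0) (nat_lit 0) (XT.nd (nat_lit 78) (nat_lit 0) (nat_lit 0) (XT.lf (nat_lit 0) (nat_lit 420978879627) (nat_lit 76) (nat_lit 23983816073) (nat_lit 76) (nat_lit 19471781285) (nat_lit 3) (nat_lit 4) (nat_lit 4) (nat_lit 5) (nat_lit 4) (nat_lit 4) (nat_lit 337) (nat_lit 239) (nat_lit 204)) (XT.lf (nat_lit 0) (nat_lit 459229425252) (nat_lit 76) (nat_lit 23386245851) (nat_lit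 76) (nat_lit 18849966127) (nat_lit 3) (nat_lit 4) (nat_lit 4) (nat_lit 5) (nat_lit 4) (nat_lit 4) (nat_lit 338) (nat_lit 239) (nat_lit 203))) (XT.nd (nat_lit 78) (nat_lit 0) (nat_lit 0) (XT.lf (nat_lit 0) (nat_lit 500500982158) (nat_lit 76) (nat_lit 22759046004) (nat_lit 76) (nat_lit 18200317265) (nat_lit 3) (nat_lit 4) (nat_lit 4) (nat_lit 5) (nat_lit 4) (nat_lit 4) (nat_lit 339) (nat_lit 239) (nat_lit 202)) (XT.nd (nat_lit 78) (nat_lit 0) (nat_lit 0) (XT.lf (nat_lit 0) (nat_lit 545038122534) (nat_lit 76) (nat_lit 22098499794) (nat_lit 76) (nat_lit 17518984929) (nat_lit 3) (nat_lit 4) (nat_lit 4) (nat_lit 5) (nat_lit 4) (nat_lit 4) (nat_lit 340) (nat_lit 239) (nat_lit 201)) (XT.lf (nat_lit 0) (nat_lit 593104770174) (nat_lit 76) (nat_lit 21400692872) (nat_lit 76) (nat_lit 16801931595) (nat_lit 3) (nat_lit 4) (nat_lit 4) (nat_lit 5) (nat_lit 4) (nat_lit 4) (nat_lit 341) (nat_lit 239) (nat_lit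 200))))) (XT.nd (nat_lit 156) (nat_lit 0) (nat_lit 0) (XT.nd (nat_lit 78) (nat_lit 0) (nat_lit 0) (XT.lf (nat_lit 0) (nat_lit 644985764472) (nat_lit 76) (nat_lit 20661490086) (nat_lit 76) (nat_lit 16044908056) (nat_lit 3) (nat_lit 4) (nat_lit 4) (nat_lit 5) (nat_lit 4) (nat_lit 4) (nat_lit 342) (nat_lit 239) (nat_lit 199)) (XT.lf (nat_lit 0) (nat_lit 700988548356) (nat_lit 76) (nat_lit 19876510974) (nat_lit 76) (nat_lit 15243428249) (nat_lit 3) (nat_lit 4) (nat_lit 4) (nat_lit 5) (nat_lit 4) (nat_lit 4) (nat_lit 343) (nat_lit 239) (nat_lit 198))) (XT.nd (nat_lit 78) (nat_lit 0) (nat_lit 0) (XT.lf (nat_lit 0) (nat_lit 761444990177) (nat_lit 76) (nat_lit 19041103810) (nat_lit 76) (nat_lit 14392742661) (nat_lit 3) (nat_lit 4) (nat_lit 4) (nat_lit 5) (nat_lit 4) (nat_lit 4) (nat_lit 344) (nat_lit 239) (nat_lit 197)) (XT.nd (nat_lit 78) (nat_lit 0) (nat_lit 0) (XT.lf (nat_lit 0) (nat_lit 826713350329)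 (nat_lit 76) (nat_lit 18150318031) (nat_lit 76) (nat_lit 13487810195) (nat_lit 3) (nat_lit 4) (nat_lit 4) (nat_lit 5) (nat_lit 4) (nat_lit 4) (nat_lit 345) (nat_lit 239) (nat_lit 196)) (XT.lf (nat_lit 0) (nat_lit 897180404281) (nat_lit 76) (nat_lit 17198874908) (nat_lit 76) (nat_lit 12523268287) (nat_lit 3) (nat_lit 4) (nat_lit 4) (nat_lit 5) (nat_lit 4) (nat_lit 4) (nat_lit 346) (nat_lit 239) (nat_lit 195)))))) (XT.nd (nat_lit 37206) (nat_lit 0) (nat_lit 76) (XT.nd (nat_lit 36972) (nat_lit 0) (nat_lit 228) (XT.nd (nat_lit 78) (nat_lit 0) (nat_lit 0) (XT.lf (nat_lit 0) (nat_lit 973263734575) (nat_lit 76) (nat_lit 16181136259) (nat_lit 76) (nat_lit 11493401134) (nat_lit 3) (nat_lit 4) (nat_lit 4) (nat_lit 5) (nat_lit 4) (nat_lit 4) (nat_lit 347) (nat_lit 239) (nat_lit 194)) (XT.lf (nat_lit 0) (nat_lit 1055414205389) (nat_lit 76) (nat_lit 15091071040) (nat_lit 76) (nat_lit 10392105818)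 (nat_lit 3) (nat_lit 4) (nat_lit 4) (nat_lit 5) (nat_lit 4) (nat_lit 4) (nat_lit 348) (nat_lit 239) (nat_lit 193))) (XT.nd (nat_lit 78) (nat_lit 76) (nat_lit 0) (XT.lf (nat_lit 0) (nat_lit 2841634189) (nat_lit 152) (nat_lit 9137888951) (nat_lit 0) (nat_lit 2841634189) (nat_lit 7) (nat_lit 5) (nat_lit 9) (nat_lit 4) (nat_lit 7) (nat_lit 4) (nat_lit 300) (nat_lit 240) (nat_lit 240)) (XT.nd (nat_lit 78) (nat_lit 76) (nat_lit 0) (XT.lf (nat_lit 0) (nat_lit 11766707503) (nat_lit 152) (nat_lit 8579164575) (nat_lit 0) (nat_lit 11360202823) (nat_lit 7) (nat_lit 5) (nat_lit 9) (nat_lit 4) (nat_lit 7) (nat_lit 4) (nat_lit 301) (nat_lit 240) (nat_lit 239)) (XT.lf (nat_lit 0) (nat_lit 1393714956) (nat_lit 76) (nat_lit 16669014989) (nat_lit 76) (nat_lit 15886117086) (nat_lit 6) (nat_lit 4) (nat_lit 7) (nat_lit 5) (nat_lit 7) (nat_lit 4) (nat_lit 302) (nat_lit 240) (nat_lit 238))))) (XT.nd (nat_lit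 156) (nat_lit 152) (nat_lit 0) (XT.nd (nat_lit 78) (nat_lit 0) (nat_lit 0) (XT.lf (nat_lit 0) (nat_lit 11950358245) (nat_lit 76) (nat_lit 12779457470) (nat_lit 76) (nat_lit 11648047324) (nat_lit 6) (nat_lit 4) (nat_lit 7) (nat_lit 5) (nat_lit 7) (nat_lit 4) (nat_lit 303) (nat_lit 240) (nat_lit 237)) (XT.lf (nat_lit 0) (nat_lit 22869657250) (nat_lit 76) (nat_lit 8799442595) (nat_lit 76) (nat_lit 7345335928) (nat_lit 6) (nat_lit 4) (nat_lit 7) (nat_lit 5) (nat_lit 7) (nat_lit 4) (nat_lit 304) (nat_lit 240) (nat_lit 236))) (XT.nd (nat_lit 78) (nat_lit 152) (nat_lit 0) (XT.lf (nat_lit 0) (nat_lit 34216318929) (nat_lit 76) (nat_lit 4705385093) (nat_lit 76) (nat_lit 2952485350) (nat_lit 6) (nat_lit 4) (nat_lit 7) (nat_lit 5) (nat_lit 7) (nat_lit 4) (nat_lit 305) (nat_lit 240) (nat_lit 235)) (XT.nd (nat_lit 78) (nat_lit 0) (nat_lit 0) (XT.lf (nat_lit 0) (nat_lit 1094232624) (nat_lit 76) (nat_lit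 429568654) (nat_lit 152) (nat_lit 43448199945) (nat_lit 4) (nat_lit 5) (nat_lit 5) (nat_lit 5) (nat_lit 6) (nat_lit 4) (nat_lit 306) (nat_lit 240) (nat_lit 234)) (XT.lf (nat_lit 0) (nat_lit 6237068913) (nat_lit 152) (nat_lit 38018980785) (nat_lit 0) (nat_lit 4060186151) (nat_lit 4) (nat_lit 5) (nat_lit 6) (nat_lit 4) (nat_lit 4) (nat_lit 4) (nat_lit 307) (nat_lit 240) (nat_lit 233))))))) (XT.nd (nat_lit 780) (nat_lit 0) (nat_lit 0) (XT.nd (nat_lit 390) (nat_lit 76) (nat_lit 0) (XT.nd (nat_lit 156) (nat_lit 0) (nat_lit 0) (XT.nd (nat_lit 78) (nat_lit 0) (nat_lit 0) (XT.lf (nat_lit 0) (nat_lit 11130902944) (nat_lit 152) (nat_lit 32078931528) (nat_lit 0) (nat_lit 8728123442) (nat_lit 4) (nat_lit 5) (nat_lit 6) (nat_lit 4) (nat_lit 4) (nat_lit 4) (nat_lit 308) (nat_lit 240) (nat_lit 232)) (XT.lf (nat_lit 0) (nat_lit 16227597100) (nat_lit 152) (nat_lit 26015713766) (nat_lit 0) (nat_lit 13615653951)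 (nat_lit 4) (nat_lit 5) (nat_lit 6) (nat_lit 4) (nat_lit 4) (nat_lit 4) (nat_lit 309) (nat_lit 240) (nat_lit 231))) (XT.nd (nat_lit 78) (nat_lit 0) (nat_lit 0) (XT.lf (nat_lit 0) (nat_lit 21557354013) (nat_lit 152) (nat_lit 19793397321) (nat_lit 0) (nat_lit 18751740819) (nat_lit 4) (nat_lit 5) (nat_lit 6) (nat_lit 4) (nat_lit 4) (nat_lit 4) (nat_lit 310) (nat_lit 240) (nat_lit 230)) (XT.nd (nat_lit 78) (nat_lit 0) (nat_lit 0) (XT.lf (nat_lit 0) (nat_lit 27151757427) (nat_lit 152) (nat_lit 13375109205) (nat_lit 0) (nat_lit 24166820118) (nat_lit 4) (nat_lit 5) (nat_lit 6) (nat_lit 4) (nat_lit 4) (nat_lit 4) (nat_lit 311) (nat_lit 240) (nat_lit 229)) (XT.lf (nat_lit 0) (nat_lit 33043959362) (nat_lit 152) (nat_lit 6722815119) (nat_lit 0) (nat_lit 29892981206) (nat_lit 4) (nat_lit 5) (nat_lit 6) (nat_lit 4) (nat_lit 4) (nat_lit 4) (nat_lit 312) (nat_lit 240) (nat_lit 228))))) (XT.nd (nat_lit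 156) (nat_lit 0) (nat_lit 0) (XT.nd (nat_lit 78) (nat_lit 0) (nat_lit 0) (XT.lf (nat_lit 0) (nat_lit 209614926) (nat_lit 76) (nat_lit 39062534322) (nat_lit 76) (nat_lit 35757814641) (nat_lit 3) (nat_lit 4) (nat_lit 4) (nat_lit 5) (nat_lit 4) (nat_lit 4) (nat_lit 313) (nat_lit 240) (nat_lit 227)) (XT.lf (nat_lit 0) (nat_lit 7689197623) (nat_lit 76) (nat_lit 38294249753) (nat_lit 76) (nat_lit 34847176808) (nat_lit 3) (nat_lit 4) (nat_lit 4) (nat_lit 5) (nat_lit 4) (nat_lit 4) (nat_lit 314) (nat_lit 240) (nat_lit 226))) (XT.nd (nat_lit 78) (nat_lit 0) (nat_lit 0) (XT.lf (nat_lit 0) (nat_lit 15537969798) (nat_lit 76) (nat_lit 37571222103) (nat_lit 76) (nat_lit 33992340580) (nat_lit 3) (nat_lit 4) (nat_lit 4) (nat_lit 5) (nat_lit 4) (nat_lit 4) (nat_lit 315) (nat_lit 240) (nat_lit 225)) (XT.nd (nat_lit 78) (nat_lit 0) (nat_lit 0) (XT.lf (nat_lit 0) (nat_lit 23802442692) (nat_lit 76) (nat_lit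 36889166766) (nat_lit 76) (nat_lit 33188240263) (nat_lit 3) (nat_lit 4) (nat_lit 4) (nat_lit 5) (nat_lit 4) (nat_lit 4) (nat_lit 316) (nat_lit 240) (nat_lit 224)) (XT.lf (nat_lit 0) (nat_lit 32531590960) (nat_lit 76) (nat_lit 36244041930) (nat_lit 76) (nat_lit 32430110817) (nat_lit 3) (nat_lit 4) (nat_lit 4) (nat_lit 5) (nat_lit 4) (nat_lit 4) (nat_lit 317) (nat_lit 240) (nat_lit 223)))))) (XT.nd (nat_lit 390) (nat_lit 0) (nat_lit 0) (XT.nd (nat_lit 156) (nat_lit 0) (nat_lit 0) (XT.nd (nat_lit 78) (nat_lit 0) (nat_lit 0) (XT.lf (nat_lit 0) (nat_lit 41777142887) (nat_lit 76) (nat_lit 35632024634) (nat_lit 76) (nat_lit 31713459623) (nat_lit 3) (nat_lit 4) (nat_lit 4) (nat_lit 5) (nat_lit 4) (nat_lit 4) (nat_lit 318) (nat_lit 240) (nat_lit 222)) (XT.lf (nat_lit 0) (nat_lit 51593886930) (nat_lit 76) (nat_lit 35049488110) (nat_lit 76) (nat_lit 31034039858) (nat_lit 3) (nat_lit 4) (nat_lit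 4) (nat_lit 5) (nat_lit 4) (nat_lit 4) (nat_lit 319) (nat_lit 240) (nat_lit 221))) (XT.nd (nat_lit 78) (nat_lit 0) (nat_lit 0) (XT.lf (nat_lit 0) (nat_lit 62039996386) (nat_lit 76) (nat_lit 34492980288) (nat_lit 76) (nat_lit 30387825333) (nat_lit 3) (nat_lit 4) (nat_lit 4) (nat_lit 5) (nat_lit 4) (nat_lit 4) (nat_lit 320) (nat_lit 240) (nat_lit 220)) (XT.nd (nat_lit 78) (nat_lit 0) (nat_lit 0) (XT.lf (nat_lit 0) (nat_lit 73177374126) (nat_lit 76) (nat_lit 33959203345) (nat_lit 76) (nat_lit 29770986628) (nat_lit 3) (nat_lit 4) (nat_lit 4) (nat_lit 5) (nat_lit 4) (nat_lit 4) (nat_lit 321) (nat_lit 240) (nat_lit 219)) (XT.lf (nat_lit 0) (nat_lit 85072019427) (nat_lit 76) (nat_lit 33444994158) (nat_lit 76) (nat_lit 29179868401) (nat_lit 3) (nat_lit 4) (nat_lit 4) (nat_lit 5) (nat_lit 4) (nat_lit 4) (nat_lit 322) (nat_lit 240) (nat_lit 218))))) (XT.nd (nat_lit 156) (nat_lit 0) (nat_lit 0)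 (XT.nd (nat_lit 78) (nat_lit 0) (nat_lit 0) (XT.lf (nat_lit 0) (nat_lit 97794419074) (nat_lit 76) (nat_lit 32947305561) (nat_lit 76) (nat_lit 28610967731) (nat_lit 3) (nat_lit 4) (nat_lit 4) (nat_lit 5) (nat_lit 4) (nat_lit 4) (nat_lit 323) (nat_lit 240) (nat_lit 217)) (XT.lf (nat_lit 0) (nat_lit 111419965065) (nat_lit 76) (nat_lit 32463188288) (nat_lit 76) (nat_lit 28060913354) (nat_lit 3) (nat_lit 4) (nat_lit 4) (nat_lit 5) (nat_lit 4) (nat_lit 4) (nat_lit 324) (nat_lit 240) (nat_lit 216))) (XT.nd (nat_lit 78) (nat_lit 0) (nat_lit 0) (XT.lf (nat_lit 0) (nat_lit 126029401378) (nat_lit 76) (nat_lit 31989773497) (nat_lit 76) (nat_lit 27526445688) (nat_lit 3) (nat_lit 4) (nat_lit 4) (nat_lit 5) (nat_lit 4) (nat_lit 4) (nat_lit 325) (nat_lit 240) (nat_lit 215)) (XT.nd (nat_lit 78) (nat_lit 0) (nat_lit 0) (XT.lf (nat_lit 0) (nat_lit 141709302449) (nat_lit 76) (nat_lit 31524255767) (nat_lit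 76) (nat_lit 27004397518) (nat_lit 3) (nat_lit 4) (nat_lit 4) (nat_lit 5) (nat_lit 4) (nat_lit 4) (nat_lit 326) (nat_lit 240) (nat_lit 214)) (XT.lf (nat_lit 0) (nat_lit 158552586211) (nat_lit 76) (nat_lit 31063876474) (nat_lit 76) (nat_lit 26491675225) (nat_lit 3) (nat_lit 4) (nat_lit 4) (nat_lit 5) (nat_lit 4) (nat_lit 4) (nat_lit 327) (nat_lit 240) (nat_lit 213))))))))
noncomputable def xc15 : XT := (XT.nd (nat_lit 1560) (nat_lit 0) (nat_lit 0) (XT.nd (nat_lit 780) (nat_lit 0) (nat_lit 0) (XT.nd (nat_lit 390) (nat_lit 0) (nat_lit 0) (XT.nd (nat_lit 156) (nat_lit 0) (nat_lit 0) (XT.nd (nat_lit 78) (nat_lit 0) (nat_lit 0) (XT.lf (nat_lit 0) (nat_lit 176659064715) (nat_lit 76) (nat_lit 30605907444) (nat_lit 76) (nat_lit 25985240454) (nat_lit 3) (nat_lit 4) (nat_lit 4) (nat_lit 5) (nat_lit 4) (nat_lit 4) (nat_lit 328) (nat_lit 240) (nat_lit 212)) (XT.lf (nat_lit 0) (nat_lit 196136035612)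 (nat_lit 76) (nat_lit 30147634787) (nat_lit 76) (nat_lit 25482092112) (nat_lit 3) (nat_lit 4) (nat_lit 4) (nat_lit 5) (nat_lit 4) (nat_lit 4) (nat_lit 329) (nat_lit 240) (nat_lit 211))) (XT.nd (nat_lit 78) (nat_lit 0) (nat_lit 0) (XT.lf (nat_lit 0) (nat_lit 217098917989) (nat_lit 76) (nat_lit 29686342813) (nat_lit 76) (nat_lit 24979248577) (nat_lit 3) (nat_lit 4) (nat_lit 4) (nat_lit 5) (nat_lit 4) (nat_lit 4) (nat_lit 330) (nat_lit 240) (nat_lit 210)) (XT.nd (nat_lit 78) (nat_lit 0) (nat_lit 0) (XT.lf (nat_lit 0) (nat_lit 239671936334) (nat_lit 76) (nat_lit 29219297940) (nat_lit 76) (nat_lit 24473730036) (nat_lit 3) (nat_lit 4) (nat_lit 4) (nat_lit 5) (nat_lit 4) (nat_lit 4) (nat_lit 331) (nat_lit 240) (nat_lit 209)) (XT.lf (nat_lit 0) (nat_lit 263988856681) (nat_lit 76) (nat_lit 28743732494) (nat_lit 76) (nat_lit 23962540824) (nat_lit 3) (nat_lit 4) (nat_lit 4) (nat_lit 5) (nat_lit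 4) (nat_lit 4) (nat_lit 332) (nat_lit 240) (nat_lit 208))))) (XT.nd (nat_lit 156) (nat_lit 0) (nat_lit 0) (XT.nd (nat_lit 78) (nat_lit 0) (nat_lit 0) (XT.lf (nat_lit 0) (nat_lit 290193779299) (nat_lit 76) (nat_lit 28256828311) (nat_lit 76) (nat_lit 23442651672) (nat_lit 3) (nat_lit 4) (nat_lit 4) (nat_lit 5) (nat_lit 4) (nat_lit 4) (nat_lit 333) (nat_lit 240) (nat_lit 207)) (XT.lf (nat_lit 0) (nat_lit 318441992619) (nat_lit 76) (nat_lit 27755700031) (nat_lit 76) (nat_lit 22910981755) (nat_lit 3) (nat_lit 4) (nat_lit 4) (nat_lit 5) (nat_lit 4) (nat_lit 4) (nat_lit 334) (nat_lit 240) (nat_lit 206))) (XT.nd (nat_lit 78) (nat_lit 0) (nat_lit 0) (XT.lf (nat_lit 0) (nat_lit 348900893461) (nat_lit 76) (nat_lit 27237378006) (nat_lit 76) (nat_lit 22364380436) (nat_lit 3) (nat_lit 4) (nat_lit 4) (nat_lit 5) (nat_lit 4) (nat_lit 4) (nat_lit 335) (nat_lit 240) (nat_lit 205)) (XT.nd (nat_lit 78) (nat_lit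 0) (nat_lit 0) (XT.lf (nat_lit 0) (nat_lit 381750979014) (nat_lit 76) (nat_lit 26698790698) (nat_lit 76) (nat_lit 21799608596) (nat_lit 3) (nat_lit 4) (nat_lit 4) (nat_lit 5) (nat_lit 4) (nat_lit 4) (nat_lit 336) (nat_lit 240) (nat_lit 204)) (XT.lf (nat_lit 0) (nat_lit 417186916451) (nat_lit 76) (nat_lit 26136746479) (nat_lit 76) (nat_lit 21213319440) (nat_lit 3) (nat_lit 4) (nat_lit 4) (nat_lit 5) (nat_lit 4) (nat_lit 4) (nat_lit 337) (nat_lit 240) (nat_lit 203)))))) (XT.nd (nat_lit 390) (nat_lit 0) (nat_lit 0) (XT.nd (nat_lit 156) (nat_lit 0) (nat_lit 0) (XT.nd (nat_lit 78) (nat_lit 0) (nat_lit 0) (XT.lf (nat_lit 0) (nat_lit 455418696515) (nat_lit 76) (nat_lit 25547914715) (nat_lit 76) (nat_lit 20602038661) (nat_lit 3) (nat_lit 4) (nat_lit 4) (nat_lit 5) (nat_lit 4) (nat_lit 4) (nat_lit 338) (nat_lit 240) (nat_lit 202)) (XT.lf (nat_lit 0) (nat_lit 496672877900) (nat_lit 76) (nat_lit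 24928806034) (nat_lit 76) (nat_lit 19962143855) (nat_lit 3) (nat_lit 4) (nat_lit 4) (nat_lit 5) (nat_lit 4) (nat_lit 4) (nat_lit 339) (nat_lit 240) (nat_lit 201))) (XT.nd (nat_lit 78) (nat_lit 0) (nat_lit 0) (XT.lf (nat_lit 0) (nat_lit 541193929831) (nat_lit 76) (nat_lit 24275751643) (nat_lit 76) (nat_lit 19289843052) (nat_lit 3) (nat_lit 4) (nat_lit 4) (nat_lit 5) (nat_lit 4) (nat_lit 4) (nat_lit 340) (nat_lit 240) (nat_lit 200)) (XT.nd (nat_lit 78) (nat_lit 0) (nat_lit 0) (XT.lf (nat_lit 0) (nat_lit 589245680762) (nat_lit 76) (nat_lit 23584881591) (nat_lit 76) (nat_lit 18581152247) (nat_lit 3) (nat_lit 4) (nat_lit 4) (nat_lit 5) (nat_lit 4) (nat_lit 4) (nat_lit 341) (nat_lit 240) (nat_lit 199)) (XT.lf (nat_lit 0) (nat_lit 641112881812) (nat_lit 76) (nat_lit 22852101833) (nat_lit 76) (nat_lit 17831871792) (nat_lit 3) (nat_lit 4) (nat_lit 4) (nat_lit 5) (nat_lit 4) (nat_lit 4) (nat_lit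 342) (nat_lit 240) (nat_lit 198))))) (XT.nd (nat_lit 156) (nat_lit 0) (nat_lit 0) (XT.nd (nat_lit 78) (nat_lit 0) (nat_lit 0) (XT.lf (nat_lit 0) (nat_lit 697102894170) (nat_lit 76) (nat_lit 22073069969) (nat_lit 76) (nat_lit 17037561506) (nat_lit 3) (nat_lit 4) (nat_lit 4) (nat_lit 5) (nat_lit 4) (nat_lit 4) (nat_lit 343) (nat_lit 240) (nat_lit 197)) (XT.lf (nat_lit 0) (nat_lit 757547510503) (nat_lit 76) (nat_lit 21243169516) (nat_lit 76) (nat_lit 16193514365) (nat_lit 3) (nat_lit 4) (nat_lit 4) (nat_lit 5) (nat_lit 4) (nat_lit 4) (nat_lit 344) (nat_lit 240) (nat_lit 196))) (XT.nd (nat_lit 78) (nat_lit 0) (nat_lit 0) (XT.lf (nat_lit 0) (nat_lit 822804921130) (nat_lit 76) (nat_lit 20357482544) (nat_lit 76) (nat_lit 15294728609) (nat_lit 3) (nat_lit 4) (nat_lit 4) (nat_lit 5) (nat_lit 4) (nat_lit 4) (nat_lit 345) (nat_lit 240) (nat_lit 195)) (XT.nd (nat_lit 78) (nat_lit 0) (nat_lit 0) (XT.lf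 (nat_lit 0) (nat_lit 893261836633) (nat_lit 76) (nat_lit 19410760538) (nat_lit 76) (nat_lit 14335878098) (nat_lit 3) (nat_lit 4) (nat_lit 4) (nat_lit 5) (nat_lit 4) (nat_lit 4) (nat_lit 346) (nat_lit 240) (nat_lit 194)) (XT.lf (nat_lit 0) (nat_lit 969335779473) (nat_lit 76) (nat_lit 18397393294) (nat_lit 76) (nat_lit 13311280757) (nat_lit 3) (nat_lit 4) (nat_lit 4) (nat_lit 5) (nat_lit 4) (nat_lit 4) (nat_lit 347) (nat_lit 240) (nat_lit 193))))))) (XT.nd (nat_lit 37440) (nat_lit 0) (nat_lit 0) (XT.nd (nat_lit 37050) (nat_lit 0) (nat_lit 152) (XT.nd (nat_lit 36816) (nat_lit 0) (nat_lit 304) (XT.nd (nat_lit 36738) (nat_lit 0) (nat_lit 456) (XT.lf (nat_lit 0) (nat_lit 1051477558201) (nat_lit 76) (nat_lit 17311375672) (nat_lit 76) (nat_lit 12214864897) (nat_lit 3) (nat_lit 4) (nat_lit 4) (nat_lit 5) (nat_lit 4) (nat_lit 4) (nat_lit 348) (nat_lit 240) (nat_lit 192)) (XT.lf (nat_lit 0) (nat_lit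 7629201589) (nat_lit 76) (nat_lit 2680798796) (nat_lit 76) (nat_lit 2680798796) (nat_lit 9) (nat_lit 4) (nat_lit 10) (nat_lit 5) (nat_lit 10) (nat_lit 4) (nat_lit 298) (nat_lit 241) (nat_lit 241))) (XT.nd (nat_lit 78) (nat_lit 76) (nat_lit 0) (XT.lf (nat_lit 0) (nat_lit 198458990) (nat_lit 152) (nat_lit 54135376) (nat_lit 76) (nat_lit 27493588682) (nat_lit 8) (nat_lit 5) (nat_lit 10) (nat_lit 5) (nat_lit 9) (nat_lit 4) (nat_lit 299) (nat_lit 241) (nat_lit 240)) (XT.nd (nat_lit 78) (nat_lit 0) (nat_lit 0) (XT.lf (nat_lit 0) (nat_lit 5968678174) (nat_lit 152) (nat_lit 18558276019) (nat_lit 0) (nat_lit 5123148439) (nat_lit 7) (nat_lit 5) (nat_lit 9) (nat_lit 4) (nat_lit 7) (nat_lit 4) (nat_lit 300) (nat_lit 241) (nat_lit 239)) (XT.lf (nat_lit 0) (nat_lit 11909880949) (nat_lit 152) (nat_lit 9123235020) (nat_lit 0) (nat_lit 10687957991) (nat_lit 7) (nat_lit 5) (nat_lit 9) (nat_lit 4) (nat_lit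 7) (nat_lit 4) (nat_lit 301) (nat_lit 241) (nat_lit 238))))) (XT.nd (nat_lit 156) (nat_lit 76) (nat_lit 0) (XT.nd (nat_lit 78) (nat_lit 0) (nat_lit 0) (XT.lf (nat_lit 0) (nat_lit 581450371) (nat_lit 76) (nat_lit 17480070969) (nat_lit 76) (nat_lit 15909635768) (nat_lit 6) (nat_lit 4) (nat_lit 7) (nat_lit 5) (nat_lit 7) (nat_lit 4) (nat_lit 302) (nat_lit 241) (nat_lit 237)) (XT.lf (nat_lit 0) (nat_lit 10906422628) (nat_lit 76) (nat_lit 13696622703) (nat_lit 76) (nat_lit 11803490981) (nat_lit 6) (nat_lit 4) (nat_lit 7) (nat_lit 5) (nat_lit 7) (nat_lit 4) (nat_lit 303) (nat_lit 241) (nat_lit 236))) (XT.nd (nat_lit 78) (nat_lit 76) (nat_lit 0) (XT.lf (nat_lit 0) (nat_lit 21611211418) (nat_lit 76) (nat_lit 9814857137) (nat_lit 76) (nat_lit 7622932339) (nat_lit 6) (nat_lit 4) (nat_lit 7) (nat_lit 5) (nat_lit 7) (nat_lit 4) (nat_lit 304) (nat_lit 241) (nat_lit 235)) (XT.nd (nat_lit 78) (nat_lit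 76) (nat_lit 0) (XT.lf (nat_lit 0) (nat_lit 32759252528) (nat_lit 76) (nat_lit 5811771215) (nat_lit 76) (nat_lit 3343186163) (nat_lit 6) (nat_lit 4) (nat_lit 7) (nat_lit 5) (nat_lit 7) (nat_lit 4) (nat_lit 305) (nat_lit 241) (nat_lit 234)) (XT.lf (nat_lit 0) (nat_lit 1027146891) (nat_lit 152) (nat_lit 619100828) (nat_lit 76) (nat_lit 43372066302) (nat_lit 5) (nat_lit 5) (nat_lit 7) (nat_lit 5) (nat_lit 6) (nat_lit 4) (nat_lit 306) (nat_lit 241) (nat_lit 233)))))) (XT.nd (nat_lit 390) (nat_lit 76) (nat_lit 0) (XT.nd (nat_lit 156) (nat_lit 0) (nat_lit 0) (XT.nd (nat_lit 78) (nat_lit 0) (nat_lit 0) (XT.lf (nat_lit 0) (nat_lit 5613318443) (nat_lit 152) (nat_lit 39963224743) (nat_lit 0) (nat_lit 2792419841) (nat_lit 4) (nat_lit 5) (nat_lit 6) (nat_lit 4) (nat_lit 4) (nat_lit 4) (nat_lit 307) (nat_lit 241) (nat_lit 232)) (XT.lf (nat_lit 0) (nat_lit 10416456994) (nat_lit 152) (nat_lit 34192423291)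 (nat_lit 0) (nat_lit 7386394745) (nat_lit 4) (nat_lit 5) (nat_lit 6) (nat_lit 4) (nat_lit 4) (nat_lit 4) (nat_lit 308) (nat_lit 241) (nat_lit 231))) (XT.nd (nat_lit 78) (nat_lit 0) (nat_lit 0) (XT.lf (nat_lit 0) (nat_lit 15429173854) (nat_lit 152) (nat_lit 28285916461) (nat_lit 0) (nat_lit 12205441561) (nat_lit 4) (nat_lit 5) (nat_lit 6) (nat_lit 4) (nat_lit 4) (nat_lit 4) (nat_lit 309) (nat_lit 241) (nat_lit 230)) (XT.nd (nat_lit 78) (nat_lit 0) (nat_lit 0) (XT.lf (nat_lit 0) (nat_lit 20681174011) (nat_lit 152) (nat_lit 22208702729) (nat_lit 0) (nat_lit 17278117603) (nat_lit 4) (nat_lit 5) (nat_lit 6) (nat_lit 4) (nat_lit 4) (nat_lit 4) (nat_lit 310) (nat_lit 241) (nat_lit 229)) (XT.lf (nat_lit 0) (nat_lit 26203580430) (nat_lit 152) (nat_lit 15924768978) (nat_lit 0) (nat_lit 22634483174) (nat_lit 4) (nat_lit 5) (nat_lit 6) (nat_lit 4) (nat_lit 4) (nat_lit 4) (nat_lit 311) (nat_lit 241)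 (nat_lit 228))))) (XT.nd (nat_lit 234) (nat_lit 0) (nat_lit 0) (XT.nd (nat_lit 78) (nat_lit 76) (nat_lit 0) (XT.lf (nat_lit 0) (nat_lit 32029118480) (nat_lit 152) (nat_lit 9396877082) (nat_lit 0) (nat_lit 28306279699) (nat_lit 4) (nat_lit 5) (nat_lit 6) (nat_lit 4) (nat_lit 4) (nat_lit 4) (nat_lit 312) (nat_lit 241) (nat_lit 227)) (XT.nd (nat_lit 78) (nat_lit 76) (nat_lit 0) (XT.lf (nat_lit 0) (nat_lit 38192309870) (nat_lit 152) (nat_lit 2586343236) (nat_lit 0) (nat_lit 34327117825) (nat_lit 4) (nat_lit 5) (nat_lit 6) (nat_lit 4) (nat_lit 4) (nat_lit 4) (nat_lit 313) (nat_lit 241) (nat_lit 226)) (XT.lf (nat_lit 0) (nat_lit 4697541956) (nat_lit 76) (nat_lit 40105477052) (nat_lit 76) (nat_lit 36108476429) (nat_lit 3) (nat_lit 4) (nat_lit 4) (nat_lit 5) (nat_lit 4) (nat_lit 4) (nat_lit 314) (nat_lit 241) (nat_lit 225)))) (XT.nd (nat_lit 78) (nat_lit 0) (nat_lit 0) (XT.lf (nat_lit 0) (nat_lit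 12444294393) (nat_lit 76) (nat_lit 39429956385) (nat_lit 76) (nat_lit 35310910783) (nat_lit 3) (nat_lit 4) (nat_lit 4) (nat_lit 5) (nat_lit 4) (nat_lit 4) (nat_lit 315) (nat_lit 241) (nat_lit 224)) (XT.nd (nat_lit 78) (nat_lit 0) (nat_lit 0) (XT.lf (nat_lit 0) (nat_lit 20614304567) (nat_lit 76) (nat_lit 38791888994) (nat_lit 76) (nat_lit 34559838781) (nat_lit 3) (nat_lit 4) (nat_lit 4) (nat_lit 5) (nat_lit 4) (nat_lit 4) (nat_lit 316) (nat_lit 241) (nat_lit 223)) (XT.lf (nat_lit 0) (nat_lit 29255987353) (nat_lit 76) (nat_lit 38187493739) (nat_lit 76) (nat_lit 33850809627) (nat_lit 3) (nat_lit 4) (nat_lit 4) (nat_lit 5) (nat_lit 4) (nat_lit 4) (nat_lit 317) (nat_lit 241) (nat_lit 222))))))))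
noncomputable def xc16 : XT := (XT.nd (nat_lit 1560) (nat_lit 0) (nat_lit 0) (XT.nd (nat_lit 780) (nat_lit 0) (nat_lit 0) (XT.nd (nat_lit 390) (nat_lit 0) (nat_lit 0) (XT.nd (nat_lit 156) (nat_lit 0) (nat_lit 0) (XT.nd (nat_lit 78) (nat_lit 0) (nat_lit 0) (XT.lf (nat_lit 0) (nat_lit 38420552723) (nat_lit 76) (nat_lit 37613189018) (nat_lit 76) (nat_lit 33179621666) (nat_lit 3) (nat_lit 4) (nat_lit 4) (nat_lit 5) (nat_lit 4) (nat_lit 4) (nat_lit 318) (nat_lit 241) (nat_lit 221)) (XT.lf (nat_lit 0) (nat_lit 48162309213) (nat_lit 76) (nat_lit 37065571544) (nat_lit 76) (nat_lit 32542297489) (nat_lit 3) (nat_lit 4) (nat_lit 4) (nat_lit 5) (nat_lit 4) (nat_lit 4) (nat_lit 319) (nat_lit 241) (nat_lit 220))) (XT.nd (nat_lit 78) (nat_lit 0) (nat_lit 0) (XT.lf (nat_lit 0) (nat_lit 58538985750) (nat_lit 76) (nat_lit 36541396176) (nat_lit 76) (nat_lit 31935060359) (nat_lit 3) (nat_lit 4) (nat_lit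 4) (nat_lit 5) (nat_lit 4) (nat_lit 4) (nat_lit 320) (nat_lit 241) (nat_lit 219)) (XT.nd (nat_lit 78) (nat_lit 0) (nat_lit 0) (XT.lf (nat_lit 0) (nat_lit 69612073750) (nat_lit 76) (nat_lit 36037556690) (nat_lit 76) (nat_lit 31354311834) (nat_lit 3) (nat_lit 4) (nat_lit 4) (nat_lit 5) (nat_lit 4) (nat_lit 4) (nat_lit 321) (nat_lit 241) (nat_lit 218)) (XT.lf (nat_lit 0) (nat_lit 81447191513) (nat_lit 76) (nat_lit 35551067370) (nat_lit 76) (nat_lit 30796610441) (nat_lit 3) (nat_lit 4) (nat_lit 4) (nat_lit 5) (nat_lit 4) (nat_lit 4) (nat_lit 322) (nat_lit 241) (nat_lit 217))))) (XT.nd (nat_lit 156) (nat_lit 0) (nat_lit 0) (XT.nd (nat_lit 78) (nat_lit 0) (nat_lit 0) (XT.lf (nat_lit 0) (nat_lit 94114473071) (nat_lit 76) (nat_lit 35079045318) (nat_lit 76) (nat_lit 30258651283) (nat_lit 3) (nat_lit 4) (nat_lit 4) (nat_lit 5) (nat_lit 4) (nat_lit 4) (nat_lit 323) (nat_lit 241) (nat_lit 216)) (XT.lf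 (nat_lit 0) (nat_lit 107688983794) (nat_lit 76) (nat_lit 34618693365) (nat_lit 76) (nat_lit 29737246455) (nat_lit 3) (nat_lit 4) (nat_lit 4) (nat_lit 5) (nat_lit 4) (nat_lit 4) (nat_lit 324) (nat_lit 241) (nat_lit 215))) (XT.nd (nat_lit 78) (nat_lit 0) (nat_lit 0) (XT.lf (nat_lit 0) (nat_lit 122251165228) (nat_lit 76) (nat_lit 34167283499) (nat_lit 76) (nat_lit 29229306149) (nat_lit 3) (nat_lit 4) (nat_lit 4) (nat_lit 5) (nat_lit 4) (nat_lit 4) (nat_lit 325) (nat_lit 241) (nat_lit 214)) (XT.nd (nat_lit 78) (nat_lit 0) (nat_lit 0) (XT.lf (nat_lit 0) (nat_lit 137887311782) (nat_lit 76) (nat_lit 33722140699) (nat_lit 76) (nat_lit 28731820350) (nat_lit 3) (nat_lit 4) (nat_lit 4) (nat_lit 5) (nat_lit 4) (nat_lit 4) (nat_lit 326) (nat_lit 241) (nat_lit 213)) (XT.lf (nat_lit 0) (nat_lit 154690082102) (nat_lit 76) (nat_lit 33280627082) (nat_lit 76) (nat_lit 28241840992) (nat_lit 3) (nat_lit 4)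 (nat_lit 4) (nat_lit 5) (nat_lit 4) (nat_lit 4) (nat_lit 327) (nat_lit 241) (nat_lit 212)))))) (XT.nd (nat_lit 390) (nat_lit 0) (nat_lit 0) (XT.nd (nat_lit 156) (nat_lit 0) (nat_lit 0) (XT.nd (nat_lit 78) (nat_lit 0) (nat_lit 0) (XT.lf (nat_lit 0) (nat_lit 172759048161) (nat_lit 76) (nat_lit 32840126271) (nat_lit 76) (nat_lit 27756464496) (nat_lit 3) (nat_lit 4) (nat_lit 4) (nat_lit 5) (nat_lit 4) (nat_lit 4) (nat_lit 328) (nat_lit 241) (nat_lit 211)) (XT.lf (nat_lit 0) (nat_lit 192201285312) (nat_lit 76) (nat_lit 32398027890) (nat_lit 76) (nat_lit 27272814555) (nat_lit 3) (nat_lit 4) (nat_lit 4) (nat_lit 5) (nat_lit 4) (nat_lit 4) (nat_lit 329) (nat_lit 241) (nat_lit 210))) (XT.nd (nat_lit 78) (nat_lit 0) (nat_lit 0) (XT.lf (nat_lit 0) (nat_lit 213132006813) (nat_lit 76) (nat_lit 31951712099) (nat_lit 76) (nat_lit 26788025095) (nat_lit 3) (nat_lit 4) (nat_lit 4) (nat_lit 5) (nat_lit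 4) (nat_lit 4) (nat_lit 330) (nat_lit 241) (nat_lit 209)) (XT.nd (nat_lit 78) (nat_lit 0) (nat_lit 0) (XT.lf (nat_lit 0) (nat_lit 235675246568) (nat_lit 76) (nat_lit 31498534061) (nat_lit 76) (nat_lit 26299223291) (nat_lit 3) (nat_lit 4) (nat_lit 4) (nat_lit 5) (nat_lit 4) (nat_lit 4) (nat_lit 331) (nat_lit 241) (nat_lit 208)) (XT.lf (nat_lit 0) (nat_lit 259964594148) (nat_lit 76) (nat_lit 31035808277) (nat_lit 76) (nat_lit 25803512539) (nat_lit 3) (nat_lit 4) (nat_lit 4) (nat_lit 5) (nat_lit 4) (nat_lit 4) (nat_lit 332) (nat_lit 241) (nat_lit 207))))) (XT.nd (nat_lit 156) (nat_lit 0) (nat_lit 0) (XT.nd (nat_lit 78) (nat_lit 0) (nat_lit 0) (XT.lf (nat_lit 0) (nat_lit 286143986426) (nat_lit 76) (nat_lit 30560792670) (nat_lit 76) (nat_lit 25297955294) (nat_lit 3) (nat_lit 4) (nat_lit 4) (nat_lit 5) (nat_lit 4) (nat_lit 4) (nat_lit 333) (nat_lit 241) (nat_lit 206)) (XT.lf (nat_lit 0) (nat_lit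 314368560542) (nat_lit 76) (nat_lit 30070672331) (nat_lit 76) (nat_lit 24779555662) (nat_lit 3) (nat_lit 4) (nat_lit 4) (nat_lit 5) (nat_lit 4) (nat_lit 4) (nat_lit 334) (nat_lit 241) (nat_lit 205))) (XT.nd (nat_lit 78) (nat_lit 0) (nat_lit 0) (XT.lf (nat_lit 0) (nat_lit 344805573232) (nat_lit 76) (nat_lit 29562542845) (nat_lit 76) (nat_lit 24245241643) (nat_lit 3) (nat_lit 4) (nat_lit 4) (nat_lit 5) (nat_lit 4) (nat_lit 4) (nat_lit 335) (nat_lit 241) (nat_lit 204)) (XT.nd (nat_lit 78) (nat_lit 0) (nat_lit 0) (XT.lf (nat_lit 0) (nat_lit 377635391977) (nat_lit 76) (nat_lit 29033393072) (nat_lit 76) (nat_lit 23691846934) (nat_lit 3) (nat_lit 4) (nat_lit 4) (nat_lit 5) (nat_lit 4) (nat_lit 4) (nat_lit 336) (nat_lit 241) (nat_lit 203)) (XT.lf (nat_lit 0) (nat_lit 413052563853) (nat_lit 76) (nat_lit 28480087311) (nat_lit 76) (nat_lit 23116092157) (nat_lit 3) (nat_lit 4) (nat_lit 4) (nat_lit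 5) (nat_lit 4) (nat_lit 4) (nat_lit 337) (nat_lit 241) (nat_lit 202))))))) (XT.nd (nat_lit 780) (nat_lit 0) (nat_lit 0) (XT.nd (nat_lit 390) (nat_lit 0) (nat_lit 0) (XT.nd (nat_lit 156) (nat_lit 0) (nat_lit 0) (XT.nd (nat_lit 78) (nat_lit 0) (nat_lit 0) (XT.lf (nat_lit 0) (nat_lit 451266968395) (nat_lit 76) (nat_lit 27899346712) (nat_lit 76) (nat_lit 22514565433) (nat_lit 3) (nat_lit 4) (nat_lit 4) (nat_lit 5) (nat_lit 4) (nat_lit 4) (nat_lit 338) (nat_lit 241) (nat_lit 201)) (XT.lf (nat_lit 0) (nat_lit 492505061336) (nat_lit 76) (nat_lit 27287729851) (nat_lit 76) (nat_lit 21883702160) (nat_lit 3) (nat_lit 4) (nat_lit 4) (nat_lit 5) (nat_lit 4) (nat_lit 4) (nat_lit 339) (nat_lit 241) (nat_lit 200))) (XT.nd (nat_lit 78) (nat_lit 0) (nat_lit 0) (XT.lf (nat_lit 0) (nat_lit 537011216558) (nat_lit 76) (nat_lit 26641612330) (nat_lit 76) (nat_lit 21219763887) (nat_lit 3) (nat_lit 4) (nat_lit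 4) (nat_lit 5) (nat_lit 4) (nat_lit 4) (nat_lit 340) (nat_lit 241) (nat_lit 199)) (XT.nd (nat_lit 78) (nat_lit 0) (nat_lit 0) (XT.lf (nat_lit 0) (nat_lit 585049174241) (nat_lit 76) (nat_lit 25957165306) (nat_lit 76) (nat_lit 20518816166) (nat_lit 3) (nat_lit 4) (nat_lit 4) (nat_lit 5) (nat_lit 4) (nat_lit 4) (nat_lit 341) (nat_lit 241) (nat_lit 198)) (XT.lf (nat_lit 0) (nat_lit 636903603764) (nat_lit 76) (nat_lit 25230332795) (nat_lit 76) (nat_lit 19776705233) (nat_lit 3) (nat_lit 4) (nat_lit 4) (nat_lit 5) (nat_lit 4) (nat_lit 4) (nat_lit 342) (nat_lit 241) (nat_lit 197))))) (XT.nd (nat_lit 156) (nat_lit 0) (nat_lit 0) (XT.nd (nat_lit 78) (nat_lit 0) (nat_lit 0) (XT.lf (nat_lit 0) (nat_lit 692881790635) (nat_lit 76) (nat_lit 24456807643) (nat_lit 76) (nat_lit 18989033393) (nat_lit 3) (nat_lit 4) (nat_lit 4) (nat_lit 5) (nat_lit 4) (nat_lit 4) (nat_lit 343) (nat_lit 241) (nat_lit 196))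 (XT.lf (nat_lit 0) (nat_lit 753315457443) (nat_lit 76) (nat_lit 23632005996) (nat_lit 76) (nat_lit 18151132961) (nat_lit 3) (nat_lit 4) (nat_lit 4) (nat_lit 5) (nat_lit 4) (nat_lit 4) (nat_lit 344) (nat_lit 241) (nat_lit 195))) (XT.nd (nat_lit 78) (nat_lit 0) (nat_lit 0) (XT.lf (nat_lit 0) (nat_lit 818562729621) (nat_lit 76) (nat_lit 22751040142) (nat_lit 76) (nat_lit 17258038602) (nat_lit 3) (nat_lit 4) (nat_lit 4) (nat_lit 5) (nat_lit 4) (nat_lit 4) (nat_lit 345) (nat_lit 241) (nat_lit 194)) (XT.nd (nat_lit 78) (nat_lit 0) (nat_lit 0) (XT.lf (nat_lit 0) (nat_lit 889010257670) (nat_lit 76) (nat_lit 21808689541) (nat_lit 76) (nat_lit 16304457904) (nat_lit 3) (nat_lit 4) (nat_lit 4) (nat_lit 5) (nat_lit 4) (nat_lit 4) (nat_lit 346) (nat_lit 241) (nat_lit 193)) (XT.lf (nat_lit 0) (nat_lit 965075508424) (nat_lit 76) (nat_lit 20799369893) (nat_lit 76) (nat_lit 15284740019) (nat_lit 3) (nat_lit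 4) (nat_lit 4) (nat_lit 5) (nat_lit 4) (nat_lit 4) (nat_lit 347) (nat_lit 241) (nat_lit 192)))))) (XT.nd (nat_lit 36894) (nat_lit 0) (nat_lit 228) (XT.nd (nat_lit 36660) (nat_lit 0) (nat_lit 380) (XT.nd (nat_lit 36582) (nat_lit 0) (nat_lit 532) (XT.lf (nat_lit 0) (nat_lit 1047209238924) (nat_lit 76) (nat_lit 19717100046) (nat_lit 76) (nat_lit 14192842174) (nat_lit 3) (nat_lit 4) (nat_lit 4) (nat_lit 5) (nat_lit 4) (nat_lit 4) (nat_lit 348) (nat_lit 241) (nat_lit 191)) (XT.lf (nat_lit 0) (nat_lit 3718139361) (nat_lit 152) (nat_lit 3996498561) (nat_lit 0) (nat_lit 3718139361) (nat_lit 10) (nat_lit 5) (nat_lit 12) (nat_lit 4) (nat_lit 10) (nat_lit 4) (nat_lit 296) (nat_lit 242) (nat_lit 242))) (XT.nd (nat_lit 78) (nat_lit 76) (nat_lit 0) (XT.lf (nat_lit 0) (nat_lit 3195775656) (nat_lit 76) (nat_lit 10832476771) (nat_lit 76) (nat_lit 10334622359) (nat_lit 9) (nat_lit 4) (nat_lit 10) (nat_lit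 5) (nat_lit 10) (nat_lit 4) (nat_lit 297) (nat_lit 242) (nat_lit 241)) (XT.nd (nat_lit 78) (nat_lit 76) (nat_lit 0) (XT.lf (nat_lit 0) (nat_lit 14974445375) (nat_lit 76) (nat_lit 5986963793) (nat_lit 76) (nat_lit 5028133074) (nat_lit 9) (nat_lit 4) (nat_lit 10) (nat_lit 5) (nat_lit 10) (nat_lit 4) (nat_lit 298) (nat_lit 242) (nat_lit 240)) (XT.lf (nat_lit 0) (nat_lit 373909462) (nat_lit 152) (nat_lit 619146236) (nat_lit 76) (nat_lit 26768285176) (nat_lit 8) (nat_lit 5) (nat_lit 10) (nat_lit 5) (nat_lit 9) (nat_lit 4) (nat_lit 299) (nat_lit 242) (nat_lit 239))))) (XT.nd (nat_lit 156) (nat_lit 76) (nat_lit 0) (XT.nd (nat_lit 78) (nat_lit 0) (nat_lit 0) (XT.lf (nat_lit 0) (nat_lit 5981069145) (nat_lit 152) (nat_lit 19407444428) (nat_lit 0) (nat_lit 4284999129) (nat_lit 7) (nat_lit 5) (nat_lit 9) (nat_lit 4) (nat_lit 7) (nat_lit 4) (nat_lit 300) (nat_lit 242) (nat_lit 238)) (XT.lf (nat_lit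 0) (nat_lit 11790571595) (nat_lit 152) (nat_lit 10214600030) (nat_lit 0) (nat_lit 9745989336) (nat_lit 7) (nat_lit 5) (nat_lit 9) (nat_lit 4) (nat_lit 7) (nat_lit 4) (nat_lit 301) (nat_lit 242) (nat_lit 237))) (XT.nd (nat_lit 78) (nat_lit 76) (nat_lit 0) (XT.lf (nat_lit 0) (nat_lit 17811189172) (nat_lit 152) (nat_lit 752780793) (nat_lit 0) (nat_lit 15443910391) (nat_lit 7) (nat_lit 5) (nat_lit 9) (nat_lit 4) (nat_lit 7) (nat_lit 4) (nat_lit 302) (nat_lit 242) (nat_lit 236)) (XT.nd (nat_lit 78) (nat_lit 0) (nat_lit 0) (XT.lf (nat_lit 0) (nat_lit 9332790915) (nat_lit 76) (nat_lit 14891519715) (nat_lit 76) (nat_lit 12225447859) (nat_lit 6) (nat_lit 4) (nat_lit 7) (nat_lit 5) (nat_lit 7) (nat_lit 4) (nat_lit 303) (nat_lit 242) (nat_lit 235)) (XT.lf (nat_lit 0) (nat_lit 19838959136) (nat_lit 76) (nat_lit 11100725731) (nat_lit 76) (nat_lit 8157993620) (nat_lit 6) (nat_lit 4) (nat_lit 7) (nat_lit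 5) (nat_lit 7) (nat_lit 4) (nat_lit 304) (nat_lit 242) (nat_lit 234))))))))
noncomputable def xc17 : XT := (XT.nd (nat_lit 1560) (nat_lit 0) (nat_lit 0) (XT.nd (nat_lit 780) (nat_lit 0) (nat_lit 0) (XT.nd (nat_lit 390) (nat_lit 76) (nat_lit 0) (XT.nd (nat_lit 156) (nat_lit 76) (nat_lit 0) (XT.nd (nat_lit 78) (nat_lit 76) (nat_lit 0) (XT.lf (nat_lit 0) (nat_lit 30803092311) (nat_lit 76) (nat_lit 7181872756) (nat_lit 76) (nat_lit 3982973742) (nat_lit 6) (nat_lit 4) (nat_lit 7) (nat_lit 5) (nat_lit 7) (nat_lit 4) (nat_lit 305) (nat_lit 242) (nat_lit 233)) (XT.lf (nat_lit 0) (nat_lit 313971322) (nat_lit 152) (nat_lit 2792449378) (nat_lit 76) (nat_lit 41970874503) (nat_lit 5) (nat_lit 5) (nat_lit 7) (nat_lit 5) (nat_lit 6) (nat_lit 4) (nat_lit 306) (nat_lit 242) (nat_lit 232))) (XT.nd (nat_lit 78) (nat_lit 0) (nat_lit 0) (XT.lf (nat_lit 0) (nat_lit 4751021337) (nat_lit 152) (nat_lit 42415043653)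 (nat_lit 0) (nat_lit 1269390461) (nat_lit 4) (nat_lit 5) (nat_lit 6) (nat_lit 4) (nat_lit 4) (nat_lit 4) (nat_lit 307) (nat_lit 242) (nat_lit 231)) (XT.nd (nat_lit 78) (nat_lit 0) (nat_lit 0) (XT.lf (nat_lit 0) (nat_lit 9470182593) (nat_lit 152) (nat_lit 36800953132) (nat_lit 0) (nat_lit 5794881672) (nat_lit 4) (nat_lit 5) (nat_lit 6) (nat_lit 4) (nat_lit 4) (nat_lit 4) (nat_lit 308) (nat_lit 242) (nat_lit 230)) (XT.lf (nat_lit 0) (nat_lit 14405142697) (nat_lit 152) (nat_lit 31039549016) (nat_lit 0) (nat_lit 10550517661) (nat_lit 4) (nat_lit 5) (nat_lit 6) (nat_lit 4) (nat_lit 4) (nat_lit 4) (nat_lit 309) (nat_lit 242) (nat_lit 229))))) (XT.nd (nat_lit 156) (nat_lit 76) (nat_lit 0) (XT.nd (nat_lit 78) (nat_lit 0) (nat_lit 0) (XT.lf (nat_lit 0) (nat_lit 19585145859) (nat_lit 152) (nat_lit 25096689650) (nat_lit 0) (nat_lit 15564479975) (nat_lit 4) (nat_lit 5) (nat_lit 6) (nat_lit 4) (nat_lit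 4) (nat_lit 4) (nat_lit 310) (nat_lit 242) (nat_lit 228)) (XT.lf (nat_lit 0) (nat_lit 25040888391) (nat_lit 152) (nat_lit 18937158088) (nat_lit 0) (nat_lit 20866480983) (nat_lit 4) (nat_lit 5) (nat_lit 6) (nat_lit 4) (nat_lit 4) (nat_lit 4) (nat_lit 311) (nat_lit 242) (nat_lit 227))) (XT.nd (nat_lit 78) (nat_lit 76) (nat_lit 0) (XT.lf (nat_lit 0) (nat_lit 30804700622) (nat_lit 152) (nat_lit 12524453404) (nat_lit 0) (nat_lit 26487939950) (nat_lit 4) (nat_lit 5) (nat_lit 6) (nat_lit 4) (nat_lit 4) (nat_lit 4) (nat_lit 312) (nat_lit 242) (nat_lit 226)) (XT.nd (nat_lit 78) (nat_lit 76) (nat_lit 0) (XT.lf (nat_lit 0) (nat_lit 36910738475) (nat_lit 152) (nat_lit 5820574385) (nat_lit 0) (nat_lit 32462169225) (nat_lit 4) (nat_lit 5) (nat_lit 6) (nat_lit 4) (nat_lit 4) (nat_lit 4) (nat_lit 313) (nat_lit 242) (nat_lit 225)) (XT.lf (nat_lit 0) (nat_lit 1254352781) (nat_lit 76) (nat_lit 42160417059)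 (nat_lit 76) (nat_lit 37589802829) (nat_lit 3) (nat_lit 4) (nat_lit 4) (nat_lit 5) (nat_lit 4) (nat_lit 4) (nat_lit 314) (nat_lit 242) (nat_lit 224)))))) (XT.nd (nat_lit 390) (nat_lit 0) (nat_lit 0) (XT.nd (nat_lit 156) (nat_lit 0) (nat_lit 0) (XT.nd (nat_lit 78) (nat_lit 0) (nat_lit 0) (XT.lf (nat_lit 0) (nat_lit 8906642498) (nat_lit 76) (nat_lit 41528884339) (nat_lit 76) (nat_lit 36845265498) (nat_lit 3) (nat_lit 4) (nat_lit 4) (nat_lit 5) (nat_lit 4) (nat_lit 4) (nat_lit 315) (nat_lit 242) (nat_lit 223)) (XT.lf (nat_lit 0) (nat_lit 16989187190) (nat_lit 76) (nat_lit 40931546528) (nat_lit 76) (nat_lit 36143293789) (nat_lit 3) (nat_lit 4) (nat_lit 4) (nat_lit 5) (nat_lit 4) (nat_lit 4) (nat_lit 316) (nat_lit 242) (nat_lit 222))) (XT.nd (nat_lit 78) (nat_lit 0) (nat_lit 0) (XT.lf (nat_lit 0) (nat_lit 25549883419) (nat_lit 76) (nat_lit 40364863847) (nat_lit 76) (nat_lit 35479727868) (nat_lit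 3) (nat_lit 4) (nat_lit 4) (nat_lit 5) (nat_lit 4) (nat_lit 4) (nat_lit 317) (nat_lit 242) (nat_lit 221)) (XT.nd (nat_lit 78) (nat_lit 0) (nat_lit 0) (XT.lf (nat_lit 0) (nat_lit 34639461236) (nat_lit 76) (nat_lit 39825478176) (nat_lit 76) (nat_lit 34850635494) (nat_lit 3) (nat_lit 4) (nat_lit 4) (nat_lit 5) (nat_lit 4) (nat_lit 4) (nat_lit 318) (nat_lit 242) (nat_lit 220)) (XT.lf (nat_lit 0) (nat_lit 44311784807) (nat_lit 76) (nat_lit 39310193156) (nat_lit 76) (nat_lit 34252288711) (nat_lit 3) (nat_lit 4) (nat_lit 4) (nat_lit 5) (nat_lit 4) (nat_lit 4) (nat_lit 319) (nat_lit 242) (nat_lit 219))))) (XT.nd (nat_lit 156) (nat_lit 0) (nat_lit 0) (XT.nd (nat_lit 78) (nat_lit 0) (nat_lit 0) (XT.lf (nat_lit 0) (nat_lit 54624171604) (nat_lit 76) (nat_lit 38815955246) (nat_lit 76) (nat_lit 33681141762) (nat_lit 3) (nat_lit 4) (nat_lit 4) (nat_lit 5) (nat_lit 4) (nat_lit 4) (nat_lit 320) (nat_lit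 242) (nat_lit 218)) (XT.lf (nat_lit 0) (nat_lit 65637732067) (nat_lit 76) (nat_lit 38339835628) (nat_lit 76) (nat_lit 33133810071) (nat_lit 3) (nat_lit 4) (nat_lit 4) (nat_lit 5) (nat_lit 4) (nat_lit 4) (nat_lit 321) (nat_lit 242) (nat_lit 217))) (XT.nd (nat_lit 78) (nat_lit 0) (nat_lit 0) (XT.lf (nat_lit 0) (nat_lit 77417731740) (nat_lit 76) (nat_lit 37879012853) (nat_lit 76) (nat_lit 32607050191) (nat_lit 3) (nat_lit 4) (nat_lit 4) (nat_lit 5) (nat_lit 4) (nat_lit 4) (nat_lit 322) (nat_lit 242) (nat_lit 216)) (XT.nd (nat_lit 78) (nat_lit 0) (nat_lit 0) (XT.lf (nat_lit 0) (nat_lit 90033978029) (nat_lit 76) (nat_lit 37430756119) (nat_lit 76) (nat_lit 32097740582) (nat_lit 3) (nat_lit 4) (nat_lit 4) (nat_lit 5) (nat_lit 4) (nat_lit 4) (nat_lit 323) (nat_lit 242) (nat_lit 215)) (XT.lf (nat_lit 0) (nat_lit 103561233874) (nat_lit 76) (nat_lit 36992409091) (nat_lit 76) (nat_lit 31602863114)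 (nat_lit 3) (nat_lit 4) (nat_lit 4) (nat_lit 5) (nat_lit 4) (nat_lit 4) (nat_lit 324) (nat_lit 242) (nat_lit 214))))))) (XT.nd (nat_lit 780) (nat_lit 0) (nat_lit 0) (XT.nd (nat_lit 390) (nat_lit 0) (nat_lit 0) (XT.nd (nat_lit 156) (nat_lit 0) (nat_lit 0) (XT.nd (nat_lit 78) (nat_lit 0) (nat_lit 0) (XT.lf (nat_lit 0) (nat_lit 118079660791) (nat_lit 76) (nat_lit 36561374155) (nat_lit 76) (nat_lit 31119485179) (nat_lit 3) (nat_lit 4) (nat_lit 4) (nat_lit 5) (nat_lit 4) (nat_lit 4) (nat_lit 325) (nat_lit 242) (nat_lit 213)) (XT.lf (nat_lit 0) (nat_lit 133675293904) (nat_lit 76) (nat_lit 36135097032) (nat_lit 76) (nat_lit 30644742315) (nat_lit 3) (nat_lit 4) (nat_lit 4) (nat_lit 5) (nat_lit 4) (nat_lit 4) (nat_lit 326) (nat_lit 242) (nat_lit 212))) (XT.nd (nat_lit 78) (nat_lit 0) (nat_lit 0) (XT.lf (nat_lit 0) (nat_lit 150440551778) (nat_lit 76) (nat_lit 35711051634) (nat_lit 76) (nat_lit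 30175821231) (nat_lit 3) (nat_lit 4) (nat_lit 4) (nat_lit 5) (nat_lit 4) (nat_lit 4) (nat_lit 327) (nat_lit 242) (nat_lit 211)) (XT.nd (nat_lit 78) (nat_lit 0) (nat_lit 0) (XT.lf (nat_lit 0) (nat_lit 168474784090) (nat_lit 76) (nat_lit 35286725099) (nat_lit 76) (nat_lit 29709943136) (nat_lit 3) (nat_lit 4) (nat_lit 4) (nat_lit 5) (nat_lit 4) (nat_lit 4) (nat_lit 328) (nat_lit 242) (nat_lit 210)) (XT.lf (nat_lit 0) (nat_lit 187884860365) (nat_lit 76) (nat_lit 34859602901) (nat_lit 76) (nat_lit 29244347270) (nat_lit 3) (nat_lit 4) (nat_lit 4) (nat_lit 5) (nat_lit 4) (nat_lit 4) (nat_lit 329) (nat_lit 242) (nat_lit 209))))) (XT.nd (nat_lit 156) (nat_lit 0) (nat_lit 0) (XT.nd (nat_lit 78) (nat_lit 0) (nat_lit 0) (XT.lf (nat_lit 0) (nat_lit 208785803277) (nat_lit 76) (nat_lit 34427153945) (nat_lit 76) (nat_lit 28776274547) (nat_lit 3) (nat_lit 4) (nat_lit 4) (nat_lit 5) (nat_lit 4) (nat_lit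 4) (nat_lit 330) (nat_lit 242) (nat_lit 208)) (XT.lf (nat_lit 0) (nat_lit 231301470265) (nat_lit 76) (nat_lit 33986815569) (nat_lit 76) (nat_lit 28302951203) (nat_lit 3) (nat_lit 4) (nat_lit 4) (nat_lit 5) (nat_lit 4) (nat_lit 4) (nat_lit 331) (nat_lit 242) (nat_lit 207))) (XT.nd (nat_lit 78) (nat_lit 0) (nat_lit 0) (XT.lf (nat_lit 0) (nat_lit 255565287505) (nat_lit 76) (nat_lit 33535978362) (nat_lit 76) (nat_lit 27821572359) (nat_lit 3) (nat_lit 4) (nat_lit 4) (nat_lit 5) (nat_lit 4) (nat_lit 4) (nat_lit 332) (nat_lit 242) (nat_lit 206)) (XT.nd (nat_lit 78) (nat_lit 0) (nat_lit 0) (XT.lf (nat_lit 0) (nat_lit 281721040579) (nat_lit 76) (nat_lit 33071970696) (nat_lit 76) (nat_lit 27329285398) (nat_lit 3) (nat_lit 4) (nat_lit 4) (nat_lit 5) (nat_lit 4) (nat_lit 4) (nat_lit 333) (nat_lit 242) (nat_lit 205)) (XT.lf (nat_lit 0) (nat_lit 309923726543) (nat_lit 76) (nat_lit 32592042895) (nat_lit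 76) (nat_lit 26823173066) (nat_lit 3) (nat_lit 4) (nat_lit 4) (nat_lit 5) (nat_lit 4) (nat_lit 4) (nat_lit 334) (nat_lit 242) (nat_lit 204)))))) (XT.nd (nat_lit 390) (nat_lit 0) (nat_lit 0) (XT.nd (nat_lit 156) (nat_lit 0) (nat_lit 0) (XT.nd (nat_lit 78) (nat_lit 0) (nat_lit 0) (XT.lf (nat_lit 0) (nat_lit 340340472425) (nat_lit 76) (nat_lit 32093350943) (nat_lit 76) (nat_lit 26300236177) (nat_lit 3) (nat_lit 4) (nat_lit 4) (nat_lit 5) (nat_lit 4) (nat_lit 4) (nat_lit 335) (nat_lit 242) (nat_lit 203)) (XT.lf (nat_lit 0) (nat_lit 373151525608) (nat_lit 76) (nat_lit 31572939629) (nat_lit 76) (nat_lit 25757375847) (nat_lit 3) (nat_lit 4) (nat_lit 4) (nat_lit 5) (nat_lit 4) (nat_lit 4) (nat_lit 336) (nat_lit 242) (nat_lit 202))) (XT.nd (nat_lit 78) (nat_lit 0) (nat_lit 0) (XT.lf (nat_lit 0) (nat_lit 408551321963) (nat_lit 76) (nat_lit 31027725033) (nat_lit 76) (nat_lit 25191375126) (nat_lit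 3) (nat_lit 4) (nat_lit 4) (nat_lit 5) (nat_lit 4) (nat_lit 4) (nat_lit 337) (nat_lit 242) (nat_lit 201)) (XT.nd (nat_lit 78) (nat_lit 0) (nat_lit 0) (XT.lf (nat_lit 0) (nat_lit 446749638061) (nat_lit 76) (nat_lit 30454476254) (nat_lit 76) (nat_lit 24598879935) (nat_lit 3) (nat_lit 4) (nat_lit 4) (nat_lit 5) (nat_lit 4) (nat_lit 4) (nat_lit 338) (nat_lit 242) (nat_lit 200)) (XT.lf (nat_lit 0) (nat_lit 487972834293) (nat_lit 76) (nat_lit 29849796263) (nat_lit 76) (nat_lit 23976379192) (nat_lit 3) (nat_lit 4) (nat_lit 4) (nat_lit 5) (nat_lit 4) (nat_lit 4) (nat_lit 339) (nat_lit 242) (nat_lit 199))))) (XT.nd (nat_lit 156) (nat_lit 0) (nat_lit 0) (XT.nd (nat_lit 78) (nat_lit 0) (nat_lit 0) (XT.lf (nat_lit 0) (nat_lit 532465196267) (nat_lit 76) (nat_lit 29210101770) (nat_lit 76) (nat_lit 23320184002) (nat_lit 3) (nat_lit 4) (nat_lit 4) (nat_lit 5) (nat_lit 4) (nat_lit 4) (nat_lit 340) (nat_lit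 242) (nat_lit 198)) (XT.lf (nat_lit 0) (nat_lit 580490382423) (nat_lit 76) (nat_lit 28531601994) (nat_lit 76) (nat_lit 22626405803) (nat_lit 3) (nat_lit 4) (nat_lit 4) (nat_lit 5) (nat_lit 4) (nat_lit 4) (nat_lit 341) (nat_lit 242) (nat_lit 197))) (XT.nd (nat_lit 78) (nat_lit 0) (nat_lit 0) (XT.lf (nat_lit 0) (nat_lit 632332986459) (nat_lit 76) (nat_lit 27810276194) (nat_lit 76) (nat_lit 21890933316) (nat_lit 3) (nat_lit 4) (nat_lit 4) (nat_lit 5) (nat_lit 4) (nat_lit 4) (nat_lit 342) (nat_lit 242) (nat_lit 196)) (XT.nd (nat_lit 78) (nat_lit 0) (nat_lit 0) (XT.lf (nat_lit 0) (nat_lit 688300223804) (nat_lit 76) (nat_lit 27041849849) (nat_lit 76) (nat_lit 21109408186) (nat_lit 3) (nat_lit 4) (nat_lit 4) (nat_lit 5) (nat_lit 4) (nat_lit 4) (nat_lit 343) (nat_lit 242) (nat_lit 195)) (XT.lf (nat_lit 0) (nat_lit 748723752163) (nat_lit 76) (nat_lit 26221769319) (nat_lit 76) (nat_lit 20277199152)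 (nat_lit 3) (nat_lit 4) (nat_lit 4) (nat_lit 5) (nat_lit 4) (nat_lit 4) (nat_lit 344) (nat_lit 242) (nat_lit 194))))))))
noncomputable def xc18 : XT := (XT.nd (nat_lit 37908) (nat_lit 0) (nat_lit 0) (XT.nd (nat_lit 37128) (nat_lit 0) (nat_lit 76) (XT.nd (nat_lit 36738) (nat_lit 0) (nat_lit 380) (XT.nd (nat_lit 156) (nat_lit 0) (nat_lit 0) (XT.nd (nat_lit 78) (nat_lit 0) (nat_lit 0) (XT.lf (nat_lit 0) (nat_lit 813961636887) (nat_lit 76) (nat_lit 25345174869) (nat_lit 76) (nat_lit 19389374605) (nat_lit 3) (nat_lit 4) (nat_lit 4) (nat_lit 5) (nat_lit 4) (nat_lit 4) (nat_lit 345) (nat_lit 242) (nat_lit 193)) (XT.lf (nat_lit 0) (nat_lit 884400472851) (nat_lit 76) (nat_lit 24406871865) (nat_lit 76) (nat_lit 18440673363) (nat_lit 3) (nat_lit 4) (nat_lit 4) (nat_lit 5) (nat_lit 4) (nat_lit 4) (nat_lit 346) (nat_lit 242) (nat_lit 192))) (XT.nd (nat_lit 78) (nat_lit 0) (nat_lit 0) (XT.lf (nat_lit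 0) (nat_lit 960457675376) (nat_lit 76) (nat_lit 23401299993) (nat_lit 76) (nat_lit 17425473493) (nat_lit 3) (nat_lit 4) (nat_lit 4) (nat_lit 5) (nat_lit 4) (nat_lit 4) (nat_lit 347) (nat_lit 242) (nat_lit 191)) (XT.nd (nat_lit 36426) (nat_lit 0) (nat_lit 684) (XT.lf (nat_lit 0) (nat_lit 1042583953813) (nat_lit 76) (nat_lit 22322500308) (nat_lit 76) (nat_lit 16337758995) (nat_lit 3) (nat_lit 4) (nat_lit 4) (nat_lit 5) (nat_lit 4) (nat_lit 4) (nat_lit 348) (nat_lit 242) (nat_lit 190)) (XT.lf (nat_lit 0) (nat_lit 5714701291) (nat_lit 76) (nat_lit 2196699446) (nat_lit 76) (nat_lit 2196699446) (nat_lit 12) (nat_lit 4) (nat_lit 13) (nat_lit 5) (nat_lit 13) (nat_lit 4) (nat_lit 294) (nat_lit 243) (nat_lit 243))))) (XT.nd (nat_lit 156) (nat_lit 152) (nat_lit 0) (XT.nd (nat_lit 78) (nat_lit 0) (nat_lit 0) (XT.lf (nat_lit 0) (nat_lit 1600294931) (nat_lit 152) (nat_lit 18829992100) (nat_lit 0) (nat_lit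 1062612166) (nat_lit 10) (nat_lit 5) (nat_lit 12) (nat_lit 4) (nat_lit 10) (nat_lit 4) (nat_lit 295) (nat_lit 243) (nat_lit 242)) (XT.lf (nat_lit 0) (nat_lit 7809787838) (nat_lit 152) (nat_lit 8289856053) (nat_lit 0) (nat_lit 6774250661) (nat_lit 10) (nat_lit 5) (nat_lit 12) (nat_lit 4) (nat_lit 10) (nat_lit 4) (nat_lit 296) (nat_lit 243) (nat_lit 241))) (XT.nd (nat_lit 78) (nat_lit 76) (nat_lit 0) (XT.lf (nat_lit 0) (nat_lit 2605143425) (nat_lit 76) (nat_lit 11635384055) (nat_lit 76) (nat_lit 10138870570) (nat_lit 9) (nat_lit 4) (nat_lit 10) (nat_lit 5) (nat_lit 10) (nat_lit 4) (nat_lit 297) (nat_lit 243) (nat_lit 240)) (XT.nd (nat_lit 78) (nat_lit 76) (nat_lit 0) (XT.lf (nat_lit 0) (nat_lit 14120889252) (nat_lit 76) (nat_lit 6907937548) (nat_lit 76) (nat_lit 4984594149) (nat_lit 9) (nat_lit 4) (nat_lit 10) (nat_lit 5) (nat_lit 10) (nat_lit 4) (nat_lit 298) (nat_lit 243) (nat_lit 239))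 (XT.lf (nat_lit 0) (nat_lit 279627924) (nat_lit 152) (nat_lit 1745319038) (nat_lit 76) (nat_lit 25767159246) (nat_lit 8) (nat_lit 5) (nat_lit 10) (nat_lit 5) (nat_lit 9) (nat_lit 4) (nat_lit 299) (nat_lit 243) (nat_lit 238)))))) (XT.nd (nat_lit 390) (nat_lit 152) (nat_lit 0) (XT.nd (nat_lit 156) (nat_lit 76) (nat_lit 0) (XT.nd (nat_lit 78) (nat_lit 0) (nat_lit 0) (XT.lf (nat_lit 0) (nat_lit 5720514719) (nat_lit 152) (nat_lit 20828315240) (nat_lit 0) (nat_lit 3163853636) (nat_lit 7) (nat_lit 5) (nat_lit 9) (nat_lit 4) (nat_lit 7) (nat_lit 4) (nat_lit 300) (nat_lit 243) (nat_lit 237)) (XT.lf (nat_lit 0) (nat_lit 11408072424) (nat_lit 152) (nat_lit 11859726954) (nat_lit 0) (nat_lit 8528714820) (nat_lit 7) (nat_lit 5) (nat_lit 9) (nat_lit 4) (nat_lit 7) (nat_lit 4) (nat_lit 301) (nat_lit 243) (nat_lit 236))) (XT.nd (nat_lit 78) (nat_lit 76) (nat_lit 0) (XT.lf (nat_lit 0) (nat_lit 17315778200)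 (nat_lit 152) (nat_lit 2605552266) (nat_lit 0) (nat_lit 14137627520) (nat_lit 7) (nat_lit 5) (nat_lit 9) (nat_lit 4) (nat_lit 7) (nat_lit 4) (nat_lit 302) (nat_lit 243) (nat_lit 235)) (XT.nd (nat_lit 78) (nat_lit 0) (nat_lit 0) (XT.lf (nat_lit 0) (nat_lit 7220137881) (nat_lit 76) (nat_lit 16371229379) (nat_lit 76) (nat_lit 12916418444) (nat_lit 6) (nat_lit 4) (nat_lit 7) (nat_lit 5) (nat_lit 7) (nat_lit 4) (nat_lit 303) (nat_lit 243) (nat_lit 234)) (XT.lf (nat_lit 0) (nat_lit 17542398168) (nat_lit 76) (nat_lit 12664668341) (nat_lit 76) (nat_lit 8953690503) (nat_lit 6) (nat_lit 4) (nat_lit 7) (nat_lit 5) (nat_lit 7) (nat_lit 4) (nat_lit 304) (nat_lit 243) (nat_lit 233))))) (XT.nd (nat_lit 156) (nat_lit 152) (nat_lit 0) (XT.nd (nat_lit 78) (nat_lit 0) (nat_lit 0) (XT.lf (nat_lit 0) (nat_lit 28336246219) (nat_lit 76) (nat_lit 8823808834) (nat_lit 76) (nat_lit 4875639420) (nat_lit 6) (nat_lit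 4) (nat_lit 7) (nat_lit 5) (nat_lit 7) (nat_lit 4) (nat_lit 305) (nat_lit 243) (nat_lit 232)) (XT.lf (nat_lit 0) (nat_lit 39665645577) (nat_lit 76) (nat_lit 4825890210) (nat_lit 76) (nat_lit 658098966) (nat_lit 6) (nat_lit 4) (nat_lit 7) (nat_lit 5) (nat_lit 7) (nat_lit 4) (nat_lit 306) (nat_lit 243) (nat_lit 231))) (XT.nd (nat_lit 78) (nat_lit 0) (nat_lit 0) (XT.lf (nat_lit 0) (nat_lit 3118368987) (nat_lit 76) (nat_lit 535052367) (nat_lit 152) (nat_lit 44862268112) (nat_lit 4) (nat_lit 5) (nat_lit 5) (nat_lit 5) (nat_lit 6) (nat_lit 4) (nat_lit 307) (nat_lit 243) (nat_lit 230)) (XT.nd (nat_lit 78) (nat_lit 0) (nat_lit 0) (XT.lf (nat_lit 0) (nat_lit 8286472188) (nat_lit 152) (nat_lit 39919979006) (nat_lit 0) (nat_lit 3944153034) (nat_lit 4) (nat_lit 5) (nat_lit 6) (nat_lit 4) (nat_lit 4) (nat_lit 4) (nat_lit 308) (nat_lit 243) (nat_lit 229)) (XT.lf (nat_lit 0) (nat_lit 13149435296) (nat_lit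 152) (nat_lit 34292929255) (nat_lit 0) (nat_lit 8641075295) (nat_lit 4) (nat_lit 5) (nat_lit 6) (nat_lit 4) (nat_lit 4) (nat_lit 4) (nat_lit 309) (nat_lit 243) (nat_lit 228))))))) (XT.nd (nat_lit 780) (nat_lit 0) (nat_lit 0) (XT.nd (nat_lit 390) (nat_lit 76) (nat_lit 0) (XT.nd (nat_lit 156) (nat_lit 0) (nat_lit 0) (XT.nd (nat_lit 78) (nat_lit 0) (nat_lit 0) (XT.lf (nat_lit 0) (nat_lit 18262774572) (nat_lit 152) (nat_lit 28474472078) (nat_lit 0) (nat_lit 13600673046) (nat_lit 4) (nat_lit 5) (nat_lit 6) (nat_lit 4) (nat_lit 4) (nat_lit 4) (nat_lit 310) (nat_lit 243) (nat_lit 227)) (XT.lf (nat_lit 0) (nat_lit 23656791286) (nat_lit 152) (nat_lit 22430127729) (nat_lit 0) (nat_lit 18852336495) (nat_lit 4) (nat_lit 5) (nat_lit 6) (nat_lit 4) (nat_lit 4) (nat_lit 4) (nat_lit 311) (nat_lit 243) (nat_lit 226))) (XT.nd (nat_lit 78) (nat_lit 0) (nat_lit 0) (XT.lf (nat_lit 0) (nat_lit 29363449980)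 (nat_lit 152) (nat_lit 16124077872) (nat_lit 0) (nat_lit 24427186611) (nat_lit 4) (nat_lit 5) (nat_lit 6) (nat_lit 4) (nat_lit 4) (nat_lit 4) (nat_lit 312) (nat_lit 243) (nat_lit 225)) (XT.nd (nat_lit 78) (nat_lit 0) (nat_lit 0) (XT.lf (nat_lit 0) (nat_lit 35416567891) (nat_lit 152) (nat_lit 9518953322) (nat_lit 0) (nat_lit 30358259544) (nat_lit 4) (nat_lit 5) (nat_lit 6) (nat_lit 4) (nat_lit 4) (nat_lit 4) (nat_lit 313) (nat_lit 243) (nat_lit 224)) (XT.lf (nat_lit 0) (nat_lit 41852015349) (nat_lit 152) (nat_lit 2575612600) (nat_lit 0) (nat_lit 36680702391) (nat_lit 4) (nat_lit 5) (nat_lit 6) (nat_lit 4) (nat_lit 4) (nat_lit 4) (nat_lit 314) (nat_lit 243) (nat_lit 223))))) (XT.nd (nat_lit 156) (nat_lit 0) (nat_lit 0) (XT.nd (nat_lit 78) (nat_lit 0) (nat_lit 0) (XT.lf (nat_lit 0) (nat_lit 4904050249) (nat_lit 76) (nat_lit 43880444056) (nat_lit 76) (nat_lit 38604497199) (nat_lit 3) (nat_lit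 4) (nat_lit 4) (nat_lit 5) (nat_lit 4) (nat_lit 4) (nat_lit 315) (nat_lit 243) (nat_lit 222)) (XT.lf (nat_lit 0) (nat_lit 12905608384) (nat_lit 76) (nat_lit 43320818819) (nat_lit 76) (nat_lit 37947988722) (nat_lit 3) (nat_lit 4) (nat_lit 4) (nat_lit 5) (nat_lit 4) (nat_lit 4) (nat_lit 316) (nat_lit 243) (nat_lit 221))) (XT.nd (nat_lit 78) (nat_lit 0) (nat_lit 0) (XT.lf (nat_lit 0) (nat_lit 21391317061) (nat_lit 76) (nat_lit 42789055189) (nat_lit 76) (nat_lit 37326518388) (nat_lit 3) (nat_lit 4) (nat_lit 4) (nat_lit 5) (nat_lit 4) (nat_lit 4) (nat_lit 317) (nat_lit 243) (nat_lit 220)) (XT.nd (nat_lit 78) (nat_lit 0) (nat_lit 0) (XT.lf (nat_lit 0) (nat_lit 30411461958) (nat_lit 76) (nat_lit 42282001972) (nat_lit 76) (nat_lit 36736403409) (nat_lit 3) (nat_lit 4) (nat_lit 4) (nat_lit 5) (nat_lit 4) (nat_lit 4) (nat_lit 318) (nat_lit 243) (nat_lit 219)) (XT.lf (nat_lit 0) (nat_lit 40019495789)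 (nat_lit 76) (nat_lit 41796654409) (nat_lit 76) (nat_lit 36174146807) (nat_lit 3) (nat_lit 4) (nat_lit 4) (nat_lit 5) (nat_lit 4) (nat_lit 4) (nat_lit 319) (nat_lit 243) (nat_lit 218)))))) (XT.nd (nat_lit 390) (nat_lit 0) (nat_lit 0) (XT.nd (nat_lit 156) (nat_lit 0) (nat_lit 0) (XT.nd (nat_lit 78) (nat_lit 0) (nat_lit 0) (XT.lf (nat_lit 0) (nat_lit 50272355048) (nat_lit 76) (nat_lit 41330136367) (nat_lit 76) (nat_lit 35636416691) (nat_lit 3) (nat_lit 4) (nat_lit 4) (nat_lit 5) (nat_lit 4) (nat_lit 4) (nat_lit 320) (nat_lit 243) (nat_lit 217)) (XT.lf (nat_lit 0) (nat_lit 61230797422) (nat_lit 76) (nat_lit 40879683293) (nat_lit 76) (nat_lit 35120026513) (nat_lit 3) (nat_lit 4) (nat_lit 4) (nat_lit 5) (nat_lit 4) (nat_lit 4) (nat_lit 321) (nat_lit 243) (nat_lit 216))) (XT.nd (nat_lit 78) (nat_lit 0) (nat_lit 0) (XT.lf (nat_lit 0) (nat_lit 72959761826) (nat_lit 76) (nat_lit 40442625837) (nat_lit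 76) (nat_lit 34621916182) (nat_lit 3) (nat_lit 4) (nat_lit 4) (nat_lit 5) (nat_lit 4) (nat_lit 4) (nat_lit 322) (nat_lit 243) (nat_lit 215)) (XT.nd (nat_lit 78) (nat_lit 0) (nat_lit 0) (XT.lf (nat_lit 0) (nat_lit 85528753237) (nat_lit 76) (nat_lit 40016374028) (nat_lit 76) (nat_lit 34139133934) (nat_lit 3) (nat_lit 4) (nat_lit 4) (nat_lit 5) (nat_lit 4) (nat_lit 4) (nat_lit 323) (nat_lit 243) (nat_lit 214)) (XT.lf (nat_lit 0) (nat_lit 99012254565) (nat_lit 76) (nat_lit 39598401930) (nat_lit 76) (nat_lit 33668818836) (nat_lit 3) (nat_lit 4) (nat_lit 4) (nat_lit 5) (nat_lit 4) (nat_lit 4) (nat_lit 324) (nat_lit 243) (nat_lit 213))))) (XT.nd (nat_lit 156) (nat_lit 0) (nat_lit 0) (XT.nd (nat_lit 78) (nat_lit 0) (nat_lit 0) (XT.lf (nat_lit 0) (nat_lit 113490168041) (nat_lit 76) (nat_lit 39186232671) (nat_lit 76) (nat_lit 33208183836) (nat_lit 3) (nat_lit 4) (nat_lit 4) (nat_lit 5) (nat_lit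 4) (nat_lit 4) (nat_lit 325) (nat_lit 243) (nat_lit 212)) (XT.lf (nat_lit 0) (nat_lit 129048288708) (nat_lit 76) (nat_lit 38777423767) (nat_lit 76) (nat_lit 32754499246) (nat_lit 3) (nat_lit 4) (nat_lit 4) (nat_lit 5) (nat_lit 4) (nat_lit 4) (nat_lit 326) (nat_lit 243) (nat_lit 211))) (XT.nd (nat_lit 78) (nat_lit 0) (nat_lit 0) (XT.lf (nat_lit 0) (nat_lit 145778812836) (nat_lit 76) (nat_lit 38369552645) (nat_lit 76) (nat_lit 32305076564) (nat_lit 3) (nat_lit 4) (nat_lit 4) (nat_lit 5) (nat_lit 4) (nat_lit 4) (nat_lit 327) (nat_lit 243) (nat_lit 210)) (XT.nd (nat_lit 78) (nat_lit 0) (nat_lit 0) (XT.lf (nat_lit 0) (nat_lit 163780884272) (nat_lit 76) (nat_lit 37960202293) (nat_lit 76) (nat_lit 31857252544) (nat_lit 3) (nat_lit 4) (nat_lit 4) (nat_lit 5) (nat_lit 4) (nat_lit 4) (nat_lit 328) (nat_lit 243) (nat_lit 209)) (XT.lf (nat_lit 0) (nat_lit 183161181958) (nat_lit 76) (nat_lit 37546946930)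 (nat_lit 76) (nat_lit 31408373415) (nat_lit 3) (nat_lit 4) (nat_lit 4) (nat_lit 5) (nat_lit 4) (nat_lit 4) (nat_lit 329) (nat_lit 243) (nat_lit 208))))))))
noncomputable def xc19 : XT := (XT.nd (nat_lit 37752) (nat_lit 0) (nat_lit 76) (XT.nd (nat_lit 780) (nat_lit 0) (nat_lit 0) (XT.nd (nat_lit 390) (nat_lit 0) (nat_lit 0) (XT.nd (nat_lit 156) (nat_lit 0) (nat_lit 0) (XT.nd (nat_lit 78) (nat_lit 0) (nat_lit 0) (XT.lf (nat_lit 0) (nat_lit 204034552102) (nat_lit 76) (nat_lit 37127337636) (nat_lit 76) (nat_lit 30955779152) (nat_lit 3) (nat_lit 4) (nat_lit 4) (nat_lit 5) (nat_lit 4) (nat_lit 4) (nat_lit 330) (nat_lit 243) (nat_lit 207)) (XT.lf (nat_lit 0) (nat_lit 226524688750) (nat_lit 76) (nat_lit 36698887837) (nat_lit 76) (nat_lit 30496787715) (nat_lit 3) (nat_lit 4) (nat_lit 4) (nat_lit 5) (nat_lit 4) (nat_lit 4) (nat_lit 331) (nat_lit 243) (nat_lit 206))) (XT.nd (nat_lit 78) (nat_lit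 0) (nat_lit 0) (XT.lf (nat_lit 0) (nat_lit 250764866785) (nat_lit 76) (nat_lit 36259058571) (nat_lit 76) (nat_lit 30028679155) (nat_lit 3) (nat_lit 4) (nat_lit 4) (nat_lit 5) (nat_lit 4) (nat_lit 4) (nat_lit 332) (nat_lit 243) (nat_lit 205)) (XT.nd (nat_lit 78) (nat_lit 0) (nat_lit 0) (XT.lf (nat_lit 0) (nat_lit 276898731708) (nat_lit 76) (nat_lit 35805243442) (nat_lit 76) (nat_lit 29548679495) (nat_lit 3) (nat_lit 4) (nat_lit 4) (nat_lit 5) (nat_lit 4) (nat_lit 4) (nat_lit 333) (nat_lit 243) (nat_lit 204)) (XT.lf (nat_lit 0) (nat_lit 305081150865) (nat_lit 76) (nat_lit 35334753176) (nat_lit 76) (nat_lit 29053944293) (nat_lit 3) (nat_lit 4) (nat_lit 4) (nat_lit 5) (nat_lit 4) (nat_lit 4) (nat_lit 334) (nat_lit 243) (nat_lit 203))))) (XT.nd (nat_lit 156) (nat_lit 0) (nat_lit 0) (XT.nd (nat_lit 78) (nat_lit 0) (nat_lit 0) (XT.lf (nat_lit 0) (nat_lit 335479131185) (nat_lit 76) (nat_lit 34844799683)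 (nat_lit 76) (nat_lit 28541541784) (nat_lit 3) (nat_lit 4) (nat_lit 4) (nat_lit 5) (nat_lit 4) (nat_lit 4) (nat_lit 335) (nat_lit 243) (nat_lit 202)) (XT.lf (nat_lit 0) (nat_lit 368272808847) (nat_lit 76) (nat_lit 34332479534) (nat_lit 76) (nat_lit 28008435509) (nat_lit 3) (nat_lit 4) (nat_lit 4) (nat_lit 5) (nat_lit 4) (nat_lit 4) (nat_lit 336) (nat_lit 243) (nat_lit 201))) (XT.nd (nat_lit 78) (nat_lit 0) (nat_lit 0) (XT.lf (nat_lit 0) (nat_lit 403656516757) (nat_lit 76) (nat_lit 33794756758) (nat_lit 76) (nat_lit 27451466321) (nat_lit 3) (nat_lit 4) (nat_lit 4) (nat_lit 5) (nat_lit 4) (nat_lit 4) (nat_lit 337) (nat_lit 243) (nat_lit 200)) (XT.nd (nat_lit 78) (nat_lit 0) (nat_lit 0) (XT.lf (nat_lit 0) (nat_lit 441839936146) (nat_lit 76) (nat_lit 33228444849) (nat_lit 76) (nat_lit 26867333660) (nat_lit 3) (nat_lit 4) (nat_lit 4) (nat_lit 5) (nat_lit 4) (nat_lit 4) (nat_lit 338) (nat_lit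 243) (nat_lit 199)) (XT.lf (nat_lit 0) (nat_lit 483049339130) (nat_lit 76) (nat_lit 32630187885) (nat_lit 76) (nat_lit 26252576000) (nat_lit 3) (nat_lit 4) (nat_lit 4) (nat_lit 5) (nat_lit 4) (nat_lit 4) (nat_lit 339) (nat_lit 243) (nat_lit 198)))))) (XT.nd (nat_lit 390) (nat_lit 0) (nat_lit 0) (XT.nd (nat_lit 156) (nat_lit 0) (nat_lit 0) (XT.nd (nat_lit 78) (nat_lit 0) (nat_lit 0) (XT.lf (nat_lit 0) (nat_lit 527528929577) (nat_lit 76) (nat_lit 31996440641) (nat_lit 76) (nat_lit 25603550332) (nat_lit 3) (nat_lit 4) (nat_lit 4) (nat_lit 5) (nat_lit 4) (nat_lit 4) (nat_lit 340) (nat_lit 243) (nat_lit 197)) (XT.lf (nat_lit 0) (nat_lit 575542290246) (nat_lit 76) (nat_lit 31323447575) (nat_lit 76) (nat_lit 24916410580) (nat_lit 3) (nat_lit 4) (nat_lit 4) (nat_lit 5) (nat_lit 4) (nat_lit 4) (nat_lit 341) (nat_lit 243) (nat_lit 196))) (XT.nd (nat_lit 78) (nat_lit 0) (nat_lit 0) (XT.lf (nat_lit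 0) (nat_lit 627373944756) (nat_lit 76) (nat_lit 30607220583) (nat_lit 76) (nat_lit 24187084802) (nat_lit 3) (nat_lit 4) (nat_lit 4) (nat_lit 5) (nat_lit 4) (nat_lit 4) (nat_lit 342) (nat_lit 243) (nat_lit 195)) (XT.nd (nat_lit 78) (nat_lit 0) (nat_lit 0) (XT.lf (nat_lit 0) (nat_lit 683331043653) (nat_lit 76) (nat_lit 29843515354) (nat_lit 76) (nat_lit 23411251069) (nat_lit 3) (nat_lit 4) (nat_lit 4) (nat_lit 5) (nat_lit 4) (nat_lit 4) (nat_lit 343) (nat_lit 243) (nat_lit 194)) (XT.lf (nat_lit 0) (nat_lit 743745184558) (nat_lit 76) (nat_lit 29027806229) (nat_lit 76) (nat_lit 22584311847) (nat_lit 3) (nat_lit 4) (nat_lit 4) (nat_lit 5) (nat_lit 4) (nat_lit 4) (nat_lit 344) (nat_lit 243) (nat_lit 193))))) (XT.nd (nat_lit 156) (nat_lit 0) (nat_lit 0) (XT.nd (nat_lit 78) (nat_lit 0) (nat_lit 0) (XT.lf (nat_lit 0) (nat_lit 808974377196) (nat_lit 76) (nat_lit 28155259377) (nat_lit 76) (nat_lit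 21701366757) (nat_lit 3) (nat_lit 4) (nat_lit 4) (nat_lit 5) (nat_lit 4) (nat_lit 4) (nat_lit 345) (nat_lit 243) (nat_lit 192)) (XT.lf (nat_lit 0) (nat_lit 879405164931) (nat_lit 76) (nat_lit 27220704148) (nat_lit 76) (nat_lit 20757183530) (nat_lit 3) (nat_lit 4) (nat_lit 4) (nat_lit 5) (nat_lit 4) (nat_lit 4) (nat_lit 346) (nat_lit 243) (nat_lit 191))) (XT.nd (nat_lit 78) (nat_lit 0) (nat_lit 0) (XT.lf (nat_lit 0) (nat_lit 955454915394) (nat_lit 76) (nat_lit 26218602437) (nat_lit 76) (nat_lit 19746167007) (nat_lit 3) (nat_lit 4) (nat_lit 4) (nat_lit 5) (nat_lit 4) (nat_lit 4) (nat_lit 347) (nat_lit 243) (nat_lit 190)) (XT.nd (nat_lit 36270) (nat_lit 0) (nat_lit 760) (XT.lf (nat_lit 0) (nat_lit 1037574293773) (nat_lit 76) (nat_lit 25143015865) (nat_lit 76) (nat_lit 18662325978) (nat_lit 3) (nat_lit 4) (nat_lit 4) (nat_lit 5) (nat_lit 4) (nat_lit 4) (nat_lit 348) (nat_lit 243) (nat_lit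 189)) (XT.lf (nat_lit 0) (nat_lit 1441481742) (nat_lit 152) (nat_lit 6098187478) (nat_lit 0) (nat_lit 1441481742) (nat_lit 13) (nat_lit 5) (nat_lit 15) (nat_lit 4) (nat_lit 13) (nat_lit 4) (nat_lit 292) (nat_lit 244) (nat_lit 244))))))) (XT.nd (nat_lit 780) (nat_lit 228) (nat_lit 0) (XT.nd (nat_lit 390) (nat_lit 152) (nat_lit 0) (XT.nd (nat_lit 156) (nat_lit 228) (nat_lit 0) (XT.nd (nat_lit 78) (nat_lit 76) (nat_lit 0) (XT.lf (nat_lit 0) (nat_lit 9395867881) (nat_lit 152) (nat_lit 863891732) (nat_lit 0) (nat_lit 8786135625) (nat_lit 13) (nat_lit 5) (nat_lit 15) (nat_lit 4) (nat_lit 13) (nat_lit 4) (nat_lit 293) (nat_lit 244) (nat_lit 243)) (XT.lf (nat_lit 0) (nat_lit 11131344502) (nat_lit 76) (nat_lit 5133835796) (nat_lit 76) (nat_lit 3959536637) (nat_lit 12) (nat_lit 4) (nat_lit 13) (nat_lit 5) (nat_lit 13) (nat_lit 4) (nat_lit 294) (nat_lit 244) (nat_lit 242))) (XT.nd (nat_lit 78) (nat_lit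 76) (nat_lit 0) (XT.lf (nat_lit 0) (nat_lit 1839511126) (nat_lit 152) (nat_lit 19447458676) (nat_lit 0) (nat_lit 223276563) (nat_lit 10) (nat_lit 5) (nat_lit 12) (nat_lit 4) (nat_lit 10) (nat_lit 4) (nat_lit 295) (nat_lit 244) (nat_lit 241)) (XT.nd (nat_lit 78) (nat_lit 76) (nat_lit 0) (XT.lf (nat_lit 0) (nat_lit 7896991395) (nat_lit 152) (nat_lit 9182192010) (nat_lit 0) (nat_lit 5819780524) (nat_lit 10) (nat_lit 5) (nat_lit 12) (nat_lit 4) (nat_lit 10) (nat_lit 4) (nat_lit 296) (nat_lit 244) (nat_lit 240)) (XT.lf (nat_lit 0) (nat_lit 1420378919) (nat_lit 76) (nat_lit 12748102180) (nat_lit 76) (nat_lit 10244061395) (nat_lit 9) (nat_lit 4) (nat_lit 10) (nat_lit 5) (nat_lit 10) (nat_lit 4) (nat_lit 297) (nat_lit 244) (nat_lit 239))))) (XT.nd (nat_lit 156) (nat_lit 152) (nat_lit 0) (XT.nd (nat_lit 78) (nat_lit 0) (nat_lit 0) (XT.lf (nat_lit 0) (nat_lit 12692676698) (nat_lit 76) (nat_lit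 8129976478) (nat_lit 76) (nat_lit 5230722810) (nat_lit 9) (nat_lit 4) (nat_lit 10) (nat_lit 5) (nat_lit 10) (nat_lit 4) (nat_lit 298) (nat_lit 244) (nat_lit 238)) (XT.lf (nat_lit 0) (nat_lit 24397895391) (nat_lit 76) (nat_lit 3352944495) (nat_lit 76) (nat_lit 87752971) (nat_lit 9) (nat_lit 4) (nat_lit 10) (nat_lit 5) (nat_lit 10) (nat_lit 4) (nat_lit 299) (nat_lit 244) (nat_lit 237))) (XT.nd (nat_lit 78) (nat_lit 0) (nat_lit 0) (XT.lf (nat_lit 0) (nat_lit 5185470870) (nat_lit 152) (nat_lit 22829308431) (nat_lit 0) (nat_lit 1753068135) (nat_lit 7) (nat_lit 5) (nat_lit 9) (nat_lit 4) (nat_lit 7) (nat_lit 4) (nat_lit 300) (nat_lit 244) (nat_lit 236)) (XT.nd (nat_lit 78) (nat_lit 0) (nat_lit 0) (XT.lf (nat_lit 0) (nat_lit 10760116774) (nat_lit 152) (nat_lit 14068364693) (nat_lit 0) (nat_lit 7028920964) (nat_lit 7) (nat_lit 5) (nat_lit 9) (nat_lit 4) (nat_lit 7) (nat_lit 4) (nat_lit 301) (nat_lit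 244) (nat_lit 235)) (XT.lf (nat_lit 0) (nat_lit 16563274586) (nat_lit 152) (nat_lit 5006453475) (nat_lit 0) (nat_lit 12555418521) (nat_lit 7) (nat_lit 5) (nat_lit 9) (nat_lit 4) (nat_lit 7) (nat_lit 4) (nat_lit 302) (nat_lit 244) (nat_lit 234)))))) (XT.nd (nat_lit 390) (nat_lit 76) (nat_lit 0) (XT.nd (nat_lit 156) (nat_lit 76) (nat_lit 0) (XT.nd (nat_lit 78) (nat_lit 0) (nat_lit 0) (XT.lf (nat_lit 0) (nat_lit 4555944101) (nat_lit 76) (nat_lit 18144520344) (nat_lit 76) (nat_lit 13880497376) (nat_lit 6) (nat_lit 4) (nat_lit 7) (nat_lit 5) (nat_lit 7) (nat_lit 4) (nat_lit 303) (nat_lit 244) (nat_lit 233)) (XT.lf (nat_lit 0) (nat_lit 14707919263) (nat_lit 76) (nat_lit 14515952774) (nat_lit 76) (nat_lit 10014738230) (nat_lit 6) (nat_lit 4) (nat_lit 7) (nat_lit 5) (nat_lit 7) (nat_lit 4) (nat_lit 304) (nat_lit 244) (nat_lit 232))) (XT.nd (nat_lit 78) (nat_lit 76) (nat_lit 0) (XT.lf (nat_lit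 0) (nat_lit 25344095902) (nat_lit 76) (nat_lit 10747309442) (nat_lit 76) (nat_lit 6026473068) (nat_lit 6) (nat_lit 4) (nat_lit 7) (nat_lit 5) (nat_lit 7) (nat_lit 4) (nat_lit 305) (nat_lit 244) (nat_lit 231)) (XT.nd (nat_lit 78) (nat_lit 76) (nat_lit 0) (XT.lf (nat_lit 0) (nat_lit 36527503213) (nat_lit 76) (nat_lit 6816257647) (nat_lit 76) (nat_lit 1892067726) (nat_lit 6) (nat_lit 4) (nat_lit 7) (nat_lit 5) (nat_lit 7) (nat_lit 4) (nat_lit 306) (nat_lit 244) (nat_lit 230)) (XT.lf (nat_lit 0) (nat_lit 2335747610) (nat_lit 152) (nat_lit 324197639) (nat_lit 76) (nat_lit 45949108613) (nat_lit 5) (nat_lit 5) (nat_lit 7) (nat_lit 5) (nat_lit 6) (nat_lit 4) (nat_lit 307) (nat_lit 244) (nat_lit 229))))) (XT.nd (nat_lit 234) (nat_lit 0) (nat_lit 0) (XT.nd (nat_lit 78) (nat_lit 0) (nat_lit 0) (XT.lf (nat_lit 0) (nat_lit 6858311199) (nat_lit 152) (nat_lit 43567984029) (nat_lit 0) (nat_lit 1823241550)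 (nat_lit 4) (nat_lit 5) (nat_lit 6) (nat_lit 4) (nat_lit 4) (nat_lit 4) (nat_lit 308) (nat_lit 244) (nat_lit 228)) (XT.nd (nat_lit 78) (nat_lit 0) (nat_lit 0) (XT.lf (nat_lit 0) (nat_lit 11654610422) (nat_lit 152) (nat_lit 38065336467) (nat_lit 0) (nat_lit 6465799248) (nat_lit 4) (nat_lit 5) (nat_lit 6) (nat_lit 4) (nat_lit 4) (nat_lit 4) (nat_lit 309) (nat_lit 244) (nat_lit 227)) (XT.lf (nat_lit 0) (nat_lit 16706223878) (nat_lit 152) (nat_lit 32362066503) (nat_lit 0) (nat_lit 11375059441) (nat_lit 4) (nat_lit 5) (nat_lit 6) (nat_lit 4) (nat_lit 4) (nat_lit 4) (nat_lit 310) (nat_lit 244) (nat_lit 226)))) (XT.nd (nat_lit 78) (nat_lit 0) (nat_lit 0) (XT.lf (nat_lit 0) (nat_lit 22043087055) (nat_lit 152) (nat_lit 26424376981) (nat_lit 0) (nat_lit 16580114039) (nat_lit 4) (nat_lit 5) (nat_lit 6) (nat_lit 4) (nat_lit 4) (nat_lit 4) (nat_lit 311) (nat_lit 244) (nat_lit 225)) (XT.nd (nat_lit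 78) (nat_lit 0) (nat_lit 0) (XT.lf (nat_lit 0) (nat_lit 27696825808) (nat_lit 152) (nat_lit 20217081593) (nat_lit 0) (nat_lit 22111807813) (nat_lit 4) (nat_lit 5) (nat_lit 6) (nat_lit 4) (nat_lit 4) (nat_lit 4) (nat_lit 312) (nat_lit 244) (nat_lit 224)) (XT.lf (nat_lit 0) (nat_lit 33700943774) (nat_lit 152) (nat_lit 13703396366) (nat_lit 0) (nat_lit 28002921168) (nat_lit 4) (nat_lit 5) (nat_lit 6) (nat_lit 4) (nat_lit 4) (nat_lit 4) (nat_lit 313) (nat_lit 244) (nat_lit 223))))))))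
noncomputable def xc20 : XT := (XT.nd (nat_lit 1560) (nat_lit 0) (nat_lit 0) (XT.nd (nat_lit 780) (nat_lit 0) (nat_lit 0) (XT.nd (nat_lit 390) (nat_lit 0) (nat_lit 0) (XT.nd (nat_lit 156) (nat_lit 0) (nat_lit 0) (XT.nd (nat_lit 78) (nat_lit 76) (nat_lit 0) (XT.lf (nat_lit 0) (nat_lit 40091020912) (nat_lit 152) (nat_lit 6844721685) (nat_lit 0) (nat_lit 34288364407) (nat_lit 4) (nat_lit 5) (nat_lit 6) (nat_lit 4) (nat_lit 4) (nat_lit 4) (nat_lit 314) (nat_lit 244) (nat_lit 222)) (XT.lf (nat_lit 0) (nat_lit 412798582) (nat_lit 76) (nat_lit 46498570705) (nat_lit 76) (nat_lit 40599030960) (nat_lit 3) (nat_lit 4) (nat_lit 4) (nat_lit 5) (nat_lit 4) (nat_lit 4) (nat_lit 315) (nat_lit 244) (nat_lit 221))) (XT.nd (nat_lit 78) (nat_lit 0) (nat_lit 0) (XT.lf (nat_lit 0) (nat_lit 8339369164) (nat_lit 76) (nat_lit 45973864519) (nat_lit 76) (nat_lit 39984618071) (nat_lit 3) (nat_lit 4) (nat_lit 4)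 (nat_lit 5) (nat_lit 4) (nat_lit 4) (nat_lit 316) (nat_lit 244) (nat_lit 220)) (XT.nd (nat_lit 78) (nat_lit 0) (nat_lit 0) (XT.lf (nat_lit 0) (nat_lit 16755644921) (nat_lit 76) (nat_lit 45474433342) (nat_lit 76) (nat_lit 39402125132) (nat_lit 3) (nat_lit 4) (nat_lit 4) (nat_lit 5) (nat_lit 4) (nat_lit 4) (nat_lit 317) (nat_lit 244) (nat_lit 219)) (XT.lf (nat_lit 0) (nat_lit 25711500079) (nat_lit 76) (nat_lit 44997317582) (nat_lit 76) (nat_lit 38848100333) (nat_lit 3) (nat_lit 4) (nat_lit 4) (nat_lit 5) (nat_lit 4) (nat_lit 4) (nat_lit 318) (nat_lit 244) (nat_lit 218))))) (XT.nd (nat_lit 156) (nat_lit 0) (nat_lit 0) (XT.nd (nat_lit 78) (nat_lit 0) (nat_lit 0) (XT.lf (nat_lit 0) (nat_lit 35260006372) (nat_lit 76) (nat_lit 44539689888) (nat_lit 76) (nat_lit 38319260565) (nat_lit 3) (nat_lit 4) (nat_lit 4) (nat_lit 5) (nat_lit 4) (nat_lit 4) (nat_lit 319) (nat_lit 244) (nat_lit 217)) (XT.lf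 (nat_lit 0) (nat_lit 45457747542) (nat_lit 76) (nat_lit 44098838389) (nat_lit 76) (nat_lit 37812471962) (nat_lit 3) (nat_lit 4) (nat_lit 4) (nat_lit 5) (nat_lit 4) (nat_lit 4) (nat_lit 320) (nat_lit 244) (nat_lit 216))) (XT.nd (nat_lit 78) (nat_lit 0) (nat_lit 0) (XT.lf (nat_lit 0) (nat_lit 56365154647) (nat_lit 76) (nat_lit 43672150635) (nat_lit 76) (nat_lit 37324731333) (nat_lit 3) (nat_lit 4) (nat_lit 4) (nat_lit 5) (nat_lit 4) (nat_lit 4) (nat_lit 321) (nat_lit 244) (nat_lit 215)) (XT.nd (nat_lit 78) (nat_lit 0) (nat_lit 0) (XT.lf (nat_lit 0) (nat_lit 68046864173) (nat_lit 76) (nat_lit 43257098104) (nat_lit 76) (nat_lit 36853148362) (nat_lit 3) (nat_lit 4) (nat_lit 4) (nat_lit 5) (nat_lit 4) (nat_lit 4) (nat_lit 322) (nat_lit 244) (nat_lit 214)) (XT.lf (nat_lit 0) (nat_lit 80572101067) (nat_lit 76) (nat_lit 42851221226) (nat_lit 76) (nat_lit 36394928484) (nat_lit 3) (nat_lit 4) (nat_lit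 4) (nat_lit 5) (nat_lit 4) (nat_lit 4) (nat_lit 323) (nat_lit 244) (nat_lit 213)))))) (XT.nd (nat_lit 390) (nat_lit 0) (nat_lit 0) (XT.nd (nat_lit 156) (nat_lit 0) (nat_lit 0) (XT.nd (nat_lit 78) (nat_lit 0) (nat_lit 0) (XT.lf (nat_lit 0) (nat_lit 94015088953) (nat_lit 76) (nat_lit 42452114804) (nat_lit 76) (nat_lit 35947356321) (nat_lit 3) (nat_lit 4) (nat_lit 4) (nat_lit 5) (nat_lit 4) (nat_lit 4) (nat_lit 324) (nat_lit 244) (nat_lit 212)) (XT.lf (nat_lit 0) (nat_lit 108455489984) (nat_lit 76) (nat_lit 42057413764) (nat_lit 76) (nat_lit 35507779596) (nat_lit 3) (nat_lit 4) (nat_lit 4) (nat_lit 5) (nat_lit 4) (nat_lit 4) (nat_lit 325) (nat_lit 244) (nat_lit 211))) (XT.nd (nat_lit 78) (nat_lit 0) (nat_lit 0) (XT.lf (nat_lit 0) (nat_lit 123978876904) (nat_lit 76) (nat_lit 41664779136) (nat_lit 76) (nat_lit 35073593407) (nat_lit 3) (nat_lit 4) (nat_lit 4) (nat_lit 5) (nat_lit 4) (nat_lit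 4) (nat_lit 326) (nat_lit 244) (nat_lit 210)) (XT.nd (nat_lit 78) (nat_lit 0) (nat_lit 0) (XT.lf (nat_lit 0) (nat_lit 140677240156) (nat_lit 76) (nat_lit 41271884197) (nat_lit 76) (nat_lit 34642224800) (nat_lit 3) (nat_lit 4) (nat_lit 4) (nat_lit 5) (nat_lit 4) (nat_lit 4) (nat_lit 327) (nat_lit 244) (nat_lit 209)) (XT.lf (nat_lit 0) (nat_lit 158649533003) (nat_lit 76) (nat_lit 40876400680) (nat_lit 76) (nat_lit 34211117517) (nat_lit 3) (nat_lit 4) (nat_lit 4) (nat_lit 5) (nat_lit 4) (nat_lit 4) (nat_lit 328) (nat_lit 244) (nat_lit 208))))) (XT.nd (nat_lit 156) (nat_lit 0) (nat_lit 0) (XT.nd (nat_lit 78) (nat_lit 0) (nat_lit 0) (XT.lf (nat_lit 0) (nat_lit 178002257921) (nat_lit 76) (nat_lit 40475984979) (nat_lit 76) (nat_lit 33777716848) (nat_lit 3) (nat_lit 4) (nat_lit 4) (nat_lit 5) (nat_lit 4) (nat_lit 4) (nat_lit 329) (nat_lit 244) (nat_lit 207)) (XT.lf (nat_lit 0) (nat_lit 198850097725)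 (nat_lit 76) (nat_lit 40068264261) (nat_lit 76) (nat_lit 33339454492) (nat_lit 3) (nat_lit 4) (nat_lit 4) (nat_lit 5) (nat_lit 4) (nat_lit 4) (nat_lit 330) (nat_lit 244) (nat_lit 206))) (XT.nd (nat_lit 78) (nat_lit 0) (nat_lit 0) (XT.lf (nat_lit 0) (nat_lit 221316595169) (nat_lit 76) (nat_lit 39650822403) (nat_lit 76) (nat_lit 32893733340) (nat_lit 3) (nat_lit 4) (nat_lit 4) (nat_lit 5) (nat_lit 4) (nat_lit 4) (nat_lit 331) (nat_lit 244) (nat_lit 205)) (XT.nd (nat_lit 78) (nat_lit 0) (nat_lit 0) (XT.lf (nat_lit 0) (nat_lit 245534885053) (nat_lit 76) (nat_lit 39221185675) (nat_lit 76) (nat_lit 32437912080) (nat_lit 3) (nat_lit 4) (nat_lit 4) (nat_lit 5) (nat_lit 4) (nat_lit 4) (nat_lit 332) (nat_lit 244) (nat_lit 204)) (XT.lf (nat_lit 0) (nat_lit 271648483168) (nat_lit 76) (nat_lit 38776808081) (nat_lit 76) (nat_lit 31969289550) (nat_lit 3) (nat_lit 4) (nat_lit 4) (nat_lit 5) (nat_lit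 4) (nat_lit 4) (nat_lit 333) (nat_lit 244) (nat_lit 203))))))) (XT.nd (nat_lit 780) (nat_lit 0) (nat_lit 0) (XT.nd (nat_lit 390) (nat_lit 0) (nat_lit 0) (XT.nd (nat_lit 156) (nat_lit 0) (nat_lit 0) (XT.nd (nat_lit 78) (nat_lit 0) (nat_lit 0) (XT.lf (nat_lit 0) (nat_lit 299812136762) (nat_lit 76) (nat_lit 38315056274) (nat_lit 76) (nat_lit 31485088728) (nat_lit 3) (nat_lit 4) (nat_lit 4) (nat_lit 5) (nat_lit 4) (nat_lit 4) (nat_lit 334) (nat_lit 244) (nat_lit 202)) (XT.lf (nat_lit 0) (nat_lit 330192741562) (nat_lit 76) (nat_lit 37833193946) (nat_lit 76) (nat_lit 30982440274) (nat_lit 3) (nat_lit 4) (nat_lit 4) (nat_lit 5) (nat_lit 4) (nat_lit 4) (nat_lit 335) (nat_lit 244) (nat_lit 201))) (XT.nd (nat_lit 78) (nat_lit 0) (nat_lit 0) (XT.lf (nat_lit 0) (nat_lit 362970330779) (nat_lit 76) (nat_lit 37328365616) (nat_lit 76) (nat_lit 30458365532) (nat_lit 3) (nat_lit 4) (nat_lit 4) (nat_lit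 5) (nat_lit 4) (nat_lit 4) (nat_lit 336) (nat_lit 244) (nat_lit 200)) (XT.nd (nat_lit 78) (nat_lit 0) (nat_lit 0) (XT.lf (nat_lit 0) (nat_lit 398339141981) (nat_lit 76) (nat_lit 36797579710) (nat_lit 76) (nat_lit 29909758874) (nat_lit 3) (nat_lit 4) (nat_lit 4) (nat_lit 5) (nat_lit 4) (nat_lit 4) (nat_lit 337) (nat_lit 244) (nat_lit 199)) (XT.lf (nat_lit 0) (nat_lit 436508768121) (nat_lit 76) (nat_lit 36237690829) (nat_lit 76) (nat_lit 29333369296) (nat_lit 3) (nat_lit 4) (nat_lit 4) (nat_lit 5) (nat_lit 4) (nat_lit 4) (nat_lit 338) (nat_lit 244) (nat_lit 198))))) (XT.nd (nat_lit 156) (nat_lit 0) (nat_lit 0) (XT.nd (nat_lit 78) (nat_lit 0) (nat_lit 0) (XT.lf (nat_lit 0) (nat_lit 477705399579) (nat_lit 76) (nat_lit 35645381114) (nat_lit 76) (nat_lit 28725781158) (nat_lit 3) (nat_lit 4) (nat_lit 4) (nat_lit 5) (nat_lit 4) (nat_lit 4) (nat_lit 339) (nat_lit 244) (nat_lit 197)) (XT.lf (nat_lit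 0) (nat_lit 522173164538) (nat_lit 76) (nat_lit 35017140580) (nat_lit 76) (nat_lit 28083393937) (nat_lit 3) (nat_lit 4) (nat_lit 4) (nat_lit 5) (nat_lit 4) (nat_lit 4) (nat_lit 340) (nat_lit 244) (nat_lit 196))) (XT.nd (nat_lit 78) (nat_lit 0) (nat_lit 0) (XT.lf (nat_lit 0) (nat_lit 570175575682) (nat_lit 76) (nat_lit 34349246321) (nat_lit 76) (nat_lit 27402400893) (nat_lit 3) (nat_lit 4) (nat_lit 4) (nat_lit 5) (nat_lit 4) (nat_lit 4) (nat_lit 341) (nat_lit 244) (nat_lit 195)) (XT.nd (nat_lit 78) (nat_lit 0) (nat_lit 0) (XT.lf (nat_lit 0) (nat_lit 621997091743) (nat_lit 76) (nat_lit 33637740446) (nat_lit 76) (nat_lit 26678766513) (nat_lit 3) (nat_lit 4) (nat_lit 4) (nat_lit 5) (nat_lit 4) (nat_lit 4) (nat_lit 342) (nat_lit 244) (nat_lit 194)) (XT.lf (nat_lit 0) (nat_lit 677944803186) (nat_lit 76) (nat_lit 32878406622) (nat_lit 76) (nat_lit 25908202593) (nat_lit 3) (nat_lit 4) (nat_lit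 4) (nat_lit 5) (nat_lit 4) (nat_lit 4) (nat_lit 343) (nat_lit 244) (nat_lit 193)))))) (XT.nd (nat_lit 36426) (nat_lit 0) (nat_lit 684) (XT.nd (nat_lit 156) (nat_lit 0) (nat_lit 0) (XT.nd (nat_lit 78) (nat_lit 0) (nat_lit 0) (XT.lf (nat_lit 0) (nat_lit 738350252005) (nat_lit 76) (nat_lit 32066745094) (nat_lit 76) (nat_lit 25086142827) (nat_lit 3) (nat_lit 4) (nat_lit 4) (nat_lit 5) (nat_lit 4) (nat_lit 4) (nat_lit 344) (nat_lit 244) (nat_lit 192)) (XT.lf (nat_lit 0) (nat_lit 803571396415) (nat_lit 76) (nat_lit 31197946017) (nat_lit 76) (nat_lit 24207715751) (nat_lit 3) (nat_lit 4) (nat_lit 4) (nat_lit 5) (nat_lit 4) (nat_lit 4) (nat_lit 345) (nat_lit 244) (nat_lit 191))) (XT.nd (nat_lit 78) (nat_lit 0) (nat_lit 0) (XT.lf (nat_lit 0) (nat_lit 873994732088) (nat_lit 76) (nat_lit 30266860950) (nat_lit 76) (nat_lit 23267715872) (nat_lit 3) (nat_lit 4) (nat_lit 4) (nat_lit 5) (nat_lit 4) (nat_lit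 4) (nat_lit 346) (nat_lit 244) (nat_lit 190)) (XT.nd (nat_lit 78) (nat_lit 0) (nat_lit 0) (XT.lf (nat_lit 0) (nat_lit 950037582492) (nat_lit 76) (nat_lit 29267972352) (nat_lit 76) (nat_lit 22260572818) (nat_lit 3) (nat_lit 4) (nat_lit 4) (nat_lit 5) (nat_lit 4) (nat_lit 4) (nat_lit 347) (nat_lit 244) (nat_lit 189)) (XT.lf (nat_lit 0) (nat_lit 1032150571928) (nat_lit 76) (nat_lit 28195360885) (nat_lit 76) (nat_lit 21180318336) (nat_lit 3) (nat_lit 4) (nat_lit 4) (nat_lit 5) (nat_lit 4) (nat_lit 4) (nat_lit 348) (nat_lit 244) (nat_lit 188))))) (XT.nd (nat_lit 156) (nat_lit 228) (nat_lit 0) (XT.nd (nat_lit 78) (nat_lit 152) (nat_lit 0) (XT.lf (nat_lit 0) (nat_lit 3655163257) (nat_lit 152) (nat_lit 711136277) (nat_lit 0) (nat_lit 3655163257) (nat_lit 17) (nat_lit 5) (nat_lit 19) (nat_lit 4) (nat_lit 17) (nat_lit 4) (nat_lit 290) (nat_lit 245) (nat_lit 245)) (XT.lf (nat_lit 0) (nat_lit 10754764931)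 (nat_lit 152) (nat_lit 3451468196) (nat_lit 152) (nat_lit 2760031818) (nat_lit 15) (nat_lit 4) (nat_lit 17) (nat_lit 5) (nat_lit 17) (nat_lit 4) (nat_lit 291) (nat_lit 245) (nat_lit 244))) (XT.nd (nat_lit 78) (nat_lit 76) (nat_lit 0) (XT.lf (nat_lit 0) (nat_lit 3365758419) (nat_lit 152) (nat_lit 12507974786) (nat_lit 0) (nat_lit 2097515327) (nat_lit 13) (nat_lit 5) (nat_lit 15) (nat_lit 4) (nat_lit 13) (nat_lit 4) (nat_lit 292) (nat_lit 245) (nat_lit 243)) (XT.nd (nat_lit 78) (nat_lit 76) (nat_lit 0) (XT.lf (nat_lit 0) (nat_lit 9715962904) (nat_lit 152) (nat_lit 1464009920) (nat_lit 0) (nat_lit 7883152910) (nat_lit 13) (nat_lit 5) (nat_lit 15) (nat_lit 4) (nat_lit 13) (nat_lit 4) (nat_lit 293) (nat_lit 245) (nat_lit 242)) (XT.lf (nat_lit 0) (nat_lit 10235403994) (nat_lit 76) (nat_lit 6185235122) (nat_lit 76) (nat_lit 3829677994) (nat_lit 12) (nat_lit 4) (nat_lit 13) (nat_lit 5) (nat_lit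 13) (nat_lit 4) (nat_lit 294) (nat_lit 245) (nat_lit 241))))))))
noncomputable def xc21 : XT := (XT.nd (nat_lit 1560) (nat_lit 76) (nat_lit 0) (XT.nd (nat_lit 780) (nat_lit 152) (nat_lit 0) (XT.nd (nat_lit 390) (nat_lit 228) (nat_lit 0) (XT.nd (nat_lit 156) (nat_lit 76) (nat_lit 0) (XT.nd (nat_lit 78) (nat_lit 0) (nat_lit 0) (XT.lf (nat_lit 0) (nat_lit 843366482) (nat_lit 76) (nat_lit 953193874) (nat_lit 152) (nat_lit 19747739043) (nat_lit 10) (nat_lit 5) (nat_lit 11) (nat_lit 5) (nat_lit 12) (nat_lit 4) (nat_lit 295) (nat_lit 245) (nat_lit 240)) (XT.lf (nat_lit 0) (nat_lit 7698406155) (nat_lit 152) (nat_lit 10675292909) (nat_lit 0) (nat_lit 4567212193) (nat_lit 10) (nat_lit 5) (nat_lit 12) (nat_lit 4) (nat_lit 10) (nat_lit 4) (nat_lit 296) (nat_lit 245) (nat_lit 239))) (XT.nd (nat_lit 78) (nat_lit 76) (nat_lit 0) (XT.lf (nat_lit 0) (nat_lit 13817393427) (nat_lit 152) (nat_lit 353839165)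 (nat_lit 0) (nat_lit 10290986582) (nat_lit 10) (nat_lit 5) (nat_lit 12) (nat_lit 4) (nat_lit 10) (nat_lit 4) (nat_lit 297) (nat_lit 245) (nat_lit 238)) (XT.nd (nat_lit 78) (nat_lit 0) (nat_lit 0) (XT.lf (nat_lit 0) (nat_lit 10681344232) (nat_lit 76) (nat_lit 9660322298) (nat_lit 76) (nat_lit 5767977597) (nat_lit 9) (nat_lit 4) (nat_lit 10) (nat_lit 5) (nat_lit 10) (nat_lit 4) (nat_lit 298) (nat_lit 245) (nat_lit 237)) (XT.lf (nat_lit 0) (nat_lit 22177845463) (nat_lit 76) (nat_lit 4977015285) (nat_lit 76) (nat_lit 745839237) (nat_lit 9) (nat_lit 4) (nat_lit 10) (nat_lit 5) (nat_lit 10) (nat_lit 4) (nat_lit 299) (nat_lit 245) (nat_lit 236))))) (XT.nd (nat_lit 156) (nat_lit 76) (nat_lit 0) (XT.nd (nat_lit 78) (nat_lit 0) (nat_lit 0) (XT.lf (nat_lit 0) (nat_lit 4372766966) (nat_lit 152) (nat_lit 25422281737) (nat_lit 0) (nat_lit 44282416) (nat_lit 7) (nat_lit 5) (nat_lit 9) (nat_lit 4) (nat_lit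 7) (nat_lit 4) (nat_lit 300) (nat_lit 245) (nat_lit 235)) (XT.lf (nat_lit 0) (nat_lit 9842864907) (nat_lit 152) (nat_lit 16853601469) (nat_lit 0) (nat_lit 5237720102) (nat_lit 7) (nat_lit 5) (nat_lit 9) (nat_lit 4) (nat_lit 7) (nat_lit 4) (nat_lit 301) (nat_lit 245) (nat_lit 234))) (XT.nd (nat_lit 78) (nat_lit 76) (nat_lit 0) (XT.lf (nat_lit 0) (nat_lit 15549219049) (nat_lit 152) (nat_lit 7969711983) (nat_lit 0) (nat_lit 10687907341) (nat_lit 7) (nat_lit 5) (nat_lit 9) (nat_lit 4) (nat_lit 7) (nat_lit 4) (nat_lit 302) (nat_lit 245) (nat_lit 233)) (XT.nd (nat_lit 78) (nat_lit 0) (nat_lit 0) (XT.lf (nat_lit 0) (nat_lit 1324421759) (nat_lit 76) (nat_lit 20221901000) (nat_lit 76) (nat_lit 15123397716) (nat_lit 6) (nat_lit 4) (nat_lit 7) (nat_lit 5) (nat_lit 7) (nat_lit 4) (nat_lit 303) (nat_lit 245) (nat_lit 232)) (XT.lf (nat_lit 0) (nat_lit 11318725510) (nat_lit 76) (nat_lit 16665549605)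 (nat_lit 76) (nat_lit 11347424491) (nat_lit 6) (nat_lit 4) (nat_lit 7) (nat_lit 5) (nat_lit 7) (nat_lit 4) (nat_lit 304) (nat_lit 245) (nat_lit 231)))))) (XT.nd (nat_lit 390) (nat_lit 0) (nat_lit 0) (XT.nd (nat_lit 156) (nat_lit 152) (nat_lit 0) (XT.nd (nat_lit 78) (nat_lit 0) (nat_lit 0) (XT.lf (nat_lit 0) (nat_lit 21808910101) (nat_lit 76) (nat_lit 12963773102) (nat_lit 76) (nat_lit 7442294441) (nat_lit 6) (nat_lit 4) (nat_lit 7) (nat_lit 5) (nat_lit 7) (nat_lit 4) (nat_lit 305) (nat_lit 245) (nat_lit 230)) (XT.lf (nat_lit 0) (nat_lit 32857139590) (nat_lit 76) (nat_lit 9094635036) (nat_lit 76) (nat_lit 3384866055) (nat_lit 6) (nat_lit 4) (nat_lit 7) (nat_lit 5) (nat_lit 7) (nat_lit 4) (nat_lit 306) (nat_lit 245) (nat_lit 229))) (XT.nd (nat_lit 78) (nat_lit 76) (nat_lit 0) (XT.lf (nat_lit 0) (nat_lit 821734436) (nat_lit 152) (nat_lit 4199556277) (nat_lit 76) (nat_lit 43693234060) (nat_lit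 5) (nat_lit 5) (nat_lit 7) (nat_lit 5) (nat_lit 6) (nat_lit 4) (nat_lit 307) (nat_lit 245) (nat_lit 228)) (XT.nd (nat_lit 78) (nat_lit 0) (nat_lit 0) (XT.lf (nat_lit 0) (nat_lit 4586985593) (nat_lit 76) (nat_lit 599612487) (nat_lit 152) (nat_lit 47176335152) (nat_lit 4) (nat_lit 5) (nat_lit 5) (nat_lit 5) (nat_lit 6) (nat_lit 4) (nat_lit 308) (nat_lit 245) (nat_lit 227)) (XT.lf (nat_lit 0) (nat_lit 9911809853) (nat_lit 152) (nat_lit 42379125659) (nat_lit 0) (nat_lit 4011798996) (nat_lit 4) (nat_lit 5) (nat_lit 6) (nat_lit 4) (nat_lit 4) (nat_lit 4) (nat_lit 309) (nat_lit 245) (nat_lit 226))))) (XT.nd (nat_lit 156) (nat_lit 0) (nat_lit 0) (XT.nd (nat_lit 78) (nat_lit 0) (nat_lit 0) (XT.lf (nat_lit 0) (nat_lit 14906269773) (nat_lit 152) (nat_lit 36782510522) (nat_lit 0) (nat_lit 8874450338) (nat_lit 4) (nat_lit 5) (nat_lit 6) (nat_lit 4) (nat_lit 4) (nat_lit 4) (nat_lit 310) (nat_lit 245)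 (nat_lit 225)) (XT.lf (nat_lit 0) (nat_lit 20190213008) (nat_lit 152) (nat_lit 30943575469) (nat_lit 0) (nat_lit 14036348594) (nat_lit 4) (nat_lit 5) (nat_lit 6) (nat_lit 4) (nat_lit 4) (nat_lit 4) (nat_lit 311) (nat_lit 245) (nat_lit 224))) (XT.nd (nat_lit 78) (nat_lit 0) (nat_lit 0) (XT.lf (nat_lit 0) (nat_lit 25794951815) (nat_lit 152) (nat_lit 24827719404) (nat_lit 0) (nat_lit 19528082790) (nat_lit 4) (nat_lit 5) (nat_lit 6) (nat_lit 4) (nat_lit 4) (nat_lit 4) (nat_lit 312) (nat_lit 245) (nat_lit 223)) (XT.nd (nat_lit 78) (nat_lit 0) (nat_lit 0) (XT.lf (nat_lit 0) (nat_lit 31753699461) (nat_lit 152) (nat_lit 18398700217) (nat_lit 0) (nat_lit 25382196537) (nat_lit 4) (nat_lit 5) (nat_lit 6) (nat_lit 4) (nat_lit 4) (nat_lit 4) (nat_lit 313) (nat_lit 245) (nat_lit 222)) (XT.lf (nat_lit 0) (nat_lit 38101767043) (nat_lit 152) (nat_lit 11618420017) (nat_lit 0) (nat_lit 31633380880) (nat_lit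 4) (nat_lit 5) (nat_lit 6) (nat_lit 4) (nat_lit 4) (nat_lit 4) (nat_lit 314) (nat_lit 245) (nat_lit 221))))))) (XT.nd (nat_lit 780) (nat_lit 0) (nat_lit 0) (XT.nd (nat_lit 390) (nat_lit 0) (nat_lit 0) (XT.nd (nat_lit 156) (nat_lit 0) (nat_lit 0) (XT.nd (nat_lit 78) (nat_lit 76) (nat_lit 0) (XT.lf (nat_lit 0) (nat_lit 44876772739) (nat_lit 152) (nat_lit 4446699365) (nat_lit 0) (nat_lit 38318679873) (nat_lit 4) (nat_lit 5) (nat_lit 6) (nat_lit 4) (nat_lit 4) (nat_lit 4) (nat_lit 315) (nat_lit 245) (nat_lit 220)) (XT.lf (nat_lit 0) (nat_lit 3263410334) (nat_lit 76) (nat_lit 48906405378) (nat_lit 76) (nat_lit 42265250749) (nat_lit 3) (nat_lit 4) (nat_lit 4) (nat_lit 5) (nat_lit 4) (nat_lit 4) (nat_lit 316) (nat_lit 245) (nat_lit 219))) (XT.nd (nat_lit 78) (nat_lit 0) (nat_lit 0) (XT.lf (nat_lit 0) (nat_lit 11615396351) (nat_lit 76) (nat_lit 48436911659) (nat_lit 76) (nat_lit 41718847990)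 (nat_lit 3) (nat_lit 4) (nat_lit 4) (nat_lit 5) (nat_lit 4) (nat_lit 4) (nat_lit 317) (nat_lit 245) (nat_lit 218)) (XT.nd (nat_lit 78) (nat_lit 0) (nat_lit 0) (XT.lf (nat_lit 0) (nat_lit 20511723972) (nat_lit 76) (nat_lit 47987515767) (nat_lit 76) (nat_lit 41198240026) (nat_lit 3) (nat_lit 4) (nat_lit 4) (nat_lit 5) (nat_lit 4) (nat_lit 4) (nat_lit 318) (nat_lit 245) (nat_lit 217)) (XT.lf (nat_lit 0) (nat_lit 30005112175) (nat_lit 76) (nat_lit 47555554617) (nat_lit 76) (nat_lit 40700341770) (nat_lit 3) (nat_lit 4) (nat_lit 4) (nat_lit 5) (nat_lit 4) (nat_lit 4) (nat_lit 319) (nat_lit 245) (nat_lit 216))))) (XT.nd (nat_lit 156) (nat_lit 0) (nat_lit 0) (XT.nd (nat_lit 78) (nat_lit 0) (nat_lit 0) (XT.lf (nat_lit 0) (nat_lit 40151818076) (nat_lit 76) (nat_lit 47138468438) (nat_lit 76) (nat_lit 40222202716) (nat_lit 3) (nat_lit 4) (nat_lit 4) (nat_lit 5) (nat_lit 4) (nat_lit 4) (nat_lit 320)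 (nat_lit 245) (nat_lit 215)) (XT.lf (nat_lit 0) (nat_lit 51011970303) (nat_lit 76) (nat_lit 46733785608) (nat_lit 76) (nat_lit 39760989447) (nat_lit 3) (nat_lit 4) (nat_lit 4) (nat_lit 5) (nat_lit 4) (nat_lit 4) (nat_lit 321) (nat_lit 245) (nat_lit 214))) (XT.nd (nat_lit 78) (nat_lit 0) (nat_lit 0) (XT.lf (nat_lit 0) (nat_lit 62649925312) (nat_lit 76) (nat_lit 46339108007) (nat_lit 76) (nat_lit 39313968846) (nat_lit 3) (nat_lit 4) (nat_lit 4) (nat_lit 5) (nat_lit 4) (nat_lit 4) (nat_lit 322) (nat_lit 245) (nat_lit 213)) (XT.nd (nat_lit 78) (nat_lit 0) (nat_lit 0) (XT.lf (nat_lit 0) (nat_lit 75134648764) (nat_lit 76) (nat_lit 45952096805) (nat_lit 76) (nat_lit 38878491904) (nat_lit 3) (nat_lit 4) (nat_lit 4) (nat_lit 5) (nat_lit 4) (nat_lit 4) (nat_lit 323) (nat_lit 245) (nat_lit 212)) (XT.lf (nat_lit 0) (nat_lit 88540124205) (nat_lit 76) (nat_lit 45570458603) (nat_lit 76) (nat_lit 38451978015)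 (nat_lit 3) (nat_lit 4) (nat_lit 4) (nat_lit 5) (nat_lit 4) (nat_lit 4) (nat_lit 324) (nat_lit 245) (nat_lit 211)))))) (XT.nd (nat_lit 390) (nat_lit 0) (nat_lit 0) (XT.nd (nat_lit 156) (nat_lit 0) (nat_lit 0) (XT.nd (nat_lit 78) (nat_lit 0) (nat_lit 0) (XT.lf (nat_lit 0) (nat_lit 102945791489) (nat_lit 76) (nat_lit 45191931839) (nat_lit 76) (nat_lit 38031899691) (nat_lit 3) (nat_lit 4) (nat_lit 4) (nat_lit 5) (nat_lit 4) (nat_lit 4) (nat_lit 325) (nat_lit 245) (nat_lit 210)) (XT.lf (nat_lit 0) (nat_lit 118437017534) (nat_lit 76) (nat_lit 44814273393) (nat_lit 76) (nat_lit 37615767578) (nat_lit 3) (nat_lit 4) (nat_lit 4) (nat_lit 5) (nat_lit 4) (nat_lit 4) (nat_lit 326) (nat_lit 245) (nat_lit 209))) (XT.nd (nat_lit 78) (nat_lit 0) (nat_lit 0) (XT.lf (nat_lit 0) (nat_lit 135105602197) (nat_lit 76) (nat_lit 44435245289) (nat_lit 76) (nat_lit 37201115708) (nat_lit 3) (nat_lit 4) (nat_lit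 4) (nat_lit 5) (nat_lit 4) (nat_lit 4) (nat_lit 327) (nat_lit 245) (nat_lit 208)) (XT.nd (nat_lit 78) (nat_lit 0) (nat_lit 0) (XT.lf (nat_lit 0) (nat_lit 153050322276) (nat_lit 76) (nat_lit 44052601435) (nat_lit 76) (nat_lit 36785486885) (nat_lit 3) (nat_lit 4) (nat_lit 4) (nat_lit 5) (nat_lit 4) (nat_lit 4) (nat_lit 328) (nat_lit 245) (nat_lit 207)) (XT.lf (nat_lit 0) (nat_lit 172377516854) (nat_lit 76) (nat_lit 43664074311) (nat_lit 76) (nat_lit 36366418123) (nat_lit 3) (nat_lit 4) (nat_lit 4) (nat_lit 5) (nat_lit 4) (nat_lit 4) (nat_lit 329) (nat_lit 245) (nat_lit 206))))) (XT.nd (nat_lit 156) (nat_lit 0) (nat_lit 0) (XT.nd (nat_lit 78) (nat_lit 0) (nat_lit 0) (XT.lf (nat_lit 0) (nat_lit 193201717454) (nat_lit 76) (nat_lit 43267361533) (nat_lit 76) (nat_lit 35941426051) (nat_lit 3) (nat_lit 4) (nat_lit 4) (nat_lit 5) (nat_lit 4) (nat_lit 4) (nat_lit 330) (nat_lit 245) (nat_lit 205))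 (XT.lf (nat_lit 0) (nat_lit 215646326746) (nat_lit 76) (nat_lit 42860112213) (nat_lit 76) (nat_lit 35507992199) (nat_lit 3) (nat_lit 4) (nat_lit 4) (nat_lit 5) (nat_lit 4) (nat_lit 4) (nat_lit 331) (nat_lit 245) (nat_lit 204))) (XT.nd (nat_lit 78) (nat_lit 0) (nat_lit 0) (XT.lf (nat_lit 0) (nat_lit 239844349822) (nat_lit 76) (nat_lit 42439913020) (nat_lit 76) (nat_lit 35063548070) (nat_lit 3) (nat_lit 4) (nat_lit 4) (nat_lit 5) (nat_lit 4) (nat_lit 4) (nat_lit 332) (nat_lit 245) (nat_lit 203)) (XT.nd (nat_lit 78) (nat_lit 0) (nat_lit 0) (XT.lf (nat_lit 0) (nat_lit 265939182375) (nat_lit 76) (nat_lit 42004273885) (nat_lit 76) (nat_lit 34605459920) (nat_lit 3) (nat_lit 4) (nat_lit 4) (nat_lit 5) (nat_lit 4) (nat_lit 4) (nat_lit 333) (nat_lit 245) (nat_lit 202)) (XT.lf (nat_lit 0) (nat_lit 294085460449) (nat_lit 76) (nat_lit 41550613243) (nat_lit 76) (nat_lit 34131013152) (nat_lit 3) (nat_lit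 4) (nat_lit 4) (nat_lit 5) (nat_lit 4) (nat_lit 4) (nat_lit 334) (nat_lit 245) (nat_lit 201))))))))
noncomputable def xc22 : XT := (XT.nd (nat_lit 37518) (nat_lit 0) (nat_lit 76) (XT.nd (nat_lit 780) (nat_lit 0) (nat_lit 0) (XT.nd (nat_lit 390) (nat_lit 0) (nat_lit 0) (XT.nd (nat_lit 156) (nat_lit 0) (nat_lit 0) (XT.nd (nat_lit 78) (nat_lit 0) (nat_lit 0) (XT.lf (nat_lit 0) (nat_lit 324449976803) (nat_lit 76) (nat_lit 41076242735) (nat_lit 76) (nat_lit 33637396231) (nat_lit 3) (nat_lit 4) (nat_lit 4) (nat_lit 5) (nat_lit 4) (nat_lit 4) (nat_lit 335) (nat_lit 245) (nat_lit 200)) (XT.lf (nat_lit 0) (nat_lit 357212669312) (nat_lit 76) (nat_lit 40578351275) (nat_lit 76) (nat_lit 33121684020) (nat_lit 3) (nat_lit 4) (nat_lit 4) (nat_lit 5) (nat_lit 4) (nat_lit 4) (nat_lit 336) (nat_lit 245) (nat_lit 199))) (XT.nd (nat_lit 78) (nat_lit 0) (nat_lit 0) (XT.lf (nat_lit 0) (nat_lit 392567687265)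 (nat_lit 76) (nat_lit 40053988397) (nat_lit 76) (nat_lit 32580820445) (nat_lit 3) (nat_lit 4) (nat_lit 4) (nat_lit 5) (nat_lit 4) (nat_lit 4) (nat_lit 337) (nat_lit 245) (nat_lit 198)) (XT.nd (nat_lit 78) (nat_lit 0) (nat_lit 0) (XT.lf (nat_lit 0) (nat_lit 430724541880) (nat_lit 76) (nat_lit 39500046764) (nat_lit 76) (nat_lit 32011600389) (nat_lit 3) (nat_lit 4) (nat_lit 4) (nat_lit 5) (nat_lit 4) (nat_lit 4) (nat_lit 338) (nat_lit 245) (nat_lit 197)) (XT.lf (nat_lit 0) (nat_lit 471909347850) (nat_lit 76) (nat_lit 38913243760) (nat_lit 76) (nat_lit 31410650697) (nat_lit 3) (nat_lit 4) (nat_lit 4) (nat_lit 5) (nat_lit 4) (nat_lit 4) (nat_lit 339) (nat_lit 245) (nat_lit 196))))) (XT.nd (nat_lit 156) (nat_lit 0) (nat_lit 0) (XT.nd (nat_lit 78) (nat_lit 0) (nat_lit 0) (XT.lf (nat_lit 0) (nat_lit 516366163284) (nat_lit 76) (nat_lit 38290102032) (nat_lit 76) (nat_lit 30774410185) (nat_lit 3)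 (nat_lit 4) (nat_lit 4) (nat_lit 5) (nat_lit 4) (nat_lit 4) (nat_lit 340) (nat_lit 245) (nat_lit 195)) (XT.lf (nat_lit 0) (nat_lit 564358435979) (nat_lit 76) (nat_lit 37626928891) (nat_lit 76) (nat_lit 30099108539) (nat_lit 3) (nat_lit 4) (nat_lit 4) (nat_lit 5) (nat_lit 4) (nat_lit 4) (nat_lit 341) (nat_lit 245) (nat_lit 194))) (XT.nd (nat_lit 78) (nat_lit 0) (nat_lit 0) (XT.lf (nat_lit 0) (nat_lit 616170564586) (nat_lit 76) (nat_lit 36919794420) (nat_lit 76) (nat_lit 29380743972) (nat_lit 3) (nat_lit 4) (nat_lit 4) (nat_lit 5) (nat_lit 4) (nat_lit 4) (nat_lit 342) (nat_lit 245) (nat_lit 193)) (XT.nd (nat_lit 78) (nat_lit 0) (nat_lit 0) (XT.lf (nat_lit 0) (nat_lit 672109583943) (nat_lit 76) (nat_lit 36164508193) (nat_lit 76) (nat_lit 28615059507) (nat_lit 3) (nat_lit 4) (nat_lit 4) (nat_lit 5) (nat_lit 4) (nat_lit 4) (nat_lit 343) (nat_lit 245) (nat_lit 192)) (XT.lf (nat_lit 0) (nat_lit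 732506984534) (nat_lit 76) (nat_lit 35356594441) (nat_lit 76) (nat_lit 27797517757) (nat_lit 3) (nat_lit 4) (nat_lit 4) (nat_lit 5) (nat_lit 4) (nat_lit 4) (nat_lit 344) (nat_lit 245) (nat_lit 191)))))) (XT.nd (nat_lit 36348) (nat_lit 0) (nat_lit 684) (XT.nd (nat_lit 156) (nat_lit 0) (nat_lit 0) (XT.nd (nat_lit 78) (nat_lit 0) (nat_lit 0) (XT.lf (nat_lit 0) (nat_lit 797720676881) (nat_lit 76) (nat_lit 34491265525) (nat_lit 76) (nat_lit 26923274028) (nat_lit 3) (nat_lit 4) (nat_lit 4) (nat_lit 5) (nat_lit 4) (nat_lit 4) (nat_lit 345) (nat_lit 245) (nat_lit 190)) (XT.lf (nat_lit 0) (nat_lit 868137112495) (nat_lit 76) (nat_lit 33563393571) (nat_lit 76) (nat_lit 25987147618) (nat_lit 3) (nat_lit 4) (nat_lit 4) (nat_lit 5) (nat_lit 4) (nat_lit 4) (nat_lit 346) (nat_lit 245) (nat_lit 189))) (XT.nd (nat_lit 36036) (nat_lit 0) (nat_lit 1064) (XT.lf (nat_lit 0) (nat_lit 944173573957) (nat_lit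 76) (nat_lit 32567480079) (nat_lit 76) (nat_lit 24983591110) (nat_lit 3) (nat_lit 4) (nat_lit 4) (nat_lit 5) (nat_lit 4) (nat_lit 4) (nat_lit 347) (nat_lit 245) (nat_lit 188)) (XT.nd (nat_lit 78) (nat_lit 152) (nat_lit 0) (XT.lf (nat_lit 0) (nat_lit 2518839033) (nat_lit 152) (nat_lit 2342662751) (nat_lit 152) (nat_lit 2342662751) (nat_lit 19) (nat_lit 4) (nat_lit 21) (nat_lit 5) (nat_lit 21) (nat_lit 4) (nat_lit 288) (nat_lit 246) (nat_lit 246)) (XT.lf (nat_lit 0) (nat_lit 1491517101) (nat_lit 152) (nat_lit 12961073120) (nat_lit 0) (nat_lit 744765813) (nat_lit 17) (nat_lit 5) (nat_lit 19) (nat_lit 4) (nat_lit 17) (nat_lit 4) (nat_lit 289) (nat_lit 246) (nat_lit 245))))) (XT.nd (nat_lit 156) (nat_lit 228) (nat_lit 0) (XT.nd (nat_lit 78) (nat_lit 152) (nat_lit 0) (XT.lf (nat_lit 0) (nat_lit 7882649453) (nat_lit 152) (nat_lit 1724718115) (nat_lit 0) (nat_lit 6444461788) (nat_lit 17) (nat_lit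 5) (nat_lit 19) (nat_lit 4) (nat_lit 17) (nat_lit 4) (nat_lit 290) (nat_lit 246) (nat_lit 244)) (XT.lf (nat_lit 0) (nat_lit 10153017509) (nat_lit 152) (nat_lit 4454635864) (nat_lit 152) (nat_lit 2376229330) (nat_lit 15) (nat_lit 4) (nat_lit 17) (nat_lit 5) (nat_lit 17) (nat_lit 4) (nat_lit 291) (nat_lit 246) (nat_lit 243))) (XT.nd (nat_lit 78) (nat_lit 76) (nat_lit 0) (XT.lf (nat_lit 0) (nat_lit 3548761134) (nat_lit 152) (nat_lit 13444620788) (nat_lit 0) (nat_lit 1004759437) (nat_lit 13) (nat_lit 5) (nat_lit 15) (nat_lit 4) (nat_lit 13) (nat_lit 4) (nat_lit 292) (nat_lit 246) (nat_lit 242)) (XT.nd (nat_lit 78) (nat_lit 76) (nat_lit 0) (XT.lf (nat_lit 0) (nat_lit 9748317555) (nat_lit 152) (nat_lit 2667802552) (nat_lit 0) (nat_lit 6681568725) (nat_lit 13) (nat_lit 5) (nat_lit 15) (nat_lit 4) (nat_lit 13) (nat_lit 4) (nat_lit 293) (nat_lit 246) (nat_lit 241)) (XT.lf (nat_lit 0) (nat_lit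 8736271778) (nat_lit 76) (nat_lit 7553827384) (nat_lit 76) (nat_lit 4003053431) (nat_lit 12) (nat_lit 4) (nat_lit 13) (nat_lit 5) (nat_lit 13) (nat_lit 4) (nat_lit 294) (nat_lit 246) (nat_lit 240))))))) (XT.nd (nat_lit 780) (nat_lit 152) (nat_lit 0) (XT.nd (nat_lit 390) (nat_lit 228) (nat_lit 0) (XT.nd (nat_lit 156) (nat_lit 76) (nat_lit 0) (XT.nd (nat_lit 78) (nat_lit 76) (nat_lit 0) (XT.lf (nat_lit 0) (nat_lit 1480423859) (nat_lit 152) (nat_lit 964076450) (nat_lit 76) (nat_lit 19150297996) (nat_lit 11) (nat_lit 5) (nat_lit 13) (nat_lit 5) (nat_lit 12) (nat_lit 4) (nat_lit 295) (nat_lit 246) (nat_lit 239)) (XT.lf (nat_lit 0) (nat_lit 7212855316) (nat_lit 152) (nat_lit 12778006756) (nat_lit 0) (nat_lit 3009123039) (nat_lit 10) (nat_lit 5) (nat_lit 12) (nat_lit 4) (nat_lit 10) (nat_lit 4) (nat_lit 296) (nat_lit 246) (nat_lit 238))) (XT.nd (nat_lit 78) (nat_lit 76) (nat_lit 0) (XT.lf (nat_lit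 0) (nat_lit 13211170055) (nat_lit 152) (nat_lit 2674753189) (nat_lit 0) (nat_lit 8641499923) (nat_lit 10) (nat_lit 5) (nat_lit 12) (nat_lit 4) (nat_lit 10) (nat_lit 4) (nat_lit 297) (nat_lit 246) (nat_lit 237)) (XT.nd (nat_lit 78) (nat_lit 0) (nat_lit 0) (XT.lf (nat_lit 0) (nat_lit 8074972847) (nat_lit 76) (nat_lit 11508043722) (nat_lit 76) (nat_lit 6599542242) (nat_lit 9) (nat_lit 4) (nat_lit 10) (nat_lit 5) (nat_lit 10) (nat_lit 4) (nat_lit 298) (nat_lit 246) (nat_lit 236)) (XT.lf (nat_lit 0) (nat_lit 19378217168) (nat_lit 76) (nat_lit 6911519089) (nat_lit 76) (nat_lit 1689284881) (nat_lit 9) (nat_lit 4) (nat_lit 10) (nat_lit 5) (nat_lit 10) (nat_lit 4) (nat_lit 299) (nat_lit 246) (nat_lit 235))))) (XT.nd (nat_lit 156) (nat_lit 76) (nat_lit 0) (XT.nd (nat_lit 78) (nat_lit 0) (nat_lit 0) (XT.lf (nat_lit 0) (nat_lit 1271549891) (nat_lit 76) (nat_lit 2037853702) (nat_lit 152) (nat_lit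 26616563830) (nat_lit 7) (nat_lit 5) (nat_lit 8) (nat_lit 5) (nat_lit 9) (nat_lit 4) (nat_lit 300) (nat_lit 246) (nat_lit 234)) (XT.lf (nat_lit 0) (nat_lit 8650881257) (nat_lit 152) (nat_lit 20231942390) (nat_lit 0) (nat_lit 3144497710) (nat_lit 7) (nat_lit 5) (nat_lit 9) (nat_lit 4) (nat_lit 7) (nat_lit 4) (nat_lit 301) (nat_lit 246) (nat_lit 233))) (XT.nd (nat_lit 78) (nat_lit 76) (nat_lit 0) (XT.lf (nat_lit 0) (nat_lit 14267602371) (nat_lit 152) (nat_lit 11512887841) (nat_lit 0) (nat_lit 8524027248) (nat_lit 7) (nat_lit 5) (nat_lit 9) (nat_lit 4) (nat_lit 7) (nat_lit 4) (nat_lit 302) (nat_lit 246) (nat_lit 232)) (XT.nd (nat_lit 78) (nat_lit 76) (nat_lit 0) (XT.lf (nat_lit 0) (nat_lit 20161034602) (nat_lit 152) (nat_lit 2413768807) (nat_lit 0) (nat_lit 14197837648) (nat_lit 7) (nat_lit 5) (nat_lit 9) (nat_lit 4) (nat_lit 7) (nat_lit 4) (nat_lit 303) (nat_lit 246) (nat_lit 231)) (XT.lf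 (nat_lit 0) (nat_lit 7354732797) (nat_lit 76) (nat_lit 19126197186) (nat_lit 76) (nat_lit 12959646686) (nat_lit 6) (nat_lit 4) (nat_lit 7) (nat_lit 5) (nat_lit 7) (nat_lit 4) (nat_lit 304) (nat_lit 246) (nat_lit 230)))))) (XT.nd (nat_lit 390) (nat_lit 0) (nat_lit 0) (XT.nd (nat_lit 156) (nat_lit 152) (nat_lit 0) (XT.nd (nat_lit 78) (nat_lit 0) (nat_lit 0) (XT.lf (nat_lit 0) (nat_lit 17709739567) (nat_lit 76) (nat_lit 15486334412) (nat_lit 76) (nat_lit 9131493592) (nat_lit 6) (nat_lit 4) (nat_lit 7) (nat_lit 5) (nat_lit 7) (nat_lit 4) (nat_lit 305) (nat_lit 246) (nat_lit 229)) (XT.lf (nat_lit 0) (nat_lit 28632804406) (nat_lit 76) (nat_lit 11674523874) (nat_lit 76) (nat_lit 5145340164) (nat_lit 6) (nat_lit 4) (nat_lit 7) (nat_lit 5) (nat_lit 7) (nat_lit 4) (nat_lit 306) (nat_lit 246) (nat_lit 228))) (XT.nd (nat_lit 78) (nat_lit 152) (nat_lit 0) (XT.lf (nat_lit 0) (nat_lit 40188656588) (nat_lit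 76) (nat_lit 7668177065) (nat_lit 76) (nat_lit 977564754) (nat_lit 6) (nat_lit 4) (nat_lit 7) (nat_lit 5) (nat_lit 7) (nat_lit 4) (nat_lit 307) (nat_lit 246) (nat_lit 227)) (XT.nd (nat_lit 78) (nat_lit 76) (nat_lit 0) (XT.lf (nat_lit 0) (nat_lit 3287820377) (nat_lit 152) (nat_lit 100051464) (nat_lit 76) (nat_lit 49102274030) (nat_lit 5) (nat_lit 5) (nat_lit 7) (nat_lit 5) (nat_lit 6) (nat_lit 4) (nat_lit 308) (nat_lit 246) (nat_lit 226)) (XT.lf (nat_lit 0) (nat_lit 7910705882) (nat_lit 152) (nat_lit 47259860026) (nat_lit 0) (nat_lit 1264532315) (nat_lit 4) (nat_lit 5) (nat_lit 6) (nat_lit 4) (nat_lit 4) (nat_lit 4) (nat_lit 309) (nat_lit 246) (nat_lit 225))))) (XT.nd (nat_lit 156) (nat_lit 0) (nat_lit 0) (XT.nd (nat_lit 78) (nat_lit 0) (nat_lit 0) (XT.lf (nat_lit 0) (nat_lit 12852245861) (nat_lit 152) (nat_lit 41761999358) (nat_lit 0) (nat_lit 6084027314) (nat_lit 4) (nat_lit 5) (nat_lit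 6) (nat_lit 4) (nat_lit 4) (nat_lit 4) (nat_lit 310) (nat_lit 246) (nat_lit 224)) (XT.lf (nat_lit 0) (nat_lit 18087189150) (nat_lit 152) (nat_lit 36014503628) (nat_lit 0) (nat_lit 11205965993) (nat_lit 4) (nat_lit 5) (nat_lit 6) (nat_lit 4) (nat_lit 4) (nat_lit 4) (nat_lit 311) (nat_lit 246) (nat_lit 223))) (XT.nd (nat_lit 78) (nat_lit 0) (nat_lit 0) (XT.lf (nat_lit 0) (nat_lit 23646557637) (nat_lit 152) (nat_lit 29983313603) (nat_lit 0) (nat_lit 16660700581) (nat_lit 4) (nat_lit 5) (nat_lit 6) (nat_lit 4) (nat_lit 4) (nat_lit 4) (nat_lit 312) (nat_lit 246) (nat_lit 222)) (XT.nd (nat_lit 78) (nat_lit 0) (nat_lit 0) (XT.lf (nat_lit 0) (nat_lit 29563295728) (nat_lit 152) (nat_lit 23632688898) (nat_lit 0) (nat_lit 22480555432) (nat_lit 4) (nat_lit 5) (nat_lit 6) (nat_lit 4) (nat_lit 4) (nat_lit 4) (nat_lit 313) (nat_lit 246) (nat_lit 221)) (XT.lf (nat_lit 0) (nat_lit 35872465573) (nat_lit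 152) (nat_lit 16924996180) (nat_lit 0) (nat_lit 28700018574) (nat_lit 4) (nat_lit 5) (nat_lit 6) (nat_lit 4) (nat_lit 4) (nat_lit 4) (nat_lit 314) (nat_lit 246) (nat_lit 220))))))))
noncomputable def xc23 : XT := (XT.nd (nat_lit 1560) (nat_lit 0) (nat_lit 0) (XT.nd (nat_lit 780) (nat_lit 0) (nat_lit 0) (XT.nd (nat_lit 390) (nat_lit 0) (nat_lit 0) (XT.nd (nat_lit 156) (nat_lit 76) (nat_lit 0) (XT.nd (nat_lit 78) (nat_lit 0) (nat_lit 0) (XT.lf (nat_lit 0) (nat_lit 42611454846) (nat_lit 152) (nat_lit 9820486160) (nat_lit 0) (nat_lit 35355946085) (nat_lit 4) (nat_lit 5) (nat_lit 6) (nat_lit 4) (nat_lit 4) (nat_lit 4) (nat_lit 315) (nat_lit 246) (nat_lit 219)) (XT.lf (nat_lit 0) (nat_lit 49820198299) (nat_lit 152) (nat_lit 2277058038) (nat_lit 0) (nat_lit 42487780498) (nat_lit 4) (nat_lit 5) (nat_lit 6) (nat_lit 4) (nat_lit 4) (nat_lit 4) (nat_lit 316) (nat_lit 246) (nat_lit 218))) (XT.nd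 (nat_lit 78) (nat_lit 0) (nat_lit 0) (XT.lf (nat_lit 0) (nat_lit 5940110618) (nat_lit 76) (nat_lit 51694045566) (nat_lit 76) (nat_lit 44290415692) (nat_lit 3) (nat_lit 4) (nat_lit 4) (nat_lit 5) (nat_lit 4) (nat_lit 4) (nat_lit 317) (nat_lit 246) (nat_lit 217)) (XT.nd (nat_lit 78) (nat_lit 0) (nat_lit 0) (XT.lf (nat_lit 0) (nat_lit 14781320149) (nat_lit 76) (nat_lit 51270316219) (nat_lit 76) (nat_lit 43800749240) (nat_lit 3) (nat_lit 4) (nat_lit 4) (nat_lit 5) (nat_lit 4) (nat_lit 4) (nat_lit 318) (nat_lit 246) (nat_lit 216)) (XT.lf (nat_lit 0) (nat_lit 24223673084) (nat_lit 76) (nat_lit 50862120388) (nat_lit 76) (nat_lit 43331500533) (nat_lit 3) (nat_lit 4) (nat_lit 4) (nat_lit 5) (nat_lit 4) (nat_lit 4) (nat_lit 319) (nat_lit 246) (nat_lit 215))))) (XT.nd (nat_lit 156) (nat_lit 0) (nat_lit 0) (XT.nd (nat_lit 78) (nat_lit 0) (nat_lit 0) (XT.lf (nat_lit 0) (nat_lit 34323124107) (nat_lit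 76) (nat_lit 50467039133) (nat_lit 76) (nat_lit 42879888839) (nat_lit 3) (nat_lit 4) (nat_lit 4) (nat_lit 5) (nat_lit 4) (nat_lit 4) (nat_lit 320) (nat_lit 246) (nat_lit 214)) (XT.lf (nat_lit 0) (nat_lit 45139521816) (nat_lit 76) (nat_lit 50082731234) (nat_lit 76) (nat_lit 42443237940) (nat_lit 3) (nat_lit 4) (nat_lit 4) (nat_lit 5) (nat_lit 4) (nat_lit 4) (nat_lit 321) (nat_lit 246) (nat_lit 213))) (XT.nd (nat_lit 78) (nat_lit 0) (nat_lit 0) (XT.lf (nat_lit 0) (nat_lit 56736963384) (nat_lit 76) (nat_lit 49706919310) (nat_lit 76) (nat_lit 42018960276) (nat_lit 3) (nat_lit 4) (nat_lit 4) (nat_lit 5) (nat_lit 4) (nat_lit 4) (nat_lit 322) (nat_lit 246) (nat_lit 212)) (XT.nd (nat_lit 78) (nat_lit 0) (nat_lit 0) (XT.lf (nat_lit 0) (nat_lit 69184174391) (nat_lit 76) (nat_lit 49337376327) (nat_lit 76) (nat_lit 41604541607) (nat_lit 3) (nat_lit 4) (nat_lit 4) (nat_lit 5) (nat_lit 4) (nat_lit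 4) (nat_lit 323) (nat_lit 246) (nat_lit 211)) (XT.lf (nat_lit 0) (nat_lit 82554916085) (nat_lit 76) (nat_lit 48971912401) (nat_lit 76) (nat_lit 41197526120) (nat_lit 3) (nat_lit 4) (nat_lit 4) (nat_lit 5) (nat_lit 4) (nat_lit 4) (nat_lit 324) (nat_lit 246) (nat_lit 210)))))) (XT.nd (nat_lit 390) (nat_lit 0) (nat_lit 0) (XT.nd (nat_lit 156) (nat_lit 0) (nat_lit 0) (XT.nd (nat_lit 78) (nat_lit 0) (nat_lit 0) (XT.lf (nat_lit 0) (nat_lit 96928422493) (nat_lit 76) (nat_lit 48608361819) (nat_lit 76) (nat_lit 40795501871) (nat_lit 3) (nat_lit 4) (nat_lit 4) (nat_lit 5) (nat_lit 4) (nat_lit 4) (nat_lit 325) (nat_lit 246) (nat_lit 209)) (XT.lf (nat_lit 0) (nat_lit 112389869949) (nat_lit 76) (nat_lit 48244570209) (nat_lit 76) (nat_lit 40396086495) (nat_lit 3) (nat_lit 4) (nat_lit 4) (nat_lit 5) (nat_lit 4) (nat_lit 4) (nat_lit 326) (nat_lit 246) (nat_lit 208))) (XT.nd (nat_lit 78) (nat_lit 0) (nat_lit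 0) (XT.lf (nat_lit 0) (nat_lit 129030881844) (nat_lit 76) (nat_lit 47878381767) (nat_lit 76) (nat_lit 39996913085) (nat_lit 3) (nat_lit 4) (nat_lit 4) (nat_lit 5) (nat_lit 4) (nat_lit 4) (nat_lit 327) (nat_lit 246) (nat_lit 207)) (XT.nd (nat_lit 78) (nat_lit 0) (nat_lit 0) (XT.lf (nat_lit 0) (nat_lit 146950071583) (nat_lit 76) (nat_lit 47507626489) (nat_lit 76) (nat_lit 39595616169) (nat_lit 3) (nat_lit 4) (nat_lit 4) (nat_lit 5) (nat_lit 4) (nat_lit 4) (nat_lit 328) (nat_lit 246) (nat_lit 206)) (XT.lf (nat_lit 0) (nat_lit 166253626957) (nat_lit 76) (nat_lit 47130107306) (nat_lit 76) (nat_lit 39189817691) (nat_lit 3) (nat_lit 4) (nat_lit 4) (nat_lit 5) (nat_lit 4) (nat_lit 4) (nat_lit 329) (nat_lit 246) (nat_lit 205))))) (XT.nd (nat_lit 156) (nat_lit 0) (nat_lit 0) (XT.nd (nat_lit 78) (nat_lit 0) (nat_lit 0) (XT.lf (nat_lit 0) (nat_lit 187055939405) (nat_lit 76) (nat_lit 46743587067)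 (nat_lit 76) (nat_lit 38777112920) (nat_lit 3) (nat_lit 4) (nat_lit 4) (nat_lit 5) (nat_lit 4) (nat_lit 4) (nat_lit 330) (nat_lit 246) (nat_lit 204)) (XT.lf (nat_lit 0) (nat_lit 209480281890) (nat_lit 76) (nat_lit 46345775281) (nat_lit 76) (nat_lit 38355056198) (nat_lit 3) (nat_lit 4) (nat_lit 4) (nat_lit 5) (nat_lit 4) (nat_lit 4) (nat_lit 331) (nat_lit 246) (nat_lit 203))) (XT.nd (nat_lit 78) (nat_lit 0) (nat_lit 0) (XT.lf (nat_lit 0) (nat_lit 233659539404) (nat_lit 76) (nat_lit 45934314547) (nat_lit 76) (nat_lit 37921146448) (nat_lit 3) (nat_lit 4) (nat_lit 4) (nat_lit 5) (nat_lit 4) (nat_lit 4) (nat_lit 332) (nat_lit 246) (nat_lit 202)) (XT.nd (nat_lit 78) (nat_lit 0) (nat_lit 0) (XT.lf (nat_lit 0) (nat_lit 259736996436) (nat_lit 76) (nat_lit 45506766577) (nat_lit 76) (nat_lit 37472812353) (nat_lit 3) (nat_lit 4) (nat_lit 4) (nat_lit 5) (nat_lit 4) (nat_lit 4) (nat_lit 333) (nat_lit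 246) (nat_lit 201)) (XT.lf (nat_lit 0) (nat_lit 287867186065) (nat_lit 76) (nat_lit 45060597755) (nat_lit 76) (nat_lit 37007397119) (nat_lit 3) (nat_lit 4) (nat_lit 4) (nat_lit 5) (nat_lit 4) (nat_lit 4) (nat_lit 334) (nat_lit 246) (nat_lit 200))))))) (XT.nd (nat_lit 780) (nat_lit 0) (nat_lit 0) (XT.nd (nat_lit 390) (nat_lit 0) (nat_lit 0) (XT.nd (nat_lit 156) (nat_lit 0) (nat_lit 0) (XT.nd (nat_lit 78) (nat_lit 0) (nat_lit 0) (XT.lf (nat_lit 0) (nat_lit 318216805711) (nat_lit 76) (nat_lit 44593164116) (nat_lit 76) (nat_lit 36522142728) (nat_lit 3) (nat_lit 4) (nat_lit 4) (nat_lit 5) (nat_lit 4) (nat_lit 4) (nat_lit 335) (nat_lit 246) (nat_lit 199)) (XT.lf (nat_lit 0) (nat_lit 350965704971) (nat_lit 76) (nat_lit 44101695685) (nat_lit 76) (nat_lit 36014173600) (nat_lit 3) (nat_lit 4) (nat_lit 4) (nat_lit 5) (nat_lit 4) (nat_lit 4) (nat_lit 336) (nat_lit 246) (nat_lit 198))) (XT.nd (nat_lit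 78) (nat_lit 0) (nat_lit 0) (XT.lf (nat_lit 0) (nat_lit 386307951398) (nat_lit 76) (nat_lit 43583280054) (nat_lit 76) (nat_lit 35480479547) (nat_lit 3) (nat_lit 4) (nat_lit 4) (nat_lit 5) (nat_lit 4) (nat_lit 4) (nat_lit 337) (nat_lit 246) (nat_lit 197)) (XT.nd (nat_lit 78) (nat_lit 0) (nat_lit 0) (XT.lf (nat_lit 0) (nat_lit 424452980525) (nat_lit 76) (nat_lit 43034845132) (nat_lit 76) (nat_lit 34917897937) (nat_lit 3) (nat_lit 4) (nat_lit 4) (nat_lit 5) (nat_lit 4) (nat_lit 4) (nat_lit 338) (nat_lit 246) (nat_lit 196)) (XT.lf (nat_lit 0) (nat_lit 465626836969) (nat_lit 76) (nat_lit 42453140935) (nat_lit 76) (nat_lit 34323094955) (nat_lit 3) (nat_lit 4) (nat_lit 4) (nat_lit 5) (nat_lit 4) (nat_lit 4) (nat_lit 339) (nat_lit 246) (nat_lit 195))))) (XT.nd (nat_lit 156) (nat_lit 0) (nat_lit 0) (XT.nd (nat_lit 78) (nat_lit 0) (nat_lit 0) (XT.lf (nat_lit 0) (nat_lit 510073513955) (nat_lit 76)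 (nat_lit 41834720325) (nat_lit 76) (nat_lit 33692545840) (nat_lit 3) (nat_lit 4) (nat_lit 4) (nat_lit 5) (nat_lit 4) (nat_lit 4) (nat_lit 340) (nat_lit 246) (nat_lit 194)) (XT.lf (nat_lit 0) (nat_lit 558056399196) (nat_lit 76) (nat_lit 41175918588) (nat_lit 76) (nat_lit 33022514007) (nat_lit 3) (nat_lit 4) (nat_lit 4) (nat_lit 5) (nat_lit 4) (nat_lit 4) (nat_lit 341) (nat_lit 246) (nat_lit 193))) (XT.nd (nat_lit 78) (nat_lit 0) (nat_lit 0) (XT.lf (nat_lit 0) (nat_lit 609859835717) (nat_lit 76) (nat_lit 40472831714) (nat_lit 76) (nat_lit 32309028895) (nat_lit 3) (nat_lit 4) (nat_lit 4) (nat_lit 5) (nat_lit 4) (nat_lit 4) (nat_lit 342) (nat_lit 246) (nat_lit 192)) (XT.nd (nat_lit 78) (nat_lit 0) (nat_lit 0) (XT.lf (nat_lit 0) (nat_lit 665790806846) (nat_lit 76) (nat_lit 39721293263) (nat_lit 76) (nat_lit 31547862446) (nat_lit 3) (nat_lit 4) (nat_lit 4) (nat_lit 5) (nat_lit 4) (nat_lit 4)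 (nat_lit 343) (nat_lit 246) (nat_lit 191)) (XT.lf (nat_lit 0) (nat_lit 726180755374) (nat_lit 76) (nat_lit 38916849672) (nat_lit 76) (nat_lit 30734504042) (nat_lit 3) (nat_lit 4) (nat_lit 4) (nat_lit 5) (nat_lit 4) (nat_lit 4) (nat_lit 344) (nat_lit 246) (nat_lit 190)))))) (XT.nd (nat_lit 36192) (nat_lit 0) (nat_lit 760) (XT.nd (nat_lit 156) (nat_lit 0) (nat_lit 0) (XT.nd (nat_lit 78) (nat_lit 0) (nat_lit 0) (XT.lf (nat_lit 0) (nat_lit 791387547663) (nat_lit 76) (nat_lit 38054733869) (nat_lit 76) (nat_lit 29864133783) (nat_lit 3) (nat_lit 4) (nat_lit 4) (nat_lit 5) (nat_lit 4) (nat_lit 4) (nat_lit 345) (nat_lit 246) (nat_lit 189)) (XT.lf (nat_lit 0) (nat_lit 861797594334) (nat_lit 76) (nat_lit 37129837020) (nat_lit 76) (nat_lit 28931593919) (nat_lit 3) (nat_lit 4) (nat_lit 4) (nat_lit 5) (nat_lit 4) (nat_lit 4) (nat_lit 346) (nat_lit 246) (nat_lit 188))) (XT.nd (nat_lit 35880) (nat_lit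 0) (nat_lit 1368) (XT.lf (nat_lit 0) (nat_lit 937828140108) (nat_lit 76) (nat_lit 36136678254) (nat_lit 76) (nat_lit 27931358287) (nat_lit 3) (nat_lit 4) (nat_lit 4) (nat_lit 5) (nat_lit 4) (nat_lit 4) (nat_lit 347) (nat_lit 246) (nat_lit 187)) (XT.nd (nat_lit 78) (nat_lit 152) (nat_lit 0) (XT.lf (nat_lit 0) (nat_lit 4135923809) (nat_lit 152) (nat_lit 1186027087) (nat_lit 152) (nat_lit 1186027087) (nat_lit 23) (nat_lit 4) (nat_lit 25) (nat_lit 5) (nat_lit 25) (nat_lit 4) (nat_lit 286) (nat_lit 247) (nat_lit 247)) (XT.lf (nat_lit 0) (nat_lit 3882069614) (nat_lit 152) (nat_lit 6769264503) (nat_lit 0) (nat_lit 3035253653) (nat_lit 21) (nat_lit 5) (nat_lit 23) (nat_lit 4) (nat_lit 21) (nat_lit 4) (nat_lit 287) (nat_lit 247) (nat_lit 246))))) (XT.nd (nat_lit 234) (nat_lit 304) (nat_lit 0) (XT.nd (nat_lit 78) (nat_lit 152) (nat_lit 0) (XT.lf (nat_lit 0) (nat_lit 4734883165) (nat_lit 152) (nat_lit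 5656733820) (nat_lit 152) (nat_lit 4025829007) (nat_lit 19) (nat_lit 4) (nat_lit 21) (nat_lit 5) (nat_lit 21) (nat_lit 4) (nat_lit 288) (nat_lit 247) (nat_lit 245)) (XT.nd (nat_lit 78) (nat_lit 0) (nat_lit 0) (XT.lf (nat_lit 0) (nat_lit 1620474778) (nat_lit 76) (nat_lit 319714386) (nat_lit 152) (nat_lit 13275437138) (nat_lit 17) (nat_lit 5) (nat_lit 18) (nat_lit 5) (nat_lit 19) (nat_lit 4) (nat_lit 289) (nat_lit 247) (nat_lit 244)) (XT.lf (nat_lit 0) (nat_lit 8164822150) (nat_lit 152) (nat_lit 2633847068) (nat_lit 0) (nat_lit 5279924225) (nat_lit 17) (nat_lit 5) (nat_lit 19) (nat_lit 4) (nat_lit 17) (nat_lit 4) (nat_lit 290) (nat_lit 247) (nat_lit 243)))) (XT.nd (nat_lit 78) (nat_lit 152) (nat_lit 0) (XT.lf (nat_lit 0) (nat_lit 8945956754) (nat_lit 152) (nat_lit 5775479519) (nat_lit 152) (nat_lit 2297786346) (nat_lit 15) (nat_lit 4) (nat_lit 17) (nat_lit 5) (nat_lit 17) (nat_lit 4) (nat_lit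 291) (nat_lit 247) (nat_lit 242)) (XT.nd (nat_lit 78) (nat_lit 0) (nat_lit 0) (XT.lf (nat_lit 0) (nat_lit 3024471982) (nat_lit 76) (nat_lit 415064430) (nat_lit 152) (nat_lit 14603279349) (nat_lit 13) (nat_lit 5) (nat_lit 14) (nat_lit 5) (nat_lit 15) (nat_lit 4) (nat_lit 292) (nat_lit 247) (nat_lit 241)) (XT.lf (nat_lit 0) (nat_lit 9493123565) (nat_lit 152) (nat_lit 4482403214) (nat_lit 0) (nat_lit 5174262573) (nat_lit 13) (nat_lit 5) (nat_lit 15) (nat_lit 4) (nat_lit 13) (nat_lit 4) (nat_lit 293) (nat_lit 247) (nat_lit 240))))))))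
noncomputable def xc24 : XT := (XT.nd (nat_lit 1560) (nat_lit 76) (nat_lit 0) (XT.nd (nat_lit 780) (nat_lit 228) (nat_lit 0) (XT.nd (nat_lit 390) (nat_lit 152) (nat_lit 0) (XT.nd (nat_lit 156) (nat_lit 152) (nat_lit 0) (XT.nd (nat_lit 78) (nat_lit 76) (nat_lit 0) (XT.lf (nat_lit 0) (nat_lit 6625064110) (nat_lit 76) (nat_lit 9247722759) (nat_lit 76) (nat_lit 4480690357) (nat_lit 12) (nat_lit 4) (nat_lit 13) (nat_lit 5) (nat_lit 13) (nat_lit 4) (nat_lit 294) (nat_lit 247) (nat_lit 239)) (XT.lf (nat_lit 0) (nat_lit 892942035) (nat_lit 152) (nat_lit 3351474757) (nat_lit 76) (nat_lit 17417439854) (nat_lit 11) (nat_lit 5) (nat_lit 13) (nat_lit 5) (nat_lit 12) (nat_lit 4) (nat_lit 295) (nat_lit 247) (nat_lit 238))) (XT.nd (nat_lit 78) (nat_lit 76) (nat_lit 0) (XT.lf (nat_lit 0) (nat_lit 6437461541) (nat_lit 152) (nat_lit 15502794078) (nat_lit 0) (nat_lit 1136279943) (nat_lit 10) (nat_lit 5)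 (nat_lit 12) (nat_lit 4) (nat_lit 10) (nat_lit 4) (nat_lit 296) (nat_lit 247) (nat_lit 237)) (XT.nd (nat_lit 78) (nat_lit 76) (nat_lit 0) (XT.lf (nat_lit 0) (nat_lit 12324042452) (nat_lit 152) (nat_lit 5601577711) (nat_lit 0) (nat_lit 6684029507) (nat_lit 10) (nat_lit 5) (nat_lit 12) (nat_lit 4) (nat_lit 10) (nat_lit 4) (nat_lit 297) (nat_lit 247) (nat_lit 236)) (XT.lf (nat_lit 0) (nat_lit 4858117379) (nat_lit 76) (nat_lit 13684090210) (nat_lit 76) (nat_lit 7730344536) (nat_lit 9) (nat_lit 4) (nat_lit 10) (nat_lit 5) (nat_lit 10) (nat_lit 4) (nat_lit 298) (nat_lit 247) (nat_lit 235))))) (XT.nd (nat_lit 156) (nat_lit 76) (nat_lit 0) (XT.nd (nat_lit 78) (nat_lit 76) (nat_lit 0) (XT.lf (nat_lit 0) (nat_lit 15982420116) (nat_lit 76) (nat_lit 9167919634) (nat_lit 76) (nat_lit 2923680692) (nat_lit 9) (nat_lit 4) (nat_lit 10) (nat_lit 5) (nat_lit 10) (nat_lit 4) (nat_lit 299) (nat_lit 247) (nat_lit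 234)) (XT.lf (nat_lit 0) (nat_lit 2001813813) (nat_lit 152) (nat_lit 2409495872) (nat_lit 76) (nat_lit 25616323340) (nat_lit 8) (nat_lit 5) (nat_lit 10) (nat_lit 5) (nat_lit 9) (nat_lit 4) (nat_lit 300) (nat_lit 247) (nat_lit 233))) (XT.nd (nat_lit 78) (nat_lit 0) (nat_lit 0) (XT.lf (nat_lit 0) (nat_lit 7177102216) (nat_lit 152) (nat_lit 24223407254) (nat_lit 0) (nat_lit 736849507) (nat_lit 7) (nat_lit 5) (nat_lit 9) (nat_lit 4) (nat_lit 7) (nat_lit 4) (nat_lit 301) (nat_lit 247) (nat_lit 232)) (XT.nd (nat_lit 78) (nat_lit 0) (nat_lit 0) (XT.lf (nat_lit 0) (nat_lit 12710829786) (nat_lit 152) (nat_lit 15656977647) (nat_lit 0) (nat_lit 6050955246) (nat_lit 7) (nat_lit 5) (nat_lit 9) (nat_lit 4) (nat_lit 7) (nat_lit 4) (nat_lit 302) (nat_lit 247) (nat_lit 231)) (XT.lf (nat_lit 0) (nat_lit 18527416143) (nat_lit 152) (nat_lit 6699178003) (nat_lit 0) (nat_lit 11664188057) (nat_lit 7) (nat_lit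 5) (nat_lit 9) (nat_lit 4) (nat_lit 7) (nat_lit 4) (nat_lit 303) (nat_lit 247) (nat_lit 230)))))) (XT.nd (nat_lit 390) (nat_lit 76) (nat_lit 0) (XT.nd (nat_lit 156) (nat_lit 76) (nat_lit 0) (XT.nd (nat_lit 78) (nat_lit 0) (nat_lit 0) (XT.lf (nat_lit 0) (nat_lit 2792450798) (nat_lit 76) (nat_lit 21912477131) (nat_lit 76) (nat_lit 14860958724) (nat_lit 6) (nat_lit 4) (nat_lit 7) (nat_lit 5) (nat_lit 7) (nat_lit 4) (nat_lit 304) (nat_lit 247) (nat_lit 229)) (XT.lf (nat_lit 0) (nat_lit 13022292917) (nat_lit 76) (nat_lit 18329941885) (nat_lit 76) (nat_lit 11104080589) (nat_lit 6) (nat_lit 4) (nat_lit 7) (nat_lit 5) (nat_lit 7) (nat_lit 4) (nat_lit 305) (nat_lit 247) (nat_lit 228))) (XT.nd (nat_lit 78) (nat_lit 76) (nat_lit 0) (XT.lf (nat_lit 0) (nat_lit 23829464562) (nat_lit 76) (nat_lit 14571212392) (nat_lit 76) (nat_lit 7183922493) (nat_lit 6) (nat_lit 4) (nat_lit 7) (nat_lit 5) (nat_lit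 7) (nat_lit 4) (nat_lit 306) (nat_lit 247) (nat_lit 227)) (XT.nd (nat_lit 78) (nat_lit 76) (nat_lit 0) (XT.lf (nat_lit 0) (nat_lit 35278008230) (nat_lit 76) (nat_lit 10614014698) (nat_lit 76) (nat_lit 3077253872) (nat_lit 6) (nat_lit 4) (nat_lit 7) (nat_lit 5) (nat_lit 7) (nat_lit 4) (nat_lit 307) (nat_lit 247) (nat_lit 226)) (XT.lf (nat_lit 0) (nat_lit 1200564988) (nat_lit 152) (nat_lit 5214001606) (nat_lit 76) (nat_lit 46214870007) (nat_lit 5) (nat_lit 5) (nat_lit 7) (nat_lit 5) (nat_lit 6) (nat_lit 4) (nat_lit 308) (nat_lit 247) (nat_lit 225))))) (XT.nd (nat_lit 156) (nat_lit 0) (nat_lit 0) (XT.nd (nat_lit 78) (nat_lit 0) (nat_lit 0) (XT.lf (nat_lit 0) (nat_lit 3816806078) (nat_lit 76) (nat_lit 1851541794) (nat_lit 152) (nat_lit 50913828400) (nat_lit 4) (nat_lit 5) (nat_lit 5) (nat_lit 5) (nat_lit 6) (nat_lit 4) (nat_lit 309) (nat_lit 247) (nat_lit 224)) (XT.lf (nat_lit 0) (nat_lit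 10531980149) (nat_lit 152) (nat_lit 47330041092) (nat_lit 0) (nat_lit 2987254528) (nat_lit 4) (nat_lit 5) (nat_lit 6) (nat_lit 4) (nat_lit 4) (nat_lit 4) (nat_lit 310) (nat_lit 247) (nat_lit 223))) (XT.nd (nat_lit 78) (nat_lit 0) (nat_lit 0) (XT.lf (nat_lit 0) (nat_lit 15721553118) (nat_lit 152) (nat_lit 41667211403) (nat_lit 0) (nat_lit 8072193599) (nat_lit 4) (nat_lit 5) (nat_lit 6) (nat_lit 4) (nat_lit 4) (nat_lit 4) (nat_lit 311) (nat_lit 247) (nat_lit 222)) (XT.nd (nat_lit 78) (nat_lit 0) (nat_lit 0) (XT.lf (nat_lit 0) (nat_lit 21238912050) (nat_lit 152) (nat_lit 35714415859) (nat_lit 0) (nat_lit 13492669290) (nat_lit 4) (nat_lit 5) (nat_lit 6) (nat_lit 4) (nat_lit 4) (nat_lit 4) (nat_lit 312) (nat_lit 247) (nat_lit 221)) (XT.lf (nat_lit 0) (nat_lit 27116752403) (nat_lit 152) (nat_lit 29436378637) (nat_lit 0) (nat_lit 19280802941) (nat_lit 4) (nat_lit 5) (nat_lit 6) (nat_lit 4) (nat_lit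 4) (nat_lit 4) (nat_lit 313) (nat_lit 247) (nat_lit 220))))))) (XT.nd (nat_lit 780) (nat_lit 0) (nat_lit 0) (XT.nd (nat_lit 390) (nat_lit 0) (nat_lit 0) (XT.nd (nat_lit 156) (nat_lit 76) (nat_lit 0) (XT.nd (nat_lit 78) (nat_lit 0) (nat_lit 0) (XT.lf (nat_lit 0) (nat_lit 33389905826) (nat_lit 152) (nat_lit 22795896552) (nat_lit 0) (nat_lit 25470894601) (nat_lit 4) (nat_lit 5) (nat_lit 6) (nat_lit 4) (nat_lit 4) (nat_lit 4) (nat_lit 314) (nat_lit 247) (nat_lit 219)) (XT.lf (nat_lit 0) (nat_lit 40095546559) (nat_lit 152) (nat_lit 15753618599) (nat_lit 0) (nat_lit 32099626295) (nat_lit 4) (nat_lit 5) (nat_lit 6) (nat_lit 4) (nat_lit 4) (nat_lit 4) (nat_lit 315) (nat_lit 247) (nat_lit 218))) (XT.nd (nat_lit 78) (nat_lit 76) (nat_lit 0) (XT.lf (nat_lit 0) (nat_lit 47273411735) (nat_lit 152) (nat_lit 8267812761) (nat_lit 0) (nat_lit 39206279397) (nat_lit 4) (nat_lit 5) (nat_lit 6) (nat_lit 4)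 (nat_lit 4) (nat_lit 4) (nat_lit 316) (nat_lit 247) (nat_lit 217)) (XT.nd (nat_lit 78) (nat_lit 76) (nat_lit 0) (XT.lf (nat_lit 0) (nat_lit 54966036849) (nat_lit 152) (nat_lit 294118707) (nat_lit 0) (nat_lit 46832967406) (nat_lit 4) (nat_lit 5) (nat_lit 6) (nat_lit 4) (nat_lit 4) (nat_lit 4) (nat_lit 317) (nat_lit 247) (nat_lit 216)) (XT.lf (nat_lit 0) (nat_lit 8486330662) (nat_lit 76) (nat_lit 54865172571) (nat_lit 76) (nat_lit 46671050253) (nat_lit 3) (nat_lit 4) (nat_lit 4) (nat_lit 5) (nat_lit 4) (nat_lit 4) (nat_lit 318) (nat_lit 247) (nat_lit 215))))) (XT.nd (nat_lit 156) (nat_lit 0) (nat_lit 0) (XT.nd (nat_lit 78) (nat_lit 0) (nat_lit 0) (XT.lf (nat_lit 0) (nat_lit 17881428718) (nat_lit 76) (nat_lit 54478981664) (nat_lit 76) (nat_lit 46228328907) (nat_lit 3) (nat_lit 4) (nat_lit 4) (nat_lit 5) (nat_lit 4) (nat_lit 4) (nat_lit 319) (nat_lit 247) (nat_lit 214)) (XT.lf (nat_lit 0)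 (nat_lit 27937125224) (nat_lit 76) (nat_lit 54104275340) (nat_lit 76) (nat_lit 45801279583) (nat_lit 3) (nat_lit 4) (nat_lit 4) (nat_lit 5) (nat_lit 4) (nat_lit 4) (nat_lit 320) (nat_lit 247) (nat_lit 213))) (XT.nd (nat_lit 78) (nat_lit 0) (nat_lit 0) (XT.lf (nat_lit 0) (nat_lit 38713009493) (nat_lit 76) (nat_lit 53738833117) (nat_lit 76) (nat_lit 45387371620) (nat_lit 3) (nat_lit 4) (nat_lit 4) (nat_lit 5) (nat_lit 4) (nat_lit 4) (nat_lit 321) (nat_lit 247) (nat_lit 212)) (XT.nd (nat_lit 78) (nat_lit 0) (nat_lit 0) (XT.lf (nat_lit 0) (nat_lit 50272938615) (nat_lit 76) (nat_lit 53380489412) (nat_lit 76) (nat_lit 44984152229) (nat_lit 3) (nat_lit 4) (nat_lit 4) (nat_lit 5) (nat_lit 4) (nat_lit 4) (nat_lit 322) (nat_lit 247) (nat_lit 211)) (XT.lf (nat_lit 0) (nat_lit 62685415875) (nat_lit 76) (nat_lit 53027120706) (nat_lit 76) (nat_lit 44589231962) (nat_lit 3) (nat_lit 4) (nat_lit 4) (nat_lit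 5) (nat_lit 4) (nat_lit 4) (nat_lit 323) (nat_lit 247) (nat_lit 210)))))) (XT.nd (nat_lit 390) (nat_lit 0) (nat_lit 0) (XT.nd (nat_lit 156) (nat_lit 0) (nat_lit 0) (XT.nd (nat_lit 78) (nat_lit 0) (nat_lit 0) (XT.lf (nat_lit 0) (nat_lit 76023996693) (nat_lit 76) (nat_lit 52676632962) (nat_lit 76) (nat_lit 44200270550) (nat_lit 3) (nat_lit 4) (nat_lit 4) (nat_lit 5) (nat_lit 4) (nat_lit 4) (nat_lit 324) (nat_lit 247) (nat_lit 209)) (XT.lf (nat_lit 0) (nat_lit 90367724512) (nat_lit 76) (nat_lit 52326949216) (nat_lit 76) (nat_lit 43814963038) (nat_lit 3) (nat_lit 4) (nat_lit 4) (nat_lit 5) (nat_lit 4) (nat_lit 4) (nat_lit 325) (nat_lit 247) (nat_lit 208))) (XT.nd (nat_lit 78) (nat_lit 0) (nat_lit 0) (XT.lf (nat_lit 0) (nat_lit 105801599200) (nat_lit 76) (nat_lit 51975997267) (nat_lit 76) (nat_lit 43431026121) (nat_lit 3) (nat_lit 4) (nat_lit 4) (nat_lit 5) (nat_lit 4) (nat_lit 4) (nat_lit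 326) (nat_lit 247) (nat_lit 207)) (XT.nd (nat_lit 78) (nat_lit 0) (nat_lit 0) (XT.lf (nat_lit 0) (nat_lit 122417080755) (nat_lit 76) (nat_lit 51621697402) (nat_lit 76) (nat_lit 43046184618) (nat_lit 3) (nat_lit 4) (nat_lit 4) (nat_lit 5) (nat_lit 4) (nat_lit 4) (nat_lit 327) (nat_lit 247) (nat_lit 206)) (XT.lf (nat_lit 0) (nat_lit 140312631291) (nat_lit 76) (nat_lit 51261950065) (nat_lit 76) (nat_lit 42658157987) (nat_lit 3) (nat_lit 4) (nat_lit 4) (nat_lit 5) (nat_lit 4) (nat_lit 4) (nat_lit 328) (nat_lit 247) (nat_lit 205))))) (XT.nd (nat_lit 156) (nat_lit 0) (nat_lit 0) (XT.nd (nat_lit 78) (nat_lit 0) (nat_lit 0) (XT.lf (nat_lit 0) (nat_lit 159594298513) (nat_lit 76) (nat_lit 50894623419) (nat_lit 76) (nat_lit 42264646810) (nat_lit 3) (nat_lit 4) (nat_lit 4) (nat_lit 5) (nat_lit 4) (nat_lit 4) (nat_lit 329) (nat_lit 247) (nat_lit 204)) (XT.lf (nat_lit 0) (nat_lit 180376344153) (nat_lit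 76) (nat_lit 50517540715) (nat_lit 76) (nat_lit 41863319169) (nat_lit 3) (nat_lit 4) (nat_lit 4) (nat_lit 5) (nat_lit 4) (nat_lit 4) (nat_lit 330) (nat_lit 247) (nat_lit 203))) (XT.nd (nat_lit 78) (nat_lit 0) (nat_lit 0) (XT.lf (nat_lit 0) (nat_lit 202781921076) (nat_lit 76) (nat_lit 50128467388) (nat_lit 76) (nat_lit 41451796827) (nat_lit 3) (nat_lit 4) (nat_lit 4) (nat_lit 5) (nat_lit 4) (nat_lit 4) (nat_lit 331) (nat_lit 247) (nat_lit 202)) (XT.nd (nat_lit 78) (nat_lit 0) (nat_lit 0) (XT.lf (nat_lit 0) (nat_lit 226943803069) (nat_lit 76) (nat_lit 49725097819) (nat_lit 76) (nat_lit 41027641132) (nat_lit 3) (nat_lit 4) (nat_lit 4) (nat_lit 5) (nat_lit 4) (nat_lit 4) (nat_lit 332) (nat_lit 247) (nat_lit 201)) (XT.lf (nat_lit 0) (nat_lit 253005171656) (nat_lit 76) (nat_lit 49305041669) (nat_lit 76) (nat_lit 40588338570) (nat_lit 3) (nat_lit 4) (nat_lit 4) (nat_lit 5) (nat_lit 4) (nat_lit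 4) (nat_lit 333) (nat_lit 247) (nat_lit 200))))))))
noncomputable def xc25 : XT := (XT.nd (nat_lit 37206) (nat_lit 0) (nat_lit 152) (XT.nd (nat_lit 780) (nat_lit 0) (nat_lit 0) (XT.nd (nat_lit 390) (nat_lit 0) (nat_lit 0) (XT.nd (nat_lit 156) (nat_lit 0) (nat_lit 0) (XT.nd (nat_lit 78) (nat_lit 0) (nat_lit 0) (XT.lf (nat_lit 0) (nat_lit 281120464577) (nat_lit 76) (nat_lit 48865809717) (nat_lit 76) (nat_lit 40131285865) (nat_lit 3) (nat_lit 4) (nat_lit 4) (nat_lit 5) (nat_lit 4) (nat_lit 4) (nat_lit 334) (nat_lit 247) (nat_lit 199)) (XT.lf (nat_lit 0) (nat_lit 311456290974) (nat_lit 76) (nat_lit 48404799106) (nat_lit 76) (nat_lit 39653774558) (nat_lit 3) (nat_lit 4) (nat_lit 4) (nat_lit 5) (nat_lit 4) (nat_lit 4) (nat_lit 335) (nat_lit 247) (nat_lit 198))) (XT.nd (nat_lit 78) (nat_lit 0) (nat_lit 0) (XT.lf (nat_lit 0) (nat_lit 344192418708) (nat_lit 76) (nat_lit 47919277922) (nat_lit 76)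 (nat_lit 39152974952) (nat_lit 3) (nat_lit 4) (nat_lit 4) (nat_lit 5) (nat_lit 4) (nat_lit 4) (nat_lit 336) (nat_lit 247) (nat_lit 197)) (XT.nd (nat_lit 78) (nat_lit 0) (nat_lit 0) (XT.lf (nat_lit 0) (nat_lit 379522839648) (nat_lit 76) (nat_lit 47406369003) (nat_lit 76) (nat_lit 38625919345) (nat_lit 3) (nat_lit 4) (nat_lit 4) (nat_lit 5) (nat_lit 4) (nat_lit 4) (nat_lit 337) (nat_lit 247) (nat_lit 196)) (XT.lf (nat_lit 0) (nat_lit 417656919249) (nat_lit 76) (nat_lit 46863032888) (nat_lit 76) (nat_lit 38069484445) (nat_lit 3) (nat_lit 4) (nat_lit 4) (nat_lit 5) (nat_lit 4) (nat_lit 4) (nat_lit 338) (nat_lit 247) (nat_lit 195))))) (XT.nd (nat_lit 156) (nat_lit 0) (nat_lit 0) (XT.nd (nat_lit 78) (nat_lit 0) (nat_lit 0) (XT.lf (nat_lit 0) (nat_lit 458820637244) (nat_lit 76) (nat_lit 46286049807) (nat_lit 76) (nat_lit 37480372860) (nat_lit 3) (nat_lit 4) (nat_lit 4) (nat_lit 5) (nat_lit 4)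 (nat_lit 4) (nat_lit 339) (nat_lit 247) (nat_lit 194)) (XT.lf (nat_lit 0) (nat_lit 503257926776) (nat_lit 76) (nat_lit 45672000602) (nat_lit 76) (nat_lit 36855093558) (nat_lit 3) (nat_lit 4) (nat_lit 4) (nat_lit 5) (nat_lit 4) (nat_lit 4) (nat_lit 340) (nat_lit 247) (nat_lit 193))) (XT.nd (nat_lit 78) (nat_lit 0) (nat_lit 0) (XT.lf (nat_lit 0) (nat_lit 551232119931) (nat_lit 76) (nat_lit 45017246463) (nat_lit 76) (nat_lit 36189941180) (nat_lit 3) (nat_lit 4) (nat_lit 4) (nat_lit 5) (nat_lit 4) (nat_lit 4) (nat_lit 341) (nat_lit 247) (nat_lit 192)) (XT.nd (nat_lit 78) (nat_lit 0) (nat_lit 0) (XT.lf (nat_lit 0) (nat_lit 603027508225) (nat_lit 76) (nat_lit 44317907364) (nat_lit 76) (nat_lit 35480974084) (nat_lit 3) (nat_lit 4) (nat_lit 4) (nat_lit 5) (nat_lit 4) (nat_lit 4) (nat_lit 342) (nat_lit 247) (nat_lit 191)) (XT.lf (nat_lit 0) (nat_lit 658951027290) (nat_lit 76) (nat_lit 43569839074)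 (nat_lit 76) (nat_lit 34723990981) (nat_lit 3) (nat_lit 4) (nat_lit 4) (nat_lit 5) (nat_lit 4) (nat_lit 4) (nat_lit 343) (nat_lit 247) (nat_lit 190)))))) (XT.nd (nat_lit 36036) (nat_lit 0) (nat_lit 1064) (XT.nd (nat_lit 156) (nat_lit 0) (nat_lit 0) (XT.nd (nat_lit 78) (nat_lit 0) (nat_lit 0) (XT.lf (nat_lit 0) (nat_lit 719334075760) (nat_lit 76) (nat_lit 42768608597) (nat_lit 76) (nat_lit 33914506047) (nat_lit 3) (nat_lit 4) (nat_lit 4) (nat_lit 5) (nat_lit 4) (nat_lit 4) (nat_lit 344) (nat_lit 247) (nat_lit 189)) (XT.lf (nat_lit 0) (nat_lit 784534479106) (nat_lit 76) (nat_lit 41909467899) (nat_lit 76) (nat_lit 33047722334) (nat_lit 3) (nat_lit 4) (nat_lit 4) (nat_lit 5) (nat_lit 4) (nat_lit 4) (nat_lit 345) (nat_lit 247) (nat_lit 188))) (XT.nd (nat_lit 78) (nat_lit 0) (nat_lit 0) (XT.lf (nat_lit 0) (nat_lit 854938610089) (nat_lit 76) (nat_lit 40987325776) (nat_lit 76) (nat_lit 32118503345)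 (nat_lit 3) (nat_lit 4) (nat_lit 4) (nat_lit 5) (nat_lit 4) (nat_lit 4) (nat_lit 346) (nat_lit 247) (nat_lit 187)) (XT.nd (nat_lit 35724) (nat_lit 0) (nat_lit 1900) (XT.lf (nat_lit 0) (nat_lit 930963678374) (nat_lit 76) (nat_lit 39996717683) (nat_lit 76) (nat_lit 31121342599) (nat_lit 3) (nat_lit 4) (nat_lit 4) (nat_lit 5) (nat_lit 4) (nat_lit 4) (nat_lit 347) (nat_lit 247) (nat_lit 186)) (XT.lf (nat_lit 0) (nat_lit 4629969892) (nat_lit 152) (nat_lit 641953477) (nat_lit 152) (nat_lit 641953477) (nat_lit 28) (nat_lit 4) (nat_lit 30) (nat_lit 5) (nat_lit 30) (nat_lit 4) (nat_lit 284) (nat_lit 248) (nat_lit 248))))) (XT.nd (nat_lit 156) (nat_lit 456) (nat_lit 0) (XT.nd (nat_lit 78) (nat_lit 152) (nat_lit 0) (XT.lf (nat_lit 0) (nat_lit 4929045740) (nat_lit 228) (nat_lit 3501830507) (nat_lit 0) (nat_lit 3968756441) (nat_lit 25) (nat_lit 5) (nat_lit 28) (nat_lit 4) (nat_lit 25) (nat_lit 4)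 (nat_lit 285) (nat_lit 248) (nat_lit 247)) (XT.lf (nat_lit 0) (nat_lit 7978945410) (nat_lit 152) (nat_lit 3447782147) (nat_lit 152) (nat_lit 1598336089) (nat_lit 23) (nat_lit 4) (nat_lit 25) (nat_lit 5) (nat_lit 25) (nat_lit 4) (nat_lit 286) (nat_lit 248) (nat_lit 246))) (XT.nd (nat_lit 78) (nat_lit 304) (nat_lit 0) (XT.lf (nat_lit 0) (nat_lit 4435802710) (nat_lit 152) (nat_lit 7378919935) (nat_lit 0) (nat_lit 1890336660) (nat_lit 21) (nat_lit 5) (nat_lit 23) (nat_lit 4) (nat_lit 21) (nat_lit 4) (nat_lit 287) (nat_lit 248) (nat_lit 245)) (XT.nd (nat_lit 78) (nat_lit 152) (nat_lit 0) (XT.lf (nat_lit 0) (nat_lit 3824704122) (nat_lit 152) (nat_lit 6945810452) (nat_lit 152) (nat_lit 3674336205) (nat_lit 19) (nat_lit 4) (nat_lit 21) (nat_lit 5) (nat_lit 21) (nat_lit 4) (nat_lit 288) (nat_lit 248) (nat_lit 244)) (XT.lf (nat_lit 0) (nat_lit 372555186) (nat_lit 76) (nat_lit 1732937127) (nat_lit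 152) (nat_lit 13146180218) (nat_lit 17) (nat_lit 5) (nat_lit 18) (nat_lit 5) (nat_lit 19) (nat_lit 4) (nat_lit 289) (nat_lit 248) (nat_lit 243))))))) (XT.nd (nat_lit 780) (nat_lit 304) (nat_lit 0) (XT.nd (nat_lit 390) (nat_lit 228) (nat_lit 0) (XT.nd (nat_lit 156) (nat_lit 228) (nat_lit 0) (XT.nd (nat_lit 78) (nat_lit 152) (nat_lit 0) (XT.lf (nat_lit 0) (nat_lit 8158516738) (nat_lit 152) (nat_lit 4155046842) (nat_lit 0) (nat_lit 3809812862) (nat_lit 17) (nat_lit 5) (nat_lit 19) (nat_lit 4) (nat_lit 17) (nat_lit 4) (nat_lit 290) (nat_lit 248) (nat_lit 242)) (XT.lf (nat_lit 0) (nat_lit 7126429714) (nat_lit 152) (nat_lit 7421826384) (nat_lit 152) (nat_lit 2524238019) (nat_lit 15) (nat_lit 4) (nat_lit 17) (nat_lit 5) (nat_lit 17) (nat_lit 4) (nat_lit 291) (nat_lit 248) (nat_lit 241))) (XT.nd (nat_lit 78) (nat_lit 76) (nat_lit 0) (XT.lf (nat_lit 0) (nat_lit 851440287) (nat_lit 76) (nat_lit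 2200879239) (nat_lit 152) (nat_lit 15052472818) (nat_lit 13) (nat_lit 5) (nat_lit 14) (nat_lit 5) (nat_lit 15) (nat_lit 4) (nat_lit 292) (nat_lit 248) (nat_lit 240)) (XT.nd (nat_lit 78) (nat_lit 76) (nat_lit 0) (XT.lf (nat_lit 0) (nat_lit 8948868673) (nat_lit 152) (nat_lit 6918565095) (nat_lit 0) (nat_lit 3352302268) (nat_lit 13) (nat_lit 5) (nat_lit 15) (nat_lit 4) (nat_lit 13) (nat_lit 4) (nat_lit 293) (nat_lit 248) (nat_lit 239)) (XT.lf (nat_lit 0) (nat_lit 3889270129) (nat_lit 76) (nat_lit 11276959146) (nat_lit 76) (nat_lit 5265419214) (nat_lit 12) (nat_lit 4) (nat_lit 13) (nat_lit 5) (nat_lit 13) (nat_lit 4) (nat_lit 294) (nat_lit 248) (nat_lit 238))))) (XT.nd (nat_lit 156) (nat_lit 76) (nat_lit 0) (XT.nd (nat_lit 78) (nat_lit 76) (nat_lit 0) (XT.lf (nat_lit 0) (nat_lit 17466196) (nat_lit 152) (nat_lit 6359968977) (nat_lit 76) (nat_lit 15369094998) (nat_lit 11) (nat_lit 5) (nat_lit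 13) (nat_lit 5) (nat_lit 12) (nat_lit 4) (nat_lit 295) (nat_lit 248) (nat_lit 237)) (XT.lf (nat_lit 0) (nat_lit 4287221958) (nat_lit 76) (nat_lit 1097543677) (nat_lit 152) (nat_lit 17785393817) (nat_lit 10) (nat_lit 5) (nat_lit 11) (nat_lit 5) (nat_lit 12) (nat_lit 4) (nat_lit 296) (nat_lit 248) (nat_lit 236))) (XT.nd (nat_lit 78) (nat_lit 76) (nat_lit 0) (XT.lf (nat_lit 0) (nat_lit 11150753567) (nat_lit 152) (nat_lit 9151656876) (nat_lit 0) (nat_lit 4406975509) (nat_lit 10) (nat_lit 5) (nat_lit 12) (nat_lit 4) (nat_lit 10) (nat_lit 4) (nat_lit 297) (nat_lit 248) (nat_lit 235)) (XT.nd (nat_lit 78) (nat_lit 0) (nat_lit 0) (XT.lf (nat_lit 0) (nat_lit 1011714980) (nat_lit 76) (nat_lit 16201356855) (nat_lit 76) (nat_lit 9167085530) (nat_lit 9) (nat_lit 4) (nat_lit 10) (nat_lit 5) (nat_lit 10) (nat_lit 4) (nat_lit 298) (nat_lit 248) (nat_lit 234)) (XT.lf (nat_lit 0) (nat_lit 11970331067) (nat_lit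 76) (nat_lit 11759588182) (nat_lit 76) (nat_lit 4456341609) (nat_lit 9) (nat_lit 4) (nat_lit 10) (nat_lit 5) (nat_lit 10) (nat_lit 4) (nat_lit 299) (nat_lit 248) (nat_lit 233)))))) (XT.nd (nat_lit 390) (nat_lit 152) (nat_lit 0) (XT.nd (nat_lit 156) (nat_lit 0) (nat_lit 0) (XT.nd (nat_lit 78) (nat_lit 76) (nat_lit 0) (XT.lf (nat_lit 0) (nat_lit 432235500) (nat_lit 152) (nat_lit 6666214952) (nat_lit 76) (nat_lit 23046980606) (nat_lit 8) (nat_lit 5) (nat_lit 10) (nat_lit 5) (nat_lit 9) (nat_lit 4) (nat_lit 300) (nat_lit 248) (nat_lit 232)) (XT.lf (nat_lit 0) (nat_lit 3379439863) (nat_lit 76) (nat_lit 2065604289) (nat_lit 152) (nat_lit 26818294769) (nat_lit 7) (nat_lit 5) (nat_lit 8) (nat_lit 5) (nat_lit 9) (nat_lit 4) (nat_lit 301) (nat_lit 248) (nat_lit 231))) (XT.nd (nat_lit 78) (nat_lit 0) (nat_lit 0) (XT.lf (nat_lit 0) (nat_lit 10869675976) (nat_lit 152) (nat_lit 20426538969) (nat_lit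 0) (nat_lit 3254036097) (nat_lit 7) (nat_lit 5) (nat_lit 9) (nat_lit 4) (nat_lit 7) (nat_lit 4) (nat_lit 302) (nat_lit 248) (nat_lit 230)) (XT.nd (nat_lit 78) (nat_lit 0) (nat_lit 0) (XT.lf (nat_lit 0) (nat_lit 16615108746) (nat_lit 152) (nat_lit 11599590613) (nat_lit 0) (nat_lit 8811178545) (nat_lit 7) (nat_lit 5) (nat_lit 9) (nat_lit 4) (nat_lit 7) (nat_lit 4) (nat_lit 303) (nat_lit 248) (nat_lit 229)) (XT.lf (nat_lit 0) (nat_lit 22683139598) (nat_lit 152) (nat_lit 2318496275) (nat_lit 0) (nat_lit 14704866508) (nat_lit 7) (nat_lit 5) (nat_lit 9) (nat_lit 4) (nat_lit 7) (nat_lit 4) (nat_lit 304) (nat_lit 248) (nat_lit 228))))) (XT.nd (nat_lit 156) (nat_lit 76) (nat_lit 0) (XT.nd (nat_lit 78) (nat_lit 0) (nat_lit 0) (XT.lf (nat_lit 0) (nat_lit 7718792691) (nat_lit 76) (nat_lit 21511446528) (nat_lit 76) (nat_lit 13371744837) (nat_lit 6) (nat_lit 4) (nat_lit 7) (nat_lit 5) (nat_lit 7) (nat_lit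 4) (nat_lit 305) (nat_lit 248) (nat_lit 227)) (XT.lf (nat_lit 0) (nat_lit 18418655823) (nat_lit 76) (nat_lit 17801866150) (nat_lit 76) (nat_lit 9512693531) (nat_lit 6) (nat_lit 4) (nat_lit 7) (nat_lit 5) (nat_lit 7) (nat_lit 4) (nat_lit 306) (nat_lit 248) (nat_lit 226))) (XT.nd (nat_lit 78) (nat_lit 76) (nat_lit 0) (XT.lf (nat_lit 0) (nat_lit 29767839757) (nat_lit 76) (nat_lit 13890176895) (nat_lit 76) (nat_lit 5462605270) (nat_lit 6) (nat_lit 4) (nat_lit 7) (nat_lit 5) (nat_lit 7) (nat_lit 4) (nat_lit 307) (nat_lit 248) (nat_lit 225)) (XT.nd (nat_lit 78) (nat_lit 76) (nat_lit 0) (XT.lf (nat_lit 0) (nat_lit 41833598916) (nat_lit 76) (nat_lit 9753198385) (nat_lit 76) (nat_lit 1197479531) (nat_lit 6) (nat_lit 4) (nat_lit 7) (nat_lit 5) (nat_lit 7) (nat_lit 4) (nat_lit 308) (nat_lit 248) (nat_lit 224)) (XT.lf (nat_lit 0) (nat_lit 3202083173) (nat_lit 152) (nat_lit 2110103188) (nat_lit 76)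 (nat_lit 51431122095) (nat_lit 5) (nat_lit 5) (nat_lit 7) (nat_lit 5) (nat_lit 6) (nat_lit 4) (nat_lit 309) (nat_lit 248) (nat_lit 223))))))))
noncomputable def xc26 : XT := (XT.nd (nat_lit 1560) (nat_lit 0) (nat_lit 0) (XT.nd (nat_lit 780) (nat_lit 0) (nat_lit 0) (XT.nd (nat_lit 390) (nat_lit 76) (nat_lit 0) (XT.nd (nat_lit 156) (nat_lit 0) (nat_lit 0) (XT.nd (nat_lit 78) (nat_lit 0) (nat_lit 0) (XT.lf (nat_lit 0) (nat_lit 7490149935) (nat_lit 76) (nat_lit 448576515) (nat_lit 152) (nat_lit 53078058550) (nat_lit 4) (nat_lit 5) (nat_lit 5) (nat_lit 5) (nat_lit 6) (nat_lit 4) (nat_lit 310) (nat_lit 248) (nat_lit 222)) (XT.lf (nat_lit 0) (nat_lit 13079286328) (nat_lit 152) (nat_lit 47935196321) (nat_lit 0) (nat_lit 4616460908) (nat_lit 4) (nat_lit 5) (nat_lit 6) (nat_lit 4) (nat_lit 4) (nat_lit 4) (nat_lit 311) (nat_lit 248) (nat_lit 221))) (XT.nd (nat_lit 78) (nat_lit 0) (nat_lit 0) (XT.lf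 (nat_lit 0) (nat_lit 18557747523) (nat_lit 152) (nat_lit 42054988260) (nat_lit 0) (nat_lit 10005215400) (nat_lit 4) (nat_lit 5) (nat_lit 6) (nat_lit 4) (nat_lit 4) (nat_lit 4) (nat_lit 312) (nat_lit 248) (nat_lit 220)) (XT.nd (nat_lit 78) (nat_lit 0) (nat_lit 0) (XT.lf (nat_lit 0) (nat_lit 24399571453) (nat_lit 152) (nat_lit 35844161670) (nat_lit 0) (nat_lit 15763977568) (nat_lit 4) (nat_lit 5) (nat_lit 6) (nat_lit 4) (nat_lit 4) (nat_lit 4) (nat_lit 313) (nat_lit 248) (nat_lit 219)) (XT.lf (nat_lit 0) (nat_lit 30639376336) (nat_lit 152) (nat_lit 29265911652) (nat_lit 0) (nat_lit 21926873412) (nat_lit 4) (nat_lit 5) (nat_lit 6) (nat_lit 4) (nat_lit 4) (nat_lit 4) (nat_lit 314) (nat_lit 248) (nat_lit 218))))) (XT.nd (nat_lit 156) (nat_lit 76) (nat_lit 0) (XT.nd (nat_lit 78) (nat_lit 0) (nat_lit 0) (XT.lf (nat_lit 0) (nat_lit 37314138792) (nat_lit 152) (nat_lit 22281255983) (nat_lit 0)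 (nat_lit 28530423794) (nat_lit 4) (nat_lit 5) (nat_lit 6) (nat_lit 4) (nat_lit 4) (nat_lit 4) (nat_lit 315) (nat_lit 248) (nat_lit 217)) (XT.lf (nat_lit 0) (nat_lit 44463412970) (nat_lit 152) (nat_lit 14848804112) (nat_lit 0) (nat_lit 35613760867) (nat_lit 4) (nat_lit 5) (nat_lit 6) (nat_lit 4) (nat_lit 4) (nat_lit 4) (nat_lit 316) (nat_lit 248) (nat_lit 216))) (XT.nd (nat_lit 78) (nat_lit 76) (nat_lit 0) (XT.lf (nat_lit 0) (nat_lit 52129564938) (nat_lit 152) (nat_lit 6924511880) (nat_lit 0) (nat_lit 43218859960) (nat_lit 4) (nat_lit 5) (nat_lit 6) (nat_lit 4) (nat_lit 4) (nat_lit 4) (nat_lit 317) (nat_lit 248) (nat_lit 215)) (XT.nd (nat_lit 78) (nat_lit 0) (nat_lit 0) (XT.lf (nat_lit 0) (nat_lit 1589451869) (nat_lit 76) (nat_lit 58793387674) (nat_lit 76) (nat_lit 49826152256) (nat_lit 3) (nat_lit 4) (nat_lit 4) (nat_lit 5) (nat_lit 4) (nat_lit 4) (nat_lit 318) (nat_lit 248) (nat_lit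 214)) (XT.lf (nat_lit 0) (nat_lit 10940795409) (nat_lit 76) (nat_lit 58427571698) (nat_lit 76) (nat_lit 49407993280) (nat_lit 3) (nat_lit 4) (nat_lit 4) (nat_lit 5) (nat_lit 4) (nat_lit 4) (nat_lit 319) (nat_lit 248) (nat_lit 213)))))) (XT.nd (nat_lit 390) (nat_lit 0) (nat_lit 0) (XT.nd (nat_lit 156) (nat_lit 0) (nat_lit 0) (XT.nd (nat_lit 78) (nat_lit 0) (nat_lit 0) (XT.lf (nat_lit 0) (nat_lit 20955978473) (nat_lit 76) (nat_lit 58071731050) (nat_lit 76) (nat_lit 49003686893) (nat_lit 3) (nat_lit 4) (nat_lit 4) (nat_lit 5) (nat_lit 4) (nat_lit 4) (nat_lit 320) (nat_lit 248) (nat_lit 212)) (XT.lf (nat_lit 0) (nat_lit 31694350295) (nat_lit 76) (nat_lit 57723757046) (nat_lit 76) (nat_lit 48610837203) (nat_lit 3) (nat_lit 4) (nat_lit 4) (nat_lit 5) (nat_lit 4) (nat_lit 4) (nat_lit 321) (nat_lit 248) (nat_lit 211))) (XT.nd (nat_lit 78) (nat_lit 0) (nat_lit 0) (XT.lf (nat_lit 0) (nat_lit 43219545672)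 (nat_lit 76) (nat_lit 57381587618) (nat_lit 76) (nat_lit 48227116213) (nat_lit 3) (nat_lit 4) (nat_lit 4) (nat_lit 5) (nat_lit 4) (nat_lit 4) (nat_lit 322) (nat_lit 248) (nat_lit 210)) (XT.nd (nat_lit 78) (nat_lit 0) (nat_lit 0) (XT.lf (nat_lit 0) (nat_lit 55599862056) (nat_lit 76) (nat_lit 57043195093) (nat_lit 76) (nat_lit 47850250022) (nat_lit 3) (nat_lit 4) (nat_lit 4) (nat_lit 5) (nat_lit 4) (nat_lit 4) (nat_lit 323) (nat_lit 248) (nat_lit 209)) (XT.lf (nat_lit 0) (nat_lit 68908664285) (nat_lit 76) (nat_lit 56706574185) (nat_lit 76) (nat_lit 47478005347) (nat_lit 3) (nat_lit 4) (nat_lit 4) (nat_lit 5) (nat_lit 4) (nat_lit 4) (nat_lit 324) (nat_lit 248) (nat_lit 208))))) (XT.nd (nat_lit 156) (nat_lit 0) (nat_lit 0) (XT.nd (nat_lit 78) (nat_lit 0) (nat_lit 0) (XT.lf (nat_lit 0) (nat_lit 83224819337) (nat_lit 76) (nat_lit 56369730101) (nat_lit 76) (nat_lit 47108176295) (nat_lit 3) (nat_lit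 4) (nat_lit 4) (nat_lit 5) (nat_lit 4) (nat_lit 4) (nat_lit 325) (nat_lit 248) (nat_lit 207)) (XT.lf (nat_lit 0) (nat_lit 98633163684) (nat_lit 76) (nat_lit 56030666729) (nat_lit 76) (nat_lit 46738571285) (nat_lit 3) (nat_lit 4) (nat_lit 4) (nat_lit 5) (nat_lit 4) (nat_lit 4) (nat_lit 326) (nat_lit 248) (nat_lit 206))) (XT.nd (nat_lit 78) (nat_lit 0) (nat_lit 0) (XT.lf (nat_lit 0) (nat_lit 115225006035) (nat_lit 76) (nat_lit 55687374805) (nat_lit 76) (nat_lit 46367000067) (nat_lit 3) (nat_lit 4) (nat_lit 4) (nat_lit 5) (nat_lit 4) (nat_lit 4) (nat_lit 327) (nat_lit 248) (nat_lit 205)) (XT.nd (nat_lit 78) (nat_lit 0) (nat_lit 0) (XT.lf (nat_lit 0) (nat_lit 133098668419) (nat_lit 76) (nat_lit 55337820005) (nat_lit 76) (nat_lit 45991260736) (nat_lit 3) (nat_lit 4) (nat_lit 4) (nat_lit 5) (nat_lit 4) (nat_lit 4) (nat_lit 328) (nat_lit 248) (nat_lit 204)) (XT.lf (nat_lit 0) (nat_lit 152360068833)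 (nat_lit 76) (nat_lit 54979930895) (nat_lit 76) (nat_lit 45609126689) (nat_lit 3) (nat_lit 4) (nat_lit 4) (nat_lit 5) (nat_lit 4) (nat_lit 4) (nat_lit 329) (nat_lit 248) (nat_lit 203))))))) (XT.nd (nat_lit 780) (nat_lit 0) (nat_lit 0) (XT.nd (nat_lit 390) (nat_lit 0) (nat_lit 0) (XT.nd (nat_lit 156) (nat_lit 0) (nat_lit 0) (XT.nd (nat_lit 78) (nat_lit 0) (nat_lit 0) (XT.lf (nat_lit 0) (nat_lit 173123348912) (nat_lit 76) (nat_lit 54611586649) (nat_lit 76) (nat_lit 45218333428) (nat_lit 3) (nat_lit 4) (nat_lit 4) (nat_lit 5) (nat_lit 4) (nat_lit 4) (nat_lit 330) (nat_lit 248) (nat_lit 202)) (XT.lf (nat_lit 0) (nat_lit 195511550314) (nat_lit 76) (nat_lit 54230604488) (nat_lit 76) (nat_lit 44816565141) (nat_lit 3) (nat_lit 4) (nat_lit 4) (nat_lit 5) (nat_lit 4) (nat_lit 4) (nat_lit 331) (nat_lit 248) (nat_lit 201))) (XT.nd (nat_lit 78) (nat_lit 0) (nat_lit 0) (XT.lf (nat_lit 0) (nat_lit 219657343862)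 (nat_lit 76) (nat_lit 53834726738) (nat_lit 76) (nat_lit 44401440979) (nat_lit 3) (nat_lit 4) (nat_lit 4) (nat_lit 5) (nat_lit 4) (nat_lit 4) (nat_lit 332) (nat_lit 248) (nat_lit 200)) (XT.nd (nat_lit 78) (nat_lit 0) (nat_lit 0) (XT.lf (nat_lit 0) (nat_lit 245703815740) (nat_lit 76) (nat_lit 53421607458) (nat_lit 76) (nat_lit 43970500946) (nat_lit 3) (nat_lit 4) (nat_lit 4) (nat_lit 5) (nat_lit 4) (nat_lit 4) (nat_lit 333) (nat_lit 248) (nat_lit 199)) (XT.lf (nat_lit 0) (nat_lit 273805315413) (nat_lit 76) (nat_lit 52988798534) (nat_lit 76) (nat_lit 43521191325) (nat_lit 3) (nat_lit 4) (nat_lit 4) (nat_lit 5) (nat_lit 4) (nat_lit 4) (nat_lit 334) (nat_lit 248) (nat_lit 198))))) (XT.nd (nat_lit 156) (nat_lit 0) (nat_lit 0) (XT.nd (nat_lit 78) (nat_lit 0) (nat_lit 0) (XT.lf (nat_lit 0) (nat_lit 304128370284) (nat_lit 76) (nat_lit 52533735171) (nat_lit 76) (nat_lit 43050849540) (nat_lit 3)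 (nat_lit 4) (nat_lit 4) (nat_lit 5) (nat_lit 4) (nat_lit 4) (nat_lit 335) (nat_lit 248) (nat_lit 197)) (XT.lf (nat_lit 0) (nat_lit 336852672530) (nat_lit 76) (nat_lit 52053720698) (nat_lit 76) (nat_lit 42556688380) (nat_lit 3) (nat_lit 4) (nat_lit 4) (nat_lit 5) (nat_lit 4) (nat_lit 4) (nat_lit 336) (nat_lit 248) (nat_lit 196))) (XT.nd (nat_lit 78) (nat_lit 0) (nat_lit 0) (XT.lf (nat_lit 0) (nat_lit 372172143944) (nat_lit 76) (nat_lit 51545910586) (nat_lit 76) (nat_lit 42035779482) (nat_lit 3) (nat_lit 4) (nat_lit 4) (nat_lit 5) (nat_lit 4) (nat_lit 4) (nat_lit 337) (nat_lit 248) (nat_lit 195)) (XT.nd (nat_lit 78) (nat_lit 0) (nat_lit 0) (XT.lf (nat_lit 0) (nat_lit 410296085096) (nat_lit 76) (nat_lit 51007295588) (nat_lit 76) (nat_lit 41485035980) (nat_lit 3) (nat_lit 4) (nat_lit 4) (nat_lit 5) (nat_lit 4) (nat_lit 4) (nat_lit 338) (nat_lit 248) (nat_lit 194)) (XT.lf (nat_lit 0) (nat_lit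 451450415638) (nat_lit 76) (nat_lit 50434683912) (nat_lit 76) (nat_lit 40901194207) (nat_lit 3) (nat_lit 4) (nat_lit 4) (nat_lit 5) (nat_lit 4) (nat_lit 4) (nat_lit 339) (nat_lit 248) (nat_lit 193)))))) (XT.nd (nat_lit 390) (nat_lit 0) (nat_lit 0) (XT.nd (nat_lit 156) (nat_lit 0) (nat_lit 0) (XT.nd (nat_lit 78) (nat_lit 0) (nat_lit 0) (XT.lf (nat_lit 0) (nat_lit 495879013084) (nat_lit 76) (nat_lit 49824682304) (nat_lit 76) (nat_lit 40280794361) (nat_lit 3) (nat_lit 4) (nat_lit 4) (nat_lit 5) (nat_lit 4) (nat_lit 4) (nat_lit 340) (nat_lit 248) (nat_lit 192)) (XT.lf (nat_lit 0) (nat_lit 543845158011) (nat_lit 76) (nat_lit 49173675939) (nat_lit 76) (nat_lit 39620159999) (nat_lit 3) (nat_lit 4) (nat_lit 4) (nat_lit 5) (nat_lit 4) (nat_lit 4) (nat_lit 341) (nat_lit 248) (nat_lit 191))) (XT.nd (nat_lit 78) (nat_lit 0) (nat_lit 0) (XT.lf (nat_lit 0) (nat_lit 595633094241) (nat_lit 76) (nat_lit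 48477807003) (nat_lit 76) (nat_lit 38915376249) (nat_lit 3) (nat_lit 4) (nat_lit 4) (nat_lit 5) (nat_lit 4) (nat_lit 4) (nat_lit 342) (nat_lit 248) (nat_lit 190)) (XT.nd (nat_lit 78) (nat_lit 0) (nat_lit 0) (XT.lf (nat_lit 0) (nat_lit 651549713249) (nat_lit 76) (nat_lit 47732951826) (nat_lit 76) (nat_lit 38162266616) (nat_lit 3) (nat_lit 4) (nat_lit 4) (nat_lit 5) (nat_lit 4) (nat_lit 4) (nat_lit 343) (nat_lit 248) (nat_lit 189)) (XT.lf (nat_lit 0) (nat_lit 711926372776) (nat_lit 76) (nat_lit 46934696453) (nat_lit 76) (nat_lit 37356368228) (nat_lit 3) (nat_lit 4) (nat_lit 4) (nat_lit 5) (nat_lit 4) (nat_lit 4) (nat_lit 344) (nat_lit 248) (nat_lit 188))))) (XT.nd (nat_lit 156) (nat_lit 0) (nat_lit 0) (XT.nd (nat_lit 78) (nat_lit 0) (nat_lit 0) (XT.lf (nat_lit 0) (nat_lit 777120860434) (nat_lit 76) (nat_lit 46078310482) (nat_lit 76) (nat_lit 36492905391) (nat_lit 3) (nat_lit 4) (nat_lit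 4) (nat_lit 5) (nat_lit 4) (nat_lit 4) (nat_lit 345) (nat_lit 248) (nat_lit 187)) (XT.lf (nat_lit 0) (nat_lit 847519513928) (nat_lit 76) (nat_lit 45158719032) (nat_lit 76) (nat_lit 35566761287) (nat_lit 3) (nat_lit 4) (nat_lit 4) (nat_lit 5) (nat_lit 4) (nat_lit 4) (nat_lit 346) (nat_lit 248) (nat_lit 186))) (XT.nd (nat_lit 35568) (nat_lit 0) (nat_lit 2052) (XT.lf (nat_lit 0) (nat_lit 923539510465) (nat_lit 76) (nat_lit 44170472672) (nat_lit 76) (nat_lit 34572447656) (nat_lit 3) (nat_lit 4) (nat_lit 4) (nat_lit 5) (nat_lit 4) (nat_lit 4) (nat_lit 347) (nat_lit 248) (nat_lit 185)) (XT.nd (nat_lit 78) (nat_lit 228) (nat_lit 0) (XT.lf (nat_lit 0) (nat_lit 4390246686) (nat_lit 228) (nat_lit 507946379) (nat_lit 228) (nat_lit 507946379) (nat_lit 33) (nat_lit 4) (nat_lit 36) (nat_lit 5) (nat_lit 36) (nat_lit 4) (nat_lit 282) (nat_lit 249) (nat_lit 249)) (XT.lf (nat_lit 0) (nat_lit 5076741243)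 (nat_lit 228) (nat_lit 2236515114) (nat_lit 0) (nat_lit 3987773178) (nat_lit 30) (nat_lit 5) (nat_lit 33) (nat_lit 4) (nat_lit 30) (nat_lit 4) (nat_lit 283) (nat_lit 249) (nat_lit 248))))))))
noncomputable def xc27 : XT := (XT.nd (nat_lit 1560) (nat_lit 304) (nat_lit 0) (XT.nd (nat_lit 780) (nat_lit 456) (nat_lit 0) (XT.nd (nat_lit 390) (nat_lit 456) (nat_lit 0) (XT.nd (nat_lit 156) (nat_lit 456) (nat_lit 0) (XT.nd (nat_lit 78) (nat_lit 228) (nat_lit 0) (XT.lf (nat_lit 0) (nat_lit 8977225948) (nat_lit 152) (nat_lit 2478460949) (nat_lit 152) (nat_lit 381189119) (nat_lit 28) (nat_lit 4) (nat_lit 30) (nat_lit 5) (nat_lit 30) (nat_lit 4) (nat_lit 284) (nat_lit 249) (nat_lit 247)) (XT.lf (nat_lit 0) (nat_lit 5606545922) (nat_lit 228) (nat_lit 4091567723) (nat_lit 0) (nat_lit 2719987421) (nat_lit 25) (nat_lit 5) (nat_lit 28) (nat_lit 4) (nat_lit 25) (nat_lit 4) (nat_lit 285) (nat_lit 249) (nat_lit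 246))) (XT.nd (nat_lit 78) (nat_lit 304) (nat_lit 0) (XT.lf (nat_lit 0) (nat_lit 7098503069) (nat_lit 152) (nat_lit 4831894692) (nat_lit 152) (nat_lit 1122042896) (nat_lit 23) (nat_lit 4) (nat_lit 25) (nat_lit 5) (nat_lit 25) (nat_lit 4) (nat_lit 286) (nat_lit 249) (nat_lit 245)) (XT.nd (nat_lit 78) (nat_lit 152) (nat_lit 0) (XT.lf (nat_lit 0) (nat_lit 4699734324) (nat_lit 152) (nat_lit 8601843572) (nat_lit 0) (nat_lit 440533941) (nat_lit 21) (nat_lit 5) (nat_lit 23) (nat_lit 4) (nat_lit 21) (nat_lit 4) (nat_lit 287) (nat_lit 249) (nat_lit 244)) (XT.lf (nat_lit 0) (nat_lit 2301747283) (nat_lit 152) (nat_lit 8560194370) (nat_lit 152) (nat_lit 3628764175) (nat_lit 19) (nat_lit 4) (nat_lit 21) (nat_lit 5) (nat_lit 21) (nat_lit 4) (nat_lit 288) (nat_lit 249) (nat_lit 243))))) (XT.nd (nat_lit 156) (nat_lit 304) (nat_lit 0) (XT.nd (nat_lit 78) (nat_lit 76) (nat_lit 0) (XT.lf (nat_lit 0) (nat_lit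 1999848229) (nat_lit 228) (nat_lit 1454176334) (nat_lit 76) (nat_lit 11851111662) (nat_lit 18) (nat_lit 5) (nat_lit 21) (nat_lit 5) (nat_lit 19) (nat_lit 4) (nat_lit 289) (nat_lit 249) (nat_lit 242)) (XT.lf (nat_lit 0) (nat_lit 7863695852) (nat_lit 152) (nat_lit 6297331956) (nat_lit 0) (nat_lit 2025415928) (nat_lit 17) (nat_lit 5) (nat_lit 19) (nat_lit 4) (nat_lit 17) (nat_lit 4) (nat_lit 290) (nat_lit 249) (nat_lit 241))) (XT.nd (nat_lit 78) (nat_lit 152) (nat_lit 0) (XT.lf (nat_lit 0) (nat_lit 4683654006) (nat_lit 152) (nat_lit 9403432588) (nat_lit 152) (nat_lit 3056926286) (nat_lit 15) (nat_lit 4) (nat_lit 17) (nat_lit 5) (nat_lit 17) (nat_lit 4) (nat_lit 291) (nat_lit 249) (nat_lit 240)) (XT.nd (nat_lit 78) (nat_lit 76) (nat_lit 0) (XT.lf (nat_lit 0) (nat_lit 2399233572) (nat_lit 228) (nat_lit 1898657458) (nat_lit 76) (nat_lit 13885826466) (nat_lit 14) (nat_lit 5) (nat_lit 17) (nat_lit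 5) (nat_lit 15) (nat_lit 4) (nat_lit 292) (nat_lit 249) (nat_lit 239)) (XT.lf (nat_lit 0) (nat_lit 8112327664) (nat_lit 152) (nat_lit 9990724710) (nat_lit 0) (nat_lit 1204891010) (nat_lit 13) (nat_lit 5) (nat_lit 15) (nat_lit 4) (nat_lit 13) (nat_lit 4) (nat_lit 293) (nat_lit 249) (nat_lit 238)))))) (XT.nd (nat_lit 390) (nat_lit 228) (nat_lit 0) (XT.nd (nat_lit 156) (nat_lit 152) (nat_lit 0) (XT.nd (nat_lit 78) (nat_lit 0) (nat_lit 0) (XT.lf (nat_lit 0) (nat_lit 512677723) (nat_lit 76) (nat_lit 13653561649) (nat_lit 76) (nat_lit 6361890247) (nat_lit 12) (nat_lit 4) (nat_lit 13) (nat_lit 5) (nat_lit 13) (nat_lit 4) (nat_lit 294) (nat_lit 249) (nat_lit 237)) (XT.lf (nat_lit 0) (nat_lit 11822437438) (nat_lit 76) (nat_lit 8836699574) (nat_lit 76) (nat_lit 1189255257) (nat_lit 12) (nat_lit 4) (nat_lit 13) (nat_lit 5) (nat_lit 13) (nat_lit 4) (nat_lit 295) (nat_lit 249) (nat_lit 236))) (XT.nd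 (nat_lit 78) (nat_lit 0) (nat_lit 0) (XT.lf (nat_lit 0) (nat_lit 336060674) (nat_lit 76) (nat_lit 3719024377) (nat_lit 152) (nat_lit 19225998757) (nat_lit 10) (nat_lit 5) (nat_lit 11) (nat_lit 5) (nat_lit 12) (nat_lit 4) (nat_lit 296) (nat_lit 249) (nat_lit 235)) (XT.nd (nat_lit 78) (nat_lit 0) (nat_lit 0) (XT.lf (nat_lit 0) (nat_lit 9684350575) (nat_lit 152) (nat_lit 13346028192) (nat_lit 0) (nat_lit 1796844276) (nat_lit 10) (nat_lit 5) (nat_lit 12) (nat_lit 4) (nat_lit 10) (nat_lit 4) (nat_lit 297) (nat_lit 249) (nat_lit 234)) (XT.lf (nat_lit 0) (nat_lit 15642175223) (nat_lit 152) (nat_lit 3375421175) (nat_lit 0) (nat_lit 7485693676) (nat_lit 10) (nat_lit 5) (nat_lit 12) (nat_lit 4) (nat_lit 10) (nat_lit 4) (nat_lit 298) (nat_lit 249) (nat_lit 233))))) (XT.nd (nat_lit 156) (nat_lit 152) (nat_lit 0) (XT.nd (nat_lit 78) (nat_lit 0) (nat_lit 0) (XT.lf (nat_lit 0) (nat_lit 7318174677) (nat_lit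 76) (nat_lit 14701882768) (nat_lit 76) (nat_lit 6296350066) (nat_lit 9) (nat_lit 4) (nat_lit 10) (nat_lit 5) (nat_lit 10) (nat_lit 4) (nat_lit 299) (nat_lit 249) (nat_lit 232)) (XT.lf (nat_lit 0) (nat_lit 18692330236) (nat_lit 76) (nat_lit 10111852797) (nat_lit 76) (nat_lit 1475717173) (nat_lit 9) (nat_lit 4) (nat_lit 10) (nat_lit 5) (nat_lit 10) (nat_lit 4) (nat_lit 300) (nat_lit 249) (nat_lit 231))) (XT.nd (nat_lit 78) (nat_lit 76) (nat_lit 0) (XT.lf (nat_lit 0) (nat_lit 3457853884) (nat_lit 152) (nat_lit 1761056384) (nat_lit 76) (nat_lit 27186426923) (nat_lit 8) (nat_lit 5) (nat_lit 10) (nat_lit 5) (nat_lit 9) (nat_lit 4) (nat_lit 301) (nat_lit 249) (nat_lit 230)) (XT.nd (nat_lit 78) (nat_lit 0) (nat_lit 0) (XT.lf (nat_lit 0) (nat_lit 8733230400) (nat_lit 152) (nat_lit 25849835875) (nat_lit 0) (nat_lit 116695462) (nat_lit 7) (nat_lit 5) (nat_lit 9) (nat_lit 4) (nat_lit 7) (nat_lit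 4) (nat_lit 302) (nat_lit 249) (nat_lit 229)) (XT.lf (nat_lit 0) (nat_lit 14412780218) (nat_lit 152) (nat_lit 17144046118) (nat_lit 0) (nat_lit 5621902391) (nat_lit 7) (nat_lit 5) (nat_lit 9) (nat_lit 4) (nat_lit 7) (nat_lit 4) (nat_lit 303) (nat_lit 249) (nat_lit 228))))))) (XT.nd (nat_lit 780) (nat_lit 76) (nat_lit 0) (XT.nd (nat_lit 390) (nat_lit 152) (nat_lit 0) (XT.nd (nat_lit 156) (nat_lit 0) (nat_lit 0) (XT.nd (nat_lit 78) (nat_lit 76) (nat_lit 0) (XT.lf (nat_lit 0) (nat_lit 20419808337) (nat_lit 152) (nat_lit 7975135669) (nat_lit 0) (nat_lit 11467501909) (nat_lit 7) (nat_lit 5) (nat_lit 9) (nat_lit 4) (nat_lit 7) (nat_lit 4) (nat_lit 304) (nat_lit 249) (nat_lit 227)) (XT.lf (nat_lit 0) (nat_lit 1767810740) (nat_lit 76) (nat_lit 25049701702) (nat_lit 76) (nat_lit 15947924346) (nat_lit 6) (nat_lit 4) (nat_lit 7) (nat_lit 5) (nat_lit 7) (nat_lit 4) (nat_lit 305) (nat_lit 249) (nat_lit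 226))) (XT.nd (nat_lit 78) (nat_lit 0) (nat_lit 0) (XT.lf (nat_lit 0) (nat_lit 12368314136) (nat_lit 76) (nat_lit 21385629763) (nat_lit 76) (nat_lit 12145453400) (nat_lit 6) (nat_lit 4) (nat_lit 7) (nat_lit 5) (nat_lit 7) (nat_lit 4) (nat_lit 306) (nat_lit 249) (nat_lit 225)) (XT.nd (nat_lit 78) (nat_lit 0) (nat_lit 0) (XT.lf (nat_lit 0) (nat_lit 23625498316) (nat_lit 76) (nat_lit 17516077953) (nat_lit 76) (nat_lit 8147754362) (nat_lit 6) (nat_lit 4) (nat_lit 7) (nat_lit 5) (nat_lit 7) (nat_lit 4) (nat_lit 307) (nat_lit 249) (nat_lit 224)) (XT.lf (nat_lit 0) (nat_lit 35606072518) (nat_lit 76) (nat_lit 13418115595) (nat_lit 76) (nat_lit 3931137163) (nat_lit 6) (nat_lit 4) (nat_lit 7) (nat_lit 5) (nat_lit 7) (nat_lit 4) (nat_lit 308) (nat_lit 249) (nat_lit 223))))) (XT.nd (nat_lit 156) (nat_lit 0) (nat_lit 0) (XT.nd (nat_lit 78) (nat_lit 76) (nat_lit 0) (XT.lf (nat_lit 0) (nat_lit 512441914)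 (nat_lit 152) (nat_lit 8546338100) (nat_lit 76) (nat_lit 47859912372) (nat_lit 5) (nat_lit 5) (nat_lit 7) (nat_lit 5) (nat_lit 6) (nat_lit 4) (nat_lit 309) (nat_lit 249) (nat_lit 222)) (XT.lf (nat_lit 0) (nat_lit 764255387) (nat_lit 76) (nat_lit 4339562570) (nat_lit 152) (nat_lit 56095639885) (nat_lit 4) (nat_lit 5) (nat_lit 5) (nat_lit 5) (nat_lit 6) (nat_lit 4) (nat_lit 310) (nat_lit 249) (nat_lit 221))) (XT.nd (nat_lit 78) (nat_lit 0) (nat_lit 0) (XT.lf (nat_lit 0) (nat_lit 10144730902) (nat_lit 152) (nat_lit 54855601997) (nat_lit 0) (nat_lit 818289506) (nat_lit 4) (nat_lit 5) (nat_lit 6) (nat_lit 4) (nat_lit 4) (nat_lit 4) (nat_lit 311) (nat_lit 249) (nat_lit 220)) (XT.nd (nat_lit 78) (nat_lit 0) (nat_lit 0) (XT.lf (nat_lit 0) (nat_lit 15587175674) (nat_lit 152) (nat_lit 49042604569) (nat_lit 0) (nat_lit 6177672515) (nat_lit 4) (nat_lit 5) (nat_lit 6) (nat_lit 4) (nat_lit 4) (nat_lit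 4) (nat_lit 312) (nat_lit 249) (nat_lit 219)) (XT.lf (nat_lit 0) (nat_lit 21395651065) (nat_lit 152) (nat_lit 42894010046) (nat_lit 0) (nat_lit 11909238867) (nat_lit 4) (nat_lit 5) (nat_lit 6) (nat_lit 4) (nat_lit 4) (nat_lit 4) (nat_lit 313) (nat_lit 249) (nat_lit 218)))))) (XT.nd (nat_lit 390) (nat_lit 76) (nat_lit 0) (XT.nd (nat_lit 156) (nat_lit 0) (nat_lit 0) (XT.nd (nat_lit 78) (nat_lit 0) (nat_lit 0) (XT.lf (nat_lit 0) (nat_lit 27604577670) (nat_lit 152) (nat_lit 36373382312) (nat_lit 0) (nat_lit 18046953399) (nat_lit 4) (nat_lit 5) (nat_lit 6) (nat_lit 4) (nat_lit 4) (nat_lit 4) (nat_lit 314) (nat_lit 249) (nat_lit 217)) (XT.lf (nat_lit 0) (nat_lit 34250749129) (nat_lit 152) (nat_lit 29442080610) (nat_lit 0) (nat_lit 24627187753) (nat_lit 4) (nat_lit 5) (nat_lit 6) (nat_lit 4) (nat_lit 4) (nat_lit 4) (nat_lit 315) (nat_lit 249) (nat_lit 216))) (XT.nd (nat_lit 78) (nat_lit 0) (nat_lit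 0) (XT.lf (nat_lit 0) (nat_lit 41373550160) (nat_lit 152) (nat_lit 22059030560) (nat_lit 0) (nat_lit 31688935909) (nat_lit 4) (nat_lit 5) (nat_lit 6) (nat_lit 4) (nat_lit 4) (nat_lit 4) (nat_lit 316) (nat_lit 249) (nat_lit 215)) (XT.nd (nat_lit 78) (nat_lit 0) (nat_lit 0) (XT.lf (nat_lit 0) (nat_lit 49015189956) (nat_lit 152) (nat_lit 14180480754) (nat_lit 0) (nat_lit 39274045265) (nat_lit 4) (nat_lit 5) (nat_lit 6) (nat_lit 4) (nat_lit 4) (nat_lit 4) (nat_lit 317) (nat_lit 249) (nat_lit 214)) (XT.lf (nat_lit 0) (nat_lit 57220952307) (nat_lit 152) (nat_lit 5759743490) (nat_lit 0) (nat_lit 47427464617) (nat_lit 4) (nat_lit 5) (nat_lit 6) (nat_lit 4) (nat_lit 4) (nat_lit 4) (nat_lit 318) (nat_lit 249) (nat_lit 213))))) (XT.nd (nat_lit 234) (nat_lit 0) (nat_lit 0) (XT.nd (nat_lit 78) (nat_lit 0) (nat_lit 0) (XT.lf (nat_lit 0) (nat_lit 3360643476) (nat_lit 76) (nat_lit 62731289541) (nat_lit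 76) (nat_lit 52889336110) (nat_lit 3) (nat_lit 4) (nat_lit 4) (nat_lit 5) (nat_lit 4) (nat_lit 4) (nat_lit 319) (nat_lit 249) (nat_lit 212)) (XT.nd (nat_lit 78) (nat_lit 0) (nat_lit 0) (XT.lf (nat_lit 0) (nat_lit 13338314094) (nat_lit 76) (nat_lit 62392917113) (nat_lit 76) (nat_lit 52506087996) (nat_lit 3) (nat_lit 4) (nat_lit 4) (nat_lit 5) (nat_lit 4) (nat_lit 4) (nat_lit 320) (nat_lit 249) (nat_lit 211)) (XT.lf (nat_lit 0) (nat_lit 24041952171) (nat_lit 76) (nat_lit 62061117385) (nat_lit 76) (nat_lit 52132736708) (nat_lit 3) (nat_lit 4) (nat_lit 4) (nat_lit 5) (nat_lit 4) (nat_lit 4) (nat_lit 321) (nat_lit 249) (nat_lit 210)))) (XT.nd (nat_lit 78) (nat_lit 0) (nat_lit 0) (XT.lf (nat_lit 0) (nat_lit 35534986671) (nat_lit 76) (nat_lit 61733924139) (nat_lit 76) (nat_lit 51767069794) (nat_lit 3) (nat_lit 4) (nat_lit 4) (nat_lit 5) (nat_lit 4) (nat_lit 4) (nat_lit 322) (nat_lit 249) (nat_lit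 209)) (XT.nd (nat_lit 78) (nat_lit 0) (nat_lit 0) (XT.lf (nat_lit 0) (nat_lit 47885524466) (nat_lit 76) (nat_lit 61409398450) (nat_lit 76) (nat_lit 51406920339) (nat_lit 3) (nat_lit 4) (nat_lit 4) (nat_lit 5) (nat_lit 4) (nat_lit 4) (nat_lit 323) (nat_lit 249) (nat_lit 208)) (XT.lf (nat_lit 0) (nat_lit 61166753928) (nat_lit 76) (nat_lit 61085617203) (nat_lit 76) (nat_lit 51050154124) (nat_lit 3) (nat_lit 4) (nat_lit 4) (nat_lit 5) (nat_lit 4) (nat_lit 4) (nat_lit 324) (nat_lit 249) (nat_lit 207))))))))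
noncomputable def xc28 : XT := (XT.nd (nat_lit 1560) (nat_lit 0) (nat_lit 0) (XT.nd (nat_lit 780) (nat_lit 0) (nat_lit 0) (XT.nd (nat_lit 390) (nat_lit 0) (nat_lit 0) (XT.nd (nat_lit 156) (nat_lit 0) (nat_lit 0) (XT.nd (nat_lit 78) (nat_lit 0) (nat_lit 0) (XT.lf (nat_lit 0) (nat_lit 75457378639) (nat_lit 76) (nat_lit 60760661696) (nat_lit 76) (nat_lit 50694656979) (nat_lit 3) (nat_lit 4) (nat_lit 4) (nat_lit 5) (nat_lit 4) (nat_lit 4) (nat_lit 325) (nat_lit 249) (nat_lit 206)) (XT.lf (nat_lit 0) (nat_lit 90842083782) (nat_lit 76) (nat_lit 60432606265) (nat_lit 76) (nat_lit 50338322254) (nat_lit 3) (nat_lit 4) (nat_lit 4) (nat_lit 5) (nat_lit 4) (nat_lit 4) (nat_lit 326) (nat_lit 249) (nat_lit 205))) (XT.nd (nat_lit 78) (nat_lit 0) (nat_lit 0) (XT.lf (nat_lit 0) (nat_lit 107412037982) (nat_lit 76) (nat_lit 60099506879) (nat_lit 76) (nat_lit 49979038336) (nat_lit 3) (nat_lit 4) (nat_lit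 4) (nat_lit 5) (nat_lit 4) (nat_lit 4) (nat_lit 327) (nat_lit 249) (nat_lit 204)) (XT.nd (nat_lit 78) (nat_lit 0) (nat_lit 0) (XT.lf (nat_lit 0) (nat_lit 125265433558) (nat_lit 76) (nat_lit 59759389614) (nat_lit 76) (nat_lit 49614676135) (nat_lit 3) (nat_lit 4) (nat_lit 4) (nat_lit 5) (nat_lit 4) (nat_lit 4) (nat_lit 328) (nat_lit 249) (nat_lit 203)) (XT.lf (nat_lit 0) (nat_lit 144508068410) (nat_lit 76) (nat_lit 59410238962) (nat_lit 76) (nat_lit 49243076467) (nat_lit 3) (nat_lit 4) (nat_lit 4) (nat_lit 5) (nat_lit 4) (nat_lit 4) (nat_lit 329) (nat_lit 249) (nat_lit 202))))) (XT.nd (nat_lit 156) (nat_lit 0) (nat_lit 0) (XT.nd (nat_lit 78) (nat_lit 0) (nat_lit 0) (XT.lf (nat_lit 0) (nat_lit 165253972968) (nat_lit 76) (nat_lit 59049985882) (nat_lit 76) (nat_lit 48862037262) (nat_lit 3) (nat_lit 4) (nat_lit 4) (nat_lit 5) (nat_lit 4) (nat_lit 4) (nat_lit 330) (nat_lit 249) (nat_lit 201))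 (XT.lf (nat_lit 0) (nat_lit 187626085925) (nat_lit 76) (nat_lit 58676495540) (nat_lit 76) (nat_lit 48469300507) (nat_lit 3) (nat_lit 4) (nat_lit 4) (nat_lit 5) (nat_lit 4) (nat_lit 4) (nat_lit 331) (nat_lit 249) (nat_lit 200))) (XT.nd (nat_lit 78) (nat_lit 0) (nat_lit 0) (XT.lf (nat_lit 0) (nat_lit 211756982765) (nat_lit 76) (nat_lit 58287554660) (nat_lit 76) (nat_lit 48062538875) (nat_lit 3) (nat_lit 4) (nat_lit 4) (nat_lit 5) (nat_lit 4) (nat_lit 4) (nat_lit 332) (nat_lit 249) (nat_lit 199)) (XT.nd (nat_lit 78) (nat_lit 0) (nat_lit 0) (XT.lf (nat_lit 0) (nat_lit 237789661395) (nat_lit 76) (nat_lit 57880858408) (nat_lit 76) (nat_lit 47639341927) (nat_lit 3) (nat_lit 4) (nat_lit 4) (nat_lit 5) (nat_lit 4) (nat_lit 4) (nat_lit 333) (nat_lit 249) (nat_lit 198)) (XT.lf (nat_lit 0) (nat_lit 265878389540) (nat_lit 76) (nat_lit 57453996732) (nat_lit 76) (nat_lit 47197201828) (nat_lit 3) (nat_lit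 4) (nat_lit 4) (nat_lit 5) (nat_lit 4) (nat_lit 4) (nat_lit 334) (nat_lit 249) (nat_lit 197)))))) (XT.nd (nat_lit 390) (nat_lit 0) (nat_lit 0) (XT.nd (nat_lit 156) (nat_lit 0) (nat_lit 0) (XT.nd (nat_lit 78) (nat_lit 0) (nat_lit 0) (XT.lf (nat_lit 0) (nat_lit 296189618924) (nat_lit 76) (nat_lit 57004440080) (nat_lit 76) (nat_lit 46733498488) (nat_lit 3) (nat_lit 4) (nat_lit 4) (nat_lit 5) (nat_lit 4) (nat_lit 4) (nat_lit 335) (nat_lit 249) (nat_lit 196)) (XT.lf (nat_lit 0) (nat_lit 328902971645) (nat_lit 76) (nat_lit 56529524414) (nat_lit 76) (nat_lit 46245484037) (nat_lit 3) (nat_lit 4) (nat_lit 4) (nat_lit 5) (nat_lit 4) (nat_lit 4) (nat_lit 336) (nat_lit 249) (nat_lit 195))) (XT.nd (nat_lit 78) (nat_lit 0) (nat_lit 0) (XT.lf (nat_lit 0) (nat_lit 364212304610) (nat_lit 76) (nat_lit 56026435419) (nat_lit 76) (nat_lit 45730266537) (nat_lit 3) (nat_lit 4) (nat_lit 4) (nat_lit 5) (nat_lit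 4) (nat_lit 4) (nat_lit 337) (nat_lit 249) (nat_lit 194)) (XT.nd (nat_lit 78) (nat_lit 0) (nat_lit 0) (XT.lf (nat_lit 0) (nat_lit 402326858309) (nat_lit 76) (nat_lit 55492191825) (nat_lit 76) (nat_lit 45184792847) (nat_lit 3) (nat_lit 4) (nat_lit 4) (nat_lit 5) (nat_lit 4) (nat_lit 4) (nat_lit 338) (nat_lit 249) (nat_lit 193)) (XT.lf (nat_lit 0) (nat_lit 443472496765) (nat_lit 76) (nat_lit 54923627747) (nat_lit 76) (nat_lit 44605830531) (nat_lit 3) (nat_lit 4) (nat_lit 4) (nat_lit 5) (nat_lit 4) (nat_lit 4) (nat_lit 339) (nat_lit 249) (nat_lit 192))))) (XT.nd (nat_lit 156) (nat_lit 0) (nat_lit 0) (XT.nd (nat_lit 78) (nat_lit 0) (nat_lit 0) (XT.lf (nat_lit 0) (nat_lit 487893045982) (nat_lit 76) (nat_lit 54317373914) (nat_lit 76) (nat_lit 43989948700) (nat_lit 3) (nat_lit 4) (nat_lit 4) (nat_lit 5) (nat_lit 4) (nat_lit 4) (nat_lit 340) (nat_lit 249) (nat_lit 191)) (XT.lf (nat_lit 0) (nat_lit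 535851738846) (nat_lit 76) (nat_lit 53669837711) (nat_lit 76) (nat_lit 43333497685) (nat_lit 3) (nat_lit 4) (nat_lit 4) (nat_lit 5) (nat_lit 4) (nat_lit 4) (nat_lit 341) (nat_lit 249) (nat_lit 190))) (XT.nd (nat_lit 78) (nat_lit 0) (nat_lit 0) (XT.lf (nat_lit 0) (nat_lit 587632775018) (nat_lit 76) (nat_lit 52977181888) (nat_lit 76) (nat_lit 42632587405) (nat_lit 3) (nat_lit 4) (nat_lit 4) (nat_lit 5) (nat_lit 4) (nat_lit 4) (nat_lit 342) (nat_lit 249) (nat_lit 189)) (XT.nd (nat_lit 78) (nat_lit 0) (nat_lit 0) (XT.lf (nat_lit 0) (nat_lit 643543005083) (nat_lit 76) (nat_lit 52235301816) (nat_lit 76) (nat_lit 41883064318) (nat_lit 3) (nat_lit 4) (nat_lit 4) (nat_lit 5) (nat_lit 4) (nat_lit 4) (nat_lit 343) (nat_lit 249) (nat_lit 188)) (XT.lf (nat_lit 0) (nat_lit 703913748922) (nat_lit 76) (nat_lit 51439801169) (nat_lit 76) (nat_lit 41080486805) (nat_lit 3) (nat_lit 4) (nat_lit 4) (nat_lit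 5) (nat_lit 4) (nat_lit 4) (nat_lit 344) (nat_lit 249) (nat_lit 187))))))) (XT.nd (nat_lit 36114) (nat_lit 0) (nat_lit 608) (XT.nd (nat_lit 35724) (nat_lit 0) (nat_lit 1520) (XT.nd (nat_lit 156) (nat_lit 0) (nat_lit 0) (XT.nd (nat_lit 78) (nat_lit 0) (nat_lit 0) (XT.lf (nat_lit 0) (nat_lit 769102759091) (nat_lit 76) (nat_lit 50585965871) (nat_lit 76) (nat_lit 40220098853) (nat_lit 3) (nat_lit 4) (nat_lit 4) (nat_lit 5) (nat_lit 4) (nat_lit 4) (nat_lit 345) (nat_lit 249) (nat_lit 186)) (XT.lf (nat_lit 0) (nat_lit 839496340837) (nat_lit 76) (nat_lit 49668736155) (nat_lit 76) (nat_lit 39296801865) (nat_lit 3) (nat_lit 4) (nat_lit 4) (nat_lit 5) (nat_lit 4) (nat_lit 4) (nat_lit 346) (nat_lit 249) (nat_lit 185))) (XT.nd (nat_lit 35412) (nat_lit 0) (nat_lit 2508) (XT.lf (nat_lit 0) (nat_lit 915511641309) (nat_lit 76) (nat_lit 48682676586) (nat_lit 76) (nat_lit 38305124452) (nat_lit 3) (nat_lit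 4) (nat_lit 4) (nat_lit 5) (nat_lit 4) (nat_lit 4) (nat_lit 347) (nat_lit 249) (nat_lit 184)) (XT.nd (nat_lit 78) (nat_lit 228) (nat_lit 0) (XT.lf (nat_lit 0) (nat_lit 3711239746) (nat_lit 228) (nat_lit 630450989) (nat_lit 228) (nat_lit 630450989) (nat_lit 39) (nat_lit 4) (nat_lit 42) (nat_lit 5) (nat_lit 42) (nat_lit 4) (nat_lit 280) (nat_lit 250) (nat_lit 250)) (XT.lf (nat_lit 0) (nat_lit 4661980220) (nat_lit 228) (nat_lit 2273261459) (nat_lit 0) (nat_lit 3427090434) (nat_lit 36) (nat_lit 5) (nat_lit 39) (nat_lit 4) (nat_lit 36) (nat_lit 4) (nat_lit 281) (nat_lit 250) (nat_lit 249))))) (XT.nd (nat_lit 156) (nat_lit 532) (nat_lit 0) (XT.nd (nat_lit 78) (nat_lit 152) (nat_lit 0) (XT.lf (nat_lit 0) (nat_lit 31550815) (nat_lit 304) (nat_lit 2313627083) (nat_lit 76) (nat_lit 8476239081) (nat_lit 32) (nat_lit 5) (nat_lit 36) (nat_lit 5) (nat_lit 33) (nat_lit 4) (nat_lit 282) (nat_lit 250)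 (nat_lit 248)) (XT.lf (nat_lit 0) (nat_lit 5893581732) (nat_lit 228) (nat_lit 2805738789) (nat_lit 0) (nat_lit 2620224392) (nat_lit 30) (nat_lit 5) (nat_lit 33) (nat_lit 4) (nat_lit 30) (nat_lit 4) (nat_lit 283) (nat_lit 250) (nat_lit 247))) (XT.nd (nat_lit 78) (nat_lit 304) (nat_lit 0) (XT.lf (nat_lit 0) (nat_lit 227519184) (nat_lit 228) (nat_lit 3740557609) (nat_lit 76) (nat_lit 7896036765) (nat_lit 27) (nat_lit 5) (nat_lit 30) (nat_lit 5) (nat_lit 28) (nat_lit 4) (nat_lit 284) (nat_lit 250) (nat_lit 246)) (XT.nd (nat_lit 78) (nat_lit 152) (nat_lit 0) (XT.lf (nat_lit 0) (nat_lit 6005271803) (nat_lit 228) (nat_lit 5274536896) (nat_lit 0) (nat_lit 1175338569) (nat_lit 25) (nat_lit 5) (nat_lit 28) (nat_lit 4) (nat_lit 25) (nat_lit 4) (nat_lit 285) (nat_lit 250) (nat_lit 245)) (XT.lf (nat_lit 0) (nat_lit 5625303160) (nat_lit 152) (nat_lit 6532593956) (nat_lit 152) (nat_lit 940352115) (nat_lit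 23) (nat_lit 4) (nat_lit 25) (nat_lit 5) (nat_lit 25) (nat_lit 4) (nat_lit 286) (nat_lit 250) (nat_lit 244)))))) (XT.nd (nat_lit 390) (nat_lit 304) (nat_lit 0) (XT.nd (nat_lit 156) (nat_lit 304) (nat_lit 0) (XT.nd (nat_lit 78) (nat_lit 152) (nat_lit 0) (XT.lf (nat_lit 0) (nat_lit 3330281226) (nat_lit 76) (nat_lit 1366481880) (nat_lit 152) (nat_lit 9100135100) (nat_lit 21) (nat_lit 5) (nat_lit 22) (nat_lit 5) (nat_lit 23) (nat_lit 4) (nat_lit 287) (nat_lit 250) (nat_lit 243)) (XT.lf (nat_lit 0) (nat_lit 156987719) (nat_lit 152) (nat_lit 10509452296) (nat_lit 152) (nat_lit 3888842863) (nat_lit 19) (nat_lit 4) (nat_lit 21) (nat_lit 5) (nat_lit 21) (nat_lit 4) (nat_lit 288) (nat_lit 250) (nat_lit 242))) (XT.nd (nat_lit 78) (nat_lit 228) (nat_lit 0) (XT.lf (nat_lit 0) (nat_lit 1614815079) (nat_lit 228) (nat_lit 3886567234) (nat_lit 76) (nat_lit 9875342680) (nat_lit 18) (nat_lit 5) (nat_lit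 21) (nat_lit 5) (nat_lit 19) (nat_lit 4) (nat_lit 289) (nat_lit 250) (nat_lit 241)) (XT.nd (nat_lit 78) (nat_lit 152) (nat_lit 0) (XT.lf (nat_lit 0) (nat_lit 7193351740) (nat_lit 76) (nat_lit 86612935) (nat_lit 152) (nat_lit 8988136768) (nat_lit 17) (nat_lit 5) (nat_lit 18) (nat_lit 5) (nat_lit 19) (nat_lit 4) (nat_lit 290) (nat_lit 250) (nat_lit 240)) (XT.lf (nat_lit 0) (nat_lit 1603153923) (nat_lit 152) (nat_lit 11732040983) (nat_lit 152) (nat_lit 3899007817) (nat_lit 15) (nat_lit 4) (nat_lit 17) (nat_lit 5) (nat_lit 17) (nat_lit 4) (nat_lit 291) (nat_lit 250) (nat_lit 239))))) (XT.nd (nat_lit 156) (nat_lit 152) (nat_lit 0) (XT.nd (nat_lit 78) (nat_lit 76) (nat_lit 0) (XT.lf (nat_lit 0) (nat_lit 1469146807) (nat_lit 228) (nat_lit 5257004414) (nat_lit 76) (nat_lit 11554270778) (nat_lit 14) (nat_lit 5) (nat_lit 17) (nat_lit 5) (nat_lit 15) (nat_lit 4) (nat_lit 292) (nat_lit 250) (nat_lit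 238)) (XT.lf (nat_lit 0) (nat_lit 5676157440) (nat_lit 76) (nat_lit 1323042216) (nat_lit 152) (nat_lit 12414701630) (nat_lit 13) (nat_lit 5) (nat_lit 14) (nat_lit 5) (nat_lit 15) (nat_lit 4) (nat_lit 293) (nat_lit 250) (nat_lit 237))) (XT.nd (nat_lit 78) (nat_lit 152) (nat_lit 0) (XT.lf (nat_lit 0) (nat_lit 12921922090) (nat_lit 152) (nat_lit 3411909411) (nat_lit 0) (nat_lit 4306909313) (nat_lit 13) (nat_lit 5) (nat_lit 15) (nat_lit 4) (nat_lit 13) (nat_lit 4) (nat_lit 294) (nat_lit 250) (nat_lit 236)) (XT.nd (nat_lit 78) (nat_lit 76) (nat_lit 0) (XT.lf (nat_lit 0) (nat_lit 7611123143) (nat_lit 76) (nat_lit 11651016670) (nat_lit 76) (nat_lit 2706584527) (nat_lit 12) (nat_lit 4) (nat_lit 13) (nat_lit 5) (nat_lit 13) (nat_lit 4) (nat_lit 295) (nat_lit 250) (nat_lit 235)) (XT.lf (nat_lit 0) (nat_lit 2489096996) (nat_lit 152) (nat_lit 4146801230) (nat_lit 76) (nat_lit 16771639895) (nat_lit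 11) (nat_lit 5) (nat_lit 13) (nat_lit 5) (nat_lit 12) (nat_lit 4) (nat_lit 296) (nat_lit 250) (nat_lit 234))))))))
noncomputable def xc29 : XT := (XT.nd (nat_lit 1560) (nat_lit 76) (nat_lit 0) (XT.nd (nat_lit 780) (nat_lit 152) (nat_lit 0) (XT.nd (nat_lit 390) (nat_lit 152) (nat_lit 0) (XT.nd (nat_lit 156) (nat_lit 152) (nat_lit 0) (XT.nd (nat_lit 78) (nat_lit 0) (nat_lit 0) (XT.lf (nat_lit 0) (nat_lit 6734635865) (nat_lit 76) (nat_lit 1200247036) (nat_lit 152) (nat_lit 17028039374) (nat_lit 10) (nat_lit 5) (nat_lit 11) (nat_lit 5) (nat_lit 12) (nat_lit 4) (nat_lit 297) (nat_lit 250) (nat_lit 233)) (XT.lf (nat_lit 0) (nat_lit 13791840631) (nat_lit 152) (nat_lit 8387443548) (nat_lit 0) (nat_lit 4464814158) (nat_lit 10) (nat_lit 5) (nat_lit 12) (nat_lit 4) (nat_lit 10) (nat_lit 4) (nat_lit 298) (nat_lit 250) (nat_lit 232))) (XT.nd (nat_lit 78) (nat_lit 76) (nat_lit 0) (XT.lf (nat_lit 0)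 (nat_lit 1998382612) (nat_lit 76) (nat_lit 18012239213) (nat_lit 76) (nat_lit 8454609818) (nat_lit 9) (nat_lit 4) (nat_lit 10) (nat_lit 5) (nat_lit 10) (nat_lit 4) (nat_lit 299) (nat_lit 250) (nat_lit 231)) (XT.nd (nat_lit 78) (nat_lit 76) (nat_lit 0) (XT.lf (nat_lit 0) (nat_lit 13241010765) (nat_lit 76) (nat_lit 13481271871) (nat_lit 76) (nat_lit 3710121252) (nat_lit 9) (nat_lit 4) (nat_lit 10) (nat_lit 5) (nat_lit 10) (nat_lit 4) (nat_lit 300) (nat_lit 250) (nat_lit 230)) (XT.lf (nat_lit 0) (nat_lit 1226717250) (nat_lit 152) (nat_lit 7454085091) (nat_lit 76) (nat_lit 23882244830) (nat_lit 8) (nat_lit 5) (nat_lit 10) (nat_lit 5) (nat_lit 9) (nat_lit 4) (nat_lit 301) (nat_lit 250) (nat_lit 229))))) (XT.nd (nat_lit 156) (nat_lit 76) (nat_lit 0) (XT.nd (nat_lit 78) (nat_lit 0) (nat_lit 0) (XT.lf (nat_lit 0) (nat_lit 2851938186) (nat_lit 76) (nat_lit 3491405070) (nat_lit 152) (nat_lit 28522111968)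 (nat_lit 7) (nat_lit 5) (nat_lit 8) (nat_lit 5) (nat_lit 9) (nat_lit 4) (nat_lit 302) (nat_lit 250) (nat_lit 228)) (XT.lf (nat_lit 0) (nat_lit 11907379724) (nat_lit 152) (nat_lit 23365400552) (nat_lit 0) (nat_lit 2077460179) (nat_lit 7) (nat_lit 5) (nat_lit 9) (nat_lit 4) (nat_lit 7) (nat_lit 4) (nat_lit 303) (nat_lit 250) (nat_lit 227))) (XT.nd (nat_lit 78) (nat_lit 76) (nat_lit 0) (XT.lf (nat_lit 0) (nat_lit 17857923831) (nat_lit 152) (nat_lit 14300364074) (nat_lit 0) (nat_lit 7878533360) (nat_lit 7) (nat_lit 5) (nat_lit 9) (nat_lit 4) (nat_lit 7) (nat_lit 4) (nat_lit 304) (nat_lit 250) (nat_lit 226)) (XT.nd (nat_lit 78) (nat_lit 76) (nat_lit 0) (XT.lf (nat_lit 0) (nat_lit 24175727445) (nat_lit 152) (nat_lit 4710178250) (nat_lit 0) (nat_lit 14057937967) (nat_lit 7) (nat_lit 5) (nat_lit 9) (nat_lit 4) (nat_lit 7) (nat_lit 4) (nat_lit 305) (nat_lit 250) (nat_lit 225)) (XT.lf (nat_lit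 0) (nat_lit 5642585626) (nat_lit 76) (nat_lit 25343740349) (nat_lit 76) (nat_lit 15097803643) (nat_lit 6) (nat_lit 4) (nat_lit 7) (nat_lit 5) (nat_lit 7) (nat_lit 4) (nat_lit 306) (nat_lit 250) (nat_lit 224)))))) (XT.nd (nat_lit 390) (nat_lit 0) (nat_lit 0) (XT.nd (nat_lit 156) (nat_lit 152) (nat_lit 0) (XT.nd (nat_lit 78) (nat_lit 0) (nat_lit 0) (XT.lf (nat_lit 0) (nat_lit 16814584848) (nat_lit 76) (nat_lit 21513204692) (nat_lit 76) (nat_lit 11148613144) (nat_lit 6) (nat_lit 4) (nat_lit 7) (nat_lit 5) (nat_lit 7) (nat_lit 4) (nat_lit 307) (nat_lit 250) (nat_lit 223)) (XT.lf (nat_lit 0) (nat_lit 28716284090) (nat_lit 76) (nat_lit 17451368400) (nat_lit 76) (nat_lit 6976911258) (nat_lit 6) (nat_lit 4) (nat_lit 7) (nat_lit 5) (nat_lit 7) (nat_lit 4) (nat_lit 308) (nat_lit 250) (nat_lit 222))) (XT.nd (nat_lit 78) (nat_lit 152) (nat_lit 0) (XT.lf (nat_lit 0) (nat_lit 41418211939) (nat_lit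 76) (nat_lit 13134161334) (nat_lit 76) (nat_lit 2557976791) (nat_lit 6) (nat_lit 4) (nat_lit 7) (nat_lit 5) (nat_lit 7) (nat_lit 4) (nat_lit 309) (nat_lit 250) (nat_lit 221)) (XT.nd (nat_lit 78) (nat_lit 76) (nat_lit 0) (XT.lf (nat_lit 0) (nat_lit 2066063158) (nat_lit 152) (nat_lit 6434947105) (nat_lit 76) (nat_lit 52894586140) (nat_lit 5) (nat_lit 5) (nat_lit 7) (nat_lit 5) (nat_lit 6) (nat_lit 4) (nat_lit 310) (nat_lit 250) (nat_lit 220)) (XT.lf (nat_lit 0) (nat_lit 3499022306) (nat_lit 76) (nat_lit 3455423419) (nat_lit 152) (nat_lit 59067963666) (nat_lit 4) (nat_lit 5) (nat_lit 5) (nat_lit 5) (nat_lit 6) (nat_lit 4) (nat_lit 311) (nat_lit 250) (nat_lit 219))))) (XT.nd (nat_lit 156) (nat_lit 0) (nat_lit 0) (XT.nd (nat_lit 78) (nat_lit 0) (nat_lit 0) (XT.lf (nat_lit 0) (nat_lit 12309593115) (nat_lit 152) (nat_lit 56718672881) (nat_lit 0) (nat_lit 1987358902) (nat_lit 4) (nat_lit 5) (nat_lit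 6) (nat_lit 4) (nat_lit 4) (nat_lit 4) (nat_lit 312) (nat_lit 250) (nat_lit 218)) (XT.lf (nat_lit 0) (nat_lit 18087190228) (nat_lit 152) (nat_lit 50627700642) (nat_lit 0) (nat_lit 7693743942) (nat_lit 4) (nat_lit 5) (nat_lit 6) (nat_lit 4) (nat_lit 4) (nat_lit 4) (nat_lit 313) (nat_lit 250) (nat_lit 217))) (XT.nd (nat_lit 78) (nat_lit 0) (nat_lit 0) (XT.lf (nat_lit 0) (nat_lit 24267525836) (nat_lit 152) (nat_lit 44160426875) (nat_lit 0) (nat_lit 13808142445) (nat_lit 4) (nat_lit 5) (nat_lit 6) (nat_lit 4) (nat_lit 4) (nat_lit 4) (nat_lit 314) (nat_lit 250) (nat_lit 216)) (XT.nd (nat_lit 78) (nat_lit 0) (nat_lit 0) (XT.lf (nat_lit 0) (nat_lit 30887224148) (nat_lit 152) (nat_lit 37278526994) (nat_lit 0) (nat_lit 20366787882) (nat_lit 4) (nat_lit 5) (nat_lit 6) (nat_lit 4) (nat_lit 4) (nat_lit 4) (nat_lit 315) (nat_lit 250) (nat_lit 215)) (XT.lf (nat_lit 0) (nat_lit 37985513008) (nat_lit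 152) (nat_lit 29941219371) (nat_lit 0) (nat_lit 27408546302) (nat_lit 4) (nat_lit 5) (nat_lit 6) (nat_lit 4) (nat_lit 4) (nat_lit 4) (nat_lit 316) (nat_lit 250) (nat_lit 214))))))) (XT.nd (nat_lit 780) (nat_lit 0) (nat_lit 0) (XT.nd (nat_lit 390) (nat_lit 0) (nat_lit 0) (XT.nd (nat_lit 156) (nat_lit 76) (nat_lit 0) (XT.nd (nat_lit 78) (nat_lit 0) (nat_lit 0) (XT.lf (nat_lit 0) (nat_lit 45604456348) (nat_lit 152) (nat_lit 22105023665) (nat_lit 0) (nat_lit 34975146642) (nat_lit 4) (nat_lit 5) (nat_lit 6) (nat_lit 4) (nat_lit 4) (nat_lit 4) (nat_lit 317) (nat_lit 250) (nat_lit 213)) (XT.lf (nat_lit 0) (nat_lit 53789203462) (nat_lit 152) (nat_lit 13723503159) (nat_lit 0) (nat_lit 43111428016) (nat_lit 4) (nat_lit 5) (nat_lit 6) (nat_lit 4) (nat_lit 4) (nat_lit 4) (nat_lit 318) (nat_lit 250) (nat_lit 212))) (XT.nd (nat_lit 78) (nat_lit 76) (nat_lit 0) (XT.lf (nat_lit 0) (nat_lit 62588256557)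 (nat_lit 152) (nat_lit 4746989584) (nat_lit 0) (nat_lit 51865605425) (nat_lit 4) (nat_lit 5) (nat_lit 6) (nat_lit 4) (nat_lit 4) (nat_lit 4) (nat_lit 319) (nat_lit 250) (nat_lit 211)) (XT.nd (nat_lit 78) (nat_lit 0) (nat_lit 0) (XT.lf (nat_lit 0) (nat_lit 5038990374) (nat_lit 76) (nat_lit 67093440555) (nat_lit 76) (nat_lit 56329237863) (nat_lit 3) (nat_lit 4) (nat_lit 4) (nat_lit 5) (nat_lit 4) (nat_lit 4) (nat_lit 320) (nat_lit 250) (nat_lit 210)) (XT.lf (nat_lit 0) (nat_lit 15710467574) (nat_lit 76) (nat_lit 66776617010) (nat_lit 76) (nat_lit 55973940650) (nat_lit 3) (nat_lit 4) (nat_lit 4) (nat_lit 5) (nat_lit 4) (nat_lit 4) (nat_lit 321) (nat_lit 250) (nat_lit 209))))) (XT.nd (nat_lit 156) (nat_lit 0) (nat_lit 0) (XT.nd (nat_lit 78) (nat_lit 0) (nat_lit 0) (XT.lf (nat_lit 0) (nat_lit 27173723485) (nat_lit 76) (nat_lit 66463290599) (nat_lit 76) (nat_lit 55624990473) (nat_lit 3) (nat_lit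 4) (nat_lit 4) (nat_lit 5) (nat_lit 4) (nat_lit 4) (nat_lit 322) (nat_lit 250) (nat_lit 208)) (XT.lf (nat_lit 0) (nat_lit 39496688512) (nat_lit 76) (nat_lit 66151604572) (nat_lit 76) (nat_lit 55280319478) (nat_lit 3) (nat_lit 4) (nat_lit 4) (nat_lit 5) (nat_lit 4) (nat_lit 4) (nat_lit 323) (nat_lit 250) (nat_lit 207))) (XT.nd (nat_lit 78) (nat_lit 0) (nat_lit 0) (XT.lf (nat_lit 0) (nat_lit 52752387634) (nat_lit 76) (nat_lit 65839711902) (nat_lit 76) (nat_lit 54937885170) (nat_lit 3) (nat_lit 4) (nat_lit 4) (nat_lit 5) (nat_lit 4) (nat_lit 4) (nat_lit 324) (nat_lit 250) (nat_lit 206)) (XT.nd (nat_lit 78) (nat_lit 0) (nat_lit 0) (XT.lf (nat_lit 0) (nat_lit 67019373141) (nat_lit 76) (nat_lit 65525764336) (nat_lit 76) (nat_lit 54595658309) (nat_lit 3) (nat_lit 4) (nat_lit 4) (nat_lit 5) (nat_lit 4) (nat_lit 4) (nat_lit 325) (nat_lit 250) (nat_lit 205)) (XT.lf (nat_lit 0) (nat_lit 82382190133)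 (nat_lit 76) (nat_lit 65207901443) (nat_lit 76) (nat_lit 54251610885) (nat_lit 3) (nat_lit 4) (nat_lit 4) (nat_lit 5) (nat_lit 4) (nat_lit 4) (nat_lit 326) (nat_lit 250) (nat_lit 204)))))) (XT.nd (nat_lit 390) (nat_lit 0) (nat_lit 0) (XT.nd (nat_lit 156) (nat_lit 0) (nat_lit 0) (XT.nd (nat_lit 78) (nat_lit 0) (nat_lit 0) (XT.lf (nat_lit 0) (nat_lit 98931877525) (nat_lit 76) (nat_lit 64884239592) (nat_lit 76) (nat_lit 53903704097) (nat_lit 3) (nat_lit 4) (nat_lit 4) (nat_lit 5) (nat_lit 4) (nat_lit 4) (nat_lit 327) (nat_lit 250) (nat_lit 203)) (XT.lf (nat_lit 0) (nat_lit 116766507538) (nat_lit 76) (nat_lit 64552860786) (nat_lit 76) (nat_lit 53549876276) (nat_lit 3) (nat_lit 4) (nat_lit 4) (nat_lit 5) (nat_lit 4) (nat_lit 4) (nat_lit 328) (nat_lit 250) (nat_lit 202))) (XT.nd (nat_lit 78) (nat_lit 0) (nat_lit 0) (XT.lf (nat_lit 0) (nat_lit 135991766870) (nat_lit 76) (nat_lit 64211801299)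 (nat_lit 76) (nat_lit 53188030663) (nat_lit 3) (nat_lit 4) (nat_lit 4) (nat_lit 5) (nat_lit 4) (nat_lit 4) (nat_lit 329) (nat_lit 250) (nat_lit 201)) (XT.nd (nat_lit 78) (nat_lit 0) (nat_lit 0) (XT.lf (nat_lit 0) (nat_lit 156721582983) (nat_lit 76) (nat_lit 63859040038) (nat_lit 76) (nat_lit 52816022990) (nat_lit 3) (nat_lit 4) (nat_lit 4) (nat_lit 5) (nat_lit 4) (nat_lit 4) (nat_lit 330) (nat_lit 250) (nat_lit 200)) (XT.lf (nat_lit 0) (nat_lit 179078799231) (nat_lit 76) (nat_lit 63492486566) (nat_lit 76) (nat_lit 52431648766) (nat_lit 3) (nat_lit 4) (nat_lit 4) (nat_lit 5) (nat_lit 4) (nat_lit 4) (nat_lit 331) (nat_lit 250) (nat_lit 199))))) (XT.nd (nat_lit 234) (nat_lit 0) (nat_lit 0) (XT.nd (nat_lit 78) (nat_lit 0) (nat_lit 0) (XT.lf (nat_lit 0) (nat_lit 203195902823) (nat_lit 76) (nat_lit 63109968714) (nat_lit 76) (nat_lit 52032630218) (nat_lit 3) (nat_lit 4) (nat_lit 4) (nat_lit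 5) (nat_lit 4) (nat_lit 4) (nat_lit 332) (nat_lit 250) (nat_lit 198)) (XT.nd (nat_lit 78) (nat_lit 0) (nat_lit 0) (XT.lf (nat_lit 0) (nat_lit 229215809926) (nat_lit 76) (nat_lit 62709219710) (nat_lit 76) (nat_lit 51616602791) (nat_lit 3) (nat_lit 4) (nat_lit 4) (nat_lit 5) (nat_lit 4) (nat_lit 4) (nat_lit 333) (nat_lit 250) (nat_lit 197)) (XT.lf (nat_lit 0) (nat_lit 257292712585) (nat_lit 76) (nat_lit 62287864745) (nat_lit 76) (nat_lit 51181101138) (nat_lit 3) (nat_lit 4) (nat_lit 4) (nat_lit 5) (nat_lit 4) (nat_lit 4) (nat_lit 334) (nat_lit 250) (nat_lit 196)))) (XT.nd (nat_lit 78) (nat_lit 0) (nat_lit 0) (XT.lf (nat_lit 0) (nat_lit 287592992443) (nat_lit 76) (nat_lit 61843406900) (nat_lit 76) (nat_lit 50723544508) (nat_lit 3) (nat_lit 4) (nat_lit 4) (nat_lit 5) (nat_lit 4) (nat_lit 4) (nat_lit 335) (nat_lit 250) (nat_lit 195)) (XT.nd (nat_lit 78) (nat_lit 0) (nat_lit 0) (XT.lf (nat_lit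 0) (nat_lit 320296206715) (nat_lit 76) (nat_lit 61373212351) (nat_lit 76) (nat_lit 50241221455) (nat_lit 3) (nat_lit 4) (nat_lit 4) (nat_lit 5) (nat_lit 4) (nat_lit 4) (nat_lit 336) (nat_lit 250) (nat_lit 194)) (XT.lf (nat_lit 0) (nat_lit 355596152226) (nat_lit 76) (nat_lit 60874494760) (nat_lit 76) (nat_lit 49731273767) (nat_lit 3) (nat_lit 4) (nat_lit 4) (nat_lit 5) (nat_lit 4) (nat_lit 4) (nat_lit 337) (nat_lit 250) (nat_lit 193))))))))
noncomputable def xc30 : XT := (XT.nd (nat_lit 36738) (nat_lit 0) (nat_lit 228) (XT.nd (nat_lit 35958) (nat_lit 0) (nat_lit 1368) (XT.nd (nat_lit 390) (nat_lit 0) (nat_lit 0) (XT.nd (nat_lit 156) (nat_lit 0) (nat_lit 0) (XT.nd (nat_lit 78) (nat_lit 0) (nat_lit 0) (XT.lf (nat_lit 0) (nat_lit 393702013839) (nat_lit 76) (nat_lit 60344298764) (nat_lit 76) (nat_lit 49190679533) (nat_lit 3) (nat_lit 4) (nat_lit 4) (nat_lit 5) (nat_lit 4) (nat_lit 4) (nat_lit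 338) (nat_lit 250) (nat_lit 192)) (XT.lf (nat_lit 0) (nat_lit 434839604067) (nat_lit 76) (nat_lit 59779482460) (nat_lit 76) (nat_lit 48616235232) (nat_lit 3) (nat_lit 4) (nat_lit 4) (nat_lit 5) (nat_lit 4) (nat_lit 4) (nat_lit 339) (nat_lit 250) (nat_lit 191))) (XT.nd (nat_lit 78) (nat_lit 0) (nat_lit 0) (XT.lf (nat_lit 0) (nat_lit 479252701221) (nat_lit 76) (nat_lit 59176698789) (nat_lit 76) (nat_lit 48004536748) (nat_lit 3) (nat_lit 4) (nat_lit 4) (nat_lit 5) (nat_lit 4) (nat_lit 4) (nat_lit 340) (nat_lit 250) (nat_lit 190)) (XT.nd (nat_lit 78) (nat_lit 0) (nat_lit 0) (XT.lf (nat_lit 0) (nat_lit 527204494027) (nat_lit 76) (nat_lit 58532375700) (nat_lit 76) (nat_lit 47351959202) (nat_lit 3) (nat_lit 4) (nat_lit 4) (nat_lit 5) (nat_lit 4) (nat_lit 4) (nat_lit 341) (nat_lit 250) (nat_lit 189)) (XT.lf (nat_lit 0) (nat_lit 578979141256) (nat_lit 76) (nat_lit 57842694981) (nat_lit 76) (nat_lit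 46654635468) (nat_lit 3) (nat_lit 4) (nat_lit 4) (nat_lit 5) (nat_lit 4) (nat_lit 4) (nat_lit 342) (nat_lit 250) (nat_lit 188))))) (XT.nd (nat_lit 156) (nat_lit 0) (nat_lit 0) (XT.nd (nat_lit 78) (nat_lit 0) (nat_lit 0) (XT.lf (nat_lit 0) (nat_lit 634883455633) (nat_lit 76) (nat_lit 57103569636) (nat_lit 76) (nat_lit 45908433257) (nat_lit 3) (nat_lit 4) (nat_lit 4) (nat_lit 5) (nat_lit 4) (nat_lit 4) (nat_lit 343) (nat_lit 250) (nat_lit 187)) (XT.lf (nat_lit 0) (nat_lit 695248721983) (nat_lit 76) (nat_lit 56310619662) (nat_lit 76) (nat_lit 45108930629) (nat_lit 3) (nat_lit 4) (nat_lit 4) (nat_lit 5) (nat_lit 4) (nat_lit 4) (nat_lit 344) (nat_lit 250) (nat_lit 186))) (XT.nd (nat_lit 78) (nat_lit 0) (nat_lit 0) (XT.lf (nat_lit 0) (nat_lit 760432660404) (nat_lit 76) (nat_lit 55459146097) (nat_lit 76) (nat_lit 44251389793) (nat_lit 3) (nat_lit 4) (nat_lit 4) (nat_lit 5) (nat_lit 4) (nat_lit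 4) (nat_lit 345) (nat_lit 250) (nat_lit 185)) (XT.nd (nat_lit 78) (nat_lit 0) (nat_lit 0) (XT.lf (nat_lit 0) (nat_lit 830821546086) (nat_lit 76) (nat_lit 54544103172) (nat_lit 76) (nat_lit 43330729023) (nat_lit 3) (nat_lit 4) (nat_lit 4) (nat_lit 5) (nat_lit 4) (nat_lit 4) (nat_lit 346) (nat_lit 250) (nat_lit 184)) (XT.lf (nat_lit 0) (nat_lit 906832498351) (nat_lit 76) (nat_lit 53560068410) (nat_lit 76) (nat_lit 42341492553) (nat_lit 3) (nat_lit 4) (nat_lit 4) (nat_lit 5) (nat_lit 4) (nat_lit 4) (nat_lit 347) (nat_lit 250) (nat_lit 183)))))) (XT.nd (nat_lit 390) (nat_lit 836) (nat_lit 0) (XT.nd (nat_lit 156) (nat_lit 760) (nat_lit 0) (XT.nd (nat_lit 78) (nat_lit 228) (nat_lit 0) (XT.lf (nat_lit 0) (nat_lit 2815369324) (nat_lit 228) (nat_lit 893188722) (nat_lit 228) (nat_lit 893188722) (nat_lit 45) (nat_lit 4) (nat_lit 48) (nat_lit 5) (nat_lit 48) (nat_lit 4) (nat_lit 278) (nat_lit 251)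 (nat_lit 251)) (XT.lf (nat_lit 0) (nat_lit 3939719761) (nat_lit 228) (nat_lit 3081633561) (nat_lit 0) (nat_lit 2539354743) (nat_lit 42) (nat_lit 5) (nat_lit 45) (nat_lit 4) (nat_lit 42) (nat_lit 4) (nat_lit 279) (nat_lit 251) (nat_lit 250))) (XT.nd (nat_lit 78) (nat_lit 532) (nat_lit 0) (XT.lf (nat_lit 0) (nat_lit 7161279687) (nat_lit 228) (nat_lit 2744618715) (nat_lit 228) (nat_lit 47619422) (nat_lit 39) (nat_lit 4) (nat_lit 42) (nat_lit 5) (nat_lit 42) (nat_lit 4) (nat_lit 280) (nat_lit 251) (nat_lit 249)) (XT.nd (nat_lit 78) (nat_lit 304) (nat_lit 0) (XT.lf (nat_lit 0) (nat_lit 5635841692) (nat_lit 228) (nat_lit 2821254173) (nat_lit 0) (nat_lit 1923854468) (nat_lit 36) (nat_lit 5) (nat_lit 39) (nat_lit 4) (nat_lit 36) (nat_lit 4) (nat_lit 281) (nat_lit 251) (nat_lit 248)) (XT.lf (nat_lit 0) (nat_lit 780165589) (nat_lit 304) (nat_lit 3171366717) (nat_lit 76) (nat_lit 6896825855) (nat_lit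 32) (nat_lit 5) (nat_lit 36) (nat_lit 5) (nat_lit 33) (nat_lit 4) (nat_lit 282) (nat_lit 251) (nat_lit 247))))) (XT.nd (nat_lit 156) (nat_lit 456) (nat_lit 0) (XT.nd (nat_lit 78) (nat_lit 228) (nat_lit 0) (XT.lf (nat_lit 0) (nat_lit 6443135180) (nat_lit 228) (nat_lit 3947559318) (nat_lit 0) (nat_lit 965990892) (nat_lit 30) (nat_lit 5) (nat_lit 33) (nat_lit 4) (nat_lit 30) (nat_lit 4) (nat_lit 283) (nat_lit 251) (nat_lit 246)) (XT.lf (nat_lit 0) (nat_lit 550244561) (nat_lit 228) (nat_lit 5213600896) (nat_lit 76) (nat_lit 6145890057) (nat_lit 27) (nat_lit 5) (nat_lit 30) (nat_lit 5) (nat_lit 28) (nat_lit 4) (nat_lit 284) (nat_lit 251) (nat_lit 245))) (XT.nd (nat_lit 78) (nat_lit 304) (nat_lit 0) (XT.lf (nat_lit 0) (nat_lit 5441822276) (nat_lit 152) (nat_lit 696640436) (nat_lit 228) (nat_lit 6371984285) (nat_lit 25) (nat_lit 5) (nat_lit 27) (nat_lit 5) (nat_lit 28) (nat_lit 4) (nat_lit 285)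 (nat_lit 251) (nat_lit 244)) (XT.nd (nat_lit 78) (nat_lit 152) (nat_lit 0) (XT.lf (nat_lit 0) (nat_lit 3550615609) (nat_lit 152) (nat_lit 8559958159) (nat_lit 152) (nat_lit 1052187062) (nat_lit 23) (nat_lit 4) (nat_lit 25) (nat_lit 5) (nat_lit 25) (nat_lit 4) (nat_lit 286) (nat_lit 251) (nat_lit 243)) (XT.lf (nat_lit 0) (nat_lit 895039991) (nat_lit 76) (nat_lit 3522700423) (nat_lit 152) (nat_lit 9452459211) (nat_lit 21) (nat_lit 5) (nat_lit 22) (nat_lit 5) (nat_lit 23) (nat_lit 4) (nat_lit 287) (nat_lit 251) (nat_lit 242))))))) (XT.nd (nat_lit 780) (nat_lit 304) (nat_lit 0) (XT.nd (nat_lit 390) (nat_lit 304) (nat_lit 0) (XT.nd (nat_lit 156) (nat_lit 304) (nat_lit 0) (XT.nd (nat_lit 78) (nat_lit 228) (nat_lit 0) (XT.lf (nat_lit 0) (nat_lit 10223792337) (nat_lit 152) (nat_lit 2538354782) (nat_lit 0) (nat_lit 1874770425) (nat_lit 21) (nat_lit 5) (nat_lit 23) (nat_lit 4) (nat_lit 21) (nat_lit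 4) (nat_lit 288) (nat_lit 251) (nat_lit 241)) (XT.lf (nat_lit 0) (nat_lit 942294553) (nat_lit 228) (nat_lit 6950955774) (nat_lit 76) (nat_lit 7573903569) (nat_lit 18) (nat_lit 5) (nat_lit 21) (nat_lit 5) (nat_lit 19) (nat_lit 4) (nat_lit 289) (nat_lit 251) (nat_lit 240))) (XT.nd (nat_lit 78) (nat_lit 228) (nat_lit 0) (XT.lf (nat_lit 0) (nat_lit 3826488166) (nat_lit 76) (nat_lit 2614124885) (nat_lit 152) (nat_lit 9926382960) (nat_lit 17) (nat_lit 5) (nat_lit 18) (nat_lit 5) (nat_lit 19) (nat_lit 4) (nat_lit 290) (nat_lit 251) (nat_lit 239)) (XT.nd (nat_lit 78) (nat_lit 228) (nat_lit 0) (XT.lf (nat_lit 0) (nat_lit 12321432564) (nat_lit 152) (nat_lit 2065045617) (nat_lit 0) (nat_lit 2955454560) (nat_lit 17) (nat_lit 5) (nat_lit 19) (nat_lit 4) (nat_lit 17) (nat_lit 4) (nat_lit 291) (nat_lit 251) (nat_lit 238)) (XT.lf (nat_lit 0) (nat_lit 243254238) (nat_lit 228) (nat_lit 9270753301) (nat_lit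 76) (nat_lit 8882136047) (nat_lit 14) (nat_lit 5) (nat_lit 17) (nat_lit 5) (nat_lit 15) (nat_lit 4) (nat_lit 292) (nat_lit 251) (nat_lit 237))))) (XT.nd (nat_lit 156) (nat_lit 228) (nat_lit 0) (XT.nd (nat_lit 78) (nat_lit 0) (nat_lit 0) (XT.lf (nat_lit 0) (nat_lit 1351846283) (nat_lit 76) (nat_lit 4255389001) (nat_lit 152) (nat_lit 13930785009) (nat_lit 13) (nat_lit 5) (nat_lit 14) (nat_lit 5) (nat_lit 15) (nat_lit 4) (nat_lit 293) (nat_lit 251) (nat_lit 236)) (XT.lf (nat_lit 0) (nat_lit 11389241732) (nat_lit 152) (nat_lit 7982905116) (nat_lit 0) (nat_lit 1399835652) (nat_lit 13) (nat_lit 5) (nat_lit 15) (nat_lit 4) (nat_lit 13) (nat_lit 4) (nat_lit 294) (nat_lit 251) (nat_lit 235))) (XT.nd (nat_lit 78) (nat_lit 152) (nat_lit 0) (XT.lf (nat_lit 0) (nat_lit 2727958171) (nat_lit 76) (nat_lit 14837359695) (nat_lit 76) (nat_lit 4542935684) (nat_lit 12) (nat_lit 4) (nat_lit 13) (nat_lit 5)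 (nat_lit 13) (nat_lit 4) (nat_lit 295) (nat_lit 251) (nat_lit 234)) (XT.nd (nat_lit 78) (nat_lit 76) (nat_lit 0) (XT.lf (nat_lit 0) (nat_lit 626357629) (nat_lit 152) (nat_lit 9292814879) (nat_lit 76) (nat_lit 13633657436) (nat_lit 11) (nat_lit 5) (nat_lit 13) (nat_lit 5) (nat_lit 12) (nat_lit 4) (nat_lit 296) (nat_lit 251) (nat_lit 233)) (XT.lf (nat_lit 0) (nat_lit 1273087012) (nat_lit 76) (nat_lit 4634931888) (nat_lit 152) (nat_lit 19208467114) (nat_lit 10) (nat_lit 5) (nat_lit 11) (nat_lit 5) (nat_lit 12) (nat_lit 4) (nat_lit 297) (nat_lit 251) (nat_lit 232)))))) (XT.nd (nat_lit 390) (nat_lit 152) (nat_lit 0) (XT.nd (nat_lit 156) (nat_lit 152) (nat_lit 0) (XT.nd (nat_lit 78) (nat_lit 0) (nat_lit 0) (XT.lf (nat_lit 0) (nat_lit 11635307408) (nat_lit 152) (nat_lit 14086434208) (nat_lit 0) (nat_lit 1082464740) (nat_lit 10) (nat_lit 5) (nat_lit 12) (nat_lit 4) (nat_lit 10) (nat_lit 4) (nat_lit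 298) (nat_lit 251) (nat_lit 231)) (XT.lf (nat_lit 0) (nat_lit 17752476985) (nat_lit 152) (nat_lit 3891886478) (nat_lit 0) (nat_lit 6986113093) (nat_lit 10) (nat_lit 5) (nat_lit 12) (nat_lit 4) (nat_lit 10) (nat_lit 4) (nat_lit 299) (nat_lit 251) (nat_lit 230))) (XT.nd (nat_lit 78) (nat_lit 76) (nat_lit 0) (XT.lf (nat_lit 0) (nat_lit 7100273697) (nat_lit 76) (nat_lit 17233994722) (nat_lit 76) (nat_lit 6269925993) (nat_lit 9) (nat_lit 4) (nat_lit 10) (nat_lit 5) (nat_lit 10) (nat_lit 4) (nat_lit 300) (nat_lit 251) (nat_lit 229)) (XT.nd (nat_lit 78) (nat_lit 76) (nat_lit 0) (XT.lf (nat_lit 0) (nat_lit 18876236512) (nat_lit 76) (nat_lit 12504936928) (nat_lit 76) (nat_lit 1357808165) (nat_lit 9) (nat_lit 4) (nat_lit 10) (nat_lit 5) (nat_lit 10) (nat_lit 4) (nat_lit 301) (nat_lit 251) (nat_lit 228)) (XT.lf (nat_lit 0) (nat_lit 3699238254) (nat_lit 152) (nat_lit 3733190372) (nat_lit 76) (nat_lit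 27615215462) (nat_lit 8) (nat_lit 5) (nat_lit 10) (nat_lit 5) (nat_lit 9) (nat_lit 4) (nat_lit 302) (nat_lit 251) (nat_lit 227))))) (XT.nd (nat_lit 156) (nat_lit 76) (nat_lit 0) (XT.nd (nat_lit 78) (nat_lit 0) (nat_lit 0) (XT.lf (nat_lit 0) (nat_lit 7209693581) (nat_lit 76) (nat_lit 1904095125) (nat_lit 152) (nat_lit 28426154335) (nat_lit 7) (nat_lit 5) (nat_lit 8) (nat_lit 5) (nat_lit 9) (nat_lit 4) (nat_lit 303) (nat_lit 251) (nat_lit 226)) (XT.lf (nat_lit 0) (nat_lit 14982304542) (nat_lit 152) (nat_lit 21331664324) (nat_lit 0) (nat_lit 3916692899) (nat_lit 7) (nat_lit 5) (nat_lit 9) (nat_lit 4) (nat_lit 7) (nat_lit 4) (nat_lit 304) (nat_lit 251) (nat_lit 225))) (XT.nd (nat_lit 78) (nat_lit 76) (nat_lit 0) (XT.lf (nat_lit 0) (nat_lit 21251682220) (nat_lit 152) (nat_lit 11830533688) (nat_lit 0) (nat_lit 10057923349) (nat_lit 7) (nat_lit 5) (nat_lit 9) (nat_lit 4) (nat_lit 7) (nat_lit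 4) (nat_lit 305) (nat_lit 251) (nat_lit 224)) (XT.nd (nat_lit 78) (nat_lit 76) (nat_lit 0) (XT.lf (nat_lit 0) (nat_lit 27929345347) (nat_lit 152) (nat_lit 1740826296) (nat_lit 0) (nat_lit 16616931634) (nat_lit 7) (nat_lit 5) (nat_lit 9) (nat_lit 4) (nat_lit 7) (nat_lit 4) (nat_lit 306) (nat_lit 251) (nat_lit 223)) (XT.lf (nat_lit 0) (nat_lit 9294738385) (nat_lit 76) (nat_lit 25905243788) (nat_lit 76) (nat_lit 14482964481) (nat_lit 6) (nat_lit 4) (nat_lit 7) (nat_lit 5) (nat_lit 7) (nat_lit 4) (nat_lit 307) (nat_lit 251) (nat_lit 222))))))))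
noncomputable def xc31 : XT := (XT.nd (nat_lit 1560) (nat_lit 0) (nat_lit 0) (XT.nd (nat_lit 780) (nat_lit 76) (nat_lit 0) (XT.nd (nat_lit 390) (nat_lit 0) (nat_lit 0) (XT.nd (nat_lit 156) (nat_lit 152) (nat_lit 0) (XT.nd (nat_lit 78) (nat_lit 0) (nat_lit 0) (XT.lf (nat_lit 0) (nat_lit 21123405255) (nat_lit 76) (nat_lit 21876857558) (nat_lit 76) (nat_lit 10352850850) (nat_lit 6) (nat_lit 4) (nat_lit 7) (nat_lit 5) (nat_lit 7) (nat_lit 4) (nat_lit 308) (nat_lit 251) (nat_lit 221)) (XT.lf (nat_lit 0) (nat_lit 33757710538) (nat_lit 76) (nat_lit 17590622772) (nat_lit 76) (nat_lit 5972424025) (nat_lit 6) (nat_lit 4) (nat_lit 7) (nat_lit 5) (nat_lit 7) (nat_lit 4) (nat_lit 309) (nat_lit 251) (nat_lit 220))) (XT.nd (nat_lit 78) (nat_lit 152) (nat_lit 0) (XT.lf (nat_lit 0) (nat_lit 47272524191) (nat_lit 76) (nat_lit 13021139518) (nat_lit 76) (nat_lit 1315725921) (nat_lit 6) (nat_lit 4) (nat_lit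 7) (nat_lit 5) (nat_lit 7) (nat_lit 4) (nat_lit 310) (nat_lit 251) (nat_lit 219)) (XT.nd (nat_lit 78) (nat_lit 76) (nat_lit 0) (XT.lf (nat_lit 0) (nat_lit 3528181108) (nat_lit 152) (nat_lit 4553396815) (nat_lit 76) (nat_lit 58160001436) (nat_lit 5) (nat_lit 5) (nat_lit 7) (nat_lit 5) (nat_lit 6) (nat_lit 4) (nat_lit 311) (nat_lit 251) (nat_lit 218)) (XT.lf (nat_lit 0) (nat_lit 6071147870) (nat_lit 76) (nat_lit 2676212439) (nat_lit 152) (nat_lit 62494251746) (nat_lit 4) (nat_lit 5) (nat_lit 5) (nat_lit 5) (nat_lit 6) (nat_lit 4) (nat_lit 312) (nat_lit 251) (nat_lit 217))))) (XT.nd (nat_lit 156) (nat_lit 0) (nat_lit 0) (XT.nd (nat_lit 78) (nat_lit 0) (nat_lit 0) (XT.lf (nat_lit 0) (nat_lit 14454583249) (nat_lit 152) (nat_lit 59091062737) (nat_lit 0) (nat_lit 3092512082) (nat_lit 4) (nat_lit 5) (nat_lit 6) (nat_lit 4) (nat_lit 4) (nat_lit 4) (nat_lit 313) (nat_lit 251) (nat_lit 216)) (XT.lf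 (nat_lit 0) (nat_lit 20608445711) (nat_lit 152) (nat_lit 52673190791) (nat_lit 0) (nat_lit 9185321669) (nat_lit 4) (nat_lit 5) (nat_lit 6) (nat_lit 4) (nat_lit 4) (nat_lit 4) (nat_lit 314) (nat_lit 251) (nat_lit 215))) (XT.nd (nat_lit 78) (nat_lit 0) (nat_lit 0) (XT.lf (nat_lit 0) (nat_lit 27203631851) (nat_lit 152) (nat_lit 45837033338) (nat_lit 0) (nat_lit 15723977369) (nat_lit 4) (nat_lit 5) (nat_lit 6) (nat_lit 4) (nat_lit 4) (nat_lit 4) (nat_lit 315) (nat_lit 251) (nat_lit 214)) (XT.nd (nat_lit 78) (nat_lit 0) (nat_lit 0) (XT.lf (nat_lit 0) (nat_lit 34279224255) (nat_lit 152) (nat_lit 38542079814) (nat_lit 0) (nat_lit 22747226773) (nat_lit 4) (nat_lit 5) (nat_lit 6) (nat_lit 4) (nat_lit 4) (nat_lit 4) (nat_lit 316) (nat_lit 251) (nat_lit 213)) (XT.lf (nat_lit 0) (nat_lit 41877152358) (nat_lit 152) (nat_lit 30745100865) (nat_lit 0) (nat_lit 30296689136) (nat_lit 4) (nat_lit 5) (nat_lit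 6) (nat_lit 4) (nat_lit 4) (nat_lit 4) (nat_lit 317) (nat_lit 251) (nat_lit 212)))))) (XT.nd (nat_lit 390) (nat_lit 0) (nat_lit 0) (XT.nd (nat_lit 156) (nat_lit 76) (nat_lit 0) (XT.nd (nat_lit 78) (nat_lit 0) (nat_lit 0) (XT.lf (nat_lit 0) (nat_lit 50042440920) (nat_lit 152) (nat_lit 22399892173) (nat_lit 0) (nat_lit 38417102012) (nat_lit 4) (nat_lit 5) (nat_lit 6) (nat_lit 4) (nat_lit 4) (nat_lit 4) (nat_lit 318) (nat_lit 251) (nat_lit 211)) (XT.lf (nat_lit 0) (nat_lit 58823476836) (nat_lit 152) (nat_lit 13457000648) (nat_lit 0) (nat_lit 47156586368) (nat_lit 4) (nat_lit 5) (nat_lit 6) (nat_lit 4) (nat_lit 4) (nat_lit 4) (nat_lit 319) (nat_lit 251) (nat_lit 210))) (XT.nd (nat_lit 78) (nat_lit 76) (nat_lit 0) (XT.lf (nat_lit 0) (nat_lit 68272295875) (nat_lit 152) (nat_lit 3863431377) (nat_lit 0) (nat_lit 56566931739) (nat_lit 4) (nat_lit 5) (nat_lit 6) (nat_lit 4) (nat_lit 4) (nat_lit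 4) (nat_lit 320) (nat_lit 251) (nat_lit 209)) (XT.nd (nat_lit 78) (nat_lit 0) (nat_lit 0) (XT.lf (nat_lit 0) (nat_lit 6650524744) (nat_lit 76) (nat_lit 71898199623) (nat_lit 76) (nat_lit 60157211720) (nat_lit 3) (nat_lit 4) (nat_lit 4) (nat_lit 5) (nat_lit 4) (nat_lit 4) (nat_lit 321) (nat_lit 251) (nat_lit 208)) (XT.lf (nat_lit 0) (nat_lit 18086207887) (nat_lit 76) (nat_lit 71597712874) (nat_lit 76) (nat_lit 59823740003) (nat_lit 3) (nat_lit 4) (nat_lit 4) (nat_lit 5) (nat_lit 4) (nat_lit 4) (nat_lit 322) (nat_lit 251) (nat_lit 207))))) (XT.nd (nat_lit 156) (nat_lit 0) (nat_lit 0) (XT.nd (nat_lit 78) (nat_lit 0) (nat_lit 0) (XT.lf (nat_lit 0) (nat_lit 30383642574) (nat_lit 76) (nat_lit 71297915423) (nat_lit 76) (nat_lit 59493400915) (nat_lit 3) (nat_lit 4) (nat_lit 4) (nat_lit 5) (nat_lit 4) (nat_lit 4) (nat_lit 323) (nat_lit 251) (nat_lit 206)) (XT.lf (nat_lit 0) (nat_lit 43615702492)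 (nat_lit 76) (nat_lit 70997030694) (nat_lit 76) (nat_lit 59164236892) (nat_lit 3) (nat_lit 4) (nat_lit 4) (nat_lit 5) (nat_lit 4) (nat_lit 4) (nat_lit 324) (nat_lit 251) (nat_lit 205))) (XT.nd (nat_lit 78) (nat_lit 0) (nat_lit 0) (XT.lf (nat_lit 0) (nat_lit 57860799847) (nat_lit 76) (nat_lit 70693275666) (nat_lit 76) (nat_lit 58834297331) (nat_lit 3) (nat_lit 4) (nat_lit 4) (nat_lit 5) (nat_lit 4) (nat_lit 4) (nat_lit 325) (nat_lit 251) (nat_lit 204)) (XT.nd (nat_lit 78) (nat_lit 0) (nat_lit 0) (XT.lf (nat_lit 0) (nat_lit 73203350032) (nat_lit 76) (nat_lit 70384850308) (nat_lit 76) (nat_lit 58501627037) (nat_lit 3) (nat_lit 4) (nat_lit 4) (nat_lit 5) (nat_lit 4) (nat_lit 4) (nat_lit 326) (nat_lit 251) (nat_lit 203)) (XT.lf (nat_lit 0) (nat_lit 89734271861) (nat_lit 76) (nat_lit 70069926915) (nat_lit 76) (nat_lit 58164254629) (nat_lit 3) (nat_lit 4) (nat_lit 4) (nat_lit 5) (nat_lit 4)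 (nat_lit 4) (nat_lit 327) (nat_lit 251) (nat_lit 202))))))) (XT.nd (nat_lit 780) (nat_lit 0) (nat_lit 0) (XT.nd (nat_lit 390) (nat_lit 0) (nat_lit 0) (XT.nd (nat_lit 156) (nat_lit 0) (nat_lit 0) (XT.nd (nat_lit 78) (nat_lit 0) (nat_lit 0) (XT.lf (nat_lit 0) (nat_lit 107551526354) (nat_lit 76) (nat_lit 69746639274) (nat_lit 76) (nat_lit 57820180863) (nat_lit 3) (nat_lit 4) (nat_lit 4) (nat_lit 5) (nat_lit 4) (nat_lit 4) (nat_lit 328) (nat_lit 251) (nat_lit 201)) (XT.lf (nat_lit 0) (nat_lit 126760697241) (nat_lit 76) (nat_lit 69413071607) (nat_lit 76) (nat_lit 57467366783) (nat_lit 3) (nat_lit 4) (nat_lit 4) (nat_lit 5) (nat_lit 4) (nat_lit 4) (nat_lit 329) (nat_lit 251) (nat_lit 200))) (XT.nd (nat_lit 78) (nat_lit 0) (nat_lit 0) (XT.lf (nat_lit 0) (nat_lit 147475616646) (nat_lit 76) (nat_lit 69067247216) (nat_lit 76) (nat_lit 57103721640) (nat_lit 3) (nat_lit 4) (nat_lit 4) (nat_lit 5)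 (nat_lit 4) (nat_lit 4) (nat_lit 330) (nat_lit 251) (nat_lit 199)) (XT.nd (nat_lit 78) (nat_lit 0) (nat_lit 0) (XT.lf (nat_lit 0) (nat_lit 169819039645) (nat_lit 76) (nat_lit 68707116772) (nat_lit 76) (nat_lit 56727090500) (nat_lit 3) (nat_lit 4) (nat_lit 4) (nat_lit 5) (nat_lit 4) (nat_lit 4) (nat_lit 331) (nat_lit 251) (nat_lit 198)) (XT.lf (nat_lit 0) (nat_lit 193923371710) (nat_lit 76) (nat_lit 68330546168) (nat_lit 76) (nat_lit 56335241473) (nat_lit 3) (nat_lit 4) (nat_lit 4) (nat_lit 5) (nat_lit 4) (nat_lit 4) (nat_lit 332) (nat_lit 251) (nat_lit 197))))) (XT.nd (nat_lit 156) (nat_lit 0) (nat_lit 0) (XT.nd (nat_lit 78) (nat_lit 0) (nat_lit 0) (XT.lf (nat_lit 0) (nat_lit 219931453327) (nat_lit 76) (nat_lit 67935303875) (nat_lit 76) (nat_lit 55925852492) (nat_lit 3) (nat_lit 4) (nat_lit 4) (nat_lit 5) (nat_lit 4) (nat_lit 4) (nat_lit 333) (nat_lit 251) (nat_lit 196)) (XT.lf (nat_lit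 0) (nat_lit 247997406460) (nat_lit 76) (nat_lit 67519047717) (nat_lit 76) (nat_lit 55496497549) (nat_lit 3) (nat_lit 4) (nat_lit 4) (nat_lit 5) (nat_lit 4) (nat_lit 4) (nat_lit 334) (nat_lit 251) (nat_lit 195))) (XT.nd (nat_lit 78) (nat_lit 0) (nat_lit 0) (XT.lf (nat_lit 0) (nat_lit 278287547869) (nat_lit 76) (nat_lit 67079310989) (nat_lit 76) (nat_lit 55044632316) (nat_lit 3) (nat_lit 4) (nat_lit 4) (nat_lit 5) (nat_lit 4) (nat_lit 4) (nat_lit 335) (nat_lit 251) (nat_lit 194)) (XT.nd (nat_lit 78) (nat_lit 0) (nat_lit 0) (XT.lf (nat_lit 0) (nat_lit 310981374687) (nat_lit 76) (nat_lit 66613487845) (nat_lit 76) (nat_lit 54567579075) (nat_lit 3) (nat_lit 4) (nat_lit 4) (nat_lit 5) (nat_lit 4) (nat_lit 4) (nat_lit 336) (nat_lit 251) (nat_lit 193)) (XT.lf (nat_lit 0) (nat_lit 346272628113) (nat_lit 76) (nat_lit 66118817851) (nat_lit 76) (nat_lit 54062510844) (nat_lit 3) (nat_lit 4) (nat_lit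 4) (nat_lit 5) (nat_lit 4) (nat_lit 4) (nat_lit 337) (nat_lit 251) (nat_lit 192)))))) (XT.nd (nat_lit 390) (nat_lit 0) (nat_lit 0) (XT.nd (nat_lit 156) (nat_lit 0) (nat_lit 0) (XT.nd (nat_lit 78) (nat_lit 0) (nat_lit 0) (XT.lf (nat_lit 0) (nat_lit 384370441497) (nat_lit 76) (nat_lit 65592369630) (nat_lit 76) (nat_lit 53526434625) (nat_lit 3) (nat_lit 4) (nat_lit 4) (nat_lit 5) (nat_lit 4) (nat_lit 4) (nat_lit 338) (nat_lit 251) (nat_lit 191)) (XT.lf (nat_lit 0) (nat_lit 425500579662) (nat_lit 76) (nat_lit 65031023488) (nat_lit 76) (nat_lit 52956173670) (nat_lit 3) (nat_lit 4) (nat_lit 4) (nat_lit 5) (nat_lit 4) (nat_lit 4) (nat_lit 339) (nat_lit 251) (nat_lit 190))) (XT.nd (nat_lit 78) (nat_lit 0) (nat_lit 0) (XT.lf (nat_lit 0) (nat_lit 469906776758) (nat_lit 76) (nat_lit 64431452930) (nat_lit 76) (nat_lit 52348348656) (nat_lit 3) (nat_lit 4) (nat_lit 4) (nat_lit 5) (nat_lit 4) (nat_lit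 4) (nat_lit 340) (nat_lit 251) (nat_lit 189)) (XT.nd (nat_lit 78) (nat_lit 0) (nat_lit 0) (XT.lf (nat_lit 0) (nat_lit 517852180621) (nat_lit 76) (nat_lit 63790104946) (nat_lit 76) (nat_lit 51699357656) (nat_lit 3) (nat_lit 4) (nat_lit 4) (nat_lit 5) (nat_lit 4) (nat_lit 4) (nat_lit 341) (nat_lit 251) (nat_lit 188)) (XT.lf (nat_lit 0) (nat_lit 569620912163) (nat_lit 76) (nat_lit 63103178953) (nat_lit 76) (nat_lit 51005354798) (nat_lit 3) (nat_lit 4) (nat_lit 4) (nat_lit 5) (nat_lit 4) (nat_lit 4) (nat_lit 342) (nat_lit 251) (nat_lit 187))))) (XT.nd (nat_lit 234) (nat_lit 0) (nat_lit 0) (XT.nd (nat_lit 78) (nat_lit 0) (nat_lit 0) (XT.lf (nat_lit 0) (nat_lit 625519749050) (nat_lit 76) (nat_lit 62366604281) (nat_lit 76) (nat_lit 50262227472) (nat_lit 3) (nat_lit 4) (nat_lit 4) (nat_lit 5) (nat_lit 4) (nat_lit 4) (nat_lit 343) (nat_lit 251) (nat_lit 186)) (XT.nd (nat_lit 78) (nat_lit 0) (nat_lit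 0) (XT.lf (nat_lit 0) (nat_lit 685879943652) (nat_lit 76) (nat_lit 61576016041) (nat_lit 76) (nat_lit 49465571960) (nat_lit 3) (nat_lit 4) (nat_lit 4) (nat_lit 5) (nat_lit 4) (nat_lit 4) (nat_lit 344) (nat_lit 251) (nat_lit 185)) (XT.lf (nat_lit 0) (nat_lit 751059186009) (nat_lit 76) (nat_lit 60726729267) (nat_lit 76) (nat_lit 48610667342) (nat_lit 3) (nat_lit 4) (nat_lit 4) (nat_lit 5) (nat_lit 4) (nat_lit 4) (nat_lit 345) (nat_lit 251) (nat_lit 184)))) (XT.nd (nat_lit 78) (nat_lit 0) (nat_lit 0) (XT.lf (nat_lit 0) (nat_lit 821443723483) (nat_lit 76) (nat_lit 59813711148) (nat_lit 76) (nat_lit 47692447515) (nat_lit 3) (nat_lit 4) (nat_lit 4) (nat_lit 5) (nat_lit 4) (nat_lit 4) (nat_lit 346) (nat_lit 251) (nat_lit 183)) (XT.nd (nat_lit 35100) (nat_lit 0) (nat_lit 3724) (XT.lf (nat_lit 0) (nat_lit 897450649631) (nat_lit 76) (nat_lit 58831551206) (nat_lit 76) (nat_lit 46705471177) (nat_lit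 3) (nat_lit 4) (nat_lit 4) (nat_lit 5) (nat_lit 4) (nat_lit 4) (nat_lit 347) (nat_lit 251) (nat_lit 182)) (XT.lf (nat_lit 0) (nat_lit 1870602063) (nat_lit 304) (nat_lit 1208112677) (nat_lit 304) (nat_lit 1208112677) (nat_lit 52) (nat_lit 4) (nat_lit 56) (nat_lit 5) (nat_lit 56) (nat_lit 4) (nat_lit 276) (nat_lit 252) (nat_lit 252))))))))
noncomputable def xc32 : XT := (XT.nd (nat_lit 1560) (nat_lit 608) (nat_lit 0) (XT.nd (nat_lit 780) (nat_lit 836) (nat_lit 0) (XT.nd (nat_lit 390) (nat_lit 988) (nat_lit 0) (XT.nd (nat_lit 156) (nat_lit 684) (nat_lit 0) (XT.nd (nat_lit 78) (nat_lit 228) (nat_lit 0) (XT.lf (nat_lit 0) (nat_lit 3102902142) (nat_lit 304) (nat_lit 4260052725) (nat_lit 0) (nat_lit 1514888212) (nat_lit 48) (nat_lit 5) (nat_lit 52) (nat_lit 4) (nat_lit 48) (nat_lit 4) (nat_lit 277) (nat_lit 252) (nat_lit 251)) (XT.lf (nat_lit 0) (nat_lit 5381009915) (nat_lit 228) (nat_lit 3445109571)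 (nat_lit 228) (nat_lit 386712373) (nat_lit 45) (nat_lit 4) (nat_lit 48) (nat_lit 5) (nat_lit 48) (nat_lit 4) (nat_lit 278) (nat_lit 252) (nat_lit 250))) (XT.nd (nat_lit 78) (nat_lit 456) (nat_lit 0) (XT.lf (nat_lit 0) (nat_lit 5090672326) (nat_lit 228) (nat_lit 3607540303) (nat_lit 0) (nat_lit 881278815) (nat_lit 42) (nat_lit 5) (nat_lit 45) (nat_lit 4) (nat_lit 42) (nat_lit 4) (nat_lit 279) (nat_lit 252) (nat_lit 249)) (XT.nd (nat_lit 78) (nat_lit 152) (nat_lit 0) (XT.lf (nat_lit 0) (nat_lit 873535741) (nat_lit 304) (nat_lit 3619232532) (nat_lit 76) (nat_lit 5487802930) (nat_lit 38) (nat_lit 5) (nat_lit 42) (nat_lit 5) (nat_lit 39) (nat_lit 4) (nat_lit 280) (nat_lit 252) (nat_lit 248)) (XT.lf (nat_lit 0) (nat_lit 6354445881) (nat_lit 228) (nat_lit 3920486966) (nat_lit 0) (nat_lit 143364258) (nat_lit 36) (nat_lit 5) (nat_lit 39) (nat_lit 4) (nat_lit 36) (nat_lit 4) (nat_lit 281) (nat_lit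 252) (nat_lit 247))))) (XT.nd (nat_lit 156) (nat_lit 532) (nat_lit 0) (XT.nd (nat_lit 78) (nat_lit 152) (nat_lit 0) (XT.lf (nat_lit 0) (nat_lit 1266902712) (nat_lit 304) (nat_lit 4594226388) (nat_lit 76) (nat_lit 5032926033) (nat_lit 32) (nat_lit 5) (nat_lit 36) (nat_lit 5) (nat_lit 33) (nat_lit 4) (nat_lit 282) (nat_lit 252) (nat_lit 246)) (XT.lf (nat_lit 0) (nat_lit 5727251131) (nat_lit 152) (nat_lit 1017289813) (nat_lit 228) (nat_lit 4667335974) (nat_lit 30) (nat_lit 5) (nat_lit 32) (nat_lit 5) (nat_lit 33) (nat_lit 4) (nat_lit 283) (nat_lit 252) (nat_lit 245))) (XT.nd (nat_lit 78) (nat_lit 304) (nat_lit 0) (XT.lf (nat_lit 0) (nat_lit 601099892) (nat_lit 228) (nat_lit 7281557645) (nat_lit 76) (nat_lit 4091652276) (nat_lit 27) (nat_lit 5) (nat_lit 30) (nat_lit 5) (nat_lit 28) (nat_lit 4) (nat_lit 284) (nat_lit 252) (nat_lit 244)) (XT.nd (nat_lit 78) (nat_lit 152) (nat_lit 0) (XT.lf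 (nat_lit 0) (nat_lit 3086096692) (nat_lit 152) (nat_lit 2933924031) (nat_lit 228) (nat_lit 6563651594) (nat_lit 25) (nat_lit 5) (nat_lit 27) (nat_lit 5) (nat_lit 28) (nat_lit 4) (nat_lit 285) (nat_lit 252) (nat_lit 243)) (XT.lf (nat_lit 0) (nat_lit 862145971) (nat_lit 152) (nat_lit 10926001310) (nat_lit 152) (nat_lit 1458210461) (nat_lit 23) (nat_lit 4) (nat_lit 25) (nat_lit 5) (nat_lit 25) (nat_lit 4) (nat_lit 286) (nat_lit 252) (nat_lit 242)))))) (XT.nd (nat_lit 390) (nat_lit 380) (nat_lit 0) (XT.nd (nat_lit 156) (nat_lit 304) (nat_lit 0) (XT.nd (nat_lit 78) (nat_lit 76) (nat_lit 0) (XT.lf (nat_lit 0) (nat_lit 3887825048) (nat_lit 228) (nat_lit 2102894649) (nat_lit 76) (nat_lit 7970390160) (nat_lit 22) (nat_lit 5) (nat_lit 25) (nat_lit 5) (nat_lit 23) (nat_lit 4) (nat_lit 287) (nat_lit 252) (nat_lit 241)) (XT.lf (nat_lit 0) (nat_lit 8868133174) (nat_lit 76) (nat_lit 644739389) (nat_lit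 152) (nat_lit 5224146173) (nat_lit 21) (nat_lit 5) (nat_lit 22) (nat_lit 5) (nat_lit 23) (nat_lit 4) (nat_lit 288) (nat_lit 252) (nat_lit 240))) (XT.nd (nat_lit 78) (nat_lit 152) (nat_lit 0) (XT.lf (nat_lit 0) (nat_lit 4911090041) (nat_lit 152) (nat_lit 10643435164) (nat_lit 152) (nat_lit 22416108) (nat_lit 19) (nat_lit 4) (nat_lit 21) (nat_lit 5) (nat_lit 21) (nat_lit 4) (nat_lit 289) (nat_lit 252) (nat_lit 239)) (XT.nd (nat_lit 78) (nat_lit 76) (nat_lit 0) (XT.lf (nat_lit 0) (nat_lit 5311076787) (nat_lit 228) (nat_lit 190819957) (nat_lit 76) (nat_lit 10983296251) (nat_lit 18) (nat_lit 5) (nat_lit 21) (nat_lit 5) (nat_lit 19) (nat_lit 4) (nat_lit 290) (nat_lit 252) (nat_lit 238)) (XT.lf (nat_lit 0) (nat_lit 11041904626) (nat_lit 152) (nat_lit 6338351394) (nat_lit 0) (nat_lit 87479692) (nat_lit 17) (nat_lit 5) (nat_lit 19) (nat_lit 4) (nat_lit 17) (nat_lit 4) (nat_lit 291) (nat_lit 252)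 (nat_lit 237))))) (XT.nd (nat_lit 156) (nat_lit 152) (nat_lit 0) (XT.nd (nat_lit 78) (nat_lit 76) (nat_lit 0) (XT.lf (nat_lit 0) (nat_lit 4546104617) (nat_lit 152) (nat_lit 12656206514) (nat_lit 152) (nat_lit 1328220020) (nat_lit 15) (nat_lit 4) (nat_lit 17) (nat_lit 5) (nat_lit 17) (nat_lit 4) (nat_lit 292) (nat_lit 252) (nat_lit 236)) (XT.lf (nat_lit 0) (nat_lit 3965909598) (nat_lit 228) (nat_lit 3543762151) (nat_lit 76) (nat_lit 12169477989) (nat_lit 14) (nat_lit 5) (nat_lit 17) (nat_lit 5) (nat_lit 15) (nat_lit 4) (nat_lit 293) (nat_lit 252) (nat_lit 235))) (XT.nd (nat_lit 78) (nat_lit 76) (nat_lit 0) (XT.lf (nat_lit 0) (nat_lit 7647525692) (nat_lit 76) (nat_lit 1933777404) (nat_lit 152) (nat_lit 11340219941) (nat_lit 13) (nat_lit 5) (nat_lit 14) (nat_lit 5) (nat_lit 15) (nat_lit 4) (nat_lit 294) (nat_lit 252) (nat_lit 234)) (XT.nd (nat_lit 78) (nat_lit 76) (nat_lit 0) (XT.lf (nat_lit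 0) (nat_lit 15603206012) (nat_lit 152) (nat_lit 2764585082) (nat_lit 0) (nat_lit 3897786139) (nat_lit 13) (nat_lit 5) (nat_lit 15) (nat_lit 4) (nat_lit 13) (nat_lit 4) (nat_lit 295) (nat_lit 252) (nat_lit 233)) (XT.lf (nat_lit 0) (nat_lit 8548611251) (nat_lit 76) (nat_lit 13567572706) (nat_lit 76) (nat_lit 1600649120) (nat_lit 12) (nat_lit 4) (nat_lit 13) (nat_lit 5) (nat_lit 13) (nat_lit 4) (nat_lit 296) (nat_lit 252) (nat_lit 232))))))) (XT.nd (nat_lit 780) (nat_lit 228) (nat_lit 0) (XT.nd (nat_lit 390) (nat_lit 152) (nat_lit 0) (XT.nd (nat_lit 156) (nat_lit 76) (nat_lit 0) (XT.nd (nat_lit 78) (nat_lit 76) (nat_lit 0) (XT.lf (nat_lit 0) (nat_lit 3639352988) (nat_lit 152) (nat_lit 4748383026) (nat_lit 76) (nat_lit 16898707979) (nat_lit 11) (nat_lit 5) (nat_lit 13) (nat_lit 5) (nat_lit 12) (nat_lit 4) (nat_lit 297) (nat_lit 252) (nat_lit 231)) (XT.lf (nat_lit 0) (nat_lit 6432987193) (nat_lit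 76) (nat_lit 2770057261) (nat_lit 152) (nat_lit 17779356046) (nat_lit 10) (nat_lit 5) (nat_lit 11) (nat_lit 5) (nat_lit 12) (nat_lit 4) (nat_lit 298) (nat_lit 252) (nat_lit 230))) (XT.nd (nat_lit 78) (nat_lit 76) (nat_lit 0) (XT.lf (nat_lit 0) (nat_lit 15211770059) (nat_lit 152) (nat_lit 10429503987) (nat_lit 0) (nat_lit 3172870995) (nat_lit 10) (nat_lit 5) (nat_lit 12) (nat_lit 4) (nat_lit 10) (nat_lit 4) (nat_lit 299) (nat_lit 252) (nat_lit 229)) (XT.nd (nat_lit 78) (nat_lit 0) (nat_lit 0) (XT.lf (nat_lit 0) (nat_lit 233729478) (nat_lit 76) (nat_lit 21392259707) (nat_lit 76) (nat_lit 9170300608) (nat_lit 9) (nat_lit 4) (nat_lit 10) (nat_lit 5) (nat_lit 10) (nat_lit 4) (nat_lit 300) (nat_lit 252) (nat_lit 228)) (XT.lf (nat_lit 0) (nat_lit 11905281598) (nat_lit 76) (nat_lit 16710087733) (nat_lit 76) (nat_lit 4318628603) (nat_lit 9) (nat_lit 4) (nat_lit 10) (nat_lit 5) (nat_lit 10) (nat_lit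 4) (nat_lit 301) (nat_lit 252) (nat_lit 227))))) (XT.nd (nat_lit 156) (nat_lit 76) (nat_lit 0) (XT.nd (nat_lit 78) (nat_lit 0) (nat_lit 0) (XT.lf (nat_lit 0) (nat_lit 779005544) (nat_lit 152) (nat_lit 10951442236) (nat_lit 76) (nat_lit 23517272242) (nat_lit 8) (nat_lit 5) (nat_lit 10) (nat_lit 5) (nat_lit 9) (nat_lit 4) (nat_lit 302) (nat_lit 252) (nat_lit 226)) (XT.lf (nat_lit 0) (nat_lit 6030828570) (nat_lit 152) (nat_lit 330523991) (nat_lit 76) (nat_lit 31386839288) (nat_lit 8) (nat_lit 5) (nat_lit 10) (nat_lit 5) (nat_lit 9) (nat_lit 4) (nat_lit 303) (nat_lit 252) (nat_lit 225))) (XT.nd (nat_lit 78) (nat_lit 0) (nat_lit 0) (XT.lf (nat_lit 0) (nat_lit 11326935752) (nat_lit 76) (nat_lit 456094932) (nat_lit 152) (nat_lit 28661729372) (nat_lit 7) (nat_lit 5) (nat_lit 8) (nat_lit 5) (nat_lit 9) (nat_lit 4) (nat_lit 304) (nat_lit 252) (nat_lit 224)) (XT.nd (nat_lit 78) (nat_lit 0) (nat_lit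 0) (XT.lf (nat_lit 0) (nat_lit 18000448612) (nat_lit 152) (nat_lit 19692031256) (nat_lit 0) (nat_lit 5664386961) (nat_lit 7) (nat_lit 5) (nat_lit 9) (nat_lit 4) (nat_lit 7) (nat_lit 4) (nat_lit 305) (nat_lit 252) (nat_lit 223)) (XT.lf (nat_lit 0) (nat_lit 24636594303) (nat_lit 152) (nat_lit 9678674333) (nat_lit 0) (nat_lit 12190667059) (nat_lit 7) (nat_lit 5) (nat_lit 9) (nat_lit 4) (nat_lit 7) (nat_lit 4) (nat_lit 306) (nat_lit 252) (nat_lit 222)))))) (XT.nd (nat_lit 390) (nat_lit 152) (nat_lit 0) (XT.nd (nat_lit 156) (nat_lit 0) (nat_lit 0) (XT.nd (nat_lit 78) (nat_lit 0) (nat_lit 0) (XT.lf (nat_lit 0) (nat_lit 1021396872) (nat_lit 76) (nat_lit 30718222141) (nat_lit 76) (nat_lit 18170567494) (nat_lit 6) (nat_lit 4) (nat_lit 7) (nat_lit 5) (nat_lit 7) (nat_lit 4) (nat_lit 307) (nat_lit 252) (nat_lit 221)) (XT.lf (nat_lit 0) (nat_lit 12782441177) (nat_lit 76) (nat_lit 26720808191) (nat_lit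 76) (nat_lit 14078961506) (nat_lit 6) (nat_lit 4) (nat_lit 7) (nat_lit 5) (nat_lit 7) (nat_lit 4) (nat_lit 308) (nat_lit 252) (nat_lit 220))) (XT.nd (nat_lit 78) (nat_lit 0) (nat_lit 0) (XT.lf (nat_lit 0) (nat_lit 25354132973) (nat_lit 76) (nat_lit 22463251440) (nat_lit 76) (nat_lit 9734189905) (nat_lit 6) (nat_lit 4) (nat_lit 7) (nat_lit 5) (nat_lit 7) (nat_lit 4) (nat_lit 309) (nat_lit 252) (nat_lit 219)) (XT.nd (nat_lit 78) (nat_lit 0) (nat_lit 0) (XT.lf (nat_lit 0) (nat_lit 38810971175) (nat_lit 76) (nat_lit 17920321924) (nat_lit 76) (nat_lit 5110505898) (nat_lit 6) (nat_lit 4) (nat_lit 7) (nat_lit 5) (nat_lit 7) (nat_lit 4) (nat_lit 310) (nat_lit 252) (nat_lit 218)) (XT.lf (nat_lit 0) (nat_lit 53232700010) (nat_lit 76) (nat_lit 13065098578) (nat_lit 76) (nat_lit 180509875) (nat_lit 6) (nat_lit 4) (nat_lit 7) (nat_lit 5) (nat_lit 7) (nat_lit 4) (nat_lit 311) (nat_lit 252) (nat_lit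 217))))) (XT.nd (nat_lit 156) (nat_lit 0) (nat_lit 0) (XT.nd (nat_lit 78) (nat_lit 76) (nat_lit 0) (XT.lf (nat_lit 0) (nat_lit 4922260783) (nat_lit 152) (nat_lit 2863188057) (nat_lit 76) (nat_lit 63699159922) (nat_lit 5) (nat_lit 5) (nat_lit 7) (nat_lit 5) (nat_lit 6) (nat_lit 4) (nat_lit 312) (nat_lit 252) (nat_lit 216)) (XT.lf (nat_lit 0) (nat_lit 8522034984) (nat_lit 76) (nat_lit 1985264121) (nat_lit 152) (nat_lit 66379981003) (nat_lit 4) (nat_lit 5) (nat_lit 5) (nat_lit 5) (nat_lit 6) (nat_lit 4) (nat_lit 313) (nat_lit 252) (nat_lit 215))) (XT.nd (nat_lit 78) (nat_lit 0) (nat_lit 0) (XT.lf (nat_lit 0) (nat_lit 16605653858) (nat_lit 152) (nat_lit 61962120069) (nat_lit 0) (nat_lit 4151096578) (nat_lit 4) (nat_lit 5) (nat_lit 6) (nat_lit 4) (nat_lit 4) (nat_lit 4) (nat_lit 314) (nat_lit 252) (nat_lit 214)) (XT.nd (nat_lit 78) (nat_lit 0) (nat_lit 0) (XT.lf (nat_lit 0) (nat_lit 23178143543)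 (nat_lit 152) (nat_lit 55168316715) (nat_lit 0) (nat_lit 10671243263) (nat_lit 4) (nat_lit 5) (nat_lit 6) (nat_lit 4) (nat_lit 4) (nat_lit 4) (nat_lit 315) (nat_lit 252) (nat_lit 213)) (XT.lf (nat_lit 0) (nat_lit 30232720709) (nat_lit 152) (nat_lit 47912579949) (nat_lit 0) (nat_lit 17677354689) (nat_lit 4) (nat_lit 5) (nat_lit 6) (nat_lit 4) (nat_lit 4) (nat_lit 4) (nat_lit 316) (nat_lit 252) (nat_lit 212))))))))
noncomputable def xc33 : XT := (XT.nd (nat_lit 1560) (nat_lit 0) (nat_lit 0) (XT.nd (nat_lit 780) (nat_lit 0) (nat_lit 0) (XT.nd (nat_lit 390) (nat_lit 76) (nat_lit 0) (XT.nd (nat_lit 156) (nat_lit 0) (nat_lit 0) (XT.nd (nat_lit 78) (nat_lit 0) (nat_lit 0) (XT.lf (nat_lit 0) (nat_lit 37811190260) (nat_lit 152) (nat_lit 40151912814) (nat_lit 0) (nat_lit 25210948554) (nat_lit 4) (nat_lit 5) (nat_lit 6) (nat_lit 4) (nat_lit 4) (nat_lit 4) (nat_lit 317) (nat_lit 252) (nat_lit 211))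 (XT.lf (nat_lit 0) (nat_lit 45958461644) (nat_lit 152) (nat_lit 31840326171) (nat_lit 0) (nat_lit 33316668377) (nat_lit 4) (nat_lit 5) (nat_lit 6) (nat_lit 4) (nat_lit 4) (nat_lit 4) (nat_lit 318) (nat_lit 252) (nat_lit 210))) (XT.nd (nat_lit 78) (nat_lit 0) (nat_lit 0) (XT.lf (nat_lit 0) (nat_lit 54722814987) (nat_lit 152) (nat_lit 22928566173) (nat_lit 0) (nat_lit 42042548053) (nat_lit 4) (nat_lit 5) (nat_lit 6) (nat_lit 4) (nat_lit 4) (nat_lit 4) (nat_lit 319) (nat_lit 252) (nat_lit 209)) (XT.nd (nat_lit 78) (nat_lit 0) (nat_lit 0) (XT.lf (nat_lit 0) (nat_lit 64156187199) (nat_lit 152) (nat_lit 13363822391) (nat_lit 0) (nat_lit 51440296499) (nat_lit 4) (nat_lit 5) (nat_lit 6) (nat_lit 4) (nat_lit 4) (nat_lit 4) (nat_lit 320) (nat_lit 252) (nat_lit 208)) (XT.lf (nat_lit 0) (nat_lit 74314479745) (nat_lit 152) (nat_lit 3089414861) (nat_lit 0) (nat_lit 61565604076) (nat_lit 4) (nat_lit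 5) (nat_lit 6) (nat_lit 4) (nat_lit 4) (nat_lit 4) (nat_lit 321) (nat_lit 252) (nat_lit 207))))) (XT.nd (nat_lit 156) (nat_lit 0) (nat_lit 0) (XT.nd (nat_lit 78) (nat_lit 0) (nat_lit 0) (XT.lf (nat_lit 0) (nat_lit 8218587934) (nat_lit 76) (nat_lit 77167617169) (nat_lit 76) (nat_lit 64388199862) (nat_lit 3) (nat_lit 4) (nat_lit 4) (nat_lit 5) (nat_lit 4) (nat_lit 4) (nat_lit 322) (nat_lit 252) (nat_lit 206)) (XT.lf (nat_lit 0) (nat_lit 20492383417) (nat_lit 76) (nat_lit 76878827659) (nat_lit 76) (nat_lit 64071131059) (nat_lit 3) (nat_lit 4) (nat_lit 4) (nat_lit 5) (nat_lit 4) (nat_lit 4) (nat_lit 323) (nat_lit 252) (nat_lit 205))) (XT.nd (nat_lit 78) (nat_lit 0) (nat_lit 0) (XT.lf (nat_lit 0) (nat_lit 33702555183) (nat_lit 76) (nat_lit 76588135468) (nat_lit 76) (nat_lit 63754254336) (nat_lit 3) (nat_lit 4) (nat_lit 4) (nat_lit 5) (nat_lit 4) (nat_lit 4) (nat_lit 324) (nat_lit 252) (nat_lit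 204)) (XT.nd (nat_lit 78) (nat_lit 0) (nat_lit 0) (XT.lf (nat_lit 0) (nat_lit 47927385731) (nat_lit 76) (nat_lit 76293817975) (nat_lit 76) (nat_lit 63435691906) (nat_lit 3) (nat_lit 4) (nat_lit 4) (nat_lit 5) (nat_lit 4) (nat_lit 4) (nat_lit 325) (nat_lit 252) (nat_lit 203)) (XT.lf (nat_lit 0) (nat_lit 63251170353) (nat_lit 76) (nat_lit 75994131075) (nat_lit 76) (nat_lit 63113555991) (nat_lit 3) (nat_lit 4) (nat_lit 4) (nat_lit 5) (nat_lit 4) (nat_lit 4) (nat_lit 326) (nat_lit 252) (nat_lit 202)))))) (XT.nd (nat_lit 390) (nat_lit 0) (nat_lit 0) (XT.nd (nat_lit 156) (nat_lit 0) (nat_lit 0) (XT.nd (nat_lit 78) (nat_lit 0) (nat_lit 0) (XT.lf (nat_lit 0) (nat_lit 79764716662) (nat_lit 76) (nat_lit 75687298848) (nat_lit 76) (nat_lit 62785937638) (nat_lit 3) (nat_lit 4) (nat_lit 4) (nat_lit 5) (nat_lit 4) (nat_lit 4) (nat_lit 327) (nat_lit 252) (nat_lit 201)) (XT.lf (nat_lit 0) (nat_lit 97565882710)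 (nat_lit 76) (nat_lit 75371503027) (nat_lit 76) (nat_lit 62450895404) (nat_lit 3) (nat_lit 4) (nat_lit 4) (nat_lit 5) (nat_lit 4) (nat_lit 4) (nat_lit 328) (nat_lit 252) (nat_lit 200))) (XT.nd (nat_lit 78) (nat_lit 0) (nat_lit 0) (XT.lf (nat_lit 0) (nat_lit 116760156889) (nat_lit 76) (nat_lit 75044872230) (nat_lit 76) (nat_lit 62106443855) (nat_lit 3) (nat_lit 4) (nat_lit 4) (nat_lit 5) (nat_lit 4) (nat_lit 4) (nat_lit 329) (nat_lit 252) (nat_lit 199)) (XT.nd (nat_lit 78) (nat_lit 0) (nat_lit 0) (XT.lf (nat_lit 0) (nat_lit 137461283044) (nat_lit 76) (nat_lit 74705470867) (nat_lit 76) (nat_lit 61750541796) (nat_lit 3) (nat_lit 4) (nat_lit 4) (nat_lit 5) (nat_lit 4) (nat_lit 4) (nat_lit 330) (nat_lit 252) (nat_lit 198)) (XT.lf (nat_lit 0) (nat_lit 159791934518) (nat_lit 76) (nat_lit 74351287671) (nat_lit 76) (nat_lit 61381080177) (nat_lit 3) (nat_lit 4) (nat_lit 4) (nat_lit 5) (nat_lit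 4) (nat_lit 4) (nat_lit 331) (nat_lit 252) (nat_lit 197))))) (XT.nd (nat_lit 156) (nat_lit 0) (nat_lit 0) (XT.nd (nat_lit 78) (nat_lit 0) (nat_lit 0) (XT.lf (nat_lit 0) (nat_lit 183884441095) (nat_lit 76) (nat_lit 73980223778) (nat_lit 76) (nat_lit 60995869597) (nat_lit 3) (nat_lit 4) (nat_lit 4) (nat_lit 5) (nat_lit 4) (nat_lit 4) (nat_lit 332) (nat_lit 252) (nat_lit 196)) (XT.lf (nat_lit 0) (nat_lit 209881573186) (nat_lit 76) (nat_lit 73590080291) (nat_lit 76) (nat_lit 60592627325) (nat_lit 3) (nat_lit 4) (nat_lit 4) (nat_lit 5) (nat_lit 4) (nat_lit 4) (nat_lit 333) (nat_lit 252) (nat_lit 195))) (XT.nd (nat_lit 78) (nat_lit 0) (nat_lit 0) (XT.lf (nat_lit 0) (nat_lit 237937387870) (nat_lit 76) (nat_lit 73178545250) (nat_lit 76) (nat_lit 60168963779) (nat_lit 3) (nat_lit 4) (nat_lit 4) (nat_lit 5) (nat_lit 4) (nat_lit 4) (nat_lit 334) (nat_lit 252) (nat_lit 194)) (XT.nd (nat_lit 78) (nat_lit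 0) (nat_lit 0) (XT.lf (nat_lit 0) (nat_lit 268218141826) (nat_lit 76) (nat_lit 72743179927) (nat_lit 76) (nat_lit 59722368359) (nat_lit 3) (nat_lit 4) (nat_lit 4) (nat_lit 5) (nat_lit 4) (nat_lit 4) (nat_lit 335) (nat_lit 252) (nat_lit 193)) (XT.lf (nat_lit 0) (nat_lit 300903276558) (nat_lit 76) (nat_lit 72281404380) (nat_lit 76) (nat_lit 59250194574) (nat_lit 3) (nat_lit 4) (nat_lit 4) (nat_lit 5) (nat_lit 4) (nat_lit 4) (nat_lit 336) (nat_lit 252) (nat_lit 192))))))) (XT.nd (nat_lit 780) (nat_lit 0) (nat_lit 0) (XT.nd (nat_lit 390) (nat_lit 0) (nat_lit 0) (XT.nd (nat_lit 156) (nat_lit 0) (nat_lit 0) (XT.nd (nat_lit 78) (nat_lit 0) (nat_lit 0) (XT.lf (nat_lit 0) (nat_lit 336186481755) (nat_lit 76) (nat_lit 71790482161) (nat_lit 76) (nat_lit 58749644358) (nat_lit 3) (nat_lit 4) (nat_lit 4) (nat_lit 5) (nat_lit 4) (nat_lit 4) (nat_lit 337) (nat_lit 252) (nat_lit 191)) (XT.lf (nat_lit 0)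 (nat_lit 374276843077) (nat_lit 76) (nat_lit 71267504102) (nat_lit 76) (nat_lit 58217751486) (nat_lit 3) (nat_lit 4) (nat_lit 4) (nat_lit 5) (nat_lit 4) (nat_lit 4) (nat_lit 338) (nat_lit 252) (nat_lit 190))) (XT.nd (nat_lit 78) (nat_lit 0) (nat_lit 0) (XT.lf (nat_lit 0) (nat_lit 415400081183) (nat_lit 76) (nat_lit 70709371074) (nat_lit 76) (nat_lit 57651364001) (nat_lit 3) (nat_lit 4) (nat_lit 4) (nat_lit 5) (nat_lit 4) (nat_lit 4) (nat_lit 339) (nat_lit 252) (nat_lit 189)) (XT.nd (nat_lit 78) (nat_lit 0) (nat_lit 0) (XT.lf (nat_lit 0) (nat_lit 459799889337) (nat_lit 76) (nat_lit 70112775620) (nat_lit 76) (nat_lit 57047125533) (nat_lit 3) (nat_lit 4) (nat_lit 4) (nat_lit 5) (nat_lit 4) (nat_lit 4) (nat_lit 340) (nat_lit 252) (nat_lit 188)) (XT.lf (nat_lit 0) (nat_lit 507739377512) (nat_lit 76) (nat_lit 69474182362) (nat_lit 76) (nat_lit 56401455408) (nat_lit 3) (nat_lit 4) (nat_lit 4)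 (nat_lit 5) (nat_lit 4) (nat_lit 4) (nat_lit 341) (nat_lit 252) (nat_lit 187))))) (XT.nd (nat_lit 156) (nat_lit 0) (nat_lit 0) (XT.nd (nat_lit 78) (nat_lit 0) (nat_lit 0) (XT.lf (nat_lit 0) (nat_lit 559502631565) (nat_lit 76) (nat_lit 68789807042) (nat_lit 76) (nat_lit 55710527435) (nat_lit 3) (nat_lit 4) (nat_lit 4) (nat_lit 5) (nat_lit 4) (nat_lit 4) (nat_lit 342) (nat_lit 252) (nat_lit 186)) (XT.lf (nat_lit 0) (nat_lit 615396396704) (nat_lit 76) (nat_lit 68055594104) (nat_lit 76) (nat_lit 54970247225) (nat_lit 3) (nat_lit 4) (nat_lit 4) (nat_lit 5) (nat_lit 4) (nat_lit 4) (nat_lit 343) (nat_lit 252) (nat_lit 185))) (XT.nd (nat_lit 78) (nat_lit 0) (nat_lit 0) (XT.lf (nat_lit 0) (nat_lit 675751895241) (nat_lit 76) (nat_lit 67267192655) (nat_lit 76) (nat_lit 54176227931) (nat_lit 3) (nat_lit 4) (nat_lit 4) (nat_lit 5) (nat_lit 4) (nat_lit 4) (nat_lit 344) (nat_lit 252) (nat_lit 184))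 (XT.nd (nat_lit 78) (nat_lit 0) (nat_lit 0) (XT.lf (nat_lit 0) (nat_lit 740926789391) (nat_lit 76) (nat_lit 66419930687) (nat_lit 76) (nat_lit 53323764256) (nat_lit 3) (nat_lit 4) (nat_lit 4) (nat_lit 5) (nat_lit 4) (nat_lit 4) (nat_lit 345) (nat_lit 252) (nat_lit 183)) (XT.lf (nat_lit 0) (nat_lit 811307300748) (nat_lit 76) (nat_lit 65508787389) (nat_lit 76) (nat_lit 52407804561) (nat_lit 3) (nat_lit 4) (nat_lit 4) (nat_lit 5) (nat_lit 4) (nat_lit 4) (nat_lit 346) (nat_lit 252) (nat_lit 182)))))) (XT.nd (nat_lit 35256) (nat_lit 0) (nat_lit 2204) (XT.nd (nat_lit 35022) (nat_lit 0) (nat_lit 3420) (XT.nd (nat_lit 34944) (nat_lit 0) (nat_lit 4332) (XT.lf (nat_lit 0) (nat_lit 887310499009) (nat_lit 76) (nat_lit 64528363392) (nat_lit 76) (nat_lit 51422920939) (nat_lit 3) (nat_lit 4) (nat_lit 4) (nat_lit 5) (nat_lit 4) (nat_lit 4) (nat_lit 347) (nat_lit 252) (nat_lit 181)) (XT.lf (nat_lit 0)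 (nat_lit 1004111538) (nat_lit 304) (nat_lit 1508390927) (nat_lit 304) (nat_lit 1508390927) (nat_lit 60) (nat_lit 4) (nat_lit 64) (nat_lit 5) (nat_lit 64) (nat_lit 4) (nat_lit 274) (nat_lit 253) (nat_lit 253))) (XT.nd (nat_lit 78) (nat_lit 608) (nat_lit 0) (XT.lf (nat_lit 0) (nat_lit 2297854562) (nat_lit 304) (nat_lit 5504183209) (nat_lit 0) (nat_lit 497046765) (nat_lit 56) (nat_lit 5) (nat_lit 60) (nat_lit 4) (nat_lit 56) (nat_lit 4) (nat_lit 275) (nat_lit 253) (nat_lit 252)) (XT.nd (nat_lit 78) (nat_lit 304) (nat_lit 0) (XT.lf (nat_lit 0) (nat_lit 3503535185) (nat_lit 304) (nat_lit 4273910700) (nat_lit 304) (nat_lit 805688277) (nat_lit 52) (nat_lit 4) (nat_lit 56) (nat_lit 5) (nat_lit 56) (nat_lit 4) (nat_lit 276) (nat_lit 253) (nat_lit 251)) (XT.lf (nat_lit 0) (nat_lit 4128583259) (nat_lit 228) (nat_lit 330298747) (nat_lit 304) (nat_lit 4437721442) (nat_lit 48) (nat_lit 5) (nat_lit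 51) (nat_lit 5) (nat_lit 52) (nat_lit 4) (nat_lit 277) (nat_lit 253) (nat_lit 250))))) (XT.nd (nat_lit 156) (nat_lit 760) (nat_lit 0) (XT.nd (nat_lit 78) (nat_lit 152) (nat_lit 0) (XT.lf (nat_lit 0) (nat_lit 737785439) (nat_lit 304) (nat_lit 4622458080) (nat_lit 76) (nat_lit 3880063650) (nat_lit 44) (nat_lit 5) (nat_lit 48) (nat_lit 5) (nat_lit 45) (nat_lit 4) (nat_lit 278) (nat_lit 253) (nat_lit 249)) (XT.lf (nat_lit 0) (nat_lit 4937012945) (nat_lit 152) (nat_lit 1078864046) (nat_lit 228) (nat_lit 3600450315) (nat_lit 42) (nat_lit 5) (nat_lit 44) (nat_lit 5) (nat_lit 45) (nat_lit 4) (nat_lit 279) (nat_lit 253) (nat_lit 248))) (XT.nd (nat_lit 78) (nat_lit 456) (nat_lit 0) (XT.lf (nat_lit 0) (nat_lit 1543797560) (nat_lit 304) (nat_lit 4990236460) (nat_lit 76) (nat_lit 3492442454) (nat_lit 38) (nat_lit 5) (nat_lit 42) (nat_lit 5) (nat_lit 39) (nat_lit 4) (nat_lit 280) (nat_lit 253) (nat_lit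 247)) (XT.nd (nat_lit 78) (nat_lit 304) (nat_lit 0) (XT.lf (nat_lit 0) (nat_lit 4864520290) (nat_lit 152) (nat_lit 1988578169) (nat_lit 228) (nat_lit 3619942918) (nat_lit 36) (nat_lit 5) (nat_lit 38) (nat_lit 5) (nat_lit 39) (nat_lit 4) (nat_lit 281) (nat_lit 253) (nat_lit 246)) (XT.lf (nat_lit 0) (nat_lit 1494646552) (nat_lit 304) (nat_lit 6590637857) (nat_lit 76) (nat_lit 2873494285) (nat_lit 32) (nat_lit 5) (nat_lit 36) (nat_lit 5) (nat_lit 33) (nat_lit 4) (nat_lit 282) (nat_lit 253) (nat_lit 245))))))))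
noncomputable def xc34 : XT := (XT.nd (nat_lit 1560) (nat_lit 380) (nat_lit 0) (XT.nd (nat_lit 780) (nat_lit 608) (nat_lit 0) (XT.nd (nat_lit 390) (nat_lit 380) (nat_lit 0) (XT.nd (nat_lit 156) (nat_lit 380) (nat_lit 0) (XT.nd (nat_lit 78) (nat_lit 228) (nat_lit 0) (XT.lf (nat_lit 0) (nat_lit 3453413888) (nat_lit 152) (nat_lit 3350743387) (nat_lit 228) (nat_lit 4681060679) (nat_lit 30) (nat_lit 5) (nat_lit 32) (nat_lit 5) (nat_lit 33) (nat_lit 4) (nat_lit 283) (nat_lit 253) (nat_lit 244)) (XT.lf (nat_lit 0) (nat_lit 380386539) (nat_lit 228) (nat_lit 9956682415) (nat_lit 76) (nat_lit 1721150161) (nat_lit 27) (nat_lit 5) (nat_lit 30) (nat_lit 5) (nat_lit 28) (nat_lit 4) (nat_lit 284) (nat_lit 253) (nat_lit 243))) (XT.nd (nat_lit 78) (nat_lit 228) (nat_lit 0) (XT.lf (nat_lit 0) (nat_lit 119378693) (nat_lit 152) (nat_lit 5510908192) (nat_lit 228) (nat_lit 7045918126) (nat_lit 25) (nat_lit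 5) (nat_lit 27) (nat_lit 5) (nat_lit 28) (nat_lit 4) (nat_lit 285) (nat_lit 253) (nat_lit 242)) (XT.nd (nat_lit 78) (nat_lit 228) (nat_lit 0) (XT.lf (nat_lit 0) (nat_lit 10965839080) (nat_lit 152) (nat_lit 265356484) (nat_lit 228) (nat_lit 2116215363) (nat_lit 25) (nat_lit 5) (nat_lit 27) (nat_lit 5) (nat_lit 28) (nat_lit 4) (nat_lit 286) (nat_lit 253) (nat_lit 241)) (XT.lf (nat_lit 0) (nat_lit 3093886803) (nat_lit 228) (nat_lit 5701767663) (nat_lit 76) (nat_lit 5275012661) (nat_lit 22) (nat_lit 5) (nat_lit 25) (nat_lit 5) (nat_lit 23) (nat_lit 4) (nat_lit 287) (nat_lit 253) (nat_lit 240))))) (XT.nd (nat_lit 156) (nat_lit 152) (nat_lit 0) (XT.nd (nat_lit 78) (nat_lit 152) (nat_lit 0) (XT.lf (nat_lit 0) (nat_lit 4969974518) (nat_lit 76) (nat_lit 3582720387) (nat_lit 152) (nat_lit 6302323386) (nat_lit 21) (nat_lit 5) (nat_lit 22) (nat_lit 5) (nat_lit 23) (nat_lit 4) (nat_lit 288) (nat_lit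 253) (nat_lit 239)) (XT.lf (nat_lit 0) (nat_lit 632848375) (nat_lit 152) (nat_lit 13747612677) (nat_lit 152) (nat_lit 1325294802) (nat_lit 19) (nat_lit 4) (nat_lit 21) (nat_lit 5) (nat_lit 21) (nat_lit 4) (nat_lit 289) (nat_lit 253) (nat_lit 238))) (XT.nd (nat_lit 78) (nat_lit 76) (nat_lit 0) (XT.lf (nat_lit 0) (nat_lit 3951934593) (nat_lit 228) (nat_lit 4744470768) (nat_lit 76) (nat_lit 7923623846) (nat_lit 18) (nat_lit 5) (nat_lit 21) (nat_lit 5) (nat_lit 19) (nat_lit 4) (nat_lit 290) (nat_lit 253) (nat_lit 237)) (XT.nd (nat_lit 78) (nat_lit 0) (nat_lit 0) (XT.lf (nat_lit 0) (nat_lit 6266969410) (nat_lit 76) (nat_lit 3247735825) (nat_lit 152) (nat_lit 8096368072) (nat_lit 17) (nat_lit 5) (nat_lit 18) (nat_lit 5) (nat_lit 19) (nat_lit 4) (nat_lit 291) (nat_lit 253) (nat_lit 236)) (XT.lf (nat_lit 0) (nat_lit 15466170448) (nat_lit 152) (nat_lit 705743445) (nat_lit 0) (nat_lit 2512493140)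 (nat_lit 17) (nat_lit 5) (nat_lit 19) (nat_lit 4) (nat_lit 17) (nat_lit 4) (nat_lit 292) (nat_lit 253) (nat_lit 235)))))) (XT.nd (nat_lit 390) (nat_lit 152) (nat_lit 0) (XT.nd (nat_lit 156) (nat_lit 152) (nat_lit 0) (XT.nd (nat_lit 78) (nat_lit 76) (nat_lit 0) (XT.lf (nat_lit 0) (nat_lit 2040318899) (nat_lit 228) (nat_lit 9091292392) (nat_lit 76) (nat_lit 8707773520) (nat_lit 14) (nat_lit 5) (nat_lit 17) (nat_lit 5) (nat_lit 15) (nat_lit 4) (nat_lit 293) (nat_lit 253) (nat_lit 234)) (XT.lf (nat_lit 0) (nat_lit 1775386297) (nat_lit 76) (nat_lit 5710407674) (nat_lit 152) (nat_lit 13604534545) (nat_lit 13) (nat_lit 5) (nat_lit 14) (nat_lit 5) (nat_lit 15) (nat_lit 4) (nat_lit 294) (nat_lit 253) (nat_lit 233))) (XT.nd (nat_lit 78) (nat_lit 152) (nat_lit 0) (XT.lf (nat_lit 0) (nat_lit 13373371567) (nat_lit 152) (nat_lit 8880206000) (nat_lit 0) (nat_lit 187590381) (nat_lit 13) (nat_lit 5) (nat_lit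 15) (nat_lit 4) (nat_lit 13) (nat_lit 4) (nat_lit 295) (nat_lit 253) (nat_lit 232)) (XT.nd (nat_lit 78) (nat_lit 76) (nat_lit 0) (XT.lf (nat_lit 0) (nat_lit 2102948286) (nat_lit 76) (nat_lit 17612987161) (nat_lit 76) (nat_lit 4185072907) (nat_lit 12) (nat_lit 4) (nat_lit 13) (nat_lit 5) (nat_lit 13) (nat_lit 4) (nat_lit 296) (nat_lit 253) (nat_lit 231)) (XT.lf (nat_lit 0) (nat_lit 1070041834) (nat_lit 152) (nat_lit 11458525777) (nat_lit 76) (nat_lit 12947505731) (nat_lit 11) (nat_lit 5) (nat_lit 13) (nat_lit 5) (nat_lit 12) (nat_lit 4) (nat_lit 297) (nat_lit 253) (nat_lit 230))))) (XT.nd (nat_lit 156) (nat_lit 76) (nat_lit 0) (XT.nd (nat_lit 78) (nat_lit 76) (nat_lit 0) (XT.lf (nat_lit 0) (nat_lit 6470699057) (nat_lit 152) (nat_lit 594768549) (nat_lit 76) (nat_lit 20114766096) (nat_lit 11) (nat_lit 5) (nat_lit 13) (nat_lit 5) (nat_lit 12) (nat_lit 4) (nat_lit 298) (nat_lit 253) (nat_lit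 229)) (XT.lf (nat_lit 0) (nat_lit 11284091549) (nat_lit 76) (nat_lit 1074935866) (nat_lit 152) (nat_lit 16659018970) (nat_lit 10) (nat_lit 5) (nat_lit 11) (nat_lit 5) (nat_lit 12) (nat_lit 4) (nat_lit 299) (nat_lit 253) (nat_lit 228))) (XT.nd (nat_lit 78) (nat_lit 76) (nat_lit 0) (XT.lf (nat_lit 0) (nat_lit 18696919876) (nat_lit 152) (nat_lit 7162488313) (nat_lit 0) (nat_lit 5144643984) (nat_lit 10) (nat_lit 5) (nat_lit 12) (nat_lit 4) (nat_lit 10) (nat_lit 4) (nat_lit 300) (nat_lit 253) (nat_lit 227)) (XT.nd (nat_lit 78) (nat_lit 0) (nat_lit 0) (XT.lf (nat_lit 0) (nat_lit 4175563026) (nat_lit 76) (nat_lit 21341949217) (nat_lit 76) (nat_lit 7632728852) (nat_lit 9) (nat_lit 4) (nat_lit 10) (nat_lit 5) (nat_lit 10) (nat_lit 4) (nat_lit 301) (nat_lit 253) (nat_lit 226)) (XT.lf (nat_lit 0) (nat_lit 16490236709) (nat_lit 76) (nat_lit 16415699135) (nat_lit 76) (nat_lit 2561159812) (nat_lit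 9) (nat_lit 4) (nat_lit 10) (nat_lit 5) (nat_lit 10) (nat_lit 4) (nat_lit 302) (nat_lit 253) (nat_lit 225))))))) (XT.nd (nat_lit 780) (nat_lit 76) (nat_lit 0) (XT.nd (nat_lit 390) (nat_lit 152) (nat_lit 0) (XT.nd (nat_lit 156) (nat_lit 0) (nat_lit 0) (XT.nd (nat_lit 78) (nat_lit 76) (nat_lit 0) (XT.lf (nat_lit 0) (nat_lit 2726188261) (nat_lit 152) (nat_lit 8400407976) (nat_lit 76) (nat_lit 26845326789) (nat_lit 8) (nat_lit 5) (nat_lit 10) (nat_lit 5) (nat_lit 9) (nat_lit 4) (nat_lit 303) (nat_lit 253) (nat_lit 224)) (XT.lf (nat_lit 0) (nat_lit 2909441077) (nat_lit 76) (nat_lit 5394521153) (nat_lit 152) (nat_lit 32373281704) (nat_lit 7) (nat_lit 5) (nat_lit 8) (nat_lit 5) (nat_lit 9) (nat_lit 4) (nat_lit 304) (nat_lit 253) (nat_lit 223))) (XT.nd (nat_lit 78) (nat_lit 0) (nat_lit 0) (XT.lf (nat_lit 0) (nat_lit 14402760050) (nat_lit 152) (nat_lit 28341257605) (nat_lit 0) (nat_lit 851293032)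 (nat_lit 7) (nat_lit 5) (nat_lit 9) (nat_lit 4) (nat_lit 7) (nat_lit 4) (nat_lit 305) (nat_lit 253) (nat_lit 222)) (XT.nd (nat_lit 78) (nat_lit 0) (nat_lit 0) (XT.lf (nat_lit 0) (nat_lit 21000463672) (nat_lit 152) (nat_lit 18398595562) (nat_lit 0) (nat_lit 7347269253) (nat_lit 7) (nat_lit 5) (nat_lit 9) (nat_lit 4) (nat_lit 7) (nat_lit 4) (nat_lit 306) (nat_lit 253) (nat_lit 221)) (XT.lf (nat_lit 0) (nat_lit 28051947007) (nat_lit 152) (nat_lit 7796673655) (nat_lit 0) (nat_lit 14304560548) (nat_lit 7) (nat_lit 5) (nat_lit 9) (nat_lit 4) (nat_lit 7) (nat_lit 4) (nat_lit 307) (nat_lit 253) (nat_lit 220))))) (XT.nd (nat_lit 156) (nat_lit 76) (nat_lit 0) (XT.nd (nat_lit 78) (nat_lit 0) (nat_lit 0) (XT.lf (nat_lit 0) (nat_lit 3643963920) (nat_lit 76) (nat_lit 32011925190) (nat_lit 76) (nat_lit 18177323881) (nat_lit 6) (nat_lit 4) (nat_lit 7) (nat_lit 5) (nat_lit 7) (nat_lit 4) (nat_lit 308)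 (nat_lit 253) (nat_lit 219)) (XT.lf (nat_lit 0) (nat_lit 16157680265) (nat_lit 76) (nat_lit 27780922177) (nat_lit 76) (nat_lit 13865566377) (nat_lit 6) (nat_lit 4) (nat_lit 7) (nat_lit 5) (nat_lit 7) (nat_lit 4) (nat_lit 309) (nat_lit 253) (nat_lit 218))) (XT.nd (nat_lit 78) (nat_lit 76) (nat_lit 0) (XT.lf (nat_lit 0) (nat_lit 29560837494) (nat_lit 76) (nat_lit 23262579455) (nat_lit 76) (nat_lit 9272450978) (nat_lit 6) (nat_lit 4) (nat_lit 7) (nat_lit 5) (nat_lit 7) (nat_lit 4) (nat_lit 310) (nat_lit 253) (nat_lit 217)) (XT.nd (nat_lit 78) (nat_lit 76) (nat_lit 0) (XT.lf (nat_lit 0) (nat_lit 43932861724) (nat_lit 76) (nat_lit 18430121659) (nat_lit 76) (nat_lit 4370759222) (nat_lit 6) (nat_lit 4) (nat_lit 7) (nat_lit 5) (nat_lit 7) (nat_lit 4) (nat_lit 311) (nat_lit 253) (nat_lit 216)) (XT.lf (nat_lit 0) (nat_lit 840756738) (nat_lit 152) (nat_lit 12399916642) (nat_lit 76) (nat_lit 58503925145)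 (nat_lit 5) (nat_lit 5) (nat_lit 7) (nat_lit 5) (nat_lit 6) (nat_lit 4) (nat_lit 312) (nat_lit 253) (nat_lit 215)))))) (XT.nd (nat_lit 390) (nat_lit 0) (nat_lit 0) (XT.nd (nat_lit 156) (nat_lit 0) (nat_lit 0) (XT.nd (nat_lit 78) (nat_lit 76) (nat_lit 0) (XT.lf (nat_lit 0) (nat_lit 6269252539) (nat_lit 152) (nat_lit 1330857211) (nat_lit 76) (nat_lit 69555002156) (nat_lit 5) (nat_lit 5) (nat_lit 7) (nat_lit 5) (nat_lit 6) (nat_lit 4) (nat_lit 313) (nat_lit 253) (nat_lit 214)) (XT.lf (nat_lit 0) (nat_lit 10888635989) (nat_lit 76) (nat_lit 1368154769) (nat_lit 152) (nat_lit 70735466176) (nat_lit 4) (nat_lit 5) (nat_lit 5) (nat_lit 5) (nat_lit 6) (nat_lit 4) (nat_lit 314) (nat_lit 253) (nat_lit 213))) (XT.nd (nat_lit 78) (nat_lit 0) (nat_lit 0) (XT.lf (nat_lit 0) (nat_lit 18786904476) (nat_lit 152) (nat_lit 65327673619) (nat_lit 0) (nat_lit 5178643434) (nat_lit 4) (nat_lit 5) (nat_lit 6) (nat_lit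 4) (nat_lit 4) (nat_lit 4) (nat_lit 315) (nat_lit 253) (nat_lit 212)) (XT.nd (nat_lit 78) (nat_lit 0) (nat_lit 0) (XT.lf (nat_lit 0) (nat_lit 25822023091) (nat_lit 152) (nat_lit 58108248667) (nat_lit 0) (nat_lit 12168886362) (nat_lit 4) (nat_lit 5) (nat_lit 6) (nat_lit 4) (nat_lit 4) (nat_lit 4) (nat_lit 316) (nat_lit 253) (nat_lit 211)) (XT.lf (nat_lit 0) (nat_lit 33382475463) (nat_lit 152) (nat_lit 50381203581) (nat_lit 0) (nat_lit 19687787174) (nat_lit 4) (nat_lit 5) (nat_lit 6) (nat_lit 4) (nat_lit 4) (nat_lit 4) (nat_lit 317) (nat_lit 253) (nat_lit 210))))) (XT.nd (nat_lit 156) (nat_lit 0) (nat_lit 0) (XT.nd (nat_lit 78) (nat_lit 0) (nat_lit 0) (XT.lf (nat_lit 0) (nat_lit 41513064274) (nat_lit 152) (nat_lit 42100748465) (nat_lit 0) (nat_lit 27779902317) (nat_lit 4) (nat_lit 5) (nat_lit 6) (nat_lit 4) (nat_lit 4) (nat_lit 4) (nat_lit 318) (nat_lit 253) (nat_lit 209)) (XT.lf (nat_lit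 0) (nat_lit 50261970791) (nat_lit 152) (nat_lit 33217813956) (nat_lit 0) (nat_lit 36493185068) (nat_lit 4) (nat_lit 5) (nat_lit 6) (nat_lit 4) (nat_lit 4) (nat_lit 4) (nat_lit 319) (nat_lit 253) (nat_lit 208))) (XT.nd (nat_lit 78) (nat_lit 0) (nat_lit 0) (XT.lf (nat_lit 0) (nat_lit 59681040386) (nat_lit 152) (nat_lit 23679760440) (nat_lit 0) (nat_lit 45879269695) (nat_lit 4) (nat_lit 5) (nat_lit 6) (nat_lit 4) (nat_lit 4) (nat_lit 4) (nat_lit 320) (nat_lit 253) (nat_lit 207)) (XT.nd (nat_lit 78) (nat_lit 0) (nat_lit 0) (XT.lf (nat_lit 0) (nat_lit 69826089768) (nat_lit 152) (nat_lit 13430066120) (nat_lit 0) (nat_lit 55993777439) (nat_lit 4) (nat_lit 5) (nat_lit 6) (nat_lit 4) (nat_lit 4) (nat_lit 4) (nat_lit 321) (nat_lit 253) (nat_lit 206)) (XT.lf (nat_lit 0) (nat_lit 80757237747) (nat_lit 152) (nat_lit 2407992066) (nat_lit 0) (nat_lit 66896646124) (nat_lit 4) (nat_lit 5) (nat_lit 6)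 (nat_lit 4) (nat_lit 4) (nat_lit 4) (nat_lit 322) (nat_lit 253) (nat_lit 205))))))))
noncomputable def xc35 : XT := (XT.nd (nat_lit 1560) (nat_lit 0) (nat_lit 0) (XT.nd (nat_lit 780) (nat_lit 0) (nat_lit 0) (XT.nd (nat_lit 390) (nat_lit 0) (nat_lit 0) (XT.nd (nat_lit 156) (nat_lit 0) (nat_lit 0) (XT.nd (nat_lit 78) (nat_lit 0) (nat_lit 0) (XT.lf (nat_lit 0) (nat_lit 9764296171) (nat_lit 76) (nat_lit 82927413353) (nat_lit 76) (nat_lit 69040637199) (nat_lit 3) (nat_lit 4) (nat_lit 4) (nat_lit 5) (nat_lit 4) (nat_lit 4) (nat_lit 323) (nat_lit 253) (nat_lit 204)) (XT.lf (nat_lit 0) (nat_lit 22954201130) (nat_lit 76) (nat_lit 82646158697) (nat_lit 76) (nat_lit 68735137606) (nat_lit 3) (nat_lit 4) (nat_lit 4) (nat_lit 5) (nat_lit 4) (nat_lit 4) (nat_lit 324) (nat_lit 253) (nat_lit 203))) (XT.nd (nat_lit 78) (nat_lit 0) (nat_lit 0) (XT.lf (nat_lit 0) (nat_lit 37160266116) (nat_lit 76) (nat_lit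 82360579662) (nat_lit 76) (nat_lit 68427109556) (nat_lit 3) (nat_lit 4) (nat_lit 4) (nat_lit 5) (nat_lit 4) (nat_lit 4) (nat_lit 325) (nat_lit 253) (nat_lit 202)) (XT.nd (nat_lit 78) (nat_lit 0) (nat_lit 0) (XT.lf (nat_lit 0) (nat_lit 52466675217) (nat_lit 76) (nat_lit 82068983928) (nat_lit 76) (nat_lit 68114727696) (nat_lit 3) (nat_lit 4) (nat_lit 4) (nat_lit 5) (nat_lit 4) (nat_lit 4) (nat_lit 326) (nat_lit 253) (nat_lit 201)) (XT.lf (nat_lit 0) (nat_lit 68964133081) (nat_lit 76) (nat_lit 81769643520) (nat_lit 76) (nat_lit 67796140876) (nat_lit 3) (nat_lit 4) (nat_lit 4) (nat_lit 5) (nat_lit 4) (nat_lit 4) (nat_lit 327) (nat_lit 253) (nat_lit 200))))) (XT.nd (nat_lit 156) (nat_lit 0) (nat_lit 0) (XT.nd (nat_lit 78) (nat_lit 0) (nat_lit 0) (XT.lf (nat_lit 0) (nat_lit 86750402421) (nat_lit 76) (nat_lit 81460784569) (nat_lit 76) (nat_lit 67469461172) (nat_lit 3) (nat_lit 4) (nat_lit 4)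 (nat_lit 5) (nat_lit 4) (nat_lit 4) (nat_lit 328) (nat_lit 253) (nat_lit 199)) (XT.lf (nat_lit 0) (nat_lit 105930883351) (nat_lit 76) (nat_lit 81140576800) (nat_lit 76) (nat_lit 67132752707) (nat_lit 3) (nat_lit 4) (nat_lit 4) (nat_lit 5) (nat_lit 4) (nat_lit 4) (nat_lit 329) (nat_lit 253) (nat_lit 198))) (XT.nd (nat_lit 78) (nat_lit 0) (nat_lit 0) (XT.lf (nat_lit 0) (nat_lit 126619237980) (nat_lit 76) (nat_lit 80807122685) (nat_lit 76) (nat_lit 66784020169) (nat_lit 3) (nat_lit 4) (nat_lit 4) (nat_lit 5) (nat_lit 4) (nat_lit 4) (nat_lit 330) (nat_lit 253) (nat_lit 197)) (XT.nd (nat_lit 78) (nat_lit 0) (nat_lit 0) (XT.lf (nat_lit 0) (nat_lit 148938063966) (nat_lit 76) (nat_lit 80458446200) (nat_lit 76) (nat_lit 66421196996) (nat_lit 3) (nat_lit 4) (nat_lit 4) (nat_lit 5) (nat_lit 4) (nat_lit 4) (nat_lit 331) (nat_lit 253) (nat_lit 196)) (XT.lf (nat_lit 0) (nat_lit 173019621019) (nat_lit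 76) (nat_lit 80092481114) (nat_lit 76) (nat_lit 66042133125) (nat_lit 3) (nat_lit 4) (nat_lit 4) (nat_lit 5) (nat_lit 4) (nat_lit 4) (nat_lit 332) (nat_lit 253) (nat_lit 195)))))) (XT.nd (nat_lit 390) (nat_lit 0) (nat_lit 0) (XT.nd (nat_lit 156) (nat_lit 0) (nat_lit 0) (XT.nd (nat_lit 78) (nat_lit 0) (nat_lit 0) (XT.lf (nat_lit 0) (nat_lit 199006614660) (nat_lit 76) (nat_lit 79707058745) (nat_lit 76) (nat_lit 65644582252) (nat_lit 3) (nat_lit 4) (nat_lit 4) (nat_lit 5) (nat_lit 4) (nat_lit 4) (nat_lit 333) (nat_lit 253) (nat_lit 194)) (XT.lf (nat_lit 0) (nat_lit 227053041891) (nat_lit 76) (nat_lit 79299895108) (nat_lit 76) (nat_lit 65226188518) (nat_lit 3) (nat_lit 4) (nat_lit 4) (nat_lit 5) (nat_lit 4) (nat_lit 4) (nat_lit 334) (nat_lit 253) (nat_lit 193))) (XT.nd (nat_lit 78) (nat_lit 0) (nat_lit 0) (XT.lf (nat_lit 0) (nat_lit 257325103760) (nat_lit 76) (nat_lit 78868577382) (nat_lit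 76) (nat_lit 64784472554) (nat_lit 3) (nat_lit 4) (nat_lit 4) (nat_lit 5) (nat_lit 4) (nat_lit 4) (nat_lit 335) (nat_lit 253) (nat_lit 192)) (XT.nd (nat_lit 78) (nat_lit 0) (nat_lit 0) (XT.lf (nat_lit 0) (nat_lit 290002190265) (nat_lit 76) (nat_lit 78410549610) (nat_lit 76) (nat_lit 64316816784) (nat_lit 3) (nat_lit 4) (nat_lit 4) (nat_lit 5) (nat_lit 4) (nat_lit 4) (nat_lit 336) (nat_lit 253) (nat_lit 191)) (XT.lf (nat_lit 0) (nat_lit 325277943399) (nat_lit 76) (nat_lit 77923097553) (nat_lit 76) (nat_lit 63820449915) (nat_lit 3) (nat_lit 4) (nat_lit 4) (nat_lit 5) (nat_lit 4) (nat_lit 4) (nat_lit 337) (nat_lit 253) (nat_lit 190))))) (XT.nd (nat_lit 156) (nat_lit 0) (nat_lit 0) (XT.nd (nat_lit 78) (nat_lit 0) (nat_lit 0) (XT.lf (nat_lit 0) (nat_lit 363361404662) (nat_lit 76) (nat_lit 77403332607) (nat_lit 76) (nat_lit 63292430513) (nat_lit 3) (nat_lit 4) (nat_lit 4) (nat_lit 5) (nat_lit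 4) (nat_lit 4) (nat_lit 338) (nat_lit 253) (nat_lit 189)) (XT.lf (nat_lit 0) (nat_lit 404478253826) (nat_lit 76) (nat_lit 76848174683) (nat_lit 76) (nat_lit 62729629573) (nat_lit 3) (nat_lit 4) (nat_lit 4) (nat_lit 5) (nat_lit 4) (nat_lit 4) (nat_lit 339) (nat_lit 253) (nat_lit 188))) (XT.nd (nat_lit 78) (nat_lit 0) (nat_lit 0) (XT.lf (nat_lit 0) (nat_lit 448872146291) (nat_lit 76) (nat_lit 76254333957) (nat_lit 76) (nat_lit 62128711981) (nat_lit 3) (nat_lit 4) (nat_lit 4) (nat_lit 5) (nat_lit 4) (nat_lit 4) (nat_lit 340) (nat_lit 253) (nat_lit 187)) (XT.nd (nat_lit 78) (nat_lit 0) (nat_lit 0) (XT.lf (nat_lit 0) (nat_lit 496806156978) (nat_lit 76) (nat_lit 75618291371) (nat_lit 76) (nat_lit 61486116742) (nat_lit 3) (nat_lit 4) (nat_lit 4) (nat_lit 5) (nat_lit 4) (nat_lit 4) (nat_lit 341) (nat_lit 253) (nat_lit 186)) (XT.lf (nat_lit 0) (nat_lit 548564339281) (nat_lit 76) (nat_lit 74936277785)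 (nat_lit 76) (nat_lit 60798035884) (nat_lit 3) (nat_lit 4) (nat_lit 4) (nat_lit 5) (nat_lit 4) (nat_lit 4) (nat_lit 342) (nat_lit 253) (nat_lit 185))))))) (XT.nd (nat_lit 35490) (nat_lit 0) (nat_lit 1444) (XT.nd (nat_lit 35100) (nat_lit 0) (nat_lit 3648) (XT.nd (nat_lit 156) (nat_lit 0) (nat_lit 0) (XT.nd (nat_lit 78) (nat_lit 0) (nat_lit 0) (XT.lf (nat_lit 0) (nat_lit 604453408357) (nat_lit 76) (nat_lit 74204251637) (nat_lit 76) (nat_lit 60060391892) (nat_lit 3) (nat_lit 4) (nat_lit 4) (nat_lit 5) (nat_lit 4) (nat_lit 4) (nat_lit 343) (nat_lit 253) (nat_lit 184)) (XT.lf (nat_lit 0) (nat_lit 664804558687) (nat_lit 76) (nat_lit 73417874995) (nat_lit 76) (nat_lit 59268813542) (nat_lit 3) (nat_lit 4) (nat_lit 4) (nat_lit 5) (nat_lit 4) (nat_lit 4) (nat_lit 344) (nat_lit 253) (nat_lit 183))) (XT.nd (nat_lit 78) (nat_lit 0) (nat_lit 0) (XT.lf (nat_lit 0) (nat_lit 729975426719) (nat_lit 76)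 (nat_lit 72572487848) (nat_lit 76) (nat_lit 58418609998) (nat_lit 3) (nat_lit 4) (nat_lit 4) (nat_lit 5) (nat_lit 4) (nat_lit 4) (nat_lit 345) (nat_lit 253) (nat_lit 182)) (XT.nd (nat_lit 78) (nat_lit 0) (nat_lit 0) (XT.lf (nat_lit 0) (nat_lit 800352210189) (nat_lit 76) (nat_lit 71663080494) (nat_lit 76) (nat_lit 57504743019) (nat_lit 3) (nat_lit 4) (nat_lit 4) (nat_lit 5) (nat_lit 4) (nat_lit 4) (nat_lit 346) (nat_lit 253) (nat_lit 181)) (XT.lf (nat_lit 0) (nat_lit 876351956703) (nat_lit 76) (nat_lit 70684263854) (nat_lit 76) (nat_lit 56521797095) (nat_lit 3) (nat_lit 4) (nat_lit 4) (nat_lit 5) (nat_lit 4) (nat_lit 4) (nat_lit 347) (nat_lit 253) (nat_lit 180))))) (XT.nd (nat_lit 156) (nat_lit 988) (nat_lit 0) (XT.nd (nat_lit 78) (nat_lit 380) (nat_lit 0) (XT.lf (nat_lit 0) (nat_lit 312886299) (nat_lit 380) (nat_lit 1742957165) (nat_lit 380) (nat_lit 1742957165) (nat_lit 69) (nat_lit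 4) (nat_lit 74) (nat_lit 5) (nat_lit 74) (nat_lit 4) (nat_lit 272) (nat_lit 254) (nat_lit 254)) (XT.lf (nat_lit 0) (nat_lit 1223504878) (nat_lit 304) (nat_lit 419288644) (nat_lit 380) (nat_lit 6169652389) (nat_lit 64) (nat_lit 5) (nat_lit 68) (nat_lit 5) (nat_lit 69) (nat_lit 4) (nat_lit 273) (nat_lit 254) (nat_lit 253))) (XT.nd (nat_lit 78) (nat_lit 684) (nat_lit 0) (XT.lf (nat_lit 0) (nat_lit 1783300888) (nat_lit 304) (nat_lit 5100556008) (nat_lit 304) (nat_lit 1167591780) (nat_lit 60) (nat_lit 4) (nat_lit 64) (nat_lit 5) (nat_lit 64) (nat_lit 4) (nat_lit 274) (nat_lit 254) (nat_lit 252)) (XT.nd (nat_lit 78) (nat_lit 380) (nat_lit 0) (XT.lf (nat_lit 0) (nat_lit 2309644794) (nat_lit 228) (nat_lit 1589571976) (nat_lit 304) (nat_lit 4417957974) (nat_lit 56) (nat_lit 5) (nat_lit 59) (nat_lit 5) (nat_lit 60) (nat_lit 4) (nat_lit 275) (nat_lit 254) (nat_lit 251)) (XT.lf (nat_lit 0) (nat_lit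 549089088) (nat_lit 380) (nat_lit 5831364644) (nat_lit 76) (nat_lit 2230731774) (nat_lit 51) (nat_lit 5) (nat_lit 56) (nat_lit 5) (nat_lit 52) (nat_lit 4) (nat_lit 276) (nat_lit 254) (nat_lit 250)))))) (XT.nd (nat_lit 390) (nat_lit 1064) (nat_lit 0) (XT.nd (nat_lit 156) (nat_lit 608) (nat_lit 0) (XT.nd (nat_lit 78) (nat_lit 304) (nat_lit 0) (XT.lf (nat_lit 0) (nat_lit 3122701086) (nat_lit 228) (nat_lit 2491561181) (nat_lit 304) (nat_lit 3318803141) (nat_lit 48) (nat_lit 5) (nat_lit 51) (nat_lit 5) (nat_lit 52) (nat_lit 4) (nat_lit 277) (nat_lit 254) (nat_lit 249)) (XT.lf (nat_lit 0) (nat_lit 1613749938) (nat_lit 304) (nat_lit 5939606962) (nat_lit 76) (nat_lit 1733212467) (nat_lit 44) (nat_lit 5) (nat_lit 48) (nat_lit 5) (nat_lit 45) (nat_lit 4) (nat_lit 278) (nat_lit 254) (nat_lit 248))) (XT.nd (nat_lit 78) (nat_lit 456) (nat_lit 0) (XT.lf (nat_lit 0) (nat_lit 3366269055) (nat_lit 152)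 (nat_lit 3356316815) (nat_lit 228) (nat_lit 2948759598) (nat_lit 42) (nat_lit 5) (nat_lit 44) (nat_lit 5) (nat_lit 45) (nat_lit 4) (nat_lit 279) (nat_lit 254) (nat_lit 247)) (XT.nd (nat_lit 78) (nat_lit 152) (nat_lit 0) (XT.lf (nat_lit 0) (nat_lit 1968662074) (nat_lit 304) (nat_lit 6912630918) (nat_lit 76) (nat_lit 1210249850) (nat_lit 38) (nat_lit 5) (nat_lit 42) (nat_lit 5) (nat_lit 39) (nat_lit 4) (nat_lit 280) (nat_lit 254) (nat_lit 246)) (XT.lf (nat_lit 0) (nat_lit 2675431046) (nat_lit 152) (nat_lit 4435244132) (nat_lit 228) (nat_lit 3436036344) (nat_lit 36) (nat_lit 5) (nat_lit 38) (nat_lit 5) (nat_lit 39) (nat_lit 4) (nat_lit 281) (nat_lit 254) (nat_lit 245))))) (XT.nd (nat_lit 234) (nat_lit 608) (nat_lit 0) (XT.nd (nat_lit 78) (nat_lit 152) (nat_lit 0) (XT.lf (nat_lit 0) (nat_lit 1464746701) (nat_lit 304) (nat_lit 9172431710) (nat_lit 76) (nat_lit 405733976) (nat_lit 32) (nat_lit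 5) (nat_lit 36) (nat_lit 5) (nat_lit 33) (nat_lit 4) (nat_lit 282) (nat_lit 254) (nat_lit 244)) (XT.nd (nat_lit 78) (nat_lit 0) (nat_lit 0) (XT.lf (nat_lit 0) (nat_lit 590499275) (nat_lit 152) (nat_lit 6016257680) (nat_lit 228) (nat_lit 4971165181) (nat_lit 30) (nat_lit 5) (nat_lit 32) (nat_lit 5) (nat_lit 33) (nat_lit 4) (nat_lit 283) (nat_lit 254) (nat_lit 243)) (XT.lf (nat_lit 0) (nat_lit 11084999697) (nat_lit 152) (nat_lit 992511771) (nat_lit 228) (nat_lit 82728473) (nat_lit 30) (nat_lit 5) (nat_lit 32) (nat_lit 5) (nat_lit 33) (nat_lit 4) (nat_lit 284) (nat_lit 254) (nat_lit 242)))) (XT.nd (nat_lit 78) (nat_lit 380) (nat_lit 0) (XT.lf (nat_lit 0) (nat_lit 5021220394) (nat_lit 228) (nat_lit 3364661372) (nat_lit 76) (nat_lit 4399998215) (nat_lit 27) (nat_lit 5) (nat_lit 30) (nat_lit 5) (nat_lit 28) (nat_lit 4) (nat_lit 285) (nat_lit 254) (nat_lit 241)) (XT.nd (nat_lit 78) (nat_lit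 228) (nat_lit 0) (XT.lf (nat_lit 0) (nat_lit 7196387000) (nat_lit 152) (nat_lit 3263557265) (nat_lit 228) (nat_lit 3005398651) (nat_lit 25) (nat_lit 5) (nat_lit 27) (nat_lit 5) (nat_lit 28) (nat_lit 4) (nat_lit 286) (nat_lit 254) (nat_lit 240)) (XT.lf (nat_lit 0) (nat_lit 2017246777) (nat_lit 228) (nat_lit 9951552576) (nat_lit 76) (nat_lit 2231420016) (nat_lit 22) (nat_lit 5) (nat_lit 25) (nat_lit 5) (nat_lit 23) (nat_lit 4) (nat_lit 287) (nat_lit 254) (nat_lit 239))))))))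
noncomputable def xc36 : XT := (XT.nd (nat_lit 1560) (nat_lit 304) (nat_lit 0) (XT.nd (nat_lit 780) (nat_lit 380) (nat_lit 0) (XT.nd (nat_lit 390) (nat_lit 380) (nat_lit 0) (XT.nd (nat_lit 156) (nat_lit 304) (nat_lit 0) (XT.nd (nat_lit 78) (nat_lit 0) (nat_lit 0) (XT.lf (nat_lit 0) (nat_lit 412736740) (nat_lit 76) (nat_lit 6894594450) (nat_lit 152) (nat_lit 7685796190) (nat_lit 21) (nat_lit 5) (nat_lit 22) (nat_lit 5) (nat_lit 23) (nat_lit 4) (nat_lit 288) (nat_lit 254) (nat_lit 238)) (XT.lf (nat_lit 0) (nat_lit 11640029980) (nat_lit 76) (nat_lit 1361005107) (nat_lit 152) (nat_lit 2849644692) (nat_lit 21) (nat_lit 5) (nat_lit 22) (nat_lit 5) (nat_lit 23) (nat_lit 4) (nat_lit 289) (nat_lit 254) (nat_lit 237))) (XT.nd (nat_lit 78) (nat_lit 76) (nat_lit 0) (XT.lf (nat_lit 0) (nat_lit 2295390089) (nat_lit 228) (nat_lit 9983920382) (nat_lit 76) (nat_lit 4495980317) (nat_lit 18) (nat_lit 5)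 (nat_lit 21) (nat_lit 5) (nat_lit 19) (nat_lit 4) (nat_lit 290) (nat_lit 254) (nat_lit 236)) (XT.nd (nat_lit 78) (nat_lit 0) (nat_lit 0) (XT.lf (nat_lit 0) (nat_lit 706426829) (nat_lit 76) (nat_lit 6980930120) (nat_lit 152) (nat_lit 10087609352) (nat_lit 17) (nat_lit 5) (nat_lit 18) (nat_lit 5) (nat_lit 19) (nat_lit 4) (nat_lit 291) (nat_lit 254) (nat_lit 235)) (XT.lf (nat_lit 0) (nat_lit 12323770278) (nat_lit 76) (nat_lit 1194623607) (nat_lit 152) (nat_lit 5336012024) (nat_lit 17) (nat_lit 5) (nat_lit 18) (nat_lit 5) (nat_lit 19) (nat_lit 4) (nat_lit 292) (nat_lit 254) (nat_lit 234))))) (XT.nd (nat_lit 156) (nat_lit 152) (nat_lit 0) (XT.nd (nat_lit 78) (nat_lit 76) (nat_lit 0) (XT.lf (nat_lit 0) (nat_lit 4650422264) (nat_lit 152) (nat_lit 15161410506) (nat_lit 152) (nat_lit 208734641) (nat_lit 15) (nat_lit 4) (nat_lit 17) (nat_lit 5) (nat_lit 17) (nat_lit 4) (nat_lit 293) (nat_lit 254)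 (nat_lit 233)) (XT.lf (nat_lit 0) (nat_lit 5143260013) (nat_lit 228) (nat_lit 4683571735) (nat_lit 76) (nat_lit 11449919346) (nat_lit 14) (nat_lit 5) (nat_lit 17) (nat_lit 5) (nat_lit 15) (nat_lit 4) (nat_lit 294) (nat_lit 254) (nat_lit 232))) (XT.nd (nat_lit 78) (nat_lit 76) (nat_lit 0) (XT.lf (nat_lit 0) (nat_lit 6829279362) (nat_lit 76) (nat_lit 4054024953) (nat_lit 152) (nat_lit 11751726733) (nat_lit 13) (nat_lit 5) (nat_lit 14) (nat_lit 5) (nat_lit 15) (nat_lit 4) (nat_lit 295) (nat_lit 254) (nat_lit 231)) (XT.nd (nat_lit 78) (nat_lit 76) (nat_lit 0) (XT.lf (nat_lit 0) (nat_lit 17065130217) (nat_lit 152) (nat_lit 4941184797) (nat_lit 0) (nat_lit 2096652470) (nat_lit 13) (nat_lit 5) (nat_lit 15) (nat_lit 4) (nat_lit 13) (nat_lit 4) (nat_lit 296) (nat_lit 254) (nat_lit 230)) (XT.lf (nat_lit 0) (nat_lit 6718562936) (nat_lit 76) (nat_lit 17071758324) (nat_lit 76) (nat_lit 1895690498)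 (nat_lit 12) (nat_lit 4) (nat_lit 13) (nat_lit 5) (nat_lit 13) (nat_lit 4) (nat_lit 297) (nat_lit 254) (nat_lit 229)))))) (XT.nd (nat_lit 390) (nat_lit 152) (nat_lit 0) (XT.nd (nat_lit 156) (nat_lit 76) (nat_lit 0) (XT.nd (nat_lit 78) (nat_lit 76) (nat_lit 0) (XT.lf (nat_lit 0) (nat_lit 3507680209) (nat_lit 152) (nat_lit 8177536432) (nat_lit 76) (nat_lit 15709381632) (nat_lit 11) (nat_lit 5) (nat_lit 13) (nat_lit 5) (nat_lit 12) (nat_lit 4) (nat_lit 298) (nat_lit 254) (nat_lit 228)) (XT.lf (nat_lit 0) (nat_lit 3351656695) (nat_lit 76) (nat_lit 5866837250) (nat_lit 152) (nat_lit 20022837445) (nat_lit 10) (nat_lit 5) (nat_lit 11) (nat_lit 5) (nat_lit 12) (nat_lit 4) (nat_lit 299) (nat_lit 254) (nat_lit 227))) (XT.nd (nat_lit 78) (nat_lit 76) (nat_lit 0) (XT.lf (nat_lit 0) (nat_lit 15429817015) (nat_lit 152) (nat_lit 15336975478) (nat_lit 0) (nat_lit 466914547) (nat_lit 10) (nat_lit 5) (nat_lit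 12) (nat_lit 4) (nat_lit 10) (nat_lit 4) (nat_lit 300) (nat_lit 254) (nat_lit 226)) (XT.nd (nat_lit 78) (nat_lit 76) (nat_lit 0) (XT.lf (nat_lit 0) (nat_lit 22137296419) (nat_lit 152) (nat_lit 4219218524) (nat_lit 0) (nat_lit 7029074993) (nat_lit 10) (nat_lit 5) (nat_lit 12) (nat_lit 4) (nat_lit 10) (nat_lit 4) (nat_lit 301) (nat_lit 254) (nat_lit 225)) (XT.lf (nat_lit 0) (nat_lit 7873064163) (nat_lit 76) (nat_lit 21538938843) (nat_lit 76) (nat_lit 6296162828) (nat_lit 9) (nat_lit 4) (nat_lit 10) (nat_lit 5) (nat_lit 10) (nat_lit 4) (nat_lit 302) (nat_lit 254) (nat_lit 224))))) (XT.nd (nat_lit 156) (nat_lit 76) (nat_lit 0) (XT.nd (nat_lit 78) (nat_lit 76) (nat_lit 0) (XT.lf (nat_lit 0) (nat_lit 20923766845) (nat_lit 76) (nat_lit 16330467740) (nat_lit 76) (nat_lit 963104141) (nat_lit 9) (nat_lit 4) (nat_lit 10) (nat_lit 5) (nat_lit 10) (nat_lit 4) (nat_lit 303) (nat_lit 254) (nat_lit 223))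 (XT.lf (nat_lit 0) (nat_lit 4560248920) (nat_lit 152) (nat_lit 6134212185) (nat_lit 76) (nat_lit 30233241656) (nat_lit 8) (nat_lit 5) (nat_lit 10) (nat_lit 5) (nat_lit 9) (nat_lit 4) (nat_lit 304) (nat_lit 254) (nat_lit 222))) (XT.nd (nat_lit 78) (nat_lit 0) (nat_lit 0) (XT.lf (nat_lit 0) (nat_lit 5952732965) (nat_lit 76) (nat_lit 4555691038) (nat_lit 152) (nat_lit 33344903476) (nat_lit 7) (nat_lit 5) (nat_lit 8) (nat_lit 5) (nat_lit 9) (nat_lit 4) (nat_lit 305) (nat_lit 254) (nat_lit 221)) (XT.nd (nat_lit 78) (nat_lit 0) (nat_lit 0) (XT.lf (nat_lit 0) (nat_lit 16999406013) (nat_lit 152) (nat_lit 27952263589) (nat_lit 0) (nat_lit 2058036600) (nat_lit 7) (nat_lit 5) (nat_lit 9) (nat_lit 4) (nat_lit 7) (nat_lit 4) (nat_lit 306) (nat_lit 254) (nat_lit 220)) (XT.lf (nat_lit 0) (nat_lit 24017931469) (nat_lit 152) (nat_lit 17410951147) (nat_lit 0) (nat_lit 8989347205) (nat_lit 7) (nat_lit 5)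 (nat_lit 9) (nat_lit 4) (nat_lit 7) (nat_lit 4) (nat_lit 307) (nat_lit 254) (nat_lit 219))))))) (XT.nd (nat_lit 780) (nat_lit 76) (nat_lit 0) (XT.nd (nat_lit 390) (nat_lit 152) (nat_lit 0) (XT.nd (nat_lit 156) (nat_lit 0) (nat_lit 0) (XT.nd (nat_lit 78) (nat_lit 76) (nat_lit 0) (XT.lf (nat_lit 0) (nat_lit 31534464529) (nat_lit 152) (nat_lit 6143063048) (nat_lit 0) (nat_lit 16425125774) (nat_lit 7) (nat_lit 5) (nat_lit 9) (nat_lit 4) (nat_lit 7) (nat_lit 4) (nat_lit 308) (nat_lit 254) (nat_lit 218)) (XT.lf (nat_lit 0) (nat_lit 6113854917) (nat_lit 76) (nat_lit 33575147104) (nat_lit 76) (nat_lit 18391035672) (nat_lit 6) (nat_lit 4) (nat_lit 7) (nat_lit 5) (nat_lit 7) (nat_lit 4) (nat_lit 309) (nat_lit 254) (nat_lit 217))) (XT.nd (nat_lit 78) (nat_lit 0) (nat_lit 0) (XT.lf (nat_lit 0) (nat_lit 19467307541) (nat_lit 76) (nat_lit 29079569931) (nat_lit 76) (nat_lit 13826224539) (nat_lit 6)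 (nat_lit 4) (nat_lit 7) (nat_lit 5) (nat_lit 7) (nat_lit 4) (nat_lit 310) (nat_lit 254) (nat_lit 216)) (XT.nd (nat_lit 78) (nat_lit 0) (nat_lit 0) (XT.lf (nat_lit 0) (nat_lit 33793308989) (nat_lit 76) (nat_lit 24268191349) (nat_lit 76) (nat_lit 8950740438) (nat_lit 6) (nat_lit 4) (nat_lit 7) (nat_lit 5) (nat_lit 7) (nat_lit 4) (nat_lit 311) (nat_lit 254) (nat_lit 215)) (XT.lf (nat_lit 0) (nat_lit 49176754084) (nat_lit 76) (nat_lit 19112499482) (nat_lit 76) (nat_lit 3735691609) (nat_lit 6) (nat_lit 4) (nat_lit 7) (nat_lit 5) (nat_lit 7) (nat_lit 4) (nat_lit 312) (nat_lit 254) (nat_lit 214))))) (XT.nd (nat_lit 156) (nat_lit 0) (nat_lit 0) (XT.nd (nat_lit 78) (nat_lit 76) (nat_lit 0) (XT.lf (nat_lit 0) (nat_lit 1790619956) (nat_lit 152) (nat_lit 11760997111) (nat_lit 76) (nat_lit 63887859009) (nat_lit 5) (nat_lit 5) (nat_lit 7) (nat_lit 5) (nat_lit 6) (nat_lit 4) (nat_lit 313) (nat_lit 254)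 (nat_lit 213)) (XT.lf (nat_lit 0) (nat_lit 75185106) (nat_lit 76) (nat_lit 7514006189) (nat_lit 152) (nat_lit 75696890936) (nat_lit 4) (nat_lit 5) (nat_lit 5) (nat_lit 5) (nat_lit 6) (nat_lit 4) (nat_lit 314) (nat_lit 254) (nat_lit 212))) (XT.nd (nat_lit 78) (nat_lit 0) (nat_lit 0) (XT.lf (nat_lit 0) (nat_lit 13204204069) (nat_lit 76) (nat_lit 812371827) (nat_lit 152) (nat_lit 75575619221) (nat_lit 4) (nat_lit 5) (nat_lit 5) (nat_lit 5) (nat_lit 6) (nat_lit 4) (nat_lit 315) (nat_lit 254) (nat_lit 211)) (XT.nd (nat_lit 78) (nat_lit 0) (nat_lit 0) (XT.lf (nat_lit 0) (nat_lit 21020993932) (nat_lit 152) (nat_lit 69189504745) (nat_lit 0) (nat_lit 6189179018) (nat_lit 4) (nat_lit 5) (nat_lit 6) (nat_lit 4) (nat_lit 4) (nat_lit 4) (nat_lit 316) (nat_lit 254) (nat_lit 210)) (XT.lf (nat_lit 0) (nat_lit 28564763731) (nat_lit 152) (nat_lit 61493591186) (nat_lit 0) (nat_lit 13694475151) (nat_lit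 4) (nat_lit 5) (nat_lit 6) (nat_lit 4) (nat_lit 4) (nat_lit 4) (nat_lit 317) (nat_lit 254) (nat_lit 209)))))) (XT.nd (nat_lit 390) (nat_lit 76) (nat_lit 0) (XT.nd (nat_lit 156) (nat_lit 0) (nat_lit 0) (XT.nd (nat_lit 78) (nat_lit 0) (nat_lit 0) (XT.lf (nat_lit 0) (nat_lit 36679905716) (nat_lit 152) (nat_lit 53241961559) (nat_lit 0) (nat_lit 21773993369) (nat_lit 4) (nat_lit 5) (nat_lit 6) (nat_lit 4) (nat_lit 4) (nat_lit 4) (nat_lit 318) (nat_lit 254) (nat_lit 208)) (XT.lf (nat_lit 0) (nat_lit 45414509616) (nat_lit 152) (nat_lit 44385717316) (nat_lit 0) (nat_lit 30475612301) (nat_lit 4) (nat_lit 5) (nat_lit 6) (nat_lit 4) (nat_lit 4) (nat_lit 4) (nat_lit 319) (nat_lit 254) (nat_lit 207))) (XT.nd (nat_lit 78) (nat_lit 0) (nat_lit 0) (XT.lf (nat_lit 0) (nat_lit 54820336047) (nat_lit 152) (nat_lit 34872377010) (nat_lit 0) (nat_lit 39850897094) (nat_lit 4) (nat_lit 5) (nat_lit 6) (nat_lit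 4) (nat_lit 4) (nat_lit 4) (nat_lit 320) (nat_lit 254) (nat_lit 206)) (XT.nd (nat_lit 78) (nat_lit 0) (nat_lit 0) (XT.lf (nat_lit 0) (nat_lit 64953123240) (nat_lit 152) (nat_lit 24645565292) (nat_lit 0) (nat_lit 49955404993) (nat_lit 4) (nat_lit 5) (nat_lit 6) (nat_lit 4) (nat_lit 4) (nat_lit 4) (nat_lit 321) (nat_lit 254) (nat_lit 205)) (XT.lf (nat_lit 0) (nat_lit 75872917341) (nat_lit 152) (nat_lit 13644678832) (nat_lit 0) (nat_lit 60849014562) (nat_lit 4) (nat_lit 5) (nat_lit 6) (nat_lit 4) (nat_lit 4) (nat_lit 4) (nat_lit 322) (nat_lit 254) (nat_lit 204))))) (XT.nd (nat_lit 156) (nat_lit 0) (nat_lit 0) (XT.nd (nat_lit 78) (nat_lit 76) (nat_lit 0) (XT.lf (nat_lit 0) (nat_lit 87644428241) (nat_lit 152) (nat_lit 1804527193) (nat_lit 0) (nat_lit 72596280526) (nat_lit 4) (nat_lit 5) (nat_lit 6) (nat_lit 4) (nat_lit 4) (nat_lit 4) (nat_lit 323) (nat_lit 254) (nat_lit 203)) (XT.lf (nat_lit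 0) (nat_lit 11306946383) (nat_lit 76) (nat_lit 89206999778) (nat_lit 76) (nat_lit 74136403048) (nat_lit 3) (nat_lit 4) (nat_lit 4) (nat_lit 5) (nat_lit 4) (nat_lit 4) (nat_lit 324) (nat_lit 254) (nat_lit 202))) (XT.nd (nat_lit 78) (nat_lit 0) (nat_lit 0) (XT.lf (nat_lit 0) (nat_lit 25495635848) (nat_lit 76) (nat_lit 88929511908) (nat_lit 76) (nat_lit 73838129052) (nat_lit 3) (nat_lit 4) (nat_lit 4) (nat_lit 5) (nat_lit 4) (nat_lit 4) (nat_lit 325) (nat_lit 254) (nat_lit 201)) (XT.nd (nat_lit 78) (nat_lit 0) (nat_lit 0) (XT.lf (nat_lit 0) (nat_lit 40785956505) (nat_lit 76) (nat_lit 88645407994) (nat_lit 76) (nat_lit 73534778725) (nat_lit 3) (nat_lit 4) (nat_lit 4) (nat_lit 5) (nat_lit 4) (nat_lit 4) (nat_lit 326) (nat_lit 254) (nat_lit 200)) (XT.lf (nat_lit 0) (nat_lit 57268517660) (nat_lit 76) (nat_lit 88353004456) (nat_lit 76) (nat_lit 73224554435) (nat_lit 3) (nat_lit 4) (nat_lit 4)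 (nat_lit 5) (nat_lit 4) (nat_lit 4) (nat_lit 327) (nat_lit 254) (nat_lit 199))))))))
noncomputable def xc37 : XT := (XT.nd (nat_lit 36114) (nat_lit 0) (nat_lit 1368) (XT.nd (nat_lit 780) (nat_lit 0) (nat_lit 0) (XT.nd (nat_lit 390) (nat_lit 0) (nat_lit 0) (XT.nd (nat_lit 156) (nat_lit 0) (nat_lit 0) (XT.nd (nat_lit 78) (nat_lit 0) (nat_lit 0) (XT.lf (nat_lit 0) (nat_lit 75040993752) (nat_lit 76) (nat_lit 88050568533) (nat_lit 76) (nat_lit 72905617816) (nat_lit 3) (nat_lit 4) (nat_lit 4) (nat_lit 5) (nat_lit 4) (nat_lit 4) (nat_lit 328) (nat_lit 254) (nat_lit 198)) (XT.lf (nat_lit 0) (nat_lit 94208703155) (nat_lit 76) (nat_lit 87736308012) (nat_lit 76) (nat_lit 72576078872) (nat_lit 3) (nat_lit 4) (nat_lit 4) (nat_lit 5) (nat_lit 4) (nat_lit 4) (nat_lit 329) (nat_lit 254) (nat_lit 197))) (XT.nd (nat_lit 78) (nat_lit 0) (nat_lit 0) (XT.lf (nat_lit 0) (nat_lit 114885232297) (nat_lit 76)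 (nat_lit 87408360608) (nat_lit 76) (nat_lit 72233984780) (nat_lit 3) (nat_lit 4) (nat_lit 4) (nat_lit 5) (nat_lit 4) (nat_lit 4) (nat_lit 330) (nat_lit 254) (nat_lit 196)) (XT.nd (nat_lit 78) (nat_lit 0) (nat_lit 0) (XT.lf (nat_lit 0) (nat_lit 137193108758) (nat_lit 76) (nat_lit 87064782929) (nat_lit 76) (nat_lit 71877308317) (nat_lit 3) (nat_lit 4) (nat_lit 4) (nat_lit 5) (nat_lit 4) (nat_lit 4) (nat_lit 331) (nat_lit 254) (nat_lit 195)) (XT.lf (nat_lit 0) (nat_lit 161264527361) (nat_lit 76) (nat_lit 86703538960) (nat_lit 76) (nat_lit 71503935843) (nat_lit 3) (nat_lit 4) (nat_lit 4) (nat_lit 5) (nat_lit 4) (nat_lit 4) (nat_lit 332) (nat_lit 254) (nat_lit 194))))) (XT.nd (nat_lit 156) (nat_lit 0) (nat_lit 0) (XT.nd (nat_lit 78) (nat_lit 0) (nat_lit 0) (XT.lf (nat_lit 0) (nat_lit 187242133549) (nat_lit 76) (nat_lit 86322487996) (nat_lit 76) (nat_lit 71111654782) (nat_lit 3) (nat_lit 4)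 (nat_lit 4) (nat_lit 5) (nat_lit 4) (nat_lit 4) (nat_lit 333) (nat_lit 254) (nat_lit 193)) (XT.lf (nat_lit 0) (nat_lit 215279868693) (nat_lit 76) (nat_lit 85919371956) (nat_lit 76) (nat_lit 70698140505) (nat_lit 3) (nat_lit 4) (nat_lit 4) (nat_lit 5) (nat_lit 4) (nat_lit 4) (nat_lit 334) (nat_lit 254) (nat_lit 192))) (XT.nd (nat_lit 78) (nat_lit 0) (nat_lit 0) (XT.lf (nat_lit 0) (nat_lit 245543882335) (nat_lit 76) (nat_lit 85491802005) (nat_lit 76) (nat_lit 70260942556) (nat_lit 3) (nat_lit 4) (nat_lit 4) (nat_lit 5) (nat_lit 4) (nat_lit 4) (nat_lit 335) (nat_lit 254) (nat_lit 191)) (XT.nd (nat_lit 78) (nat_lit 0) (nat_lit 0) (XT.lf (nat_lit 0) (nat_lit 278213516776) (nat_lit 76) (nat_lit 85037244395) (nat_lit 76) (nat_lit 69797470133) (nat_lit 3) (nat_lit 4) (nat_lit 4) (nat_lit 5) (nat_lit 4) (nat_lit 4) (nat_lit 336) (nat_lit 254) (nat_lit 190)) (XT.lf (nat_lit 0) (nat_lit 313482369852)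 (nat_lit 76) (nat_lit 84553005452) (nat_lit 76) (nat_lit 69304976733) (nat_lit 3) (nat_lit 4) (nat_lit 4) (nat_lit 5) (nat_lit 4) (nat_lit 4) (nat_lit 337) (nat_lit 254) (nat_lit 189)))))) (XT.nd (nat_lit 390) (nat_lit 0) (nat_lit 0) (XT.nd (nat_lit 156) (nat_lit 0) (nat_lit 0) (XT.nd (nat_lit 78) (nat_lit 0) (nat_lit 0) (XT.lf (nat_lit 0) (nat_lit 351559442173) (nat_lit 76) (nat_lit 84036215610) (nat_lit 76) (nat_lit 68780543877) (nat_lit 3) (nat_lit 4) (nat_lit 4) (nat_lit 5) (nat_lit 4) (nat_lit 4) (nat_lit 338) (nat_lit 254) (nat_lit 188)) (XT.lf (nat_lit 0) (nat_lit 392670375648) (nat_lit 76) (nat_lit 83483812413) (nat_lit 76) (nat_lit 68221063813) (nat_lit 3) (nat_lit 4) (nat_lit 4) (nat_lit 5) (nat_lit 4) (nat_lit 4) (nat_lit 339) (nat_lit 254) (nat_lit 187))) (XT.nd (nat_lit 78) (nat_lit 0) (nat_lit 0) (XT.lf (nat_lit 0) (nat_lit 437058790625) (nat_lit 76) (nat_lit 82892522359)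 (nat_lit 76) (nat_lit 67623221106) (nat_lit 3) (nat_lit 4) (nat_lit 4) (nat_lit 5) (nat_lit 4) (nat_lit 4) (nat_lit 340) (nat_lit 254) (nat_lit 186)) (XT.nd (nat_lit 78) (nat_lit 0) (nat_lit 0) (XT.lf (nat_lit 0) (nat_lit 484987729563) (nat_lit 76) (nat_lit 82258841507) (nat_lit 76) (nat_lit 66983472982) (nat_lit 3) (nat_lit 4) (nat_lit 4) (nat_lit 5) (nat_lit 4) (nat_lit 4) (nat_lit 341) (nat_lit 254) (nat_lit 185)) (XT.lf (nat_lit 0) (nat_lit 536741215803) (nat_lit 76) (nat_lit 81579014712) (nat_lit 76) (nat_lit 66298028343) (nat_lit 3) (nat_lit 4) (nat_lit 4) (nat_lit 5) (nat_lit 4) (nat_lit 4) (nat_lit 342) (nat_lit 254) (nat_lit 184))))) (XT.nd (nat_lit 156) (nat_lit 0) (nat_lit 0) (XT.nd (nat_lit 78) (nat_lit 0) (nat_lit 0) (XT.lf (nat_lit 0) (nat_lit 592625936671) (nat_lit 76) (nat_lit 80849013371) (nat_lit 76) (nat_lit 65562825294) (nat_lit 3) (nat_lit 4) (nat_lit 4) (nat_lit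 5) (nat_lit 4) (nat_lit 4) (nat_lit 343) (nat_lit 254) (nat_lit 183)) (XT.lf (nat_lit 0) (nat_lit 652973060884) (nat_lit 76) (nat_lit 80064511549) (nat_lit 76) (nat_lit 64773507076) (nat_lit 3) (nat_lit 4) (nat_lit 4) (nat_lit 5) (nat_lit 4) (nat_lit 4) (nat_lit 344) (nat_lit 254) (nat_lit 182))) (XT.nd (nat_lit 78) (nat_lit 0) (nat_lit 0) (XT.lf (nat_lit 0) (nat_lit 718140201029) (nat_lit 76) (nat_lit 79220860347) (nat_lit 76) (nat_lit 63925396247) (nat_lit 3) (nat_lit 4) (nat_lit 4) (nat_lit 5) (nat_lit 4) (nat_lit 4) (nat_lit 345) (nat_lit 254) (nat_lit 181)) (XT.nd (nat_lit 78) (nat_lit 0) (nat_lit 0) (XT.lf (nat_lit 0) (nat_lit 788513532752) (nat_lit 76) (nat_lit 78313060350) (nat_lit 76) (nat_lit 63013466967) (nat_lit 3) (nat_lit 4) (nat_lit 4) (nat_lit 5) (nat_lit 4) (nat_lit 4) (nat_lit 346) (nat_lit 254) (nat_lit 180)) (XT.lf (nat_lit 0) (nat_lit 864510083203) (nat_lit 76) (nat_lit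 77335732002) (nat_lit 76) (nat_lit 62032315210) (nat_lit 3) (nat_lit 4) (nat_lit 4) (nat_lit 5) (nat_lit 4) (nat_lit 4) (nat_lit 347) (nat_lit 254) (nat_lit 179))))))) (XT.nd (nat_lit 780) (nat_lit 1596) (nat_lit 0) (XT.nd (nat_lit 390) (nat_lit 1292) (nat_lit 0) (XT.nd (nat_lit 156) (nat_lit 1140) (nat_lit 0) (XT.nd (nat_lit 78) (nat_lit 1140) (nat_lit 0) (XT.lf (nat_lit 0) (nat_lit 1746253661) (nat_lit 684) (nat_lit 123918232) (nat_lit 0) (nat_lit 1746253661) (nat_lit 89) (nat_lit 5) (nat_lit 98) (nat_lit 4) (nat_lit 89) (nat_lit 4) (nat_lit 270) (nat_lit 255) (nat_lit 255)) (XT.lf (nat_lit 0) (nat_lit 74211401) (nat_lit 380) (nat_lit 1148110048) (nat_lit 456) (nat_lit 6186505506) (nat_lit 74) (nat_lit 5) (nat_lit 79) (nat_lit 5) (nat_lit 80) (nat_lit 4) (nat_lit 271) (nat_lit 255) (nat_lit 254))) (XT.nd (nat_lit 78) (nat_lit 760) (nat_lit 0) (XT.lf (nat_lit 0) (nat_lit 414395138) (nat_lit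 380) (nat_lit 5826539333) (nat_lit 380) (nat_lit 1366557899) (nat_lit 69) (nat_lit 4) (nat_lit 74) (nat_lit 5) (nat_lit 74) (nat_lit 4) (nat_lit 272) (nat_lit 255) (nat_lit 253)) (XT.nd (nat_lit 78) (nat_lit 380) (nat_lit 0) (XT.lf (nat_lit 0) (nat_lit 752017631) (nat_lit 304) (nat_lit 2758904154) (nat_lit 380) (nat_lit 4319429244) (nat_lit 64) (nat_lit 5) (nat_lit 68) (nat_lit 5) (nat_lit 69) (nat_lit 4) (nat_lit 273) (nat_lit 255) (nat_lit 252)) (XT.lf (nat_lit 0) (nat_lit 443314403) (nat_lit 380) (nat_lit 6980440383) (nat_lit 76) (nat_lit 656379302) (nat_lit 59) (nat_lit 5) (nat_lit 64) (nat_lit 5) (nat_lit 60) (nat_lit 4) (nat_lit 274) (nat_lit 255) (nat_lit 251))))) (XT.nd (nat_lit 156) (nat_lit 684) (nat_lit 0) (XT.nd (nat_lit 78) (nat_lit 380) (nat_lit 0) (XT.lf (nat_lit 0) (nat_lit 1349868346) (nat_lit 228) (nat_lit 3947790584) (nat_lit 304) (nat_lit 3056451628) (nat_lit 56) (nat_lit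 5) (nat_lit 59) (nat_lit 5) (nat_lit 60) (nat_lit 4) (nat_lit 275) (nat_lit 255) (nat_lit 250)) (XT.lf (nat_lit 0) (nat_lit 1564151598) (nat_lit 304) (nat_lit 93259821) (nat_lit 380) (nat_lit 7000486488) (nat_lit 51) (nat_lit 5) (nat_lit 55) (nat_lit 5) (nat_lit 56) (nat_lit 5) (nat_lit 276) (nat_lit 255) (nat_lit 249))) (XT.nd (nat_lit 78) (nat_lit 456) (nat_lit 0) (XT.lf (nat_lit 0) (nat_lit 1619838417) (nat_lit 228) (nat_lit 4931617525) (nat_lit 304) (nat_lit 2437210771) (nat_lit 48) (nat_lit 5) (nat_lit 51) (nat_lit 5) (nat_lit 52) (nat_lit 4) (nat_lit 277) (nat_lit 255) (nat_lit 248)) (XT.nd (nat_lit 78) (nat_lit 152) (nat_lit 0) (XT.lf (nat_lit 0) (nat_lit 1555445798) (nat_lit 228) (nat_lit 714458129) (nat_lit 304) (nat_lit 7081732818) (nat_lit 44) (nat_lit 5) (nat_lit 47) (nat_lit 5) (nat_lit 48) (nat_lit 5) (nat_lit 278) (nat_lit 255) (nat_lit 247)) (XT.lf (nat_lit 0) (nat_lit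 1265336244) (nat_lit 152) (nat_lit 5935436451) (nat_lit 228) (nat_lit 2544809977) (nat_lit 42) (nat_lit 5) (nat_lit 44) (nat_lit 5) (nat_lit 45) (nat_lit 4) (nat_lit 279) (nat_lit 255) (nat_lit 246)))))) (XT.nd (nat_lit 390) (nat_lit 684) (nat_lit 0) (XT.nd (nat_lit 156) (nat_lit 608) (nat_lit 0) (XT.nd (nat_lit 78) (nat_lit 0) (nat_lit 0) (XT.lf (nat_lit 0) (nat_lit 755107465) (nat_lit 228) (nat_lit 1417673386) (nat_lit 304) (nat_lit 8002268339) (nat_lit 38) (nat_lit 5) (nat_lit 41) (nat_lit 5) (nat_lit 42) (nat_lit 5) (nat_lit 280) (nat_lit 255) (nat_lit 245)) (XT.lf (nat_lit 0) (nat_lit 7127639148) (nat_lit 304) (nat_lit 77441462) (nat_lit 76) (nat_lit 3434716657) (nat_lit 38) (nat_lit 5) (nat_lit 42) (nat_lit 5) (nat_lit 39) (nat_lit 4) (nat_lit 281) (nat_lit 255) (nat_lit 244))) (XT.nd (nat_lit 78) (nat_lit 380) (nat_lit 0) (XT.lf (nat_lit 0) (nat_lit 1234983514) (nat_lit 228) (nat_lit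 1208388660) (nat_lit 76) (nat_lit 8700684736) (nat_lit 35) (nat_lit 5) (nat_lit 38) (nat_lit 5) (nat_lit 36) (nat_lit 5) (nat_lit 282) (nat_lit 255) (nat_lit 243)) (XT.nd (nat_lit 78) (nat_lit 152) (nat_lit 0) (XT.lf (nat_lit 0) (nat_lit 6196111003) (nat_lit 304) (nat_lit 2786329490) (nat_lit 76) (nat_lit 2705851288) (nat_lit 32) (nat_lit 5) (nat_lit 36) (nat_lit 5) (nat_lit 33) (nat_lit 4) (nat_lit 283) (nat_lit 255) (nat_lit 242)) (XT.lf (nat_lit 0) (nat_lit 7448213937) (nat_lit 152) (nat_lit 4065807288) (nat_lit 228) (nat_lit 764398154) (nat_lit 30) (nat_lit 5) (nat_lit 32) (nat_lit 5) (nat_lit 33) (nat_lit 4) (nat_lit 284) (nat_lit 255) (nat_lit 241))))) (XT.nd (nat_lit 156) (nat_lit 304) (nat_lit 0) (XT.nd (nat_lit 78) (nat_lit 152) (nat_lit 0) (XT.lf (nat_lit 0) (nat_lit 4146631903) (nat_lit 228) (nat_lit 7473958802) (nat_lit 76) (nat_lit 1294885455) (nat_lit 27) (nat_lit 5) (nat_lit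 30) (nat_lit 5) (nat_lit 28) (nat_lit 4) (nat_lit 285) (nat_lit 255) (nat_lit 240)) (XT.lf (nat_lit 0) (nat_lit 2789957348) (nat_lit 152) (nat_lit 6629197141) (nat_lit 228) (nat_lit 4184231500) (nat_lit 25) (nat_lit 5) (nat_lit 27) (nat_lit 5) (nat_lit 28) (nat_lit 4) (nat_lit 286) (nat_lit 255) (nat_lit 239))) (XT.nd (nat_lit 78) (nat_lit 228) (nat_lit 0) (XT.lf (nat_lit 0) (nat_lit 679069676) (nat_lit 228) (nat_lit 529353361) (nat_lit 76) (nat_lit 13140734024) (nat_lit 24) (nat_lit 5) (nat_lit 27) (nat_lit 5) (nat_lit 25) (nat_lit 5) (nat_lit 287) (nat_lit 255) (nat_lit 238)) (XT.nd (nat_lit 78) (nat_lit 76) (nat_lit 0) (XT.lf (nat_lit 0) (nat_lit 5844820469) (nat_lit 228) (nat_lit 4675977094) (nat_lit 76) (nat_lit 4627595914) (nat_lit 22) (nat_lit 5) (nat_lit 25) (nat_lit 5) (nat_lit 23) (nat_lit 4) (nat_lit 288) (nat_lit 255) (nat_lit 237)) (XT.lf (nat_lit 0) (nat_lit 6253586698)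 (nat_lit 76) (nat_lit 5123631533) (nat_lit 152) (nat_lit 4636896400) (nat_lit 21) (nat_lit 5) (nat_lit 22) (nat_lit 5) (nat_lit 23) (nat_lit 4) (nat_lit 289) (nat_lit 255) (nat_lit 236))))))))
noncomputable def xc38 : XT := (XT.nd (nat_lit 1560) (nat_lit 304) (nat_lit 0) (XT.nd (nat_lit 780) (nat_lit 304) (nat_lit 0) (XT.nd (nat_lit 390) (nat_lit 228) (nat_lit 0) (XT.nd (nat_lit 156) (nat_lit 304) (nat_lit 0) (XT.nd (nat_lit 78) (nat_lit 0) (nat_lit 0) (XT.lf (nat_lit 0) (nat_lit 331626717) (nat_lit 228) (nat_lit 15940217390) (nat_lit 76) (nat_lit 680053700) (nat_lit 18) (nat_lit 5) (nat_lit 21) (nat_lit 5) (nat_lit 19) (nat_lit 4) (nat_lit 290) (nat_lit 255) (nat_lit 235)) (XT.lf (nat_lit 0) (nat_lit 5634797488) (nat_lit 228) (nat_lit 5404999578) (nat_lit 76) (nat_lit 6916300525) (nat_lit 18) (nat_lit 5) (nat_lit 21) (nat_lit 5) (nat_lit 19) (nat_lit 4) (nat_lit 291) (nat_lit 255) (nat_lit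 234))) (XT.nd (nat_lit 78) (nat_lit 228) (nat_lit 0) (XT.lf (nat_lit 0) (nat_lit 5906869972) (nat_lit 76) (nat_lit 5397801673) (nat_lit 152) (nat_lit 7739001903) (nat_lit 17) (nat_lit 5) (nat_lit 18) (nat_lit 5) (nat_lit 19) (nat_lit 4) (nat_lit 292) (nat_lit 255) (nat_lit 233)) (XT.nd (nat_lit 78) (nat_lit 228) (nat_lit 0) (XT.lf (nat_lit 0) (nat_lit 17390613121) (nat_lit 152) (nat_lit 2159070139) (nat_lit 0) (nat_lit 670599077) (nat_lit 17) (nat_lit 5) (nat_lit 19) (nat_lit 4) (nat_lit 17) (nat_lit 4) (nat_lit 293) (nat_lit 255) (nat_lit 232)) (XT.lf (nat_lit 0) (nat_lit 2503740755) (nat_lit 228) (nat_lit 11841585216) (nat_lit 76) (nat_lit 7138373463) (nat_lit 14) (nat_lit 5) (nat_lit 17) (nat_lit 5) (nat_lit 15) (nat_lit 4) (nat_lit 294) (nat_lit 255) (nat_lit 231))))) (XT.nd (nat_lit 156) (nat_lit 152) (nat_lit 0) (XT.nd (nat_lit 78) (nat_lit 76) (nat_lit 0) (XT.lf (nat_lit 0) (nat_lit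 8075053121) (nat_lit 228) (nat_lit 655802014) (nat_lit 76) (nat_lit 14119619978) (nat_lit 14) (nat_lit 5) (nat_lit 17) (nat_lit 5) (nat_lit 15) (nat_lit 4) (nat_lit 295) (nat_lit 255) (nat_lit 230)) (XT.lf (nat_lit 0) (nat_lit 11586751822) (nat_lit 76) (nat_lit 2566605406) (nat_lit 152) (nat_lit 10170285160) (nat_lit 13) (nat_lit 5) (nat_lit 14) (nat_lit 5) (nat_lit 15) (nat_lit 4) (nat_lit 296) (nat_lit 255) (nat_lit 229))) (XT.nd (nat_lit 78) (nat_lit 152) (nat_lit 0) (XT.lf (nat_lit 0) (nat_lit 20678187792) (nat_lit 152) (nat_lit 1350336162) (nat_lit 0) (nat_lit 3888231426) (nat_lit 13) (nat_lit 5) (nat_lit 15) (nat_lit 4) (nat_lit 13) (nat_lit 4) (nat_lit 297) (nat_lit 255) (nat_lit 228)) (XT.nd (nat_lit 78) (nat_lit 0) (nat_lit 0) (XT.lf (nat_lit 0) (nat_lit 195992321) (nat_lit 152) (nat_lit 16566147140) (nat_lit 76) (nat_lit 10869646908) (nat_lit 11) (nat_lit 5) (nat_lit 13) (nat_lit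 5) (nat_lit 12) (nat_lit 4) (nat_lit 298) (nat_lit 255) (nat_lit 227)) (XT.lf (nat_lit 0) (nat_lit 5804785561) (nat_lit 152) (nat_lit 5232912695) (nat_lit 76) (nat_lit 18445963647) (nat_lit 11) (nat_lit 5) (nat_lit 13) (nat_lit 5) (nat_lit 12) (nat_lit 4) (nat_lit 299) (nat_lit 255) (nat_lit 226)))))) (XT.nd (nat_lit 390) (nat_lit 76) (nat_lit 0) (XT.nd (nat_lit 156) (nat_lit 152) (nat_lit 0) (XT.nd (nat_lit 78) (nat_lit 0) (nat_lit 0) (XT.lf (nat_lit 0) (nat_lit 7062215262) (nat_lit 76) (nat_lit 4814625353) (nat_lit 152) (nat_lit 19606198664) (nat_lit 10) (nat_lit 5) (nat_lit 11) (nat_lit 5) (nat_lit 12) (nat_lit 4) (nat_lit 300) (nat_lit 255) (nat_lit 225)) (XT.lf (nat_lit 0) (nat_lit 18464779185) (nat_lit 152) (nat_lit 13308129021) (nat_lit 0) (nat_lit 1868026498) (nat_lit 10) (nat_lit 5) (nat_lit 12) (nat_lit 4) (nat_lit 10) (nat_lit 4) (nat_lit 301) (nat_lit 255) (nat_lit 224)))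 (XT.nd (nat_lit 78) (nat_lit 152) (nat_lit 0) (XT.lf (nat_lit 0) (nat_lit 25575480880) (nat_lit 152) (nat_lit 1542122214) (nat_lit 0) (nat_lit 8854140611) (nat_lit 10) (nat_lit 5) (nat_lit 12) (nat_lit 4) (nat_lit 10) (nat_lit 4) (nat_lit 302) (nat_lit 255) (nat_lit 223)) (XT.nd (nat_lit 78) (nat_lit 76) (nat_lit 0) (XT.lf (nat_lit 0) (nat_lit 11386530777) (nat_lit 76) (nat_lit 21967158279) (nat_lit 76) (nat_lit 5130459135) (nat_lit 9) (nat_lit 4) (nat_lit 10) (nat_lit 5) (nat_lit 10) (nat_lit 4) (nat_lit 303) (nat_lit 255) (nat_lit 222)) (XT.lf (nat_lit 0) (nat_lit 489403344) (nat_lit 152) (nat_lit 15940236059) (nat_lit 76) (nat_lit 24769996456) (nat_lit 8) (nat_lit 5) (nat_lit 10) (nat_lit 5) (nat_lit 9) (nat_lit 4) (nat_lit 304) (nat_lit 255) (nat_lit 221))))) (XT.nd (nat_lit 156) (nat_lit 0) (nat_lit 0) (XT.nd (nat_lit 78) (nat_lit 76) (nat_lit 0) (XT.lf (nat_lit 0) (nat_lit 6310498873)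 (nat_lit 152) (nat_lit 4105891864) (nat_lit 76) (nat_lit 33715248660) (nat_lit 8) (nat_lit 5) (nat_lit 10) (nat_lit 5) (nat_lit 9) (nat_lit 4) (nat_lit 305) (nat_lit 255) (nat_lit 220)) (XT.lf (nat_lit 0) (nat_lit 8838533737) (nat_lit 76) (nat_lit 3830990109) (nat_lit 152) (nat_lit 34625115127) (nat_lit 7) (nat_lit 5) (nat_lit 8) (nat_lit 5) (nat_lit 9) (nat_lit 4) (nat_lit 306) (nat_lit 255) (nat_lit 219))) (XT.nd (nat_lit 78) (nat_lit 0) (nat_lit 0) (XT.lf (nat_lit 0) (nat_lit 19597720256) (nat_lit 152) (nat_lit 27911100176) (nat_lit 0) (nat_lit 3198879910) (nat_lit 7) (nat_lit 5) (nat_lit 9) (nat_lit 4) (nat_lit 7) (nat_lit 4) (nat_lit 307) (nat_lit 255) (nat_lit 218)) (XT.nd (nat_lit 78) (nat_lit 0) (nat_lit 0) (XT.lf (nat_lit 0) (nat_lit 27085997248) (nat_lit 152) (nat_lit 16695174924) (nat_lit 0) (nat_lit 10612384224) (nat_lit 7) (nat_lit 5) (nat_lit 9) (nat_lit 4) (nat_lit 7) (nat_lit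 4) (nat_lit 308) (nat_lit 255) (nat_lit 217)) (XT.lf (nat_lit 0) (nat_lit 35118917303) (nat_lit 152) (nat_lit 4682052244) (nat_lit 0) (nat_lit 18576070320) (nat_lit 7) (nat_lit 5) (nat_lit 9) (nat_lit 4) (nat_lit 7) (nat_lit 4) (nat_lit 309) (nat_lit 255) (nat_lit 216))))))) (XT.nd (nat_lit 780) (nat_lit 76) (nat_lit 0) (XT.nd (nat_lit 390) (nat_lit 76) (nat_lit 0) (XT.nd (nat_lit 156) (nat_lit 76) (nat_lit 0) (XT.nd (nat_lit 78) (nat_lit 0) (nat_lit 0) (XT.lf (nat_lit 0) (nat_lit 8470567805) (nat_lit 76) (nat_lit 35405764409) (nat_lit 76) (nat_lit 18798811907) (nat_lit 6) (nat_lit 4) (nat_lit 7) (nat_lit 5) (nat_lit 7) (nat_lit 4) (nat_lit 310) (nat_lit 255) (nat_lit 215)) (XT.lf (nat_lit 0) (nat_lit 22753955566) (nat_lit 76) (nat_lit 30613903616) (nat_lit 76) (nat_lit 13947594152) (nat_lit 6) (nat_lit 4) (nat_lit 7) (nat_lit 5) (nat_lit 7) (nat_lit 4) (nat_lit 311) (nat_lit 255) (nat_lit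 214))) (XT.nd (nat_lit 78) (nat_lit 76) (nat_lit 0) (XT.lf (nat_lit 0) (nat_lit 38097943543) (nat_lit 76) (nat_lit 25476283777) (nat_lit 76) (nat_lit 8755014163) (nat_lit 6) (nat_lit 4) (nat_lit 7) (nat_lit 5) (nat_lit 7) (nat_lit 4) (nat_lit 312) (nat_lit 255) (nat_lit 213)) (XT.nd (nat_lit 78) (nat_lit 76) (nat_lit 0) (XT.lf (nat_lit 0) (nat_lit 54593459072) (nat_lit 76) (nat_lit 19962459737) (nat_lit 76) (nat_lit 3190301096) (nat_lit 6) (nat_lit 4) (nat_lit 7) (nat_lit 5) (nat_lit 7) (nat_lit 4) (nat_lit 313) (nat_lit 255) (nat_lit 212)) (XT.lf (nat_lit 0) (nat_lit 2690559092) (nat_lit 152) (nat_lit 11303631971) (nat_lit 76) (nat_lit 69602128344) (nat_lit 5) (nat_lit 5) (nat_lit 7) (nat_lit 5) (nat_lit 6) (nat_lit 4) (nat_lit 314) (nat_lit 255) (nat_lit 211))))) (XT.nd (nat_lit 156) (nat_lit 0) (nat_lit 0) (XT.nd (nat_lit 78) (nat_lit 0) (nat_lit 0) (XT.lf (nat_lit 0) (nat_lit 1418678804)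 (nat_lit 76) (nat_lit 7499168051) (nat_lit 152) (nat_lit 80994601239) (nat_lit 4) (nat_lit 5) (nat_lit 5) (nat_lit 5) (nat_lit 6) (nat_lit 4) (nat_lit 315) (nat_lit 255) (nat_lit 210)) (XT.lf (nat_lit 0) (nat_lit 15498946773) (nat_lit 76) (nat_lit 307029506) (nat_lit 152) (nat_lit 80919778970) (nat_lit 4) (nat_lit 5) (nat_lit 5) (nat_lit 5) (nat_lit 6) (nat_lit 4) (nat_lit 316) (nat_lit 255) (nat_lit 209))) (XT.nd (nat_lit 78) (nat_lit 0) (nat_lit 0) (XT.lf (nat_lit 0) (nat_lit 23329505662) (nat_lit 152) (nat_lit 73554926815) (nat_lit 0) (nat_lit 7195496562) (nat_lit 4) (nat_lit 5) (nat_lit 6) (nat_lit 4) (nat_lit 4) (nat_lit 4) (nat_lit 317) (nat_lit 255) (nat_lit 208)) (XT.nd (nat_lit 78) (nat_lit 0) (nat_lit 0) (XT.lf (nat_lit 0) (nat_lit 31430345030) (nat_lit 152) (nat_lit 65329987454) (nat_lit 0) (nat_lit 15263350961) (nat_lit 4) (nat_lit 5) (nat_lit 6) (nat_lit 4) (nat_lit 4) (nat_lit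 4) (nat_lit 318) (nat_lit 255) (nat_lit 207)) (XT.lf (nat_lit 0) (nat_lit 40151705766) (nat_lit 152) (nat_lit 56498456422) (nat_lit 0) (nat_lit 23954170059) (nat_lit 4) (nat_lit 5) (nat_lit 6) (nat_lit 4) (nat_lit 4) (nat_lit 4) (nat_lit 319) (nat_lit 255) (nat_lit 206)))))) (XT.nd (nat_lit 390) (nat_lit 76) (nat_lit 0) (XT.nd (nat_lit 156) (nat_lit 0) (nat_lit 0) (XT.nd (nat_lit 78) (nat_lit 0) (nat_lit 0) (XT.lf (nat_lit 0) (nat_lit 49545270008) (nat_lit 152) (nat_lit 47007998718) (nat_lit 0) (nat_lit 33319455007) (nat_lit 4) (nat_lit 5) (nat_lit 6) (nat_lit 4) (nat_lit 4) (nat_lit 4) (nat_lit 320) (nat_lit 255) (nat_lit 205)) (XT.lf (nat_lit 0) (nat_lit 59666703323) (nat_lit 152) (nat_lit 36802374594) (nat_lit 0) (nat_lit 43414703790) (nat_lit 4) (nat_lit 5) (nat_lit 6) (nat_lit 4) (nat_lit 4) (nat_lit 4) (nat_lit 321) (nat_lit 255) (nat_lit 204))) (XT.nd (nat_lit 78) (nat_lit 0) (nat_lit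 0) (XT.lf (nat_lit 0) (nat_lit 70575984573) (nat_lit 152) (nat_lit 25821106277) (nat_lit 0) (nat_lit 54299740104) (nat_lit 4) (nat_lit 5) (nat_lit 6) (nat_lit 4) (nat_lit 4) (nat_lit 4) (nat_lit 322) (nat_lit 255) (nat_lit 203)) (XT.nd (nat_lit 78) (nat_lit 0) (nat_lit 0) (XT.lf (nat_lit 0) (nat_lit 82337761352) (nat_lit 152) (nat_lit 13999119585) (nat_lit 0) (nat_lit 66039067867) (nat_lit 4) (nat_lit 5) (nat_lit 6) (nat_lit 4) (nat_lit 4) (nat_lit 4) (nat_lit 323) (nat_lit 255) (nat_lit 202)) (XT.lf (nat_lit 0) (nat_lit 95021733078) (nat_lit 152) (nat_lit 1266358301) (nat_lit 0) (nat_lit 78702253468) (nat_lit 4) (nat_lit 5) (nat_lit 6) (nat_lit 4) (nat_lit 4) (nat_lit 4) (nat_lit 324) (nat_lit 255) (nat_lit 201))))) (XT.nd (nat_lit 156) (nat_lit 0) (nat_lit 0) (XT.nd (nat_lit 78) (nat_lit 0) (nat_lit 0) (XT.lf (nat_lit 0) (nat_lit 12864371194) (nat_lit 76) (nat_lit 96039541719) (nat_lit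 76) (nat_lit 79700815697) (nat_lit 3) (nat_lit 4) (nat_lit 4) (nat_lit 5) (nat_lit 4) (nat_lit 4) (nat_lit 325) (nat_lit 255) (nat_lit 200)) (XT.lf (nat_lit 0) (nat_lit 28139795142) (nat_lit 76) (nat_lit 95762374675) (nat_lit 76) (nat_lit 79405827900) (nat_lit 3) (nat_lit 4) (nat_lit 4) (nat_lit 5) (nat_lit 4) (nat_lit 4) (nat_lit 326) (nat_lit 255) (nat_lit 199))) (XT.nd (nat_lit 78) (nat_lit 0) (nat_lit 0) (XT.lf (nat_lit 0) (nat_lit 44608563049) (nat_lit 76) (nat_lit 95476394165) (nat_lit 76) (nat_lit 79103346694) (nat_lit 3) (nat_lit 4) (nat_lit 4) (nat_lit 5) (nat_lit 4) (nat_lit 4) (nat_lit 327) (nat_lit 255) (nat_lit 198)) (XT.nd (nat_lit 78) (nat_lit 0) (nat_lit 0) (XT.lf (nat_lit 0) (nat_lit 62368267614) (nat_lit 76) (nat_lit 95179905489) (nat_lit 76) (nat_lit 78791579596) (nat_lit 3) (nat_lit 4) (nat_lit 4) (nat_lit 5) (nat_lit 4) (nat_lit 4) (nat_lit 328) (nat_lit 255) (nat_lit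 197)) (XT.lf (nat_lit 0) (nat_lit 81524151530) (nat_lit 76) (nat_lit 94871151679) (nat_lit 76) (nat_lit 78468679098) (nat_lit 3) (nat_lit 4) (nat_lit 4) (nat_lit 5) (nat_lit 4) (nat_lit 4) (nat_lit 329) (nat_lit 255) (nat_lit 196))))))))
noncomputable def xc39 : XT := (XT.nd (nat_lit 35958) (nat_lit 0) (nat_lit 1368) (XT.nd (nat_lit 780) (nat_lit 0) (nat_lit 0) (XT.nd (nat_lit 390) (nat_lit 0) (nat_lit 0) (XT.nd (nat_lit 156) (nat_lit 0) (nat_lit 0) (XT.nd (nat_lit 78) (nat_lit 0) (nat_lit 0) (XT.lf (nat_lit 0) (nat_lit 102189731147) (nat_lit 76) (nat_lit 94548303082) (nat_lit 76) (nat_lit 78132731716) (nat_lit 3) (nat_lit 4) (nat_lit 4) (nat_lit 5) (nat_lit 4) (nat_lit 4) (nat_lit 330) (nat_lit 255) (nat_lit 195)) (XT.lf (nat_lit 0) (nat_lit 124487469158) (nat_lit 76) (nat_lit 94209446521) (nat_lit 76) (nat_lit 77781746650) (nat_lit 3) (nat_lit 4) (nat_lit 4) (nat_lit 5) (nat_lit 4)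 (nat_lit 4) (nat_lit 331) (nat_lit 255) (nat_lit 194))) (XT.nd (nat_lit 78) (nat_lit 0) (nat_lit 0) (XT.lf (nat_lit 0) (nat_lit 148549500308) (nat_lit 76) (nat_lit 93852573957) (nat_lit 76) (nat_lit 77413643989) (nat_lit 3) (nat_lit 4) (nat_lit 4) (nat_lit 5) (nat_lit 4) (nat_lit 4) (nat_lit 332) (nat_lit 255) (nat_lit 193)) (XT.nd (nat_lit 78) (nat_lit 0) (nat_lit 0) (XT.lf (nat_lit 0) (nat_lit 174518414410) (nat_lit 76) (nat_lit 93475570589) (nat_lit 76) (nat_lit 77026242384) (nat_lit 3) (nat_lit 4) (nat_lit 4) (nat_lit 5) (nat_lit 4) (nat_lit 4) (nat_lit 333) (nat_lit 255) (nat_lit 192)) (XT.lf (nat_lit 0) (nat_lit 202548101326) (nat_lit 76) (nat_lit 93076202324) (nat_lit 76) (nat_lit 76617246121) (nat_lit 3) (nat_lit 4) (nat_lit 4) (nat_lit 5) (nat_lit 4) (nat_lit 4) (nat_lit 334) (nat_lit 255) (nat_lit 191))))) (XT.nd (nat_lit 156) (nat_lit 0) (nat_lit 0) (XT.nd (nat_lit 78) (nat_lit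 0) (nat_lit 0) (XT.lf (nat_lit 0) (nat_lit 232804662904) (nat_lit 76) (nat_lit 92652102536) (nat_lit 76) (nat_lit 76184231519) (nat_lit 3) (nat_lit 4) (nat_lit 4) (nat_lit 5) (nat_lit 4) (nat_lit 4) (nat_lit 335) (nat_lit 255) (nat_lit 190)) (XT.lf (nat_lit 0) (nat_lit 265467397288) (nat_lit 76) (nat_lit 92200758039) (nat_lit 76) (nat_lit 75724632566) (nat_lit 3) (nat_lit 4) (nat_lit 4) (nat_lit 5) (nat_lit 4) (nat_lit 4) (nat_lit 336) (nat_lit 255) (nat_lit 189))) (XT.nd (nat_lit 78) (nat_lit 0) (nat_lit 0) (XT.lf (nat_lit 0) (nat_lit 300729861421) (nat_lit 76) (nat_lit 91719494200) (nat_lit 76) (nat_lit 75235725712) (nat_lit 3) (nat_lit 4) (nat_lit 4) (nat_lit 5) (nat_lit 4) (nat_lit 4) (nat_lit 337) (nat_lit 255) (nat_lit 188)) (XT.nd (nat_lit 78) (nat_lit 0) (nat_lit 0) (XT.lf (nat_lit 0) (nat_lit 338801018053) (nat_lit 76) (nat_lit 91205459085) (nat_lit 76) (nat_lit 74714613731)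 (nat_lit 3) (nat_lit 4) (nat_lit 4) (nat_lit 5) (nat_lit 4) (nat_lit 4) (nat_lit 338) (nat_lit 255) (nat_lit 187)) (XT.lf (nat_lit 0) (nat_lit 379906474040) (nat_lit 76) (nat_lit 90655606560) (nat_lit 76) (nat_lit 74158208553) (nat_lit 3) (nat_lit 4) (nat_lit 4) (nat_lit 5) (nat_lit 4) (nat_lit 4) (nat_lit 339) (nat_lit 255) (nat_lit 186)))))) (XT.nd (nat_lit 390) (nat_lit 0) (nat_lit 0) (XT.nd (nat_lit 156) (nat_lit 0) (nat_lit 0) (XT.nd (nat_lit 78) (nat_lit 0) (nat_lit 0) (XT.lf (nat_lit 0) (nat_lit 424289817268) (nat_lit 76) (nat_lit 90066678240) (nat_lit 76) (nat_lit 73563212961) (nat_lit 3) (nat_lit 4) (nat_lit 4) (nat_lit 5) (nat_lit 4) (nat_lit 4) (nat_lit 340) (nat_lit 255) (nat_lit 185)) (XT.lf (nat_lit 0) (nat_lit 472214060142) (nat_lit 76) (nat_lit 89435184180) (nat_lit 76) (nat_lit 72926101056) (nat_lit 3) (nat_lit 4) (nat_lit 4) (nat_lit 5) (nat_lit 4) (nat_lit 4) (nat_lit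 341) (nat_lit 255) (nat_lit 184))) (XT.nd (nat_lit 78) (nat_lit 0) (nat_lit 0) (XT.lf (nat_lit 0) (nat_lit 523963198175) (nat_lit 76) (nat_lit 88757382191) (nat_lit 76) (nat_lit 72243097360) (nat_lit 3) (nat_lit 4) (nat_lit 4) (nat_lit 5) (nat_lit 4) (nat_lit 4) (nat_lit 342) (nat_lit 255) (nat_lit 183)) (XT.nd (nat_lit 78) (nat_lit 0) (nat_lit 0) (XT.lf (nat_lit 0) (nat_lit 579843892925) (nat_lit 76) (nat_lit 88029255670) (nat_lit 76) (nat_lit 71510154443) (nat_lit 3) (nat_lit 4) (nat_lit 4) (nat_lit 5) (nat_lit 4) (nat_lit 4) (nat_lit 343) (nat_lit 255) (nat_lit 182)) (XT.lf (nat_lit 0) (nat_lit 640187289251) (nat_lit 76) (nat_lit 87246489793) (nat_lit 76) (nat_lit 70722928940) (nat_lit 3) (nat_lit 4) (nat_lit 4) (nat_lit 5) (nat_lit 4) (nat_lit 4) (nat_lit 344) (nat_lit 255) (nat_lit 181))))) (XT.nd (nat_lit 156) (nat_lit 0) (nat_lit 0) (XT.nd (nat_lit 78) (nat_lit 0) (nat_lit 0) (XT.lf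 (nat_lit 0) (nat_lit 705350977649) (nat_lit 76) (nat_lit 86404445947) (nat_lit 76) (nat_lit 69876755811) (nat_lit 3) (nat_lit 4) (nat_lit 4) (nat_lit 5) (nat_lit 4) (nat_lit 4) (nat_lit 345) (nat_lit 255) (nat_lit 180)) (XT.lf (nat_lit 0) (nat_lit 775721113310) (nat_lit 76) (nat_lit 85498134243) (nat_lit 76) (nat_lit 68966620696) (nat_lit 3) (nat_lit 4) (nat_lit 4) (nat_lit 5) (nat_lit 4) (nat_lit 4) (nat_lit 346) (nat_lit 255) (nat_lit 179))) (XT.nd (nat_lit 34476) (nat_lit 0) (nat_lit 7144) (XT.lf (nat_lit 0) (nat_lit 851714704445) (nat_lit 76) (nat_lit 84522183945) (nat_lit 76) (nat_lit 67987130203) (nat_lit 3) (nat_lit 4) (nat_lit 4) (nat_lit 5) (nat_lit 4) (nat_lit 4) (nat_lit 347) (nat_lit 255) (nat_lit 178)) (XT.nd (nat_lit 78) (nat_lit 608) (nat_lit 0) (XT.lf (nat_lit 0) (nat_lit 1610028762) (nat_lit 532) (nat_lit 250730713) (nat_lit 0) (nat_lit 1610028762) (nat_lit 105) (nat_lit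 5) (nat_lit 112) (nat_lit 4) (nat_lit 105) (nat_lit 4) (nat_lit 268) (nat_lit 256) (nat_lit 256)) (XT.lf (nat_lit 0) (nat_lit 1103596053) (nat_lit 608) (nat_lit 495003034) (nat_lit 76) (nat_lit 5482566132) (nat_lit 97) (nat_lit 5) (nat_lit 105) (nat_lit 5) (nat_lit 98) (nat_lit 4) (nat_lit 269) (nat_lit 256) (nat_lit 255))))))) (XT.nd (nat_lit 780) (nat_lit 1748) (nat_lit 0) (XT.nd (nat_lit 390) (nat_lit 1444) (nat_lit 0) (XT.nd (nat_lit 156) (nat_lit 1216) (nat_lit 0) (XT.nd (nat_lit 78) (nat_lit 760) (nat_lit 0) (XT.lf (nat_lit 0) (nat_lit 5931022871) (nat_lit 684) (nat_lit 438443393) (nat_lit 0) (nat_lit 873403925) (nat_lit 89) (nat_lit 5) (nat_lit 98) (nat_lit 4) (nat_lit 89) (nat_lit 4) (nat_lit 270) (nat_lit 256) (nat_lit 254)) (XT.lf (nat_lit 0) (nat_lit 3388829754) (nat_lit 760) (nat_lit 361950884) (nat_lit 76) (nat_lit 3675948178) (nat_lit 79) (nat_lit 5) (nat_lit 89) (nat_lit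 5) (nat_lit 80) (nat_lit 4) (nat_lit 271) (nat_lit 256) (nat_lit 253))) (XT.nd (nat_lit 78) (nat_lit 760) (nat_lit 0) (XT.lf (nat_lit 0) (nat_lit 542667407) (nat_lit 456) (nat_lit 234953829) (nat_lit 76) (nat_lit 6858378718) (nat_lit 73) (nat_lit 5) (nat_lit 79) (nat_lit 5) (nat_lit 74) (nat_lit 5) (nat_lit 272) (nat_lit 256) (nat_lit 252)) (XT.nd (nat_lit 78) (nat_lit 380) (nat_lit 0) (XT.lf (nat_lit 0) (nat_lit 5185680342) (nat_lit 456) (nat_lit 154072310) (nat_lit 76) (nat_lit 2528037334) (nat_lit 68) (nat_lit 5) (nat_lit 74) (nat_lit 5) (nat_lit 69) (nat_lit 4) (nat_lit 273) (nat_lit 256) (nat_lit 251)) (XT.lf (nat_lit 0) (nat_lit 1841125549) (nat_lit 380) (nat_lit 83542841) (nat_lit 76) (nat_lit 6201388881) (nat_lit 63) (nat_lit 5) (nat_lit 68) (nat_lit 5) (nat_lit 64) (nat_lit 5) (nat_lit 274) (nat_lit 256) (nat_lit 250))))) (XT.nd (nat_lit 156) (nat_lit 836) (nat_lit 0) (XT.nd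 (nat_lit 78) (nat_lit 304) (nat_lit 0) (XT.lf (nat_lit 0) (nat_lit 6494726758) (nat_lit 380) (nat_lit 79083011) (nat_lit 76) (nat_lit 1836638159) (nat_lit 59) (nat_lit 5) (nat_lit 64) (nat_lit 5) (nat_lit 60) (nat_lit 4) (nat_lit 275) (nat_lit 256) (nat_lit 249)) (XT.lf (nat_lit 0) (nat_lit 2593267914) (nat_lit 304) (nat_lit 172556747) (nat_lit 76) (nat_lit 5956270760) (nat_lit 55) (nat_lit 5) (nat_lit 59) (nat_lit 5) (nat_lit 56) (nat_lit 5) (nat_lit 276) (nat_lit 256) (nat_lit 248))) (XT.nd (nat_lit 78) (nat_lit 532) (nat_lit 0) (XT.lf (nat_lit 0) (nat_lit 7282088757) (nat_lit 380) (nat_lit 376463031) (nat_lit 76) (nat_lit 1404881465) (nat_lit 51) (nat_lit 5) (nat_lit 56) (nat_lit 5) (nat_lit 52) (nat_lit 4) (nat_lit 277) (nat_lit 256) (nat_lit 247)) (XT.nd (nat_lit 78) (nat_lit 228) (nat_lit 0) (XT.lf (nat_lit 0) (nat_lit 2743916431) (nat_lit 304) (nat_lit 764558915) (nat_lit 76) (nat_lit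 5925730507) (nat_lit 47) (nat_lit 5) (nat_lit 51) (nat_lit 5) (nat_lit 48) (nat_lit 5) (nat_lit 278) (nat_lit 256) (nat_lit 246)) (XT.lf (nat_lit 0) (nat_lit 7474789282) (nat_lit 304) (nat_lit 1334123318) (nat_lit 76) (nat_lit 1029490334) (nat_lit 44) (nat_lit 5) (nat_lit 48) (nat_lit 5) (nat_lit 45) (nat_lit 4) (nat_lit 279) (nat_lit 256) (nat_lit 245)))))) (XT.nd (nat_lit 390) (nat_lit 684) (nat_lit 0) (XT.nd (nat_lit 156) (nat_lit 608) (nat_lit 0) (XT.nd (nat_lit 78) (nat_lit 228) (nat_lit 0) (XT.lf (nat_lit 0) (nat_lit 2194869960) (nat_lit 228) (nat_lit 2179922326) (nat_lit 76) (nat_lit 5900822763) (nat_lit 41) (nat_lit 5) (nat_lit 44) (nat_lit 5) (nat_lit 42) (nat_lit 5) (nat_lit 280) (nat_lit 256) (nat_lit 244)) (XT.lf (nat_lit 0) (nat_lit 6953702561) (nat_lit 304) (nat_lit 3308706640) (nat_lit 76) (nat_lit 487960447) (nat_lit 38) (nat_lit 5) (nat_lit 42) (nat_lit 5) (nat_lit 39)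 (nat_lit 4) (nat_lit 281) (nat_lit 256) (nat_lit 243))) (XT.nd (nat_lit 78) (nat_lit 380) (nat_lit 0) (XT.lf (nat_lit 0) (nat_lit 796466985) (nat_lit 228) (nat_lit 4819451241) (nat_lit 76) (nat_lit 5647269829) (nat_lit 35) (nat_lit 5) (nat_lit 38) (nat_lit 5) (nat_lit 36) (nat_lit 5) (nat_lit 282) (nat_lit 256) (nat_lit 242)) (XT.nd (nat_lit 78) (nat_lit 152) (nat_lit 0) (XT.lf (nat_lit 0) (nat_lit 5059425239) (nat_lit 228) (nat_lit 491834852) (nat_lit 304) (nat_lit 6266647134) (nat_lit 32) (nat_lit 5) (nat_lit 35) (nat_lit 5) (nat_lit 36) (nat_lit 5) (nat_lit 283) (nat_lit 256) (nat_lit 241)) (XT.lf (nat_lit 0) (nat_lit 3197260334) (nat_lit 152) (nat_lit 7500377296) (nat_lit 228) (nat_lit 1719128993) (nat_lit 30) (nat_lit 5) (nat_lit 32) (nat_lit 5) (nat_lit 33) (nat_lit 4) (nat_lit 284) (nat_lit 256) (nat_lit 240))))) (XT.nd (nat_lit 234) (nat_lit 304) (nat_lit 0) (XT.nd (nat_lit 78)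 (nat_lit 152) (nat_lit 0) (XT.lf (nat_lit 0) (nat_lit 792413681) (nat_lit 152) (nat_lit 2242066082) (nat_lit 228) (nat_lit 10029624704) (nat_lit 27) (nat_lit 5) (nat_lit 29) (nat_lit 5) (nat_lit 30) (nat_lit 5) (nat_lit 285) (nat_lit 256) (nat_lit 239)) (XT.nd (nat_lit 78) (nat_lit 152) (nat_lit 0) (XT.lf (nat_lit 0) (nat_lit 8138248946) (nat_lit 228) (nat_lit 2206601828) (nat_lit 76) (nat_lit 3415727886) (nat_lit 27) (nat_lit 5) (nat_lit 30) (nat_lit 5) (nat_lit 28) (nat_lit 4) (nat_lit 286) (nat_lit 256) (nat_lit 238)) (XT.lf (nat_lit 0) (nat_lit 8623529968) (nat_lit 152) (nat_lit 5025534361) (nat_lit 228) (nat_lit 864013232) (nat_lit 25) (nat_lit 5) (nat_lit 27) (nat_lit 5) (nat_lit 28) (nat_lit 4) (nat_lit 287) (nat_lit 256) (nat_lit 237)))) (XT.nd (nat_lit 78) (nat_lit 76) (nat_lit 0) (XT.lf (nat_lit 0) (nat_lit 4098270900) (nat_lit 228) (nat_lit 10445683805) (nat_lit 76) (nat_lit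 780693226) (nat_lit 22) (nat_lit 5) (nat_lit 25) (nat_lit 5) (nat_lit 23) (nat_lit 4) (nat_lit 288) (nat_lit 256) (nat_lit 236)) (XT.nd (nat_lit 78) (nat_lit 0) (nat_lit 0) (XT.lf (nat_lit 0) (nat_lit 160588418) (nat_lit 76) (nat_lit 9297495319) (nat_lit 152) (nat_lit 6741010380) (nat_lit 21) (nat_lit 5) (nat_lit 22) (nat_lit 5) (nat_lit 23) (nat_lit 4) (nat_lit 289) (nat_lit 256) (nat_lit 235)) (XT.lf (nat_lit 0) (nat_lit 11733152629) (nat_lit 76) (nat_lit 3542326520) (nat_lit 152) (nat_lit 1866761447) (nat_lit 21) (nat_lit 5) (nat_lit 22) (nat_lit 5) (nat_lit 23) (nat_lit 4) (nat_lit 290) (nat_lit 256) (nat_lit 234))))))))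
noncomputable def xc40 : XT := (XT.nd (nat_lit 1560) (nat_lit 304) (nat_lit 0) (XT.nd (nat_lit 780) (nat_lit 304) (nat_lit 0) (XT.nd (nat_lit 390) (nat_lit 228) (nat_lit 0) (XT.nd (nat_lit 156) (nat_lit 304) (nat_lit 0) (XT.nd (nat_lit 78) (nat_lit 0) (nat_lit 0) (XT.lf (nat_lit 0) (nat_lit 3280171847) (nat_lit 228) (nat_lit 12236143638) (nat_lit 76) (nat_lit 2642459647) (nat_lit 18) (nat_lit 5) (nat_lit 21) (nat_lit 5) (nat_lit 19) (nat_lit 4) (nat_lit 291) (nat_lit 256) (nat_lit 233)) (XT.lf (nat_lit 0) (nat_lit 8791150725) (nat_lit 228) (nat_lit 1226944782) (nat_lit 76) (nat_lit 9236272762) (nat_lit 18) (nat_lit 5) (nat_lit 21) (nat_lit 5) (nat_lit 19) (nat_lit 4) (nat_lit 292) (nat_lit 256) (nat_lit 232))) (XT.nd (nat_lit 78) (nat_lit 228) (nat_lit 0) (XT.lf (nat_lit 0) (nat_lit 10789509586) (nat_lit 76) (nat_lit 3993546541) (nat_lit 152) (nat_lit 5652689787) (nat_lit 17) (nat_lit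 5) (nat_lit 18) (nat_lit 5) (nat_lit 19) (nat_lit 4) (nat_lit 293) (nat_lit 256) (nat_lit 231)) (XT.nd (nat_lit 78) (nat_lit 76) (nat_lit 0) (XT.lf (nat_lit 0) (nat_lit 1907826989) (nat_lit 152) (nat_lit 19313707905) (nat_lit 152) (nat_lit 491866969) (nat_lit 15) (nat_lit 4) (nat_lit 17) (nat_lit 5) (nat_lit 17) (nat_lit 4) (nat_lit 294) (nat_lit 256) (nat_lit 230)) (XT.lf (nat_lit 0) (nat_lit 5037681040) (nat_lit 228) (nat_lit 8712564385) (nat_lit 76) (nat_lit 9333246196) (nat_lit 14) (nat_lit 5) (nat_lit 17) (nat_lit 5) (nat_lit 15) (nat_lit 4) (nat_lit 295) (nat_lit 256) (nat_lit 229))))) (XT.nd (nat_lit 156) (nat_lit 152) (nat_lit 0) (XT.nd (nat_lit 78) (nat_lit 0) (nat_lit 0) (XT.lf (nat_lit 0) (nat_lit 3167509893) (nat_lit 76) (nat_lit 7763779911) (nat_lit 152) (nat_lit 13634654553) (nat_lit 13) (nat_lit 5) (nat_lit 14) (nat_lit 5) (nat_lit 15) (nat_lit 4) (nat_lit 296) (nat_lit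 256) (nat_lit 228)) (XT.lf (nat_lit 0) (nat_lit 16124057289) (nat_lit 76) (nat_lit 1218657481) (nat_lit 152) (nat_lit 8822059797) (nat_lit 13) (nat_lit 5) (nat_lit 14) (nat_lit 5) (nat_lit 15) (nat_lit 4) (nat_lit 297) (nat_lit 256) (nat_lit 227))) (XT.nd (nat_lit 78) (nat_lit 76) (nat_lit 0) (XT.lf (nat_lit 0) (nat_lit 2023889544) (nat_lit 76) (nat_lit 22267318489) (nat_lit 76) (nat_lit 3599185847) (nat_lit 12) (nat_lit 4) (nat_lit 13) (nat_lit 5) (nat_lit 13) (nat_lit 4) (nat_lit 298) (nat_lit 256) (nat_lit 226)) (XT.nd (nat_lit 78) (nat_lit 0) (nat_lit 0) (XT.lf (nat_lit 0) (nat_lit 2078792943) (nat_lit 152) (nat_lit 14559192011) (nat_lit 76) (nat_lit 13109432998) (nat_lit 11) (nat_lit 5) (nat_lit 13) (nat_lit 5) (nat_lit 12) (nat_lit 4) (nat_lit 299) (nat_lit 256) (nat_lit 225)) (XT.lf (nat_lit 0) (nat_lit 7997984366) (nat_lit 152) (nat_lit 2566131914) (nat_lit 76) (nat_lit 21190357718)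 (nat_lit 11) (nat_lit 5) (nat_lit 13) (nat_lit 5) (nat_lit 12) (nat_lit 4) (nat_lit 300) (nat_lit 256) (nat_lit 224)))))) (XT.nd (nat_lit 390) (nat_lit 76) (nat_lit 0) (XT.nd (nat_lit 156) (nat_lit 152) (nat_lit 0) (XT.nd (nat_lit 78) (nat_lit 0) (nat_lit 0) (XT.lf (nat_lit 0) (nat_lit 10578517956) (nat_lit 76) (nat_lit 3895303889) (nat_lit 152) (nat_lit 19444185490) (nat_lit 10) (nat_lit 5) (nat_lit 11) (nat_lit 5) (nat_lit 12) (nat_lit 4) (nat_lit 301) (nat_lit 256) (nat_lit 223)) (XT.lf (nat_lit 0) (nat_lit 21485665916) (nat_lit 152) (nat_lit 11581451758) (nat_lit 0) (nat_lit 3186671968) (nat_lit 10) (nat_lit 5) (nat_lit 12) (nat_lit 4) (nat_lit 10) (nat_lit 4) (nat_lit 302) (nat_lit 256) (nat_lit 222))) (XT.nd (nat_lit 78) (nat_lit 76) (nat_lit 0) (XT.lf (nat_lit 0) (nat_lit 949459211) (nat_lit 76) (nat_lit 28116239781) (nat_lit 76) (nat_lit 9710432061) (nat_lit 9) (nat_lit 4) (nat_lit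 10) (nat_lit 5) (nat_lit 10) (nat_lit 4) (nat_lit 303) (nat_lit 256) (nat_lit 221)) (XT.nd (nat_lit 78) (nat_lit 76) (nat_lit 0) (XT.lf (nat_lit 0) (nat_lit 14769693878) (nat_lit 76) (nat_lit 22614366613) (nat_lit 76) (nat_lit 4109657253) (nat_lit 9) (nat_lit 4) (nat_lit 10) (nat_lit 5) (nat_lit 10) (nat_lit 4) (nat_lit 304) (nat_lit 256) (nat_lit 220)) (XT.lf (nat_lit 0) (nat_lit 1811361203) (nat_lit 152) (nat_lit 14882994485) (nat_lit 76) (nat_lit 27736177349) (nat_lit 8) (nat_lit 5) (nat_lit 10) (nat_lit 5) (nat_lit 9) (nat_lit 4) (nat_lit 305) (nat_lit 256) (nat_lit 219))))) (XT.nd (nat_lit 156) (nat_lit 0) (nat_lit 0) (XT.nd (nat_lit 78) (nat_lit 76) (nat_lit 0) (XT.lf (nat_lit 0) (nat_lit 8003121738) (nat_lit 152) (nat_lit 2274677604) (nat_lit 76) (nat_lit 37324117791) (nat_lit 8) (nat_lit 5) (nat_lit 10) (nat_lit 5) (nat_lit 9) (nat_lit 4) (nat_lit 306) (nat_lit 256) (nat_lit 218))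 (XT.lf (nat_lit 0) (nat_lit 11611444741) (nat_lit 76) (nat_lit 3203693415) (nat_lit 152) (nat_lit 36205669066) (nat_lit 7) (nat_lit 5) (nat_lit 8) (nat_lit 5) (nat_lit 9) (nat_lit 4) (nat_lit 307) (nat_lit 256) (nat_lit 217))) (XT.nd (nat_lit 78) (nat_lit 0) (nat_lit 0) (XT.lf (nat_lit 0) (nat_lit 22227233489) (nat_lit 152) (nat_lit 28191532343) (nat_lit 0) (nat_lit 4291724786) (nat_lit 7) (nat_lit 5) (nat_lit 9) (nat_lit 4) (nat_lit 7) (nat_lit 4) (nat_lit 308) (nat_lit 256) (nat_lit 216)) (XT.nd (nat_lit 78) (nat_lit 0) (nat_lit 0) (XT.lf (nat_lit 0) (nat_lit 30235928520) (nat_lit 152) (nat_lit 16222959430) (nat_lit 0) (nat_lit 12236314299) (nat_lit 7) (nat_lit 5) (nat_lit 9) (nat_lit 4) (nat_lit 7) (nat_lit 4) (nat_lit 309) (nat_lit 256) (nat_lit 215)) (XT.lf (nat_lit 0) (nat_lit 38838663551) (nat_lit 152) (nat_lit 3382700231) (nat_lit 0) (nat_lit 20779692368) (nat_lit 7) (nat_lit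 5) (nat_lit 9) (nat_lit 4) (nat_lit 7) (nat_lit 4) (nat_lit 310) (nat_lit 256) (nat_lit 214))))))) (XT.nd (nat_lit 780) (nat_lit 76) (nat_lit 0) (XT.nd (nat_lit 390) (nat_lit 76) (nat_lit 0) (XT.nd (nat_lit 156) (nat_lit 76) (nat_lit 0) (XT.nd (nat_lit 78) (nat_lit 0) (nat_lit 0) (XT.lf (nat_lit 0) (nat_lit 10749383064) (nat_lit 76) (nat_lit 37504862683) (nat_lit 76) (nat_lit 19390931350) (nat_lit 6) (nat_lit 4) (nat_lit 7) (nat_lit 5) (nat_lit 7) (nat_lit 4) (nat_lit 311) (nat_lit 256) (nat_lit 213)) (XT.lf (nat_lit 0) (nat_lit 26056836673) (nat_lit 76) (nat_lit 32383976203) (nat_lit 76) (nat_lit 14219155842) (nat_lit 6) (nat_lit 4) (nat_lit 7) (nat_lit 5) (nat_lit 7) (nat_lit 4) (nat_lit 312) (nat_lit 256) (nat_lit 212))) (XT.nd (nat_lit 78) (nat_lit 76) (nat_lit 0) (XT.lf (nat_lit 0) (nat_lit 42518524084) (nat_lit 76) (nat_lit 26885646013) (nat_lit 76) (nat_lit 8673706183) (nat_lit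 6) (nat_lit 4) (nat_lit 7) (nat_lit 5) (nat_lit 7) (nat_lit 4) (nat_lit 313) (nat_lit 256) (nat_lit 211)) (XT.nd (nat_lit 78) (nat_lit 76) (nat_lit 0) (XT.lf (nat_lit 0) (nat_lit 60231996036) (nat_lit 76) (nat_lit 20977289418) (nat_lit 76) (nat_lit 2721720449) (nat_lit 6) (nat_lit 4) (nat_lit 7) (nat_lit 5) (nat_lit 7) (nat_lit 4) (nat_lit 314) (nat_lit 256) (nat_lit 210)) (XT.lf (nat_lit 0) (nat_lit 3554543137) (nat_lit 152) (nat_lit 11009152888) (nat_lit 76) (nat_lit 75687480208) (nat_lit 5) (nat_lit 5) (nat_lit 7) (nat_lit 5) (nat_lit 6) (nat_lit 4) (nat_lit 315) (nat_lit 256) (nat_lit 209))))) (XT.nd (nat_lit 156) (nat_lit 0) (nat_lit 0) (XT.nd (nat_lit 78) (nat_lit 0) (nat_lit 0) (XT.lf (nat_lit 0) (nat_lit 2678845681) (nat_lit 76) (nat_lit 7571016248) (nat_lit 152) (nat_lit 86824271386) (nat_lit 4) (nat_lit 5) (nat_lit 5) (nat_lit 5) (nat_lit 6) (nat_lit 4) (nat_lit 316) (nat_lit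 256) (nat_lit 208)) (XT.lf (nat_lit 0) (nat_lit 17645677504) (nat_lit 152) (nat_lit 86636685050) (nat_lit 0) (nat_lit 152338941) (nat_lit 4) (nat_lit 5) (nat_lit 6) (nat_lit 4) (nat_lit 4) (nat_lit 4) (nat_lit 317) (nat_lit 256) (nat_lit 207))) (XT.nd (nat_lit 78) (nat_lit 0) (nat_lit 0) (XT.lf (nat_lit 0) (nat_lit 25733273708) (nat_lit 152) (nat_lit 78436458899) (nat_lit 0) (nat_lit 8209393507) (nat_lit 4) (nat_lit 5) (nat_lit 6) (nat_lit 4) (nat_lit 4) (nat_lit 4) (nat_lit 318) (nat_lit 256) (nat_lit 206)) (XT.nd (nat_lit 78) (nat_lit 0) (nat_lit 0) (XT.lf (nat_lit 0) (nat_lit 34442372255) (nat_lit 152) (nat_lit 69627810468) (nat_lit 0) (nat_lit 16890212760) (nat_lit 4) (nat_lit 5) (nat_lit 6) (nat_lit 4) (nat_lit 4) (nat_lit 4) (nat_lit 319) (nat_lit 256) (nat_lit 205)) (XT.lf (nat_lit 0) (nat_lit 43824582619) (nat_lit 152) (nat_lit 60158540358) (nat_lit 0) (nat_lit 26246238592) (nat_lit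 4) (nat_lit 5) (nat_lit 6) (nat_lit 4) (nat_lit 4) (nat_lit 4) (nat_lit 320) (nat_lit 256) (nat_lit 204)))))) (XT.nd (nat_lit 390) (nat_lit 76) (nat_lit 0) (XT.nd (nat_lit 156) (nat_lit 0) (nat_lit 0) (XT.nd (nat_lit 78) (nat_lit 0) (nat_lit 0) (XT.lf (nat_lit 0) (nat_lit 53935503083) (nat_lit 152) (nat_lit 49972534377) (nat_lit 0) (nat_lit 36332914119) (nat_lit 4) (nat_lit 5) (nat_lit 6) (nat_lit 4) (nat_lit 4) (nat_lit 4) (nat_lit 321) (nat_lit 256) (nat_lit 203)) (XT.lf (nat_lit 0) (nat_lit 64835050212) (nat_lit 152) (nat_lit 39009431008) (nat_lit 0) (nat_lit 47210012233) (nat_lit 4) (nat_lit 5) (nat_lit 6) (nat_lit 4) (nat_lit 4) (nat_lit 4) (nat_lit 322) (nat_lit 256) (nat_lit 202))) (XT.nd (nat_lit 78) (nat_lit 0) (nat_lit 0) (XT.lf (nat_lit 0) (nat_lit 76587813916) (nat_lit 152) (nat_lit 27204263711) (nat_lit 0) (nat_lit 58941989812) (nat_lit 4) (nat_lit 5) (nat_lit 6) (nat_lit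 4) (nat_lit 4) (nat_lit 4) (nat_lit 323) (nat_lit 256) (nat_lit 201)) (XT.nd (nat_lit 78) (nat_lit 0) (nat_lit 0) (XT.lf (nat_lit 0) (nat_lit 89263440202) (nat_lit 152) (nat_lit 14487075941) (nat_lit 0) (nat_lit 71598369686) (nat_lit 4) (nat_lit 5) (nat_lit 6) (nat_lit 4) (nat_lit 4) (nat_lit 4) (nat_lit 324) (nat_lit 256) (nat_lit 200)) (XT.lf (nat_lit 0) (nat_lit 102937043893) (nat_lit 152) (nat_lit 782506584) (nat_lit 0) (nat_lit 85254152624) (nat_lit 4) (nat_lit 5) (nat_lit 6) (nat_lit 4) (nat_lit 4) (nat_lit 4) (nat_lit 325) (nat_lit 256) (nat_lit 199))))) (XT.nd (nat_lit 156) (nat_lit 0) (nat_lit 0) (XT.nd (nat_lit 78) (nat_lit 0) (nat_lit 0) (XT.lf (nat_lit 0) (nat_lit 14453250913) (nat_lit 76) (nat_lit 103462058588) (nat_lit 76) (nat_lit 85762666623) (nat_lit 3) (nat_lit 4) (nat_lit 4) (nat_lit 5) (nat_lit 4) (nat_lit 4) (nat_lit 326) (nat_lit 256) (nat_lit 198)) (XT.lf (nat_lit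 0) (nat_lit 30909247294) (nat_lit 76) (nat_lit 103182025326) (nat_lit 76) (nat_lit 85467354938) (nat_lit 3) (nat_lit 4) (nat_lit 4) (nat_lit 5) (nat_lit 4) (nat_lit 4) (nat_lit 327) (nat_lit 256) (nat_lit 197))) (XT.nd (nat_lit 78) (nat_lit 0) (nat_lit 0) (XT.lf (nat_lit 0) (nat_lit 48657126371) (nat_lit 76) (nat_lit 102891043362) (nat_lit 76) (nat_lit 85162226286) (nat_lit 3) (nat_lit 4) (nat_lit 4) (nat_lit 5) (nat_lit 4) (nat_lit 4) (nat_lit 328) (nat_lit 256) (nat_lit 196)) (XT.nd (nat_lit 78) (nat_lit 0) (nat_lit 0) (XT.lf (nat_lit 0) (nat_lit 67802060762) (nat_lit 76) (nat_lit 102587388358) (nat_lit 76) (nat_lit 84845472498) (nat_lit 3) (nat_lit 4) (nat_lit 4) (nat_lit 5) (nat_lit 4) (nat_lit 4) (nat_lit 329) (nat_lit 256) (nat_lit 195)) (XT.lf (nat_lit 0) (nat_lit 88457501930) (nat_lit 76) (nat_lit 102269260878) (nat_lit 76) (nat_lit 84515216513) (nat_lit 3) (nat_lit 4) (nat_lit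 4) (nat_lit 5) (nat_lit 4) (nat_lit 4) (nat_lit 330) (nat_lit 256) (nat_lit 194))))))))
noncomputable def xc41 : XT := (XT.nd (nat_lit 35802) (nat_lit 0) (nat_lit 1596) (XT.nd (nat_lit 780) (nat_lit 0) (nat_lit 0) (XT.nd (nat_lit 390) (nat_lit 0) (nat_lit 0) (XT.nd (nat_lit 156) (nat_lit 0) (nat_lit 0) (XT.nd (nat_lit 78) (nat_lit 0) (nat_lit 0) (XT.lf (nat_lit 0) (nat_lit 110745852488) (nat_lit 76) (nat_lit 101934775722) (nat_lit 76) (nat_lit 84169501260) (nat_lit 3) (nat_lit 4) (nat_lit 4) (nat_lit 5) (nat_lit 4) (nat_lit 4) (nat_lit 331) (nat_lit 256) (nat_lit 193)) (XT.lf (nat_lit 0) (nat_lit 134799191551) (nat_lit 76) (nat_lit 101581950754) (nat_lit 76) (nat_lit 83806278055) (nat_lit 3) (nat_lit 4) (nat_lit 4) (nat_lit 5) (nat_lit 4) (nat_lit 4) (nat_lit 332) (nat_lit 256) (nat_lit 192))) (XT.nd (nat_lit 78) (nat_lit 0) (nat_lit 0) (XT.lf (nat_lit 0) (nat_lit 160760057425) (nat_lit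 76) (nat_lit 101208695162) (nat_lit 76) (nat_lit 83423394465) (nat_lit 3) (nat_lit 4) (nat_lit 4) (nat_lit 5) (nat_lit 4) (nat_lit 4) (nat_lit 333) (nat_lit 256) (nat_lit 191)) (XT.nd (nat_lit 78) (nat_lit 0) (nat_lit 0) (XT.lf (nat_lit 0) (nat_lit 188782292278) (nat_lit 76) (nat_lit 100812797059) (nat_lit 76) (nat_lit 83018581549) (nat_lit 3) (nat_lit 4) (nat_lit 4) (nat_lit 5) (nat_lit 4) (nat_lit 4) (nat_lit 334) (nat_lit 256) (nat_lit 190)) (XT.lf (nat_lit 0) (nat_lit 219031953799) (nat_lit 76) (nat_lit 100391910384) (nat_lit 76) (nat_lit 82589440417) (nat_lit 3) (nat_lit 4) (nat_lit 4) (nat_lit 5) (nat_lit 4) (nat_lit 4) (nat_lit 335) (nat_lit 256) (nat_lit 189))))) (XT.nd (nat_lit 156) (nat_lit 0) (nat_lit 0) (XT.nd (nat_lit 78) (nat_lit 0) (nat_lit 0) (XT.lf (nat_lit 0) (nat_lit 251688299239) (nat_lit 76) (nat_lit 99943540991) (nat_lit 76) (nat_lit 82133428009) (nat_lit 3) (nat_lit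 4) (nat_lit 4) (nat_lit 5) (nat_lit 4) (nat_lit 4) (nat_lit 336) (nat_lit 256) (nat_lit 188)) (XT.lf (nat_lit 0) (nat_lit 286944847684) (nat_lit 76) (nat_lit 99465031879) (nat_lit 76) (nat_lit 81647842031) (nat_lit 3) (nat_lit 4) (nat_lit 4) (nat_lit 5) (nat_lit 4) (nat_lit 4) (nat_lit 337) (nat_lit 256) (nat_lit 187))) (XT.nd (nat_lit 78) (nat_lit 0) (nat_lit 0) (XT.lf (nat_lit 0) (nat_lit 325010526828) (nat_lit 76) (nat_lit 98953547437) (nat_lit 76) (nat_lit 81129804936) (nat_lit 3) (nat_lit 4) (nat_lit 4) (nat_lit 5) (nat_lit 4) (nat_lit 4) (nat_lit 338) (nat_lit 256) (nat_lit 186)) (XT.nd (nat_lit 78) (nat_lit 0) (nat_lit 0) (XT.lf (nat_lit 0) (nat_lit 366110911066) (nat_lit 76) (nat_lit 98406056646) (nat_lit 76) (nat_lit 80576246873) (nat_lit 3) (nat_lit 4) (nat_lit 4) (nat_lit 5) (nat_lit 4) (nat_lit 4) (nat_lit 339) (nat_lit 256) (nat_lit 185)) (XT.lf (nat_lit 0) (nat_lit 410489558230)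 (nat_lit 76) (nat_lit 97819315117) (nat_lit 76) (nat_lit 79983887499) (nat_lit 3) (nat_lit 4) (nat_lit 4) (nat_lit 5) (nat_lit 4) (nat_lit 4) (nat_lit 340) (nat_lit 256) (nat_lit 184)))))) (XT.nd (nat_lit 390) (nat_lit 0) (nat_lit 0) (XT.nd (nat_lit 156) (nat_lit 0) (nat_lit 0) (XT.nd (nat_lit 78) (nat_lit 0) (nat_lit 0) (XT.lf (nat_lit 0) (nat_lit 458409452897) (nat_lit 76) (nat_lit 97189845862) (nat_lit 76) (nat_lit 79349216537) (nat_lit 3) (nat_lit 4) (nat_lit 4) (nat_lit 5) (nat_lit 4) (nat_lit 4) (nat_lit 341) (nat_lit 256) (nat_lit 183)) (XT.lf (nat_lit 0) (nat_lit 510154564812) (nat_lit 76) (nat_lit 96513918694) (nat_lit 76) (nat_lit 78668472973) (nat_lit 3) (nat_lit 4) (nat_lit 4) (nat_lit 5) (nat_lit 4) (nat_lit 4) (nat_lit 342) (nat_lit 256) (nat_lit 182))) (XT.nd (nat_lit 78) (nat_lit 0) (nat_lit 0) (XT.lf (nat_lit 0) (nat_lit 566031531676) (nat_lit 76) (nat_lit 95787528118)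 (nat_lit 76) (nat_lit 77937622771) (nat_lit 3) (nat_lit 4) (nat_lit 4) (nat_lit 5) (nat_lit 4) (nat_lit 4) (nat_lit 343) (nat_lit 256) (nat_lit 181)) (XT.nd (nat_lit 78) (nat_lit 0) (nat_lit 0) (XT.lf (nat_lit 0) (nat_lit 626371476254) (nat_lit 76) (nat_lit 95006369598) (nat_lit 76) (nat_lit 77152334967) (nat_lit 3) (nat_lit 4) (nat_lit 4) (nat_lit 5) (nat_lit 4) (nat_lit 4) (nat_lit 344) (nat_lit 256) (nat_lit 180)) (XT.lf (nat_lit 0) (nat_lit 691531968590) (nat_lit 76) (nat_lit 94165814045) (nat_lit 76) (nat_lit 76307956004) (nat_lit 3) (nat_lit 4) (nat_lit 4) (nat_lit 5) (nat_lit 4) (nat_lit 4) (nat_lit 345) (nat_lit 256) (nat_lit 179))))) (XT.nd (nat_lit 34398) (nat_lit 0) (nat_lit 7752) (XT.nd (nat_lit 78) (nat_lit 0) (nat_lit 0) (XT.lf (nat_lit 0) (nat_lit 761899144935) (nat_lit 76) (nat_lit 93260880390) (nat_lit 76) (nat_lit 75399482154) (nat_lit 3) (nat_lit 4) (nat_lit 4) (nat_lit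 5) (nat_lit 4) (nat_lit 4) (nat_lit 346) (nat_lit 256) (nat_lit 178)) (XT.lf (nat_lit 0) (nat_lit 837889995961) (nat_lit 76) (nat_lit 92286206063) (nat_lit 76) (nat_lit 74421529869) (nat_lit 3) (nat_lit 4) (nat_lit 4) (nat_lit 5) (nat_lit 4) (nat_lit 4) (nat_lit 347) (nat_lit 256) (nat_lit 177))) (XT.nd (nat_lit 78) (nat_lit 912) (nat_lit 0) (XT.lf (nat_lit 0) (nat_lit 1664957813) (nat_lit 380) (nat_lit 29990951) (nat_lit 0) (nat_lit 1664957813) (nat_lit 117) (nat_lit 5) (nat_lit 122) (nat_lit 4) (nat_lit 117) (nat_lit 4) (nat_lit 266) (nat_lit 257) (nat_lit 257)) (XT.nd (nat_lit 78) (nat_lit 456) (nat_lit 0) (XT.lf (nat_lit 0) (nat_lit 1324308903) (nat_lit 456) (nat_lit 412029934) (nat_lit 76) (nat_lit 5088673036) (nat_lit 111) (nat_lit 5) (nat_lit 117) (nat_lit 5) (nat_lit 112) (nat_lit 4) (nat_lit 267) (nat_lit 257) (nat_lit 256)) (XT.lf (nat_lit 0) (nat_lit 6005128194) (nat_lit 532)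 (nat_lit 677031907) (nat_lit 0) (nat_lit 269788309) (nat_lit 105) (nat_lit 5) (nat_lit 112) (nat_lit 4) (nat_lit 105) (nat_lit 4) (nat_lit 268) (nat_lit 257) (nat_lit 255))))))) (XT.nd (nat_lit 780) (nat_lit 1748) (nat_lit 0) (XT.nd (nat_lit 390) (nat_lit 1596) (nat_lit 0) (XT.nd (nat_lit 156) (nat_lit 1520) (nat_lit 0) (XT.nd (nat_lit 78) (nat_lit 684) (nat_lit 0) (XT.lf (nat_lit 0) (nat_lit 3601758322) (nat_lit 608) (nat_lit 904860273) (nat_lit 76) (nat_lit 2592780244) (nat_lit 97) (nat_lit 5) (nat_lit 105) (nat_lit 5) (nat_lit 98) (nat_lit 4) (nat_lit 269) (nat_lit 257) (nat_lit 254)) (XT.lf (nat_lit 0) (nat_lit 932468082) (nat_lit 684) (nat_lit 1057752995) (nat_lit 76) (nat_lit 5280447755) (nat_lit 88) (nat_lit 5) (nat_lit 97) (nat_lit 5) (nat_lit 89) (nat_lit 5) (nat_lit 270) (nat_lit 257) (nat_lit 253))) (XT.nd (nat_lit 78) (nat_lit 836) (nat_lit 0) (XT.lf (nat_lit 0) (nat_lit 5383286231)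 (nat_lit 760) (nat_lit 1194132318) (nat_lit 76) (nat_lit 887002031) (nat_lit 79) (nat_lit 5) (nat_lit 89) (nat_lit 5) (nat_lit 80) (nat_lit 4) (nat_lit 271) (nat_lit 257) (nat_lit 252)) (XT.nd (nat_lit 78) (nat_lit 380) (nat_lit 0) (XT.lf (nat_lit 0) (nat_lit 2263206244) (nat_lit 456) (nat_lit 1336347736) (nat_lit 76) (nat_lit 4081751813) (nat_lit 73) (nat_lit 5) (nat_lit 79) (nat_lit 5) (nat_lit 74) (nat_lit 5) (nat_lit 272) (nat_lit 257) (nat_lit 251)) (XT.lf (nat_lit 0) (nat_lit 6453235387) (nat_lit 380) (nat_lit 243754536) (nat_lit 456) (nat_lit 1226994908) (nat_lit 68) (nat_lit 5) (nat_lit 73) (nat_lit 5) (nat_lit 74) (nat_lit 5) (nat_lit 273) (nat_lit 257) (nat_lit 250))))) (XT.nd (nat_lit 156) (nat_lit 912) (nat_lit 0) (XT.nd (nat_lit 78) (nat_lit 304) (nat_lit 0) (XT.lf (nat_lit 0) (nat_lit 3079231957) (nat_lit 380) (nat_lit 1690437561) (nat_lit 76) (nat_lit 3420345476) (nat_lit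 63) (nat_lit 5) (nat_lit 68) (nat_lit 5) (nat_lit 64) (nat_lit 5) (nat_lit 274) (nat_lit 257) (nat_lit 249)) (XT.lf (nat_lit 0) (nat_lit 6539007742) (nat_lit 304) (nat_lit 1001431950) (nat_lit 380) (nat_lit 943934727) (nat_lit 59) (nat_lit 5) (nat_lit 63) (nat_lit 5) (nat_lit 64) (nat_lit 5) (nat_lit 275) (nat_lit 257) (nat_lit 248))) (XT.nd (nat_lit 78) (nat_lit 608) (nat_lit 0) (XT.lf (nat_lit 0) (nat_lit 3355641304) (nat_lit 304) (nat_lit 2342513510) (nat_lit 76) (nat_lit 3106331815) (nat_lit 55) (nat_lit 5) (nat_lit 59) (nat_lit 5) (nat_lit 56) (nat_lit 5) (nat_lit 276) (nat_lit 257) (nat_lit 247)) (XT.nd (nat_lit 78) (nat_lit 304) (nat_lit 0) (XT.lf (nat_lit 0) (nat_lit 6308846066) (nat_lit 304) (nat_lit 1553159902) (nat_lit 380) (nat_lit 1293226343) (nat_lit 51) (nat_lit 5) (nat_lit 55) (nat_lit 5) (nat_lit 56) (nat_lit 5) (nat_lit 277) (nat_lit 257) (nat_lit 246)) (XT.lf (nat_lit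 0) (nat_lit 3030926144) (nat_lit 304) (nat_lit 3555863339) (nat_lit 76) (nat_lit 2948360022) (nat_lit 47) (nat_lit 5) (nat_lit 51) (nat_lit 5) (nat_lit 48) (nat_lit 5) (nat_lit 278) (nat_lit 257) (nat_lit 245)))))) (XT.nd (nat_lit 390) (nat_lit 608) (nat_lit 0) (XT.nd (nat_lit 156) (nat_lit 684) (nat_lit 0) (XT.nd (nat_lit 78) (nat_lit 228) (nat_lit 0) (XT.lf (nat_lit 0) (nat_lit 5482004839) (nat_lit 228) (nat_lit 2103929336) (nat_lit 304) (nat_lit 2362438390) (nat_lit 44) (nat_lit 5) (nat_lit 47) (nat_lit 5) (nat_lit 48) (nat_lit 5) (nat_lit 279) (nat_lit 257) (nat_lit 244)) (XT.lf (nat_lit 0) (nat_lit 2001026306) (nat_lit 228) (nat_lit 5652827412) (nat_lit 76) (nat_lit 2741684348) (nat_lit 41) (nat_lit 5) (nat_lit 44) (nat_lit 5) (nat_lit 42) (nat_lit 5) (nat_lit 280) (nat_lit 257) (nat_lit 243))) (XT.nd (nat_lit 78) (nat_lit 456) (nat_lit 0) (XT.lf (nat_lit 0) (nat_lit 3710812519)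 (nat_lit 228) (nat_lit 2880219485) (nat_lit 304) (nat_lit 4287892039) (nat_lit 38) (nat_lit 5) (nat_lit 41) (nat_lit 5) (nat_lit 42) (nat_lit 5) (nat_lit 281) (nat_lit 257) (nat_lit 242)) (XT.nd (nat_lit 78) (nat_lit 228) (nat_lit 0) (XT.lf (nat_lit 0) (nat_lit 110743676) (nat_lit 228) (nat_lit 9037321642) (nat_lit 76) (nat_lit 2254739212) (nat_lit 35) (nat_lit 5) (nat_lit 38) (nat_lit 5) (nat_lit 36) (nat_lit 5) (nat_lit 282) (nat_lit 257) (nat_lit 241)) (XT.lf (nat_lit 0) (nat_lit 555888055) (nat_lit 228) (nat_lit 4144906823) (nat_lit 304) (nat_lit 7265121082) (nat_lit 32) (nat_lit 5) (nat_lit 35) (nat_lit 5) (nat_lit 36) (nat_lit 5) (nat_lit 283) (nat_lit 257) (nat_lit 240))))) (XT.nd (nat_lit 156) (nat_lit 380) (nat_lit 0) (XT.nd (nat_lit 78) (nat_lit 228) (nat_lit 0) (XT.lf (nat_lit 0) (nat_lit 9649956139) (nat_lit 304) (nat_lit 1638863714) (nat_lit 76) (nat_lit 1285959991) (nat_lit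 32) (nat_lit 5) (nat_lit 36) (nat_lit 5) (nat_lit 33) (nat_lit 4) (nat_lit 284) (nat_lit 257) (nat_lit 239)) (XT.lf (nat_lit 0) (nat_lit 1740946136) (nat_lit 228) (nat_lit 4399575227) (nat_lit 76) (nat_lit 7088985668) (nat_lit 29) (nat_lit 5) (nat_lit 32) (nat_lit 5) (nat_lit 30) (nat_lit 5) (nat_lit 285) (nat_lit 257) (nat_lit 238))) (XT.nd (nat_lit 78) (nat_lit 228) (nat_lit 0) (XT.lf (nat_lit 0) (nat_lit 6144048645) (nat_lit 152) (nat_lit 491847070) (nat_lit 228) (nat_lit 7300643800) (nat_lit 27) (nat_lit 5) (nat_lit 29) (nat_lit 5) (nat_lit 30) (nat_lit 5) (nat_lit 286) (nat_lit 257) (nat_lit 237)) (XT.nd (nat_lit 78) (nat_lit 76) (nat_lit 0) (XT.lf (nat_lit 0) (nat_lit 2732865607) (nat_lit 152) (nat_lit 9236873713) (nat_lit 228) (nat_lit 2728256304) (nat_lit 25) (nat_lit 5) (nat_lit 27) (nat_lit 5) (nat_lit 28) (nat_lit 4) (nat_lit 287) (nat_lit 257) (nat_lit 236)) (XT.lf (nat_lit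 0) (nat_lit 2129975441) (nat_lit 228) (nat_lit 1431969704) (nat_lit 76) (nat_lit 11957357927) (nat_lit 24) (nat_lit 5) (nat_lit 27) (nat_lit 5) (nat_lit 25) (nat_lit 5) (nat_lit 288) (nat_lit 257) (nat_lit 235))))))))
noncomputable def xc42 : XT := (XT.nd (nat_lit 1560) (nat_lit 304) (nat_lit 0) (XT.nd (nat_lit 780) (nat_lit 456) (nat_lit 0) (XT.nd (nat_lit 390) (nat_lit 304) (nat_lit 0) (XT.nd (nat_lit 156) (nat_lit 304) (nat_lit 0) (XT.nd (nat_lit 78) (nat_lit 76) (nat_lit 0) (XT.lf (nat_lit 0) (nat_lit 7336475531) (nat_lit 228) (nat_lit 6461427539) (nat_lit 76) (nat_lit 2603600514) (nat_lit 22) (nat_lit 5) (nat_lit 25) (nat_lit 5) (nat_lit 23) (nat_lit 4) (nat_lit 289) (nat_lit 257) (nat_lit 234)) (XT.lf (nat_lit 0) (nat_lit 4783879005) (nat_lit 76) (nat_lit 8197595374) (nat_lit 152) (nat_lit 4371877631) (nat_lit 21) (nat_lit 5) (nat_lit 22) (nat_lit 5) (nat_lit 23) (nat_lit 4) (nat_lit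 290) (nat_lit 257) (nat_lit 233))) (XT.nd (nat_lit 78) (nat_lit 228) (nat_lit 0) (XT.lf (nat_lit 0) (nat_lit 655209004) (nat_lit 152) (nat_lit 1452278124) (nat_lit 76) (nat_lit 16274428732) (nat_lit 20) (nat_lit 5) (nat_lit 22) (nat_lit 5) (nat_lit 21) (nat_lit 5) (nat_lit 291) (nat_lit 257) (nat_lit 232)) (XT.nd (nat_lit 78) (nat_lit 76) (nat_lit 0) (XT.lf (nat_lit 0) (nat_lit 6047742481) (nat_lit 228) (nat_lit 8946095534) (nat_lit 76) (nat_lit 4489660304) (nat_lit 18) (nat_lit 5) (nat_lit 21) (nat_lit 5) (nat_lit 19) (nat_lit 4) (nat_lit 292) (nat_lit 257) (nat_lit 231)) (XT.lf (nat_lit 0) (nat_lit 2714502514) (nat_lit 76) (nat_lit 9141910969) (nat_lit 152) (nat_lit 8817686286) (nat_lit 17) (nat_lit 5) (nat_lit 18) (nat_lit 5) (nat_lit 19) (nat_lit 4) (nat_lit 293) (nat_lit 257) (nat_lit 230))))) (XT.nd (nat_lit 156) (nat_lit 76) (nat_lit 0) (XT.nd (nat_lit 78) (nat_lit 228) (nat_lit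 0) (XT.lf (nat_lit 0) (nat_lit 15433611726) (nat_lit 76) (nat_lit 2738888233) (nat_lit 152) (nat_lit 3785432861) (nat_lit 17) (nat_lit 5) (nat_lit 18) (nat_lit 5) (nat_lit 19) (nat_lit 4) (nat_lit 294) (nat_lit 257) (nat_lit 229)) (XT.lf (nat_lit 0) (nat_lit 1646564639) (nat_lit 228) (nat_lit 17607331119) (nat_lit 76) (nat_lit 4086896862) (nat_lit 14) (nat_lit 5) (nat_lit 17) (nat_lit 5) (nat_lit 15) (nat_lit 4) (nat_lit 295) (nat_lit 257) (nat_lit 228))) (XT.nd (nat_lit 78) (nat_lit 76) (nat_lit 0) (XT.lf (nat_lit 0) (nat_lit 7441416567) (nat_lit 228) (nat_lit 5914758453) (nat_lit 76) (nat_lit 11472055117) (nat_lit 14) (nat_lit 5) (nat_lit 17) (nat_lit 5) (nat_lit 15) (nat_lit 4) (nat_lit 296) (nat_lit 257) (nat_lit 227)) (XT.nd (nat_lit 78) (nat_lit 0) (nat_lit 0) (XT.lf (nat_lit 0) (nat_lit 6763841537) (nat_lit 76) (nat_lit 6946663455) (nat_lit 152) (nat_lit 12723715643) (nat_lit 13)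 (nat_lit 5) (nat_lit 14) (nat_lit 5) (nat_lit 15) (nat_lit 4) (nat_lit 297) (nat_lit 257) (nat_lit 226)) (XT.lf (nat_lit 0) (nat_lit 20493996708) (nat_lit 152) (nat_lit 7659096707) (nat_lit 0) (nat_lit 15036853) (nat_lit 13) (nat_lit 5) (nat_lit 15) (nat_lit 4) (nat_lit 13) (nat_lit 4) (nat_lit 298) (nat_lit 257) (nat_lit 225)))))) (XT.nd (nat_lit 390) (nat_lit 228) (nat_lit 0) (XT.nd (nat_lit 156) (nat_lit 76) (nat_lit 0) (XT.nd (nat_lit 78) (nat_lit 76) (nat_lit 0) (XT.lf (nat_lit 0) (nat_lit 5212611982) (nat_lit 76) (nat_lit 22721384466) (nat_lit 76) (nat_lit 2101142292) (nat_lit 12) (nat_lit 4) (nat_lit 13) (nat_lit 5) (nat_lit 13) (nat_lit 4) (nat_lit 299) (nat_lit 257) (nat_lit 224)) (XT.lf (nat_lit 0) (nat_lit 3845851897) (nat_lit 152) (nat_lit 12867062746) (nat_lit 76) (nat_lit 15332925581) (nat_lit 11) (nat_lit 5) (nat_lit 13) (nat_lit 5) (nat_lit 12) (nat_lit 4) (nat_lit 300)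 (nat_lit 257) (nat_lit 223))) (XT.nd (nat_lit 78) (nat_lit 76) (nat_lit 0) (XT.lf (nat_lit 0) (nat_lit 10120004151) (nat_lit 152) (nat_lit 126177443) (nat_lit 76) (nat_lit 23973306653) (nat_lit 11) (nat_lit 5) (nat_lit 13) (nat_lit 5) (nat_lit 12) (nat_lit 4) (nat_lit 301) (nat_lit 257) (nat_lit 222)) (XT.nd (nat_lit 78) (nat_lit 0) (nat_lit 0) (XT.lf (nat_lit 0) (nat_lit 13955085291) (nat_lit 76) (nat_lit 3088537003) (nat_lit 152) (nat_lit 19516087726) (nat_lit 10) (nat_lit 5) (nat_lit 11) (nat_lit 5) (nat_lit 12) (nat_lit 4) (nat_lit 302) (nat_lit 257) (nat_lit 221)) (XT.lf (nat_lit 0) (nat_lit 24527996895) (nat_lit 152) (nat_lit 10114854399) (nat_lit 0) (nat_lit 4444009146) (nat_lit 10) (nat_lit 5) (nat_lit 12) (nat_lit 4) (nat_lit 10) (nat_lit 4) (nat_lit 303) (nat_lit 257) (nat_lit 220))))) (XT.nd (nat_lit 156) (nat_lit 152) (nat_lit 0) (XT.nd (nat_lit 78) (nat_lit 0) (nat_lit 0)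 (XT.lf (nat_lit 0) (nat_lit 3314527651) (nat_lit 76) (nat_lit 29337609031) (nat_lit 76) (nat_lit 9162045688) (nat_lit 9) (nat_lit 4) (nat_lit 10) (nat_lit 5) (nat_lit 10) (nat_lit 4) (nat_lit 304) (nat_lit 257) (nat_lit 219)) (XT.lf (nat_lit 0) (nat_lit 18070817261) (nat_lit 76) (nat_lit 23471728967) (nat_lit 76) (nat_lit 3211373409) (nat_lit 9) (nat_lit 4) (nat_lit 10) (nat_lit 5) (nat_lit 10) (nat_lit 4) (nat_lit 305) (nat_lit 257) (nat_lit 218))) (XT.nd (nat_lit 78) (nat_lit 76) (nat_lit 0) (XT.lf (nat_lit 0) (nat_lit 3056069132) (nat_lit 152) (nat_lit 14073925146) (nat_lit 76) (nat_lit 30799191202) (nat_lit 8) (nat_lit 5) (nat_lit 10) (nat_lit 5) (nat_lit 9) (nat_lit 4) (nat_lit 306) (nat_lit 257) (nat_lit 217)) (XT.nd (nat_lit 78) (nat_lit 76) (nat_lit 0) (XT.lf (nat_lit 0) (nat_lit 9661703915) (nat_lit 152) (nat_lit 605069499) (nat_lit 76) (nat_lit 41091639496) (nat_lit 8) (nat_lit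 5) (nat_lit 10) (nat_lit 5) (nat_lit 9) (nat_lit 4) (nat_lit 307) (nat_lit 257) (nat_lit 216)) (XT.lf (nat_lit 0) (nat_lit 14311475122) (nat_lit 76) (nat_lit 2659426557) (nat_lit 152) (nat_lit 38082356413) (nat_lit 7) (nat_lit 5) (nat_lit 8) (nat_lit 5) (nat_lit 9) (nat_lit 4) (nat_lit 308) (nat_lit 257) (nat_lit 215))))))) (XT.nd (nat_lit 780) (nat_lit 76) (nat_lit 0) (XT.nd (nat_lit 390) (nat_lit 152) (nat_lit 0) (XT.nd (nat_lit 156) (nat_lit 76) (nat_lit 0) (XT.nd (nat_lit 78) (nat_lit 0) (nat_lit 0) (XT.lf (nat_lit 0) (nat_lit 24915645031) (nat_lit 152) (nat_lit 28772938738) (nat_lit 0) (nat_lit 5352599192) (nat_lit 7) (nat_lit 5) (nat_lit 9) (nat_lit 4) (nat_lit 7) (nat_lit 4) (nat_lit 309) (nat_lit 257) (nat_lit 214)) (XT.lf (nat_lit 0) (nat_lit 33497611009) (nat_lit 152) (nat_lit 15970873783) (nat_lit 0) (nat_lit 13879605019) (nat_lit 7) (nat_lit 5) (nat_lit 9) (nat_lit 4) (nat_lit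 7) (nat_lit 4) (nat_lit 310) (nat_lit 257) (nat_lit 213))) (XT.nd (nat_lit 78) (nat_lit 76) (nat_lit 0) (XT.lf (nat_lit 0) (nat_lit 42726134605) (nat_lit 152) (nat_lit 2218202916) (nat_lit 0) (nat_lit 23057239588) (nat_lit 7) (nat_lit 5) (nat_lit 9) (nat_lit 4) (nat_lit 7) (nat_lit 4) (nat_lit 311) (nat_lit 257) (nat_lit 212)) (XT.nd (nat_lit 78) (nat_lit 0) (nat_lit 0) (XT.lf (nat_lit 0) (nat_lit 12982078767) (nat_lit 76) (nat_lit 39876511232) (nat_lit 76) (nat_lit 20160496745) (nat_lit 6) (nat_lit 4) (nat_lit 7) (nat_lit 5) (nat_lit 7) (nat_lit 4) (nat_lit 312) (nat_lit 257) (nat_lit 211)) (XT.lf (nat_lit 0) (nat_lit 29412443845) (nat_lit 76) (nat_lit 34392527201) (nat_lit 76) (nat_lit 14632883575) (nat_lit 6) (nat_lit 4) (nat_lit 7) (nat_lit 5) (nat_lit 7) (nat_lit 4) (nat_lit 313) (nat_lit 257) (nat_lit 210))))) (XT.nd (nat_lit 156) (nat_lit 152) (nat_lit 0) (XT.nd (nat_lit 78) (nat_lit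 0) (nat_lit 0) (XT.lf (nat_lit 0) (nat_lit 47096913638) (nat_lit 76) (nat_lit 28497454085) (nat_lit 76) (nat_lit 8697413109) (nat_lit 6) (nat_lit 4) (nat_lit 7) (nat_lit 5) (nat_lit 7) (nat_lit 4) (nat_lit 314) (nat_lit 257) (nat_lit 209)) (XT.lf (nat_lit 0) (nat_lit 66140285004) (nat_lit 76) (nat_lit 22156358119) (nat_lit 76) (nat_lit 2318912188) (nat_lit 6) (nat_lit 4) (nat_lit 7) (nat_lit 5) (nat_lit 7) (nat_lit 4) (nat_lit 315) (nat_lit 257) (nat_lit 208))) (XT.nd (nat_lit 78) (nat_lit 76) (nat_lit 0) (XT.lf (nat_lit 0) (nat_lit 4395095989) (nat_lit 152) (nat_lit 10862133369) (nat_lit 76) (nat_lit 82185878484) (nat_lit 5) (nat_lit 5) (nat_lit 7) (nat_lit 5) (nat_lit 6) (nat_lit 4) (nat_lit 316) (nat_lit 257) (nat_lit 207)) (XT.nd (nat_lit 78) (nat_lit 0) (nat_lit 0) (XT.lf (nat_lit 0) (nat_lit 3876240247) (nat_lit 76) (nat_lit 7723949564) (nat_lit 152) (nat_lit 93213030353) (nat_lit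 4) (nat_lit 5) (nat_lit 5) (nat_lit 5) (nat_lit 6) (nat_lit 4) (nat_lit 317) (nat_lit 257) (nat_lit 206)) (XT.lf (nat_lit 0) (nat_lit 19554931327) (nat_lit 152) (nat_lit 92639043870) (nat_lit 0) (nat_lit 570319779) (nat_lit 4) (nat_lit 5) (nat_lit 6) (nat_lit 4) (nat_lit 4) (nat_lit 4) (nat_lit 318) (nat_lit 257) (nat_lit 205)))))) (XT.nd (nat_lit 390) (nat_lit 76) (nat_lit 0) (XT.nd (nat_lit 156) (nat_lit 0) (nat_lit 0) (XT.nd (nat_lit 78) (nat_lit 0) (nat_lit 0) (XT.lf (nat_lit 0) (nat_lit 28252675996) (nat_lit 152) (nat_lit 83851583033) (nat_lit 0) (nat_lit 9241879916) (nat_lit 4) (nat_lit 5) (nat_lit 6) (nat_lit 4) (nat_lit 4) (nat_lit 4) (nat_lit 319) (nat_lit 257) (nat_lit 204)) (XT.lf (nat_lit 0) (nat_lit 37624373509) (nat_lit 152) (nat_lit 74401931067) (nat_lit 0) (nat_lit 18589332492) (nat_lit 4) (nat_lit 5) (nat_lit 6) (nat_lit 4) (nat_lit 4) (nat_lit 4) (nat_lit 320) (nat_lit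 257) (nat_lit 203))) (XT.nd (nat_lit 78) (nat_lit 0) (nat_lit 0) (XT.lf (nat_lit 0) (nat_lit 47725559852) (nat_lit 152) (nat_lit 64234090033) (nat_lit 0) (nat_lit 28668069820) (nat_lit 4) (nat_lit 5) (nat_lit 6) (nat_lit 4) (nat_lit 4) (nat_lit 4) (nat_lit 321) (nat_lit 257) (nat_lit 202)) (XT.nd (nat_lit 78) (nat_lit 0) (nat_lit 0) (XT.lf (nat_lit 0) (nat_lit 58616093907) (nat_lit 152) (nat_lit 53287806059) (nat_lit 0) (nat_lit 39537817749) (nat_lit 4) (nat_lit 5) (nat_lit 6) (nat_lit 4) (nat_lit 4) (nat_lit 4) (nat_lit 322) (nat_lit 257) (nat_lit 201)) (XT.lf (nat_lit 0) (nat_lit 70360512171) (nat_lit 152) (nat_lit 41498212277) (nat_lit 0) (nat_lit 51262989601) (nat_lit 4) (nat_lit 5) (nat_lit 6) (nat_lit 4) (nat_lit 4) (nat_lit 4) (nat_lit 323) (nat_lit 257) (nat_lit 200))))) (XT.nd (nat_lit 156) (nat_lit 76) (nat_lit 0) (XT.nd (nat_lit 78) (nat_lit 0) (nat_lit 0) (XT.lf (nat_lit 0)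 (nat_lit 83028411198) (nat_lit 152) (nat_lit 28795444427) (nat_lit 0) (nat_lit 63913067876) (nat_lit 4) (nat_lit 5) (nat_lit 6) (nat_lit 4) (nat_lit 4) (nat_lit 4) (nat_lit 324) (nat_lit 257) (nat_lit 199)) (XT.lf (nat_lit 0) (nat_lit 96694860019) (nat_lit 152) (nat_lit 15104226849) (nat_lit 0) (nat_lit 77563016000) (nat_lit 4) (nat_lit 5) (nat_lit 6) (nat_lit 4) (nat_lit 4) (nat_lit 4) (nat_lit 325) (nat_lit 257) (nat_lit 198))) (XT.nd (nat_lit 78) (nat_lit 76) (nat_lit 0) (XT.lf (nat_lit 0) (nat_lit 111440844997) (nat_lit 152) (nat_lit 343426400) (nat_lit 0) (nat_lit 92293722556) (nat_lit 4) (nat_lit 5) (nat_lit 6) (nat_lit 4) (nat_lit 4) (nat_lit 4) (nat_lit 326) (nat_lit 257) (nat_lit 197)) (XT.nd (nat_lit 78) (nat_lit 0) (nat_lit 0) (XT.lf (nat_lit 0) (nat_lit 16089389265) (nat_lit 76) (nat_lit 111515560939) (nat_lit 76) (nat_lit 92354291809) (nat_lit 3) (nat_lit 4) (nat_lit 4) (nat_lit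 5) (nat_lit 4) (nat_lit 4) (nat_lit 327) (nat_lit 257) (nat_lit 196)) (XT.lf (nat_lit 0) (nat_lit 33826318817) (nat_lit 76) (nat_lit 111229677781) (nat_lit 76) (nat_lit 92055309867) (nat_lit 3) (nat_lit 4) (nat_lit 4) (nat_lit 5) (nat_lit 4) (nat_lit 4) (nat_lit 328) (nat_lit 257) (nat_lit 195))))))))
noncomputable def xc43 : XT := (XT.nd (nat_lit 35646) (nat_lit 0) (nat_lit 1976) (XT.nd (nat_lit 780) (nat_lit 0) (nat_lit 0) (XT.nd (nat_lit 390) (nat_lit 0) (nat_lit 0) (XT.nd (nat_lit 156) (nat_lit 0) (nat_lit 0) (XT.nd (nat_lit 78) (nat_lit 0) (nat_lit 0) (XT.lf (nat_lit 0) (nat_lit 52961114758) (nat_lit 76) (nat_lit 110930743895) (nat_lit 76) (nat_lit 91744247476) (nat_lit 3) (nat_lit 4) (nat_lit 4) (nat_lit 5) (nat_lit 4) (nat_lit 4) (nat_lit 329) (nat_lit 257) (nat_lit 194)) (XT.lf (nat_lit 0) (nat_lit 73607168472) (nat_lit 76) (nat_lit 110616987820) (nat_lit 76) (nat_lit 91419261304)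 (nat_lit 3) (nat_lit 4) (nat_lit 4) (nat_lit 5) (nat_lit 4) (nat_lit 4) (nat_lit 330) (nat_lit 257) (nat_lit 193))) (XT.nd (nat_lit 78) (nat_lit 0) (nat_lit 0) (XT.lf (nat_lit 0) (nat_lit 95886826944) (nat_lit 76) (nat_lit 110286550260) (nat_lit 76) (nat_lit 91078425507) (nat_lit 3) (nat_lit 4) (nat_lit 4) (nat_lit 5) (nat_lit 4) (nat_lit 4) (nat_lit 331) (nat_lit 257) (nat_lit 192)) (XT.nd (nat_lit 78) (nat_lit 0) (nat_lit 0) (XT.lf (nat_lit 0) (nat_lit 119932117780) (nat_lit 76) (nat_lit 109937473068) (nat_lit 76) (nat_lit 90719720317) (nat_lit 3) (nat_lit 4) (nat_lit 4) (nat_lit 5) (nat_lit 4) (nat_lit 4) (nat_lit 332) (nat_lit 257) (nat_lit 191)) (XT.lf (nat_lit 0) (nat_lit 145885531591) (nat_lit 76) (nat_lit 109567687638) (nat_lit 76) (nat_lit 90341020074) (nat_lit 3) (nat_lit 4) (nat_lit 4) (nat_lit 5) (nat_lit 4) (nat_lit 4) (nat_lit 333) (nat_lit 257) (nat_lit 190))))) (XT.nd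 (nat_lit 156) (nat_lit 0) (nat_lit 0) (XT.nd (nat_lit 78) (nat_lit 0) (nat_lit 0) (XT.lf (nat_lit 0) (nat_lit 173900866386) (nat_lit 76) (nat_lit 109175002648) (nat_lit 76) (nat_lit 89940080628) (nat_lit 3) (nat_lit 4) (nat_lit 4) (nat_lit 5) (nat_lit 4) (nat_lit 4) (nat_lit 334) (nat_lit 257) (nat_lit 189)) (XT.lf (nat_lit 0) (nat_lit 204144138963) (nat_lit 76) (nat_lit 108757091077) (nat_lit 76) (nat_lit 89514526041) (nat_lit 3) (nat_lit 4) (nat_lit 4) (nat_lit 5) (nat_lit 4) (nat_lit 4) (nat_lit 335) (nat_lit 257) (nat_lit 188))) (XT.nd (nat_lit 78) (nat_lit 0) (nat_lit 0) (XT.lf (nat_lit 0) (nat_lit 236794568716) (nat_lit 76) (nat_lit 108311476411) (nat_lit 76) (nat_lit 89061834510) (nat_lit 3) (nat_lit 4) (nat_lit 4) (nat_lit 5) (nat_lit 4) (nat_lit 4) (nat_lit 336) (nat_lit 257) (nat_lit 187)) (XT.nd (nat_lit 78) (nat_lit 0) (nat_lit 0) (XT.lf (nat_lit 0) (nat_lit 272045639672)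 (nat_lit 76) (nat_lit 107835517972) (nat_lit 76) (nat_lit 88579323417) (nat_lit 3) (nat_lit 4) (nat_lit 4) (nat_lit 5) (nat_lit 4) (nat_lit 4) (nat_lit 337) (nat_lit 257) (nat_lit 186)) (XT.lf (nat_lit 0) (nat_lit 310106247067) (nat_lit 76) (nat_lit 107326395264) (nat_lit 76) (nat_lit 88064133437) (nat_lit 3) (nat_lit 4) (nat_lit 4) (nat_lit 5) (nat_lit 4) (nat_lit 4) (nat_lit 338) (nat_lit 257) (nat_lit 185)))))) (XT.nd (nat_lit 390) (nat_lit 0) (nat_lit 0) (XT.nd (nat_lit 156) (nat_lit 0) (nat_lit 0) (XT.nd (nat_lit 78) (nat_lit 0) (nat_lit 0) (XT.lf (nat_lit 0) (nat_lit 351201935241) (nat_lit 76) (nat_lit 106781091264) (nat_lit 76) (nat_lit 87513211592) (nat_lit 3) (nat_lit 4) (nat_lit 4) (nat_lit 5) (nat_lit 4) (nat_lit 4) (nat_lit 339) (nat_lit 257) (nat_lit 184)) (XT.lf (nat_lit 0) (nat_lit 395576234198) (nat_lit 76) (nat_lit 106196374541) (nat_lit 76) (nat_lit 86923293162) (nat_lit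 3) (nat_lit 4) (nat_lit 4) (nat_lit 5) (nat_lit 4) (nat_lit 4) (nat_lit 340) (nat_lit 257) (nat_lit 183))) (XT.nd (nat_lit 78) (nat_lit 0) (nat_lit 0) (XT.lf (nat_lit 0) (nat_lit 443492102747) (nat_lit 76) (nat_lit 105568780107) (nat_lit 76) (nat_lit 86290882332) (nat_lit 3) (nat_lit 4) (nat_lit 4) (nat_lit 5) (nat_lit 4) (nat_lit 4) (nat_lit 341) (nat_lit 257) (nat_lit 182)) (XT.nd (nat_lit 78) (nat_lit 0) (nat_lit 0) (XT.lf (nat_lit 0) (nat_lit 495233486775) (nat_lit 76) (nat_lit 104894588884) (nat_lit 76) (nat_lit 85612231483) (nat_lit 3) (nat_lit 4) (nat_lit 4) (nat_lit 5) (nat_lit 4) (nat_lit 4) (nat_lit 342) (nat_lit 257) (nat_lit 181)) (XT.lf (nat_lit 0) (nat_lit 551107001892) (nat_lit 76) (nat_lit 104169805664) (nat_lit 76) (nat_lit 84883318980) (nat_lit 3) (nat_lit 4) (nat_lit 4) (nat_lit 5) (nat_lit 4) (nat_lit 4) (nat_lit 343) (nat_lit 257) (nat_lit 180))))) (XT.nd (nat_lit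 156) (nat_lit 0) (nat_lit 0) (XT.nd (nat_lit 78) (nat_lit 0) (nat_lit 0) (XT.lf (nat_lit 0) (nat_lit 611443750409) (nat_lit 76) (nat_lit 103390135436) (nat_lit 76) (nat_lit 84099825342) (nat_lit 3) (nat_lit 4) (nat_lit 4) (nat_lit 5) (nat_lit 4) (nat_lit 4) (nat_lit 344) (nat_lit 257) (nat_lit 179)) (XT.lf (nat_lit 0) (nat_lit 676601283428) (nat_lit 76) (nat_lit 102550957933) (nat_lit 76) (nat_lit 83257107643) (nat_lit 3) (nat_lit 4) (nat_lit 4) (nat_lit 5) (nat_lit 4) (nat_lit 4) (nat_lit 345) (nat_lit 257) (nat_lit 178))) (XT.nd (nat_lit 78) (nat_lit 0) (nat_lit 0) (XT.lf (nat_lit 0) (nat_lit 746965719664) (nat_lit 76) (nat_lit 101647300249) (nat_lit 76) (nat_lit 82350172002) (nat_lit 3) (nat_lit 4) (nat_lit 4) (nat_lit 5) (nat_lit 4) (nat_lit 4) (nat_lit 346) (nat_lit 257) (nat_lit 177)) (XT.nd (nat_lit 34164) (nat_lit 0) (nat_lit 9044) (XT.lf (nat_lit 0) (nat_lit 822954033554) (nat_lit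 76) (nat_lit 100673807378) (nat_lit 76) (nat_lit 81373643984) (nat_lit 3) (nat_lit 4) (nat_lit 4) (nat_lit 5) (nat_lit 4) (nat_lit 4) (nat_lit 347) (nat_lit 257) (nat_lit 176)) (XT.lf (nat_lit 0) (nat_lit 598826873) (nat_lit 228) (nat_lit 1341483688) (nat_lit 228) (nat_lit 1341483688) (nat_lit 122) (nat_lit 4) (nat_lit 125) (nat_lit 5) (nat_lit 125) (nat_lit 4) (nat_lit 264) (nat_lit 258) (nat_lit 258))))))) (XT.nd (nat_lit 780) (nat_lit 2584) (nat_lit 0) (XT.nd (nat_lit 390) (nat_lit 2584) (nat_lit 0) (XT.nd (nat_lit 156) (nat_lit 1520) (nat_lit 0) (XT.nd (nat_lit 78) (nat_lit 0) (nat_lit 0) (XT.lf (nat_lit 0) (nat_lit 422333738) (nat_lit 304) (nat_lit 1513371916) (nat_lit 380) (nat_lit 4700664501) (nat_lit 117) (nat_lit 5) (nat_lit 121) (nat_lit 5) (nat_lit 122) (nat_lit 4) (nat_lit 265) (nat_lit 258) (nat_lit 257)) (XT.lf (nat_lit 0) (nat_lit 6507575844) (nat_lit 380) (nat_lit 219329166)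 (nat_lit 0) (nat_lit 3700415) (nat_lit 117) (nat_lit 5) (nat_lit 122) (nat_lit 4) (nat_lit 117) (nat_lit 4) (nat_lit 266) (nat_lit 258) (nat_lit 256))) (XT.nd (nat_lit 78) (nat_lit 1064) (nat_lit 0) (XT.lf (nat_lit 0) (nat_lit 4196435963) (nat_lit 456) (nat_lit 796425396) (nat_lit 76) (nat_lit 1850866886) (nat_lit 111) (nat_lit 5) (nat_lit 117) (nat_lit 5) (nat_lit 112) (nat_lit 4) (nat_lit 267) (nat_lit 258) (nat_lit 255)) (XT.nd (nat_lit 78) (nat_lit 532) (nat_lit 0) (XT.lf (nat_lit 0) (nat_lit 1652237378) (nat_lit 532) (nat_lit 1277612794) (nat_lit 76) (nat_lit 4049634050) (nat_lit 104) (nat_lit 5) (nat_lit 111) (nat_lit 5) (nat_lit 105) (nat_lit 5) (nat_lit 268) (nat_lit 258) (nat_lit 254)) (XT.lf (nat_lit 0) (nat_lit 5445881991) (nat_lit 532) (nat_lit 505779704) (nat_lit 608) (nat_lit 1186070116) (nat_lit 97) (nat_lit 5) (nat_lit 104) (nat_lit 5) (nat_lit 105) (nat_lit 5) (nat_lit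 269) (nat_lit 258) (nat_lit 253))))) (XT.nd (nat_lit 156) (nat_lit 1216) (nat_lit 0) (XT.nd (nat_lit 78) (nat_lit 684) (nat_lit 0) (XT.lf (nat_lit 0) (nat_lit 2985190611) (nat_lit 684) (nat_lit 2098389135) (nat_lit 76) (nat_lit 2233384334) (nat_lit 88) (nat_lit 5) (nat_lit 97) (nat_lit 5) (nat_lit 89) (nat_lit 5) (nat_lit 270) (nat_lit 258) (nat_lit 252)) (XT.lf (nat_lit 0) (nat_lit 5056576261) (nat_lit 684) (nat_lit 2194029928) (nat_lit 760) (nat_lit 269864600) (nat_lit 79) (nat_lit 5) (nat_lit 88) (nat_lit 5) (nat_lit 89) (nat_lit 5) (nat_lit 271) (nat_lit 258) (nat_lit 251))) (XT.nd (nat_lit 78) (nat_lit 760) (nat_lit 0) (XT.lf (nat_lit 0) (nat_lit 3813326961) (nat_lit 456) (nat_lit 2859044845) (nat_lit 76) (nat_lit 1074156643) (nat_lit 73) (nat_lit 5) (nat_lit 79) (nat_lit 5) (nat_lit 74) (nat_lit 5) (nat_lit 272) (nat_lit 258) (nat_lit 250)) (XT.nd (nat_lit 78) (nat_lit 304) (nat_lit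 0) (XT.lf (nat_lit 0) (nat_lit 82488035) (nat_lit 456) (nat_lit 3272173872) (nat_lit 76) (nat_lit 4643079302) (nat_lit 67) (nat_lit 5) (nat_lit 73) (nat_lit 5) (nat_lit 68) (nat_lit 5) (nat_lit 273) (nat_lit 258) (nat_lit 249)) (XT.lf (nat_lit 0) (nat_lit 4137040937) (nat_lit 380) (nat_lit 3754949542) (nat_lit 76) (nat_lit 381792269) (nat_lit 63) (nat_lit 5) (nat_lit 68) (nat_lit 5) (nat_lit 64) (nat_lit 5) (nat_lit 274) (nat_lit 258) (nat_lit 248)))))) (XT.nd (nat_lit 390) (nat_lit 1140) (nat_lit 0) (XT.nd (nat_lit 156) (nat_lit 836) (nat_lit 0) (XT.nd (nat_lit 78) (nat_lit 304) (nat_lit 0) (XT.lf (nat_lit 0) (nat_lit 4254904397) (nat_lit 304) (nat_lit 4183330305) (nat_lit 380) (nat_lit 138231404) (nat_lit 59) (nat_lit 5) (nat_lit 63) (nat_lit 5) (nat_lit 64) (nat_lit 5) (nat_lit 275) (nat_lit 258) (nat_lit 247)) (XT.lf (nat_lit 0) (nat_lit 3897691918) (nat_lit 228) (nat_lit 27363878)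 (nat_lit 304) (nat_lit 4981703661) (nat_lit 55) (nat_lit 5) (nat_lit 58) (nat_lit 5) (nat_lit 59) (nat_lit 5) (nat_lit 276) (nat_lit 258) (nat_lit 246))) (XT.nd (nat_lit 78) (nat_lit 532) (nat_lit 0) (XT.lf (nat_lit 0) (nat_lit 3406221395) (nat_lit 304) (nat_lit 4866216555) (nat_lit 380) (nat_lit 993280240) (nat_lit 51) (nat_lit 5) (nat_lit 55) (nat_lit 5) (nat_lit 56) (nat_lit 5) (nat_lit 277) (nat_lit 258) (nat_lit 245)) (XT.nd (nat_lit 78) (nat_lit 228) (nat_lit 0) (XT.lf (nat_lit 0) (nat_lit 2765782702) (nat_lit 228) (nat_lit 347999542) (nat_lit 304) (nat_lit 6542226221) (nat_lit 47) (nat_lit 5) (nat_lit 50) (nat_lit 5) (nat_lit 51) (nat_lit 5) (nat_lit 278) (nat_lit 258) (nat_lit 244)) (XT.lf (nat_lit 0) (nat_lit 1898457953) (nat_lit 228) (nat_lit 5605429726) (nat_lit 304) (nat_lit 2573804474) (nat_lit 44) (nat_lit 5) (nat_lit 47) (nat_lit 5) (nat_lit 48) (nat_lit 5) (nat_lit 279)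 (nat_lit 258) (nat_lit 243))))) (XT.nd (nat_lit 234) (nat_lit 684) (nat_lit 0) (XT.nd (nat_lit 78) (nat_lit 228) (nat_lit 0) (XT.lf (nat_lit 0) (nat_lit 815051316) (nat_lit 152) (nat_lit 775366163) (nat_lit 228) (nat_lit 8945095598) (nat_lit 41) (nat_lit 5) (nat_lit 43) (nat_lit 5) (nat_lit 44) (nat_lit 5) (nat_lit 280) (nat_lit 258) (nat_lit 242)) (XT.nd (nat_lit 78) (nat_lit 228) (nat_lit 0) (XT.lf (nat_lit 0) (nat_lit 6015401248) (nat_lit 228) (nat_lit 599165218) (nat_lit 76) (nat_lit 4412759644) (nat_lit 41) (nat_lit 5) (nat_lit 44) (nat_lit 5) (nat_lit 42) (nat_lit 5) (nat_lit 281) (nat_lit 258) (nat_lit 241)) (XT.lf (nat_lit 0) (nat_lit 9274286708) (nat_lit 228) (nat_lit 1495044051) (nat_lit 304) (nat_lit 790744955) (nat_lit 38) (nat_lit 5) (nat_lit 41) (nat_lit 5) (nat_lit 42) (nat_lit 5) (nat_lit 282) (nat_lit 258) (nat_lit 240)))) (XT.nd (nat_lit 78) (nat_lit 456) (nat_lit 0)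 (XT.lf (nat_lit 0) (nat_lit 3667687952) (nat_lit 228) (nat_lit 4442618941) (nat_lit 76) (nat_lit 4021487564) (nat_lit 35) (nat_lit 5) (nat_lit 38) (nat_lit 5) (nat_lit 36) (nat_lit 5) (nat_lit 283) (nat_lit 258) (nat_lit 239)) (XT.nd (nat_lit 78) (nat_lit 228) (nat_lit 0) (XT.lf (nat_lit 0) (nat_lit 5686947273) (nat_lit 228) (nat_lit 2754590779) (nat_lit 304) (nat_lit 4308018876) (nat_lit 32) (nat_lit 5) (nat_lit 35) (nat_lit 5) (nat_lit 36) (nat_lit 5) (nat_lit 284) (nat_lit 258) (nat_lit 238)) (XT.lf (nat_lit 0) (nat_lit 189369377) (nat_lit 228) (nat_lit 10241914763) (nat_lit 76) (nat_lit 2984829685) (nat_lit 29) (nat_lit 5) (nat_lit 32) (nat_lit 5) (nat_lit 30) (nat_lit 5) (nat_lit 285) (nat_lit 258) (nat_lit 237))))))))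
noncomputable def xc44 : XT := (XT.nd (nat_lit 1560) (nat_lit 380) (nat_lit 0) (XT.nd (nat_lit 780) (nat_lit 608) (nat_lit 0) (XT.nd (nat_lit 390) (nat_lit 380) (nat_lit 0) (XT.nd (nat_lit 156) (nat_lit 380) (nat_lit 0) (XT.nd (nat_lit 78) (nat_lit 152) (nat_lit 0) (XT.lf (nat_lit 0) (nat_lit 4913641543) (nat_lit 228) (nat_lit 11740223) (nat_lit 76) (nat_lit 9206407033) (nat_lit 29) (nat_lit 5) (nat_lit 32) (nat_lit 5) (nat_lit 30) (nat_lit 5) (nat_lit 286) (nat_lit 258) (nat_lit 236)) (XT.lf (nat_lit 0) (nat_lit 10063809827) (nat_lit 228) (nat_lit 3751553352) (nat_lit 76) (nat_lit 1087166070) (nat_lit 27) (nat_lit 5) (nat_lit 30) (nat_lit 5) (nat_lit 28) (nat_lit 4) (nat_lit 287) (nat_lit 258) (nat_lit 235))) (XT.nd (nat_lit 78) (nat_lit 228) (nat_lit 0) (XT.lf (nat_lit 0) (nat_lit 7405192234) (nat_lit 152) (nat_lit 8281786758) (nat_lit 228) (nat_lit 45094271) (nat_lit 25) (nat_lit 5)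 (nat_lit 27) (nat_lit 5) (nat_lit 28) (nat_lit 4) (nat_lit 288) (nat_lit 258) (nat_lit 234)) (XT.nd (nat_lit 78) (nat_lit 0) (nat_lit 0) (XT.lf (nat_lit 0) (nat_lit 2754753184) (nat_lit 152) (nat_lit 2189147206) (nat_lit 228) (nat_lit 11681438143) (nat_lit 22) (nat_lit 5) (nat_lit 24) (nat_lit 5) (nat_lit 25) (nat_lit 5) (nat_lit 289) (nat_lit 258) (nat_lit 233)) (XT.lf (nat_lit 0) (nat_lit 10418543573) (nat_lit 228) (nat_lit 2846044957) (nat_lit 76) (nat_lit 4321192251) (nat_lit 22) (nat_lit 5) (nat_lit 25) (nat_lit 5) (nat_lit 23) (nat_lit 4) (nat_lit 290) (nat_lit 258) (nat_lit 232))))) (XT.nd (nat_lit 156) (nat_lit 76) (nat_lit 0) (XT.nd (nat_lit 78) (nat_lit 228) (nat_lit 0) (XT.lf (nat_lit 0) (nat_lit 9119301529) (nat_lit 76) (nat_lit 7272727790) (nat_lit 152) (nat_lit 2228131975) (nat_lit 21) (nat_lit 5) (nat_lit 22) (nat_lit 5) (nat_lit 23) (nat_lit 4) (nat_lit 291) (nat_lit 258)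 (nat_lit 231)) (XT.lf (nat_lit 0) (nat_lit 2239553224) (nat_lit 152) (nat_lit 737934893) (nat_lit 228) (nat_lit 16758968467) (nat_lit 18) (nat_lit 5) (nat_lit 20) (nat_lit 5) (nat_lit 21) (nat_lit 5) (nat_lit 292) (nat_lit 258) (nat_lit 230))) (XT.nd (nat_lit 78) (nat_lit 76) (nat_lit 0) (XT.lf (nat_lit 0) (nat_lit 8679330129) (nat_lit 228) (nat_lit 6001855541) (nat_lit 76) (nat_lit 6251271301) (nat_lit 18) (nat_lit 5) (nat_lit 21) (nat_lit 5) (nat_lit 19) (nat_lit 4) (nat_lit 293) (nat_lit 258) (nat_lit 229)) (XT.nd (nat_lit 78) (nat_lit 0) (nat_lit 0) (XT.lf (nat_lit 0) (nat_lit 6432534357) (nat_lit 76) (nat_lit 8415724928) (nat_lit 152) (nat_lit 7375441829) (nat_lit 17) (nat_lit 5) (nat_lit 18) (nat_lit 5) (nat_lit 19) (nat_lit 4) (nat_lit 294) (nat_lit 258) (nat_lit 228)) (XT.lf (nat_lit 0) (nat_lit 19909848480) (nat_lit 76) (nat_lit 1608426219) (nat_lit 152) (nat_lit 2099694008)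 (nat_lit 17) (nat_lit 5) (nat_lit 18) (nat_lit 5) (nat_lit 19) (nat_lit 4) (nat_lit 295) (nat_lit 258) (nat_lit 227)))))) (XT.nd (nat_lit 390) (nat_lit 228) (nat_lit 0) (XT.nd (nat_lit 156) (nat_lit 152) (nat_lit 0) (XT.nd (nat_lit 78) (nat_lit 0) (nat_lit 0) (XT.lf (nat_lit 0) (nat_lit 3630809295) (nat_lit 228) (nat_lit 15779981419) (nat_lit 76) (nat_lit 5702875672) (nat_lit 14) (nat_lit 5) (nat_lit 17) (nat_lit 5) (nat_lit 15) (nat_lit 4) (nat_lit 296) (nat_lit 258) (nat_lit 226)) (XT.lf (nat_lit 0) (nat_lit 9752025711) (nat_lit 228) (nat_lit 3391701917) (nat_lit 76) (nat_lit 13583363100) (nat_lit 14) (nat_lit 5) (nat_lit 17) (nat_lit 5) (nat_lit 15) (nat_lit 4) (nat_lit 297) (nat_lit 258) (nat_lit 225))) (XT.nd (nat_lit 78) (nat_lit 76) (nat_lit 0) (XT.lf (nat_lit 0) (nat_lit 10170973254) (nat_lit 76) (nat_lit 6269355680) (nat_lit 152) (nat_lit 12025468113) (nat_lit 13) (nat_lit 5)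 (nat_lit 14) (nat_lit 5) (nat_lit 15) (nat_lit 4) (nat_lit 298) (nat_lit 258) (nat_lit 224)) (XT.nd (nat_lit 78) (nat_lit 76) (nat_lit 0) (XT.lf (nat_lit 0) (nat_lit 23663363450) (nat_lit 152) (nat_lit 5558922213) (nat_lit 0) (nat_lit 1121402619) (nat_lit 13) (nat_lit 5) (nat_lit 15) (nat_lit 4) (nat_lit 13) (nat_lit 4) (nat_lit 299) (nat_lit 258) (nat_lit 223)) (XT.lf (nat_lit 0) (nat_lit 8224623747) (nat_lit 76) (nat_lit 23401132688) (nat_lit 76) (nat_lit 738045041) (nat_lit 12) (nat_lit 4) (nat_lit 13) (nat_lit 5) (nat_lit 13) (nat_lit 4) (nat_lit 300) (nat_lit 258) (nat_lit 222))))) (XT.nd (nat_lit 156) (nat_lit 76) (nat_lit 0) (XT.nd (nat_lit 78) (nat_lit 76) (nat_lit 0) (XT.lf (nat_lit 0) (nat_lit 5525909897) (nat_lit 152) (nat_lit 11447126818) (nat_lit 76) (nat_lit 17566708070) (nat_lit 11) (nat_lit 5) (nat_lit 13) (nat_lit 5) (nat_lit 12) (nat_lit 4) (nat_lit 301) (nat_lit 258)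 (nat_lit 221)) (XT.lf (nat_lit 0) (nat_lit 2202079918) (nat_lit 76) (nat_lit 10032636544) (nat_lit 152) (nat_lit 24656016760) (nat_lit 10) (nat_lit 5) (nat_lit 11) (nat_lit 5) (nat_lit 12) (nat_lit 4) (nat_lit 302) (nat_lit 258) (nat_lit 220))) (XT.nd (nat_lit 78) (nat_lit 76) (nat_lit 0) (XT.lf (nat_lit 0) (nat_lit 17240804442) (nat_lit 76) (nat_lit 2376779774) (nat_lit 152) (nat_lit 19805398919) (nat_lit 10) (nat_lit 5) (nat_lit 11) (nat_lit 5) (nat_lit 12) (nat_lit 4) (nat_lit 303) (nat_lit 258) (nat_lit 219)) (XT.nd (nat_lit 78) (nat_lit 76) (nat_lit 0) (XT.lf (nat_lit 0) (nat_lit 27624905462) (nat_lit 152) (nat_lit 8872333647) (nat_lit 0) (nat_lit 5658929244) (nat_lit 10) (nat_lit 5) (nat_lit 12) (nat_lit 4) (nat_lit 10) (nat_lit 4) (nat_lit 304) (nat_lit 258) (nat_lit 218)) (XT.lf (nat_lit 0) (nat_lit 5542234189) (nat_lit 76) (nat_lit 30803333517) (nat_lit 76) (nat_lit 8758845988)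 (nat_lit 9) (nat_lit 4) (nat_lit 10) (nat_lit 5) (nat_lit 10) (nat_lit 4) (nat_lit 305) (nat_lit 258) (nat_lit 217))))))) (XT.nd (nat_lit 780) (nat_lit 152) (nat_lit 0) (XT.nd (nat_lit 390) (nat_lit 76) (nat_lit 0) (XT.nd (nat_lit 156) (nat_lit 76) (nat_lit 0) (XT.nd (nat_lit 78) (nat_lit 76) (nat_lit 0) (XT.lf (nat_lit 0) (nat_lit 21333653315) (nat_lit 76) (nat_lit 24533463362) (nat_lit 76) (nat_lit 2416280175) (nat_lit 9) (nat_lit 4) (nat_lit 10) (nat_lit 5) (nat_lit 10) (nat_lit 4) (nat_lit 306) (nat_lit 258) (nat_lit 216)) (XT.lf (nat_lit 0) (nat_lit 4243455069) (nat_lit 152) (nat_lit 13485411090) (nat_lit 76) (nat_lit 33986823056) (nat_lit 8) (nat_lit 5) (nat_lit 10) (nat_lit 5) (nat_lit 9) (nat_lit 4) (nat_lit 307) (nat_lit 258) (nat_lit 215))) (XT.nd (nat_lit 78) (nat_lit 0) (nat_lit 0) (XT.lf (nat_lit 0) (nat_lit 964839216) (nat_lit 76) (nat_lit 10357920787) (nat_lit 152) (nat_lit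 44099284689) (nat_lit 7) (nat_lit 5) (nat_lit 8) (nat_lit 5) (nat_lit 9) (nat_lit 4) (nat_lit 308) (nat_lit 258) (nat_lit 214)) (XT.nd (nat_lit 78) (nat_lit 0) (nat_lit 0) (XT.lf (nat_lit 0) (nat_lit 16974838607) (nat_lit 76) (nat_lit 2185827517) (nat_lit 152) (nat_lit 40254659793) (nat_lit 7) (nat_lit 5) (nat_lit 8) (nat_lit 5) (nat_lit 9) (nat_lit 4) (nat_lit 309) (nat_lit 258) (nat_lit 213)) (XT.lf (nat_lit 0) (nat_lit 27689274603) (nat_lit 152) (nat_lit 29639660503) (nat_lit 0) (nat_lit 6395978958) (nat_lit 7) (nat_lit 5) (nat_lit 9) (nat_lit 4) (nat_lit 7) (nat_lit 4) (nat_lit 310) (nat_lit 258) (nat_lit 212))))) (XT.nd (nat_lit 156) (nat_lit 76) (nat_lit 0) (XT.nd (nat_lit 78) (nat_lit 0) (nat_lit 0) (XT.lf (nat_lit 0) (nat_lit 36899992083) (nat_lit 152) (nat_lit 15919735044) (nat_lit 0) (nat_lit 15559576968) (nat_lit 7) (nat_lit 5) (nat_lit 9) (nat_lit 4) (nat_lit 7) (nat_lit 4)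 (nat_lit 311) (nat_lit 258) (nat_lit 211)) (XT.lf (nat_lit 0) (nat_lit 46813273701) (nat_lit 152) (nat_lit 1165280777) (nat_lit 0) (nat_lit 25429229446) (nat_lit 7) (nat_lit 5) (nat_lit 9) (nat_lit 4) (nat_lit 7) (nat_lit 4) (nat_lit 312) (nat_lit 258) (nat_lit 210))) (XT.nd (nat_lit 78) (nat_lit 0) (nat_lit 0) (XT.lf (nat_lit 0) (nat_lit 15197552696) (nat_lit 76) (nat_lit 42527588521) (nat_lit 76) (nat_lit 21103146916) (nat_lit 6) (nat_lit 4) (nat_lit 7) (nat_lit 5) (nat_lit 7) (nat_lit 4) (nat_lit 313) (nat_lit 258) (nat_lit 209)) (XT.nd (nat_lit 78) (nat_lit 0) (nat_lit 0) (XT.lf (nat_lit 0) (nat_lit 32855168638) (nat_lit 76) (nat_lit 36644814924) (nat_lit 76) (nat_lit 15182968364) (nat_lit 6) (nat_lit 4) (nat_lit 7) (nat_lit 5) (nat_lit 7) (nat_lit 4) (nat_lit 314) (nat_lit 258) (nat_lit 208)) (XT.lf (nat_lit 0) (nat_lit 51873675327) (nat_lit 76) (nat_lit 30315107400) (nat_lit 76)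 (nat_lit 8818626623) (nat_lit 6) (nat_lit 4) (nat_lit 7) (nat_lit 5) (nat_lit 7) (nat_lit 4) (nat_lit 315) (nat_lit 258) (nat_lit 207)))))) (XT.nd (nat_lit 390) (nat_lit 0) (nat_lit 0) (XT.nd (nat_lit 156) (nat_lit 76) (nat_lit 0) (XT.nd (nat_lit 78) (nat_lit 76) (nat_lit 0) (XT.lf (nat_lit 0) (nat_lit 72365775024) (nat_lit 76) (nat_lit 23500956572) (nat_lit 76) (nat_lit 1972407075) (nat_lit 6) (nat_lit 4) (nat_lit 7) (nat_lit 5) (nat_lit 7) (nat_lit 4) (nat_lit 316) (nat_lit 258) (nat_lit 206)) (XT.lf (nat_lit 0) (nat_lit 5223546433) (nat_lit 152) (nat_lit 10849972566) (nat_lit 76) (nat_lit 89140892676) (nat_lit 5) (nat_lit 5) (nat_lit 7) (nat_lit 5) (nat_lit 6) (nat_lit 4) (nat_lit 317) (nat_lit 258) (nat_lit 205))) (XT.nd (nat_lit 78) (nat_lit 0) (nat_lit 0) (XT.lf (nat_lit 0) (nat_lit 5029178039) (nat_lit 76) (nat_lit 7953707108) (nat_lit 152) (nat_lit 100192378386) (nat_lit 4) (nat_lit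 5) (nat_lit 5) (nat_lit 5) (nat_lit 6) (nat_lit 4) (nat_lit 318) (nat_lit 258) (nat_lit 204)) (XT.nd (nat_lit 78) (nat_lit 0) (nat_lit 0) (XT.lf (nat_lit 0) (nat_lit 21545937307) (nat_lit 152) (nat_lit 99254063142) (nat_lit 0) (nat_lit 963848072) (nat_lit 4) (nat_lit 5) (nat_lit 6) (nat_lit 4) (nat_lit 4) (nat_lit 4) (nat_lit 319) (nat_lit 258) (nat_lit 203)) (XT.lf (nat_lit 0) (nat_lit 30907900700) (nat_lit 152) (nat_lit 89822576122) (nat_lit 0) (nat_lit 10303362449) (nat_lit 4) (nat_lit 5) (nat_lit 6) (nat_lit 4) (nat_lit 4) (nat_lit 4) (nat_lit 320) (nat_lit 258) (nat_lit 202))))) (XT.nd (nat_lit 156) (nat_lit 0) (nat_lit 0) (XT.nd (nat_lit 78) (nat_lit 0) (nat_lit 0) (XT.lf (nat_lit 0) (nat_lit 41000073968) (nat_lit 152) (nat_lit 79671554484) (nat_lit 0) (nat_lit 20374749592) (nat_lit 4) (nat_lit 5) (nat_lit 6) (nat_lit 4) (nat_lit 4) (nat_lit 4) (nat_lit 321) (nat_lit 258) (nat_lit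 201)) (XT.lf (nat_lit 0) (nat_lit 51882262583) (nat_lit 152) (nat_lit 68740844024) (nat_lit 0) (nat_lit 31237691794) (nat_lit 4) (nat_lit 5) (nat_lit 6) (nat_lit 4) (nat_lit 4) (nat_lit 4) (nat_lit 322) (nat_lit 258) (nat_lit 200))) (XT.nd (nat_lit 78) (nat_lit 0) (nat_lit 0) (XT.lf (nat_lit 0) (nat_lit 63618953588) (nat_lit 152) (nat_lit 56965670163) (nat_lit 0) (nat_lit 42956562048) (nat_lit 4) (nat_lit 5) (nat_lit 6) (nat_lit 4) (nat_lit 4) (nat_lit 4) (nat_lit 323) (nat_lit 258) (nat_lit 199)) (XT.nd (nat_lit 78) (nat_lit 0) (nat_lit 0) (XT.lf (nat_lit 0) (nat_lit 76279697746) (nat_lit 152) (nat_lit 44276254092) (nat_lit 0) (nat_lit 55600805509) (nat_lit 4) (nat_lit 5) (nat_lit 6) (nat_lit 4) (nat_lit 4) (nat_lit 4) (nat_lit 324) (nat_lit 258) (nat_lit 198)) (XT.lf (nat_lit 0) (nat_lit 89939521688) (nat_lit 152) (nat_lit 30597399271) (nat_lit 0) (nat_lit 69245351028) (nat_lit 4) (nat_lit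 5) (nat_lit 6) (nat_lit 4) (nat_lit 4) (nat_lit 4) (nat_lit 325) (nat_lit 258) (nat_lit 197))))))))
noncomputable def xc45 : XT := (XT.nd (nat_lit 1560) (nat_lit 0) (nat_lit 0) (XT.nd (nat_lit 780) (nat_lit 0) (nat_lit 0) (XT.nd (nat_lit 390) (nat_lit 0) (nat_lit 0) (XT.nd (nat_lit 156) (nat_lit 0) (nat_lit 0) (XT.nd (nat_lit 78) (nat_lit 76) (nat_lit 0) (XT.lf (nat_lit 0) (nat_lit 104679372518) (nat_lit 152) (nat_lit 15848045820) (nat_lit 0) (nat_lit 83971055171) (nat_lit 4) (nat_lit 5) (nat_lit 6) (nat_lit 4) (nat_lit 4) (nat_lit 4) (nat_lit 326) (nat_lit 258) (nat_lit 196)) (XT.lf (nat_lit 0) (nat_lit 61167580) (nat_lit 76) (nat_lit 120526384918) (nat_lit 76) (nat_lit 99804968786) (nat_lit 3) (nat_lit 4) (nat_lit 4) (nat_lit 5) (nat_lit 4) (nat_lit 4) (nat_lit 327) (nat_lit 258) (nat_lit 195))) (XT.nd (nat_lit 78) (nat_lit 0) (nat_lit 0) (XT.lf (nat_lit 0) (nat_lit 17787958683) (nat_lit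 76) (nat_lit 120245222878) (nat_lit 76) (nat_lit 99511678241) (nat_lit 3) (nat_lit 4) (nat_lit 4) (nat_lit 5) (nat_lit 4) (nat_lit 4) (nat_lit 328) (nat_lit 258) (nat_lit 194)) (XT.nd (nat_lit 78) (nat_lit 0) (nat_lit 0) (XT.lf (nat_lit 0) (nat_lit 36913367171) (nat_lit 76) (nat_lit 119950660397) (nat_lit 76) (nat_lit 99205885663) (nat_lit 3) (nat_lit 4) (nat_lit 4) (nat_lit 5) (nat_lit 4) (nat_lit 4) (nat_lit 329) (nat_lit 258) (nat_lit 193)) (XT.lf (nat_lit 0) (nat_lit 57550728799) (nat_lit 76) (nat_lit 119640951918) (nat_lit 76) (nat_lit 98885778947) (nat_lit 3) (nat_lit 4) (nat_lit 4) (nat_lit 5) (nat_lit 4) (nat_lit 4) (nat_lit 330) (nat_lit 258) (nat_lit 192))))) (XT.nd (nat_lit 156) (nat_lit 0) (nat_lit 0) (XT.nd (nat_lit 78) (nat_lit 0) (nat_lit 0) (XT.lf (nat_lit 0) (nat_lit 79822339043) (nat_lit 76) (nat_lit 119314262134) (nat_lit 76) (nat_lit 98549461165) (nat_lit 3) (nat_lit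 4) (nat_lit 4) (nat_lit 5) (nat_lit 4) (nat_lit 4) (nat_lit 331) (nat_lit 258) (nat_lit 191)) (XT.lf (nat_lit 0) (nat_lit 103860177816) (nat_lit 76) (nat_lit 118968655104) (nat_lit 76) (nat_lit 98194939322) (nat_lit 3) (nat_lit 4) (nat_lit 4) (nat_lit 5) (nat_lit 4) (nat_lit 4) (nat_lit 332) (nat_lit 258) (nat_lit 190))) (XT.nd (nat_lit 78) (nat_lit 0) (nat_lit 0) (XT.lf (nat_lit 0) (nat_lit 129806691568) (nat_lit 76) (nat_lit 118602082787) (nat_lit 76) (nat_lit 97820112548) (nat_lit 3) (nat_lit 4) (nat_lit 4) (nat_lit 5) (nat_lit 4) (nat_lit 4) (nat_lit 333) (nat_lit 258) (nat_lit 189)) (XT.nd (nat_lit 78) (nat_lit 0) (nat_lit 0) (XT.lf (nat_lit 0) (nat_lit 157815637420) (nat_lit 76) (nat_lit 118212372902) (nat_lit 76) (nat_lit 97422759648) (nat_lit 3) (nat_lit 4) (nat_lit 4) (nat_lit 5) (nat_lit 4) (nat_lit 4) (nat_lit 334) (nat_lit 258) (nat_lit 188)) (XT.lf (nat_lit 0) (nat_lit 188052994310)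 (nat_lit 76) (nat_lit 117797216057) (nat_lit 76) (nat_lit 97000525938) (nat_lit 3) (nat_lit 4) (nat_lit 4) (nat_lit 5) (nat_lit 4) (nat_lit 4) (nat_lit 335) (nat_lit 258) (nat_lit 187)))))) (XT.nd (nat_lit 390) (nat_lit 0) (nat_lit 0) (XT.nd (nat_lit 156) (nat_lit 0) (nat_lit 0) (XT.nd (nat_lit 78) (nat_lit 0) (nat_lit 0) (XT.lf (nat_lit 0) (nat_lit 220697946574) (nat_lit 76) (nat_lit 117354152064) (nat_lit 76) (nat_lit 96550909291) (nat_lit 3) (nat_lit 4) (nat_lit 4) (nat_lit 5) (nat_lit 4) (nat_lit 4) (nat_lit 336) (nat_lit 258) (nat_lit 186)) (XT.lf (nat_lit 0) (nat_lit 255943945781) (nat_lit 76) (nat_lit 116880555359) (nat_lit 76) (nat_lit 96071245314) (nat_lit 3) (nat_lit 4) (nat_lit 4) (nat_lit 5) (nat_lit 4) (nat_lit 4) (nat_lit 337) (nat_lit 258) (nat_lit 185))) (XT.nd (nat_lit 78) (nat_lit 0) (nat_lit 0) (XT.lf (nat_lit 0) (nat_lit 293999857112) (nat_lit 76) (nat_lit 116373619441)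 (nat_lit 76) (nat_lit 95558691552) (nat_lit 3) (nat_lit 4) (nat_lit 4) (nat_lit 5) (nat_lit 4) (nat_lit 4) (nat_lit 338) (nat_lit 258) (nat_lit 184)) (XT.nd (nat_lit 78) (nat_lit 0) (nat_lit 0) (XT.lf (nat_lit 0) (nat_lit 335091197079) (nat_lit 76) (nat_lit 115830340248) (nat_lit 76) (nat_lit 95010210651) (nat_lit 3) (nat_lit 4) (nat_lit 4) (nat_lit 5) (nat_lit 4) (nat_lit 4) (nat_lit 339) (nat_lit 258) (nat_lit 183)) (XT.lf (nat_lit 0) (nat_lit 379461469919) (nat_lit 76) (nat_lit 115247498345) (nat_lit 76) (nat_lit 94422552352) (nat_lit 3) (nat_lit 4) (nat_lit 4) (nat_lit 5) (nat_lit 4) (nat_lit 4) (nat_lit 340) (nat_lit 258) (nat_lit 182))))) (XT.nd (nat_lit 156) (nat_lit 0) (nat_lit 0) (XT.nd (nat_lit 78) (nat_lit 0) (nat_lit 0) (XT.lf (nat_lit 0) (nat_lit 427373610581) (nat_lit 76) (nat_lit 114621639856) (nat_lit 76) (nat_lit 93792234237) (nat_lit 3) (nat_lit 4) (nat_lit 4) (nat_lit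 5) (nat_lit 4) (nat_lit 4) (nat_lit 341) (nat_lit 258) (nat_lit 181)) (XT.lf (nat_lit 0) (nat_lit 479111542862) (nat_lit 76) (nat_lit 113949055989) (nat_lit 76) (nat_lit 93115521087) (nat_lit 3) (nat_lit 4) (nat_lit 4) (nat_lit 5) (nat_lit 4) (nat_lit 4) (nat_lit 342) (nat_lit 258) (nat_lit 180))) (XT.nd (nat_lit 78) (nat_lit 0) (nat_lit 0) (XT.lf (nat_lit 0) (nat_lit 534981861917) (nat_lit 76) (nat_lit 113225761063) (nat_lit 76) (nat_lit 92388402750) (nat_lit 3) (nat_lit 4) (nat_lit 4) (nat_lit 5) (nat_lit 4) (nat_lit 4) (nat_lit 343) (nat_lit 258) (nat_lit 179)) (XT.nd (nat_lit 78) (nat_lit 0) (nat_lit 0) (XT.lf (nat_lit 0) (nat_lit 595315651117) (nat_lit 76) (nat_lit 112447468885) (nat_lit 76) (nat_lit 91606570377) (nat_lit 3) (nat_lit 4) (nat_lit 4) (nat_lit 5) (nat_lit 4) (nat_lit 4) (nat_lit 344) (nat_lit 258) (nat_lit 178)) (XT.lf (nat_lit 0) (nat_lit 660470444028) (nat_lit 76)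 (nat_lit 111609567352) (nat_lit 76) (nat_lit 90765390887) (nat_lit 3) (nat_lit 4) (nat_lit 4) (nat_lit 5) (nat_lit 4) (nat_lit 4) (nat_lit 345) (nat_lit 258) (nat_lit 177))))))) (XT.nd (nat_lit 34710) (nat_lit 0) (nat_lit 3040) (XT.nd (nat_lit 34320) (nat_lit 0) (nat_lit 7068) (XT.nd (nat_lit 34086) (nat_lit 0) (nat_lit 8968) (XT.nd (nat_lit 78) (nat_lit 0) (nat_lit 0) (XT.lf (nat_lit 0) (nat_lit 730832343127) (nat_lit 76) (nat_lit 110707091124) (nat_lit 76) (nat_lit 89859879512) (nat_lit 3) (nat_lit 4) (nat_lit 4) (nat_lit 5) (nat_lit 4) (nat_lit 4) (nat_lit 346) (nat_lit 258) (nat_lit 176)) (XT.lf (nat_lit 0) (nat_lit 806818307815) (nat_lit 76) (nat_lit 109734692192) (nat_lit 76) (nat_lit 88884670259) (nat_lit 3) (nat_lit 4) (nat_lit 4) (nat_lit 5) (nat_lit 4) (nat_lit 4) (nat_lit 347) (nat_lit 258) (nat_lit 175))) (XT.nd (nat_lit 78) (nat_lit 532) (nat_lit 0) (XT.lf (nat_lit 0) (nat_lit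 1669923010) (nat_lit 76) (nat_lit 782872343) (nat_lit 76) (nat_lit 782872343) (nat_lit 128) (nat_lit 4) (nat_lit 129) (nat_lit 5) (nat_lit 129) (nat_lit 4) (nat_lit 262) (nat_lit 259) (nat_lit 259)) (XT.nd (nat_lit 78) (nat_lit 304) (nat_lit 0) (XT.lf (nat_lit 0) (nat_lit 2114107712) (nat_lit 152) (nat_lit 878631891) (nat_lit 228) (nat_lit 3519452445) (nat_lit 125) (nat_lit 5) (nat_lit 127) (nat_lit 5) (nat_lit 128) (nat_lit 4) (nat_lit 263) (nat_lit 259) (nat_lit 258)) (XT.lf (nat_lit 0) (nat_lit 896172644) (nat_lit 304) (nat_lit 5538240815) (nat_lit 76) (nat_lit 139855360) (nat_lit 121) (nat_lit 5) (nat_lit 125) (nat_lit 5) (nat_lit 122) (nat_lit 4) (nat_lit 264) (nat_lit 259) (nat_lit 257))))) (XT.nd (nat_lit 156) (nat_lit 1520) (nat_lit 0) (XT.nd (nat_lit 78) (nat_lit 76) (nat_lit 0) (XT.lf (nat_lit 0) (nat_lit 53362072) (nat_lit 304) (nat_lit 5171985808) (nat_lit 380) (nat_lit 1430614133)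 (nat_lit 117) (nat_lit 5) (nat_lit 121) (nat_lit 5) (nat_lit 122) (nat_lit 4) (nat_lit 265) (nat_lit 259) (nat_lit 256)) (XT.lf (nat_lit 0) (nat_lit 2760315039) (nat_lit 380) (nat_lit 799139361) (nat_lit 76) (nat_lit 3198550577) (nat_lit 116) (nat_lit 5) (nat_lit 121) (nat_lit 5) (nat_lit 117) (nat_lit 5) (nat_lit 266) (nat_lit 259) (nat_lit 255))) (XT.nd (nat_lit 78) (nat_lit 1064) (nat_lit 0) (XT.lf (nat_lit 0) (nat_lit 71372386) (nat_lit 456) (nat_lit 1545082551) (nat_lit 76) (nat_lit 5265937545) (nat_lit 110) (nat_lit 5) (nat_lit 116) (nat_lit 5) (nat_lit 111) (nat_lit 5) (nat_lit 267) (nat_lit 259) (nat_lit 254)) (XT.nd (nat_lit 78) (nat_lit 608) (nat_lit 0) (XT.lf (nat_lit 0) (nat_lit 4079582102) (nat_lit 532) (nat_lit 2253601556) (nat_lit 76) (nat_lit 693821506) (nat_lit 104) (nat_lit 5) (nat_lit 111) (nat_lit 5) (nat_lit 105) (nat_lit 5) (nat_lit 268) (nat_lit 259) (nat_lit 253))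 (XT.lf (nat_lit 0) (nat_lit 977654807) (nat_lit 608) (nat_lit 2913680386) (nat_lit 76) (nat_lit 3302403852) (nat_lit 96) (nat_lit 5) (nat_lit 104) (nat_lit 5) (nat_lit 97) (nat_lit 5) (nat_lit 269) (nat_lit 259) (nat_lit 252)))))) (XT.nd (nat_lit 390) (nat_lit 1520) (nat_lit 0) (XT.nd (nat_lit 156) (nat_lit 1140) (nat_lit 0) (XT.nd (nat_lit 78) (nat_lit 760) (nat_lit 0) (XT.lf (nat_lit 0) (nat_lit 3834538399) (nat_lit 608) (nat_lit 1068294428) (nat_lit 684) (nat_lit 2480103478) (nat_lit 88) (nat_lit 5) (nat_lit 96) (nat_lit 5) (nat_lit 97) (nat_lit 5) (nat_lit 270) (nat_lit 259) (nat_lit 251)) (XT.lf (nat_lit 0) (nat_lit 1345070028) (nat_lit 760) (nat_lit 4184171456) (nat_lit 76) (nat_lit 2065699636) (nat_lit 78) (nat_lit 5) (nat_lit 88) (nat_lit 5) (nat_lit 79) (nat_lit 5) (nat_lit 271) (nat_lit 259) (nat_lit 250))) (XT.nd (nat_lit 78) (nat_lit 760) (nat_lit 0) (XT.lf (nat_lit 0) (nat_lit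 2983028767) (nat_lit 380) (nat_lit 2254383944) (nat_lit 456) (nat_lit 2592881852) (nat_lit 73) (nat_lit 5) (nat_lit 78) (nat_lit 5) (nat_lit 79) (nat_lit 5) (nat_lit 272) (nat_lit 259) (nat_lit 249)) (XT.nd (nat_lit 78) (nat_lit 304) (nat_lit 0) (XT.lf (nat_lit 0) (nat_lit 1180452887) (nat_lit 456) (nat_lit 5543286226) (nat_lit 76) (nat_lit 1367043805) (nat_lit 67) (nat_lit 5) (nat_lit 73) (nat_lit 5) (nat_lit 68) (nat_lit 5) (nat_lit 273) (nat_lit 259) (nat_lit 248)) (XT.lf (nat_lit 0) (nat_lit 2038884474) (nat_lit 304) (nat_lit 3029231302) (nat_lit 380) (nat_lit 3307376417) (nat_lit 63) (nat_lit 5) (nat_lit 67) (nat_lit 5) (nat_lit 68) (nat_lit 5) (nat_lit 274) (nat_lit 259) (nat_lit 247))))) (XT.nd (nat_lit 234) (nat_lit 912) (nat_lit 0) (XT.nd (nat_lit 78) (nat_lit 228) (nat_lit 0) (XT.lf (nat_lit 0) (nat_lit 459854125) (nat_lit 380) (nat_lit 7199543068) (nat_lit 76) (nat_lit 1028981834)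 (nat_lit 58) (nat_lit 5) (nat_lit 63) (nat_lit 5) (nat_lit 59) (nat_lit 5) (nat_lit 275) (nat_lit 259) (nat_lit 246)) (XT.nd (nat_lit 78) (nat_lit 0) (nat_lit 0) (XT.lf (nat_lit 0) (nat_lit 784238211) (nat_lit 228) (nat_lit 3575181883) (nat_lit 304) (nat_lit 4667373149) (nat_lit 55) (nat_lit 5) (nat_lit 58) (nat_lit 5) (nat_lit 59) (nat_lit 5) (nat_lit 276) (nat_lit 259) (nat_lit 245)) (XT.lf (nat_lit 0) (nat_lit 8493380966) (nat_lit 304) (nat_lit 13854102) (nat_lit 76) (nat_lit 889432347) (nat_lit 55) (nat_lit 5) (nat_lit 59) (nat_lit 5) (nat_lit 56) (nat_lit 5) (nat_lit 277) (nat_lit 259) (nat_lit 244)))) (XT.nd (nat_lit 78) (nat_lit 532) (nat_lit 0) (XT.lf (nat_lit 0) (nat_lit 3056575556) (nat_lit 380) (nat_lit 1006367861) (nat_lit 76) (nat_lit 5731375525) (nat_lit 50) (nat_lit 5) (nat_lit 55) (nat_lit 5) (nat_lit 51) (nat_lit 5) (nat_lit 278) (nat_lit 259) (nat_lit 243)) (XT.nd (nat_lit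 78) (nat_lit 304) (nat_lit 0) (XT.lf (nat_lit 0) (nat_lit 7246690244) (nat_lit 304) (nat_lit 2178142722) (nat_lit 76) (nat_lit 801368738) (nat_lit 47) (nat_lit 5) (nat_lit 51) (nat_lit 5) (nat_lit 48) (nat_lit 5) (nat_lit 279) (nat_lit 259) (nat_lit 242)) (XT.lf (nat_lit 0) (nat_lit 1056910970) (nat_lit 304) (nat_lit 3630167686) (nat_lit 76) (nat_lit 6004475875) (nat_lit 43) (nat_lit 5) (nat_lit 47) (nat_lit 5) (nat_lit 44) (nat_lit 5) (nat_lit 280) (nat_lit 259) (nat_lit 241))))))))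
noncomputable def xc46 : XT := (XT.nd (nat_lit 1560) (nat_lit 684) (nat_lit 0) (XT.nd (nat_lit 780) (nat_lit 684) (nat_lit 0) (XT.nd (nat_lit 390) (nat_lit 760) (nat_lit 0) (XT.nd (nat_lit 156) (nat_lit 456) (nat_lit 0) (XT.nd (nat_lit 78) (nat_lit 228) (nat_lit 0) (XT.lf (nat_lit 0) (nat_lit 5273366453) (nat_lit 228) (nat_lit 5386979811) (nat_lit 76) (nat_lit 533610638) (nat_lit 41) (nat_lit 5) (nat_lit 44) (nat_lit 5) (nat_lit 42) (nat_lit 5) (nat_lit 281) (nat_lit 259) (nat_lit 240)) (XT.lf (nat_lit 0) (nat_lit 4207995555) (nat_lit 228) (nat_lit 5658771270) (nat_lit 304) (nat_lit 1868116992) (nat_lit 38) (nat_lit 5) (nat_lit 41) (nat_lit 5) (nat_lit 42) (nat_lit 5) (nat_lit 282) (nat_lit 259) (nat_lit 239))) (XT.nd (nat_lit 78) (nat_lit 228) (nat_lit 0) (XT.lf (nat_lit 0) (nat_lit 2242497283) (nat_lit 152) (nat_lit 152802118) (nat_lit 228) (nat_lit 9923752186) (nat_lit 35) (nat_lit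 5) (nat_lit 37) (nat_lit 5) (nat_lit 38) (nat_lit 5) (nat_lit 283) (nat_lit 259) (nat_lit 238)) (XT.nd (nat_lit 78) (nat_lit 228) (nat_lit 0) (XT.lf (nat_lit 0) (nat_lit 7003013810) (nat_lit 228) (nat_lit 238967728) (nat_lit 76) (nat_lit 5703262480) (nat_lit 35) (nat_lit 5) (nat_lit 38) (nat_lit 5) (nat_lit 36) (nat_lit 5) (nat_lit 284) (nat_lit 259) (nat_lit 237)) (XT.lf (nat_lit 0) (nat_lit 10502832559) (nat_lit 228) (nat_lit 1498698962) (nat_lit 304) (nat_lit 1619128241) (nat_lit 32) (nat_lit 5) (nat_lit 35) (nat_lit 5) (nat_lit 36) (nat_lit 5) (nat_lit 285) (nat_lit 259) (nat_lit 236))))) (XT.nd (nat_lit 156) (nat_lit 380) (nat_lit 0) (XT.nd (nat_lit 78) (nat_lit 152) (nat_lit 0) (XT.lf (nat_lit 0) (nat_lit 3013240887) (nat_lit 228) (nat_lit 6672563295) (nat_lit 76) (nat_lit 4659081348) (nat_lit 29) (nat_lit 5) (nat_lit 32) (nat_lit 5) (nat_lit 30) (nat_lit 5) (nat_lit 286) (nat_lit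 259) (nat_lit 235)) (XT.lf (nat_lit 0) (nat_lit 4184878212) (nat_lit 152) (nat_lit 3787860813) (nat_lit 228) (nat_lit 7152513586) (nat_lit 27) (nat_lit 5) (nat_lit 29) (nat_lit 5) (nat_lit 30) (nat_lit 5) (nat_lit 287) (nat_lit 259) (nat_lit 234))) (XT.nd (nat_lit 78) (nat_lit 380) (nat_lit 0) (XT.lf (nat_lit 0) (nat_lit 13359771862) (nat_lit 228) (nat_lit 59870908) (nat_lit 76) (nat_lit 2547046896) (nat_lit 27) (nat_lit 5) (nat_lit 30) (nat_lit 5) (nat_lit 28) (nat_lit 4) (nat_lit 288) (nat_lit 259) (nat_lit 233)) (XT.nd (nat_lit 78) (nat_lit 152) (nat_lit 0) (XT.lf (nat_lit 0) (nat_lit 2360743520) (nat_lit 228) (nat_lit 5091242288) (nat_lit 76) (nat_lit 9415211414) (nat_lit 24) (nat_lit 5) (nat_lit 27) (nat_lit 5) (nat_lit 25) (nat_lit 5) (nat_lit 289) (nat_lit 259) (nat_lit 232)) (XT.lf (nat_lit 0) (nat_lit 6706628331) (nat_lit 152) (nat_lit 920567786) (nat_lit 228) (nat_lit 10210923286)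 (nat_lit 22) (nat_lit 5) (nat_lit 24) (nat_lit 5) (nat_lit 25) (nat_lit 5) (nat_lit 290) (nat_lit 259) (nat_lit 231)))))) (XT.nd (nat_lit 390) (nat_lit 304) (nat_lit 0) (XT.nd (nat_lit 156) (nat_lit 304) (nat_lit 0) (XT.nd (nat_lit 78) (nat_lit 0) (nat_lit 0) (XT.lf (nat_lit 0) (nat_lit 484558804) (nat_lit 76) (nat_lit 12914222532) (nat_lit 152) (nat_lit 5483878796) (nat_lit 21) (nat_lit 5) (nat_lit 22) (nat_lit 5) (nat_lit 23) (nat_lit 4) (nat_lit 291) (nat_lit 259) (nat_lit 230)) (XT.lf (nat_lit 0) (nat_lit 13237659268) (nat_lit 76) (nat_lit 6499371789) (nat_lit 152) (nat_lit 268611729) (nat_lit 21) (nat_lit 5) (nat_lit 22) (nat_lit 5) (nat_lit 23) (nat_lit 4) (nat_lit 292) (nat_lit 259) (nat_lit 229))) (XT.nd (nat_lit 78) (nat_lit 76) (nat_lit 0) (XT.lf (nat_lit 0) (nat_lit 5191918542) (nat_lit 228) (nat_lit 15495390813) (nat_lit 76) (nat_lit 527092185) (nat_lit 18) (nat_lit 5) (nat_lit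 21) (nat_lit 5) (nat_lit 19) (nat_lit 4) (nat_lit 293) (nat_lit 259) (nat_lit 228)) (XT.nd (nat_lit 78) (nat_lit 76) (nat_lit 0) (XT.lf (nat_lit 0) (nat_lit 11215041637) (nat_lit 228) (nat_lit 3344205942) (nat_lit 76) (nat_lit 7953737693) (nat_lit 18) (nat_lit 5) (nat_lit 21) (nat_lit 5) (nat_lit 19) (nat_lit 4) (nat_lit 294) (nat_lit 259) (nat_lit 227)) (XT.lf (nat_lit 0) (nat_lit 9948570268) (nat_lit 76) (nat_lit 7839378226) (nat_lit 152) (nat_lit 6124205433) (nat_lit 17) (nat_lit 5) (nat_lit 18) (nat_lit 5) (nat_lit 19) (nat_lit 4) (nat_lit 295) (nat_lit 259) (nat_lit 226))))) (XT.nd (nat_lit 156) (nat_lit 76) (nat_lit 0) (XT.nd (nat_lit 78) (nat_lit 228) (nat_lit 0) (XT.lf (nat_lit 0) (nat_lit 24281741139) (nat_lit 76) (nat_lit 580058930) (nat_lit 152) (nat_lit 562788286) (nat_lit 17) (nat_lit 5) (nat_lit 18) (nat_lit 5) (nat_lit 19) (nat_lit 4) (nat_lit 296) (nat_lit 259) (nat_lit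 225)) (XT.lf (nat_lit 0) (nat_lit 5509510908) (nat_lit 228) (nat_lit 14268086219) (nat_lit 76) (nat_lit 7264238665) (nat_lit 14) (nat_lit 5) (nat_lit 17) (nat_lit 5) (nat_lit 15) (nat_lit 4) (nat_lit 297) (nat_lit 259) (nat_lit 224))) (XT.nd (nat_lit 78) (nat_lit 76) (nat_lit 0) (XT.lf (nat_lit 0) (nat_lit 12002777462) (nat_lit 228) (nat_lit 1094247594) (nat_lit 76) (nat_lit 15693303389) (nat_lit 14) (nat_lit 5) (nat_lit 17) (nat_lit 5) (nat_lit 15) (nat_lit 4) (nat_lit 298) (nat_lit 259) (nat_lit 223)) (XT.nd (nat_lit 78) (nat_lit 0) (nat_lit 0) (XT.lf (nat_lit 0) (nat_lit 13441805087) (nat_lit 76) (nat_lit 5713770345) (nat_lit 152) (nat_lit 11516188020) (nat_lit 13) (nat_lit 5) (nat_lit 14) (nat_lit 5) (nat_lit 15) (nat_lit 4) (nat_lit 299) (nat_lit 259) (nat_lit 222)) (XT.lf (nat_lit 0) (nat_lit 26868029752) (nat_lit 152) (nat_lit 3677759591) (nat_lit 0) (nat_lit 2158613816) (nat_lit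 13) (nat_lit 5) (nat_lit 15) (nat_lit 4) (nat_lit 13) (nat_lit 4) (nat_lit 300) (nat_lit 259) (nat_lit 221))))))) (XT.nd (nat_lit 780) (nat_lit 228) (nat_lit 0) (XT.nd (nat_lit 390) (nat_lit 228) (nat_lit 0) (XT.nd (nat_lit 156) (nat_lit 76) (nat_lit 0) (XT.nd (nat_lit 78) (nat_lit 0) (nat_lit 0) (XT.lf (nat_lit 0) (nat_lit 499154510) (nat_lit 152) (nat_lit 23789995912) (nat_lit 76) (nat_lit 10599782358) (nat_lit 11) (nat_lit 5) (nat_lit 13) (nat_lit 5) (nat_lit 12) (nat_lit 4) (nat_lit 301) (nat_lit 259) (nat_lit 220)) (XT.lf (nat_lit 0) (nat_lit 7144585782) (nat_lit 152) (nat_lit 10263016178) (nat_lit 76) (nat_lit 19835512174) (nat_lit 11) (nat_lit 5) (nat_lit 13) (nat_lit 5) (nat_lit 12) (nat_lit 4) (nat_lit 302) (nat_lit 259) (nat_lit 219))) (XT.nd (nat_lit 78) (nat_lit 0) (nat_lit 0) (XT.lf (nat_lit 0) (nat_lit 4386868837) (nat_lit 76) (nat_lit 9947432477) (nat_lit 152) (nat_lit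 25450742707) (nat_lit 10) (nat_lit 5) (nat_lit 11) (nat_lit 5) (nat_lit 12) (nat_lit 4) (nat_lit 303) (nat_lit 259) (nat_lit 218)) (XT.nd (nat_lit 78) (nat_lit 0) (nat_lit 0) (XT.lf (nat_lit 0) (nat_lit 20479904470) (nat_lit 76) (nat_lit 1744871239) (nat_lit 152) (nat_lit 20299316579) (nat_lit 10) (nat_lit 5) (nat_lit 11) (nat_lit 5) (nat_lit 12) (nat_lit 4) (nat_lit 304) (nat_lit 259) (nat_lit 217)) (XT.lf (nat_lit 0) (nat_lit 30807693523) (nat_lit 152) (nat_lit 7823110476) (nat_lit 0) (nat_lit 6848440022) (nat_lit 10) (nat_lit 5) (nat_lit 12) (nat_lit 4) (nat_lit 10) (nat_lit 4) (nat_lit 305) (nat_lit 259) (nat_lit 216))))) (XT.nd (nat_lit 156) (nat_lit 152) (nat_lit 0) (XT.nd (nat_lit 78) (nat_lit 0) (nat_lit 0) (XT.lf (nat_lit 0) (nat_lit 7668178362) (nat_lit 76) (nat_lit 32512041011) (nat_lit 76) (nat_lit 8485476716) (nat_lit 9) (nat_lit 4) (nat_lit 10) (nat_lit 5) (nat_lit 10) (nat_lit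 4) (nat_lit 306) (nat_lit 259) (nat_lit 215)) (XT.lf (nat_lit 0) (nat_lit 24598276541) (nat_lit 76) (nat_lit 25796548591) (nat_lit 76) (nat_lit 1707659486) (nat_lit 9) (nat_lit 4) (nat_lit 10) (nat_lit 5) (nat_lit 10) (nat_lit 4) (nat_lit 307) (nat_lit 259) (nat_lit 214))) (XT.nd (nat_lit 78) (nat_lit 76) (nat_lit 0) (XT.lf (nat_lit 0) (nat_lit 5391316595) (nat_lit 152) (nat_lit 13094398240) (nat_lit 76) (nat_lit 37326222054) (nat_lit 8) (nat_lit 5) (nat_lit 10) (nat_lit 5) (nat_lit 9) (nat_lit 4) (nat_lit 308) (nat_lit 259) (nat_lit 213)) (XT.nd (nat_lit 78) (nat_lit 0) (nat_lit 0) (XT.lf (nat_lit 0) (nat_lit 2447994386) (nat_lit 76) (nat_lit 10551042261) (nat_lit 152) (nat_lit 46817704193) (nat_lit 7) (nat_lit 5) (nat_lit 8) (nat_lit 5) (nat_lit 9) (nat_lit 4) (nat_lit 309) (nat_lit 259) (nat_lit 212)) (XT.lf (nat_lit 0) (nat_lit 19634647948) (nat_lit 76) (nat_lit 1772256506) (nat_lit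 152) (nat_lit 42725473993) (nat_lit 7) (nat_lit 5) (nat_lit 8) (nat_lit 5) (nat_lit 9) (nat_lit 4) (nat_lit 310) (nat_lit 259) (nat_lit 211)))))) (XT.nd (nat_lit 390) (nat_lit 152) (nat_lit 0) (XT.nd (nat_lit 156) (nat_lit 76) (nat_lit 0) (XT.nd (nat_lit 78) (nat_lit 0) (nat_lit 0) (XT.lf (nat_lit 0) (nat_lit 30573464899) (nat_lit 152) (nat_lit 30780454971) (nat_lit 0) (nat_lit 7435067965) (nat_lit 7) (nat_lit 5) (nat_lit 9) (nat_lit 4) (nat_lit 7) (nat_lit 4) (nat_lit 311) (nat_lit 259) (nat_lit 210)) (XT.lf (nat_lit 0) (nat_lit 40471480642) (nat_lit 152) (nat_lit 16054074613) (nat_lit 0) (nat_lit 17292686358) (nat_lit 7) (nat_lit 5) (nat_lit 9) (nat_lit 4) (nat_lit 7) (nat_lit 4) (nat_lit 312) (nat_lit 259) (nat_lit 209))) (XT.nd (nat_lit 78) (nat_lit 76) (nat_lit 0) (XT.lf (nat_lit 0) (nat_lit 51131936701) (nat_lit 152) (nat_lit 203652097) (nat_lit 0) (nat_lit 27915737462) (nat_lit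 7) (nat_lit 5) (nat_lit 9) (nat_lit 4) (nat_lit 7) (nat_lit 4) (nat_lit 313) (nat_lit 259) (nat_lit 208)) (XT.nd (nat_lit 78) (nat_lit 0) (nat_lit 0) (XT.lf (nat_lit 0) (nat_lit 17422365509) (nat_lit 76) (nat_lit 45467652591) (nat_lit 76) (nat_lit 22216819135) (nat_lit 6) (nat_lit 4) (nat_lit 7) (nat_lit 5) (nat_lit 7) (nat_lit 4) (nat_lit 314) (nat_lit 259) (nat_lit 207)) (XT.lf (nat_lit 0) (nat_lit 36417849349) (nat_lit 76) (nat_lit 39148489921) (nat_lit 76) (nat_lit 15865587746) (nat_lit 6) (nat_lit 4) (nat_lit 7) (nat_lit 5) (nat_lit 7) (nat_lit 4) (nat_lit 315) (nat_lit 259) (nat_lit 206))))) (XT.nd (nat_lit 156) (nat_lit 152) (nat_lit 0) (XT.nd (nat_lit 78) (nat_lit 0) (nat_lit 0) (XT.lf (nat_lit 0) (nat_lit 56888631593) (nat_lit 76) (nat_lit 32344102847) (nat_lit 76) (nat_lit 9031507413) (nat_lit 6) (nat_lit 4) (nat_lit 7) (nat_lit 5) (nat_lit 7) (nat_lit 4) (nat_lit 316) (nat_lit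 259) (nat_lit 205)) (XT.lf (nat_lit 0) (nat_lit 78956020582) (nat_lit 76) (nat_lit 25014169075) (nat_lit 76) (nat_lit 1674079882) (nat_lit 6) (nat_lit 4) (nat_lit 7) (nat_lit 5) (nat_lit 7) (nat_lit 4) (nat_lit 317) (nat_lit 259) (nat_lit 204))) (XT.nd (nat_lit 78) (nat_lit 76) (nat_lit 0) (XT.lf (nat_lit 0) (nat_lit 6050245961) (nat_lit 152) (nat_lit 10962542154) (nat_lit 76) (nat_lit 96598076223) (nat_lit 5) (nat_lit 5) (nat_lit 7) (nat_lit 5) (nat_lit 6) (nat_lit 4) (nat_lit 318) (nat_lit 259) (nat_lit 203)) (XT.nd (nat_lit 78) (nat_lit 0) (nat_lit 0) (XT.lf (nat_lit 0) (nat_lit 6154110510) (nat_lit 76) (nat_lit 8257220393) (nat_lit 152) (nat_lit 107798222707) (nat_lit 4) (nat_lit 5) (nat_lit 5) (nat_lit 5) (nat_lit 6) (nat_lit 4) (nat_lit 319) (nat_lit 259) (nat_lit 202)) (XT.lf (nat_lit 0) (nat_lit 23635362869) (nat_lit 152) (nat_lit 106511857125) (nat_lit 0) (nat_lit 1339226418)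 (nat_lit 4) (nat_lit 5) (nat_lit 6) (nat_lit 4) (nat_lit 4) (nat_lit 4) (nat_lit 320) (nat_lit 259) (nat_lit 201))))))))
noncomputable def xc47 : XT := (XT.nd (nat_lit 1560) (nat_lit 0) (nat_lit 0) (XT.nd (nat_lit 780) (nat_lit 0) (nat_lit 0) (XT.nd (nat_lit 390) (nat_lit 76) (nat_lit 0) (XT.nd (nat_lit 156) (nat_lit 0) (nat_lit 0) (XT.nd (nat_lit 78) (nat_lit 0) (nat_lit 0) (XT.lf (nat_lit 0) (nat_lit 33719190698) (nat_lit 152) (nat_lit 96376409001) (nat_lit 0) (nat_lit 11403807834) (nat_lit 4) (nat_lit 5) (nat_lit 6) (nat_lit 4) (nat_lit 4) (nat_lit 4) (nat_lit 321) (nat_lit 259) (nat_lit 200)) (XT.lf (nat_lit 0) (nat_lit 44593652054) (nat_lit 152) (nat_lit 85460118462) (nat_lit 0) (nat_lit 22260448438) (nat_lit 4) (nat_lit 5) (nat_lit 6) (nat_lit 4) (nat_lit 4) (nat_lit 4) (nat_lit 322) (nat_lit 259) (nat_lit 199))) (XT.nd (nat_lit 78) (nat_lit 0) (nat_lit 0) (XT.lf (nat_lit 0) (nat_lit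 56323188190) (nat_lit 152) (nat_lit 73698296379) (nat_lit 0) (nat_lit 33973483878) (nat_lit 4) (nat_lit 5) (nat_lit 6) (nat_lit 4) (nat_lit 4) (nat_lit 4) (nat_lit 323) (nat_lit 259) (nat_lit 198)) (XT.nd (nat_lit 78) (nat_lit 0) (nat_lit 0) (XT.lf (nat_lit 0) (nat_lit 68977307468) (nat_lit 152) (nat_lit 61021243065) (nat_lit 0) (nat_lit 46612324733) (nat_lit 4) (nat_lit 5) (nat_lit 6) (nat_lit 4) (nat_lit 4) (nat_lit 4) (nat_lit 324) (nat_lit 259) (nat_lit 197)) (XT.lf (nat_lit 0) (nat_lit 82630997263) (nat_lit 152) (nat_lit 47353835242) (nat_lit 0) (nat_lit 60251867840) (nat_lit 4) (nat_lit 5) (nat_lit 6) (nat_lit 4) (nat_lit 4) (nat_lit 4) (nat_lit 325) (nat_lit 259) (nat_lit 196))))) (XT.nd (nat_lit 156) (nat_lit 76) (nat_lit 0) (XT.nd (nat_lit 78) (nat_lit 0) (nat_lit 0) (XT.lf (nat_lit 0) (nat_lit 97365168328) (nat_lit 152) (nat_lit 32615080864) (nat_lit 0) (nat_lit 74972940120)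 (nat_lit 4) (nat_lit 5) (nat_lit 6) (nat_lit 4) (nat_lit 4) (nat_lit 4) (nat_lit 326) (nat_lit 259) (nat_lit 195)) (XT.lf (nat_lit 0) (nat_lit 113267134269) (nat_lit 152) (nat_lit 16717639163) (nat_lit 0) (nat_lit 90862777557) (nat_lit 4) (nat_lit 5) (nat_lit 6) (nat_lit 4) (nat_lit 4) (nat_lit 4) (nat_lit 327) (nat_lit 259) (nat_lit 194))) (XT.nd (nat_lit 78) (nat_lit 0) (nat_lit 0) (XT.lf (nat_lit 0) (nat_lit 447003836) (nat_lit 76) (nat_lit 129991104105) (nat_lit 76) (nat_lit 107575517296) (nat_lit 3) (nat_lit 4) (nat_lit 4) (nat_lit 5) (nat_lit 4) (nat_lit 4) (nat_lit 328) (nat_lit 259) (nat_lit 193)) (XT.nd (nat_lit 78) (nat_lit 0) (nat_lit 0) (XT.lf (nat_lit 0) (nat_lit 19563720238) (nat_lit 76) (nat_lit 129700589220) (nat_lit 76) (nat_lit 107274604174) (nat_lit 3) (nat_lit 4) (nat_lit 4) (nat_lit 5) (nat_lit 4) (nat_lit 4) (nat_lit 329) (nat_lit 259) (nat_lit 192)) (XT.lf (nat_lit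 0) (nat_lit 40193033638) (nat_lit 76) (nat_lit 129394628517) (nat_lit 76) (nat_lit 106959015473) (nat_lit 3) (nat_lit 4) (nat_lit 4) (nat_lit 5) (nat_lit 4) (nat_lit 4) (nat_lit 330) (nat_lit 259) (nat_lit 191)))))) (XT.nd (nat_lit 390) (nat_lit 0) (nat_lit 0) (XT.nd (nat_lit 156) (nat_lit 0) (nat_lit 0) (XT.nd (nat_lit 78) (nat_lit 0) (nat_lit 0) (XT.lf (nat_lit 0) (nat_lit 62457191819) (nat_lit 76) (nat_lit 129071408895) (nat_lit 76) (nat_lit 106626881037) (nat_lit 3) (nat_lit 4) (nat_lit 4) (nat_lit 5) (nat_lit 4) (nat_lit 4) (nat_lit 331) (nat_lit 259) (nat_lit 190)) (XT.lf (nat_lit 0) (nat_lit 86488130533) (nat_lit 76) (nat_lit 128729014978) (nat_lit 76) (nat_lit 106276232664) (nat_lit 3) (nat_lit 4) (nat_lit 4) (nat_lit 5) (nat_lit 4) (nat_lit 4) (nat_lit 332) (nat_lit 259) (nat_lit 189))) (XT.nd (nat_lit 78) (nat_lit 0) (nat_lit 0) (XT.lf (nat_lit 0) (nat_lit 112428255343) (nat_lit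 76) (nat_lit 128365417765) (nat_lit 76) (nat_lit 105904992436) (nat_lit 3) (nat_lit 4) (nat_lit 4) (nat_lit 5) (nat_lit 4) (nat_lit 4) (nat_lit 333) (nat_lit 259) (nat_lit 188)) (XT.nd (nat_lit 78) (nat_lit 0) (nat_lit 0) (XT.lf (nat_lit 0) (nat_lit 140431285507) (nat_lit 76) (nat_lit 127978462607) (nat_lit 76) (nat_lit 105510960412) (nat_lit 3) (nat_lit 4) (nat_lit 4) (nat_lit 5) (nat_lit 4) (nat_lit 4) (nat_lit 334) (nat_lit 259) (nat_lit 187)) (XT.lf (nat_lit 0) (nat_lit 170663164908) (nat_lit 76) (nat_lit 127565856435) (nat_lit 76) (nat_lit 105091801586) (nat_lit 3) (nat_lit 4) (nat_lit 4) (nat_lit 5) (nat_lit 4) (nat_lit 4) (nat_lit 335) (nat_lit 259) (nat_lit 186))))) (XT.nd (nat_lit 156) (nat_lit 0) (nat_lit 0) (XT.nd (nat_lit 78) (nat_lit 0) (nat_lit 0) (XT.lf (nat_lit 0) (nat_lit 203303045423) (nat_lit 76) (nat_lit 127125154176) (nat_lit 76) (nat_lit 104645032056) (nat_lit 3)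 (nat_lit 4) (nat_lit 4) (nat_lit 5) (nat_lit 4) (nat_lit 4) (nat_lit 336) (nat_lit 259) (nat_lit 185)) (XT.lf (nat_lit 0) (nat_lit 238544348566) (nat_lit 76) (nat_lit 126653744261) (nat_lit 76) (nat_lit 104168004296) (nat_lit 3) (nat_lit 4) (nat_lit 4) (nat_lit 5) (nat_lit 4) (nat_lit 4) (nat_lit 337) (nat_lit 259) (nat_lit 184))) (XT.nd (nat_lit 78) (nat_lit 0) (nat_lit 0) (XT.lf (nat_lit 0) (nat_lit 276595911691) (nat_lit 76) (nat_lit 126148833150) (nat_lit 76) (nat_lit 103657891478) (nat_lit 3) (nat_lit 4) (nat_lit 4) (nat_lit 5) (nat_lit 4) (nat_lit 4) (nat_lit 338) (nat_lit 259) (nat_lit 183)) (XT.nd (nat_lit 78) (nat_lit 0) (nat_lit 0) (XT.lf (nat_lit 0) (nat_lit 317683225540) (nat_lit 76) (nat_lit 125607428777) (nat_lit 76) (nat_lit 103111670708) (nat_lit 3) (nat_lit 4) (nat_lit 4) (nat_lit 5) (nat_lit 4) (nat_lit 4) (nat_lit 339) (nat_lit 259) (nat_lit 182)) (XT.lf (nat_lit 0)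 (nat_lit 362049770492) (nat_lit 76) (nat_lit 125026322820) (nat_lit 76) (nat_lit 102526105125) (nat_lit 3) (nat_lit 4) (nat_lit 4) (nat_lit 5) (nat_lit 4) (nat_lit 4) (nat_lit 340) (nat_lit 259) (nat_lit 181))))))) (XT.nd (nat_lit 34632) (nat_lit 0) (nat_lit 4864) (XT.nd (nat_lit 390) (nat_lit 0) (nat_lit 0) (XT.nd (nat_lit 156) (nat_lit 0) (nat_lit 0) (XT.nd (nat_lit 78) (nat_lit 0) (nat_lit 0) (XT.lf (nat_lit 0) (nat_lit 409958459407) (nat_lit 76) (nat_lit 124402071687) (nat_lit 76) (nat_lit 101897724709) (nat_lit 3) (nat_lit 4) (nat_lit 4) (nat_lit 5) (nat_lit 4) (nat_lit 4) (nat_lit 341) (nat_lit 259) (nat_lit 180)) (XT.lf (nat_lit 0) (nat_lit 461693195626) (nat_lit 76) (nat_lit 123730976113) (nat_lit 76) (nat_lit 101222805725) (nat_lit 3) (nat_lit 4) (nat_lit 4) (nat_lit 5) (nat_lit 4) (nat_lit 4) (nat_lit 342) (nat_lit 259) (nat_lit 179))) (XT.nd (nat_lit 78) (nat_lit 0) (nat_lit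 0) (XT.lf (nat_lit 0) (nat_lit 517560555364) (nat_lit 76) (nat_lit 123009059236) (nat_lit 76) (nat_lit 100497348653) (nat_lit 3) (nat_lit 4) (nat_lit 4) (nat_lit 5) (nat_lit 4) (nat_lit 4) (nat_lit 343) (nat_lit 259) (nat_lit 178)) (XT.nd (nat_lit 78) (nat_lit 0) (nat_lit 0) (XT.lf (nat_lit 0) (nat_lit 577891604456) (nat_lit 76) (nat_lit 122232043029) (nat_lit 76) (nat_lit 99717054488) (nat_lit 3) (nat_lit 4) (nat_lit 4) (nat_lit 5) (nat_lit 4) (nat_lit 4) (nat_lit 344) (nat_lit 259) (nat_lit 177)) (XT.lf (nat_lit 0) (nat_lit 643043860230) (nat_lit 76) (nat_lit 121395322952) (nat_lit 76) (nat_lit 98877299264) (nat_lit 3) (nat_lit 4) (nat_lit 4) (nat_lit 5) (nat_lit 4) (nat_lit 4) (nat_lit 345) (nat_lit 259) (nat_lit 176))))) (XT.nd (nat_lit 34008) (nat_lit 0) (nat_lit 9196) (XT.nd (nat_lit 33930) (nat_lit 0) (nat_lit 9652) (XT.lf (nat_lit 0) (nat_lit 713403410128) (nat_lit 76) (nat_lit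 120493940663) (nat_lit 76) (nat_lit 97973106655) (nat_lit 3) (nat_lit 4) (nat_lit 4) (nat_lit 5) (nat_lit 4) (nat_lit 4) (nat_lit 346) (nat_lit 259) (nat_lit 175)) (XT.lf (nat_lit 0) (nat_lit 1073741823) (nat_lit 0) (nat_lit 0) (nat_lit 0) (nat_lit 0) (nat_lit 130) (nat_lit 0) (nat_lit 1) (nat_lit 0) (nat_lit 1) (nat_lit 0) (nat_lit 260) (nat_lit 260) (nat_lit 260))) (XT.nd (nat_lit 78) (nat_lit 380) (nat_lit 0) (XT.lf (nat_lit 0) (nat_lit 4533482711) (nat_lit 76) (nat_lit 1727151079) (nat_lit 0) (nat_lit 190793556) (nat_lit 129) (nat_lit 5) (nat_lit 130) (nat_lit 0) (nat_lit 129) (nat_lit 4) (nat_lit 261) (nat_lit 260) (nat_lit 259)) (XT.nd (nat_lit 78) (nat_lit 228) (nat_lit 0) (XT.lf (nat_lit 0) (nat_lit 2465272243) (nat_lit 152) (nat_lit 3309889531) (nat_lit 76) (nat_lit 706155445) (nat_lit 127) (nat_lit 5) (nat_lit 129) (nat_lit 5) (nat_lit 128) (nat_lit 4) (nat_lit 262) (nat_lit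 260) (nat_lit 258)) (XT.lf (nat_lit 0) (nat_lit 222250657) (nat_lit 228) (nat_lit 4760670869) (nat_lit 76) (nat_lit 1549364902) (nat_lit 124) (nat_lit 5) (nat_lit 127) (nat_lit 5) (nat_lit 125) (nat_lit 5) (nat_lit 263) (nat_lit 260) (nat_lit 257)))))) (XT.nd (nat_lit 390) (nat_lit 2812) (nat_lit 0) (XT.nd (nat_lit 156) (nat_lit 1216) (nat_lit 0) (XT.nd (nat_lit 78) (nat_lit 76) (nat_lit 0) (XT.lf (nat_lit 0) (nat_lit 475917483) (nat_lit 228) (nat_lit 3841399915) (nat_lit 304) (nat_lit 2285518737) (nat_lit 121) (nat_lit 5) (nat_lit 124) (nat_lit 5) (nat_lit 125) (nat_lit 5) (nat_lit 264) (nat_lit 260) (nat_lit 256)) (XT.lf (nat_lit 0) (nat_lit 1688353068) (nat_lit 304) (nat_lit 673986709) (nat_lit 76) (nat_lit 4331925941) (nat_lit 120) (nat_lit 5) (nat_lit 124) (nat_lit 5) (nat_lit 121) (nat_lit 5) (nat_lit 265) (nat_lit 260) (nat_lit 255))) (XT.nd (nat_lit 78) (nat_lit 912) (nat_lit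 0) (XT.lf (nat_lit 0) (nat_lit 5092407101) (nat_lit 304) (nat_lit 526258822) (nat_lit 380) (nat_lit 1187940703) (nat_lit 116) (nat_lit 5) (nat_lit 120) (nat_lit 5) (nat_lit 121) (nat_lit 5) (nat_lit 266) (nat_lit 260) (nat_lit 254)) (XT.nd (nat_lit 78) (nat_lit 456) (nat_lit 0) (XT.lf (nat_lit 0) (nat_lit 2600551903) (nat_lit 456) (nat_lit 2708581557) (nat_lit 76) (nat_lit 1629793063) (nat_lit 110) (nat_lit 5) (nat_lit 116) (nat_lit 5) (nat_lit 111) (nat_lit 5) (nat_lit 267) (nat_lit 260) (nat_lit 253)) (XT.lf (nat_lit 0) (nat_lit 3455549646) (nat_lit 456) (nat_lit 2966241314) (nat_lit 532) (nat_lit 671646578) (nat_lit 104) (nat_lit 5) (nat_lit 110) (nat_lit 5) (nat_lit 111) (nat_lit 5) (nat_lit 268) (nat_lit 260) (nat_lit 252))))) (XT.nd (nat_lit 234) (nat_lit 836) (nat_lit 0) (XT.nd (nat_lit 78) (nat_lit 1368) (nat_lit 0) (XT.lf (nat_lit 0) (nat_lit 2729820240) (nat_lit 532) (nat_lit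 235545446) (nat_lit 608) (nat_lit 4304275330) (nat_lit 96) (nat_lit 5) (nat_lit 103) (nat_lit 5) (nat_lit 104) (nat_lit 5) (nat_lit 269) (nat_lit 260) (nat_lit 251)) (XT.nd (nat_lit 78) (nat_lit 760) (nat_lit 0) (XT.lf (nat_lit 0) (nat_lit 2028336967) (nat_lit 608) (nat_lit 4691533508) (nat_lit 684) (nat_lit 747950383) (nat_lit 88) (nat_lit 5) (nat_lit 96) (nat_lit 5) (nat_lit 97) (nat_lit 5) (nat_lit 270) (nat_lit 260) (nat_lit 250)) (XT.lf (nat_lit 0) (nat_lit 1334812820) (nat_lit 684) (nat_lit 1487759837) (nat_lit 760) (nat_lit 4866257239) (nat_lit 78) (nat_lit 5) (nat_lit 87) (nat_lit 5) (nat_lit 88) (nat_lit 5) (nat_lit 271) (nat_lit 260) (nat_lit 249)))) (XT.nd (nat_lit 78) (nat_lit 456) (nat_lit 0) (XT.lf (nat_lit 0) (nat_lit 634752441) (nat_lit 380) (nat_lit 5895393361) (nat_lit 456) (nat_lit 1403642561) (nat_lit 73) (nat_lit 5) (nat_lit 78) (nat_lit 5) (nat_lit 79) (nat_lit 5)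 (nat_lit 272) (nat_lit 260) (nat_lit 248)) (XT.nd (nat_lit 78) (nat_lit 380) (nat_lit 0) (XT.lf (nat_lit 0) (nat_lit 2149672734) (nat_lit 456) (nat_lit 107251281) (nat_lit 76) (nat_lit 5945845389) (nat_lit 72) (nat_lit 5) (nat_lit 78) (nat_lit 5) (nat_lit 73) (nat_lit 5) (nat_lit 273) (nat_lit 260) (nat_lit 247)) (XT.lf (nat_lit 0) (nat_lit 5855626154) (nat_lit 456) (nat_lit 887142439) (nat_lit 76) (nat_lit 1754094850) (nat_lit 67) (nat_lit 5) (nat_lit 73) (nat_lit 5) (nat_lit 68) (nat_lit 5) (nat_lit 274) (nat_lit 260) (nat_lit 246))))))))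
noncomputable def xc48 : XT := (XT.nd (nat_lit 1560) (nat_lit 912) (nat_lit 0) (XT.nd (nat_lit 780) (nat_lit 1292) (nat_lit 0) (XT.nd (nat_lit 390) (nat_lit 912) (nat_lit 0) (XT.nd (nat_lit 156) (nat_lit 836) (nat_lit 0) (XT.nd (nat_lit 78) (nat_lit 304) (nat_lit 0) (XT.lf (nat_lit 0) (nat_lit 941606602) (nat_lit 380) (nat_lit 1753614829) (nat_lit 76) (nat_lit 6122426059) (nat_lit 62) (nat_lit 5) (nat_lit 67) (nat_lit 5) (nat_lit 63) (nat_lit 5) (nat_lit 275) (nat_lit 260) (nat_lit 245)) (XT.lf (nat_lit 0) (nat_lit 4655612498) (nat_lit 380) (nat_lit 2753197713) (nat_lit 76) (nat_lit 1756773873) (nat_lit 58) (nat_lit 5) (nat_lit 63) (nat_lit 5) (nat_lit 59) (nat_lit 5) (nat_lit 276) (nat_lit 260) (nat_lit 244))) (XT.nd (nat_lit 78) (nat_lit 608) (nat_lit 0) (XT.lf (nat_lit 0) (nat_lit 5651022647) (nat_lit 228) (nat_lit 2983053854) (nat_lit 304) (nat_lit 909382874) (nat_lit 55) (nat_lit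 5) (nat_lit 58) (nat_lit 5) (nat_lit 59) (nat_lit 5) (nat_lit 277) (nat_lit 260) (nat_lit 243)) (XT.nd (nat_lit 78) (nat_lit 228) (nat_lit 0) (XT.lf (nat_lit 0) (nat_lit 2847080641) (nat_lit 380) (nat_lit 5236468204) (nat_lit 76) (nat_lit 1867946033) (nat_lit 50) (nat_lit 5) (nat_lit 55) (nat_lit 5) (nat_lit 51) (nat_lit 5) (nat_lit 278) (nat_lit 260) (nat_lit 242)) (XT.lf (nat_lit 0) (nat_lit 3575875666) (nat_lit 228) (nat_lit 3291843913) (nat_lit 304) (nat_lit 3524316603) (nat_lit 47) (nat_lit 5) (nat_lit 50) (nat_lit 5) (nat_lit 51) (nat_lit 5) (nat_lit 279) (nat_lit 260) (nat_lit 241))))) (XT.nd (nat_lit 156) (nat_lit 456) (nat_lit 0) (XT.nd (nat_lit 78) (nat_lit 152) (nat_lit 0) (XT.lf (nat_lit 0) (nat_lit 316603723) (nat_lit 304) (nat_lit 8647724321) (nat_lit 76) (nat_lit 1904296150) (nat_lit 43) (nat_lit 5) (nat_lit 47) (nat_lit 5) (nat_lit 44) (nat_lit 5) (nat_lit 280) (nat_lit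 260) (nat_lit 240)) (XT.lf (nat_lit 0) (nat_lit 519933656) (nat_lit 152) (nat_lit 3842655153) (nat_lit 228) (nat_lit 7017112130) (nat_lit 41) (nat_lit 5) (nat_lit 43) (nat_lit 5) (nat_lit 44) (nat_lit 5) (nat_lit 281) (nat_lit 260) (nat_lit 239))) (XT.nd (nat_lit 78) (nat_lit 456) (nat_lit 0) (XT.lf (nat_lit 0) (nat_lit 8754897690) (nat_lit 228) (nat_lit 1447186479) (nat_lit 76) (nat_lit 1728737942) (nat_lit 41) (nat_lit 5) (nat_lit 44) (nat_lit 5) (nat_lit 42) (nat_lit 5) (nat_lit 282) (nat_lit 260) (nat_lit 238)) (XT.nd (nat_lit 78) (nat_lit 152) (nat_lit 0) (XT.lf (nat_lit 0) (nat_lit 997896156) (nat_lit 304) (nat_lit 3814167155) (nat_lit 76) (nat_lit 7710643362) (nat_lit 37) (nat_lit 5) (nat_lit 41) (nat_lit 5) (nat_lit 38) (nat_lit 5) (nat_lit 283) (nat_lit 260) (nat_lit 237)) (XT.lf (nat_lit 0) (nat_lit 5400930925) (nat_lit 228) (nat_lit 6658749600) (nat_lit 76) (nat_lit 1099566612)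 (nat_lit 35) (nat_lit 5) (nat_lit 38) (nat_lit 5) (nat_lit 36) (nat_lit 5) (nat_lit 284) (nat_lit 260) (nat_lit 236)))))) (XT.nd (nat_lit 390) (nat_lit 532) (nat_lit 0) (XT.nd (nat_lit 156) (nat_lit 304) (nat_lit 0) (XT.nd (nat_lit 78) (nat_lit 228) (nat_lit 0) (XT.lf (nat_lit 0) (nat_lit 3771279081) (nat_lit 228) (nat_lit 6458804304) (nat_lit 304) (nat_lit 3613153362) (nat_lit 32) (nat_lit 5) (nat_lit 35) (nat_lit 5) (nat_lit 36) (nat_lit 5) (nat_lit 285) (nat_lit 260) (nat_lit 235)) (XT.lf (nat_lit 0) (nat_lit 501926728) (nat_lit 152) (nat_lit 330743397) (nat_lit 228) (nat_lit 13748960474) (nat_lit 29) (nat_lit 5) (nat_lit 31) (nat_lit 5) (nat_lit 32) (nat_lit 5) (nat_lit 286) (nat_lit 260) (nat_lit 234))) (XT.nd (nat_lit 78) (nat_lit 304) (nat_lit 0) (XT.lf (nat_lit 0) (nat_lit 5662326530) (nat_lit 228) (nat_lit 3443761492) (nat_lit 76) (nat_lit 6262487972) (nat_lit 29) (nat_lit 5)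 (nat_lit 32) (nat_lit 5) (nat_lit 30) (nat_lit 5) (nat_lit 287) (nat_lit 260) (nat_lit 233)) (XT.nd (nat_lit 78) (nat_lit 152) (nat_lit 0) (XT.lf (nat_lit 0) (nat_lit 8118757027) (nat_lit 152) (nat_lit 2777647026) (nat_lit 228) (nat_lit 5321336601) (nat_lit 27) (nat_lit 5) (nat_lit 29) (nat_lit 5) (nat_lit 30) (nat_lit 5) (nat_lit 288) (nat_lit 260) (nat_lit 232)) (XT.lf (nat_lit 0) (nat_lit 3468690018) (nat_lit 152) (nat_lit 13149528180) (nat_lit 228) (nat_lit 513323532) (nat_lit 25) (nat_lit 5) (nat_lit 27) (nat_lit 5) (nat_lit 28) (nat_lit 4) (nat_lit 289) (nat_lit 260) (nat_lit 231))))) (XT.nd (nat_lit 156) (nat_lit 304) (nat_lit 0) (XT.nd (nat_lit 78) (nat_lit 152) (nat_lit 0) (XT.lf (nat_lit 0) (nat_lit 4613977634) (nat_lit 228) (nat_lit 2154038197) (nat_lit 76) (nat_lit 11342693040) (nat_lit 24) (nat_lit 5) (nat_lit 27) (nat_lit 5) (nat_lit 25) (nat_lit 5) (nat_lit 290) (nat_lit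 260) (nat_lit 230)) (XT.lf (nat_lit 0) (nat_lit 10202579868) (nat_lit 228) (nat_lit 8726137486) (nat_lit 76) (nat_lit 235741756) (nat_lit 22) (nat_lit 5) (nat_lit 25) (nat_lit 5) (nat_lit 23) (nat_lit 4) (nat_lit 291) (nat_lit 260) (nat_lit 229))) (XT.nd (nat_lit 78) (nat_lit 228) (nat_lit 0) (XT.lf (nat_lit 0) (nat_lit 3661113895) (nat_lit 76) (nat_lit 12692569387) (nat_lit 152) (nat_lit 3943171688) (nat_lit 21) (nat_lit 5) (nat_lit 22) (nat_lit 5) (nat_lit 23) (nat_lit 4) (nat_lit 292) (nat_lit 260) (nat_lit 228)) (XT.nd (nat_lit 78) (nat_lit 152) (nat_lit 0) (XT.lf (nat_lit 0) (nat_lit 1493317414) (nat_lit 152) (nat_lit 4338870595) (nat_lit 76) (nat_lit 15683426011) (nat_lit 20) (nat_lit 5) (nat_lit 22) (nat_lit 5) (nat_lit 21) (nat_lit 5) (nat_lit 293) (nat_lit 260) (nat_lit 227)) (XT.lf (nat_lit 0) (nat_lit 7312239708) (nat_lit 228) (nat_lit 13829653521) (nat_lit 76) (nat_lit 1682560198)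 (nat_lit 18) (nat_lit 5) (nat_lit 21) (nat_lit 5) (nat_lit 19) (nat_lit 4) (nat_lit 294) (nat_lit 260) (nat_lit 226))))))) (XT.nd (nat_lit 780) (nat_lit 304) (nat_lit 0) (XT.nd (nat_lit 390) (nat_lit 228) (nat_lit 0) (XT.nd (nat_lit 156) (nat_lit 304) (nat_lit 0) (XT.nd (nat_lit 78) (nat_lit 76) (nat_lit 0) (XT.lf (nat_lit 0) (nat_lit 13690918748) (nat_lit 228) (nat_lit 921586346) (nat_lit 76) (nat_lit 9620870632) (nat_lit 18) (nat_lit 5) (nat_lit 21) (nat_lit 5) (nat_lit 19) (nat_lit 4) (nat_lit 295) (nat_lit 260) (nat_lit 225)) (XT.lf (nat_lit 0) (nat_lit 13317701057) (nat_lit 76) (nat_lit 7395193867) (nat_lit 152) (nat_lit 5035548124) (nat_lit 17) (nat_lit 5) (nat_lit 18) (nat_lit 5) (nat_lit 19) (nat_lit 4) (nat_lit 296) (nat_lit 260) (nat_lit 224))) (XT.nd (nat_lit 78) (nat_lit 76) (nat_lit 0) (XT.lf (nat_lit 0) (nat_lit 852217233) (nat_lit 228) (nat_lit 26146249184) (nat_lit 76)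 (nat_lit 387134689) (nat_lit 14) (nat_lit 5) (nat_lit 17) (nat_lit 5) (nat_lit 15) (nat_lit 4) (nat_lit 297) (nat_lit 260) (nat_lit 223)) (XT.nd (nat_lit 78) (nat_lit 76) (nat_lit 0) (XT.lf (nat_lit 0) (nat_lit 7311928905) (nat_lit 228) (nat_lit 13031023416) (nat_lit 76) (nat_lit 8792851128) (nat_lit 14) (nat_lit 5) (nat_lit 17) (nat_lit 5) (nat_lit 15) (nat_lit 4) (nat_lit 298) (nat_lit 260) (nat_lit 222)) (XT.lf (nat_lit 0) (nat_lit 1054279936) (nat_lit 76) (nat_lit 13185973620) (nat_lit 152) (nat_lit 16788238145) (nat_lit 13) (nat_lit 5) (nat_lit 14) (nat_lit 5) (nat_lit 15) (nat_lit 4) (nat_lit 299) (nat_lit 260) (nat_lit 221))))) (XT.nd (nat_lit 156) (nat_lit 228) (nat_lit 0) (XT.nd (nat_lit 78) (nat_lit 0) (nat_lit 0) (XT.lf (nat_lit 0) (nat_lit 16623762982) (nat_lit 76) (nat_lit 5264550137) (nat_lit 152) (nat_lit 11176065415) (nat_lit 13) (nat_lit 5) (nat_lit 14) (nat_lit 5) (nat_lit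 15) (nat_lit 4) (nat_lit 300) (nat_lit 260) (nat_lit 220)) (XT.lf (nat_lit 0) (nat_lit 30141955351) (nat_lit 152) (nat_lit 1977916230) (nat_lit 0) (nat_lit 3143630585) (nat_lit 13) (nat_lit 5) (nat_lit 15) (nat_lit 4) (nat_lit 13) (nat_lit 4) (nat_lit 301) (nat_lit 260) (nat_lit 219))) (XT.nd (nat_lit 78) (nat_lit 76) (nat_lit 0) (XT.lf (nat_lit 0) (nat_lit 1628534179) (nat_lit 152) (nat_lit 23748861524) (nat_lit 76) (nat_lit 12247271852) (nat_lit 11) (nat_lit 5) (nat_lit 13) (nat_lit 5) (nat_lit 12) (nat_lit 4) (nat_lit 302) (nat_lit 260) (nat_lit 218)) (XT.nd (nat_lit 78) (nat_lit 76) (nat_lit 0) (XT.lf (nat_lit 0) (nat_lit 8724900152) (nat_lit 152) (nat_lit 9283748156) (nat_lit 76) (nat_lit 22162637319) (nat_lit 11) (nat_lit 5) (nat_lit 13) (nat_lit 5) (nat_lit 12) (nat_lit 4) (nat_lit 303) (nat_lit 260) (nat_lit 217)) (XT.lf (nat_lit 0) (nat_lit 6459888411) (nat_lit 76) (nat_lit 9982068818)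 (nat_lit 152) (nat_lit 26477066704) (nat_lit 10) (nat_lit 5) (nat_lit 11) (nat_lit 5) (nat_lit 12) (nat_lit 4) (nat_lit 304) (nat_lit 260) (nat_lit 216)))))) (XT.nd (nat_lit 390) (nat_lit 152) (nat_lit 0) (XT.nd (nat_lit 156) (nat_lit 152) (nat_lit 0) (XT.nd (nat_lit 78) (nat_lit 0) (nat_lit 0) (XT.lf (nat_lit 0) (nat_lit 23712806148) (nat_lit 76) (nat_lit 1179684775) (nat_lit 152) (nat_lit 20988321702) (nat_lit 10) (nat_lit 5) (nat_lit 11) (nat_lit 5) (nat_lit 12) (nat_lit 4) (nat_lit 305) (nat_lit 260) (nat_lit 215)) (XT.lf (nat_lit 0) (nat_lit 34106324457) (nat_lit 152) (nat_lit 6940891874) (nat_lit 0) (nat_lit 8027999414) (nat_lit 10) (nat_lit 5) (nat_lit 12) (nat_lit 4) (nat_lit 10) (nat_lit 4) (nat_lit 306) (nat_lit 260) (nat_lit 214))) (XT.nd (nat_lit 78) (nat_lit 76) (nat_lit 0) (XT.lf (nat_lit 0) (nat_lit 9724161299) (nat_lit 76) (nat_lit 34465234069) (nat_lit 76) (nat_lit 8329200869)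 (nat_lit 9) (nat_lit 4) (nat_lit 10) (nat_lit 5) (nat_lit 10) (nat_lit 4) (nat_lit 307) (nat_lit 260) (nat_lit 213)) (XT.nd (nat_lit 78) (nat_lit 76) (nat_lit 0) (XT.lf (nat_lit 0) (nat_lit 27901813357) (nat_lit 76) (nat_lit 27260485235) (nat_lit 76) (nat_lit 1071018556) (nat_lit 9) (nat_lit 4) (nat_lit 10) (nat_lit 5) (nat_lit 10) (nat_lit 4) (nat_lit 308) (nat_lit 260) (nat_lit 212)) (XT.lf (nat_lit 0) (nat_lit 6515681869) (nat_lit 152) (nat_lit 12881794290) (nat_lit 76) (nat_lit 40844258392) (nat_lit 8) (nat_lit 5) (nat_lit 10) (nat_lit 5) (nat_lit 9) (nat_lit 4) (nat_lit 309) (nat_lit 260) (nat_lit 211))))) (XT.nd (nat_lit 156) (nat_lit 76) (nat_lit 0) (XT.nd (nat_lit 78) (nat_lit 0) (nat_lit 0) (XT.lf (nat_lit 0) (nat_lit 3849224911) (nat_lit 76) (nat_lit 10850276371) (nat_lit 152) (nat_lit 49869084802) (nat_lit 7) (nat_lit 5) (nat_lit 8) (nat_lit 5) (nat_lit 9) (nat_lit 4) (nat_lit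 310) (nat_lit 260) (nat_lit 210)) (XT.lf (nat_lit 0) (nat_lit 22321522538) (nat_lit 76) (nat_lit 1409546961) (nat_lit 152) (nat_lit 45500886240) (nat_lit 7) (nat_lit 5) (nat_lit 8) (nat_lit 5) (nat_lit 9) (nat_lit 4) (nat_lit 311) (nat_lit 260) (nat_lit 209))) (XT.nd (nat_lit 78) (nat_lit 76) (nat_lit 0) (XT.lf (nat_lit 0) (nat_lit 33592943195) (nat_lit 152) (nat_lit 32188040226) (nat_lit 0) (nat_lit 8482043063) (nat_lit 7) (nat_lit 5) (nat_lit 9) (nat_lit 4) (nat_lit 7) (nat_lit 4) (nat_lit 312) (nat_lit 260) (nat_lit 208)) (XT.nd (nat_lit 78) (nat_lit 76) (nat_lit 0) (XT.lf (nat_lit 0) (nat_lit 44240311227) (nat_lit 152) (nat_lit 16361686562) (nat_lit 0) (nat_lit 19094776877) (nat_lit 7) (nat_lit 5) (nat_lit 9) (nat_lit 4) (nat_lit 7) (nat_lit 4) (nat_lit 313) (nat_lit 260) (nat_lit 207)) (XT.lf (nat_lit 0) (nat_lit 707050604) (nat_lit 76) (nat_lit 55018250568) (nat_lit 76) (nat_lit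 29840647499) (nat_lit 6) (nat_lit 4) (nat_lit 7) (nat_lit 5) (nat_lit 7) (nat_lit 4) (nat_lit 314) (nat_lit 260) (nat_lit 206))))))))
noncomputable def xc49 : XT := (XT.nd (nat_lit 1560) (nat_lit 0) (nat_lit 0) (XT.nd (nat_lit 780) (nat_lit 76) (nat_lit 0) (XT.nd (nat_lit 390) (nat_lit 76) (nat_lit 0) (XT.nd (nat_lit 156) (nat_lit 76) (nat_lit 0) (XT.nd (nat_lit 78) (nat_lit 0) (nat_lit 0) (XT.lf (nat_lit 0) (nat_lit 19681216990) (nat_lit 76) (nat_lit 48708851653) (nat_lit 76) (nat_lit 23501555325) (nat_lit 6) (nat_lit 4) (nat_lit 7) (nat_lit 5) (nat_lit 7) (nat_lit 4) (nat_lit 315) (nat_lit 260) (nat_lit 205)) (XT.lf (nat_lit 0) (nat_lit 40132260853) (nat_lit 76) (nat_lit 41913505092) (nat_lit 76) (nat_lit 16678715006) (nat_lit 6) (nat_lit 4) (nat_lit 7) (nat_lit 5) (nat_lit 7) (nat_lit 4) (nat_lit 316) (nat_lit 260) (nat_lit 204))) (XT.nd (nat_lit 78) (nat_lit 76) (nat_lit 0) (XT.lf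 (nat_lit 0) (nat_lit 62181373562) (nat_lit 76) (nat_lit 34591942165) (nat_lit 76) (nat_lit 9331694895) (nat_lit 6) (nat_lit 4) (nat_lit 7) (nat_lit 5) (nat_lit 7) (nat_lit 4) (nat_lit 317) (nat_lit 260) (nat_lit 203)) (XT.nd (nat_lit 78) (nat_lit 76) (nat_lit 0) (XT.lf (nat_lit 0) (nat_lit 85959216526) (nat_lit 76) (nat_lit 26700775832) (nat_lit 76) (nat_lit 1416957096) (nat_lit 6) (nat_lit 4) (nat_lit 7) (nat_lit 5) (nat_lit 7) (nat_lit 4) (nat_lit 318) (nat_lit 260) (nat_lit 202)) (XT.lf (nat_lit 0) (nat_lit 6884759305) (nat_lit 152) (nat_lit 11191887590) (nat_lit 76) (nat_lit 104605339446) (nat_lit 5) (nat_lit 5) (nat_lit 7) (nat_lit 5) (nat_lit 6) (nat_lit 4) (nat_lit 319) (nat_lit 260) (nat_lit 201))))) (XT.nd (nat_lit 156) (nat_lit 0) (nat_lit 0) (XT.nd (nat_lit 78) (nat_lit 0) (nat_lit 0) (XT.lf (nat_lit 0) (nat_lit 7265950862) (nat_lit 76) (nat_lit 8632489997) (nat_lit 152) (nat_lit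 116070960882) (nat_lit 4) (nat_lit 5) (nat_lit 5) (nat_lit 5) (nat_lit 6) (nat_lit 4) (nat_lit 320) (nat_lit 260) (nat_lit 200)) (XT.lf (nat_lit 0) (nat_lit 25839764068) (nat_lit 152) (nat_lit 114447645314) (nat_lit 0) (nat_lit 1702083410) (nat_lit 4) (nat_lit 5) (nat_lit 6) (nat_lit 4) (nat_lit 4) (nat_lit 4) (nat_lit 321) (nat_lit 260) (nat_lit 199))) (XT.nd (nat_lit 78) (nat_lit 0) (nat_lit 0) (XT.lf (nat_lit 0) (nat_lit 36707070554) (nat_lit 152) (nat_lit 103544706553) (nat_lit 0) (nat_lit 12552889200) (nat_lit 4) (nat_lit 5) (nat_lit 6) (nat_lit 4) (nat_lit 4) (nat_lit 4) (nat_lit 322) (nat_lit 260) (nat_lit 198)) (XT.nd (nat_lit 78) (nat_lit 0) (nat_lit 0) (XT.lf (nat_lit 0) (nat_lit 48429981811) (nat_lit 152) (nat_lit 91795247228) (nat_lit 0) (nat_lit 24260522035) (nat_lit 4) (nat_lit 5) (nat_lit 6) (nat_lit 4) (nat_lit 4) (nat_lit 4) (nat_lit 323) (nat_lit 260) (nat_lit 197))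 (XT.lf (nat_lit 0) (nat_lit 61077966943) (nat_lit 152) (nat_lit 79129640913) (nat_lit 0) (nat_lit 36894360478) (nat_lit 4) (nat_lit 5) (nat_lit 6) (nat_lit 4) (nat_lit 4) (nat_lit 4) (nat_lit 324) (nat_lit 260) (nat_lit 196)))))) (XT.nd (nat_lit 390) (nat_lit 0) (nat_lit 0) (XT.nd (nat_lit 156) (nat_lit 76) (nat_lit 0) (XT.nd (nat_lit 78) (nat_lit 0) (nat_lit 0) (XT.lf (nat_lit 0) (nat_lit 74725976971) (nat_lit 152) (nat_lit 65472832162) (nat_lit 0) (nat_lit 50529271722) (nat_lit 4) (nat_lit 5) (nat_lit 6) (nat_lit 4) (nat_lit 4) (nat_lit 4) (nat_lit 325) (nat_lit 260) (nat_lit 195)) (XT.lf (nat_lit 0) (nat_lit 89454888993) (nat_lit 152) (nat_lit 50743891739) (nat_lit 0) (nat_lit 65246055239) (nat_lit 4) (nat_lit 5) (nat_lit 6) (nat_lit 4) (nat_lit 4) (nat_lit 4) (nat_lit 326) (nat_lit 260) (nat_lit 194))) (XT.nd (nat_lit 78) (nat_lit 76) (nat_lit 0) (XT.lf (nat_lit 0) (nat_lit 105351985450)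 (nat_lit 152) (nat_lit 34855537034) (nat_lit 0) (nat_lit 81131921600) (nat_lit 4) (nat_lit 5) (nat_lit 6) (nat_lit 4) (nat_lit 4) (nat_lit 4) (nat_lit 327) (nat_lit 260) (nat_lit 193)) (XT.nd (nat_lit 78) (nat_lit 76) (nat_lit 0) (XT.lf (nat_lit 0) (nat_lit 122511471359) (nat_lit 152) (nat_lit 17713614834) (nat_lit 0) (nat_lit 98281009271) (nat_lit 4) (nat_lit 5) (nat_lit 6) (nat_lit 4) (nat_lit 4) (nat_lit 4) (nat_lit 328) (nat_lit 260) (nat_lit 192)) (XT.lf (nat_lit 0) (nat_lit 809361236) (nat_lit 76) (nat_lit 140238307722) (nat_lit 76) (nat_lit 115998217636) (nat_lit 3) (nat_lit 4) (nat_lit 4) (nat_lit 5) (nat_lit 4) (nat_lit 4) (nat_lit 329) (nat_lit 260) (nat_lit 191))))) (XT.nd (nat_lit 156) (nat_lit 0) (nat_lit 0) (XT.nd (nat_lit 78) (nat_lit 0) (nat_lit 0) (XT.lf (nat_lit 0) (nat_lit 21431222573) (nat_lit 76) (nat_lit 139935817181) (nat_lit 76) (nat_lit 115686812282) (nat_lit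 3) (nat_lit 4) (nat_lit 4) (nat_lit 5) (nat_lit 4) (nat_lit 4) (nat_lit 330) (nat_lit 260) (nat_lit 190)) (XT.lf (nat_lit 0) (nat_lit 43688480695) (nat_lit 76) (nat_lit 139615810672) (nat_lit 76) (nat_lit 115358551316) (nat_lit 3) (nat_lit 4) (nat_lit 4) (nat_lit 5) (nat_lit 4) (nat_lit 4) (nat_lit 331) (nat_lit 260) (nat_lit 189))) (XT.nd (nat_lit 78) (nat_lit 0) (nat_lit 0) (XT.lf (nat_lit 0) (nat_lit 67713030467) (nat_lit 76) (nat_lit 139276391859) (nat_lit 76) (nat_lit 115011489489) (nat_lit 3) (nat_lit 4) (nat_lit 4) (nat_lit 5) (nat_lit 4) (nat_lit 4) (nat_lit 332) (nat_lit 260) (nat_lit 188)) (XT.nd (nat_lit 78) (nat_lit 0) (nat_lit 0) (XT.lf (nat_lit 0) (nat_lit 93647239589) (nat_lit 76) (nat_lit 138915549373) (nat_lit 76) (nat_lit 114643570137) (nat_lit 3) (nat_lit 4) (nat_lit 4) (nat_lit 5) (nat_lit 4) (nat_lit 4) (nat_lit 333) (nat_lit 260) (nat_lit 187)) (XT.lf (nat_lit 0)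 (nat_lit 121644792264) (nat_lit 76) (nat_lit 138531144888) (nat_lit 76) (nat_lit 114252612998) (nat_lit 3) (nat_lit 4) (nat_lit 4) (nat_lit 5) (nat_lit 4) (nat_lit 4) (nat_lit 334) (nat_lit 260) (nat_lit 186))))))) (XT.nd (nat_lit 780) (nat_lit 0) (nat_lit 0) (XT.nd (nat_lit 390) (nat_lit 0) (nat_lit 0) (XT.nd (nat_lit 156) (nat_lit 0) (nat_lit 0) (XT.nd (nat_lit 78) (nat_lit 0) (nat_lit 0) (XT.lf (nat_lit 0) (nat_lit 151871599916) (nat_lit 76) (nat_lit 138120900450) (nat_lit 76) (nat_lit 113836301288) (nat_lit 3) (nat_lit 4) (nat_lit 4) (nat_lit 5) (nat_lit 4) (nat_lit 4) (nat_lit 335) (nat_lit 260) (nat_lit 185)) (XT.lf (nat_lit 0) (nat_lit 184506784367) (nat_lit 76) (nat_lit 137682384982) (nat_lit 76) (nat_lit 113392167975) (nat_lit 3) (nat_lit 4) (nat_lit 4) (nat_lit 5) (nat_lit 4) (nat_lit 4) (nat_lit 336) (nat_lit 260) (nat_lit 184))) (XT.nd (nat_lit 78) (nat_lit 0) (nat_lit 0)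 (XT.lf (nat_lit 0) (nat_lit 219743739304) (nat_lit 76) (nat_lit 137212999873) (nat_lit 76) (nat_lit 112917581159) (nat_lit 3) (nat_lit 4) (nat_lit 4) (nat_lit 5) (nat_lit 4) (nat_lit 4) (nat_lit 337) (nat_lit 260) (nat_lit 183)) (XT.nd (nat_lit 78) (nat_lit 0) (nat_lit 0) (XT.lf (nat_lit 0) (nat_lit 257791276310) (nat_lit 76) (nat_lit 136709963582) (nat_lit 76) (nat_lit 112409728472) (nat_lit 3) (nat_lit 4) (nat_lit 4) (nat_lit 5) (nat_lit 4) (nat_lit 4) (nat_lit 338) (nat_lit 260) (nat_lit 182)) (XT.lf (nat_lit 0) (nat_lit 298874862272) (nat_lit 76) (nat_lit 136170295154) (nat_lit 76) (nat_lit 111865600418) (nat_lit 3) (nat_lit 4) (nat_lit 4) (nat_lit 5) (nat_lit 4) (nat_lit 4) (nat_lit 339) (nat_lit 260) (nat_lit 181))))) (XT.nd (nat_lit 156) (nat_lit 0) (nat_lit 0) (XT.nd (nat_lit 78) (nat_lit 0) (nat_lit 0) (XT.lf (nat_lit 0) (nat_lit 343237955478) (nat_lit 76) (nat_lit 135590796553)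 (nat_lit 76) (nat_lit 111281972534) (nat_lit 3) (nat_lit 4) (nat_lit 4) (nat_lit 5) (nat_lit 4) (nat_lit 4) (nat_lit 340) (nat_lit 260) (nat_lit 180)) (XT.lf (nat_lit 0) (nat_lit 391143448331) (nat_lit 76) (nat_lit 134968033714) (nat_lit 76) (nat_lit 110655386284) (nat_lit 3) (nat_lit 4) (nat_lit 4) (nat_lit 5) (nat_lit 4) (nat_lit 4) (nat_lit 341) (nat_lit 260) (nat_lit 179))) (XT.nd (nat_lit 78) (nat_lit 0) (nat_lit 0) (XT.lf (nat_lit 0) (nat_lit 442875225233) (nat_lit 76) (nat_lit 134298316189) (nat_lit 76) (nat_lit 109982128565) (nat_lit 3) (nat_lit 4) (nat_lit 4) (nat_lit 5) (nat_lit 4) (nat_lit 4) (nat_lit 342) (nat_lit 260) (nat_lit 178)) (XT.nd (nat_lit 78) (nat_lit 0) (nat_lit 0) (XT.lf (nat_lit 0) (nat_lit 498739844863) (nat_lit 76) (nat_lit 133577675283) (nat_lit 76) (nat_lit 109258209701) (nat_lit 3) (nat_lit 4) (nat_lit 4) (nat_lit 5) (nat_lit 4) (nat_lit 4) (nat_lit 343)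 (nat_lit 260) (nat_lit 177)) (XT.lf (nat_lit 0) (nat_lit 559068356818) (nat_lit 76) (nat_lit 132801840531) (nat_lit 76) (nat_lit 108479339802) (nat_lit 3) (nat_lit 4) (nat_lit 4) (nat_lit 5) (nat_lit 4) (nat_lit 4) (nat_lit 344) (nat_lit 260) (nat_lit 176)))))) (XT.nd (nat_lit 34320) (nat_lit 0) (nat_lit 7600) (XT.nd (nat_lit 34086) (nat_lit 0) (nat_lit 9120) (XT.nd (nat_lit 78) (nat_lit 0) (nat_lit 0) (XT.lf (nat_lit 0) (nat_lit 624218263391) (nat_lit 76) (nat_lit 131966214394) (nat_lit 76) (nat_lit 107640903344) (nat_lit 3) (nat_lit 4) (nat_lit 4) (nat_lit 5) (nat_lit 4) (nat_lit 4) (nat_lit 345) (nat_lit 260) (nat_lit 175)) (XT.lf (nat_lit 0) (nat_lit 694575638103) (nat_lit 76) (nat_lit 131065845012) (nat_lit 76) (nat_lit 106737931814) (nat_lit 3) (nat_lit 4) (nat_lit 4) (nat_lit 5) (nat_lit 4) (nat_lit 4) (nat_lit 346) (nat_lit 260) (nat_lit 174))) (XT.nd (nat_lit 78) (nat_lit 228)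 (nat_lit 0) (XT.lf (nat_lit 0) (nat_lit 1147184146) (nat_lit 228) (nat_lit 1044112253) (nat_lit 228) (nat_lit 1044112253) (nat_lit 126) (nat_lit 3) (nat_lit 129) (nat_lit 3) (nat_lit 129) (nat_lit 5) (nat_lit 261) (nat_lit 261) (nat_lit 258)) (XT.nd (nat_lit 78) (nat_lit 228) (nat_lit 0) (XT.lf (nat_lit 76) (nat_lit 2663984012) (nat_lit 0) (nat_lit 3729814520) (nat_lit 228) (nat_lit 117466617) (nat_lit 127) (nat_lit 5) (nat_lit 126) (nat_lit 3) (nat_lit 129) (nat_lit 5) (nat_lit 262) (nat_lit 261) (nat_lit 257)) (XT.lf (nat_lit 76) (nat_lit 1052947617) (nat_lit 0) (nat_lit 2721676705) (nat_lit 304) (nat_lit 2796462607) (nat_lit 124) (nat_lit 5) (nat_lit 123) (nat_lit 5) (nat_lit 127) (nat_lit 5) (nat_lit 263) (nat_lit 261) (nat_lit 256))))) (XT.nd (nat_lit 156) (nat_lit 1216) (nat_lit 0) (XT.nd (nat_lit 78) (nat_lit 0) (nat_lit 76) (XT.lf (nat_lit 0) (nat_lit 974204692) (nat_lit 304)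 (nat_lit 409400922) (nat_lit 380) (nat_lit 5268526791) (nat_lit 119) (nat_lit 5) (nat_lit 123) (nat_lit 5) (nat_lit 124) (nat_lit 5) (nat_lit 264) (nat_lit 261) (nat_lit 255)) (XT.lf (nat_lit 0) (nat_lit 4672586934) (nat_lit 304) (nat_lit 1755298782) (nat_lit 76) (nat_lit 324682391) (nat_lit 120) (nat_lit 5) (nat_lit 124) (nat_lit 5) (nat_lit 121) (nat_lit 5) (nat_lit 265) (nat_lit 261) (nat_lit 254))) (XT.nd (nat_lit 78) (nat_lit 912) (nat_lit 0) (XT.lf (nat_lit 0) (nat_lit 1498454088) (nat_lit 380) (nat_lit 3037068688) (nat_lit 76) (nat_lit 2337818785) (nat_lit 115) (nat_lit 5) (nat_lit 120) (nat_lit 5) (nat_lit 116) (nat_lit 5) (nat_lit 266) (nat_lit 261) (nat_lit 253)) (XT.nd (nat_lit 78) (nat_lit 532) (nat_lit 0) (XT.lf (nat_lit 0) (nat_lit 2757601676) (nat_lit 380) (nat_lit 2287738132) (nat_lit 456) (nat_lit 1970123363) (nat_lit 110) (nat_lit 5) (nat_lit 115) (nat_lit 5) (nat_lit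 116) (nat_lit 5) (nat_lit 267) (nat_lit 261) (nat_lit 252)) (XT.lf (nat_lit 0) (nat_lit 1432927366) (nat_lit 532) (nat_lit 5430108360) (nat_lit 76) (nat_lit 316567623) (nat_lit 103) (nat_lit 5) (nat_lit 110) (nat_lit 5) (nat_lit 104) (nat_lit 5) (nat_lit 268) (nat_lit 261) (nat_lit 251))))))))
noncomputable def xc50 : XT := (XT.nd (nat_lit 1560) (nat_lit 1520) (nat_lit 0) (XT.nd (nat_lit 780) (nat_lit 1596) (nat_lit 0) (XT.nd (nat_lit 390) (nat_lit 1672) (nat_lit 0) (XT.nd (nat_lit 156) (nat_lit 1748) (nat_lit 0) (XT.nd (nat_lit 78) (nat_lit 76) (nat_lit 0) (XT.lf (nat_lit 0) (nat_lit 749310772) (nat_lit 532) (nat_lit 4130933512) (nat_lit 608) (nat_lit 2483897072) (nat_lit 96) (nat_lit 5) (nat_lit 103) (nat_lit 5) (nat_lit 104) (nat_lit 5) (nat_lit 269) (nat_lit 261) (nat_lit 250)) (XT.lf (nat_lit 0) (nat_lit 829591261) (nat_lit 608) (nat_lit 197003014) (nat_lit 76) (nat_lit 6545711227)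 (nat_lit 95) (nat_lit 5) (nat_lit 103) (nat_lit 5) (nat_lit 96) (nat_lit 5) (nat_lit 270) (nat_lit 261) (nat_lit 249))) (XT.nd (nat_lit 78) (nat_lit 1140) (nat_lit 0) (XT.lf (nat_lit 0) (nat_lit 4212989223) (nat_lit 684) (nat_lit 1155974183) (nat_lit 76) (nat_lit 2432293101) (nat_lit 87) (nat_lit 5) (nat_lit 96) (nat_lit 5) (nat_lit 88) (nat_lit 5) (nat_lit 271) (nat_lit 261) (nat_lit 248)) (XT.nd (nat_lit 78) (nat_lit 456) (nat_lit 0) (XT.lf (nat_lit 0) (nat_lit 5943134971) (nat_lit 684) (nat_lit 1800452356) (nat_lit 760) (nat_lit 311815795) (nat_lit 78) (nat_lit 5) (nat_lit 87) (nat_lit 5) (nat_lit 88) (nat_lit 5) (nat_lit 272) (nat_lit 261) (nat_lit 247)) (XT.lf (nat_lit 0) (nat_lit 3032916545) (nat_lit 456) (nat_lit 3151813916) (nat_lit 76) (nat_lit 2147782555) (nat_lit 72) (nat_lit 5) (nat_lit 78) (nat_lit 5) (nat_lit 73) (nat_lit 5) (nat_lit 273) (nat_lit 261) (nat_lit 246)))))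 (XT.nd (nat_lit 156) (nat_lit 912) (nat_lit 0) (XT.nd (nat_lit 78) (nat_lit 380) (nat_lit 0) (XT.lf (nat_lit 0) (nat_lit 4383234401) (nat_lit 380) (nat_lit 2173820018) (nat_lit 456) (nat_lit 2078920535) (nat_lit 67) (nat_lit 5) (nat_lit 72) (nat_lit 5) (nat_lit 73) (nat_lit 5) (nat_lit 274) (nat_lit 261) (nat_lit 245)) (XT.lf (nat_lit 0) (nat_lit 1296433599) (nat_lit 380) (nat_lit 5461136306) (nat_lit 76) (nat_lit 2208469110) (nat_lit 62) (nat_lit 5) (nat_lit 67) (nat_lit 5) (nat_lit 63) (nat_lit 5) (nat_lit 275) (nat_lit 261) (nat_lit 244))) (XT.nd (nat_lit 78) (nat_lit 608) (nat_lit 0) (XT.lf (nat_lit 0) (nat_lit 2502155465) (nat_lit 304) (nat_lit 2325491326) (nat_lit 380) (nat_lit 4495694729) (nat_lit 58) (nat_lit 5) (nat_lit 62) (nat_lit 5) (nat_lit 63) (nat_lit 5) (nat_lit 276) (nat_lit 261) (nat_lit 243)) (XT.nd (nat_lit 78) (nat_lit 380) (nat_lit 0) (XT.lf (nat_lit 0) (nat_lit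 1376420832) (nat_lit 228) (nat_lit 7238776921) (nat_lit 304) (nat_lit 1095774220) (nat_lit 55) (nat_lit 5) (nat_lit 58) (nat_lit 5) (nat_lit 59) (nat_lit 5) (nat_lit 277) (nat_lit 261) (nat_lit 242)) (XT.lf (nat_lit 0) (nat_lit 52748322) (nat_lit 304) (nat_lit 2426002809) (nat_lit 380) (nat_lit 7649981798) (nat_lit 50) (nat_lit 5) (nat_lit 54) (nat_lit 5) (nat_lit 55) (nat_lit 5) (nat_lit 278) (nat_lit 261) (nat_lit 241)))))) (XT.nd (nat_lit 390) (nat_lit 684) (nat_lit 0) (XT.nd (nat_lit 156) (nat_lit 684) (nat_lit 0) (XT.nd (nat_lit 78) (nat_lit 228) (nat_lit 0) (XT.lf (nat_lit 0) (nat_lit 6325577221) (nat_lit 380) (nat_lit 1443994359) (nat_lit 76) (nat_lit 2808564366) (nat_lit 50) (nat_lit 5) (nat_lit 55) (nat_lit 5) (nat_lit 51) (nat_lit 5) (nat_lit 279) (nat_lit 261) (nat_lit 240)) (XT.lf (nat_lit 0) (nat_lit 7890315087) (nat_lit 228) (nat_lit 2599651498) (nat_lit 304) (nat_lit 573363228)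 (nat_lit 47) (nat_lit 5) (nat_lit 50) (nat_lit 5) (nat_lit 51) (nat_lit 5) (nat_lit 280) (nat_lit 261) (nat_lit 239))) (XT.nd (nat_lit 78) (nat_lit 380) (nat_lit 0) (XT.lf (nat_lit 0) (nat_lit 3316938816) (nat_lit 304) (nat_lit 5243362976) (nat_lit 76) (nat_lit 3023393749) (nat_lit 43) (nat_lit 5) (nat_lit 47) (nat_lit 5) (nat_lit 44) (nat_lit 5) (nat_lit 281) (nat_lit 261) (nat_lit 238)) (XT.nd (nat_lit 78) (nat_lit 228) (nat_lit 0) (XT.lf (nat_lit 0) (nat_lit 4479692678) (nat_lit 152) (nat_lit 3047712683) (nat_lit 228) (nat_lit 4616632803) (nat_lit 41) (nat_lit 5) (nat_lit 43) (nat_lit 5) (nat_lit 44) (nat_lit 5) (nat_lit 282) (nat_lit 261) (nat_lit 237)) (XT.lf (nat_lit 0) (nat_lit 2256475015) (nat_lit 228) (nat_lit 9857211330) (nat_lit 304) (nat_lit 633822084) (nat_lit 38) (nat_lit 5) (nat_lit 41) (nat_lit 5) (nat_lit 42) (nat_lit 5) (nat_lit 283) (nat_lit 261) (nat_lit 236))))) (XT.nd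 (nat_lit 156) (nat_lit 456) (nat_lit 0) (XT.nd (nat_lit 78) (nat_lit 152) (nat_lit 0) (XT.lf (nat_lit 0) (nat_lit 3607638501) (nat_lit 304) (nat_lit 446999169) (nat_lit 76) (nat_lit 9339104635) (nat_lit 37) (nat_lit 5) (nat_lit 41) (nat_lit 5) (nat_lit 38) (nat_lit 5) (nat_lit 284) (nat_lit 261) (nat_lit 235)) (XT.lf (nat_lit 0) (nat_lit 8247772283) (nat_lit 228) (nat_lit 3572320174) (nat_lit 76) (nat_lit 2267188173) (nat_lit 35) (nat_lit 5) (nat_lit 38) (nat_lit 5) (nat_lit 36) (nat_lit 5) (nat_lit 285) (nat_lit 261) (nat_lit 234))) (XT.nd (nat_lit 78) (nat_lit 228) (nat_lit 0) (XT.lf (nat_lit 0) (nat_lit 7534827849) (nat_lit 228) (nat_lit 5803606595) (nat_lit 304) (nat_lit 1494090011) (nat_lit 32) (nat_lit 5) (nat_lit 35) (nat_lit 5) (nat_lit 36) (nat_lit 5) (nat_lit 286) (nat_lit 261) (nat_lit 233)) (XT.nd (nat_lit 78) (nat_lit 0) (nat_lit 0) (XT.lf (nat_lit 0) (nat_lit 3123360846)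 (nat_lit 228) (nat_lit 11716607997) (nat_lit 76) (nat_lit 793748479) (nat_lit 29) (nat_lit 5) (nat_lit 32) (nat_lit 5) (nat_lit 30) (nat_lit 5) (nat_lit 287) (nat_lit 261) (nat_lit 232)) (XT.lf (nat_lit 0) (nat_lit 8179807140) (nat_lit 228) (nat_lit 493433479) (nat_lit 76) (nat_lit 7818596850) (nat_lit 29) (nat_lit 5) (nat_lit 32) (nat_lit 5) (nat_lit 30) (nat_lit 5) (nat_lit 288) (nat_lit 261) (nat_lit 231))))))) (XT.nd (nat_lit 780) (nat_lit 380) (nat_lit 0) (XT.nd (nat_lit 390) (nat_lit 532) (nat_lit 0) (XT.nd (nat_lit 156) (nat_lit 228) (nat_lit 0) (XT.nd (nat_lit 78) (nat_lit 228) (nat_lit 0) (XT.lf (nat_lit 0) (nat_lit 11853895927) (nat_lit 152) (nat_lit 1873964883) (nat_lit 228) (nat_lit 3686534208) (nat_lit 27) (nat_lit 5) (nat_lit 29) (nat_lit 5) (nat_lit 30) (nat_lit 5) (nat_lit 289) (nat_lit 261) (nat_lit 230)) (XT.lf (nat_lit 0) (nat_lit 1374812501) (nat_lit 228) (nat_lit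 11650461802) (nat_lit 76) (nat_lit 5379201204) (nat_lit 24) (nat_lit 5) (nat_lit 27) (nat_lit 5) (nat_lit 25) (nat_lit 5) (nat_lit 290) (nat_lit 261) (nat_lit 229))) (XT.nd (nat_lit 78) (nat_lit 76) (nat_lit 0) (XT.lf (nat_lit 0) (nat_lit 558899689) (nat_lit 152) (nat_lit 6202790658) (nat_lit 228) (nat_lit 12706677508) (nat_lit 22) (nat_lit 5) (nat_lit 24) (nat_lit 5) (nat_lit 25) (nat_lit 5) (nat_lit 291) (nat_lit 261) (nat_lit 228)) (XT.nd (nat_lit 78) (nat_lit 76) (nat_lit 0) (XT.lf (nat_lit 0) (nat_lit 12716943422) (nat_lit 228) (nat_lit 6611856728) (nat_lit 76) (nat_lit 1281807831) (nat_lit 22) (nat_lit 5) (nat_lit 25) (nat_lit 5) (nat_lit 23) (nat_lit 4) (nat_lit 292) (nat_lit 261) (nat_lit 227)) (XT.lf (nat_lit 0) (nat_lit 6644152515) (nat_lit 76) (nat_lit 12632193947) (nat_lit 152) (nat_lit 2561594035) (nat_lit 21) (nat_lit 5) (nat_lit 22) (nat_lit 5) (nat_lit 23) (nat_lit 4)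 (nat_lit 293) (nat_lit 261) (nat_lit 226))))) (XT.nd (nat_lit 156) (nat_lit 304) (nat_lit 0) (XT.nd (nat_lit 78) (nat_lit 152) (nat_lit 0) (XT.lf (nat_lit 0) (nat_lit 3133815942) (nat_lit 152) (nat_lit 2143094165) (nat_lit 76) (nat_lit 17882186699) (nat_lit 20) (nat_lit 5) (nat_lit 22) (nat_lit 5) (nat_lit 21) (nat_lit 5) (nat_lit 294) (nat_lit 261) (nat_lit 225)) (XT.lf (nat_lit 0) (nat_lit 9358953867) (nat_lit 228) (nat_lit 12445140551) (nat_lit 76) (nat_lit 2771640869) (nat_lit 18) (nat_lit 5) (nat_lit 21) (nat_lit 5) (nat_lit 19) (nat_lit 4) (nat_lit 295) (nat_lit 261) (nat_lit 224))) (XT.nd (nat_lit 78) (nat_lit 228) (nat_lit 0) (XT.lf (nat_lit 0) (nat_lit 1354411608) (nat_lit 76) (nat_lit 14806385117) (nat_lit 152) (nat_lit 9941048775) (nat_lit 17) (nat_lit 5) (nat_lit 18) (nat_lit 5) (nat_lit 19) (nat_lit 4) (nat_lit 296) (nat_lit 261) (nat_lit 223)) (XT.nd (nat_lit 78) (nat_lit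 228) (nat_lit 0) (XT.lf (nat_lit 0) (nat_lit 16589260117) (nat_lit 76) (nat_lit 7068312620) (nat_lit 152) (nat_lit 4085002277) (nat_lit 17) (nat_lit 5) (nat_lit 18) (nat_lit 5) (nat_lit 19) (nat_lit 4) (nat_lit 297) (nat_lit 261) (nat_lit 222)) (XT.lf (nat_lit 0) (nat_lit 2181188246) (nat_lit 228) (nat_lit 26035625322) (nat_lit 76) (nat_lit 1295395622) (nat_lit 14) (nat_lit 5) (nat_lit 17) (nat_lit 5) (nat_lit 15) (nat_lit 4) (nat_lit 298) (nat_lit 261) (nat_lit 221)))))) (XT.nd (nat_lit 390) (nat_lit 152) (nat_lit 0) (XT.nd (nat_lit 156) (nat_lit 152) (nat_lit 0) (XT.nd (nat_lit 78) (nat_lit 76) (nat_lit 0) (XT.lf (nat_lit 0) (nat_lit 9064284730) (nat_lit 228) (nat_lit 12034316588) (nat_lit 76) (nat_lit 10308584920) (nat_lit 14) (nat_lit 5) (nat_lit 17) (nat_lit 5) (nat_lit 15) (nat_lit 4) (nat_lit 299) (nat_lit 261) (nat_lit 220)) (XT.lf (nat_lit 0) (nat_lit 3089190376) (nat_lit 76)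 (nat_lit 13401664625) (nat_lit 152) (nat_lit 16963317895) (nat_lit 13) (nat_lit 5) (nat_lit 14) (nat_lit 5) (nat_lit 15) (nat_lit 4) (nat_lit 300) (nat_lit 261) (nat_lit 219))) (XT.nd (nat_lit 78) (nat_lit 152) (nat_lit 0) (XT.lf (nat_lit 0) (nat_lit 19759745544) (nat_lit 76) (nat_lit 4908689255) (nat_lit 152) (nat_lit 10988688332) (nat_lit 13) (nat_lit 5) (nat_lit 14) (nat_lit 5) (nat_lit 15) (nat_lit 4) (nat_lit 301) (nat_lit 261) (nat_lit 218)) (XT.nd (nat_lit 78) (nat_lit 152) (nat_lit 0) (XT.lf (nat_lit 0) (nat_lit 33517374896) (nat_lit 152) (nat_lit 426560942) (nat_lit 0) (nat_lit 4091561072) (nat_lit 13) (nat_lit 5) (nat_lit 15) (nat_lit 4) (nat_lit 13) (nat_lit 4) (nat_lit 302) (nat_lit 261) (nat_lit 217)) (XT.lf (nat_lit 0) (nat_lit 2692842384) (nat_lit 152) (nat_lit 23981817377) (nat_lit 76) (nat_lit 13912501907) (nat_lit 11) (nat_lit 5) (nat_lit 13) (nat_lit 5) (nat_lit 12)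 (nat_lit 4) (nat_lit 303) (nat_lit 261) (nat_lit 216))))) (XT.nd (nat_lit 156) (nat_lit 76) (nat_lit 0) (XT.nd (nat_lit 78) (nat_lit 76) (nat_lit 0) (XT.lf (nat_lit 0) (nat_lit 10287730563) (nat_lit 152) (nat_lit 8482972944) (nat_lit 76) (nat_lit 24570322663) (nat_lit 11) (nat_lit 5) (nat_lit 13) (nat_lit 5) (nat_lit 12) (nat_lit 4) (nat_lit 304) (nat_lit 261) (nat_lit 215)) (XT.lf (nat_lit 0) (nat_lit 8453077003) (nat_lit 76) (nat_lit 10128063802) (nat_lit 152) (nat_lit 27729546666) (nat_lit 10) (nat_lit 5) (nat_lit 11) (nat_lit 5) (nat_lit 12) (nat_lit 4) (nat_lit 305) (nat_lit 261) (nat_lit 214))) (XT.nd (nat_lit 78) (nat_lit 76) (nat_lit 0) (XT.lf (nat_lit 0) (nat_lit 26976865380) (nat_lit 76) (nat_lit 669827592) (nat_lit 152) (nat_lit 21865826907) (nat_lit 10) (nat_lit 5) (nat_lit 11) (nat_lit 5) (nat_lit 12) (nat_lit 4) (nat_lit 306) (nat_lit 261) (nat_lit 213)) (XT.nd (nat_lit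 78) (nat_lit 76) (nat_lit 0) (XT.lf (nat_lit 0) (nat_lit 37549864238) (nat_lit 152) (nat_lit 6203238463) (nat_lit 0) (nat_lit 9211806745) (nat_lit 10) (nat_lit 5) (nat_lit 12) (nat_lit 4) (nat_lit 10) (nat_lit 4) (nat_lit 307) (nat_lit 261) (nat_lit 212)) (XT.lf (nat_lit 0) (nat_lit 11738830029) (nat_lit 76) (nat_lit 36667094237) (nat_lit 76) (nat_lit 8279561300) (nat_lit 9) (nat_lit 4) (nat_lit 10) (nat_lit 5) (nat_lit 10) (nat_lit 4) (nat_lit 308) (nat_lit 261) (nat_lit 211))))))))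
noncomputable def xc51 : XT := (XT.nd (nat_lit 1560) (nat_lit 76) (nat_lit 0) (XT.nd (nat_lit 780) (nat_lit 152) (nat_lit 0) (XT.nd (nat_lit 390) (nat_lit 76) (nat_lit 0) (XT.nd (nat_lit 156) (nat_lit 76) (nat_lit 0) (XT.nd (nat_lit 78) (nat_lit 76) (nat_lit 0) (XT.lf (nat_lit 0) (nat_lit 31279084190) (nat_lit 76) (nat_lit 28927103167) (nat_lit 76) (nat_lit 493759635) (nat_lit 9) (nat_lit 4) (nat_lit 10) (nat_lit 5) (nat_lit 10) (nat_lit 4) (nat_lit 309) (nat_lit 261) (nat_lit 210)) (XT.lf (nat_lit 0) (nat_lit 7631123615) (nat_lit 152) (nat_lit 12831957337) (nat_lit 76) (nat_lit 44567850653) (nat_lit 8) (nat_lit 5) (nat_lit 10) (nat_lit 5) (nat_lit 9) (nat_lit 4) (nat_lit 310) (nat_lit 261) (nat_lit 209))) (XT.nd (nat_lit 78) (nat_lit 0) (nat_lit 0) (XT.lf (nat_lit 0) (nat_lit 5190591380) (nat_lit 76) (nat_lit 11251178050) (nat_lit 152) (nat_lit 53263587816) (nat_lit 7) (nat_lit 5) (nat_lit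 8) (nat_lit 5) (nat_lit 9) (nat_lit 4) (nat_lit 311) (nat_lit 261) (nat_lit 208)) (XT.nd (nat_lit 78) (nat_lit 0) (nat_lit 0) (XT.lf (nat_lit 0) (nat_lit 25064122559) (nat_lit 76) (nat_lit 1089791801) (nat_lit 152) (nat_lit 48590009203) (nat_lit 7) (nat_lit 5) (nat_lit 8) (nat_lit 5) (nat_lit 9) (nat_lit 4) (nat_lit 312) (nat_lit 261) (nat_lit 207)) (XT.lf (nat_lit 0) (nat_lit 36772149145) (nat_lit 152) (nat_lit 33858718610) (nat_lit 0) (nat_lit 9548269110) (nat_lit 7) (nat_lit 5) (nat_lit 9) (nat_lit 4) (nat_lit 7) (nat_lit 4) (nat_lit 313) (nat_lit 261) (nat_lit 206))))) (XT.nd (nat_lit 156) (nat_lit 0) (nat_lit 0) (XT.nd (nat_lit 78) (nat_lit 76) (nat_lit 0) (XT.lf (nat_lit 0) (nat_lit 48234879175) (nat_lit 152) (nat_lit 16833246640) (nat_lit 0) (nat_lit 20981305882) (nat_lit 7) (nat_lit 5) (nat_lit 9) (nat_lit 4) (nat_lit 7) (nat_lit 4) (nat_lit 314) (nat_lit 261) (nat_lit 205)) (XT.lf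 (nat_lit 0) (nat_lit 1564598208) (nat_lit 76) (nat_lit 59052846591) (nat_lit 76) (nat_lit 31771779540) (nat_lit 6) (nat_lit 4) (nat_lit 7) (nat_lit 5) (nat_lit 7) (nat_lit 4) (nat_lit 315) (nat_lit 261) (nat_lit 204))) (XT.nd (nat_lit 78) (nat_lit 0) (nat_lit 0) (XT.lf (nat_lit 0) (nat_lit 21997365790) (nat_lit 76) (nat_lit 52265870875) (nat_lit 76) (nat_lit 24959346641) (nat_lit 6) (nat_lit 4) (nat_lit 7) (nat_lit 5) (nat_lit 7) (nat_lit 4) (nat_lit 316) (nat_lit 261) (nat_lit 203)) (XT.nd (nat_lit 78) (nat_lit 0) (nat_lit 0) (XT.lf (nat_lit 0) (nat_lit 44029556018) (nat_lit 76) (nat_lit 44952058731) (nat_lit 76) (nat_lit 17621963030) (nat_lit 6) (nat_lit 4) (nat_lit 7) (nat_lit 5) (nat_lit 7) (nat_lit 4) (nat_lit 317) (nat_lit 261) (nat_lit 202)) (XT.lf (nat_lit 0) (nat_lit 67791730018) (nat_lit 76) (nat_lit 37068069049) (nat_lit 76) (nat_lit 9716147916) (nat_lit 6) (nat_lit 4) (nat_lit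 7) (nat_lit 5) (nat_lit 7) (nat_lit 4) (nat_lit 318) (nat_lit 261) (nat_lit 201)))))) (XT.nd (nat_lit 390) (nat_lit 0) (nat_lit 0) (XT.nd (nat_lit 156) (nat_lit 76) (nat_lit 0) (XT.nd (nat_lit 78) (nat_lit 76) (nat_lit 0) (XT.lf (nat_lit 0) (nat_lit 93424700673) (nat_lit 76) (nat_lit 28567181890) (nat_lit 76) (nat_lit 1195052024) (nat_lit 6) (nat_lit 4) (nat_lit 7) (nat_lit 5) (nat_lit 7) (nat_lit 4) (nat_lit 319) (nat_lit 261) (nat_lit 200)) (XT.lf (nat_lit 0) (nat_lit 7736031877) (nat_lit 152) (nat_lit 11531976306) (nat_lit 76) (nat_lit 113213321749) (nat_lit 5) (nat_lit 5) (nat_lit 7) (nat_lit 5) (nat_lit 6) (nat_lit 4) (nat_lit 320) (nat_lit 261) (nat_lit 199))) (XT.nd (nat_lit 78) (nat_lit 0) (nat_lit 0) (XT.lf (nat_lit 0) (nat_lit 8378358200) (nat_lit 76) (nat_lit 9078483549) (nat_lit 152) (nat_lit 125055609253) (nat_lit 4) (nat_lit 5) (nat_lit 5) (nat_lit 5) (nat_lit 6) (nat_lit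 4) (nat_lit 321) (nat_lit 261) (nat_lit 198)) (XT.nd (nat_lit 78) (nat_lit 0) (nat_lit 0) (XT.lf (nat_lit 0) (nat_lit 28175782786) (nat_lit 152) (nat_lit 123101776229) (nat_lit 0) (nat_lit 2057487805) (nat_lit 4) (nat_lit 5) (nat_lit 6) (nat_lit 4) (nat_lit 4) (nat_lit 4) (nat_lit 322) (nat_lit 261) (nat_lit 197)) (XT.lf (nat_lit 0) (nat_lit 39892559896) (nat_lit 152) (nat_lit 111363763901) (nat_lit 0) (nat_lit 13760118227) (nat_lit 4) (nat_lit 5) (nat_lit 6) (nat_lit 4) (nat_lit 4) (nat_lit 4) (nat_lit 323) (nat_lit 261) (nat_lit 196))))) (XT.nd (nat_lit 156) (nat_lit 0) (nat_lit 0) (XT.nd (nat_lit 78) (nat_lit 0) (nat_lit 0) (XT.lf (nat_lit 0) (nat_lit 52534865261) (nat_lit 152) (nat_lit 98708756658) (nat_lit 0) (nat_lit 26389324807) (nat_lit 4) (nat_lit 5) (nat_lit 6) (nat_lit 4) (nat_lit 4) (nat_lit 4) (nat_lit 324) (nat_lit 261) (nat_lit 195)) (XT.lf (nat_lit 0) (nat_lit 66177616247)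 (nat_lit 152) (nat_lit 85061761863) (nat_lit 0) (nat_lit 40019947289) (nat_lit 4) (nat_lit 5) (nat_lit 6) (nat_lit 4) (nat_lit 4) (nat_lit 4) (nat_lit 325) (nat_lit 261) (nat_lit 194))) (XT.nd (nat_lit 78) (nat_lit 0) (nat_lit 0) (XT.lf (nat_lit 0) (nat_lit 80901658785) (nat_lit 152) (nat_lit 70341908436) (nat_lit 0) (nat_lit 54732759730) (nat_lit 4) (nat_lit 5) (nat_lit 6) (nat_lit 4) (nat_lit 4) (nat_lit 4) (nat_lit 326) (nat_lit 261) (nat_lit 193)) (XT.nd (nat_lit 78) (nat_lit 0) (nat_lit 0) (XT.lf (nat_lit 0) (nat_lit 96794246461) (nat_lit 152) (nat_lit 54461967616) (nat_lit 0) (nat_lit 70614949168) (nat_lit 4) (nat_lit 5) (nat_lit 6) (nat_lit 4) (nat_lit 4) (nat_lit 4) (nat_lit 327) (nat_lit 261) (nat_lit 192)) (XT.lf (nat_lit 0) (nat_lit 113949557572) (nat_lit 152) (nat_lit 37327836050) (nat_lit 0) (nat_lit 87760632281) (nat_lit 4) (nat_lit 5) (nat_lit 6) (nat_lit 4) (nat_lit 4)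 (nat_lit 4) (nat_lit 328) (nat_lit 261) (nat_lit 191))))))) (XT.nd (nat_lit 780) (nat_lit 0) (nat_lit 0) (XT.nd (nat_lit 390) (nat_lit 0) (nat_lit 0) (XT.nd (nat_lit 156) (nat_lit 0) (nat_lit 0) (XT.nd (nat_lit 78) (nat_lit 76) (nat_lit 0) (XT.lf (nat_lit 0) (nat_lit 132469253221) (nat_lit 152) (nat_lit 18837978144) (nat_lit 0) (nat_lit 106271413117) (nat_lit 4) (nat_lit 5) (nat_lit 6) (nat_lit 4) (nat_lit 4) (nat_lit 4) (nat_lit 329) (nat_lit 261) (nat_lit 190)) (XT.lf (nat_lit 0) (nat_lit 1154114501) (nat_lit 76) (nat_lit 151326984213) (nat_lit 76) (nat_lit 125120889653) (nat_lit 3) (nat_lit 4) (nat_lit 4) (nat_lit 5) (nat_lit 4) (nat_lit 4) (nat_lit 330) (nat_lit 261) (nat_lit 189))) (XT.nd (nat_lit 78) (nat_lit 0) (nat_lit 0) (XT.lf (nat_lit 0) (nat_lit 23404983681) (nat_lit 76) (nat_lit 151009952808) (nat_lit 76) (nat_lit 124796215233) (nat_lit 3) (nat_lit 4) (nat_lit 4) (nat_lit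 5) (nat_lit 4) (nat_lit 4) (nat_lit 331) (nat_lit 261) (nat_lit 188)) (XT.nd (nat_lit 78) (nat_lit 0) (nat_lit 0) (XT.lf (nat_lit 0) (nat_lit 47423617764) (nat_lit 76) (nat_lit 150673288723) (nat_lit 76) (nat_lit 124452474281) (nat_lit 3) (nat_lit 4) (nat_lit 4) (nat_lit 5) (nat_lit 4) (nat_lit 4) (nat_lit 332) (nat_lit 261) (nat_lit 187)) (XT.lf (nat_lit 0) (nat_lit 73352349398) (nat_lit 76) (nat_lit 150314996909) (nat_lit 76) (nat_lit 124087629814) (nat_lit 3) (nat_lit 4) (nat_lit 4) (nat_lit 5) (nat_lit 4) (nat_lit 4) (nat_lit 333) (nat_lit 261) (nat_lit 186))))) (XT.nd (nat_lit 156) (nat_lit 0) (nat_lit 0) (XT.nd (nat_lit 78) (nat_lit 0) (nat_lit 0) (XT.lf (nat_lit 0) (nat_lit 101344830324) (nat_lit 76) (nat_lit 149932954158) (nat_lit 76) (nat_lit 123699519791) (nat_lit 3) (nat_lit 4) (nat_lit 4) (nat_lit 5) (nat_lit 4) (nat_lit 4) (nat_lit 334) (nat_lit 261) (nat_lit 185)) (XT.lf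 (nat_lit 0) (nat_lit 131566941912) (nat_lit 76) (nat_lit 149524896510) (nat_lit 76) (nat_lit 123285844299) (nat_lit 3) (nat_lit 4) (nat_lit 4) (nat_lit 5) (nat_lit 4) (nat_lit 4) (nat_lit 335) (nat_lit 261) (nat_lit 184))) (XT.nd (nat_lit 78) (nat_lit 0) (nat_lit 0) (XT.lf (nat_lit 0) (nat_lit 164197778156) (nat_lit 76) (nat_lit 149088405848) (nat_lit 76) (nat_lit 122844151930) (nat_lit 3) (nat_lit 4) (nat_lit 4) (nat_lit 5) (nat_lit 4) (nat_lit 4) (nat_lit 336) (nat_lit 261) (nat_lit 183)) (XT.nd (nat_lit 78) (nat_lit 0) (nat_lit 0) (XT.lf (nat_lit 0) (nat_lit 199430706975) (nat_lit 76) (nat_lit 148620895560) (nat_lit 76) (nat_lit 122371825246) (nat_lit 3) (nat_lit 4) (nat_lit 4) (nat_lit 5) (nat_lit 4) (nat_lit 4) (nat_lit 337) (nat_lit 261) (nat_lit 182)) (XT.lf (nat_lit 0) (nat_lit 237474516095) (nat_lit 76) (nat_lit 148119595215) (nat_lit 76) (nat_lit 121866065274) (nat_lit 3) (nat_lit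 4) (nat_lit 4) (nat_lit 5) (nat_lit 4) (nat_lit 4) (nat_lit 338) (nat_lit 261) (nat_lit 181)))))) (XT.nd (nat_lit 390) (nat_lit 0) (nat_lit 0) (XT.nd (nat_lit 156) (nat_lit 0) (nat_lit 0) (XT.nd (nat_lit 78) (nat_lit 0) (nat_lit 0) (XT.lf (nat_lit 0) (nat_lit 278554650310) (nat_lit 76) (nat_lit 147581534143) (nat_lit 76) (nat_lit 121323874919) (nat_lit 3) (nat_lit 4) (nat_lit 4) (nat_lit 5) (nat_lit 4) (nat_lit 4) (nat_lit 339) (nat_lit 261) (nat_lit 180)) (XT.lf (nat_lit 0) (nat_lit 322914547453) (nat_lit 76) (nat_lit 147003523835) (nat_lit 76) (nat_lit 120742041201) (nat_lit 3) (nat_lit 4) (nat_lit 4) (nat_lit 5) (nat_lit 4) (nat_lit 4) (nat_lit 340) (nat_lit 261) (nat_lit 179))) (XT.nd (nat_lit 78) (nat_lit 0) (nat_lit 0) (XT.lf (nat_lit 0) (nat_lit 370817080990) (nat_lit 76) (nat_lit 146382139045) (nat_lit 76) (nat_lit 120117116216) (nat_lit 3) (nat_lit 4) (nat_lit 4) (nat_lit 5)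 (nat_lit 4) (nat_lit 4) (nat_lit 341) (nat_lit 261) (nat_lit 178)) (XT.nd (nat_lit 78) (nat_lit 0) (nat_lit 0) (XT.lf (nat_lit 0) (nat_lit 422546117784) (nat_lit 76) (nat_lit 145713697492) (nat_lit 76) (nat_lit 119445396704) (nat_lit 3) (nat_lit 4) (nat_lit 4) (nat_lit 5) (nat_lit 4) (nat_lit 4) (nat_lit 342) (nat_lit 261) (nat_lit 177)) (XT.lf (nat_lit 0) (nat_lit 478408200276) (nat_lit 76) (nat_lit 144994238041) (nat_lit 76) (nat_lit 118722902107) (nat_lit 3) (nat_lit 4) (nat_lit 4) (nat_lit 5) (nat_lit 4) (nat_lit 4) (nat_lit 343) (nat_lit 261) (nat_lit 176))))) (XT.nd (nat_lit 34242) (nat_lit 0) (nat_lit 8740) (XT.nd (nat_lit 78) (nat_lit 0) (nat_lit 0) (XT.lf (nat_lit 0) (nat_lit 538734363030) (nat_lit 76) (nat_lit 144219497229) (nat_lit 76) (nat_lit 117945350974) (nat_lit 3) (nat_lit 4) (nat_lit 4) (nat_lit 5) (nat_lit 4) (nat_lit 4) (nat_lit 344) (nat_lit 261) (nat_lit 175)) (XT.nd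 (nat_lit 78) (nat_lit 0) (nat_lit 0) (XT.lf (nat_lit 0) (nat_lit 603882094417) (nat_lit 76) (nat_lit 143384883998) (nat_lit 76) (nat_lit 117108135595) (nat_lit 3) (nat_lit 4) (nat_lit 4) (nat_lit 5) (nat_lit 4) (nat_lit 4) (nat_lit 345) (nat_lit 261) (nat_lit 174)) (XT.lf (nat_lit 0) (nat_lit 674237455068) (nat_lit 76) (nat_lit 142485452494) (nat_lit 76) (nat_lit 116206294693) (nat_lit 3) (nat_lit 4) (nat_lit 4) (nat_lit 5) (nat_lit 4) (nat_lit 4) (nat_lit 346) (nat_lit 261) (nat_lit 173)))) (XT.nd (nat_lit 78) (nat_lit 380) (nat_lit 0) (XT.lf (nat_lit 0) (nat_lit 898520140) (nat_lit 0) (nat_lit 898520140) (nat_lit 228) (nat_lit 1483222149) (nat_lit 123) (nat_lit 5) (nat_lit 123) (nat_lit 3) (nat_lit 126) (nat_lit 3) (nat_lit 262) (nat_lit 262) (nat_lit 256)) (XT.nd (nat_lit 78) (nat_lit 0) (nat_lit 76) (XT.lf (nat_lit 76) (nat_lit 6965481) (nat_lit 0) (nat_lit 606719068) (nat_lit 380)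 (nat_lit 6017668475) (nat_lit 119) (nat_lit 5) (nat_lit 118) (nat_lit 3) (nat_lit 123) (nat_lit 5) (nat_lit 263) (nat_lit 262) (nat_lit 255)) (XT.lf (nat_lit 0) (nat_lit 4112001019) (nat_lit 304) (nat_lit 1654757816) (nat_lit 380) (nat_lit 953272312) (nat_lit 119) (nat_lit 5) (nat_lit 123) (nat_lit 5) (nat_lit 124) (nat_lit 5) (nat_lit 264) (nat_lit 262) (nat_lit 254))))))))
noncomputable def xc52 : XT := (XT.nd (nat_lit 1560) (nat_lit 1976) (nat_lit 0) (XT.nd (nat_lit 780) (nat_lit 2280) (nat_lit 0) (XT.nd (nat_lit 390) (nat_lit 2736) (nat_lit 0) (XT.nd (nat_lit 156) (nat_lit 836) (nat_lit 0) (XT.nd (nat_lit 78) (nat_lit 0) (nat_lit 0) (XT.lf (nat_lit 0) (nat_lit 767135308) (nat_lit 380) (nat_lit 3226961499) (nat_lit 456) (nat_lit 2835745938) (nat_lit 114) (nat_lit 5) (nat_lit 119) (nat_lit 5) (nat_lit 120) (nat_lit 5) (nat_lit 265) (nat_lit 262) (nat_lit 253)) (XT.lf (nat_lit 76) (nat_lit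 2214698459) (nat_lit 0) (nat_lit 1852869754) (nat_lit 456) (nat_lit 2892545568) (nat_lit 115) (nat_lit 5) (nat_lit 114) (nat_lit 5) (nat_lit 120) (nat_lit 5) (nat_lit 266) (nat_lit 262) (nat_lit 252))) (XT.nd (nat_lit 78) (nat_lit 456) (nat_lit 0) (XT.lf (nat_lit 0) (nat_lit 291902507) (nat_lit 456) (nat_lit 6200893639) (nat_lit 76) (nat_lit 619720311) (nat_lit 109) (nat_lit 5) (nat_lit 115) (nat_lit 5) (nat_lit 110) (nat_lit 5) (nat_lit 267) (nat_lit 262) (nat_lit 251)) (XT.nd (nat_lit 78) (nat_lit 456) (nat_lit 0) (XT.lf (nat_lit 0) (nat_lit 3463293138) (nat_lit 456) (nat_lit 378280104) (nat_lit 76) (nat_lit 3442424549) (nat_lit 109) (nat_lit 5) (nat_lit 115) (nat_lit 5) (nat_lit 110) (nat_lit 5) (nat_lit 268) (nat_lit 262) (nat_lit 250)) (XT.lf (nat_lit 0) (nat_lit 5900273642) (nat_lit 456) (nat_lit 818123251) (nat_lit 532) (nat_lit 760165228) (nat_lit 103) (nat_lit 5) (nat_lit 109)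 (nat_lit 5) (nat_lit 110) (nat_lit 5) (nat_lit 269) (nat_lit 262) (nat_lit 249))))) (XT.nd (nat_lit 156) (nat_lit 1520) (nat_lit 0) (XT.nd (nat_lit 78) (nat_lit 608) (nat_lit 0) (XT.lf (nat_lit 0) (nat_lit 2337903094) (nat_lit 608) (nat_lit 2811925211) (nat_lit 76) (nat_lit 2543931388) (nat_lit 95) (nat_lit 5) (nat_lit 103) (nat_lit 5) (nat_lit 96) (nat_lit 5) (nat_lit 270) (nat_lit 262) (nat_lit 248)) (XT.lf (nat_lit 0) (nat_lit 3883963364) (nat_lit 608) (nat_lit 1641756692) (nat_lit 684) (nat_lit 2407109090) (nat_lit 87) (nat_lit 5) (nat_lit 95) (nat_lit 5) (nat_lit 96) (nat_lit 5) (nat_lit 271) (nat_lit 262) (nat_lit 247))) (XT.nd (nat_lit 78) (nat_lit 760) (nat_lit 0) (XT.lf (nat_lit 0) (nat_lit 659268701) (nat_lit 760) (nat_lit 5328515563) (nat_lit 76) (nat_lit 2207924611) (nat_lit 77) (nat_lit 5) (nat_lit 87) (nat_lit 5) (nat_lit 78) (nat_lit 5) (nat_lit 272) (nat_lit 262) (nat_lit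 246)) (XT.nd (nat_lit 78) (nat_lit 380) (nat_lit 0) (XT.lf (nat_lit 0) (nat_lit 1787463565) (nat_lit 380) (nat_lit 2017265849) (nat_lit 456) (nat_lit 4677587638) (nat_lit 72) (nat_lit 5) (nat_lit 77) (nat_lit 5) (nat_lit 78) (nat_lit 5) (nat_lit 273) (nat_lit 262) (nat_lit 245)) (XT.lf (nat_lit 0) (nat_lit 652838576) (nat_lit 380) (nat_lit 6491212537) (nat_lit 456) (nat_lit 1651225281) (nat_lit 67) (nat_lit 5) (nat_lit 72) (nat_lit 5) (nat_lit 73) (nat_lit 5) (nat_lit 274) (nat_lit 262) (nat_lit 244)))))) (XT.nd (nat_lit 390) (nat_lit 988) (nat_lit 0) (XT.nd (nat_lit 156) (nat_lit 912) (nat_lit 0) (XT.nd (nat_lit 78) (nat_lit 304) (nat_lit 0) (XT.lf (nat_lit 0) (nat_lit 1528295149) (nat_lit 456) (nat_lit 565822076) (nat_lit 76) (nat_lit 7040222867) (nat_lit 66) (nat_lit 5) (nat_lit 72) (nat_lit 5) (nat_lit 67) (nat_lit 5) (nat_lit 275) (nat_lit 262) (nat_lit 243)) (XT.lf (nat_lit 0) (nat_lit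 4892413103) (nat_lit 380) (nat_lit 1901754174) (nat_lit 76) (nat_lit 2706039593) (nat_lit 62) (nat_lit 5) (nat_lit 67) (nat_lit 5) (nat_lit 63) (nat_lit 5) (nat_lit 276) (nat_lit 262) (nat_lit 242))) (XT.nd (nat_lit 78) (nat_lit 608) (nat_lit 0) (XT.lf (nat_lit 0) (nat_lit 6524927782) (nat_lit 304) (nat_lit 1982190782) (nat_lit 380) (nat_lit 1389555029) (nat_lit 58) (nat_lit 5) (nat_lit 62) (nat_lit 5) (nat_lit 63) (nat_lit 5) (nat_lit 277) (nat_lit 262) (nat_lit 241)) (XT.nd (nat_lit 78) (nat_lit 304) (nat_lit 0) (XT.lf (nat_lit 0) (nat_lit 2029095525) (nat_lit 304) (nat_lit 5057321943) (nat_lit 76) (nat_lit 3236681369) (nat_lit 54) (nat_lit 5) (nat_lit 58) (nat_lit 5) (nat_lit 55) (nat_lit 5) (nat_lit 278) (nat_lit 262) (nat_lit 240)) (XT.lf (nat_lit 0) (nat_lit 3811886558) (nat_lit 304) (nat_lit 1863284217) (nat_lit 380) (nat_lit 5107527018) (nat_lit 50) (nat_lit 5) (nat_lit 54) (nat_lit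 5) (nat_lit 55) (nat_lit 5) (nat_lit 279) (nat_lit 262) (nat_lit 239))))) (XT.nd (nat_lit 156) (nat_lit 456) (nat_lit 0) (XT.nd (nat_lit 78) (nat_lit 304) (nat_lit 0) (XT.lf (nat_lit 0) (nat_lit 2118893154) (nat_lit 228) (nat_lit 7532789238) (nat_lit 304) (nat_lit 1625749821) (nat_lit 47) (nat_lit 5) (nat_lit 50) (nat_lit 5) (nat_lit 51) (nat_lit 5) (nat_lit 280) (nat_lit 262) (nat_lit 238)) (XT.lf (nat_lit 0) (nat_lit 134762480) (nat_lit 228) (nat_lit 1950906738) (nat_lit 304) (nat_lit 9723707890) (nat_lit 43) (nat_lit 5) (nat_lit 46) (nat_lit 5) (nat_lit 47) (nat_lit 5) (nat_lit 281) (nat_lit 262) (nat_lit 237))) (XT.nd (nat_lit 78) (nat_lit 456) (nat_lit 0) (XT.lf (nat_lit 0) (nat_lit 6132882739) (nat_lit 304) (nat_lit 2151018494) (nat_lit 76) (nat_lit 4094100903) (nat_lit 43) (nat_lit 5) (nat_lit 47) (nat_lit 5) (nat_lit 44) (nat_lit 5) (nat_lit 282) (nat_lit 262) (nat_lit 236)) (XT.nd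 (nat_lit 78) (nat_lit 304) (nat_lit 0) (XT.lf (nat_lit 0) (nat_lit 8197262477) (nat_lit 152) (nat_lit 2346438064) (nat_lit 228) (nat_lit 2446655902) (nat_lit 41) (nat_lit 5) (nat_lit 43) (nat_lit 5) (nat_lit 44) (nat_lit 5) (nat_lit 283) (nat_lit 262) (nat_lit 235)) (XT.lf (nat_lit 0) (nat_lit 1679891179) (nat_lit 304) (nat_lit 7919349654) (nat_lit 76) (nat_lit 4047509214) (nat_lit 37) (nat_lit 5) (nat_lit 41) (nat_lit 5) (nat_lit 38) (nat_lit 5) (nat_lit 284) (nat_lit 262) (nat_lit 234))))))) (XT.nd (nat_lit 780) (nat_lit 760) (nat_lit 0) (XT.nd (nat_lit 390) (nat_lit 456) (nat_lit 0) (XT.nd (nat_lit 156) (nat_lit 608) (nat_lit 0) (XT.nd (nat_lit 78) (nat_lit 0) (nat_lit 0) (XT.lf (nat_lit 0) (nat_lit 2753785753) (nat_lit 152) (nat_lit 3354448756) (nat_lit 228) (nat_lit 8242733921) (nat_lit 35) (nat_lit 5) (nat_lit 37) (nat_lit 5) (nat_lit 38) (nat_lit 5) (nat_lit 285) (nat_lit 262)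 (nat_lit 233)) (XT.lf (nat_lit 0) (nat_lit 10977867458) (nat_lit 228) (nat_lit 755285662) (nat_lit 76) (nat_lit 3374194426) (nat_lit 35) (nat_lit 5) (nat_lit 38) (nat_lit 5) (nat_lit 36) (nat_lit 5) (nat_lit 286) (nat_lit 262) (nat_lit 232))) (XT.nd (nat_lit 78) (nat_lit 304) (nat_lit 0) (XT.lf (nat_lit 0) (nat_lit 436520455) (nat_lit 304) (nat_lit 4819264858) (nat_lit 76) (nat_lit 10661676280) (nat_lit 31) (nat_lit 5) (nat_lit 35) (nat_lit 5) (nat_lit 32) (nat_lit 5) (nat_lit 287) (nat_lit 262) (nat_lit 231)) (XT.nd (nat_lit 78) (nat_lit 152) (nat_lit 0) (XT.lf (nat_lit 0) (nat_lit 5284798685) (nat_lit 228) (nat_lit 9667057995) (nat_lit 76) (nat_lit 1834201913) (nat_lit 29) (nat_lit 5) (nat_lit 32) (nat_lit 5) (nat_lit 30) (nat_lit 5) (nat_lit 288) (nat_lit 262) (nat_lit 230)) (XT.lf (nat_lit 0) (nat_lit 2306544027) (nat_lit 152) (nat_lit 8333630570) (nat_lit 228) (nat_lit 7078138812)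 (nat_lit 27) (nat_lit 5) (nat_lit 29) (nat_lit 5) (nat_lit 30) (nat_lit 5) (nat_lit 289) (nat_lit 262) (nat_lit 229))))) (XT.nd (nat_lit 156) (nat_lit 228) (nat_lit 0) (XT.nd (nat_lit 78) (nat_lit 228) (nat_lit 0) (XT.lf (nat_lit 0) (nat_lit 15447645134) (nat_lit 152) (nat_lit 1058609521) (nat_lit 228) (nat_lit 2214902314) (nat_lit 27) (nat_lit 5) (nat_lit 29) (nat_lit 5) (nat_lit 30) (nat_lit 5) (nat_lit 290) (nat_lit 262) (nat_lit 228)) (XT.lf (nat_lit 0) (nat_lit 3123564641) (nat_lit 228) (nat_lit 9927524059) (nat_lit 76) (nat_lit 6741706488) (nat_lit 24) (nat_lit 5) (nat_lit 27) (nat_lit 5) (nat_lit 25) (nat_lit 5) (nat_lit 291) (nat_lit 262) (nat_lit 227))) (XT.nd (nat_lit 78) (nat_lit 76) (nat_lit 0) (XT.lf (nat_lit 0) (nat_lit 3143204387) (nat_lit 152) (nat_lit 5716448329) (nat_lit 228) (nat_lit 12086388764) (nat_lit 22) (nat_lit 5) (nat_lit 24) (nat_lit 5) (nat_lit 25) (nat_lit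 5) (nat_lit 292) (nat_lit 262) (nat_lit 226)) (XT.nd (nat_lit 78) (nat_lit 76) (nat_lit 0) (XT.lf (nat_lit 0) (nat_lit 15190194955) (nat_lit 228) (nat_lit 4729649782) (nat_lit 76) (nat_lit 2265016667) (nat_lit 22) (nat_lit 5) (nat_lit 25) (nat_lit 5) (nat_lit 23) (nat_lit 4) (nat_lit 293) (nat_lit 262) (nat_lit 225)) (XT.lf (nat_lit 0) (nat_lit 9482054321) (nat_lit 76) (nat_lit 12720460657) (nat_lit 152) (nat_lit 1311590669) (nat_lit 21) (nat_lit 5) (nat_lit 22) (nat_lit 5) (nat_lit 23) (nat_lit 4) (nat_lit 294) (nat_lit 262) (nat_lit 224)))))) (XT.nd (nat_lit 390) (nat_lit 228) (nat_lit 0) (XT.nd (nat_lit 156) (nat_lit 304) (nat_lit 0) (XT.nd (nat_lit 78) (nat_lit 152) (nat_lit 0) (XT.lf (nat_lit 0) (nat_lit 4688561971) (nat_lit 152) (nat_lit 134426749) (nat_lit 76) (nat_lit 20122163733) (nat_lit 20) (nat_lit 5) (nat_lit 22) (nat_lit 5) (nat_lit 21) (nat_lit 5) (nat_lit 295) (nat_lit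 262) (nat_lit 223)) (XT.lf (nat_lit 0) (nat_lit 11360872321) (nat_lit 228) (nat_lit 11305219172) (nat_lit 76) (nat_lit 3811681342) (nat_lit 18) (nat_lit 5) (nat_lit 21) (nat_lit 5) (nat_lit 19) (nat_lit 4) (nat_lit 296) (nat_lit 262) (nat_lit 222))) (XT.nd (nat_lit 78) (nat_lit 228) (nat_lit 0) (XT.lf (nat_lit 0) (nat_lit 3505489514) (nat_lit 76) (nat_lit 15140435967) (nat_lit 152) (nat_lit 9483194068) (nat_lit 17) (nat_lit 5) (nat_lit 18) (nat_lit 5) (nat_lit 19) (nat_lit 4) (nat_lit 297) (nat_lit 262) (nat_lit 221)) (XT.nd (nat_lit 78) (nat_lit 228) (nat_lit 0) (XT.lf (nat_lit 0) (nat_lit 19807812943) (nat_lit 76) (nat_lit 6846314704) (nat_lit 152) (nat_lit 3251488932) (nat_lit 17) (nat_lit 5) (nat_lit 18) (nat_lit 5) (nat_lit 19) (nat_lit 4) (nat_lit 298) (nat_lit 262) (nat_lit 220)) (XT.lf (nat_lit 0) (nat_lit 3436610631) (nat_lit 228) (nat_lit 26230337662) (nat_lit 76) (nat_lit 2151162180)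 (nat_lit 14) (nat_lit 5) (nat_lit 17) (nat_lit 5) (nat_lit 15) (nat_lit 4) (nat_lit 299) (nat_lit 262) (nat_lit 219))))) (XT.nd (nat_lit 156) (nat_lit 152) (nat_lit 0) (XT.nd (nat_lit 78) (nat_lit 76) (nat_lit 0) (XT.lf (nat_lit 0) (nat_lit 10790286143) (nat_lit 228) (nat_lit 11248786281) (nat_lit 76) (nat_lit 11829692926) (nat_lit 14) (nat_lit 5) (nat_lit 17) (nat_lit 5) (nat_lit 15) (nat_lit 4) (nat_lit 300) (nat_lit 262) (nat_lit 218)) (XT.lf (nat_lit 0) (nat_lit 5008623312) (nat_lit 76) (nat_lit 13754330301) (nat_lit 152) (nat_lit 17319029330) (nat_lit 13) (nat_lit 5) (nat_lit 14) (nat_lit 5) (nat_lit 15) (nat_lit 4) (nat_lit 301) (nat_lit 262) (nat_lit 217))) (XT.nd (nat_lit 78) (nat_lit 152) (nat_lit 0) (XT.lf (nat_lit 0) (nat_lit 22888948990) (nat_lit 76) (nat_lit 4635210790) (nat_lit 152) (nat_lit 10940603771) (nat_lit 13) (nat_lit 5) (nat_lit 14) (nat_lit 5) (nat_lit 15) (nat_lit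 4) (nat_lit 302) (nat_lit 262) (nat_lit 216)) (XT.nd (nat_lit 78) (nat_lit 76) (nat_lit 0) (XT.lf (nat_lit 0) (nat_lit 1038241041) (nat_lit 76) (nat_lit 36003262433) (nat_lit 76) (nat_lit 3993939852) (nat_lit 12) (nat_lit 4) (nat_lit 13) (nat_lit 5) (nat_lit 13) (nat_lit 4) (nat_lit 303) (nat_lit 262) (nat_lit 215)) (XT.lf (nat_lit 0) (nat_lit 3709046069) (nat_lit 152) (nat_lit 24471219188) (nat_lit 76) (nat_lit 15613163502) (nat_lit 11) (nat_lit 5) (nat_lit 13) (nat_lit 5) (nat_lit 12) (nat_lit 4) (nat_lit 304) (nat_lit 262) (nat_lit 214))))))))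
noncomputable def xc53 : XT := (XT.nd (nat_lit 1560) (nat_lit 76) (nat_lit 0) (XT.nd (nat_lit 780) (nat_lit 228) (nat_lit 0) (XT.nd (nat_lit 390) (nat_lit 152) (nat_lit 0) (XT.nd (nat_lit 156) (nat_lit 76) (nat_lit 0) (XT.nd (nat_lit 78) (nat_lit 76) (nat_lit 0) (XT.lf (nat_lit 0) (nat_lit 11852208540) (nat_lit 152) (nat_lit 7838329689) (nat_lit 76) (nat_lit 27080079441) (nat_lit 11) (nat_lit 5) (nat_lit 13) (nat_lit 5) (nat_lit 12) (nat_lit 4) (nat_lit 305) (nat_lit 262) (nat_lit 213)) (XT.lf (nat_lit 0) (nat_lit 10395096071) (nat_lit 76) (nat_lit 10378834865) (nat_lit 152) (nat_lit 29205724723) (nat_lit 10) (nat_lit 5) (nat_lit 11) (nat_lit 5) (nat_lit 12) (nat_lit 4) (nat_lit 306) (nat_lit 262) (nat_lit 212))) (XT.nd (nat_lit 78) (nat_lit 76) (nat_lit 0) (XT.lf (nat_lit 0) (nat_lit 30307026562) (nat_lit 76) (nat_lit 205382280) (nat_lit 152) (nat_lit 22927884100) (nat_lit 10) (nat_lit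 5) (nat_lit 11) (nat_lit 5) (nat_lit 12) (nat_lit 4) (nat_lit 307) (nat_lit 262) (nat_lit 211)) (XT.nd (nat_lit 78) (nat_lit 76) (nat_lit 0) (XT.lf (nat_lit 0) (nat_lit 41166879632) (nat_lit 152) (nat_lit 5591022951) (nat_lit 0) (nat_lit 10413058022) (nat_lit 10) (nat_lit 5) (nat_lit 12) (nat_lit 4) (nat_lit 10) (nat_lit 4) (nat_lit 308) (nat_lit 262) (nat_lit 210)) (XT.lf (nat_lit 0) (nat_lit 13738238065) (nat_lit 76) (nat_lit 39124331324) (nat_lit 76) (nat_lit 8328092496) (nat_lit 9) (nat_lit 4) (nat_lit 10) (nat_lit 5) (nat_lit 10) (nat_lit 4) (nat_lit 309) (nat_lit 262) (nat_lit 209))))) (XT.nd (nat_lit 156) (nat_lit 76) (nat_lit 0) (XT.nd (nat_lit 78) (nat_lit 0) (nat_lit 0) (XT.lf (nat_lit 0) (nat_lit 33980587) (nat_lit 152) (nat_lit 30765853826) (nat_lit 76) (nat_lit 34728615633) (nat_lit 8) (nat_lit 5) (nat_lit 10) (nat_lit 5) (nat_lit 9) (nat_lit 4) (nat_lit 310) (nat_lit 262)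 (nat_lit 208)) (XT.lf (nat_lit 0) (nat_lit 8751033255) (nat_lit 152) (nat_lit 12932261785) (nat_lit 76) (nat_lit 48524269438) (nat_lit 8) (nat_lit 5) (nat_lit 10) (nat_lit 5) (nat_lit 9) (nat_lit 4) (nat_lit 311) (nat_lit 262) (nat_lit 207))) (XT.nd (nat_lit 78) (nat_lit 0) (nat_lit 0) (XT.lf (nat_lit 0) (nat_lit 6491837040) (nat_lit 76) (nat_lit 11750791815) (nat_lit 152) (nat_lit 57014537864) (nat_lit 7) (nat_lit 5) (nat_lit 8) (nat_lit 5) (nat_lit 9) (nat_lit 4) (nat_lit 312) (nat_lit 262) (nat_lit 206)) (XT.nd (nat_lit 78) (nat_lit 0) (nat_lit 0) (XT.lf (nat_lit 0) (nat_lit 27889621207) (nat_lit 76) (nat_lit 806159887) (nat_lit 152) (nat_lit 52004860886) (nat_lit 7) (nat_lit 5) (nat_lit 8) (nat_lit 5) (nat_lit 9) (nat_lit 4) (nat_lit 313) (nat_lit 262) (nat_lit 205)) (XT.lf (nat_lit 0) (nat_lit 40135535011) (nat_lit 152) (nat_lit 35792069019) (nat_lit 0) (nat_lit 10644488838) (nat_lit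 7) (nat_lit 5) (nat_lit 9) (nat_lit 4) (nat_lit 7) (nat_lit 4) (nat_lit 314) (nat_lit 262) (nat_lit 204)))))) (XT.nd (nat_lit 390) (nat_lit 152) (nat_lit 0) (XT.nd (nat_lit 156) (nat_lit 0) (nat_lit 0) (XT.nd (nat_lit 78) (nat_lit 76) (nat_lit 0) (XT.lf (nat_lit 0) (nat_lit 52484052782) (nat_lit 152) (nat_lit 17461992408) (nat_lit 0) (nat_lit 22967549425) (nat_lit 7) (nat_lit 5) (nat_lit 9) (nat_lit 4) (nat_lit 7) (nat_lit 4) (nat_lit 315) (nat_lit 262) (nat_lit 203)) (XT.lf (nat_lit 0) (nat_lit 2376480362) (nat_lit 76) (nat_lit 63462547549) (nat_lit 76) (nat_lit 33922472726) (nat_lit 6) (nat_lit 4) (nat_lit 7) (nat_lit 5) (nat_lit 7) (nat_lit 4) (nat_lit 316) (nat_lit 262) (nat_lit 202))) (XT.nd (nat_lit 78) (nat_lit 0) (nat_lit 0) (XT.lf (nat_lit 0) (nat_lit 24393001625) (nat_lit 76) (nat_lit 56155912056) (nat_lit 76) (nat_lit 26594011801) (nat_lit 6) (nat_lit 4) (nat_lit 7) (nat_lit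 5) (nat_lit 7) (nat_lit 4) (nat_lit 317) (nat_lit 262) (nat_lit 201)) (XT.nd (nat_lit 78) (nat_lit 0) (nat_lit 0) (XT.lf (nat_lit 0) (nat_lit 48140667325) (nat_lit 76) (nat_lit 48278567421) (nat_lit 76) (nat_lit 18696458433) (nat_lit 6) (nat_lit 4) (nat_lit 7) (nat_lit 5) (nat_lit 7) (nat_lit 4) (nat_lit 318) (nat_lit 262) (nat_lit 200)) (XT.lf (nat_lit 0) (nat_lit 73760204369) (nat_lit 76) (nat_lit 39783833083) (nat_lit 76) (nat_lit 10183012306) (nat_lit 6) (nat_lit 4) (nat_lit 7) (nat_lit 5) (nat_lit 7) (nat_lit 4) (nat_lit 319) (nat_lit 262) (nat_lit 199))))) (XT.nd (nat_lit 156) (nat_lit 76) (nat_lit 0) (XT.nd (nat_lit 78) (nat_lit 76) (nat_lit 0) (XT.lf (nat_lit 0) (nat_lit 101403432236) (nat_lit 76) (nat_lit 30621369877) (nat_lit 76) (nat_lit 1003223368) (nat_lit 6) (nat_lit 4) (nat_lit 7) (nat_lit 5) (nat_lit 7) (nat_lit 4) (nat_lit 320) (nat_lit 262) (nat_lit 198)) (XT.lf (nat_lit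 0) (nat_lit 8612537736) (nat_lit 152) (nat_lit 11978486493) (nat_lit 76) (nat_lit 122475767416) (nat_lit 5) (nat_lit 5) (nat_lit 7) (nat_lit 5) (nat_lit 6) (nat_lit 4) (nat_lit 321) (nat_lit 262) (nat_lit 197))) (XT.nd (nat_lit 78) (nat_lit 0) (nat_lit 0) (XT.lf (nat_lit 0) (nat_lit 9503986312) (nat_lit 76) (nat_lit 9595052315) (nat_lit 152) (nat_lit 134801974574) (nat_lit 4) (nat_lit 5) (nat_lit 5) (nat_lit 5) (nat_lit 6) (nat_lit 4) (nat_lit 322) (nat_lit 262) (nat_lit 196)) (XT.nd (nat_lit 78) (nat_lit 0) (nat_lit 0) (XT.lf (nat_lit 0) (nat_lit 30660330314) (nat_lit 152) (nat_lit 132519807978) (nat_lit 0) (nat_lit 2410047839) (nat_lit 4) (nat_lit 5) (nat_lit 6) (nat_lit 4) (nat_lit 4) (nat_lit 4) (nat_lit 323) (nat_lit 262) (nat_lit 195)) (XT.lf (nat_lit 0) (nat_lit 43297376637) (nat_lit 152) (nat_lit 119874614690) (nat_lit 0) (nat_lit 15034965657) (nat_lit 4) (nat_lit 5) (nat_lit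 6) (nat_lit 4) (nat_lit 4) (nat_lit 4) (nat_lit 324) (nat_lit 262) (nat_lit 194))))))) (XT.nd (nat_lit 780) (nat_lit 0) (nat_lit 0) (XT.nd (nat_lit 390) (nat_lit 76) (nat_lit 0) (XT.nd (nat_lit 156) (nat_lit 0) (nat_lit 0) (XT.nd (nat_lit 78) (nat_lit 0) (nat_lit 0) (XT.lf (nat_lit 0) (nat_lit 56935258139) (nat_lit 152) (nat_lit 106236706891) (nat_lit 0) (nat_lit 28661617062) (nat_lit 4) (nat_lit 5) (nat_lit 6) (nat_lit 4) (nat_lit 4) (nat_lit 4) (nat_lit 325) (nat_lit 262) (nat_lit 193)) (XT.lf (nat_lit 0) (nat_lit 71654791896) (nat_lit 152) (nat_lit 91525267350) (nat_lit 0) (nat_lit 43370752581) (nat_lit 4) (nat_lit 5) (nat_lit 6) (nat_lit 4) (nat_lit 4) (nat_lit 4) (nat_lit 326) (nat_lit 262) (nat_lit 192))) (XT.nd (nat_lit 78) (nat_lit 0) (nat_lit 0) (XT.lf (nat_lit 0) (nat_lit 87543204774) (nat_lit 152) (nat_lit 75653117165) (nat_lit 0) (nat_lit 59249537462) (nat_lit 4) (nat_lit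 5) (nat_lit 6) (nat_lit 4) (nat_lit 4) (nat_lit 4) (nat_lit 327) (nat_lit 262) (nat_lit 191)) (XT.nd (nat_lit 78) (nat_lit 0) (nat_lit 0) (XT.lf (nat_lit 0) (nat_lit 104694650332) (nat_lit 152) (nat_lit 58526199149) (nat_lit 0) (nat_lit 76392068207) (nat_lit 4) (nat_lit 5) (nat_lit 6) (nat_lit 4) (nat_lit 4) (nat_lit 4) (nat_lit 328) (nat_lit 262) (nat_lit 190)) (XT.lf (nat_lit 0) (nat_lit 123210766765) (nat_lit 152) (nat_lit 40043020457) (nat_lit 0) (nat_lit 94899930183) (nat_lit 4) (nat_lit 5) (nat_lit 6) (nat_lit 4) (nat_lit 4) (nat_lit 4) (nat_lit 329) (nat_lit 262) (nat_lit 189))))) (XT.nd (nat_lit 156) (nat_lit 0) (nat_lit 0) (XT.nd (nat_lit 78) (nat_lit 76) (nat_lit 0) (XT.lf (nat_lit 0) (nat_lit 143201279207) (nat_lit 152) (nat_lit 20094051139) (nat_lit 0) (nat_lit 114882799611) (nat_lit 4) (nat_lit 5) (nat_lit 6) (nat_lit 4) (nat_lit 4) (nat_lit 4) (nat_lit 330) (nat_lit 262)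 (nat_lit 188)) (XT.lf (nat_lit 0) (nat_lit 1486502274) (nat_lit 76) (nat_lit 163321356147) (nat_lit 76) (nat_lit 134995799685) (nat_lit 3) (nat_lit 4) (nat_lit 4) (nat_lit 5) (nat_lit 4) (nat_lit 4) (nat_lit 331) (nat_lit 262) (nat_lit 187))) (XT.nd (nat_lit 78) (nat_lit 0) (nat_lit 0) (XT.lf (nat_lit 0) (nat_lit 25499658869) (nat_lit 76) (nat_lit 162987242734) (nat_lit 76) (nat_lit 134655133618) (nat_lit 3) (nat_lit 4) (nat_lit 4) (nat_lit 5) (nat_lit 4) (nat_lit 4) (nat_lit 332) (nat_lit 262) (nat_lit 186)) (XT.nd (nat_lit 78) (nat_lit 0) (nat_lit 0) (XT.lf (nat_lit 0) (nat_lit 51423318753) (nat_lit 76) (nat_lit 162631312655) (nat_lit 76) (nat_lit 134293136267) (nat_lit 3) (nat_lit 4) (nat_lit 4) (nat_lit 5) (nat_lit 4) (nat_lit 4) (nat_lit 333) (nat_lit 262) (nat_lit 185)) (XT.lf (nat_lit 0) (nat_lit 79411103616) (nat_lit 76) (nat_lit 162251456694) (nat_lit 76) (nat_lit 133907662462)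 (nat_lit 3) (nat_lit 4) (nat_lit 4) (nat_lit 5) (nat_lit 4) (nat_lit 4) (nat_lit 334) (nat_lit 262) (nat_lit 184)))))) (XT.nd (nat_lit 390) (nat_lit 0) (nat_lit 0) (XT.nd (nat_lit 156) (nat_lit 0) (nat_lit 0) (XT.nd (nat_lit 78) (nat_lit 0) (nat_lit 0) (XT.lf (nat_lit 0) (nat_lit 109628866997) (nat_lit 76) (nat_lit 161845423853) (nat_lit 76) (nat_lit 133496427913) (nat_lit 3) (nat_lit 4) (nat_lit 4) (nat_lit 5) (nat_lit 4) (nat_lit 4) (nat_lit 335) (nat_lit 262) (nat_lit 183)) (XT.lf (nat_lit 0) (nat_lit 142255677123) (nat_lit 76) (nat_lit 161410808012) (nat_lit 76) (nat_lit 133056995676) (nat_lit 3) (nat_lit 4) (nat_lit 4) (nat_lit 5) (nat_lit 4) (nat_lit 4) (nat_lit 336) (nat_lit 262) (nat_lit 182))) (XT.nd (nat_lit 78) (nat_lit 0) (nat_lit 0) (XT.lf (nat_lit 0) (nat_lit 177484878055) (nat_lit 76) (nat_lit 160945033669) (nat_lit 76) (nat_lit 132586761707) (nat_lit 3) (nat_lit 4) (nat_lit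 4) (nat_lit 5) (nat_lit 4) (nat_lit 4) (nat_lit 337) (nat_lit 262) (nat_lit 181)) (XT.nd (nat_lit 78) (nat_lit 0) (nat_lit 0) (XT.lf (nat_lit 0) (nat_lit 215525235428) (nat_lit 76) (nat_lit 160445340679) (nat_lit 76) (nat_lit 132082939434) (nat_lit 3) (nat_lit 4) (nat_lit 4) (nat_lit 5) (nat_lit 4) (nat_lit 4) (nat_lit 338) (nat_lit 262) (nat_lit 180)) (XT.lf (nat_lit 0) (nat_lit 256602173581) (nat_lit 76) (nat_lit 159908767901) (nat_lit 76) (nat_lit 131542543245) (nat_lit 3) (nat_lit 4) (nat_lit 4) (nat_lit 5) (nat_lit 4) (nat_lit 4) (nat_lit 339) (nat_lit 262) (nat_lit 179))))) (XT.nd (nat_lit 234) (nat_lit 0) (nat_lit 0) (XT.nd (nat_lit 78) (nat_lit 0) (nat_lit 0) (XT.lf (nat_lit 0) (nat_lit 300959111408) (nat_lit 76) (nat_lit 159332135642) (nat_lit 76) (nat_lit 130962370792) (nat_lit 3) (nat_lit 4) (nat_lit 4) (nat_lit 5) (nat_lit 4) (nat_lit 4) (nat_lit 340) (nat_lit 262) (nat_lit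 178)) (XT.nd (nat_lit 78) (nat_lit 0) (nat_lit 0) (XT.lf (nat_lit 0) (nat_lit 348858904836) (nat_lit 76) (nat_lit 158712026823) (nat_lit 76) (nat_lit 130338984014) (nat_lit 3) (nat_lit 4) (nat_lit 4) (nat_lit 5) (nat_lit 4) (nat_lit 4) (nat_lit 341) (nat_lit 262) (nat_lit 177)) (XT.lf (nat_lit 0) (nat_lit 400585404493) (nat_lit 76) (nat_lit 158044766725) (nat_lit 76) (nat_lit 129668688770) (nat_lit 3) (nat_lit 4) (nat_lit 4) (nat_lit 5) (nat_lit 4) (nat_lit 4) (nat_lit 342) (nat_lit 262) (nat_lit 176)))) (XT.nd (nat_lit 78) (nat_lit 0) (nat_lit 0) (XT.lf (nat_lit 0) (nat_lit 456445137785) (nat_lit 76) (nat_lit 157326401214) (nat_lit 76) (nat_lit 128947512938) (nat_lit 3) (nat_lit 4) (nat_lit 4) (nat_lit 5) (nat_lit 4) (nat_lit 4) (nat_lit 343) (nat_lit 262) (nat_lit 175)) (XT.nd (nat_lit 78) (nat_lit 0) (nat_lit 0) (XT.lf (nat_lit 0) (nat_lit 516769125352) (nat_lit 76) (nat_lit 156552673309)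 (nat_lit 76) (nat_lit 128171182884) (nat_lit 3) (nat_lit 4) (nat_lit 4) (nat_lit 5) (nat_lit 4) (nat_lit 4) (nat_lit 344) (nat_lit 262) (nat_lit 174)) (XT.lf (nat_lit 0) (nat_lit 581914842678) (nat_lit 76) (nat_lit 155718997956) (nat_lit 76) (nat_lit 127335098134) (nat_lit 3) (nat_lit 4) (nat_lit 4) (nat_lit 5) (nat_lit 4) (nat_lit 4) (nat_lit 345) (nat_lit 262) (nat_lit 173))))))))
noncomputable def xc54 : XT := (XT.nd (nat_lit 35646) (nat_lit 0) (nat_lit 836) (XT.nd (nat_lit 34866) (nat_lit 0) (nat_lit 3268) (XT.nd (nat_lit 34476) (nat_lit 0) (nat_lit 6384) (XT.nd (nat_lit 34242) (nat_lit 0) (nat_lit 8360) (XT.nd (nat_lit 34164) (nat_lit 0) (nat_lit 8740) (XT.lf (nat_lit 0) (nat_lit 652268338457) (nat_lit 76) (nat_lit 154820434856) (nat_lit 76) (nat_lit 126434304111) (nat_lit 3) (nat_lit 4) (nat_lit 4) (nat_lit 5) (nat_lit 4) (nat_lit 4) (nat_lit 346) (nat_lit 262) (nat_lit 172)) (XT.lf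 (nat_lit 0) (nat_lit 1962747045) (nat_lit 380) (nat_lit 695928363) (nat_lit 380) (nat_lit 695928363) (nat_lit 118) (nat_lit 3) (nat_lit 123) (nat_lit 3) (nat_lit 123) (nat_lit 5) (nat_lit 263) (nat_lit 263) (nat_lit 254))) (XT.nd (nat_lit 78) (nat_lit 0) (nat_lit 0) (XT.lf (nat_lit 0) (nat_lit 402499141) (nat_lit 380) (nat_lit 3265681551) (nat_lit 456) (nat_lit 3139979748) (nat_lit 113) (nat_lit 5) (nat_lit 118) (nat_lit 3) (nat_lit 119) (nat_lit 5) (nat_lit 264) (nat_lit 263) (nat_lit 253)) (XT.nd (nat_lit 78) (nat_lit 0) (nat_lit 76) (XT.lf (nat_lit 76) (nat_lit 1839238083) (nat_lit 0) (nat_lit 1643828434) (nat_lit 456) (nat_lit 3443975629) (nat_lit 114) (nat_lit 5) (nat_lit 113) (nat_lit 5) (nat_lit 119) (nat_lit 5) (nat_lit 265) (nat_lit 263) (nat_lit 252)) (XT.lf (nat_lit 76) (nat_lit 224584698) (nat_lit 0) (nat_lit 6360409802) (nat_lit 456) (nat_lit 482753002) (nat_lit 115) (nat_lit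 5) (nat_lit 114) (nat_lit 5) (nat_lit 120) (nat_lit 5) (nat_lit 266) (nat_lit 263) (nat_lit 251))))) (XT.nd (nat_lit 156) (nat_lit 1596) (nat_lit 0) (XT.nd (nat_lit 78) (nat_lit 0) (nat_lit 0) (XT.lf (nat_lit 0) (nat_lit 2464913679) (nat_lit 456) (nat_lit 1334962522) (nat_lit 532) (nat_lit 3426824366) (nat_lit 108) (nat_lit 5) (nat_lit 114) (nat_lit 5) (nat_lit 115) (nat_lit 5) (nat_lit 267) (nat_lit 263) (nat_lit 250)) (XT.lf (nat_lit 76) (nat_lit 4574607074) (nat_lit 0) (nat_lit 868019874) (nat_lit 532) (nat_lit 1965654487) (nat_lit 109) (nat_lit 5) (nat_lit 108) (nat_lit 5) (nat_lit 115) (nat_lit 5) (nat_lit 268) (nat_lit 263) (nat_lit 249))) (XT.nd (nat_lit 78) (nat_lit 1140) (nat_lit 0) (XT.lf (nat_lit 0) (nat_lit 885618091) (nat_lit 532) (nat_lit 4339757813) (nat_lit 76) (nat_lit 2385692884) (nat_lit 102) (nat_lit 5) (nat_lit 109) (nat_lit 5) (nat_lit 103) (nat_lit 5) (nat_lit 269)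 (nat_lit 263) (nat_lit 248)) (XT.nd (nat_lit 78) (nat_lit 608) (nat_lit 0) (XT.lf (nat_lit 0) (nat_lit 1968308799) (nat_lit 532) (nat_lit 1792356316) (nat_lit 608) (nat_lit 4075281788) (nat_lit 95) (nat_lit 5) (nat_lit 102) (nat_lit 5) (nat_lit 103) (nat_lit 5) (nat_lit 270) (nat_lit 263) (nat_lit 247)) (XT.lf (nat_lit 0) (nat_lit 662487027) (nat_lit 608) (nat_lit 6103460057) (nat_lit 684) (nat_lit 1318510277) (nat_lit 87) (nat_lit 5) (nat_lit 95) (nat_lit 5) (nat_lit 96) (nat_lit 5) (nat_lit 271) (nat_lit 263) (nat_lit 246)))))) (XT.nd (nat_lit 390) (nat_lit 1216) (nat_lit 0) (XT.nd (nat_lit 156) (nat_lit 1140) (nat_lit 0) (XT.nd (nat_lit 78) (nat_lit 684) (nat_lit 0) (XT.lf (nat_lit 0) (nat_lit 1532292729) (nat_lit 684) (nat_lit 668756664) (nat_lit 76) (nat_lit 6154751656) (nat_lit 86) (nat_lit 5) (nat_lit 95) (nat_lit 5) (nat_lit 87) (nat_lit 5) (nat_lit 272) (nat_lit 263) (nat_lit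 245)) (XT.lf (nat_lit 0) (nat_lit 4510903439) (nat_lit 760) (nat_lit 2045310336) (nat_lit 76) (nat_lit 2094794547) (nat_lit 77) (nat_lit 5) (nat_lit 87) (nat_lit 5) (nat_lit 78) (nat_lit 5) (nat_lit 273) (nat_lit 263) (nat_lit 244))) (XT.nd (nat_lit 78) (nat_lit 760) (nat_lit 0) (XT.lf (nat_lit 0) (nat_lit 5478737361) (nat_lit 380) (nat_lit 2203262693) (nat_lit 456) (nat_lit 1290616452) (nat_lit 72) (nat_lit 5) (nat_lit 77) (nat_lit 5) (nat_lit 78) (nat_lit 5) (nat_lit 274) (nat_lit 263) (nat_lit 243)) (XT.nd (nat_lit 78) (nat_lit 304) (nat_lit 0) (XT.lf (nat_lit 0) (nat_lit 1701224376) (nat_lit 456) (nat_lit 5069616721) (nat_lit 76) (nat_lit 2549574007) (nat_lit 66) (nat_lit 5) (nat_lit 72) (nat_lit 5) (nat_lit 67) (nat_lit 5) (nat_lit 275) (nat_lit 263) (nat_lit 242)) (XT.lf (nat_lit 0) (nat_lit 2904440396) (nat_lit 304) (nat_lit 1965048335) (nat_lit 380) (nat_lit 4826779824) (nat_lit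 62) (nat_lit 5) (nat_lit 66) (nat_lit 5) (nat_lit 67) (nat_lit 5) (nat_lit 276) (nat_lit 263) (nat_lit 241))))) (XT.nd (nat_lit 156) (nat_lit 836) (nat_lit 0) (XT.nd (nat_lit 78) (nat_lit 76) (nat_lit 0) (XT.lf (nat_lit 0) (nat_lit 1417638797) (nat_lit 304) (nat_lit 6882354867) (nat_lit 380) (nat_lit 1802131264) (nat_lit 58) (nat_lit 5) (nat_lit 62) (nat_lit 5) (nat_lit 63) (nat_lit 5) (nat_lit 277) (nat_lit 263) (nat_lit 240)) (XT.lf (nat_lit 0) (nat_lit 1423571694) (nat_lit 380) (nat_lit 239261873) (nat_lit 76) (nat_lit 8876504708) (nat_lit 57) (nat_lit 5) (nat_lit 62) (nat_lit 5) (nat_lit 58) (nat_lit 5) (nat_lit 278) (nat_lit 263) (nat_lit 239))) (XT.nd (nat_lit 78) (nat_lit 608) (nat_lit 0) (XT.lf (nat_lit 0) (nat_lit 4913177569) (nat_lit 304) (nat_lit 2096409984) (nat_lit 76) (nat_lit 3997319811) (nat_lit 54) (nat_lit 5) (nat_lit 58) (nat_lit 5) (nat_lit 55) (nat_lit 5) (nat_lit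 279) (nat_lit 263) (nat_lit 238)) (XT.nd (nat_lit 78) (nat_lit 304) (nat_lit 0) (XT.lf (nat_lit 0) (nat_lit 7336074768) (nat_lit 304) (nat_lit 1363513950) (nat_lit 380) (nat_lit 2811693889) (nat_lit 50) (nat_lit 5) (nat_lit 54) (nat_lit 5) (nat_lit 55) (nat_lit 5) (nat_lit 280) (nat_lit 263) (nat_lit 237)) (XT.lf (nat_lit 0) (nat_lit 784626132) (nat_lit 304) (nat_lit 6578959819) (nat_lit 76) (nat_lit 4688339933) (nat_lit 46) (nat_lit 5) (nat_lit 50) (nat_lit 5) (nat_lit 47) (nat_lit 5) (nat_lit 281) (nat_lit 263) (nat_lit 236))))))) (XT.nd (nat_lit 780) (nat_lit 988) (nat_lit 0) (XT.nd (nat_lit 390) (nat_lit 608) (nat_lit 0) (XT.nd (nat_lit 156) (nat_lit 456) (nat_lit 0) (XT.nd (nat_lit 78) (nat_lit 152) (nat_lit 0) (XT.lf (nat_lit 0) (nat_lit 3287637186) (nat_lit 228) (nat_lit 1314163811) (nat_lit 304) (nat_lit 8030362731) (nat_lit 43) (nat_lit 5) (nat_lit 46) (nat_lit 5) (nat_lit 47)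 (nat_lit 5) (nat_lit 282) (nat_lit 263) (nat_lit 235)) (XT.lf (nat_lit 0) (nat_lit 710453019) (nat_lit 152) (nat_lit 8110871308) (nat_lit 228) (nat_lit 4432861100) (nat_lit 41) (nat_lit 5) (nat_lit 43) (nat_lit 5) (nat_lit 44) (nat_lit 5) (nat_lit 283) (nat_lit 263) (nat_lit 234))) (XT.nd (nat_lit 78) (nat_lit 456) (nat_lit 0) (XT.lf (nat_lit 0) (nat_lit 11733011226) (nat_lit 152) (nat_lit 1723889363) (nat_lit 228) (nat_lit 465341456) (nat_lit 41) (nat_lit 5) (nat_lit 43) (nat_lit 5) (nat_lit 44) (nat_lit 5) (nat_lit 284) (nat_lit 263) (nat_lit 233)) (XT.nd (nat_lit 78) (nat_lit 152) (nat_lit 0) (XT.lf (nat_lit 0) (nat_lit 3822607116) (nat_lit 304) (nat_lit 5637706409) (nat_lit 76) (nat_lit 5174358429) (nat_lit 37) (nat_lit 5) (nat_lit 41) (nat_lit 5) (nat_lit 38) (nat_lit 5) (nat_lit 285) (nat_lit 263) (nat_lit 232)) (XT.lf (nat_lit 0) (nat_lit 5762589173) (nat_lit 152) (nat_lit 2737400260)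 (nat_lit 228) (nat_lit 6900751790) (nat_lit 35) (nat_lit 5) (nat_lit 37) (nat_lit 5) (nat_lit 38) (nat_lit 5) (nat_lit 286) (nat_lit 263) (nat_lit 231))))) (XT.nd (nat_lit 156) (nat_lit 304) (nat_lit 0) (XT.nd (nat_lit 78) (nat_lit 76) (nat_lit 0) (XT.lf (nat_lit 0) (nat_lit 1905445795) (nat_lit 228) (nat_lit 11755326156) (nat_lit 304) (nat_lit 2562013095) (nat_lit 32) (nat_lit 5) (nat_lit 35) (nat_lit 5) (nat_lit 36) (nat_lit 5) (nat_lit 287) (nat_lit 263) (nat_lit 230)) (XT.lf (nat_lit 0) (nat_lit 2184826727) (nat_lit 304) (nat_lit 2601021419) (nat_lit 76) (nat_lit 12316769229) (nat_lit 31) (nat_lit 5) (nat_lit 35) (nat_lit 5) (nat_lit 32) (nat_lit 5) (nat_lit 288) (nat_lit 263) (nat_lit 229))) (XT.nd (nat_lit 78) (nat_lit 152) (nat_lit 0) (XT.lf (nat_lit 0) (nat_lit 7346444866) (nat_lit 228) (nat_lit 7879655624) (nat_lit 76) (nat_lit 2818518274) (nat_lit 29) (nat_lit 5) (nat_lit 32)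 (nat_lit 5) (nat_lit 30) (nat_lit 5) (nat_lit 289) (nat_lit 263) (nat_lit 228)) (XT.nd (nat_lit 78) (nat_lit 0) (nat_lit 0) (XT.lf (nat_lit 0) (nat_lit 4940546746) (nat_lit 152) (nat_lit 8106550133) (nat_lit 228) (nat_lit 6008691185) (nat_lit 27) (nat_lit 5) (nat_lit 29) (nat_lit 5) (nat_lit 30) (nat_lit 5) (nat_lit 290) (nat_lit 263) (nat_lit 227)) (XT.lf (nat_lit 0) (nat_lit 18951493038) (nat_lit 152) (nat_lit 315732651) (nat_lit 228) (nat_lit 877558637) (nat_lit 27) (nat_lit 5) (nat_lit 29) (nat_lit 5) (nat_lit 30) (nat_lit 5) (nat_lit 291) (nat_lit 263) (nat_lit 226)))))) (XT.nd (nat_lit 390) (nat_lit 304) (nat_lit 0) (XT.nd (nat_lit 156) (nat_lit 304) (nat_lit 0) (XT.nd (nat_lit 78) (nat_lit 152) (nat_lit 0) (XT.lf (nat_lit 0) (nat_lit 4778428500) (nat_lit 228) (nat_lit 8445513117) (nat_lit 76) (nat_lit 8080227840) (nat_lit 24) (nat_lit 5) (nat_lit 27) (nat_lit 5) (nat_lit 25) (nat_lit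 5) (nat_lit 292) (nat_lit 263) (nat_lit 225)) (XT.lf (nat_lit 0) (nat_lit 5571952167) (nat_lit 152) (nat_lit 5331372579) (nat_lit 228) (nat_lit 11649988013) (nat_lit 22) (nat_lit 5) (nat_lit 24) (nat_lit 5) (nat_lit 25) (nat_lit 5) (nat_lit 293) (nat_lit 263) (nat_lit 224))) (XT.nd (nat_lit 78) (nat_lit 304) (nat_lit 0) (XT.lf (nat_lit 0) (nat_lit 17653606761) (nat_lit 228) (nat_lit 3040844565) (nat_lit 76) (nat_lit 3201245615) (nat_lit 22) (nat_lit 5) (nat_lit 25) (nat_lit 5) (nat_lit 23) (nat_lit 4) (nat_lit 294) (nat_lit 263) (nat_lit 223)) (XT.nd (nat_lit 78) (nat_lit 228) (nat_lit 0) (XT.lf (nat_lit 0) (nat_lit 12217958864) (nat_lit 76) (nat_lit 12947366366) (nat_lit 152) (nat_lit 169149191) (nat_lit 21) (nat_lit 5) (nat_lit 22) (nat_lit 5) (nat_lit 23) (nat_lit 4) (nat_lit 295) (nat_lit 263) (nat_lit 222)) (XT.lf (nat_lit 0) (nat_lit 1780916748) (nat_lit 152) (nat_lit 4428540044)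 (nat_lit 228) (nat_lit 20672757024) (nat_lit 18) (nat_lit 5) (nat_lit 20) (nat_lit 5) (nat_lit 21) (nat_lit 5) (nat_lit 296) (nat_lit 263) (nat_lit 221))))) (XT.nd (nat_lit 156) (nat_lit 228) (nat_lit 0) (XT.nd (nat_lit 78) (nat_lit 76) (nat_lit 0) (XT.lf (nat_lit 0) (nat_lit 13344160955) (nat_lit 228) (nat_lit 10378761686) (nat_lit 76) (nat_lit 4818184097) (nat_lit 18) (nat_lit 5) (nat_lit 21) (nat_lit 5) (nat_lit 19) (nat_lit 4) (nat_lit 297) (nat_lit 263) (nat_lit 220)) (XT.lf (nat_lit 0) (nat_lit 5537236098) (nat_lit 76) (nat_lit 15622538506) (nat_lit 152) (nat_lit 9167485217) (nat_lit 17) (nat_lit 5) (nat_lit 18) (nat_lit 5) (nat_lit 19) (nat_lit 4) (nat_lit 298) (nat_lit 263) (nat_lit 219))) (XT.nd (nat_lit 78) (nat_lit 228) (nat_lit 0) (XT.lf (nat_lit 0) (nat_lit 23014018925) (nat_lit 76) (nat_lit 6718897345) (nat_lit 152) (nat_lit 2516826216) (nat_lit 17) (nat_lit 5) (nat_lit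 18) (nat_lit 5) (nat_lit 19) (nat_lit 4) (nat_lit 299) (nat_lit 263) (nat_lit 218)) (XT.nd (nat_lit 78) (nat_lit 0) (nat_lit 0) (XT.lf (nat_lit 0) (nat_lit 4638260441) (nat_lit 228) (nat_lit 26709990939) (nat_lit 76) (nat_lit 2968089610) (nat_lit 14) (nat_lit 5) (nat_lit 17) (nat_lit 5) (nat_lit 15) (nat_lit 4) (nat_lit 300) (nat_lit 263) (nat_lit 217)) (XT.lf (nat_lit 0) (nat_lit 12511583997) (nat_lit 228) (nat_lit 10649824613) (nat_lit 76) (nat_lit 13373137300) (nat_lit 14) (nat_lit 5) (nat_lit 17) (nat_lit 5) (nat_lit 15) (nat_lit 4) (nat_lit 301) (nat_lit 263) (nat_lit 216))))))))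
noncomputable def xc55 : XT := (XT.nd (nat_lit 1560) (nat_lit 228) (nat_lit 0) (XT.nd (nat_lit 780) (nat_lit 152) (nat_lit 0) (XT.nd (nat_lit 390) (nat_lit 228) (nat_lit 0) (XT.nd (nat_lit 156) (nat_lit 152) (nat_lit 0) (XT.nd (nat_lit 78) (nat_lit 0) (nat_lit 0) (XT.lf (nat_lit 0) (nat_lit 6843038920) (nat_lit 76) (nat_lit 14237849313) (nat_lit 152) (nat_lit 17846052021) (nat_lit 13) (nat_lit 5) (nat_lit 14) (nat_lit 5) (nat_lit 15) (nat_lit 4) (nat_lit 302) (nat_lit 263) (nat_lit 215)) (XT.lf (nat_lit 0) (nat_lit 26047588745) (nat_lit 76) (nat_lit 4434891160) (nat_lit 152) (nat_lit 11020944985) (nat_lit 13) (nat_lit 5) (nat_lit 14) (nat_lit 5) (nat_lit 15) (nat_lit 4) (nat_lit 303) (nat_lit 263) (nat_lit 214))) (XT.nd (nat_lit 78) (nat_lit 76) (nat_lit 0) (XT.lf (nat_lit 0) (nat_lit 2419447798) (nat_lit 76) (nat_lit 38314258845) (nat_lit 76) (nat_lit 3547479507) (nat_lit 12) (nat_lit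 4) (nat_lit 13) (nat_lit 5) (nat_lit 13) (nat_lit 4) (nat_lit 304) (nat_lit 263) (nat_lit 213)) (XT.nd (nat_lit 78) (nat_lit 0) (nat_lit 0) (XT.lf (nat_lit 0) (nat_lit 4692306359) (nat_lit 152) (nat_lit 25203656454) (nat_lit 76) (nat_lit 17366041550) (nat_lit 11) (nat_lit 5) (nat_lit 13) (nat_lit 5) (nat_lit 12) (nat_lit 4) (nat_lit 305) (nat_lit 263) (nat_lit 212)) (XT.lf (nat_lit 0) (nat_lit 13436067264) (nat_lit 152) (nat_lit 7330895814) (nat_lit 76) (nat_lit 29712990397) (nat_lit 11) (nat_lit 5) (nat_lit 13) (nat_lit 5) (nat_lit 12) (nat_lit 4) (nat_lit 306) (nat_lit 263) (nat_lit 211))))) (XT.nd (nat_lit 156) (nat_lit 152) (nat_lit 0) (XT.nd (nat_lit 78) (nat_lit 0) (nat_lit 0) (XT.lf (nat_lit 0) (nat_lit 12311900008) (nat_lit 76) (nat_lit 10729482840) (nat_lit 152) (nat_lit 30905878108) (nat_lit 10) (nat_lit 5) (nat_lit 11) (nat_lit 5) (nat_lit 12) (nat_lit 4) (nat_lit 307) (nat_lit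 263) (nat_lit 210)) (XT.lf (nat_lit 0) (nat_lit 33517555332) (nat_lit 152) (nat_lit 23954099210) (nat_lit 0) (nat_lit 215200179) (nat_lit 10) (nat_lit 5) (nat_lit 12) (nat_lit 4) (nat_lit 10) (nat_lit 4) (nat_lit 308) (nat_lit 263) (nat_lit 209))) (XT.nd (nat_lit 78) (nat_lit 152) (nat_lit 0) (XT.lf (nat_lit 0) (nat_lit 44985801209) (nat_lit 152) (nat_lit 5087966491) (nat_lit 0) (nat_lit 11644170853) (nat_lit 10) (nat_lit 5) (nat_lit 12) (nat_lit 4) (nat_lit 10) (nat_lit 4) (nat_lit 309) (nat_lit 263) (nat_lit 208)) (XT.nd (nat_lit 78) (nat_lit 76) (nat_lit 0) (XT.lf (nat_lit 0) (nat_lit 15746334863) (nat_lit 76) (nat_lit 41846072711) (nat_lit 76) (nat_lit 8468076427) (nat_lit 9) (nat_lit 4) (nat_lit 10) (nat_lit 5) (nat_lit 10) (nat_lit 4) (nat_lit 310) (nat_lit 263) (nat_lit 207)) (XT.lf (nat_lit 0) (nat_lit 508383988) (nat_lit 152) (nat_lit 32369481263) (nat_lit 76) (nat_lit 37868933339)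 (nat_lit 8) (nat_lit 5) (nat_lit 10) (nat_lit 5) (nat_lit 9) (nat_lit 4) (nat_lit 311) (nat_lit 263) (nat_lit 206)))))) (XT.nd (nat_lit 390) (nat_lit 76) (nat_lit 0) (XT.nd (nat_lit 156) (nat_lit 0) (nat_lit 0) (XT.nd (nat_lit 78) (nat_lit 76) (nat_lit 0) (XT.lf (nat_lit 0) (nat_lit 9887861243) (nat_lit 152) (nat_lit 13172730811) (nat_lit 76) (nat_lit 52741422526) (nat_lit 8) (nat_lit 5) (nat_lit 10) (nat_lit 5) (nat_lit 9) (nat_lit 4) (nat_lit 312) (nat_lit 263) (nat_lit 205)) (XT.lf (nat_lit 0) (nat_lit 7770784784) (nat_lit 76) (nat_lit 12347507698) (nat_lit 152) (nat_lit 61138340658) (nat_lit 7) (nat_lit 5) (nat_lit 8) (nat_lit 5) (nat_lit 9) (nat_lit 4) (nat_lit 313) (nat_lit 263) (nat_lit 204))) (XT.nd (nat_lit 78) (nat_lit 0) (nat_lit 0) (XT.lf (nat_lit 0) (nat_lit 30824124959) (nat_lit 76) (nat_lit 552738361) (nat_lit 152) (nat_lit 55760286577) (nat_lit 7) (nat_lit 5) (nat_lit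 8) (nat_lit 5) (nat_lit 9) (nat_lit 4) (nat_lit 314) (nat_lit 263) (nat_lit 203)) (XT.nd (nat_lit 78) (nat_lit 0) (nat_lit 0) (XT.lf (nat_lit 0) (nat_lit 43707843806) (nat_lit 152) (nat_lit 37990699390) (nat_lit 0) (nat_lit 11780991531) (nat_lit 7) (nat_lit 5) (nat_lit 9) (nat_lit 4) (nat_lit 7) (nat_lit 4) (nat_lit 315) (nat_lit 263) (nat_lit 202)) (XT.lf (nat_lit 0) (nat_lit 57017467740) (nat_lit 152) (nat_lit 18243456291) (nat_lit 0) (nat_lit 25068790033) (nat_lit 7) (nat_lit 5) (nat_lit 9) (nat_lit 4) (nat_lit 7) (nat_lit 4) (nat_lit 316) (nat_lit 263) (nat_lit 201))))) (XT.nd (nat_lit 156) (nat_lit 0) (nat_lit 0) (XT.nd (nat_lit 78) (nat_lit 0) (nat_lit 0) (XT.lf (nat_lit 0) (nat_lit 3155345616) (nat_lit 76) (nat_lit 68269895345) (nat_lit 76) (nat_lit 36301008905) (nat_lit 6) (nat_lit 4) (nat_lit 7) (nat_lit 5) (nat_lit 7) (nat_lit 4) (nat_lit 317) (nat_lit 263) (nat_lit 200)) (XT.lf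 (nat_lit 0) (nat_lit 26889577704) (nat_lit 76) (nat_lit 60398703531) (nat_lit 76) (nat_lit 28411105301) (nat_lit 6) (nat_lit 4) (nat_lit 7) (nat_lit 5) (nat_lit 7) (nat_lit 4) (nat_lit 318) (nat_lit 263) (nat_lit 199))) (XT.nd (nat_lit 78) (nat_lit 0) (nat_lit 0) (XT.lf (nat_lit 0) (nat_lit 52496676219) (nat_lit 76) (nat_lit 51909666250) (nat_lit 76) (nat_lit 19904742289) (nat_lit 6) (nat_lit 4) (nat_lit 7) (nat_lit 5) (nat_lit 7) (nat_lit 4) (nat_lit 319) (nat_lit 263) (nat_lit 198)) (XT.nd (nat_lit 78) (nat_lit 0) (nat_lit 0) (XT.lf (nat_lit 0) (nat_lit 80128386930) (nat_lit 76) (nat_lit 42752478096) (nat_lit 76) (nat_lit 10731511791) (nat_lit 6) (nat_lit 4) (nat_lit 7) (nat_lit 5) (nat_lit 7) (nat_lit 4) (nat_lit 320) (nat_lit 263) (nat_lit 197)) (XT.lf (nat_lit 0) (nat_lit 109948453307) (nat_lit 76) (nat_lit 32872874250) (nat_lit 76) (nat_lit 837053924) (nat_lit 6) (nat_lit 4) (nat_lit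 7) (nat_lit 5) (nat_lit 7) (nat_lit 4) (nat_lit 321) (nat_lit 263) (nat_lit 196))))))) (XT.nd (nat_lit 780) (nat_lit 76) (nat_lit 0) (XT.nd (nat_lit 390) (nat_lit 0) (nat_lit 0) (XT.nd (nat_lit 156) (nat_lit 0) (nat_lit 0) (XT.nd (nat_lit 78) (nat_lit 76) (nat_lit 0) (XT.lf (nat_lit 0) (nat_lit 9522411218) (nat_lit 152) (nat_lit 12528631052) (nat_lit 76) (nat_lit 132449908995) (nat_lit 5) (nat_lit 5) (nat_lit 7) (nat_lit 5) (nat_lit 6) (nat_lit 4) (nat_lit 322) (nat_lit 263) (nat_lit 195)) (XT.lf (nat_lit 0) (nat_lit 10654702555) (nat_lit 76) (nat_lit 10182864047) (nat_lit 152) (nat_lit 145364867607) (nat_lit 4) (nat_lit 5) (nat_lit 5) (nat_lit 5) (nat_lit 6) (nat_lit 4) (nat_lit 323) (nat_lit 263) (nat_lit 194))) (XT.nd (nat_lit 78) (nat_lit 0) (nat_lit 0) (XT.lf (nat_lit 0) (nat_lit 33310760396) (nat_lit 152) (nat_lit 142752642318) (nat_lit 0) (nat_lit 2763997937) (nat_lit 4) (nat_lit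 5) (nat_lit 6) (nat_lit 4) (nat_lit 4) (nat_lit 4) (nat_lit 324) (nat_lit 263) (nat_lit 193)) (XT.nd (nat_lit 78) (nat_lit 0) (nat_lit 0) (XT.lf (nat_lit 0) (nat_lit 46944133116) (nat_lit 152) (nat_lit 129123148404) (nat_lit 0) (nat_lit 16386972419) (nat_lit 4) (nat_lit 5) (nat_lit 6) (nat_lit 4) (nat_lit 4) (nat_lit 4) (nat_lit 325) (nat_lit 263) (nat_lit 192)) (XT.lf (nat_lit 0) (nat_lit 61659492076) (nat_lit 152) (nat_lit 114419499497) (nat_lit 0) (nat_lit 31092703381) (nat_lit 4) (nat_lit 5) (nat_lit 6) (nat_lit 4) (nat_lit 4) (nat_lit 4) (nat_lit 326) (nat_lit 263) (nat_lit 191))))) (XT.nd (nat_lit 156) (nat_lit 0) (nat_lit 0) (XT.nd (nat_lit 78) (nat_lit 0) (nat_lit 0) (XT.lf (nat_lit 0) (nat_lit 77544039401) (nat_lit 152) (nat_lit 98554562862) (nat_lit 0) (nat_lit 46968335893) (nat_lit 4) (nat_lit 5) (nat_lit 6) (nat_lit 4) (nat_lit 4) (nat_lit 4) (nat_lit 327) (nat_lit 263) (nat_lit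 190)) (XT.lf (nat_lit 0) (nat_lit 94691905742) (nat_lit 152) (nat_lit 81434324060) (nat_lit 0) (nat_lit 64107947778) (nat_lit 4) (nat_lit 5) (nat_lit 6) (nat_lit 4) (nat_lit 4) (nat_lit 4) (nat_lit 328) (nat_lit 263) (nat_lit 189))) (XT.nd (nat_lit 78) (nat_lit 0) (nat_lit 0) (XT.lf (nat_lit 0) (nat_lit 113204708086) (nat_lit 152) (nat_lit 62957329824) (nat_lit 0) (nat_lit 82613107107) (nat_lit 4) (nat_lit 5) (nat_lit 6) (nat_lit 4) (nat_lit 4) (nat_lit 4) (nat_lit 329) (nat_lit 263) (nat_lit 188)) (XT.nd (nat_lit 78) (nat_lit 0) (nat_lit 0) (XT.lf (nat_lit 0) (nat_lit 133192151928) (nat_lit 152) (nat_lit 43014086855) (nat_lit 0) (nat_lit 102593474083) (nat_lit 4) (nat_lit 5) (nat_lit 6) (nat_lit 4) (nat_lit 4) (nat_lit 4) (nat_lit 330) (nat_lit 263) (nat_lit 187)) (XT.lf (nat_lit 0) (nat_lit 154772681380) (nat_lit 152) (nat_lit 21486412972) (nat_lit 0) (nat_lit 124167450881) (nat_lit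 4) (nat_lit 5) (nat_lit 6) (nat_lit 4) (nat_lit 4) (nat_lit 4) (nat_lit 331) (nat_lit 263) (nat_lit 186)))))) (XT.nd (nat_lit 390) (nat_lit 0) (nat_lit 0) (XT.nd (nat_lit 156) (nat_lit 0) (nat_lit 0) (XT.nd (nat_lit 78) (nat_lit 0) (nat_lit 0) (XT.lf (nat_lit 0) (nat_lit 1811234024) (nat_lit 76) (nat_lit 176291225473) (nat_lit 76) (nat_lit 145679927703) (nat_lit 3) (nat_lit 4) (nat_lit 4) (nat_lit 5) (nat_lit 4) (nat_lit 4) (nat_lit 332) (nat_lit 263) (nat_lit 185)) (XT.lf (nat_lit 0) (nat_lit 27730197845) (nat_lit 76) (nat_lit 175937482185) (nat_lit 76) (nat_lit 145320566570) (nat_lit 3) (nat_lit 4) (nat_lit 4) (nat_lit 5) (nat_lit 4) (nat_lit 4) (nat_lit 333) (nat_lit 263) (nat_lit 184))) (XT.nd (nat_lit 78) (nat_lit 0) (nat_lit 0) (XT.lf (nat_lit 0) (nat_lit 55713634501) (nat_lit 76) (nat_lit 175559651030) (nat_lit 76) (nat_lit 144937533707) (nat_lit 3) (nat_lit 4) (nat_lit 4) (nat_lit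 5) (nat_lit 4) (nat_lit 4) (nat_lit 334) (nat_lit 263) (nat_lit 183)) (XT.nd (nat_lit 78) (nat_lit 0) (nat_lit 0) (XT.lf (nat_lit 0) (nat_lit 85927371764) (nat_lit 76) (nat_lit 175155493010) (nat_lit 76) (nat_lit 144528559291) (nat_lit 3) (nat_lit 4) (nat_lit 4) (nat_lit 5) (nat_lit 4) (nat_lit 4) (nat_lit 335) (nat_lit 263) (nat_lit 182)) (XT.lf (nat_lit 0) (nat_lit 118550454003) (nat_lit 76) (nat_lit 174722613113) (nat_lit 76) (nat_lit 144091219769) (nat_lit 3) (nat_lit 4) (nat_lit 4) (nat_lit 5) (nat_lit 4) (nat_lit 4) (nat_lit 336) (nat_lit 263) (nat_lit 181))))) (XT.nd (nat_lit 234) (nat_lit 0) (nat_lit 0) (XT.nd (nat_lit 78) (nat_lit 0) (nat_lit 0) (XT.lf (nat_lit 0) (nat_lit 153776203188) (nat_lit 76) (nat_lit 174258446127) (nat_lit 76) (nat_lit 143622923499) (nat_lit 3) (nat_lit 4) (nat_lit 4) (nat_lit 5) (nat_lit 4) (nat_lit 4) (nat_lit 337) (nat_lit 263) (nat_lit 180)) (XT.nd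 (nat_lit 78) (nat_lit 0) (nat_lit 0) (XT.lf (nat_lit 0) (nat_lit 191813364499) (nat_lit 76) (nat_lit 173760241431) (nat_lit 76) (nat_lit 143120895392) (nat_lit 3) (nat_lit 4) (nat_lit 4) (nat_lit 5) (nat_lit 4) (nat_lit 4) (nat_lit 338) (nat_lit 263) (nat_lit 179)) (XT.lf (nat_lit 0) (nat_lit 232887343335) (nat_lit 76) (nat_lit 173225046701) (nat_lit 76) (nat_lit 142582160468) (nat_lit 3) (nat_lit 4) (nat_lit 4) (nat_lit 5) (nat_lit 4) (nat_lit 4) (nat_lit 339) (nat_lit 263) (nat_lit 178)))) (XT.nd (nat_lit 78) (nat_lit 0) (nat_lit 0) (XT.lf (nat_lit 0) (nat_lit 277241541054) (nat_lit 76) (nat_lit 172649690414) (nat_lit 76) (nat_lit 142003526222) (nat_lit 3) (nat_lit 4) (nat_lit 4) (nat_lit 5) (nat_lit 4) (nat_lit 4) (nat_lit 340) (nat_lit 263) (nat_lit 177)) (XT.nd (nat_lit 78) (nat_lit 0) (nat_lit 0) (XT.lf (nat_lit 0) (nat_lit 325138797345) (nat_lit 76) (nat_lit 172030763050) (nat_lit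 76) (nat_lit 141381563712) (nat_lit 3) (nat_lit 4) (nat_lit 4) (nat_lit 5) (nat_lit 4) (nat_lit 4) (nat_lit 341) (nat_lit 263) (nat_lit 176)) (XT.lf (nat_lit 0) (nat_lit 376862947801) (nat_lit 76) (nat_lit 171364596891) (nat_lit 76) (nat_lit 140712587233) (nat_lit 3) (nat_lit 4) (nat_lit 4) (nat_lit 5) (nat_lit 4) (nat_lit 4) (nat_lit 342) (nat_lit 263) (nat_lit 175))))))))
noncomputable def xc56 : XT := (XT.nd (nat_lit 35724) (nat_lit 0) (nat_lit 1064) (XT.nd (nat_lit 34944) (nat_lit 0) (nat_lit 3876) (XT.nd (nat_lit 34554) (nat_lit 0) (nat_lit 7448) (XT.nd (nat_lit 156) (nat_lit 0) (nat_lit 0) (XT.nd (nat_lit 78) (nat_lit 0) (nat_lit 0) (XT.lf (nat_lit 0) (nat_lit 432720505907) (nat_lit 76) (nat_lit 170647244288) (nat_lit 76) (nat_lit 139992632480) (nat_lit 3) (nat_lit 4) (nat_lit 4) (nat_lit 5) (nat_lit 4) (nat_lit 4) (nat_lit 343) (nat_lit 263) (nat_lit 174)) (XT.lf (nat_lit 0) (nat_lit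 493042479413) (nat_lit 76) (nat_lit 169874454260) (nat_lit 76) (nat_lit 139217433055) (nat_lit 3) (nat_lit 4) (nat_lit 4) (nat_lit 5) (nat_lit 4) (nat_lit 4) (nat_lit 344) (nat_lit 263) (nat_lit 173))) (XT.nd (nat_lit 78) (nat_lit 0) (nat_lit 0) (XT.lf (nat_lit 0) (nat_lit 558186331867) (nat_lit 76) (nat_lit 169041647311) (nat_lit 76) (nat_lit 138382395183) (nat_lit 3) (nat_lit 4) (nat_lit 4) (nat_lit 5) (nat_lit 4) (nat_lit 4) (nat_lit 345) (nat_lit 263) (nat_lit 172)) (XT.nd (nat_lit 34242) (nat_lit 0) (nat_lit 8360) (XT.lf (nat_lit 0) (nat_lit 628538100913) (nat_lit 76) (nat_lit 168143888290) (nat_lit 76) (nat_lit 137482570492) (nat_lit 3) (nat_lit 4) (nat_lit 4) (nat_lit 5) (nat_lit 4) (nat_lit 4) (nat_lit 346) (nat_lit 263) (nat_lit 171)) (XT.lf (nat_lit 0) (nat_lit 822148160) (nat_lit 0) (nat_lit 822148160) (nat_lit 380) (nat_lit 1813724281) (nat_lit 113) (nat_lit 5) (nat_lit 113)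 (nat_lit 3) (nat_lit 118) (nat_lit 3) (nat_lit 264) (nat_lit 264) (nat_lit 252))))) (XT.nd (nat_lit 156) (nat_lit 456) (nat_lit 0) (XT.nd (nat_lit 78) (nat_lit 456) (nat_lit 0) (XT.lf (nat_lit 0) (nat_lit 6173356382) (nat_lit 380) (nat_lit 280032685) (nat_lit 456) (nat_lit 591833100) (nat_lit 113) (nat_lit 5) (nat_lit 118) (nat_lit 3) (nat_lit 119) (nat_lit 5) (nat_lit 265) (nat_lit 264) (nat_lit 251)) (XT.lf (nat_lit 0) (nat_lit 1868033563) (nat_lit 456) (nat_lit 2131929945) (nat_lit 532) (nat_lit 3192504439) (nat_lit 107) (nat_lit 5) (nat_lit 113) (nat_lit 5) (nat_lit 114) (nat_lit 5) (nat_lit 266) (nat_lit 264) (nat_lit 250))) (XT.nd (nat_lit 78) (nat_lit 456) (nat_lit 0) (XT.lf (nat_lit 76) (nat_lit 3425101136) (nat_lit 0) (nat_lit 1170785591) (nat_lit 532) (nat_lit 2765791214) (nat_lit 108) (nat_lit 5) (nat_lit 107) (nat_lit 5) (nat_lit 114) (nat_lit 5) (nat_lit 267) (nat_lit 264)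 (nat_lit 249)) (XT.nd (nat_lit 78) (nat_lit 532) (nat_lit 0) (XT.lf (nat_lit 76) (nat_lit 1824198603) (nat_lit 0) (nat_lit 5572216362) (nat_lit 532) (nat_lit 156087971) (nat_lit 109) (nat_lit 5) (nat_lit 108) (nat_lit 5) (nat_lit 115) (nat_lit 5) (nat_lit 268) (nat_lit 264) (nat_lit 248)) (XT.lf (nat_lit 76) (nat_lit 209948587) (nat_lit 0) (nat_lit 2229733162) (nat_lit 608) (nat_lit 5324414589) (nat_lit 102) (nat_lit 5) (nat_lit 101) (nat_lit 5) (nat_lit 109) (nat_lit 5) (nat_lit 269) (nat_lit 264) (nat_lit 247)))))) (XT.nd (nat_lit 390) (nat_lit 1368) (nat_lit 0) (XT.nd (nat_lit 156) (nat_lit 1748) (nat_lit 0) (XT.nd (nat_lit 78) (nat_lit 532) (nat_lit 0) (XT.lf (nat_lit 0) (nat_lit 5145945602) (nat_lit 532) (nat_lit 1356341762) (nat_lit 76) (nat_lit 1495440504) (nat_lit 102) (nat_lit 5) (nat_lit 109) (nat_lit 5) (nat_lit 103) (nat_lit 5) (nat_lit 270) (nat_lit 264) (nat_lit 246)) (XT.lf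 (nat_lit 0) (nat_lit 5311626506) (nat_lit 532) (nat_lit 2678778267) (nat_lit 608) (nat_lit 264165670) (nat_lit 95) (nat_lit 5) (nat_lit 102) (nat_lit 5) (nat_lit 103) (nat_lit 5) (nat_lit 271) (nat_lit 264) (nat_lit 245))) (XT.nd (nat_lit 78) (nat_lit 1064) (nat_lit 0) (XT.lf (nat_lit 0) (nat_lit 2370441639) (nat_lit 684) (nat_lit 4601430540) (nat_lit 76) (nat_lit 1562597988) (nat_lit 86) (nat_lit 5) (nat_lit 95) (nat_lit 5) (nat_lit 87) (nat_lit 5) (nat_lit 272) (nat_lit 264) (nat_lit 244)) (XT.nd (nat_lit 78) (nat_lit 380) (nat_lit 0) (XT.lf (nat_lit 0) (nat_lit 2498511638) (nat_lit 684) (nat_lit 2666536362) (nat_lit 760) (nat_lit 3674067245) (nat_lit 77) (nat_lit 5) (nat_lit 86) (nat_lit 5) (nat_lit 87) (nat_lit 5) (nat_lit 273) (nat_lit 264) (nat_lit 243)) (XT.lf (nat_lit 0) (nat_lit 1003468862) (nat_lit 380) (nat_lit 7140912463) (nat_lit 456) (nat_lit 1026150255) (nat_lit 72) (nat_lit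 5) (nat_lit 77) (nat_lit 5) (nat_lit 78) (nat_lit 5) (nat_lit 274) (nat_lit 264) (nat_lit 242))))) (XT.nd (nat_lit 156) (nat_lit 912) (nat_lit 0) (XT.nd (nat_lit 78) (nat_lit 380) (nat_lit 0) (XT.lf (nat_lit 0) (nat_lit 1772143250) (nat_lit 456) (nat_lit 598472243) (nat_lit 76) (nat_lit 7156956364) (nat_lit 71) (nat_lit 5) (nat_lit 77) (nat_lit 5) (nat_lit 72) (nat_lit 5) (nat_lit 275) (nat_lit 264) (nat_lit 241)) (XT.lf (nat_lit 0) (nat_lit 4775825581) (nat_lit 456) (nat_lit 2306141607) (nat_lit 76) (nat_lit 2829866845) (nat_lit 66) (nat_lit 5) (nat_lit 72) (nat_lit 5) (nat_lit 67) (nat_lit 5) (nat_lit 276) (nat_lit 264) (nat_lit 240))) (XT.nd (nat_lit 78) (nat_lit 608) (nat_lit 0) (XT.lf (nat_lit 0) (nat_lit 6168117270) (nat_lit 304) (nat_lit 1859094333) (nat_lit 380) (nat_lit 2299601066) (nat_lit 62) (nat_lit 5) (nat_lit 66) (nat_lit 5) (nat_lit 67) (nat_lit 5) (nat_lit 277) (nat_lit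 264) (nat_lit 239)) (XT.nd (nat_lit 78) (nat_lit 228) (nat_lit 0) (XT.lf (nat_lit 0) (nat_lit 779194574) (nat_lit 380) (nat_lit 6220345605) (nat_lit 76) (nat_lit 3773162318) (nat_lit 57) (nat_lit 5) (nat_lit 62) (nat_lit 5) (nat_lit 58) (nat_lit 5) (nat_lit 278) (nat_lit 264) (nat_lit 238)) (XT.lf (nat_lit 0) (nat_lit 2725604077) (nat_lit 228) (nat_lit 1320335937) (nat_lit 304) (nat_lit 7205610396) (nat_lit 54) (nat_lit 5) (nat_lit 57) (nat_lit 5) (nat_lit 58) (nat_lit 5) (nat_lit 279) (nat_lit 264) (nat_lit 237))))))) (XT.nd (nat_lit 780) (nat_lit 1064) (nat_lit 0) (XT.nd (nat_lit 390) (nat_lit 760) (nat_lit 0) (XT.nd (nat_lit 156) (nat_lit 684) (nat_lit 0) (XT.nd (nat_lit 78) (nat_lit 0) (nat_lit 0) (XT.lf (nat_lit 0) (nat_lit 641790357) (nat_lit 304) (nat_lit 7007927272) (nat_lit 380) (nat_lit 4115465443) (nat_lit 50) (nat_lit 5) (nat_lit 54) (nat_lit 5) (nat_lit 55) (nat_lit 5) (nat_lit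 280) (nat_lit 264) (nat_lit 236)) (XT.lf (nat_lit 0) (nat_lit 10682937846) (nat_lit 304) (nat_lit 916325344) (nat_lit 380) (nat_lit 718012038) (nat_lit 50) (nat_lit 5) (nat_lit 54) (nat_lit 5) (nat_lit 55) (nat_lit 5) (nat_lit 281) (nat_lit 264) (nat_lit 235))) (XT.nd (nat_lit 78) (nat_lit 380) (nat_lit 0) (XT.lf (nat_lit 0) (nat_lit 2977230808) (nat_lit 304) (nat_lit 4289047822) (nat_lit 76) (nat_lit 5639143265) (nat_lit 46) (nat_lit 5) (nat_lit 50) (nat_lit 5) (nat_lit 47) (nat_lit 5) (nat_lit 282) (nat_lit 264) (nat_lit 234)) (XT.nd (nat_lit 78) (nat_lit 152) (nat_lit 0) (XT.lf (nat_lit 0) (nat_lit 6244487073) (nat_lit 228) (nat_lit 739585439) (nat_lit 304) (nat_lit 6554100229) (nat_lit 43) (nat_lit 5) (nat_lit 46) (nat_lit 5) (nat_lit 47) (nat_lit 5) (nat_lit 283) (nat_lit 264) (nat_lit 233)) (XT.lf (nat_lit 0) (nat_lit 3433926067) (nat_lit 152) (nat_lit 8009496803) (nat_lit 228)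 (nat_lit 2771705805) (nat_lit 41) (nat_lit 5) (nat_lit 43) (nat_lit 5) (nat_lit 44) (nat_lit 5) (nat_lit 284) (nat_lit 264) (nat_lit 232))))) (XT.nd (nat_lit 156) (nat_lit 456) (nat_lit 0) (XT.nd (nat_lit 78) (nat_lit 0) (nat_lit 0) (XT.lf (nat_lit 0) (nat_lit 181275803) (nat_lit 228) (nat_lit 1141799228) (nat_lit 304) (nat_lit 13619710905) (nat_lit 37) (nat_lit 5) (nat_lit 40) (nat_lit 5) (nat_lit 41) (nat_lit 5) (nat_lit 285) (nat_lit 264) (nat_lit 231)) (XT.lf (nat_lit 0) (nat_lit 5850230366) (nat_lit 304) (nat_lit 3589416322) (nat_lit 76) (nat_lit 6276791737) (nat_lit 37) (nat_lit 5) (nat_lit 41) (nat_lit 5) (nat_lit 38) (nat_lit 5) (nat_lit 286) (nat_lit 264) (nat_lit 230))) (XT.nd (nat_lit 78) (nat_lit 304) (nat_lit 0) (XT.lf (nat_lit 0) (nat_lit 8614286087) (nat_lit 152) (nat_lit 2197300721) (nat_lit 228) (nat_lit 5736933293) (nat_lit 35) (nat_lit 5) (nat_lit 37) (nat_lit 5) (nat_lit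 38) (nat_lit 5) (nat_lit 287) (nat_lit 264) (nat_lit 229)) (XT.nd (nat_lit 78) (nat_lit 76) (nat_lit 0) (XT.lf (nat_lit 0) (nat_lit 4413955977) (nat_lit 228) (nat_lit 11898175402) (nat_lit 304) (nat_lit 1128051115) (nat_lit 32) (nat_lit 5) (nat_lit 35) (nat_lit 5) (nat_lit 36) (nat_lit 5) (nat_lit 288) (nat_lit 264) (nat_lit 228)) (XT.lf (nat_lit 0) (nat_lit 3828564028) (nat_lit 304) (nat_lit 576777491) (nat_lit 76) (nat_lit 13989832686) (nat_lit 31) (nat_lit 5) (nat_lit 35) (nat_lit 5) (nat_lit 32) (nat_lit 5) (nat_lit 289) (nat_lit 264) (nat_lit 227)))))) (XT.nd (nat_lit 390) (nat_lit 380) (nat_lit 0) (XT.nd (nat_lit 156) (nat_lit 380) (nat_lit 0) (XT.nd (nat_lit 78) (nat_lit 152) (nat_lit 0) (XT.lf (nat_lit 0) (nat_lit 9339220714) (nat_lit 228) (nat_lit 6314583106) (nat_lit 76) (nat_lit 3762089764) (nat_lit 29) (nat_lit 5) (nat_lit 32) (nat_lit 5) (nat_lit 30) (nat_lit 5) (nat_lit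 290) (nat_lit 264) (nat_lit 226)) (XT.lf (nat_lit 0) (nat_lit 7435824091) (nat_lit 152) (nat_lit 7988809670) (nat_lit 228) (nat_lit 5087038458) (nat_lit 27) (nat_lit 5) (nat_lit 29) (nat_lit 5) (nat_lit 30) (nat_lit 5) (nat_lit 291) (nat_lit 264) (nat_lit 225))) (XT.nd (nat_lit 78) (nat_lit 152) (nat_lit 0) (XT.lf (nat_lit 0) (nat_lit 357026255) (nat_lit 228) (nat_lit 20960706693) (nat_lit 76) (nat_lit 373984176) (nat_lit 24) (nat_lit 5) (nat_lit 27) (nat_lit 5) (nat_lit 25) (nat_lit 5) (nat_lit 292) (nat_lit 264) (nat_lit 224)) (XT.nd (nat_lit 78) (nat_lit 152) (nat_lit 0) (XT.lf (nat_lit 0) (nat_lit 6365245550) (nat_lit 228) (nat_lit 7169668513) (nat_lit 76) (nat_lit 9411818248) (nat_lit 24) (nat_lit 5) (nat_lit 27) (nat_lit 5) (nat_lit 25) (nat_lit 5) (nat_lit 293) (nat_lit 264) (nat_lit 223)) (XT.lf (nat_lit 0) (nat_lit 7884384806) (nat_lit 152) (nat_lit 5035667351) (nat_lit 228)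 (nat_lit 11378873326) (nat_lit 22) (nat_lit 5) (nat_lit 24) (nat_lit 5) (nat_lit 25) (nat_lit 5) (nat_lit 294) (nat_lit 264) (nat_lit 222))))) (XT.nd (nat_lit 156) (nat_lit 228) (nat_lit 0) (XT.nd (nat_lit 78) (nat_lit 152) (nat_lit 0) (XT.lf (nat_lit 0) (nat_lit 20136022368) (nat_lit 228) (nat_lit 1511840870) (nat_lit 76) (nat_lit 4104659749) (nat_lit 22) (nat_lit 5) (nat_lit 25) (nat_lit 5) (nat_lit 23) (nat_lit 4) (nat_lit 295) (nat_lit 264) (nat_lit 221)) (XT.lf (nat_lit 0) (nat_lit 858355404) (nat_lit 152) (nat_lit 12432339101) (nat_lit 76) (nat_lit 14017754016) (nat_lit 20) (nat_lit 5) (nat_lit 22) (nat_lit 5) (nat_lit 21) (nat_lit 5) (nat_lit 296) (nat_lit 264) (nat_lit 220))) (XT.nd (nat_lit 78) (nat_lit 76) (nat_lit 0) (XT.lf (nat_lit 0) (nat_lit 3578823878) (nat_lit 152) (nat_lit 4111744301) (nat_lit 228) (nat_lit 21291924461) (nat_lit 18) (nat_lit 5) (nat_lit 20) (nat_lit 5)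 (nat_lit 21) (nat_lit 5) (nat_lit 297) (nat_lit 264) (nat_lit 219)) (XT.nd (nat_lit 78) (nat_lit 76) (nat_lit 0) (XT.lf (nat_lit 0) (nat_lit 15332834820) (nat_lit 228) (nat_lit 9639382391) (nat_lit 76) (nat_lit 5805120518) (nat_lit 18) (nat_lit 5) (nat_lit 21) (nat_lit 5) (nat_lit 19) (nat_lit 4) (nat_lit 298) (nat_lit 264) (nat_lit 218)) (XT.lf (nat_lit 0) (nat_lit 7481678826) (nat_lit 76) (nat_lit 16247228127) (nat_lit 152) (nat_lit 8979789747) (nat_lit 17) (nat_lit 5) (nat_lit 18) (nat_lit 5) (nat_lit 19) (nat_lit 4) (nat_lit 299) (nat_lit 264) (nat_lit 217))))))))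
noncomputable def xc57 : XT := (XT.nd (nat_lit 1560) (nat_lit 228) (nat_lit 0) (XT.nd (nat_lit 780) (nat_lit 304) (nat_lit 0) (XT.nd (nat_lit 390) (nat_lit 228) (nat_lit 0) (XT.nd (nat_lit 156) (nat_lit 76) (nat_lit 0) (XT.nd (nat_lit 78) (nat_lit 228) (nat_lit 0) (XT.lf (nat_lit 0) (nat_lit 26245384735) (nat_lit 76) (nat_lit 6677600374) (nat_lit 152) (nat_lit 1865307233) (nat_lit 17) (nat_lit 5) (nat_lit 18) (nat_lit 5) (nat_lit 19) (nat_lit 4) (nat_lit 300) (nat_lit 264) (nat_lit 216)) (XT.lf (nat_lit 0) (nat_lit 5803835129) (nat_lit 228) (nat_lit 27458952649) (nat_lit 76) (nat_lit 3758378391) (nat_lit 14) (nat_lit 5) (nat_lit 17) (nat_lit 5) (nat_lit 15) (nat_lit 4) (nat_lit 301) (nat_lit 264) (nat_lit 215))) (XT.nd (nat_lit 78) (nat_lit 76) (nat_lit 0) (XT.lf (nat_lit 0) (nat_lit 14248171692) (nat_lit 228) (nat_lit 10216775799) (nat_lit 76) (nat_lit 14954878665) (nat_lit 14) (nat_lit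 5) (nat_lit 17) (nat_lit 5) (nat_lit 15) (nat_lit 4) (nat_lit 302) (nat_lit 264) (nat_lit 214)) (XT.nd (nat_lit 78) (nat_lit 0) (nat_lit 0) (XT.lf (nat_lit 0) (nat_lit 8619670770) (nat_lit 76) (nat_lit 14848047172) (nat_lit 152) (nat_lit 18537711102) (nat_lit 13) (nat_lit 5) (nat_lit 14) (nat_lit 5) (nat_lit 15) (nat_lit 4) (nat_lit 303) (nat_lit 264) (nat_lit 213)) (XT.lf (nat_lit 0) (nat_lit 29269533564) (nat_lit 76) (nat_lit 4300024966) (nat_lit 152) (nat_lit 11221115880) (nat_lit 13) (nat_lit 5) (nat_lit 14) (nat_lit 5) (nat_lit 15) (nat_lit 4) (nat_lit 304) (nat_lit 264) (nat_lit 212))))) (XT.nd (nat_lit 156) (nat_lit 76) (nat_lit 0) (XT.nd (nat_lit 78) (nat_lit 76) (nat_lit 0) (XT.lf (nat_lit 0) (nat_lit 3725955846) (nat_lit 76) (nat_lit 40891346926) (nat_lit 76) (nat_lit 3174577308) (nat_lit 12) (nat_lit 4) (nat_lit 13) (nat_lit 5) (nat_lit 13) (nat_lit 4) (nat_lit 305) (nat_lit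 264) (nat_lit 211)) (XT.lf (nat_lit 0) (nat_lit 5656285349) (nat_lit 152) (nat_lit 26169485776) (nat_lit 76) (nat_lit 19187273578) (nat_lit 11) (nat_lit 5) (nat_lit 13) (nat_lit 5) (nat_lit 12) (nat_lit 4) (nat_lit 306) (nat_lit 264) (nat_lit 210))) (XT.nd (nat_lit 78) (nat_lit 76) (nat_lit 0) (XT.lf (nat_lit 0) (nat_lit 15055947536) (nat_lit 152) (nat_lit 6944716374) (nat_lit 76) (nat_lit 32489982132) (nat_lit 11) (nat_lit 5) (nat_lit 13) (nat_lit 5) (nat_lit 12) (nat_lit 4) (nat_lit 307) (nat_lit 264) (nat_lit 209)) (XT.nd (nat_lit 78) (nat_lit 0) (nat_lit 0) (XT.lf (nat_lit 0) (nat_lit 14227232882) (nat_lit 76) (nat_lit 11176611345) (nat_lit 152) (nat_lit 32832819728) (nat_lit 10) (nat_lit 5) (nat_lit 11) (nat_lit 5) (nat_lit 12) (nat_lit 4) (nat_lit 308) (nat_lit 264) (nat_lit 208)) (XT.lf (nat_lit 0) (nat_lit 36685599765) (nat_lit 152) (nat_lit 24990484280) (nat_lit 0) (nat_lit 600997851)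 (nat_lit 10) (nat_lit 5) (nat_lit 12) (nat_lit 4) (nat_lit 10) (nat_lit 4) (nat_lit 309) (nat_lit 264) (nat_lit 207)))))) (XT.nd (nat_lit 390) (nat_lit 76) (nat_lit 0) (XT.nd (nat_lit 156) (nat_lit 152) (nat_lit 0) (XT.nd (nat_lit 78) (nat_lit 76) (nat_lit 0) (XT.lf (nat_lit 0) (nat_lit 49035257904) (nat_lit 152) (nat_lit 4680241897) (nat_lit 0) (nat_lit 12916983834) (nat_lit 10) (nat_lit 5) (nat_lit 12) (nat_lit 4) (nat_lit 10) (nat_lit 4) (nat_lit 310) (nat_lit 264) (nat_lit 206)) (XT.lf (nat_lit 0) (nat_lit 17785395006) (nat_lit 76) (nat_lit 44843788432) (nat_lit 76) (nat_lit 8694336441) (nat_lit 9) (nat_lit 4) (nat_lit 10) (nat_lit 5) (nat_lit 10) (nat_lit 4) (nat_lit 311) (nat_lit 264) (nat_lit 205))) (XT.nd (nat_lit 78) (nat_lit 76) (nat_lit 0) (XT.lf (nat_lit 0) (nat_lit 953448529) (nat_lit 152) (nat_lit 34223750952) (nat_lit 76) (nat_lit 41208829055) (nat_lit 8) (nat_lit 5) (nat_lit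 10) (nat_lit 5) (nat_lit 9) (nat_lit 4) (nat_lit 312) (nat_lit 264) (nat_lit 204)) (XT.nd (nat_lit 78) (nat_lit 76) (nat_lit 0) (XT.lf (nat_lit 0) (nat_lit 11053328867) (nat_lit 152) (nat_lit 13545726302) (nat_lit 76) (nat_lit 57248126188) (nat_lit 8) (nat_lit 5) (nat_lit 10) (nat_lit 5) (nat_lit 9) (nat_lit 4) (nat_lit 313) (nat_lit 264) (nat_lit 203)) (XT.lf (nat_lit 0) (nat_lit 9043682804) (nat_lit 76) (nat_lit 13040943207) (nat_lit 152) (nat_lit 65654442004) (nat_lit 7) (nat_lit 5) (nat_lit 8) (nat_lit 5) (nat_lit 9) (nat_lit 4) (nat_lit 314) (nat_lit 264) (nat_lit 202))))) (XT.nd (nat_lit 156) (nat_lit 76) (nat_lit 0) (XT.nd (nat_lit 78) (nat_lit 0) (nat_lit 0) (XT.lf (nat_lit 0) (nat_lit 33893050546) (nat_lit 76) (nat_lit 324397145) (nat_lit 152) (nat_lit 59873918848) (nat_lit 7) (nat_lit 5) (nat_lit 8) (nat_lit 5) (nat_lit 9) (nat_lit 4) (nat_lit 315) (nat_lit 264) (nat_lit 201))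 (XT.lf (nat_lit 0) (nat_lit 47514370139) (nat_lit 152) (nat_lit 40460052091) (nat_lit 0) (nat_lit 12967764051) (nat_lit 7) (nat_lit 5) (nat_lit 9) (nat_lit 4) (nat_lit 7) (nat_lit 4) (nat_lit 316) (nat_lit 264) (nat_lit 200))) (XT.nd (nat_lit 78) (nat_lit 76) (nat_lit 0) (XT.lf (nat_lit 0) (nat_lit 61865808519) (nat_lit 152) (nat_lit 19175244600) (nat_lit 0) (nat_lit 27300490641) (nat_lit 7) (nat_lit 5) (nat_lit 9) (nat_lit 4) (nat_lit 7) (nat_lit 4) (nat_lit 317) (nat_lit 264) (nat_lit 199)) (XT.nd (nat_lit 78) (nat_lit 0) (nat_lit 0) (XT.lf (nat_lit 0) (nat_lit 3912528774) (nat_lit 76) (nat_lit 73500300408) (nat_lit 76) (nat_lit 38917656799) (nat_lit 6) (nat_lit 4) (nat_lit 7) (nat_lit 5) (nat_lit 7) (nat_lit 4) (nat_lit 318) (nat_lit 264) (nat_lit 198)) (XT.lf (nat_lit 0) (nat_lit 29508110132) (nat_lit 76) (nat_lit 65016538180) (nat_lit 76) (nat_lit 30417852227) (nat_lit 6) (nat_lit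 4) (nat_lit 7) (nat_lit 5) (nat_lit 7) (nat_lit 4) (nat_lit 319) (nat_lit 264) (nat_lit 197))))))) (XT.nd (nat_lit 780) (nat_lit 76) (nat_lit 0) (XT.nd (nat_lit 390) (nat_lit 0) (nat_lit 0) (XT.nd (nat_lit 156) (nat_lit 152) (nat_lit 0) (XT.nd (nat_lit 78) (nat_lit 0) (nat_lit 0) (XT.lf (nat_lit 0) (nat_lit 57129156809) (nat_lit 76) (nat_lit 55864234334) (nat_lit 76) (nat_lit 21250694359) (nat_lit 6) (nat_lit 4) (nat_lit 7) (nat_lit 5) (nat_lit 7) (nat_lit 4) (nat_lit 320) (nat_lit 264) (nat_lit 196)) (XT.lf (nat_lit 0) (nat_lit 86939349081) (nat_lit 76) (nat_lit 45989152995) (nat_lit 76) (nat_lit 11361859296) (nat_lit 6) (nat_lit 4) (nat_lit 7) (nat_lit 5) (nat_lit 7) (nat_lit 4) (nat_lit 321) (nat_lit 264) (nat_lit 195))) (XT.nd (nat_lit 78) (nat_lit 152) (nat_lit 0) (XT.lf (nat_lit 0) (nat_lit 119115339939) (nat_lit 76) (nat_lit 35332775164) (nat_lit 76) (nat_lit 692746535) (nat_lit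 6) (nat_lit 4) (nat_lit 7) (nat_lit 5) (nat_lit 7) (nat_lit 4) (nat_lit 322) (nat_lit 264) (nat_lit 194)) (XT.nd (nat_lit 78) (nat_lit 76) (nat_lit 0) (XT.lf (nat_lit 0) (nat_lit 10473564938) (nat_lit 152) (nat_lit 13181012105) (nat_lit 76) (nat_lit 143196862092) (nat_lit 5) (nat_lit 5) (nat_lit 7) (nat_lit 5) (nat_lit 6) (nat_lit 4) (nat_lit 323) (nat_lit 264) (nat_lit 193)) (XT.lf (nat_lit 0) (nat_lit 11841781553) (nat_lit 76) (nat_lit 10843350121) (nat_lit 152) (nat_lit 156804357998) (nat_lit 4) (nat_lit 5) (nat_lit 5) (nat_lit 5) (nat_lit 6) (nat_lit 4) (nat_lit 324) (nat_lit 264) (nat_lit 192))))) (XT.nd (nat_lit 156) (nat_lit 0) (nat_lit 0) (XT.nd (nat_lit 78) (nat_lit 0) (nat_lit 0) (XT.lf (nat_lit 0) (nat_lit 36145034513) (nat_lit 152) (nat_lit 153856709757) (nat_lit 0) (nat_lit 3123274725) (nat_lit 4) (nat_lit 5) (nat_lit 6) (nat_lit 4) (nat_lit 4) (nat_lit 4) (nat_lit 325) (nat_lit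 264) (nat_lit 191)) (XT.lf (nat_lit 0) (nat_lit 50856527919) (nat_lit 152) (nat_lit 139160274400) (nat_lit 0) (nat_lit 17825853318) (nat_lit 4) (nat_lit 5) (nat_lit 6) (nat_lit 4) (nat_lit 4) (nat_lit 4) (nat_lit 326) (nat_lit 264) (nat_lit 190))) (XT.nd (nat_lit 78) (nat_lit 0) (nat_lit 0) (XT.lf (nat_lit 0) (nat_lit 66737496028) (nat_lit 152) (nat_lit 123302016978) (nat_lit 0) (nat_lit 33698566971) (nat_lit 4) (nat_lit 5) (nat_lit 6) (nat_lit 4) (nat_lit 4) (nat_lit 4) (nat_lit 327) (nat_lit 264) (nat_lit 189)) (XT.nd (nat_lit 78) (nat_lit 0) (nat_lit 0) (XT.lf (nat_lit 0) (nat_lit 83882048281) (nat_lit 152) (nat_lit 106187962633) (nat_lit 0) (nat_lit 50835476208) (nat_lit 4) (nat_lit 5) (nat_lit 6) (nat_lit 4) (nat_lit 4) (nat_lit 4) (nat_lit 328) (nat_lit 264) (nat_lit 188)) (XT.lf (nat_lit 0) (nat_lit 102391782024) (nat_lit 152) (nat_lit 87716694746) (nat_lit 0) (nat_lit 69338133086)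 (nat_lit 4) (nat_lit 5) (nat_lit 6) (nat_lit 4) (nat_lit 4) (nat_lit 4) (nat_lit 329) (nat_lit 264) (nat_lit 187)))))) (XT.nd (nat_lit 390) (nat_lit 0) (nat_lit 0) (XT.nd (nat_lit 156) (nat_lit 76) (nat_lit 0) (XT.nd (nat_lit 78) (nat_lit 0) (nat_lit 0) (XT.lf (nat_lit 0) (nat_lit 122376384569) (nat_lit 152) (nat_lit 67778753952) (nat_lit 0) (nat_lit 89316182977) (nat_lit 4) (nat_lit 5) (nat_lit 6) (nat_lit 4) (nat_lit 4) (nat_lit 4) (nat_lit 330) (nat_lit 264) (nat_lit 186)) (XT.lf (nat_lit 0) (nat_lit 143954283190) (nat_lit 152) (nat_lit 46255989491) (nat_lit 0) (nat_lit 110888014325) (nat_lit 4) (nat_lit 5) (nat_lit 6) (nat_lit 4) (nat_lit 4) (nat_lit 4) (nat_lit 331) (nat_lit 264) (nat_lit 185))) (XT.nd (nat_lit 78) (nat_lit 76) (nat_lit 0) (XT.lf (nat_lit 0) (nat_lit 167253346915) (nat_lit 152) (nat_lit 23020859054) (nat_lit 0) (nat_lit 134181460206) (nat_lit 4) (nat_lit 5) (nat_lit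 6) (nat_lit 4) (nat_lit 4) (nat_lit 4) (nat_lit 332) (nat_lit 264) (nat_lit 184)) (XT.nd (nat_lit 78) (nat_lit 0) (nat_lit 0) (XT.lf (nat_lit 0) (nat_lit 2132582993) (nat_lit 76) (nat_lit 190312356874) (nat_lit 76) (nat_lit 157235268458) (nat_lit 3) (nat_lit 4) (nat_lit 4) (nat_lit 5) (nat_lit 4) (nat_lit 4) (nat_lit 333) (nat_lit 264) (nat_lit 183)) (XT.lf (nat_lit 0) (nat_lit 30111993531) (nat_lit 76) (nat_lit 189936400540) (nat_lit 76) (nat_lit 156854495728) (nat_lit 3) (nat_lit 4) (nat_lit 4) (nat_lit 5) (nat_lit 4) (nat_lit 4) (nat_lit 334) (nat_lit 264) (nat_lit 182))))) (XT.nd (nat_lit 156) (nat_lit 0) (nat_lit 0) (XT.nd (nat_lit 78) (nat_lit 0) (nat_lit 0) (XT.lf (nat_lit 0) (nat_lit 60322002908) (nat_lit 76) (nat_lit 189533978465) (nat_lit 76) (nat_lit 156447614026) (nat_lit 3) (nat_lit 4) (nat_lit 4) (nat_lit 5) (nat_lit 4) (nat_lit 4) (nat_lit 335) (nat_lit 264) (nat_lit 181))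 (XT.lf (nat_lit 0) (nat_lit 92941633400) (nat_lit 76) (nat_lit 189102705925) (nat_lit 76) (nat_lit 156012212203) (nat_lit 3) (nat_lit 4) (nat_lit 4) (nat_lit 5) (nat_lit 4) (nat_lit 4) (nat_lit 336) (nat_lit 264) (nat_lit 180))) (XT.nd (nat_lit 78) (nat_lit 0) (nat_lit 0) (XT.lf (nat_lit 0) (nat_lit 128164186523) (nat_lit 76) (nat_lit 188640027231) (nat_lit 76) (nat_lit 155545710099) (nat_lit 3) (nat_lit 4) (nat_lit 4) (nat_lit 5) (nat_lit 4) (nat_lit 4) (nat_lit 337) (nat_lit 264) (nat_lit 179)) (XT.nd (nat_lit 78) (nat_lit 0) (nat_lit 0) (XT.lf (nat_lit 0) (nat_lit 166198388517) (nat_lit 76) (nat_lit 188143200584) (nat_lit 76) (nat_lit 155045343257) (nat_lit 3) (nat_lit 4) (nat_lit 4) (nat_lit 5) (nat_lit 4) (nat_lit 4) (nat_lit 338) (nat_lit 264) (nat_lit 178)) (XT.lf (nat_lit 0) (nat_lit 207269627245) (nat_lit 76) (nat_lit 187609281826) (nat_lit 76) (nat_lit 154508146541) (nat_lit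 3) (nat_lit 4) (nat_lit 4) (nat_lit 5) (nat_lit 4) (nat_lit 4) (nat_lit 339) (nat_lit 264) (nat_lit 177))))))))
noncomputable def xc58 : XT := (XT.nd (nat_lit 35802) (nat_lit 0) (nat_lit 1292) (XT.nd (nat_lit 35022) (nat_lit 0) (nat_lit 4484) (XT.nd (nat_lit 390) (nat_lit 0) (nat_lit 0) (XT.nd (nat_lit 156) (nat_lit 0) (nat_lit 0) (XT.nd (nat_lit 78) (nat_lit 0) (nat_lit 0) (XT.lf (nat_lit 0) (nat_lit 251621287827) (nat_lit 76) (nat_lit 187035106994) (nat_lit 76) (nat_lit 153930936562) (nat_lit 3) (nat_lit 4) (nat_lit 4) (nat_lit 5) (nat_lit 4) (nat_lit 4) (nat_lit 340) (nat_lit 264) (nat_lit 176)) (XT.lf (nat_lit 0) (nat_lit 299516194917) (nat_lit 76) (nat_lit 186417273570) (nat_lit 76) (nat_lit 153310292817) (nat_lit 3) (nat_lit 4) (nat_lit 4) (nat_lit 5) (nat_lit 4) (nat_lit 4) (nat_lit 341) (nat_lit 264) (nat_lit 175))) (XT.nd (nat_lit 78) (nat_lit 0) (nat_lit 0) (XT.lf (nat_lit 0)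 (nat_lit 351238170187) (nat_lit 76) (nat_lit 185752120318) (nat_lit 76) (nat_lit 152642537417) (nat_lit 3) (nat_lit 4) (nat_lit 4) (nat_lit 5) (nat_lit 4) (nat_lit 4) (nat_lit 342) (nat_lit 264) (nat_lit 174)) (XT.nd (nat_lit 78) (nat_lit 0) (nat_lit 0) (XT.lf (nat_lit 0) (nat_lit 407093714231) (nat_lit 76) (nat_lit 185035705592) (nat_lit 76) (nat_lit 151923713293) (nat_lit 3) (nat_lit 4) (nat_lit 4) (nat_lit 5) (nat_lit 4) (nat_lit 4) (nat_lit 343) (nat_lit 264) (nat_lit 173)) (XT.lf (nat_lit 0) (nat_lit 467413822866) (nat_lit 76) (nat_lit 184263783968) (nat_lit 76) (nat_lit 151149560747) (nat_lit 3) (nat_lit 4) (nat_lit 4) (nat_lit 5) (nat_lit 4) (nat_lit 4) (nat_lit 344) (nat_lit 264) (nat_lit 172))))) (XT.nd (nat_lit 34398) (nat_lit 0) (nat_lit 7828) (XT.nd (nat_lit 78) (nat_lit 0) (nat_lit 0) (XT.lf (nat_lit 0) (nat_lit 532555948587) (nat_lit 76) (nat_lit 183431781098) (nat_lit 76)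 (nat_lit 150315492207) (nat_lit 3) (nat_lit 4) (nat_lit 4) (nat_lit 5) (nat_lit 4) (nat_lit 4) (nat_lit 345) (nat_lit 264) (nat_lit 171)) (XT.lf (nat_lit 0) (nat_lit 602906118806) (nat_lit 76) (nat_lit 182534766594) (nat_lit 76) (nat_lit 149416565046) (nat_lit 3) (nat_lit 4) (nat_lit 4) (nat_lit 5) (nat_lit 4) (nat_lit 4) (nat_lit 346) (nat_lit 264) (nat_lit 170))) (XT.nd (nat_lit 78) (nat_lit 0) (nat_lit 0) (XT.lf (nat_lit 0) (nat_lit 834715658) (nat_lit 532) (nat_lit 1377912494) (nat_lit 532) (nat_lit 1377912494) (nat_lit 106) (nat_lit 3) (nat_lit 113) (nat_lit 3) (nat_lit 113) (nat_lit 5) (nat_lit 265) (nat_lit 265) (nat_lit 250)) (XT.nd (nat_lit 78) (nat_lit 0) (nat_lit 76) (XT.lf (nat_lit 76) (nat_lit 2465062131) (nat_lit 0) (nat_lit 1708585847) (nat_lit 532) (nat_lit 3164803024) (nat_lit 107) (nat_lit 5) (nat_lit 106) (nat_lit 3) (nat_lit 113) (nat_lit 5) (nat_lit 266) (nat_lit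 265) (nat_lit 249)) (XT.lf (nat_lit 76) (nat_lit 548424925) (nat_lit 0) (nat_lit 6165954150) (nat_lit 532) (nat_lit 803022900) (nat_lit 108) (nat_lit 5) (nat_lit 107) (nat_lit 5) (nat_lit 114) (nat_lit 5) (nat_lit 267) (nat_lit 265) (nat_lit 248)))))) (XT.nd (nat_lit 390) (nat_lit 2432) (nat_lit 0) (XT.nd (nat_lit 156) (nat_lit 456) (nat_lit 0) (XT.nd (nat_lit 78) (nat_lit 0) (nat_lit 76) (XT.lf (nat_lit 0) (nat_lit 1577776983) (nat_lit 532) (nat_lit 1333099070) (nat_lit 608) (nat_lit 4804833862) (nat_lit 100) (nat_lit 5) (nat_lit 107) (nat_lit 5) (nat_lit 108) (nat_lit 5) (nat_lit 268) (nat_lit 265) (nat_lit 247)) (XT.lf (nat_lit 0) (nat_lit 3995491215) (nat_lit 532) (nat_lit 3192776839) (nat_lit 608) (nat_lit 747880655) (nat_lit 101) (nat_lit 5) (nat_lit 108) (nat_lit 5) (nat_lit 109) (nat_lit 5) (nat_lit 269) (nat_lit 265) (nat_lit 246))) (XT.nd (nat_lit 78) (nat_lit 532) (nat_lit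 0) (XT.lf (nat_lit 76) (nat_lit 3087912223) (nat_lit 0) (nat_lit 3442235999) (nat_lit 608) (nat_lit 1648503338) (nat_lit 102) (nat_lit 5) (nat_lit 101) (nat_lit 5) (nat_lit 109) (nat_lit 5) (nat_lit 270) (nat_lit 265) (nat_lit 245)) (XT.nd (nat_lit 78) (nat_lit 0) (nat_lit 0) (XT.lf (nat_lit 0) (nat_lit 702716197) (nat_lit 608) (nat_lit 7020655176) (nat_lit 76) (nat_lit 721963225) (nat_lit 94) (nat_lit 5) (nat_lit 102) (nat_lit 5) (nat_lit 95) (nat_lit 5) (nat_lit 271) (nat_lit 265) (nat_lit 244)) (XT.lf (nat_lit 0) (nat_lit 3157238104) (nat_lit 608) (nat_lit 319404488) (nat_lit 76) (nat_lit 5257204623) (nat_lit 94) (nat_lit 5) (nat_lit 102) (nat_lit 5) (nat_lit 95) (nat_lit 5) (nat_lit 272) (nat_lit 265) (nat_lit 243))))) (XT.nd (nat_lit 156) (nat_lit 1140) (nat_lit 0) (XT.nd (nat_lit 78) (nat_lit 684) (nat_lit 0) (XT.lf (nat_lit 0) (nat_lit 5774116863) (nat_lit 684) (nat_lit 2061396039)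 (nat_lit 76) (nat_lit 1212085758) (nat_lit 86) (nat_lit 5) (nat_lit 95) (nat_lit 5) (nat_lit 87) (nat_lit 5) (nat_lit 273) (nat_lit 265) (nat_lit 242)) (XT.lf (nat_lit 0) (nat_lit 5480156905) (nat_lit 684) (nat_lit 3117488936) (nat_lit 760) (nat_lit 789363065) (nat_lit 77) (nat_lit 5) (nat_lit 86) (nat_lit 5) (nat_lit 87) (nat_lit 5) (nat_lit 274) (nat_lit 265) (nat_lit 241))) (XT.nd (nat_lit 78) (nat_lit 684) (nat_lit 0) (XT.lf (nat_lit 0) (nat_lit 1817410444) (nat_lit 456) (nat_lit 5883536929) (nat_lit 76) (nat_lit 2052293654) (nat_lit 71) (nat_lit 5) (nat_lit 77) (nat_lit 5) (nat_lit 72) (nat_lit 5) (nat_lit 275) (nat_lit 265) (nat_lit 240)) (XT.nd (nat_lit 78) (nat_lit 304) (nat_lit 0) (XT.lf (nat_lit 0) (nat_lit 2124985028) (nat_lit 380) (nat_lit 2498201141) (nat_lit 456) (nat_lit 5524378682) (nat_lit 66) (nat_lit 5) (nat_lit 71) (nat_lit 5) (nat_lit 72) (nat_lit 5) (nat_lit 276)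 (nat_lit 265) (nat_lit 239)) (XT.lf (nat_lit 0) (nat_lit 233794789) (nat_lit 304) (nat_lit 7447039945) (nat_lit 380) (nat_lit 2891549625) (nat_lit 62) (nat_lit 5) (nat_lit 66) (nat_lit 5) (nat_lit 67) (nat_lit 5) (nat_lit 277) (nat_lit 265) (nat_lit 238))))))) (XT.nd (nat_lit 780) (nat_lit 1292) (nat_lit 0) (XT.nd (nat_lit 390) (nat_lit 684) (nat_lit 0) (XT.nd (nat_lit 156) (nat_lit 836) (nat_lit 0) (XT.nd (nat_lit 78) (nat_lit 304) (nat_lit 0) (XT.lf (nat_lit 0) (nat_lit 13681779) (nat_lit 380) (nat_lit 1768292937) (nat_lit 76) (nat_lit 9246522885) (nat_lit 61) (nat_lit 5) (nat_lit 66) (nat_lit 5) (nat_lit 62) (nat_lit 5) (nat_lit 278) (nat_lit 265) (nat_lit 237)) (XT.lf (nat_lit 0) (nat_lit 3124797055) (nat_lit 380) (nat_lit 4035778301) (nat_lit 76) (nat_lit 4354677407) (nat_lit 57) (nat_lit 5) (nat_lit 62) (nat_lit 5) (nat_lit 58) (nat_lit 5) (nat_lit 279) (nat_lit 265) (nat_lit 236)))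 (XT.nd (nat_lit 78) (nat_lit 608) (nat_lit 0) (XT.lf (nat_lit 0) (nat_lit 5509282432) (nat_lit 228) (nat_lit 1014525491) (nat_lit 304) (nat_lit 5515432266) (nat_lit 54) (nat_lit 5) (nat_lit 57) (nat_lit 5) (nat_lit 58) (nat_lit 5) (nat_lit 280) (nat_lit 265) (nat_lit 235)) (XT.nd (nat_lit 78) (nat_lit 304) (nat_lit 0) (XT.lf (nat_lit 0) (nat_lit 3248667934) (nat_lit 304) (nat_lit 7053496896) (nat_lit 380) (nat_lit 2297834751) (nat_lit 50) (nat_lit 5) (nat_lit 54) (nat_lit 5) (nat_lit 55) (nat_lit 5) (nat_lit 281) (nat_lit 265) (nat_lit 234)) (XT.lf (nat_lit 0) (nat_lit 703247469) (nat_lit 228) (nat_lit 481315889) (nat_lit 304) (nat_lit 12018081673) (nat_lit 46) (nat_lit 5) (nat_lit 49) (nat_lit 5) (nat_lit 50) (nat_lit 5) (nat_lit 282) (nat_lit 265) (nat_lit 233))))) (XT.nd (nat_lit 156) (nat_lit 456) (nat_lit 0) (XT.nd (nat_lit 78) (nat_lit 228) (nat_lit 0) (XT.lf (nat_lit 0) (nat_lit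 5041399143) (nat_lit 304) (nat_lit 2217709384) (nat_lit 76) (nat_lit 6583875668) (nat_lit 46) (nat_lit 5) (nat_lit 50) (nat_lit 5) (nat_lit 47) (nat_lit 5) (nat_lit 283) (nat_lit 265) (nat_lit 232)) (XT.lf (nat_lit 0) (nat_lit 9053578714) (nat_lit 228) (nat_lit 216009238) (nat_lit 304) (nat_lit 5261991758) (nat_lit 43) (nat_lit 5) (nat_lit 46) (nat_lit 5) (nat_lit 47) (nat_lit 5) (nat_lit 284) (nat_lit 265) (nat_lit 231))) (XT.nd (nat_lit 78) (nat_lit 304) (nat_lit 0) (XT.lf (nat_lit 0) (nat_lit 5994851406) (nat_lit 152) (nat_lit 8007043062) (nat_lit 228) (nat_lit 1265232235) (nat_lit 41) (nat_lit 5) (nat_lit 43) (nat_lit 5) (nat_lit 44) (nat_lit 5) (nat_lit 285) (nat_lit 265) (nat_lit 230)) (XT.nd (nat_lit 78) (nat_lit 0) (nat_lit 0) (XT.lf (nat_lit 0) (nat_lit 2438332622) (nat_lit 228) (nat_lit 574579235) (nat_lit 304) (nat_lit 13043396904) (nat_lit 37) (nat_lit 5) (nat_lit 40) (nat_lit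 5) (nat_lit 41) (nat_lit 5) (nat_lit 286) (nat_lit 265) (nat_lit 229)) (XT.lf (nat_lit 0) (nat_lit 7794427362) (nat_lit 304) (nat_lit 1733817057) (nat_lit 76) (nat_lit 7369199681) (nat_lit 37) (nat_lit 5) (nat_lit 41) (nat_lit 5) (nat_lit 38) (nat_lit 5) (nat_lit 287) (nat_lit 265) (nat_lit 228)))))) (XT.nd (nat_lit 390) (nat_lit 532) (nat_lit 0) (XT.nd (nat_lit 156) (nat_lit 304) (nat_lit 0) (XT.nd (nat_lit 78) (nat_lit 304) (nat_lit 0) (XT.lf (nat_lit 0) (nat_lit 11353060129) (nat_lit 152) (nat_lit 1722286116) (nat_lit 228) (nat_lit 4724798588) (nat_lit 35) (nat_lit 5) (nat_lit 37) (nat_lit 5) (nat_lit 38) (nat_lit 5) (nat_lit 288) (nat_lit 265) (nat_lit 227)) (XT.lf (nat_lit 0) (nat_lit 180837815) (nat_lit 304) (nat_lit 11982335450) (nat_lit 76) (nat_lit 6603126212) (nat_lit 31) (nat_lit 5) (nat_lit 35) (nat_lit 5) (nat_lit 32) (nat_lit 5) (nat_lit 289) (nat_lit 265) (nat_lit 226)))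 (XT.nd (nat_lit 78) (nat_lit 152) (nat_lit 0) (XT.lf (nat_lit 0) (nat_lit 1333624038) (nat_lit 152) (nat_lit 4081435578) (nat_lit 228) (nat_lit 14385827570) (nat_lit 29) (nat_lit 5) (nat_lit 31) (nat_lit 5) (nat_lit 32) (nat_lit 5) (nat_lit 290) (nat_lit 265) (nat_lit 225)) (XT.nd (nat_lit 78) (nat_lit 152) (nat_lit 0) (XT.lf (nat_lit 0) (nat_lit 11290971077) (nat_lit 228) (nat_lit 4937509556) (nat_lit 76) (nat_lit 4678703402) (nat_lit 29) (nat_lit 5) (nat_lit 32) (nat_lit 5) (nat_lit 30) (nat_lit 5) (nat_lit 291) (nat_lit 265) (nat_lit 224)) (XT.lf (nat_lit 0) (nat_lit 9831130352) (nat_lit 152) (nat_lit 7970966164) (nat_lit 228) (nat_lit 4291714137) (nat_lit 27) (nat_lit 5) (nat_lit 29) (nat_lit 5) (nat_lit 30) (nat_lit 5) (nat_lit 292) (nat_lit 265) (nat_lit 223))))) (XT.nd (nat_lit 156) (nat_lit 304) (nat_lit 0) (XT.nd (nat_lit 78) (nat_lit 0) (nat_lit 0) (XT.lf (nat_lit 0) (nat_lit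 1500905735) (nat_lit 228) (nat_lit 20830632067) (nat_lit 76) (nat_lit 1038321596) (nat_lit 24) (nat_lit 5) (nat_lit 27) (nat_lit 5) (nat_lit 25) (nat_lit 5) (nat_lit 293) (nat_lit 265) (nat_lit 222)) (XT.lf (nat_lit 0) (nat_lit 7907166472) (nat_lit 228) (nat_lit 6070157586) (nat_lit 76) (nat_lit 10752188418) (nat_lit 24) (nat_lit 5) (nat_lit 27) (nat_lit 5) (nat_lit 25) (nat_lit 5) (nat_lit 294) (nat_lit 265) (nat_lit 221))) (XT.nd (nat_lit 78) (nat_lit 152) (nat_lit 0) (XT.lf (nat_lit 0) (nat_lit 10115509789) (nat_lit 152) (nat_lit 4819337753) (nat_lit 228) (nat_lit 11257707088) (nat_lit 22) (nat_lit 5) (nat_lit 24) (nat_lit 5) (nat_lit 25) (nat_lit 5) (nat_lit 295) (nat_lit 265) (nat_lit 220)) (XT.nd (nat_lit 78) (nat_lit 152) (nat_lit 0) (XT.lf (nat_lit 0) (nat_lit 22664365634) (nat_lit 228) (nat_lit 113351187) (nat_lit 76) (nat_lit 4988000365) (nat_lit 22) (nat_lit 5) (nat_lit 25)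 (nat_lit 5) (nat_lit 23) (nat_lit 4) (nat_lit 296) (nat_lit 265) (nat_lit 219)) (XT.lf (nat_lit 0) (nat_lit 1814532062) (nat_lit 152) (nat_lit 11943176627) (nat_lit 76) (nat_lit 15690039805) (nat_lit 20) (nat_lit 5) (nat_lit 22) (nat_lit 5) (nat_lit 21) (nat_lit 5) (nat_lit 297) (nat_lit 265) (nat_lit 218))))))))
noncomputable def xc59 : XT := (XT.nd (nat_lit 1560) (nat_lit 304) (nat_lit 0) (XT.nd (nat_lit 780) (nat_lit 304) (nat_lit 0) (XT.nd (nat_lit 390) (nat_lit 228) (nat_lit 0) (XT.nd (nat_lit 156) (nat_lit 304) (nat_lit 0) (XT.nd (nat_lit 78) (nat_lit 0) (nat_lit 0) (XT.lf (nat_lit 0) (nat_lit 5284397441) (nat_lit 152) (nat_lit 3865341813) (nat_lit 228) (nat_lit 22108230129) (nat_lit 18) (nat_lit 5) (nat_lit 20) (nat_lit 5) (nat_lit 21) (nat_lit 5) (nat_lit 298) (nat_lit 265) (nat_lit 217)) (XT.lf (nat_lit 0) (nat_lit 17349191533) (nat_lit 228) (nat_lit 9064785186) (nat_lit 76)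 (nat_lit 6785203765) (nat_lit 18) (nat_lit 5) (nat_lit 21) (nat_lit 5) (nat_lit 19) (nat_lit 4) (nat_lit 299) (nat_lit 265) (nat_lit 216))) (XT.nd (nat_lit 78) (nat_lit 228) (nat_lit 0) (XT.lf (nat_lit 0) (nat_lit 9367476369) (nat_lit 76) (nat_lit 17011072342) (nat_lit 152) (nat_lit 8908483037) (nat_lit 17) (nat_lit 5) (nat_lit 18) (nat_lit 5) (nat_lit 19) (nat_lit 4) (nat_lit 300) (nat_lit 265) (nat_lit 215)) (XT.nd (nat_lit 78) (nat_lit 228) (nat_lit 0) (XT.lf (nat_lit 0) (nat_lit 29536925919) (nat_lit 76) (nat_lit 6715573186) (nat_lit 152) (nat_lit 1283337469) (nat_lit 17) (nat_lit 5) (nat_lit 18) (nat_lit 5) (nat_lit 19) (nat_lit 4) (nat_lit 301) (nat_lit 265) (nat_lit 214)) (XT.lf (nat_lit 0) (nat_lit 6949309510) (nat_lit 228) (nat_lit 28465821840) (nat_lit 76) (nat_lit 4533021237) (nat_lit 14) (nat_lit 5) (nat_lit 17) (nat_lit 5) (nat_lit 15) (nat_lit 4) (nat_lit 302) (nat_lit 265)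 (nat_lit 213))))) (XT.nd (nat_lit 156) (nat_lit 152) (nat_lit 0) (XT.nd (nat_lit 78) (nat_lit 76) (nat_lit 0) (XT.lf (nat_lit 0) (nat_lit 16018736140) (nat_lit 228) (nat_lit 9932407658) (nat_lit 76) (nat_lit 16590132454) (nat_lit 14) (nat_lit 5) (nat_lit 17) (nat_lit 5) (nat_lit 15) (nat_lit 4) (nat_lit 303) (nat_lit 265) (nat_lit 212)) (XT.lf (nat_lit 0) (nat_lit 10363075654) (nat_lit 76) (nat_lit 15582504383) (nat_lit 152) (nat_lit 19389705116) (nat_lit 13) (nat_lit 5) (nat_lit 14) (nat_lit 5) (nat_lit 15) (nat_lit 4) (nat_lit 304) (nat_lit 265) (nat_lit 211))) (XT.nd (nat_lit 78) (nat_lit 152) (nat_lit 0) (XT.lf (nat_lit 0) (nat_lit 32586865898) (nat_lit 76) (nat_lit 4224224591) (nat_lit 152) (nat_lit 11534524711) (nat_lit 13) (nat_lit 5) (nat_lit 14) (nat_lit 5) (nat_lit 15) (nat_lit 4) (nat_lit 305) (nat_lit 265) (nat_lit 210)) (XT.nd (nat_lit 78) (nat_lit 76) (nat_lit 0) (XT.lf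 (nat_lit 0) (nat_lit 4978209460) (nat_lit 76) (nat_lit 43744228218) (nat_lit 76) (nat_lit 2865528610) (nat_lit 12) (nat_lit 4) (nat_lit 13) (nat_lit 5) (nat_lit 13) (nat_lit 4) (nat_lit 306) (nat_lit 265) (nat_lit 209)) (XT.lf (nat_lit 0) (nat_lit 6613413076) (nat_lit 152) (nat_lit 27362441763) (nat_lit 76) (nat_lit 21092581857) (nat_lit 11) (nat_lit 5) (nat_lit 13) (nat_lit 5) (nat_lit 12) (nat_lit 4) (nat_lit 307) (nat_lit 265) (nat_lit 208)))))) (XT.nd (nat_lit 390) (nat_lit 152) (nat_lit 0) (XT.nd (nat_lit 156) (nat_lit 76) (nat_lit 0) (XT.nd (nat_lit 78) (nat_lit 76) (nat_lit 0) (XT.lf (nat_lit 0) (nat_lit 16727668615) (nat_lit 152) (nat_lit 6666402132) (nat_lit 76) (nat_lit 35432075510) (nat_lit 11) (nat_lit 5) (nat_lit 13) (nat_lit 5) (nat_lit 12) (nat_lit 4) (nat_lit 308) (nat_lit 265) (nat_lit 207)) (XT.lf (nat_lit 0) (nat_lit 16163063154) (nat_lit 76) (nat_lit 11718176705) (nat_lit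 152) (nat_lit 34991742435) (nat_lit 10) (nat_lit 5) (nat_lit 11) (nat_lit 5) (nat_lit 12) (nat_lit 4) (nat_lit 309) (nat_lit 265) (nat_lit 206))) (XT.nd (nat_lit 78) (nat_lit 76) (nat_lit 0) (XT.lf (nat_lit 0) (nat_lit 40037663114) (nat_lit 152) (nat_lit 26235313843) (nat_lit 0) (nat_lit 965077042) (nat_lit 10) (nat_lit 5) (nat_lit 12) (nat_lit 4) (nat_lit 10) (nat_lit 4) (nat_lit 310) (nat_lit 265) (nat_lit 205)) (XT.nd (nat_lit 78) (nat_lit 76) (nat_lit 0) (XT.lf (nat_lit 0) (nat_lit 53344389063) (nat_lit 152) (nat_lit 4356134230) (nat_lit 0) (nat_lit 14242934544) (nat_lit 10) (nat_lit 5) (nat_lit 12) (nat_lit 4) (nat_lit 10) (nat_lit 4) (nat_lit 311) (nat_lit 265) (nat_lit 204)) (XT.lf (nat_lit 0) (nat_lit 19876396491) (nat_lit 76) (nat_lit 48131248558) (nat_lit 76) (nat_lit 9003063997) (nat_lit 9) (nat_lit 4) (nat_lit 10) (nat_lit 5) (nat_lit 10) (nat_lit 4) (nat_lit 312) (nat_lit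 265) (nat_lit 203))))) (XT.nd (nat_lit 156) (nat_lit 76) (nat_lit 0) (XT.nd (nat_lit 78) (nat_lit 0) (nat_lit 0) (XT.lf (nat_lit 0) (nat_lit 1376426933) (nat_lit 152) (nat_lit 36331259386) (nat_lit 76) (nat_lit 44771637102) (nat_lit 8) (nat_lit 5) (nat_lit 10) (nat_lit 5) (nat_lit 9) (nat_lit 4) (nat_lit 313) (nat_lit 265) (nat_lit 202)) (XT.lf (nat_lit 0) (nat_lit 12258616030) (nat_lit 152) (nat_lit 14045688441) (nat_lit 76) (nat_lit 62074366767) (nat_lit 8) (nat_lit 5) (nat_lit 10) (nat_lit 5) (nat_lit 9) (nat_lit 4) (nat_lit 314) (nat_lit 265) (nat_lit 201))) (XT.nd (nat_lit 78) (nat_lit 0) (nat_lit 0) (XT.lf (nat_lit 0) (nat_lit 10325506678) (nat_lit 76) (nat_lit 13831848029) (nat_lit 152) (nat_lit 70585324535) (nat_lit 7) (nat_lit 5) (nat_lit 8) (nat_lit 5) (nat_lit 9) (nat_lit 4) (nat_lit 315) (nat_lit 265) (nat_lit 200)) (XT.nd (nat_lit 78) (nat_lit 0) (nat_lit 0) (XT.lf (nat_lit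 0) (nat_lit 37121466117) (nat_lit 76) (nat_lit 116672404) (nat_lit 152) (nat_lit 64366172329) (nat_lit 7) (nat_lit 5) (nat_lit 8) (nat_lit 5) (nat_lit 9) (nat_lit 4) (nat_lit 316) (nat_lit 265) (nat_lit 199)) (XT.lf (nat_lit 0) (nat_lit 51581208046) (nat_lit 152) (nat_lit 43208256078) (nat_lit 0) (nat_lit 14214627217) (nat_lit 7) (nat_lit 5) (nat_lit 9) (nat_lit 4) (nat_lit 7) (nat_lit 4) (nat_lit 317) (nat_lit 265) (nat_lit 198))))))) (XT.nd (nat_lit 780) (nat_lit 76) (nat_lit 0) (XT.nd (nat_lit 390) (nat_lit 152) (nat_lit 0) (XT.nd (nat_lit 156) (nat_lit 0) (nat_lit 0) (XT.nd (nat_lit 78) (nat_lit 76) (nat_lit 0) (XT.lf (nat_lit 0) (nat_lit 67061080882) (nat_lit 152) (nat_lit 20256856594) (nat_lit 0) (nat_lit 29678457709) (nat_lit 7) (nat_lit 5) (nat_lit 9) (nat_lit 4) (nat_lit 7) (nat_lit 4) (nat_lit 318) (nat_lit 265) (nat_lit 197)) (XT.lf (nat_lit 0) (nat_lit 4658277568) (nat_lit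 76) (nat_lit 79182119224) (nat_lit 76) (nat_lit 41784642029) (nat_lit 6) (nat_lit 4) (nat_lit 7) (nat_lit 5) (nat_lit 7) (nat_lit 4) (nat_lit 319) (nat_lit 265) (nat_lit 196))) (XT.nd (nat_lit 78) (nat_lit 0) (nat_lit 0) (XT.lf (nat_lit 0) (nat_lit 32269450140) (nat_lit 76) (nat_lit 70034337885) (nat_lit 76) (nat_lit 32623106966) (nat_lit 6) (nat_lit 4) (nat_lit 7) (nat_lit 5) (nat_lit 7) (nat_lit 4) (nat_lit 320) (nat_lit 265) (nat_lit 195)) (XT.nd (nat_lit 78) (nat_lit 0) (nat_lit 0) (XT.lf (nat_lit 0) (nat_lit 62070499721) (nat_lit 76) (nat_lit 60163444054) (nat_lit 76) (nat_lit 22739478205) (nat_lit 6) (nat_lit 4) (nat_lit 7) (nat_lit 5) (nat_lit 7) (nat_lit 4) (nat_lit 321) (nat_lit 265) (nat_lit 194)) (XT.lf (nat_lit 0) (nat_lit 94238025125) (nat_lit 76) (nat_lit 49510943544) (nat_lit 76) (nat_lit 12075186093) (nat_lit 6) (nat_lit 4) (nat_lit 7) (nat_lit 5) (nat_lit 7) (nat_lit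 4) (nat_lit 322) (nat_lit 265) (nat_lit 193))))) (XT.nd (nat_lit 156) (nat_lit 76) (nat_lit 0) (XT.nd (nat_lit 78) (nat_lit 76) (nat_lit 0) (XT.lf (nat_lit 0) (nat_lit 128962648724) (nat_lit 76) (nat_lit 38013710426) (nat_lit 76) (nat_lit 567034826) (nat_lit 6) (nat_lit 4) (nat_lit 7) (nat_lit 5) (nat_lit 7) (nat_lit 4) (nat_lit 323) (nat_lit 265) (nat_lit 192)) (XT.lf (nat_lit 0) (nat_lit 11473796518) (nat_lit 152) (nat_lit 13935502135) (nat_lit 76) (nat_lit 154782035252) (nat_lit 5) (nat_lit 5) (nat_lit 7) (nat_lit 5) (nat_lit 6) (nat_lit 4) (nat_lit 324) (nat_lit 265) (nat_lit 191))) (XT.nd (nat_lit 78) (nat_lit 0) (nat_lit 0) (XT.lf (nat_lit 0) (nat_lit 13076077775) (nat_lit 76) (nat_lit 11578665310) (nat_lit 152) (nat_lit 169186070307) (nat_lit 4) (nat_lit 5) (nat_lit 5) (nat_lit 5) (nat_lit 6) (nat_lit 4) (nat_lit 325) (nat_lit 265) (nat_lit 190)) (XT.nd (nat_lit 78) (nat_lit 0)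 (nat_lit 0) (XT.lf (nat_lit 0) (nat_lit 39181881861) (nat_lit 152) (nat_lit 165894204059) (nat_lit 0) (nat_lit 3491584022) (nat_lit 4) (nat_lit 5) (nat_lit 6) (nat_lit 4) (nat_lit 4) (nat_lit 4) (nat_lit 326) (nat_lit 265) (nat_lit 189)) (XT.lf (nat_lit 0) (nat_lit 55059535881) (nat_lit 152) (nat_lit 150042131095) (nat_lit 0) (nat_lit 19361595027) (nat_lit 4) (nat_lit 5) (nat_lit 6) (nat_lit 4) (nat_lit 4) (nat_lit 4) (nat_lit 327) (nat_lit 265) (nat_lit 188)))))) (XT.nd (nat_lit 390) (nat_lit 76) (nat_lit 0) (XT.nd (nat_lit 156) (nat_lit 0) (nat_lit 0) (XT.nd (nat_lit 78) (nat_lit 0) (nat_lit 0) (XT.lf (nat_lit 0) (nat_lit 72201019533) (nat_lit 152) (nat_lit 132933803098) (nat_lit 0) (nat_lit 36496001813) (nat_lit 4) (nat_lit 5) (nat_lit 6) (nat_lit 4) (nat_lit 4) (nat_lit 4) (nat_lit 328) (nat_lit 265) (nat_lit 187)) (XT.lf (nat_lit 0) (nat_lit 90707911979) (nat_lit 152) (nat_lit 114467837386)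 (nat_lit 0) (nat_lit 54996341606) (nat_lit 4) (nat_lit 5) (nat_lit 6) (nat_lit 4) (nat_lit 4) (nat_lit 4) (nat_lit 329) (nat_lit 265) (nat_lit 186))) (XT.nd (nat_lit 78) (nat_lit 0) (nat_lit 0) (XT.lf (nat_lit 0) (nat_lit 110689883693) (nat_lit 152) (nat_lit 94534806013) (nat_lit 0) (nat_lit 74972246048) (nat_lit 4) (nat_lit 5) (nat_lit 6) (nat_lit 4) (nat_lit 4) (nat_lit 4) (nat_lit 330) (nat_lit 265) (nat_lit 185)) (XT.nd (nat_lit 78) (nat_lit 0) (nat_lit 0) (XT.lf (nat_lit 0) (nat_lit 132265346360) (nat_lit 152) (nat_lit 73016587312) (nat_lit 0) (nat_lit 96542090870) (nat_lit 4) (nat_lit 5) (nat_lit 6) (nat_lit 4) (nat_lit 4) (nat_lit 4) (nat_lit 331) (nat_lit 265) (nat_lit 184)) (XT.lf (nat_lit 0) (nat_lit 155562154572) (nat_lit 152) (nat_lit 49785665913) (nat_lit 0) (nat_lit 119833697375) (nat_lit 4) (nat_lit 5) (nat_lit 6) (nat_lit 4) (nat_lit 4) (nat_lit 4) (nat_lit 332) (nat_lit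 265) (nat_lit 183))))) (XT.nd (nat_lit 234) (nat_lit 0) (nat_lit 0) (XT.nd (nat_lit 78) (nat_lit 76) (nat_lit 0) (XT.lf (nat_lit 0) (nat_lit 180718363490) (nat_lit 152) (nat_lit 24704377095) (nat_lit 0) (nat_lit 144985089896) (nat_lit 4) (nat_lit 5) (nat_lit 6) (nat_lit 4) (nat_lit 4) (nat_lit 4) (nat_lit 333) (nat_lit 265) (nat_lit 182)) (XT.nd (nat_lit 78) (nat_lit 0) (nat_lit 0) (XT.lf (nat_lit 0) (nat_lit 2454467280) (nat_lit 76) (nat_lit 205466900776) (nat_lit 76) (nat_lit 169729167557) (nat_lit 3) (nat_lit 4) (nat_lit 4) (nat_lit 5) (nat_lit 4) (nat_lit 4) (nat_lit 334) (nat_lit 265) (nat_lit 181)) (XT.lf (nat_lit 0) (nat_lit 32661024909) (nat_lit 76) (nat_lit 205066086057) (nat_lit 76) (nat_lit 169324223555) (nat_lit 3) (nat_lit 4) (nat_lit 4) (nat_lit 5) (nat_lit 4) (nat_lit 4) (nat_lit 335) (nat_lit 265) (nat_lit 180)))) (XT.nd (nat_lit 78) (nat_lit 0) (nat_lit 0) (XT.lf (nat_lit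 0) (nat_lit 65277459339) (nat_lit 76) (nat_lit 204636301810) (nat_lit 76) (nat_lit 168890615897) (nat_lit 3) (nat_lit 4) (nat_lit 4) (nat_lit 5) (nat_lit 4) (nat_lit 4) (nat_lit 336) (nat_lit 265) (nat_lit 179)) (XT.nd (nat_lit 78) (nat_lit 0) (nat_lit 0) (XT.lf (nat_lit 0) (nat_lit 100497053145) (nat_lit 76) (nat_lit 204175001166) (nat_lit 76) (nat_lit 168425775058) (nat_lit 3) (nat_lit 4) (nat_lit 4) (nat_lit 5) (nat_lit 4) (nat_lit 4) (nat_lit 337) (nat_lit 265) (nat_lit 178)) (XT.lf (nat_lit 0) (nat_lit 138528515031) (nat_lit 76) (nat_lit 203679450491) (nat_lit 76) (nat_lit 167926946425) (nat_lit 3) (nat_lit 4) (nat_lit 4) (nat_lit 5) (nat_lit 4) (nat_lit 4) (nat_lit 338) (nat_lit 265) (nat_lit 177))))))))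
noncomputable def xc60 : XT := (XT.nd (nat_lit 35880) (nat_lit 0) (nat_lit 1368) (XT.nd (nat_lit 35100) (nat_lit 0) (nat_lit 4788) (XT.nd (nat_lit 390) (nat_lit 0) (nat_lit 0) (XT.nd (nat_lit 156) (nat_lit 0) (nat_lit 0) (XT.nd (nat_lit 78) (nat_lit 0) (nat_lit 0) (XT.lf (nat_lit 0) (nat_lit 179597216622) (nat_lit 76) (nat_lit 203146713187) (nat_lit 76) (nat_lit 167391173975) (nat_lit 3) (nat_lit 4) (nat_lit 4) (nat_lit 5) (nat_lit 4) (nat_lit 4) (nat_lit 339) (nat_lit 265) (nat_lit 176)) (XT.lf (nat_lit 0) (nat_lit 223946528003) (nat_lit 76) (nat_lit 202573632295) (nat_lit 76) (nat_lit 166815282761) (nat_lit 3) (nat_lit 4) (nat_lit 4) (nat_lit 5) (nat_lit 4) (nat_lit 4) (nat_lit 340) (nat_lit 265) (nat_lit 175))) (XT.nd (nat_lit 78) (nat_lit 0) (nat_lit 0) (XT.lf (nat_lit 0) (nat_lit 271839259907) (nat_lit 76) (nat_lit 201956811778) (nat_lit 76) (nat_lit 166195860096) (nat_lit 3) (nat_lit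 4) (nat_lit 4) (nat_lit 5) (nat_lit 4) (nat_lit 4) (nat_lit 341) (nat_lit 265) (nat_lit 174)) (XT.nd (nat_lit 78) (nat_lit 0) (nat_lit 0) (XT.lf (nat_lit 0) (nat_lit 323559221115) (nat_lit 76) (nat_lit 201292596404) (nat_lit 76) (nat_lit 165529235324) (nat_lit 3) (nat_lit 4) (nat_lit 4) (nat_lit 5) (nat_lit 4) (nat_lit 4) (nat_lit 342) (nat_lit 265) (nat_lit 173)) (XT.lf (nat_lit 0) (nat_lit 379412900288) (nat_lit 76) (nat_lit 200577050082) (nat_lit 76) (nat_lit 164811458079) (nat_lit 3) (nat_lit 4) (nat_lit 4) (nat_lit 5) (nat_lit 4) (nat_lit 4) (nat_lit 343) (nat_lit 265) (nat_lit 172))))) (XT.nd (nat_lit 156) (nat_lit 0) (nat_lit 0) (XT.nd (nat_lit 78) (nat_lit 0) (nat_lit 0) (XT.lf (nat_lit 0) (nat_lit 439731282190) (nat_lit 76) (nat_lit 199805932537) (nat_lit 76) (nat_lit 164038274864) (nat_lit 3) (nat_lit 4) (nat_lit 4) (nat_lit 5) (nat_lit 4) (nat_lit 4) (nat_lit 344) (nat_lit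 265) (nat_lit 171)) (XT.lf (nat_lit 0) (nat_lit 504871809085) (nat_lit 76) (nat_lit 198974674184) (nat_lit 76) (nat_lit 163205103854) (nat_lit 3) (nat_lit 4) (nat_lit 4) (nat_lit 5) (nat_lit 4) (nat_lit 4) (nat_lit 345) (nat_lit 265) (nat_lit 170))) (XT.nd (nat_lit 34398) (nat_lit 0) (nat_lit 7296) (XT.lf (nat_lit 0) (nat_lit 575220498909) (nat_lit 76) (nat_lit 198078349047) (nat_lit 76) (nat_lit 162307007739) (nat_lit 3) (nat_lit 4) (nat_lit 4) (nat_lit 5) (nat_lit 4) (nat_lit 4) (nat_lit 346) (nat_lit 265) (nat_lit 169)) (XT.nd (nat_lit 78) (nat_lit 532) (nat_lit 0) (XT.lf (nat_lit 0) (nat_lit 3242750917) (nat_lit 532) (nat_lit 255080473) (nat_lit 532) (nat_lit 255080473) (nat_lit 106) (nat_lit 3) (nat_lit 113) (nat_lit 3) (nat_lit 113) (nat_lit 5) (nat_lit 266) (nat_lit 266) (nat_lit 248)) (XT.lf (nat_lit 0) (nat_lit 1149581260) (nat_lit 532) (nat_lit 2689760579) (nat_lit 608) (nat_lit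 3852172159) (nat_lit 99) (nat_lit 5) (nat_lit 106) (nat_lit 3) (nat_lit 107) (nat_lit 5) (nat_lit 267) (nat_lit 266) (nat_lit 247)))))) (XT.nd (nat_lit 390) (nat_lit 2052) (nat_lit 0) (XT.nd (nat_lit 156) (nat_lit 456) (nat_lit 0) (XT.nd (nat_lit 78) (nat_lit 0) (nat_lit 76) (XT.lf (nat_lit 76) (nat_lit 3041618521) (nat_lit 0) (nat_lit 261124759) (nat_lit 608) (nat_lit 4596862848) (nat_lit 100) (nat_lit 5) (nat_lit 99) (nat_lit 5) (nat_lit 107) (nat_lit 5) (nat_lit 268) (nat_lit 266) (nat_lit 246)) (XT.lf (nat_lit 76) (nat_lit 1056133714) (nat_lit 0) (nat_lit 4495996521) (nat_lit 608) (nat_lit 2576622030) (nat_lit 101) (nat_lit 5) (nat_lit 100) (nat_lit 5) (nat_lit 108) (nat_lit 5) (nat_lit 269) (nat_lit 266) (nat_lit 245))) (XT.nd (nat_lit 78) (nat_lit 532) (nat_lit 0) (XT.lf (nat_lit 76) (nat_lit 7491599532) (nat_lit 0) (nat_lit 395089325) (nat_lit 608) (nat_lit 494840601) (nat_lit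 101) (nat_lit 5) (nat_lit 100) (nat_lit 5) (nat_lit 108) (nat_lit 5) (nat_lit 270) (nat_lit 266) (nat_lit 244)) (XT.nd (nat_lit 78) (nat_lit 0) (nat_lit 76) (XT.lf (nat_lit 0) (nat_lit 1680731424) (nat_lit 608) (nat_lit 2895014262) (nat_lit 684) (nat_lit 4078739959) (nat_lit 93) (nat_lit 5) (nat_lit 101) (nat_lit 5) (nat_lit 102) (nat_lit 5) (nat_lit 271) (nat_lit 266) (nat_lit 243)) (XT.lf (nat_lit 0) (nat_lit 3938012828) (nat_lit 608) (nat_lit 4939232915) (nat_lit 76) (nat_lit 75834531) (nat_lit 94) (nat_lit 5) (nat_lit 102) (nat_lit 5) (nat_lit 95) (nat_lit 5) (nat_lit 272) (nat_lit 266) (nat_lit 242))))) (XT.nd (nat_lit 156) (nat_lit 836) (nat_lit 0) (XT.nd (nat_lit 78) (nat_lit 684) (nat_lit 0) (XT.lf (nat_lit 0) (nat_lit 2171847192) (nat_lit 608) (nat_lit 4215470557) (nat_lit 684) (nat_lit 2888096354) (nat_lit 86) (nat_lit 5) (nat_lit 94) (nat_lit 5) (nat_lit 95) (nat_lit 5) (nat_lit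 273) (nat_lit 266) (nat_lit 241)) (XT.lf (nat_lit 0) (nat_lit 275788208) (nat_lit 684) (nat_lit 8720085000) (nat_lit 760) (nat_lit 629888422) (nat_lit 77) (nat_lit 5) (nat_lit 86) (nat_lit 5) (nat_lit 87) (nat_lit 5) (nat_lit 274) (nat_lit 266) (nat_lit 240))) (XT.nd (nat_lit 78) (nat_lit 760) (nat_lit 0) (XT.lf (nat_lit 0) (nat_lit 1812713897) (nat_lit 760) (nat_lit 1727204104) (nat_lit 76) (nat_lit 6460070927) (nat_lit 76) (nat_lit 5) (nat_lit 86) (nat_lit 5) (nat_lit 77) (nat_lit 5) (nat_lit 275) (nat_lit 266) (nat_lit 239)) (XT.nd (nat_lit 78) (nat_lit 380) (nat_lit 0) (XT.lf (nat_lit 0) (nat_lit 4440668545) (nat_lit 456) (nat_lit 3851143717) (nat_lit 76) (nat_lit 2111545541) (nat_lit 71) (nat_lit 5) (nat_lit 77) (nat_lit 5) (nat_lit 72) (nat_lit 5) (nat_lit 276) (nat_lit 266) (nat_lit 238)) (XT.lf (nat_lit 0) (nat_lit 4689279356) (nat_lit 380) (nat_lit 2635463060) (nat_lit 456) (nat_lit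 3512256219) (nat_lit 66) (nat_lit 5) (nat_lit 71) (nat_lit 5) (nat_lit 72) (nat_lit 5) (nat_lit 277) (nat_lit 266) (nat_lit 237))))))) (XT.nd (nat_lit 780) (nat_lit 1216) (nat_lit 0) (XT.nd (nat_lit 390) (nat_lit 988) (nat_lit 0) (XT.nd (nat_lit 156) (nat_lit 532) (nat_lit 0) (XT.nd (nat_lit 78) (nat_lit 380) (nat_lit 0) (XT.lf (nat_lit 0) (nat_lit 2658859224) (nat_lit 304) (nat_lit 7833899940) (nat_lit 380) (nat_lit 810185342) (nat_lit 62) (nat_lit 5) (nat_lit 66) (nat_lit 5) (nat_lit 67) (nat_lit 5) (nat_lit 278) (nat_lit 266) (nat_lit 236)) (XT.lf (nat_lit 0) (nat_lit 404566263) (nat_lit 304) (nat_lit 1689367013) (nat_lit 380) (nat_lit 9708161665) (nat_lit 57) (nat_lit 5) (nat_lit 61) (nat_lit 5) (nat_lit 62) (nat_lit 5) (nat_lit 279) (nat_lit 266) (nat_lit 235))) (XT.nd (nat_lit 78) (nat_lit 532) (nat_lit 0) (XT.lf (nat_lit 0) (nat_lit 5332314183) (nat_lit 380) (nat_lit 2059090709)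 (nat_lit 76) (nat_lit 4942816777) (nat_lit 57) (nat_lit 5) (nat_lit 62) (nat_lit 5) (nat_lit 58) (nat_lit 5) (nat_lit 280) (nat_lit 266) (nat_lit 234)) (XT.nd (nat_lit 78) (nat_lit 304) (nat_lit 0) (XT.lf (nat_lit 0) (nat_lit 8149639248) (nat_lit 228) (nat_lit 742946343) (nat_lit 304) (nat_lit 4013399562) (nat_lit 54) (nat_lit 5) (nat_lit 57) (nat_lit 5) (nat_lit 58) (nat_lit 5) (nat_lit 281) (nat_lit 266) (nat_lit 233)) (XT.lf (nat_lit 0) (nat_lit 5699520172) (nat_lit 304) (nat_lit 7176191807) (nat_lit 380) (nat_lit 641068314) (nat_lit 50) (nat_lit 5) (nat_lit 54) (nat_lit 5) (nat_lit 55) (nat_lit 5) (nat_lit 282) (nat_lit 266) (nat_lit 232))))) (XT.nd (nat_lit 156) (nat_lit 684) (nat_lit 0) (XT.nd (nat_lit 78) (nat_lit 0) (nat_lit 0) (XT.lf (nat_lit 0) (nat_lit 2915016696) (nat_lit 228) (nat_lit 47671514) (nat_lit 304) (nat_lit 11208693067) (nat_lit 46) (nat_lit 5) (nat_lit 49) (nat_lit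 5) (nat_lit 50) (nat_lit 5) (nat_lit 283) (nat_lit 266) (nat_lit 231)) (XT.lf (nat_lit 0) (nat_lit 7010203077) (nat_lit 304) (nat_lit 325113907) (nat_lit 76) (nat_lit 7533768970) (nat_lit 46) (nat_lit 5) (nat_lit 50) (nat_lit 5) (nat_lit 47) (nat_lit 5) (nat_lit 284) (nat_lit 266) (nat_lit 230))) (XT.nd (nat_lit 78) (nat_lit 456) (nat_lit 0) (XT.lf (nat_lit 0) (nat_lit 11495756755) (nat_lit 304) (nat_lit 3863489307) (nat_lit 76) (nat_lit 257794402) (nat_lit 43) (nat_lit 5) (nat_lit 47) (nat_lit 5) (nat_lit 44) (nat_lit 5) (nat_lit 285) (nat_lit 266) (nat_lit 229)) (XT.nd (nat_lit 78) (nat_lit 228) (nat_lit 0) (XT.lf (nat_lit 0) (nat_lit 111523274) (nat_lit 228) (nat_lit 7982742641) (nat_lit 76) (nat_lit 8321085203) (nat_lit 40) (nat_lit 5) (nat_lit 43) (nat_lit 5) (nat_lit 41) (nat_lit 5) (nat_lit 286) (nat_lit 266) (nat_lit 228)) (XT.lf (nat_lit 0) (nat_lit 4556028480) (nat_lit 228)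 (nat_lit 55933150) (nat_lit 304) (nat_lit 12658635739) (nat_lit 37) (nat_lit 5) (nat_lit 40) (nat_lit 5) (nat_lit 41) (nat_lit 5) (nat_lit 287) (nat_lit 266) (nat_lit 227)))))) (XT.nd (nat_lit 390) (nat_lit 608) (nat_lit 0) (XT.nd (nat_lit 156) (nat_lit 456) (nat_lit 0) (XT.nd (nat_lit 78) (nat_lit 152) (nat_lit 0) (XT.lf (nat_lit 0) (nat_lit 9683566742) (nat_lit 304) (nat_lit 35457460) (nat_lit 76) (nat_lit 8464792415) (nat_lit 37) (nat_lit 5) (nat_lit 41) (nat_lit 5) (nat_lit 38) (nat_lit 5) (nat_lit 288) (nat_lit 266) (nat_lit 226)) (XT.lf (nat_lit 0) (nat_lit 14018533297) (nat_lit 152) (nat_lit 1302114047) (nat_lit 228) (nat_lit 3841560450) (nat_lit 35) (nat_lit 5) (nat_lit 37) (nat_lit 5) (nat_lit 38) (nat_lit 5) (nat_lit 289) (nat_lit 266) (nat_lit 225))) (XT.nd (nat_lit 78) (nat_lit 152) (nat_lit 0) (XT.lf (nat_lit 0) (nat_lit 1361405634) (nat_lit 304) (nat_lit 11168830220) (nat_lit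 76) (nat_lit 7677312141) (nat_lit 31) (nat_lit 5) (nat_lit 35) (nat_lit 5) (nat_lit 32) (nat_lit 5) (nat_lit 290) (nat_lit 266) (nat_lit 224)) (XT.nd (nat_lit 78) (nat_lit 0) (nat_lit 0) (XT.lf (nat_lit 0) (nat_lit 3135393066) (nat_lit 152) (nat_lit 3819059212) (nat_lit 228) (nat_lit 14373575747) (nat_lit 29) (nat_lit 5) (nat_lit 31) (nat_lit 5) (nat_lit 32) (nat_lit 5) (nat_lit 291) (nat_lit 266) (nat_lit 223)) (XT.lf (nat_lit 0) (nat_lit 13227009998) (nat_lit 228) (nat_lit 3718792729) (nat_lit 76) (nat_lit 5580817282) (nat_lit 29) (nat_lit 5) (nat_lit 32) (nat_lit 5) (nat_lit 30) (nat_lit 5) (nat_lit 292) (nat_lit 266) (nat_lit 222))))) (XT.nd (nat_lit 156) (nat_lit 228) (nat_lit 0) (XT.nd (nat_lit 78) (nat_lit 228) (nat_lit 0) (XT.lf (nat_lit 0) (nat_lit 12161208172) (nat_lit 152) (nat_lit 8045416194) (nat_lit 228) (nat_lit 3604283608) (nat_lit 27) (nat_lit 5) (nat_lit 29) (nat_lit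 5) (nat_lit 30) (nat_lit 5) (nat_lit 293) (nat_lit 266) (nat_lit 221)) (XT.lf (nat_lit 0) (nat_lit 2577183081) (nat_lit 228) (nat_lit 20947930403) (nat_lit 76) (nat_lit 1665299092) (nat_lit 24) (nat_lit 5) (nat_lit 27) (nat_lit 5) (nat_lit 25) (nat_lit 5) (nat_lit 294) (nat_lit 266) (nat_lit 220))) (XT.nd (nat_lit 78) (nat_lit 228) (nat_lit 0) (XT.lf (nat_lit 0) (nat_lit 9425114685) (nat_lit 228) (nat_lit 5121369980) (nat_lit 76) (nat_lit 12115985499) (nat_lit 24) (nat_lit 5) (nat_lit 27) (nat_lit 5) (nat_lit 25) (nat_lit 5) (nat_lit 295) (nat_lit 266) (nat_lit 219)) (XT.nd (nat_lit 78) (nat_lit 76) (nat_lit 0) (XT.lf (nat_lit 0) (nat_lit 12296813500) (nat_lit 152) (nat_lit 4674035163) (nat_lit 228) (nat_lit 11273999149) (nat_lit 22) (nat_lit 5) (nat_lit 24) (nat_lit 5) (nat_lit 25) (nat_lit 5) (nat_lit 296) (nat_lit 266) (nat_lit 218)) (XT.lf (nat_lit 0) (nat_lit 1219277495) (nat_lit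 76) (nat_lit 24063849068) (nat_lit 152) (nat_lit 4662594707) (nat_lit 21) (nat_lit 5) (nat_lit 22) (nat_lit 5) (nat_lit 23) (nat_lit 4) (nat_lit 297) (nat_lit 266) (nat_lit 217))))))))
noncomputable def xc61 : XT := (XT.nd (nat_lit 1560) (nat_lit 304) (nat_lit 0) (XT.nd (nat_lit 780) (nat_lit 380) (nat_lit 0) (XT.nd (nat_lit 390) (nat_lit 380) (nat_lit 0) (XT.nd (nat_lit 156) (nat_lit 76) (nat_lit 0) (XT.nd (nat_lit 78) (nat_lit 152) (nat_lit 0) (XT.lf (nat_lit 0) (nat_lit 2720589881) (nat_lit 152) (nat_lit 11626554623) (nat_lit 76) (nat_lit 17417521340) (nat_lit 20) (nat_lit 5) (nat_lit 22) (nat_lit 5) (nat_lit 21) (nat_lit 5) (nat_lit 298) (nat_lit 266) (nat_lit 216)) (XT.lf (nat_lit 0) (nat_lit 6923942492) (nat_lit 152) (nat_lit 3681306099) (nat_lit 228) (nat_lit 23116387605) (nat_lit 18) (nat_lit 5) (nat_lit 20) (nat_lit 5) (nat_lit 21) (nat_lit 5) (nat_lit 299) (nat_lit 266) (nat_lit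 215))) (XT.nd (nat_lit 78) (nat_lit 76) (nat_lit 0) (XT.lf (nat_lit 0) (nat_lit 19414192981) (nat_lit 228) (nat_lit 8636206173) (nat_lit 76) (nat_lit 7770127067) (nat_lit 18) (nat_lit 5) (nat_lit 21) (nat_lit 5) (nat_lit 19) (nat_lit 4) (nat_lit 300) (nat_lit 266) (nat_lit 214)) (XT.nd (nat_lit 78) (nat_lit 0) (nat_lit 0) (XT.lf (nat_lit 0) (nat_lit 11220495223) (nat_lit 76) (nat_lit 17912481076) (nat_lit 152) (nat_lit 8944129882) (nat_lit 17) (nat_lit 5) (nat_lit 18) (nat_lit 5) (nat_lit 19) (nat_lit 4) (nat_lit 301) (nat_lit 266) (nat_lit 213)) (XT.lf (nat_lit 0) (nat_lit 32921751053) (nat_lit 76) (nat_lit 6827377325) (nat_lit 152) (nat_lit 759123172) (nat_lit 17) (nat_lit 5) (nat_lit 18) (nat_lit 5) (nat_lit 19) (nat_lit 4) (nat_lit 302) (nat_lit 266) (nat_lit 212))))) (XT.nd (nat_lit 156) (nat_lit 152) (nat_lit 0) (XT.nd (nat_lit 78) (nat_lit 0) (nat_lit 0) (XT.lf (nat_lit 0) (nat_lit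 8089245671) (nat_lit 228) (nat_lit 29722985546) (nat_lit 76) (nat_lit 5302018024) (nat_lit 14) (nat_lit 5) (nat_lit 17) (nat_lit 5) (nat_lit 15) (nat_lit 4) (nat_lit 303) (nat_lit 266) (nat_lit 211)) (XT.lf (nat_lit 0) (nat_lit 17840967810) (nat_lit 228) (nat_lit 9782461344) (nat_lit 76) (nat_lit 18293597762) (nat_lit 14) (nat_lit 5) (nat_lit 17) (nat_lit 5) (nat_lit 15) (nat_lit 4) (nat_lit 304) (nat_lit 266) (nat_lit 210))) (XT.nd (nat_lit 78) (nat_lit 76) (nat_lit 0) (XT.lf (nat_lit 0) (nat_lit 12095612122) (nat_lit 76) (nat_lit 16440398834) (nat_lit 152) (nat_lit 20399881118) (nat_lit 13) (nat_lit 5) (nat_lit 14) (nat_lit 5) (nat_lit 15) (nat_lit 4) (nat_lit 305) (nat_lit 266) (nat_lit 209)) (XT.nd (nat_lit 78) (nat_lit 76) (nat_lit 0) (XT.lf (nat_lit 0) (nat_lit 36030380371) (nat_lit 76) (nat_lit 4202249687) (nat_lit 152) (nat_lit 11956360385) (nat_lit 13) (nat_lit 5) (nat_lit 14)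 (nat_lit 5) (nat_lit 15) (nat_lit 4) (nat_lit 306) (nat_lit 266) (nat_lit 208)) (XT.lf (nat_lit 0) (nat_lit 6194519326) (nat_lit 76) (nat_lit 46885033225) (nat_lit 76) (nat_lit 2612076383) (nat_lit 12) (nat_lit 4) (nat_lit 13) (nat_lit 5) (nat_lit 13) (nat_lit 4) (nat_lit 307) (nat_lit 266) (nat_lit 207)))))) (XT.nd (nat_lit 390) (nat_lit 228) (nat_lit 0) (XT.nd (nat_lit 156) (nat_lit 76) (nat_lit 0) (XT.nd (nat_lit 78) (nat_lit 0) (nat_lit 0) (XT.lf (nat_lit 0) (nat_lit 7575120638) (nat_lit 152) (nat_lit 28779315297) (nat_lit 76) (nat_lit 23097483597) (nat_lit 11) (nat_lit 5) (nat_lit 13) (nat_lit 5) (nat_lit 12) (nat_lit 4) (nat_lit 308) (nat_lit 266) (nat_lit 206)) (XT.lf (nat_lit 0) (nat_lit 18466469619) (nat_lit 152) (nat_lit 6484786704) (nat_lit 76) (nat_lit 38560618581) (nat_lit 11) (nat_lit 5) (nat_lit 13) (nat_lit 5) (nat_lit 12) (nat_lit 4) (nat_lit 309) (nat_lit 266) (nat_lit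 205))) (XT.nd (nat_lit 78) (nat_lit 0) (nat_lit 0) (XT.lf (nat_lit 0) (nat_lit 18139965923) (nat_lit 76) (nat_lit 12353364425) (nat_lit 152) (nat_lit 37390102002) (nat_lit 10) (nat_lit 5) (nat_lit 11) (nat_lit 5) (nat_lit 12) (nat_lit 4) (nat_lit 310) (nat_lit 266) (nat_lit 204)) (XT.nd (nat_lit 78) (nat_lit 0) (nat_lit 0) (XT.lf (nat_lit 0) (nat_lit 43598371096) (nat_lit 152) (nat_lit 27687354674) (nat_lit 0) (nat_lit 1313201727) (nat_lit 10) (nat_lit 5) (nat_lit 12) (nat_lit 4) (nat_lit 10) (nat_lit 4) (nat_lit 311) (nat_lit 266) (nat_lit 203)) (XT.lf (nat_lit 0) (nat_lit 57943139199) (nat_lit 152) (nat_lit 4105750639) (nat_lit 0) (nat_lit 15633219791) (nat_lit 10) (nat_lit 5) (nat_lit 12) (nat_lit 4) (nat_lit 10) (nat_lit 4) (nat_lit 312) (nat_lit 266) (nat_lit 202))))) (XT.nd (nat_lit 156) (nat_lit 76) (nat_lit 0) (XT.nd (nat_lit 78) (nat_lit 76) (nat_lit 0) (XT.lf (nat_lit 0) (nat_lit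 22039356192) (nat_lit 76) (nat_lit 51724509975) (nat_lit 76) (nat_lit 9391673864) (nat_lit 9) (nat_lit 4) (nat_lit 10) (nat_lit 5) (nat_lit 10) (nat_lit 4) (nat_lit 313) (nat_lit 266) (nat_lit 201)) (XT.lf (nat_lit 0) (nat_lit 1783782619) (nat_lit 152) (nat_lit 38697300910) (nat_lit 76) (nat_lit 48581507407) (nat_lit 8) (nat_lit 5) (nat_lit 10) (nat_lit 5) (nat_lit 9) (nat_lit 4) (nat_lit 314) (nat_lit 266) (nat_lit 200))) (XT.nd (nat_lit 78) (nat_lit 76) (nat_lit 0) (XT.lf (nat_lit 0) (nat_lit 13514528953) (nat_lit 152) (nat_lit 14668918306) (nat_lit 76) (nat_lit 67251556235) (nat_lit 8) (nat_lit 5) (nat_lit 10) (nat_lit 5) (nat_lit 9) (nat_lit 4) (nat_lit 315) (nat_lit 266) (nat_lit 199)) (XT.nd (nat_lit 78) (nat_lit 0) (nat_lit 0) (XT.lf (nat_lit 0) (nat_lit 11630224553) (nat_lit 76) (nat_lit 14722028730) (nat_lit 152) (nat_lit 75956539362) (nat_lit 7) (nat_lit 5) (nat_lit 8) (nat_lit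 5) (nat_lit 9) (nat_lit 4) (nat_lit 316) (nat_lit 266) (nat_lit 198)) (XT.lf (nat_lit 0) (nat_lit 40461229975) (nat_lit 152) (nat_lit 69187097429) (nat_lit 0) (nat_lit 71954605) (nat_lit 7) (nat_lit 5) (nat_lit 9) (nat_lit 4) (nat_lit 7) (nat_lit 4) (nat_lit 317) (nat_lit 266) (nat_lit 197))))))) (XT.nd (nat_lit 780) (nat_lit 76) (nat_lit 0) (XT.nd (nat_lit 390) (nat_lit 152) (nat_lit 0) (XT.nd (nat_lit 156) (nat_lit 76) (nat_lit 0) (XT.nd (nat_lit 78) (nat_lit 0) (nat_lit 0) (XT.lf (nat_lit 0) (nat_lit 55935489580) (nat_lit 152) (nat_lit 46246020662) (nat_lit 0) (nat_lit 15531360188) (nat_lit 7) (nat_lit 5) (nat_lit 9) (nat_lit 4) (nat_lit 7) (nat_lit 4) (nat_lit 318) (nat_lit 266) (nat_lit 196)) (XT.lf (nat_lit 0) (nat_lit 72636879288) (nat_lit 152) (nat_lit 21489538545) (nat_lit 0) (nat_lit 32218996171) (nat_lit 7) (nat_lit 5) (nat_lit 9) (nat_lit 4) (nat_lit 7) (nat_lit 4) (nat_lit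 319) (nat_lit 266) (nat_lit 195))) (XT.nd (nat_lit 78) (nat_lit 0) (nat_lit 0) (XT.lf (nat_lit 0) (nat_lit 5401950141) (nat_lit 76) (nat_lit 85346759736) (nat_lit 76) (nat_lit 44916141689) (nat_lit 6) (nat_lit 4) (nat_lit 7) (nat_lit 5) (nat_lit 7) (nat_lit 4) (nat_lit 320) (nat_lit 266) (nat_lit 194)) (XT.nd (nat_lit 78) (nat_lit 0) (nat_lit 0) (XT.lf (nat_lit 0) (nat_lit 35194534269) (nat_lit 76) (nat_lit 75479743225) (nat_lit 76) (nat_lit 35037333577) (nat_lit 6) (nat_lit 4) (nat_lit 7) (nat_lit 5) (nat_lit 7) (nat_lit 4) (nat_lit 321) (nat_lit 266) (nat_lit 193)) (XT.lf (nat_lit 0) (nat_lit 67354221289) (nat_lit 76) (nat_lit 64830832827) (nat_lit 76) (nat_lit 24377505029) (nat_lit 6) (nat_lit 4) (nat_lit 7) (nat_lit 5) (nat_lit 7) (nat_lit 4) (nat_lit 322) (nat_lit 266) (nat_lit 192))))) (XT.nd (nat_lit 156) (nat_lit 152) (nat_lit 0) (XT.nd (nat_lit 78) (nat_lit 0) (nat_lit 0) (XT.lf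 (nat_lit 0) (nat_lit 102071587126) (nat_lit 76) (nat_lit 53336923887) (nat_lit 76) (nat_lit 12873486692) (nat_lit 6) (nat_lit 4) (nat_lit 7) (nat_lit 5) (nat_lit 7) (nat_lit 4) (nat_lit 323) (nat_lit 266) (nat_lit 191)) (XT.lf (nat_lit 0) (nat_lit 139552364318) (nat_lit 76) (nat_lit 40929904353) (nat_lit 76) (nat_lit 457106604) (nat_lit 6) (nat_lit 4) (nat_lit 7) (nat_lit 5) (nat_lit 7) (nat_lit 4) (nat_lit 324) (nat_lit 266) (nat_lit 190))) (XT.nd (nat_lit 78) (nat_lit 76) (nat_lit 0) (XT.lf (nat_lit 0) (nat_lit 12530886097) (nat_lit 152) (nat_lit 14793148428) (nat_lit 76) (nat_lit 167275558457) (nat_lit 5) (nat_lit 5) (nat_lit 7) (nat_lit 5) (nat_lit 6) (nat_lit 4) (nat_lit 325) (nat_lit 266) (nat_lit 189)) (XT.nd (nat_lit 78) (nat_lit 0) (nat_lit 0) (XT.lf (nat_lit 0) (nat_lit 14368180542) (nat_lit 76) (nat_lit 12391658792) (nat_lit 152) (nat_lit 182581521491) (nat_lit 4) (nat_lit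 5) (nat_lit 5) (nat_lit 5) (nat_lit 6) (nat_lit 4) (nat_lit 326) (nat_lit 266) (nat_lit 188)) (XT.lf (nat_lit 0) (nat_lit 42440956233) (nat_lit 152) (nat_lit 178933365146) (nat_lit 0) (nat_lit 3872460229) (nat_lit 4) (nat_lit 5) (nat_lit 6) (nat_lit 4) (nat_lit 4) (nat_lit 4) (nat_lit 327) (nat_lit 266) (nat_lit 187)))))) (XT.nd (nat_lit 390) (nat_lit 76) (nat_lit 0) (XT.nd (nat_lit 156) (nat_lit 0) (nat_lit 0) (XT.nd (nat_lit 78) (nat_lit 0) (nat_lit 0) (XT.lf (nat_lit 0) (nat_lit 59579598587) (nat_lit 152) (nat_lit 161830339325) (nat_lit 0) (nat_lit 21004549931) (nat_lit 4) (nat_lit 5) (nat_lit 6) (nat_lit 4) (nat_lit 4) (nat_lit 4) (nat_lit 328) (nat_lit 266) (nat_lit 186)) (XT.lf (nat_lit 0) (nat_lit 78083860203) (nat_lit 152) (nat_lit 143369283034) (nat_lit 0) (nat_lit 39502744274) (nat_lit 4) (nat_lit 5) (nat_lit 6) (nat_lit 4) (nat_lit 4) (nat_lit 4) (nat_lit 329) (nat_lit 266)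 (nat_lit 185))) (XT.nd (nat_lit 78) (nat_lit 0) (nat_lit 0) (XT.lf (nat_lit 0) (nat_lit 98063395963) (nat_lit 152) (nat_lit 123440797421) (nat_lit 0) (nat_lit 59476662190) (nat_lit 4) (nat_lit 5) (nat_lit 6) (nat_lit 4) (nat_lit 4) (nat_lit 4) (nat_lit 330) (nat_lit 266) (nat_lit 184)) (XT.nd (nat_lit 78) (nat_lit 0) (nat_lit 0) (XT.lf (nat_lit 0) (nat_lit 119636603116) (nat_lit 152) (nat_lit 101926787757) (nat_lit 0) (nat_lit 81044667635) (nat_lit 4) (nat_lit 5) (nat_lit 6) (nat_lit 4) (nat_lit 4) (nat_lit 4) (nat_lit 331) (nat_lit 266) (nat_lit 183)) (XT.lf (nat_lit 0) (nat_lit 142931322890) (nat_lit 152) (nat_lit 78699763615) (nat_lit 0) (nat_lit 104334571013) (nat_lit 4) (nat_lit 5) (nat_lit 6) (nat_lit 4) (nat_lit 4) (nat_lit 4) (nat_lit 332) (nat_lit 266) (nat_lit 182))))) (XT.nd (nat_lit 234) (nat_lit 0) (nat_lit 0) (XT.nd (nat_lit 78) (nat_lit 76) (nat_lit 0) (XT.lf (nat_lit 0)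 (nat_lit 168085598068) (nat_lit 152) (nat_lit 53622083369) (nat_lit 0) (nat_lit 129484386566) (nat_lit 4) (nat_lit 5) (nat_lit 6) (nat_lit 4) (nat_lit 4) (nat_lit 4) (nat_lit 333) (nat_lit 266) (nat_lit 181)) (XT.nd (nat_lit 78) (nat_lit 76) (nat_lit 0) (XT.lf (nat_lit 0) (nat_lit 195248491023) (nat_lit 152) (nat_lit 26545138543) (nat_lit 0) (nat_lit 156643150237) (nat_lit 4) (nat_lit 5) (nat_lit 6) (nat_lit 4) (nat_lit 4) (nat_lit 4) (nat_lit 334) (nat_lit 266) (nat_lit 180)) (XT.lf (nat_lit 0) (nat_lit 2780520861) (nat_lit 76) (nat_lit 221843857907) (nat_lit 76) (nat_lit 183234693711) (nat_lit 3) (nat_lit 4) (nat_lit 4) (nat_lit 5) (nat_lit 4) (nat_lit 4) (nat_lit 335) (nat_lit 266) (nat_lit 179)))) (XT.nd (nat_lit 78) (nat_lit 0) (nat_lit 0) (XT.lf (nat_lit 0) (nat_lit 35393995975) (nat_lit 76) (nat_lit 221415451709) (nat_lit 76) (nat_lit 182802747318) (nat_lit 3) (nat_lit 4) (nat_lit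 4) (nat_lit 5) (nat_lit 4) (nat_lit 4) (nat_lit 336) (nat_lit 266) (nat_lit 178)) (XT.nd (nat_lit 78) (nat_lit 0) (nat_lit 0) (XT.lf (nat_lit 0) (nat_lit 70610849673) (nat_lit 76) (nat_lit 220955427036) (nat_lit 76) (nat_lit 182339444687) (nat_lit 3) (nat_lit 4) (nat_lit 4) (nat_lit 5) (nat_lit 4) (nat_lit 4) (nat_lit 337) (nat_lit 266) (nat_lit 177)) (XT.lf (nat_lit 0) (nat_lit 108639774421) (nat_lit 76) (nat_lit 220461057816) (nat_lit 76) (nat_lit 181842040320) (nat_lit 3) (nat_lit 4) (nat_lit 4) (nat_lit 5) (nat_lit 4) (nat_lit 4) (nat_lit 338) (nat_lit 266) (nat_lit 176))))))))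
noncomputable def xc62 : XT := (XT.nd (nat_lit 35958) (nat_lit 0) (nat_lit 1368) (XT.nd (nat_lit 35178) (nat_lit 0) (nat_lit 4788) (XT.nd (nat_lit 390) (nat_lit 0) (nat_lit 0) (XT.nd (nat_lit 156) (nat_lit 0) (nat_lit 0) (XT.nd (nat_lit 78) (nat_lit 0) (nat_lit 0) (XT.lf (nat_lit 0) (nat_lit 149706126812) (nat_lit 76) (nat_lit 219929414452) (nat_lit 76) (nat_lit 181307586636) (nat_lit 3) (nat_lit 4) (nat_lit 4) (nat_lit 5) (nat_lit 4) (nat_lit 4) (nat_lit 339) (nat_lit 266) (nat_lit 175)) (XT.lf (nat_lit 0) (nat_lit 194053263006) (nat_lit 76) (nat_lit 219357346467) (nat_lit 76) (nat_lit 180732916501) (nat_lit 3) (nat_lit 4) (nat_lit 4) (nat_lit 5) (nat_lit 4) (nat_lit 4) (nat_lit 340) (nat_lit 266) (nat_lit 174))) (XT.nd (nat_lit 78) (nat_lit 0) (nat_lit 0) (XT.lf (nat_lit 0) (nat_lit 241943980849) (nat_lit 76) (nat_lit 218741463827) (nat_lit 76) (nat_lit 180114624464) (nat_lit 3) (nat_lit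 4) (nat_lit 4) (nat_lit 5) (nat_lit 4) (nat_lit 4) (nat_lit 341) (nat_lit 266) (nat_lit 173)) (XT.nd (nat_lit 78) (nat_lit 0) (nat_lit 0) (XT.lf (nat_lit 0) (nat_lit 293662077186) (nat_lit 76) (nat_lit 218078116858) (nat_lit 76) (nat_lit 179449046572) (nat_lit 3) (nat_lit 4) (nat_lit 4) (nat_lit 5) (nat_lit 4) (nat_lit 4) (nat_lit 342) (nat_lit 266) (nat_lit 172)) (XT.lf (nat_lit 0) (nat_lit 349514029626) (nat_lit 76) (nat_lit 217363374614) (nat_lit 76) (nat_lit 178732238658) (nat_lit 3) (nat_lit 4) (nat_lit 4) (nat_lit 5) (nat_lit 4) (nat_lit 4) (nat_lit 343) (nat_lit 266) (nat_lit 171))))) (XT.nd (nat_lit 156) (nat_lit 0) (nat_lit 0) (XT.nd (nat_lit 78) (nat_lit 0) (nat_lit 0) (XT.lf (nat_lit 0) (nat_lit 409830812701) (nat_lit 76) (nat_lit 216593001586) (nat_lit 76) (nat_lit 177959952973) (nat_lit 3) (nat_lit 4) (nat_lit 4) (nat_lit 5) (nat_lit 4) (nat_lit 4) (nat_lit 344) (nat_lit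 266) (nat_lit 170)) (XT.lf (nat_lit 0) (nat_lit 474969859200) (nat_lit 76) (nat_lit 215762432601) (nat_lit 76) (nat_lit 177127613009) (nat_lit 3) (nat_lit 4) (nat_lit 4) (nat_lit 5) (nat_lit 4) (nat_lit 4) (nat_lit 345) (nat_lit 266) (nat_lit 169))) (XT.nd (nat_lit 34476) (nat_lit 0) (nat_lit 7296) (XT.lf (nat_lit 0) (nat_lit 545317178288) (nat_lit 76) (nat_lit 214866745768) (nat_lit 76) (nat_lit 176230286381) (nat_lit 3) (nat_lit 4) (nat_lit 4) (nat_lit 5) (nat_lit 4) (nat_lit 4) (nat_lit 346) (nat_lit 266) (nat_lit 168)) (XT.nd (nat_lit 78) (nat_lit 0) (nat_lit 0) (XT.lf (nat_lit 0) (nat_lit 769060056) (nat_lit 0) (nat_lit 769060056) (nat_lit 532) (nat_lit 2405505586) (nat_lit 99) (nat_lit 5) (nat_lit 99) (nat_lit 3) (nat_lit 106) (nat_lit 3) (nat_lit 267) (nat_lit 267) (nat_lit 246)) (XT.lf (nat_lit 0) (nat_lit 5063711332) (nat_lit 532) (nat_lit 744331821) (nat_lit 608) (nat_lit 2295875898)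 (nat_lit 99) (nat_lit 5) (nat_lit 106) (nat_lit 3) (nat_lit 107) (nat_lit 5) (nat_lit 268) (nat_lit 267) (nat_lit 245)))))) (XT.nd (nat_lit 390) (nat_lit 1976) (nat_lit 0) (XT.nd (nat_lit 156) (nat_lit 0) (nat_lit 0) (XT.nd (nat_lit 78) (nat_lit 532) (nat_lit 0) (XT.lf (nat_lit 76) (nat_lit 5351660146) (nat_lit 0) (nat_lit 1786610109) (nat_lit 608) (nat_lit 1203805758) (nat_lit 100) (nat_lit 5) (nat_lit 99) (nat_lit 5) (nat_lit 107) (nat_lit 5) (nat_lit 269) (nat_lit 267) (nat_lit 244)) (XT.lf (nat_lit 0) (nat_lit 689584890) (nat_lit 608) (nat_lit 5292845316) (nat_lit 684) (nat_lit 2619989709) (nat_lit 92) (nat_lit 5) (nat_lit 100) (nat_lit 5) (nat_lit 101) (nat_lit 5) (nat_lit 270) (nat_lit 267) (nat_lit 243))) (XT.nd (nat_lit 78) (nat_lit 0) (nat_lit 76) (XT.lf (nat_lit 76) (nat_lit 1217804506) (nat_lit 0) (nat_lit 1416544576) (nat_lit 684) (nat_lit 6251609207) (nat_lit 93) (nat_lit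 5) (nat_lit 92) (nat_lit 5) (nat_lit 101) (nat_lit 5) (nat_lit 271) (nat_lit 267) (nat_lit 242)) (XT.nd (nat_lit 78) (nat_lit 0) (nat_lit 0) (XT.lf (nat_lit 0) (nat_lit 4733684138) (nat_lit 608) (nat_lit 918807237) (nat_lit 684) (nat_lit 3540162553) (nat_lit 93) (nat_lit 5) (nat_lit 101) (nat_lit 5) (nat_lit 102) (nat_lit 5) (nat_lit 272) (nat_lit 267) (nat_lit 241)) (XT.lf (nat_lit 76) (nat_lit 6448201699) (nat_lit 0) (nat_lit 538812656) (nat_lit 684) (nat_lit 2537960742) (nat_lit 94) (nat_lit 5) (nat_lit 93) (nat_lit 5) (nat_lit 102) (nat_lit 5) (nat_lit 273) (nat_lit 267) (nat_lit 240))))) (XT.nd (nat_lit 156) (nat_lit 760) (nat_lit 0) (XT.nd (nat_lit 78) (nat_lit 760) (nat_lit 0) (XT.lf (nat_lit 0) (nat_lit 4513127436) (nat_lit 608) (nat_lit 4942672662) (nat_lit 684) (nat_lit 426685646) (nat_lit 86) (nat_lit 5) (nat_lit 94) (nat_lit 5) (nat_lit 95) (nat_lit 5) (nat_lit 274) (nat_lit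 267) (nat_lit 239)) (XT.lf (nat_lit 0) (nat_lit 1784031007) (nat_lit 760) (nat_lit 7792085454) (nat_lit 76) (nat_lit 691861045) (nat_lit 76) (nat_lit 5) (nat_lit 86) (nat_lit 5) (nat_lit 77) (nat_lit 5) (nat_lit 275) (nat_lit 267) (nat_lit 238))) (XT.nd (nat_lit 78) (nat_lit 380) (nat_lit 0) (XT.lf (nat_lit 0) (nat_lit 268457029) (nat_lit 380) (nat_lit 3955073967) (nat_lit 456) (nat_lit 6457380710) (nat_lit 71) (nat_lit 5) (nat_lit 76) (nat_lit 5) (nat_lit 77) (nat_lit 5) (nat_lit 276) (nat_lit 267) (nat_lit 237)) (XT.nd (nat_lit 78) (nat_lit 380) (nat_lit 0) (XT.lf (nat_lit 0) (nat_lit 6920292113) (nat_lit 456) (nat_lit 2013250847) (nat_lit 76) (nat_lit 2190507245) (nat_lit 71) (nat_lit 5) (nat_lit 77) (nat_lit 5) (nat_lit 72) (nat_lit 5) (nat_lit 277) (nat_lit 267) (nat_lit 236)) (XT.lf (nat_lit 0) (nat_lit 7117144206) (nat_lit 380) (nat_lit 2792635692) (nat_lit 456) (nat_lit 1689264874)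 (nat_lit 66) (nat_lit 5) (nat_lit 71) (nat_lit 5) (nat_lit 72) (nat_lit 5) (nat_lit 278) (nat_lit 267) (nat_lit 235))))))) (XT.nd (nat_lit 780) (nat_lit 1216) (nat_lit 0) (XT.nd (nat_lit 390) (nat_lit 912) (nat_lit 0) (XT.nd (nat_lit 156) (nat_lit 608) (nat_lit 0) (XT.nd (nat_lit 78) (nat_lit 304) (nat_lit 0) (XT.lf (nat_lit 0) (nat_lit 1072302098) (nat_lit 380) (nat_lit 7191049059) (nat_lit 76) (nat_lit 3844172483) (nat_lit 61) (nat_lit 5) (nat_lit 66) (nat_lit 5) (nat_lit 62) (nat_lit 5) (nat_lit 279) (nat_lit 267) (nat_lit 234)) (XT.lf (nat_lit 0) (nat_lit 2475227009) (nat_lit 304) (nat_lit 1595171099) (nat_lit 380) (nat_lit 8581366321) (nat_lit 57) (nat_lit 5) (nat_lit 61) (nat_lit 5) (nat_lit 62) (nat_lit 5) (nat_lit 280) (nat_lit 267) (nat_lit 233))) (XT.nd (nat_lit 78) (nat_lit 608) (nat_lit 0) (XT.lf (nat_lit 0) (nat_lit 7437168662) (nat_lit 380) (nat_lit 252324605) (nat_lit 76)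 (nat_lit 5543802113) (nat_lit 57) (nat_lit 5) (nat_lit 62) (nat_lit 5) (nat_lit 58) (nat_lit 5) (nat_lit 281) (nat_lit 267) (nat_lit 232)) (XT.nd (nat_lit 78) (nat_lit 380) (nat_lit 0) (XT.lf (nat_lit 0) (nat_lit 10687425050) (nat_lit 228) (nat_lit 499963337) (nat_lit 304) (nat_lit 2668433045) (nat_lit 54) (nat_lit 5) (nat_lit 57) (nat_lit 5) (nat_lit 58) (nat_lit 5) (nat_lit 282) (nat_lit 267) (nat_lit 231)) (XT.lf (nat_lit 0) (nat_lit 857311642) (nat_lit 380) (nat_lit 6499868696) (nat_lit 76) (nat_lit 7162045193) (nat_lit 49) (nat_lit 5) (nat_lit 54) (nat_lit 5) (nat_lit 50) (nat_lit 5) (nat_lit 283) (nat_lit 267) (nat_lit 230))))) (XT.nd (nat_lit 156) (nat_lit 456) (nat_lit 0) (XT.nd (nat_lit 78) (nat_lit 228) (nat_lit 0) (XT.lf (nat_lit 0) (nat_lit 4648429070) (nat_lit 304) (nat_lit 10239391931) (nat_lit 76) (nat_lit 341998954) (nat_lit 46) (nat_lit 5) (nat_lit 50) (nat_lit 5) (nat_lit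 47) (nat_lit 5) (nat_lit 284) (nat_lit 267) (nat_lit 229)) (XT.lf (nat_lit 0) (nat_lit 1470648766) (nat_lit 228) (nat_lit 7465488571) (nat_lit 304) (nat_lit 7051594097) (nat_lit 43) (nat_lit 5) (nat_lit 46) (nat_lit 5) (nat_lit 47) (nat_lit 5) (nat_lit 285) (nat_lit 267) (nat_lit 228))) (XT.nd (nat_lit 78) (nat_lit 456) (nat_lit 0) (XT.lf (nat_lit 0) (nat_lit 13691346717) (nat_lit 304) (nat_lit 2415787365) (nat_lit 76) (nat_lit 693042134) (nat_lit 43) (nat_lit 5) (nat_lit 47) (nat_lit 5) (nat_lit 44) (nat_lit 5) (nat_lit 286) (nat_lit 267) (nat_lit 227)) (XT.nd (nat_lit 78) (nat_lit 228) (nat_lit 0) (XT.lf (nat_lit 0) (nat_lit 1350074018) (nat_lit 228) (nat_lit 6898127695) (nat_lit 76) (nat_lit 9416752298) (nat_lit 40) (nat_lit 5) (nat_lit 43) (nat_lit 5) (nat_lit 41) (nat_lit 5) (nat_lit 287) (nat_lit 267) (nat_lit 226)) (XT.lf (nat_lit 0) (nat_lit 6151813565) (nat_lit 304) (nat_lit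 12029805190) (nat_lit 76) (nat_lit 410096698) (nat_lit 37) (nat_lit 5) (nat_lit 41) (nat_lit 5) (nat_lit 38) (nat_lit 5) (nat_lit 288) (nat_lit 267) (nat_lit 225)))))) (XT.nd (nat_lit 390) (nat_lit 608) (nat_lit 0) (XT.nd (nat_lit 156) (nat_lit 456) (nat_lit 0) (XT.nd (nat_lit 78) (nat_lit 0) (nat_lit 0) (XT.lf (nat_lit 0) (nat_lit 1587503061) (nat_lit 152) (nat_lit 9980569706) (nat_lit 228) (nat_lit 8013120224) (nat_lit 35) (nat_lit 5) (nat_lit 37) (nat_lit 5) (nat_lit 38) (nat_lit 5) (nat_lit 289) (nat_lit 267) (nat_lit 224)) (XT.lf (nat_lit 0) (nat_lit 16646556047) (nat_lit 152) (nat_lit 927926725) (nat_lit 228) (nat_lit 3067590684) (nat_lit 35) (nat_lit 5) (nat_lit 37) (nat_lit 5) (nat_lit 38) (nat_lit 5) (nat_lit 290) (nat_lit 267) (nat_lit 223))) (XT.nd (nat_lit 78) (nat_lit 152) (nat_lit 0) (XT.lf (nat_lit 0) (nat_lit 2470061563) (nat_lit 304) (nat_lit 10543053316) (nat_lit 76)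 (nat_lit 8759549095) (nat_lit 31) (nat_lit 5) (nat_lit 35) (nat_lit 5) (nat_lit 32) (nat_lit 5) (nat_lit 291) (nat_lit 267) (nat_lit 222)) (XT.nd (nat_lit 78) (nat_lit 0) (nat_lit 0) (XT.lf (nat_lit 0) (nat_lit 4839481631) (nat_lit 152) (nat_lit 3619704651) (nat_lit 228) (nat_lit 14526275568) (nat_lit 29) (nat_lit 5) (nat_lit 31) (nat_lit 5) (nat_lit 32) (nat_lit 5) (nat_lit 292) (nat_lit 267) (nat_lit 221)) (XT.lf (nat_lit 0) (nat_lit 15170597097) (nat_lit 228) (nat_lit 2632793411) (nat_lit 76) (nat_lit 6479801189) (nat_lit 29) (nat_lit 5) (nat_lit 32) (nat_lit 5) (nat_lit 30) (nat_lit 5) (nat_lit 293) (nat_lit 267) (nat_lit 220))))) (XT.nd (nat_lit 156) (nat_lit 228) (nat_lit 0) (XT.nd (nat_lit 78) (nat_lit 228) (nat_lit 0) (XT.lf (nat_lit 0) (nat_lit 14457482219) (nat_lit 152) (nat_lit 8206172892) (nat_lit 228) (nat_lit 3008909167) (nat_lit 27) (nat_lit 5) (nat_lit 29) (nat_lit 5)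 (nat_lit 30) (nat_lit 5) (nat_lit 294) (nat_lit 267) (nat_lit 219)) (XT.lf (nat_lit 0) (nat_lit 3603149297) (nat_lit 228) (nat_lit 21295616490) (nat_lit 76) (nat_lit 2264839693) (nat_lit 24) (nat_lit 5) (nat_lit 27) (nat_lit 5) (nat_lit 25) (nat_lit 5) (nat_lit 295) (nat_lit 267) (nat_lit 218))) (XT.nd (nat_lit 78) (nat_lit 228) (nat_lit 0) (XT.lf (nat_lit 0) (nat_lit 10938190127) (nat_lit 228) (nat_lit 4301312592) (nat_lit 76) (nat_lit 13517039037) (nat_lit 24) (nat_lit 5) (nat_lit 27) (nat_lit 5) (nat_lit 25) (nat_lit 5) (nat_lit 296) (nat_lit 267) (nat_lit 217)) (XT.nd (nat_lit 78) (nat_lit 76) (nat_lit 0) (XT.lf (nat_lit 0) (nat_lit 14456881392) (nat_lit 152) (nat_lit 4592839997) (nat_lit 228) (nat_lit 11417753352) (nat_lit 22) (nat_lit 5) (nat_lit 24) (nat_lit 5) (nat_lit 25) (nat_lit 5) (nat_lit 297) (nat_lit 267) (nat_lit 216)) (XT.lf (nat_lit 0) (nat_lit 2470578708) (nat_lit 76)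 (nat_lit 25527572966) (nat_lit 152) (nat_lit 4307774609) (nat_lit 21) (nat_lit 5) (nat_lit 22) (nat_lit 5) (nat_lit 23) (nat_lit 4) (nat_lit 298) (nat_lit 267) (nat_lit 215))))))))
noncomputable def xc63 : XT := (XT.nd (nat_lit 1560) (nat_lit 304) (nat_lit 0) (XT.nd (nat_lit 780) (nat_lit 380) (nat_lit 0) (XT.nd (nat_lit 390) (nat_lit 380) (nat_lit 0) (XT.nd (nat_lit 156) (nat_lit 76) (nat_lit 0) (XT.nd (nat_lit 78) (nat_lit 152) (nat_lit 0) (XT.lf (nat_lit 0) (nat_lit 3590582112) (nat_lit 152) (nat_lit 11466078741) (nat_lit 76) (nat_lit 19215825610) (nat_lit 20) (nat_lit 5) (nat_lit 22) (nat_lit 5) (nat_lit 21) (nat_lit 5) (nat_lit 299) (nat_lit 267) (nat_lit 214)) (XT.lf (nat_lit 0) (nat_lit 8521061985) (nat_lit 152) (nat_lit 3552917018) (nat_lit 228) (nat_lit 24313691640) (nat_lit 18) (nat_lit 5) (nat_lit 20) (nat_lit 5) (nat_lit 21) (nat_lit 5) (nat_lit 300) (nat_lit 267) (nat_lit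 213))) (XT.nd (nat_lit 78) (nat_lit 76) (nat_lit 0) (XT.lf (nat_lit 0) (nat_lit 21547803492) (nat_lit 228) (nat_lit 8337937862) (nat_lit 76) (nat_lit 8770772726) (nat_lit 18) (nat_lit 5) (nat_lit 21) (nat_lit 5) (nat_lit 19) (nat_lit 4) (nat_lit 301) (nat_lit 267) (nat_lit 212)) (XT.nd (nat_lit 78) (nat_lit 0) (nat_lit 0) (XT.lf (nat_lit 0) (nat_lit 13064311749) (nat_lit 76) (nat_lit 18951552047) (nat_lit 152) (nat_lit 9079214629) (nat_lit 17) (nat_lit 5) (nat_lit 18) (nat_lit 5) (nat_lit 19) (nat_lit 4) (nat_lit 302) (nat_lit 267) (nat_lit 211)) (XT.lf (nat_lit 0) (nat_lit 36431580866) (nat_lit 76) (nat_lit 7008819811) (nat_lit 152) (nat_lit 282403356) (nat_lit 17) (nat_lit 5) (nat_lit 18) (nat_lit 5) (nat_lit 19) (nat_lit 4) (nat_lit 303) (nat_lit 267) (nat_lit 210))))) (XT.nd (nat_lit 156) (nat_lit 152) (nat_lit 0) (XT.nd (nat_lit 78) (nat_lit 0) (nat_lit 0) (XT.lf (nat_lit 0) (nat_lit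 9237063824) (nat_lit 228) (nat_lit 31226251309) (nat_lit 76) (nat_lit 6074563458) (nat_lit 14) (nat_lit 5) (nat_lit 17) (nat_lit 5) (nat_lit 15) (nat_lit 4) (nat_lit 304) (nat_lit 267) (nat_lit 209)) (XT.lf (nat_lit 0) (nat_lit 19731836437) (nat_lit 228) (nat_lit 9755268362) (nat_lit 76) (nat_lit 20079663353) (nat_lit 14) (nat_lit 5) (nat_lit 17) (nat_lit 5) (nat_lit 15) (nat_lit 4) (nat_lit 305) (nat_lit 267) (nat_lit 208))) (XT.nd (nat_lit 78) (nat_lit 76) (nat_lit 0) (XT.lf (nat_lit 0) (nat_lit 13837858500) (nat_lit 76) (nat_lit 17422378082) (nat_lit 152) (nat_lit 21568050957) (nat_lit 13) (nat_lit 5) (nat_lit 14) (nat_lit 5) (nat_lit 15) (nat_lit 4) (nat_lit 306) (nat_lit 267) (nat_lit 207)) (XT.nd (nat_lit 78) (nat_lit 76) (nat_lit 0) (XT.lf (nat_lit 0) (nat_lit 39630030622) (nat_lit 76) (nat_lit 4229862386) (nat_lit 152) (nat_lit 12483405650) (nat_lit 13) (nat_lit 5) (nat_lit 14)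 (nat_lit 5) (nat_lit 15) (nat_lit 4) (nat_lit 307) (nat_lit 267) (nat_lit 206)) (XT.lf (nat_lit 0) (nat_lit 7391429560) (nat_lit 76) (nat_lit 50328279942) (nat_lit 76) (nat_lit 2407209747) (nat_lit 12) (nat_lit 4) (nat_lit 13) (nat_lit 5) (nat_lit 13) (nat_lit 4) (nat_lit 308) (nat_lit 267) (nat_lit 205)))))) (XT.nd (nat_lit 390) (nat_lit 228) (nat_lit 0) (XT.nd (nat_lit 156) (nat_lit 76) (nat_lit 0) (XT.nd (nat_lit 78) (nat_lit 0) (nat_lit 0) (XT.lf (nat_lit 0) (nat_lit 8552044654) (nat_lit 152) (nat_lit 30419690522) (nat_lit 76) (nat_lit 25217483239) (nat_lit 11) (nat_lit 5) (nat_lit 13) (nat_lit 5) (nat_lit 12) (nat_lit 4) (nat_lit 309) (nat_lit 267) (nat_lit 204)) (XT.lf (nat_lit 0) (nat_lit 20287226415) (nat_lit 152) (nat_lit 6390634456) (nat_lit 76) (nat_lit 41897505987) (nat_lit 11) (nat_lit 5) (nat_lit 13) (nat_lit 5) (nat_lit 12) (nat_lit 4) (nat_lit 310) (nat_lit 267) (nat_lit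 203))) (XT.nd (nat_lit 78) (nat_lit 0) (nat_lit 0) (XT.lf (nat_lit 0) (nat_lit 20177460965) (nat_lit 76) (nat_lit 13082488847) (nat_lit 152) (nat_lit 40037534589) (nat_lit 10) (nat_lit 5) (nat_lit 11) (nat_lit 5) (nat_lit 12) (nat_lit 4) (nat_lit 311) (nat_lit 267) (nat_lit 202)) (XT.nd (nat_lit 78) (nat_lit 0) (nat_lit 0) (XT.lf (nat_lit 0) (nat_lit 47392906534) (nat_lit 152) (nat_lit 29347829780) (nat_lit 0) (nat_lit 1650526831) (nat_lit 10) (nat_lit 5) (nat_lit 12) (nat_lit 4) (nat_lit 10) (nat_lit 4) (nat_lit 312) (nat_lit 267) (nat_lit 201)) (XT.lf (nat_lit 0) (nat_lit 62862540104) (nat_lit 152) (nat_lit 3920772479) (nat_lit 0) (nat_lit 17098941231) (nat_lit 10) (nat_lit 5) (nat_lit 12) (nat_lit 4) (nat_lit 10) (nat_lit 4) (nat_lit 313) (nat_lit 267) (nat_lit 200))))) (XT.nd (nat_lit 156) (nat_lit 76) (nat_lit 0) (XT.nd (nat_lit 78) (nat_lit 76) (nat_lit 0) (XT.lf (nat_lit 0) (nat_lit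 24293629500) (nat_lit 76) (nat_lit 55641930249) (nat_lit 76) (nat_lit 9858683996) (nat_lit 9) (nat_lit 4) (nat_lit 10) (nat_lit 5) (nat_lit 10) (nat_lit 4) (nat_lit 314) (nat_lit 267) (nat_lit 199)) (XT.lf (nat_lit 0) (nat_lit 2181321933) (nat_lit 152) (nat_lit 41329728306) (nat_lit 76) (nat_lit 52663620709) (nat_lit 8) (nat_lit 5) (nat_lit 10) (nat_lit 5) (nat_lit 9) (nat_lit 4) (nat_lit 315) (nat_lit 267) (nat_lit 198))) (XT.nd (nat_lit 78) (nat_lit 76) (nat_lit 0) (XT.lf (nat_lit 0) (nat_lit 14831651180) (nat_lit 152) (nat_lit 15413397811) (nat_lit 76) (nat_lit 72812785094) (nat_lit 8) (nat_lit 5) (nat_lit 10) (nat_lit 5) (nat_lit 9) (nat_lit 4) (nat_lit 316) (nat_lit 267) (nat_lit 197)) (XT.nd (nat_lit 78) (nat_lit 0) (nat_lit 0) (XT.lf (nat_lit 0) (nat_lit 12971031184) (nat_lit 76) (nat_lit 15714291078) (nat_lit 152) (nat_lit 81796770385) (nat_lit 7) (nat_lit 5) (nat_lit 8) (nat_lit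 5) (nat_lit 9) (nat_lit 4) (nat_lit 317) (nat_lit 267) (nat_lit 196)) (XT.lf (nat_lit 0) (nat_lit 43909040309) (nat_lit 152) (nat_lit 74334198647) (nat_lit 0) (nat_lit 243972819) (nat_lit 7) (nat_lit 5) (nat_lit 9) (nat_lit 4) (nat_lit 7) (nat_lit 4) (nat_lit 318) (nat_lit 267) (nat_lit 195))))))) (XT.nd (nat_lit 780) (nat_lit 76) (nat_lit 0) (XT.nd (nat_lit 390) (nat_lit 152) (nat_lit 0) (XT.nd (nat_lit 156) (nat_lit 76) (nat_lit 0) (XT.nd (nat_lit 78) (nat_lit 0) (nat_lit 0) (XT.lf (nat_lit 0) (nat_lit 60605617576) (nat_lit 152) (nat_lit 49586566597) (nat_lit 0) (nat_lit 16927815156) (nat_lit 7) (nat_lit 5) (nat_lit 9) (nat_lit 4) (nat_lit 7) (nat_lit 4) (nat_lit 319) (nat_lit 267) (nat_lit 194)) (XT.lf (nat_lit 0) (nat_lit 78628652621) (nat_lit 152) (nat_lit 22876168556) (nat_lit 0) (nat_lit 34939058599) (nat_lit 7) (nat_lit 5) (nat_lit 9) (nat_lit 4) (nat_lit 7) (nat_lit 4) (nat_lit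 320) (nat_lit 267) (nat_lit 193))) (XT.nd (nat_lit 78) (nat_lit 0) (nat_lit 0) (XT.lf (nat_lit 0) (nat_lit 6152187743) (nat_lit 76) (nat_lit 92028813763) (nat_lit 76) (nat_lit 48328301592) (nat_lit 6) (nat_lit 4) (nat_lit 7) (nat_lit 5) (nat_lit 7) (nat_lit 4) (nat_lit 321) (nat_lit 267) (nat_lit 192)) (XT.nd (nat_lit 78) (nat_lit 0) (nat_lit 0) (XT.lf (nat_lit 0) (nat_lit 38304617001) (nat_lit 76) (nat_lit 81383227543) (nat_lit 76) (nat_lit 37672605974) (nat_lit 6) (nat_lit 4) (nat_lit 7) (nat_lit 5) (nat_lit 7) (nat_lit 4) (nat_lit 322) (nat_lit 267) (nat_lit 191)) (XT.lf (nat_lit 0) (nat_lit 73015262688) (nat_lit 76) (nat_lit 69892396546) (nat_lit 76) (nat_lit 26172414423) (nat_lit 6) (nat_lit 4) (nat_lit 7) (nat_lit 5) (nat_lit 7) (nat_lit 4) (nat_lit 323) (nat_lit 267) (nat_lit 190))))) (XT.nd (nat_lit 156) (nat_lit 152) (nat_lit 0) (XT.nd (nat_lit 78) (nat_lit 0) (nat_lit 0) (XT.lf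 (nat_lit 0) (nat_lit 110489817519) (nat_lit 76) (nat_lit 57488226958) (nat_lit 76) (nat_lit 13759577657) (nat_lit 6) (nat_lit 4) (nat_lit 7) (nat_lit 5) (nat_lit 7) (nat_lit 4) (nat_lit 324) (nat_lit 267) (nat_lit 189)) (XT.lf (nat_lit 0) (nat_lit 150950352928) (nat_lit 76) (nat_lit 44097212590) (nat_lit 76) (nat_lit 360538122) (nat_lit 6) (nat_lit 4) (nat_lit 7) (nat_lit 5) (nat_lit 7) (nat_lit 4) (nat_lit 325) (nat_lit 267) (nat_lit 188))) (XT.nd (nat_lit 78) (nat_lit 76) (nat_lit 0) (XT.lf (nat_lit 0) (nat_lit 13652686424) (nat_lit 152) (nat_lit 15756098007) (nat_lit 76) (nat_lit 180752733778) (nat_lit 5) (nat_lit 5) (nat_lit 7) (nat_lit 5) (nat_lit 6) (nat_lit 4) (nat_lit 326) (nat_lit 267) (nat_lit 187)) (XT.nd (nat_lit 78) (nat_lit 0) (nat_lit 0) (XT.lf (nat_lit 0) (nat_lit 15728554520) (nat_lit 76) (nat_lit 13285855227) (nat_lit 152) (nat_lit 197068500651) (nat_lit 4) (nat_lit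 5) (nat_lit 5) (nat_lit 5) (nat_lit 6) (nat_lit 4) (nat_lit 327) (nat_lit 267) (nat_lit 186)) (XT.lf (nat_lit 0) (nat_lit 45942991838) (nat_lit 152) (nat_lit 193048810045) (nat_lit 0) (nat_lit 4269319363) (nat_lit 4) (nat_lit 5) (nat_lit 6) (nat_lit 4) (nat_lit 4) (nat_lit 4) (nat_lit 328) (nat_lit 267) (nat_lit 185)))))) (XT.nd (nat_lit 390) (nat_lit 76) (nat_lit 0) (XT.nd (nat_lit 156) (nat_lit 0) (nat_lit 0) (XT.nd (nat_lit 78) (nat_lit 0) (nat_lit 0) (XT.lf (nat_lit 0) (nat_lit 64444817500) (nat_lit 152) (nat_lit 174592299514) (nat_lit 0) (nat_lit 22765527180) (nat_lit 4) (nat_lit 5) (nat_lit 6) (nat_lit 4) (nat_lit 4) (nat_lit 4) (nat_lit 329) (nat_lit 267) (nat_lit 184)) (XT.lf (nat_lit 0) (nat_lit 84422097746) (nat_lit 152) (nat_lit 154668022939) (nat_lit 0) (nat_lit 42737605719) (nat_lit 4) (nat_lit 5) (nat_lit 6) (nat_lit 4) (nat_lit 4) (nat_lit 4) (nat_lit 330) (nat_lit 267)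 (nat_lit 183))) (XT.nd (nat_lit 78) (nat_lit 0) (nat_lit 0) (XT.lf (nat_lit 0) (nat_lit 105993216461) (nat_lit 152) (nat_lit 133157910532) (nat_lit 0) (nat_lit 64303908038) (nat_lit 4) (nat_lit 5) (nat_lit 6) (nat_lit 4) (nat_lit 4) (nat_lit 4) (nat_lit 331) (nat_lit 267) (nat_lit 182)) (XT.nd (nat_lit 78) (nat_lit 0) (nat_lit 0) (XT.lf (nat_lit 0) (nat_lit 129286002496) (nat_lit 152) (nat_lit 109934494961) (nat_lit 0) (nat_lit 87592234447) (nat_lit 4) (nat_lit 5) (nat_lit 6) (nat_lit 4) (nat_lit 4) (nat_lit 4) (nat_lit 332) (nat_lit 267) (nat_lit 181)) (XT.lf (nat_lit 0) (nat_lit 154438487175) (nat_lit 152) (nat_lit 84860155984) (nat_lit 0) (nat_lit 112740589843) (nat_lit 4) (nat_lit 5) (nat_lit 6) (nat_lit 4) (nat_lit 4) (nat_lit 4) (nat_lit 333) (nat_lit 267) (nat_lit 180))))) (XT.nd (nat_lit 234) (nat_lit 0) (nat_lit 0) (XT.nd (nat_lit 78) (nat_lit 76) (nat_lit 0) (XT.lf (nat_lit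 0) (nat_lit 181599722261) (nat_lit 152) (nat_lit 57786304927) (nat_lit 0) (nat_lit 139898001518) (nat_lit 4) (nat_lit 5) (nat_lit 6) (nat_lit 4) (nat_lit 4) (nat_lit 4) (nat_lit 334) (nat_lit 267) (nat_lit 179)) (XT.nd (nat_lit 78) (nat_lit 76) (nat_lit 0) (XT.lf (nat_lit 0) (nat_lit 210930663219) (nat_lit 152) (nat_lit 28552504154) (nat_lit 0) (nat_lit 169225402281) (nat_lit 4) (nat_lit 5) (nat_lit 6) (nat_lit 4) (nat_lit 4) (nat_lit 4) (nat_lit 335) (nat_lit 267) (nat_lit 178)) (XT.lf (nat_lit 0) (nat_lit 3114156116) (nat_lit 76) (nat_lit 239539587620) (nat_lit 76) (nat_lit 197831048725) (nat_lit 3) (nat_lit 4) (nat_lit 4) (nat_lit 5) (nat_lit 4) (nat_lit 4) (nat_lit 336) (nat_lit 267) (nat_lit 177)))) (XT.nd (nat_lit 78) (nat_lit 0) (nat_lit 0) (XT.lf (nat_lit 0) (nat_lit 38328472677) (nat_lit 76) (nat_lit 239080744402) (nat_lit 76) (nat_lit 197369170360) (nat_lit 3) (nat_lit 4) (nat_lit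 4) (nat_lit 5) (nat_lit 4) (nat_lit 4) (nat_lit 337) (nat_lit 267) (nat_lit 176)) (XT.nd (nat_lit 78) (nat_lit 0) (nat_lit 0) (XT.lf (nat_lit 0) (nat_lit 76355048225) (nat_lit 76) (nat_lit 238587469122) (nat_lit 76) (nat_lit 196873084759) (nat_lit 3) (nat_lit 4) (nat_lit 4) (nat_lit 5) (nat_lit 4) (nat_lit 4) (nat_lit 338) (nat_lit 267) (nat_lit 175)) (XT.lf (nat_lit 0) (nat_lit 117419225429) (nat_lit 76) (nat_lit 238056838666) (nat_lit 76) (nat_lit 196339852154) (nat_lit 3) (nat_lit 4) (nat_lit 4) (nat_lit 5) (nat_lit 4) (nat_lit 4) (nat_lit 339) (nat_lit 267) (nat_lit 174))))))))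
noncomputable def xc64 : XT := (XT.nd (nat_lit 36036) (nat_lit 0) (nat_lit 1292) (XT.nd (nat_lit 35256) (nat_lit 0) (nat_lit 4408) (XT.nd (nat_lit 390) (nat_lit 0) (nat_lit 0) (XT.nd (nat_lit 156) (nat_lit 0) (nat_lit 0) (XT.nd (nat_lit 78) (nat_lit 0) (nat_lit 0) (XT.lf (nat_lit 0) (nat_lit 161764347562) (nat_lit 76) (nat_lit 237485708557) (nat_lit 76) (nat_lit 195766312648) (nat_lit 3) (nat_lit 4) (nat_lit 4) (nat_lit 5) (nat_lit 4) (nat_lit 4) (nat_lit 340) (nat_lit 267) (nat_lit 173)) (XT.lf (nat_lit 0) (nat_lit 209653200533) (nat_lit 76) (nat_lit 236870694322) (nat_lit 76) (nat_lit 195149067490) (nat_lit 3) (nat_lit 4) (nat_lit 4) (nat_lit 5) (nat_lit 4) (nat_lit 4) (nat_lit 341) (nat_lit 267) (nat_lit 172))) (XT.nd (nat_lit 78) (nat_lit 0) (nat_lit 0) (XT.lf (nat_lit 0) (nat_lit 261369570137) (nat_lit 76) (nat_lit 236208151431) (nat_lit 76) (nat_lit 194484458929) (nat_lit 3) (nat_lit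 4) (nat_lit 4) (nat_lit 5) (nat_lit 4) (nat_lit 4) (nat_lit 342) (nat_lit 267) (nat_lit 171)) (XT.nd (nat_lit 78) (nat_lit 0) (nat_lit 0) (XT.lf (nat_lit 0) (nat_lit 317219923750) (nat_lit 76) (nat_lit 235494153704) (nat_lit 76) (nat_lit 193768548545) (nat_lit 3) (nat_lit 4) (nat_lit 4) (nat_lit 5) (nat_lit 4) (nat_lit 4) (nat_lit 343) (nat_lit 267) (nat_lit 170)) (XT.lf (nat_lit 0) (nat_lit 377535226430) (nat_lit 76) (nat_lit 234724470044) (nat_lit 76) (nat_lit 192997093906) (nat_lit 3) (nat_lit 4) (nat_lit 4) (nat_lit 5) (nat_lit 4) (nat_lit 4) (nat_lit 344) (nat_lit 267) (nat_lit 169))))) (XT.nd (nat_lit 34632) (nat_lit 0) (nat_lit 6688) (XT.nd (nat_lit 78) (nat_lit 0) (nat_lit 0) (XT.lf (nat_lit 0) (nat_lit 442672902194) (nat_lit 76) (nat_lit 233894539362) (nat_lit 76) (nat_lit 192165523429) (nat_lit 3) (nat_lit 4) (nat_lit 4) (nat_lit 5) (nat_lit 4) (nat_lit 4) (nat_lit 345) (nat_lit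 267) (nat_lit 168)) (XT.lf (nat_lit 0) (nat_lit 513018952081) (nat_lit 76) (nat_lit 232999443551) (nat_lit 76) (nat_lit 191268909289) (nat_lit 3) (nat_lit 4) (nat_lit 4) (nat_lit 5) (nat_lit 4) (nat_lit 4) (nat_lit 346) (nat_lit 267) (nat_lit 167))) (XT.nd (nat_lit 78) (nat_lit 608) (nat_lit 0) (XT.lf (nat_lit 0) (nat_lit 1722306080) (nat_lit 0) (nat_lit 1722306080) (nat_lit 532) (nat_lit 719864857) (nat_lit 99) (nat_lit 5) (nat_lit 99) (nat_lit 3) (nat_lit 106) (nat_lit 3) (nat_lit 268) (nat_lit 268) (nat_lit 244)) (XT.nd (nat_lit 78) (nat_lit 0) (nat_lit 0) (XT.lf (nat_lit 0) (nat_lit 179262260) (nat_lit 608) (nat_lit 7497146381) (nat_lit 684) (nat_lit 900865984) (nat_lit 91) (nat_lit 5) (nat_lit 99) (nat_lit 5) (nat_lit 100) (nat_lit 5) (nat_lit 269) (nat_lit 268) (nat_lit 243)) (XT.lf (nat_lit 0) (nat_lit 1862589249) (nat_lit 608) (nat_lit 1325353836) (nat_lit 684) (nat_lit 5657532409)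 (nat_lit 91) (nat_lit 5) (nat_lit 99) (nat_lit 5) (nat_lit 100) (nat_lit 5) (nat_lit 270) (nat_lit 268) (nat_lit 242)))))) (XT.nd (nat_lit 390) (nat_lit 1824) (nat_lit 0) (XT.nd (nat_lit 156) (nat_lit 532) (nat_lit 0) (XT.nd (nat_lit 78) (nat_lit 0) (nat_lit 0) (XT.lf (nat_lit 0) (nat_lit 3645361460) (nat_lit 608) (nat_lit 3742562236) (nat_lit 684) (nat_lit 1749393464) (nat_lit 92) (nat_lit 5) (nat_lit 100) (nat_lit 5) (nat_lit 101) (nat_lit 5) (nat_lit 271) (nat_lit 268) (nat_lit 241)) (XT.lf (nat_lit 76) (nat_lit 3203164509) (nat_lit 0) (nat_lit 2357158262) (nat_lit 684) (nat_lit 3893097321) (nat_lit 93) (nat_lit 5) (nat_lit 92) (nat_lit 5) (nat_lit 101) (nat_lit 5) (nat_lit 272) (nat_lit 268) (nat_lit 240))) (XT.nd (nat_lit 78) (nat_lit 608) (nat_lit 0) (XT.lf (nat_lit 76) (nat_lit 930303348) (nat_lit 0) (nat_lit 6698738538) (nat_lit 684) (nat_lit 2166104564) (nat_lit 94) (nat_lit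 5) (nat_lit 93) (nat_lit 5) (nat_lit 102) (nat_lit 5) (nat_lit 273) (nat_lit 268) (nat_lit 239)) (XT.nd (nat_lit 78) (nat_lit 608) (nat_lit 0) (XT.lf (nat_lit 76) (nat_lit 8774636979) (nat_lit 0) (nat_lit 1116401531) (nat_lit 684) (nat_lit 272119741) (nat_lit 94) (nat_lit 5) (nat_lit 93) (nat_lit 5) (nat_lit 102) (nat_lit 5) (nat_lit 274) (nat_lit 268) (nat_lit 238)) (XT.lf (nat_lit 0) (nat_lit 1788396169) (nat_lit 684) (nat_lit 3853734621) (nat_lit 76) (nat_lit 4913803837) (nat_lit 85) (nat_lit 5) (nat_lit 94) (nat_lit 5) (nat_lit 86) (nat_lit 5) (nat_lit 275) (nat_lit 268) (nat_lit 237))))) (XT.nd (nat_lit 156) (nat_lit 760) (nat_lit 0) (XT.nd (nat_lit 78) (nat_lit 380) (nat_lit 0) (XT.lf (nat_lit 0) (nat_lit 4020835545) (nat_lit 760) (nat_lit 6447632697) (nat_lit 76) (nat_lit 510885644) (nat_lit 76) (nat_lit 5) (nat_lit 86) (nat_lit 5) (nat_lit 77) (nat_lit 5) (nat_lit 276) (nat_lit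 268) (nat_lit 236)) (XT.lf (nat_lit 0) (nat_lit 2172234143) (nat_lit 380) (nat_lit 4357532188) (nat_lit 456) (nat_lit 4902239819) (nat_lit 71) (nat_lit 5) (nat_lit 76) (nat_lit 5) (nat_lit 77) (nat_lit 5) (nat_lit 277) (nat_lit 268) (nat_lit 235))) (XT.nd (nat_lit 78) (nat_lit 760) (nat_lit 0) (XT.lf (nat_lit 0) (nat_lit 9295220424) (nat_lit 456) (nat_lit 334475209) (nat_lit 76) (nat_lit 2288619962) (nat_lit 71) (nat_lit 5) (nat_lit 77) (nat_lit 5) (nat_lit 72) (nat_lit 5) (nat_lit 278) (nat_lit 268) (nat_lit 234)) (XT.nd (nat_lit 78) (nat_lit 380) (nat_lit 0) (XT.lf (nat_lit 0) (nat_lit 9446394431) (nat_lit 380) (nat_lit 2970037962) (nat_lit 456) (nat_lit 20589327) (nat_lit 66) (nat_lit 5) (nat_lit 71) (nat_lit 5) (nat_lit 72) (nat_lit 5) (nat_lit 279) (nat_lit 268) (nat_lit 233)) (XT.lf (nat_lit 0) (nat_lit 2803573919) (nat_lit 380) (nat_lit 5939428112) (nat_lit 76) (nat_lit 4247098562)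 (nat_lit 61) (nat_lit 5) (nat_lit 66) (nat_lit 5) (nat_lit 62) (nat_lit 5) (nat_lit 280) (nat_lit 268) (nat_lit 232))))))) (XT.nd (nat_lit 780) (nat_lit 1140) (nat_lit 0) (XT.nd (nat_lit 390) (nat_lit 836) (nat_lit 0) (XT.nd (nat_lit 156) (nat_lit 608) (nat_lit 0) (XT.nd (nat_lit 78) (nat_lit 228) (nat_lit 0) (XT.lf (nat_lit 0) (nat_lit 4420754981) (nat_lit 304) (nat_lit 1526158180) (nat_lit 380) (nat_lit 7635975526) (nat_lit 57) (nat_lit 5) (nat_lit 61) (nat_lit 5) (nat_lit 62) (nat_lit 5) (nat_lit 281) (nat_lit 268) (nat_lit 231)) (XT.lf (nat_lit 0) (nat_lit 1464603682) (nat_lit 228) (nat_lit 8029250500) (nat_lit 304) (nat_lit 4721803731) (nat_lit 54) (nat_lit 5) (nat_lit 57) (nat_lit 5) (nat_lit 58) (nat_lit 5) (nat_lit 282) (nat_lit 268) (nat_lit 230))) (XT.nd (nat_lit 78) (nat_lit 608) (nat_lit 0) (XT.lf (nat_lit 0) (nat_lit 13159201172) (nat_lit 228) (nat_lit 280685101) (nat_lit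 304) (nat_lit 1453548221) (nat_lit 54) (nat_lit 5) (nat_lit 57) (nat_lit 5) (nat_lit 58) (nat_lit 5) (nat_lit 283) (nat_lit 268) (nat_lit 229)) (XT.nd (nat_lit 78) (nat_lit 228) (nat_lit 0) (XT.lf (nat_lit 0) (nat_lit 2235486574) (nat_lit 380) (nat_lit 5363511610) (nat_lit 76) (nat_lit 8013660394) (nat_lit 49) (nat_lit 5) (nat_lit 54) (nat_lit 5) (nat_lit 50) (nat_lit 5) (nat_lit 284) (nat_lit 268) (nat_lit 228)) (XT.lf (nat_lit 0) (nat_lit 6263041419) (nat_lit 304) (nat_lit 9415300839) (nat_lit 76) (nat_lit 705295377) (nat_lit 46) (nat_lit 5) (nat_lit 50) (nat_lit 5) (nat_lit 47) (nat_lit 5) (nat_lit 285) (nat_lit 268) (nat_lit 227))))) (XT.nd (nat_lit 156) (nat_lit 608) (nat_lit 0) (XT.nd (nat_lit 78) (nat_lit 0) (nat_lit 0) (XT.lf (nat_lit 0) (nat_lit 3160129799) (nat_lit 228) (nat_lit 7666122539) (nat_lit 304) (nat_lit 6379485472) (nat_lit 43) (nat_lit 5) (nat_lit 46) (nat_lit 5)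 (nat_lit 47) (nat_lit 5) (nat_lit 286) (nat_lit 268) (nat_lit 226)) (XT.lf (nat_lit 0) (nat_lit 15880558279) (nat_lit 304) (nat_lit 1102893730) (nat_lit 76) (nat_lit 1103958910) (nat_lit 43) (nat_lit 5) (nat_lit 47) (nat_lit 5) (nat_lit 44) (nat_lit 5) (nat_lit 287) (nat_lit 268) (nat_lit 225))) (XT.nd (nat_lit 78) (nat_lit 380) (nat_lit 0) (XT.lf (nat_lit 0) (nat_lit 2512288516) (nat_lit 228) (nat_lit 5972582201) (nat_lit 76) (nat_lit 10538731266) (nat_lit 40) (nat_lit 5) (nat_lit 43) (nat_lit 5) (nat_lit 41) (nat_lit 5) (nat_lit 288) (nat_lit 268) (nat_lit 224)) (XT.nd (nat_lit 78) (nat_lit 152) (nat_lit 0) (XT.lf (nat_lit 0) (nat_lit 7648620979) (nat_lit 304) (nat_lit 11533868210) (nat_lit 76) (nat_lit 844628605) (nat_lit 37) (nat_lit 5) (nat_lit 41) (nat_lit 5) (nat_lit 38) (nat_lit 5) (nat_lit 289) (nat_lit 268) (nat_lit 223)) (XT.lf (nat_lit 0) (nat_lit 3109447831) (nat_lit 152)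 (nat_lit 10336092648) (nat_lit 228) (nat_lit 7652971136) (nat_lit 35) (nat_lit 5) (nat_lit 37) (nat_lit 5) (nat_lit 38) (nat_lit 5) (nat_lit 290) (nat_lit 268) (nat_lit 222)))))) (XT.nd (nat_lit 390) (nat_lit 532) (nat_lit 0) (XT.nd (nat_lit 156) (nat_lit 304) (nat_lit 0) (XT.nd (nat_lit 78) (nat_lit 304) (nat_lit 0) (XT.lf (nat_lit 0) (nat_lit 19269895832) (nat_lit 152) (nat_lit 592047313) (nat_lit 228) (nat_lit 2385962100) (nat_lit 35) (nat_lit 5) (nat_lit 37) (nat_lit 5) (nat_lit 38) (nat_lit 5) (nat_lit 291) (nat_lit 268) (nat_lit 221)) (XT.lf (nat_lit 0) (nat_lit 3524785383) (nat_lit 304) (nat_lit 10083957011) (nat_lit 76) (nat_lit 9861592157) (nat_lit 31) (nat_lit 5) (nat_lit 35) (nat_lit 5) (nat_lit 32) (nat_lit 5) (nat_lit 292) (nat_lit 268) (nat_lit 220))) (XT.nd (nat_lit 78) (nat_lit 152) (nat_lit 0) (XT.lf (nat_lit 0) (nat_lit 6472573906) (nat_lit 152) (nat_lit 3476428402)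 (nat_lit 228) (nat_lit 14833451141) (nat_lit 29) (nat_lit 5) (nat_lit 31) (nat_lit 5) (nat_lit 32) (nat_lit 5) (nat_lit 293) (nat_lit 268) (nat_lit 219)) (XT.nd (nat_lit 78) (nat_lit 152) (nat_lit 0) (XT.lf (nat_lit 0) (nat_lit 17143355204) (nat_lit 228) (nat_lit 1657286280) (nat_lit 76) (nat_lit 7386146983) (nat_lit 29) (nat_lit 5) (nat_lit 32) (nat_lit 5) (nat_lit 30) (nat_lit 5) (nat_lit 294) (nat_lit 268) (nat_lit 218)) (XT.lf (nat_lit 0) (nat_lit 16748663610) (nat_lit 152) (nat_lit 8448677871) (nat_lit 228) (nat_lit 2491976900) (nat_lit 27) (nat_lit 5) (nat_lit 29) (nat_lit 5) (nat_lit 30) (nat_lit 5) (nat_lit 295) (nat_lit 268) (nat_lit 217))))) (XT.nd (nat_lit 156) (nat_lit 304) (nat_lit 0) (XT.nd (nat_lit 78) (nat_lit 0) (nat_lit 0) (XT.lf (nat_lit 0) (nat_lit 4594240378) (nat_lit 228) (nat_lit 21860592674) (nat_lit 76) (nat_lit 2845818256) (nat_lit 24) (nat_lit 5) (nat_lit 27)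 (nat_lit 5) (nat_lit 25) (nat_lit 5) (nat_lit 296) (nat_lit 268) (nat_lit 216)) (XT.lf (nat_lit 0) (nat_lit 12464022316) (nat_lit 228) (nat_lit 3591090622) (nat_lit 76) (nat_lit 14968579370) (nat_lit 24) (nat_lit 5) (nat_lit 27) (nat_lit 5) (nat_lit 25) (nat_lit 5) (nat_lit 297) (nat_lit 268) (nat_lit 215))) (XT.nd (nat_lit 78) (nat_lit 152) (nat_lit 0) (XT.lf (nat_lit 0) (nat_lit 16621939115) (nat_lit 152) (nat_lit 4570076886) (nat_lit 228) (nat_lit 11681168708) (nat_lit 22) (nat_lit 5) (nat_lit 24) (nat_lit 5) (nat_lit 25) (nat_lit 5) (nat_lit 298) (nat_lit 268) (nat_lit 214)) (XT.nd (nat_lit 78) (nat_lit 76) (nat_lit 0) (XT.lf (nat_lit 0) (nat_lit 3657387396) (nat_lit 76) (nat_lit 27174216365) (nat_lit 152) (nat_lit 4028401659) (nat_lit 21) (nat_lit 5) (nat_lit 22) (nat_lit 5) (nat_lit 23) (nat_lit 4) (nat_lit 299) (nat_lit 268) (nat_lit 213)) (XT.lf (nat_lit 0) (nat_lit 4437109408)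 (nat_lit 152) (nat_lit 11448351107) (nat_lit 76) (nat_lit 21100230345) (nat_lit 20) (nat_lit 5) (nat_lit 22) (nat_lit 5) (nat_lit 21) (nat_lit 5) (nat_lit 300) (nat_lit 268) (nat_lit 212))))))))
noncomputable def xc65 : XT := (XT.nd (nat_lit 1560) (nat_lit 304) (nat_lit 0) (XT.nd (nat_lit 780) (nat_lit 304) (nat_lit 0) (XT.nd (nat_lit 390) (nat_lit 228) (nat_lit 0) (XT.nd (nat_lit 156) (nat_lit 304) (nat_lit 0) (XT.nd (nat_lit 78) (nat_lit 0) (nat_lit 0) (XT.lf (nat_lit 0) (nat_lit 10097126311) (nat_lit 152) (nat_lit 3474587306) (nat_lit 228) (nat_lit 25699796082) (nat_lit 18) (nat_lit 5) (nat_lit 20) (nat_lit 5) (nat_lit 21) (nat_lit 5) (nat_lit 301) (nat_lit 268) (nat_lit 211)) (XT.lf (nat_lit 0) (nat_lit 23769291586) (nat_lit 228) (nat_lit 8156923505) (nat_lit 76) (nat_lit 9797396388) (nat_lit 18) (nat_lit 5) (nat_lit 21) (nat_lit 5) (nat_lit 19) (nat_lit 4) (nat_lit 302) (nat_lit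 268) (nat_lit 210))) (XT.nd (nat_lit 78) (nat_lit 228) (nat_lit 0) (XT.lf (nat_lit 0) (nat_lit 14920650883) (nat_lit 76) (nat_lit 20129946859) (nat_lit 152) (nat_lit 9307913216) (nat_lit 17) (nat_lit 5) (nat_lit 18) (nat_lit 5) (nat_lit 19) (nat_lit 4) (nat_lit 303) (nat_lit 268) (nat_lit 209)) (XT.nd (nat_lit 78) (nat_lit 152) (nat_lit 0) (XT.lf (nat_lit 0) (nat_lit 150794880) (nat_lit 152) (nat_lit 7103464369) (nat_lit 76) (nat_lit 39943864405) (nat_lit 16) (nat_lit 5) (nat_lit 18) (nat_lit 5) (nat_lit 17) (nat_lit 5) (nat_lit 304) (nat_lit 268) (nat_lit 208)) (XT.lf (nat_lit 0) (nat_lit 10405280043) (nat_lit 228) (nat_lit 32974545961) (nat_lit 76) (nat_lit 6859211655) (nat_lit 14) (nat_lit 5) (nat_lit 17) (nat_lit 5) (nat_lit 15) (nat_lit 4) (nat_lit 305) (nat_lit 268) (nat_lit 207))))) (XT.nd (nat_lit 156) (nat_lit 152) (nat_lit 0) (XT.nd (nat_lit 78) (nat_lit 76) (nat_lit 0) (XT.lf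 (nat_lit 0) (nat_lit 21707838087) (nat_lit 228) (nat_lit 9841425523) (nat_lit 76) (nat_lit 21962594866) (nat_lit 14) (nat_lit 5) (nat_lit 17) (nat_lit 5) (nat_lit 15) (nat_lit 4) (nat_lit 306) (nat_lit 268) (nat_lit 206)) (XT.lf (nat_lit 0) (nat_lit 15608979608) (nat_lit 76) (nat_lit 18530457888) (nat_lit 152) (nat_lit 22895843584) (nat_lit 13) (nat_lit 5) (nat_lit 14) (nat_lit 5) (nat_lit 15) (nat_lit 4) (nat_lit 307) (nat_lit 268) (nat_lit 205))) (XT.nd (nat_lit 78) (nat_lit 152) (nat_lit 0) (XT.lf (nat_lit 0) (nat_lit 43415333468) (nat_lit 76) (nat_lit 4303704673) (nat_lit 152) (nat_lit 13113882316) (nat_lit 13) (nat_lit 5) (nat_lit 14) (nat_lit 5) (nat_lit 15) (nat_lit 4) (nat_lit 308) (nat_lit 268) (nat_lit 204)) (XT.nd (nat_lit 78) (nat_lit 76) (nat_lit 0) (XT.lf (nat_lit 0) (nat_lit 8584037381) (nat_lit 76) (nat_lit 54090862690) (nat_lit 76) (nat_lit 2244991648) (nat_lit 12) (nat_lit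 4) (nat_lit 13) (nat_lit 5) (nat_lit 13) (nat_lit 4) (nat_lit 309) (nat_lit 268) (nat_lit 203)) (XT.lf (nat_lit 0) (nat_lit 9554207511) (nat_lit 152) (nat_lit 32285733185) (nat_lit 76) (nat_lit 27468250342) (nat_lit 11) (nat_lit 5) (nat_lit 13) (nat_lit 5) (nat_lit 12) (nat_lit 4) (nat_lit 310) (nat_lit 268) (nat_lit 202)))))) (XT.nd (nat_lit 390) (nat_lit 152) (nat_lit 0) (XT.nd (nat_lit 156) (nat_lit 76) (nat_lit 0) (XT.nd (nat_lit 78) (nat_lit 76) (nat_lit 0) (XT.lf (nat_lit 0) (nat_lit 22204648310) (nat_lit 152) (nat_lit 6376392085) (nat_lit 76) (nat_lit 45465388359) (nat_lit 11) (nat_lit 5) (nat_lit 13) (nat_lit 5) (nat_lit 12) (nat_lit 4) (nat_lit 311) (nat_lit 268) (nat_lit 201)) (XT.lf (nat_lit 0) (nat_lit 22294313679) (nat_lit 76) (nat_lit 13906913115) (nat_lit 152) (nat_lit 42945805213) (nat_lit 10) (nat_lit 5) (nat_lit 11) (nat_lit 5) (nat_lit 12) (nat_lit 4) (nat_lit 312)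 (nat_lit 268) (nat_lit 200))) (XT.nd (nat_lit 78) (nat_lit 76) (nat_lit 0) (XT.lf (nat_lit 0) (nat_lit 51447255510) (nat_lit 152) (nat_lit 31220250411) (nat_lit 0) (nat_lit 1981702178) (nat_lit 10) (nat_lit 5) (nat_lit 12) (nat_lit 4) (nat_lit 10) (nat_lit 4) (nat_lit 313) (nat_lit 268) (nat_lit 199)) (XT.nd (nat_lit 78) (nat_lit 76) (nat_lit 0) (XT.lf (nat_lit 0) (nat_lit 68134984473) (nat_lit 152) (nat_lit 3794243767) (nat_lit 0) (nat_lit 18651239123) (nat_lit 10) (nat_lit 5) (nat_lit 12) (nat_lit 4) (nat_lit 10) (nat_lit 4) (nat_lit 314) (nat_lit 268) (nat_lit 198)) (XT.lf (nat_lit 0) (nat_lit 26658180227) (nat_lit 76) (nat_lit 59904206716) (nat_lit 76) (nat_lit 10403616905) (nat_lit 9) (nat_lit 4) (nat_lit 10) (nat_lit 5) (nat_lit 10) (nat_lit 4) (nat_lit 315) (nat_lit 268) (nat_lit 197))))) (XT.nd (nat_lit 156) (nat_lit 76) (nat_lit 0) (XT.nd (nat_lit 78) (nat_lit 0) (nat_lit 0)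 (XT.lf (nat_lit 0) (nat_lit 2574309087) (nat_lit 152) (nat_lit 44238852905) (nat_lit 76) (nat_lit 57044399589) (nat_lit 8) (nat_lit 5) (nat_lit 10) (nat_lit 5) (nat_lit 9) (nat_lit 4) (nat_lit 316) (nat_lit 268) (nat_lit 196)) (XT.lf (nat_lit 0) (nat_lit 16220480866) (nat_lit 152) (nat_lit 16278642168) (nat_lit 76) (nat_lit 78793075701) (nat_lit 8) (nat_lit 5) (nat_lit 10) (nat_lit 5) (nat_lit 9) (nat_lit 4) (nat_lit 317) (nat_lit 268) (nat_lit 195))) (XT.nd (nat_lit 78) (nat_lit 0) (nat_lit 0) (XT.lf (nat_lit 0) (nat_lit 14360555813) (nat_lit 76) (nat_lit 16812398056) (nat_lit 152) (nat_lit 88137929603) (nat_lit 7) (nat_lit 5) (nat_lit 8) (nat_lit 5) (nat_lit 9) (nat_lit 4) (nat_lit 318) (nat_lit 268) (nat_lit 194)) (XT.nd (nat_lit 78) (nat_lit 0) (nat_lit 0) (XT.lf (nat_lit 0) (nat_lit 47602586524) (nat_lit 152) (nat_lit 79948401466) (nat_lit 0) (nat_lit 406033379) (nat_lit 7) (nat_lit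 5) (nat_lit 9) (nat_lit 4) (nat_lit 7) (nat_lit 4) (nat_lit 319) (nat_lit 268) (nat_lit 193)) (XT.lf (nat_lit 0) (nat_lit 65621495677) (nat_lit 152) (nat_lit 53245590932) (nat_lit 0) (nat_lit 18414024382) (nat_lit 7) (nat_lit 5) (nat_lit 9) (nat_lit 4) (nat_lit 7) (nat_lit 4) (nat_lit 320) (nat_lit 268) (nat_lit 192))))))) (XT.nd (nat_lit 780) (nat_lit 76) (nat_lit 0) (XT.nd (nat_lit 390) (nat_lit 152) (nat_lit 0) (XT.nd (nat_lit 156) (nat_lit 0) (nat_lit 0) (XT.nd (nat_lit 78) (nat_lit 76) (nat_lit 0) (XT.lf (nat_lit 0) (nat_lit 85073971400) (nat_lit 152) (nat_lit 24421168529) (nat_lit 0) (nat_lit 37856390707) (nat_lit 7) (nat_lit 5) (nat_lit 9) (nat_lit 4) (nat_lit 7) (nat_lit 4) (nat_lit 321) (nat_lit 268) (nat_lit 191)) (XT.lf (nat_lit 0) (nat_lit 6917066458) (nat_lit 76) (nat_lit 99266215957) (nat_lit 76) (nat_lit 52039274711) (nat_lit 6) (nat_lit 4) (nat_lit 7) (nat_lit 5) (nat_lit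 7) (nat_lit 4) (nat_lit 322) (nat_lit 268) (nat_lit 190))) (XT.nd (nat_lit 78) (nat_lit 0) (nat_lit 0) (XT.lf (nat_lit 0) (nat_lit 41621489783) (nat_lit 76) (nat_lit 87778234907) (nat_lit 76) (nat_lit 40542626482) (nat_lit 6) (nat_lit 4) (nat_lit 7) (nat_lit 5) (nat_lit 7) (nat_lit 4) (nat_lit 323) (nat_lit 268) (nat_lit 189)) (XT.nd (nat_lit 78) (nat_lit 0) (nat_lit 0) (XT.lf (nat_lit 0) (nat_lit 79090283168) (nat_lit 76) (nat_lit 75376704159) (nat_lit 76) (nat_lit 28133070568) (nat_lit 6) (nat_lit 4) (nat_lit 7) (nat_lit 5) (nat_lit 7) (nat_lit 4) (nat_lit 324) (nat_lit 268) (nat_lit 188)) (XT.lf (nat_lit 0) (nat_lit 119545483906) (nat_lit 76) (nat_lit 61988133160) (nat_lit 76) (nat_lit 14737068860) (nat_lit 6) (nat_lit 4) (nat_lit 7) (nat_lit 5) (nat_lit 7) (nat_lit 4) (nat_lit 325) (nat_lit 268) (nat_lit 187))))) (XT.nd (nat_lit 156) (nat_lit 76) (nat_lit 0) (XT.nd (nat_lit 78) (nat_lit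 76) (nat_lit 0) (XT.lf (nat_lit 0) (nat_lit 163226826520) (nat_lit 76) (nat_lit 47533182232) (nat_lit 76) (nat_lit 275237645) (nat_lit 6) (nat_lit 4) (nat_lit 7) (nat_lit 5) (nat_lit 7) (nat_lit 4) (nat_lit 326) (nat_lit 268) (nat_lit 186)) (XT.lf (nat_lit 0) (nat_lit 14847207098) (nat_lit 152) (nat_lit 16827540670) (nat_lit 76) (nat_lit 195294511676) (nat_lit 5) (nat_lit 5) (nat_lit 7) (nat_lit 5) (nat_lit 6) (nat_lit 4) (nat_lit 327) (nat_lit 268) (nat_lit 185))) (XT.nd (nat_lit 78) (nat_lit 0) (nat_lit 0) (XT.lf (nat_lit 0) (nat_lit 17167668387) (nat_lit 76) (nat_lit 14265444952) (nat_lit 152) (nat_lit 212731492227) (nat_lit 4) (nat_lit 5) (nat_lit 5) (nat_lit 5) (nat_lit 6) (nat_lit 4) (nat_lit 328) (nat_lit 268) (nat_lit 184)) (XT.nd (nat_lit 78) (nat_lit 0) (nat_lit 0) (XT.lf (nat_lit 0) (nat_lit 49709959912) (nat_lit 152) (nat_lit 208321912111) (nat_lit 0) (nat_lit 4685506816)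 (nat_lit 4) (nat_lit 5) (nat_lit 6) (nat_lit 4) (nat_lit 4) (nat_lit 4) (nat_lit 329) (nat_lit 268) (nat_lit 183)) (XT.lf (nat_lit 0) (nat_lit 69685151721) (nat_lit 152) (nat_lit 188401532793) (nat_lit 0) (nat_lit 24655882228) (nat_lit 4) (nat_lit 5) (nat_lit 6) (nat_lit 4) (nat_lit 4) (nat_lit 4) (nat_lit 330) (nat_lit 268) (nat_lit 182)))))) (XT.nd (nat_lit 390) (nat_lit 76) (nat_lit 0) (XT.nd (nat_lit 156) (nat_lit 0) (nat_lit 0) (XT.nd (nat_lit 78) (nat_lit 0) (nat_lit 0) (XT.lf (nat_lit 0) (nat_lit 91254336697) (nat_lit 152) (nat_lit 166895028957) (nat_lit 0) (nat_lit 46220607578) (nat_lit 4) (nat_lit 5) (nat_lit 6) (nat_lit 4) (nat_lit 4) (nat_lit 4) (nat_lit 331) (nat_lit 268) (nat_lit 181)) (XT.lf (nat_lit 0) (nat_lit 114545332232) (nat_lit 152) (nat_lit 143674954655) (nat_lit 0) (nat_lit 69507473830) (nat_lit 4) (nat_lit 5) (nat_lit 6) (nat_lit 4) (nat_lit 4) (nat_lit 4) (nat_lit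 332) (nat_lit 268) (nat_lit 180))) (XT.nd (nat_lit 78) (nat_lit 0) (nat_lit 0) (XT.lf (nat_lit 0) (nat_lit 139696159042) (nat_lit 152) (nat_lit 118603709447) (nat_lit 0) (nat_lit 94654477230) (nat_lit 4) (nat_lit 5) (nat_lit 6) (nat_lit 4) (nat_lit 4) (nat_lit 4) (nat_lit 333) (nat_lit 268) (nat_lit 179)) (XT.nd (nat_lit 78) (nat_lit 0) (nat_lit 0) (XT.lf (nat_lit 0) (nat_lit 166855859063) (nat_lit 152) (nat_lit 91532722990) (nat_lit 0) (nat_lit 121810637056) (nat_lit 4) (nat_lit 5) (nat_lit 6) (nat_lit 4) (nat_lit 4) (nat_lit 4) (nat_lit 334) (nat_lit 268) (nat_lit 178)) (XT.lf (nat_lit 0) (nat_lit 196185378665) (nat_lit 152) (nat_lit 62301574624) (nat_lit 0) (nat_lit 151136878700) (nat_lit 4) (nat_lit 5) (nat_lit 6) (nat_lit 4) (nat_lit 4) (nat_lit 4) (nat_lit 335) (nat_lit 268) (nat_lit 177))))) (XT.nd (nat_lit 156) (nat_lit 0) (nat_lit 0) (XT.nd (nat_lit 78) (nat_lit 76) (nat_lit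 0) (XT.lf (nat_lit 0) (nat_lit 227858522409) (nat_lit 152) (nat_lit 30737042730) (nat_lit 0) (nat_lit 182806987297) (nat_lit 4) (nat_lit 5) (nat_lit 6) (nat_lit 4) (nat_lit 4) (nat_lit 4) (nat_lit 336) (nat_lit 268) (nat_lit 176)) (XT.lf (nat_lit 0) (nat_lit 3458619184) (nat_lit 76) (nat_lit 258658362553) (nat_lit 76) (nat_lit 213604017120) (nat_lit 3) (nat_lit 4) (nat_lit 4) (nat_lit 5) (nat_lit 4) (nat_lit 4) (nat_lit 337) (nat_lit 268) (nat_lit 175))) (XT.nd (nat_lit 78) (nat_lit 0) (nat_lit 0) (XT.lf (nat_lit 0) (nat_lit 41483019545) (nat_lit 76) (nat_lit 258166100179) (nat_lit 76) (nat_lit 213109152597) (nat_lit 3) (nat_lit 4) (nat_lit 4) (nat_lit 5) (nat_lit 4) (nat_lit 4) (nat_lit 338) (nat_lit 268) (nat_lit 174)) (XT.nd (nat_lit 78) (nat_lit 0) (nat_lit 0) (XT.lf (nat_lit 0) (nat_lit 82545182688) (nat_lit 76) (nat_lit 257636407600) (nat_lit 76) (nat_lit 212577050621) (nat_lit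 3) (nat_lit 4) (nat_lit 4) (nat_lit 5) (nat_lit 4) (nat_lit 4) (nat_lit 339) (nat_lit 268) (nat_lit 173)) (XT.lf (nat_lit 0) (nat_lit 126888439950) (nat_lit 76) (nat_lit 257066145897) (nat_lit 76) (nat_lit 212004557994) (nat_lit 3) (nat_lit 4) (nat_lit 4) (nat_lit 5) (nat_lit 4) (nat_lit 4) (nat_lit 340) (nat_lit 268) (nat_lit 172))))))))
noncomputable def xc66 : XT := (XT.nd (nat_lit 36192) (nat_lit 0) (nat_lit 1140) (XT.nd (nat_lit 35412) (nat_lit 0) (nat_lit 3876) (XT.nd (nat_lit 35022) (nat_lit 0) (nat_lit 6612) (XT.nd (nat_lit 156) (nat_lit 0) (nat_lit 0) (XT.nd (nat_lit 78) (nat_lit 0) (nat_lit 0) (XT.lf (nat_lit 0) (nat_lit 174775566188) (nat_lit 76) (nat_lit 256451935740) (nat_lit 76) (nat_lit 211388282168) (nat_lit 3) (nat_lit 4) (nat_lit 4) (nat_lit 5) (nat_lit 4) (nat_lit 4) (nat_lit 341) (nat_lit 268) (nat_lit 171)) (XT.lf (nat_lit 0) (nat_lit 226490336965) (nat_lit 76) (nat_lit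 255790137366) (nat_lit 76) (nat_lit 210724571137) (nat_lit 3) (nat_lit 4) (nat_lit 4) (nat_lit 5) (nat_lit 4) (nat_lit 4) (nat_lit 342) (nat_lit 268) (nat_lit 170))) (XT.nd (nat_lit 78) (nat_lit 0) (nat_lit 0) (XT.lf (nat_lit 0) (nat_lit 282339210183) (nat_lit 76) (nat_lit 255076829007) (nat_lit 76) (nat_lit 210009491799) (nat_lit 3) (nat_lit 4) (nat_lit 4) (nat_lit 5) (nat_lit 4) (nat_lit 4) (nat_lit 343) (nat_lit 268) (nat_lit 169)) (XT.nd (nat_lit 78) (nat_lit 0) (nat_lit 0) (XT.lf (nat_lit 0) (nat_lit 342653142127) (nat_lit 76) (nat_lit 254307783650) (nat_lit 76) (nat_lit 209238806647) (nat_lit 3) (nat_lit 4) (nat_lit 4) (nat_lit 5) (nat_lit 4) (nat_lit 4) (nat_lit 344) (nat_lit 268) (nat_lit 168)) (XT.lf (nat_lit 0) (nat_lit 407789548690) (nat_lit 76) (nat_lit 253478443990) (nat_lit 76) (nat_lit 208407948658) (nat_lit 3) (nat_lit 4) (nat_lit 4) (nat_lit 5) (nat_lit 4) (nat_lit 4)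 (nat_lit 345) (nat_lit 268) (nat_lit 167))))) (XT.nd (nat_lit 156) (nat_lit 0) (nat_lit 76) (XT.nd (nat_lit 78) (nat_lit 0) (nat_lit 0) (XT.lf (nat_lit 0) (nat_lit 806046322) (nat_lit 684) (nat_lit 1804900678) (nat_lit 684) (nat_lit 1804900678) (nat_lit 90) (nat_lit 3) (nat_lit 99) (nat_lit 3) (nat_lit 99) (nat_lit 5) (nat_lit 269) (nat_lit 269) (nat_lit 242)) (XT.lf (nat_lit 76) (nat_lit 2752710675) (nat_lit 0) (nat_lit 336035148) (nat_lit 684) (nat_lit 6021687786) (nat_lit 91) (nat_lit 5) (nat_lit 90) (nat_lit 3) (nat_lit 99) (nat_lit 5) (nat_lit 270) (nat_lit 269) (nat_lit 241))) (XT.nd (nat_lit 78) (nat_lit 0) (nat_lit 76) (XT.lf (nat_lit 76) (nat_lit 189920199) (nat_lit 0) (nat_lit 4500471127) (nat_lit 684) (nat_lit 4721128888) (nat_lit 92) (nat_lit 5) (nat_lit 91) (nat_lit 5) (nat_lit 100) (nat_lit 5) (nat_lit 271) (nat_lit 269) (nat_lit 240)) (XT.nd (nat_lit 78) (nat_lit 0) (nat_lit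 0) (XT.lf (nat_lit 0) (nat_lit 6423795744) (nat_lit 608) (nat_lit 2349828408) (nat_lit 684) (nat_lit 963251472) (nat_lit 92) (nat_lit 5) (nat_lit 100) (nat_lit 5) (nat_lit 101) (nat_lit 5) (nat_lit 272) (nat_lit 269) (nat_lit 239)) (XT.lf (nat_lit 76) (nat_lit 5078018186) (nat_lit 0) (nat_lit 3254998858) (nat_lit 684) (nat_lit 1753721528) (nat_lit 93) (nat_lit 5) (nat_lit 92) (nat_lit 5) (nat_lit 101) (nat_lit 5) (nat_lit 273) (nat_lit 269) (nat_lit 238)))))) (XT.nd (nat_lit 390) (nat_lit 1292) (nat_lit 0) (XT.nd (nat_lit 156) (nat_lit 988) (nat_lit 0) (XT.nd (nat_lit 78) (nat_lit 684) (nat_lit 0) (XT.lf (nat_lit 76) (nat_lit 2681189787) (nat_lit 0) (nat_lit 7729530086) (nat_lit 684) (nat_lit 53394910) (nat_lit 94) (nat_lit 5) (nat_lit 93) (nat_lit 5) (nat_lit 102) (nat_lit 5) (nat_lit 274) (nat_lit 269) (nat_lit 237)) (XT.lf (nat_lit 76) (nat_lit 134680063) (nat_lit 0) (nat_lit 1631857982)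 (nat_lit 760) (nat_lit 9101993516) (nat_lit 85) (nat_lit 5) (nat_lit 84) (nat_lit 5) (nat_lit 94) (nat_lit 5) (nat_lit 275) (nat_lit 269) (nat_lit 236))) (XT.nd (nat_lit 78) (nat_lit 1064) (nat_lit 0) (XT.lf (nat_lit 0) (nat_lit 3847163623) (nat_lit 684) (nat_lit 2500529916) (nat_lit 76) (nat_lit 4951970220) (nat_lit 85) (nat_lit 5) (nat_lit 94) (nat_lit 5) (nat_lit 86) (nat_lit 5) (nat_lit 276) (nat_lit 269) (nat_lit 235)) (XT.nd (nat_lit 78) (nat_lit 380) (nat_lit 0) (XT.lf (nat_lit 0) (nat_lit 6137840229) (nat_lit 760) (nat_lit 5276355184) (nat_lit 76) (nat_lit 349146511) (nat_lit 76) (nat_lit 5) (nat_lit 86) (nat_lit 5) (nat_lit 77) (nat_lit 5) (nat_lit 277) (nat_lit 269) (nat_lit 234)) (XT.lf (nat_lit 0) (nat_lit 3959782209) (nat_lit 380) (nat_lit 4779910743) (nat_lit 456) (nat_lit 3518243295) (nat_lit 71) (nat_lit 5) (nat_lit 76) (nat_lit 5) (nat_lit 77) (nat_lit 5) (nat_lit 278)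 (nat_lit 269) (nat_lit 233))))) (XT.nd (nat_lit 156) (nat_lit 836) (nat_lit 0) (XT.nd (nat_lit 78) (nat_lit 76) (nat_lit 0) (XT.lf (nat_lit 0) (nat_lit 1256340075) (nat_lit 380) (nat_lit 10363588402) (nat_lit 456) (nat_lit 1168859762) (nat_lit 66) (nat_lit 5) (nat_lit 71) (nat_lit 5) (nat_lit 72) (nat_lit 5) (nat_lit 279) (nat_lit 269) (nat_lit 232)) (XT.lf (nat_lit 0) (nat_lit 1475460260) (nat_lit 456) (nat_lit 1667748158) (nat_lit 76) (nat_lit 10210470409) (nat_lit 65) (nat_lit 5) (nat_lit 71) (nat_lit 5) (nat_lit 66) (nat_lit 5) (nat_lit 280) (nat_lit 269) (nat_lit 231))) (XT.nd (nat_lit 78) (nat_lit 532) (nat_lit 0) (XT.lf (nat_lit 0) (nat_lit 4438600275) (nat_lit 380) (nat_lit 4848305895) (nat_lit 76) (nat_lit 4668649952) (nat_lit 61) (nat_lit 5) (nat_lit 66) (nat_lit 5) (nat_lit 62) (nat_lit 5) (nat_lit 281) (nat_lit 269) (nat_lit 230)) (XT.nd (nat_lit 78) (nat_lit 228) (nat_lit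 0) (XT.lf (nat_lit 0) (nat_lit 6272623380) (nat_lit 304) (nat_lit 1479675210) (nat_lit 380) (nat_lit 6847762261) (nat_lit 57) (nat_lit 5) (nat_lit 61) (nat_lit 5) (nat_lit 62) (nat_lit 5) (nat_lit 282) (nat_lit 269) (nat_lit 229)) (XT.lf (nat_lit 0) (nat_lit 3078792456) (nat_lit 228) (nat_lit 8431520815) (nat_lit 304) (nat_lit 3776992967) (nat_lit 54) (nat_lit 5) (nat_lit 57) (nat_lit 5) (nat_lit 58) (nat_lit 5) (nat_lit 283) (nat_lit 269) (nat_lit 228))))))) (XT.nd (nat_lit 780) (nat_lit 988) (nat_lit 0) (XT.nd (nat_lit 390) (nat_lit 760) (nat_lit 0) (XT.nd (nat_lit 156) (nat_lit 608) (nat_lit 0) (XT.nd (nat_lit 78) (nat_lit 380) (nat_lit 0) (XT.lf (nat_lit 0) (nat_lit 15598067339) (nat_lit 228) (nat_lit 80853127) (nat_lit 304) (nat_lit 345244059) (nat_lit 54) (nat_lit 5) (nat_lit 57) (nat_lit 5) (nat_lit 58) (nat_lit 5) (nat_lit 284) (nat_lit 269) (nat_lit 227)) (XT.lf (nat_lit 0) (nat_lit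 3537087847) (nat_lit 380) (nat_lit 4372542314) (nat_lit 76) (nat_lit 8893652047) (nat_lit 49) (nat_lit 5) (nat_lit 54) (nat_lit 5) (nat_lit 50) (nat_lit 5) (nat_lit 285) (nat_lit 269) (nat_lit 226))) (XT.nd (nat_lit 78) (nat_lit 380) (nat_lit 0) (XT.lf (nat_lit 0) (nat_lit 7829532284) (nat_lit 304) (nat_lit 8759709366) (nat_lit 76) (nat_lit 1049730416) (nat_lit 46) (nat_lit 5) (nat_lit 50) (nat_lit 5) (nat_lit 47) (nat_lit 5) (nat_lit 286) (nat_lit 269) (nat_lit 225)) (XT.nd (nat_lit 78) (nat_lit 152) (nat_lit 0) (XT.lf (nat_lit 0) (nat_lit 4760530316) (nat_lit 228) (nat_lit 7939387378) (nat_lit 304) (nat_lit 5829971064) (nat_lit 43) (nat_lit 5) (nat_lit 46) (nat_lit 5) (nat_lit 47) (nat_lit 5) (nat_lit 287) (nat_lit 269) (nat_lit 224)) (XT.lf (nat_lit 0) (nat_lit 103473099) (nat_lit 152) (nat_lit 17986991562) (nat_lit 228) (nat_lit 1395179178) (nat_lit 41) (nat_lit 5) (nat_lit 43) (nat_lit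 5) (nat_lit 44) (nat_lit 5) (nat_lit 288) (nat_lit 269) (nat_lit 223))))) (XT.nd (nat_lit 156) (nat_lit 456) (nat_lit 0) (XT.nd (nat_lit 78) (nat_lit 228) (nat_lit 0) (XT.lf (nat_lit 0) (nat_lit 3617085533) (nat_lit 228) (nat_lit 5183760081) (nat_lit 76) (nat_lit 11697878108) (nat_lit 40) (nat_lit 5) (nat_lit 43) (nat_lit 5) (nat_lit 41) (nat_lit 5) (nat_lit 289) (nat_lit 269) (nat_lit 222)) (XT.lf (nat_lit 0) (nat_lit 9121846673) (nat_lit 304) (nat_lit 11206302122) (nat_lit 76) (nat_lit 1256612621) (nat_lit 37) (nat_lit 5) (nat_lit 41) (nat_lit 5) (nat_lit 38) (nat_lit 5) (nat_lit 290) (nat_lit 269) (nat_lit 221))) (XT.nd (nat_lit 78) (nat_lit 304) (nat_lit 0) (XT.lf (nat_lit 0) (nat_lit 4554143750) (nat_lit 152) (nat_lit 10783245291) (nat_lit 228) (nat_lit 7406842309) (nat_lit 35) (nat_lit 5) (nat_lit 37) (nat_lit 5) (nat_lit 38) (nat_lit 5) (nat_lit 291) (nat_lit 269) (nat_lit 220))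 (XT.nd (nat_lit 78) (nat_lit 304) (nat_lit 0) (XT.lf (nat_lit 0) (nat_lit 21918839436) (nat_lit 152) (nat_lit 287804830) (nat_lit 228) (nat_lit 1782055256) (nat_lit 35) (nat_lit 5) (nat_lit 37) (nat_lit 5) (nat_lit 38) (nat_lit 5) (nat_lit 292) (nat_lit 269) (nat_lit 219)) (XT.lf (nat_lit 0) (nat_lit 4541609516) (nat_lit 304) (nat_lit 9773954975) (nat_lit 76) (nat_lit 10994551709) (nat_lit 31) (nat_lit 5) (nat_lit 35) (nat_lit 5) (nat_lit 32) (nat_lit 5) (nat_lit 293) (nat_lit 269) (nat_lit 218)))))) (XT.nd (nat_lit 390) (nat_lit 456) (nat_lit 0) (XT.nd (nat_lit 156) (nat_lit 380) (nat_lit 0) (XT.nd (nat_lit 78) (nat_lit 0) (nat_lit 0) (XT.lf (nat_lit 0) (nat_lit 8058567186) (nat_lit 152) (nat_lit 3383441319) (nat_lit 228) (nat_lit 15287165578) (nat_lit 29) (nat_lit 5) (nat_lit 31) (nat_lit 5) (nat_lit 32) (nat_lit 5) (nat_lit 294) (nat_lit 269) (nat_lit 217)) (XT.lf (nat_lit 0) (nat_lit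 19165638383) (nat_lit 228) (nat_lit 772953370) (nat_lit 76) (nat_lit 8309653366) (nat_lit 29) (nat_lit 5) (nat_lit 32) (nat_lit 5) (nat_lit 30) (nat_lit 5) (nat_lit 295) (nat_lit 269) (nat_lit 216))) (XT.nd (nat_lit 78) (nat_lit 228) (nat_lit 0) (XT.lf (nat_lit 0) (nat_lit 19061278589) (nat_lit 152) (nat_lit 8769643386) (nat_lit 228) (nat_lit 2041776580) (nat_lit 27) (nat_lit 5) (nat_lit 29) (nat_lit 5) (nat_lit 30) (nat_lit 5) (nat_lit 296) (nat_lit 269) (nat_lit 215)) (XT.nd (nat_lit 78) (nat_lit 0) (nat_lit 0) (XT.lf (nat_lit 0) (nat_lit 5564350885) (nat_lit 228) (nat_lit 22633211405) (nat_lit 76) (nat_lit 3416240392) (nat_lit 24) (nat_lit 5) (nat_lit 27) (nat_lit 5) (nat_lit 25) (nat_lit 5) (nat_lit 297) (nat_lit 269) (nat_lit 214)) (XT.lf (nat_lit 0) (nat_lit 14019080469) (nat_lit 228) (nat_lit 2974462425) (nat_lit 76) (nat_lit 16483433012) (nat_lit 24) (nat_lit 5) (nat_lit 27) (nat_lit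 5) (nat_lit 25) (nat_lit 5) (nat_lit 298) (nat_lit 269) (nat_lit 213))))) (XT.nd (nat_lit 156) (nat_lit 228) (nat_lit 0) (XT.nd (nat_lit 78) (nat_lit 76) (nat_lit 0) (XT.lf (nat_lit 0) (nat_lit 18816326627) (nat_lit 152) (nat_lit 4601157736) (nat_lit 228) (nat_lit 12058387761) (nat_lit 22) (nat_lit 5) (nat_lit 24) (nat_lit 5) (nat_lit 25) (nat_lit 5) (nat_lit 299) (nat_lit 269) (nat_lit 212)) (XT.lf (nat_lit 0) (nat_lit 4798025705) (nat_lit 76) (nat_lit 29009022641) (nat_lit 152) (nat_lit 3815698723) (nat_lit 21) (nat_lit 5) (nat_lit 22) (nat_lit 5) (nat_lit 23) (nat_lit 4) (nat_lit 300) (nat_lit 269) (nat_lit 211))) (XT.nd (nat_lit 78) (nat_lit 152) (nat_lit 0) (XT.lf (nat_lit 0) (nat_lit 5271571240) (nat_lit 152) (nat_lit 11562595453) (nat_lit 76) (nat_lit 23085864244) (nat_lit 20) (nat_lit 5) (nat_lit 22) (nat_lit 5) (nat_lit 21) (nat_lit 5) (nat_lit 301) (nat_lit 269) (nat_lit 210))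 (XT.nd (nat_lit 78) (nat_lit 0) (nat_lit 0) (XT.lf (nat_lit 0) (nat_lit 11671682568) (nat_lit 152) (nat_lit 3441714892) (nat_lit 228) (nat_lit 27276535178) (nat_lit 18) (nat_lit 5) (nat_lit 20) (nat_lit 5) (nat_lit 21) (nat_lit 5) (nat_lit 302) (nat_lit 269) (nat_lit 209)) (XT.lf (nat_lit 0) (nat_lit 26097501420) (nat_lit 228) (nat_lit 8082411725) (nat_lit 76) (nat_lit 10859790503) (nat_lit 18) (nat_lit 5) (nat_lit 21) (nat_lit 5) (nat_lit 19) (nat_lit 4) (nat_lit 303) (nat_lit 269) (nat_lit 208))))))))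
noncomputable def xc67 : XT := (XT.nd (nat_lit 1560) (nat_lit 228) (nat_lit 0) (XT.nd (nat_lit 780) (nat_lit 304) (nat_lit 0) (XT.nd (nat_lit 390) (nat_lit 228) (nat_lit 0) (XT.nd (nat_lit 156) (nat_lit 228) (nat_lit 0) (XT.nd (nat_lit 78) (nat_lit 76) (nat_lit 0) (XT.lf (nat_lit 0) (nat_lit 16809771227) (nat_lit 76) (nat_lit 21450794124) (nat_lit 152) (nat_lit 9625901398) (nat_lit 17) (nat_lit 5) (nat_lit 18) (nat_lit 5) (nat_lit 19) (nat_lit 4) (nat_lit 304) (nat_lit 269) (nat_lit 207)) (XT.lf (nat_lit 0) (nat_lit 545256226) (nat_lit 152) (nat_lit 7014767225) (nat_lit 76) (nat_lit 43394451817) (nat_lit 16) (nat_lit 5) (nat_lit 18) (nat_lit 5) (nat_lit 17) (nat_lit 5) (nat_lit 305) (nat_lit 269) (nat_lit 206))) (XT.nd (nat_lit 78) (nat_lit 76) (nat_lit 0) (XT.lf (nat_lit 0) (nat_lit 11605716090) (nat_lit 228) (nat_lit 34969672315) (nat_lit 76) (nat_lit 7664021222) (nat_lit 14) (nat_lit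 5) (nat_lit 17) (nat_lit 5) (nat_lit 15) (nat_lit 4) (nat_lit 306) (nat_lit 269) (nat_lit 205)) (XT.nd (nat_lit 78) (nat_lit 76) (nat_lit 0) (XT.lf (nat_lit 0) (nat_lit 23785218507) (nat_lit 228) (nat_lit 10033519821) (nat_lit 76) (nat_lit 23956706747) (nat_lit 14) (nat_lit 5) (nat_lit 17) (nat_lit 5) (nat_lit 15) (nat_lit 4) (nat_lit 307) (nat_lit 269) (nat_lit 204)) (XT.lf (nat_lit 0) (nat_lit 17427050195) (nat_lit 76) (nat_lit 19767943867) (nat_lit 152) (nat_lit 24386589046) (nat_lit 13) (nat_lit 5) (nat_lit 14) (nat_lit 5) (nat_lit 15) (nat_lit 4) (nat_lit 308) (nat_lit 269) (nat_lit 203))))) (XT.nd (nat_lit 156) (nat_lit 152) (nat_lit 0) (XT.nd (nat_lit 78) (nat_lit 76) (nat_lit 0) (XT.lf (nat_lit 0) (nat_lit 47415738126) (nat_lit 76) (nat_lit 4421194887) (nat_lit 152) (nat_lit 13847324359) (nat_lit 13) (nat_lit 5) (nat_lit 14) (nat_lit 5) (nat_lit 15) (nat_lit 4) (nat_lit 309) (nat_lit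 269) (nat_lit 202)) (XT.lf (nat_lit 0) (nat_lit 9786272594) (nat_lit 76) (nat_lit 58192068907) (nat_lit 76) (nat_lit 2120411556) (nat_lit 12) (nat_lit 4) (nat_lit 13) (nat_lit 5) (nat_lit 13) (nat_lit 4) (nat_lit 310) (nat_lit 269) (nat_lit 201))) (XT.nd (nat_lit 78) (nat_lit 76) (nat_lit 0) (XT.lf (nat_lit 0) (nat_lit 10591177243) (nat_lit 152) (nat_lit 34382024129) (nat_lit 76) (nat_lit 29865786196) (nat_lit 11) (nat_lit 5) (nat_lit 13) (nat_lit 5) (nat_lit 12) (nat_lit 4) (nat_lit 311) (nat_lit 269) (nat_lit 200)) (XT.nd (nat_lit 78) (nat_lit 76) (nat_lit 0) (XT.lf (nat_lit 0) (nat_lit 24233458260) (nat_lit 152) (nat_lit 6435977793) (nat_lit 76) (nat_lit 49287874823) (nat_lit 11) (nat_lit 5) (nat_lit 13) (nat_lit 5) (nat_lit 12) (nat_lit 4) (nat_lit 312) (nat_lit 269) (nat_lit 199)) (XT.lf (nat_lit 0) (nat_lit 24508805136) (nat_lit 76) (nat_lit 14828987050) (nat_lit 152) (nat_lit 46128784321)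 (nat_lit 10) (nat_lit 5) (nat_lit 11) (nat_lit 5) (nat_lit 12) (nat_lit 4) (nat_lit 313) (nat_lit 269) (nat_lit 198)))))) (XT.nd (nat_lit 390) (nat_lit 152) (nat_lit 0) (XT.nd (nat_lit 156) (nat_lit 152) (nat_lit 0) (XT.nd (nat_lit 78) (nat_lit 0) (nat_lit 0) (XT.lf (nat_lit 0) (nat_lit 55788444433) (nat_lit 152) (nat_lit 33310286638) (nat_lit 0) (nat_lit 2310962976) (nat_lit 10) (nat_lit 5) (nat_lit 12) (nat_lit 4) (nat_lit 10) (nat_lit 4) (nat_lit 314) (nat_lit 269) (nat_lit 197)) (XT.lf (nat_lit 0) (nat_lit 73794494788) (nat_lit 152) (nat_lit 3720390855) (nat_lit 0) (nat_lit 20301416608) (nat_lit 10) (nat_lit 5) (nat_lit 12) (nat_lit 4) (nat_lit 10) (nat_lit 4) (nat_lit 315) (nat_lit 269) (nat_lit 196))) (XT.nd (nat_lit 78) (nat_lit 76) (nat_lit 0) (XT.lf (nat_lit 0) (nat_lit 29151826044) (nat_lit 76) (nat_lit 64534439384) (nat_lit 76) (nat_lit 11026919793) (nat_lit 9) (nat_lit 4)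 (nat_lit 10) (nat_lit 5) (nat_lit 10) (nat_lit 4) (nat_lit 316) (nat_lit 269) (nat_lit 195)) (XT.nd (nat_lit 78) (nat_lit 0) (nat_lit 0) (XT.lf (nat_lit 0) (nat_lit 2967566399) (nat_lit 152) (nat_lit 47437380148) (nat_lit 76) (nat_lit 61751718037) (nat_lit 8) (nat_lit 5) (nat_lit 10) (nat_lit 5) (nat_lit 9) (nat_lit 4) (nat_lit 317) (nat_lit 269) (nat_lit 194)) (XT.lf (nat_lit 0) (nat_lit 17691556914) (nat_lit 152) (nat_lit 17265580773) (nat_lit 76) (nat_lit 85229638869) (nat_lit 8) (nat_lit 5) (nat_lit 10) (nat_lit 5) (nat_lit 9) (nat_lit 4) (nat_lit 318) (nat_lit 269) (nat_lit 193))))) (XT.nd (nat_lit 156) (nat_lit 76) (nat_lit 0) (XT.nd (nat_lit 78) (nat_lit 0) (nat_lit 0) (XT.lf (nat_lit 0) (nat_lit 15811048199) (nat_lit 76) (nat_lit 18021041900) (nat_lit 152) (nat_lit 95015282205) (nat_lit 7) (nat_lit 5) (nat_lit 8) (nat_lit 5) (nat_lit 9) (nat_lit 4) (nat_lit 319) (nat_lit 269)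 (nat_lit 192)) (XT.lf (nat_lit 0) (nat_lit 51565820014) (nat_lit 152) (nat_lit 86059180071) (nat_lit 0) (nat_lit 560723469) (nat_lit 7) (nat_lit 5) (nat_lit 9) (nat_lit 4) (nat_lit 7) (nat_lit 4) (nat_lit 320) (nat_lit 269) (nat_lit 191))) (XT.nd (nat_lit 78) (nat_lit 76) (nat_lit 0) (XT.lf (nat_lit 0) (nat_lit 71014758450) (nat_lit 152) (nat_lit 57241262732) (nat_lit 0) (nat_lit 20000301351) (nat_lit 7) (nat_lit 5) (nat_lit 9) (nat_lit 4) (nat_lit 7) (nat_lit 4) (nat_lit 321) (nat_lit 269) (nat_lit 190)) (XT.nd (nat_lit 78) (nat_lit 76) (nat_lit 0) (XT.lf (nat_lit 0) (nat_lit 92012799408) (nat_lit 152) (nat_lit 26130440276) (nat_lit 0) (nat_lit 40989675129) (nat_lit 7) (nat_lit 5) (nat_lit 9) (nat_lit 4) (nat_lit 7) (nat_lit 4) (nat_lit 322) (nat_lit 269) (nat_lit 189)) (XT.lf (nat_lit 0) (nat_lit 7704231239) (nat_lit 76) (nat_lit 107100429123) (nat_lit 76) (nat_lit 56069279678) (nat_lit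 6) (nat_lit 4) (nat_lit 7) (nat_lit 5) (nat_lit 7) (nat_lit 4) (nat_lit 323) (nat_lit 269) (nat_lit 188))))))) (XT.nd (nat_lit 780) (nat_lit 76) (nat_lit 0) (XT.nd (nat_lit 390) (nat_lit 76) (nat_lit 0) (XT.nd (nat_lit 156) (nat_lit 76) (nat_lit 0) (XT.nd (nat_lit 78) (nat_lit 0) (nat_lit 0) (XT.lf (nat_lit 0) (nat_lit 45167689952) (nat_lit 76) (nat_lit 94701341745) (nat_lit 76) (nat_lit 43662761591) (nat_lit 6) (nat_lit 4) (nat_lit 7) (nat_lit 5) (nat_lit 7) (nat_lit 4) (nat_lit 324) (nat_lit 269) (nat_lit 187)) (XT.lf (nat_lit 0) (nat_lit 85617951179) (nat_lit 76) (nat_lit 81315033126) (nat_lit 76) (nat_lit 30269572686) (nat_lit 6) (nat_lit 4) (nat_lit 7) (nat_lit 5) (nat_lit 7) (nat_lit 4) (nat_lit 325) (nat_lit 269) (nat_lit 186))) (XT.nd (nat_lit 78) (nat_lit 76) (nat_lit 0) (XT.lf (nat_lit 0) (nat_lit 129294720171) (nat_lit 76) (nat_lit 66862176993) (nat_lit 76) (nat_lit 15810345918)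 (nat_lit 6) (nat_lit 4) (nat_lit 7) (nat_lit 5) (nat_lit 7) (nat_lit 4) (nat_lit 326) (nat_lit 269) (nat_lit 185)) (XT.nd (nat_lit 78) (nat_lit 76) (nat_lit 0) (XT.lf (nat_lit 0) (nat_lit 176456822227) (nat_lit 76) (nat_lit 51257126792) (nat_lit 76) (nat_lit 199396980) (nat_lit 6) (nat_lit 4) (nat_lit 7) (nat_lit 5) (nat_lit 7) (nat_lit 4) (nat_lit 327) (nat_lit 269) (nat_lit 184)) (XT.lf (nat_lit 0) (nat_lit 16122694366) (nat_lit 152) (nat_lit 18011668153) (nat_lit 76) (nat_lit 210987996474) (nat_lit 5) (nat_lit 5) (nat_lit 7) (nat_lit 5) (nat_lit 6) (nat_lit 4) (nat_lit 328) (nat_lit 269) (nat_lit 183))))) (XT.nd (nat_lit 156) (nat_lit 0) (nat_lit 0) (XT.nd (nat_lit 78) (nat_lit 0) (nat_lit 0) (XT.lf (nat_lit 0) (nat_lit 18696114012) (nat_lit 76) (nat_lit 15335282491) (nat_lit 152) (nat_lit 229662144256) (nat_lit 4) (nat_lit 5) (nat_lit 5) (nat_lit 5) (nat_lit 6) (nat_lit 4) (nat_lit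 329) (nat_lit 269) (nat_lit 182)) (XT.lf (nat_lit 0) (nat_lit 53765227836) (nat_lit 152) (nat_lit 224841229263) (nat_lit 0) (nat_lit 5124340762) (nat_lit 4) (nat_lit 5) (nat_lit 6) (nat_lit 4) (nat_lit 4) (nat_lit 4) (nat_lit 330) (nat_lit 269) (nat_lit 181))) (XT.nd (nat_lit 78) (nat_lit 0) (nat_lit 0) (XT.lf (nat_lit 0) (nat_lit 75332622313) (nat_lit 152) (nat_lit 203338066697) (nat_lit 0) (nat_lit 26687605955) (nat_lit 4) (nat_lit 5) (nat_lit 6) (nat_lit 4) (nat_lit 4) (nat_lit 4) (nat_lit 331) (nat_lit 269) (nat_lit 180)) (XT.nd (nat_lit 78) (nat_lit 0) (nat_lit 0) (XT.lf (nat_lit 0) (nat_lit 98621959979) (nat_lit 152) (nat_lit 180121086163) (nat_lit 0) (nat_lit 49973120211) (nat_lit 4) (nat_lit 5) (nat_lit 6) (nat_lit 4) (nat_lit 4) (nat_lit 4) (nat_lit 332) (nat_lit 269) (nat_lit 179)) (XT.lf (nat_lit 0) (nat_lit 123771251725) (nat_lit 152) (nat_lit 155052705555) (nat_lit 0) (nat_lit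 75118871762) (nat_lit 4) (nat_lit 5) (nat_lit 6) (nat_lit 4) (nat_lit 4) (nat_lit 4) (nat_lit 333) (nat_lit 269) (nat_lit 178)))))) (XT.nd (nat_lit 390) (nat_lit 0) (nat_lit 0) (XT.nd (nat_lit 156) (nat_lit 76) (nat_lit 0) (XT.nd (nat_lit 78) (nat_lit 0) (nat_lit 0) (XT.lf (nat_lit 0) (nat_lit 150929530389) (nat_lit 152) (nat_lit 127984371505) (nat_lit 0) (nat_lit 102273872469) (nat_lit 4) (nat_lit 5) (nat_lit 6) (nat_lit 4) (nat_lit 4) (nat_lit 4) (nat_lit 334) (nat_lit 269) (nat_lit 177)) (XT.lf (nat_lit 0) (nat_lit 180257733921) (nat_lit 152) (nat_lit 98755679073) (nat_lit 0) (nat_lit 131599040854) (nat_lit 4) (nat_lit 5) (nat_lit 6) (nat_lit 4) (nat_lit 4) (nat_lit 4) (nat_lit 335) (nat_lit 269) (nat_lit 176))) (XT.nd (nat_lit 78) (nat_lit 76) (nat_lit 0) (XT.lf (nat_lit 0) (nat_lit 211929659082) (nat_lit 152) (nat_lit 67193421190) (nat_lit 0) (nat_lit 163268155693) (nat_lit 4) (nat_lit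 5) (nat_lit 6) (nat_lit 4) (nat_lit 4) (nat_lit 4) (nat_lit 336) (nat_lit 269) (nat_lit 175)) (XT.nd (nat_lit 78) (nat_lit 76) (nat_lit 0) (XT.lf (nat_lit 0) (nat_lit 246132991353) (nat_lit 152) (nat_lit 33110562255) (nat_lit 0) (nat_lit 197468885816) (nat_lit 4) (nat_lit 5) (nat_lit 6) (nat_lit 4) (nat_lit 4) (nat_lit 4) (nat_lit 337) (nat_lit 269) (nat_lit 174)) (XT.lf (nat_lit 0) (nat_lit 3817039324) (nat_lit 76) (nat_lit 279312972506) (nat_lit 76) (nat_lit 230646457571) (nat_lit 3) (nat_lit 4) (nat_lit 4) (nat_lit 5) (nat_lit 4) (nat_lit 4) (nat_lit 338) (nat_lit 269) (nat_lit 173))))) (XT.nd (nat_lit 234) (nat_lit 0) (nat_lit 0) (XT.nd (nat_lit 78) (nat_lit 0) (nat_lit 0) (XT.lf (nat_lit 0) (nat_lit 44877337595) (nat_lit 76) (nat_lit 278784148331) (nat_lit 76) (nat_lit 230115402474) (nat_lit 3) (nat_lit 4) (nat_lit 4) (nat_lit 5) (nat_lit 4) (nat_lit 4) (nat_lit 339) (nat_lit 269)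 (nat_lit 172)) (XT.nd (nat_lit 78) (nat_lit 0) (nat_lit 0) (XT.lf (nat_lit 0) (nat_lit 89218868124) (nat_lit 76) (nat_lit 278214690706) (nat_lit 76) (nat_lit 229543879179) (nat_lit 3) (nat_lit 4) (nat_lit 4) (nat_lit 5) (nat_lit 4) (nat_lit 4) (nat_lit 340) (nat_lit 269) (nat_lit 171)) (XT.lf (nat_lit 0) (nat_lit 137104395536) (nat_lit 76) (nat_lit 277601225066) (nat_lit 76) (nat_lit 228928500882) (nat_lit 3) (nat_lit 4) (nat_lit 4) (nat_lit 5) (nat_lit 4) (nat_lit 4) (nat_lit 341) (nat_lit 269) (nat_lit 170)))) (XT.nd (nat_lit 78) (nat_lit 0) (nat_lit 0) (XT.lf (nat_lit 0) (nat_lit 188817685918) (nat_lit 76) (nat_lit 276940116060) (nat_lit 76) (nat_lit 228265620897) (nat_lit 3) (nat_lit 4) (nat_lit 4) (nat_lit 5) (nat_lit 4) (nat_lit 4) (nat_lit 342) (nat_lit 269) (nat_lit 169)) (XT.nd (nat_lit 78) (nat_lit 0) (nat_lit 0) (XT.lf (nat_lit 0) (nat_lit 244665188399) (nat_lit 76) (nat_lit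 276227446004) (nat_lit 76) (nat_lit 227551311046) (nat_lit 3) (nat_lit 4) (nat_lit 4) (nat_lit 5) (nat_lit 4) (nat_lit 4) (nat_lit 343) (nat_lit 269) (nat_lit 168)) (XT.lf (nat_lit 0) (nat_lit 304977851143) (nat_lit 76) (nat_lit 275458991669) (nat_lit 76) (nat_lit 226781338382) (nat_lit 3) (nat_lit 4) (nat_lit 4) (nat_lit 5) (nat_lit 4) (nat_lit 4) (nat_lit 344) (nat_lit 269) (nat_lit 167))))))))
noncomputable def xc68 : XT := (XT.nd (nat_lit 36270) (nat_lit 0) (nat_lit 836) (XT.nd (nat_lit 35490) (nat_lit 0) (nat_lit 3040) (XT.nd (nat_lit 35100) (nat_lit 0) (nat_lit 5548) (XT.nd (nat_lit 34866) (nat_lit 0) (nat_lit 6612) (XT.nd (nat_lit 34788) (nat_lit 0) (nat_lit 6612) (XT.lf (nat_lit 0) (nat_lit 370113082521) (nat_lit 76) (nat_lit 274630199251) (nat_lit 76) (nat_lit 225951140104) (nat_lit 3) (nat_lit 4) (nat_lit 4) (nat_lit 5) (nat_lit 4) (nat_lit 4) (nat_lit 345) (nat_lit 269) (nat_lit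 166)) (XT.lf (nat_lit 0) (nat_lit 2206792873) (nat_lit 684) (nat_lit 1245841345) (nat_lit 684) (nat_lit 1245841345) (nat_lit 90) (nat_lit 3) (nat_lit 99) (nat_lit 3) (nat_lit 99) (nat_lit 5) (nat_lit 270) (nat_lit 270) (nat_lit 240))) (XT.nd (nat_lit 78) (nat_lit 0) (nat_lit 76) (XT.lf (nat_lit 76) (nat_lit 4318688023) (nat_lit 0) (nat_lit 1512729384) (nat_lit 684) (nat_lit 3875985653) (nat_lit 91) (nat_lit 5) (nat_lit 90) (nat_lit 3) (nat_lit 99) (nat_lit 5) (nat_lit 271) (nat_lit 270) (nat_lit 239)) (XT.nd (nat_lit 78) (nat_lit 0) (nat_lit 76) (XT.lf (nat_lit 76) (nat_lit 1635695350) (nat_lit 0) (nat_lit 5746355392) (nat_lit 684) (nat_lit 2660007980) (nat_lit 92) (nat_lit 5) (nat_lit 91) (nat_lit 5) (nat_lit 100) (nat_lit 5) (nat_lit 272) (nat_lit 270) (nat_lit 238)) (XT.lf (nat_lit 0) (nat_lit 9069734183) (nat_lit 608) (nat_lit 1087078392) (nat_lit 684) (nat_lit 246335708) (nat_lit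 92) (nat_lit 5) (nat_lit 100) (nat_lit 5) (nat_lit 101) (nat_lit 5) (nat_lit 273) (nat_lit 270) (nat_lit 237))))) (XT.nd (nat_lit 156) (nat_lit 532) (nat_lit 0) (XT.nd (nat_lit 78) (nat_lit 0) (nat_lit 76) (XT.lf (nat_lit 0) (nat_lit 200536309) (nat_lit 684) (nat_lit 3919549212) (nat_lit 760) (nat_lit 6668016210) (nat_lit 83) (nat_lit 5) (nat_lit 92) (nat_lit 5) (nat_lit 93) (nat_lit 5) (nat_lit 274) (nat_lit 270) (nat_lit 236)) (XT.lf (nat_lit 0) (nat_lit 1841325796) (nat_lit 684) (nat_lit 6899673476) (nat_lit 760) (nat_lit 2460471530) (nat_lit 84) (nat_lit 5) (nat_lit 93) (nat_lit 5) (nat_lit 94) (nat_lit 5) (nat_lit 275) (nat_lit 270) (nat_lit 235))) (XT.nd (nat_lit 78) (nat_lit 608) (nat_lit 0) (XT.lf (nat_lit 76) (nat_lit 1585034830) (nat_lit 0) (nat_lit 2101919374) (nat_lit 760) (nat_lit 7957511846) (nat_lit 85) (nat_lit 5) (nat_lit 84) (nat_lit 5) (nat_lit 94) (nat_lit 5) (nat_lit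 276) (nat_lit 270) (nat_lit 234)) (XT.nd (nat_lit 78) (nat_lit 684) (nat_lit 0) (XT.lf (nat_lit 0) (nat_lit 5797337056) (nat_lit 684) (nat_lit 1276100880) (nat_lit 76) (nat_lit 5043825777) (nat_lit 85) (nat_lit 5) (nat_lit 94) (nat_lit 5) (nat_lit 86) (nat_lit 5) (nat_lit 277) (nat_lit 270) (nat_lit 233)) (XT.lf (nat_lit 0) (nat_lit 8168080274) (nat_lit 760) (nat_lit 4252057453) (nat_lit 76) (nat_lit 203372828) (nat_lit 76) (nat_lit 5) (nat_lit 86) (nat_lit 5) (nat_lit 77) (nat_lit 5) (nat_lit 278) (nat_lit 270) (nat_lit 232)))))) (XT.nd (nat_lit 390) (nat_lit 1064) (nat_lit 0) (XT.nd (nat_lit 156) (nat_lit 608) (nat_lit 0) (XT.nd (nat_lit 78) (nat_lit 456) (nat_lit 0) (XT.lf (nat_lit 0) (nat_lit 5660111883) (nat_lit 380) (nat_lit 5225554614) (nat_lit 456) (nat_lit 2276918371) (nat_lit 71) (nat_lit 5) (nat_lit 76) (nat_lit 5) (nat_lit 77) (nat_lit 5) (nat_lit 279) (nat_lit 270) (nat_lit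 231)) (XT.lf (nat_lit 0) (nat_lit 164132382) (nat_lit 456) (nat_lit 10989240333) (nat_lit 76) (nat_lit 2586983680) (nat_lit 65) (nat_lit 5) (nat_lit 71) (nat_lit 5) (nat_lit 66) (nat_lit 5) (nat_lit 280) (nat_lit 270) (nat_lit 230))) (XT.nd (nat_lit 78) (nat_lit 608) (nat_lit 0) (XT.lf (nat_lit 0) (nat_lit 2876920459) (nat_lit 456) (nat_lit 462191553) (nat_lit 76) (nat_lit 11015712641) (nat_lit 65) (nat_lit 5) (nat_lit 71) (nat_lit 5) (nat_lit 66) (nat_lit 5) (nat_lit 281) (nat_lit 270) (nat_lit 229)) (XT.nd (nat_lit 78) (nat_lit 304) (nat_lit 0) (XT.lf (nat_lit 0) (nat_lit 6003170845) (nat_lit 380) (nat_lit 3893340748) (nat_lit 76) (nat_lit 5112258122) (nat_lit 61) (nat_lit 5) (nat_lit 66) (nat_lit 5) (nat_lit 62) (nat_lit 5) (nat_lit 282) (nat_lit 270) (nat_lit 228)) (XT.lf (nat_lit 0) (nat_lit 8058905130) (nat_lit 304) (nat_lit 1453522801) (nat_lit 380) (nat_lit 6196087952) (nat_lit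 57) (nat_lit 5) (nat_lit 61) (nat_lit 5) (nat_lit 62) (nat_lit 5) (nat_lit 283) (nat_lit 270) (nat_lit 227))))) (XT.nd (nat_lit 156) (nat_lit 456) (nat_lit 0) (XT.nd (nat_lit 78) (nat_lit 380) (nat_lit 0) (XT.lf (nat_lit 0) (nat_lit 4608549624) (nat_lit 228) (nat_lit 8900221385) (nat_lit 304) (nat_lit 2945274608) (nat_lit 54) (nat_lit 5) (nat_lit 57) (nat_lit 5) (nat_lit 58) (nat_lit 5) (nat_lit 284) (nat_lit 270) (nat_lit 226)) (XT.lf (nat_lit 0) (nat_lit 669757797) (nat_lit 380) (nat_lit 16459701786) (nat_lit 76) (nat_lit 123310603) (nat_lit 49) (nat_lit 5) (nat_lit 54) (nat_lit 5) (nat_lit 50) (nat_lit 5) (nat_lit 285) (nat_lit 270) (nat_lit 225))) (XT.nd (nat_lit 78) (nat_lit 456) (nat_lit 0) (XT.lf (nat_lit 0) (nat_lit 4782642621) (nat_lit 380) (nat_lit 3504881515) (nat_lit 76) (nat_lit 9809961444) (nat_lit 49) (nat_lit 5) (nat_lit 54) (nat_lit 5) (nat_lit 50) (nat_lit 5) (nat_lit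 286) (nat_lit 270) (nat_lit 224)) (XT.nd (nat_lit 78) (nat_lit 228) (nat_lit 0) (XT.lf (nat_lit 0) (nat_lit 9369344414) (nat_lit 304) (nat_lit 8252653862) (nat_lit 76) (nat_lit 1380632210) (nat_lit 46) (nat_lit 5) (nat_lit 50) (nat_lit 5) (nat_lit 47) (nat_lit 5) (nat_lit 287) (nat_lit 270) (nat_lit 223)) (XT.lf (nat_lit 0) (nat_lit 6296714077) (nat_lit 228) (nat_lit 8283021766) (nat_lit 304) (nat_lit 5387698272) (nat_lit 43) (nat_lit 5) (nat_lit 46) (nat_lit 5) (nat_lit 47) (nat_lit 5) (nat_lit 288) (nat_lit 270) (nat_lit 222))))))) (XT.nd (nat_lit 780) (nat_lit 760) (nat_lit 0) (XT.nd (nat_lit 390) (nat_lit 836) (nat_lit 0) (XT.nd (nat_lit 156) (nat_lit 380) (nat_lit 0) (XT.nd (nat_lit 78) (nat_lit 76) (nat_lit 0) (XT.lf (nat_lit 0) (nat_lit 1255425765) (nat_lit 152) (nat_lit 19104184005) (nat_lit 228) (nat_lit 642258228) (nat_lit 41) (nat_lit 5) (nat_lit 43) (nat_lit 5) (nat_lit 44)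 (nat_lit 5) (nat_lit 289) (nat_lit 270) (nat_lit 221)) (XT.lf (nat_lit 0) (nat_lit 4681327150) (nat_lit 228) (nat_lit 4512530936) (nat_lit 76) (nat_lit 12904668869) (nat_lit 40) (nat_lit 5) (nat_lit 43) (nat_lit 5) (nat_lit 41) (nat_lit 5) (nat_lit 290) (nat_lit 270) (nat_lit 220))) (XT.nd (nat_lit 78) (nat_lit 152) (nat_lit 0) (XT.lf (nat_lit 0) (nat_lit 10590051210) (nat_lit 304) (nat_lit 11030896531) (nat_lit 76) (nat_lit 1652420890) (nat_lit 37) (nat_lit 5) (nat_lit 41) (nat_lit 5) (nat_lit 38) (nat_lit 5) (nat_lit 291) (nat_lit 270) (nat_lit 219)) (XT.nd (nat_lit 78) (nat_lit 0) (nat_lit 0) (XT.lf (nat_lit 0) (nat_lit 5943801119) (nat_lit 152) (nat_lit 11320343555) (nat_lit 228) (nat_lit 7263478757) (nat_lit 35) (nat_lit 5) (nat_lit 37) (nat_lit 5) (nat_lit 38) (nat_lit 5) (nat_lit 292) (nat_lit 270) (nat_lit 218)) (XT.lf (nat_lit 0) (nat_lit 24621722396) (nat_lit 152) (nat_lit 9383514)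 (nat_lit 228) (nat_lit 1243220660) (nat_lit 35) (nat_lit 5) (nat_lit 37) (nat_lit 5) (nat_lit 38) (nat_lit 5) (nat_lit 293) (nat_lit 270) (nat_lit 217))))) (XT.nd (nat_lit 156) (nat_lit 380) (nat_lit 0) (XT.nd (nat_lit 78) (nat_lit 152) (nat_lit 0) (XT.lf (nat_lit 0) (nat_lit 5534946252) (nat_lit 304) (nat_lit 9598465169) (nat_lit 76) (nat_lit 12169067988) (nat_lit 31) (nat_lit 5) (nat_lit 35) (nat_lit 5) (nat_lit 32) (nat_lit 5) (nat_lit 294) (nat_lit 270) (nat_lit 216)) (XT.lf (nat_lit 0) (nat_lit 9619051058) (nat_lit 152) (nat_lit 3335957026) (nat_lit 228) (nat_lit 15881742344) (nat_lit 29) (nat_lit 5) (nat_lit 31) (nat_lit 5) (nat_lit 32) (nat_lit 5) (nat_lit 295) (nat_lit 270) (nat_lit 215))) (XT.nd (nat_lit 78) (nat_lit 228) (nat_lit 0) (XT.lf (nat_lit 0) (nat_lit 38276861) (nat_lit 152) (nat_lit 21219178962) (nat_lit 228) (nat_lit 9221909813) (nat_lit 27) (nat_lit 5) (nat_lit 29)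 (nat_lit 5) (nat_lit 30) (nat_lit 5) (nat_lit 296) (nat_lit 270) (nat_lit 214)) (XT.nd (nat_lit 78) (nat_lit 228) (nat_lit 0) (XT.lf (nat_lit 0) (nat_lit 21420133115) (nat_lit 152) (nat_lit 9166920692) (nat_lit 228) (nat_lit 1648227013) (nat_lit 27) (nat_lit 5) (nat_lit 29) (nat_lit 5) (nat_lit 30) (nat_lit 5) (nat_lit 297) (nat_lit 270) (nat_lit 213)) (XT.lf (nat_lit 0) (nat_lit 6526106703) (nat_lit 228) (nat_lit 23606909570) (nat_lit 76) (nat_lit 3983398228) (nat_lit 24) (nat_lit 5) (nat_lit 27) (nat_lit 5) (nat_lit 25) (nat_lit 5) (nat_lit 298) (nat_lit 270) (nat_lit 212)))))) (XT.nd (nat_lit 390) (nat_lit 304) (nat_lit 0) (XT.nd (nat_lit 156) (nat_lit 304) (nat_lit 0) (XT.nd (nat_lit 78) (nat_lit 152) (nat_lit 0) (XT.lf (nat_lit 0) (nat_lit 15618947414) (nat_lit 228) (nat_lit 2437457616) (nat_lit 76) (nat_lit 18074198953) (nat_lit 24) (nat_lit 5) (nat_lit 27) (nat_lit 5) (nat_lit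 25) (nat_lit 5) (nat_lit 299) (nat_lit 270) (nat_lit 211)) (XT.lf (nat_lit 0) (nat_lit 21062915665) (nat_lit 152) (nat_lit 4682448828) (nat_lit 228) (nat_lit 12545285767) (nat_lit 22) (nat_lit 5) (nat_lit 24) (nat_lit 5) (nat_lit 25) (nat_lit 5) (nat_lit 300) (nat_lit 270) (nat_lit 210))) (XT.nd (nat_lit 78) (nat_lit 228) (nat_lit 0) (XT.lf (nat_lit 0) (nat_lit 5908931649) (nat_lit 76) (nat_lit 31038994252) (nat_lit 152) (nat_lit 3662299727) (nat_lit 21) (nat_lit 5) (nat_lit 22) (nat_lit 5) (nat_lit 23) (nat_lit 4) (nat_lit 301) (nat_lit 270) (nat_lit 209)) (XT.nd (nat_lit 78) (nat_lit 152) (nat_lit 0) (XT.lf (nat_lit 0) (nat_lit 6104384970) (nat_lit 152) (nat_lit 11800339935) (nat_lit 76) (nat_lit 25187890681) (nat_lit 20) (nat_lit 5) (nat_lit 22) (nat_lit 5) (nat_lit 21) (nat_lit 5) (nat_lit 302) (nat_lit 270) (nat_lit 208)) (XT.lf (nat_lit 0) (nat_lit 13262812708) (nat_lit 152) (nat_lit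 3450557401) (nat_lit 228) (nat_lit 29047783001) (nat_lit 18) (nat_lit 5) (nat_lit 20) (nat_lit 5) (nat_lit 21) (nat_lit 5) (nat_lit 303) (nat_lit 270) (nat_lit 207))))) (XT.nd (nat_lit 156) (nat_lit 228) (nat_lit 0) (XT.nd (nat_lit 78) (nat_lit 76) (nat_lit 0) (XT.lf (nat_lit 0) (nat_lit 28551099294) (nat_lit 228) (nat_lit 8105663047) (nat_lit 76) (nat_lit 11967430399) (nat_lit 18) (nat_lit 5) (nat_lit 21) (nat_lit 5) (nat_lit 19) (nat_lit 4) (nat_lit 304) (nat_lit 270) (nat_lit 206)) (XT.lf (nat_lit 0) (nat_lit 18750804874) (nat_lit 76) (nat_lit 22918616499) (nat_lit 152) (nat_lit 10030194295) (nat_lit 17) (nat_lit 5) (nat_lit 18) (nat_lit 5) (nat_lit 19) (nat_lit 4) (nat_lit 305) (nat_lit 270) (nat_lit 205))) (XT.nd (nat_lit 78) (nat_lit 152) (nat_lit 0) (XT.lf (nat_lit 0) (nat_lit 916721164) (nat_lit 152) (nat_lit 7012699037) (nat_lit 76) (nat_lit 47084696456) (nat_lit 16) (nat_lit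 5) (nat_lit 18) (nat_lit 5) (nat_lit 17) (nat_lit 5) (nat_lit 306) (nat_lit 270) (nat_lit 204)) (XT.nd (nat_lit 78) (nat_lit 0) (nat_lit 0) (XT.lf (nat_lit 0) (nat_lit 12849685759) (nat_lit 228) (nat_lit 37216116708) (nat_lit 76) (nat_lit 8496683930) (nat_lit 14) (nat_lit 5) (nat_lit 17) (nat_lit 5) (nat_lit 15) (nat_lit 4) (nat_lit 307) (nat_lit 270) (nat_lit 203)) (XT.lf (nat_lit 0) (nat_lit 25980177083) (nat_lit 228) (nat_lit 10325896414) (nat_lit 76) (nat_lit 26076522000) (nat_lit 14) (nat_lit 5) (nat_lit 17) (nat_lit 5) (nat_lit 15) (nat_lit 4) (nat_lit 308) (nat_lit 270) (nat_lit 202))))))))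
noncomputable def xc69 : XT := (XT.nd (nat_lit 1560) (nat_lit 228) (nat_lit 0) (XT.nd (nat_lit 780) (nat_lit 152) (nat_lit 0) (XT.nd (nat_lit 390) (nat_lit 228) (nat_lit 0) (XT.nd (nat_lit 156) (nat_lit 152) (nat_lit 0) (XT.nd (nat_lit 78) (nat_lit 0) (nat_lit 0) (XT.lf (nat_lit 0) (nat_lit 19309341970) (nat_lit 76) (nat_lit 21139373673) (nat_lit 152) (nat_lit 26045230483) (nat_lit 13) (nat_lit 5) (nat_lit 14) (nat_lit 5) (nat_lit 15) (nat_lit 4) (nat_lit 309) (nat_lit 270) (nat_lit 201)) (XT.lf (nat_lit 0) (nat_lit 51660967324) (nat_lit 76) (nat_lit 4580440753) (nat_lit 152) (nat_lit 14684475413) (nat_lit 13) (nat_lit 5) (nat_lit 14) (nat_lit 5) (nat_lit 15) (nat_lit 4) (nat_lit 310) (nat_lit 270) (nat_lit 200))) (XT.nd (nat_lit 78) (nat_lit 76) (nat_lit 0) (XT.lf (nat_lit 0) (nat_lit 11011143042) (nat_lit 76) (nat_lit 62653622007) (nat_lit 76) (nat_lit 2029259653) (nat_lit 12) (nat_lit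 4) (nat_lit 13) (nat_lit 5) (nat_lit 13) (nat_lit 4) (nat_lit 311) (nat_lit 270) (nat_lit 199)) (XT.nd (nat_lit 78) (nat_lit 0) (nat_lit 0) (XT.lf (nat_lit 0) (nat_lit 11672210389) (nat_lit 152) (nat_lit 36715432672) (nat_lit 76) (nat_lit 32426581865) (nat_lit 11) (nat_lit 5) (nat_lit 13) (nat_lit 5) (nat_lit 12) (nat_lit 4) (nat_lit 312) (nat_lit 270) (nat_lit 198)) (XT.lf (nat_lit 0) (nat_lit 26388559890) (nat_lit 152) (nat_lit 6564602880) (nat_lit 76) (nat_lit 53389731451) (nat_lit 11) (nat_lit 5) (nat_lit 13) (nat_lit 5) (nat_lit 12) (nat_lit 4) (nat_lit 313) (nat_lit 270) (nat_lit 197))))) (XT.nd (nat_lit 156) (nat_lit 152) (nat_lit 0) (XT.nd (nat_lit 78) (nat_lit 0) (nat_lit 0) (XT.lf (nat_lit 0) (nat_lit 26838976592) (nat_lit 76) (nat_lit 15852000874) (nat_lit 152) (nat_lit 49602450143) (nat_lit 10) (nat_lit 5) (nat_lit 11) (nat_lit 5) (nat_lit 12) (nat_lit 4) (nat_lit 314) (nat_lit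 270) (nat_lit 196)) (XT.lf (nat_lit 0) (nat_lit 60444771429) (nat_lit 152) (nat_lit 35625672150) (nat_lit 0) (nat_lit 2642208862) (nat_lit 10) (nat_lit 5) (nat_lit 12) (nat_lit 4) (nat_lit 10) (nat_lit 4) (nat_lit 315) (nat_lit 270) (nat_lit 195))) (XT.nd (nat_lit 78) (nat_lit 152) (nat_lit 0) (XT.lf (nat_lit 0) (nat_lit 79876990891) (nat_lit 152) (nat_lit 3694468958) (nat_lit 0) (nat_lit 22061056647) (nat_lit 10) (nat_lit 5) (nat_lit 12) (nat_lit 4) (nat_lit 10) (nat_lit 4) (nat_lit 316) (nat_lit 270) (nat_lit 194)) (XT.nd (nat_lit 78) (nat_lit 76) (nat_lit 0) (XT.lf (nat_lit 0) (nat_lit 31793464067) (nat_lit 76) (nat_lit 69558216594) (nat_lit 76) (nat_lit 11729901169) (nat_lit 9) (nat_lit 4) (nat_lit 10) (nat_lit 5) (nat_lit 10) (nat_lit 4) (nat_lit 317) (nat_lit 270) (nat_lit 193)) (XT.lf (nat_lit 0) (nat_lit 3365562061) (nat_lit 152) (nat_lit 50940377256) (nat_lit 76) (nat_lit 66815112065)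 (nat_lit 8) (nat_lit 5) (nat_lit 10) (nat_lit 5) (nat_lit 9) (nat_lit 4) (nat_lit 318) (nat_lit 270) (nat_lit 192)))))) (XT.nd (nat_lit 390) (nat_lit 76) (nat_lit 0) (XT.nd (nat_lit 156) (nat_lit 0) (nat_lit 0) (XT.nd (nat_lit 78) (nat_lit 76) (nat_lit 0) (XT.lf (nat_lit 0) (nat_lit 19255576236) (nat_lit 152) (nat_lit 18376463065) (nat_lit 76) (nat_lit 92162136446) (nat_lit 8) (nat_lit 5) (nat_lit 10) (nat_lit 5) (nat_lit 9) (nat_lit 4) (nat_lit 319) (nat_lit 270) (nat_lit 191)) (XT.lf (nat_lit 0) (nat_lit 17334546528) (nat_lit 76) (nat_lit 19345828817) (nat_lit 152) (nat_lit 102467600661) (nat_lit 7) (nat_lit 5) (nat_lit 8) (nat_lit 5) (nat_lit 9) (nat_lit 4) (nat_lit 320) (nat_lit 270) (nat_lit 190))) (XT.nd (nat_lit 78) (nat_lit 0) (nat_lit 0) (XT.lf (nat_lit 0) (nat_lit 55823995911) (nat_lit 152) (nat_lit 92699492742) (nat_lit 0) (nat_lit 710354511) (nat_lit 7) (nat_lit 5) (nat_lit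 9) (nat_lit 4) (nat_lit 7) (nat_lit 4) (nat_lit 321) (nat_lit 270) (nat_lit 189)) (XT.nd (nat_lit 78) (nat_lit 0) (nat_lit 0) (XT.lf (nat_lit 0) (nat_lit 76819004215) (nat_lit 152) (nat_lit 61594247329) (nat_lit 0) (nat_lit 21697337649) (nat_lit 7) (nat_lit 5) (nat_lit 9) (nat_lit 4) (nat_lit 7) (nat_lit 4) (nat_lit 322) (nat_lit 270) (nat_lit 188)) (XT.lf (nat_lit 0) (nat_lit 99487772516) (nat_lit 152) (nat_lit 28011323255) (nat_lit 0) (nat_lit 44358675241) (nat_lit 7) (nat_lit 5) (nat_lit 9) (nat_lit 4) (nat_lit 7) (nat_lit 4) (nat_lit 323) (nat_lit 270) (nat_lit 187))))) (XT.nd (nat_lit 156) (nat_lit 0) (nat_lit 0) (XT.nd (nat_lit 78) (nat_lit 0) (nat_lit 0) (XT.lf (nat_lit 0) (nat_lit 8521015096) (nat_lit 76) (nat_lit 115576656087) (nat_lit 76) (nat_lit 60440678526) (nat_lit 6) (nat_lit 4) (nat_lit 7) (nat_lit 5) (nat_lit 7) (nat_lit 4) (nat_lit 324) (nat_lit 270) (nat_lit 186)) (XT.lf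 (nat_lit 0) (nat_lit 48966702701) (nat_lit 76) (nat_lit 102192442264) (nat_lit 76) (nat_lit 47050094068) (nat_lit 6) (nat_lit 4) (nat_lit 7) (nat_lit 5) (nat_lit 7) (nat_lit 4) (nat_lit 325) (nat_lit 270) (nat_lit 185))) (XT.nd (nat_lit 78) (nat_lit 0) (nat_lit 0) (XT.lf (nat_lit 0) (nat_lit 92639236859) (nat_lit 76) (nat_lit 87741525757) (nat_lit 76) (nat_lit 32593278824) (nat_lit 6) (nat_lit 4) (nat_lit 7) (nat_lit 5) (nat_lit 7) (nat_lit 4) (nat_lit 326) (nat_lit 270) (nat_lit 184)) (XT.nd (nat_lit 78) (nat_lit 0) (nat_lit 0) (XT.lf (nat_lit 0) (nat_lit 139797417772) (nat_lit 76) (nat_lit 72138271506) (nat_lit 76) (nat_lit 16984562780) (nat_lit 6) (nat_lit 4) (nat_lit 7) (nat_lit 5) (nat_lit 7) (nat_lit 4) (nat_lit 327) (nat_lit 270) (nat_lit 183)) (XT.lf (nat_lit 0) (nat_lit 190720701327) (nat_lit 76) (nat_lit 55290215781) (nat_lit 76) (nat_lit 131449839) (nat_lit 6) (nat_lit 4) (nat_lit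 7) (nat_lit 5) (nat_lit 7) (nat_lit 4) (nat_lit 328) (nat_lit 270) (nat_lit 182))))))) (XT.nd (nat_lit 780) (nat_lit 76) (nat_lit 0) (XT.nd (nat_lit 390) (nat_lit 0) (nat_lit 0) (XT.nd (nat_lit 156) (nat_lit 0) (nat_lit 0) (XT.nd (nat_lit 78) (nat_lit 76) (nat_lit 0) (XT.lf (nat_lit 0) (nat_lit 17487707703) (nat_lit 152) (nat_lit 19313647756) (nat_lit 76) (nat_lit 227926984635) (nat_lit 5) (nat_lit 5) (nat_lit 7) (nat_lit 5) (nat_lit 6) (nat_lit 4) (nat_lit 329) (nat_lit 270) (nat_lit 181)) (XT.lf (nat_lit 0) (nat_lit 20324718218) (nat_lit 76) (nat_lit 16500892764) (nat_lit 152) (nat_lit 247959783707) (nat_lit 4) (nat_lit 5) (nat_lit 5) (nat_lit 5) (nat_lit 6) (nat_lit 4) (nat_lit 330) (nat_lit 270) (nat_lit 180))) (XT.nd (nat_lit 78) (nat_lit 0) (nat_lit 0) (XT.lf (nat_lit 0) (nat_lit 58133722410) (nat_lit 152) (nat_lit 242702982493) (nat_lit 0) (nat_lit 5589152050) (nat_lit 4) (nat_lit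 5) (nat_lit 6) (nat_lit 4) (nat_lit 4) (nat_lit 4) (nat_lit 331) (nat_lit 270) (nat_lit 179)) (XT.nd (nat_lit 78) (nat_lit 0) (nat_lit 0) (XT.lf (nat_lit 0) (nat_lit 81421525012) (nat_lit 152) (nat_lit 219488866560) (nat_lit 0) (nat_lit 28873414457) (nat_lit 4) (nat_lit 5) (nat_lit 6) (nat_lit 4) (nat_lit 4) (nat_lit 4) (nat_lit 332) (nat_lit 270) (nat_lit 178)) (XT.lf (nat_lit 0) (nat_lit 106569395401) (nat_lit 152) (nat_lit 194423138359) (nat_lit 0) (nat_lit 54018006888) (nat_lit 4) (nat_lit 5) (nat_lit 6) (nat_lit 4) (nat_lit 4) (nat_lit 4) (nat_lit 333) (nat_lit 270) (nat_lit 177))))) (XT.nd (nat_lit 156) (nat_lit 0) (nat_lit 0) (XT.nd (nat_lit 78) (nat_lit 0) (nat_lit 0) (XT.lf (nat_lit 0) (nat_lit 133726357996) (nat_lit 152) (nat_lit 167357260243) (nat_lit 0) (nat_lit 81171934336) (nat_lit 4) (nat_lit 5) (nat_lit 6) (nat_lit 4) (nat_lit 4) (nat_lit 4) (nat_lit 334) (nat_lit 270)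 (nat_lit 176)) (XT.lf (nat_lit 0) (nat_lit 163053342944) (nat_lit 152) (nat_lit 138130841822) (nat_lit 0) (nat_lit 110496108964) (nat_lit 4) (nat_lit 5) (nat_lit 6) (nat_lit 4) (nat_lit 4) (nat_lit 4) (nat_lit 335) (nat_lit 270) (nat_lit 175))) (XT.nd (nat_lit 78) (nat_lit 0) (nat_lit 0) (XT.lf (nat_lit 0) (nat_lit 194724139786) (nat_lit 152) (nat_lit 106570689506) (nat_lit 0) (nat_lit 142164303657) (nat_lit 4) (nat_lit 5) (nat_lit 6) (nat_lit 4) (nat_lit 4) (nat_lit 4) (nat_lit 336) (nat_lit 270) (nat_lit 174)) (XT.nd (nat_lit 78) (nat_lit 0) (nat_lit 0) (XT.lf (nat_lit 0) (nat_lit 228926427319) (nat_lit 152) (nat_lit 72489780170) (nat_lit 0) (nat_lit 176364181792) (nat_lit 4) (nat_lit 5) (nat_lit 6) (nat_lit 4) (nat_lit 4) (nat_lit 4) (nat_lit 337) (nat_lit 270) (nat_lit 173)) (XT.lf (nat_lit 0) (nat_lit 265862885764) (nat_lit 152) (nat_lit 35686152869) (nat_lit 0) (nat_lit 213298409314)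 (nat_lit 4) (nat_lit 5) (nat_lit 6) (nat_lit 4) (nat_lit 4) (nat_lit 4) (nat_lit 338) (nat_lit 270) (nat_lit 172)))))) (XT.nd (nat_lit 390) (nat_lit 0) (nat_lit 0) (XT.nd (nat_lit 156) (nat_lit 0) (nat_lit 0) (XT.nd (nat_lit 78) (nat_lit 0) (nat_lit 0) (XT.lf (nat_lit 0) (nat_lit 4192473291) (nat_lit 76) (nat_lit 301625380804) (nat_lit 76) (nat_lit 249058838685) (nat_lit 3) (nat_lit 4) (nat_lit 4) (nat_lit 5) (nat_lit 4) (nat_lit 4) (nat_lit 339) (nat_lit 270) (nat_lit 171)) (XT.lf (nat_lit 0) (nat_lit 48532404993) (nat_lit 76) (nat_lit 301056667696) (nat_lit 76) (nat_lit 248488212920) (nat_lit 3) (nat_lit 4) (nat_lit 4) (nat_lit 5) (nat_lit 4) (nat_lit 4) (nat_lit 340) (nat_lit 270) (nat_lit 170))) (XT.nd (nat_lit 78) (nat_lit 0) (nat_lit 0) (XT.lf (nat_lit 0) (nat_lit 96416452009) (nat_lit 76) (nat_lit 300443891424) (nat_lit 76) (nat_lit 247873665669) (nat_lit 3) (nat_lit 4) (nat_lit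 4) (nat_lit 5) (nat_lit 4) (nat_lit 4) (nat_lit 341) (nat_lit 270) (nat_lit 169)) (XT.nd (nat_lit 78) (nat_lit 0) (nat_lit 0) (XT.lf (nat_lit 0) (nat_lit 148128371655) (nat_lit 76) (nat_lit 299783420721) (nat_lit 76) (nat_lit 247211555171) (nat_lit 3) (nat_lit 4) (nat_lit 4) (nat_lit 5) (nat_lit 4) (nat_lit 4) (nat_lit 342) (nat_lit 270) (nat_lit 168)) (XT.lf (nat_lit 0) (nat_lit 203974604936) (nat_lit 76) (nat_lit 299071341687) (nat_lit 76) (nat_lit 246497957808) (nat_lit 3) (nat_lit 4) (nat_lit 4) (nat_lit 5) (nat_lit 4) (nat_lit 4) (nat_lit 343) (nat_lit 270) (nat_lit 167))))) (XT.nd (nat_lit 34944) (nat_lit 0) (nat_lit 6612) (XT.nd (nat_lit 78) (nat_lit 0) (nat_lit 0) (XT.lf (nat_lit 0) (nat_lit 264286092495) (nat_lit 76) (nat_lit 298303434594) (nat_lit 76) (nat_lit 245728644855) (nat_lit 3) (nat_lit 4) (nat_lit 4) (nat_lit 5) (nat_lit 4) (nat_lit 4) (nat_lit 344) (nat_lit 270) (nat_lit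 166)) (XT.lf (nat_lit 0) (nat_lit 329420235738) (nat_lit 76) (nat_lit 297475148882) (nat_lit 76) (nat_lit 244899057420) (nat_lit 3) (nat_lit 4) (nat_lit 4) (nat_lit 5) (nat_lit 4) (nat_lit 4) (nat_lit 345) (nat_lit 270) (nat_lit 165))) (XT.nd (nat_lit 78) (nat_lit 0) (nat_lit 0) (XT.lf (nat_lit 0) (nat_lit 3528966315) (nat_lit 684) (nat_lit 742412470) (nat_lit 684) (nat_lit 742412470) (nat_lit 90) (nat_lit 3) (nat_lit 99) (nat_lit 3) (nat_lit 99) (nat_lit 5) (nat_lit 271) (nat_lit 271) (nat_lit 238)) (XT.nd (nat_lit 78) (nat_lit 0) (nat_lit 76) (XT.lf (nat_lit 76) (nat_lit 5817955780) (nat_lit 0) (nat_lit 2619525705) (nat_lit 684) (nat_lit 1933460634) (nat_lit 91) (nat_lit 5) (nat_lit 90) (nat_lit 3) (nat_lit 99) (nat_lit 5) (nat_lit 272) (nat_lit 271) (nat_lit 237)) (XT.lf (nat_lit 76) (nat_lit 2993044062) (nat_lit 0) (nat_lit 6965534481) (nat_lit 684) (nat_lit 781921085) (nat_lit 92)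 (nat_lit 5) (nat_lit 91) (nat_lit 5) (nat_lit 100) (nat_lit 5) (nat_lit 273) (nat_lit 271) (nat_lit 236))))))))
noncomputable def xc70 : XT := (XT.nd (nat_lit 1560) (nat_lit 1824) (nat_lit 0) (XT.nd (nat_lit 780) (nat_lit 1976) (nat_lit 0) (XT.nd (nat_lit 390) (nat_lit 1596) (nat_lit 0) (XT.nd (nat_lit 156) (nat_lit 0) (nat_lit 152) (XT.nd (nat_lit 78) (nat_lit 0) (nat_lit 76) (XT.lf (nat_lit 76) (nat_lit 57198092) (nat_lit 0) (nat_lit 419380794) (nat_lit 760) (nat_lit 10661455883) (nat_lit 83) (nat_lit 5) (nat_lit 82) (nat_lit 5) (nat_lit 92) (nat_lit 5) (nat_lit 274) (nat_lit 271) (nat_lit 235)) (XT.lf (nat_lit 0) (nat_lit 1960350746) (nat_lit 684) (nat_lit 2981143108) (nat_lit 760) (nat_lit 6617874059) (nat_lit 83) (nat_lit 5) (nat_lit 92) (nat_lit 5) (nat_lit 93) (nat_lit 5) (nat_lit 275) (nat_lit 271) (nat_lit 234))) (XT.nd (nat_lit 78) (nat_lit 0) (nat_lit 0) (XT.lf (nat_lit 0)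 (nat_lit 3615129296) (nat_lit 684) (nat_lit 6161365131) (nat_lit 760) (nat_lit 2235516036) (nat_lit 84) (nat_lit 5) (nat_lit 93) (nat_lit 5) (nat_lit 94) (nat_lit 5) (nat_lit 276) (nat_lit 271) (nat_lit 233)) (XT.nd (nat_lit 78) (nat_lit 0) (nat_lit 76) (XT.lf (nat_lit 76) (nat_lit 2946045746) (nat_lit 0) (nat_lit 2561150388) (nat_lit 760) (nat_lit 6988624838) (nat_lit 85) (nat_lit 5) (nat_lit 84) (nat_lit 5) (nat_lit 94) (nat_lit 5) (nat_lit 277) (nat_lit 271) (nat_lit 232)) (XT.lf (nat_lit 0) (nat_lit 7669217593) (nat_lit 684) (nat_lit 156934296) (nat_lit 76) (nat_lit 5186441870) (nat_lit 85) (nat_lit 5) (nat_lit 94) (nat_lit 5) (nat_lit 86) (nat_lit 5) (nat_lit 278) (nat_lit 271) (nat_lit 231))))) (XT.nd (nat_lit 156) (nat_lit 760) (nat_lit 0) (XT.nd (nat_lit 78) (nat_lit 380) (nat_lit 0) (XT.lf (nat_lit 0) (nat_lit 10141153605) (nat_lit 760) (nat_lit 3352161911) (nat_lit 76) (nat_lit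 70718267) (nat_lit 76) (nat_lit 5) (nat_lit 86) (nat_lit 5) (nat_lit 77) (nat_lit 5) (nat_lit 279) (nat_lit 271) (nat_lit 230)) (XT.lf (nat_lit 0) (nat_lit 7299089471) (nat_lit 380) (nat_lit 5697826530) (nat_lit 456) (nat_lit 1153529670) (nat_lit 71) (nat_lit 5) (nat_lit 76) (nat_lit 5) (nat_lit 77) (nat_lit 5) (nat_lit 280) (nat_lit 271) (nat_lit 229))) (XT.nd (nat_lit 78) (nat_lit 304) (nat_lit 0) (XT.lf (nat_lit 0) (nat_lit 1365617952) (nat_lit 456) (nat_lit 10628586543) (nat_lit 76) (nat_lit 2783205892) (nat_lit 65) (nat_lit 5) (nat_lit 71) (nat_lit 5) (nat_lit 66) (nat_lit 5) (nat_lit 281) (nat_lit 271) (nat_lit 228)) (XT.nd (nat_lit 78) (nat_lit 0) (nat_lit 0) (XT.lf (nat_lit 0) (nat_lit 670241533) (nat_lit 304) (nat_lit 3547625597) (nat_lit 380) (nat_lit 11227251281) (nat_lit 61) (nat_lit 5) (nat_lit 65) (nat_lit 5) (nat_lit 66) (nat_lit 5) (nat_lit 282) (nat_lit 271) (nat_lit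 227)) (XT.lf (nat_lit 0) (nat_lit 7520360853) (nat_lit 380) (nat_lit 3053548047) (nat_lit 76) (nat_lit 5581352089) (nat_lit 61) (nat_lit 5) (nat_lit 66) (nat_lit 5) (nat_lit 62) (nat_lit 5) (nat_lit 283) (nat_lit 271) (nat_lit 226)))))) (XT.nd (nat_lit 390) (nat_lit 836) (nat_lit 0) (XT.nd (nat_lit 156) (nat_lit 608) (nat_lit 0) (XT.nd (nat_lit 78) (nat_lit 228) (nat_lit 0) (XT.lf (nat_lit 0) (nat_lit 9804845146) (nat_lit 304) (nat_lit 1445896509) (nat_lit 380) (nat_lit 5663401110) (nat_lit 57) (nat_lit 5) (nat_lit 61) (nat_lit 5) (nat_lit 62) (nat_lit 5) (nat_lit 284) (nat_lit 271) (nat_lit 225)) (XT.lf (nat_lit 0) (nat_lit 6077588337) (nat_lit 228) (nat_lit 9435780681) (nat_lit 304) (nat_lit 2208779124) (nat_lit 54) (nat_lit 5) (nat_lit 57) (nat_lit 5) (nat_lit 58) (nat_lit 5) (nat_lit 285) (nat_lit 271) (nat_lit 224))) (XT.nd (nat_lit 78) (nat_lit 228) (nat_lit 0) (XT.lf (nat_lit 0)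 (nat_lit 1614623371) (nat_lit 380) (nat_lit 16649196276) (nat_lit 76) (nat_lit 322821038) (nat_lit 49) (nat_lit 5) (nat_lit 54) (nat_lit 5) (nat_lit 50) (nat_lit 5) (nat_lit 286) (nat_lit 271) (nat_lit 223)) (XT.nd (nat_lit 78) (nat_lit 228) (nat_lit 0) (XT.lf (nat_lit 0) (nat_lit 5990517873) (nat_lit 380) (nat_lit 2741492729) (nat_lit 76) (nat_lit 10770356125) (nat_lit 49) (nat_lit 5) (nat_lit 54) (nat_lit 5) (nat_lit 50) (nat_lit 5) (nat_lit 287) (nat_lit 271) (nat_lit 222)) (XT.lf (nat_lit 0) (nat_lit 10902027724) (nat_lit 304) (nat_lit 7877344692) (nat_lit 76) (nat_lit 1702779770) (nat_lit 46) (nat_lit 5) (nat_lit 50) (nat_lit 5) (nat_lit 47) (nat_lit 5) (nat_lit 288) (nat_lit 271) (nat_lit 221))))) (XT.nd (nat_lit 156) (nat_lit 380) (nat_lit 0) (XT.nd (nat_lit 78) (nat_lit 228) (nat_lit 0) (XT.lf (nat_lit 0) (nat_lit 7790970181) (nat_lit 228) (nat_lit 8695735008) (nat_lit 304) (nat_lit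 5039675659) (nat_lit 43) (nat_lit 5) (nat_lit 46) (nat_lit 5) (nat_lit 47) (nat_lit 5) (nat_lit 289) (nat_lit 271) (nat_lit 220)) (XT.lf (nat_lit 0) (nat_lit 46038532) (nat_lit 228) (nat_lit 20309837269) (nat_lit 76) (nat_lit 2289558429) (nat_lit 40) (nat_lit 5) (nat_lit 43) (nat_lit 5) (nat_lit 41) (nat_lit 5) (nat_lit 290) (nat_lit 271) (nat_lit 219))) (XT.nd (nat_lit 78) (nat_lit 380) (nat_lit 0) (XT.lf (nat_lit 0) (nat_lit 5720163547) (nat_lit 228) (nat_lit 3942523508) (nat_lit 76) (nat_lit 14169347343) (nat_lit 40) (nat_lit 5) (nat_lit 43) (nat_lit 5) (nat_lit 41) (nat_lit 5) (nat_lit 291) (nat_lit 271) (nat_lit 218)) (XT.nd (nat_lit 78) (nat_lit 152) (nat_lit 0) (XT.lf (nat_lit 0) (nat_lit 12070362991) (nat_lit 304) (nat_lit 10994378404) (nat_lit 76) (nat_lit 2037768932) (nat_lit 37) (nat_lit 5) (nat_lit 41) (nat_lit 5) (nat_lit 38) (nat_lit 5) (nat_lit 292) (nat_lit 271) (nat_lit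 217)) (XT.lf (nat_lit 0) (nat_lit 7298356879) (nat_lit 152) (nat_lit 11946854649) (nat_lit 228) (nat_lit 7213632042) (nat_lit 35) (nat_lit 5) (nat_lit 37) (nat_lit 5) (nat_lit 38) (nat_lit 5) (nat_lit 293) (nat_lit 271) (nat_lit 216))))))) (XT.nd (nat_lit 780) (nat_lit 684) (nat_lit 0) (XT.nd (nat_lit 390) (nat_lit 532) (nat_lit 0) (XT.nd (nat_lit 156) (nat_lit 304) (nat_lit 0) (XT.nd (nat_lit 78) (nat_lit 304) (nat_lit 0) (XT.lf (nat_lit 0) (nat_lit 27160966778) (nat_lit 228) (nat_lit 514058344) (nat_lit 76) (nat_lit 240359535) (nat_lit 35) (nat_lit 5) (nat_lit 38) (nat_lit 5) (nat_lit 36) (nat_lit 5) (nat_lit 294) (nat_lit 271) (nat_lit 215)) (XT.lf (nat_lit 0) (nat_lit 6517872246) (nat_lit 304) (nat_lit 9545520878) (nat_lit 76) (nat_lit 13395467350) (nat_lit 31) (nat_lit 5) (nat_lit 35) (nat_lit 5) (nat_lit 32) (nat_lit 5) (nat_lit 295) (nat_lit 271) (nat_lit 214))) (XT.nd (nat_lit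 78) (nat_lit 152) (nat_lit 0) (XT.lf (nat_lit 0) (nat_lit 11173724745) (nat_lit 152) (nat_lit 3330063013) (nat_lit 228) (nat_lit 16613533035) (nat_lit 29) (nat_lit 5) (nat_lit 31) (nat_lit 5) (nat_lit 32) (nat_lit 5) (nat_lit 296) (nat_lit 271) (nat_lit 213)) (XT.nd (nat_lit 78) (nat_lit 0) (nat_lit 0) (XT.lf (nat_lit 0) (nat_lit 813517008) (nat_lit 152) (nat_lit 22634959422) (nat_lit 228) (nat_lit 9444022141) (nat_lit 27) (nat_lit 5) (nat_lit 29) (nat_lit 5) (nat_lit 30) (nat_lit 5) (nat_lit 297) (nat_lit 271) (nat_lit 212)) (XT.lf (nat_lit 0) (nat_lit 23848723392) (nat_lit 152) (nat_lit 9639391147) (nat_lit 228) (nat_lit 1302640306) (nat_lit 27) (nat_lit 5) (nat_lit 29) (nat_lit 5) (nat_lit 30) (nat_lit 5) (nat_lit 298) (nat_lit 271) (nat_lit 211))))) (XT.nd (nat_lit 156) (nat_lit 304) (nat_lit 0) (XT.nd (nat_lit 78) (nat_lit 0) (nat_lit 0) (XT.lf (nat_lit 0) (nat_lit 7491103116) (nat_lit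 228) (nat_lit 24777905111) (nat_lit 76) (nat_lit 4554006475) (nat_lit 24) (nat_lit 5) (nat_lit 27) (nat_lit 5) (nat_lit 25) (nat_lit 5) (nat_lit 299) (nat_lit 271) (nat_lit 210)) (XT.lf (nat_lit 0) (nat_lit 17278563093) (nat_lit 228) (nat_lit 1968049388) (nat_lit 76) (nat_lit 19753409304) (nat_lit 24) (nat_lit 5) (nat_lit 27) (nat_lit 5) (nat_lit 25) (nat_lit 5) (nat_lit 300) (nat_lit 271) (nat_lit 209))) (XT.nd (nat_lit 78) (nat_lit 152) (nat_lit 0) (XT.lf (nat_lit 0) (nat_lit 23383479531) (nat_lit 152) (nat_lit 4811158652) (nat_lit 228) (nat_lit 13139295276) (nat_lit 22) (nat_lit 5) (nat_lit 24) (nat_lit 5) (nat_lit 25) (nat_lit 5) (nat_lit 301) (nat_lit 271) (nat_lit 208)) (XT.nd (nat_lit 78) (nat_lit 76) (nat_lit 0) (XT.lf (nat_lit 0) (nat_lit 7004986275) (nat_lit 76) (nat_lit 33272842358) (nat_lit 152) (nat_lit 3562061059) (nat_lit 21) (nat_lit 5) (nat_lit 22) (nat_lit 5) (nat_lit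 23) (nat_lit 4) (nat_lit 302) (nat_lit 271) (nat_lit 207)) (XT.lf (nat_lit 0) (nat_lit 6945177494) (nat_lit 152) (nat_lit 12155149749) (nat_lit 76) (nat_lit 27421678192) (nat_lit 20) (nat_lit 5) (nat_lit 22) (nat_lit 5) (nat_lit 21) (nat_lit 5) (nat_lit 303) (nat_lit 271) (nat_lit 206)))))) (XT.nd (nat_lit 390) (nat_lit 228) (nat_lit 0) (XT.nd (nat_lit 156) (nat_lit 304) (nat_lit 0) (XT.nd (nat_lit 78) (nat_lit 0) (nat_lit 0) (XT.lf (nat_lit 0) (nat_lit 14887448437) (nat_lit 152) (nat_lit 3498125756) (nat_lit 228) (nat_lit 31019346561) (nat_lit 18) (nat_lit 5) (nat_lit 20) (nat_lit 5) (nat_lit 21) (nat_lit 5) (nat_lit 304) (nat_lit 271) (nat_lit 205)) (XT.lf (nat_lit 0) (nat_lit 31148799857) (nat_lit 228) (nat_lit 8219701125) (nat_lit 76) (nat_lit 13129605915) (nat_lit 18) (nat_lit 5) (nat_lit 21) (nat_lit 5) (nat_lit 19) (nat_lit 4) (nat_lit 305) (nat_lit 271) (nat_lit 204))) (XT.nd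 (nat_lit 78) (nat_lit 228) (nat_lit 0) (XT.lf (nat_lit 0) (nat_lit 20762059206) (nat_lit 76) (nat_lit 24539279040) (nat_lit 152) (nat_lit 10519013118) (nat_lit 17) (nat_lit 5) (nat_lit 18) (nat_lit 5) (nat_lit 19) (nat_lit 4) (nat_lit 306) (nat_lit 271) (nat_lit 203)) (XT.nd (nat_lit 78) (nat_lit 152) (nat_lit 0) (XT.lf (nat_lit 0) (nat_lit 1271132623) (nat_lit 152) (nat_lit 7090819242) (nat_lit 76) (nat_lit 51038962307) (nat_lit 16) (nat_lit 5) (nat_lit 18) (nat_lit 5) (nat_lit 17) (nat_lit 5) (nat_lit 307) (nat_lit 271) (nat_lit 202)) (XT.lf (nat_lit 0) (nat_lit 14148161634) (nat_lit 228) (nat_lit 39720901422) (nat_lit 76) (nat_lit 9364639675) (nat_lit 14) (nat_lit 5) (nat_lit 17) (nat_lit 5) (nat_lit 15) (nat_lit 4) (nat_lit 308) (nat_lit 271) (nat_lit 201))))) (XT.nd (nat_lit 156) (nat_lit 152) (nat_lit 0) (XT.nd (nat_lit 78) (nat_lit 76) (nat_lit 0) (XT.lf (nat_lit 0) (nat_lit 28309055151)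 (nat_lit 228) (nat_lit 10714463847) (nat_lit 76) (nat_lit 28336922492) (nat_lit 14) (nat_lit 5) (nat_lit 17) (nat_lit 5) (nat_lit 15) (nat_lit 4) (nat_lit 309) (nat_lit 271) (nat_lit 200)) (XT.lf (nat_lit 0) (nat_lit 21272580205) (nat_lit 76) (nat_lit 22650477525) (nat_lit 152) (nat_lit 27878261056) (nat_lit 13) (nat_lit 5) (nat_lit 14) (nat_lit 5) (nat_lit 15) (nat_lit 4) (nat_lit 310) (nat_lit 271) (nat_lit 199))) (XT.nd (nat_lit 78) (nat_lit 152) (nat_lit 0) (XT.lf (nat_lit 0) (nat_lit 56181336263) (nat_lit 76) (nat_lit 4780166715) (nat_lit 152) (nat_lit 15627207645) (nat_lit 13) (nat_lit 5) (nat_lit 14) (nat_lit 5) (nat_lit 15) (nat_lit 4) (nat_lit 311) (nat_lit 271) (nat_lit 198)) (XT.nd (nat_lit 78) (nat_lit 76) (nat_lit 0) (XT.lf (nat_lit 0) (nat_lit 12270951359) (nat_lit 76) (nat_lit 67499748862) (nat_lit 76) (nat_lit 1968019469) (nat_lit 12) (nat_lit 4) (nat_lit 13) (nat_lit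 5) (nat_lit 13) (nat_lit 4) (nat_lit 312) (nat_lit 271) (nat_lit 197)) (XT.lf (nat_lit 0) (nat_lit 12806380711) (nat_lit 152) (nat_lit 39295025493) (nat_lit 76) (nat_lit 35167770120) (nat_lit 11) (nat_lit 5) (nat_lit 13) (nat_lit 5) (nat_lit 12) (nat_lit 4) (nat_lit 313) (nat_lit 271) (nat_lit 196))))))))
noncomputable def xc71 : XT := (XT.nd (nat_lit 1560) (nat_lit 76) (nat_lit 0) (XT.nd (nat_lit 780) (nat_lit 228) (nat_lit 0) (XT.nd (nat_lit 390) (nat_lit 152) (nat_lit 0) (XT.nd (nat_lit 156) (nat_lit 76) (nat_lit 0) (XT.nd (nat_lit 78) (nat_lit 76) (nat_lit 0) (XT.lf (nat_lit 0) (nat_lit 28685194209) (nat_lit 152) (nat_lit 6758621302) (nat_lit 76) (nat_lit 57797078213) (nat_lit 11) (nat_lit 5) (nat_lit 13) (nat_lit 5) (nat_lit 12) (nat_lit 4) (nat_lit 314) (nat_lit 271) (nat_lit 195)) (XT.lf (nat_lit 0) (nat_lit 29302853161) (nat_lit 76) (nat_lit 16980153108) (nat_lit 152) (nat_lit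 53384914909) (nat_lit 10) (nat_lit 5) (nat_lit 11) (nat_lit 5) (nat_lit 12) (nat_lit 4) (nat_lit 315) (nat_lit 271) (nat_lit 194))) (XT.nd (nat_lit 78) (nat_lit 76) (nat_lit 0) (XT.lf (nat_lit 0) (nat_lit 65446035107) (nat_lit 152) (nat_lit 38176139657) (nat_lit 0) (nat_lit 2979073265) (nat_lit 10) (nat_lit 5) (nat_lit 12) (nat_lit 4) (nat_lit 10) (nat_lit 4) (nat_lit 316) (nat_lit 271) (nat_lit 193)) (XT.nd (nat_lit 78) (nat_lit 76) (nat_lit 0) (XT.lf (nat_lit 0) (nat_lit 86420559388) (nat_lit 152) (nat_lit 3712631785) (nat_lit 0) (nat_lit 23942133489) (nat_lit 10) (nat_lit 5) (nat_lit 12) (nat_lit 4) (nat_lit 10) (nat_lit 4) (nat_lit 317) (nat_lit 271) (nat_lit 192)) (XT.lf (nat_lit 0) (nat_lit 34602280647) (nat_lit 76) (nat_lit 75003722739) (nat_lit 76) (nat_lit 12514681972) (nat_lit 9) (nat_lit 4) (nat_lit 10) (nat_lit 5) (nat_lit 10) (nat_lit 4) (nat_lit 318) (nat_lit 271) (nat_lit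 191))))) (XT.nd (nat_lit 156) (nat_lit 76) (nat_lit 0) (XT.nd (nat_lit 78) (nat_lit 0) (nat_lit 0) (XT.lf (nat_lit 0) (nat_lit 3772487368) (nat_lit 152) (nat_lit 54765270242) (nat_lit 76) (nat_lit 72265993685) (nat_lit 8) (nat_lit 5) (nat_lit 10) (nat_lit 5) (nat_lit 9) (nat_lit 4) (nat_lit 319) (nat_lit 271) (nat_lit 190)) (XT.lf (nat_lit 0) (nat_lit 20923504133) (nat_lit 152) (nat_lit 19614786411) (nat_lit 76) (nat_lit 99632952413) (nat_lit 8) (nat_lit 5) (nat_lit 10) (nat_lit 5) (nat_lit 9) (nat_lit 4) (nat_lit 320) (nat_lit 271) (nat_lit 189))) (XT.nd (nat_lit 78) (nat_lit 0) (nat_lit 0) (XT.lf (nat_lit 0) (nat_lit 18943030477) (nat_lit 76) (nat_lit 20793275272) (nat_lit 152) (nat_lit 110537347430) (nat_lit 7) (nat_lit 5) (nat_lit 8) (nat_lit 5) (nat_lit 9) (nat_lit 4) (nat_lit 321) (nat_lit 271) (nat_lit 188)) (XT.nd (nat_lit 78) (nat_lit 0) (nat_lit 0) (XT.lf (nat_lit 0) (nat_lit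 60403864740) (nat_lit 152) (nat_lit 99905899919) (nat_lit 0) (nat_lit 857008974) (nat_lit 7) (nat_lit 5) (nat_lit 9) (nat_lit 4) (nat_lit 7) (nat_lit 4) (nat_lit 322) (nat_lit 271) (nat_lit 187)) (XT.lf (nat_lit 0) (nat_lit 83070033030) (nat_lit 152) (nat_lit 66327757261) (nat_lit 0) (nat_lit 23516296978) (nat_lit 7) (nat_lit 5) (nat_lit 9) (nat_lit 4) (nat_lit 7) (nat_lit 4) (nat_lit 323) (nat_lit 271) (nat_lit 186)))))) (XT.nd (nat_lit 390) (nat_lit 152) (nat_lit 0) (XT.nd (nat_lit 156) (nat_lit 0) (nat_lit 0) (XT.nd (nat_lit 78) (nat_lit 76) (nat_lit 0) (XT.lf (nat_lit 0) (nat_lit 107544487353) (nat_lit 152) (nat_lit 30072571844) (nat_lit 0) (nat_lit 47984380665) (nat_lit 7) (nat_lit 5) (nat_lit 9) (nat_lit 4) (nat_lit 7) (nat_lit 4) (nat_lit 324) (nat_lit 271) (nat_lit 185)) (XT.lf (nat_lit 0) (nat_lit 9374545889) (nat_lit 76) (nat_lit 124744078556) (nat_lit 76) (nat_lit 65178073131)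 (nat_lit 6) (nat_lit 4) (nat_lit 7) (nat_lit 5) (nat_lit 7) (nat_lit 4) (nat_lit 325) (nat_lit 271) (nat_lit 184))) (XT.nd (nat_lit 78) (nat_lit 0) (nat_lit 0) (XT.lf (nat_lit 0) (nat_lit 53043158904) (nat_lit 76) (nat_lit 110294957999) (nat_lit 76) (nat_lit 50723490781) (nat_lit 6) (nat_lit 4) (nat_lit 7) (nat_lit 5) (nat_lit 7) (nat_lit 4) (nat_lit 326) (nat_lit 271) (nat_lit 183)) (XT.nd (nat_lit 78) (nat_lit 0) (nat_lit 0) (XT.lf (nat_lit 0) (nat_lit 100197709129) (nat_lit 76) (nat_lit 94693366664) (nat_lit 76) (nat_lit 35116842230) (nat_lit 6) (nat_lit 4) (nat_lit 7) (nat_lit 5) (nat_lit 7) (nat_lit 4) (nat_lit 327) (nat_lit 271) (nat_lit 182)) (XT.lf (nat_lit 0) (nat_lit 151117630936) (nat_lit 76) (nat_lit 77846850676) (nat_lit 76) (nat_lit 18265643636) (nat_lit 6) (nat_lit 4) (nat_lit 7) (nat_lit 5) (nat_lit 7) (nat_lit 4) (nat_lit 328) (nat_lit 271) (nat_lit 181))))) (XT.nd (nat_lit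 156) (nat_lit 76) (nat_lit 0) (XT.nd (nat_lit 78) (nat_lit 76) (nat_lit 0) (XT.lf (nat_lit 0) (nat_lit 206104672009) (nat_lit 76) (nat_lit 59655578830) (nat_lit 76) (nat_lit 70036042) (nat_lit 6) (nat_lit 4) (nat_lit 7) (nat_lit 5) (nat_lit 7) (nat_lit 4) (nat_lit 329) (nat_lit 271) (nat_lit 180)) (XT.lf (nat_lit 0) (nat_lit 18951194302) (nat_lit 152) (nat_lit 20739609048) (nat_lit 76) (nat_lit 246212539533) (nat_lit 5) (nat_lit 5) (nat_lit 7) (nat_lit 5) (nat_lit 6) (nat_lit 4) (nat_lit 330) (nat_lit 271) (nat_lit 179))) (XT.nd (nat_lit 78) (nat_lit 0) (nat_lit 0) (XT.lf (nat_lit 0) (nat_lit 22064648937) (nat_lit 76) (nat_lit 17768484482) (nat_lit 152) (nat_lit 267731981278) (nat_lit 4) (nat_lit 5) (nat_lit 5) (nat_lit 5) (nat_lit 6) (nat_lit 4) (nat_lit 331) (nat_lit 271) (nat_lit 178)) (XT.nd (nat_lit 78) (nat_lit 0) (nat_lit 0) (XT.lf (nat_lit 0) (nat_lit 62842098826) (nat_lit 152)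 (nat_lit 262011586396) (nat_lit 0) (nat_lit 6083321274) (nat_lit 4) (nat_lit 5) (nat_lit 6) (nat_lit 4) (nat_lit 4) (nat_lit 4) (nat_lit 332) (nat_lit 271) (nat_lit 177)) (XT.lf (nat_lit 0) (nat_lit 87988653146) (nat_lit 152) (nat_lit 236948314128) (nat_lit 0) (nat_lit 31226840447) (nat_lit 4) (nat_lit 5) (nat_lit 6) (nat_lit 4) (nat_lit 4) (nat_lit 4) (nat_lit 333) (nat_lit 271) (nat_lit 176))))))) (XT.nd (nat_lit 780) (nat_lit 0) (nat_lit 0) (XT.nd (nat_lit 390) (nat_lit 76) (nat_lit 0) (XT.nd (nat_lit 156) (nat_lit 0) (nat_lit 0) (XT.nd (nat_lit 78) (nat_lit 0) (nat_lit 0) (XT.lf (nat_lit 0) (nat_lit 115144397157) (nat_lit 152) (nat_lit 209884710023) (nat_lit 0) (nat_lit 58379774137) (nat_lit 4) (nat_lit 5) (nat_lit 6) (nat_lit 4) (nat_lit 4) (nat_lit 4) (nat_lit 334) (nat_lit 271) (nat_lit 175)) (XT.lf (nat_lit 0) (nat_lit 144470253787) (nat_lit 152) (nat_lit 180660397169) (nat_lit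 0) (nat_lit 87703028618) (nat_lit 4) (nat_lit 5) (nat_lit 6) (nat_lit 4) (nat_lit 4) (nat_lit 4) (nat_lit 335) (nat_lit 271) (nat_lit 174))) (XT.nd (nat_lit 78) (nat_lit 0) (nat_lit 0) (XT.lf (nat_lit 0) (nat_lit 176140005890) (nat_lit 152) (nat_lit 149102194452) (nat_lit 0) (nat_lit 119370371324) (nat_lit 4) (nat_lit 5) (nat_lit 6) (nat_lit 4) (nat_lit 4) (nat_lit 4) (nat_lit 336) (nat_lit 271) (nat_lit 173)) (XT.nd (nat_lit 78) (nat_lit 0) (nat_lit 0) (XT.lf (nat_lit 0) (nat_lit 210341326071) (nat_lit 152) (nat_lit 115023090300) (nat_lit 0) (nat_lit 153569460582) (nat_lit 4) (nat_lit 5) (nat_lit 6) (nat_lit 4) (nat_lit 4) (nat_lit 4) (nat_lit 337) (nat_lit 271) (nat_lit 172)) (XT.lf (nat_lit 0) (nat_lit 247276888821) (nat_lit 152) (nat_lit 78221134466) (nat_lit 0) (nat_lit 190502957662) (nat_lit 4) (nat_lit 5) (nat_lit 6) (nat_lit 4) (nat_lit 4) (nat_lit 4) (nat_lit 338) (nat_lit 271)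 (nat_lit 171))))) (XT.nd (nat_lit 156) (nat_lit 0) (nat_lit 0) (XT.nd (nat_lit 78) (nat_lit 76) (nat_lit 0) (XT.lf (nat_lit 0) (nat_lit 287165571548) (nat_lit 152) (nat_lit 38478241287) (nat_lit 0) (nat_lit 230389727732) (nat_lit 4) (nat_lit 5) (nat_lit 6) (nat_lit 4) (nat_lit 4) (nat_lit 4) (nat_lit 339) (nat_lit 271) (nat_lit 170)) (XT.lf (nat_lit 0) (nat_lit 4587945589) (nat_lit 76) (nat_lit 325727436729) (nat_lit 76) (nat_lit 268949821935) (nat_lit 3) (nat_lit 4) (nat_lit 4) (nat_lit 5) (nat_lit 4) (nat_lit 4) (nat_lit 340) (nat_lit 271) (nat_lit 169))) (XT.nd (nat_lit 78) (nat_lit 0) (nat_lit 0) (XT.lf (nat_lit 0) (nat_lit 52470621869) (nat_lit 76) (nat_lit 325115298761) (nat_lit 76) (nat_lit 268336044171) (nat_lit 3) (nat_lit 4) (nat_lit 4) (nat_lit 5) (nat_lit 4) (nat_lit 4) (nat_lit 341) (nat_lit 271) (nat_lit 168)) (XT.nd (nat_lit 78) (nat_lit 0) (nat_lit 0) (XT.lf (nat_lit 0)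 (nat_lit 104181272315) (nat_lit 76) (nat_lit 324455419079) (nat_lit 76) (nat_lit 267674646161) (nat_lit 3) (nat_lit 4) (nat_lit 4) (nat_lit 5) (nat_lit 4) (nat_lit 4) (nat_lit 342) (nat_lit 271) (nat_lit 167)) (XT.lf (nat_lit 0) (nat_lit 160026330411) (nat_lit 76) (nat_lit 323743887288) (nat_lit 76) (nat_lit 266961708509) (nat_lit 3) (nat_lit 4) (nat_lit 4) (nat_lit 5) (nat_lit 4) (nat_lit 4) (nat_lit 343) (nat_lit 271) (nat_lit 166)))))) (XT.nd (nat_lit 35256) (nat_lit 0) (nat_lit 5548) (XT.nd (nat_lit 35022) (nat_lit 0) (nat_lit 6004) (XT.nd (nat_lit 78) (nat_lit 0) (nat_lit 0) (XT.lf (nat_lit 0) (nat_lit 220336729834) (nat_lit 76) (nat_lit 322976486901) (nat_lit 76) (nat_lit 266193006400) (nat_lit 3) (nat_lit 4) (nat_lit 4) (nat_lit 5) (nat_lit 4) (nat_lit 4) (nat_lit 344) (nat_lit 271) (nat_lit 165)) (XT.lf (nat_lit 0) (nat_lit 285469865545) (nat_lit 76) (nat_lit 322148670360) (nat_lit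 76) (nat_lit 265363984561) (nat_lit 3) (nat_lit 4) (nat_lit 4) (nat_lit 5) (nat_lit 4) (nat_lit 4) (nat_lit 345) (nat_lit 271) (nat_lit 164))) (XT.nd (nat_lit 78) (nat_lit 608) (nat_lit 0) (XT.lf (nat_lit 0) (nat_lit 4793476704) (nat_lit 684) (nat_lit 284747698) (nat_lit 684) (nat_lit 284747698) (nat_lit 90) (nat_lit 3) (nat_lit 99) (nat_lit 3) (nat_lit 99) (nat_lit 5) (nat_lit 272) (nat_lit 272) (nat_lit 236)) (XT.nd (nat_lit 78) (nat_lit 608) (nat_lit 0) (XT.lf (nat_lit 76) (nat_lit 7272566380) (nat_lit 0) (nat_lit 3674233483) (nat_lit 684) (nat_lit 156892739) (nat_lit 91) (nat_lit 5) (nat_lit 90) (nat_lit 3) (nat_lit 99) (nat_lit 5) (nat_lit 273) (nat_lit 272) (nat_lit 235)) (XT.lf (nat_lit 0) (nat_lit 917778381) (nat_lit 684) (nat_lit 7240579515) (nat_lit 760) (nat_lit 3350686319) (nat_lit 82) (nat_lit 5) (nat_lit 91) (nat_lit 5) (nat_lit 92) (nat_lit 5) (nat_lit 274) (nat_lit 272)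 (nat_lit 234))))) (XT.nd (nat_lit 234) (nat_lit 456) (nat_lit 0) (XT.nd (nat_lit 78) (nat_lit 0) (nat_lit 76) (XT.lf (nat_lit 76) (nat_lit 1126870992) (nat_lit 0) (nat_lit 1011152880) (nat_lit 760) (nat_lit 9805634615) (nat_lit 83) (nat_lit 5) (nat_lit 82) (nat_lit 5) (nat_lit 92) (nat_lit 5) (nat_lit 275) (nat_lit 272) (nat_lit 233)) (XT.nd (nat_lit 78) (nat_lit 0) (nat_lit 76) (XT.lf (nat_lit 0) (nat_lit 3612181835) (nat_lit 684) (nat_lit 2146272038) (nat_lit 760) (nat_lit 6646975239) (nat_lit 83) (nat_lit 5) (nat_lit 92) (nat_lit 5) (nat_lit 93) (nat_lit 5) (nat_lit 276) (nat_lit 272) (nat_lit 232)) (XT.lf (nat_lit 0) (nat_lit 5298799034) (nat_lit 684) (nat_lit 5548065303) (nat_lit 760) (nat_lit 2052737621) (nat_lit 84) (nat_lit 5) (nat_lit 93) (nat_lit 5) (nat_lit 94) (nat_lit 5) (nat_lit 277) (nat_lit 272) (nat_lit 231)))) (XT.nd (nat_lit 78) (nat_lit 608) (nat_lit 0) (XT.lf (nat_lit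 76) (nat_lit 4239863948) (nat_lit 0) (nat_lit 3015594428) (nat_lit 760) (nat_lit 6171267675) (nat_lit 85) (nat_lit 5) (nat_lit 84) (nat_lit 5) (nat_lit 94) (nat_lit 5) (nat_lit 278) (nat_lit 272) (nat_lit 230)) (XT.nd (nat_lit 78) (nat_lit 0) (nat_lit 0) (XT.lf (nat_lit 0) (nat_lit 906555419) (nat_lit 684) (nat_lit 8597566733) (nat_lit 760) (nat_lit 4485284572) (nat_lit 76) (nat_lit 5) (nat_lit 85) (nat_lit 5) (nat_lit 86) (nat_lit 5) (nat_lit 279) (nat_lit 272) (nat_lit 229)) (XT.lf (nat_lit 0) (nat_lit 12031641502) (nat_lit 684) (nat_lit 52999235) (nat_lit 760) (nat_lit 2505011398) (nat_lit 76) (nat_lit 5) (nat_lit 85) (nat_lit 5) (nat_lit 86) (nat_lit 5) (nat_lit 280) (nat_lit 272) (nat_lit 228))))))))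
noncomputable def xc72 : XT := (XT.nd (nat_lit 1560) (nat_lit 1216) (nat_lit 0) (XT.nd (nat_lit 780) (nat_lit 1444) (nat_lit 0) (XT.nd (nat_lit 390) (nat_lit 1064) (nat_lit 0) (XT.nd (nat_lit 156) (nat_lit 608) (nat_lit 0) (XT.nd (nat_lit 78) (nat_lit 456) (nat_lit 0) (XT.lf (nat_lit 0) (nat_lit 8899965048) (nat_lit 380) (nat_lit 6200144035) (nat_lit 456) (nat_lit 126520060) (nat_lit 71) (nat_lit 5) (nat_lit 76) (nat_lit 5) (nat_lit 77) (nat_lit 5) (nat_lit 281) (nat_lit 272) (nat_lit 227)) (XT.lf (nat_lit 0) (nat_lit 2493690244) (nat_lit 456) (nat_lit 10415950785) (nat_lit 76) (nat_lit 2996657560) (nat_lit 65) (nat_lit 5) (nat_lit 71) (nat_lit 5) (nat_lit 66) (nat_lit 5) (nat_lit 282) (nat_lit 272) (nat_lit 226))) (XT.nd (nat_lit 78) (nat_lit 304) (nat_lit 0) (XT.lf (nat_lit 0) (nat_lit 1740590213) (nat_lit 304) (nat_lit 3773934778) (nat_lit 380) (nat_lit 11116053055) (nat_lit 61) (nat_lit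 5) (nat_lit 65) (nat_lit 5) (nat_lit 66) (nat_lit 5) (nat_lit 283) (nat_lit 272) (nat_lit 225)) (XT.nd (nat_lit 78) (nat_lit 304) (nat_lit 0) (XT.lf (nat_lit 0) (nat_lit 9010995500) (nat_lit 380) (nat_lit 2310812034) (nat_lit 76) (nat_lit 6079397738) (nat_lit 61) (nat_lit 5) (nat_lit 66) (nat_lit 5) (nat_lit 62) (nat_lit 5) (nat_lit 284) (nat_lit 272) (nat_lit 224)) (XT.lf (nat_lit 0) (nat_lit 11533357935) (nat_lit 304) (nat_lit 1455336992) (nat_lit 380) (nat_lit 5234808352) (nat_lit 57) (nat_lit 5) (nat_lit 61) (nat_lit 5) (nat_lit 62) (nat_lit 5) (nat_lit 285) (nat_lit 272) (nat_lit 223))))) (XT.nd (nat_lit 156) (nat_lit 456) (nat_lit 0) (XT.nd (nat_lit 78) (nat_lit 380) (nat_lit 0) (XT.lf (nat_lit 0) (nat_lit 7507172241) (nat_lit 228) (nat_lit 10039358487) (nat_lit 304) (nat_lit 1552047425) (nat_lit 54) (nat_lit 5) (nat_lit 57) (nat_lit 5) (nat_lit 58) (nat_lit 5) (nat_lit 286) (nat_lit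 272) (nat_lit 222)) (XT.lf (nat_lit 0) (nat_lit 2507926428) (nat_lit 380) (nat_lit 17014669657) (nat_lit 76) (nat_lit 511237244) (nat_lit 49) (nat_lit 5) (nat_lit 54) (nat_lit 5) (nat_lit 50) (nat_lit 5) (nat_lit 287) (nat_lit 272) (nat_lit 221))) (XT.nd (nat_lit 78) (nat_lit 456) (nat_lit 0) (XT.lf (nat_lit 0) (nat_lit 7177290032) (nat_lit 380) (nat_lit 2065939627) (nat_lit 76) (nat_lit 11782531397) (nat_lit 49) (nat_lit 5) (nat_lit 54) (nat_lit 5) (nat_lit 50) (nat_lit 5) (nat_lit 288) (nat_lit 272) (nat_lit 220)) (XT.nd (nat_lit 78) (nat_lit 228) (nat_lit 0) (XT.lf (nat_lit 0) (nat_lit 12445602628) (nat_lit 304) (nat_lit 7619739505) (nat_lit 76) (nat_lit 2020498193) (nat_lit 46) (nat_lit 5) (nat_lit 50) (nat_lit 5) (nat_lit 47) (nat_lit 5) (nat_lit 289) (nat_lit 272) (nat_lit 219)) (XT.lf (nat_lit 0) (nat_lit 9263458167) (nat_lit 228) (nat_lit 9177120404) (nat_lit 304) (nat_lit 4774949784)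 (nat_lit 43) (nat_lit 5) (nat_lit 46) (nat_lit 5) (nat_lit 47) (nat_lit 5) (nat_lit 290) (nat_lit 272) (nat_lit 218)))))) (XT.nd (nat_lit 390) (nat_lit 608) (nat_lit 0) (XT.nd (nat_lit 156) (nat_lit 608) (nat_lit 0) (XT.nd (nat_lit 78) (nat_lit 0) (nat_lit 0) (XT.lf (nat_lit 0) (nat_lit 664842193) (nat_lit 228) (nat_lit 21072578044) (nat_lit 76) (nat_lit 2687820293) (nat_lit 40) (nat_lit 5) (nat_lit 43) (nat_lit 5) (nat_lit 41) (nat_lit 5) (nat_lit 291) (nat_lit 272) (nat_lit 217)) (XT.lf (nat_lit 0) (nat_lit 6747332722) (nat_lit 228) (nat_lit 3459734456) (nat_lit 76) (nat_lit 15502059196) (nat_lit 40) (nat_lit 5) (nat_lit 43) (nat_lit 5) (nat_lit 41) (nat_lit 5) (nat_lit 292) (nat_lit 272) (nat_lit 216))) (XT.nd (nat_lit 78) (nat_lit 380) (nat_lit 0) (XT.lf (nat_lit 0) (nat_lit 13578779826) (nat_lit 304) (nat_lit 11086043003) (nat_lit 76) (nat_lit 2417829517) (nat_lit 37) (nat_lit 5)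 (nat_lit 41) (nat_lit 5) (nat_lit 38) (nat_lit 5) (nat_lit 293) (nat_lit 272) (nat_lit 215)) (XT.nd (nat_lit 78) (nat_lit 228) (nat_lit 0) (XT.lf (nat_lit 0) (nat_lit 8635870552) (nat_lit 152) (nat_lit 12663305703) (nat_lit 228) (nat_lit 7249806098) (nat_lit 35) (nat_lit 5) (nat_lit 37) (nat_lit 5) (nat_lit 38) (nat_lit 5) (nat_lit 294) (nat_lit 272) (nat_lit 214)) (XT.lf (nat_lit 0) (nat_lit 169193078) (nat_lit 228) (nat_lit 29646999941) (nat_lit 304) (nat_lit 307516714) (nat_lit 32) (nat_lit 5) (nat_lit 35) (nat_lit 5) (nat_lit 36) (nat_lit 5) (nat_lit 295) (nat_lit 272) (nat_lit 213))))) (XT.nd (nat_lit 156) (nat_lit 380) (nat_lit 0) (XT.nd (nat_lit 78) (nat_lit 152) (nat_lit 0) (XT.lf (nat_lit 0) (nat_lit 7502376695) (nat_lit 304) (nat_lit 9605440407) (nat_lit 76) (nat_lit 14683903368) (nat_lit 31) (nat_lit 5) (nat_lit 35) (nat_lit 5) (nat_lit 32) (nat_lit 5) (nat_lit 296) (nat_lit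 272) (nat_lit 212)) (XT.lf (nat_lit 0) (nat_lit 12740761959) (nat_lit 152) (nat_lit 3362611251) (nat_lit 228) (nat_lit 17480725506) (nat_lit 29) (nat_lit 5) (nat_lit 31) (nat_lit 5) (nat_lit 32) (nat_lit 5) (nat_lit 297) (nat_lit 272) (nat_lit 211))) (XT.nd (nat_lit 78) (nat_lit 228) (nat_lit 0) (XT.lf (nat_lit 0) (nat_lit 1540616543) (nat_lit 152) (nat_lit 24204197657) (nat_lit 228) (nat_lit 9757465331) (nat_lit 27) (nat_lit 5) (nat_lit 29) (nat_lit 5) (nat_lit 30) (nat_lit 5) (nat_lit 298) (nat_lit 272) (nat_lit 210)) (XT.nd (nat_lit 78) (nat_lit 228) (nat_lit 0) (XT.lf (nat_lit 0) (nat_lit 26369601054) (nat_lit 152) (nat_lit 10186877143) (nat_lit 228) (nat_lit 997519511) (nat_lit 27) (nat_lit 5) (nat_lit 29) (nat_lit 5) (nat_lit 30) (nat_lit 5) (nat_lit 299) (nat_lit 272) (nat_lit 209)) (XT.lf (nat_lit 0) (nat_lit 8470113482) (nat_lit 228) (nat_lit 26144947855) (nat_lit 76) (nat_lit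 5134321840) (nat_lit 24) (nat_lit 5) (nat_lit 27) (nat_lit 5) (nat_lit 25) (nat_lit 5) (nat_lit 300) (nat_lit 272) (nat_lit 208))))))) (XT.nd (nat_lit 780) (nat_lit 456) (nat_lit 0) (XT.nd (nat_lit 390) (nat_lit 304) (nat_lit 0) (XT.nd (nat_lit 156) (nat_lit 304) (nat_lit 0) (XT.nd (nat_lit 78) (nat_lit 152) (nat_lit 0) (XT.lf (nat_lit 0) (nat_lit 19012442692) (nat_lit 228) (nat_lit 1555873279) (nat_lit 76) (nat_lit 21533677277) (nat_lit 24) (nat_lit 5) (nat_lit 27) (nat_lit 5) (nat_lit 25) (nat_lit 5) (nat_lit 301) (nat_lit 272) (nat_lit 207)) (XT.lf (nat_lit 0) (nat_lit 25799022960) (nat_lit 152) (nat_lit 4985243660) (nat_lit 228) (nat_lit 13839261469) (nat_lit 22) (nat_lit 5) (nat_lit 24) (nat_lit 5) (nat_lit 25) (nat_lit 5) (nat_lit 302) (nat_lit 272) (nat_lit 206))) (XT.nd (nat_lit 78) (nat_lit 228) (nat_lit 0) (XT.lf (nat_lit 0) (nat_lit 8099798839) (nat_lit 76) (nat_lit 35720959670)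 (nat_lit 152) (nat_lit 3509900905) (nat_lit 21) (nat_lit 5) (nat_lit 22) (nat_lit 5) (nat_lit 23) (nat_lit 4) (nat_lit 303) (nat_lit 272) (nat_lit 205)) (XT.nd (nat_lit 78) (nat_lit 152) (nat_lit 0) (XT.lf (nat_lit 0) (nat_lit 7802953669) (nat_lit 152) (nat_lit 12622402794) (nat_lit 76) (nat_lit 29802960678) (nat_lit 20) (nat_lit 5) (nat_lit 22) (nat_lit 5) (nat_lit 21) (nat_lit 5) (nat_lit 304) (nat_lit 272) (nat_lit 204)) (XT.lf (nat_lit 0) (nat_lit 16561649655) (nat_lit 152) (nat_lit 3582094270) (nat_lit 228) (nat_lit 33198888902) (nat_lit 18) (nat_lit 5) (nat_lit 20) (nat_lit 5) (nat_lit 21) (nat_lit 5) (nat_lit 305) (nat_lit 272) (nat_lit 203))))) (XT.nd (nat_lit 156) (nat_lit 228) (nat_lit 0) (XT.nd (nat_lit 78) (nat_lit 76) (nat_lit 0) (XT.lf (nat_lit 0) (nat_lit 33909576120) (nat_lit 228) (nat_lit 8419102519) (nat_lit 76) (nat_lit 14355541161) (nat_lit 18) (nat_lit 5) (nat_lit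 21) (nat_lit 5) (nat_lit 19) (nat_lit 4) (nat_lit 306) (nat_lit 272) (nat_lit 202)) (XT.lf (nat_lit 0) (nat_lit 22861286925) (nat_lit 76) (nat_lit 26319956703) (nat_lit 152) (nat_lit 11091675526) (nat_lit 17) (nat_lit 5) (nat_lit 18) (nat_lit 5) (nat_lit 19) (nat_lit 4) (nat_lit 307) (nat_lit 272) (nat_lit 201))) (XT.nd (nat_lit 78) (nat_lit 152) (nat_lit 0) (XT.lf (nat_lit 0) (nat_lit 1613798683) (nat_lit 152) (nat_lit 7244079536) (nat_lit 76) (nat_lit 55282821863) (nat_lit 16) (nat_lit 5) (nat_lit 18) (nat_lit 5) (nat_lit 17) (nat_lit 5) (nat_lit 308) (nat_lit 272) (nat_lit 200)) (XT.nd (nat_lit 78) (nat_lit 0) (nat_lit 0) (XT.lf (nat_lit 0) (nat_lit 15511925585) (nat_lit 228) (nat_lit 42493476980) (nat_lit 76) (nat_lit 10275180046) (nat_lit 14) (nat_lit 5) (nat_lit 17) (nat_lit 5) (nat_lit 15) (nat_lit 4) (nat_lit 309) (nat_lit 272) (nat_lit 199)) (XT.lf (nat_lit 0) (nat_lit 30788511989)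 (nat_lit 228) (nat_lit 11196531552) (nat_lit 76) (nat_lit 30753292214) (nat_lit 14) (nat_lit 5) (nat_lit 17) (nat_lit 5) (nat_lit 15) (nat_lit 4) (nat_lit 310) (nat_lit 272) (nat_lit 198)))))) (XT.nd (nat_lit 390) (nat_lit 228) (nat_lit 0) (XT.nd (nat_lit 156) (nat_lit 152) (nat_lit 0) (XT.nd (nat_lit 78) (nat_lit 0) (nat_lit 0) (XT.lf (nat_lit 0) (nat_lit 23333175097) (nat_lit 76) (nat_lit 24308155266) (nat_lit 152) (nat_lit 29893683236) (nat_lit 13) (nat_lit 5) (nat_lit 14) (nat_lit 5) (nat_lit 15) (nat_lit 4) (nat_lit 311) (nat_lit 272) (nat_lit 197)) (XT.lf (nat_lit 0) (nat_lit 61008054715) (nat_lit 76) (nat_lit 5019653700) (nat_lit 152) (nat_lit 16678459530) (nat_lit 13) (nat_lit 5) (nat_lit 14) (nat_lit 5) (nat_lit 15) (nat_lit 4) (nat_lit 312) (nat_lit 272) (nat_lit 196))) (XT.nd (nat_lit 78) (nat_lit 76) (nat_lit 0) (XT.lf (nat_lit 0) (nat_lit 13577487612) (nat_lit 76) (nat_lit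 72757270862) (nat_lit 76) (nat_lit 1933776394) (nat_lit 12) (nat_lit 4) (nat_lit 13) (nat_lit 5) (nat_lit 13) (nat_lit 4) (nat_lit 313) (nat_lit 272) (nat_lit 195)) (XT.nd (nat_lit 78) (nat_lit 0) (nat_lit 0) (XT.lf (nat_lit 0) (nat_lit 14002696286) (nat_lit 152) (nat_lit 42132007340) (nat_lit 76) (nat_lit 38107273439) (nat_lit 11) (nat_lit 5) (nat_lit 13) (nat_lit 5) (nat_lit 12) (nat_lit 4) (nat_lit 314) (nat_lit 272) (nat_lit 194)) (XT.lf (nat_lit 0) (nat_lit 31139088559) (nat_lit 152) (nat_lit 7015403421) (nat_lit 76) (nat_lit 62537586793) (nat_lit 11) (nat_lit 5) (nat_lit 13) (nat_lit 5) (nat_lit 12) (nat_lit 4) (nat_lit 315) (nat_lit 272) (nat_lit 193))))) (XT.nd (nat_lit 156) (nat_lit 152) (nat_lit 0) (XT.nd (nat_lit 78) (nat_lit 0) (nat_lit 0) (XT.lf (nat_lit 0) (nat_lit 31918650722) (nat_lit 76) (nat_lit 18218531204) (nat_lit 152) (nat_lit 57496473495) (nat_lit 10) (nat_lit 5)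 (nat_lit 11) (nat_lit 5) (nat_lit 12) (nat_lit 4) (nat_lit 316) (nat_lit 272) (nat_lit 192)) (XT.lf (nat_lit 0) (nat_lit 70823763494) (nat_lit 152) (nat_lit 40973383895) (nat_lit 0) (nat_lit 3324984599) (nat_lit 10) (nat_lit 5) (nat_lit 12) (nat_lit 4) (nat_lit 10) (nat_lit 4) (nat_lit 317) (nat_lit 272) (nat_lit 191))) (XT.nd (nat_lit 78) (nat_lit 152) (nat_lit 0) (XT.lf (nat_lit 0) (nat_lit 93465727823) (nat_lit 152) (nat_lit 3771821092) (nat_lit 0) (nat_lit 25957120346) (nat_lit 10) (nat_lit 5) (nat_lit 12) (nat_lit 4) (nat_lit 10) (nat_lit 4) (nat_lit 318) (nat_lit 272) (nat_lit 190)) (XT.nd (nat_lit 78) (nat_lit 76) (nat_lit 0) (XT.lf (nat_lit 0) (nat_lit 37597948913) (nat_lit 76) (nat_lit 80901867623) (nat_lit 76) (nat_lit 13384159608) (nat_lit 9) (nat_lit 4) (nat_lit 10) (nat_lit 5) (nat_lit 10) (nat_lit 4) (nat_lit 319) (nat_lit 272) (nat_lit 189)) (XT.lf (nat_lit 0) (nat_lit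 4192325059) (nat_lit 152) (nat_lit 58931868066) (nat_lit 76) (nat_lit 78137870450) (nat_lit 8) (nat_lit 5) (nat_lit 10) (nat_lit 5) (nat_lit 9) (nat_lit 4) (nat_lit 320) (nat_lit 272) (nat_lit 188))))))))
noncomputable def xc73 : XT := (XT.nd (nat_lit 1560) (nat_lit 76) (nat_lit 0) (XT.nd (nat_lit 780) (nat_lit 152) (nat_lit 0) (XT.nd (nat_lit 390) (nat_lit 76) (nat_lit 0) (XT.nd (nat_lit 156) (nat_lit 0) (nat_lit 0) (XT.nd (nat_lit 78) (nat_lit 76) (nat_lit 0) (XT.lf (nat_lit 0) (nat_lit 22706679558) (nat_lit 152) (nat_lit 20985243588) (nat_lit 76) (nat_lit 107687474967) (nat_lit 8) (nat_lit 5) (nat_lit 10) (nat_lit 5) (nat_lit 9) (nat_lit 4) (nat_lit 321) (nat_lit 272) (nat_lit 187)) (XT.lf (nat_lit 0) (nat_lit 20648562274) (nat_lit 76) (nat_lit 22370814925) (nat_lit 152) (nat_lit 119270886251) (nat_lit 7) (nat_lit 5) (nat_lit 8) (nat_lit 5) (nat_lit 9) (nat_lit 4) (nat_lit 322) (nat_lit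 272) (nat_lit 186))) (XT.nd (nat_lit 78) (nat_lit 0) (nat_lit 0) (XT.lf (nat_lit 0) (nat_lit 65333866955) (nat_lit 152) (nat_lit 107718714640) (nat_lit 0) (nat_lit 1002581096) (nat_lit 7) (nat_lit 5) (nat_lit 9) (nat_lit 4) (nat_lit 7) (nat_lit 4) (nat_lit 323) (nat_lit 272) (nat_lit 185)) (XT.nd (nat_lit 78) (nat_lit 0) (nat_lit 0) (XT.lf (nat_lit 0) (nat_lit 89806092186) (nat_lit 152) (nat_lit 71467628516) (nat_lit 0) (nat_lit 25468907592) (nat_lit 7) (nat_lit 5) (nat_lit 9) (nat_lit 4) (nat_lit 7) (nat_lit 4) (nat_lit 324) (nat_lit 272) (nat_lit 184)) (XT.lf (nat_lit 0) (nat_lit 116231802372) (nat_lit 152) (nat_lit 32324350437) (nat_lit 0) (nat_lit 51889155984) (nat_lit 7) (nat_lit 5) (nat_lit 9) (nat_lit 4) (nat_lit 7) (nat_lit 4) (nat_lit 325) (nat_lit 272) (nat_lit 183))))) (XT.nd (nat_lit 156) (nat_lit 0) (nat_lit 0) (XT.nd (nat_lit 78) (nat_lit 0) (nat_lit 0) (XT.lf (nat_lit 0)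 (nat_lit 10271842882) (nat_lit 76) (nat_lit 134656123686) (nat_lit 76) (nat_lit 70308420082) (nat_lit 6) (nat_lit 4) (nat_lit 7) (nat_lit 5) (nat_lit 7) (nat_lit 4) (nat_lit 326) (nat_lit 272) (nat_lit 182)) (XT.lf (nat_lit 0) (nat_lit 57423031359) (nat_lit 76) (nat_lit 119056072088) (nat_lit 76) (nat_lit 54703685877) (nat_lit 6) (nat_lit 4) (nat_lit 7) (nat_lit 5) (nat_lit 7) (nat_lit 4) (nat_lit 327) (nat_lit 272) (nat_lit 181))) (XT.nd (nat_lit 78) (nat_lit 0) (nat_lit 0) (XT.lf (nat_lit 0) (nat_lit 108339840436) (nat_lit 76) (nat_lit 102210981784) (nat_lit 76) (nat_lit 37854259825) (nat_lit 6) (nat_lit 4) (nat_lit 7) (nat_lit 5) (nat_lit 7) (nat_lit 4) (nat_lit 328) (nat_lit 272) (nat_lit 180)) (XT.nd (nat_lit 78) (nat_lit 0) (nat_lit 0) (XT.lf (nat_lit 0) (nat_lit 163323999352) (nat_lit 76) (nat_lit 84021030014) (nat_lit 76) (nat_lit 19660293475) (nat_lit 6) (nat_lit 4) (nat_lit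 7) (nat_lit 5) (nat_lit 7) (nat_lit 4) (nat_lit 329) (nat_lit 272) (nat_lit 179)) (XT.lf (nat_lit 0) (nat_lit 222701340160) (nat_lit 76) (nat_lit 64378424473) (nat_lit 76) (nat_lit 13970729) (nat_lit 6) (nat_lit 4) (nat_lit 7) (nat_lit 5) (nat_lit 7) (nat_lit 4) (nat_lit 330) (nat_lit 272) (nat_lit 178)))))) (XT.nd (nat_lit 390) (nat_lit 0) (nat_lit 0) (XT.nd (nat_lit 156) (nat_lit 0) (nat_lit 0) (XT.nd (nat_lit 78) (nat_lit 76) (nat_lit 0) (XT.lf (nat_lit 0) (nat_lit 20522562466) (nat_lit 152) (nat_lit 22296642544) (nat_lit 76) (nat_lit 265953606591) (nat_lit 5) (nat_lit 5) (nat_lit 7) (nat_lit 5) (nat_lit 6) (nat_lit 4) (nat_lit 331) (nat_lit 272) (nat_lit 177)) (XT.lf (nat_lit 0) (nat_lit 23927517407) (nat_lit 76) (nat_lit 19144970354) (nat_lit 152) (nat_lit 289095168446) (nat_lit 4) (nat_lit 5) (nat_lit 5) (nat_lit 5) (nat_lit 6) (nat_lit 4) (nat_lit 332) (nat_lit 272) (nat_lit 176)))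 (XT.nd (nat_lit 78) (nat_lit 0) (nat_lit 0) (XT.lf (nat_lit 0) (nat_lit 67918916856) (nat_lit 152) (nat_lit 282880233903) (nat_lit 0) (nat_lit 6610313674) (nat_lit 4) (nat_lit 5) (nat_lit 6) (nat_lit 4) (nat_lit 4) (nat_lit 4) (nat_lit 333) (nat_lit 272) (nat_lit 175)) (XT.nd (nat_lit 78) (nat_lit 0) (nat_lit 0) (XT.lf (nat_lit 0) (nat_lit 95073532548) (nat_lit 152) (nat_lit 255818735365) (nat_lit 0) (nat_lit 33762327218) (nat_lit 4) (nat_lit 5) (nat_lit 6) (nat_lit 4) (nat_lit 4) (nat_lit 4) (nat_lit 334) (nat_lit 272) (nat_lit 174)) (XT.lf (nat_lit 0) (nat_lit 124398344439) (nat_lit 152) (nat_lit 226596372110) (nat_lit 0) (nat_lit 63084729712) (nat_lit 4) (nat_lit 5) (nat_lit 6) (nat_lit 4) (nat_lit 4) (nat_lit 4) (nat_lit 335) (nat_lit 272) (nat_lit 173))))) (XT.nd (nat_lit 156) (nat_lit 0) (nat_lit 0) (XT.nd (nat_lit 78) (nat_lit 0) (nat_lit 0) (XT.lf (nat_lit 0) (nat_lit 156067129192)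 (nat_lit 152) (nat_lit 195039974576) (nat_lit 0) (nat_lit 94751283541) (nat_lit 4) (nat_lit 5) (nat_lit 6) (nat_lit 4) (nat_lit 4) (nat_lit 4) (nat_lit 336) (nat_lit 272) (nat_lit 172)) (XT.lf (nat_lit 0) (nat_lit 190267553678) (nat_lit 152) (nat_lit 160962541891) (nat_lit 0) (nat_lit 128949642357) (nat_lit 4) (nat_lit 5) (nat_lit 6) (nat_lit 4) (nat_lit 4) (nat_lit 4) (nat_lit 337) (nat_lit 272) (nat_lit 171))) (XT.nd (nat_lit 78) (nat_lit 0) (nat_lit 0) (XT.lf (nat_lit 0) (nat_lit 227202287080) (nat_lit 152) (nat_lit 124162133712) (nat_lit 0) (nat_lit 165882463102) (nat_lit 4) (nat_lit 5) (nat_lit 6) (nat_lit 4) (nat_lit 4) (nat_lit 4) (nat_lit 338) (nat_lit 272) (nat_lit 170)) (XT.nd (nat_lit 78) (nat_lit 0) (nat_lit 0) (XT.lf (nat_lit 0) (nat_lit 267090201892) (nat_lit 152) (nat_lit 84420673546) (nat_lit 0) (nat_lit 205768606936) (nat_lit 4) (nat_lit 5) (nat_lit 6) (nat_lit 4) (nat_lit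 4) (nat_lit 4) (nat_lit 339) (nat_lit 272) (nat_lit 169)) (XT.lf (nat_lit 0) (nat_lit 310167670943) (nat_lit 152) (nat_lit 41502656444) (nat_lit 0) (nat_lit 248844436191) (nat_lit 4) (nat_lit 5) (nat_lit 6) (nat_lit 4) (nat_lit 4) (nat_lit 4) (nat_lit 340) (nat_lit 272) (nat_lit 168))))))) (XT.nd (nat_lit 35724) (nat_lit 0) (nat_lit 3876) (XT.nd (nat_lit 35334) (nat_lit 0) (nat_lit 5928) (XT.nd (nat_lit 156) (nat_lit 0) (nat_lit 0) (XT.nd (nat_lit 78) (nat_lit 0) (nat_lit 0) (XT.lf (nat_lit 0) (nat_lit 5006485381) (nat_lit 76) (nat_lit 351761648010) (nat_lit 76) (nat_lit 290436894929) (nat_lit 3) (nat_lit 4) (nat_lit 4) (nat_lit 5) (nat_lit 4) (nat_lit 4) (nat_lit 341) (nat_lit 272) (nat_lit 167)) (XT.lf (nat_lit 0) (nat_lit 56715960642) (nat_lit 76) (nat_lit 351102315571) (nat_lit 76) (nat_lit 289776156630) (nat_lit 3) (nat_lit 4) (nat_lit 4) (nat_lit 5) (nat_lit 4) (nat_lit 4) (nat_lit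 342) (nat_lit 272) (nat_lit 166))) (XT.nd (nat_lit 78) (nat_lit 0) (nat_lit 0) (XT.lf (nat_lit 0) (nat_lit 112559930603) (nat_lit 76) (nat_lit 350391290485) (nat_lit 76) (nat_lit 289063829821) (nat_lit 3) (nat_lit 4) (nat_lit 4) (nat_lit 5) (nat_lit 4) (nat_lit 4) (nat_lit 343) (nat_lit 272) (nat_lit 165)) (XT.nd (nat_lit 78) (nat_lit 0) (nat_lit 0) (XT.lf (nat_lit 0) (nat_lit 172869322495) (nat_lit 76) (nat_lit 349624359270) (nat_lit 76) (nat_lit 288295693308) (nat_lit 3) (nat_lit 4) (nat_lit 4) (nat_lit 5) (nat_lit 4) (nat_lit 4) (nat_lit 344) (nat_lit 272) (nat_lit 164)) (XT.lf (nat_lit 0) (nat_lit 238001525305) (nat_lit 76) (nat_lit 348796977148) (nat_lit 76) (nat_lit 287467195169) (nat_lit 3) (nat_lit 4) (nat_lit 4) (nat_lit 5) (nat_lit 4) (nat_lit 4) (nat_lit 345) (nat_lit 272) (nat_lit 163))))) (XT.nd (nat_lit 156) (nat_lit 0) (nat_lit 76) (XT.nd (nat_lit 78) (nat_lit 0) (nat_lit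 0) (XT.lf (nat_lit 0) (nat_lit 133576406) (nat_lit 0) (nat_lit 133576406) (nat_lit 684) (nat_lit 5479914390) (nat_lit 81) (nat_lit 5) (nat_lit 81) (nat_lit 3) (nat_lit 90) (nat_lit 3) (nat_lit 273) (nat_lit 273) (nat_lit 234)) (XT.lf (nat_lit 0) (nat_lit 1438716469) (nat_lit 684) (nat_lit 3229666569) (nat_lit 760) (nat_lit 7239347250) (nat_lit 81) (nat_lit 5) (nat_lit 90) (nat_lit 3) (nat_lit 91) (nat_lit 5) (nat_lit 274) (nat_lit 273) (nat_lit 233))) (XT.nd (nat_lit 78) (nat_lit 0) (nat_lit 0) (XT.lf (nat_lit 0) (nat_lit 2478876138) (nat_lit 684) (nat_lit 6865189492) (nat_lit 760) (nat_lit 3007380266) (nat_lit 82) (nat_lit 5) (nat_lit 91) (nat_lit 5) (nat_lit 92) (nat_lit 5) (nat_lit 275) (nat_lit 273) (nat_lit 232)) (XT.nd (nat_lit 78) (nat_lit 0) (nat_lit 76) (XT.lf (nat_lit 76) (nat_lit 2130169722) (nat_lit 0) (nat_lit 1570630177) (nat_lit 760) (nat_lit 9125118188) (nat_lit 83) (nat_lit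 5) (nat_lit 82) (nat_lit 5) (nat_lit 92) (nat_lit 5) (nat_lit 276) (nat_lit 273) (nat_lit 231)) (XT.lf (nat_lit 0) (nat_lit 5182880515) (nat_lit 684) (nat_lit 1397738446) (nat_lit 760) (nat_lit 6749782002) (nat_lit 83) (nat_lit 5) (nat_lit 92) (nat_lit 5) (nat_lit 93) (nat_lit 5) (nat_lit 277) (nat_lit 273) (nat_lit 230)))))) (XT.nd (nat_lit 390) (nat_lit 1216) (nat_lit 0) (XT.nd (nat_lit 156) (nat_lit 1064) (nat_lit 0) (XT.nd (nat_lit 78) (nat_lit 0) (nat_lit 0) (XT.lf (nat_lit 0) (nat_lit 6918227129) (nat_lit 684) (nat_lit 5043514576) (nat_lit 760) (nat_lit 1906926025) (nat_lit 84) (nat_lit 5) (nat_lit 93) (nat_lit 5) (nat_lit 94) (nat_lit 5) (nat_lit 278) (nat_lit 273) (nat_lit 229)) (XT.lf (nat_lit 76) (nat_lit 5486232884) (nat_lit 0) (nat_lit 3470792608) (nat_lit 760) (nat_lit 5484887513) (nat_lit 85) (nat_lit 5) (nat_lit 84) (nat_lit 5) (nat_lit 94) (nat_lit 5) (nat_lit 279) (nat_lit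 273) (nat_lit 228))) (XT.nd (nat_lit 78) (nat_lit 456) (nat_lit 0) (XT.lf (nat_lit 0) (nat_lit 1906419130) (nat_lit 684) (nat_lit 9407501971) (nat_lit 760) (nat_lit 3739484510) (nat_lit 76) (nat_lit 5) (nat_lit 85) (nat_lit 5) (nat_lit 86) (nat_lit 5) (nat_lit 280) (nat_lit 273) (nat_lit 227)) (XT.nd (nat_lit 78) (nat_lit 456) (nat_lit 0) (XT.lf (nat_lit 0) (nat_lit 13852820301) (nat_lit 684) (nat_lit 170322414) (nat_lit 760) (nat_lit 1682613395) (nat_lit 76) (nat_lit 5) (nat_lit 85) (nat_lit 5) (nat_lit 86) (nat_lit 5) (nat_lit 281) (nat_lit 273) (nat_lit 226)) (XT.lf (nat_lit 0) (nat_lit 796630598) (nat_lit 456) (nat_lit 5925892501) (nat_lit 76) (nat_lit 9673709686) (nat_lit 70) (nat_lit 5) (nat_lit 76) (nat_lit 5) (nat_lit 71) (nat_lit 5) (nat_lit 282) (nat_lit 273) (nat_lit 225))))) (XT.nd (nat_lit 156) (nat_lit 532) (nat_lit 0) (XT.nd (nat_lit 78) (nat_lit 304) (nat_lit 0) (XT.lf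 (nat_lit 0) (nat_lit 3566661850) (nat_lit 456) (nat_lit 10337941969) (nat_lit 76) (nat_lit 3228498530) (nat_lit 65) (nat_lit 5) (nat_lit 71) (nat_lit 5) (nat_lit 66) (nat_lit 5) (nat_lit 283) (nat_lit 273) (nat_lit 224)) (XT.lf (nat_lit 0) (nat_lit 2751518978) (nat_lit 304) (nat_lit 4026551836) (nat_lit 380) (nat_lit 11139958073) (nat_lit 61) (nat_lit 5) (nat_lit 65) (nat_lit 5) (nat_lit 66) (nat_lit 5) (nat_lit 284) (nat_lit 273) (nat_lit 223))) (XT.nd (nat_lit 78) (nat_lit 532) (nat_lit 0) (XT.lf (nat_lit 0) (nat_lit 10494054305) (nat_lit 380) (nat_lit 1649466557) (nat_lit 76) (nat_lit 6609934640) (nat_lit 61) (nat_lit 5) (nat_lit 66) (nat_lit 5) (nat_lit 62) (nat_lit 5) (nat_lit 285) (nat_lit 273) (nat_lit 222)) (XT.nd (nat_lit 78) (nat_lit 228) (nat_lit 0) (XT.lf (nat_lit 0) (nat_lit 13265461735) (nat_lit 304) (nat_lit 1480687787) (nat_lit 380) (nat_lit 4897707521) (nat_lit 57) (nat_lit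 5) (nat_lit 61) (nat_lit 5) (nat_lit 62) (nat_lit 5) (nat_lit 286) (nat_lit 273) (nat_lit 221)) (XT.lf (nat_lit 0) (nat_lit 8916539604) (nat_lit 228) (nat_lit 10712804963) (nat_lit 304) (nat_lit 961675871) (nat_lit 54) (nat_lit 5) (nat_lit 57) (nat_lit 5) (nat_lit 58) (nat_lit 5) (nat_lit 287) (nat_lit 273) (nat_lit 220))))))))
noncomputable def xc74 : XT := (XT.nd (nat_lit 1560) (nat_lit 912) (nat_lit 0) (XT.nd (nat_lit 780) (nat_lit 988) (nat_lit 0) (XT.nd (nat_lit 390) (nat_lit 684) (nat_lit 0) (XT.nd (nat_lit 156) (nat_lit 684) (nat_lit 0) (XT.nd (nat_lit 78) (nat_lit 0) (nat_lit 0) (XT.lf (nat_lit 0) (nat_lit 3363681588) (nat_lit 380) (nat_lit 17547257563) (nat_lit 76) (nat_lit 691531392) (nat_lit 49) (nat_lit 5) (nat_lit 54) (nat_lit 5) (nat_lit 50) (nat_lit 5) (nat_lit 288) (nat_lit 273) (nat_lit 219)) (XT.lf (nat_lit 0) (nat_lit 8358066795) (nat_lit 380) (nat_lit 1464005846) (nat_lit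 76) (nat_lit 12854203508) (nat_lit 49) (nat_lit 5) (nat_lit 54) (nat_lit 5) (nat_lit 50) (nat_lit 5) (nat_lit 289) (nat_lit 273) (nat_lit 218))) (XT.nd (nat_lit 78) (nat_lit 456) (nat_lit 0) (XT.lf (nat_lit 0) (nat_lit 14016878998) (nat_lit 304) (nat_lit 7468179465) (nat_lit 76) (nat_lit 2337741651) (nat_lit 46) (nat_lit 5) (nat_lit 50) (nat_lit 5) (nat_lit 47) (nat_lit 5) (nat_lit 290) (nat_lit 273) (nat_lit 217)) (XT.nd (nat_lit 78) (nat_lit 228) (nat_lit 0) (XT.lf (nat_lit 0) (nat_lit 10732595838) (nat_lit 228) (nat_lit 9727585128) (nat_lit 304) (nat_lit 4584329231) (nat_lit 43) (nat_lit 5) (nat_lit 46) (nat_lit 5) (nat_lit 47) (nat_lit 5) (nat_lit 291) (nat_lit 273) (nat_lit 216)) (XT.lf (nat_lit 0) (nat_lit 1245396320) (nat_lit 228) (nat_lit 22019318609) (nat_lit 76) (nat_lit 3087257088) (nat_lit 40) (nat_lit 5) (nat_lit 43) (nat_lit 5) (nat_lit 41) (nat_lit 5) (nat_lit 292) (nat_lit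 273) (nat_lit 215))))) (XT.nd (nat_lit 156) (nat_lit 456) (nat_lit 0) (XT.nd (nat_lit 78) (nat_lit 228) (nat_lit 0) (XT.lf (nat_lit 0) (nat_lit 7775421888) (nat_lit 228) (nat_lit 3052193140) (nat_lit 76) (nat_lit 16912975016) (nat_lit 40) (nat_lit 5) (nat_lit 43) (nat_lit 5) (nat_lit 41) (nat_lit 5) (nat_lit 293) (nat_lit 273) (nat_lit 214)) (XT.lf (nat_lit 0) (nat_lit 15130435261) (nat_lit 304) (nat_lit 11297441469) (nat_lit 76) (nat_lit 2797331899) (nat_lit 37) (nat_lit 5) (nat_lit 41) (nat_lit 5) (nat_lit 38) (nat_lit 5) (nat_lit 294) (nat_lit 273) (nat_lit 213))) (XT.nd (nat_lit 78) (nat_lit 304) (nat_lit 0) (XT.lf (nat_lit 0) (nat_lit 9972869416) (nat_lit 152) (nat_lit 13471211279) (nat_lit 228) (nat_lit 7366041865) (nat_lit 35) (nat_lit 5) (nat_lit 37) (nat_lit 5) (nat_lit 38) (nat_lit 5) (nat_lit 295) (nat_lit 273) (nat_lit 212)) (XT.nd (nat_lit 78) (nat_lit 0) (nat_lit 0) (XT.lf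 (nat_lit 0) (nat_lit 107284642) (nat_lit 304) (nat_lit 31694098119) (nat_lit 76) (nat_lit 710400755) (nat_lit 31) (nat_lit 5) (nat_lit 35) (nat_lit 5) (nat_lit 32) (nat_lit 5) (nat_lit 296) (nat_lit 273) (nat_lit 211)) (XT.lf (nat_lit 0) (nat_lit 8499578721) (nat_lit 304) (nat_lit 9770547329) (nat_lit 76) (nat_lit 16044485520) (nat_lit 31) (nat_lit 5) (nat_lit 35) (nat_lit 5) (nat_lit 32) (nat_lit 5) (nat_lit 297) (nat_lit 273) (nat_lit 210)))))) (XT.nd (nat_lit 390) (nat_lit 456) (nat_lit 0) (XT.nd (nat_lit 156) (nat_lit 228) (nat_lit 0) (XT.nd (nat_lit 78) (nat_lit 152) (nat_lit 0) (XT.lf (nat_lit 0) (nat_lit 14337131313) (nat_lit 152) (nat_lit 3431125636) (nat_lit 228) (nat_lit 18483187171) (nat_lit 29) (nat_lit 5) (nat_lit 31) (nat_lit 5) (nat_lit 32) (nat_lit 5) (nat_lit 298) (nat_lit 273) (nat_lit 209)) (XT.lf (nat_lit 0) (nat_lit 2231439747) (nat_lit 152) (nat_lit 25933435973)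 (nat_lit 228) (nat_lit 10159051428) (nat_lit 27) (nat_lit 5) (nat_lit 29) (nat_lit 5) (nat_lit 30) (nat_lit 5) (nat_lit 299) (nat_lit 273) (nat_lit 208))) (XT.nd (nat_lit 78) (nat_lit 228) (nat_lit 0) (XT.lf (nat_lit 0) (nat_lit 29004700509) (nat_lit 152) (nat_lit 10810070374) (nat_lit 228) (nat_lit 726384841) (nat_lit 27) (nat_lit 5) (nat_lit 29) (nat_lit 5) (nat_lit 30) (nat_lit 5) (nat_lit 300) (nat_lit 273) (nat_lit 207)) (XT.nd (nat_lit 78) (nat_lit 0) (nat_lit 0) (XT.lf (nat_lit 0) (nat_lit 9473273072) (nat_lit 228) (nat_lit 27709117702) (nat_lit 76) (nat_lit 5730248354) (nat_lit 24) (nat_lit 5) (nat_lit 27) (nat_lit 5) (nat_lit 25) (nat_lit 5) (nat_lit 301) (nat_lit 273) (nat_lit 206)) (XT.lf (nat_lit 0) (nat_lit 20834873767) (nat_lit 228) (nat_lit 1191985751) (nat_lit 76) (nat_lit 23427835132) (nat_lit 24) (nat_lit 5) (nat_lit 27) (nat_lit 5) (nat_lit 25) (nat_lit 5) (nat_lit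 302) (nat_lit 273) (nat_lit 205))))) (XT.nd (nat_lit 156) (nat_lit 228) (nat_lit 0) (XT.nd (nat_lit 78) (nat_lit 76) (nat_lit 0) (XT.lf (nat_lit 0) (nat_lit 28330078770) (nat_lit 152) (nat_lit 5203329541) (nat_lit 228) (nat_lit 14645324344) (nat_lit 22) (nat_lit 5) (nat_lit 24) (nat_lit 5) (nat_lit 25) (nat_lit 5) (nat_lit 303) (nat_lit 273) (nat_lit 204)) (XT.lf (nat_lit 0) (nat_lit 9205956325) (nat_lit 76) (nat_lit 38395414498) (nat_lit 152) (nat_lit 3501662594) (nat_lit 21) (nat_lit 5) (nat_lit 22) (nat_lit 5) (nat_lit 23) (nat_lit 4) (nat_lit 304) (nat_lit 273) (nat_lit 203))) (XT.nd (nat_lit 78) (nat_lit 152) (nat_lit 0) (XT.lf (nat_lit 0) (nat_lit 8686245153) (nat_lit 152) (nat_lit 13199102652) (nat_lit 76) (nat_lit 32347989911) (nat_lit 20) (nat_lit 5) (nat_lit 22) (nat_lit 5) (nat_lit 21) (nat_lit 5) (nat_lit 305) (nat_lit 273) (nat_lit 202)) (XT.nd (nat_lit 78) (nat_lit 0) (nat_lit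 0) (XT.lf (nat_lit 0) (nat_lit 18300852326) (nat_lit 152) (nat_lit 3700724956) (nat_lit 228) (nat_lit 35595879074) (nat_lit 18) (nat_lit 5) (nat_lit 20) (nat_lit 5) (nat_lit 21) (nat_lit 5) (nat_lit 306) (nat_lit 273) (nat_lit 201)) (XT.lf (nat_lit 0) (nat_lit 36852856847) (nat_lit 228) (nat_lit 8699819767) (nat_lit 76) (nat_lit 15654504664) (nat_lit 18) (nat_lit 5) (nat_lit 21) (nat_lit 5) (nat_lit 19) (nat_lit 4) (nat_lit 307) (nat_lit 273) (nat_lit 200))))))) (XT.nd (nat_lit 780) (nat_lit 304) (nat_lit 0) (XT.nd (nat_lit 390) (nat_lit 228) (nat_lit 0) (XT.nd (nat_lit 156) (nat_lit 228) (nat_lit 0) (XT.nd (nat_lit 78) (nat_lit 76) (nat_lit 0) (XT.lf (nat_lit 0) (nat_lit 25065929747) (nat_lit 76) (nat_lit 28269119203) (nat_lit 152) (nat_lit 11748506617) (nat_lit 17) (nat_lit 5) (nat_lit 18) (nat_lit 5) (nat_lit 19) (nat_lit 4) (nat_lit 308) (nat_lit 273) (nat_lit 199)) (XT.lf (nat_lit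 0) (nat_lit 1949500186) (nat_lit 152) (nat_lit 7468663130) (nat_lit 76) (nat_lit 59843258458) (nat_lit 16) (nat_lit 5) (nat_lit 18) (nat_lit 5) (nat_lit 17) (nat_lit 5) (nat_lit 309) (nat_lit 273) (nat_lit 198))) (XT.nd (nat_lit 78) (nat_lit 76) (nat_lit 0) (XT.lf (nat_lit 0) (nat_lit 16951705952) (nat_lit 228) (nat_lit 45545650135) (nat_lit 76) (nat_lit 11235542526) (nat_lit 14) (nat_lit 5) (nat_lit 17) (nat_lit 5) (nat_lit 15) (nat_lit 4) (nat_lit 310) (nat_lit 273) (nat_lit 197)) (XT.nd (nat_lit 78) (nat_lit 76) (nat_lit 0) (XT.lf (nat_lit 0) (nat_lit 33435691393) (nat_lit 228) (nat_lit 11770675369) (nat_lit 76) (nat_lit 33341655662) (nat_lit 14) (nat_lit 5) (nat_lit 17) (nat_lit 5) (nat_lit 15) (nat_lit 4) (nat_lit 311) (nat_lit 273) (nat_lit 196)) (XT.lf (nat_lit 0) (nat_lit 25507432393) (nat_lit 76) (nat_lit 26120468472) (nat_lit 152) (nat_lit 32100988333) (nat_lit 13) (nat_lit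 5) (nat_lit 14) (nat_lit 5) (nat_lit 15) (nat_lit 4) (nat_lit 312) (nat_lit 273) (nat_lit 195))))) (XT.nd (nat_lit 156) (nat_lit 152) (nat_lit 0) (XT.nd (nat_lit 78) (nat_lit 76) (nat_lit 0) (XT.lf (nat_lit 0) (nat_lit 66173516951) (nat_lit 76) (nat_lit 5298689685) (nat_lit 152) (nat_lit 17842190402) (nat_lit 13) (nat_lit 5) (nat_lit 14) (nat_lit 5) (nat_lit 15) (nat_lit 4) (nat_lit 313) (nat_lit 273) (nat_lit 194)) (XT.lf (nat_lit 0) (nat_lit 14942201835) (nat_lit 76) (nat_lit 78455717835) (nat_lit 76) (nat_lit 1924139828) (nat_lit 12) (nat_lit 4) (nat_lit 13) (nat_lit 5) (nat_lit 13) (nat_lit 4) (nat_lit 314) (nat_lit 273) (nat_lit 193))) (XT.nd (nat_lit 78) (nat_lit 76) (nat_lit 0) (XT.lf (nat_lit 0) (nat_lit 15270207187) (nat_lit 152) (nat_lit 45239690532) (nat_lit 76) (nat_lit 41263950058) (nat_lit 11) (nat_lit 5) (nat_lit 13) (nat_lit 5) (nat_lit 12) (nat_lit 4) (nat_lit 315) (nat_lit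 273) (nat_lit 192)) (XT.nd (nat_lit 78) (nat_lit 76) (nat_lit 0) (XT.lf (nat_lit 0) (nat_lit 33766600087) (nat_lit 152) (nat_lit 7333230699) (nat_lit 76) (nat_lit 67640681463) (nat_lit 11) (nat_lit 5) (nat_lit 13) (nat_lit 5) (nat_lit 12) (nat_lit 4) (nat_lit 316) (nat_lit 273) (nat_lit 191)) (XT.lf (nat_lit 0) (nat_lit 34704969690) (nat_lit 76) (nat_lit 19573103762) (nat_lit 152) (nat_lit 61959673365) (nat_lit 10) (nat_lit 5) (nat_lit 11) (nat_lit 5) (nat_lit 12) (nat_lit 4) (nat_lit 317) (nat_lit 273) (nat_lit 190)))))) (XT.nd (nat_lit 390) (nat_lit 152) (nat_lit 0) (XT.nd (nat_lit 156) (nat_lit 152) (nat_lit 0) (XT.nd (nat_lit 78) (nat_lit 0) (nat_lit 0) (XT.lf (nat_lit 0) (nat_lit 76611445763) (nat_lit 152) (nat_lit 44031049759) (nat_lit 0) (nat_lit 3683220569) (nat_lit 10) (nat_lit 5) (nat_lit 12) (nat_lit 4) (nat_lit 10) (nat_lit 4) (nat_lit 318) (nat_lit 273) (nat_lit 189)) (XT.lf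 (nat_lit 0) (nat_lit 101055746409) (nat_lit 152) (nat_lit 3869673401) (nat_lit 0) (nat_lit 28119094791) (nat_lit 10) (nat_lit 5) (nat_lit 12) (nat_lit 4) (nat_lit 10) (nat_lit 4) (nat_lit 319) (nat_lit 273) (nat_lit 188))) (XT.nd (nat_lit 78) (nat_lit 76) (nat_lit 0) (XT.lf (nat_lit 0) (nat_lit 40800817247) (nat_lit 76) (nat_lit 87286437356) (nat_lit 76) (nat_lit 14341983493) (nat_lit 9) (nat_lit 4) (nat_lit 10) (nat_lit 5) (nat_lit 10) (nat_lit 4) (nat_lit 320) (nat_lit 273) (nat_lit 187)) (XT.nd (nat_lit 78) (nat_lit 0) (nat_lit 0) (XT.lf (nat_lit 0) (nat_lit 4628910225) (nat_lit 152) (nat_lit 63462412201) (nat_lit 76) (nat_lit 84466572642) (nat_lit 8) (nat_lit 5) (nat_lit 10) (nat_lit 5) (nat_lit 9) (nat_lit 4) (nat_lit 321) (nat_lit 273) (nat_lit 186)) (XT.lf (nat_lit 0) (nat_lit 24616916850) (nat_lit 152) (nat_lit 22493687787) (nat_lit 76) (nat_lit 116374391997) (nat_lit 8) (nat_lit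 5) (nat_lit 10) (nat_lit 5) (nat_lit 9) (nat_lit 4) (nat_lit 322) (nat_lit 273) (nat_lit 185))))) (XT.nd (nat_lit 156) (nat_lit 76) (nat_lit 0) (XT.nd (nat_lit 78) (nat_lit 0) (nat_lit 0) (XT.lf (nat_lit 0) (nat_lit 22463418241) (nat_lit 76) (nat_lit 24086815536) (nat_lit 152) (nat_lit 128718722296) (nat_lit 7) (nat_lit 5) (nat_lit 8) (nat_lit 5) (nat_lit 9) (nat_lit 4) (nat_lit 323) (nat_lit 273) (nat_lit 184)) (XT.lf (nat_lit 0) (nat_lit 70644332343) (nat_lit 152) (nat_lit 116182184657) (nat_lit 0) (nat_lit 1148812451) (nat_lit 7) (nat_lit 5) (nat_lit 9) (nat_lit 4) (nat_lit 7) (nat_lit 4) (nat_lit 324) (nat_lit 273) (nat_lit 183))) (XT.nd (nat_lit 78) (nat_lit 76) (nat_lit 0) (XT.lf (nat_lit 0) (nat_lit 97068131442) (nat_lit 152) (nat_lit 77042421062) (nat_lit 0) (nat_lit 27567554334) (nat_lit 7) (nat_lit 5) (nat_lit 9) (nat_lit 4) (nat_lit 7) (nat_lit 4) (nat_lit 325) (nat_lit 273)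 (nat_lit 182)) (XT.nd (nat_lit 78) (nat_lit 76) (nat_lit 0) (XT.lf (nat_lit 0) (nat_lit 125602153860) (nat_lit 152) (nat_lit 34778245014) (nat_lit 0) (nat_lit 56096894144) (nat_lit 7) (nat_lit 5) (nat_lit 9) (nat_lit 4) (nat_lit 7) (nat_lit 4) (nat_lit 326) (nat_lit 273) (nat_lit 181)) (XT.lf (nat_lit 0) (nat_lit 11219904889) (nat_lit 76) (nat_lit 145370759367) (nat_lit 76) (nat_lit 75861163905) (nat_lit 6) (nat_lit 4) (nat_lit 7) (nat_lit 5) (nat_lit 7) (nat_lit 4) (nat_lit 327) (nat_lit 273) (nat_lit 180))))))))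
noncomputable def xc75 : XT := (XT.nd (nat_lit 36582) (nat_lit 0) (nat_lit 2432) (XT.nd (nat_lit 780) (nat_lit 76) (nat_lit 0) (XT.nd (nat_lit 390) (nat_lit 76) (nat_lit 0) (XT.nd (nat_lit 156) (nat_lit 76) (nat_lit 0) (XT.nd (nat_lit 78) (nat_lit 0) (nat_lit 0) (XT.lf (nat_lit 0) (nat_lit 62133831808) (nat_lit 76) (nat_lit 128526989139) (nat_lit 76) (nat_lit 59013379096) (nat_lit 6) (nat_lit 4) (nat_lit 7) (nat_lit 5) (nat_lit 7) (nat_lit 4) (nat_lit 328) (nat_lit 273) (nat_lit 179)) (XT.lf (nat_lit 0) (nat_lit 117115322060) (nat_lit 76) (nat_lit 110338259663) (nat_lit 76) (nat_lit 40820932415) (nat_lit 6) (nat_lit 4) (nat_lit 7) (nat_lit 5) (nat_lit 7) (nat_lit 4) (nat_lit 329) (nat_lit 273) (nat_lit 178))) (XT.nd (nat_lit 78) (nat_lit 76) (nat_lit 0) (XT.lf (nat_lit 0) (nat_lit 176490191883) (nat_lit 76) (nat_lit 90696785876) (nat_lit 76) (nat_lit 21176016771) (nat_lit 6) (nat_lit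 4) (nat_lit 7) (nat_lit 5) (nat_lit 7) (nat_lit 4) (nat_lit 330) (nat_lit 273) (nat_lit 177)) (XT.nd (nat_lit 78) (nat_lit 0) (nat_lit 0) (XT.lf (nat_lit 0) (nat_lit 36572885) (nat_lit 152) (nat_lit 69448981593) (nat_lit 76) (nat_lit 240573100092) (nat_lit 5) (nat_lit 5) (nat_lit 7) (nat_lit 5) (nat_lit 6) (nat_lit 4) (nat_lit 331) (nat_lit 273) (nat_lit 176)) (XT.lf (nat_lit 0) (nat_lit 22211754825) (nat_lit 152) (nat_lit 23992809452) (nat_lit 76) (nat_lit 287267672806) (nat_lit 5) (nat_lit 5) (nat_lit 7) (nat_lit 5) (nat_lit 6) (nat_lit 4) (nat_lit 332) (nat_lit 273) (nat_lit 175))))) (XT.nd (nat_lit 156) (nat_lit 0) (nat_lit 0) (XT.nd (nat_lit 78) (nat_lit 0) (nat_lit 0) (XT.lf (nat_lit 0) (nat_lit 25925477848) (nat_lit 76) (nat_lit 20637993834) (nat_lit 152) (nat_lit 312175309927) (nat_lit 4) (nat_lit 5) (nat_lit 5) (nat_lit 5) (nat_lit 6) (nat_lit 4) (nat_lit 333) (nat_lit 273) (nat_lit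 174)) (XT.lf (nat_lit 0) (nat_lit 73394825714) (nat_lit 152) (nat_lit 305431537900) (nat_lit 0) (nat_lit 7173712411) (nat_lit 4) (nat_lit 5) (nat_lit 6) (nat_lit 4) (nat_lit 4) (nat_lit 4) (nat_lit 334) (nat_lit 273) (nat_lit 173))) (XT.nd (nat_lit 78) (nat_lit 0) (nat_lit 0) (XT.lf (nat_lit 0) (nat_lit 102718670254) (nat_lit 152) (nat_lit 276210979828) (nat_lit 0) (nat_lit 36495326028) (nat_lit 4) (nat_lit 5) (nat_lit 6) (nat_lit 4) (nat_lit 4) (nat_lit 4) (nat_lit 335) (nat_lit 273) (nat_lit 172)) (XT.nd (nat_lit 78) (nat_lit 0) (nat_lit 0) (XT.lf (nat_lit 0) (nat_lit 134386559311) (nat_lit 152) (nat_lit 244656253762) (nat_lit 0) (nat_lit 68161149415) (nat_lit 4) (nat_lit 5) (nat_lit 6) (nat_lit 4) (nat_lit 4) (nat_lit 4) (nat_lit 336) (nat_lit 273) (nat_lit 171)) (XT.lf (nat_lit 0) (nat_lit 168586154450) (nat_lit 152) (nat_lit 210580368731) (nat_lit 0) (nat_lit 102358831897) (nat_lit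 4) (nat_lit 5) (nat_lit 6) (nat_lit 4) (nat_lit 4) (nat_lit 4) (nat_lit 337) (nat_lit 273) (nat_lit 170)))))) (XT.nd (nat_lit 390) (nat_lit 0) (nat_lit 0) (XT.nd (nat_lit 156) (nat_lit 76) (nat_lit 0) (XT.nd (nat_lit 78) (nat_lit 0) (nat_lit 0) (XT.lf (nat_lit 0) (nat_lit 205520119938) (nat_lit 152) (nat_lit 173781393565) (nat_lit 0) (nat_lit 139291026406) (nat_lit 4) (nat_lit 5) (nat_lit 6) (nat_lit 4) (nat_lit 4) (nat_lit 4) (nat_lit 338) (nat_lit 273) (nat_lit 169)) (XT.lf (nat_lit 0) (nat_lit 245407323718) (nat_lit 152) (nat_lit 134041260263) (nat_lit 0) (nat_lit 179176590391) (nat_lit 4) (nat_lit 5) (nat_lit 6) (nat_lit 4) (nat_lit 4) (nat_lit 4) (nat_lit 339) (nat_lit 273) (nat_lit 168))) (XT.nd (nat_lit 78) (nat_lit 76) (nat_lit 0) (XT.lf (nat_lit 0) (nat_lit 288484134407) (nat_lit 152) (nat_lit 91124471739) (nat_lit 0) (nat_lit 222251882750) (nat_lit 4) (nat_lit 5) (nat_lit 6)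 (nat_lit 4) (nat_lit 4) (nat_lit 4) (nat_lit 340) (nat_lit 273) (nat_lit 167)) (XT.nd (nat_lit 78) (nat_lit 76) (nat_lit 0) (XT.lf (nat_lit 0) (nat_lit 335005821992) (nat_lit 152) (nat_lit 44776706283) (nat_lit 0) (nat_lit 268772164476) (nat_lit 4) (nat_lit 5) (nat_lit 6) (nat_lit 4) (nat_lit 4) (nat_lit 4) (nat_lit 341) (nat_lit 273) (nat_lit 166)) (XT.lf (nat_lit 0) (nat_lit 5451160715) (nat_lit 76) (nat_lit 379882017729) (nat_lit 76) (nat_lit 313647058491) (nat_lit 3) (nat_lit 4) (nat_lit 4) (nat_lit 5) (nat_lit 4) (nat_lit 4) (nat_lit 342) (nat_lit 273) (nat_lit 165))))) (XT.nd (nat_lit 156) (nat_lit 0) (nat_lit 0) (XT.nd (nat_lit 78) (nat_lit 0) (nat_lit 0) (XT.lf (nat_lit 0) (nat_lit 61294123144) (nat_lit 76) (nat_lit 379171461815) (nat_lit 76) (nat_lit 312935297278) (nat_lit 3) (nat_lit 4) (nat_lit 4) (nat_lit 5) (nat_lit 4) (nat_lit 4) (nat_lit 343) (nat_lit 273) (nat_lit 164))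 (XT.lf (nat_lit 0) (nat_lit 121602582136) (nat_lit 76) (nat_lit 378404965019) (nat_lit 76) (nat_lit 312167684465) (nat_lit 3) (nat_lit 4) (nat_lit 4) (nat_lit 5) (nat_lit 4) (nat_lit 4) (nat_lit 344) (nat_lit 273) (nat_lit 163))) (XT.nd (nat_lit 35100) (nat_lit 0) (nat_lit 5928) (XT.lf (nat_lit 0) (nat_lit 186733921150) (nat_lit 76) (nat_lit 377577985136) (nat_lit 76) (nat_lit 311339671233) (nat_lit 3) (nat_lit 4) (nat_lit 4) (nat_lit 5) (nat_lit 4) (nat_lit 4) (nat_lit 345) (nat_lit 273) (nat_lit 162)) (XT.nd (nat_lit 78) (nat_lit 0) (nat_lit 0) (XT.lf (nat_lit 0) (nat_lit 518185530) (nat_lit 0) (nat_lit 518185530) (nat_lit 684) (nat_lit 5131100177) (nat_lit 81) (nat_lit 5) (nat_lit 81) (nat_lit 3) (nat_lit 90) (nat_lit 3) (nat_lit 274) (nat_lit 274) (nat_lit 232)) (XT.lf (nat_lit 0) (nat_lit 2927902742) (nat_lit 684) (nat_lit 2711887414) (nat_lit 760) (nat_lit 7148207735) (nat_lit 81)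 (nat_lit 5) (nat_lit 90) (nat_lit 3) (nat_lit 91) (nat_lit 5) (nat_lit 275) (nat_lit 274) (nat_lit 231))))))) (XT.nd (nat_lit 780) (nat_lit 1976) (nat_lit 0) (XT.nd (nat_lit 390) (nat_lit 1596) (nat_lit 0) (XT.nd (nat_lit 156) (nat_lit 0) (nat_lit 76) (XT.nd (nat_lit 78) (nat_lit 0) (nat_lit 0) (XT.lf (nat_lit 0) (nat_lit 3952628175) (nat_lit 684) (nat_lit 6595957820) (nat_lit 760) (nat_lit 2723827204) (nat_lit 82) (nat_lit 5) (nat_lit 91) (nat_lit 5) (nat_lit 92) (nat_lit 5) (nat_lit 276) (nat_lit 274) (nat_lit 230)) (XT.lf (nat_lit 76) (nat_lit 3083461429) (nat_lit 0) (nat_lit 2106590149) (nat_lit 760) (nat_lit 8599154395) (nat_lit 83) (nat_lit 5) (nat_lit 82) (nat_lit 5) (nat_lit 92) (nat_lit 5) (nat_lit 277) (nat_lit 274) (nat_lit 229))) (XT.nd (nat_lit 78) (nat_lit 0) (nat_lit 76) (XT.lf (nat_lit 0) (nat_lit 6696382812) (nat_lit 684) (nat_lit 720604028) (nat_lit 760) (nat_lit 6922007999)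 (nat_lit 83) (nat_lit 5) (nat_lit 92) (nat_lit 5) (nat_lit 93) (nat_lit 5) (nat_lit 278) (nat_lit 274) (nat_lit 228)) (XT.nd (nat_lit 78) (nat_lit 0) (nat_lit 0) (XT.lf (nat_lit 0) (nat_lit 8496654582) (nat_lit 684) (nat_lit 4633899075) (nat_lit 760) (nat_lit 1793678834) (nat_lit 84) (nat_lit 5) (nat_lit 93) (nat_lit 5) (nat_lit 94) (nat_lit 5) (nat_lit 279) (nat_lit 274) (nat_lit 227)) (XT.lf (nat_lit 76) (nat_lit 6702891991) (nat_lit 0) (nat_lit 3931884193) (nat_lit 760) (nat_lit 4911948768) (nat_lit 85) (nat_lit 5) (nat_lit 84) (nat_lit 5) (nat_lit 94) (nat_lit 5) (nat_lit 280) (nat_lit 274) (nat_lit 226))))) (XT.nd (nat_lit 156) (nat_lit 1140) (nat_lit 0) (XT.nd (nat_lit 78) (nat_lit 0) (nat_lit 0) (XT.lf (nat_lit 0) (nat_lit 2853976622) (nat_lit 684) (nat_lit 10264808833) (nat_lit 760) (nat_lit 3091607238) (nat_lit 76) (nat_lit 5) (nat_lit 85) (nat_lit 5) (nat_lit 86) (nat_lit 5)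 (nat_lit 281) (nat_lit 274) (nat_lit 225)) (XT.lf (nat_lit 0) (nat_lit 15697197741) (nat_lit 684) (nat_lit 280898858) (nat_lit 760) (nat_lit 940337252) (nat_lit 76) (nat_lit 5) (nat_lit 85) (nat_lit 5) (nat_lit 86) (nat_lit 5) (nat_lit 282) (nat_lit 274) (nat_lit 224))) (XT.nd (nat_lit 78) (nat_lit 684) (nat_lit 0) (XT.lf (nat_lit 0) (nat_lit 1656742114) (nat_lit 456) (nat_lit 5624268288) (nat_lit 76) (nat_lit 10385225742) (nat_lit 70) (nat_lit 5) (nat_lit 76) (nat_lit 5) (nat_lit 71) (nat_lit 5) (nat_lit 283) (nat_lit 274) (nat_lit 223)) (XT.nd (nat_lit 78) (nat_lit 304) (nat_lit 0) (XT.lf (nat_lit 0) (nat_lit 4600860012) (nat_lit 456) (nat_lit 10383697424) (nat_lit 76) (nat_lit 3480012608) (nat_lit 65) (nat_lit 5) (nat_lit 71) (nat_lit 5) (nat_lit 66) (nat_lit 5) (nat_lit 284) (nat_lit 274) (nat_lit 222)) (XT.lf (nat_lit 0) (nat_lit 3718966926) (nat_lit 304) (nat_lit 4306411130) (nat_lit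 380) (nat_lit 11289231515) (nat_lit 61) (nat_lit 5) (nat_lit 65) (nat_lit 5) (nat_lit 66) (nat_lit 5) (nat_lit 285) (nat_lit 274) (nat_lit 221)))))) (XT.nd (nat_lit 390) (nat_lit 1064) (nat_lit 0) (XT.nd (nat_lit 156) (nat_lit 608) (nat_lit 0) (XT.nd (nat_lit 78) (nat_lit 304) (nat_lit 0) (XT.lf (nat_lit 0) (nat_lit 11987024436) (nat_lit 380) (nat_lit 1055934821) (nat_lit 76) (nat_lit 7176610998) (nat_lit 61) (nat_lit 5) (nat_lit 66) (nat_lit 5) (nat_lit 62) (nat_lit 5) (nat_lit 286) (nat_lit 274) (nat_lit 220)) (XT.lf (nat_lit 0) (nat_lit 15020658863) (nat_lit 304) (nat_lit 1521059679) (nat_lit 380) (nat_lit 4641474140) (nat_lit 57) (nat_lit 5) (nat_lit 61) (nat_lit 5) (nat_lit 62) (nat_lit 5) (nat_lit 287) (nat_lit 274) (nat_lit 219))) (XT.nd (nat_lit 78) (nat_lit 380) (nat_lit 0) (XT.lf (nat_lit 0) (nat_lit 10323272910) (nat_lit 228) (nat_lit 11458630627) (nat_lit 304) (nat_lit 426011048)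 (nat_lit 54) (nat_lit 5) (nat_lit 57) (nat_lit 5) (nat_lit 58) (nat_lit 5) (nat_lit 288) (nat_lit 274) (nat_lit 218)) (XT.nd (nat_lit 78) (nat_lit 0) (nat_lit 0) (XT.lf (nat_lit 0) (nat_lit 4194436819) (nat_lit 380) (nat_lit 18240659509) (nat_lit 76) (nat_lit 866362792) (nat_lit 49) (nat_lit 5) (nat_lit 54) (nat_lit 5) (nat_lit 50) (nat_lit 5) (nat_lit 289) (nat_lit 274) (nat_lit 217)) (XT.lf (nat_lit 0) (nat_lit 9546768347) (nat_lit 380) (nat_lit 923368297) (nat_lit 76) (nat_lit 13993196167) (nat_lit 49) (nat_lit 5) (nat_lit 54) (nat_lit 5) (nat_lit 50) (nat_lit 5) (nat_lit 290) (nat_lit 274) (nat_lit 216))))) (XT.nd (nat_lit 234) (nat_lit 380) (nat_lit 0) (XT.nd (nat_lit 78) (nat_lit 456) (nat_lit 0) (XT.lf (nat_lit 0) (nat_lit 15631737686) (nat_lit 304) (nat_lit 7413079638) (nat_lit 76) (nat_lit 2658165992) (nat_lit 46) (nat_lit 5) (nat_lit 50) (nat_lit 5) (nat_lit 47) (nat_lit 5)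 (nat_lit 291) (nat_lit 274) (nat_lit 215)) (XT.nd (nat_lit 78) (nat_lit 228) (nat_lit 0) (XT.lf (nat_lit 0) (nat_lit 12215398480) (nat_lit 228) (nat_lit 10348294589) (nat_lit 304) (nat_lit 4460149184) (nat_lit 43) (nat_lit 5) (nat_lit 46) (nat_lit 5) (nat_lit 47) (nat_lit 5) (nat_lit 292) (nat_lit 274) (nat_lit 214)) (XT.lf (nat_lit 0) (nat_lit 1797160014) (nat_lit 228) (nat_lit 23147234401) (nat_lit 76) (nat_lit 3492340511) (nat_lit 40) (nat_lit 5) (nat_lit 43) (nat_lit 5) (nat_lit 41) (nat_lit 5) (nat_lit 293) (nat_lit 274) (nat_lit 213)))) (XT.nd (nat_lit 78) (nat_lit 380) (nat_lit 0) (XT.lf (nat_lit 0) (nat_lit 8816096369) (nat_lit 228) (nat_lit 2709674428) (nat_lit 76) (nat_lit 18412404551) (nat_lit 40) (nat_lit 5) (nat_lit 43) (nat_lit 5) (nat_lit 41) (nat_lit 5) (nat_lit 294) (nat_lit 274) (nat_lit 212)) (XT.nd (nat_lit 78) (nat_lit 152) (nat_lit 0) (XT.lf (nat_lit 0) (nat_lit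 16739835315) (nat_lit 304) (nat_lit 11622117296) (nat_lit 76) (nat_lit 3180648646) (nat_lit 37) (nat_lit 5) (nat_lit 41) (nat_lit 5) (nat_lit 38) (nat_lit 5) (nat_lit 295) (nat_lit 274) (nat_lit 211)) (XT.lf (nat_lit 0) (nat_lit 11324650633) (nat_lit 152) (nat_lit 14373017509) (nat_lit 228) (nat_lit 7557735433) (nat_lit 35) (nat_lit 5) (nat_lit 37) (nat_lit 5) (nat_lit 38) (nat_lit 5) (nat_lit 296) (nat_lit 274) (nat_lit 210))))))))
noncomputable def xc76 : XT := (XT.nd (nat_lit 1560) (nat_lit 532) (nat_lit 0) (XT.nd (nat_lit 780) (nat_lit 684) (nat_lit 0) (XT.nd (nat_lit 390) (nat_lit 532) (nat_lit 0) (XT.nd (nat_lit 156) (nat_lit 304) (nat_lit 0) (XT.nd (nat_lit 78) (nat_lit 0) (nat_lit 0) (XT.lf (nat_lit 0) (nat_lit 483471015) (nat_lit 304) (nat_lit 33670988644) (nat_lit 76) (nat_lit 939334557) (nat_lit 31) (nat_lit 5) (nat_lit 35) (nat_lit 5) (nat_lit 32) (nat_lit 5) (nat_lit 297)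 (nat_lit 274) (nat_lit 209)) (XT.lf (nat_lit 0) (nat_lit 9519918724) (nat_lit 304) (nat_lit 10034934334) (nat_lit 76) (nat_lit 17487397826) (nat_lit 31) (nat_lit 5) (nat_lit 35) (nat_lit 5) (nat_lit 32) (nat_lit 5) (nat_lit 298) (nat_lit 274) (nat_lit 208))) (XT.nd (nat_lit 78) (nat_lit 152) (nat_lit 0) (XT.lf (nat_lit 0) (nat_lit 15978879251) (nat_lit 152) (nat_lit 3533723955) (nat_lit 228) (nat_lit 19622339080) (nat_lit 29) (nat_lit 5) (nat_lit 31) (nat_lit 5) (nat_lit 32) (nat_lit 5) (nat_lit 299) (nat_lit 274) (nat_lit 207)) (XT.nd (nat_lit 78) (nat_lit 0) (nat_lit 0) (XT.lf (nat_lit 0) (nat_lit 2896558048) (nat_lit 152) (nat_lit 27830558128) (nat_lit 228) (nat_lit 10646834588) (nat_lit 27) (nat_lit 5) (nat_lit 29) (nat_lit 5) (nat_lit 30) (nat_lit 5) (nat_lit 300) (nat_lit 274) (nat_lit 206)) (XT.lf (nat_lit 0) (nat_lit 31775634996) (nat_lit 152) (nat_lit 11510475334) (nat_lit 228)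 (nat_lit 483624374) (nat_lit 27) (nat_lit 5) (nat_lit 29) (nat_lit 5) (nat_lit 30) (nat_lit 5) (nat_lit 301) (nat_lit 274) (nat_lit 205))))) (XT.nd (nat_lit 156) (nat_lit 304) (nat_lit 0) (XT.nd (nat_lit 78) (nat_lit 0) (nat_lit 0) (XT.lf (nat_lit 0) (nat_lit 10510242009) (nat_lit 228) (nat_lit 29473664350) (nat_lit 76) (nat_lit 6347430883) (nat_lit 24) (nat_lit 5) (nat_lit 27) (nat_lit 5) (nat_lit 25) (nat_lit 5) (nat_lit 302) (nat_lit 274) (nat_lit 204)) (XT.lf (nat_lit 0) (nat_lit 22760096160) (nat_lit 228) (nat_lit 868656862) (nat_lit 76) (nat_lit 25449064406) (nat_lit 24) (nat_lit 5) (nat_lit 27) (nat_lit 5) (nat_lit 25) (nat_lit 5) (nat_lit 303) (nat_lit 274) (nat_lit 203))) (XT.nd (nat_lit 78) (nat_lit 152) (nat_lit 0) (XT.lf (nat_lit 0) (nat_lit 30996977161) (nat_lit 152) (nat_lit 5464645964) (nat_lit 228) (nat_lit 15558824398) (nat_lit 22) (nat_lit 5) (nat_lit 24) (nat_lit 5)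 (nat_lit 25) (nat_lit 5) (nat_lit 304) (nat_lit 274) (nat_lit 202)) (XT.nd (nat_lit 78) (nat_lit 76) (nat_lit 0) (XT.lf (nat_lit 0) (nat_lit 10335242826) (nat_lit 76) (nat_lit 41309964372) (nat_lit 152) (nat_lit 3533998634) (nat_lit 21) (nat_lit 5) (nat_lit 22) (nat_lit 5) (nat_lit 23) (nat_lit 4) (nat_lit 305) (nat_lit 274) (nat_lit 201)) (XT.lf (nat_lit 0) (nat_lit 9603242837) (nat_lit 152) (nat_lit 13883723967) (nat_lit 76) (nat_lit 35073682652) (nat_lit 20) (nat_lit 5) (nat_lit 22) (nat_lit 5) (nat_lit 21) (nat_lit 5) (nat_lit 306) (nat_lit 274) (nat_lit 200)))))) (XT.nd (nat_lit 390) (nat_lit 228) (nat_lit 0) (XT.nd (nat_lit 156) (nat_lit 304) (nat_lit 0) (XT.nd (nat_lit 78) (nat_lit 0) (nat_lit 0) (XT.lf (nat_lit 0) (nat_lit 20120090864) (nat_lit 152) (nat_lit 3852804168) (nat_lit 228) (nat_lit 38221566427) (nat_lit 18) (nat_lit 5) (nat_lit 20) (nat_lit 5) (nat_lit 21) (nat_lit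 5) (nat_lit 307) (nat_lit 274) (nat_lit 199)) (XT.lf (nat_lit 0) (nat_lit 39998714543) (nat_lit 228) (nat_lit 9059033269) (nat_lit 76) (nat_lit 17035911856) (nat_lit 18) (nat_lit 5) (nat_lit 21) (nat_lit 5) (nat_lit 19) (nat_lit 4) (nat_lit 308) (nat_lit 274) (nat_lit 198))) (XT.nd (nat_lit 78) (nat_lit 228) (nat_lit 0) (XT.lf (nat_lit 0) (nat_lit 27393340502) (nat_lit 76) (nat_lit 30396531768) (nat_lit 152) (nat_lit 12490768018) (nat_lit 17) (nat_lit 5) (nat_lit 18) (nat_lit 5) (nat_lit 19) (nat_lit 4) (nat_lit 309) (nat_lit 274) (nat_lit 197)) (XT.nd (nat_lit 78) (nat_lit 152) (nat_lit 0) (XT.lf (nat_lit 0) (nat_lit 2282584351) (nat_lit 152) (nat_lit 7761849965) (nat_lit 76) (nat_lit 64748869723) (nat_lit 16) (nat_lit 5) (nat_lit 18) (nat_lit 5) (nat_lit 17) (nat_lit 5) (nat_lit 310) (nat_lit 274) (nat_lit 196)) (XT.lf (nat_lit 0) (nat_lit 18478303952) (nat_lit 228) (nat_lit 48891544085)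 (nat_lit 76) (nat_lit 12252997105) (nat_lit 14) (nat_lit 5) (nat_lit 17) (nat_lit 5) (nat_lit 15) (nat_lit 4) (nat_lit 311) (nat_lit 274) (nat_lit 195))))) (XT.nd (nat_lit 156) (nat_lit 152) (nat_lit 0) (XT.nd (nat_lit 78) (nat_lit 76) (nat_lit 0) (XT.lf (nat_lit 0) (nat_lit 36268381448) (nat_lit 228) (nat_lit 12436627490) (nat_lit 76) (nat_lit 36118813278) (nat_lit 14) (nat_lit 5) (nat_lit 17) (nat_lit 5) (nat_lit 15) (nat_lit 4) (nat_lit 312) (nat_lit 274) (nat_lit 194)) (XT.lf (nat_lit 0) (nat_lit 27811747224) (nat_lit 76) (nat_lit 28096646403) (nat_lit 152) (nat_lit 34511154538) (nat_lit 13) (nat_lit 5) (nat_lit 14) (nat_lit 5) (nat_lit 15) (nat_lit 4) (nat_lit 313) (nat_lit 274) (nat_lit 193))) (XT.nd (nat_lit 78) (nat_lit 152) (nat_lit 0) (XT.lf (nat_lit 0) (nat_lit 71711583715) (nat_lit 76) (nat_lit 5617529724) (nat_lit 152) (nat_lit 19123350021) (nat_lit 13) (nat_lit 5) (nat_lit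 14) (nat_lit 5) (nat_lit 15) (nat_lit 4) (nat_lit 314) (nat_lit 274) (nat_lit 192)) (XT.nd (nat_lit 78) (nat_lit 76) (nat_lit 0) (XT.lf (nat_lit 0) (nat_lit 16376359886) (nat_lit 76) (nat_lit 84627464446) (nat_lit 76) (nat_lit 1937177086) (nat_lit 12) (nat_lit 4) (nat_lit 13) (nat_lit 5) (nat_lit 13) (nat_lit 4) (nat_lit 315) (nat_lit 274) (nat_lit 191)) (XT.lf (nat_lit 0) (nat_lit 16618105653) (nat_lit 152) (nat_lit 48633490780) (nat_lit 76) (nat_lit 44657739883) (nat_lit 11) (nat_lit 5) (nat_lit 13) (nat_lit 5) (nat_lit 12) (nat_lit 4) (nat_lit 316) (nat_lit 274) (nat_lit 190))))))) (XT.nd (nat_lit 780) (nat_lit 228) (nat_lit 0) (XT.nd (nat_lit 390) (nat_lit 152) (nat_lit 0) (XT.nd (nat_lit 156) (nat_lit 76) (nat_lit 0) (XT.nd (nat_lit 78) (nat_lit 76) (nat_lit 0) (XT.lf (nat_lit 0) (nat_lit 36584855770) (nat_lit 152) (nat_lit 7711208604) (nat_lit 76) (nat_lit 73137745072) (nat_lit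 11) (nat_lit 5) (nat_lit 13) (nat_lit 5) (nat_lit 12) (nat_lit 4) (nat_lit 317) (nat_lit 274) (nat_lit 189)) (XT.lf (nat_lit 0) (nat_lit 37680978814) (nat_lit 76) (nat_lit 21050723377) (nat_lit 152) (nat_lit 66799405045) (nat_lit 10) (nat_lit 5) (nat_lit 11) (nat_lit 5) (nat_lit 12) (nat_lit 4) (nat_lit 318) (nat_lit 274) (nat_lit 188))) (XT.nd (nat_lit 78) (nat_lit 76) (nat_lit 0) (XT.lf (nat_lit 0) (nat_lit 82844769165) (nat_lit 152) (nat_lit 47364743575) (nat_lit 0) (nat_lit 4056956748) (nat_lit 10) (nat_lit 5) (nat_lit 12) (nat_lit 4) (nat_lit 10) (nat_lit 4) (nat_lit 319) (nat_lit 274) (nat_lit 187)) (XT.nd (nat_lit 78) (nat_lit 76) (nat_lit 0) (XT.lf (nat_lit 0) (nat_lit 109236879956) (nat_lit 152) (nat_lit 4004441565) (nat_lit 0) (nat_lit 30441843239) (nat_lit 10) (nat_lit 5) (nat_lit 12) (nat_lit 4) (nat_lit 10) (nat_lit 4) (nat_lit 320) (nat_lit 274) (nat_lit 186)) (XT.lf (nat_lit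 0) (nat_lit 44232091491) (nat_lit 76) (nat_lit 94194266888) (nat_lit 76) (nat_lit 15392541004) (nat_lit 9) (nat_lit 4) (nat_lit 10) (nat_lit 5) (nat_lit 10) (nat_lit 4) (nat_lit 321) (nat_lit 274) (nat_lit 185))))) (XT.nd (nat_lit 156) (nat_lit 76) (nat_lit 0) (XT.nd (nat_lit 78) (nat_lit 0) (nat_lit 0) (XT.lf (nat_lit 0) (nat_lit 5085985013) (nat_lit 152) (nat_lit 68381650280) (nat_lit 76) (nat_lit 91290490151) (nat_lit 8) (nat_lit 5) (nat_lit 10) (nat_lit 5) (nat_lit 9) (nat_lit 4) (nat_lit 322) (nat_lit 274) (nat_lit 184)) (XT.lf (nat_lit 0) (nat_lit 26666605355) (nat_lit 152) (nat_lit 24147113462) (nat_lit 76) (nat_lit 125746002337) (nat_lit 8) (nat_lit 5) (nat_lit 10) (nat_lit 5) (nat_lit 9) (nat_lit 4) (nat_lit 323) (nat_lit 274) (nat_lit 183))) (XT.nd (nat_lit 78) (nat_lit 0) (nat_lit 0) (XT.lf (nat_lit 0) (nat_lit 24400213053) (nat_lit 76) (nat_lit 25950605273) (nat_lit 152) (nat_lit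 138935771817) (nat_lit 7) (nat_lit 5) (nat_lit 8) (nat_lit 5) (nat_lit 9) (nat_lit 4) (nat_lit 324) (nat_lit 274) (nat_lit 182)) (XT.nd (nat_lit 78) (nat_lit 0) (nat_lit 0) (XT.lf (nat_lit 0) (nat_lit 76367686227) (nat_lit 152) (nat_lit 125344705972) (nat_lit 0) (nat_lit 1297323128) (nat_lit 7) (nat_lit 5) (nat_lit 9) (nat_lit 4) (nat_lit 7) (nat_lit 4) (nat_lit 325) (nat_lit 274) (nat_lit 181)) (XT.lf (nat_lit 0) (nat_lit 104900070196) (nat_lit 152) (nat_lit 83083543027) (nat_lit 0) (nat_lit 29825371349) (nat_lit 7) (nat_lit 5) (nat_lit 9) (nat_lit 4) (nat_lit 7) (nat_lit 4) (nat_lit 326) (nat_lit 274) (nat_lit 180)))))) (XT.nd (nat_lit 390) (nat_lit 152) (nat_lit 0) (XT.nd (nat_lit 156) (nat_lit 0) (nat_lit 0) (XT.nd (nat_lit 78) (nat_lit 76) (nat_lit 0) (XT.lf (nat_lit 0) (nat_lit 135711889352) (nat_lit 152) (nat_lit 37447290059) (nat_lit 0) (nat_lit 60633175924) (nat_lit 7) (nat_lit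 5) (nat_lit 9) (nat_lit 4) (nat_lit 7) (nat_lit 4) (nat_lit 327) (nat_lit 274) (nat_lit 179)) (XT.lf (nat_lit 0) (nat_lit 12225791669) (nat_lit 76) (nat_lit 156950819454) (nat_lit 76) (nat_lit 81868388821) (nat_lit 6) (nat_lit 4) (nat_lit 7) (nat_lit 5) (nat_lit 7) (nat_lit 4) (nat_lit 328) (nat_lit 274) (nat_lit 178))) (XT.nd (nat_lit 78) (nat_lit 0) (nat_lit 0) (XT.lf (nat_lit 0) (nat_lit 67204810936) (nat_lit 76) (nat_lit 138763221731) (nat_lit 76) (nat_lit 63677349242) (nat_lit 6) (nat_lit 4) (nat_lit 7) (nat_lit 5) (nat_lit 7) (nat_lit 4) (nat_lit 329) (nat_lit 274) (nat_lit 177)) (XT.nd (nat_lit 78) (nat_lit 0) (nat_lit 0) (XT.lf (nat_lit 0) (nat_lit 126577392809) (nat_lit 76) (nat_lit 119122795863) (nat_lit 76) (nat_lit 44033736470) (nat_lit 6) (nat_lit 4) (nat_lit 7) (nat_lit 5) (nat_lit 7) (nat_lit 4) (nat_lit 330) (nat_lit 274) (nat_lit 176)) (XT.lf (nat_lit 0) (nat_lit 190695374811)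 (nat_lit 76) (nat_lit 97913154140) (nat_lit 76) (nat_lit 22821143911) (nat_lit 6) (nat_lit 4) (nat_lit 7) (nat_lit 5) (nat_lit 7) (nat_lit 4) (nat_lit 331) (nat_lit 274) (nat_lit 175))))) (XT.nd (nat_lit 156) (nat_lit 76) (nat_lit 0) (XT.nd (nat_lit 78) (nat_lit 0) (nat_lit 0) (XT.lf (nat_lit 0) (nat_lit 83375903) (nat_lit 152) (nat_lit 74923821884) (nat_lit 76) (nat_lit 259853927440) (nat_lit 5) (nat_lit 5) (nat_lit 7) (nat_lit 5) (nat_lit 6) (nat_lit 4) (nat_lit 332) (nat_lit 274) (nat_lit 174)) (XT.lf (nat_lit 0) (nat_lit 24029322236) (nat_lit 152) (nat_lit 25837161767) (nat_lit 76) (nat_lit 310281474909) (nat_lit 5) (nat_lit 5) (nat_lit 7) (nat_lit 5) (nat_lit 6) (nat_lit 4) (nat_lit 333) (nat_lit 274) (nat_lit 173))) (XT.nd (nat_lit 78) (nat_lit 0) (nat_lit 0) (XT.lf (nat_lit 0) (nat_lit 28071325960) (nat_lit 76) (nat_lit 22255962225) (nat_lit 152) (nat_lit 337108635137) (nat_lit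 4) (nat_lit 5) (nat_lit 5) (nat_lit 5) (nat_lit 6) (nat_lit 4) (nat_lit 334) (nat_lit 274) (nat_lit 172)) (XT.nd (nat_lit 78) (nat_lit 0) (nat_lit 0) (XT.lf (nat_lit 0) (nat_lit 79302759088) (nat_lit 152) (nat_lit 329798232815) (nat_lit 0) (nat_lit 7777250731) (nat_lit 4) (nat_lit 5) (nat_lit 6) (nat_lit 4) (nat_lit 4) (nat_lit 4) (nat_lit 335) (nat_lit 274) (nat_lit 171)) (XT.lf (nat_lit 0) (nat_lit 110969818798) (nat_lit 152) (nat_lit 298245054403) (nat_lit 0) (nat_lit 39442397783) (nat_lit 4) (nat_lit 5) (nat_lit 6) (nat_lit 4) (nat_lit 4) (nat_lit 4) (nat_lit 336) (nat_lit 274) (nat_lit 170))))))))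
noncomputable def xc77 : XT := (XT.nd (nat_lit 36660) (nat_lit 0) (nat_lit 1368) (XT.nd (nat_lit 35880) (nat_lit 0) (nat_lit 4712) (XT.nd (nat_lit 390) (nat_lit 76) (nat_lit 0) (XT.nd (nat_lit 156) (nat_lit 0) (nat_lit 0) (XT.nd (nat_lit 78) (nat_lit 0) (nat_lit 0) (XT.lf (nat_lit 0) (nat_lit 145168646022) (nat_lit 152) (nat_lit 264170602385) (nat_lit 0) (nat_lit 73639454029) (nat_lit 4) (nat_lit 5) (nat_lit 6) (nat_lit 4) (nat_lit 4) (nat_lit 4) (nat_lit 337) (nat_lit 274) (nat_lit 169)) (XT.lf (nat_lit 0) (nat_lit 182101900478) (nat_lit 152) (nat_lit 227372954083) (nat_lit 0) (nat_lit 110571068689) (nat_lit 4) (nat_lit 5) (nat_lit 6) (nat_lit 4) (nat_lit 4) (nat_lit 4) (nat_lit 338) (nat_lit 274) (nat_lit 168))) (XT.nd (nat_lit 78) (nat_lit 0) (nat_lit 0) (XT.lf (nat_lit 0) (nat_lit 221988445896) (nat_lit 152) (nat_lit 187634049359) (nat_lit 0) (nat_lit 150456095778) (nat_lit 4) (nat_lit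 5) (nat_lit 6) (nat_lit 4) (nat_lit 4) (nat_lit 4) (nat_lit 339) (nat_lit 274) (nat_lit 167)) (XT.nd (nat_lit 78) (nat_lit 0) (nat_lit 0) (XT.lf (nat_lit 0) (nat_lit 265064646989) (nat_lit 152) (nat_lit 144718398407) (nat_lit 0) (nat_lit 193530891011) (nat_lit 4) (nat_lit 5) (nat_lit 6) (nat_lit 4) (nat_lit 4) (nat_lit 4) (nat_lit 340) (nat_lit 274) (nat_lit 166)) (XT.lf (nat_lit 0) (nat_lit 311585770134) (nat_lit 152) (nat_lit 98371686259) (nat_lit 0) (nat_lit 240050712434) (nat_lit 4) (nat_lit 5) (nat_lit 6) (nat_lit 4) (nat_lit 4) (nat_lit 4) (nat_lit 341) (nat_lit 274) (nat_lit 165))))) (XT.nd (nat_lit 156) (nat_lit 0) (nat_lit 0) (XT.nd (nat_lit 78) (nat_lit 76) (nat_lit 0) (XT.lf (nat_lit 0) (nat_lit 361827496062) (nat_lit 152) (nat_lit 48319265731) (nat_lit 0) (nat_lit 290291233063) (nat_lit 4) (nat_lit 5) (nat_lit 6) (nat_lit 4) (nat_lit 4) (nat_lit 4) (nat_lit 342) (nat_lit 274)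 (nat_lit 164)) (XT.lf (nat_lit 0) (nat_lit 5925110656) (nat_lit 76) (nat_lit 410254950443) (nat_lit 76) (nat_lit 338717571428) (nat_lit 3) (nat_lit 4) (nat_lit 4) (nat_lit 5) (nat_lit 4) (nat_lit 4) (nat_lit 343) (nat_lit 274) (nat_lit 163))) (XT.nd (nat_lit 78) (nat_lit 0) (nat_lit 0) (XT.lf (nat_lit 0) (nat_lit 66232705851) (nat_lit 76) (nat_lit 409488855886) (nat_lit 76) (nat_lit 337950443521) (nat_lit 3) (nat_lit 4) (nat_lit 4) (nat_lit 5) (nat_lit 4) (nat_lit 4) (nat_lit 344) (nat_lit 274) (nat_lit 162)) (XT.nd (nat_lit 35178) (nat_lit 0) (nat_lit 5928) (XT.lf (nat_lit 0) (nat_lit 131363245054) (nat_lit 76) (nat_lit 408662248447) (nat_lit 76) (nat_lit 337122879278) (nat_lit 3) (nat_lit 4) (nat_lit 4) (nat_lit 5) (nat_lit 4) (nat_lit 4) (nat_lit 345) (nat_lit 274) (nat_lit 161)) (XT.lf (nat_lit 0) (nat_lit 880219085) (nat_lit 0) (nat_lit 880219085) (nat_lit 684) (nat_lit 4866684758)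 (nat_lit 81) (nat_lit 5) (nat_lit 81) (nat_lit 3) (nat_lit 90) (nat_lit 3) (nat_lit 275) (nat_lit 275) (nat_lit 230)))))) (XT.nd (nat_lit 390) (nat_lit 1216) (nat_lit 0) (XT.nd (nat_lit 156) (nat_lit 0) (nat_lit 76) (XT.nd (nat_lit 78) (nat_lit 0) (nat_lit 76) (XT.lf (nat_lit 0) (nat_lit 4340194765) (nat_lit 684) (nat_lit 2263412755) (nat_lit 760) (nat_lit 7145401035) (nat_lit 81) (nat_lit 5) (nat_lit 90) (nat_lit 3) (nat_lit 91) (nat_lit 5) (nat_lit 276) (nat_lit 275) (nat_lit 229)) (XT.lf (nat_lit 0) (nat_lit 5362324322) (nat_lit 684) (nat_lit 6421948204) (nat_lit 760) (nat_lit 2492364825) (nat_lit 82) (nat_lit 5) (nat_lit 91) (nat_lit 5) (nat_lit 92) (nat_lit 5) (nat_lit 277) (nat_lit 275) (nat_lit 228))) (XT.nd (nat_lit 78) (nat_lit 0) (nat_lit 76) (XT.lf (nat_lit 76) (nat_lit 4001330156) (nat_lit 0) (nat_lit 2626891672) (nat_lit 760) (nat_lit 8210292124) (nat_lit 83) (nat_lit 5)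 (nat_lit 82) (nat_lit 5) (nat_lit 92) (nat_lit 5) (nat_lit 278) (nat_lit 275) (nat_lit 227)) (XT.nd (nat_lit 78) (nat_lit 0) (nat_lit 76) (XT.lf (nat_lit 0) (nat_lit 8174198938) (nat_lit 684) (nat_lit 101851893) (nat_lit 760) (nat_lit 7160476660) (nat_lit 83) (nat_lit 5) (nat_lit 92) (nat_lit 5) (nat_lit 93) (nat_lit 5) (nat_lit 279) (nat_lit 275) (nat_lit 226)) (XT.lf (nat_lit 0) (nat_lit 10055132905) (nat_lit 684) (nat_lit 4307511664) (nat_lit 760) (nat_lit 1709291390) (nat_lit 84) (nat_lit 5) (nat_lit 93) (nat_lit 5) (nat_lit 94) (nat_lit 5) (nat_lit 280) (nat_lit 275) (nat_lit 225))))) (XT.nd (nat_lit 156) (nat_lit 836) (nat_lit 0) (XT.nd (nat_lit 78) (nat_lit 608) (nat_lit 0) (XT.lf (nat_lit 76) (nat_lit 7905927599) (nat_lit 0) (nat_lit 4403695026) (nat_lit 760) (nat_lit 4437509483) (nat_lit 85) (nat_lit 5) (nat_lit 84) (nat_lit 5) (nat_lit 94) (nat_lit 5) (nat_lit 281) (nat_lit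 275) (nat_lit 224)) (XT.lf (nat_lit 0) (nat_lit 3763916804) (nat_lit 684) (nat_lit 11175762661) (nat_lit 760) (nat_lit 2527005062) (nat_lit 76) (nat_lit 5) (nat_lit 85) (nat_lit 5) (nat_lit 86) (nat_lit 5) (nat_lit 282) (nat_lit 275) (nat_lit 223))) (XT.nd (nat_lit 78) (nat_lit 836) (nat_lit 0) (XT.lf (nat_lit 0) (nat_lit 17584105091) (nat_lit 684) (nat_lit 386490324) (nat_lit 760) (nat_lit 263776496) (nat_lit 76) (nat_lit 5) (nat_lit 85) (nat_lit 5) (nat_lit 86) (nat_lit 5) (nat_lit 283) (nat_lit 275) (nat_lit 222)) (XT.nd (nat_lit 78) (nat_lit 380) (nat_lit 0) (XT.lf (nat_lit 0) (nat_lit 2472049888) (nat_lit 456) (nat_lit 5409175789) (nat_lit 76) (nat_lit 11162562389) (nat_lit 70) (nat_lit 5) (nat_lit 76) (nat_lit 5) (nat_lit 71) (nat_lit 5) (nat_lit 284) (nat_lit 275) (nat_lit 221)) (XT.lf (nat_lit 0) (nat_lit 5610960032) (nat_lit 456) (nat_lit 10544571628) (nat_lit 76) (nat_lit 3752613029)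 (nat_lit 65) (nat_lit 5) (nat_lit 71) (nat_lit 5) (nat_lit 66) (nat_lit 5) (nat_lit 285) (nat_lit 275) (nat_lit 220))))))) (XT.nd (nat_lit 780) (nat_lit 1444) (nat_lit 0) (XT.nd (nat_lit 390) (nat_lit 684) (nat_lit 0) (XT.nd (nat_lit 156) (nat_lit 912) (nat_lit 0) (XT.nd (nat_lit 78) (nat_lit 0) (nat_lit 0) (XT.lf (nat_lit 0) (nat_lit 4657196240) (nat_lit 304) (nat_lit 4614688721) (nat_lit 380) (nat_lit 11556290471) (nat_lit 61) (nat_lit 5) (nat_lit 65) (nat_lit 5) (nat_lit 66) (nat_lit 5) (nat_lit 286) (nat_lit 275) (nat_lit 219)) (XT.lf (nat_lit 0) (nat_lit 13506210831) (nat_lit 380) (nat_lit 518419672) (nat_lit 76) (nat_lit 7783217233) (nat_lit 61) (nat_lit 5) (nat_lit 66) (nat_lit 5) (nat_lit 62) (nat_lit 5) (nat_lit 287) (nat_lit 275) (nat_lit 218))) (XT.nd (nat_lit 78) (nat_lit 608) (nat_lit 0) (XT.lf (nat_lit 0) (nat_lit 16817270582) (nat_lit 304) (nat_lit 1575800754) (nat_lit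 380) (nat_lit 4457193663) (nat_lit 57) (nat_lit 5) (nat_lit 61) (nat_lit 5) (nat_lit 62) (nat_lit 5) (nat_lit 288) (nat_lit 275) (nat_lit 217)) (XT.nd (nat_lit 78) (nat_lit 304) (nat_lit 0) (XT.lf (nat_lit 0) (nat_lit 63028860) (nat_lit 304) (nat_lit 12215889801) (nat_lit 76) (nat_lit 11679525888) (nat_lit 53) (nat_lit 5) (nat_lit 57) (nat_lit 5) (nat_lit 54) (nat_lit 5) (nat_lit 289) (nat_lit 275) (nat_lit 216)) (XT.lf (nat_lit 0) (nat_lit 5011525290) (nat_lit 380) (nat_lit 19090877070) (nat_lit 76) (nat_lit 1038131425) (nat_lit 49) (nat_lit 5) (nat_lit 54) (nat_lit 5) (nat_lit 50) (nat_lit 5) (nat_lit 290) (nat_lit 275) (nat_lit 215))))) (XT.nd (nat_lit 156) (nat_lit 456) (nat_lit 0) (XT.nd (nat_lit 78) (nat_lit 228) (nat_lit 0) (XT.lf (nat_lit 0) (nat_lit 10756374190) (nat_lit 380) (nat_lit 433316279) (nat_lit 76) (nat_lit 15207521870) (nat_lit 49) (nat_lit 5) (nat_lit 54) (nat_lit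 5) (nat_lit 50) (nat_lit 5) (nat_lit 291) (nat_lit 275) (nat_lit 214)) (XT.lf (nat_lit 0) (nat_lit 17305380583) (nat_lit 304) (nat_lit 7446665975) (nat_lit 76) (nat_lit 2985192564) (nat_lit 46) (nat_lit 5) (nat_lit 50) (nat_lit 5) (nat_lit 47) (nat_lit 5) (nat_lit 292) (nat_lit 275) (nat_lit 213))) (XT.nd (nat_lit 78) (nat_lit 228) (nat_lit 0) (XT.lf (nat_lit 0) (nat_lit 13727776941) (nat_lit 228) (nat_lit 11041129565) (nat_lit 304) (nat_lit 4396070871) (nat_lit 43) (nat_lit 5) (nat_lit 46) (nat_lit 5) (nat_lit 47) (nat_lit 5) (nat_lit 293) (nat_lit 275) (nat_lit 212)) (XT.nd (nat_lit 78) (nat_lit 0) (nat_lit 0) (XT.lf (nat_lit 0) (nat_lit 2328563120) (nat_lit 228) (nat_lit 24455777817) (nat_lit 76) (nat_lit 3907275468) (nat_lit 40) (nat_lit 5) (nat_lit 43) (nat_lit 5) (nat_lit 41) (nat_lit 5) (nat_lit 294) (nat_lit 275) (nat_lit 211)) (XT.lf (nat_lit 0) (nat_lit 9880301028) (nat_lit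 228) (nat_lit 2423452700) (nat_lit 76) (nat_lit 20010904059) (nat_lit 40) (nat_lit 5) (nat_lit 43) (nat_lit 5) (nat_lit 41) (nat_lit 5) (nat_lit 295) (nat_lit 275) (nat_lit 210)))))) (XT.nd (nat_lit 390) (nat_lit 608) (nat_lit 0) (XT.nd (nat_lit 156) (nat_lit 456) (nat_lit 0) (XT.nd (nat_lit 78) (nat_lit 152) (nat_lit 0) (XT.lf (nat_lit 0) (nat_lit 18421070523) (nat_lit 304) (nat_lit 12055385059) (nat_lit 76) (nat_lit 3571871968) (nat_lit 37) (nat_lit 5) (nat_lit 41) (nat_lit 5) (nat_lit 38) (nat_lit 5) (nat_lit 296) (nat_lit 275) (nat_lit 209)) (XT.lf (nat_lit 0) (nat_lit 12705546949) (nat_lit 152) (nat_lit 15372061008) (nat_lit 228) (nat_lit 7821485114) (nat_lit 35) (nat_lit 5) (nat_lit 37) (nat_lit 5) (nat_lit 38) (nat_lit 5) (nat_lit 297) (nat_lit 275) (nat_lit 208))) (XT.nd (nat_lit 78) (nat_lit 152) (nat_lit 0) (XT.lf (nat_lit 0) (nat_lit 837309535) (nat_lit 304) (nat_lit 35885726271)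 (nat_lit 76) (nat_lit 1162030827) (nat_lit 31) (nat_lit 5) (nat_lit 35) (nat_lit 5) (nat_lit 32) (nat_lit 5) (nat_lit 298) (nat_lit 275) (nat_lit 207)) (XT.nd (nat_lit 78) (nat_lit 152) (nat_lit 0) (XT.lf (nat_lit 0) (nat_lit 10573327813) (nat_lit 304) (nat_lit 10394264761) (nat_lit 76) (nat_lit 19023009565) (nat_lit 31) (nat_lit 5) (nat_lit 35) (nat_lit 5) (nat_lit 32) (nat_lit 5) (nat_lit 299) (nat_lit 275) (nat_lit 206)) (XT.lf (nat_lit 0) (nat_lit 17681381491) (nat_lit 152) (nat_lit 3669052417) (nat_lit 228) (nat_lit 20901057049) (nat_lit 29) (nat_lit 5) (nat_lit 31) (nat_lit 5) (nat_lit 32) (nat_lit 5) (nat_lit 300) (nat_lit 275) (nat_lit 205))))) (XT.nd (nat_lit 234) (nat_lit 228) (nat_lit 0) (XT.nd (nat_lit 78) (nat_lit 228) (nat_lit 0) (XT.lf (nat_lit 0) (nat_lit 3545466438) (nat_lit 152) (nat_lit 29904779937) (nat_lit 228) (nat_lit 11219996861) (nat_lit 27) (nat_lit 5) (nat_lit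 29) (nat_lit 5) (nat_lit 30) (nat_lit 5) (nat_lit 301) (nat_lit 275) (nat_lit 204)) (XT.nd (nat_lit 78) (nat_lit 228) (nat_lit 0) (XT.lf (nat_lit 0) (nat_lit 34703967041) (nat_lit 152) (nat_lit 12290366285) (nat_lit 228) (nat_lit 264365718) (nat_lit 27) (nat_lit 5) (nat_lit 29) (nat_lit 5) (nat_lit 30) (nat_lit 5) (nat_lit 302) (nat_lit 275) (nat_lit 203)) (XT.lf (nat_lit 0) (nat_lit 11590350714) (nat_lit 228) (nat_lit 31443883657) (nat_lit 76) (nat_lit 6991338745) (nat_lit 24) (nat_lit 5) (nat_lit 27) (nat_lit 5) (nat_lit 25) (nat_lit 5) (nat_lit 303) (nat_lit 275) (nat_lit 202)))) (XT.nd (nat_lit 78) (nat_lit 228) (nat_lit 0) (XT.lf (nat_lit 0) (nat_lit 24802468061) (nat_lit 228) (nat_lit 579192151) (nat_lit 76) (nat_lit 27611020477) (nat_lit 24) (nat_lit 5) (nat_lit 27) (nat_lit 5) (nat_lit 25) (nat_lit 5) (nat_lit 304) (nat_lit 275) (nat_lit 201)) (XT.nd (nat_lit 78) (nat_lit 76)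 (nat_lit 0) (XT.lf (nat_lit 0) (nat_lit 33820092749) (nat_lit 152) (nat_lit 5768973041) (nat_lit 228) (nat_lit 16582229001) (nat_lit 22) (nat_lit 5) (nat_lit 24) (nat_lit 5) (nat_lit 25) (nat_lit 5) (nat_lit 305) (nat_lit 275) (nat_lit 200)) (XT.lf (nat_lit 0) (nat_lit 11498833510) (nat_lit 76) (nat_lit 44480087922) (nat_lit 152) (nat_lit 3604272564) (nat_lit 21) (nat_lit 5) (nat_lit 22) (nat_lit 5) (nat_lit 23) (nat_lit 4) (nat_lit 306) (nat_lit 275) (nat_lit 199))))))))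
noncomputable def xc78 : XT := (XT.nd (nat_lit 1560) (nat_lit 304) (nat_lit 0) (XT.nd (nat_lit 780) (nat_lit 380) (nat_lit 0) (XT.nd (nat_lit 390) (nat_lit 304) (nat_lit 0) (XT.nd (nat_lit 156) (nat_lit 152) (nat_lit 0) (XT.nd (nat_lit 78) (nat_lit 152) (nat_lit 0) (XT.lf (nat_lit 0) (nat_lit 10561915563) (nat_lit 152) (nat_lit 14676086067) (nat_lit 76) (nat_lit 37997764463) (nat_lit 20) (nat_lit 5) (nat_lit 22) (nat_lit 5) (nat_lit 21) (nat_lit 5) (nat_lit 307) (nat_lit 275) (nat_lit 198)) (XT.lf (nat_lit 0) (nat_lit 22034199464) (nat_lit 152) (nat_lit 4037589900) (nat_lit 228) (nat_lit 41088977121) (nat_lit 18) (nat_lit 5) (nat_lit 20) (nat_lit 5) (nat_lit 21) (nat_lit 5) (nat_lit 308) (nat_lit 275) (nat_lit 197))) (XT.nd (nat_lit 78) (nat_lit 152) (nat_lit 0) (XT.lf (nat_lit 0) (nat_lit 43368046847) (nat_lit 228) (nat_lit 9495028153) (nat_lit 76) (nat_lit 18509421652) (nat_lit 18)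 (nat_lit 5) (nat_lit 21) (nat_lit 5) (nat_lit 19) (nat_lit 4) (nat_lit 309) (nat_lit 275) (nat_lit 196)) (XT.nd (nat_lit 78) (nat_lit 76) (nat_lit 0) (XT.lf (nat_lit 0) (nat_lit 29860987762) (nat_lit 76) (nat_lit 32713270623) (nat_lit 152) (nat_lit 13320602909) (nat_lit 17) (nat_lit 5) (nat_lit 18) (nat_lit 5) (nat_lit 19) (nat_lit 4) (nat_lit 310) (nat_lit 275) (nat_lit 195)) (XT.lf (nat_lit 0) (nat_lit 2617046509) (nat_lit 152) (nat_lit 8121904432) (nat_lit 76) (nat_lit 70030074387) (nat_lit 16) (nat_lit 5) (nat_lit 18) (nat_lit 5) (nat_lit 17) (nat_lit 5) (nat_lit 311) (nat_lit 275) (nat_lit 194))))) (XT.nd (nat_lit 156) (nat_lit 152) (nat_lit 0) (XT.nd (nat_lit 78) (nat_lit 0) (nat_lit 0) (XT.lf (nat_lit 0) (nat_lit 20102711549) (nat_lit 228) (nat_lit 52547588066) (nat_lit 76) (nat_lit 13334926840) (nat_lit 14) (nat_lit 5) (nat_lit 17) (nat_lit 5) (nat_lit 15) (nat_lit 4) (nat_lit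 312) (nat_lit 275) (nat_lit 193)) (XT.lf (nat_lit 0) (nat_lit 39305169817) (nat_lit 228) (nat_lit 13195187739) (nat_lit 76) (nat_lit 39102475717) (nat_lit 14) (nat_lit 5) (nat_lit 17) (nat_lit 5) (nat_lit 15) (nat_lit 4) (nat_lit 313) (nat_lit 275) (nat_lit 192))) (XT.nd (nat_lit 78) (nat_lit 76) (nat_lit 0) (XT.lf (nat_lit 0) (nat_lit 30262784601) (nat_lit 76) (nat_lit 30247104841) (nat_lit 152) (nat_lit 37136662074) (nat_lit 13) (nat_lit 5) (nat_lit 14) (nat_lit 5) (nat_lit 15) (nat_lit 4) (nat_lit 314) (nat_lit 275) (nat_lit 191)) (XT.nd (nat_lit 78) (nat_lit 76) (nat_lit 0) (XT.lf (nat_lit 0) (nat_lit 77657860041) (nat_lit 76) (nat_lit 5976864255) (nat_lit 152) (nat_lit 20527861702) (nat_lit 13) (nat_lit 5) (nat_lit 14) (nat_lit 5) (nat_lit 15) (nat_lit 4) (nat_lit 315) (nat_lit 275) (nat_lit 190)) (XT.lf (nat_lit 0) (nat_lit 17891185673) (nat_lit 76) (nat_lit 91307888954) (nat_lit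 76) (nat_lit 1971357419) (nat_lit 12) (nat_lit 4) (nat_lit 13) (nat_lit 5) (nat_lit 13) (nat_lit 4) (nat_lit 316) (nat_lit 275) (nat_lit 189)))))) (XT.nd (nat_lit 390) (nat_lit 228) (nat_lit 0) (XT.nd (nat_lit 156) (nat_lit 76) (nat_lit 0) (XT.nd (nat_lit 78) (nat_lit 0) (nat_lit 0) (XT.lf (nat_lit 0) (nat_lit 18055820473) (nat_lit 152) (nat_lit 52330947310) (nat_lit 76) (nat_lit 48309811937) (nat_lit 11) (nat_lit 5) (nat_lit 13) (nat_lit 5) (nat_lit 12) (nat_lit 4) (nat_lit 317) (nat_lit 275) (nat_lit 188)) (XT.lf (nat_lit 0) (nat_lit 39611890869) (nat_lit 152) (nat_lit 8149195355) (nat_lit 76) (nat_lit 79062332145) (nat_lit 11) (nat_lit 5) (nat_lit 13) (nat_lit 5) (nat_lit 12) (nat_lit 4) (nat_lit 318) (nat_lit 275) (nat_lit 187))) (XT.nd (nat_lit 78) (nat_lit 0) (nat_lit 0) (XT.lf (nat_lit 0) (nat_lit 40866591849) (nat_lit 76) (nat_lit 22659139371) (nat_lit 152) (nat_lit 72043012636)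 (nat_lit 10) (nat_lit 5) (nat_lit 11) (nat_lit 5) (nat_lit 12) (nat_lit 4) (nat_lit 319) (nat_lit 275) (nat_lit 186)) (XT.nd (nat_lit 78) (nat_lit 0) (nat_lit 0) (XT.lf (nat_lit 0) (nat_lit 89561863508) (nat_lit 152) (nat_lit 50992065924) (nat_lit 0) (nat_lit 4449310385) (nat_lit 10) (nat_lit 5) (nat_lit 12) (nat_lit 4) (nat_lit 10) (nat_lit 4) (nat_lit 320) (nat_lit 275) (nat_lit 185)) (XT.lf (nat_lit 0) (nat_lit 118058712583) (nat_lit 152) (nat_lit 4174929171) (nat_lit 0) (nat_lit 32939965787) (nat_lit 10) (nat_lit 5) (nat_lit 12) (nat_lit 4) (nat_lit 10) (nat_lit 4) (nat_lit 321) (nat_lit 275) (nat_lit 184))))) (XT.nd (nat_lit 156) (nat_lit 76) (nat_lit 0) (XT.nd (nat_lit 78) (nat_lit 76) (nat_lit 0) (XT.lf (nat_lit 0) (nat_lit 47914013462) (nat_lit 76) (nat_lit 101665434562) (nat_lit 76) (nat_lit 16540952884) (nat_lit 9) (nat_lit 4) (nat_lit 10) (nat_lit 5) (nat_lit 10) (nat_lit 4)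 (nat_lit 322) (nat_lit 275) (nat_lit 183)) (XT.lf (nat_lit 0) (nat_lit 5567248218) (nat_lit 152) (nat_lit 73716932906) (nat_lit 76) (nat_lit 98650821010) (nat_lit 8) (nat_lit 5) (nat_lit 10) (nat_lit 5) (nat_lit 9) (nat_lit 4) (nat_lit 323) (nat_lit 275) (nat_lit 182))) (XT.nd (nat_lit 78) (nat_lit 76) (nat_lit 0) (XT.lf (nat_lit 0) (nat_lit 28868808232) (nat_lit 152) (nat_lit 25953651616) (nat_lit 76) (nat_lit 135858545160) (nat_lit 8) (nat_lit 5) (nat_lit 10) (nat_lit 5) (nat_lit 9) (nat_lit 4) (nat_lit 324) (nat_lit 275) (nat_lit 181)) (XT.nd (nat_lit 78) (nat_lit 0) (nat_lit 0) (XT.lf (nat_lit 0) (nat_lit 26472018637) (nat_lit 76) (nat_lit 27972508028) (nat_lit 152) (nat_lit 149981662143) (nat_lit 7) (nat_lit 5) (nat_lit 8) (nat_lit 5) (nat_lit 9) (nat_lit 4) (nat_lit 325) (nat_lit 275) (nat_lit 180)) (XT.lf (nat_lit 0) (nat_lit 82538664309) (nat_lit 152) (nat_lit 135259067893) (nat_lit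 0) (nat_lit 1449639226) (nat_lit 7) (nat_lit 5) (nat_lit 9) (nat_lit 4) (nat_lit 7) (nat_lit 4) (nat_lit 326) (nat_lit 275) (nat_lit 179))))))) (XT.nd (nat_lit 780) (nat_lit 76) (nat_lit 0) (XT.nd (nat_lit 390) (nat_lit 152) (nat_lit 0) (XT.nd (nat_lit 156) (nat_lit 76) (nat_lit 0) (XT.nd (nat_lit 78) (nat_lit 0) (nat_lit 0) (XT.lf (nat_lit 0) (nat_lit 113349078759) (nat_lit 152) (nat_lit 89625398176) (nat_lit 0) (nat_lit 32256336472) (nat_lit 7) (nat_lit 5) (nat_lit 9) (nat_lit 4) (nat_lit 7) (nat_lit 4) (nat_lit 327) (nat_lit 275) (nat_lit 178)) (XT.lf (nat_lit 0) (nat_lit 146621621007) (nat_lit 152) (nat_lit 40346010030) (nat_lit 0) (nat_lit 65525436863) (nat_lit 7) (nat_lit 5) (nat_lit 9) (nat_lit 4) (nat_lit 7) (nat_lit 4) (nat_lit 328) (nat_lit 275) (nat_lit 177))) (XT.nd (nat_lit 78) (nat_lit 0) (nat_lit 0) (XT.lf (nat_lit 0) (nat_lit 13296699987) (nat_lit 76) (nat_lit 169464360436)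 (nat_lit 76) (nat_lit 88364989388) (nat_lit 6) (nat_lit 4) (nat_lit 7) (nat_lit 5) (nat_lit 7) (nat_lit 4) (nat_lit 329) (nat_lit 275) (nat_lit 176)) (XT.nd (nat_lit 78) (nat_lit 0) (nat_lit 0) (XT.lf (nat_lit 0) (nat_lit 72667163389) (nat_lit 76) (nat_lit 149824904864) (nat_lit 76) (nat_lit 68722582979) (nat_lit 6) (nat_lit 4) (nat_lit 7) (nat_lit 5) (nat_lit 7) (nat_lit 4) (nat_lit 330) (nat_lit 275) (nat_lit 175)) (XT.lf (nat_lit 0) (nat_lit 136783183843) (nat_lit 76) (nat_lit 128616161564) (nat_lit 76) (nat_lit 47511107423) (nat_lit 6) (nat_lit 4) (nat_lit 7) (nat_lit 5) (nat_lit 7) (nat_lit 4) (nat_lit 331) (nat_lit 275) (nat_lit 174))))) (XT.nd (nat_lit 156) (nat_lit 76) (nat_lit 0) (XT.nd (nat_lit 78) (nat_lit 76) (nat_lit 0) (XT.lf (nat_lit 0) (nat_lit 206024708138) (nat_lit 76) (nat_lit 105712449094) (nat_lit 76) (nat_lit 24604865086) (nat_lit 6) (nat_lit 4) (nat_lit 7) (nat_lit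 5) (nat_lit 7) (nat_lit 4) (nat_lit 332) (nat_lit 275) (nat_lit 173)) (XT.lf (nat_lit 0) (nat_lit 127663591) (nat_lit 152) (nat_lit 80848216115) (nat_lit 76) (nat_lit 280672230782) (nat_lit 5) (nat_lit 5) (nat_lit 7) (nat_lit 5) (nat_lit 6) (nat_lit 4) (nat_lit 333) (nat_lit 275) (nat_lit 172))) (XT.nd (nat_lit 78) (nat_lit 76) (nat_lit 0) (XT.lf (nat_lit 0) (nat_lit 25986499141) (nat_lit 152) (nat_lit 27839772191) (nat_lit 76) (nat_lit 335131760631) (nat_lit 5) (nat_lit 5) (nat_lit 7) (nat_lit 5) (nat_lit 6) (nat_lit 4) (nat_lit 334) (nat_lit 275) (nat_lit 171)) (XT.nd (nat_lit 78) (nat_lit 0) (nat_lit 0) (XT.lf (nat_lit 0) (nat_lit 30378597439) (nat_lit 76) (nat_lit 24008086053) (nat_lit 152) (nat_lit 364042432614) (nat_lit 4) (nat_lit 5) (nat_lit 5) (nat_lit 5) (nat_lit 6) (nat_lit 4) (nat_lit 335) (nat_lit 275) (nat_lit 170)) (XT.lf (nat_lit 0) (nat_lit 85678141781) (nat_lit 152)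 (nat_lit 356123939762) (nat_lit 0) (nat_lit 8424843450) (nat_lit 4) (nat_lit 5) (nat_lit 6) (nat_lit 4) (nat_lit 4) (nat_lit 4) (nat_lit 336) (nat_lit 275) (nat_lit 169)))))) (XT.nd (nat_lit 390) (nat_lit 76) (nat_lit 0) (XT.nd (nat_lit 156) (nat_lit 0) (nat_lit 0) (XT.nd (nat_lit 78) (nat_lit 0) (nat_lit 0) (XT.lf (nat_lit 0) (nat_lit 119876257974) (nat_lit 152) (nat_lit 322050814609) (nat_lit 0) (nat_lit 42621319847) (nat_lit 4) (nat_lit 5) (nat_lit 6) (nat_lit 4) (nat_lit 4) (nat_lit 4) (nat_lit 337) (nat_lit 275) (nat_lit 168)) (XT.lf (nat_lit 0) (nat_lit 156808854067) (nat_lit 152) (nat_lit 285254394885) (nat_lit 0) (nat_lit 79552397611) (nat_lit 4) (nat_lit 5) (nat_lit 6) (nat_lit 4) (nat_lit 4) (nat_lit 4) (nat_lit 338) (nat_lit 275) (nat_lit 167))) (XT.nd (nat_lit 78) (nat_lit 0) (nat_lit 0) (XT.lf (nat_lit 0) (nat_lit 196694789889) (nat_lit 152) (nat_lit 245516627733) (nat_lit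 0) (nat_lit 119436927573) (nat_lit 4) (nat_lit 5) (nat_lit 6) (nat_lit 4) (nat_lit 4) (nat_lit 4) (nat_lit 339) (nat_lit 275) (nat_lit 166)) (XT.nd (nat_lit 78) (nat_lit 0) (nat_lit 0) (XT.lf (nat_lit 0) (nat_lit 239770426542) (nat_lit 152) (nat_lit 202602030089) (nat_lit 0) (nat_lit 162511262504) (nat_lit 4) (nat_lit 5) (nat_lit 6) (nat_lit 4) (nat_lit 4) (nat_lit 4) (nat_lit 340) (nat_lit 275) (nat_lit 165)) (XT.lf (nat_lit 0) (nat_lit 286291027058) (nat_lit 152) (nat_lit 156256293225) (nat_lit 0) (nat_lit 209030657722) (nat_lit 4) (nat_lit 5) (nat_lit 6) (nat_lit 4) (nat_lit 4) (nat_lit 4) (nat_lit 341) (nat_lit 275) (nat_lit 164))))) (XT.nd (nat_lit 156) (nat_lit 76) (nat_lit 0) (XT.nd (nat_lit 78) (nat_lit 0) (nat_lit 0) (XT.lf (nat_lit 0) (nat_lit 336532269069) (nat_lit 152) (nat_lit 106204775738) (nat_lit 0) (nat_lit 259270783716) (nat_lit 4) (nat_lit 5) (nat_lit 6) (nat_lit 4)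 (nat_lit 4) (nat_lit 4) (nat_lit 342) (nat_lit 275) (nat_lit 163)) (XT.lf (nat_lit 0) (nat_lit 390791878454) (nat_lit 152) (nat_lit 52150876044) (nat_lit 0) (nat_lit 313529359751) (nat_lit 4) (nat_lit 5) (nat_lit 6) (nat_lit 4) (nat_lit 4) (nat_lit 4) (nat_lit 343) (nat_lit 275) (nat_lit 162))) (XT.nd (nat_lit 78) (nat_lit 0) (nat_lit 0) (XT.lf (nat_lit 0) (nat_lit 6431575857) (nat_lit 76) (nat_lit 443060232705) (nat_lit 76) (nat_lit 365796757198) (nat_lit 3) (nat_lit 4) (nat_lit 4) (nat_lit 5) (nat_lit 4) (nat_lit 4) (nat_lit 344) (nat_lit 275) (nat_lit 161)) (XT.nd (nat_lit 35256) (nat_lit 0) (nat_lit 5928) (XT.lf (nat_lit 0) (nat_lit 71561374494) (nat_lit 76) (nat_lit 442233970122) (nat_lit 76) (nat_lit 364969608685) (nat_lit 3) (nat_lit 4) (nat_lit 4) (nat_lit 5) (nat_lit 4) (nat_lit 4) (nat_lit 345) (nat_lit 275) (nat_lit 160)) (XT.lf (nat_lit 0) (nat_lit 1225481188) (nat_lit 0)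 (nat_lit 1225481188) (nat_lit 684) (nat_lit 4677398626) (nat_lit 81) (nat_lit 5) (nat_lit 81) (nat_lit 3) (nat_lit 90) (nat_lit 3) (nat_lit 276) (nat_lit 276) (nat_lit 228))))))))
noncomputable def xc79 : XT := (XT.nd (nat_lit 1560) (nat_lit 2128) (nat_lit 0) (XT.nd (nat_lit 780) (nat_lit 1900) (nat_lit 0) (XT.nd (nat_lit 390) (nat_lit 1216) (nat_lit 0) (XT.nd (nat_lit 156) (nat_lit 0) (nat_lit 76) (XT.nd (nat_lit 78) (nat_lit 0) (nat_lit 76) (XT.lf (nat_lit 0) (nat_lit 5697406748) (nat_lit 684) (nat_lit 1873990532) (nat_lit 760) (nat_lit 7224351946) (nat_lit 81) (nat_lit 5) (nat_lit 90) (nat_lit 3) (nat_lit 91) (nat_lit 5) (nat_lit 277) (nat_lit 276) (nat_lit 227)) (XT.lf (nat_lit 0) (nat_lit 6728798174) (nat_lit 684) (nat_lit 6334121206) (nat_lit 760) (nat_lit 2306492904) (nat_lit 82) (nat_lit 5) (nat_lit 91) (nat_lit 5) (nat_lit 92) (nat_lit 5) (nat_lit 278) (nat_lit 276) (nat_lit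 226))) (XT.nd (nat_lit 78) (nat_lit 0) (nat_lit 76) (XT.lf (nat_lit 76) (nat_lit 4896875365) (nat_lit 0) (nat_lit 3138632779) (nat_lit 760) (nat_lit 7943937662) (nat_lit 83) (nat_lit 5) (nat_lit 82) (nat_lit 5) (nat_lit 92) (nat_lit 5) (nat_lit 279) (nat_lit 276) (nat_lit 225)) (XT.nd (nat_lit 78) (nat_lit 0) (nat_lit 76) (XT.lf (nat_lit 76) (nat_lit 485441484) (nat_lit 0) (nat_lit 9157976089) (nat_lit 760) (nat_lit 6985140358) (nat_lit 84) (nat_lit 5) (nat_lit 83) (nat_lit 5) (nat_lit 93) (nat_lit 5) (nat_lit 280) (nat_lit 276) (nat_lit 224)) (XT.lf (nat_lit 0) (nat_lit 11612926558) (nat_lit 684) (nat_lit 4054462274) (nat_lit 760) (nat_lit 1650662830) (nat_lit 84) (nat_lit 5) (nat_lit 93) (nat_lit 5) (nat_lit 94) (nat_lit 5) (nat_lit 281) (nat_lit 276) (nat_lit 223))))) (XT.nd (nat_lit 156) (nat_lit 836) (nat_lit 0) (XT.nd (nat_lit 78) (nat_lit 608) (nat_lit 0) (XT.lf (nat_lit 76) (nat_lit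 9110078976) (nat_lit 0) (nat_lit 4890815813) (nat_lit 760) (nat_lit 4048858675) (nat_lit 85) (nat_lit 5) (nat_lit 84) (nat_lit 5) (nat_lit 94) (nat_lit 5) (nat_lit 282) (nat_lit 276) (nat_lit 222)) (XT.lf (nat_lit 0) (nat_lit 4649411195) (nat_lit 684) (nat_lit 12146786227) (nat_lit 760) (nat_lit 2033065712) (nat_lit 76) (nat_lit 5) (nat_lit 85) (nat_lit 5) (nat_lit 86) (nat_lit 5) (nat_lit 283) (nat_lit 276) (nat_lit 221))) (XT.nd (nat_lit 78) (nat_lit 760) (nat_lit 0) (XT.lf (nat_lit 0) (nat_lit 348146886) (nat_lit 760) (nat_lit 134628252) (nat_lit 76) (nat_lit 19177884137) (nat_lit 75) (nat_lit 5) (nat_lit 85) (nat_lit 5) (nat_lit 76) (nat_lit 5) (nat_lit 284) (nat_lit 276) (nat_lit 220)) (XT.nd (nat_lit 78) (nat_lit 380) (nat_lit 0) (XT.lf (nat_lit 0) (nat_lit 3255177738) (nat_lit 456) (nat_lit 5271750420) (nat_lit 76) (nat_lit 12009715689) (nat_lit 70) (nat_lit 5) (nat_lit 76) (nat_lit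 5) (nat_lit 71) (nat_lit 5) (nat_lit 285) (nat_lit 276) (nat_lit 219)) (XT.lf (nat_lit 0) (nat_lit 6610275123) (nat_lit 456) (nat_lit 10813873307) (nat_lit 76) (nat_lit 4047849003) (nat_lit 65) (nat_lit 5) (nat_lit 71) (nat_lit 5) (nat_lit 66) (nat_lit 5) (nat_lit 286) (nat_lit 276) (nat_lit 218)))))) (XT.nd (nat_lit 390) (nat_lit 684) (nat_lit 0) (XT.nd (nat_lit 156) (nat_lit 912) (nat_lit 0) (XT.nd (nat_lit 78) (nat_lit 0) (nat_lit 0) (XT.lf (nat_lit 0) (nat_lit 5579079175) (nat_lit 304) (nat_lit 4952797889) (nat_lit 380) (nat_lit 11935458005) (nat_lit 61) (nat_lit 5) (nat_lit 65) (nat_lit 5) (nat_lit 66) (nat_lit 5) (nat_lit 287) (nat_lit 276) (nat_lit 217)) (XT.lf (nat_lit 0) (nat_lit 15067009858) (nat_lit 380) (nat_lit 26637129) (nat_lit 76) (nat_lit 8433718709) (nat_lit 61) (nat_lit 5) (nat_lit 66) (nat_lit 5) (nat_lit 62) (nat_lit 5) (nat_lit 288) (nat_lit 276) (nat_lit 216)))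 (XT.nd (nat_lit 78) (nat_lit 608) (nat_lit 0) (XT.lf (nat_lit 0) (nat_lit 18672733685) (nat_lit 304) (nat_lit 1644471382) (nat_lit 380) (nat_lit 4337433073) (nat_lit 57) (nat_lit 5) (nat_lit 61) (nat_lit 5) (nat_lit 62) (nat_lit 5) (nat_lit 289) (nat_lit 276) (nat_lit 215)) (XT.nd (nat_lit 78) (nat_lit 304) (nat_lit 0) (XT.lf (nat_lit 0) (nat_lit 503937919) (nat_lit 304) (nat_lit 12668178232) (nat_lit 76) (nat_lit 12680316745) (nat_lit 53) (nat_lit 5) (nat_lit 57) (nat_lit 5) (nat_lit 54) (nat_lit 5) (nat_lit 290) (nat_lit 276) (nat_lit 214)) (XT.lf (nat_lit 0) (nat_lit 5825284698) (nat_lit 380) (nat_lit 20095997715) (nat_lit 76) (nat_lit 1209024540) (nat_lit 49) (nat_lit 5) (nat_lit 54) (nat_lit 5) (nat_lit 50) (nat_lit 5) (nat_lit 291) (nat_lit 276) (nat_lit 213))))) (XT.nd (nat_lit 156) (nat_lit 456) (nat_lit 0) (XT.nd (nat_lit 78) (nat_lit 0) (nat_lit 0) (XT.lf (nat_lit 0) (nat_lit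 16002372) (nat_lit 228) (nat_lit 11983388433) (nat_lit 304) (nat_lit 16489706830) (nat_lit 46) (nat_lit 5) (nat_lit 49) (nat_lit 5) (nat_lit 50) (nat_lit 5) (nat_lit 292) (nat_lit 276) (nat_lit 212)) (XT.lf (nat_lit 0) (nat_lit 19052554412) (nat_lit 304) (nat_lit 7562752447) (nat_lit 76) (nat_lit 3322064633) (nat_lit 46) (nat_lit 5) (nat_lit 50) (nat_lit 5) (nat_lit 47) (nat_lit 5) (nat_lit 293) (nat_lit 276) (nat_lit 211))) (XT.nd (nat_lit 78) (nat_lit 228) (nat_lit 0) (XT.lf (nat_lit 0) (nat_lit 15284801037) (nat_lit 228) (nat_lit 11808654676) (nat_lit 304) (nat_lit 4386910992) (nat_lit 43) (nat_lit 5) (nat_lit 46) (nat_lit 5) (nat_lit 47) (nat_lit 5) (nat_lit 294) (nat_lit 276) (nat_lit 210)) (XT.nd (nat_lit 78) (nat_lit 0) (nat_lit 0) (XT.lf (nat_lit 0) (nat_lit 2847178679) (nat_lit 228) (nat_lit 25946503300) (nat_lit 76) (nat_lit 4336067825) (nat_lit 40) (nat_lit 5) (nat_lit 43)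 (nat_lit 5) (nat_lit 41) (nat_lit 5) (nat_lit 295) (nat_lit 276) (nat_lit 209)) (XT.lf (nat_lit 0) (nat_lit 10978438544) (nat_lit 228) (nat_lit 2186091191) (nat_lit 76) (nat_lit 21719378531) (nat_lit 40) (nat_lit 5) (nat_lit 43) (nat_lit 5) (nat_lit 41) (nat_lit 5) (nat_lit 296) (nat_lit 276) (nat_lit 208))))))) (XT.nd (nat_lit 780) (nat_lit 760) (nat_lit 0) (XT.nd (nat_lit 390) (nat_lit 532) (nat_lit 0) (XT.nd (nat_lit 156) (nat_lit 456) (nat_lit 0) (XT.nd (nat_lit 78) (nat_lit 152) (nat_lit 0) (XT.lf (nat_lit 0) (nat_lit 20188007521) (nat_lit 304) (nat_lit 12594145750) (nat_lit 76) (nat_lit 3974881181) (nat_lit 37) (nat_lit 5) (nat_lit 41) (nat_lit 5) (nat_lit 38) (nat_lit 5) (nat_lit 297) (nat_lit 276) (nat_lit 207)) (XT.lf (nat_lit 0) (nat_lit 14129161715) (nat_lit 152) (nat_lit 16472540994) (nat_lit 228) (nat_lit 8154963565) (nat_lit 35) (nat_lit 5) (nat_lit 37) (nat_lit 5) (nat_lit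 38) (nat_lit 5) (nat_lit 298) (nat_lit 276) (nat_lit 206))) (XT.nd (nat_lit 78) (nat_lit 152) (nat_lit 0) (XT.lf (nat_lit 0) (nat_lit 1174493920) (nat_lit 304) (nat_lit 38345969262) (nat_lit 76) (nat_lit 1381493212) (nat_lit 31) (nat_lit 5) (nat_lit 35) (nat_lit 5) (nat_lit 32) (nat_lit 5) (nat_lit 299) (nat_lit 276) (nat_lit 205)) (XT.nd (nat_lit 78) (nat_lit 152) (nat_lit 0) (XT.lf (nat_lit 0) (nat_lit 11669378873) (nat_lit 304) (nat_lit 10845606766) (nat_lit 76) (nat_lit 20661979884) (nat_lit 31) (nat_lit 5) (nat_lit 35) (nat_lit 5) (nat_lit 32) (nat_lit 5) (nat_lit 300) (nat_lit 276) (nat_lit 204)) (XT.lf (nat_lit 0) (nat_lit 19459568194) (nat_lit 152) (nat_lit 3836231057) (nat_lit 228) (nat_lit 22323596724) (nat_lit 29) (nat_lit 5) (nat_lit 31) (nat_lit 5) (nat_lit 32) (nat_lit 5) (nat_lit 301) (nat_lit 276) (nat_lit 203))))) (XT.nd (nat_lit 156) (nat_lit 380) (nat_lit 0) (XT.nd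 (nat_lit 78) (nat_lit 0) (nat_lit 0) (XT.lf (nat_lit 0) (nat_lit 4186771573) (nat_lit 152) (nat_lit 32166655780) (nat_lit 228) (nat_lit 11878755308) (nat_lit 27) (nat_lit 5) (nat_lit 29) (nat_lit 5) (nat_lit 30) (nat_lit 5) (nat_lit 302) (nat_lit 276) (nat_lit 202)) (XT.lf (nat_lit 0) (nat_lit 37811458313) (nat_lit 152) (nat_lit 13152756189) (nat_lit 228) (nat_lit 64365622) (nat_lit 27) (nat_lit 5) (nat_lit 29) (nat_lit 5) (nat_lit 30) (nat_lit 5) (nat_lit 303) (nat_lit 276) (nat_lit 201))) (XT.nd (nat_lit 78) (nat_lit 152) (nat_lit 0) (XT.lf (nat_lit 0) (nat_lit 12722730816) (nat_lit 228) (nat_lit 33627026515) (nat_lit 76) (nat_lit 7667341140) (nat_lit 24) (nat_lit 5) (nat_lit 27) (nat_lit 5) (nat_lit 25) (nat_lit 5) (nat_lit 304) (nat_lit 276) (nat_lit 200)) (XT.nd (nat_lit 78) (nat_lit 152) (nat_lit 0) (XT.lf (nat_lit 0) (nat_lit 26976621102) (nat_lit 228) (nat_lit 317779528) (nat_lit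 76) (nat_lit 29927953314) (nat_lit 24) (nat_lit 5) (nat_lit 27) (nat_lit 5) (nat_lit 25) (nat_lit 5) (nat_lit 305) (nat_lit 276) (nat_lit 199)) (XT.lf (nat_lit 0) (nat_lit 36820073811) (nat_lit 152) (nat_lit 6116598052) (nat_lit 228) (nat_lit 17719077084) (nat_lit 22) (nat_lit 5) (nat_lit 24) (nat_lit 5) (nat_lit 25) (nat_lit 5) (nat_lit 306) (nat_lit 276) (nat_lit 198)))))) (XT.nd (nat_lit 390) (nat_lit 380) (nat_lit 0) (XT.nd (nat_lit 156) (nat_lit 228) (nat_lit 0) (XT.nd (nat_lit 78) (nat_lit 76) (nat_lit 0) (XT.lf (nat_lit 0) (nat_lit 12707467263) (nat_lit 76) (nat_lit 47923034051) (nat_lit 152) (nat_lit 3710476200) (nat_lit 21) (nat_lit 5) (nat_lit 22) (nat_lit 5) (nat_lit 23) (nat_lit 4) (nat_lit 307) (nat_lit 276) (nat_lit 197)) (XT.lf (nat_lit 0) (nat_lit 11570117521) (nat_lit 152) (nat_lit 15577251298) (nat_lit 76) (nat_lit 41138912094) (nat_lit 20) (nat_lit 5) (nat_lit 22) (nat_lit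 5) (nat_lit 21) (nat_lit 5) (nat_lit 308) (nat_lit 276) (nat_lit 196))) (XT.nd (nat_lit 78) (nat_lit 76) (nat_lit 0) (XT.lf (nat_lit 0) (nat_lit 24057996233) (nat_lit 152) (nat_lit 4254768387) (nat_lit 228) (nat_lit 44212931178) (nat_lit 18) (nat_lit 5) (nat_lit 20) (nat_lit 5) (nat_lit 21) (nat_lit 5) (nat_lit 309) (nat_lit 276) (nat_lit 195)) (XT.nd (nat_lit 78) (nat_lit 76) (nat_lit 0) (XT.lf (nat_lit 0) (nat_lit 46982753918) (nat_lit 228) (nat_lit 10007092873) (nat_lit 76) (nat_lit 20085028649) (nat_lit 18) (nat_lit 5) (nat_lit 21) (nat_lit 5) (nat_lit 19) (nat_lit 4) (nat_lit 310) (nat_lit 276) (nat_lit 194)) (XT.lf (nat_lit 0) (nat_lit 32486646635) (nat_lit 76) (nat_lit 35231752294) (nat_lit 152) (nat_lit 14240995183) (nat_lit 17) (nat_lit 5) (nat_lit 18) (nat_lit 5) (nat_lit 19) (nat_lit 4) (nat_lit 311) (nat_lit 276) (nat_lit 193))))) (XT.nd (nat_lit 234) (nat_lit 152) (nat_lit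 0) (XT.nd (nat_lit 78) (nat_lit 152) (nat_lit 0) (XT.lf (nat_lit 0) (nat_lit 2956601768) (nat_lit 152) (nat_lit 8547982634) (nat_lit 76) (nat_lit 75719324548) (nat_lit 16) (nat_lit 5) (nat_lit 18) (nat_lit 5) (nat_lit 17) (nat_lit 5) (nat_lit 312) (nat_lit 276) (nat_lit 192)) (XT.nd (nat_lit 78) (nat_lit 0) (nat_lit 0) (XT.lf (nat_lit 0) (nat_lit 21836222781) (nat_lit 228) (nat_lit 56532534047) (nat_lit 76) (nat_lit 14488903743) (nat_lit 14) (nat_lit 5) (nat_lit 17) (nat_lit 5) (nat_lit 15) (nat_lit 4) (nat_lit 313) (nat_lit 276) (nat_lit 191)) (XT.lf (nat_lit 0) (nat_lit 42565596651) (nat_lit 228) (nat_lit 14048153625) (nat_lit 76) (nat_lit 42311398548) (nat_lit 14) (nat_lit 5) (nat_lit 17) (nat_lit 5) (nat_lit 15) (nat_lit 4) (nat_lit 314) (nat_lit 276) (nat_lit 190)))) (XT.nd (nat_lit 78) (nat_lit 76) (nat_lit 0) (XT.lf (nat_lit 0) (nat_lit 32877649619) (nat_lit 76) (nat_lit 32583477074)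 (nat_lit 152) (nat_lit 39991524373) (nat_lit 13) (nat_lit 5) (nat_lit 14) (nat_lit 5) (nat_lit 15) (nat_lit 4) (nat_lit 315) (nat_lit 276) (nat_lit 189)) (XT.nd (nat_lit 78) (nat_lit 76) (nat_lit 0) (XT.lf (nat_lit 0) (nat_lit 84049972409) (nat_lit 76) (nat_lit 6377794735) (nat_lit 152) (nat_lit 22062617798) (nat_lit 13) (nat_lit 5) (nat_lit 14) (nat_lit 5) (nat_lit 15) (nat_lit 4) (nat_lit 316) (nat_lit 276) (nat_lit 188)) (XT.lf (nat_lit 0) (nat_lit 19497992355) (nat_lit 76) (nat_lit 98535554494) (nat_lit 76) (nat_lit 2025504769) (nat_lit 12) (nat_lit 4) (nat_lit 13) (nat_lit 5) (nat_lit 13) (nat_lit 4) (nat_lit 317) (nat_lit 276) (nat_lit 187))))))))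
noncomputable def xc80 : XT := (XT.nd (nat_lit 1560) (nat_lit 76) (nat_lit 0) (XT.nd (nat_lit 780) (nat_lit 228) (nat_lit 0) (XT.nd (nat_lit 390) (nat_lit 228) (nat_lit 0) (XT.nd (nat_lit 156) (nat_lit 76) (nat_lit 0) (XT.nd (nat_lit 78) (nat_lit 0) (nat_lit 0) (XT.lf (nat_lit 0) (nat_lit 19593107070) (nat_lit 152) (nat_lit 56351765745) (nat_lit 76) (nat_lit 52242714916) (nat_lit 11) (nat_lit 5) (nat_lit 13) (nat_lit 5) (nat_lit 12) (nat_lit 4) (nat_lit 318) (nat_lit 276) (nat_lit 186)) (XT.lf (nat_lit 0) (nat_lit 42866787471) (nat_lit 152) (nat_lit 8647744549) (nat_lit 76) (nat_lit 85450390961) (nat_lit 11) (nat_lit 5) (nat_lit 13) (nat_lit 5) (nat_lit 12) (nat_lit 4) (nat_lit 319) (nat_lit 276) (nat_lit 185))) (XT.nd (nat_lit 78) (nat_lit 0) (nat_lit 0) (XT.lf (nat_lit 0) (nat_lit 44282639644) (nat_lit 76) (nat_lit 24407019802) (nat_lit 152) (nat_lit 77720424144) (nat_lit 10) (nat_lit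 5) (nat_lit 11) (nat_lit 5) (nat_lit 12) (nat_lit 4) (nat_lit 320) (nat_lit 276) (nat_lit 184)) (XT.nd (nat_lit 78) (nat_lit 0) (nat_lit 0) (XT.lf (nat_lit 0) (nat_lit 96803555395) (nat_lit 152) (nat_lit 54932664791) (nat_lit 0) (nat_lit 4863380299) (nat_lit 10) (nat_lit 5) (nat_lit 12) (nat_lit 4) (nat_lit 10) (nat_lit 4) (nat_lit 321) (nat_lit 276) (nat_lit 183)) (XT.lf (nat_lit 0) (nat_lit 127574467744) (nat_lit 152) (nat_lit 4380436091) (nat_lit 0) (nat_lit 35628982572) (nat_lit 10) (nat_lit 5) (nat_lit 12) (nat_lit 4) (nat_lit 10) (nat_lit 4) (nat_lit 322) (nat_lit 276) (nat_lit 182))))) (XT.nd (nat_lit 156) (nat_lit 76) (nat_lit 0) (XT.nd (nat_lit 78) (nat_lit 76) (nat_lit 0) (XT.lf (nat_lit 0) (nat_lit 51870038046) (nat_lit 76) (nat_lit 109743479275) (nat_lit 76) (nat_lit 17793077366) (nat_lit 9) (nat_lit 4) (nat_lit 10) (nat_lit 5) (nat_lit 10) (nat_lit 4) (nat_lit 323) (nat_lit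 276) (nat_lit 181)) (XT.lf (nat_lit 0) (nat_lit 6076400714) (nat_lit 152) (nat_lit 79498332980) (nat_lit 76) (nat_lit 106591833577) (nat_lit 8) (nat_lit 5) (nat_lit 10) (nat_lit 5) (nat_lit 9) (nat_lit 4) (nat_lit 324) (nat_lit 276) (nat_lit 180))) (XT.nd (nat_lit 78) (nat_lit 76) (nat_lit 0) (XT.lf (nat_lit 0) (nat_lit 31237361629) (nat_lit 152) (nat_lit 27922578413) (nat_lit 76) (nat_lit 146772549963) (nat_lit 8) (nat_lit 5) (nat_lit 10) (nat_lit 5) (nat_lit 9) (nat_lit 4) (nat_lit 325) (nat_lit 276) (nat_lit 179)) (XT.nd (nat_lit 78) (nat_lit 0) (nat_lit 0) (XT.lf (nat_lit 0) (nat_lit 28692479494) (nat_lit 76) (nat_lit 30163887488) (nat_lit 152) (nat_lit 161921063239) (nat_lit 7) (nat_lit 5) (nat_lit 8) (nat_lit 5) (nat_lit 9) (nat_lit 4) (nat_lit 326) (nat_lit 276) (nat_lit 178)) (XT.lf (nat_lit 0) (nat_lit 89194537961) (nat_lit 152) (nat_lit 145982730091) (nat_lit 0) (nat_lit 1607217229)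 (nat_lit 7) (nat_lit 5) (nat_lit 9) (nat_lit 4) (nat_lit 7) (nat_lit 4) (nat_lit 327) (nat_lit 276) (nat_lit 177)))))) (XT.nd (nat_lit 390) (nat_lit 152) (nat_lit 0) (XT.nd (nat_lit 156) (nat_lit 76) (nat_lit 0) (XT.nd (nat_lit 78) (nat_lit 0) (nat_lit 0) (XT.lf (nat_lit 0) (nat_lit 122465875900) (nat_lit 152) (nat_lit 96705556665) (nat_lit 0) (nat_lit 34875368265) (nat_lit 7) (nat_lit 5) (nat_lit 9) (nat_lit 4) (nat_lit 7) (nat_lit 4) (nat_lit 328) (nat_lit 276) (nat_lit 176)) (XT.lf (nat_lit 0) (nat_lit 158396601465) (nat_lit 152) (nat_lit 43490474754) (nat_lit 0) (nat_lit 70803142993) (nat_lit 7) (nat_lit 5) (nat_lit 9) (nat_lit 4) (nat_lit 7) (nat_lit 4) (nat_lit 329) (nat_lit 276) (nat_lit 175))) (XT.nd (nat_lit 78) (nat_lit 0) (nat_lit 0) (XT.lf (nat_lit 0) (nat_lit 14440035595) (nat_lit 76) (nat_lit 182985051303) (nat_lit 76) (nat_lit 95388860574) (nat_lit 6) (nat_lit 4) (nat_lit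 7) (nat_lit 5) (nat_lit 7) (nat_lit 4) (nat_lit 330) (nat_lit 276) (nat_lit 174)) (XT.nd (nat_lit 78) (nat_lit 0) (nat_lit 0) (XT.lf (nat_lit 0) (nat_lit 78554239802) (nat_lit 76) (nat_lit 161777139875) (nat_lit 76) (nat_lit 74178419280) (nat_lit 6) (nat_lit 4) (nat_lit 7) (nat_lit 5) (nat_lit 7) (nat_lit 4) (nat_lit 331) (nat_lit 276) (nat_lit 173)) (XT.lf (nat_lit 0) (nat_lit 147794082386) (nat_lit 76) (nat_lit 138874197657) (nat_lit 76) (nat_lit 51273134592) (nat_lit 6) (nat_lit 4) (nat_lit 7) (nat_lit 5) (nat_lit 7) (nat_lit 4) (nat_lit 332) (nat_lit 276) (nat_lit 172))))) (XT.nd (nat_lit 156) (nat_lit 76) (nat_lit 0) (XT.nd (nat_lit 78) (nat_lit 76) (nat_lit 0) (XT.lf (nat_lit 0) (nat_lit 222569873526) (nat_lit 76) (nat_lit 114140503511) (nat_lit 76) (nat_lit 26537271493) (nat_lit 6) (nat_lit 4) (nat_lit 7) (nat_lit 5) (nat_lit 7) (nat_lit 4) (nat_lit 333) (nat_lit 276) (nat_lit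 171)) (XT.lf (nat_lit 0) (nat_lit 170127720) (nat_lit 152) (nat_lit 87256478480) (nat_lit 76) (nat_lit 303151720104) (nat_lit 5) (nat_lit 5) (nat_lit 7) (nat_lit 5) (nat_lit 6) (nat_lit 4) (nat_lit 334) (nat_lit 276) (nat_lit 170))) (XT.nd (nat_lit 78) (nat_lit 76) (nat_lit 0) (XT.lf (nat_lit 0) (nat_lit 28095281148) (nat_lit 152) (nat_lit 30011773481) (nat_lit 76) (nat_lit 361966107833) (nat_lit 5) (nat_lit 5) (nat_lit 7) (nat_lit 5) (nat_lit 6) (nat_lit 4) (nat_lit 335) (nat_lit 276) (nat_lit 169)) (XT.nd (nat_lit 78) (nat_lit 0) (nat_lit 0) (XT.lf (nat_lit 0) (nat_lit 32861667643) (nat_lit 76) (nat_lit 25904424680) (nat_lit 152) (nat_lit 393135911814) (nat_lit 4) (nat_lit 5) (nat_lit 5) (nat_lit 5) (nat_lit 6) (nat_lit 4) (nat_lit 336) (nat_lit 276) (nat_lit 168)) (XT.lf (nat_lit 0) (nat_lit 92559109487) (nat_lit 152) (nat_lit 384563999253) (nat_lit 0) (nat_lit 9120618186) (nat_lit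 4) (nat_lit 5) (nat_lit 6) (nat_lit 4) (nat_lit 4) (nat_lit 4) (nat_lit 337) (nat_lit 276) (nat_lit 167))))))) (XT.nd (nat_lit 36036) (nat_lit 0) (nat_lit 4408) (XT.nd (nat_lit 390) (nat_lit 76) (nat_lit 0) (XT.nd (nat_lit 156) (nat_lit 0) (nat_lit 0) (XT.nd (nat_lit 78) (nat_lit 0) (nat_lit 0) (XT.lf (nat_lit 0) (nat_lit 129491095985) (nat_lit 152) (nat_lit 347768717101) (nat_lit 0) (nat_lit 46051198823) (nat_lit 4) (nat_lit 5) (nat_lit 6) (nat_lit 4) (nat_lit 4) (nat_lit 4) (nat_lit 338) (nat_lit 276) (nat_lit 166)) (XT.lf (nat_lit 0) (nat_lit 169376467367) (nat_lit 152) (nat_lit 308032003256) (nat_lit 0) (nat_lit 85935268484) (nat_lit 4) (nat_lit 5) (nat_lit 6) (nat_lit 4) (nat_lit 4) (nat_lit 4) (nat_lit 339) (nat_lit 276) (nat_lit 165))) (XT.nd (nat_lit 78) (nat_lit 0) (nat_lit 0) (XT.lf (nat_lit 0) (nat_lit 212451581391) (nat_lit 152) (nat_lit 265118380897) (nat_lit 0) (nat_lit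 129009177209) (nat_lit 4) (nat_lit 5) (nat_lit 6) (nat_lit 4) (nat_lit 4) (nat_lit 4) (nat_lit 340) (nat_lit 276) (nat_lit 164)) (XT.nd (nat_lit 78) (nat_lit 0) (nat_lit 0) (XT.lf (nat_lit 0) (nat_lit 258971697990) (nat_lit 152) (nat_lit 218773547075) (nat_lit 0) (nat_lit 175528177791) (nat_lit 4) (nat_lit 5) (nat_lit 6) (nat_lit 4) (nat_lit 4) (nat_lit 4) (nat_lit 341) (nat_lit 276) (nat_lit 163)) (XT.lf (nat_lit 0) (nat_lit 309212491930) (nat_lit 152) (nat_lit 168722865738) (nat_lit 0) (nat_lit 225767938382) (nat_lit 4) (nat_lit 5) (nat_lit 6) (nat_lit 4) (nat_lit 4) (nat_lit 4) (nat_lit 342) (nat_lit 276) (nat_lit 162))))) (XT.nd (nat_lit 156) (nat_lit 76) (nat_lit 0) (XT.nd (nat_lit 78) (nat_lit 0) (nat_lit 0) (XT.lf (nat_lit 0) (nat_lit 363471686435) (nat_lit 152) (nat_lit 114669740255) (nat_lit 0) (nat_lit 280026176082) (nat_lit 4) (nat_lit 5) (nat_lit 6) (nat_lit 4) (nat_lit 4)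 (nat_lit 4) (nat_lit 343) (nat_lit 276) (nat_lit 161)) (XT.lf (nat_lit 0) (nat_lit 422070817472) (nat_lit 152) (nat_lit 56293855811) (nat_lit 0) (nat_lit 338624421188) (nat_lit 4) (nat_lit 5) (nat_lit 6) (nat_lit 4) (nat_lit 4) (nat_lit 4) (nat_lit 344) (nat_lit 276) (nat_lit 160))) (XT.nd (nat_lit 35334) (nat_lit 0) (nat_lit 5928) (XT.lf (nat_lit 0) (nat_lit 6973928012) (nat_lit 76) (nat_lit 478492093698) (nat_lit 76) (nat_lit 395044877109) (nat_lit 3) (nat_lit 4) (nat_lit 4) (nat_lit 5) (nat_lit 4) (nat_lit 4) (nat_lit 345) (nat_lit 276) (nat_lit 159)) (XT.nd (nat_lit 78) (nat_lit 0) (nat_lit 0) (XT.lf (nat_lit 0) (nat_lit 1559154607) (nat_lit 0) (nat_lit 1559154607) (nat_lit 684) (nat_lit 4555516345) (nat_lit 81) (nat_lit 5) (nat_lit 81) (nat_lit 3) (nat_lit 90) (nat_lit 3) (nat_lit 277) (nat_lit 277) (nat_lit 226)) (XT.lf (nat_lit 0) (nat_lit 7019108412) (nat_lit 684) (nat_lit 1534802055)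 (nat_lit 760) (nat_lit 7379905407) (nat_lit 81) (nat_lit 5) (nat_lit 90) (nat_lit 3) (nat_lit 91) (nat_lit 5) (nat_lit 278) (nat_lit 277) (nat_lit 225)))))) (XT.nd (nat_lit 390) (nat_lit 1596) (nat_lit 0) (XT.nd (nat_lit 156) (nat_lit 0) (nat_lit 76) (XT.nd (nat_lit 78) (nat_lit 0) (nat_lit 0) (XT.lf (nat_lit 0) (nat_lit 8070846804) (nat_lit 684) (nat_lit 6325090568) (nat_lit 760) (nat_lit 2160713033) (nat_lit 82) (nat_lit 5) (nat_lit 91) (nat_lit 5) (nat_lit 92) (nat_lit 5) (nat_lit 279) (nat_lit 277) (nat_lit 224)) (XT.lf (nat_lit 76) (nat_lit 5781971413) (nat_lit 0) (nat_lit 3648288022) (nat_lit 760) (nat_lit 7787976482) (nat_lit 83) (nat_lit 5) (nat_lit 82) (nat_lit 5) (nat_lit 92) (nat_lit 5) (nat_lit 280) (nat_lit 277) (nat_lit 223))) (XT.nd (nat_lit 78) (nat_lit 0) (nat_lit 76) (XT.lf (nat_lit 76) (nat_lit 1037890167) (nat_lit 0) (nat_lit 10077495424) (nat_lit 760) (nat_lit 6806608150)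 (nat_lit 84) (nat_lit 5) (nat_lit 83) (nat_lit 5) (nat_lit 93) (nat_lit 5) (nat_lit 281) (nat_lit 277) (nat_lit 222)) (XT.nd (nat_lit 78) (nat_lit 0) (nat_lit 0) (XT.lf (nat_lit 0) (nat_lit 13187865194) (nat_lit 684) (nat_lit 3866430433) (nat_lit 760) (nat_lit 1615215968) (nat_lit 84) (nat_lit 5) (nat_lit 93) (nat_lit 5) (nat_lit 94) (nat_lit 5) (nat_lit 282) (nat_lit 277) (nat_lit 221)) (XT.lf (nat_lit 76) (nat_lit 10329006323) (nat_lit 0) (nat_lit 5397671944) (nat_lit 760) (nat_lit 3735206013) (nat_lit 85) (nat_lit 5) (nat_lit 84) (nat_lit 5) (nat_lit 94) (nat_lit 5) (nat_lit 283) (nat_lit 277) (nat_lit 220))))) (XT.nd (nat_lit 156) (nat_lit 684) (nat_lit 0) (XT.nd (nat_lit 78) (nat_lit 456) (nat_lit 0) (XT.lf (nat_lit 0) (nat_lit 5522376648) (nat_lit 684) (nat_lit 13184512109) (nat_lit 760) (nat_lit 1598917626) (nat_lit 76) (nat_lit 5) (nat_lit 85) (nat_lit 5) (nat_lit 86) (nat_lit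 5) (nat_lit 284) (nat_lit 277) (nat_lit 219)) (XT.lf (nat_lit 0) (nat_lit 348623259) (nat_lit 380) (nat_lit 567718575) (nat_lit 456) (nat_lit 20288876104) (nat_lit 70) (nat_lit 5) (nat_lit 75) (nat_lit 5) (nat_lit 76) (nat_lit 5) (nat_lit 285) (nat_lit 277) (nat_lit 218))) (XT.nd (nat_lit 78) (nat_lit 684) (nat_lit 0) (XT.lf (nat_lit 0) (nat_lit 4017447118) (nat_lit 456) (nat_lit 5204670639) (nat_lit 76) (nat_lit 12931182509) (nat_lit 70) (nat_lit 5) (nat_lit 76) (nat_lit 5) (nat_lit 71) (nat_lit 5) (nat_lit 286) (nat_lit 277) (nat_lit 217)) (XT.nd (nat_lit 78) (nat_lit 304) (nat_lit 0) (XT.lf (nat_lit 0) (nat_lit 7611009246) (nat_lit 456) (nat_lit 11186644307) (nat_lit 76) (nat_lit 4367413318) (nat_lit 65) (nat_lit 5) (nat_lit 71) (nat_lit 5) (nat_lit 66) (nat_lit 5) (nat_lit 287) (nat_lit 277) (nat_lit 216)) (XT.lf (nat_lit 0) (nat_lit 6496347927) (nat_lit 304) (nat_lit 5322387694)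 (nat_lit 380) (nat_lit 12422757177) (nat_lit 61) (nat_lit 5) (nat_lit 65) (nat_lit 5) (nat_lit 66) (nat_lit 5) (nat_lit 288) (nat_lit 277) (nat_lit 215))))))))
noncomputable def xc81 : XT := (XT.nd (nat_lit 1560) (nat_lit 1064) (nat_lit 0) (XT.nd (nat_lit 780) (nat_lit 1216) (nat_lit 0) (XT.nd (nat_lit 390) (nat_lit 684) (nat_lit 0) (XT.nd (nat_lit 156) (nat_lit 836) (nat_lit 0) (XT.nd (nat_lit 78) (nat_lit 0) (nat_lit 0) (XT.lf (nat_lit 0) (nat_lit 442578341) (nat_lit 304) (nat_lit 16248483882) (nat_lit 380) (nat_lit 8696619578) (nat_lit 57) (nat_lit 5) (nat_lit 61) (nat_lit 5) (nat_lit 62) (nat_lit 5) (nat_lit 289) (nat_lit 277) (nat_lit 214)) (XT.lf (nat_lit 0) (nat_lit 20603865013) (nat_lit 304) (nat_lit 1726823475) (nat_lit 380) (nat_lit 4276046303) (nat_lit 57) (nat_lit 5) (nat_lit 61) (nat_lit 5) (nat_lit 62) (nat_lit 5) (nat_lit 290) (nat_lit 277) (nat_lit 213))) (XT.nd (nat_lit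 78) (nat_lit 532) (nat_lit 0) (XT.lf (nat_lit 0) (nat_lit 917938438) (nat_lit 304) (nat_lit 13231544396) (nat_lit 76) (nat_lit 13751694063) (nat_lit 53) (nat_lit 5) (nat_lit 57) (nat_lit 5) (nat_lit 54) (nat_lit 5) (nat_lit 291) (nat_lit 277) (nat_lit 212)) (XT.nd (nat_lit 78) (nat_lit 228) (nat_lit 0) (XT.lf (nat_lit 0) (nat_lit 6645248991) (nat_lit 380) (nat_lit 21256018478) (nat_lit 76) (nat_lit 1381057375) (nat_lit 49) (nat_lit 5) (nat_lit 54) (nat_lit 5) (nat_lit 50) (nat_lit 5) (nat_lit 292) (nat_lit 277) (nat_lit 211)) (XT.lf (nat_lit 0) (nat_lit 445486899) (nat_lit 228) (nat_lit 12848264267) (nat_lit 304) (nat_lit 17457096798) (nat_lit 46) (nat_lit 5) (nat_lit 49) (nat_lit 5) (nat_lit 50) (nat_lit 5) (nat_lit 293) (nat_lit 277) (nat_lit 210))))) (XT.nd (nat_lit 156) (nat_lit 456) (nat_lit 0) (XT.nd (nat_lit 78) (nat_lit 228) (nat_lit 0) (XT.lf (nat_lit 0) (nat_lit 20887752749)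 (nat_lit 304) (nat_lit 7756552816) (nat_lit 76) (nat_lit 3671897589) (nat_lit 46) (nat_lit 5) (nat_lit 50) (nat_lit 5) (nat_lit 47) (nat_lit 5) (nat_lit 294) (nat_lit 277) (nat_lit 209)) (XT.lf (nat_lit 0) (nat_lit 16900933834) (nat_lit 228) (nat_lit 12654097005) (nat_lit 304) (nat_lit 4428496974) (nat_lit 43) (nat_lit 5) (nat_lit 46) (nat_lit 5) (nat_lit 47) (nat_lit 5) (nat_lit 295) (nat_lit 277) (nat_lit 208))) (XT.nd (nat_lit 78) (nat_lit 228) (nat_lit 0) (XT.lf (nat_lit 0) (nat_lit 3359872819) (nat_lit 228) (nat_lit 27622929374) (nat_lit 76) (nat_lit 4782584868) (nat_lit 40) (nat_lit 5) (nat_lit 43) (nat_lit 5) (nat_lit 41) (nat_lit 5) (nat_lit 296) (nat_lit 277) (nat_lit 207)) (XT.nd (nat_lit 78) (nat_lit 228) (nat_lit 0) (XT.lf (nat_lit 0) (nat_lit 12120528300) (nat_lit 228) (nat_lit 1991261645) (nat_lit 76) (nat_lit 23549180312) (nat_lit 40) (nat_lit 5) (nat_lit 43) (nat_lit 5)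 (nat_lit 41) (nat_lit 5) (nat_lit 297) (nat_lit 277) (nat_lit 206)) (XT.lf (nat_lit 0) (nat_lit 22054463895) (nat_lit 304) (nat_lit 13236733896) (nat_lit 76) (nat_lit 4393402760) (nat_lit 37) (nat_lit 5) (nat_lit 41) (nat_lit 5) (nat_lit 38) (nat_lit 5) (nat_lit 298) (nat_lit 277) (nat_lit 205)))))) (XT.nd (nat_lit 390) (nat_lit 456) (nat_lit 0) (XT.nd (nat_lit 156) (nat_lit 304) (nat_lit 0) (XT.nd (nat_lit 78) (nat_lit 304) (nat_lit 0) (XT.lf (nat_lit 0) (nat_lit 15608578165) (nat_lit 152) (nat_lit 17679503314) (nat_lit 228) (nat_lit 8556811646) (nat_lit 35) (nat_lit 5) (nat_lit 37) (nat_lit 5) (nat_lit 38) (nat_lit 5) (nat_lit 299) (nat_lit 277) (nat_lit 204)) (XT.lf (nat_lit 0) (nat_lit 1500106059) (nat_lit 304) (nat_lit 41061610529) (nat_lit 76) (nat_lit 1600465959) (nat_lit 31) (nat_lit 5) (nat_lit 35) (nat_lit 5) (nat_lit 32) (nat_lit 5) (nat_lit 300) (nat_lit 277) (nat_lit 203)))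 (XT.nd (nat_lit 78) (nat_lit 304) (nat_lit 0) (XT.lf (nat_lit 0) (nat_lit 12817422355) (nat_lit 304) (nat_lit 11387295794) (nat_lit 76) (nat_lit 22415357988) (nat_lit 31) (nat_lit 5) (nat_lit 35) (nat_lit 5) (nat_lit 32) (nat_lit 5) (nat_lit 301) (nat_lit 277) (nat_lit 202)) (XT.nd (nat_lit 78) (nat_lit 152) (nat_lit 0) (XT.lf (nat_lit 0) (nat_lit 21328127359) (nat_lit 152) (nat_lit 4034808593) (nat_lit 228) (nat_lit 23895539942) (nat_lit 29) (nat_lit 5) (nat_lit 31) (nat_lit 5) (nat_lit 32) (nat_lit 5) (nat_lit 302) (nat_lit 277) (nat_lit 201)) (XT.lf (nat_lit 0) (nat_lit 4828355807) (nat_lit 152) (nat_lit 34628099909) (nat_lit 228) (nat_lit 12624287813) (nat_lit 27) (nat_lit 5) (nat_lit 29) (nat_lit 5) (nat_lit 30) (nat_lit 5) (nat_lit 303) (nat_lit 277) (nat_lit 200))))) (XT.nd (nat_lit 156) (nat_lit 228) (nat_lit 0) (XT.nd (nat_lit 78) (nat_lit 152) (nat_lit 0) (XT.lf (nat_lit 0)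 (nat_lit 116241581) (nat_lit 228) (nat_lit 13983166186) (nat_lit 76) (nat_lit 41002093036) (nat_lit 26) (nat_lit 5) (nat_lit 29) (nat_lit 5) (nat_lit 27) (nat_lit 5) (nat_lit 304) (nat_lit 277) (nat_lit 199)) (XT.lf (nat_lit 0) (nat_lit 13916434093) (nat_lit 228) (nat_lit 36032236790) (nat_lit 76) (nat_lit 8380775838) (nat_lit 24) (nat_lit 5) (nat_lit 27) (nat_lit 5) (nat_lit 25) (nat_lit 5) (nat_lit 305) (nat_lit 277) (nat_lit 198))) (XT.nd (nat_lit 78) (nat_lit 228) (nat_lit 0) (XT.lf (nat_lit 0) (nat_lit 29297607098) (nat_lit 228) (nat_lit 79357588) (nat_lit 76) (nat_lit 32414826067) (nat_lit 24) (nat_lit 5) (nat_lit 27) (nat_lit 5) (nat_lit 25) (nat_lit 5) (nat_lit 306) (nat_lit 277) (nat_lit 197)) (XT.nd (nat_lit 78) (nat_lit 76) (nat_lit 0) (XT.lf (nat_lit 0) (nat_lit 40018057666) (nat_lit 152) (nat_lit 6508281150) (nat_lit 228) (nat_lit 18973940152) (nat_lit 22) (nat_lit 5) (nat_lit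 24) (nat_lit 5) (nat_lit 25) (nat_lit 5) (nat_lit 307) (nat_lit 277) (nat_lit 196)) (XT.lf (nat_lit 0) (nat_lit 13971601572) (nat_lit 76) (nat_lit 51657887659) (nat_lit 152) (nat_lit 3851160174) (nat_lit 21) (nat_lit 5) (nat_lit 22) (nat_lit 5) (nat_lit 23) (nat_lit 4) (nat_lit 308) (nat_lit 277) (nat_lit 195))))))) (XT.nd (nat_lit 780) (nat_lit 380) (nat_lit 0) (XT.nd (nat_lit 390) (nat_lit 304) (nat_lit 0) (XT.nd (nat_lit 156) (nat_lit 152) (nat_lit 0) (XT.nd (nat_lit 78) (nat_lit 152) (nat_lit 0) (XT.lf (nat_lit 0) (nat_lit 12635686381) (nat_lit 152) (nat_lit 16589445073) (nat_lit 76) (nat_lit 44516896180) (nat_lit 20) (nat_lit 5) (nat_lit 22) (nat_lit 5) (nat_lit 21) (nat_lit 5) (nat_lit 309) (nat_lit 277) (nat_lit 194)) (XT.lf (nat_lit 0) (nat_lit 26206453500) (nat_lit 152) (nat_lit 4504418801) (nat_lit 228) (nat_lit 47610078745) (nat_lit 18) (nat_lit 5) (nat_lit 20) (nat_lit 5)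 (nat_lit 21) (nat_lit 5) (nat_lit 310) (nat_lit 277) (nat_lit 193))) (XT.nd (nat_lit 78) (nat_lit 152) (nat_lit 0) (XT.lf (nat_lit 0) (nat_lit 50865914118) (nat_lit 228) (nat_lit 10595436768) (nat_lit 76) (nat_lit 21773152326) (nat_lit 18) (nat_lit 5) (nat_lit 21) (nat_lit 5) (nat_lit 19) (nat_lit 4) (nat_lit 311) (nat_lit 277) (nat_lit 192)) (XT.nd (nat_lit 78) (nat_lit 76) (nat_lit 0) (XT.lf (nat_lit 0) (nat_lit 35288578926) (nat_lit 76) (nat_lit 37965776036) (nat_lit 152) (nat_lit 15255741225) (nat_lit 17) (nat_lit 5) (nat_lit 18) (nat_lit 5) (nat_lit 19) (nat_lit 4) (nat_lit 312) (nat_lit 277) (nat_lit 191)) (XT.lf (nat_lit 0) (nat_lit 3304748169) (nat_lit 152) (nat_lit 9040056711) (nat_lit 76) (nat_lit 81851325424) (nat_lit 16) (nat_lit 5) (nat_lit 18) (nat_lit 5) (nat_lit 17) (nat_lit 5) (nat_lit 313) (nat_lit 277) (nat_lit 190))))) (XT.nd (nat_lit 156) (nat_lit 152) (nat_lit 0)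 (XT.nd (nat_lit 78) (nat_lit 0) (nat_lit 0) (XT.lf (nat_lit 0) (nat_lit 23690540278) (nat_lit 228) (nat_lit 60867498684) (nat_lit 76) (nat_lit 15722761203) (nat_lit 14) (nat_lit 5) (nat_lit 17) (nat_lit 5) (nat_lit 15) (nat_lit 4) (nat_lit 314) (nat_lit 277) (nat_lit 189)) (XT.lf (nat_lit 0) (nat_lit 46070307044) (nat_lit 228) (nat_lit 14998266946) (nat_lit 76) (nat_lit 45765518915) (nat_lit 14) (nat_lit 5) (nat_lit 17) (nat_lit 5) (nat_lit 15) (nat_lit 4) (nat_lit 315) (nat_lit 277) (nat_lit 188))) (XT.nd (nat_lit 78) (nat_lit 76) (nat_lit 0) (XT.lf (nat_lit 0) (nat_lit 35674050074) (nat_lit 76) (nat_lit 35118656480) (nat_lit 152) (nat_lit 43091334434) (nat_lit 13) (nat_lit 5) (nat_lit 14) (nat_lit 5) (nat_lit 15) (nat_lit 4) (nat_lit 316) (nat_lit 277) (nat_lit 187)) (XT.nd (nat_lit 78) (nat_lit 76) (nat_lit 0) (XT.lf (nat_lit 0) (nat_lit 90927848429) (nat_lit 76) (nat_lit 6821815757)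 (nat_lit 152) (nat_lit 23735486584) (nat_lit 13) (nat_lit 5) (nat_lit 14) (nat_lit 5) (nat_lit 15) (nat_lit 4) (nat_lit 317) (nat_lit 277) (nat_lit 186)) (XT.lf (nat_lit 0) (nat_lit 21208304847) (nat_lit 76) (nat_lit 106352413278) (nat_lit 76) (nat_lit 2098758077) (nat_lit 12) (nat_lit 4) (nat_lit 13) (nat_lit 5) (nat_lit 13) (nat_lit 4) (nat_lit 318) (nat_lit 277) (nat_lit 185)))))) (XT.nd (nat_lit 390) (nat_lit 228) (nat_lit 0) (XT.nd (nat_lit 156) (nat_lit 76) (nat_lit 0) (XT.nd (nat_lit 78) (nat_lit 0) (nat_lit 0) (XT.lf (nat_lit 0) (nat_lit 21240134648) (nat_lit 152) (nat_lit 60717882528) (nat_lit 76) (nat_lit 56480532336) (nat_lit 11) (nat_lit 5) (nat_lit 13) (nat_lit 5) (nat_lit 12) (nat_lit 4) (nat_lit 319) (nat_lit 277) (nat_lit 184)) (XT.lf (nat_lit 0) (nat_lit 46369814739) (nat_lit 152) (nat_lit 9208059968) (nat_lit 76) (nat_lit 92340496522) (nat_lit 11) (nat_lit 5) (nat_lit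 13) (nat_lit 5) (nat_lit 12) (nat_lit 4) (nat_lit 320) (nat_lit 277) (nat_lit 183))) (XT.nd (nat_lit 78) (nat_lit 0) (nat_lit 0) (XT.lf (nat_lit 0) (nat_lit 47951039951) (nat_lit 76) (nat_lit 26303982349) (nat_lit 152) (nat_lit 83864301642) (nat_lit 10) (nat_lit 5) (nat_lit 11) (nat_lit 5) (nat_lit 12) (nat_lit 4) (nat_lit 321) (nat_lit 277) (nat_lit 182)) (XT.nd (nat_lit 78) (nat_lit 0) (nat_lit 0) (XT.lf (nat_lit 0) (nat_lit 104613634413) (nat_lit 152) (nat_lit 59208308146) (nat_lit 0) (nat_lit 5302283613) (nat_lit 10) (nat_lit 5) (nat_lit 12) (nat_lit 4) (nat_lit 10) (nat_lit 4) (nat_lit 322) (nat_lit 277) (nat_lit 181)) (XT.lf (nat_lit 0) (nat_lit 137841346077) (nat_lit 152) (nat_lit 4620713730) (nat_lit 0) (nat_lit 38525442743) (nat_lit 10) (nat_lit 5) (nat_lit 12) (nat_lit 4) (nat_lit 10) (nat_lit 4) (nat_lit 323) (nat_lit 277) (nat_lit 180))))) (XT.nd (nat_lit 156) (nat_lit 76)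 (nat_lit 0) (XT.nd (nat_lit 78) (nat_lit 76) (nat_lit 0) (XT.lf (nat_lit 0) (nat_lit 56125011038) (nat_lit 76) (nat_lit 118475641043) (nat_lit 76) (nat_lit 19155522398) (nat_lit 9) (nat_lit 4) (nat_lit 10) (nat_lit 5) (nat_lit 10) (nat_lit 4) (nat_lit 324) (nat_lit 277) (nat_lit 179)) (XT.lf (nat_lit 0) (nat_lit 6617187529) (nat_lit 152) (nat_lit 85758787274) (nat_lit 76) (nat_lit 115161144329) (nat_lit 8) (nat_lit 5) (nat_lit 10) (nat_lit 5) (nat_lit 9) (nat_lit 4) (nat_lit 325) (nat_lit 277) (nat_lit 178))) (XT.nd (nat_lit 78) (nat_lit 76) (nat_lit 0) (XT.lf (nat_lit 0) (nat_lit 33786975335) (nat_lit 152) (nat_lit 30064336219) (nat_lit 76) (nat_lit 158553209577) (nat_lit 8) (nat_lit 5) (nat_lit 10) (nat_lit 5) (nat_lit 9) (nat_lit 4) (nat_lit 326) (nat_lit 277) (nat_lit 177)) (XT.nd (nat_lit 78) (nat_lit 0) (nat_lit 0) (XT.lf (nat_lit 0) (nat_lit 31075926006) (nat_lit 76) (nat_lit 32537199805)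 (nat_lit 152) (nat_lit 174824052247) (nat_lit 7) (nat_lit 5) (nat_lit 8) (nat_lit 5) (nat_lit 9) (nat_lit 4) (nat_lit 327) (nat_lit 277) (nat_lit 176)) (XT.lf (nat_lit 0) (nat_lit 96375351775) (nat_lit 152) (nat_lit 157578132419) (nat_lit 0) (nat_lit 1771465789) (nat_lit 7) (nat_lit 5) (nat_lit 9) (nat_lit 4) (nat_lit 7) (nat_lit 4) (nat_lit 328) (nat_lit 277) (nat_lit 175))))))))
noncomputable def xc82 : XT := (XT.nd (nat_lit 36972) (nat_lit 0) (nat_lit 2052) (XT.nd (nat_lit 780) (nat_lit 0) (nat_lit 0) (XT.nd (nat_lit 390) (nat_lit 152) (nat_lit 0) (XT.nd (nat_lit 156) (nat_lit 76) (nat_lit 0) (XT.nd (nat_lit 78) (nat_lit 0) (nat_lit 0) (XT.lf (nat_lit 0) (nat_lit 132305044840) (nat_lit 152) (nat_lit 104364949274) (nat_lit 0) (nat_lit 37698426597) (nat_lit 7) (nat_lit 5) (nat_lit 9) (nat_lit 4) (nat_lit 7) (nat_lit 4) (nat_lit 329) (nat_lit 277) (nat_lit 174)) (XT.lf (nat_lit 0) (nat_lit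 171107124831) (nat_lit 152) (nat_lit 46898368359) (nat_lit 0) (nat_lit 76497976721) (nat_lit 7) (nat_lit 5) (nat_lit 9) (nat_lit 4) (nat_lit 7) (nat_lit 4) (nat_lit 330) (nat_lit 277) (nat_lit 173))) (XT.nd (nat_lit 78) (nat_lit 0) (nat_lit 0) (XT.lf (nat_lit 0) (nat_lit 15663482278) (nat_lit 76) (nat_lit 197592598576) (nat_lit 76) (nat_lit 102981107996) (nat_lit 6) (nat_lit 4) (nat_lit 7) (nat_lit 5) (nat_lit 7) (nat_lit 4) (nat_lit 331) (nat_lit 277) (nat_lit 172)) (XT.nd (nat_lit 78) (nat_lit 0) (nat_lit 0) (XT.lf (nat_lit 0) (nat_lit 84901767722) (nat_lit 76) (nat_lit 174690369555) (nat_lit 76) (nat_lit 80076710022) (nat_lit 6) (nat_lit 4) (nat_lit 7) (nat_lit 5) (nat_lit 7) (nat_lit 4) (nat_lit 332) (nat_lit 277) (nat_lit 171)) (XT.lf (nat_lit 0) (nat_lit 159676117066) (nat_lit 76) (nat_lit 149957335775) (nat_lit 76) (nat_lit 55341667952) (nat_lit 6) (nat_lit 4) (nat_lit 7) (nat_lit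 5) (nat_lit 7) (nat_lit 4) (nat_lit 333) (nat_lit 277) (nat_lit 170))))) (XT.nd (nat_lit 156) (nat_lit 76) (nat_lit 0) (XT.nd (nat_lit 78) (nat_lit 76) (nat_lit 0) (XT.lf (nat_lit 0) (nat_lit 240429637564) (nat_lit 76) (nat_lit 123246931111) (nat_lit 76) (nat_lit 28629403761) (nat_lit 6) (nat_lit 4) (nat_lit 7) (nat_lit 5) (nat_lit 7) (nat_lit 4) (nat_lit 334) (nat_lit 277) (nat_lit 169)) (XT.lf (nat_lit 0) (nat_lit 211388009) (nat_lit 152) (nat_lit 94185903716) (nat_lit 76) (nat_lit 327425900631) (nat_lit 5) (nat_lit 5) (nat_lit 7) (nat_lit 5) (nat_lit 6) (nat_lit 4) (nat_lit 335) (nat_lit 277) (nat_lit 168))) (XT.nd (nat_lit 78) (nat_lit 76) (nat_lit 0) (XT.lf (nat_lit 0) (nat_lit 30368505557) (nat_lit 152) (nat_lit 32365406987) (nat_lit 76) (nat_lit 390943806569) (nat_lit 5) (nat_lit 5) (nat_lit 7) (nat_lit 5) (nat_lit 6) (nat_lit 4) (nat_lit 336) (nat_lit 277) (nat_lit 167)) (XT.nd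 (nat_lit 78) (nat_lit 0) (nat_lit 0) (XT.lf (nat_lit 0) (nat_lit 35535853462) (nat_lit 76) (nat_lit 27955938242) (nat_lit 152) (nat_lit 424561137118) (nat_lit 4) (nat_lit 5) (nat_lit 5) (nat_lit 5) (nat_lit 6) (nat_lit 4) (nat_lit 337) (nat_lit 277) (nat_lit 166)) (XT.lf (nat_lit 0) (nat_lit 99986743221) (nat_lit 152) (nat_lit 415286375974) (nat_lit 0) (nat_lit 9868946704) (nat_lit 4) (nat_lit 5) (nat_lit 6) (nat_lit 4) (nat_lit 4) (nat_lit 4) (nat_lit 338) (nat_lit 277) (nat_lit 165)))))) (XT.nd (nat_lit 390) (nat_lit 0) (nat_lit 0) (XT.nd (nat_lit 156) (nat_lit 0) (nat_lit 0) (XT.nd (nat_lit 78) (nat_lit 0) (nat_lit 0) (XT.lf (nat_lit 0) (nat_lit 139871591974) (nat_lit 152) (nat_lit 375550637414) (nat_lit 0) (nat_lit 49752590159) (nat_lit 4) (nat_lit 5) (nat_lit 6) (nat_lit 4) (nat_lit 4) (nat_lit 4) (nat_lit 339) (nat_lit 277) (nat_lit 164)) (XT.lf (nat_lit 0) (nat_lit 182946222081)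 (nat_lit 152) (nat_lit 332637918096) (nat_lit 0) (nat_lit 92826104249) (nat_lit 4) (nat_lit 5) (nat_lit 6) (nat_lit 4) (nat_lit 4) (nat_lit 4) (nat_lit 340) (nat_lit 277) (nat_lit 163))) (XT.nd (nat_lit 78) (nat_lit 0) (nat_lit 0) (XT.lf (nat_lit 0) (nat_lit 229465890610) (nat_lit 152) (nat_lit 286293920423) (nat_lit 0) (nat_lit 139344739428) (nat_lit 4) (nat_lit 5) (nat_lit 6) (nat_lit 4) (nat_lit 4) (nat_lit 4) (nat_lit 341) (nat_lit 277) (nat_lit 162)) (XT.nd (nat_lit 78) (nat_lit 0) (nat_lit 0) (XT.lf (nat_lit 0) (nat_lit 279706269670) (nat_lit 152) (nat_lit 236244013299) (nat_lit 0) (nat_lit 189584161684) (nat_lit 4) (nat_lit 5) (nat_lit 6) (nat_lit 4) (nat_lit 4) (nat_lit 4) (nat_lit 342) (nat_lit 277) (nat_lit 161)) (XT.lf (nat_lit 0) (nat_lit 333965080026) (nat_lit 152) (nat_lit 182191604680) (nat_lit 0) (nat_lit 243842086110) (nat_lit 4) (nat_lit 5) (nat_lit 6) (nat_lit 4) (nat_lit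 4) (nat_lit 4) (nat_lit 343) (nat_lit 277) (nat_lit 160))))) (XT.nd (nat_lit 35568) (nat_lit 0) (nat_lit 5852) (XT.nd (nat_lit 35490) (nat_lit 0) (nat_lit 5852) (XT.lf (nat_lit 0) (nat_lit 392563855370) (nat_lit 152) (nat_lit 123816383997) (nat_lit 0) (nat_lit 302440041148) (nat_lit 4) (nat_lit 5) (nat_lit 6) (nat_lit 4) (nat_lit 4) (nat_lit 4) (nat_lit 344) (nat_lit 277) (nat_lit 159)) (XT.lf (nat_lit 0) (nat_lit 1885905943) (nat_lit 0) (nat_lit 1885905943) (nat_lit 684) (nat_lit 4494654008) (nat_lit 81) (nat_lit 5) (nat_lit 81) (nat_lit 3) (nat_lit 90) (nat_lit 3) (nat_lit 278) (nat_lit 278) (nat_lit 224))) (XT.nd (nat_lit 78) (nat_lit 0) (nat_lit 76) (XT.lf (nat_lit 0) (nat_lit 8323014592) (nat_lit 684) (nat_lit 1238255185) (nat_lit 760) (nat_lit 7608162470) (nat_lit 81) (nat_lit 5) (nat_lit 90) (nat_lit 3) (nat_lit 91) (nat_lit 5) (nat_lit 279) (nat_lit 278) (nat_lit 223)) (XT.nd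 (nat_lit 78) (nat_lit 0) (nat_lit 0) (XT.lf (nat_lit 0) (nat_lit 9405596145) (nat_lit 684) (nat_lit 6388916457) (nat_lit 760) (nat_lit 2050391661) (nat_lit 82) (nat_lit 5) (nat_lit 91) (nat_lit 5) (nat_lit 92) (nat_lit 5) (nat_lit 280) (nat_lit 278) (nat_lit 222)) (XT.lf (nat_lit 76) (nat_lit 6667493820) (nat_lit 0) (nat_lit 4161828550) (nat_lit 760) (nat_lit 7732451335) (nat_lit 83) (nat_lit 5) (nat_lit 82) (nat_lit 5) (nat_lit 92) (nat_lit 5) (nat_lit 281) (nat_lit 278) (nat_lit 221))))))) (XT.nd (nat_lit 780) (nat_lit 1976) (nat_lit 0) (XT.nd (nat_lit 390) (nat_lit 988) (nat_lit 0) (XT.nd (nat_lit 156) (nat_lit 988) (nat_lit 0) (XT.nd (nat_lit 78) (nat_lit 0) (nat_lit 76) (XT.lf (nat_lit 76) (nat_lit 1561262056) (nat_lit 0) (nat_lit 11043915606) (nat_lit 760) (nat_lit 6718983650) (nat_lit 84) (nat_lit 5) (nat_lit 83) (nat_lit 5) (nat_lit 93) (nat_lit 5) (nat_lit 282) (nat_lit 278)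 (nat_lit 220)) (XT.lf (nat_lit 0) (nat_lit 14796653420) (nat_lit 684) (nat_lit 3736454039) (nat_lit 760) (nat_lit 1600829088) (nat_lit 84) (nat_lit 5) (nat_lit 93) (nat_lit 5) (nat_lit 94) (nat_lit 5) (nat_lit 283) (nat_lit 278) (nat_lit 219))) (XT.nd (nat_lit 78) (nat_lit 1064) (nat_lit 0) (XT.lf (nat_lit 76) (nat_lit 11575526614) (nat_lit 0) (nat_lit 5928586236) (nat_lit 760) (nat_lit 3487416392) (nat_lit 85) (nat_lit 5) (nat_lit 84) (nat_lit 5) (nat_lit 94) (nat_lit 5) (nat_lit 284) (nat_lit 278) (nat_lit 218)) (XT.nd (nat_lit 78) (nat_lit 456) (nat_lit 0) (XT.lf (nat_lit 0) (nat_lit 6393704294) (nat_lit 684) (nat_lit 14295842852) (nat_lit 760) (nat_lit 1215176935) (nat_lit 76) (nat_lit 5) (nat_lit 85) (nat_lit 5) (nat_lit 86) (nat_lit 5) (nat_lit 285) (nat_lit 278) (nat_lit 217)) (XT.lf (nat_lit 0) (nat_lit 804178846) (nat_lit 380) (nat_lit 650738112) (nat_lit 456) (nat_lit 21422360275)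 (nat_lit 70) (nat_lit 5) (nat_lit 75) (nat_lit 5) (nat_lit 76) (nat_lit 5) (nat_lit 286) (nat_lit 278) (nat_lit 216))))) (XT.nd (nat_lit 156) (nat_lit 608) (nat_lit 0) (XT.nd (nat_lit 78) (nat_lit 380) (nat_lit 0) (XT.lf (nat_lit 0) (nat_lit 4769102798) (nat_lit 456) (nat_lit 5201960086) (nat_lit 76) (nat_lit 13931974748) (nat_lit 70) (nat_lit 5) (nat_lit 76) (nat_lit 5) (nat_lit 71) (nat_lit 5) (nat_lit 287) (nat_lit 278) (nat_lit 215)) (XT.lf (nat_lit 0) (nat_lit 8624478559) (nat_lit 456) (nat_lit 11659474630) (nat_lit 76) (nat_lit 4713151029) (nat_lit 65) (nat_lit 5) (nat_lit 71) (nat_lit 5) (nat_lit 66) (nat_lit 5) (nat_lit 288) (nat_lit 278) (nat_lit 214))) (XT.nd (nat_lit 78) (nat_lit 304) (nat_lit 0) (XT.lf (nat_lit 0) (nat_lit 7419812978) (nat_lit 304) (nat_lit 5725344324) (nat_lit 380) (nat_lit 13015739729) (nat_lit 61) (nat_lit 5) (nat_lit 65) (nat_lit 5) (nat_lit 66) (nat_lit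 5) (nat_lit 289) (nat_lit 278) (nat_lit 213)) (XT.nd (nat_lit 78) (nat_lit 0) (nat_lit 0) (XT.lf (nat_lit 0) (nat_lit 882903713) (nat_lit 304) (nat_lit 17502801835) (nat_lit 380) (nat_lit 9014218204) (nat_lit 57) (nat_lit 5) (nat_lit 61) (nat_lit 5) (nat_lit 62) (nat_lit 5) (nat_lit 290) (nat_lit 278) (nat_lit 212)) (XT.lf (nat_lit 0) (nat_lit 22627099312) (nat_lit 304) (nat_lit 1822783467) (nat_lit 380) (nat_lit 4268008766) (nat_lit 57) (nat_lit 5) (nat_lit 61) (nat_lit 5) (nat_lit 62) (nat_lit 5) (nat_lit 291) (nat_lit 278) (nat_lit 211)))))) (XT.nd (nat_lit 390) (nat_lit 912) (nat_lit 0) (XT.nd (nat_lit 156) (nat_lit 456) (nat_lit 0) (XT.nd (nat_lit 78) (nat_lit 304) (nat_lit 0) (XT.lf (nat_lit 0) (nat_lit 1311748587) (nat_lit 304) (nat_lit 13904189952) (nat_lit 76) (nat_lit 14900656729) (nat_lit 53) (nat_lit 5) (nat_lit 57) (nat_lit 5) (nat_lit 54) (nat_lit 5) (nat_lit 292) (nat_lit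 278) (nat_lit 210)) (XT.lf (nat_lit 0) (nat_lit 7480316712) (nat_lit 380) (nat_lit 22572704471) (nat_lit 76) (nat_lit 1556108899) (nat_lit 49) (nat_lit 5) (nat_lit 54) (nat_lit 5) (nat_lit 50) (nat_lit 5) (nat_lit 293) (nat_lit 278) (nat_lit 209))) (XT.nd (nat_lit 78) (nat_lit 228) (nat_lit 0) (XT.lf (nat_lit 0) (nat_lit 848242052) (nat_lit 228) (nat_lit 13795711107) (nat_lit 304) (nat_lit 18552064252) (nat_lit 46) (nat_lit 5) (nat_lit 49) (nat_lit 5) (nat_lit 50) (nat_lit 5) (nat_lit 294) (nat_lit 278) (nat_lit 208)) (XT.nd (nat_lit 78) (nat_lit 228) (nat_lit 0) (XT.lf (nat_lit 0) (nat_lit 22825400185) (nat_lit 304) (nat_lit 8024522320) (nat_lit 76) (nat_lit 4037723971) (nat_lit 46) (nat_lit 5) (nat_lit 50) (nat_lit 5) (nat_lit 47) (nat_lit 5) (nat_lit 295) (nat_lit 278) (nat_lit 207)) (XT.lf (nat_lit 0) (nat_lit 18590241663) (nat_lit 228) (nat_lit 13581333848) (nat_lit 304) (nat_lit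 4517544482) (nat_lit 43) (nat_lit 5) (nat_lit 46) (nat_lit 5) (nat_lit 47) (nat_lit 5) (nat_lit 296) (nat_lit 278) (nat_lit 206))))) (XT.nd (nat_lit 156) (nat_lit 684) (nat_lit 0) (XT.nd (nat_lit 78) (nat_lit 0) (nat_lit 0) (XT.lf (nat_lit 0) (nat_lit 3872935490) (nat_lit 228) (nat_lit 29490433315) (nat_lit 76) (nat_lit 5250609712) (nat_lit 40) (nat_lit 5) (nat_lit 43) (nat_lit 5) (nat_lit 41) (nat_lit 5) (nat_lit 297) (nat_lit 278) (nat_lit 205)) (XT.lf (nat_lit 0) (nat_lit 13316349124) (nat_lit 228) (nat_lit 1833589975) (nat_lit 76) (nat_lit 25512205527) (nat_lit 40) (nat_lit 5) (nat_lit 43) (nat_lit 5) (nat_lit 41) (nat_lit 5) (nat_lit 298) (nat_lit 278) (nat_lit 204))) (XT.nd (nat_lit 78) (nat_lit 456) (nat_lit 0) (XT.lf (nat_lit 0) (nat_lit 24034369509) (nat_lit 304) (nat_lit 13982792367) (nat_lit 76) (nat_lit 4831064182) (nat_lit 37) (nat_lit 5) (nat_lit 41) (nat_lit 5) (nat_lit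 38) (nat_lit 5) (nat_lit 299) (nat_lit 278) (nat_lit 203)) (XT.nd (nat_lit 78) (nat_lit 304) (nat_lit 0) (XT.lf (nat_lit 0) (nat_lit 17156547265) (nat_lit 152) (nat_lit 18998835322) (nat_lit 228) (nat_lit 9026551190) (nat_lit 35) (nat_lit 5) (nat_lit 37) (nat_lit 5) (nat_lit 38) (nat_lit 5) (nat_lit 300) (nat_lit 278) (nat_lit 202)) (XT.lf (nat_lit 0) (nat_lit 1818719331) (nat_lit 304) (nat_lit 44044725007) (nat_lit 76) (nat_lit 1821484453) (nat_lit 31) (nat_lit 5) (nat_lit 35) (nat_lit 5) (nat_lit 32) (nat_lit 5) (nat_lit 301) (nat_lit 278) (nat_lit 201))))))))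
noncomputable def xc83 : XT := (XT.nd (nat_lit 1560) (nat_lit 532) (nat_lit 0) (XT.nd (nat_lit 780) (nat_lit 532) (nat_lit 0) (XT.nd (nat_lit 390) (nat_lit 456) (nat_lit 0) (XT.nd (nat_lit 156) (nat_lit 380) (nat_lit 0) (XT.nd (nat_lit 78) (nat_lit 152) (nat_lit 0) (XT.lf (nat_lit 0) (nat_lit 14026709465) (nat_lit 304) (nat_lit 12018821713) (nat_lit 76) (nat_lit 24294680346) (nat_lit 31) (nat_lit 5) (nat_lit 35) (nat_lit 5) (nat_lit 32) (nat_lit 5) (nat_lit 302) (nat_lit 278) (nat_lit 200)) (XT.lf (nat_lit 0) (nat_lit 23301690400) (nat_lit 152) (nat_lit 4264725527) (nat_lit 228) (nat_lit 25623760196) (nat_lit 29) (nat_lit 5) (nat_lit 31) (nat_lit 5) (nat_lit 32) (nat_lit 5) (nat_lit 303) (nat_lit 278) (nat_lit 199))) (XT.nd (nat_lit 78) (nat_lit 228) (nat_lit 0) (XT.lf (nat_lit 0) (nat_lit 5477520797) (nat_lit 152) (nat_lit 37302421691) (nat_lit 228) (nat_lit 13458675351) (nat_lit 27)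 (nat_lit 5) (nat_lit 29) (nat_lit 5) (nat_lit 30) (nat_lit 5) (nat_lit 304) (nat_lit 278) (nat_lit 198)) (XT.nd (nat_lit 78) (nat_lit 152) (nat_lit 0) (XT.lf (nat_lit 0) (nat_lit 282889625) (nat_lit 228) (nat_lit 14852985421) (nat_lit 76) (nat_lit 44365669693) (nat_lit 26) (nat_lit 5) (nat_lit 29) (nat_lit 5) (nat_lit 27) (nat_lit 5) (nat_lit 305) (nat_lit 278) (nat_lit 197)) (XT.lf (nat_lit 0) (nat_lit 15180541697) (nat_lit 228) (nat_lit 38670515453) (nat_lit 76) (nat_lit 9137012430) (nat_lit 24) (nat_lit 5) (nat_lit 27) (nat_lit 5) (nat_lit 25) (nat_lit 5) (nat_lit 306) (nat_lit 278) (nat_lit 196))))) (XT.nd (nat_lit 156) (nat_lit 304) (nat_lit 0) (XT.nd (nat_lit 78) (nat_lit 0) (nat_lit 0) (XT.lf (nat_lit 0) (nat_lit 145143257) (nat_lit 152) (nat_lit 31638161535) (nat_lit 228) (nat_lit 34944555844) (nat_lit 22) (nat_lit 5) (nat_lit 24) (nat_lit 5) (nat_lit 25) (nat_lit 5) (nat_lit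 307) (nat_lit 278) (nat_lit 195)) (XT.lf (nat_lit 0) (nat_lit 43435875694) (nat_lit 152) (nat_lit 6945229010) (nat_lit 228) (nat_lit 20352397976) (nat_lit 22) (nat_lit 5) (nat_lit 24) (nat_lit 5) (nat_lit 25) (nat_lit 5) (nat_lit 308) (nat_lit 278) (nat_lit 194))) (XT.nd (nat_lit 78) (nat_lit 228) (nat_lit 0) (XT.lf (nat_lit 0) (nat_lit 15301552716) (nat_lit 76) (nat_lit 55705651460) (nat_lit 152) (nat_lit 4025375996) (nat_lit 21) (nat_lit 5) (nat_lit 22) (nat_lit 5) (nat_lit 23) (nat_lit 4) (nat_lit 309) (nat_lit 278) (nat_lit 193)) (XT.nd (nat_lit 78) (nat_lit 152) (nat_lit 0) (XT.lf (nat_lit 0) (nat_lit 13766533969) (nat_lit 152) (nat_lit 17715995115) (nat_lit 76) (nat_lit 48152725857) (nat_lit 20) (nat_lit 5) (nat_lit 22) (nat_lit 5) (nat_lit 21) (nat_lit 5) (nat_lit 310) (nat_lit 278) (nat_lit 192)) (XT.lf (nat_lit 0) (nat_lit 28494857270) (nat_lit 152) (nat_lit 4786985047) (nat_lit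 228) (nat_lit 51298954551) (nat_lit 18) (nat_lit 5) (nat_lit 20) (nat_lit 5) (nat_lit 21) (nat_lit 5) (nat_lit 311) (nat_lit 278) (nat_lit 191)))))) (XT.nd (nat_lit 390) (nat_lit 228) (nat_lit 0) (XT.nd (nat_lit 156) (nat_lit 228) (nat_lit 0) (XT.nd (nat_lit 78) (nat_lit 76) (nat_lit 0) (XT.lf (nat_lit 0) (nat_lit 55041960126) (nat_lit 228) (nat_lit 11261124233) (nat_lit 76) (nat_lit 23584724494) (nat_lit 18) (nat_lit 5) (nat_lit 21) (nat_lit 5) (nat_lit 19) (nat_lit 4) (nat_lit 312) (nat_lit 278) (nat_lit 190)) (XT.lf (nat_lit 0) (nat_lit 38285705500) (nat_lit 76) (nat_lit 40930578892) (nat_lit 152) (nat_lit 16369433058) (nat_lit 17) (nat_lit 5) (nat_lit 18) (nat_lit 5) (nat_lit 19) (nat_lit 4) (nat_lit 313) (nat_lit 278) (nat_lit 189))) (XT.nd (nat_lit 78) (nat_lit 152) (nat_lit 0) (XT.lf (nat_lit 0) (nat_lit 3664822689) (nat_lit 152) (nat_lit 9598854069) (nat_lit 76) (nat_lit 88463264545)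 (nat_lit 16) (nat_lit 5) (nat_lit 18) (nat_lit 5) (nat_lit 17) (nat_lit 5) (nat_lit 314) (nat_lit 278) (nat_lit 188)) (XT.nd (nat_lit 78) (nat_lit 0) (nat_lit 0) (XT.lf (nat_lit 0) (nat_lit 25677878557) (nat_lit 228) (nat_lit 65576029163) (nat_lit 76) (nat_lit 17044664028) (nat_lit 14) (nat_lit 5) (nat_lit 17) (nat_lit 5) (nat_lit 15) (nat_lit 4) (nat_lit 315) (nat_lit 278) (nat_lit 187)) (XT.lf (nat_lit 0) (nat_lit 49841204809) (nat_lit 228) (nat_lit 16049175139) (nat_lit 76) (nat_lit 49486095546) (nat_lit 14) (nat_lit 5) (nat_lit 17) (nat_lit 5) (nat_lit 15) (nat_lit 4) (nat_lit 316) (nat_lit 278) (nat_lit 186))))) (XT.nd (nat_lit 156) (nat_lit 152) (nat_lit 0) (XT.nd (nat_lit 78) (nat_lit 0) (nat_lit 0) (XT.lf (nat_lit 0) (nat_lit 38670453920) (nat_lit 76) (nat_lit 37866850336) (nat_lit 152) (nat_lit 46453325783) (nat_lit 13) (nat_lit 5) (nat_lit 14) (nat_lit 5) (nat_lit 15) (nat_lit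 4) (nat_lit 317) (nat_lit 278) (nat_lit 185)) (XT.lf (nat_lit 0) (nat_lit 98334002081) (nat_lit 76) (nat_lit 7310802997) (nat_lit 152) (nat_lit 25555329764) (nat_lit 13) (nat_lit 5) (nat_lit 14) (nat_lit 5) (nat_lit 15) (nat_lit 4) (nat_lit 318) (nat_lit 278) (nat_lit 184))) (XT.nd (nat_lit 78) (nat_lit 76) (nat_lit 0) (XT.lf (nat_lit 0) (nat_lit 23033975668) (nat_lit 76) (nat_lit 114804034345) (nat_lit 76) (nat_lit 2190538118) (nat_lit 12) (nat_lit 4) (nat_lit 13) (nat_lit 5) (nat_lit 13) (nat_lit 4) (nat_lit 319) (nat_lit 278) (nat_lit 183)) (XT.nd (nat_lit 78) (nat_lit 0) (nat_lit 0) (XT.lf (nat_lit 0) (nat_lit 23007571596) (nat_lit 152) (nat_lit 65453550033) (nat_lit 76) (nat_lit 61049043705) (nat_lit 11) (nat_lit 5) (nat_lit 13) (nat_lit 5) (nat_lit 12) (nat_lit 4) (nat_lit 320) (nat_lit 278) (nat_lit 182)) (XT.lf (nat_lit 0) (nat_lit 50142572304) (nat_lit 152) (nat_lit 9831961157)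 (nat_lit 76) (nat_lit 99774096226) (nat_lit 11) (nat_lit 5) (nat_lit 13) (nat_lit 5) (nat_lit 12) (nat_lit 4) (nat_lit 321) (nat_lit 278) (nat_lit 181))))))) (XT.nd (nat_lit 780) (nat_lit 228) (nat_lit 0) (XT.nd (nat_lit 390) (nat_lit 76) (nat_lit 0) (XT.nd (nat_lit 156) (nat_lit 152) (nat_lit 0) (XT.nd (nat_lit 78) (nat_lit 0) (nat_lit 0) (XT.lf (nat_lit 0) (nat_lit 51894967056) (nat_lit 76) (nat_lit 28360633723) (nat_lit 152) (nat_lit 90510211521) (nat_lit 10) (nat_lit 5) (nat_lit 11) (nat_lit 5) (nat_lit 12) (nat_lit 4) (nat_lit 322) (nat_lit 278) (nat_lit 180)) (XT.lf (nat_lit 0) (nat_lit 113039133420) (nat_lit 152) (nat_lit 63842975346) (nat_lit 0) (nat_lit 5769189974) (nat_lit 10) (nat_lit 5) (nat_lit 12) (nat_lit 4) (nat_lit 10) (nat_lit 4) (nat_lit 323) (nat_lit 278) (nat_lit 179))) (XT.nd (nat_lit 78) (nat_lit 152) (nat_lit 0) (XT.lf (nat_lit 0) (nat_lit 148920883628) (nat_lit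 152) (nat_lit 4895928744) (nat_lit 0) (nat_lit 41647037117) (nat_lit 10) (nat_lit 5) (nat_lit 12) (nat_lit 4) (nat_lit 10) (nat_lit 4) (nat_lit 324) (nat_lit 278) (nat_lit 178)) (XT.nd (nat_lit 78) (nat_lit 76) (nat_lit 0) (XT.lf (nat_lit 0) (nat_lit 60705349668) (nat_lit 76) (nat_lit 127913125991) (nat_lit 76) (nat_lit 20635665531) (nat_lit 9) (nat_lit 4) (nat_lit 10) (nat_lit 5) (nat_lit 10) (nat_lit 4) (nat_lit 325) (nat_lit 278) (nat_lit 177)) (XT.lf (nat_lit 0) (nat_lit 7193437324) (nat_lit 152) (nat_lit 92534260194) (nat_lit 76) (nat_lit 124410013297) (nat_lit 8) (nat_lit 5) (nat_lit 10) (nat_lit 5) (nat_lit 9) (nat_lit 4) (nat_lit 326) (nat_lit 278) (nat_lit 176))))) (XT.nd (nat_lit 156) (nat_lit 0) (nat_lit 0) (XT.nd (nat_lit 78) (nat_lit 76) (nat_lit 0) (XT.lf (nat_lit 0) (nat_lit 36533335948) (nat_lit 152) (nat_lit 32390566393) (nat_lit 76) (nat_lit 171270778771) (nat_lit 8)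 (nat_lit 5) (nat_lit 10) (nat_lit 5) (nat_lit 9) (nat_lit 4) (nat_lit 327) (nat_lit 278) (nat_lit 175)) (XT.lf (nat_lit 0) (nat_lit 33637487186) (nat_lit 76) (nat_lit 35106054834) (nat_lit 152) (nat_lit 188766512733) (nat_lit 7) (nat_lit 5) (nat_lit 8) (nat_lit 5) (nat_lit 9) (nat_lit 4) (nat_lit 328) (nat_lit 278) (nat_lit 174))) (XT.nd (nat_lit 78) (nat_lit 0) (nat_lit 0) (XT.lf (nat_lit 0) (nat_lit 104124175166) (nat_lit 152) (nat_lit 170113038638) (nat_lit 0) (nat_lit 1943765340) (nat_lit 7) (nat_lit 5) (nat_lit 9) (nat_lit 4) (nat_lit 7) (nat_lit 4) (nat_lit 329) (nat_lit 278) (nat_lit 173)) (XT.nd (nat_lit 78) (nat_lit 0) (nat_lit 0) (XT.lf (nat_lit 0) (nat_lit 142925369954) (nat_lit 152) (nat_lit 112648085610) (nat_lit 0) (nat_lit 40742617658) (nat_lit 7) (nat_lit 5) (nat_lit 9) (nat_lit 4) (nat_lit 7) (nat_lit 4) (nat_lit 330) (nat_lit 278) (nat_lit 172)) (XT.lf (nat_lit 0) (nat_lit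 184828955490) (nat_lit 152) (nat_lit 50589071526) (nat_lit 0) (nat_lit 82644034241) (nat_lit 7) (nat_lit 5) (nat_lit 9) (nat_lit 4) (nat_lit 7) (nat_lit 4) (nat_lit 331) (nat_lit 278) (nat_lit 171)))))) (XT.nd (nat_lit 390) (nat_lit 76) (nat_lit 0) (XT.nd (nat_lit 156) (nat_lit 76) (nat_lit 0) (XT.nd (nat_lit 78) (nat_lit 0) (nat_lit 0) (XT.lf (nat_lit 0) (nat_lit 16975068949) (nat_lit 76) (nat_lit 213373208767) (nat_lit 76) (nat_lit 111186279229) (nat_lit 6) (nat_lit 4) (nat_lit 7) (nat_lit 5) (nat_lit 7) (nat_lit 4) (nat_lit 332) (nat_lit 278) (nat_lit 170)) (XT.lf (nat_lit 0) (nat_lit 91748083296) (nat_lit 76) (nat_lit 188640786439) (nat_lit 76) (nat_lit 86451997372) (nat_lit 6) (nat_lit 4) (nat_lit 7) (nat_lit 5) (nat_lit 7) (nat_lit 4) (nat_lit 333) (nat_lit 278) (nat_lit 169))) (XT.nd (nat_lit 78) (nat_lit 76) (nat_lit 0) (XT.lf (nat_lit 0) (nat_lit 172500367687) (nat_lit 76) (nat_lit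 161930947933) (nat_lit 76) (nat_lit 59740437082) (nat_lit 6) (nat_lit 4) (nat_lit 7) (nat_lit 5) (nat_lit 7) (nat_lit 4) (nat_lit 334) (nat_lit 278) (nat_lit 168)) (XT.nd (nat_lit 78) (nat_lit 76) (nat_lit 0) (XT.lf (nat_lit 0) (nat_lit 259710454177) (nat_lit 76) (nat_lit 133085412726) (nat_lit 76) (nat_lit 30893307629) (nat_lit 6) (nat_lit 4) (nat_lit 7) (nat_lit 5) (nat_lit 7) (nat_lit 4) (nat_lit 335) (nat_lit 278) (nat_lit 167)) (XT.lf (nat_lit 0) (nat_lit 252004528) (nat_lit 152) (nat_lit 101676971965) (nat_lit 76) (nat_lit 353638870931) (nat_lit 5) (nat_lit 5) (nat_lit 7) (nat_lit 5) (nat_lit 6) (nat_lit 4) (nat_lit 336) (nat_lit 278) (nat_lit 166))))) (XT.nd (nat_lit 234) (nat_lit 0) (nat_lit 0) (XT.nd (nat_lit 78) (nat_lit 76) (nat_lit 0) (XT.lf (nat_lit 0) (nat_lit 32819935519) (nat_lit 152) (nat_lit 34914080242) (nat_lit 76) (nat_lit 422236809473) (nat_lit 5) (nat_lit 5) (nat_lit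 7) (nat_lit 5) (nat_lit 6) (nat_lit 4) (nat_lit 337) (nat_lit 278) (nat_lit 165)) (XT.nd (nat_lit 78) (nat_lit 0) (nat_lit 0) (XT.lf (nat_lit 0) (nat_lit 38417518385) (nat_lit 76) (nat_lit 30174546007) (nat_lit 152) (nat_lit 458504039368) (nat_lit 4) (nat_lit 5) (nat_lit 5) (nat_lit 5) (nat_lit 6) (nat_lit 4) (nat_lit 338) (nat_lit 278) (nat_lit 164)) (XT.lf (nat_lit 0) (nat_lit 108005320003) (nat_lit 152) (nat_lit 448472640631) (nat_lit 0) (nat_lit 10674476727) (nat_lit 4) (nat_lit 5) (nat_lit 6) (nat_lit 4) (nat_lit 4) (nat_lit 4) (nat_lit 339) (nat_lit 278) (nat_lit 163)))) (XT.nd (nat_lit 78) (nat_lit 0) (nat_lit 0) (XT.lf (nat_lit 0) (nat_lit 151079502039) (nat_lit 152) (nat_lit 405560757462) (nat_lit 0) (nat_lit 53747625414) (nat_lit 4) (nat_lit 5) (nat_lit 6) (nat_lit 4) (nat_lit 4) (nat_lit 4) (nat_lit 340) (nat_lit 278) (nat_lit 162)) (XT.nd (nat_lit 78) (nat_lit 0) (nat_lit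 0) (XT.lf (nat_lit 0) (nat_lit 197598755688) (nat_lit 152) (nat_lit 359217534002) (nat_lit 0) (nat_lit 100265922258) (nat_lit 4) (nat_lit 5) (nat_lit 6) (nat_lit 4) (nat_lit 4) (nat_lit 4) (nat_lit 341) (nat_lit 278) (nat_lit 161)) (XT.lf (nat_lit 0) (nat_lit 247838750600) (nat_lit 152) (nat_lit 309168343740) (nat_lit 0) (nat_lit 150505031240) (nat_lit 4) (nat_lit 5) (nat_lit 6) (nat_lit 4) (nat_lit 4) (nat_lit 4) (nat_lit 342) (nat_lit 278) (nat_lit 160))))))))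
noncomputable def xc84 : XT := (XT.nd (nat_lit 37050) (nat_lit 0) (nat_lit 760) (XT.nd (nat_lit 36270) (nat_lit 0) (nat_lit 3192) (XT.nd (nat_lit 35880) (nat_lit 0) (nat_lit 5472) (XT.nd (nat_lit 35646) (nat_lit 0) (nat_lit 5852) (XT.nd (nat_lit 78) (nat_lit 0) (nat_lit 0) (XT.lf (nat_lit 0) (nat_lit 302097205263) (nat_lit 152) (nat_lit 255116598884) (nat_lit 0) (nat_lit 204762665597) (nat_lit 4) (nat_lit 5) (nat_lit 6) (nat_lit 4) (nat_lit 4) (nat_lit 4) (nat_lit 343) (nat_lit 278) (nat_lit 159)) (XT.lf (nat_lit 0) (nat_lit 360695651261) (nat_lit 152) (nat_lit 196741992796) (nat_lit 0) (nat_lit 263360352053) (nat_lit 4) (nat_lit 5) (nat_lit 6) (nat_lit 4) (nat_lit 4) (nat_lit 4) (nat_lit 344) (nat_lit 278) (nat_lit 158))) (XT.nd (nat_lit 78) (nat_lit 0) (nat_lit 0) (XT.lf (nat_lit 0) (nat_lit 2209977123) (nat_lit 0) (nat_lit 2209977123) (nat_lit 684) (nat_lit 4489597004) (nat_lit 81)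 (nat_lit 5) (nat_lit 81) (nat_lit 3) (nat_lit 90) (nat_lit 3) (nat_lit 279) (nat_lit 279) (nat_lit 222)) (XT.nd (nat_lit 78) (nat_lit 0) (nat_lit 76) (XT.lf (nat_lit 0) (nat_lit 9625324815) (nat_lit 684) (nat_lit 977806825) (nat_lit 760) (nat_lit 7906342758) (nat_lit 81) (nat_lit 5) (nat_lit 90) (nat_lit 3) (nat_lit 91) (nat_lit 5) (nat_lit 280) (nat_lit 279) (nat_lit 221)) (XT.lf (nat_lit 0) (nat_lit 10748820241) (nat_lit 684) (nat_lit 6520930531) (nat_lit 760) (nat_lit 1971643145) (nat_lit 82) (nat_lit 5) (nat_lit 91) (nat_lit 5) (nat_lit 92) (nat_lit 5) (nat_lit 281) (nat_lit 279) (nat_lit 220))))) (XT.nd (nat_lit 156) (nat_lit 456) (nat_lit 0) (XT.nd (nat_lit 78) (nat_lit 0) (nat_lit 76) (XT.lf (nat_lit 76) (nat_lit 7563517377) (nat_lit 0) (nat_lit 4684827549) (nat_lit 760) (nat_lit 7769288812) (nat_lit 83) (nat_lit 5) (nat_lit 82) (nat_lit 5) (nat_lit 92) (nat_lit 5) (nat_lit 282)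 (nat_lit 279) (nat_lit 219)) (XT.lf (nat_lit 76) (nat_lit 2063684175) (nat_lit 0) (nat_lit 12064792150) (nat_lit 760) (nat_lit 6714532905) (nat_lit 84) (nat_lit 5) (nat_lit 83) (nat_lit 5) (nat_lit 93) (nat_lit 5) (nat_lit 283) (nat_lit 279) (nat_lit 218))) (XT.nd (nat_lit 78) (nat_lit 608) (nat_lit 0) (XT.lf (nat_lit 0) (nat_lit 16455144792) (nat_lit 684) (nat_lit 3658749280) (nat_lit 760) (nat_lit 1605777996) (nat_lit 84) (nat_lit 5) (nat_lit 93) (nat_lit 5) (nat_lit 94) (nat_lit 5) (nat_lit 284) (nat_lit 279) (nat_lit 217)) (XT.nd (nat_lit 78) (nat_lit 608) (nat_lit 0) (XT.lf (nat_lit 76) (nat_lit 12861822331) (nat_lit 0) (nat_lit 6487835872) (nat_lit 760) (nat_lit 3297783074) (nat_lit 85) (nat_lit 5) (nat_lit 84) (nat_lit 5) (nat_lit 94) (nat_lit 5) (nat_lit 285) (nat_lit 279) (nat_lit 216)) (XT.lf (nat_lit 0) (nat_lit 7273459823) (nat_lit 684) (nat_lit 15488009744) (nat_lit 760)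 (nat_lit 873730167) (nat_lit 76) (nat_lit 5) (nat_lit 85) (nat_lit 5) (nat_lit 86) (nat_lit 5) (nat_lit 286) (nat_lit 279) (nat_lit 215)))))) (XT.nd (nat_lit 390) (nat_lit 836) (nat_lit 0) (XT.nd (nat_lit 156) (nat_lit 988) (nat_lit 0) (XT.nd (nat_lit 78) (nat_lit 0) (nat_lit 0) (XT.lf (nat_lit 0) (nat_lit 1235167583) (nat_lit 380) (nat_lit 735034860) (nat_lit 456) (nat_lit 22716373791) (nat_lit 70) (nat_lit 5) (nat_lit 75) (nat_lit 5) (nat_lit 76) (nat_lit 5) (nat_lit 287) (nat_lit 279) (nat_lit 214)) (XT.lf (nat_lit 0) (nat_lit 5519509547) (nat_lit 456) (nat_lit 5258819737) (nat_lit 76) (nat_lit 15017638385) (nat_lit 70) (nat_lit 5) (nat_lit 76) (nat_lit 5) (nat_lit 71) (nat_lit 5) (nat_lit 288) (nat_lit 279) (nat_lit 213))) (XT.nd (nat_lit 78) (nat_lit 608) (nat_lit 0) (XT.lf (nat_lit 0) (nat_lit 9661306335) (nat_lit 456) (nat_lit 12230348837) (nat_lit 76) (nat_lit 5087069235) (nat_lit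 65) (nat_lit 5) (nat_lit 71) (nat_lit 5) (nat_lit 66) (nat_lit 5) (nat_lit 289) (nat_lit 279) (nat_lit 212)) (XT.nd (nat_lit 78) (nat_lit 304) (nat_lit 0) (XT.lf (nat_lit 0) (nat_lit 8359554752) (nat_lit 304) (nat_lit 6163795065) (nat_lit 380) (nat_lit 13713344910) (nat_lit 61) (nat_lit 5) (nat_lit 65) (nat_lit 5) (nat_lit 66) (nat_lit 5) (nat_lit 290) (nat_lit 279) (nat_lit 211)) (XT.lf (nat_lit 0) (nat_lit 1300688878) (nat_lit 304) (nat_lit 18863964976) (nat_lit 380) (nat_lit 9411169326) (nat_lit 57) (nat_lit 5) (nat_lit 61) (nat_lit 5) (nat_lit 62) (nat_lit 5) (nat_lit 291) (nat_lit 279) (nat_lit 210))))) (XT.nd (nat_lit 156) (nat_lit 532) (nat_lit 0) (XT.nd (nat_lit 78) (nat_lit 304) (nat_lit 0) (XT.lf (nat_lit 0) (nat_lit 24758705098) (nat_lit 304) (nat_lit 1932438547) (nat_lit 380) (nat_lit 4309276936) (nat_lit 57) (nat_lit 5) (nat_lit 61) (nat_lit 5) (nat_lit 62) (nat_lit 5) (nat_lit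 292) (nat_lit 279) (nat_lit 209)) (XT.lf (nat_lit 0) (nat_lit 1691358461) (nat_lit 304) (nat_lit 14685696963) (nat_lit 76) (nat_lit 16134570671) (nat_lit 53) (nat_lit 5) (nat_lit 57) (nat_lit 5) (nat_lit 54) (nat_lit 5) (nat_lit 293) (nat_lit 279) (nat_lit 208))) (XT.nd (nat_lit 78) (nat_lit 228) (nat_lit 0) (XT.lf (nat_lit 0) (nat_lit 8338899630) (nat_lit 380) (nat_lit 24049478060) (nat_lit 76) (nat_lit 1735953350) (nat_lit 49) (nat_lit 5) (nat_lit 54) (nat_lit 5) (nat_lit 50) (nat_lit 5) (nat_lit 294) (nat_lit 279) (nat_lit 207)) (XT.nd (nat_lit 78) (nat_lit 0) (nat_lit 0) (XT.lf (nat_lit 0) (nat_lit 1230844387) (nat_lit 228) (nat_lit 14830425693) (nat_lit 304) (nat_lit 19777655755) (nat_lit 46) (nat_lit 5) (nat_lit 49) (nat_lit 5) (nat_lit 50) (nat_lit 5) (nat_lit 295) (nat_lit 279) (nat_lit 206)) (XT.lf (nat_lit 0) (nat_lit 24880022062) (nat_lit 304) (nat_lit 8364225257) (nat_lit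 76) (nat_lit 4422534220) (nat_lit 46) (nat_lit 5) (nat_lit 50) (nat_lit 5) (nat_lit 47) (nat_lit 5) (nat_lit 296) (nat_lit 279) (nat_lit 205))))))) (XT.nd (nat_lit 780) (nat_lit 912) (nat_lit 0) (XT.nd (nat_lit 390) (nat_lit 684) (nat_lit 0) (XT.nd (nat_lit 156) (nat_lit 380) (nat_lit 0) (XT.nd (nat_lit 78) (nat_lit 228) (nat_lit 0) (XT.lf (nat_lit 0) (nat_lit 20366584044) (nat_lit 228) (nat_lit 14594888809) (nat_lit 304) (nat_lit 4651554135) (nat_lit 43) (nat_lit 5) (nat_lit 46) (nat_lit 5) (nat_lit 47) (nat_lit 5) (nat_lit 297) (nat_lit 279) (nat_lit 204)) (XT.lf (nat_lit 0) (nat_lit 4392194922) (nat_lit 228) (nat_lit 31556174830) (nat_lit 76) (nat_lit 5743890702) (nat_lit 40) (nat_lit 5) (nat_lit 43) (nat_lit 5) (nat_lit 41) (nat_lit 5) (nat_lit 298) (nat_lit 279) (nat_lit 203))) (XT.nd (nat_lit 78) (nat_lit 380) (nat_lit 0) (XT.lf (nat_lit 0) (nat_lit 14575568714) (nat_lit 228) (nat_lit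 1708524257) (nat_lit 76) (nat_lit 27620989574) (nat_lit 40) (nat_lit 5) (nat_lit 43) (nat_lit 5) (nat_lit 41) (nat_lit 5) (nat_lit 299) (nat_lit 279) (nat_lit 202)) (XT.nd (nat_lit 78) (nat_lit 152) (nat_lit 0) (XT.lf (nat_lit 0) (nat_lit 26141917167) (nat_lit 304) (nat_lit 14833171380) (nat_lit 76) (nat_lit 5291442664) (nat_lit 37) (nat_lit 5) (nat_lit 41) (nat_lit 5) (nat_lit 38) (nat_lit 5) (nat_lit 300) (nat_lit 279) (nat_lit 201)) (XT.lf (nat_lit 0) (nat_lit 18785657850) (nat_lit 152) (nat_lit 20437270734) (nat_lit 228) (nat_lit 9564514287) (nat_lit 35) (nat_lit 5) (nat_lit 37) (nat_lit 5) (nat_lit 38) (nat_lit 5) (nat_lit 301) (nat_lit 279) (nat_lit 200))))) (XT.nd (nat_lit 156) (nat_lit 380) (nat_lit 0) (XT.nd (nat_lit 78) (nat_lit 0) (nat_lit 0) (XT.lf (nat_lit 0) (nat_lit 2134488473) (nat_lit 304) (nat_lit 47309545837) (nat_lit 76) (nat_lit 2046919615) (nat_lit 31) (nat_lit 5)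 (nat_lit 35) (nat_lit 5) (nat_lit 32) (nat_lit 5) (nat_lit 302) (nat_lit 279) (nat_lit 199)) (XT.lf (nat_lit 0) (nat_lit 15306505107) (nat_lit 304) (nat_lit 12740737477) (nat_lit 76) (nat_lit 26312066262) (nat_lit 31) (nat_lit 5) (nat_lit 35) (nat_lit 5) (nat_lit 32) (nat_lit 5) (nat_lit 303) (nat_lit 279) (nat_lit 198))) (XT.nd (nat_lit 78) (nat_lit 228) (nat_lit 0) (XT.lf (nat_lit 0) (nat_lit 25395003316) (nat_lit 152) (nat_lit 4526284438) (nat_lit 228) (nat_lit 27516405402) (nat_lit 29) (nat_lit 5) (nat_lit 31) (nat_lit 5) (nat_lit 32) (nat_lit 5) (nat_lit 304) (nat_lit 279) (nat_lit 197)) (XT.nd (nat_lit 78) (nat_lit 76) (nat_lit 0) (XT.lf (nat_lit 0) (nat_lit 6141113857) (nat_lit 152) (nat_lit 40204374161) (nat_lit 228) (nat_lit 14384858845) (nat_lit 27) (nat_lit 5) (nat_lit 29) (nat_lit 5) (nat_lit 30) (nat_lit 5) (nat_lit 305) (nat_lit 279) (nat_lit 196)) (XT.lf (nat_lit 0) (nat_lit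 440421959) (nat_lit 228) (nat_lit 15827889155) (nat_lit 76) (nat_lit 47986433226) (nat_lit 26) (nat_lit 5) (nat_lit 29) (nat_lit 5) (nat_lit 27) (nat_lit 5) (nat_lit 306) (nat_lit 279) (nat_lit 195)))))) (XT.nd (nat_lit 390) (nat_lit 456) (nat_lit 0) (XT.nd (nat_lit 156) (nat_lit 152) (nat_lit 0) (XT.nd (nat_lit 78) (nat_lit 152) (nat_lit 0) (XT.lf (nat_lit 0) (nat_lit 16524265620) (nat_lit 228) (nat_lit 41554708575) (nat_lit 76) (nat_lit 9941511255) (nat_lit 24) (nat_lit 5) (nat_lit 27) (nat_lit 5) (nat_lit 25) (nat_lit 5) (nat_lit 307) (nat_lit 279) (nat_lit 194)) (XT.lf (nat_lit 0) (nat_lit 357100472) (nat_lit 152) (nat_lit 34091700910) (nat_lit 228) (nat_lit 37610993100) (nat_lit 22) (nat_lit 5) (nat_lit 24) (nat_lit 5) (nat_lit 25) (nat_lit 5) (nat_lit 308) (nat_lit 279) (nat_lit 193))) (XT.nd (nat_lit 78) (nat_lit 152) (nat_lit 0) (XT.lf (nat_lit 0) (nat_lit 47096251078) (nat_lit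 152) (nat_lit 7429075527) (nat_lit 228) (nat_lit 21861027581) (nat_lit 22) (nat_lit 5) (nat_lit 24) (nat_lit 5) (nat_lit 25) (nat_lit 5) (nat_lit 309) (nat_lit 279) (nat_lit 192)) (XT.nd (nat_lit 78) (nat_lit 76) (nat_lit 0) (XT.lf (nat_lit 0) (nat_lit 16707623965) (nat_lit 76) (nat_lit 60089343621) (nat_lit 152) (nat_lit 4232628134) (nat_lit 21) (nat_lit 5) (nat_lit 22) (nat_lit 5) (nat_lit 23) (nat_lit 4) (nat_lit 310) (nat_lit 279) (nat_lit 191)) (XT.lf (nat_lit 0) (nat_lit 14970731067) (nat_lit 152) (nat_lit 18961287788) (nat_lit 76) (nat_lit 52068796792) (nat_lit 20) (nat_lit 5) (nat_lit 22) (nat_lit 5) (nat_lit 21) (nat_lit 5) (nat_lit 311) (nat_lit 279) (nat_lit 190))))) (XT.nd (nat_lit 156) (nat_lit 304) (nat_lit 0) (XT.nd (nat_lit 78) (nat_lit 0) (nat_lit 0) (XT.lf (nat_lit 0) (nat_lit 30938958446) (nat_lit 152) (nat_lit 5103253815) (nat_lit 228) (nat_lit 55300049848) (nat_lit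 18) (nat_lit 5) (nat_lit 20) (nat_lit 5) (nat_lit 21) (nat_lit 5) (nat_lit 312) (nat_lit 279) (nat_lit 189)) (XT.lf (nat_lit 0) (nat_lit 59536857471) (nat_lit 228) (nat_lit 12006023538) (nat_lit 76) (nat_lit 25531276099) (nat_lit 18) (nat_lit 5) (nat_lit 21) (nat_lit 5) (nat_lit 19) (nat_lit 4) (nat_lit 313) (nat_lit 279) (nat_lit 188))) (XT.nd (nat_lit 78) (nat_lit 228) (nat_lit 0) (XT.lf (nat_lit 0) (nat_lit 41497773411) (nat_lit 76) (nat_lit 44142903095) (nat_lit 152) (nat_lit 17587451809) (nat_lit 17) (nat_lit 5) (nat_lit 18) (nat_lit 5) (nat_lit 19) (nat_lit 4) (nat_lit 314) (nat_lit 279) (nat_lit 187)) (XT.nd (nat_lit 78) (nat_lit 152) (nat_lit 0) (XT.lf (nat_lit 0) (nat_lit 4040051257) (nat_lit 152) (nat_lit 10225809737) (nat_lit 76) (nat_lit 95595052292) (nat_lit 16) (nat_lit 5) (nat_lit 18) (nat_lit 5) (nat_lit 17) (nat_lit 5) (nat_lit 315) (nat_lit 279) (nat_lit 186)) (XT.lf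 (nat_lit 0) (nat_lit 27811065509) (nat_lit 228) (nat_lit 70684191901) (nat_lit 76) (nat_lit 18463177074) (nat_lit 14) (nat_lit 5) (nat_lit 17) (nat_lit 5) (nat_lit 15) (nat_lit 4) (nat_lit 316) (nat_lit 279) (nat_lit 185))))))))
noncomputable def xc85 : XT := (XT.nd (nat_lit 1560) (nat_lit 152) (nat_lit 0) (XT.nd (nat_lit 780) (nat_lit 228) (nat_lit 0) (XT.nd (nat_lit 390) (nat_lit 152) (nat_lit 0) (XT.nd (nat_lit 156) (nat_lit 152) (nat_lit 0) (XT.nd (nat_lit 78) (nat_lit 76) (nat_lit 0) (XT.lf (nat_lit 0) (nat_lit 53901609219) (nat_lit 228) (nat_lit 17205405821) (nat_lit 76) (nat_lit 53495853491) (nat_lit 14) (nat_lit 5) (nat_lit 17) (nat_lit 5) (nat_lit 15) (nat_lit 4) (nat_lit 317) (nat_lit 279) (nat_lit 184)) (XT.lf (nat_lit 0) (nat_lit 41886243731) (nat_lit 76) (nat_lit 40843644639) (nat_lit 152) (nat_lit 50096447636) (nat_lit 13) (nat_lit 5) (nat_lit 14) (nat_lit 5) (nat_lit 15)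 (nat_lit 4) (nat_lit 318) (nat_lit 279) (nat_lit 183))) (XT.nd (nat_lit 78) (nat_lit 152) (nat_lit 0) (XT.lf (nat_lit 0) (nat_lit 106313827338) (nat_lit 76) (nat_lit 7847006382) (nat_lit 152) (nat_lit 27532030026) (nat_lit 13) (nat_lit 5) (nat_lit 14) (nat_lit 5) (nat_lit 15) (nat_lit 4) (nat_lit 319) (nat_lit 279) (nat_lit 182)) (XT.nd (nat_lit 78) (nat_lit 76) (nat_lit 0) (XT.lf (nat_lit 0) (nat_lit 24987295945) (nat_lit 76) (nat_lit 123939855724) (nat_lit 76) (nat_lit 2300520018) (nat_lit 12) (nat_lit 4) (nat_lit 13) (nat_lit 5) (nat_lit 13) (nat_lit 4) (nat_lit 320) (nat_lit 279) (nat_lit 181)) (XT.lf (nat_lit 0) (nat_lit 24906670274) (nat_lit 152) (nat_lit 70585441806) (nat_lit 76) (nat_lit 65975893111) (nat_lit 11) (nat_lit 5) (nat_lit 13) (nat_lit 5) (nat_lit 12) (nat_lit 4) (nat_lit 321) (nat_lit 279) (nat_lit 180))))) (XT.nd (nat_lit 156) (nat_lit 76) (nat_lit 0) (XT.nd (nat_lit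 78) (nat_lit 76) (nat_lit 0) (XT.lf (nat_lit 0) (nat_lit 54208138227) (nat_lit 152) (nat_lit 10521858577) (nat_lit 76) (nat_lit 107795770137) (nat_lit 11) (nat_lit 5) (nat_lit 13) (nat_lit 5) (nat_lit 12) (nat_lit 4) (nat_lit 322) (nat_lit 279) (nat_lit 179)) (XT.lf (nat_lit 0) (nat_lit 56139023190) (nat_lit 76) (nat_lit 30588617469) (nat_lit 152) (nat_lit 97696815263) (nat_lit 10) (nat_lit 5) (nat_lit 11) (nat_lit 5) (nat_lit 12) (nat_lit 4) (nat_lit 323) (nat_lit 279) (nat_lit 178))) (XT.nd (nat_lit 78) (nat_lit 76) (nat_lit 0) (XT.lf (nat_lit 0) (nat_lit 122130625080) (nat_lit 152) (nat_lit 68862966999) (nat_lit 0) (nat_lit 6267353834) (nat_lit 10) (nat_lit 5) (nat_lit 12) (nat_lit 4) (nat_lit 10) (nat_lit 4) (nat_lit 324) (nat_lit 279) (nat_lit 177)) (XT.nd (nat_lit 78) (nat_lit 76) (nat_lit 0) (XT.lf (nat_lit 0) (nat_lit 160879333009) (nat_lit 152) (nat_lit 5206634178) (nat_lit 0)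 (nat_lit 45012715514) (nat_lit 10) (nat_lit 5) (nat_lit 12) (nat_lit 4) (nat_lit 10) (nat_lit 4) (nat_lit 325) (nat_lit 279) (nat_lit 176)) (XT.lf (nat_lit 0) (nat_lit 65639227699) (nat_lit 76) (nat_lit 138111396976) (nat_lit 76) (nat_lit 22241681102) (nat_lit 9) (nat_lit 4) (nat_lit 10) (nat_lit 5) (nat_lit 10) (nat_lit 4) (nat_lit 326) (nat_lit 279) (nat_lit 175)))))) (XT.nd (nat_lit 390) (nat_lit 76) (nat_lit 0) (XT.nd (nat_lit 156) (nat_lit 76) (nat_lit 0) (XT.nd (nat_lit 78) (nat_lit 0) (nat_lit 0) (XT.lf (nat_lit 0) (nat_lit 7809099889) (nat_lit 152) (nat_lit 99863929969) (nat_lit 76) (nat_lit 134393659202) (nat_lit 8) (nat_lit 5) (nat_lit 10) (nat_lit 5) (nat_lit 9) (nat_lit 4) (nat_lit 327) (nat_lit 279) (nat_lit 174)) (XT.lf (nat_lit 0) (nat_lit 39493213545) (nat_lit 152) (nat_lit 34914153333) (nat_lit 76) (nat_lit 185001001110) (nat_lit 8) (nat_lit 5) (nat_lit 10) (nat_lit 5)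 (nat_lit 9) (nat_lit 4) (nat_lit 328) (nat_lit 279) (nat_lit 173))) (XT.nd (nat_lit 78) (nat_lit 0) (nat_lit 0) (XT.lf (nat_lit 0) (nat_lit 36393204181) (nat_lit 76) (nat_lit 37885286002) (nat_lit 152) (nat_lit 203830570640) (nat_lit 7) (nat_lit 5) (nat_lit 8) (nat_lit 5) (nat_lit 9) (nat_lit 4) (nat_lit 329) (nat_lit 279) (nat_lit 172)) (XT.nd (nat_lit 78) (nat_lit 0) (nat_lit 0) (XT.lf (nat_lit 0) (nat_lit 112487369852) (nat_lit 152) (nat_lit 183660915427) (nat_lit 0) (nat_lit 2125485950) (nat_lit 7) (nat_lit 5) (nat_lit 9) (nat_lit 4) (nat_lit 7) (nat_lit 4) (nat_lit 330) (nat_lit 279) (nat_lit 171)) (XT.lf (nat_lit 0) (nat_lit 154390196469) (nat_lit 152) (nat_lit 121603296994) (nat_lit 0) (nat_lit 44026304277) (nat_lit 7) (nat_lit 5) (nat_lit 9) (nat_lit 4) (nat_lit 7) (nat_lit 4) (nat_lit 331) (nat_lit 279) (nat_lit 170))))) (XT.nd (nat_lit 156) (nat_lit 0) (nat_lit 0) (XT.nd (nat_lit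 78) (nat_lit 76) (nat_lit 0) (XT.lf (nat_lit 0) (nat_lit 199643787595) (nat_lit 152) (nat_lit 54583757003) (nat_lit 0) (nat_lit 89278035875) (nat_lit 7) (nat_lit 5) (nat_lit 9) (nat_lit 4) (nat_lit 7) (nat_lit 4) (nat_lit 332) (nat_lit 279) (nat_lit 169)) (XT.lf (nat_lit 0) (nat_lit 18383235721) (nat_lit 76) (nat_lit 230420090765) (nat_lit 76) (nat_lit 120052617260) (nat_lit 6) (nat_lit 4) (nat_lit 7) (nat_lit 5) (nat_lit 7) (nat_lit 4) (nat_lit 333) (nat_lit 279) (nat_lit 168))) (XT.nd (nat_lit 78) (nat_lit 0) (nat_lit 0) (XT.lf (nat_lit 0) (nat_lit 99134375568) (nat_lit 76) (nat_lit 203710776480) (nat_lit 76) (nat_lit 93341708730) (nat_lit 6) (nat_lit 4) (nat_lit 7) (nat_lit 5) (nat_lit 7) (nat_lit 4) (nat_lit 334) (nat_lit 279) (nat_lit 167)) (XT.nd (nat_lit 78) (nat_lit 0) (nat_lit 0) (XT.lf (nat_lit 0) (nat_lit 186343402294) (nat_lit 76) (nat_lit 174865726662) (nat_lit 76) (nat_lit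 64495182759) (nat_lit 6) (nat_lit 4) (nat_lit 7) (nat_lit 5) (nat_lit 7) (nat_lit 4) (nat_lit 335) (nat_lit 279) (nat_lit 166)) (XT.lf (nat_lit 0) (nat_lit 280527110133) (nat_lit 76) (nat_lit 143714007683) (nat_lit 76) (nat_lit 33342096972) (nat_lit 6) (nat_lit 4) (nat_lit 7) (nat_lit 5) (nat_lit 7) (nat_lit 4) (nat_lit 336) (nat_lit 279) (nat_lit 165))))))) (XT.nd (nat_lit 36348) (nat_lit 0) (nat_lit 4332) (XT.nd (nat_lit 390) (nat_lit 0) (nat_lit 0) (XT.nd (nat_lit 156) (nat_lit 76) (nat_lit 0) (XT.nd (nat_lit 78) (nat_lit 0) (nat_lit 0) (XT.lf (nat_lit 0) (nat_lit 292488518) (nat_lit 152) (nat_lit 109773574811) (nat_lit 76) (nat_lit 381946182808) (nat_lit 5) (nat_lit 5) (nat_lit 7) (nat_lit 5) (nat_lit 6) (nat_lit 4) (nat_lit 337) (nat_lit 279) (nat_lit 164)) (XT.lf (nat_lit 0) (nat_lit 35464348535) (nat_lit 152) (nat_lit 37672433595) (nat_lit 76) (nat_lit 456030756271) (nat_lit 5)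 (nat_lit 5) (nat_lit 7) (nat_lit 5) (nat_lit 6) (nat_lit 4) (nat_lit 338) (nat_lit 279) (nat_lit 163))) (XT.nd (nat_lit 78) (nat_lit 0) (nat_lit 0) (XT.lf (nat_lit 0) (nat_lit 41524181727) (nat_lit 76) (nat_lit 32573191363) (nat_lit 152) (nat_lit 495165510735) (nat_lit 4) (nat_lit 5) (nat_lit 5) (nat_lit 5) (nat_lit 6) (nat_lit 4) (nat_lit 339) (nat_lit 279) (nat_lit 162)) (XT.nd (nat_lit 78) (nat_lit 0) (nat_lit 0) (XT.lf (nat_lit 0) (nat_lit 116662581443) (nat_lit 152) (nat_lit 484319034339) (nat_lit 0) (nat_lit 11542164535) (nat_lit 4) (nat_lit 5) (nat_lit 6) (nat_lit 4) (nat_lit 4) (nat_lit 4) (nat_lit 340) (nat_lit 279) (nat_lit 161)) (XT.lf (nat_lit 0) (nat_lit 163181450944) (nat_lit 152) (nat_lit 437976527742) (nat_lit 0) (nat_lit 58060148105) (nat_lit 4) (nat_lit 5) (nat_lit 6) (nat_lit 4) (nat_lit 4) (nat_lit 4) (nat_lit 341) (nat_lit 279) (nat_lit 160))))) (XT.nd (nat_lit 156)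 (nat_lit 0) (nat_lit 0) (XT.nd (nat_lit 78) (nat_lit 0) (nat_lit 0) (XT.lf (nat_lit 0) (nat_lit 213421090162) (nat_lit 152) (nat_lit 387928001243) (nat_lit 0) (nat_lit 108298967018) (nat_lit 4) (nat_lit 5) (nat_lit 6) (nat_lit 4) (nat_lit 4) (nat_lit 4) (nat_lit 342) (nat_lit 279) (nat_lit 159)) (XT.lf (nat_lit 0) (nat_lit 267679215480) (nat_lit 152) (nat_lit 333876870982) (nat_lit 0) (nat_lit 162556332793) (nat_lit 4) (nat_lit 5) (nat_lit 6) (nat_lit 4) (nat_lit 4) (nat_lit 4) (nat_lit 343) (nat_lit 279) (nat_lit 158))) (XT.nd (nat_lit 35646) (nat_lit 0) (nat_lit 5852) (XT.lf (nat_lit 0) (nat_lit 326277356529) (nat_lit 152) (nat_lit 275502833964) (nat_lit 0) (nat_lit 221153770562) (nat_lit 4) (nat_lit 5) (nat_lit 6) (nat_lit 4) (nat_lit 4) (nat_lit 4) (nat_lit 344) (nat_lit 279) (nat_lit 157)) (XT.nd (nat_lit 78) (nat_lit 0) (nat_lit 0) (XT.lf (nat_lit 0) (nat_lit 2535265265) (nat_lit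 0) (nat_lit 2535265265) (nat_lit 684) (nat_lit 4536153889) (nat_lit 81) (nat_lit 5) (nat_lit 81) (nat_lit 3) (nat_lit 90) (nat_lit 3) (nat_lit 280) (nat_lit 280) (nat_lit 220)) (XT.lf (nat_lit 0) (nat_lit 10941020430) (nat_lit 684) (nat_lit 747810542) (nat_lit 760) (nat_lit 8272669871) (nat_lit 81) (nat_lit 5) (nat_lit 90) (nat_lit 3) (nat_lit 91) (nat_lit 5) (nat_lit 281) (nat_lit 280) (nat_lit 219)))))) (XT.nd (nat_lit 390) (nat_lit 1596) (nat_lit 0) (XT.nd (nat_lit 156) (nat_lit 0) (nat_lit 76) (XT.nd (nat_lit 78) (nat_lit 0) (nat_lit 0) (XT.lf (nat_lit 0) (nat_lit 12115221406) (nat_lit 684) (nat_lit 6717588476) (nat_lit 760) (nat_lit 1921230008) (nat_lit 82) (nat_lit 5) (nat_lit 91) (nat_lit 5) (nat_lit 92) (nat_lit 5) (nat_lit 282) (nat_lit 280) (nat_lit 218)) (XT.lf (nat_lit 76) (nat_lit 8479490444) (nat_lit 0) (nat_lit 5222553323) (nat_lit 760) (nat_lit 7892067660) (nat_lit 83)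 (nat_lit 5) (nat_lit 82) (nat_lit 5) (nat_lit 92) (nat_lit 5) (nat_lit 283) (nat_lit 280) (nat_lit 217))) (XT.nd (nat_lit 78) (nat_lit 0) (nat_lit 76) (XT.lf (nat_lit 76) (nat_lit 2552442452) (nat_lit 0) (nat_lit 13147742408) (nat_lit 760) (nat_lit 6787044099) (nat_lit 84) (nat_lit 5) (nat_lit 83) (nat_lit 5) (nat_lit 93) (nat_lit 5) (nat_lit 284) (nat_lit 280) (nat_lit 216)) (XT.nd (nat_lit 78) (nat_lit 0) (nat_lit 0) (XT.lf (nat_lit 0) (nat_lit 18178585779) (nat_lit 684) (nat_lit 3628557349) (nat_lit 760) (nat_lit 1628686892) (nat_lit 84) (nat_lit 5) (nat_lit 93) (nat_lit 5) (nat_lit 94) (nat_lit 5) (nat_lit 285) (nat_lit 280) (nat_lit 215)) (XT.lf (nat_lit 76) (nat_lit 14199627504) (nat_lit 0) (nat_lit 7079704595) (nat_lit 760) (nat_lit 3159833917) (nat_lit 85) (nat_lit 5) (nat_lit 84) (nat_lit 5) (nat_lit 94) (nat_lit 5) (nat_lit 286) (nat_lit 280) (nat_lit 214))))) (XT.nd (nat_lit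 156) (nat_lit 684) (nat_lit 0) (XT.nd (nat_lit 78) (nat_lit 456) (nat_lit 0) (XT.lf (nat_lit 0) (nat_lit 8171059505) (nat_lit 684) (nat_lit 16768630996) (nat_lit 760) (nat_lit 567547542) (nat_lit 76) (nat_lit 5) (nat_lit 85) (nat_lit 5) (nat_lit 86) (nat_lit 5) (nat_lit 287) (nat_lit 280) (nat_lit 213)) (XT.lf (nat_lit 0) (nat_lit 1648328065) (nat_lit 380) (nat_lit 821476278) (nat_lit 456) (nat_lit 24173794028) (nat_lit 70) (nat_lit 5) (nat_lit 75) (nat_lit 5) (nat_lit 76) (nat_lit 5) (nat_lit 288) (nat_lit 280) (nat_lit 212))) (XT.nd (nat_lit 78) (nat_lit 684) (nat_lit 0) (XT.lf (nat_lit 0) (nat_lit 6277324189) (nat_lit 456) (nat_lit 5371485915) (nat_lit 76) (nat_lit 16194277214) (nat_lit 70) (nat_lit 5) (nat_lit 76) (nat_lit 5) (nat_lit 71) (nat_lit 5) (nat_lit 289) (nat_lit 280) (nat_lit 211)) (XT.nd (nat_lit 78) (nat_lit 304) (nat_lit 0) (XT.lf (nat_lit 0) (nat_lit 10731595521) (nat_lit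 456) (nat_lit 12898519746) (nat_lit 76) (nat_lit 5491347980) (nat_lit 65) (nat_lit 5) (nat_lit 71) (nat_lit 5) (nat_lit 66) (nat_lit 5) (nat_lit 290) (nat_lit 280) (nat_lit 210)) (XT.lf (nat_lit 0) (nat_lit 9325092739) (nat_lit 304) (nat_lit 6640114716) (nat_lit 380) (nat_lit 14515784591) (nat_lit 61) (nat_lit 5) (nat_lit 65) (nat_lit 5) (nat_lit 66) (nat_lit 5) (nat_lit 291) (nat_lit 280) (nat_lit 209))))))))
noncomputable def xc86 : XT := (XT.nd (nat_lit 1560) (nat_lit 1064) (nat_lit 0) (XT.nd (nat_lit 780) (nat_lit 1216) (nat_lit 0) (XT.nd (nat_lit 390) (nat_lit 684) (nat_lit 0) (XT.nd (nat_lit 156) (nat_lit 836) (nat_lit 0) (XT.nd (nat_lit 78) (nat_lit 0) (nat_lit 0) (XT.lf (nat_lit 0) (nat_lit 1702371619) (nat_lit 304) (nat_lit 20339593658) (nat_lit 380) (nat_lit 9886125342) (nat_lit 57) (nat_lit 5) (nat_lit 61) (nat_lit 5) (nat_lit 62) (nat_lit 5) (nat_lit 292) (nat_lit 280) (nat_lit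 208)) (XT.lf (nat_lit 0) (nat_lit 27014982645) (nat_lit 304) (nat_lit 2056025745) (nat_lit 380) (nat_lit 4396669526) (nat_lit 57) (nat_lit 5) (nat_lit 61) (nat_lit 5) (nat_lit 62) (nat_lit 5) (nat_lit 293) (nat_lit 280) (nat_lit 207))) (XT.nd (nat_lit 78) (nat_lit 532) (nat_lit 0) (XT.lf (nat_lit 0) (nat_lit 2062152381) (nat_lit 304) (nat_lit 15576920873) (nat_lit 76) (nat_lit 17461225731) (nat_lit 53) (nat_lit 5) (nat_lit 57) (nat_lit 5) (nat_lit 54) (nat_lit 5) (nat_lit 294) (nat_lit 280) (nat_lit 206)) (XT.nd (nat_lit 78) (nat_lit 228) (nat_lit 0) (XT.lf (nat_lit 0) (nat_lit 9229054794) (nat_lit 380) (nat_lit 25691335166) (nat_lit 76) (nat_lit 1922288242) (nat_lit 49) (nat_lit 5) (nat_lit 54) (nat_lit 5) (nat_lit 50) (nat_lit 5) (nat_lit 295) (nat_lit 280) (nat_lit 205)) (XT.lf (nat_lit 0) (nat_lit 1599153305) (nat_lit 228) (nat_lit 15957752837) (nat_lit 304) (nat_lit 21138182998)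 (nat_lit 46) (nat_lit 5) (nat_lit 49) (nat_lit 5) (nat_lit 50) (nat_lit 5) (nat_lit 296) (nat_lit 280) (nat_lit 204))))) (XT.nd (nat_lit 156) (nat_lit 456) (nat_lit 0) (XT.nd (nat_lit 78) (nat_lit 228) (nat_lit 0) (XT.lf (nat_lit 0) (nat_lit 27066402790) (nat_lit 304) (nat_lit 8774225033) (nat_lit 76) (nat_lit 4829313922) (nat_lit 46) (nat_lit 5) (nat_lit 50) (nat_lit 5) (nat_lit 47) (nat_lit 5) (nat_lit 297) (nat_lit 280) (nat_lit 203)) (XT.lf (nat_lit 0) (nat_lit 22243787180) (nat_lit 228) (nat_lit 15699935550) (nat_lit 304) (nat_lit 4828724844) (nat_lit 43) (nat_lit 5) (nat_lit 46) (nat_lit 5) (nat_lit 47) (nat_lit 5) (nat_lit 298) (nat_lit 280) (nat_lit 202))) (XT.nd (nat_lit 78) (nat_lit 228) (nat_lit 0) (XT.lf (nat_lit 0) (nat_lit 4923118349) (nat_lit 228) (nat_lit 33829045747) (nat_lit 76) (nat_lit 6266186777) (nat_lit 40) (nat_lit 5) (nat_lit 43) (nat_lit 5) (nat_lit 41) (nat_lit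 5) (nat_lit 299) (nat_lit 280) (nat_lit 201)) (XT.nd (nat_lit 78) (nat_lit 228) (nat_lit 0) (XT.lf (nat_lit 0) (nat_lit 15907862205) (nat_lit 228) (nat_lit 1612221873) (nat_lit 76) (nat_lit 29888802832) (nat_lit 40) (nat_lit 5) (nat_lit 43) (nat_lit 5) (nat_lit 41) (nat_lit 5) (nat_lit 300) (nat_lit 280) (nat_lit 200)) (XT.lf (nat_lit 0) (nat_lit 28391705124) (nat_lit 304) (nat_lit 15789848772) (nat_lit 76) (nat_lit 5778109713) (nat_lit 37) (nat_lit 5) (nat_lit 41) (nat_lit 5) (nat_lit 38) (nat_lit 5) (nat_lit 301) (nat_lit 280) (nat_lit 199)))))) (XT.nd (nat_lit 390) (nat_lit 456) (nat_lit 0) (XT.nd (nat_lit 156) (nat_lit 304) (nat_lit 0) (XT.nd (nat_lit 78) (nat_lit 304) (nat_lit 0) (XT.lf (nat_lit 0) (nat_lit 20508492305) (nat_lit 152) (nat_lit 22002403787) (nat_lit 228) (nat_lit 10171787058) (nat_lit 35) (nat_lit 5) (nat_lit 37) (nat_lit 5) (nat_lit 38) (nat_lit 5) (nat_lit 302) (nat_lit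 280) (nat_lit 198)) (XT.lf (nat_lit 0) (nat_lit 2451227999) (nat_lit 304) (nat_lit 50872466936) (nat_lit 76) (nat_lit 2279017154) (nat_lit 31) (nat_lit 5) (nat_lit 35) (nat_lit 5) (nat_lit 32) (nat_lit 5) (nat_lit 303) (nat_lit 280) (nat_lit 197))) (XT.nd (nat_lit 78) (nat_lit 304) (nat_lit 0) (XT.lf (nat_lit 0) (nat_lit 16666192597) (nat_lit 304) (nat_lit 13554586691) (nat_lit 76) (nat_lit 28480313016) (nat_lit 31) (nat_lit 5) (nat_lit 35) (nat_lit 5) (nat_lit 32) (nat_lit 5) (nat_lit 304) (nat_lit 280) (nat_lit 196)) (XT.nd (nat_lit 78) (nat_lit 152) (nat_lit 0) (XT.lf (nat_lit 0) (nat_lit 27623086508) (nat_lit 152) (nat_lit 4820126622) (nat_lit 228) (nat_lit 29582896496) (nat_lit 29) (nat_lit 5) (nat_lit 31) (nat_lit 5) (nat_lit 32) (nat_lit 5) (nat_lit 305) (nat_lit 280) (nat_lit 195)) (XT.lf (nat_lit 0) (nat_lit 6825639760) (nat_lit 152) (nat_lit 43350215465) (nat_lit 228) (nat_lit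 15406609028) (nat_lit 27) (nat_lit 5) (nat_lit 29) (nat_lit 5) (nat_lit 30) (nat_lit 5) (nat_lit 306) (nat_lit 280) (nat_lit 194))))) (XT.nd (nat_lit 156) (nat_lit 228) (nat_lit 0) (XT.nd (nat_lit 78) (nat_lit 152) (nat_lit 0) (XT.lf (nat_lit 0) (nat_lit 591311721) (nat_lit 228) (nat_lit 16911219824) (nat_lit 76) (nat_lit 51886656147) (nat_lit 26) (nat_lit 5) (nat_lit 29) (nat_lit 5) (nat_lit 27) (nat_lit 5) (nat_lit 307) (nat_lit 280) (nat_lit 193)) (XT.lf (nat_lit 0) (nat_lit 17957044136) (nat_lit 228) (nat_lit 44699517263) (nat_lit 76) (nat_lit 10799878992) (nat_lit 24) (nat_lit 5) (nat_lit 27) (nat_lit 5) (nat_lit 25) (nat_lit 5) (nat_lit 308) (nat_lit 280) (nat_lit 192))) (XT.nd (nat_lit 78) (nat_lit 76) (nat_lit 0) (XT.lf (nat_lit 0) (nat_lit 557432702) (nat_lit 152) (nat_lit 36752581609) (nat_lit 228) (nat_lit 40509166777) (nat_lit 22) (nat_lit 5) (nat_lit 24) (nat_lit 5) (nat_lit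 25) (nat_lit 5) (nat_lit 309) (nat_lit 280) (nat_lit 191)) (XT.nd (nat_lit 78) (nat_lit 76) (nat_lit 0) (XT.lf (nat_lit 0) (nat_lit 51022992083) (nat_lit 152) (nat_lit 7961868816) (nat_lit 228) (nat_lit 23507404444) (nat_lit 22) (nat_lit 5) (nat_lit 24) (nat_lit 5) (nat_lit 25) (nat_lit 5) (nat_lit 310) (nat_lit 280) (nat_lit 190)) (XT.lf (nat_lit 0) (nat_lit 18200224136) (nat_lit 76) (nat_lit 64834111176) (nat_lit 152) (nat_lit 4472834799) (nat_lit 21) (nat_lit 5) (nat_lit 22) (nat_lit 5) (nat_lit 23) (nat_lit 4) (nat_lit 311) (nat_lit 280) (nat_lit 189))))))) (XT.nd (nat_lit 780) (nat_lit 380) (nat_lit 0) (XT.nd (nat_lit 390) (nat_lit 304) (nat_lit 0) (XT.nd (nat_lit 156) (nat_lit 152) (nat_lit 0) (XT.nd (nat_lit 78) (nat_lit 152) (nat_lit 0) (XT.lf (nat_lit 0) (nat_lit 16256587753) (nat_lit 152) (nat_lit 20330739733) (nat_lit 76) (nat_lit 56289044076) (nat_lit 20) (nat_lit 5) (nat_lit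 22) (nat_lit 5) (nat_lit 21) (nat_lit 5) (nat_lit 312) (nat_lit 280) (nat_lit 188)) (XT.lf (nat_lit 0) (nat_lit 33555118155) (nat_lit 152) (nat_lit 5454338164) (nat_lit 228) (nat_lit 59635901343) (nat_lit 18) (nat_lit 5) (nat_lit 20) (nat_lit 5) (nat_lit 21) (nat_lit 5) (nat_lit 313) (nat_lit 280) (nat_lit 187))) (XT.nd (nat_lit 78) (nat_lit 152) (nat_lit 0) (XT.lf (nat_lit 0) (nat_lit 64378287322) (nat_lit 228) (nat_lit 12832768595) (nat_lit 76) (nat_lit 27625024455) (nat_lit 18) (nat_lit 5) (nat_lit 21) (nat_lit 5) (nat_lit 19) (nat_lit 4) (nat_lit 314) (nat_lit 280) (nat_lit 186)) (XT.nd (nat_lit 78) (nat_lit 76) (nat_lit 0) (XT.lf (nat_lit 0) (nat_lit 44945520071) (nat_lit 76) (nat_lit 47621075648) (nat_lit 152) (nat_lit 18915970679) (nat_lit 17) (nat_lit 5) (nat_lit 18) (nat_lit 5) (nat_lit 19) (nat_lit 4) (nat_lit 315) (nat_lit 280) (nat_lit 185)) (XT.lf (nat_lit 0) (nat_lit 4433593795)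 (nat_lit 152) (nat_lit 10923030332) (nat_lit 76) (nat_lit 103289575699) (nat_lit 16) (nat_lit 5) (nat_lit 18) (nat_lit 5) (nat_lit 17) (nat_lit 5) (nat_lit 316) (nat_lit 280) (nat_lit 184))))) (XT.nd (nat_lit 156) (nat_lit 152) (nat_lit 0) (XT.nd (nat_lit 78) (nat_lit 0) (nat_lit 0) (XT.lf (nat_lit 0) (nat_lit 30103643366) (nat_lit 228) (nat_lit 76220683430) (nat_lit 76) (nat_lit 19987333371) (nat_lit 14) (nat_lit 5) (nat_lit 17) (nat_lit 5) (nat_lit 15) (nat_lit 4) (nat_lit 317) (nat_lit 280) (nat_lit 183)) (XT.lf (nat_lit 0) (nat_lit 58276416305) (nat_lit 228) (nat_lit 18472353265) (nat_lit 76) (nat_lit 57819134854) (nat_lit 14) (nat_lit 5) (nat_lit 17) (nat_lit 5) (nat_lit 15) (nat_lit 4) (nat_lit 318) (nat_lit 280) (nat_lit 182))) (XT.nd (nat_lit 78) (nat_lit 76) (nat_lit 0) (XT.lf (nat_lit 0) (nat_lit 45341870165) (nat_lit 76) (nat_lit 44066079863) (nat_lit 152) (nat_lit 54041454077)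 (nat_lit 13) (nat_lit 5) (nat_lit 14) (nat_lit 5) (nat_lit 15) (nat_lit 4) (nat_lit 319) (nat_lit 280) (nat_lit 181)) (XT.nd (nat_lit 78) (nat_lit 76) (nat_lit 0) (XT.lf (nat_lit 0) (nat_lit 114915902910) (nat_lit 76) (nat_lit 8433048052) (nat_lit 152) (nat_lit 29676528196) (nat_lit 13) (nat_lit 5) (nat_lit 14) (nat_lit 5) (nat_lit 15) (nat_lit 4) (nat_lit 320) (nat_lit 280) (nat_lit 180)) (XT.lf (nat_lit 0) (nat_lit 27081103200) (nat_lit 76) (nat_lit 133813462076) (nat_lit 76) (nat_lit 2428610702) (nat_lit 12) (nat_lit 4) (nat_lit 13) (nat_lit 5) (nat_lit 13) (nat_lit 4) (nat_lit 321) (nat_lit 280) (nat_lit 179)))))) (XT.nd (nat_lit 390) (nat_lit 228) (nat_lit 0) (XT.nd (nat_lit 156) (nat_lit 76) (nat_lit 0) (XT.nd (nat_lit 78) (nat_lit 0) (nat_lit 0) (XT.lf (nat_lit 0) (nat_lit 26949352172) (nat_lit 152) (nat_lit 76142777639) (nat_lit 76) (nat_lit 71290766609) (nat_lit 11) (nat_lit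 5) (nat_lit 13) (nat_lit 5) (nat_lit 12) (nat_lit 4) (nat_lit 322) (nat_lit 280) (nat_lit 178)) (XT.lf (nat_lit 0) (nat_lit 58591222874) (nat_lit 152) (nat_lit 11280737345) (nat_lit 76) (nat_lit 116453507720) (nat_lit 11) (nat_lit 5) (nat_lit 13) (nat_lit 5) (nat_lit 12) (nat_lit 4) (nat_lit 323) (nat_lit 280) (nat_lit 177))) (XT.nd (nat_lit 78) (nat_lit 0) (nat_lit 0) (XT.lf (nat_lit 0) (nat_lit 60709413538) (nat_lit 76) (nat_lit 33000670041) (nat_lit 152) (nat_lit 105466081420) (nat_lit 10) (nat_lit 5) (nat_lit 11) (nat_lit 5) (nat_lit 12) (nat_lit 4) (nat_lit 324) (nat_lit 280) (nat_lit 176)) (XT.nd (nat_lit 78) (nat_lit 0) (nat_lit 0) (XT.lf (nat_lit 0) (nat_lit 131942536836) (nat_lit 152) (nat_lit 74297033187) (nat_lit 0) (nat_lit 6800145314) (nat_lit 10) (nat_lit 5) (nat_lit 12) (nat_lit 4) (nat_lit 10) (nat_lit 4) (nat_lit 325) (nat_lit 280) (nat_lit 175)) (XT.lf (nat_lit 0) (nat_lit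 173788070159) (nat_lit 152) (nat_lit 5553747160) (nat_lit 0) (nat_lit 48642809768) (nat_lit 10) (nat_lit 5) (nat_lit 12) (nat_lit 4) (nat_lit 10) (nat_lit 4) (nat_lit 326) (nat_lit 280) (nat_lit 174))))) (XT.nd (nat_lit 156) (nat_lit 76) (nat_lit 0) (XT.nd (nat_lit 78) (nat_lit 76) (nat_lit 0) (XT.lf (nat_lit 0) (nat_lit 70956766856) (nat_lit 76) (nat_lit 149130491266) (nat_lit 76) (nat_lit 23982574514) (nat_lit 9) (nat_lit 4) (nat_lit 10) (nat_lit 5) (nat_lit 10) (nat_lit 4) (nat_lit 327) (nat_lit 280) (nat_lit 173)) (XT.lf (nat_lit 0) (nat_lit 8468282252) (nat_lit 152) (nat_lit 107790397727) (nat_lit 76) (nat_lit 145171596417) (nat_lit 8) (nat_lit 5) (nat_lit 10) (nat_lit 5) (nat_lit 9) (nat_lit 4) (nat_lit 328) (nat_lit 280) (nat_lit 172))) (XT.nd (nat_lit 78) (nat_lit 76) (nat_lit 0) (XT.lf (nat_lit 0) (nat_lit 42684572825) (nat_lit 152) (nat_lit 37649279452) (nat_lit 76) (nat_lit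 199825566828) (nat_lit 8) (nat_lit 5) (nat_lit 10) (nat_lit 5) (nat_lit 9) (nat_lit 4) (nat_lit 329) (nat_lit 280) (nat_lit 171)) (XT.nd (nat_lit 78) (nat_lit 0) (nat_lit 0) (XT.lf (nat_lit 0) (nat_lit 39360145787) (nat_lit 76) (nat_lit 40891028962) (nat_lit 152) (nat_lit 220105069179) (nat_lit 7) (nat_lit 5) (nat_lit 8) (nat_lit 5) (nat_lit 9) (nat_lit 4) (nat_lit 330) (nat_lit 280) (nat_lit 170)) (XT.lf (nat_lit 0) (nat_lit 121514875105) (nat_lit 152) (nat_lit 198301348416) (nat_lit 0) (nat_lit 2318003721) (nat_lit 7) (nat_lit 5) (nat_lit 9) (nat_lit 4) (nat_lit 7) (nat_lit 4) (nat_lit 331) (nat_lit 280) (nat_lit 169))))))))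
noncomputable def xc87 : XT := (XT.nd (nat_lit 37206) (nat_lit 0) (nat_lit 1672) (XT.nd (nat_lit 780) (nat_lit 0) (nat_lit 0) (XT.nd (nat_lit 390) (nat_lit 152) (nat_lit 0) (XT.nd (nat_lit 156) (nat_lit 76) (nat_lit 0) (XT.nd (nat_lit 78) (nat_lit 0) (nat_lit 0) (XT.lf (nat_lit 0) (nat_lit 166767815581) (nat_lit 152) (nat_lit 131283004971) (nat_lit 0) (nat_lit 47569222411) (nat_lit 7) (nat_lit 5) (nat_lit 9) (nat_lit 4) (nat_lit 7) (nat_lit 4) (nat_lit 332) (nat_lit 280) (nat_lit 168)) (XT.lf (nat_lit 0) (nat_lit 215639738190) (nat_lit 152) (nat_lit 58905498505) (nat_lit 0) (nat_lit 96439550775) (nat_lit 7) (nat_lit 5) (nat_lit 9) (nat_lit 4) (nat_lit 7) (nat_lit 4) (nat_lit 333) (nat_lit 280) (nat_lit 167))) (XT.nd (nat_lit 78) (nat_lit 0) (nat_lit 0) (XT.lf (nat_lit 0) (nat_lit 19896899771) (nat_lit 76) (nat_lit 248834000920) (nat_lit 76) (nat_lit 129632337352) (nat_lit 6) (nat_lit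 4) (nat_lit 7) (nat_lit 5) (nat_lit 7) (nat_lit 4) (nat_lit 334) (nat_lit 280) (nat_lit 166)) (XT.nd (nat_lit 78) (nat_lit 0) (nat_lit 0) (XT.lf (nat_lit 0) (nat_lit 107104945235) (nat_lit 76) (nat_lit 219989400537) (nat_lit 76) (nat_lit 100786370161) (nat_lit 6) (nat_lit 4) (nat_lit 7) (nat_lit 5) (nat_lit 7) (nat_lit 4) (nat_lit 335) (nat_lit 280) (nat_lit 165)) (XT.lf (nat_lit 0) (nat_lit 201287744498) (nat_lit 76) (nat_lit 188838097702) (nat_lit 76) (nat_lit 69633801762) (nat_lit 6) (nat_lit 4) (nat_lit 7) (nat_lit 5) (nat_lit 7) (nat_lit 4) (nat_lit 336) (nat_lit 280) (nat_lit 164))))) (XT.nd (nat_lit 156) (nat_lit 76) (nat_lit 0) (XT.nd (nat_lit 78) (nat_lit 76) (nat_lit 0) (XT.lf (nat_lit 0) (nat_lit 303003417852) (nat_lit 76) (nat_lit 155195492101) (nat_lit 76) (nat_lit 35990024343) (nat_lit 6) (nat_lit 4) (nat_lit 7) (nat_lit 5) (nat_lit 7) (nat_lit 4) (nat_lit 337) (nat_lit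 280) (nat_lit 163)) (XT.lf (nat_lit 0) (nat_lit 333311834) (nat_lit 152) (nat_lit 118523263513) (nat_lit 76) (nat_lit 412515768210) (nat_lit 5) (nat_lit 5) (nat_lit 7) (nat_lit 5) (nat_lit 6) (nat_lit 4) (nat_lit 338) (nat_lit 280) (nat_lit 162))) (XT.nd (nat_lit 78) (nat_lit 76) (nat_lit 0) (XT.lf (nat_lit 0) (nat_lit 38317629968) (nat_lit 152) (nat_lit 40656415984) (nat_lit 76) (nat_lit 492526078604) (nat_lit 5) (nat_lit 5) (nat_lit 7) (nat_lit 5) (nat_lit 6) (nat_lit 4) (nat_lit 339) (nat_lit 280) (nat_lit 161)) (XT.nd (nat_lit 78) (nat_lit 0) (nat_lit 0) (XT.lf (nat_lit 0) (nat_lit 44874632958) (nat_lit 76) (nat_lit 35165913677) (nat_lit 152) (nat_lit 534762589229) (nat_lit 4) (nat_lit 5) (nat_lit 5) (nat_lit 5) (nat_lit 6) (nat_lit 4) (nat_lit 340) (nat_lit 280) (nat_lit 160)) (XT.lf (nat_lit 0) (nat_lit 126010021978) (nat_lit 152) (nat_lit 523037621608) (nat_lit 0) (nat_lit 12477308676)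 (nat_lit 4) (nat_lit 5) (nat_lit 6) (nat_lit 4) (nat_lit 4) (nat_lit 4) (nat_lit 341) (nat_lit 280) (nat_lit 159)))))) (XT.nd (nat_lit 36036) (nat_lit 0) (nat_lit 5928) (XT.nd (nat_lit 156) (nat_lit 0) (nat_lit 0) (XT.nd (nat_lit 78) (nat_lit 0) (nat_lit 0) (XT.lf (nat_lit 0) (nat_lit 176249331852) (nat_lit 152) (nat_lit 472989709704) (nat_lit 0) (nat_lit 62715859007) (nat_lit 4) (nat_lit 5) (nat_lit 6) (nat_lit 4) (nat_lit 4) (nat_lit 4) (nat_lit 342) (nat_lit 280) (nat_lit 158)) (XT.lf (nat_lit 0) (nat_lit 230507152221) (nat_lit 152) (nat_lit 418939148511) (nat_lit 0) (nat_lit 116972976096) (nat_lit 4) (nat_lit 5) (nat_lit 6) (nat_lit 4) (nat_lit 4) (nat_lit 4) (nat_lit 343) (nat_lit 280) (nat_lit 157))) (XT.nd (nat_lit 35724) (nat_lit 0) (nat_lit 5852) (XT.lf (nat_lit 0) (nat_lit 289105010909) (nat_lit 152) (nat_lit 360565638409) (nat_lit 0) (nat_lit 175570183599) (nat_lit 4) (nat_lit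 5) (nat_lit 6) (nat_lit 4) (nat_lit 4) (nat_lit 4) (nat_lit 344) (nat_lit 280) (nat_lit 156)) (XT.nd (nat_lit 78) (nat_lit 0) (nat_lit 0) (XT.lf (nat_lit 0) (nat_lit 2865392704) (nat_lit 0) (nat_lit 2865392704) (nat_lit 684) (nat_lit 4631032761) (nat_lit 81) (nat_lit 5) (nat_lit 81) (nat_lit 3) (nat_lit 90) (nat_lit 3) (nat_lit 281) (nat_lit 281) (nat_lit 218)) (XT.lf (nat_lit 0) (nat_lit 12284125821) (nat_lit 684) (nat_lit 543385704) (nat_lit 760) (nat_lit 8706276750) (nat_lit 81) (nat_lit 5) (nat_lit 90) (nat_lit 3) (nat_lit 91) (nat_lit 5) (nat_lit 282) (nat_lit 281) (nat_lit 217))))) (XT.nd (nat_lit 156) (nat_lit 0) (nat_lit 76) (XT.nd (nat_lit 78) (nat_lit 0) (nat_lit 0) (XT.lf (nat_lit 0) (nat_lit 13518677411) (nat_lit 684) (nat_lit 6976346293) (nat_lit 760) (nat_lit 1896477973) (nat_lit 82) (nat_lit 5) (nat_lit 91) (nat_lit 5) (nat_lit 92) (nat_lit 5) (nat_lit 283) (nat_lit 281)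 (nat_lit 216)) (XT.lf (nat_lit 76) (nat_lit 9424389183) (nat_lit 0) (nat_lit 5780052008) (nat_lit 760) (nat_lit 8095823113) (nat_lit 83) (nat_lit 5) (nat_lit 82) (nat_lit 5) (nat_lit 92) (nat_lit 5) (nat_lit 284) (nat_lit 281) (nat_lit 215))) (XT.nd (nat_lit 78) (nat_lit 0) (nat_lit 76) (XT.lf (nat_lit 76) (nat_lit 3034127167) (nat_lit 0) (nat_lit 14300527924) (nat_lit 760) (nat_lit 6931643911) (nat_lit 84) (nat_lit 5) (nat_lit 83) (nat_lit 5) (nat_lit 93) (nat_lit 5) (nat_lit 285) (nat_lit 281) (nat_lit 214)) (XT.nd (nat_lit 78) (nat_lit 0) (nat_lit 0) (XT.lf (nat_lit 0) (nat_lit 19981834751) (nat_lit 684) (nat_lit 3642014200) (nat_lit 760) (nat_lit 1668486865) (nat_lit 84) (nat_lit 5) (nat_lit 93) (nat_lit 5) (nat_lit 94) (nat_lit 5) (nat_lit 286) (nat_lit 281) (nat_lit 213)) (XT.lf (nat_lit 76) (nat_lit 15600394846) (nat_lit 0) (nat_lit 7708531110) (nat_lit 760) (nat_lit 3068166068)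 (nat_lit 85) (nat_lit 5) (nat_lit 84) (nat_lit 5) (nat_lit 94) (nat_lit 5) (nat_lit 287) (nat_lit 281) (nat_lit 212))))))) (XT.nd (nat_lit 780) (nat_lit 1520) (nat_lit 0) (XT.nd (nat_lit 390) (nat_lit 1140) (nat_lit 0) (XT.nd (nat_lit 156) (nat_lit 684) (nat_lit 0) (XT.nd (nat_lit 78) (nat_lit 456) (nat_lit 0) (XT.lf (nat_lit 0) (nat_lit 9095425761) (nat_lit 684) (nat_lit 18145770029) (nat_lit 760) (nat_lit 290522472) (nat_lit 76) (nat_lit 5) (nat_lit 85) (nat_lit 5) (nat_lit 86) (nat_lit 5) (nat_lit 288) (nat_lit 281) (nat_lit 211)) (XT.lf (nat_lit 0) (nat_lit 2049696262) (nat_lit 380) (nat_lit 910890051) (nat_lit 456) (nat_lit 25799150169) (nat_lit 70) (nat_lit 5) (nat_lit 75) (nat_lit 5) (nat_lit 76) (nat_lit 5) (nat_lit 289) (nat_lit 281) (nat_lit 210))) (XT.nd (nat_lit 78) (nat_lit 684) (nat_lit 0) (XT.lf (nat_lit 0) (nat_lit 7050646852) (nat_lit 456) (nat_lit 5537110652) (nat_lit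 76) (nat_lit 17468581186) (nat_lit 70) (nat_lit 5) (nat_lit 76) (nat_lit 5) (nat_lit 71) (nat_lit 5) (nat_lit 290) (nat_lit 281) (nat_lit 209)) (XT.nd (nat_lit 78) (nat_lit 304) (nat_lit 0) (XT.lf (nat_lit 0) (nat_lit 11845082594) (nat_lit 456) (nat_lit 13664405956) (nat_lit 76) (nat_lit 5928352325) (nat_lit 65) (nat_lit 5) (nat_lit 71) (nat_lit 5) (nat_lit 66) (nat_lit 5) (nat_lit 291) (nat_lit 281) (nat_lit 208)) (XT.lf (nat_lit 0) (nat_lit 10325535693) (nat_lit 304) (nat_lit 7156934357) (nat_lit 380) (nat_lit 15424451411) (nat_lit 61) (nat_lit 5) (nat_lit 65) (nat_lit 5) (nat_lit 66) (nat_lit 5) (nat_lit 292) (nat_lit 281) (nat_lit 207))))) (XT.nd (nat_lit 156) (nat_lit 836) (nat_lit 0) (XT.nd (nat_lit 78) (nat_lit 0) (nat_lit 0) (XT.lf (nat_lit 0) (nat_lit 2093729070) (nat_lit 304) (nat_lit 21938050145) (nat_lit 380) (nat_lit 10438728736) (nat_lit 57) (nat_lit 5) (nat_lit 61) (nat_lit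 5) (nat_lit 62) (nat_lit 5) (nat_lit 293) (nat_lit 281) (nat_lit 206)) (XT.lf (nat_lit 0) (nat_lit 29412447666) (nat_lit 304) (nat_lit 2193923540) (nat_lit 380) (nat_lit 4527767316) (nat_lit 57) (nat_lit 5) (nat_lit 61) (nat_lit 5) (nat_lit 62) (nat_lit 5) (nat_lit 294) (nat_lit 281) (nat_lit 205))) (XT.nd (nat_lit 78) (nat_lit 532) (nat_lit 0) (XT.lf (nat_lit 0) (nat_lit 2429015212) (nat_lit 304) (nat_lit 16579905950) (nat_lit 76) (nat_lit 18888893171) (nat_lit 53) (nat_lit 5) (nat_lit 57) (nat_lit 5) (nat_lit 54) (nat_lit 5) (nat_lit 295) (nat_lit 281) (nat_lit 204)) (XT.nd (nat_lit 78) (nat_lit 228) (nat_lit 0) (XT.lf (nat_lit 0) (nat_lit 10158602765) (nat_lit 380) (nat_lit 27504785722) (nat_lit 76) (nat_lit 2116759422) (nat_lit 49) (nat_lit 5) (nat_lit 54) (nat_lit 5) (nat_lit 50) (nat_lit 5) (nat_lit 296) (nat_lit 281) (nat_lit 203)) (XT.lf (nat_lit 0) (nat_lit 1958431049) (nat_lit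 228) (nat_lit 17183698414) (nat_lit 304) (nat_lit 22639178296) (nat_lit 46) (nat_lit 5) (nat_lit 49) (nat_lit 5) (nat_lit 50) (nat_lit 5) (nat_lit 297) (nat_lit 281) (nat_lit 202)))))) (XT.nd (nat_lit 390) (nat_lit 836) (nat_lit 0) (XT.nd (nat_lit 156) (nat_lit 456) (nat_lit 0) (XT.nd (nat_lit 78) (nat_lit 228) (nat_lit 0) (XT.lf (nat_lit 0) (nat_lit 29399735386) (nat_lit 304) (nat_lit 9253993758) (nat_lit 76) (nat_lit 5261078244) (nat_lit 46) (nat_lit 5) (nat_lit 50) (nat_lit 5) (nat_lit 47) (nat_lit 5) (nat_lit 298) (nat_lit 281) (nat_lit 201)) (XT.lf (nat_lit 0) (nat_lit 24235804226) (nat_lit 228) (nat_lit 16902308682) (nat_lit 304) (nat_lit 5047881523) (nat_lit 43) (nat_lit 5) (nat_lit 46) (nat_lit 5) (nat_lit 47) (nat_lit 5) (nat_lit 299) (nat_lit 281) (nat_lit 200))) (XT.nd (nat_lit 78) (nat_lit 228) (nat_lit 0) (XT.lf (nat_lit 0) (nat_lit 5470901144) (nat_lit 228) (nat_lit 36319643180)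 (nat_lit 76) (nat_lit 6821309583) (nat_lit 40) (nat_lit 5) (nat_lit 43) (nat_lit 5) (nat_lit 41) (nat_lit 5) (nat_lit 300) (nat_lit 281) (nat_lit 199)) (XT.nd (nat_lit 78) (nat_lit 228) (nat_lit 0) (XT.lf (nat_lit 0) (nat_lit 17323022040) (nat_lit 228) (nat_lit 1541453117) (nat_lit 76) (nat_lit 32329747673) (nat_lit 40) (nat_lit 5) (nat_lit 43) (nat_lit 5) (nat_lit 41) (nat_lit 5) (nat_lit 301) (nat_lit 281) (nat_lit 198)) (XT.lf (nat_lit 0) (nat_lit 30798873653) (nat_lit 304) (nat_lit 16855869049) (nat_lit 76) (nat_lit 6294672306) (nat_lit 37) (nat_lit 5) (nat_lit 41) (nat_lit 5) (nat_lit 38) (nat_lit 5) (nat_lit 302) (nat_lit 281) (nat_lit 197))))) (XT.nd (nat_lit 234) (nat_lit 380) (nat_lit 0) (XT.nd (nat_lit 78) (nat_lit 304) (nat_lit 0) (XT.lf (nat_lit 0) (nat_lit 22337770650) (nat_lit 152) (nat_lit 23702712169) (nat_lit 228) (nat_lit 10850166192) (nat_lit 35) (nat_lit 5) (nat_lit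 37) (nat_lit 5) (nat_lit 38) (nat_lit 5) (nat_lit 303) (nat_lit 281) (nat_lit 196)) (XT.nd (nat_lit 78) (nat_lit 0) (nat_lit 0) (XT.lf (nat_lit 0) (nat_lit 2772480944) (nat_lit 304) (nat_lit 54752070046) (nat_lit 76) (nat_lit 2519932465) (nat_lit 31) (nat_lit 5) (nat_lit 35) (nat_lit 5) (nat_lit 32) (nat_lit 5) (nat_lit 304) (nat_lit 281) (nat_lit 195)) (XT.lf (nat_lit 0) (nat_lit 18115371991) (nat_lit 304) (nat_lit 14462847843) (nat_lit 76) (nat_lit 30812991704) (nat_lit 31) (nat_lit 5) (nat_lit 35) (nat_lit 5) (nat_lit 32) (nat_lit 5) (nat_lit 305) (nat_lit 281) (nat_lit 194)))) (XT.nd (nat_lit 78) (nat_lit 228) (nat_lit 0) (XT.lf (nat_lit 0) (nat_lit 30001385868) (nat_lit 152) (nat_lit 5147214314) (nat_lit 228) (nat_lit 31833940649) (nat_lit 29) (nat_lit 5) (nat_lit 31) (nat_lit 5) (nat_lit 32) (nat_lit 5) (nat_lit 306) (nat_lit 281) (nat_lit 193)) (XT.nd (nat_lit 78) (nat_lit 76)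 (nat_lit 0) (XT.lf (nat_lit 0) (nat_lit 7537360347) (nat_lit 152) (nat_lit 46757782917) (nat_lit 228) (nat_lit 16528508015) (nat_lit 27) (nat_lit 5) (nat_lit 29) (nat_lit 5) (nat_lit 30) (nat_lit 5) (nat_lit 307) (nat_lit 281) (nat_lit 192)) (XT.lf (nat_lit 0) (nat_lit 737773041) (nat_lit 228) (nat_lit 18107309743) (nat_lit 76) (nat_lit 56090150593) (nat_lit 26) (nat_lit 5) (nat_lit 29) (nat_lit 5) (nat_lit 27) (nat_lit 5) (nat_lit 308) (nat_lit 281) (nat_lit 191))))))))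
noncomputable def xc88 : XT := (XT.nd (nat_lit 1560) (nat_lit 380) (nat_lit 0) (XT.nd (nat_lit 780) (nat_lit 380) (nat_lit 0) (XT.nd (nat_lit 390) (nat_lit 456) (nat_lit 0) (XT.nd (nat_lit 156) (nat_lit 152) (nat_lit 0) (XT.nd (nat_lit 78) (nat_lit 152) (nat_lit 0) (XT.lf (nat_lit 0) (nat_lit 19488632758) (nat_lit 228) (nat_lit 48121528027) (nat_lit 76) (nat_lit 11717921812) (nat_lit 24) (nat_lit 5) (nat_lit 27) (nat_lit 5) (nat_lit 25) (nat_lit 5) (nat_lit 309) (nat_lit 281) (nat_lit 190)) (XT.lf (nat_lit 0) (nat_lit 749287429) (nat_lit 152) (nat_lit 39635813366) (nat_lit 228) (nat_lit 43654987764) (nat_lit 22) (nat_lit 5) (nat_lit 24) (nat_lit 5) (nat_lit 25) (nat_lit 5) (nat_lit 310) (nat_lit 281) (nat_lit 189))) (XT.nd (nat_lit 78) (nat_lit 152) (nat_lit 0) (XT.lf (nat_lit 0) (nat_lit 55241183403) (nat_lit 152) (nat_lit 8546063903) (nat_lit 228) (nat_lit 25300114989) (nat_lit 22)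 (nat_lit 5) (nat_lit 24) (nat_lit 5) (nat_lit 25) (nat_lit 5) (nat_lit 311) (nat_lit 281) (nat_lit 188)) (XT.nd (nat_lit 78) (nat_lit 76) (nat_lit 0) (XT.lf (nat_lit 0) (nat_lit 19789978567) (nat_lit 76) (nat_lit 69967359331) (nat_lit 152) (nat_lit 4746296370) (nat_lit 21) (nat_lit 5) (nat_lit 22) (nat_lit 5) (nat_lit 23) (nat_lit 4) (nat_lit 312) (nat_lit 281) (nat_lit 187)) (XT.lf (nat_lit 0) (nat_lit 17632730514) (nat_lit 152) (nat_lit 21830783379) (nat_lit 76) (nat_lit 60839101365) (nat_lit 20) (nat_lit 5) (nat_lit 22) (nat_lit 5) (nat_lit 21) (nat_lit 5) (nat_lit 313) (nat_lit 281) (nat_lit 186))))) (XT.nd (nat_lit 156) (nat_lit 304) (nat_lit 0) (XT.nd (nat_lit 78) (nat_lit 0) (nat_lit 0) (XT.lf (nat_lit 0) (nat_lit 36360449275) (nat_lit 152) (nat_lit 5841666050) (nat_lit 228) (nat_lit 64331196896) (nat_lit 18) (nat_lit 5) (nat_lit 20) (nat_lit 5) (nat_lit 21) (nat_lit 5) (nat_lit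 314) (nat_lit 281) (nat_lit 185)) (XT.lf (nat_lit 0) (nat_lit 69595835333) (nat_lit 228) (nat_lit 13744732309) (nat_lit 76) (nat_lit 29878961826) (nat_lit 18) (nat_lit 5) (nat_lit 21) (nat_lit 5) (nat_lit 19) (nat_lit 4) (nat_lit 315) (nat_lit 281) (nat_lit 184))) (XT.nd (nat_lit 78) (nat_lit 228) (nat_lit 0) (XT.lf (nat_lit 0) (nat_lit 48650836563) (nat_lit 76) (nat_lit 51385100095) (nat_lit 152) (nat_lit 20361966719) (nat_lit 17) (nat_lit 5) (nat_lit 18) (nat_lit 5) (nat_lit 19) (nat_lit 4) (nat_lit 316) (nat_lit 281) (nat_lit 183)) (XT.nd (nat_lit 78) (nat_lit 152) (nat_lit 0) (XT.lf (nat_lit 0) (nat_lit 4848585171) (nat_lit 152) (nat_lit 11693268348) (nat_lit 76) (nat_lit 111592967427) (nat_lit 16) (nat_lit 5) (nat_lit 18) (nat_lit 5) (nat_lit 17) (nat_lit 5) (nat_lit 317) (nat_lit 281) (nat_lit 182)) (XT.lf (nat_lit 0) (nat_lit 32569970343) (nat_lit 228) (nat_lit 82216963084) (nat_lit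 76) (nat_lit 21626702525) (nat_lit 14) (nat_lit 5) (nat_lit 17) (nat_lit 5) (nat_lit 15) (nat_lit 4) (nat_lit 318) (nat_lit 281) (nat_lit 181)))))) (XT.nd (nat_lit 390) (nat_lit 152) (nat_lit 0) (XT.nd (nat_lit 156) (nat_lit 152) (nat_lit 0) (XT.nd (nat_lit 78) (nat_lit 76) (nat_lit 0) (XT.lf (nat_lit 0) (nat_lit 62992266190) (nat_lit 228) (nat_lit 19856275768) (nat_lit 76) (nat_lit 62482056831) (nat_lit 14) (nat_lit 5) (nat_lit 17) (nat_lit 5) (nat_lit 15) (nat_lit 4) (nat_lit 319) (nat_lit 281) (nat_lit 180)) (XT.lf (nat_lit 0) (nat_lit 49059006246) (nat_lit 76) (nat_lit 47552737697) (nat_lit 152) (nat_lit 58311007226) (nat_lit 13) (nat_lit 5) (nat_lit 14) (nat_lit 5) (nat_lit 15) (nat_lit 4) (nat_lit 320) (nat_lit 281) (nat_lit 179))) (XT.nd (nat_lit 78) (nat_lit 152) (nat_lit 0) (XT.lf (nat_lit 0) (nat_lit 124192310761) (nat_lit 76) (nat_lit 9071924716) (nat_lit 152) (nat_lit 32000869732)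 (nat_lit 13) (nat_lit 5) (nat_lit 14) (nat_lit 5) (nat_lit 15) (nat_lit 4) (nat_lit 321) (nat_lit 281) (nat_lit 178)) (XT.nd (nat_lit 78) (nat_lit 76) (nat_lit 0) (XT.lf (nat_lit 0) (nat_lit 29328887392) (nat_lit 76) (nat_lit 144482889089) (nat_lit 76) (nat_lit 2574930665) (nat_lit 12) (nat_lit 4) (nat_lit 13) (nat_lit 5) (nat_lit 13) (nat_lit 4) (nat_lit 322) (nat_lit 281) (nat_lit 177)) (XT.lf (nat_lit 0) (nat_lit 29148294410) (nat_lit 152) (nat_lit 82157468444) (nat_lit 76) (nat_lit 77025579763) (nat_lit 11) (nat_lit 5) (nat_lit 13) (nat_lit 5) (nat_lit 12) (nat_lit 4) (nat_lit 323) (nat_lit 281) (nat_lit 176))))) (XT.nd (nat_lit 156) (nat_lit 76) (nat_lit 0) (XT.nd (nat_lit 78) (nat_lit 76) (nat_lit 0) (XT.lf (nat_lit 0) (nat_lit 63318330023) (nat_lit 152) (nat_lit 12112148735) (nat_lit 76) (nat_lit 125799002990) (nat_lit 11) (nat_lit 5) (nat_lit 13) (nat_lit 5) (nat_lit 12) (nat_lit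 4) (nat_lit 324) (nat_lit 281) (nat_lit 175)) (XT.lf (nat_lit 0) (nat_lit 65634126576) (nat_lit 76) (nat_lit 35610685214) (nat_lit 152) (nat_lit 113863519628) (nat_lit 10) (nat_lit 5) (nat_lit 11) (nat_lit 5) (nat_lit 12) (nat_lit 4) (nat_lit 325) (nat_lit 281) (nat_lit 174))) (XT.nd (nat_lit 78) (nat_lit 76) (nat_lit 0) (XT.lf (nat_lit 0) (nat_lit 142533486552) (nat_lit 152) (nat_lit 80176520146) (nat_lit 0) (nat_lit 7371080100) (nat_lit 10) (nat_lit 5) (nat_lit 12) (nat_lit 4) (nat_lit 10) (nat_lit 4) (nat_lit 326) (nat_lit 281) (nat_lit 173)) (XT.nd (nat_lit 78) (nat_lit 76) (nat_lit 0) (XT.lf (nat_lit 0) (nat_lit 187724029446) (nat_lit 152) (nat_lit 5938532400) (nat_lit 0) (nat_lit 52559163402) (nat_lit 10) (nat_lit 5) (nat_lit 12) (nat_lit 4) (nat_lit 10) (nat_lit 4) (nat_lit 327) (nat_lit 281) (nat_lit 172)) (XT.lf (nat_lit 0) (nat_lit 76690236309) (nat_lit 76) (nat_lit 161035366894)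 (nat_lit 76) (nat_lit 25868223449) (nat_lit 9) (nat_lit 4) (nat_lit 10) (nat_lit 5) (nat_lit 10) (nat_lit 4) (nat_lit 328) (nat_lit 281) (nat_lit 171))))))) (XT.nd (nat_lit 780) (nat_lit 152) (nat_lit 0) (XT.nd (nat_lit 390) (nat_lit 76) (nat_lit 0) (XT.nd (nat_lit 156) (nat_lit 76) (nat_lit 0) (XT.nd (nat_lit 78) (nat_lit 0) (nat_lit 0) (XT.lf (nat_lit 0) (nat_lit 9175283903) (nat_lit 152) (nat_lit 116359920148) (nat_lit 76) (nat_lit 156807996009) (nat_lit 8) (nat_lit 5) (nat_lit 10) (nat_lit 5) (nat_lit 9) (nat_lit 4) (nat_lit 329) (nat_lit 281) (nat_lit 170)) (XT.lf (nat_lit 0) (nat_lit 46126689643) (nat_lit 152) (nat_lit 40611490886) (nat_lit 76) (nat_lit 215832604655) (nat_lit 8) (nat_lit 5) (nat_lit 10) (nat_lit 5) (nat_lit 9) (nat_lit 4) (nat_lit 330) (nat_lit 281) (nat_lit 169))) (XT.nd (nat_lit 78) (nat_lit 0) (nat_lit 0) (XT.lf (nat_lit 0) (nat_lit 42556527128) (nat_lit 76)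 (nat_lit 44140809289) (nat_lit 152) (nat_lit 237686085214) (nat_lit 7) (nat_lit 5) (nat_lit 8) (nat_lit 5) (nat_lit 9) (nat_lit 4) (nat_lit 331) (nat_lit 281) (nat_lit 168)) (XT.nd (nat_lit 78) (nat_lit 0) (nat_lit 0) (XT.lf (nat_lit 0) (nat_lit 131260512701) (nat_lit 152) (nat_lit 214120497232) (nat_lit 0) (nat_lit 2522716048) (nat_lit 7) (nat_lit 5) (nat_lit 9) (nat_lit 4) (nat_lit 7) (nat_lit 4) (nat_lit 332) (nat_lit 281) (nat_lit 167)) (XT.lf (nat_lit 0) (nat_lit 180131877482) (nat_lit 152) (nat_lit 141744016611) (nat_lit 0) (nat_lit 51392604676) (nat_lit 7) (nat_lit 5) (nat_lit 9) (nat_lit 4) (nat_lit 7) (nat_lit 4) (nat_lit 333) (nat_lit 281) (nat_lit 166))))) (XT.nd (nat_lit 156) (nat_lit 0) (nat_lit 0) (XT.nd (nat_lit 78) (nat_lit 76) (nat_lit 0) (XT.lf (nat_lit 0) (nat_lit 232911877110) (nat_lit 152) (nat_lit 63579393240) (nat_lit 0) (nat_lit 104171237495) (nat_lit 7) (nat_lit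 5) (nat_lit 9) (nat_lit 4) (nat_lit 7) (nat_lit 4) (nat_lit 334) (nat_lit 281) (nat_lit 165)) (XT.lf (nat_lit 0) (nat_lit 21525521774) (nat_lit 76) (nat_lit 268723833900) (nat_lit 76) (nat_lit 139981928722) (nat_lit 6) (nat_lit 4) (nat_lit 7) (nat_lit 5) (nat_lit 7) (nat_lit 4) (nat_lit 335) (nat_lit 281) (nat_lit 164))) (XT.nd (nat_lit 78) (nat_lit 0) (nat_lit 0) (XT.lf (nat_lit 0) (nat_lit 115707479762) (nat_lit 76) (nat_lit 237572916383) (nat_lit 76) (nat_lit 108829839386) (nat_lit 6) (nat_lit 4) (nat_lit 7) (nat_lit 5) (nat_lit 7) (nat_lit 4) (nat_lit 336) (nat_lit 281) (nat_lit 163)) (XT.nd (nat_lit 78) (nat_lit 0) (nat_lit 0) (XT.lf (nat_lit 0) (nat_lit 217422374158) (nat_lit 76) (nat_lit 203930667557) (nat_lit 76) (nat_lit 75186505544) (nat_lit 6) (nat_lit 4) (nat_lit 7) (nat_lit 5) (nat_lit 7) (nat_lit 4) (nat_lit 337) (nat_lit 281) (nat_lit 162)) (XT.lf (nat_lit 0) (nat_lit 327272959891)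 (nat_lit 76) (nat_lit 167597725949) (nat_lit 76) (nat_lit 38852559292) (nat_lit 6) (nat_lit 4) (nat_lit 7) (nat_lit 5) (nat_lit 7) (nat_lit 4) (nat_lit 338) (nat_lit 281) (nat_lit 161)))))) (XT.nd (nat_lit 390) (nat_lit 0) (nat_lit 0) (XT.nd (nat_lit 156) (nat_lit 76) (nat_lit 0) (XT.nd (nat_lit 78) (nat_lit 0) (nat_lit 0) (XT.lf (nat_lit 0) (nat_lit 374915254) (nat_lit 152) (nat_lit 127977520613) (nat_lit 76) (nat_lit 445528938770) (nat_lit 5) (nat_lit 5) (nat_lit 7) (nat_lit 5) (nat_lit 6) (nat_lit 4) (nat_lit 339) (nat_lit 281) (nat_lit 160)) (XT.lf (nat_lit 0) (nat_lit 41396872285) (nat_lit 152) (nat_lit 43883370021) (nat_lit 76) (nat_lit 531939191839) (nat_lit 5) (nat_lit 5) (nat_lit 7) (nat_lit 5) (nat_lit 6) (nat_lit 4) (nat_lit 340) (nat_lit 281) (nat_lit 159))) (XT.nd (nat_lit 78) (nat_lit 0) (nat_lit 0) (XT.lf (nat_lit 0) (nat_lit 48489052063) (nat_lit 76) (nat_lit 37967927345)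 (nat_lit 152) (nat_lit 577529739745) (nat_lit 4) (nat_lit 5) (nat_lit 5) (nat_lit 5) (nat_lit 6) (nat_lit 4) (nat_lit 341) (nat_lit 281) (nat_lit 158)) (XT.nd (nat_lit 78) (nat_lit 0) (nat_lit 0) (XT.lf (nat_lit 0) (nat_lit 136103198582) (nat_lit 152) (nat_lit 564857538505) (nat_lit 0) (nat_lit 13485585087) (nat_lit 4) (nat_lit 5) (nat_lit 6) (nat_lit 4) (nat_lit 4) (nat_lit 4) (nat_lit 342) (nat_lit 281) (nat_lit 157)) (XT.lf (nat_lit 0) (nat_lit 190360736590) (nat_lit 152) (nat_lit 510807504229) (nat_lit 0) (nat_lit 67742471910) (nat_lit 4) (nat_lit 5) (nat_lit 6) (nat_lit 4) (nat_lit 4) (nat_lit 4) (nat_lit 343) (nat_lit 281) (nat_lit 156))))) (XT.nd (nat_lit 35880) (nat_lit 0) (nat_lit 5852) (XT.nd (nat_lit 35802) (nat_lit 0) (nat_lit 5852) (XT.lf (nat_lit 0) (nat_lit 248958333834) (nat_lit 152) (nat_lit 452434482012) (nat_lit 0) (nat_lit 126339466204) (nat_lit 4) (nat_lit 5) (nat_lit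 6) (nat_lit 4) (nat_lit 4) (nat_lit 4) (nat_lit 344) (nat_lit 281) (nat_lit 155)) (XT.lf (nat_lit 0) (nat_lit 3203768682) (nat_lit 0) (nat_lit 3203768682) (nat_lit 684) (nat_lit 4771737057) (nat_lit 81) (nat_lit 5) (nat_lit 81) (nat_lit 3) (nat_lit 90) (nat_lit 3) (nat_lit 282) (nat_lit 282) (nat_lit 216))) (XT.nd (nat_lit 78) (nat_lit 0) (nat_lit 76) (XT.lf (nat_lit 0) (nat_lit 13667939354) (nat_lit 684) (nat_lit 360305050) (nat_lit 760) (nat_lit 9207128418) (nat_lit 81) (nat_lit 5) (nat_lit 90) (nat_lit 3) (nat_lit 91) (nat_lit 5) (nat_lit 283) (nat_lit 282) (nat_lit 215)) (XT.nd (nat_lit 78) (nat_lit 0) (nat_lit 0) (XT.lf (nat_lit 0) (nat_lit 14972460950) (nat_lit 684) (nat_lit 7295557169) (nat_lit 760) (nat_lit 1895203724) (nat_lit 82) (nat_lit 5) (nat_lit 91) (nat_lit 5) (nat_lit 92) (nat_lit 5) (nat_lit 284) (nat_lit 282) (nat_lit 214)) (XT.lf (nat_lit 76) (nat_lit 10406854981)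 (nat_lit 0) (nat_lit 6362221617) (nat_lit 760) (nat_lit 8376882343) (nat_lit 83) (nat_lit 5) (nat_lit 82) (nat_lit 5) (nat_lit 92) (nat_lit 5) (nat_lit 285) (nat_lit 282) (nat_lit 213))))))))
noncomputable def xc89 : XT := (XT.nd (nat_lit 1560) (nat_lit 1520) (nat_lit 0) (XT.nd (nat_lit 780) (nat_lit 1976) (nat_lit 0) (XT.nd (nat_lit 390) (nat_lit 988) (nat_lit 0) (XT.nd (nat_lit 156) (nat_lit 988) (nat_lit 0) (XT.nd (nat_lit 78) (nat_lit 0) (nat_lit 76) (XT.lf (nat_lit 76) (nat_lit 3514759706) (nat_lit 0) (nat_lit 15531132335) (nat_lit 760) (nat_lit 7144642746) (nat_lit 84) (nat_lit 5) (nat_lit 83) (nat_lit 5) (nat_lit 93) (nat_lit 5) (nat_lit 286) (nat_lit 282) (nat_lit 212)) (XT.lf (nat_lit 0) (nat_lit 21879560295) (nat_lit 684) (nat_lit 3696040169) (nat_lit 760) (nat_lit 1724380957) (nat_lit 84) (nat_lit 5) (nat_lit 93) (nat_lit 5) (nat_lit 94) (nat_lit 5) (nat_lit 287) (nat_lit 282)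 (nat_lit 211))) (XT.nd (nat_lit 78) (nat_lit 1064) (nat_lit 0) (XT.lf (nat_lit 76) (nat_lit 17075447303) (nat_lit 0) (nat_lit 8378754535) (nat_lit 760) (nat_lit 3018305085) (nat_lit 85) (nat_lit 5) (nat_lit 84) (nat_lit 5) (nat_lit 94) (nat_lit 5) (nat_lit 288) (nat_lit 282) (nat_lit 210)) (XT.nd (nat_lit 78) (nat_lit 456) (nat_lit 0) (XT.lf (nat_lit 0) (nat_lit 10055125576) (nat_lit 684) (nat_lit 19627994520) (nat_lit 760) (nat_lit 37333479) (nat_lit 76) (nat_lit 5) (nat_lit 85) (nat_lit 5) (nat_lit 86) (nat_lit 5) (nat_lit 289) (nat_lit 282) (nat_lit 209)) (XT.lf (nat_lit 0) (nat_lit 2444726448) (nat_lit 380) (nat_lit 1004076474) (nat_lit 456) (nat_lit 27598552534) (nat_lit 70) (nat_lit 5) (nat_lit 75) (nat_lit 5) (nat_lit 76) (nat_lit 5) (nat_lit 290) (nat_lit 282) (nat_lit 208))))) (XT.nd (nat_lit 156) (nat_lit 608) (nat_lit 0) (XT.nd (nat_lit 78) (nat_lit 380) (nat_lit 0) (XT.lf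 (nat_lit 0) (nat_lit 7847154643) (nat_lit 456) (nat_lit 5753661349) (nat_lit 76) (nat_lit 18847859344) (nat_lit 70) (nat_lit 5) (nat_lit 76) (nat_lit 5) (nat_lit 71) (nat_lit 5) (nat_lit 291) (nat_lit 282) (nat_lit 207)) (XT.lf (nat_lit 0) (nat_lit 13011275819) (nat_lit 456) (nat_lit 14529510277) (nat_lit 76) (nat_lit 6400645637) (nat_lit 65) (nat_lit 5) (nat_lit 71) (nat_lit 5) (nat_lit 66) (nat_lit 5) (nat_lit 292) (nat_lit 282) (nat_lit 206))) (XT.nd (nat_lit 78) (nat_lit 304) (nat_lit 0) (XT.lf (nat_lit 0) (nat_lit 11369716010) (nat_lit 304) (nat_lit 7717152398) (nat_lit 380) (nat_lit 16441847213) (nat_lit 61) (nat_lit 5) (nat_lit 65) (nat_lit 5) (nat_lit 66) (nat_lit 5) (nat_lit 293) (nat_lit 282) (nat_lit 205)) (XT.nd (nat_lit 78) (nat_lit 0) (nat_lit 0) (XT.lf (nat_lit 0) (nat_lit 2479992589) (nat_lit 304) (nat_lit 23668479098) (nat_lit 380) (nat_lit 11069534654) (nat_lit 57) (nat_lit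 5) (nat_lit 61) (nat_lit 5) (nat_lit 62) (nat_lit 5) (nat_lit 294) (nat_lit 282) (nat_lit 204)) (XT.lf (nat_lit 0) (nat_lit 31968003843) (nat_lit 304) (nat_lit 2346645702) (nat_lit 380) (nat_lit 4700829089) (nat_lit 57) (nat_lit 5) (nat_lit 61) (nat_lit 5) (nat_lit 62) (nat_lit 5) (nat_lit 295) (nat_lit 282) (nat_lit 203)))))) (XT.nd (nat_lit 390) (nat_lit 912) (nat_lit 0) (XT.nd (nat_lit 156) (nat_lit 456) (nat_lit 0) (XT.nd (nat_lit 78) (nat_lit 304) (nat_lit 0) (XT.lf (nat_lit 0) (nat_lit 2796425113) (nat_lit 304) (nat_lit 17697820552) (nat_lit 76) (nat_lit 20426384410) (nat_lit 53) (nat_lit 5) (nat_lit 57) (nat_lit 5) (nat_lit 54) (nat_lit 5) (nat_lit 296) (nat_lit 282) (nat_lit 202)) (XT.lf (nat_lit 0) (nat_lit 11135234392) (nat_lit 380) (nat_lit 29497815821) (nat_lit 76) (nat_lit 2320983681) (nat_lit 49) (nat_lit 5) (nat_lit 54) (nat_lit 5) (nat_lit 50) (nat_lit 5) (nat_lit 297)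 (nat_lit 282) (nat_lit 201))) (XT.nd (nat_lit 78) (nat_lit 228) (nat_lit 0) (XT.lf (nat_lit 0) (nat_lit 2313446993) (nat_lit 228) (nat_lit 18514948942) (nat_lit 304) (nat_lit 24287367307) (nat_lit 46) (nat_lit 5) (nat_lit 49) (nat_lit 5) (nat_lit 50) (nat_lit 5) (nat_lit 298) (nat_lit 282) (nat_lit 200)) (XT.nd (nat_lit 78) (nat_lit 228) (nat_lit 0) (XT.lf (nat_lit 0) (nat_lit 31895764605) (nat_lit 304) (nat_lit 9803838913) (nat_lit 76) (nat_lit 5720904154) (nat_lit 46) (nat_lit 5) (nat_lit 50) (nat_lit 5) (nat_lit 47) (nat_lit 5) (nat_lit 299) (nat_lit 282) (nat_lit 199)) (XT.lf (nat_lit 0) (nat_lit 26356865127) (nat_lit 228) (nat_lit 18208521402) (nat_lit 304) (nat_lit 5308415313) (nat_lit 43) (nat_lit 5) (nat_lit 46) (nat_lit 5) (nat_lit 47) (nat_lit 5) (nat_lit 300) (nat_lit 282) (nat_lit 198))))) (XT.nd (nat_lit 156) (nat_lit 684) (nat_lit 0) (XT.nd (nat_lit 78) (nat_lit 0) (nat_lit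 0) (XT.lf (nat_lit 0) (nat_lit 6040546253) (nat_lit 228) (nat_lit 39040264166) (nat_lit 76) (nat_lit 7413163066) (nat_lit 40) (nat_lit 5) (nat_lit 43) (nat_lit 5) (nat_lit 41) (nat_lit 5) (nat_lit 301) (nat_lit 282) (nat_lit 197)) (XT.lf (nat_lit 0) (nat_lit 18831061042) (nat_lit 228) (nat_lit 1493518933) (nat_lit 76) (nat_lit 34958857780) (nat_lit 40) (nat_lit 5) (nat_lit 43) (nat_lit 5) (nat_lit 41) (nat_lit 5) (nat_lit 302) (nat_lit 282) (nat_lit 196))) (XT.nd (nat_lit 78) (nat_lit 456) (nat_lit 0) (XT.lf (nat_lit 0) (nat_lit 33379237694) (nat_lit 304) (nat_lit 18035299114) (nat_lit 76) (nat_lit 6844811434) (nat_lit 37) (nat_lit 5) (nat_lit 41) (nat_lit 5) (nat_lit 38) (nat_lit 5) (nat_lit 303) (nat_lit 282) (nat_lit 195)) (XT.nd (nat_lit 78) (nat_lit 304) (nat_lit 0) (XT.lf (nat_lit 0) (nat_lit 24286485512) (nat_lit 152) (nat_lit 25547588332) (nat_lit 228) (nat_lit 11602126820) (nat_lit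 35) (nat_lit 5) (nat_lit 37) (nat_lit 5) (nat_lit 38) (nat_lit 5) (nat_lit 304) (nat_lit 282) (nat_lit 194)) (XT.lf (nat_lit 0) (nat_lit 3101579407) (nat_lit 304) (nat_lit 58969174740) (nat_lit 76) (nat_lit 2771761921) (nat_lit 31) (nat_lit 5) (nat_lit 35) (nat_lit 5) (nat_lit 32) (nat_lit 5) (nat_lit 305) (nat_lit 282) (nat_lit 193))))))) (XT.nd (nat_lit 780) (nat_lit 532) (nat_lit 0) (XT.nd (nat_lit 390) (nat_lit 456) (nat_lit 0) (XT.nd (nat_lit 156) (nat_lit 380) (nat_lit 0) (XT.nd (nat_lit 78) (nat_lit 152) (nat_lit 0) (XT.lf (nat_lit 0) (nat_lit 19663953590) (nat_lit 304) (nat_lit 15468893347) (nat_lit 76) (nat_lit 33324544798) (nat_lit 31) (nat_lit 5) (nat_lit 35) (nat_lit 5) (nat_lit 32) (nat_lit 5) (nat_lit 306) (nat_lit 282) (nat_lit 192)) (XT.lf (nat_lit 0) (nat_lit 32545917554) (nat_lit 152) (nat_lit 5508817901) (nat_lit 228) (nat_lit 34281558192) (nat_lit 29) (nat_lit 5) (nat_lit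 31) (nat_lit 5) (nat_lit 32) (nat_lit 5) (nat_lit 307) (nat_lit 282) (nat_lit 191))) (XT.nd (nat_lit 78) (nat_lit 228) (nat_lit 0) (XT.lf (nat_lit 0) (nat_lit 8282383987) (nat_lit 152) (nat_lit 50446579603) (nat_lit 228) (nat_lit 17755941489) (nat_lit 27) (nat_lit 5) (nat_lit 29) (nat_lit 5) (nat_lit 30) (nat_lit 5) (nat_lit 308) (nat_lit 282) (nat_lit 190)) (XT.nd (nat_lit 78) (nat_lit 152) (nat_lit 0) (XT.lf (nat_lit 0) (nat_lit 881805501) (nat_lit 228) (nat_lit 19421457222) (nat_lit 76) (nat_lit 60622426043) (nat_lit 26) (nat_lit 5) (nat_lit 29) (nat_lit 5) (nat_lit 27) (nat_lit 5) (nat_lit 309) (nat_lit 282) (nat_lit 189)) (XT.lf (nat_lit 0) (nat_lit 21129192078) (nat_lit 228) (nat_lit 51839262430) (nat_lit 76) (nat_lit 12701696864) (nat_lit 24) (nat_lit 5) (nat_lit 27) (nat_lit 5) (nat_lit 25) (nat_lit 5) (nat_lit 310) (nat_lit 282) (nat_lit 188))))) (XT.nd (nat_lit 156) (nat_lit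 304) (nat_lit 0) (XT.nd (nat_lit 78) (nat_lit 0) (nat_lit 0) (XT.lf (nat_lit 0) (nat_lit 935482232) (nat_lit 152) (nat_lit 42757831752) (nat_lit 228) (nat_lit 47066014738) (nat_lit 22) (nat_lit 5) (nat_lit 24) (nat_lit 5) (nat_lit 25) (nat_lit 5) (nat_lit 311) (nat_lit 282) (nat_lit 187)) (XT.lf (nat_lit 0) (nat_lit 59777377899) (nat_lit 152) (nat_lit 9184520604) (nat_lit 228) (nat_lit 27248779700) (nat_lit 22) (nat_lit 5) (nat_lit 24) (nat_lit 5) (nat_lit 25) (nat_lit 5) (nat_lit 312) (nat_lit 282) (nat_lit 186))) (XT.nd (nat_lit 78) (nat_lit 228) (nat_lit 0) (XT.lf (nat_lit 0) (nat_lit 21487834345) (nat_lit 76) (nat_lit 75518896964) (nat_lit 152) (nat_lit 5053670506) (nat_lit 21) (nat_lit 5) (nat_lit 22) (nat_lit 5) (nat_lit 23) (nat_lit 4) (nat_lit 313) (nat_lit 282) (nat_lit 185)) (XT.nd (nat_lit 78) (nat_lit 152) (nat_lit 0) (XT.lf (nat_lit 0) (nat_lit 19108177265) (nat_lit 152)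 (nat_lit 23468865105) (nat_lit 76) (nat_lit 65746467611) (nat_lit 20) (nat_lit 5) (nat_lit 22) (nat_lit 5) (nat_lit 21) (nat_lit 5) (nat_lit 314) (nat_lit 282) (nat_lit 184)) (XT.lf (nat_lit 0) (nat_lit 39372956058) (nat_lit 152) (nat_lit 6266973300) (nat_lit 228) (nat_lit 69412897934) (nat_lit 18) (nat_lit 5) (nat_lit 20) (nat_lit 5) (nat_lit 21) (nat_lit 5) (nat_lit 315) (nat_lit 282) (nat_lit 183)))))) (XT.nd (nat_lit 390) (nat_lit 228) (nat_lit 0) (XT.nd (nat_lit 156) (nat_lit 228) (nat_lit 0) (XT.nd (nat_lit 78) (nat_lit 76) (nat_lit 0) (XT.lf (nat_lit 0) (nat_lit 75221188224) (nat_lit 228) (nat_lit 14746010334) (nat_lit 76) (nat_lit 32306946308) (nat_lit 18) (nat_lit 5) (nat_lit 21) (nat_lit 5) (nat_lit 19) (nat_lit 4) (nat_lit 316) (nat_lit 282) (nat_lit 182)) (XT.lf (nat_lit 0) (nat_lit 52636932025) (nat_lit 76) (nat_lit 55456760637) (nat_lit 152) (nat_lit 21933240917) (nat_lit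 17) (nat_lit 5) (nat_lit 18) (nat_lit 5) (nat_lit 19) (nat_lit 4) (nat_lit 317) (nat_lit 282) (nat_lit 181))) (XT.nd (nat_lit 78) (nat_lit 152) (nat_lit 0) (XT.lf (nat_lit 0) (nat_lit 5288172835) (nat_lit 152) (nat_lit 12539905732) (nat_lit 76) (nat_lit 120554891852) (nat_lit 16) (nat_lit 5) (nat_lit 18) (nat_lit 5) (nat_lit 17) (nat_lit 5) (nat_lit 318) (nat_lit 282) (nat_lit 180)) (XT.nd (nat_lit 78) (nat_lit 0) (nat_lit 0) (XT.lf (nat_lit 0) (nat_lit 35225324064) (nat_lit 228) (nat_lit 88707407391) (nat_lit 76) (nat_lit 23391460199) (nat_lit 14) (nat_lit 5) (nat_lit 17) (nat_lit 5) (nat_lit 15) (nat_lit 4) (nat_lit 319) (nat_lit 282) (nat_lit 179)) (XT.lf (nat_lit 0) (nat_lit 68077717943) (nat_lit 228) (nat_lit 21364303070) (nat_lit 76) (nat_lit 67512678296) (nat_lit 14) (nat_lit 5) (nat_lit 17) (nat_lit 5) (nat_lit 15) (nat_lit 4) (nat_lit 320) (nat_lit 282) (nat_lit 178))))) (XT.nd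 (nat_lit 156) (nat_lit 152) (nat_lit 0) (XT.nd (nat_lit 78) (nat_lit 0) (nat_lit 0) (XT.lf (nat_lit 0) (nat_lit 53060704170) (nat_lit 76) (nat_lit 51323838952) (nat_lit 152) (nat_lit 62929794545) (nat_lit 13) (nat_lit 5) (nat_lit 14) (nat_lit 5) (nat_lit 15) (nat_lit 4) (nat_lit 321) (nat_lit 282) (nat_lit 177)) (XT.lf (nat_lit 0) (nat_lit 134198971014) (nat_lit 76) (nat_lit 9767014100) (nat_lit 152) (nat_lit 34518260368) (nat_lit 13) (nat_lit 5) (nat_lit 14) (nat_lit 5) (nat_lit 15) (nat_lit 4) (nat_lit 322) (nat_lit 282) (nat_lit 176))) (XT.nd (nat_lit 78) (nat_lit 76) (nat_lit 0) (XT.lf (nat_lit 0) (nat_lit 31744896546) (nat_lit 76) (nat_lit 156010956127) (nat_lit 76) (nat_lit 2739799523) (nat_lit 12) (nat_lit 4) (nat_lit 13) (nat_lit 5) (nat_lit 13) (nat_lit 4) (nat_lit 323) (nat_lit 282) (nat_lit 175)) (XT.nd (nat_lit 78) (nat_lit 0) (nat_lit 0) (XT.lf (nat_lit 0) (nat_lit 31517018443)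 (nat_lit 152) (nat_lit 88664281107) (nat_lit 76) (nat_lit 83214676749) (nat_lit 11) (nat_lit 5) (nat_lit 13) (nat_lit 5) (nat_lit 12) (nat_lit 4) (nat_lit 324) (nat_lit 282) (nat_lit 174)) (XT.lf (nat_lit 0) (nat_lit 68417926499) (nat_lit 152) (nat_lit 13020208770) (nat_lit 76) (nat_lit 135887970086) (nat_lit 11) (nat_lit 5) (nat_lit 13) (nat_lit 5) (nat_lit 12) (nat_lit 4) (nat_lit 325) (nat_lit 282) (nat_lit 173))))))))
noncomputable def xc90 : XT := (XT.nd (nat_lit 37362) (nat_lit 0) (nat_lit 2736) (XT.nd (nat_lit 780) (nat_lit 228) (nat_lit 0) (XT.nd (nat_lit 390) (nat_lit 76) (nat_lit 0) (XT.nd (nat_lit 156) (nat_lit 152) (nat_lit 0) (XT.nd (nat_lit 78) (nat_lit 0) (nat_lit 0) (XT.lf (nat_lit 0) (nat_lit 70943121411) (nat_lit 76) (nat_lit 38433786919) (nat_lit 152) (nat_lit 122938437699) (nat_lit 10) (nat_lit 5) (nat_lit 11) (nat_lit 5) (nat_lit 12) (nat_lit 4) (nat_lit 326) (nat_lit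 282) (nat_lit 172)) (XT.lf (nat_lit 0) (nat_lit 153966641100) (nat_lit 152) (nat_lit 86535535708) (nat_lit 0) (nat_lit 7983848778) (nat_lit 10) (nat_lit 5) (nat_lit 12) (nat_lit 4) (nat_lit 10) (nat_lit 4) (nat_lit 327) (nat_lit 282) (nat_lit 171))) (XT.nd (nat_lit 78) (nat_lit 152) (nat_lit 0) (XT.lf (nat_lit 0) (nat_lit 202770169973) (nat_lit 152) (nat_lit 6362590872) (nat_lit 0) (nat_lit 56785268946) (nat_lit 10) (nat_lit 5) (nat_lit 12) (nat_lit 4) (nat_lit 10) (nat_lit 4) (nat_lit 328) (nat_lit 282) (nat_lit 170)) (XT.nd (nat_lit 78) (nat_lit 76) (nat_lit 0) (XT.lf (nat_lit 0) (nat_lit 82874261887) (nat_lit 76) (nat_lit 173896279517) (nat_lit 76) (nat_lit 27909425986) (nat_lit 9) (nat_lit 4) (nat_lit 10) (nat_lit 5) (nat_lit 10) (nat_lit 4) (nat_lit 329) (nat_lit 282) (nat_lit 169)) (XT.lf (nat_lit 0) (nat_lit 9934631607) (nat_lit 152) (nat_lit 125622666610) (nat_lit 76) (nat_lit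 169372073172) (nat_lit 8) (nat_lit 5) (nat_lit 10) (nat_lit 5) (nat_lit 9) (nat_lit 4) (nat_lit 330) (nat_lit 282) (nat_lit 168))))) (XT.nd (nat_lit 156) (nat_lit 0) (nat_lit 0) (XT.nd (nat_lit 78) (nat_lit 76) (nat_lit 0) (XT.lf (nat_lit 0) (nat_lit 49840273881) (nat_lit 152) (nat_lit 43817773906) (nat_lit 76) (nat_lit 233117210695) (nat_lit 8) (nat_lit 5) (nat_lit 10) (nat_lit 5) (nat_lit 9) (nat_lit 4) (nat_lit 331) (nat_lit 282) (nat_lit 167)) (XT.lf (nat_lit 0) (nat_lit 46001832629) (nat_lit 76) (nat_lit 47653639542) (nat_lit 152) (nat_lit 256677489950) (nat_lit 7) (nat_lit 5) (nat_lit 8) (nat_lit 5) (nat_lit 9) (nat_lit 4) (nat_lit 332) (nat_lit 282) (nat_lit 166))) (XT.nd (nat_lit 78) (nat_lit 0) (nat_lit 0) (XT.lf (nat_lit 0) (nat_lit 141782313583) (nat_lit 152) (nat_lit 231211591865) (nat_lit 0) (nat_lit 2741055990) (nat_lit 7) (nat_lit 5) (nat_lit 9) (nat_lit 4) (nat_lit 7)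 (nat_lit 4) (nat_lit 333) (nat_lit 282) (nat_lit 165)) (XT.nd (nat_lit 78) (nat_lit 0) (nat_lit 0) (XT.lf (nat_lit 0) (nat_lit 194561834964) (nat_lit 152) (nat_lit 153047847990) (nat_lit 0) (nat_lit 55519311808) (nat_lit 7) (nat_lit 5) (nat_lit 9) (nat_lit 4) (nat_lit 7) (nat_lit 4) (nat_lit 334) (nat_lit 282) (nat_lit 164)) (XT.lf (nat_lit 0) (nat_lit 251562796986) (nat_lit 152) (nat_lit 68632698450) (nat_lit 0) (nat_lit 112519102012) (nat_lit 7) (nat_lit 5) (nat_lit 9) (nat_lit 4) (nat_lit 7) (nat_lit 4) (nat_lit 335) (nat_lit 282) (nat_lit 163)))))) (XT.nd (nat_lit 390) (nat_lit 76) (nat_lit 0) (XT.nd (nat_lit 156) (nat_lit 76) (nat_lit 0) (XT.nd (nat_lit 78) (nat_lit 0) (nat_lit 0) (XT.lf (nat_lit 0) (nat_lit 23279173615) (nat_lit 76) (nat_lit 290207262652) (nat_lit 76) (nat_lit 151162482661) (nat_lit 6) (nat_lit 4) (nat_lit 7) (nat_lit 5) (nat_lit 7) (nat_lit 4) (nat_lit 336) (nat_lit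 282) (nat_lit 162)) (XT.lf (nat_lit 0) (nat_lit 124993346754) (nat_lit 76) (nat_lit 256565344174) (nat_lit 76) (nat_lit 117519559539) (nat_lit 6) (nat_lit 4) (nat_lit 7) (nat_lit 5) (nat_lit 7) (nat_lit 4) (nat_lit 337) (nat_lit 282) (nat_lit 161))) (XT.nd (nat_lit 78) (nat_lit 76) (nat_lit 0) (XT.lf (nat_lit 0) (nat_lit 234843264657) (nat_lit 76) (nat_lit 220232708444) (nat_lit 76) (nat_lit 81185993582) (nat_lit 6) (nat_lit 4) (nat_lit 7) (nat_lit 5) (nat_lit 7) (nat_lit 4) (nat_lit 338) (nat_lit 282) (nat_lit 160)) (XT.nd (nat_lit 78) (nat_lit 76) (nat_lit 0) (XT.lf (nat_lit 0) (nat_lit 353479889799) (nat_lit 76) (nat_lit 180994050953) (nat_lit 76) (nat_lit 41946474770) (nat_lit 6) (nat_lit 4) (nat_lit 7) (nat_lit 5) (nat_lit 7) (nat_lit 4) (nat_lit 339) (nat_lit 282) (nat_lit 159)) (XT.lf (nat_lit 0) (nat_lit 417715807) (nat_lit 152) (nat_lit 138192056298) (nat_lit 76) (nat_lit 481181464008)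 (nat_lit 5) (nat_lit 5) (nat_lit 7) (nat_lit 5) (nat_lit 6) (nat_lit 4) (nat_lit 340) (nat_lit 282) (nat_lit 158))))) (XT.nd (nat_lit 156) (nat_lit 0) (nat_lit 0) (XT.nd (nat_lit 78) (nat_lit 76) (nat_lit 0) (XT.lf (nat_lit 0) (nat_lit 44720480709) (nat_lit 152) (nat_lit 47372126693) (nat_lit 76) (nat_lit 574503781016) (nat_lit 5) (nat_lit 5) (nat_lit 7) (nat_lit 5) (nat_lit 6) (nat_lit 4) (nat_lit 341) (nat_lit 282) (nat_lit 157)) (XT.lf (nat_lit 0) (nat_lit 52389136849) (nat_lit 76) (nat_lit 40995708390) (nat_lit 152) (nat_lit 623720239104) (nat_lit 4) (nat_lit 5) (nat_lit 5) (nat_lit 5) (nat_lit 6) (nat_lit 4) (nat_lit 342) (nat_lit 282) (nat_lit 156))) (XT.nd (nat_lit 78) (nat_lit 0) (nat_lit 0) (XT.lf (nat_lit 0) (nat_lit 147002063904) (nat_lit 152) (nat_lit 610026343205) (nat_lit 0) (nat_lit 14573083915) (nat_lit 4) (nat_lit 5) (nat_lit 6) (nat_lit 4) (nat_lit 4) (nat_lit 4) (nat_lit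 343) (nat_lit 282) (nat_lit 155)) (XT.nd (nat_lit 35880) (nat_lit 0) (nat_lit 5852) (XT.lf (nat_lit 0) (nat_lit 205599419069) (nat_lit 152) (nat_lit 551653772733) (nat_lit 0) (nat_lit 73169880793) (nat_lit 4) (nat_lit 5) (nat_lit 6) (nat_lit 4) (nat_lit 4) (nat_lit 4) (nat_lit 344) (nat_lit 282) (nat_lit 154)) (XT.lf (nat_lit 0) (nat_lit 3553644047) (nat_lit 0) (nat_lit 3553644047) (nat_lit 684) (nat_lit 4956478143) (nat_lit 81) (nat_lit 5) (nat_lit 81) (nat_lit 3) (nat_lit 90) (nat_lit 3) (nat_lit 283) (nat_lit 283) (nat_lit 214))))))) (XT.nd (nat_lit 780) (nat_lit 1900) (nat_lit 0) (XT.nd (nat_lit 390) (nat_lit 1216) (nat_lit 0) (XT.nd (nat_lit 156) (nat_lit 0) (nat_lit 76) (XT.nd (nat_lit 78) (nat_lit 0) (nat_lit 76) (XT.lf (nat_lit 0) (nat_lit 15105238930) (nat_lit 684) (nat_lit 194898049) (nat_lit 760) (nat_lit 9775959947) (nat_lit 81) (nat_lit 5) (nat_lit 90) (nat_lit 3) (nat_lit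 91) (nat_lit 5) (nat_lit 284) (nat_lit 283) (nat_lit 213)) (XT.lf (nat_lit 0) (nat_lit 16489435935) (nat_lit 684) (nat_lit 7674386217) (nat_lit 760) (nat_lit 1915653625) (nat_lit 82) (nat_lit 5) (nat_lit 91) (nat_lit 5) (nat_lit 92) (nat_lit 5) (nat_lit 285) (nat_lit 283) (nat_lit 212))) (XT.nd (nat_lit 78) (nat_lit 0) (nat_lit 76) (XT.lf (nat_lit 76) (nat_lit 11435317871) (nat_lit 0) (nat_lit 6973878915) (nat_lit 760) (nat_lit 8732726845) (nat_lit 83) (nat_lit 5) (nat_lit 82) (nat_lit 5) (nat_lit 92) (nat_lit 5) (nat_lit 286) (nat_lit 283) (nat_lit 211)) (XT.nd (nat_lit 78) (nat_lit 0) (nat_lit 76) (XT.lf (nat_lit 76) (nat_lit 3999903416) (nat_lit 0) (nat_lit 16847836036) (nat_lit 760) (nat_lit 7423404942) (nat_lit 84) (nat_lit 5) (nat_lit 83) (nat_lit 5) (nat_lit 93) (nat_lit 5) (nat_lit 287) (nat_lit 283) (nat_lit 210)) (XT.lf (nat_lit 0) (nat_lit 23886422686) (nat_lit 684) (nat_lit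 3788246732) (nat_lit 760) (nat_lit 1795814923) (nat_lit 84) (nat_lit 5) (nat_lit 93) (nat_lit 5) (nat_lit 94) (nat_lit 5) (nat_lit 288) (nat_lit 283) (nat_lit 209))))) (XT.nd (nat_lit 156) (nat_lit 760) (nat_lit 0) (XT.nd (nat_lit 78) (nat_lit 684) (nat_lit 0) (XT.lf (nat_lit 76) (nat_lit 18636116891) (nat_lit 0) (nat_lit 9094957621) (nat_lit 760) (nat_lit 3006585105) (nat_lit 85) (nat_lit 5) (nat_lit 84) (nat_lit 5) (nat_lit 94) (nat_lit 5) (nat_lit 289) (nat_lit 283) (nat_lit 208)) (XT.lf (nat_lit 0) (nat_lit 190379871) (nat_lit 760) (nat_lit 21030832786) (nat_lit 76) (nat_lit 10864890555) (nat_lit 75) (nat_lit 5) (nat_lit 85) (nat_lit 5) (nat_lit 76) (nat_lit 5) (nat_lit 290) (nat_lit 283) (nat_lit 207))) (XT.nd (nat_lit 78) (nat_lit 380) (nat_lit 0) (XT.lf (nat_lit 0) (nat_lit 2838396543) (nat_lit 380) (nat_lit 1101819617) (nat_lit 456) (nat_lit 29579645200) (nat_lit 70) (nat_lit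 5) (nat_lit 75) (nat_lit 5) (nat_lit 76) (nat_lit 5) (nat_lit 291) (nat_lit 283) (nat_lit 206)) (XT.nd (nat_lit 78) (nat_lit 380) (nat_lit 0) (XT.lf (nat_lit 0) (nat_lit 8674220603) (nat_lit 456) (nat_lit 6019837183) (nat_lit 76) (nat_lit 20340077377) (nat_lit 70) (nat_lit 5) (nat_lit 76) (nat_lit 5) (nat_lit 71) (nat_lit 5) (nat_lit 292) (nat_lit 283) (nat_lit 205)) (XT.lf (nat_lit 0) (nat_lit 14239580677) (nat_lit 456) (nat_lit 15496356562) (nat_lit 76) (nat_lit 6911004152) (nat_lit 65) (nat_lit 5) (nat_lit 71) (nat_lit 5) (nat_lit 66) (nat_lit 5) (nat_lit 293) (nat_lit 283) (nat_lit 204)))))) (XT.nd (nat_lit 390) (nat_lit 684) (nat_lit 0) (XT.nd (nat_lit 156) (nat_lit 608) (nat_lit 0) (XT.nd (nat_lit 78) (nat_lit 304) (nat_lit 0) (XT.lf (nat_lit 0) (nat_lit 12466311004) (nat_lit 304) (nat_lit 8323947852) (nat_lit 380) (nat_lit 17571529429) (nat_lit 61) (nat_lit 5) (nat_lit 65) (nat_lit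 5) (nat_lit 66) (nat_lit 5) (nat_lit 294) (nat_lit 283) (nat_lit 203)) (XT.lf (nat_lit 0) (nat_lit 2865947889) (nat_lit 304) (nat_lit 25540853979) (nat_lit 380) (nat_lit 11779949637) (nat_lit 57) (nat_lit 5) (nat_lit 61) (nat_lit 5) (nat_lit 62) (nat_lit 5) (nat_lit 295) (nat_lit 283) (nat_lit 202))) (XT.nd (nat_lit 78) (nat_lit 608) (nat_lit 0) (XT.lf (nat_lit 0) (nat_lit 34699107014) (nat_lit 304) (nat_lit 2514837130) (nat_lit 380) (nat_lit 4914721537) (nat_lit 57) (nat_lit 5) (nat_lit 61) (nat_lit 5) (nat_lit 62) (nat_lit 5) (nat_lit 296) (nat_lit 283) (nat_lit 201)) (XT.nd (nat_lit 78) (nat_lit 304) (nat_lit 0) (XT.lf (nat_lit 0) (nat_lit 3168534770) (nat_lit 304) (nat_lit 18934910021) (nat_lit 76) (nat_lit 22083111576) (nat_lit 53) (nat_lit 5) (nat_lit 57) (nat_lit 5) (nat_lit 54) (nat_lit 5) (nat_lit 297) (nat_lit 283) (nat_lit 200)) (XT.lf (nat_lit 0) (nat_lit 12166608190) (nat_lit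 380) (nat_lit 31679869517) (nat_lit 76) (nat_lit 2536569359) (nat_lit 49) (nat_lit 5) (nat_lit 54) (nat_lit 5) (nat_lit 50) (nat_lit 5) (nat_lit 298) (nat_lit 283) (nat_lit 199))))) (XT.nd (nat_lit 156) (nat_lit 456) (nat_lit 0) (XT.nd (nat_lit 78) (nat_lit 0) (nat_lit 0) (XT.lf (nat_lit 0) (nat_lit 2668568586) (nat_lit 228) (nat_lit 19958897477) (nat_lit 304) (nat_lit 26090657402) (nat_lit 46) (nat_lit 5) (nat_lit 49) (nat_lit 5) (nat_lit 50) (nat_lit 5) (nat_lit 299) (nat_lit 283) (nat_lit 198)) (XT.lf (nat_lit 0) (nat_lit 34570925763) (nat_lit 304) (nat_lit 10424844975) (nat_lit 76) (nat_lit 6211960961) (nat_lit 46) (nat_lit 5) (nat_lit 50) (nat_lit 5) (nat_lit 47) (nat_lit 5) (nat_lit 300) (nat_lit 283) (nat_lit 197))) (XT.nd (nat_lit 78) (nat_lit 228) (nat_lit 0) (XT.lf (nat_lit 0) (nat_lit 28621618523) (nat_lit 228) (nat_lit 19625789555) (nat_lit 304) (nat_lit 5610234687) (nat_lit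 43) (nat_lit 5) (nat_lit 46) (nat_lit 5) (nat_lit 47) (nat_lit 5) (nat_lit 301) (nat_lit 283) (nat_lit 196)) (XT.nd (nat_lit 78) (nat_lit 0) (nat_lit 0) (XT.lf (nat_lit 0) (nat_lit 6636935545) (nat_lit 228) (nat_lit 42004920083) (nat_lit 76) (nat_lit 8045781197) (nat_lit 40) (nat_lit 5) (nat_lit 43) (nat_lit 5) (nat_lit 41) (nat_lit 5) (nat_lit 302) (nat_lit 283) (nat_lit 195)) (XT.lf (nat_lit 0) (nat_lit 20442310362) (nat_lit 228) (nat_lit 1466180803) (nat_lit 76) (nat_lit 37792200741) (nat_lit 40) (nat_lit 5) (nat_lit 43) (nat_lit 5) (nat_lit 41) (nat_lit 5) (nat_lit 303) (nat_lit 283) (nat_lit 194))))))))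
noncomputable def xc91 : XT := (XT.nd (nat_lit 1560) (nat_lit 684) (nat_lit 0) (XT.nd (nat_lit 780) (nat_lit 684) (nat_lit 0) (XT.nd (nat_lit 390) (nat_lit 532) (nat_lit 0) (XT.nd (nat_lit 156) (nat_lit 456) (nat_lit 0) (XT.nd (nat_lit 78) (nat_lit 152) (nat_lit 0) (XT.lf (nat_lit 0) (nat_lit 36149417372) (nat_lit 304) (nat_lit 19333198953) (nat_lit 76) (nat_lit 7432318626) (nat_lit 37) (nat_lit 5) (nat_lit 41) (nat_lit 5) (nat_lit 38) (nat_lit 5) (nat_lit 304) (nat_lit 283) (nat_lit 193)) (XT.lf (nat_lit 0) (nat_lit 26368030218) (nat_lit 152) (nat_lit 27547378928) (nat_lit 228) (nat_lit 12430800509) (nat_lit 35) (nat_lit 5) (nat_lit 37) (nat_lit 5) (nat_lit 38) (nat_lit 5) (nat_lit 305) (nat_lit 283) (nat_lit 192))) (XT.nd (nat_lit 78) (nat_lit 152) (nat_lit 0) (XT.lf (nat_lit 0) (nat_lit 3441698204) (nat_lit 304) (nat_lit 63546910271) (nat_lit 76) (nat_lit 3036571168) (nat_lit 31) (nat_lit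 5) (nat_lit 35) (nat_lit 5) (nat_lit 32) (nat_lit 5) (nat_lit 306) (nat_lit 283) (nat_lit 191)) (XT.nd (nat_lit 78) (nat_lit 152) (nat_lit 0) (XT.lf (nat_lit 0) (nat_lit 21322248067) (nat_lit 304) (nat_lit 16576961807) (nat_lit 76) (nat_lit 36030386432) (nat_lit 31) (nat_lit 5) (nat_lit 35) (nat_lit 5) (nat_lit 32) (nat_lit 5) (nat_lit 307) (nat_lit 283) (nat_lit 190)) (XT.lf (nat_lit 0) (nat_lit 35273408530) (nat_lit 152) (nat_lit 5906507594) (nat_lit 228) (nat_lit 36939122535) (nat_lit 29) (nat_lit 5) (nat_lit 31) (nat_lit 5) (nat_lit 32) (nat_lit 5) (nat_lit 308) (nat_lit 283) (nat_lit 189))))) (XT.nd (nat_lit 156) (nat_lit 304) (nat_lit 0) (XT.nd (nat_lit 78) (nat_lit 76) (nat_lit 0) (XT.lf (nat_lit 0) (nat_lit 9066746665) (nat_lit 152) (nat_lit 54437873575) (nat_lit 228) (nat_lit 19095100650) (nat_lit 27) (nat_lit 5) (nat_lit 29) (nat_lit 5) (nat_lit 30) (nat_lit 5) (nat_lit 309)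 (nat_lit 283) (nat_lit 188)) (XT.lf (nat_lit 0) (nat_lit 1025232842) (nat_lit 228) (nat_lit 20859915484) (nat_lit 76) (nat_lit 65510854732) (nat_lit 26) (nat_lit 5) (nat_lit 29) (nat_lit 5) (nat_lit 27) (nat_lit 5) (nat_lit 310) (nat_lit 283) (nat_lit 187))) (XT.nd (nat_lit 78) (nat_lit 152) (nat_lit 0) (XT.lf (nat_lit 0) (nat_lit 22889373723) (nat_lit 228) (nat_lit 55873245125) (nat_lit 76) (nat_lit 13757562815) (nat_lit 24) (nat_lit 5) (nat_lit 27) (nat_lit 5) (nat_lit 25) (nat_lit 5) (nat_lit 311) (nat_lit 283) (nat_lit 186)) (XT.nd (nat_lit 78) (nat_lit 0) (nat_lit 0) (XT.lf (nat_lit 0) (nat_lit 1118561388) (nat_lit 152) (nat_lit 46136580134) (nat_lit 228) (nat_lit 50761532502) (nat_lit 22) (nat_lit 5) (nat_lit 24) (nat_lit 5) (nat_lit 25) (nat_lit 5) (nat_lit 312) (nat_lit 283) (nat_lit 185)) (XT.lf (nat_lit 0) (nat_lit 64659790887) (nat_lit 152) (nat_lit 9880506180) (nat_lit 228)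 (nat_lit 29364086322) (nat_lit 22) (nat_lit 5) (nat_lit 24) (nat_lit 5) (nat_lit 25) (nat_lit 5) (nat_lit 313) (nat_lit 283) (nat_lit 184)))))) (XT.nd (nat_lit 390) (nat_lit 304) (nat_lit 0) (XT.nd (nat_lit 156) (nat_lit 228) (nat_lit 0) (XT.nd (nat_lit 78) (nat_lit 76) (nat_lit 0) (XT.lf (nat_lit 0) (nat_lit 23305161413) (nat_lit 76) (nat_lit 81521098781) (nat_lit 152) (nat_lit 5395953196) (nat_lit 21) (nat_lit 5) (nat_lit 22) (nat_lit 5) (nat_lit 23) (nat_lit 4) (nat_lit 314) (nat_lit 283) (nat_lit 183)) (XT.lf (nat_lit 0) (nat_lit 20692411273) (nat_lit 152) (nat_lit 25253455123) (nat_lit 76) (nat_lit 71040682736) (nat_lit 20) (nat_lit 5) (nat_lit 22) (nat_lit 5) (nat_lit 21) (nat_lit 5) (nat_lit 315) (nat_lit 283) (nat_lit 182))) (XT.nd (nat_lit 78) (nat_lit 76) (nat_lit 0) (XT.lf (nat_lit 0) (nat_lit 42611673578) (nat_lit 152) (nat_lit 6732300612) (nat_lit 228) (nat_lit 74910378745)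 (nat_lit 18) (nat_lit 5) (nat_lit 20) (nat_lit 5) (nat_lit 21) (nat_lit 5) (nat_lit 316) (nat_lit 283) (nat_lit 181)) (XT.nd (nat_lit 78) (nat_lit 76) (nat_lit 0) (XT.lf (nat_lit 0) (nat_lit 81288339785) (nat_lit 228) (nat_lit 15841414275) (nat_lit 76) (nat_lit 34923795854) (nat_lit 18) (nat_lit 5) (nat_lit 21) (nat_lit 5) (nat_lit 19) (nat_lit 4) (nat_lit 317) (nat_lit 283) (nat_lit 180)) (XT.lf (nat_lit 0) (nat_lit 56928500902) (nat_lit 76) (nat_lit 59859738846) (nat_lit 152) (nat_lit 23638446195) (nat_lit 17) (nat_lit 5) (nat_lit 18) (nat_lit 5) (nat_lit 19) (nat_lit 4) (nat_lit 318) (nat_lit 283) (nat_lit 179))))) (XT.nd (nat_lit 156) (nat_lit 76) (nat_lit 0) (XT.nd (nat_lit 78) (nat_lit 152) (nat_lit 0) (XT.lf (nat_lit 0) (nat_lit 5755551809) (nat_lit 152) (nat_lit 13466945856) (nat_lit 76) (nat_lit 130228850270) (nat_lit 16) (nat_lit 5) (nat_lit 18) (nat_lit 5) (nat_lit 17) (nat_lit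 5) (nat_lit 319) (nat_lit 283) (nat_lit 178)) (XT.lf (nat_lit 0) (nat_lit 38086007820) (nat_lit 228) (nat_lit 95729486317) (nat_lit 76) (nat_lit 25292459347) (nat_lit 14) (nat_lit 5) (nat_lit 17) (nat_lit 5) (nat_lit 15) (nat_lit 4) (nat_lit 320) (nat_lit 283) (nat_lit 177))) (XT.nd (nat_lit 78) (nat_lit 76) (nat_lit 0) (XT.lf (nat_lit 0) (nat_lit 73563433369) (nat_lit 228) (nat_lit 23004453180) (nat_lit 76) (nat_lit 72941176201) (nat_lit 14) (nat_lit 5) (nat_lit 17) (nat_lit 5) (nat_lit 15) (nat_lit 4) (nat_lit 321) (nat_lit 283) (nat_lit 176)) (XT.nd (nat_lit 78) (nat_lit 0) (nat_lit 0) (XT.lf (nat_lit 0) (nat_lit 57371556238) (nat_lit 76) (nat_lit 55401352927) (nat_lit 152) (nat_lit 67924660568) (nat_lit 13) (nat_lit 5) (nat_lit 14) (nat_lit 5) (nat_lit 15) (nat_lit 4) (nat_lit 322) (nat_lit 283) (nat_lit 175)) (XT.lf (nat_lit 0) (nat_lit 144995995857) (nat_lit 76) (nat_lit 10522085282)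 (nat_lit 152) (nat_lit 37243130882) (nat_lit 13) (nat_lit 5) (nat_lit 14) (nat_lit 5) (nat_lit 15) (nat_lit 4) (nat_lit 323) (nat_lit 283) (nat_lit 174))))))) (XT.nd (nat_lit 780) (nat_lit 228) (nat_lit 0) (XT.nd (nat_lit 390) (nat_lit 228) (nat_lit 0) (XT.nd (nat_lit 156) (nat_lit 76) (nat_lit 0) (XT.nd (nat_lit 78) (nat_lit 76) (nat_lit 0) (XT.lf (nat_lit 0) (nat_lit 34344243209) (nat_lit 76) (nat_lit 168465628837) (nat_lit 76) (nat_lit 2923724917) (nat_lit 12) (nat_lit 4) (nat_lit 13) (nat_lit 5) (nat_lit 13) (nat_lit 4) (nat_lit 324) (nat_lit 283) (nat_lit 173)) (XT.lf (nat_lit 0) (nat_lit 34069981839) (nat_lit 152) (nat_lit 95701023722) (nat_lit 76) (nat_lit 89895042422) (nat_lit 11) (nat_lit 5) (nat_lit 13) (nat_lit 5) (nat_lit 12) (nat_lit 4) (nat_lit 325) (nat_lit 283) (nat_lit 172))) (XT.nd (nat_lit 78) (nat_lit 76) (nat_lit 0) (XT.lf (nat_lit 0) (nat_lit 73920621657) (nat_lit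 152) (nat_lit 14009603366) (nat_lit 76) (nat_lit 146780481335) (nat_lit 11) (nat_lit 5) (nat_lit 13) (nat_lit 5) (nat_lit 12) (nat_lit 4) (nat_lit 326) (nat_lit 283) (nat_lit 171)) (XT.nd (nat_lit 78) (nat_lit 0) (nat_lit 0) (XT.lf (nat_lit 0) (nat_lit 76668523720) (nat_lit 76) (nat_lit 41486410730) (nat_lit 152) (nat_lit 132744223020) (nat_lit 10) (nat_lit 5) (nat_lit 11) (nat_lit 5) (nat_lit 12) (nat_lit 4) (nat_lit 327) (nat_lit 283) (nat_lit 170)) (XT.lf (nat_lit 0) (nat_lit 166310100324) (nat_lit 152) (nat_lit 93411134010) (nat_lit 0) (nat_lit 8642346006) (nat_lit 10) (nat_lit 5) (nat_lit 12) (nat_lit 4) (nat_lit 10) (nat_lit 4) (nat_lit 328) (nat_lit 283) (nat_lit 169))))) (XT.nd (nat_lit 156) (nat_lit 152) (nat_lit 0) (XT.nd (nat_lit 78) (nat_lit 76) (nat_lit 0) (XT.lf (nat_lit 0) (nat_lit 219015976104) (nat_lit 152) (nat_lit 6827853183) (nat_lit 0) (nat_lit 61346413912) (nat_lit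 10) (nat_lit 5) (nat_lit 12) (nat_lit 4) (nat_lit 10) (nat_lit 4) (nat_lit 329) (nat_lit 283) (nat_lit 168)) (XT.lf (nat_lit 0) (nat_lit 89546046695) (nat_lit 76) (nat_lit 187789191816) (nat_lit 76) (nat_lit 30117955666) (nat_lit 9) (nat_lit 4) (nat_lit 10) (nat_lit 5) (nat_lit 10) (nat_lit 4) (nat_lit 330) (nat_lit 283) (nat_lit 167))) (XT.nd (nat_lit 78) (nat_lit 76) (nat_lit 0) (XT.lf (nat_lit 0) (nat_lit 10751114234) (nat_lit 152) (nat_lit 135633001929) (nat_lit 76) (nat_lit 182938503533) (nat_lit 8) (nat_lit 5) (nat_lit 10) (nat_lit 5) (nat_lit 9) (nat_lit 4) (nat_lit 331) (nat_lit 283) (nat_lit 166)) (XT.nd (nat_lit 78) (nat_lit 76) (nat_lit 0) (XT.lf (nat_lit 0) (nat_lit 53847599586) (nat_lit 152) (nat_lit 47286642106) (nat_lit 76) (nat_lit 251782017651) (nat_lit 8) (nat_lit 5) (nat_lit 10) (nat_lit 5) (nat_lit 9) (nat_lit 4) (nat_lit 332) (nat_lit 283) (nat_lit 165)) (XT.lf (nat_lit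 0) (nat_lit 49716944372) (nat_lit 76) (nat_lit 51450126102) (nat_lit 152) (nat_lit 277191557046) (nat_lit 7) (nat_lit 5) (nat_lit 8) (nat_lit 5) (nat_lit 9) (nat_lit 4) (nat_lit 333) (nat_lit 283) (nat_lit 164)))))) (XT.nd (nat_lit 390) (nat_lit 152) (nat_lit 0) (XT.nd (nat_lit 156) (nat_lit 76) (nat_lit 0) (XT.nd (nat_lit 78) (nat_lit 0) (nat_lit 0) (XT.lf (nat_lit 0) (nat_lit 153142868376) (nat_lit 152) (nat_lit 249675472964) (nat_lit 0) (nat_lit 2974505986) (nat_lit 7) (nat_lit 5) (nat_lit 9) (nat_lit 4) (nat_lit 7) (nat_lit 4) (nat_lit 334) (nat_lit 283) (nat_lit 163)) (XT.lf (nat_lit 0) (nat_lit 210143420378) (nat_lit 152) (nat_lit 165261077450) (nat_lit 0) (nat_lit 59973972972) (nat_lit 7) (nat_lit 5) (nat_lit 9) (nat_lit 4) (nat_lit 7) (nat_lit 4) (nat_lit 335) (nat_lit 283) (nat_lit 162))) (XT.nd (nat_lit 78) (nat_lit 76) (nat_lit 0) (XT.lf (nat_lit 0) (nat_lit 271703226872) (nat_lit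 152) (nat_lit 74094982493) (nat_lit 0) (nat_lit 121532774820) (nat_lit 7) (nat_lit 5) (nat_lit 9) (nat_lit 4) (nat_lit 7) (nat_lit 4) (nat_lit 336) (nat_lit 283) (nat_lit 161)) (XT.nd (nat_lit 78) (nat_lit 0) (nat_lit 0) (XT.lf (nat_lit 0) (nat_lit 25168608071) (nat_lit 76) (nat_lit 313411431146) (nat_lit 76) (nat_lit 163240048868) (nat_lit 6) (nat_lit 4) (nat_lit 7) (nat_lit 5) (nat_lit 7) (nat_lit 4) (nat_lit 337) (nat_lit 283) (nat_lit 160)) (XT.lf (nat_lit 0) (nat_lit 135017907611) (nat_lit 76) (nat_lit 277079078636) (nat_lit 76) (nat_lit 126906835037) (nat_lit 6) (nat_lit 4) (nat_lit 7) (nat_lit 5) (nat_lit 7) (nat_lit 4) (nat_lit 338) (nat_lit 283) (nat_lit 159))))) (XT.nd (nat_lit 234) (nat_lit 76) (nat_lit 0) (XT.nd (nat_lit 78) (nat_lit 76) (nat_lit 0) (XT.lf (nat_lit 0) (nat_lit 253653960197) (nat_lit 76) (nat_lit 237840683386) (nat_lit 76) (nat_lit 87667642267) (nat_lit 6)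 (nat_lit 4) (nat_lit 7) (nat_lit 5) (nat_lit 7) (nat_lit 4) (nat_lit 339) (nat_lit 283) (nat_lit 158)) (XT.nd (nat_lit 78) (nat_lit 76) (nat_lit 0) (XT.lf (nat_lit 0) (nat_lit 381779794286) (nat_lit 76) (nat_lit 195463721573) (nat_lit 76) (nat_lit 45289942010) (nat_lit 6) (nat_lit 4) (nat_lit 7) (nat_lit 5) (nat_lit 7) (nat_lit 4) (nat_lit 340) (nat_lit 283) (nat_lit 157)) (XT.lf (nat_lit 0) (nat_lit 462113295) (nat_lit 152) (nat_lit 149227131052) (nat_lit 76) (nat_lit 519684734674) (nat_lit 5) (nat_lit 5) (nat_lit 7) (nat_lit 5) (nat_lit 6) (nat_lit 4) (nat_lit 341) (nat_lit 283) (nat_lit 156)))) (XT.nd (nat_lit 78) (nat_lit 76) (nat_lit 0) (XT.lf (nat_lit 0) (nat_lit 48308286039) (nat_lit 152) (nat_lit 51143110022) (nat_lit 76) (nat_lit 620472188633) (nat_lit 5) (nat_lit 5) (nat_lit 7) (nat_lit 5) (nat_lit 6) (nat_lit 4) (nat_lit 342) (nat_lit 283) (nat_lit 155)) (XT.nd (nat_lit 36036)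 (nat_lit 0) (nat_lit 5852) (XT.lf (nat_lit 0) (nat_lit 56598238151) (nat_lit 76) (nat_lit 44267089046) (nat_lit 152) (nat_lit 673607673201) (nat_lit 4) (nat_lit 5) (nat_lit 5) (nat_lit 5) (nat_lit 6) (nat_lit 4) (nat_lit 343) (nat_lit 283) (nat_lit 154)) (XT.lf (nat_lit 0) (nat_lit 3918160083) (nat_lit 0) (nat_lit 3918160083) (nat_lit 684) (nat_lit 5184102465) (nat_lit 81) (nat_lit 5) (nat_lit 81) (nat_lit 3) (nat_lit 90) (nat_lit 3) (nat_lit 284) (nat_lit 284) (nat_lit 212))))))))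
noncomputable def xc92 : XT := (XT.nd (nat_lit 1560) (nat_lit 2052) (nat_lit 0) (XT.nd (nat_lit 780) (nat_lit 1900) (nat_lit 0) (XT.nd (nat_lit 390) (nat_lit 1216) (nat_lit 0) (XT.nd (nat_lit 156) (nat_lit 0) (nat_lit 76) (XT.nd (nat_lit 78) (nat_lit 0) (nat_lit 76) (XT.lf (nat_lit 0) (nat_lit 16608466366) (nat_lit 684) (nat_lit 43967770) (nat_lit 760) (nat_lit 10414227805) (nat_lit 81) (nat_lit 5) (nat_lit 90) (nat_lit 3) (nat_lit 91) (nat_lit 5) (nat_lit 285) (nat_lit 284) (nat_lit 211)) (XT.lf (nat_lit 0) (nat_lit 18082234593) (nat_lit 684) (nat_lit 8112740814) (nat_lit 760) (nat_lit 1956451870) (nat_lit 82) (nat_lit 5) (nat_lit 91) (nat_lit 5) (nat_lit 92) (nat_lit 5) (nat_lit 286) (nat_lit 284) (nat_lit 210))) (XT.nd (nat_lit 78) (nat_lit 0) (nat_lit 76) (XT.lf (nat_lit 76) (nat_lit 12518108400) (nat_lit 0) (nat_lit 7619820408) (nat_lit 760) (nat_lit 9161878183) (nat_lit 83) (nat_lit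 5) (nat_lit 82) (nat_lit 5) (nat_lit 92) (nat_lit 5) (nat_lit 287) (nat_lit 284) (nat_lit 209)) (XT.nd (nat_lit 78) (nat_lit 0) (nat_lit 76) (XT.lf (nat_lit 76) (nat_lit 4494761030) (nat_lit 0) (nat_lit 18259288704) (nat_lit 760) (nat_lit 7766240623) (nat_lit 84) (nat_lit 5) (nat_lit 83) (nat_lit 5) (nat_lit 93) (nat_lit 5) (nat_lit 288) (nat_lit 284) (nat_lit 208)) (XT.lf (nat_lit 0) (nat_lit 26017241824) (nat_lit 684) (nat_lit 3916858038) (nat_lit 760) (nat_lit 1882452930) (nat_lit 84) (nat_lit 5) (nat_lit 93) (nat_lit 5) (nat_lit 94) (nat_lit 5) (nat_lit 289) (nat_lit 284) (nat_lit 207))))) (XT.nd (nat_lit 156) (nat_lit 760) (nat_lit 0) (XT.nd (nat_lit 78) (nat_lit 684) (nat_lit 0) (XT.lf (nat_lit 76) (nat_lit 20293873359) (nat_lit 0) (nat_lit 9861908418) (nat_lit 760) (nat_lit 3030047110) (nat_lit 85) (nat_lit 5) (nat_lit 84) (nat_lit 5) (nat_lit 94) (nat_lit 5) (nat_lit 290) (nat_lit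 284) (nat_lit 206)) (XT.lf (nat_lit 0) (nat_lit 402291958) (nat_lit 760) (nat_lit 22535751447) (nat_lit 76) (nat_lit 11704644458) (nat_lit 75) (nat_lit 5) (nat_lit 85) (nat_lit 5) (nat_lit 76) (nat_lit 5) (nat_lit 291) (nat_lit 284) (nat_lit 205))) (XT.nd (nat_lit 78) (nat_lit 380) (nat_lit 0) (XT.lf (nat_lit 0) (nat_lit 3235300210) (nat_lit 380) (nat_lit 1204897478) (nat_lit 456) (nat_lit 31751579628) (nat_lit 70) (nat_lit 5) (nat_lit 75) (nat_lit 5) (nat_lit 76) (nat_lit 5) (nat_lit 292) (nat_lit 284) (nat_lit 204)) (XT.nd (nat_lit 78) (nat_lit 380) (nat_lit 0) (XT.lf (nat_lit 0) (nat_lit 9539020382) (nat_lit 456) (nat_lit 6335000055) (nat_lit 76) (nat_lit 21953899896) (nat_lit 70) (nat_lit 5) (nat_lit 76) (nat_lit 5) (nat_lit 71) (nat_lit 5) (nat_lit 293) (nat_lit 284) (nat_lit 203)) (XT.lf (nat_lit 0) (nat_lit 15539414821) (nat_lit 456) (nat_lit 16568442884) (nat_lit 76) (nat_lit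 7462432893) (nat_lit 65) (nat_lit 5) (nat_lit 71) (nat_lit 5) (nat_lit 66) (nat_lit 5) (nat_lit 294) (nat_lit 284) (nat_lit 202)))))) (XT.nd (nat_lit 390) (nat_lit 684) (nat_lit 0) (XT.nd (nat_lit 156) (nat_lit 608) (nat_lit 0) (XT.nd (nat_lit 78) (nat_lit 304) (nat_lit 0) (XT.lf (nat_lit 0) (nat_lit 13623953430) (nat_lit 304) (nat_lit 8980795831) (nat_lit 380) (nat_lit 18818073490) (nat_lit 61) (nat_lit 5) (nat_lit 65) (nat_lit 5) (nat_lit 66) (nat_lit 5) (nat_lit 295) (nat_lit 284) (nat_lit 201)) (XT.lf (nat_lit 0) (nat_lit 3256022668) (nat_lit 304) (nat_lit 27566029494) (nat_lit 380) (nat_lit 12572184609) (nat_lit 57) (nat_lit 5) (nat_lit 61) (nat_lit 5) (nat_lit 62) (nat_lit 5) (nat_lit 296) (nat_lit 284) (nat_lit 200))) (XT.nd (nat_lit 78) (nat_lit 608) (nat_lit 0) (XT.lf (nat_lit 0) (nat_lit 37623923490) (nat_lit 304) (nat_lit 2699271505) (nat_lit 380) (nat_lit 5168861298) (nat_lit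 57) (nat_lit 5) (nat_lit 61) (nat_lit 5) (nat_lit 62) (nat_lit 5) (nat_lit 297) (nat_lit 284) (nat_lit 199)) (XT.nd (nat_lit 78) (nat_lit 304) (nat_lit 0) (XT.lf (nat_lit 0) (nat_lit 3549242901) (nat_lit 304) (nat_lit 20296465362) (nat_lit 76) (nat_lit 23869150432) (nat_lit 53) (nat_lit 5) (nat_lit 57) (nat_lit 5) (nat_lit 54) (nat_lit 5) (nat_lit 298) (nat_lit 284) (nat_lit 198)) (XT.lf (nat_lit 0) (nat_lit 13260440142) (nat_lit 380) (nat_lit 34061848611) (nat_lit 76) (nat_lit 2765135326) (nat_lit 49) (nat_lit 5) (nat_lit 54) (nat_lit 5) (nat_lit 50) (nat_lit 5) (nat_lit 299) (nat_lit 284) (nat_lit 197))))) (XT.nd (nat_lit 156) (nat_lit 456) (nat_lit 0) (XT.nd (nat_lit 78) (nat_lit 0) (nat_lit 0) (XT.lf (nat_lit 0) (nat_lit 3027840968) (nat_lit 228) (nat_lit 21523675650) (nat_lit 304) (nat_lit 28058140369) (nat_lit 46) (nat_lit 5) (nat_lit 49) (nat_lit 5) (nat_lit 50) (nat_lit 5) (nat_lit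 300) (nat_lit 284) (nat_lit 196)) (XT.lf (nat_lit 0) (nat_lit 37442481160) (nat_lit 304) (nat_lit 11118828243) (nat_lit 76) (nat_lit 6737539643) (nat_lit 46) (nat_lit 5) (nat_lit 50) (nat_lit 5) (nat_lit 47) (nat_lit 5) (nat_lit 301) (nat_lit 284) (nat_lit 195))) (XT.nd (nat_lit 78) (nat_lit 228) (nat_lit 0) (XT.lf (nat_lit 0) (nat_lit 31045267918) (nat_lit 228) (nat_lit 21162061946) (nat_lit 304) (nat_lit 5953726086) (nat_lit 43) (nat_lit 5) (nat_lit 46) (nat_lit 5) (nat_lit 47) (nat_lit 5) (nat_lit 302) (nat_lit 284) (nat_lit 194)) (XT.nd (nat_lit 78) (nat_lit 0) (nat_lit 0) (XT.lf (nat_lit 0) (nat_lit 7264894496) (nat_lit 228) (nat_lit 45229369574) (nat_lit 76) (nat_lit 8723364378) (nat_lit 40) (nat_lit 5) (nat_lit 43) (nat_lit 5) (nat_lit 41) (nat_lit 5) (nat_lit 303) (nat_lit 284) (nat_lit 193)) (XT.lf (nat_lit 0) (nat_lit 22167513809) (nat_lit 228) (nat_lit 1457601086) (nat_lit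 76) (nat_lit 40846984842) (nat_lit 40) (nat_lit 5) (nat_lit 43) (nat_lit 5) (nat_lit 41) (nat_lit 5) (nat_lit 304) (nat_lit 284) (nat_lit 192))))))) (XT.nd (nat_lit 780) (nat_lit 684) (nat_lit 0) (XT.nd (nat_lit 390) (nat_lit 532) (nat_lit 0) (XT.nd (nat_lit 156) (nat_lit 456) (nat_lit 0) (XT.nd (nat_lit 78) (nat_lit 152) (nat_lit 0) (XT.lf (nat_lit 0) (nat_lit 39126968037) (nat_lit 304) (nat_lit 20755605821) (nat_lit 76) (nat_lit 8061131033) (nat_lit 37) (nat_lit 5) (nat_lit 41) (nat_lit 5) (nat_lit 38) (nat_lit 5) (nat_lit 305) (nat_lit 284) (nat_lit 191)) (XT.lf (nat_lit 0) (nat_lit 28596321972) (nat_lit 152) (nat_lit 29713432214) (nat_lit 228) (nat_lit 13339962375) (nat_lit 35) (nat_lit 5) (nat_lit 37) (nat_lit 5) (nat_lit 38) (nat_lit 5) (nat_lit 306) (nat_lit 284) (nat_lit 190))) (XT.nd (nat_lit 78) (nat_lit 152) (nat_lit 0) (XT.lf (nat_lit 0) (nat_lit 3795902754) (nat_lit 304)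 (nat_lit 68510808457) (nat_lit 76) (nat_lit 3316420982) (nat_lit 31) (nat_lit 5) (nat_lit 35) (nat_lit 5) (nat_lit 32) (nat_lit 5) (nat_lit 307) (nat_lit 284) (nat_lit 189)) (XT.nd (nat_lit 78) (nat_lit 152) (nat_lit 0) (XT.lf (nat_lit 0) (nat_lit 23101054481) (nat_lit 304) (nat_lit 17792142237) (nat_lit 76) (nat_lit 38947006347) (nat_lit 31) (nat_lit 5) (nat_lit 35) (nat_lit 5) (nat_lit 32) (nat_lit 5) (nat_lit 308) (nat_lit 284) (nat_lit 188)) (XT.lf (nat_lit 0) (nat_lit 38201434824) (nat_lit 152) (nat_lit 6342149139) (nat_lit 228) (nat_lit 39821412564) (nat_lit 29) (nat_lit 5) (nat_lit 31) (nat_lit 5) (nat_lit 32) (nat_lit 5) (nat_lit 309) (nat_lit 284) (nat_lit 187))))) (XT.nd (nat_lit 156) (nat_lit 304) (nat_lit 0) (XT.nd (nat_lit 78) (nat_lit 76) (nat_lit 0) (XT.lf (nat_lit 0) (nat_lit 9896486225) (nat_lit 152) (nat_lit 58754809843) (nat_lit 228) (nat_lit 20552993203) (nat_lit 27)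 (nat_lit 5) (nat_lit 29) (nat_lit 5) (nat_lit 30) (nat_lit 5) (nat_lit 310) (nat_lit 284) (nat_lit 186)) (XT.lf (nat_lit 0) (nat_lit 1169736810) (nat_lit 228) (nat_lit 22429893293) (nat_lit 76) (nat_lit 70784846057) (nat_lit 26) (nat_lit 5) (nat_lit 29) (nat_lit 5) (nat_lit 27) (nat_lit 5) (nat_lit 311) (nat_lit 284) (nat_lit 185))) (XT.nd (nat_lit 78) (nat_lit 152) (nat_lit 0) (XT.lf (nat_lit 0) (nat_lit 24780405547) (nat_lit 228) (nat_lit 60246089733) (nat_lit 76) (nat_lit 14892230085) (nat_lit 24) (nat_lit 5) (nat_lit 27) (nat_lit 5) (nat_lit 25) (nat_lit 5) (nat_lit 312) (nat_lit 284) (nat_lit 184)) (XT.nd (nat_lit 78) (nat_lit 0) (nat_lit 0) (XT.lf (nat_lit 0) (nat_lit 1300845148) (nat_lit 152) (nat_lit 49791602774) (nat_lit 228) (nat_lit 54762644219) (nat_lit 22) (nat_lit 5) (nat_lit 24) (nat_lit 5) (nat_lit 25) (nat_lit 5) (nat_lit 313) (nat_lit 284) (nat_lit 183)) (XT.lf (nat_lit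 0) (nat_lit 69918499018) (nat_lit 152) (nat_lit 10637702443) (nat_lit 228) (nat_lit 31657832780) (nat_lit 22) (nat_lit 5) (nat_lit 24) (nat_lit 5) (nat_lit 25) (nat_lit 5) (nat_lit 314) (nat_lit 284) (nat_lit 182)))))) (XT.nd (nat_lit 390) (nat_lit 304) (nat_lit 0) (XT.nd (nat_lit 156) (nat_lit 228) (nat_lit 0) (XT.nd (nat_lit 78) (nat_lit 76) (nat_lit 0) (XT.lf (nat_lit 0) (nat_lit 25253851006) (nat_lit 76) (nat_lit 88009084746) (nat_lit 152) (nat_lit 5774465057) (nat_lit 21) (nat_lit 5) (nat_lit 22) (nat_lit 5) (nat_lit 23) (nat_lit 4) (nat_lit 315) (nat_lit 284) (nat_lit 181)) (XT.lf (nat_lit 0) (nat_lit 22395454918) (nat_lit 152) (nat_lit 27194068304) (nat_lit 76) (nat_lit 76753513587) (nat_lit 20) (nat_lit 5) (nat_lit 22) (nat_lit 5) (nat_lit 21) (nat_lit 5) (nat_lit 316) (nat_lit 284) (nat_lit 180))) (XT.nd (nat_lit 78) (nat_lit 76) (nat_lit 0) (XT.lf (nat_lit 0) (nat_lit 46096808627)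 (nat_lit 152) (nat_lit 7239994271) (nat_lit 228) (nat_lit 80855582996) (nat_lit 18) (nat_lit 5) (nat_lit 20) (nat_lit 5) (nat_lit 21) (nat_lit 5) (nat_lit 317) (nat_lit 284) (nat_lit 179)) (XT.nd (nat_lit 78) (nat_lit 76) (nat_lit 0) (XT.lf (nat_lit 0) (nat_lit 87833807947) (nat_lit 228) (nat_lit 17036473571) (nat_lit 76) (nat_lit 37745386286) (nat_lit 18) (nat_lit 5) (nat_lit 21) (nat_lit 5) (nat_lit 19) (nat_lit 4) (nat_lit 318) (nat_lit 284) (nat_lit 178)) (XT.lf (nat_lit 0) (nat_lit 61551894756) (nat_lit 76) (nat_lit 64619743398) (nat_lit 152) (nat_lit 25487123061) (nat_lit 17) (nat_lit 5) (nat_lit 18) (nat_lit 5) (nat_lit 19) (nat_lit 4) (nat_lit 319) (nat_lit 284) (nat_lit 177))))) (XT.nd (nat_lit 156) (nat_lit 76) (nat_lit 0) (XT.nd (nat_lit 78) (nat_lit 152) (nat_lit 0) (XT.lf (nat_lit 0) (nat_lit 6253997622) (nat_lit 152) (nat_lit 14479013172) (nat_lit 76) (nat_lit 140672507289)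 (nat_lit 16) (nat_lit 5) (nat_lit 18) (nat_lit 5) (nat_lit 17) (nat_lit 5) (nat_lit 320) (nat_lit 284) (nat_lit 176)) (XT.lf (nat_lit 0) (nat_lit 41169460660) (nat_lit 228) (nat_lit 103323961764) (nat_lit 76) (nat_lit 27341303910) (nat_lit 14) (nat_lit 5) (nat_lit 17) (nat_lit 5) (nat_lit 15) (nat_lit 4) (nat_lit 321) (nat_lit 284) (nat_lit 175))) (XT.nd (nat_lit 78) (nat_lit 76) (nat_lit 0) (XT.lf (nat_lit 0) (nat_lit 79482371200) (nat_lit 228) (nat_lit 24785658084) (nat_lit 76) (nat_lit 78800033089) (nat_lit 14) (nat_lit 5) (nat_lit 17) (nat_lit 5) (nat_lit 15) (nat_lit 4) (nat_lit 322) (nat_lit 284) (nat_lit 174)) (XT.nd (nat_lit 78) (nat_lit 0) (nat_lit 0) (XT.lf (nat_lit 0) (nat_lit 62017861442) (nat_lit 76) (nat_lit 59809118619) (nat_lit 152) (nat_lit 73324753492) (nat_lit 13) (nat_lit 5) (nat_lit 14) (nat_lit 5) (nat_lit 15) (nat_lit 4) (nat_lit 323) (nat_lit 284) (nat_lit 173))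 (XT.lf (nat_lit 0) (nat_lit 156648065067) (nat_lit 76) (nat_lit 11341312714) (nat_lit 152) (nat_lit 40191211055) (nat_lit 13) (nat_lit 5) (nat_lit 14) (nat_lit 5) (nat_lit 15) (nat_lit 4) (nat_lit 324) (nat_lit 284) (nat_lit 172))))))))
noncomputable def xc93 : XT := (XT.nd (nat_lit 37596) (nat_lit 0) (nat_lit 2432) (XT.nd (nat_lit 780) (nat_lit 152) (nat_lit 0) (XT.nd (nat_lit 390) (nat_lit 228) (nat_lit 0) (XT.nd (nat_lit 156) (nat_lit 76) (nat_lit 0) (XT.nd (nat_lit 78) (nat_lit 76) (nat_lit 0) (XT.lf (nat_lit 0) (nat_lit 37143012895) (nat_lit 76) (nat_lit 181920413627) (nat_lit 76) (nat_lit 3127394370) (nat_lit 12) (nat_lit 4) (nat_lit 13) (nat_lit 5) (nat_lit 13) (nat_lit 4) (nat_lit 325) (nat_lit 284) (nat_lit 171)) (XT.lf (nat_lit 0) (nat_lit 36822673940) (nat_lit 152) (nat_lit 103308751818) (nat_lit 76) (nat_lit 97106528818) (nat_lit 11) (nat_lit 5) (nat_lit 13) (nat_lit 5) (nat_lit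 12) (nat_lit 4) (nat_lit 326) (nat_lit 284) (nat_lit 170))) (XT.nd (nat_lit 78) (nat_lit 76) (nat_lit 0) (XT.lf (nat_lit 0) (nat_lit 79859358013) (nat_lit 152) (nat_lit 15085599597) (nat_lit 76) (nat_lit 158541330029) (nat_lit 11) (nat_lit 5) (nat_lit 13) (nat_lit 5) (nat_lit 12) (nat_lit 4) (nat_lit 327) (nat_lit 284) (nat_lit 169)) (XT.nd (nat_lit 78) (nat_lit 0) (nat_lit 0) (XT.lf (nat_lit 0) (nat_lit 82844831918) (nat_lit 76) (nat_lit 44786394282) (nat_lit 152) (nat_lit 143338649670) (nat_lit 10) (nat_lit 5) (nat_lit 11) (nat_lit 5) (nat_lit 12) (nat_lit 4) (nat_lit 328) (nat_lit 284) (nat_lit 168)) (XT.lf (nat_lit 0) (nat_lit 179637308844) (nat_lit 152) (nat_lit 100843520139) (nat_lit 0) (nat_lit 9350699845) (nat_lit 10) (nat_lit 5) (nat_lit 12) (nat_lit 4) (nat_lit 10) (nat_lit 4) (nat_lit 329) (nat_lit 284) (nat_lit 167))))) (XT.nd (nat_lit 156) (nat_lit 152) (nat_lit 0) (XT.nd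 (nat_lit 78) (nat_lit 76) (nat_lit 0) (XT.lf (nat_lit 0) (nat_lit 236557995390) (nat_lit 152) (nat_lit 7336577186) (nat_lit 0) (nat_lit 66269836430) (nat_lit 10) (nat_lit 5) (nat_lit 12) (nat_lit 4) (nat_lit 10) (nat_lit 4) (nat_lit 330) (nat_lit 284) (nat_lit 166)) (XT.lf (nat_lit 0) (nat_lit 96745604793) (nat_lit 76) (nat_lit 202796217711) (nat_lit 76) (nat_lit 32506623602) (nat_lit 9) (nat_lit 4) (nat_lit 10) (nat_lit 5) (nat_lit 10) (nat_lit 4) (nat_lit 331) (nat_lit 284) (nat_lit 165))) (XT.nd (nat_lit 78) (nat_lit 76) (nat_lit 0) (XT.lf (nat_lit 0) (nat_lit 11629817998) (nat_lit 152) (nat_lit 146449796053) (nat_lit 76) (nat_lit 197587870945) (nat_lit 8) (nat_lit 5) (nat_lit 10) (nat_lit 5) (nat_lit 9) (nat_lit 4) (nat_lit 332) (nat_lit 284) (nat_lit 164)) (XT.nd (nat_lit 78) (nat_lit 76) (nat_lit 0) (XT.lf (nat_lit 0) (nat_lit 58172643317) (nat_lit 152) (nat_lit 51038234557) (nat_lit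 76) (nat_lit 271937807886) (nat_lit 8) (nat_lit 5) (nat_lit 10) (nat_lit 5) (nat_lit 9) (nat_lit 4) (nat_lit 333) (nat_lit 284) (nat_lit 163)) (XT.lf (nat_lit 0) (nat_lit 53724276888) (nat_lit 76) (nat_lit 55552586289) (nat_lit 152) (nat_lit 299349621579) (nat_lit 7) (nat_lit 5) (nat_lit 8) (nat_lit 5) (nat_lit 9) (nat_lit 4) (nat_lit 334) (nat_lit 284) (nat_lit 162)))))) (XT.nd (nat_lit 390) (nat_lit 76) (nat_lit 0) (XT.nd (nat_lit 156) (nat_lit 76) (nat_lit 0) (XT.nd (nat_lit 78) (nat_lit 0) (nat_lit 0) (XT.lf (nat_lit 0) (nat_lit 165409703973) (nat_lit 152) (nat_lit 269621178969) (nat_lit 0) (nat_lit 3224611112) (nat_lit 7) (nat_lit 5) (nat_lit 9) (nat_lit 4) (nat_lit 7) (nat_lit 4) (nat_lit 335) (nat_lit 284) (nat_lit 161)) (XT.lf (nat_lit 0) (nat_lit 226969158940) (nat_lit 152) (nat_lit 178455730467) (nat_lit 0) (nat_lit 64783135853) (nat_lit 7) (nat_lit 5) (nat_lit 9) (nat_lit 4)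 (nat_lit 7) (nat_lit 4) (nat_lit 336) (nat_lit 284) (nat_lit 160))) (XT.nd (nat_lit 78) (nat_lit 76) (nat_lit 0) (XT.lf (nat_lit 0) (nat_lit 293452693292) (nat_lit 152) (nat_lit 79998291112) (nat_lit 0) (nat_lit 131265808884) (nat_lit 7) (nat_lit 5) (nat_lit 9) (nat_lit 4) (nat_lit 7) (nat_lit 4) (nat_lit 337) (nat_lit 284) (nat_lit 159)) (XT.nd (nat_lit 78) (nat_lit 0) (nat_lit 0) (XT.lf (nat_lit 0) (nat_lit 27205331083) (nat_lit 76) (nat_lit 338473703905) (nat_lit 76) (nat_lit 176286021977) (nat_lit 6) (nat_lit 4) (nat_lit 7) (nat_lit 5) (nat_lit 7) (nat_lit 4) (nat_lit 338) (nat_lit 284) (nat_lit 158)) (XT.lf (nat_lit 0) (nat_lit 145840853523) (nat_lit 76) (nat_lit 299235551470) (nat_lit 76) (nat_lit 137047131098) (nat_lit 6) (nat_lit 4) (nat_lit 7) (nat_lit 5) (nat_lit 7) (nat_lit 4) (nat_lit 339) (nat_lit 284) (nat_lit 157))))) (XT.nd (nat_lit 156) (nat_lit 76) (nat_lit 0) (XT.nd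 (nat_lit 78) (nat_lit 0) (nat_lit 0) (XT.lf (nat_lit 0) (nat_lit 273966196737) (nat_lit 76) (nat_lit 256858814486) (nat_lit 76) (nat_lit 94669710370) (nat_lit 6) (nat_lit 4) (nat_lit 7) (nat_lit 5) (nat_lit 7) (nat_lit 4) (nat_lit 340) (nat_lit 284) (nat_lit 156)) (XT.lf (nat_lit 0) (nat_lit 412340622019) (nat_lit 76) (nat_lit 211092371548) (nat_lit 76) (nat_lit 48902634335) (nat_lit 6) (nat_lit 4) (nat_lit 7) (nat_lit 5) (nat_lit 7) (nat_lit 4) (nat_lit 341) (nat_lit 284) (nat_lit 155))) (XT.nd (nat_lit 78) (nat_lit 0) (nat_lit 0) (XT.lf (nat_lit 0) (nat_lit 508496130) (nat_lit 152) (nat_lit 161147906346) (nat_lit 76) (nat_lit 561267018203) (nat_lit 5) (nat_lit 5) (nat_lit 7) (nat_lit 5) (nat_lit 6) (nat_lit 4) (nat_lit 342) (nat_lit 284) (nat_lit 154)) (XT.nd (nat_lit 36114) (nat_lit 0) (nat_lit 5776) (XT.lf (nat_lit 0) (nat_lit 52181665378) (nat_lit 152) (nat_lit 55218452167) (nat_lit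 76) (nat_lit 670116912570) (nat_lit 5) (nat_lit 5) (nat_lit 7) (nat_lit 5) (nat_lit 6) (nat_lit 4) (nat_lit 343) (nat_lit 284) (nat_lit 153)) (XT.lf (nat_lit 0) (nat_lit 4300392478) (nat_lit 0) (nat_lit 4300392478) (nat_lit 684) (nat_lit 5454031341) (nat_lit 81) (nat_lit 5) (nat_lit 81) (nat_lit 3) (nat_lit 90) (nat_lit 3) (nat_lit 285) (nat_lit 285) (nat_lit 210))))))) (XT.nd (nat_lit 780) (nat_lit 2128) (nat_lit 0) (XT.nd (nat_lit 390) (nat_lit 1216) (nat_lit 0) (XT.nd (nat_lit 156) (nat_lit 0) (nat_lit 76) (XT.nd (nat_lit 78) (nat_lit 0) (nat_lit 76) (XT.lf (nat_lit 76) (nat_lit 98431098) (nat_lit 0) (nat_lit 18092999981) (nat_lit 760) (nat_lit 11027178732) (nat_lit 82) (nat_lit 5) (nat_lit 81) (nat_lit 5) (nat_lit 91) (nat_lit 5) (nat_lit 286) (nat_lit 285) (nat_lit 209)) (XT.lf (nat_lit 0) (nat_lit 19763418799) (nat_lit 684) (nat_lit 8611214554) (nat_lit 760) (nat_lit 2016556801)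 (nat_lit 82) (nat_lit 5) (nat_lit 91) (nat_lit 5) (nat_lit 92) (nat_lit 5) (nat_lit 287) (nat_lit 285) (nat_lit 208))) (XT.nd (nat_lit 78) (nat_lit 0) (nat_lit 76) (XT.lf (nat_lit 76) (nat_lit 13663560072) (nat_lit 0) (nat_lit 8304878589) (nat_lit 760) (nat_lit 9663804082) (nat_lit 83) (nat_lit 5) (nat_lit 82) (nat_lit 5) (nat_lit 92) (nat_lit 5) (nat_lit 288) (nat_lit 285) (nat_lit 207)) (XT.nd (nat_lit 78) (nat_lit 0) (nat_lit 76) (XT.lf (nat_lit 76) (nat_lit 5004260757) (nat_lit 0) (nat_lit 19774580655) (nat_lit 760) (nat_lit 8172316353) (nat_lit 84) (nat_lit 5) (nat_lit 83) (nat_lit 5) (nat_lit 93) (nat_lit 5) (nat_lit 289) (nat_lit 285) (nat_lit 206)) (XT.lf (nat_lit 0) (nat_lit 28287154539) (nat_lit 684) (nat_lit 4080645268) (nat_lit 760) (nat_lit 1984157543) (nat_lit 84) (nat_lit 5) (nat_lit 93) (nat_lit 5) (nat_lit 94) (nat_lit 5) (nat_lit 290) (nat_lit 285) (nat_lit 205)))))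 (XT.nd (nat_lit 156) (nat_lit 760) (nat_lit 0) (XT.nd (nat_lit 78) (nat_lit 684) (nat_lit 0) (XT.lf (nat_lit 76) (nat_lit 22060444884) (nat_lit 0) (nat_lit 10684600963) (nat_lit 760) (nat_lit 3086352796) (nat_lit 85) (nat_lit 5) (nat_lit 84) (nat_lit 5) (nat_lit 94) (nat_lit 5) (nat_lit 291) (nat_lit 285) (nat_lit 204)) (XT.lf (nat_lit 0) (nat_lit 603098170) (nat_lit 760) (nat_lit 24186392802) (nat_lit 76) (nat_lit 12615778240) (nat_lit 75) (nat_lit 5) (nat_lit 85) (nat_lit 5) (nat_lit 76) (nat_lit 5) (nat_lit 292) (nat_lit 285) (nat_lit 203))) (XT.nd (nat_lit 78) (nat_lit 380) (nat_lit 0) (XT.lf (nat_lit 0) (nat_lit 3639727746) (nat_lit 380) (nat_lit 1314091310) (nat_lit 456) (nat_lit 34125007448) (nat_lit 70) (nat_lit 5) (nat_lit 75) (nat_lit 5) (nat_lit 76) (nat_lit 5) (nat_lit 293) (nat_lit 285) (nat_lit 202)) (XT.nd (nat_lit 78) (nat_lit 380) (nat_lit 0) (XT.lf (nat_lit 0) (nat_lit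 10448628750) (nat_lit 456) (nat_lit 6699118215) (nat_lit 76) (nat_lit 23698737546) (nat_lit 70) (nat_lit 5) (nat_lit 76) (nat_lit 5) (nat_lit 71) (nat_lit 5) (nat_lit 294) (nat_lit 285) (nat_lit 201)) (XT.lf (nat_lit 0) (nat_lit 16920314654) (nat_lit 456) (nat_lit 17750209294) (nat_lit 76) (nat_lit 8058183018) (nat_lit 65) (nat_lit 5) (nat_lit 71) (nat_lit 5) (nat_lit 66) (nat_lit 5) (nat_lit 295) (nat_lit 285) (nat_lit 200)))))) (XT.nd (nat_lit 390) (nat_lit 912) (nat_lit 0) (XT.nd (nat_lit 156) (nat_lit 608) (nat_lit 0) (XT.nd (nat_lit 78) (nat_lit 304) (nat_lit 0) (XT.lf (nat_lit 0) (nat_lit 14851333307) (nat_lit 304) (nat_lit 9691485279) (nat_lit 380) (nat_lit 20187049639) (nat_lit 61) (nat_lit 5) (nat_lit 65) (nat_lit 5) (nat_lit 66) (nat_lit 5) (nat_lit 296) (nat_lit 285) (nat_lit 199)) (XT.lf (nat_lit 0) (nat_lit 3654363662) (nat_lit 304) (nat_lit 29755800191) (nat_lit 380) (nat_lit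 13449220524) (nat_lit 57) (nat_lit 5) (nat_lit 61) (nat_lit 5) (nat_lit 62) (nat_lit 5) (nat_lit 297) (nat_lit 285) (nat_lit 198))) (XT.nd (nat_lit 78) (nat_lit 608) (nat_lit 0) (XT.lf (nat_lit 0) (nat_lit 40761484758) (nat_lit 304) (nat_lit 2900850574) (nat_lit 380) (nat_lit 5463167560) (nat_lit 57) (nat_lit 5) (nat_lit 61) (nat_lit 5) (nat_lit 62) (nat_lit 5) (nat_lit 298) (nat_lit 285) (nat_lit 197)) (XT.nd (nat_lit 78) (nat_lit 304) (nat_lit 0) (XT.lf (nat_lit 0) (nat_lit 3942257564) (nat_lit 304) (nat_lit 21788806166) (nat_lit 76) (nat_lit 25795306206) (nat_lit 53) (nat_lit 5) (nat_lit 57) (nat_lit 5) (nat_lit 54) (nat_lit 5) (nat_lit 299) (nat_lit 285) (nat_lit 196)) (XT.lf (nat_lit 0) (nat_lit 14424587508) (nat_lit 380) (nat_lit 36656129089) (nat_lit 76) (nat_lit 3008328677) (nat_lit 49) (nat_lit 5) (nat_lit 54) (nat_lit 5) (nat_lit 50) (nat_lit 5) (nat_lit 300) (nat_lit 285) (nat_lit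 195))))) (XT.nd (nat_lit 234) (nat_lit 456) (nat_lit 0) (XT.nd (nat_lit 78) (nat_lit 228) (nat_lit 0) (XT.lf (nat_lit 0) (nat_lit 3395057010) (nat_lit 228) (nat_lit 23218191765) (nat_lit 304) (nat_lit 30200108449) (nat_lit 46) (nat_lit 5) (nat_lit 49) (nat_lit 5) (nat_lit 50) (nat_lit 5) (nat_lit 301) (nat_lit 285) (nat_lit 194)) (XT.nd (nat_lit 78) (nat_lit 228) (nat_lit 0) (XT.lf (nat_lit 0) (nat_lit 40528655832) (nat_lit 304) (nat_lit 11888303355) (nat_lit 76) (nat_lit 7301081399) (nat_lit 46) (nat_lit 5) (nat_lit 50) (nat_lit 5) (nat_lit 47) (nat_lit 5) (nat_lit 302) (nat_lit 285) (nat_lit 193)) (XT.lf (nat_lit 0) (nat_lit 33643704091) (nat_lit 228) (nat_lit 22826056759) (nat_lit 304) (nat_lit 6339722925) (nat_lit 43) (nat_lit 5) (nat_lit 46) (nat_lit 5) (nat_lit 47) (nat_lit 5) (nat_lit 303) (nat_lit 285) (nat_lit 192)))) (XT.nd (nat_lit 78) (nat_lit 228) (nat_lit 0) (XT.lf (nat_lit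 0) (nat_lit 7929251443) (nat_lit 228) (nat_lit 48731168972) (nat_lit 76) (nat_lit 9450315047) (nat_lit 40) (nat_lit 5) (nat_lit 43) (nat_lit 5) (nat_lit 41) (nat_lit 5) (nat_lit 304) (nat_lit 285) (nat_lit 191)) (XT.nd (nat_lit 78) (nat_lit 228) (nat_lit 0) (XT.lf (nat_lit 0) (nat_lit 24017919902) (nat_lit 228) (nat_lit 1466292351) (nat_lit 76) (nat_lit 44141670962) (nat_lit 40) (nat_lit 5) (nat_lit 43) (nat_lit 5) (nat_lit 41) (nat_lit 5) (nat_lit 305) (nat_lit 285) (nat_lit 190)) (XT.lf (nat_lit 0) (nat_lit 42330511348) (nat_lit 304) (nat_lit 22309530754) (nat_lit 76) (nat_lit 8735365581) (nat_lit 37) (nat_lit 5) (nat_lit 41) (nat_lit 5) (nat_lit 38) (nat_lit 5) (nat_lit 306) (nat_lit 285) (nat_lit 189))))))))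
noncomputable def xc94 : XT := (XT.nd (nat_lit 1560) (nat_lit 532) (nat_lit 0) (XT.nd (nat_lit 780) (nat_lit 684) (nat_lit 0) (XT.nd (nat_lit 390) (nat_lit 456) (nat_lit 0) (XT.nd (nat_lit 156) (nat_lit 304) (nat_lit 0) (XT.nd (nat_lit 78) (nat_lit 304) (nat_lit 0) (XT.lf (nat_lit 0) (nat_lit 30985921880) (nat_lit 152) (nat_lit 32058153372) (nat_lit 228) (nat_lit 14334026499) (nat_lit 35) (nat_lit 5) (nat_lit 37) (nat_lit 5) (nat_lit 38) (nat_lit 5) (nat_lit 307) (nat_lit 285) (nat_lit 188)) (XT.lf (nat_lit 0) (nat_lit 4167192168) (nat_lit 304) (nat_lit 73888917100) (nat_lit 76) (nat_lit 3613391143) (nat_lit 31) (nat_lit 5) (nat_lit 35) (nat_lit 5) (nat_lit 32) (nat_lit 5) (nat_lit 308) (nat_lit 285) (nat_lit 187))) (XT.nd (nat_lit 78) (nat_lit 304) (nat_lit 0) (XT.lf (nat_lit 0) (nat_lit 25011747352) (nat_lit 304) (nat_lit 19120369141) (nat_lit 76) (nat_lit 42092078412) (nat_lit 31)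 (nat_lit 5) (nat_lit 35) (nat_lit 5) (nat_lit 32) (nat_lit 5) (nat_lit 309) (nat_lit 285) (nat_lit 186)) (XT.nd (nat_lit 78) (nat_lit 152) (nat_lit 0) (XT.lf (nat_lit 0) (nat_lit 41348559222) (nat_lit 152) (nat_lit 6817903218) (nat_lit 228) (nat_lit 42944677203) (nat_lit 29) (nat_lit 5) (nat_lit 31) (nat_lit 5) (nat_lit 32) (nat_lit 5) (nat_lit 310) (nat_lit 285) (nat_lit 185)) (XT.lf (nat_lit 0) (nat_lit 10777711148) (nat_lit 152) (nat_lit 63422535493) (nat_lit 228) (nat_lit 22137462855) (nat_lit 27) (nat_lit 5) (nat_lit 29) (nat_lit 5) (nat_lit 30) (nat_lit 5) (nat_lit 311) (nat_lit 285) (nat_lit 184))))) (XT.nd (nat_lit 156) (nat_lit 228) (nat_lit 0) (XT.nd (nat_lit 78) (nat_lit 152) (nat_lit 0) (XT.lf (nat_lit 0) (nat_lit 1316886864) (nat_lit 228) (nat_lit 24139566453) (nat_lit 76) (nat_lit 76476031329) (nat_lit 26) (nat_lit 5) (nat_lit 29) (nat_lit 5) (nat_lit 27) (nat_lit 5) (nat_lit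 312) (nat_lit 285) (nat_lit 183)) (XT.lf (nat_lit 0) (nat_lit 26814177091) (nat_lit 228) (nat_lit 64982602184) (nat_lit 76) (nat_lit 16112811376) (nat_lit 24) (nat_lit 5) (nat_lit 27) (nat_lit 5) (nat_lit 25) (nat_lit 5) (nat_lit 313) (nat_lit 285) (nat_lit 182))) (XT.nd (nat_lit 78) (nat_lit 76) (nat_lit 0) (XT.lf (nat_lit 0) (nat_lit 1484472815) (nat_lit 152) (nat_lit 53744149299) (nat_lit 228) (nat_lit 59092377564) (nat_lit 22) (nat_lit 5) (nat_lit 24) (nat_lit 5) (nat_lit 25) (nat_lit 5) (nat_lit 314) (nat_lit 285) (nat_lit 181)) (XT.nd (nat_lit 78) (nat_lit 76) (nat_lit 0) (XT.lf (nat_lit 0) (nat_lit 75585645658) (nat_lit 152) (nat_lit 11460217068) (nat_lit 228) (nat_lit 34142979595) (nat_lit 22) (nat_lit 5) (nat_lit 24) (nat_lit 5) (nat_lit 25) (nat_lit 5) (nat_lit 315) (nat_lit 285) (nat_lit 180)) (XT.lf (nat_lit 0) (nat_lit 27346412756) (nat_lit 76) (nat_lit 95020917546) (nat_lit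 152) (nat_lit 6190842362) (nat_lit 21) (nat_lit 5) (nat_lit 22) (nat_lit 5) (nat_lit 23) (nat_lit 4) (nat_lit 316) (nat_lit 285) (nat_lit 179)))))) (XT.nd (nat_lit 390) (nat_lit 304) (nat_lit 0) (XT.nd (nat_lit 156) (nat_lit 152) (nat_lit 0) (XT.nd (nat_lit 78) (nat_lit 152) (nat_lit 0) (XT.lf (nat_lit 0) (nat_lit 24227944144) (nat_lit 152) (nat_lit 29301295389) (nat_lit 76) (nat_lit 82919151526) (nat_lit 20) (nat_lit 5) (nat_lit 22) (nat_lit 5) (nat_lit 21) (nat_lit 5) (nat_lit 317) (nat_lit 285) (nat_lit 178)) (XT.lf (nat_lit 0) (nat_lit 49849883532) (nat_lit 152) (nat_lit 7792710282) (nat_lit 228) (nat_lit 87283197975) (nat_lit 18) (nat_lit 5) (nat_lit 20) (nat_lit 5) (nat_lit 21) (nat_lit 5) (nat_lit 318) (nat_lit 285) (nat_lit 177))) (XT.nd (nat_lit 78) (nat_lit 152) (nat_lit 0) (XT.lf (nat_lit 0) (nat_lit 94896864588) (nat_lit 228) (nat_lit 18337445430) (nat_lit 76) (nat_lit 40788754126)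 (nat_lit 18) (nat_lit 5) (nat_lit 21) (nat_lit 5) (nat_lit 19) (nat_lit 4) (nat_lit 319) (nat_lit 285) (nat_lit 176)) (XT.nd (nat_lit 78) (nat_lit 76) (nat_lit 0) (XT.lf (nat_lit 0) (nat_lit 66535300265) (nat_lit 76) (nat_lit 69764653326) (nat_lit 152) (nat_lit 27489742744) (nat_lit 17) (nat_lit 5) (nat_lit 18) (nat_lit 5) (nat_lit 19) (nat_lit 4) (nat_lit 320) (nat_lit 285) (nat_lit 175)) (XT.lf (nat_lit 0) (nat_lit 6786897738) (nat_lit 152) (nat_lit 15581359986) (nat_lit 76) (nat_lit 151948040551) (nat_lit 16) (nat_lit 5) (nat_lit 18) (nat_lit 5) (nat_lit 17) (nat_lit 5) (nat_lit 321) (nat_lit 285) (nat_lit 174))))) (XT.nd (nat_lit 156) (nat_lit 152) (nat_lit 0) (XT.nd (nat_lit 78) (nat_lit 0) (nat_lit 0) (XT.lf (nat_lit 0) (nat_lit 44494372292) (nat_lit 228) (nat_lit 111535108936) (nat_lit 76) (nat_lit 29550425623) (nat_lit 14) (nat_lit 5) (nat_lit 17) (nat_lit 5) (nat_lit 15) (nat_lit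 4) (nat_lit 322) (nat_lit 285) (nat_lit 173)) (XT.lf (nat_lit 0) (nat_lit 85869993099) (nat_lit 228) (nat_lit 26717797982) (nat_lit 76) (nat_lit 85124237032) (nat_lit 14) (nat_lit 5) (nat_lit 17) (nat_lit 5) (nat_lit 15) (nat_lit 4) (nat_lit 323) (nat_lit 285) (nat_lit 172))) (XT.nd (nat_lit 78) (nat_lit 76) (nat_lit 0) (XT.lf (nat_lit 0) (nat_lit 67027799192) (nat_lit 76) (nat_lit 64572978302) (nat_lit 152) (nat_lit 79161687200) (nat_lit 13) (nat_lit 5) (nat_lit 14) (nat_lit 5) (nat_lit 15) (nat_lit 4) (nat_lit 324) (nat_lit 285) (nat_lit 171)) (XT.nd (nat_lit 78) (nat_lit 76) (nat_lit 0) (XT.lf (nat_lit 0) (nat_lit 169224825860) (nat_lit 76) (nat_lit 12229293836) (nat_lit 152) (nat_lit 43379612965) (nat_lit 13) (nat_lit 5) (nat_lit 14) (nat_lit 5) (nat_lit 15) (nat_lit 4) (nat_lit 325) (nat_lit 285) (nat_lit 170)) (XT.lf (nat_lit 0) (nat_lit 40158375592) (nat_lit 76) (nat_lit 196454786156)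 (nat_lit 76) (nat_lit 3351669819) (nat_lit 12) (nat_lit 4) (nat_lit 13) (nat_lit 5) (nat_lit 13) (nat_lit 4) (nat_lit 326) (nat_lit 285) (nat_lit 169))))))) (XT.nd (nat_lit 780) (nat_lit 152) (nat_lit 0) (XT.nd (nat_lit 390) (nat_lit 228) (nat_lit 0) (XT.nd (nat_lit 156) (nat_lit 76) (nat_lit 0) (XT.nd (nat_lit 78) (nat_lit 0) (nat_lit 0) (XT.lf (nat_lit 0) (nat_lit 39791716210) (nat_lit 152) (nat_lit 111531996373) (nat_lit 76) (nat_lit 104892097593) (nat_lit 11) (nat_lit 5) (nat_lit 13) (nat_lit 5) (nat_lit 12) (nat_lit 4) (nat_lit 327) (nat_lit 285) (nat_lit 168)) (XT.lf (nat_lit 0) (nat_lit 86269614390) (nat_lit 152) (nat_lit 16254062759) (nat_lit 76) (nat_lit 171240420199) (nat_lit 11) (nat_lit 5) (nat_lit 13) (nat_lit 5) (nat_lit 12) (nat_lit 4) (nat_lit 328) (nat_lit 285) (nat_lit 167))) (XT.nd (nat_lit 78) (nat_lit 0) (nat_lit 0) (XT.lf (nat_lit 0) (nat_lit 89509135121) (nat_lit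 76) (nat_lit 48353076996) (nat_lit 152) (nat_lit 154784212844) (nat_lit 10) (nat_lit 5) (nat_lit 11) (nat_lit 5) (nat_lit 12) (nat_lit 4) (nat_lit 329) (nat_lit 285) (nat_lit 166)) (XT.nd (nat_lit 78) (nat_lit 0) (nat_lit 0) (XT.lf (nat_lit 0) (nat_lit 194027498364) (nat_lit 152) (nat_lit 108876275591) (nat_lit 0) (nat_lit 10113301578) (nat_lit 10) (nat_lit 5) (nat_lit 12) (nat_lit 4) (nat_lit 10) (nat_lit 4) (nat_lit 330) (nat_lit 285) (nat_lit 165)) (XT.lf (nat_lit 0) (nat_lit 255500417255) (nat_lit 152) (nat_lit 7891349510) (nat_lit 0) (nat_lit 71584891628) (nat_lit 10) (nat_lit 5) (nat_lit 12) (nat_lit 4) (nat_lit 10) (nat_lit 4) (nat_lit 331) (nat_lit 285) (nat_lit 164))))) (XT.nd (nat_lit 156) (nat_lit 76) (nat_lit 0) (XT.nd (nat_lit 78) (nat_lit 76) (nat_lit 0) (XT.lf (nat_lit 0) (nat_lit 104516009659) (nat_lit 76) (nat_lit 219006103871) (nat_lit 76) (nat_lit 35089347834) (nat_lit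 9) (nat_lit 4) (nat_lit 10) (nat_lit 5) (nat_lit 10) (nat_lit 4) (nat_lit 332) (nat_lit 285) (nat_lit 163)) (XT.lf (nat_lit 0) (nat_lit 12576162478) (nat_lit 152) (nat_lit 158136762222) (nat_lit 76) (nat_lit 213407149532) (nat_lit 8) (nat_lit 5) (nat_lit 10) (nat_lit 5) (nat_lit 9) (nat_lit 4) (nat_lit 333) (nat_lit 285) (nat_lit 162))) (XT.nd (nat_lit 78) (nat_lit 76) (nat_lit 0) (XT.lf (nat_lit 0) (nat_lit 62841231672) (nat_lit 152) (nat_lit 55094425252) (nat_lit 76) (nat_lit 293704174101) (nat_lit 8) (nat_lit 5) (nat_lit 10) (nat_lit 5) (nat_lit 9) (nat_lit 4) (nat_lit 334) (nat_lit 285) (nat_lit 161)) (XT.nd (nat_lit 78) (nat_lit 0) (nat_lit 0) (XT.lf (nat_lit 0) (nat_lit 58047919455) (nat_lit 76) (nat_lit 59985176336) (nat_lit 152) (nat_lit 323282793611) (nat_lit 7) (nat_lit 5) (nat_lit 8) (nat_lit 5) (nat_lit 9) (nat_lit 4) (nat_lit 335) (nat_lit 285) (nat_lit 160)) (XT.lf (nat_lit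 0) (nat_lit 178655688561) (nat_lit 152) (nat_lit 291166583306) (nat_lit 0) (nat_lit 3492992079) (nat_lit 7) (nat_lit 5) (nat_lit 9) (nat_lit 4) (nat_lit 7) (nat_lit 4) (nat_lit 336) (nat_lit 285) (nat_lit 159)))))) (XT.nd (nat_lit 390) (nat_lit 76) (nat_lit 0) (XT.nd (nat_lit 156) (nat_lit 76) (nat_lit 0) (XT.nd (nat_lit 78) (nat_lit 0) (nat_lit 0) (XT.lf (nat_lit 0) (nat_lit 245138921536) (nat_lit 152) (nat_lit 192709698183) (nat_lit 0) (nat_lit 69975427534) (nat_lit 7) (nat_lit 5) (nat_lit 9) (nat_lit 4) (nat_lit 7) (nat_lit 4) (nat_lit 337) (nat_lit 285) (nat_lit 158)) (XT.lf (nat_lit 0) (nat_lit 316940232719) (nat_lit 152) (nat_lit 86377329659) (nat_lit 0) (nat_lit 141776000273) (nat_lit 7) (nat_lit 5) (nat_lit 9) (nat_lit 4) (nat_lit 7) (nat_lit 4) (nat_lit 338) (nat_lit 285) (nat_lit 157))) (XT.nd (nat_lit 78) (nat_lit 0) (nat_lit 0) (XT.lf (nat_lit 0) (nat_lit 29401677295) (nat_lit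 76) (nat_lit 365542476646) (nat_lit 76) (nat_lit 190377560455) (nat_lit 6) (nat_lit 4) (nat_lit 7) (nat_lit 5) (nat_lit 7) (nat_lit 4) (nat_lit 339) (nat_lit 285) (nat_lit 156)) (XT.nd (nat_lit 78) (nat_lit 0) (nat_lit 0) (XT.lf (nat_lit 0) (nat_lit 157526565995) (nat_lit 76) (nat_lit 323165947837) (nat_lit 76) (nat_lit 148000398550) (nat_lit 6) (nat_lit 4) (nat_lit 7) (nat_lit 5) (nat_lit 7) (nat_lit 4) (nat_lit 340) (nat_lit 285) (nat_lit 155)) (XT.lf (nat_lit 0) (nat_lit 295900570430) (nat_lit 76) (nat_lit 277399697653) (nat_lit 76) (nat_lit 102233562166) (nat_lit 6) (nat_lit 4) (nat_lit 7) (nat_lit 5) (nat_lit 7) (nat_lit 4) (nat_lit 341) (nat_lit 285) (nat_lit 154))))) (XT.nd (nat_lit 36270) (nat_lit 0) (nat_lit 5776) (XT.nd (nat_lit 78) (nat_lit 76) (nat_lit 0) (XT.lf (nat_lit 0) (nat_lit 445343684700) (nat_lit 76) (nat_lit 227972518687) (nat_lit 76) (nat_lit 52805840421) (nat_lit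 6) (nat_lit 4) (nat_lit 7) (nat_lit 5) (nat_lit 7) (nat_lit 4) (nat_lit 342) (nat_lit 285) (nat_lit 153)) (XT.lf (nat_lit 0) (nat_lit 557246613) (nat_lit 152) (nat_lit 174024825282) (nat_lit 76) (nat_lit 606174813777) (nat_lit 5) (nat_lit 5) (nat_lit 7) (nat_lit 5) (nat_lit 6) (nat_lit 4) (nat_lit 343) (nat_lit 285) (nat_lit 152))) (XT.nd (nat_lit 78) (nat_lit 0) (nat_lit 0) (XT.lf (nat_lit 0) (nat_lit 4703391287) (nat_lit 0) (nat_lit 4703391287) (nat_lit 684) (nat_lit 5766211768) (nat_lit 81) (nat_lit 5) (nat_lit 81) (nat_lit 3) (nat_lit 90) (nat_lit 3) (nat_lit 286) (nat_lit 286) (nat_lit 208)) (XT.nd (nat_lit 78) (nat_lit 0) (nat_lit 76) (XT.lf (nat_lit 76) (nat_lit 232751373) (nat_lit 0) (nat_lit 19632661284) (nat_lit 760) (nat_lit 11679177554) (nat_lit 82) (nat_lit 5) (nat_lit 81) (nat_lit 5) (nat_lit 91) (nat_lit 5) (nat_lit 287) (nat_lit 286) (nat_lit 207)) (XT.lf (nat_lit 0) (nat_lit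 21545628653) (nat_lit 684) (nat_lit 9171043195) (nat_lit 760) (nat_lit 2095224266) (nat_lit 82) (nat_lit 5) (nat_lit 91) (nat_lit 5) (nat_lit 92) (nat_lit 5) (nat_lit 288) (nat_lit 286) (nat_lit 206))))))))
noncomputable def xc95 : XT := (XT.nd (nat_lit 1560) (nat_lit 1824) (nat_lit 0) (XT.nd (nat_lit 780) (nat_lit 1672) (nat_lit 0) (XT.nd (nat_lit 390) (nat_lit 1368) (nat_lit 0) (XT.nd (nat_lit 156) (nat_lit 532) (nat_lit 0) (XT.nd (nat_lit 78) (nat_lit 0) (nat_lit 76) (XT.lf (nat_lit 76) (nat_lit 14880104241) (nat_lit 0) (nat_lit 9033974421) (nat_lit 760) (nat_lit 10238842260) (nat_lit 83) (nat_lit 5) (nat_lit 82) (nat_lit 5) (nat_lit 92) (nat_lit 5) (nat_lit 289) (nat_lit 286) (nat_lit 205)) (XT.lf (nat_lit 76) (nat_lit 5533132864) (nat_lit 0) (nat_lit 21403313958) (nat_lit 760) (nat_lit 8641582182) (nat_lit 84) (nat_lit 5) (nat_lit 83) (nat_lit 5) (nat_lit 93) (nat_lit 5) (nat_lit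 290) (nat_lit 286) (nat_lit 204))) (XT.nd (nat_lit 78) (nat_lit 684) (nat_lit 0) (XT.lf (nat_lit 0) (nat_lit 30711763879) (nat_lit 684) (nat_lit 4278872084) (nat_lit 760) (nat_lit 2100973462) (nat_lit 84) (nat_lit 5) (nat_lit 93) (nat_lit 5) (nat_lit 94) (nat_lit 5) (nat_lit 291) (nat_lit 286) (nat_lit 203)) (XT.nd (nat_lit 78) (nat_lit 684) (nat_lit 0) (XT.lf (nat_lit 76) (nat_lit 23947932786) (nat_lit 0) (nat_lit 11568295542) (nat_lit 760) (nat_lit 3173711910) (nat_lit 85) (nat_lit 5) (nat_lit 84) (nat_lit 5) (nat_lit 94) (nat_lit 5) (nat_lit 292) (nat_lit 286) (nat_lit 202)) (XT.lf (nat_lit 0) (nat_lit 795912943) (nat_lit 760) (nat_lit 25990801174) (nat_lit 76) (nat_lit 13603403175) (nat_lit 75) (nat_lit 5) (nat_lit 85) (nat_lit 5) (nat_lit 76) (nat_lit 5) (nat_lit 293) (nat_lit 286) (nat_lit 201))))) (XT.nd (nat_lit 156) (nat_lit 988) (nat_lit 0) (XT.nd (nat_lit 78) (nat_lit 0) (nat_lit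 0) (XT.lf (nat_lit 0) (nat_lit 4055737514) (nat_lit 380) (nat_lit 1430194295) (nat_lit 456) (nat_lit 36712090906) (nat_lit 70) (nat_lit 5) (nat_lit 75) (nat_lit 5) (nat_lit 76) (nat_lit 5) (nat_lit 294) (nat_lit 286) (nat_lit 200)) (XT.lf (nat_lit 0) (nat_lit 11410107817) (nat_lit 456) (nat_lit 7112720988) (nat_lit 76) (nat_lit 25584799152) (nat_lit 70) (nat_lit 5) (nat_lit 76) (nat_lit 5) (nat_lit 71) (nat_lit 5) (nat_lit 295) (nat_lit 286) (nat_lit 199))) (XT.nd (nat_lit 78) (nat_lit 608) (nat_lit 0) (XT.lf (nat_lit 0) (nat_lit 18392035374) (nat_lit 456) (nat_lit 19047018715) (nat_lit 76) (nat_lit 8701770697) (nat_lit 65) (nat_lit 5) (nat_lit 71) (nat_lit 5) (nat_lit 66) (nat_lit 5) (nat_lit 296) (nat_lit 286) (nat_lit 198)) (XT.nd (nat_lit 78) (nat_lit 304) (nat_lit 0) (XT.lf (nat_lit 0) (nat_lit 16157292855) (nat_lit 304) (nat_lit 10460138962) (nat_lit 380) (nat_lit 21685012812) (nat_lit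 61) (nat_lit 5) (nat_lit 65) (nat_lit 5) (nat_lit 66) (nat_lit 5) (nat_lit 297) (nat_lit 286) (nat_lit 197)) (XT.lf (nat_lit 0) (nat_lit 4064904782) (nat_lit 304) (nat_lit 32122965456) (nat_lit 380) (nat_lit 14414785349) (nat_lit 57) (nat_lit 5) (nat_lit 61) (nat_lit 5) (nat_lit 62) (nat_lit 5) (nat_lit 298) (nat_lit 286) (nat_lit 196)))))) (XT.nd (nat_lit 390) (nat_lit 836) (nat_lit 0) (XT.nd (nat_lit 156) (nat_lit 532) (nat_lit 0) (XT.nd (nat_lit 78) (nat_lit 304) (nat_lit 0) (XT.lf (nat_lit 0) (nat_lit 44131840601) (nat_lit 304) (nat_lit 3120604962) (nat_lit 380) (nat_lit 5798023912) (nat_lit 57) (nat_lit 5) (nat_lit 61) (nat_lit 5) (nat_lit 62) (nat_lit 5) (nat_lit 299) (nat_lit 286) (nat_lit 195)) (XT.lf (nat_lit 0) (nat_lit 4351152599) (nat_lit 304) (nat_lit 23419276551) (nat_lit 76) (nat_lit 27873182880) (nat_lit 53) (nat_lit 5) (nat_lit 57) (nat_lit 5) (nat_lit 54) (nat_lit 5)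 (nat_lit 300) (nat_lit 286) (nat_lit 194))) (XT.nd (nat_lit 78) (nat_lit 228) (nat_lit 0) (XT.lf (nat_lit 0) (nat_lit 15667128030) (nat_lit 380) (nat_lit 39476593173) (nat_lit 76) (nat_lit 3267841444) (nat_lit 49) (nat_lit 5) (nat_lit 54) (nat_lit 5) (nat_lit 50) (nat_lit 5) (nat_lit 301) (nat_lit 286) (nat_lit 193)) (XT.nd (nat_lit 78) (nat_lit 0) (nat_lit 0) (XT.lf (nat_lit 0) (nat_lit 3773819290) (nat_lit 228) (nat_lit 25052174938) (nat_lit 304) (nat_lit 32528082876) (nat_lit 46) (nat_lit 5) (nat_lit 49) (nat_lit 5) (nat_lit 50) (nat_lit 5) (nat_lit 302) (nat_lit 286) (nat_lit 192)) (XT.lf (nat_lit 0) (nat_lit 43848774241) (nat_lit 304) (nat_lit 12736460261) (nat_lit 76) (nat_lit 7906205793) (nat_lit 46) (nat_lit 5) (nat_lit 50) (nat_lit 5) (nat_lit 47) (nat_lit 5) (nat_lit 303) (nat_lit 286) (nat_lit 191))))) (XT.nd (nat_lit 156) (nat_lit 380) (nat_lit 0) (XT.nd (nat_lit 78) (nat_lit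 228) (nat_lit 0) (XT.lf (nat_lit 0) (nat_lit 36433635553) (nat_lit 228) (nat_lit 24627304072) (nat_lit 304) (nat_lit 6769481993) (nat_lit 43) (nat_lit 5) (nat_lit 46) (nat_lit 5) (nat_lit 47) (nat_lit 5) (nat_lit 304) (nat_lit 286) (nat_lit 190)) (XT.lf (nat_lit 0) (nat_lit 8634892473) (nat_lit 228) (nat_lit 52529739507) (nat_lit 76) (nat_lit 10231272967) (nat_lit 40) (nat_lit 5) (nat_lit 43) (nat_lit 5) (nat_lit 41) (nat_lit 5) (nat_lit 305) (nat_lit 286) (nat_lit 189))) (XT.nd (nat_lit 78) (nat_lit 380) (nat_lit 0) (XT.lf (nat_lit 0) (nat_lit 26005372860) (nat_lit 228) (nat_lit 1491074458) (nat_lit 76) (nat_lit 47696090487) (nat_lit 40) (nat_lit 5) (nat_lit 43) (nat_lit 5) (nat_lit 41) (nat_lit 5) (nat_lit 306) (nat_lit 286) (nat_lit 188)) (XT.nd (nat_lit 78) (nat_lit 152) (nat_lit 0) (XT.lf (nat_lit 0) (nat_lit 45779868808) (nat_lit 304) (nat_lit 24002966454) (nat_lit 76) (nat_lit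 9459352634) (nat_lit 37) (nat_lit 5) (nat_lit 41) (nat_lit 5) (nat_lit 38) (nat_lit 5) (nat_lit 307) (nat_lit 286) (nat_lit 187)) (XT.lf (nat_lit 0) (nat_lit 33552153441) (nat_lit 152) (nat_lit 34595067799) (nat_lit 228) (nat_lit 15418048974) (nat_lit 35) (nat_lit 5) (nat_lit 37) (nat_lit 5) (nat_lit 38) (nat_lit 5) (nat_lit 308) (nat_lit 286) (nat_lit 186))))))) (XT.nd (nat_lit 780) (nat_lit 684) (nat_lit 0) (XT.nd (nat_lit 390) (nat_lit 456) (nat_lit 0) (XT.nd (nat_lit 156) (nat_lit 380) (nat_lit 0) (XT.nd (nat_lit 78) (nat_lit 0) (nat_lit 0) (XT.lf (nat_lit 0) (nat_lit 4558538386) (nat_lit 304) (nat_lit 79711933733) (nat_lit 76) (nat_lit 3929602765) (nat_lit 31) (nat_lit 5) (nat_lit 35) (nat_lit 5) (nat_lit 32) (nat_lit 5) (nat_lit 309) (nat_lit 286) (nat_lit 185)) (XT.lf (nat_lit 0) (nat_lit 27066363848) (nat_lit 304) (nat_lit 20568427620) (nat_lit 76) (nat_lit 45484574621) (nat_lit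 31) (nat_lit 5) (nat_lit 35) (nat_lit 5) (nat_lit 32) (nat_lit 5) (nat_lit 310) (nat_lit 286) (nat_lit 184))) (XT.nd (nat_lit 78) (nat_lit 228) (nat_lit 0) (XT.lf (nat_lit 0) (nat_lit 44734470032) (nat_lit 152) (nat_lit 7336228264) (nat_lit 228) (nat_lit 46326711971) (nat_lit 29) (nat_lit 5) (nat_lit 31) (nat_lit 5) (nat_lit 32) (nat_lit 5) (nat_lit 311) (nat_lit 286) (nat_lit 183)) (XT.nd (nat_lit 78) (nat_lit 76) (nat_lit 0) (XT.lf (nat_lit 0) (nat_lit 11716665030) (nat_lit 152) (nat_lit 68468338385) (nat_lit 228) (nat_lit 23857216910) (nat_lit 27) (nat_lit 5) (nat_lit 29) (nat_lit 5) (nat_lit 30) (nat_lit 5) (nat_lit 312) (nat_lit 286) (nat_lit 182)) (XT.lf (nat_lit 0) (nat_lit 1468166403) (nat_lit 228) (nat_lit 25998099479) (nat_lit 76) (nat_lit 82618460190) (nat_lit 26) (nat_lit 5) (nat_lit 29) (nat_lit 5) (nat_lit 27) (nat_lit 5) (nat_lit 313) (nat_lit 286) (nat_lit 181))))) (XT.nd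 (nat_lit 156) (nat_lit 152) (nat_lit 0) (XT.nd (nat_lit 78) (nat_lit 152) (nat_lit 0) (XT.lf (nat_lit 0) (nat_lit 29003326262) (nat_lit 228) (nat_lit 70109901436) (nat_lit 76) (nat_lit 17426873052) (nat_lit 24) (nat_lit 5) (nat_lit 27) (nat_lit 5) (nat_lit 25) (nat_lit 5) (nat_lit 314) (nat_lit 286) (nat_lit 180)) (XT.lf (nat_lit 0) (nat_lit 1671440564) (nat_lit 152) (nat_lit 58017290900) (nat_lit 228) (nat_lit 63775804984) (nat_lit 22) (nat_lit 5) (nat_lit 24) (nat_lit 5) (nat_lit 25) (nat_lit 5) (nat_lit 315) (nat_lit 286) (nat_lit 179))) (XT.nd (nat_lit 78) (nat_lit 152) (nat_lit 0) (XT.lf (nat_lit 0) (nat_lit 81695654648) (nat_lit 152) (nat_lit 12352598930) (nat_lit 228) (nat_lit 36833711680) (nat_lit 22) (nat_lit 5) (nat_lit 24) (nat_lit 5) (nat_lit 25) (nat_lit 5) (nat_lit 316) (nat_lit 286) (nat_lit 178)) (XT.nd (nat_lit 78) (nat_lit 76) (nat_lit 0) (XT.lf (nat_lit 0) (nat_lit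 29596071653) (nat_lit 76) (nat_lit 102597819020) (nat_lit 152) (nat_lit 6647032333) (nat_lit 21) (nat_lit 5) (nat_lit 22) (nat_lit 5) (nat_lit 23) (nat_lit 4) (nat_lit 317) (nat_lit 286) (nat_lit 177)) (XT.lf (nat_lit 0) (nat_lit 26201204394) (nat_lit 152) (nat_lit 31586844169) (nat_lit 76) (nat_lit 89574423061) (nat_lit 20) (nat_lit 5) (nat_lit 22) (nat_lit 5) (nat_lit 21) (nat_lit 5) (nat_lit 318) (nat_lit 286) (nat_lit 176)))))) (XT.nd (nat_lit 390) (nat_lit 228) (nat_lit 0) (XT.nd (nat_lit 156) (nat_lit 304) (nat_lit 0) (XT.nd (nat_lit 78) (nat_lit 0) (nat_lit 0) (XT.lf (nat_lit 0) (nat_lit 53893884343) (nat_lit 152) (nat_lit 8393421746) (nat_lit 228) (nat_lit 94230847245) (nat_lit 18) (nat_lit 5) (nat_lit 20) (nat_lit 5) (nat_lit 21) (nat_lit 5) (nat_lit 319) (nat_lit 286) (nat_lit 175)) (XT.lf (nat_lit 0) (nat_lit 102519779741) (nat_lit 228) (nat_lit 19751332331) (nat_lit 76) (nat_lit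 44072205054) (nat_lit 18) (nat_lit 5) (nat_lit 21) (nat_lit 5) (nat_lit 19) (nat_lit 4) (nat_lit 320) (nat_lit 286) (nat_lit 174))) (XT.nd (nat_lit 78) (nat_lit 228) (nat_lit 0) (XT.lf (nat_lit 0) (nat_lit 71908924979) (nat_lit 76) (nat_lit 75324675435) (nat_lit 152) (nat_lit 29657757758) (nat_lit 17) (nat_lit 5) (nat_lit 18) (nat_lit 5) (nat_lit 19) (nat_lit 4) (nat_lit 321) (nat_lit 286) (nat_lit 173)) (XT.nd (nat_lit 78) (nat_lit 152) (nat_lit 0) (XT.lf (nat_lit 0) (nat_lit 7357781918) (nat_lit 152) (nat_lit 16779879897) (nat_lit 76) (nat_lit 164122516065) (nat_lit 16) (nat_lit 5) (nat_lit 18) (nat_lit 5) (nat_lit 17) (nat_lit 5) (nat_lit 322) (nat_lit 286) (nat_lit 172)) (XT.lf (nat_lit 0) (nat_lit 48080803744) (nat_lit 228) (nat_lit 120410961402) (nat_lit 76) (nat_lit 31933164576) (nat_lit 14) (nat_lit 5) (nat_lit 17) (nat_lit 5) (nat_lit 15) (nat_lit 4) (nat_lit 323) (nat_lit 286)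 (nat_lit 171))))) (XT.nd (nat_lit 234) (nat_lit 152) (nat_lit 0) (XT.nd (nat_lit 78) (nat_lit 76) (nat_lit 0) (XT.lf (nat_lit 0) (nat_lit 92764482981) (nat_lit 228) (nat_lit 28811743813) (nat_lit 76) (nat_lit 91951495350) (nat_lit 14) (nat_lit 5) (nat_lit 17) (nat_lit 5) (nat_lit 15) (nat_lit 4) (nat_lit 324) (nat_lit 286) (nat_lit 170)) (XT.nd (nat_lit 78) (nat_lit 0) (nat_lit 0) (XT.lf (nat_lit 0) (nat_lit 72431611634) (nat_lit 76) (nat_lit 69720924070) (nat_lit 152) (nat_lit 85469719422) (nat_lit 13) (nat_lit 5) (nat_lit 14) (nat_lit 5) (nat_lit 15) (nat_lit 4) (nat_lit 325) (nat_lit 286) (nat_lit 169)) (XT.lf (nat_lit 0) (nat_lit 182801319805) (nat_lit 76) (nat_lit 13191070217) (nat_lit 152) (nat_lit 46826923897) (nat_lit 13) (nat_lit 5) (nat_lit 14) (nat_lit 5) (nat_lit 15) (nat_lit 4) (nat_lit 326) (nat_lit 286) (nat_lit 168)))) (XT.nd (nat_lit 78) (nat_lit 76) (nat_lit 0) (XT.lf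 (nat_lit 0) (nat_lit 43408701387) (nat_lit 76) (nat_lit 212154656222) (nat_lit 76) (nat_lit 3597584526) (nat_lit 12) (nat_lit 4) (nat_lit 13) (nat_lit 5) (nat_lit 13) (nat_lit 4) (nat_lit 327) (nat_lit 286) (nat_lit 167)) (XT.nd (nat_lit 78) (nat_lit 0) (nat_lit 0) (XT.lf (nat_lit 0) (nat_lit 42994968077) (nat_lit 152) (nat_lit 120419014595) (nat_lit 76) (nat_lit 113298080000) (nat_lit 11) (nat_lit 5) (nat_lit 13) (nat_lit 5) (nat_lit 12) (nat_lit 4) (nat_lit 328) (nat_lit 286) (nat_lit 166)) (XT.lf (nat_lit 0) (nat_lit 93189622959) (nat_lit 152) (nat_lit 17521478995) (nat_lit 76) (nat_lit 184953185852) (nat_lit 11) (nat_lit 5) (nat_lit 13) (nat_lit 5) (nat_lit 12) (nat_lit 4) (nat_lit 329) (nat_lit 286) (nat_lit 165))))))))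
noncomputable def xc96 : XT := (XT.nd (nat_lit 37752) (nat_lit 0) (nat_lit 1748) (XT.nd (nat_lit 780) (nat_lit 76) (nat_lit 0) (XT.nd (nat_lit 390) (nat_lit 76) (nat_lit 0) (XT.nd (nat_lit 156) (nat_lit 152) (nat_lit 0) (XT.nd (nat_lit 78) (nat_lit 0) (nat_lit 0) (XT.lf (nat_lit 0) (nat_lit 96701344539) (nat_lit 76) (nat_lit 52207409550) (nat_lit 152) (nat_lit 167148492396) (nat_lit 10) (nat_lit 5) (nat_lit 11) (nat_lit 5) (nat_lit 12) (nat_lit 4) (nat_lit 330) (nat_lit 286) (nat_lit 164)) (XT.lf (nat_lit 0) (nat_lit 209566163265) (nat_lit 152) (nat_lit 117556605555) (nat_lit 0) (nat_lit 10934836337) (nat_lit 10) (nat_lit 5) (nat_lit 12) (nat_lit 4) (nat_lit 10) (nat_lit 4) (nat_lit 331) (nat_lit 286) (nat_lit 163))) (XT.nd (nat_lit 78) (nat_lit 152) (nat_lit 0) (XT.lf (nat_lit 0) (nat_lit 275955696035) (nat_lit 152) (nat_lit 8495090727) (nat_lit 0) (nat_lit 77323229840) (nat_lit 10)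 (nat_lit 5) (nat_lit 12) (nat_lit 4) (nat_lit 10) (nat_lit 4) (nat_lit 332) (nat_lit 286) (nat_lit 162)) (XT.nd (nat_lit 78) (nat_lit 76) (nat_lit 0) (XT.lf (nat_lit 0) (nat_lit 112903659159) (nat_lit 76) (nat_lit 236514751254) (nat_lit 76) (nat_lit 37881230181) (nat_lit 9) (nat_lit 4) (nat_lit 10) (nat_lit 5) (nat_lit 10) (nat_lit 4) (nat_lit 333) (nat_lit 286) (nat_lit 161)) (XT.lf (nat_lit 0) (nat_lit 13595937782) (nat_lit 152) (nat_lit 170762825357) (nat_lit 76) (nat_lit 230490222961) (nat_lit 8) (nat_lit 5) (nat_lit 10) (nat_lit 5) (nat_lit 9) (nat_lit 4) (nat_lit 334) (nat_lit 286) (nat_lit 160))))) (XT.nd (nat_lit 156) (nat_lit 0) (nat_lit 0) (XT.nd (nat_lit 78) (nat_lit 76) (nat_lit 0) (XT.lf (nat_lit 0) (nat_lit 67881199007) (nat_lit 152) (nat_lit 59478944233) (nat_lit 76) (nat_lit 317210231609) (nat_lit 8) (nat_lit 5) (nat_lit 10) (nat_lit 5) (nat_lit 9) (nat_lit 4) (nat_lit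 335) (nat_lit 286) (nat_lit 159)) (XT.lf (nat_lit 0) (nat_lit 62713786976) (nat_lit 76) (nat_lit 64774030862) (nat_lit 152) (nat_lit 349132730462) (nat_lit 7) (nat_lit 5) (nat_lit 8) (nat_lit 5) (nat_lit 9) (nat_lit 4) (nat_lit 336) (nat_lit 286) (nat_lit 158))) (XT.nd (nat_lit 78) (nat_lit 0) (nat_lit 0) (XT.lf (nat_lit 0) (nat_lit 192959467610) (nat_lit 152) (nat_lit 314439085228) (nat_lit 0) (nat_lit 3781358124) (nat_lit 7) (nat_lit 5) (nat_lit 9) (nat_lit 4) (nat_lit 7) (nat_lit 4) (nat_lit 337) (nat_lit 286) (nat_lit 157)) (XT.nd (nat_lit 78) (nat_lit 0) (nat_lit 0) (XT.lf (nat_lit 0) (nat_lit 264760520410) (nat_lit 152) (nat_lit 208107191868) (nat_lit 0) (nat_lit 75581727180) (nat_lit 7) (nat_lit 5) (nat_lit 9) (nat_lit 4) (nat_lit 7) (nat_lit 4) (nat_lit 338) (nat_lit 286) (nat_lit 156)) (XT.lf (nat_lit 0) (nat_lit 342305159809) (nat_lit 152) (nat_lit 93269662171) (nat_lit 0) (nat_lit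 153125733482) (nat_lit 7) (nat_lit 5) (nat_lit 9) (nat_lit 4) (nat_lit 7) (nat_lit 4) (nat_lit 339) (nat_lit 286) (nat_lit 155)))))) (XT.nd (nat_lit 36582) (nat_lit 0) (nat_lit 5700) (XT.nd (nat_lit 156) (nat_lit 0) (nat_lit 0) (XT.nd (nat_lit 78) (nat_lit 0) (nat_lit 0) (XT.lf (nat_lit 0) (nat_lit 31770889432) (nat_lit 76) (nat_lit 394778052786) (nat_lit 76) (nat_lit 205598040258) (nat_lit 6) (nat_lit 4) (nat_lit 7) (nat_lit 5) (nat_lit 7) (nat_lit 4) (nat_lit 340) (nat_lit 286) (nat_lit 154)) (XT.lf (nat_lit 0) (nat_lit 170144504194) (nat_lit 76) (nat_lit 349011981079) (nat_lit 76) (nat_lit 159831425773) (nat_lit 6) (nat_lit 4) (nat_lit 7) (nat_lit 5) (nat_lit 7) (nat_lit 4) (nat_lit 341) (nat_lit 286) (nat_lit 153))) (XT.nd (nat_lit 78) (nat_lit 0) (nat_lit 0) (XT.lf (nat_lit 0) (nat_lit 319587257657) (nat_lit 76) (nat_lit 299584967369) (nat_lit 76) (nat_lit 110403909490) (nat_lit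 6) (nat_lit 4) (nat_lit 7) (nat_lit 5) (nat_lit 7) (nat_lit 4) (nat_lit 342) (nat_lit 286) (nat_lit 152)) (XT.nd (nat_lit 36270) (nat_lit 0) (nat_lit 5700) (XT.lf (nat_lit 0) (nat_lit 480984736506) (nat_lit 76) (nat_lit 246204110833) (nat_lit 76) (nat_lit 57022587609) (nat_lit 6) (nat_lit 4) (nat_lit 7) (nat_lit 5) (nat_lit 7) (nat_lit 4) (nat_lit 343) (nat_lit 286) (nat_lit 151)) (XT.lf (nat_lit 0) (nat_lit 5130217641) (nat_lit 0) (nat_lit 5130217641) (nat_lit 684) (nat_lit 6121076886) (nat_lit 81) (nat_lit 5) (nat_lit 81) (nat_lit 3) (nat_lit 90) (nat_lit 3) (nat_lit 287) (nat_lit 287) (nat_lit 206))))) (XT.nd (nat_lit 156) (nat_lit 0) (nat_lit 76) (XT.nd (nat_lit 78) (nat_lit 0) (nat_lit 76) (XT.lf (nat_lit 76) (nat_lit 359778364) (nat_lit 0) (nat_lit 21282339090) (nat_lit 760) (nat_lit 12416173388) (nat_lit 82) (nat_lit 5) (nat_lit 81) (nat_lit 5) (nat_lit 91) (nat_lit 5) (nat_lit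 288) (nat_lit 287) (nat_lit 205)) (XT.lf (nat_lit 0) (nat_lit 23441720946) (nat_lit 684) (nat_lit 9794071196) (nat_lit 760) (nat_lit 2191977083) (nat_lit 82) (nat_lit 5) (nat_lit 91) (nat_lit 5) (nat_lit 92) (nat_lit 5) (nat_lit 289) (nat_lit 287) (nat_lit 204))) (XT.nd (nat_lit 78) (nat_lit 0) (nat_lit 76) (XT.lf (nat_lit 76) (nat_lit 16176359084) (nat_lit 0) (nat_lit 9812166950) (nat_lit 760) (nat_lit 10888139842) (nat_lit 83) (nat_lit 5) (nat_lit 82) (nat_lit 5) (nat_lit 92) (nat_lit 5) (nat_lit 290) (nat_lit 287) (nat_lit 203)) (XT.nd (nat_lit 78) (nat_lit 0) (nat_lit 76) (XT.lf (nat_lit 76) (nat_lit 6085978319) (nat_lit 0) (nat_lit 23155674111) (nat_lit 760) (nat_lit 9174713044) (nat_lit 84) (nat_lit 5) (nat_lit 83) (nat_lit 5) (nat_lit 93) (nat_lit 5) (nat_lit 291) (nat_lit 287) (nat_lit 202)) (XT.lf (nat_lit 0) (nat_lit 33307282644) (nat_lit 684) (nat_lit 4511249747) (nat_lit 760)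 (nat_lit 2233114538) (nat_lit 84) (nat_lit 5) (nat_lit 93) (nat_lit 5) (nat_lit 94) (nat_lit 5) (nat_lit 292) (nat_lit 287) (nat_lit 201))))))) (XT.nd (nat_lit 780) (nat_lit 1520) (nat_lit 0) (XT.nd (nat_lit 390) (nat_lit 1216) (nat_lit 0) (XT.nd (nat_lit 156) (nat_lit 760) (nat_lit 0) (XT.nd (nat_lit 78) (nat_lit 684) (nat_lit 0) (XT.lf (nat_lit 76) (nat_lit 25968921997) (nat_lit 0) (nat_lit 12518558998) (nat_lit 760) (nat_lit 3290821216) (nat_lit 85) (nat_lit 5) (nat_lit 84) (nat_lit 5) (nat_lit 94) (nat_lit 5) (nat_lit 293) (nat_lit 287) (nat_lit 200)) (XT.lf (nat_lit 0) (nat_lit 983528811) (nat_lit 760) (nat_lit 27958179935) (nat_lit 76) (nat_lit 14673124911) (nat_lit 75) (nat_lit 5) (nat_lit 85) (nat_lit 5) (nat_lit 76) (nat_lit 5) (nat_lit 294) (nat_lit 287) (nat_lit 199))) (XT.nd (nat_lit 78) (nat_lit 380) (nat_lit 0) (XT.lf (nat_lit 0) (nat_lit 4487219448) (nat_lit 380) (nat_lit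 1554019715) (nat_lit 456) (nat_lit 39526529768) (nat_lit 70) (nat_lit 5) (nat_lit 75) (nat_lit 5) (nat_lit 76) (nat_lit 5) (nat_lit 295) (nat_lit 287) (nat_lit 198)) (XT.nd (nat_lit 78) (nat_lit 380) (nat_lit 0) (XT.lf (nat_lit 0) (nat_lit 12430588567) (nat_lit 456) (nat_lit 7576863252) (nat_lit 76) (nat_lit 27623149101) (nat_lit 70) (nat_lit 5) (nat_lit 76) (nat_lit 5) (nat_lit 71) (nat_lit 5) (nat_lit 296) (nat_lit 287) (nat_lit 197)) (XT.lf (nat_lit 0) (nat_lit 19964646102) (nat_lit 456) (nat_lit 20465149791) (nat_lit 76) (nat_lit 9396997604) (nat_lit 65) (nat_lit 5) (nat_lit 71) (nat_lit 5) (nat_lit 66) (nat_lit 5) (nat_lit 297) (nat_lit 287) (nat_lit 196))))) (XT.nd (nat_lit 156) (nat_lit 608) (nat_lit 0) (XT.nd (nat_lit 78) (nat_lit 304) (nat_lit 0) (XT.lf (nat_lit 0) (nat_lit 17550916135) (nat_lit 304) (nat_lit 11291235797) (nat_lit 380) (nat_lit 23319504511) (nat_lit 61) (nat_lit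 5) (nat_lit 65) (nat_lit 5) (nat_lit 66) (nat_lit 5) (nat_lit 298) (nat_lit 287) (nat_lit 195)) (XT.lf (nat_lit 0) (nat_lit 4491427777) (nat_lit 304) (nat_lit 34681401157) (nat_lit 380) (nat_lit 15473341276) (nat_lit 57) (nat_lit 5) (nat_lit 61) (nat_lit 5) (nat_lit 62) (nat_lit 5) (nat_lit 299) (nat_lit 287) (nat_lit 194))) (XT.nd (nat_lit 78) (nat_lit 608) (nat_lit 0) (XT.lf (nat_lit 0) (nat_lit 47756212491) (nat_lit 304) (nat_lit 3359696382) (nat_lit 380) (nat_lit 6174248324) (nat_lit 57) (nat_lit 5) (nat_lit 61) (nat_lit 5) (nat_lit 62) (nat_lit 5) (nat_lit 300) (nat_lit 287) (nat_lit 193)) (XT.nd (nat_lit 78) (nat_lit 304) (nat_lit 0) (XT.lf (nat_lit 0) (nat_lit 4779418358) (nat_lit 304) (nat_lit 25196253081) (nat_lit 76) (nat_lit 30115256455) (nat_lit 53) (nat_lit 5) (nat_lit 57) (nat_lit 5) (nat_lit 54) (nat_lit 5) (nat_lit 301) (nat_lit 287) (nat_lit 192)) (XT.lf (nat_lit 0) (nat_lit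 16996435790) (nat_lit 380) (nat_lit 42538676179) (nat_lit 76) (nat_lit 3545426572) (nat_lit 49) (nat_lit 5) (nat_lit 54) (nat_lit 5) (nat_lit 50) (nat_lit 5) (nat_lit 302) (nat_lit 287) (nat_lit 191)))))) (XT.nd (nat_lit 390) (nat_lit 836) (nat_lit 0) (XT.nd (nat_lit 156) (nat_lit 456) (nat_lit 0) (XT.nd (nat_lit 78) (nat_lit 0) (nat_lit 0) (XT.lf (nat_lit 0) (nat_lit 4167595306) (nat_lit 228) (nat_lit 27036225332) (nat_lit 304) (nat_lit 35054854326) (nat_lit 46) (nat_lit 5) (nat_lit 49) (nat_lit 5) (nat_lit 50) (nat_lit 5) (nat_lit 303) (nat_lit 287) (nat_lit 190)) (XT.lf (nat_lit 0) (nat_lit 47423399382) (nat_lit 304) (nat_lit 13667150605) (nat_lit 76) (nat_lit 8556738849) (nat_lit 46) (nat_lit 5) (nat_lit 50) (nat_lit 5) (nat_lit 47) (nat_lit 5) (nat_lit 304) (nat_lit 287) (nat_lit 189))) (XT.nd (nat_lit 78) (nat_lit 228) (nat_lit 0) (XT.lf (nat_lit 0) (nat_lit 39432718658) (nat_lit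 228) (nat_lit 26576194479) (nat_lit 304) (nat_lit 7244666440) (nat_lit 43) (nat_lit 5) (nat_lit 46) (nat_lit 5) (nat_lit 47) (nat_lit 5) (nat_lit 305) (nat_lit 287) (nat_lit 188)) (XT.nd (nat_lit 78) (nat_lit 0) (nat_lit 0) (XT.lf (nat_lit 0) (nat_lit 9386812914) (nat_lit 228) (nat_lit 56646450815) (nat_lit 76) (nat_lit 11071150589) (nat_lit 40) (nat_lit 5) (nat_lit 43) (nat_lit 5) (nat_lit 41) (nat_lit 5) (nat_lit 306) (nat_lit 287) (nat_lit 187)) (XT.lf (nat_lit 0) (nat_lit 28142403654) (nat_lit 228) (nat_lit 1531038329) (nat_lit 76) (nat_lit 51531570119) (nat_lit 40) (nat_lit 5) (nat_lit 43) (nat_lit 5) (nat_lit 41) (nat_lit 5) (nat_lit 307) (nat_lit 287) (nat_lit 186))))) (XT.nd (nat_lit 156) (nat_lit 456) (nat_lit 0) (XT.nd (nat_lit 78) (nat_lit 152) (nat_lit 0) (XT.lf (nat_lit 0) (nat_lit 49496199116) (nat_lit 304) (nat_lit 25844905794) (nat_lit 76) (nat_lit 10237669608) (nat_lit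 37) (nat_lit 5) (nat_lit 41) (nat_lit 5) (nat_lit 38) (nat_lit 5) (nat_lit 308) (nat_lit 287) (nat_lit 185)) (XT.lf (nat_lit 0) (nat_lit 36311220958) (nat_lit 152) (nat_lit 37338892494) (nat_lit 228) (nat_lit 16597738052) (nat_lit 35) (nat_lit 5) (nat_lit 37) (nat_lit 5) (nat_lit 38) (nat_lit 5) (nat_lit 309) (nat_lit 287) (nat_lit 184))) (XT.nd (nat_lit 78) (nat_lit 152) (nat_lit 0) (XT.lf (nat_lit 0) (nat_lit 4972922112) (nat_lit 304) (nat_lit 86013359680) (nat_lit 76) (nat_lit 4267239445) (nat_lit 31) (nat_lit 5) (nat_lit 35) (nat_lit 5) (nat_lit 32) (nat_lit 5) (nat_lit 310) (nat_lit 287) (nat_lit 183)) (XT.nd (nat_lit 78) (nat_lit 152) (nat_lit 0) (XT.lf (nat_lit 0) (nat_lit 29277692081) (nat_lit 304) (nat_lit 22143967801) (nat_lit 76) (nat_lit 49144885460) (nat_lit 31) (nat_lit 5) (nat_lit 35) (nat_lit 5) (nat_lit 32) (nat_lit 5) (nat_lit 311) (nat_lit 287) (nat_lit 182)) (XT.lf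 (nat_lit 0) (nat_lit 48380122417) (nat_lit 152) (nat_lit 7899886459) (nat_lit 228) (nat_lit 49986947516) (nat_lit 29) (nat_lit 5) (nat_lit 31) (nat_lit 5) (nat_lit 32) (nat_lit 5) (nat_lit 312) (nat_lit 287) (nat_lit 181))))))))
noncomputable def xc97 : XT := (XT.nd (nat_lit 1560) (nat_lit 304) (nat_lit 0) (XT.nd (nat_lit 780) (nat_lit 532) (nat_lit 0) (XT.nd (nat_lit 390) (nat_lit 380) (nat_lit 0) (XT.nd (nat_lit 156) (nat_lit 304) (nat_lit 0) (XT.nd (nat_lit 78) (nat_lit 76) (nat_lit 0) (XT.lf (nat_lit 0) (nat_lit 12719787832) (nat_lit 152) (nat_lit 73921800015) (nat_lit 228) (nat_lit 25721861673) (nat_lit 27) (nat_lit 5) (nat_lit 29) (nat_lit 5) (nat_lit 30) (nat_lit 5) (nat_lit 313) (nat_lit 287) (nat_lit 180)) (XT.lf (nat_lit 0) (nat_lit 1624996080) (nat_lit 228) (nat_lit 28015676956) (nat_lit 76) (nat_lit 89248810081) (nat_lit 26) (nat_lit 5) (nat_lit 29) (nat_lit 5) (nat_lit 27)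 (nat_lit 5) (nat_lit 314) (nat_lit 287) (nat_lit 179))) (XT.nd (nat_lit 78) (nat_lit 152) (nat_lit 0) (XT.lf (nat_lit 0) (nat_lit 31361328134) (nat_lit 228) (nat_lit 75657557643) (nat_lit 76) (nat_lit 18842487888) (nat_lit 24) (nat_lit 5) (nat_lit 27) (nat_lit 5) (nat_lit 25) (nat_lit 5) (nat_lit 315) (nat_lit 287) (nat_lit 178)) (XT.nd (nat_lit 78) (nat_lit 0) (nat_lit 0) (XT.lf (nat_lit 0) (nat_lit 1863634825) (nat_lit 152) (nat_lit 62636048706) (nat_lit 228) (nat_lit 68840178381) (nat_lit 22) (nat_lit 5) (nat_lit 24) (nat_lit 5) (nat_lit 25) (nat_lit 5) (nat_lit 316) (nat_lit 287) (nat_lit 177)) (XT.lf (nat_lit 0) (nat_lit 88285454256) (nat_lit 152) (nat_lit 13319857339) (nat_lit 228) (nat_lit 39745509538) (nat_lit 22) (nat_lit 5) (nat_lit 24) (nat_lit 5) (nat_lit 25) (nat_lit 5) (nat_lit 317) (nat_lit 287) (nat_lit 176))))) (XT.nd (nat_lit 156) (nat_lit 228) (nat_lit 0) (XT.nd (nat_lit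 78) (nat_lit 76) (nat_lit 0) (XT.lf (nat_lit 0) (nat_lit 32016865989) (nat_lit 76) (nat_lit 110784406604) (nat_lit 152) (nat_lit 7145292332) (nat_lit 21) (nat_lit 5) (nat_lit 22) (nat_lit 5) (nat_lit 23) (nat_lit 4) (nat_lit 318) (nat_lit 287) (nat_lit 175)) (XT.lf (nat_lit 0) (nat_lit 28327328796) (nat_lit 152) (nat_lit 34063590355) (nat_lit 76) (nat_lit 96759014949) (nat_lit 20) (nat_lit 5) (nat_lit 22) (nat_lit 5) (nat_lit 21) (nat_lit 5) (nat_lit 319) (nat_lit 287) (nat_lit 174))) (XT.nd (nat_lit 78) (nat_lit 76) (nat_lit 0) (XT.lf (nat_lit 0) (nat_lit 58253414749) (nat_lit 152) (nat_lit 9045429300) (nat_lit 228) (nat_lit 101739302535) (nat_lit 18) (nat_lit 5) (nat_lit 20) (nat_lit 5) (nat_lit 21) (nat_lit 5) (nat_lit 320) (nat_lit 287) (nat_lit 173)) (XT.nd (nat_lit 78) (nat_lit 76) (nat_lit 0) (XT.lf (nat_lit 0) (nat_lit 110748081930) (nat_lit 228) (nat_lit 21285906738) (nat_lit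 76) (nat_lit 47615428816) (nat_lit 18) (nat_lit 5) (nat_lit 21) (nat_lit 5) (nat_lit 19) (nat_lit 4) (nat_lit 321) (nat_lit 287) (nat_lit 172)) (XT.lf (nat_lit 0) (nat_lit 77705192383) (nat_lit 76) (nat_lit 81332516618) (nat_lit 152) (nat_lit 32003659924) (nat_lit 17) (nat_lit 5) (nat_lit 18) (nat_lit 5) (nat_lit 19) (nat_lit 4) (nat_lit 322) (nat_lit 287) (nat_lit 171)))))) (XT.nd (nat_lit 390) (nat_lit 228) (nat_lit 0) (XT.nd (nat_lit 156) (nat_lit 76) (nat_lit 0) (XT.nd (nat_lit 78) (nat_lit 152) (nat_lit 0) (XT.lf (nat_lit 0) (nat_lit 7970351969) (nat_lit 152) (nat_lit 18081127551) (nat_lit 76) (nat_lit 177268291518) (nat_lit 16) (nat_lit 5) (nat_lit 18) (nat_lit 5) (nat_lit 17) (nat_lit 5) (nat_lit 323) (nat_lit 287) (nat_lit 170)) (XT.lf (nat_lit 0) (nat_lit 51950314742) (nat_lit 228) (nat_lit 130003580899) (nat_lit 76) (nat_lit 34503854183) (nat_lit 14) (nat_lit 5) (nat_lit 17)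 (nat_lit 5) (nat_lit 15) (nat_lit 4) (nat_lit 324) (nat_lit 287) (nat_lit 169))) (XT.nd (nat_lit 78) (nat_lit 76) (nat_lit 0) (XT.lf (nat_lit 0) (nat_lit 100206981156) (nat_lit 228) (nat_lit 31079407933) (nat_lit 76) (nat_lit 99322463534) (nat_lit 14) (nat_lit 5) (nat_lit 17) (nat_lit 5) (nat_lit 15) (nat_lit 4) (nat_lit 325) (nat_lit 287) (nat_lit 168)) (XT.nd (nat_lit 78) (nat_lit 0) (nat_lit 0) (XT.lf (nat_lit 0) (nat_lit 78261796007) (nat_lit 76) (nat_lit 75283258065) (nat_lit 152) (nat_lit 92285946879) (nat_lit 13) (nat_lit 5) (nat_lit 14) (nat_lit 5) (nat_lit 15) (nat_lit 4) (nat_lit 326) (nat_lit 287) (nat_lit 167)) (XT.lf (nat_lit 0) (nat_lit 197458439688) (nat_lit 76) (nat_lit 14232152195) (nat_lit 152) (nat_lit 50553309200) (nat_lit 13) (nat_lit 5) (nat_lit 14) (nat_lit 5) (nat_lit 15) (nat_lit 4) (nat_lit 327) (nat_lit 287) (nat_lit 166))))) (XT.nd (nat_lit 156) (nat_lit 76)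 (nat_lit 0) (XT.nd (nat_lit 78) (nat_lit 76) (nat_lit 0) (XT.lf (nat_lit 0) (nat_lit 46913681233) (nat_lit 76) (nat_lit 229112871633) (nat_lit 76) (nat_lit 3866342180) (nat_lit 12) (nat_lit 4) (nat_lit 13) (nat_lit 5) (nat_lit 13) (nat_lit 4) (nat_lit 328) (nat_lit 287) (nat_lit 165)) (XT.lf (nat_lit 0) (nat_lit 46451639058) (nat_lit 152) (nat_lit 130022064666) (nat_lit 76) (nat_lit 122374456064) (nat_lit 11) (nat_lit 5) (nat_lit 13) (nat_lit 5) (nat_lit 12) (nat_lit 4) (nat_lit 329) (nat_lit 287) (nat_lit 164))) (XT.nd (nat_lit 78) (nat_lit 76) (nat_lit 0) (XT.lf (nat_lit 0) (nat_lit 100660601623) (nat_lit 152) (nat_lit 18894983336) (nat_lit 76) (nat_lit 199761042261) (nat_lit 11) (nat_lit 5) (nat_lit 13) (nat_lit 5) (nat_lit 12) (nat_lit 4) (nat_lit 330) (nat_lit 287) (nat_lit 163)) (XT.nd (nat_lit 78) (nat_lit 0) (nat_lit 0) (XT.lf (nat_lit 0) (nat_lit 104464439936) (nat_lit 76) (nat_lit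 56372073640) (nat_lit 152) (nat_lit 180504547477) (nat_lit 10) (nat_lit 5) (nat_lit 11) (nat_lit 5) (nat_lit 12) (nat_lit 4) (nat_lit 331) (nat_lit 287) (nat_lit 162)) (XT.lf (nat_lit 0) (nat_lit 226345572436) (nat_lit 152) (nat_lit 126935609236) (nat_lit 0) (nat_lit 11820314801) (nat_lit 10) (nat_lit 5) (nat_lit 12) (nat_lit 4) (nat_lit 10) (nat_lit 4) (nat_lit 332) (nat_lit 287) (nat_lit 161))))))) (XT.nd (nat_lit 780) (nat_lit 0) (nat_lit 0) (XT.nd (nat_lit 390) (nat_lit 76) (nat_lit 0) (XT.nd (nat_lit 156) (nat_lit 152) (nat_lit 0) (XT.nd (nat_lit 78) (nat_lit 76) (nat_lit 0) (XT.lf (nat_lit 0) (nat_lit 298045222191) (nat_lit 152) (nat_lit 9151063945) (nat_lit 0) (nat_lit 83518987817) (nat_lit 10) (nat_lit 5) (nat_lit 12) (nat_lit 4) (nat_lit 10) (nat_lit 4) (nat_lit 333) (nat_lit 287) (nat_lit 160)) (XT.lf (nat_lit 0) (nat_lit 121958558826) (nat_lit 76) (nat_lit 255425779668) (nat_lit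 76) (nat_lit 40898640907) (nat_lit 9) (nat_lit 4) (nat_lit 10) (nat_lit 5) (nat_lit 10) (nat_lit 4) (nat_lit 334) (nat_lit 287) (nat_lit 159))) (XT.nd (nat_lit 78) (nat_lit 76) (nat_lit 0) (XT.lf (nat_lit 0) (nat_lit 14695343176) (nat_lit 152) (nat_lit 184402522645) (nat_lit 76) (nat_lit 248938444113) (nat_lit 8) (nat_lit 5) (nat_lit 10) (nat_lit 5) (nat_lit 9) (nat_lit 4) (nat_lit 335) (nat_lit 287) (nat_lit 158)) (XT.nd (nat_lit 78) (nat_lit 76) (nat_lit 0) (XT.lf (nat_lit 0) (nat_lit 73322556382) (nat_lit 152) (nat_lit 64217510938) (nat_lit 76) (nat_lit 342595386541) (nat_lit 8) (nat_lit 5) (nat_lit 10) (nat_lit 5) (nat_lit 9) (nat_lit 4) (nat_lit 336) (nat_lit 287) (nat_lit 157)) (XT.lf (nat_lit 0) (nat_lit 67749780508) (nat_lit 76) (nat_lit 69947414595) (nat_lit 152) (nat_lit 377052472152) (nat_lit 7) (nat_lit 5) (nat_lit 8) (nat_lit 5) (nat_lit 9) (nat_lit 4) (nat_lit 337) (nat_lit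 287) (nat_lit 156))))) (XT.nd (nat_lit 156) (nat_lit 76) (nat_lit 0) (XT.nd (nat_lit 78) (nat_lit 0) (nat_lit 0) (XT.lf (nat_lit 0) (nat_lit 208405933492) (nat_lit 152) (nat_lit 339576358185) (nat_lit 0) (nat_lit 4091519962) (nat_lit 7) (nat_lit 5) (nat_lit 9) (nat_lit 4) (nat_lit 7) (nat_lit 4) (nat_lit 338) (nat_lit 287) (nat_lit 155)) (XT.lf (nat_lit 0) (nat_lit 285950351370) (nat_lit 152) (nat_lit 224739235865) (nat_lit 0) (nat_lit 81635351639) (nat_lit 7) (nat_lit 5) (nat_lit 9) (nat_lit 4) (nat_lit 7) (nat_lit 4) (nat_lit 339) (nat_lit 287) (nat_lit 154))) (XT.nd (nat_lit 78) (nat_lit 76) (nat_lit 0) (XT.lf (nat_lit 0) (nat_lit 369697896045) (nat_lit 152) (nat_lit 100715928337) (nat_lit 0) (nat_lit 165382353536) (nat_lit 7) (nat_lit 5) (nat_lit 9) (nat_lit 4) (nat_lit 7) (nat_lit 4) (nat_lit 340) (nat_lit 287) (nat_lit 153)) (XT.nd (nat_lit 78) (nat_lit 0) (nat_lit 0) (XT.lf (nat_lit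 0) (nat_lit 34327202179) (nat_lit 76) (nat_lit 426353590912) (nat_lit 76) (nat_lit 222037545830) (nat_lit 6) (nat_lit 4) (nat_lit 7) (nat_lit 5) (nat_lit 7) (nat_lit 4) (nat_lit 341) (nat_lit 287) (nat_lit 152)) (XT.lf (nat_lit 0) (nat_lit 183769621560) (nat_lit 76) (nat_lit 376926730216) (nat_lit 76) (nat_lit 172610219790) (nat_lit 6) (nat_lit 4) (nat_lit 7) (nat_lit 5) (nat_lit 7) (nat_lit 4) (nat_lit 342) (nat_lit 287) (nat_lit 151)))))) (XT.nd (nat_lit 36660) (nat_lit 0) (nat_lit 4864) (XT.nd (nat_lit 36426) (nat_lit 0) (nat_lit 5700) (XT.nd (nat_lit 36348) (nat_lit 0) (nat_lit 5700) (XT.lf (nat_lit 0) (nat_lit 345166791075) (nat_lit 76) (nat_lit 323546015361) (nat_lit 76) (nat_lit 119229074059) (nat_lit 6) (nat_lit 4) (nat_lit 7) (nat_lit 5) (nat_lit 7) (nat_lit 4) (nat_lit 343) (nat_lit 287) (nat_lit 150)) (XT.lf (nat_lit 0) (nat_lit 5583977859) (nat_lit 0) (nat_lit 5583977859)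 (nat_lit 684) (nat_lit 6519514902) (nat_lit 81) (nat_lit 5) (nat_lit 81) (nat_lit 3) (nat_lit 90) (nat_lit 3) (nat_lit 288) (nat_lit 288) (nat_lit 204))) (XT.nd (nat_lit 78) (nat_lit 0) (nat_lit 76) (XT.lf (nat_lit 76) (nat_lit 481502061) (nat_lit 0) (nat_lit 23052711629) (nat_lit 760) (nat_lit 13240281413) (nat_lit 82) (nat_lit 5) (nat_lit 81) (nat_lit 5) (nat_lit 91) (nat_lit 5) (nat_lit 289) (nat_lit 288) (nat_lit 203)) (XT.nd (nat_lit 78) (nat_lit 0) (nat_lit 0) (XT.lf (nat_lit 0) (nat_lit 25464899843) (nat_lit 684) (nat_lit 10482727674) (nat_lit 760) (nat_lit 2306579829) (nat_lit 82) (nat_lit 5) (nat_lit 91) (nat_lit 5) (nat_lit 92) (nat_lit 5) (nat_lit 290) (nat_lit 288) (nat_lit 202)) (XT.lf (nat_lit 76) (nat_lit 17561214127) (nat_lit 0) (nat_lit 10644700814) (nat_lit 760) (nat_lit 11613606497) (nat_lit 83) (nat_lit 5) (nat_lit 82) (nat_lit 5) (nat_lit 92) (nat_lit 5) (nat_lit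 291) (nat_lit 288) (nat_lit 201))))) (XT.nd (nat_lit 156) (nat_lit 988) (nat_lit 0) (XT.nd (nat_lit 78) (nat_lit 0) (nat_lit 76) (XT.lf (nat_lit 76) (nat_lit 6667330888) (nat_lit 0) (nat_lit 25042503071) (nat_lit 760) (nat_lit 9773062762) (nat_lit 84) (nat_lit 5) (nat_lit 83) (nat_lit 5) (nat_lit 93) (nat_lit 5) (nat_lit 292) (nat_lit 288) (nat_lit 200)) (XT.lf (nat_lit 0) (nat_lit 36090673259) (nat_lit 684) (nat_lit 4777900667) (nat_lit 760) (nat_lit 2380953686) (nat_lit 84) (nat_lit 5) (nat_lit 93) (nat_lit 5) (nat_lit 94) (nat_lit 5) (nat_lit 293) (nat_lit 288) (nat_lit 199))) (XT.nd (nat_lit 78) (nat_lit 1064) (nat_lit 0) (XT.lf (nat_lit 76) (nat_lit 28136588868) (nat_lit 0) (nat_lit 13541305561) (nat_lit 760) (nat_lit 3436813554) (nat_lit 85) (nat_lit 5) (nat_lit 84) (nat_lit 5) (nat_lit 94) (nat_lit 5) (nat_lit 294) (nat_lit 288) (nat_lit 198)) (XT.nd (nat_lit 78) (nat_lit 380)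 (nat_lit 0) (XT.lf (nat_lit 0) (nat_lit 1168472117) (nat_lit 760) (nat_lit 30098910691) (nat_lit 76) (nat_lit 15831070825) (nat_lit 75) (nat_lit 5) (nat_lit 85) (nat_lit 5) (nat_lit 76) (nat_lit 5) (nat_lit 295) (nat_lit 288) (nat_lit 197)) (XT.lf (nat_lit 0) (nat_lit 4937951919) (nat_lit 380) (nat_lit 1686408745) (nat_lit 456) (nat_lit 42583603787) (nat_lit 70) (nat_lit 5) (nat_lit 75) (nat_lit 5) (nat_lit 76) (nat_lit 5) (nat_lit 296) (nat_lit 288) (nat_lit 196))))))))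
noncomputable def xc98 : XT := (XT.nd (nat_lit 1560) (nat_lit 1216) (nat_lit 0) (XT.nd (nat_lit 780) (nat_lit 1444) (nat_lit 0) (XT.nd (nat_lit 390) (nat_lit 1064) (nat_lit 0) (XT.nd (nat_lit 156) (nat_lit 608) (nat_lit 0) (XT.nd (nat_lit 78) (nat_lit 380) (nat_lit 0) (XT.lf (nat_lit 0) (nat_lit 13517347145) (nat_lit 456) (nat_lit 8093098547) (nat_lit 76) (nat_lit 29825770248) (nat_lit 70) (nat_lit 5) (nat_lit 76) (nat_lit 5) (nat_lit 71) (nat_lit 5) (nat_lit 297) (nat_lit 288) (nat_lit 195)) (XT.lf (nat_lit 0) (nat_lit 21648621543) (nat_lit 456) (nat_lit 22011800714) (nat_lit 76) (nat_lit 10147973163) (nat_lit 65) (nat_lit 5) (nat_lit 71) (nat_lit 5) (nat_lit 66) (nat_lit 5) (nat_lit 298) (nat_lit 288) (nat_lit 194))) (XT.nd (nat_lit 78) (nat_lit 304) (nat_lit 0) (XT.lf (nat_lit 0) (nat_lit 19041614812) (nat_lit 304) (nat_lit 12189635584) (nat_lit 380) (nat_lit 25099065793) (nat_lit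 61) (nat_lit 5) (nat_lit 65) (nat_lit 5) (nat_lit 66) (nat_lit 5) (nat_lit 299) (nat_lit 288) (nat_lit 193)) (XT.nd (nat_lit 78) (nat_lit 0) (nat_lit 0) (XT.lf (nat_lit 0) (nat_lit 4937616668) (nat_lit 304) (nat_lit 37446138271) (nat_lit 380) (nat_lit 16630081262) (nat_lit 57) (nat_lit 5) (nat_lit 61) (nat_lit 5) (nat_lit 62) (nat_lit 5) (nat_lit 300) (nat_lit 288) (nat_lit 192)) (XT.lf (nat_lit 0) (nat_lit 51657148998) (nat_lit 304) (nat_lit 3619421187) (nat_lit 380) (nat_lit 6593070305) (nat_lit 57) (nat_lit 5) (nat_lit 61) (nat_lit 5) (nat_lit 62) (nat_lit 5) (nat_lit 301) (nat_lit 288) (nat_lit 191))))) (XT.nd (nat_lit 156) (nat_lit 456) (nat_lit 0) (XT.nd (nat_lit 78) (nat_lit 304) (nat_lit 0) (XT.lf (nat_lit 0) (nat_lit 5230507725) (nat_lit 304) (nat_lit 27129163896) (nat_lit 76) (nat_lit 32534952747) (nat_lit 53) (nat_lit 5) (nat_lit 57) (nat_lit 5) (nat_lit 54) (nat_lit 5) (nat_lit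 302) (nat_lit 288) (nat_lit 190)) (XT.lf (nat_lit 0) (nat_lit 18421254836) (nat_lit 380) (nat_lit 45859427640) (nat_lit 76) (nat_lit 3842913418) (nat_lit 49) (nat_lit 5) (nat_lit 54) (nat_lit 5) (nat_lit 50) (nat_lit 5) (nat_lit 303) (nat_lit 288) (nat_lit 189))) (XT.nd (nat_lit 78) (nat_lit 228) (nat_lit 0) (XT.lf (nat_lit 0) (nat_lit 4579767053) (nat_lit 228) (nat_lit 29181870615) (nat_lit 304) (nat_lit 37794534871) (nat_lit 46) (nat_lit 5) (nat_lit 49) (nat_lit 5) (nat_lit 50) (nat_lit 5) (nat_lit 304) (nat_lit 288) (nat_lit 188)) (XT.nd (nat_lit 78) (nat_lit 228) (nat_lit 0) (XT.lf (nat_lit 0) (nat_lit 51274475724) (nat_lit 304) (nat_lit 14684882670) (nat_lit 76) (nat_lit 9256741428) (nat_lit 46) (nat_lit 5) (nat_lit 50) (nat_lit 5) (nat_lit 47) (nat_lit 5) (nat_lit 305) (nat_lit 288) (nat_lit 187)) (XT.lf (nat_lit 0) (nat_lit 42659688913) (nat_lit 228) (nat_lit 28684033933) (nat_lit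 304) (nat_lit 7767334651) (nat_lit 43) (nat_lit 5) (nat_lit 46) (nat_lit 5) (nat_lit 47) (nat_lit 5) (nat_lit 306) (nat_lit 288) (nat_lit 186)))))) (XT.nd (nat_lit 390) (nat_lit 532) (nat_lit 0) (XT.nd (nat_lit 156) (nat_lit 684) (nat_lit 0) (XT.nd (nat_lit 78) (nat_lit 0) (nat_lit 0) (XT.lf (nat_lit 0) (nat_lit 10190166248) (nat_lit 228) (nat_lit 61104720504) (nat_lit 76) (nat_lit 11975168927) (nat_lit 40) (nat_lit 5) (nat_lit 43) (nat_lit 5) (nat_lit 41) (nat_lit 5) (nat_lit 307) (nat_lit 288) (nat_lit 185)) (XT.lf (nat_lit 0) (nat_lit 30442322151) (nat_lit 228) (nat_lit 1585515492) (nat_lit 76) (nat_lit 55671064516) (nat_lit 40) (nat_lit 5) (nat_lit 43) (nat_lit 5) (nat_lit 41) (nat_lit 5) (nat_lit 308) (nat_lit 288) (nat_lit 184))) (XT.nd (nat_lit 78) (nat_lit 456) (nat_lit 0) (XT.lf (nat_lit 0) (nat_lit 53502140590) (nat_lit 304) (nat_lit 27845370363) (nat_lit 76) (nat_lit 11075174916)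 (nat_lit 37) (nat_lit 5) (nat_lit 41) (nat_lit 5) (nat_lit 38) (nat_lit 5) (nat_lit 309) (nat_lit 288) (nat_lit 183)) (XT.nd (nat_lit 78) (nat_lit 304) (nat_lit 0) (XT.lf (nat_lit 0) (nat_lit 39280329233) (nat_lit 152) (nat_lit 40305615751) (nat_lit 228) (nat_lit 17879470985) (nat_lit 35) (nat_lit 5) (nat_lit 37) (nat_lit 5) (nat_lit 38) (nat_lit 5) (nat_lit 310) (nat_lit 288) (nat_lit 182)) (XT.lf (nat_lit 0) (nat_lit 5413366182) (nat_lit 304) (nat_lit 92829674723) (nat_lit 76) (nat_lit 4628567554) (nat_lit 31) (nat_lit 5) (nat_lit 35) (nat_lit 5) (nat_lit 32) (nat_lit 5) (nat_lit 311) (nat_lit 288) (nat_lit 181))))) (XT.nd (nat_lit 156) (nat_lit 380) (nat_lit 0) (XT.nd (nat_lit 78) (nat_lit 152) (nat_lit 0) (XT.lf (nat_lit 0) (nat_lit 31659361430) (nat_lit 304) (nat_lit 23855528067) (nat_lit 76) (nat_lit 53094947550) (nat_lit 31) (nat_lit 5) (nat_lit 35) (nat_lit 5) (nat_lit 32) (nat_lit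 5) (nat_lit 312) (nat_lit 288) (nat_lit 180)) (XT.lf (nat_lit 0) (nat_lit 52307883703) (nat_lit 152) (nat_lit 8511952766) (nat_lit 228) (nat_lit 53946550254) (nat_lit 29) (nat_lit 5) (nat_lit 31) (nat_lit 5) (nat_lit 32) (nat_lit 5) (nat_lit 313) (nat_lit 288) (nat_lit 179))) (XT.nd (nat_lit 78) (nat_lit 228) (nat_lit 0) (XT.lf (nat_lit 0) (nat_lit 13793774837) (nat_lit 152) (nat_lit 79814963219) (nat_lit 228) (nat_lit 27741945492) (nat_lit 27) (nat_lit 5) (nat_lit 29) (nat_lit 5) (nat_lit 30) (nat_lit 5) (nat_lit 314) (nat_lit 288) (nat_lit 178)) (XT.nd (nat_lit 78) (nat_lit 152) (nat_lit 0) (XT.lf (nat_lit 0) (nat_lit 1788754651) (nat_lit 228) (nat_lit 30203544211) (nat_lit 76) (nat_lit 96406610185) (nat_lit 26) (nat_lit 5) (nat_lit 29) (nat_lit 5) (nat_lit 27) (nat_lit 5) (nat_lit 315) (nat_lit 288) (nat_lit 177)) (XT.lf (nat_lit 0) (nat_lit 33902586726) (nat_lit 228) (nat_lit 81657748067)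 (nat_lit 76) (nat_lit 20368289690) (nat_lit 24) (nat_lit 5) (nat_lit 27) (nat_lit 5) (nat_lit 25) (nat_lit 5) (nat_lit 316) (nat_lit 288) (nat_lit 176))))))) (XT.nd (nat_lit 780) (nat_lit 456) (nat_lit 0) (XT.nd (nat_lit 390) (nat_lit 304) (nat_lit 0) (XT.nd (nat_lit 156) (nat_lit 304) (nat_lit 0) (XT.nd (nat_lit 78) (nat_lit 0) (nat_lit 0) (XT.lf (nat_lit 0) (nat_lit 2062861942) (nat_lit 152) (nat_lit 67627534913) (nat_lit 228) (nat_lit 74315078692) (nat_lit 22) (nat_lit 5) (nat_lit 24) (nat_lit 5) (nat_lit 25) (nat_lit 5) (nat_lit 317) (nat_lit 288) (nat_lit 175)) (XT.lf (nat_lit 0) (nat_lit 95394713125) (nat_lit 152) (nat_lit 14367485102) (nat_lit 228) (nat_lit 42895229969) (nat_lit 22) (nat_lit 5) (nat_lit 24) (nat_lit 5) (nat_lit 25) (nat_lit 5) (nat_lit 318) (nat_lit 288) (nat_lit 174))) (XT.nd (nat_lit 78) (nat_lit 228) (nat_lit 0) (XT.lf (nat_lit 0) (nat_lit 34623747337) (nat_lit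 76) (nat_lit 119628951025) (nat_lit 152) (nat_lit 7688192650) (nat_lit 21) (nat_lit 5) (nat_lit 22) (nat_lit 5) (nat_lit 23) (nat_lit 4) (nat_lit 319) (nat_lit 288) (nat_lit 173)) (XT.nd (nat_lit 78) (nat_lit 152) (nat_lit 0) (XT.lf (nat_lit 0) (nat_lit 30619259314) (nat_lit 152) (nat_lit 36745638019) (nat_lit 76) (nat_lit 104515715262) (nat_lit 20) (nat_lit 5) (nat_lit 22) (nat_lit 5) (nat_lit 21) (nat_lit 5) (nat_lit 320) (nat_lit 288) (nat_lit 172)) (XT.lf (nat_lit 0) (nat_lit 62954857046) (nat_lit 152) (nat_lit 9752374527) (nat_lit 228) (nat_lit 109852715866) (nat_lit 18) (nat_lit 5) (nat_lit 20) (nat_lit 5) (nat_lit 21) (nat_lit 5) (nat_lit 321) (nat_lit 288) (nat_lit 171))))) (XT.nd (nat_lit 156) (nat_lit 228) (nat_lit 0) (XT.nd (nat_lit 78) (nat_lit 76) (nat_lit 0) (XT.lf (nat_lit 0) (nat_lit 119630836414) (nat_lit 228) (nat_lit 22949742773) (nat_lit 76) (nat_lit 51439621418) (nat_lit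 18) (nat_lit 5) (nat_lit 21) (nat_lit 5) (nat_lit 19) (nat_lit 4) (nat_lit 322) (nat_lit 288) (nat_lit 170)) (XT.lf (nat_lit 0) (nat_lit 83958947800) (nat_lit 76) (nat_lit 87823571951) (nat_lit 152) (nat_lit 34541045949) (nat_lit 17) (nat_lit 5) (nat_lit 18) (nat_lit 5) (nat_lit 19) (nat_lit 4) (nat_lit 323) (nat_lit 288) (nat_lit 169))) (XT.nd (nat_lit 78) (nat_lit 152) (nat_lit 0) (XT.lf (nat_lit 0) (nat_lit 8628511246) (nat_lit 152) (nat_lit 19492344490) (nat_lit 76) (nat_lit 191463450114) (nat_lit 16) (nat_lit 5) (nat_lit 18) (nat_lit 5) (nat_lit 17) (nat_lit 5) (nat_lit 324) (nat_lit 288) (nat_lit 168)) (XT.nd (nat_lit 78) (nat_lit 0) (nat_lit 0) (XT.lf (nat_lit 0) (nat_lit 56126098751) (nat_lit 228) (nat_lit 140369353126) (nat_lit 76) (nat_lit 37277911180) (nat_lit 14) (nat_lit 5) (nat_lit 17) (nat_lit 5) (nat_lit 15) (nat_lit 4) (nat_lit 325) (nat_lit 288) (nat_lit 167)) (XT.lf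 (nat_lit 0) (nat_lit 108241834861) (nat_lit 228) (nat_lit 33533802934) (nat_lit 76) (nat_lit 107280990860) (nat_lit 14) (nat_lit 5) (nat_lit 17) (nat_lit 5) (nat_lit 15) (nat_lit 4) (nat_lit 326) (nat_lit 288) (nat_lit 166)))))) (XT.nd (nat_lit 390) (nat_lit 228) (nat_lit 0) (XT.nd (nat_lit 156) (nat_lit 152) (nat_lit 0) (XT.nd (nat_lit 78) (nat_lit 0) (nat_lit 0) (XT.lf (nat_lit 0) (nat_lit 84553308481) (nat_lit 76) (nat_lit 81292767192) (nat_lit 152) (nat_lit 99650518362) (nat_lit 13) (nat_lit 5) (nat_lit 14) (nat_lit 5) (nat_lit 15) (nat_lit 4) (nat_lit 327) (nat_lit 288) (nat_lit 165)) (XT.lf (nat_lit 0) (nat_lit 213283419302) (nat_lit 76) (nat_lit 15358547039) (nat_lit 152) (nat_lit 54580625541) (nat_lit 13) (nat_lit 5) (nat_lit 14) (nat_lit 5) (nat_lit 15) (nat_lit 4) (nat_lit 328) (nat_lit 288) (nat_lit 164))) (XT.nd (nat_lit 78) (nat_lit 76) (nat_lit 0) (XT.lf (nat_lit 0) (nat_lit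 50694453831) (nat_lit 76) (nat_lit 247429763944) (nat_lit 76) (nat_lit 4159318015) (nat_lit 12) (nat_lit 4) (nat_lit 13) (nat_lit 5) (nat_lit 13) (nat_lit 4) (nat_lit 329) (nat_lit 288) (nat_lit 163)) (XT.nd (nat_lit 78) (nat_lit 0) (nat_lit 0) (XT.lf (nat_lit 0) (nat_lit 50182407986) (nat_lit 152) (nat_lit 140397705785) (nat_lit 76) (nat_lit 132175154717) (nat_lit 11) (nat_lit 5) (nat_lit 13) (nat_lit 5) (nat_lit 12) (nat_lit 4) (nat_lit 330) (nat_lit 288) (nat_lit 162)) (XT.lf (nat_lit 0) (nat_lit 108727003275) (nat_lit 152) (nat_lit 20382393064) (nat_lit 76) (nat_lit 215751872093) (nat_lit 11) (nat_lit 5) (nat_lit 13) (nat_lit 5) (nat_lit 12) (nat_lit 4) (nat_lit 331) (nat_lit 288) (nat_lit 161))))) (XT.nd (nat_lit 156) (nat_lit 152) (nat_lit 0) (XT.nd (nat_lit 78) (nat_lit 0) (nat_lit 0) (XT.lf (nat_lit 0) (nat_lit 112844732848) (nat_lit 76) (nat_lit 60871612616) (nat_lit 152) (nat_lit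 194931344480) (nat_lit 10) (nat_lit 5) (nat_lit 11) (nat_lit 5) (nat_lit 12) (nat_lit 4) (nat_lit 332) (nat_lit 288) (nat_lit 160)) (XT.lf (nat_lit 0) (nat_lit 244465320521) (nat_lit 152) (nat_lit 137068574605) (nat_lit 0) (nat_lit 12775106272) (nat_lit 10) (nat_lit 5) (nat_lit 12) (nat_lit 4) (nat_lit 10) (nat_lit 4) (nat_lit 333) (nat_lit 288) (nat_lit 159))) (XT.nd (nat_lit 78) (nat_lit 152) (nat_lit 0) (XT.lf (nat_lit 0) (nat_lit 321900045790) (nat_lit 152) (nat_lit 9862886681) (nat_lit 0) (nat_lit 90208994146) (nat_lit 10) (nat_lit 5) (nat_lit 12) (nat_lit 4) (nat_lit 10) (nat_lit 4) (nat_lit 334) (nat_lit 288) (nat_lit 158)) (XT.nd (nat_lit 78) (nat_lit 76) (nat_lit 0) (XT.lf (nat_lit 0) (nat_lit 131734625333) (nat_lit 76) (nat_lit 275851138607) (nat_lit 76) (nat_lit 44159311596) (nat_lit 9) (nat_lit 4) (nat_lit 10) (nat_lit 5) (nat_lit 10) (nat_lit 4) (nat_lit 335) (nat_lit 288)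 (nat_lit 157)) (XT.lf (nat_lit 0) (nat_lit 15881027532) (nat_lit 152) (nat_lit 199136438500) (nat_lit 76) (nat_lit 268861238533) (nat_lit 8) (nat_lit 5) (nat_lit 10) (nat_lit 5) (nat_lit 9) (nat_lit 4) (nat_lit 336) (nat_lit 288) (nat_lit 156))))))))
noncomputable def xc99 : XT := (XT.nd (nat_lit 37908) (nat_lit 0) (nat_lit 912) (XT.nd (nat_lit 37128) (nat_lit 0) (nat_lit 3876) (XT.nd (nat_lit 390) (nat_lit 76) (nat_lit 0) (XT.nd (nat_lit 156) (nat_lit 0) (nat_lit 0) (XT.nd (nat_lit 78) (nat_lit 76) (nat_lit 0) (XT.lf (nat_lit 0) (nat_lit 79197672840) (nat_lit 152) (nat_lit 69337980371) (nat_lit 76) (nat_lit 370010164586) (nat_lit 8) (nat_lit 5) (nat_lit 10) (nat_lit 5) (nat_lit 9) (nat_lit 4) (nat_lit 337) (nat_lit 288) (nat_lit 155)) (XT.lf (nat_lit 0) (nat_lit 73185958570) (nat_lit 76) (nat_lit 75535887173) (nat_lit 152) (nat_lit 407207344866) (nat_lit 7) (nat_lit 5) (nat_lit 8) (nat_lit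 5) (nat_lit 9) (nat_lit 4) (nat_lit 338) (nat_lit 288) (nat_lit 154))) (XT.nd (nat_lit 78) (nat_lit 0) (nat_lit 0) (XT.lf (nat_lit 0) (nat_lit 225086731622) (nat_lit 152) (nat_lit 366727160033) (nat_lit 0) (nat_lit 4425402934) (nat_lit 7) (nat_lit 5) (nat_lit 9) (nat_lit 4) (nat_lit 7) (nat_lit 4) (nat_lit 339) (nat_lit 288) (nat_lit 153)) (XT.nd (nat_lit 78) (nat_lit 0) (nat_lit 0) (XT.lf (nat_lit 0) (nat_lit 308834086379) (nat_lit 152) (nat_lit 242704201764) (nat_lit 0) (nat_lit 88172255118) (nat_lit 7) (nat_lit 5) (nat_lit 9) (nat_lit 4) (nat_lit 7) (nat_lit 4) (nat_lit 340) (nat_lit 288) (nat_lit 152)) (XT.lf (nat_lit 0) (nat_lit 399280863746) (nat_lit 152) (nat_lit 108760079483) (nat_lit 0) (nat_lit 178618567141) (nat_lit 7) (nat_lit 5) (nat_lit 9) (nat_lit 4) (nat_lit 7) (nat_lit 4) (nat_lit 341) (nat_lit 288) (nat_lit 151))))) (XT.nd (nat_lit 36504) (nat_lit 0) (nat_lit 5700) (XT.nd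 (nat_lit 78) (nat_lit 0) (nat_lit 0) (XT.lf (nat_lit 0) (nat_lit 37085931159) (nat_lit 76) (nat_lit 460456128787) (nat_lit 76) (nat_lit 239793401307) (nat_lit 6) (nat_lit 4) (nat_lit 7) (nat_lit 5) (nat_lit 7) (nat_lit 4) (nat_lit 342) (nat_lit 288) (nat_lit 150)) (XT.lf (nat_lit 0) (nat_lit 198482814253) (nat_lit 76) (nat_lit 407075545117) (nat_lit 76) (nat_lit 186412418678) (nat_lit 6) (nat_lit 4) (nat_lit 7) (nat_lit 5) (nat_lit 7) (nat_lit 4) (nat_lit 343) (nat_lit 288) (nat_lit 149))) (XT.nd (nat_lit 78) (nat_lit 0) (nat_lit 0) (XT.lf (nat_lit 0) (nat_lit 6067855560) (nat_lit 0) (nat_lit 6067855560) (nat_lit 684) (nat_lit 6962845526) (nat_lit 81) (nat_lit 5) (nat_lit 81) (nat_lit 3) (nat_lit 90) (nat_lit 3) (nat_lit 289) (nat_lit 289) (nat_lit 202)) (XT.nd (nat_lit 78) (nat_lit 0) (nat_lit 76) (XT.lf (nat_lit 76) (nat_lit 599704520) (nat_lit 0) (nat_lit 24955043624) (nat_lit 760)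 (nat_lit 14154454332) (nat_lit 82) (nat_lit 5) (nat_lit 81) (nat_lit 5) (nat_lit 91) (nat_lit 5) (nat_lit 290) (nat_lit 289) (nat_lit 201)) (XT.lf (nat_lit 0) (nat_lit 27628841849) (nat_lit 684) (nat_lit 11240010825) (nat_lit 760) (nat_lit 2439018234) (nat_lit 82) (nat_lit 5) (nat_lit 91) (nat_lit 5) (nat_lit 92) (nat_lit 5) (nat_lit 291) (nat_lit 289) (nat_lit 200)))))) (XT.nd (nat_lit 390) (nat_lit 1368) (nat_lit 0) (XT.nd (nat_lit 156) (nat_lit 532) (nat_lit 0) (XT.nd (nat_lit 78) (nat_lit 0) (nat_lit 76) (XT.lf (nat_lit 76) (nat_lit 19043911598) (nat_lit 0) (nat_lit 11537052348) (nat_lit 760) (nat_lit 12417879746) (nat_lit 83) (nat_lit 5) (nat_lit 82) (nat_lit 5) (nat_lit 92) (nat_lit 5) (nat_lit 292) (nat_lit 289) (nat_lit 199)) (XT.lf (nat_lit 76) (nat_lit 7281713846) (nat_lit 0) (nat_lit 27075374366) (nat_lit 760) (nat_lit 10438629212) (nat_lit 84) (nat_lit 5) (nat_lit 83) (nat_lit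 5) (nat_lit 93) (nat_lit 5) (nat_lit 293) (nat_lit 289) (nat_lit 198))) (XT.nd (nat_lit 78) (nat_lit 684) (nat_lit 0) (XT.lf (nat_lit 0) (nat_lit 39079785833) (nat_lit 684) (nat_lit 5079329342) (nat_lit 760) (nat_lit 2545015360) (nat_lit 84) (nat_lit 5) (nat_lit 93) (nat_lit 5) (nat_lit 94) (nat_lit 5) (nat_lit 294) (nat_lit 289) (nat_lit 197)) (XT.nd (nat_lit 78) (nat_lit 684) (nat_lit 0) (XT.lf (nat_lit 76) (nat_lit 30464807739) (nat_lit 0) (nat_lit 14642838609) (nat_lit 760) (nat_lit 3611215635) (nat_lit 85) (nat_lit 5) (nat_lit 84) (nat_lit 5) (nat_lit 94) (nat_lit 5) (nat_lit 295) (nat_lit 289) (nat_lit 196)) (XT.lf (nat_lit 0) (nat_lit 1353051568) (nat_lit 760) (nat_lit 32424584486) (nat_lit 76) (nat_lit 17083921306) (nat_lit 75) (nat_lit 5) (nat_lit 85) (nat_lit 5) (nat_lit 76) (nat_lit 5) (nat_lit 296) (nat_lit 289) (nat_lit 195))))) (XT.nd (nat_lit 156) (nat_lit 988) (nat_lit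 0) (XT.nd (nat_lit 78) (nat_lit 0) (nat_lit 0) (XT.lf (nat_lit 0) (nat_lit 5411653123) (nat_lit 380) (nat_lit 1828237985) (nat_lit 456) (nat_lit 45900230050) (nat_lit 70) (nat_lit 5) (nat_lit 75) (nat_lit 5) (nat_lit 76) (nat_lit 5) (nat_lit 297) (nat_lit 289) (nat_lit 194)) (XT.lf (nat_lit 0) (nat_lit 14677877143) (nat_lit 456) (nat_lit 8663459870) (nat_lit 76) (nat_lit 32205632638) (nat_lit 70) (nat_lit 5) (nat_lit 76) (nat_lit 5) (nat_lit 71) (nat_lit 5) (nat_lit 298) (nat_lit 289) (nat_lit 193))) (XT.nd (nat_lit 78) (nat_lit 608) (nat_lit 0) (XT.lf (nat_lit 0) (nat_lit 23454931494) (nat_lit 456) (nat_lit 23695103258) (nat_lit 76) (nat_lit 10959138648) (nat_lit 65) (nat_lit 5) (nat_lit 71) (nat_lit 5) (nat_lit 66) (nat_lit 5) (nat_lit 299) (nat_lit 289) (nat_lit 192)) (XT.nd (nat_lit 78) (nat_lit 304) (nat_lit 0) (XT.lf (nat_lit 0) (nat_lit 20639211305) (nat_lit 304) (nat_lit 13160606262)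 (nat_lit 380) (nat_lit 27033260708) (nat_lit 61) (nat_lit 5) (nat_lit 65) (nat_lit 5) (nat_lit 66) (nat_lit 5) (nat_lit 300) (nat_lit 289) (nat_lit 191)) (XT.lf (nat_lit 0) (nat_lit 5407107027) (nat_lit 304) (nat_lit 40433448864) (nat_lit 380) (nat_lit 17890934166) (nat_lit 57) (nat_lit 5) (nat_lit 61) (nat_lit 5) (nat_lit 62) (nat_lit 5) (nat_lit 301) (nat_lit 289) (nat_lit 190))))))) (XT.nd (nat_lit 780) (nat_lit 1292) (nat_lit 0) (XT.nd (nat_lit 390) (nat_lit 836) (nat_lit 0) (XT.nd (nat_lit 156) (nat_lit 532) (nat_lit 0) (XT.nd (nat_lit 78) (nat_lit 304) (nat_lit 0) (XT.lf (nat_lit 0) (nat_lit 55858684830) (nat_lit 304) (nat_lit 3901215188) (nat_lit 380) (nat_lit 7056114451) (nat_lit 57) (nat_lit 5) (nat_lit 61) (nat_lit 5) (nat_lit 62) (nat_lit 5) (nat_lit 302) (nat_lit 289) (nat_lit 189)) (XT.lf (nat_lit 0) (nat_lit 5707878296) (nat_lit 304) (nat_lit 29228518413) (nat_lit 76) (nat_lit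 35146730256) (nat_lit 53) (nat_lit 5) (nat_lit 57) (nat_lit 5) (nat_lit 54) (nat_lit 5) (nat_lit 303) (nat_lit 289) (nat_lit 188))) (XT.nd (nat_lit 78) (nat_lit 228) (nat_lit 0) (XT.lf (nat_lit 0) (nat_lit 19950771565) (nat_lit 380) (nat_lit 49457586315) (nat_lit 76) (nat_lit 4162222966) (nat_lit 49) (nat_lit 5) (nat_lit 54) (nat_lit 5) (nat_lit 50) (nat_lit 5) (nat_lit 304) (nat_lit 289) (nat_lit 187)) (XT.nd (nat_lit 78) (nat_lit 0) (nat_lit 0) (XT.lf (nat_lit 0) (nat_lit 5013675958) (nat_lit 228) (nat_lit 31501628817) (nat_lit 304) (nat_lit 40762621150) (nat_lit 46) (nat_lit 5) (nat_lit 49) (nat_lit 5) (nat_lit 50) (nat_lit 5) (nat_lit 305) (nat_lit 289) (nat_lit 186)) (XT.lf (nat_lit 0) (nat_lit 55425477327) (nat_lit 304) (nat_lit 15794824190) (nat_lit 76) (nat_lit 10010538176) (nat_lit 46) (nat_lit 5) (nat_lit 50) (nat_lit 5) (nat_lit 47) (nat_lit 5) (nat_lit 306) (nat_lit 289) (nat_lit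 185))))) (XT.nd (nat_lit 156) (nat_lit 380) (nat_lit 0) (XT.nd (nat_lit 78) (nat_lit 228) (nat_lit 0) (XT.lf (nat_lit 0) (nat_lit 46134494858) (nat_lit 228) (nat_lit 30963104982) (nat_lit 304) (nat_lit 8339934468) (nat_lit 43) (nat_lit 5) (nat_lit 46) (nat_lit 5) (nat_lit 47) (nat_lit 5) (nat_lit 307) (nat_lit 289) (nat_lit 184)) (XT.lf (nat_lit 0) (nat_lit 11050311219) (nat_lit 228) (nat_lit 65930129716) (nat_lit 76) (nat_lit 12948894281) (nat_lit 40) (nat_lit 5) (nat_lit 43) (nat_lit 5) (nat_lit 41) (nat_lit 5) (nat_lit 308) (nat_lit 289) (nat_lit 183))) (XT.nd (nat_lit 78) (nat_lit 380) (nat_lit 0) (XT.lf (nat_lit 0) (nat_lit 32919311322) (nat_lit 228) (nat_lit 1654052630) (nat_lit 76) (nat_lit 60139297677) (nat_lit 40) (nat_lit 5) (nat_lit 43) (nat_lit 5) (nat_lit 41) (nat_lit 5) (nat_lit 309) (nat_lit 289) (nat_lit 182)) (XT.nd (nat_lit 78) (nat_lit 152) (nat_lit 0) (XT.lf (nat_lit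 0) (nat_lit 57821959938) (nat_lit 304) (nat_lit 30015448642) (nat_lit 76) (nat_lit 11977042594) (nat_lit 37) (nat_lit 5) (nat_lit 41) (nat_lit 5) (nat_lit 38) (nat_lit 5) (nat_lit 310) (nat_lit 289) (nat_lit 181)) (XT.lf (nat_lit 0) (nat_lit 42477805810) (nat_lit 152) (nat_lit 43512585466) (nat_lit 228) (nat_lit 19270317252) (nat_lit 35) (nat_lit 5) (nat_lit 37) (nat_lit 5) (nat_lit 38) (nat_lit 5) (nat_lit 311) (nat_lit 289) (nat_lit 180)))))) (XT.nd (nat_lit 390) (nat_lit 608) (nat_lit 0) (XT.nd (nat_lit 156) (nat_lit 380) (nat_lit 0) (XT.nd (nat_lit 78) (nat_lit 0) (nat_lit 0) (XT.lf (nat_lit 0) (nat_lit 5882966942) (nat_lit 304) (nat_lit 100200532814) (nat_lit 76) (nat_lit 5015955971) (nat_lit 31) (nat_lit 5) (nat_lit 35) (nat_lit 5) (nat_lit 32) (nat_lit 5) (nat_lit 312) (nat_lit 289) (nat_lit 179)) (XT.lf (nat_lit 0) (nat_lit 34225935775) (nat_lit 304) (nat_lit 25712566713) (nat_lit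 76) (nat_lit 57358379476) (nat_lit 31) (nat_lit 5) (nat_lit 35) (nat_lit 5) (nat_lit 32) (nat_lit 5) (nat_lit 313) (nat_lit 289) (nat_lit 178))) (XT.nd (nat_lit 78) (nat_lit 228) (nat_lit 0) (XT.lf (nat_lit 0) (nat_lit 56541684061) (nat_lit 152) (nat_lit 9175826846) (nat_lit 228) (nat_lit 58228535365) (nat_lit 29) (nat_lit 5) (nat_lit 31) (nat_lit 5) (nat_lit 32) (nat_lit 5) (nat_lit 314) (nat_lit 289) (nat_lit 177)) (XT.nd (nat_lit 78) (nat_lit 76) (nat_lit 0) (XT.lf (nat_lit 0) (nat_lit 14945634144) (nat_lit 152) (nat_lit 86182515561) (nat_lit 228) (nat_lit 29929009366) (nat_lit 27) (nat_lit 5) (nat_lit 29) (nat_lit 5) (nat_lit 30) (nat_lit 5) (nat_lit 315) (nat_lit 289) (nat_lit 176)) (XT.lf (nat_lit 0) (nat_lit 1960797826) (nat_lit 228) (nat_lit 32574057084) (nat_lit 76) (nat_lit 104134481333) (nat_lit 26) (nat_lit 5) (nat_lit 29) (nat_lit 5) (nat_lit 27) (nat_lit 5) (nat_lit 316)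 (nat_lit 289) (nat_lit 175))))) (XT.nd (nat_lit 234) (nat_lit 304) (nat_lit 0) (XT.nd (nat_lit 78) (nat_lit 152) (nat_lit 0) (XT.lf (nat_lit 0) (nat_lit 36642530582) (nat_lit 228) (nat_lit 88145431195) (nat_lit 76) (nat_lit 22013530274) (nat_lit 24) (nat_lit 5) (nat_lit 27) (nat_lit 5) (nat_lit 25) (nat_lit 5) (nat_lit 317) (nat_lit 289) (nat_lit 174)) (XT.nd (nat_lit 78) (nat_lit 0) (nat_lit 0) (XT.lf (nat_lit 0) (nat_lit 2270874719) (nat_lit 152) (nat_lit 73021107313) (nat_lit 228) (nat_lit 80232580976) (nat_lit 22) (nat_lit 5) (nat_lit 24) (nat_lit 5) (nat_lit 25) (nat_lit 5) (nat_lit 318) (nat_lit 289) (nat_lit 173)) (XT.lf (nat_lit 0) (nat_lit 103066090011) (nat_lit 152) (nat_lit 15501485399) (nat_lit 228) (nat_lit 46301196503) (nat_lit 22) (nat_lit 5) (nat_lit 24) (nat_lit 5) (nat_lit 25) (nat_lit 5) (nat_lit 319) (nat_lit 289) (nat_lit 172)))) (XT.nd (nat_lit 78) (nat_lit 228)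 (nat_lit 0) (XT.lf (nat_lit 0) (nat_lit 37432683533) (nat_lit 76) (nat_lit 129183656589) (nat_lit 152) (nat_lit 8278622661) (nat_lit 21) (nat_lit 5) (nat_lit 22) (nat_lit 5) (nat_lit 23) (nat_lit 4) (nat_lit 320) (nat_lit 289) (nat_lit 171)) (XT.nd (nat_lit 78) (nat_lit 152) (nat_lit 0) (XT.lf (nat_lit 0) (nat_lit 33090871573) (nat_lit 152) (nat_lit 39648389572) (nat_lit 76) (nat_lit 112890672001) (nat_lit 20) (nat_lit 5) (nat_lit 22) (nat_lit 5) (nat_lit 21) (nat_lit 5) (nat_lit 321) (nat_lit 289) (nat_lit 170)) (XT.lf (nat_lit 0) (nat_lit 68026541492) (nat_lit 152) (nat_lit 10518256262) (nat_lit 228) (nat_lit 118618873060) (nat_lit 18) (nat_lit 5) (nat_lit 20) (nat_lit 5) (nat_lit 21) (nat_lit 5) (nat_lit 322) (nat_lit 289) (nat_lit 169))))))))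
noncomputable def xc100 : XT := (XT.nd (nat_lit 38064) (nat_lit 0) (nat_lit 2508) (XT.nd (nat_lit 780) (nat_lit 304) (nat_lit 0) (XT.nd (nat_lit 390) (nat_lit 228) (nat_lit 0) (XT.nd (nat_lit 156) (nat_lit 228) (nat_lit 0) (XT.nd (nat_lit 78) (nat_lit 76) (nat_lit 0) (XT.lf (nat_lit 0) (nat_lit 129220943185) (nat_lit 228) (nat_lit 24752254683) (nat_lit 76) (nat_lit 55567615461) (nat_lit 18) (nat_lit 5) (nat_lit 21) (nat_lit 5) (nat_lit 19) (nat_lit 4) (nat_lit 323) (nat_lit 289) (nat_lit 168)) (XT.lf (nat_lit 0) (nat_lit 90707676678) (nat_lit 76) (nat_lit 94836129520) (nat_lit 152) (nat_lit 37284690763) (nat_lit 17) (nat_lit 5) (nat_lit 18) (nat_lit 5) (nat_lit 19) (nat_lit 4) (nat_lit 324) (nat_lit 289) (nat_lit 167))) (XT.nd (nat_lit 78) (nat_lit 152) (nat_lit 0) (XT.lf (nat_lit 0) (nat_lit 9336394271) (nat_lit 152) (nat_lit 21021490909) (nat_lit 76) (nat_lit 206792267614) (nat_lit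 16) (nat_lit 5) (nat_lit 18) (nat_lit 5) (nat_lit 17) (nat_lit 5) (nat_lit 325) (nat_lit 289) (nat_lit 166)) (XT.nd (nat_lit 78) (nat_lit 0) (nat_lit 0) (XT.lf (nat_lit 0) (nat_lit 60633126663) (nat_lit 228) (nat_lit 151569310974) (nat_lit 76) (nat_lit 40271931337) (nat_lit 14) (nat_lit 5) (nat_lit 17) (nat_lit 5) (nat_lit 15) (nat_lit 4) (nat_lit 326) (nat_lit 289) (nat_lit 165)) (XT.lf (nat_lit 0) (nat_lit 116916866845) (nat_lit 228) (nat_lit 36189108648) (nat_lit 76) (nat_lit 115874384261) (nat_lit 14) (nat_lit 5) (nat_lit 17) (nat_lit 5) (nat_lit 15) (nat_lit 4) (nat_lit 327) (nat_lit 289) (nat_lit 164))))) (XT.nd (nat_lit 156) (nat_lit 152) (nat_lit 0) (XT.nd (nat_lit 78) (nat_lit 0) (nat_lit 0) (XT.lf (nat_lit 0) (nat_lit 91343780974) (nat_lit 76) (nat_lit 87784913261) (nat_lit 152) (nat_lit 107606866872) (nat_lit 13) (nat_lit 5) (nat_lit 14) (nat_lit 5) (nat_lit 15) (nat_lit 4)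 (nat_lit 328) (nat_lit 289) (nat_lit 163)) (XT.lf (nat_lit 0) (nat_lit 230370359341) (nat_lit 76) (nat_lit 16576790703) (nat_lit 152) (nat_lit 58932545067) (nat_lit 13) (nat_lit 5) (nat_lit 14) (nat_lit 5) (nat_lit 15) (nat_lit 4) (nat_lit 329) (nat_lit 289) (nat_lit 162))) (XT.nd (nat_lit 78) (nat_lit 76) (nat_lit 0) (XT.lf (nat_lit 0) (nat_lit 54773739646) (nat_lit 76) (nat_lit 267213739178) (nat_lit 76) (nat_lit 4478061794) (nat_lit 12) (nat_lit 4) (nat_lit 13) (nat_lit 5) (nat_lit 13) (nat_lit 4) (nat_lit 330) (nat_lit 289) (nat_lit 161)) (XT.nd (nat_lit 78) (nat_lit 0) (nat_lit 0) (XT.lf (nat_lit 0) (nat_lit 54209550183) (nat_lit 152) (nat_lit 151607125082) (nat_lit 76) (nat_lit 142758376771) (nat_lit 11) (nat_lit 5) (nat_lit 13) (nat_lit 5) (nat_lit 12) (nat_lit 4) (nat_lit 331) (nat_lit 289) (nat_lit 160)) (XT.lf (nat_lit 0) (nat_lit 117436783498) (nat_lit 152) (nat_lit 21992246392)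 (nat_lit 76) (nat_lit 233020549339) (nat_lit 11) (nat_lit 5) (nat_lit 13) (nat_lit 5) (nat_lit 12) (nat_lit 4) (nat_lit 332) (nat_lit 289) (nat_lit 159)))))) (XT.nd (nat_lit 390) (nat_lit 76) (nat_lit 0) (XT.nd (nat_lit 156) (nat_lit 152) (nat_lit 0) (XT.nd (nat_lit 78) (nat_lit 0) (nat_lit 0) (XT.lf (nat_lit 0) (nat_lit 121892148339) (nat_lit 76) (nat_lit 65732573694) (nat_lit 152) (nat_lit 210514220697) (nat_lit 10) (nat_lit 5) (nat_lit 11) (nat_lit 5) (nat_lit 12) (nat_lit 4) (nat_lit 333) (nat_lit 289) (nat_lit 158)) (XT.lf (nat_lit 0) (nat_lit 264032921926) (nat_lit 152) (nat_lit 148015299110) (nat_lit 0) (nat_lit 13804973387) (nat_lit 10) (nat_lit 5) (nat_lit 12) (nat_lit 4) (nat_lit 10) (nat_lit 4) (nat_lit 334) (nat_lit 289) (nat_lit 157))) (XT.nd (nat_lit 78) (nat_lit 152) (nat_lit 0) (XT.lf (nat_lit 0) (nat_lit 347661656641) (nat_lit 152) (nat_lit 10634545890) (nat_lit 0) (nat_lit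 97432990172) (nat_lit 10) (nat_lit 5) (nat_lit 12) (nat_lit 4) (nat_lit 10) (nat_lit 4) (nat_lit 335) (nat_lit 289) (nat_lit 156)) (XT.nd (nat_lit 78) (nat_lit 76) (nat_lit 0) (XT.lf (nat_lit 0) (nat_lit 142290012131) (nat_lit 76) (nat_lit 297911767903) (nat_lit 76) (nat_lit 47682436681) (nat_lit 9) (nat_lit 4) (nat_lit 10) (nat_lit 5) (nat_lit 10) (nat_lit 4) (nat_lit 336) (nat_lit 289) (nat_lit 155)) (XT.lf (nat_lit 0) (nat_lit 17160131908) (nat_lit 152) (nat_lit 215051676319) (nat_lit 76) (nat_lit 290376755321) (nat_lit 8) (nat_lit 5) (nat_lit 10) (nat_lit 5) (nat_lit 9) (nat_lit 4) (nat_lit 337) (nat_lit 289) (nat_lit 154))))) (XT.nd (nat_lit 156) (nat_lit 0) (nat_lit 0) (XT.nd (nat_lit 78) (nat_lit 76) (nat_lit 0) (XT.lf (nat_lit 0) (nat_lit 85541470161) (nat_lit 152) (nat_lit 74870502819) (nat_lit 76) (nat_lit 399617105258) (nat_lit 8) (nat_lit 5) (nat_lit 10) (nat_lit 5) (nat_lit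 9) (nat_lit 4) (nat_lit 338) (nat_lit 289) (nat_lit 153)) (XT.lf (nat_lit 0) (nat_lit 79054720391) (nat_lit 76) (nat_lit 81572481921) (nat_lit 152) (nat_lit 439775937722) (nat_lit 7) (nat_lit 5) (nat_lit 8) (nat_lit 5) (nat_lit 9) (nat_lit 4) (nat_lit 339) (nat_lit 289) (nat_lit 152))) (XT.nd (nat_lit 78) (nat_lit 0) (nat_lit 0) (XT.lf (nat_lit 0) (nat_lit 243100806169) (nat_lit 152) (nat_lit 396052209715) (nat_lit 0) (nat_lit 4785060490) (nat_lit 7) (nat_lit 5) (nat_lit 9) (nat_lit 4) (nat_lit 7) (nat_lit 4) (nat_lit 340) (nat_lit 289) (nat_lit 151)) (XT.nd (nat_lit 78) (nat_lit 0) (nat_lit 0) (XT.lf (nat_lit 0) (nat_lit 333547420713) (nat_lit 152) (nat_lit 262108386868) (nat_lit 0) (nat_lit 95231244158) (nat_lit 7) (nat_lit 5) (nat_lit 9) (nat_lit 4) (nat_lit 7) (nat_lit 4) (nat_lit 341) (nat_lit 289) (nat_lit 150)) (XT.lf (nat_lit 0) (nat_lit 431229450831) (nat_lit 152) (nat_lit 117449634881)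 (nat_lit 0) (nat_lit 192912875319) (nat_lit 7) (nat_lit 5) (nat_lit 9) (nat_lit 4) (nat_lit 7) (nat_lit 4) (nat_lit 342) (nat_lit 289) (nat_lit 149))))))) (XT.nd (nat_lit 780) (nat_lit 2280) (nat_lit 0) (XT.nd (nat_lit 390) (nat_lit 836) (nat_lit 0) (XT.nd (nat_lit 156) (nat_lit 0) (nat_lit 76) (XT.nd (nat_lit 78) (nat_lit 0) (nat_lit 0) (XT.lf (nat_lit 0) (nat_lit 6585142262) (nat_lit 0) (nat_lit 6585142262) (nat_lit 684) (nat_lit 7452803065) (nat_lit 81) (nat_lit 5) (nat_lit 81) (nat_lit 3) (nat_lit 90) (nat_lit 3) (nat_lit 290) (nat_lit 290) (nat_lit 200)) (XT.lf (nat_lit 76) (nat_lit 715995606) (nat_lit 0) (nat_lit 27001271415) (nat_lit 760) (nat_lit 15162454031) (nat_lit 82) (nat_lit 5) (nat_lit 81) (nat_lit 5) (nat_lit 91) (nat_lit 5) (nat_lit 291) (nat_lit 290) (nat_lit 199))) (XT.nd (nat_lit 78) (nat_lit 0) (nat_lit 0) (XT.lf (nat_lit 0) (nat_lit 29947816908) (nat_lit 684) (nat_lit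 12069479984) (nat_lit 760) (nat_lit 2589482644) (nat_lit 82) (nat_lit 5) (nat_lit 91) (nat_lit 5) (nat_lit 92) (nat_lit 5) (nat_lit 292) (nat_lit 290) (nat_lit 198)) (XT.nd (nat_lit 78) (nat_lit 0) (nat_lit 76) (XT.lf (nat_lit 76) (nat_lit 20634125778) (nat_lit 0) (nat_lit 12494974929) (nat_lit 760) (nat_lit 13304301148) (nat_lit 83) (nat_lit 5) (nat_lit 82) (nat_lit 5) (nat_lit 92) (nat_lit 5) (nat_lit 293) (nat_lit 290) (nat_lit 197)) (XT.lf (nat_lit 76) (nat_lit 7933692386) (nat_lit 0) (nat_lit 29266670990) (nat_lit 760) (nat_lit 11174029416) (nat_lit 84) (nat_lit 5) (nat_lit 83) (nat_lit 5) (nat_lit 93) (nat_lit 5) (nat_lit 294) (nat_lit 290) (nat_lit 196))))) (XT.nd (nat_lit 156) (nat_lit 1064) (nat_lit 0) (XT.nd (nat_lit 78) (nat_lit 0) (nat_lit 0) (XT.lf (nat_lit 0) (nat_lit 42293496129) (nat_lit 684) (nat_lit 5416399817) (nat_lit 760) (nat_lit 2725970308) (nat_lit 84) (nat_lit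 5) (nat_lit 93) (nat_lit 5) (nat_lit 94) (nat_lit 5) (nat_lit 295) (nat_lit 290) (nat_lit 195)) (XT.lf (nat_lit 76) (nat_lit 32968257585) (nat_lit 0) (nat_lit 15829893786) (nat_lit 760) (nat_lit 3813913466) (nat_lit 85) (nat_lit 5) (nat_lit 84) (nat_lit 5) (nat_lit 94) (nat_lit 5) (nat_lit 296) (nat_lit 290) (nat_lit 194))) (XT.nd (nat_lit 78) (nat_lit 380) (nat_lit 0) (XT.lf (nat_lit 0) (nat_lit 1539400702) (nat_lit 760) (nat_lit 34948044506) (nat_lit 76) (nat_lit 18438945037) (nat_lit 75) (nat_lit 5) (nat_lit 85) (nat_lit 5) (nat_lit 76) (nat_lit 5) (nat_lit 297) (nat_lit 290) (nat_lit 193)) (XT.nd (nat_lit 78) (nat_lit 0) (nat_lit 0) (XT.lf (nat_lit 0) (nat_lit 5912027975) (nat_lit 380) (nat_lit 1980426843) (nat_lit 456) (nat_lit 49495034771) (nat_lit 70) (nat_lit 5) (nat_lit 75) (nat_lit 5) (nat_lit 76) (nat_lit 5) (nat_lit 298) (nat_lit 290) (nat_lit 192)) (XT.lf (nat_lit 0) (nat_lit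 15919959017) (nat_lit 456) (nat_lit 9290447359) (nat_lit 76) (nat_lit 34776768409) (nat_lit 70) (nat_lit 5) (nat_lit 76) (nat_lit 5) (nat_lit 71) (nat_lit 5) (nat_lit 299) (nat_lit 290) (nat_lit 191)))))) (XT.nd (nat_lit 390) (nat_lit 988) (nat_lit 0) (XT.nd (nat_lit 156) (nat_lit 608) (nat_lit 0) (XT.nd (nat_lit 78) (nat_lit 304) (nat_lit 0) (XT.lf (nat_lit 0) (nat_lit 25395129364) (nat_lit 456) (nat_lit 25524146436) (nat_lit 76) (nat_lit 11835293293) (nat_lit 65) (nat_lit 5) (nat_lit 71) (nat_lit 5) (nat_lit 66) (nat_lit 5) (nat_lit 300) (nat_lit 290) (nat_lit 190)) (XT.lf (nat_lit 0) (nat_lit 22354020455) (nat_lit 304) (nat_lit 14209853796) (nat_lit 380) (nat_lit 29132709674) (nat_lit 61) (nat_lit 5) (nat_lit 65) (nat_lit 5) (nat_lit 66) (nat_lit 5) (nat_lit 301) (nat_lit 290) (nat_lit 189))) (XT.nd (nat_lit 78) (nat_lit 304) (nat_lit 0) (XT.lf (nat_lit 0) (nat_lit 5903531063) (nat_lit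 304) (nat_lit 43660939872) (nat_lit 380) (nat_lit 19262577901) (nat_lit 57) (nat_lit 5) (nat_lit 61) (nat_lit 5) (nat_lit 62) (nat_lit 5) (nat_lit 302) (nat_lit 290) (nat_lit 188)) (XT.nd (nat_lit 78) (nat_lit 304) (nat_lit 0) (XT.lf (nat_lit 0) (nat_lit 60386505056) (nat_lit 304) (nat_lit 4206659717) (nat_lit 380) (nat_lit 7565389720) (nat_lit 57) (nat_lit 5) (nat_lit 61) (nat_lit 5) (nat_lit 62) (nat_lit 5) (nat_lit 303) (nat_lit 290) (nat_lit 187)) (XT.lf (nat_lit 0) (nat_lit 6215031497) (nat_lit 304) (nat_lit 31505947182) (nat_lit 76) (nat_lit 37966168684) (nat_lit 53) (nat_lit 5) (nat_lit 57) (nat_lit 5) (nat_lit 54) (nat_lit 5) (nat_lit 304) (nat_lit 290) (nat_lit 186))))) (XT.nd (nat_lit 156) (nat_lit 456) (nat_lit 0) (XT.nd (nat_lit 78) (nat_lit 228) (nat_lit 0) (XT.lf (nat_lit 0) (nat_lit 21594686808) (nat_lit 380) (nat_lit 53353668926) (nat_lit 76) (nat_lit 4505382966) (nat_lit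 49) (nat_lit 5) (nat_lit 54) (nat_lit 5) (nat_lit 50) (nat_lit 5) (nat_lit 305) (nat_lit 290) (nat_lit 185)) (XT.lf (nat_lit 0) (nat_lit 5472664016) (nat_lit 228) (nat_lit 34009077840) (nat_lit 304) (nat_lit 43976068676) (nat_lit 46) (nat_lit 5) (nat_lit 49) (nat_lit 5) (nat_lit 50) (nat_lit 5) (nat_lit 306) (nat_lit 290) (nat_lit 184))) (XT.nd (nat_lit 78) (nat_lit 456) (nat_lit 0) (XT.lf (nat_lit 0) (nat_lit 59901562448) (nat_lit 304) (nat_lit 17002812479) (nat_lit 76) (nat_lit 10822747343) (nat_lit 46) (nat_lit 5) (nat_lit 50) (nat_lit 5) (nat_lit 47) (nat_lit 5) (nat_lit 307) (nat_lit 290) (nat_lit 183)) (XT.nd (nat_lit 78) (nat_lit 228) (nat_lit 0) (XT.lf (nat_lit 0) (nat_lit 49878435886) (nat_lit 228) (nat_lit 33426734599) (nat_lit 304) (nat_lit 8965302276) (nat_lit 43) (nat_lit 5) (nat_lit 46) (nat_lit 5) (nat_lit 47) (nat_lit 5) (nat_lit 308) (nat_lit 290) (nat_lit 182)) (XT.lf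 (nat_lit 0) (nat_lit 11972857782) (nat_lit 228) (nat_lit 71150554814) (nat_lit 76) (nat_lit 13998276194) (nat_lit 40) (nat_lit 5) (nat_lit 43) (nat_lit 5) (nat_lit 41) (nat_lit 5) (nat_lit 309) (nat_lit 290) (nat_lit 181))))))))
noncomputable def xc101 : XT := (XT.nd (nat_lit 1560) (nat_lit 456) (nat_lit 0) (XT.nd (nat_lit 780) (nat_lit 684) (nat_lit 0) (XT.nd (nat_lit 390) (nat_lit 684) (nat_lit 0) (XT.nd (nat_lit 156) (nat_lit 456) (nat_lit 0) (XT.nd (nat_lit 78) (nat_lit 228) (nat_lit 0) (XT.lf (nat_lit 0) (nat_lit 35588524436) (nat_lit 228) (nat_lit 1736390472) (nat_lit 76) (nat_lit 64962914057) (nat_lit 40) (nat_lit 5) (nat_lit 43) (nat_lit 5) (nat_lit 41) (nat_lit 5) (nat_lit 310) (nat_lit 290) (nat_lit 180)) (XT.lf (nat_lit 0) (nat_lit 62481708589) (nat_lit 304) (nat_lit 32367343526) (nat_lit 76) (nat_lit 12948797982) (nat_lit 37) (nat_lit 5) (nat_lit 41) (nat_lit 5) (nat_lit 38)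 (nat_lit 5) (nat_lit 311) (nat_lit 290) (nat_lit 179))) (XT.nd (nat_lit 78) (nat_lit 304) (nat_lit 0) (XT.lf (nat_lit 0) (nat_lit 45923226982) (nat_lit 152) (nat_lit 46978606410) (nat_lit 228) (nat_lit 20778067965) (nat_lit 35) (nat_lit 5) (nat_lit 37) (nat_lit 5) (nat_lit 38) (nat_lit 5) (nat_lit 312) (nat_lit 290) (nat_lit 178)) (XT.nd (nat_lit 78) (nat_lit 0) (nat_lit 0) (XT.lf (nat_lit 0) (nat_lit 6384924141) (nat_lit 304) (nat_lit 108168979514) (nat_lit 76) (nat_lit 5431895524) (nat_lit 31) (nat_lit 5) (nat_lit 35) (nat_lit 5) (nat_lit 32) (nat_lit 5) (nat_lit 313) (nat_lit 290) (nat_lit 177)) (XT.lf (nat_lit 0) (nat_lit 36993010492) (nat_lit 304) (nat_lit 27725501749) (nat_lit 76) (nat_lit 61960626757) (nat_lit 31) (nat_lit 5) (nat_lit 35) (nat_lit 5) (nat_lit 32) (nat_lit 5) (nat_lit 314) (nat_lit 290) (nat_lit 176))))) (XT.nd (nat_lit 156) (nat_lit 380) (nat_lit 0) (XT.nd (nat_lit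 78) (nat_lit 152) (nat_lit 0) (XT.lf (nat_lit 0) (nat_lit 61107173845) (nat_lit 152) (nat_lit 9895247810) (nat_lit 228) (nat_lit 62857892518) (nat_lit 29) (nat_lit 5) (nat_lit 31) (nat_lit 5) (nat_lit 32) (nat_lit 5) (nat_lit 315) (nat_lit 290) (nat_lit 175)) (XT.lf (nat_lit 0) (nat_lit 16182743484) (nat_lit 152) (nat_lit 93061989306) (nat_lit 228) (nat_lit 32295645131) (nat_lit 27) (nat_lit 5) (nat_lit 29) (nat_lit 5) (nat_lit 30) (nat_lit 5) (nat_lit 316) (nat_lit 290) (nat_lit 174))) (XT.nd (nat_lit 78) (nat_lit 304) (nat_lit 0) (XT.lf (nat_lit 0) (nat_lit 2142475441) (nat_lit 228) (nat_lit 35140740685) (nat_lit 76) (nat_lit 112478393417) (nat_lit 26) (nat_lit 5) (nat_lit 29) (nat_lit 5) (nat_lit 27) (nat_lit 5) (nat_lit 317) (nat_lit 290) (nat_lit 173)) (XT.nd (nat_lit 78) (nat_lit 152) (nat_lit 0) (XT.lf (nat_lit 0) (nat_lit 39597712966) (nat_lit 228) (nat_lit 95158539698) (nat_lit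 76) (nat_lit 23788139282) (nat_lit 24) (nat_lit 5) (nat_lit 27) (nat_lit 5) (nat_lit 25) (nat_lit 5) (nat_lit 318) (nat_lit 290) (nat_lit 172)) (XT.lf (nat_lit 0) (nat_lit 2489396397) (nat_lit 152) (nat_lit 78848538017) (nat_lit 228) (nat_lit 86627435729) (nat_lit 22) (nat_lit 5) (nat_lit 24) (nat_lit 5) (nat_lit 25) (nat_lit 5) (nat_lit 319) (nat_lit 290) (nat_lit 171)))))) (XT.nd (nat_lit 390) (nat_lit 380) (nat_lit 0) (XT.nd (nat_lit 156) (nat_lit 228) (nat_lit 0) (XT.nd (nat_lit 78) (nat_lit 76) (nat_lit 0) (XT.lf (nat_lit 0) (nat_lit 111345499156) (nat_lit 152) (nat_lit 16728402489) (nat_lit 228) (nat_lit 49983299886) (nat_lit 22) (nat_lit 5) (nat_lit 24) (nat_lit 5) (nat_lit 25) (nat_lit 5) (nat_lit 320) (nat_lit 290) (nat_lit 170)) (XT.lf (nat_lit 0) (nat_lit 40460765645) (nat_lit 76) (nat_lit 139504965613) (nat_lit 152) (nat_lit 8919800161) (nat_lit 21) (nat_lit 5) (nat_lit 22)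 (nat_lit 5) (nat_lit 23) (nat_lit 4) (nat_lit 321) (nat_lit 290) (nat_lit 169))) (XT.nd (nat_lit 78) (nat_lit 152) (nat_lit 0) (XT.lf (nat_lit 0) (nat_lit 35757064065) (nat_lit 152) (nat_lit 42788625373) (nat_lit 76) (nat_lit 121933670890) (nat_lit 20) (nat_lit 5) (nat_lit 22) (nat_lit 5) (nat_lit 21) (nat_lit 5) (nat_lit 322) (nat_lit 290) (nat_lit 168)) (XT.nd (nat_lit 78) (nat_lit 0) (nat_lit 0) (XT.lf (nat_lit 0) (nat_lit 73498925341) (nat_lit 152) (nat_lit 11347449764) (nat_lit 228) (nat_lit 128089469945) (nat_lit 18) (nat_lit 5) (nat_lit 20) (nat_lit 5) (nat_lit 21) (nat_lit 5) (nat_lit 323) (nat_lit 290) (nat_lit 167)) (XT.lf (nat_lit 0) (nat_lit 139575456652) (nat_lit 228) (nat_lit 26703742062) (nat_lit 76) (nat_lit 60024019492) (nat_lit 18) (nat_lit 5) (nat_lit 21) (nat_lit 5) (nat_lit 19) (nat_lit 4) (nat_lit 324) (nat_lit 290) (nat_lit 166))))) (XT.nd (nat_lit 156) (nat_lit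 228) (nat_lit 0) (XT.nd (nat_lit 78) (nat_lit 76) (nat_lit 0) (XT.lf (nat_lit 0) (nat_lit 97991736846) (nat_lit 76) (nat_lit 102411593109) (nat_lit 152) (nat_lit 40250628866) (nat_lit 17) (nat_lit 5) (nat_lit 18) (nat_lit 5) (nat_lit 19) (nat_lit 4) (nat_lit 325) (nat_lit 290) (nat_lit 165)) (XT.lf (nat_lit 0) (nat_lit 10098396799) (nat_lit 152) (nat_lit 22677283279) (nat_lit 76) (nat_lit 223345715458) (nat_lit 16) (nat_lit 5) (nat_lit 18) (nat_lit 5) (nat_lit 17) (nat_lit 5) (nat_lit 326) (nat_lit 290) (nat_lit 164))) (XT.nd (nat_lit 78) (nat_lit 76) (nat_lit 0) (XT.lf (nat_lit 0) (nat_lit 65498300125) (nat_lit 228) (nat_lit 163669486852) (nat_lit 76) (nat_lit 43503791522) (nat_lit 14) (nat_lit 5) (nat_lit 17) (nat_lit 5) (nat_lit 15) (nat_lit 4) (nat_lit 327) (nat_lit 290) (nat_lit 163)) (XT.nd (nat_lit 78) (nat_lit 76) (nat_lit 0) (XT.lf (nat_lit 0) (nat_lit 126283663720) (nat_lit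 228) (nat_lit 39060747525) (nat_lit 76) (nat_lit 125153692111) (nat_lit 14) (nat_lit 5) (nat_lit 17) (nat_lit 5) (nat_lit 15) (nat_lit 4) (nat_lit 328) (nat_lit 290) (nat_lit 162)) (XT.lf (nat_lit 0) (nat_lit 98673752428) (nat_lit 76) (nat_lit 94798039563) (nat_lit 152) (nat_lit 116201962038) (nat_lit 13) (nat_lit 5) (nat_lit 14) (nat_lit 5) (nat_lit 15) (nat_lit 4) (nat_lit 329) (nat_lit 290) (nat_lit 161))))))) (XT.nd (nat_lit 780) (nat_lit 76) (nat_lit 0) (XT.nd (nat_lit 390) (nat_lit 152) (nat_lit 0) (XT.nd (nat_lit 156) (nat_lit 152) (nat_lit 0) (XT.nd (nat_lit 78) (nat_lit 76) (nat_lit 0) (XT.lf (nat_lit 0) (nat_lit 248820792696) (nat_lit 76) (nat_lit 17893983257) (nat_lit 152) (nat_lit 63634691095) (nat_lit 13) (nat_lit 5) (nat_lit 14) (nat_lit 5) (nat_lit 15) (nat_lit 4) (nat_lit 330) (nat_lit 290) (nat_lit 160)) (XT.lf (nat_lit 0) (nat_lit 59175983046) (nat_lit 76) (nat_lit 288581916946)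 (nat_lit 76) (nat_lit 4824302569) (nat_lit 12) (nat_lit 4) (nat_lit 13) (nat_lit 5) (nat_lit 13) (nat_lit 4) (nat_lit 331) (nat_lit 290) (nat_lit 159))) (XT.nd (nat_lit 78) (nat_lit 76) (nat_lit 0) (XT.lf (nat_lit 0) (nat_lit 58557073420) (nat_lit 152) (nat_lit 163716493129) (nat_lit 76) (nat_lit 154186942726) (nat_lit 11) (nat_lit 5) (nat_lit 13) (nat_lit 5) (nat_lit 12) (nat_lit 4) (nat_lit 332) (nat_lit 290) (nat_lit 158)) (XT.nd (nat_lit 78) (nat_lit 76) (nat_lit 0) (XT.lf (nat_lit 0) (nat_lit 126841688421) (nat_lit 152) (nat_lit 23733846512) (nat_lit 76) (nat_lit 251669504225) (nat_lit 11) (nat_lit 5) (nat_lit 13) (nat_lit 5) (nat_lit 12) (nat_lit 4) (nat_lit 333) (nat_lit 290) (nat_lit 157)) (XT.lf (nat_lit 0) (nat_lit 131660527119) (nat_lit 76) (nat_lit 70983662502) (nat_lit 152) (nat_lit 227345386353) (nat_lit 10) (nat_lit 5) (nat_lit 11) (nat_lit 5) (nat_lit 12) (nat_lit 4) (nat_lit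 334) (nat_lit 290) (nat_lit 156))))) (XT.nd (nat_lit 156) (nat_lit 152) (nat_lit 0) (XT.nd (nat_lit 78) (nat_lit 0) (nat_lit 0) (XT.lf (nat_lit 0) (nat_lit 285164451224) (nat_lit 152) (nat_lit 159840438108) (nat_lit 0) (nat_lit 14916108753) (nat_lit 10) (nat_lit 5) (nat_lit 12) (nat_lit 4) (nat_lit 10) (nat_lit 4) (nat_lit 335) (nat_lit 290) (nat_lit 155)) (XT.lf (nat_lit 0) (nat_lit 375482825788) (nat_lit 152) (nat_lit 11470416107) (nat_lit 0) (nat_lit 105233867806) (nat_lit 10) (nat_lit 5) (nat_lit 12) (nat_lit 4) (nat_lit 10) (nat_lit 4) (nat_lit 336) (nat_lit 290) (nat_lit 154))) (XT.nd (nat_lit 78) (nat_lit 76) (nat_lit 0) (XT.lf (nat_lit 0) (nat_lit 153687459304) (nat_lit 76) (nat_lit 321738312051) (nat_lit 76) (nat_lit 51488784152) (nat_lit 9) (nat_lit 4) (nat_lit 10) (nat_lit 5) (nat_lit 10) (nat_lit 4) (nat_lit 337) (nat_lit 290) (nat_lit 153)) (XT.nd (nat_lit 78) (nat_lit 0)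 (nat_lit 0) (XT.lf (nat_lit 0) (nat_lit 18540334584) (nat_lit 152) (nat_lit 232242369701) (nat_lit 76) (nat_lit 313612569363) (nat_lit 8) (nat_lit 5) (nat_lit 10) (nat_lit 5) (nat_lit 9) (nat_lit 4) (nat_lit 338) (nat_lit 290) (nat_lit 152)) (XT.lf (nat_lit 0) (nat_lit 92391632333) (nat_lit 152) (nat_lit 80847697929) (nat_lit 76) (nat_lit 431591727026) (nat_lit 8) (nat_lit 5) (nat_lit 10) (nat_lit 5) (nat_lit 9) (nat_lit 4) (nat_lit 339) (nat_lit 290) (nat_lit 151)))))) (XT.nd (nat_lit 36972) (nat_lit 0) (nat_lit 5700) (XT.nd (nat_lit 156) (nat_lit 0) (nat_lit 0) (XT.nd (nat_lit 78) (nat_lit 0) (nat_lit 0) (XT.lf (nat_lit 0) (nat_lit 85391002288) (nat_lit 76) (nat_lit 88092899623) (nat_lit 152) (nat_lit 474951158544) (nat_lit 7) (nat_lit 5) (nat_lit 8) (nat_lit 5) (nat_lit 9) (nat_lit 4) (nat_lit 340) (nat_lit 290) (nat_lit 150)) (XT.lf (nat_lit 0) (nat_lit 262554988648) (nat_lit 152)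 (nat_lit 427725135531) (nat_lit 0) (nat_lit 5172688136) (nat_lit 7) (nat_lit 5) (nat_lit 9) (nat_lit 4) (nat_lit 7) (nat_lit 4) (nat_lit 341) (nat_lit 290) (nat_lit 149))) (XT.nd (nat_lit 36660) (nat_lit 0) (nat_lit 5624) (XT.lf (nat_lit 0) (nat_lit 360236879171) (nat_lit 152) (nat_lit 283066640261) (nat_lit 0) (nat_lit 102854209253) (nat_lit 7) (nat_lit 5) (nat_lit 9) (nat_lit 4) (nat_lit 7) (nat_lit 4) (nat_lit 342) (nat_lit 290) (nat_lit 148)) (XT.nd (nat_lit 78) (nat_lit 0) (nat_lit 0) (XT.lf (nat_lit 0) (nat_lit 7139266964) (nat_lit 0) (nat_lit 7139266964) (nat_lit 684) (nat_lit 7991525508) (nat_lit 81) (nat_lit 5) (nat_lit 81) (nat_lit 3) (nat_lit 90) (nat_lit 3) (nat_lit 291) (nat_lit 291) (nat_lit 198)) (XT.lf (nat_lit 76) (nat_lit 831844120) (nat_lit 0) (nat_lit 29204089436) (nat_lit 760) (nat_lit 16268834572) (nat_lit 82) (nat_lit 5) (nat_lit 81) (nat_lit 5) (nat_lit 91) (nat_lit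 5) (nat_lit 292) (nat_lit 291) (nat_lit 197))))) (XT.nd (nat_lit 156) (nat_lit 0) (nat_lit 76) (XT.nd (nat_lit 78) (nat_lit 0) (nat_lit 0) (XT.lf (nat_lit 0) (nat_lit 32436807308) (nat_lit 684) (nat_lit 12975254684) (nat_lit 760) (nat_lit 2758355035) (nat_lit 82) (nat_lit 5) (nat_lit 91) (nat_lit 5) (nat_lit 92) (nat_lit 5) (nat_lit 293) (nat_lit 291) (nat_lit 196)) (XT.lf (nat_lit 76) (nat_lit 22342041413) (nat_lit 0) (nat_lit 13524544110) (nat_lit 760) (nat_lit 14276902290) (nat_lit 83) (nat_lit 5) (nat_lit 82) (nat_lit 5) (nat_lit 92) (nat_lit 5) (nat_lit 294) (nat_lit 291) (nat_lit 195))) (XT.nd (nat_lit 78) (nat_lit 0) (nat_lit 76) (XT.lf (nat_lit 76) (nat_lit 8627922613) (nat_lit 0) (nat_lit 31629666770) (nat_lit 760) (nat_lit 11982483548) (nat_lit 84) (nat_lit 5) (nat_lit 83) (nat_lit 5) (nat_lit 93) (nat_lit 5) (nat_lit 295) (nat_lit 291) (nat_lit 194)) (XT.nd (nat_lit 78) (nat_lit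 0) (nat_lit 0) (XT.lf (nat_lit 0) (nat_lit 45751845014) (nat_lit 684) (nat_lit 5790318908) (nat_lit 760) (nat_lit 2924632398) (nat_lit 84) (nat_lit 5) (nat_lit 93) (nat_lit 5) (nat_lit 94) (nat_lit 5) (nat_lit 296) (nat_lit 291) (nat_lit 193)) (XT.lf (nat_lit 76) (nat_lit 35662529944) (nat_lit 0) (nat_lit 17109683857) (nat_lit 760) (nat_lit 4045124435) (nat_lit 85) (nat_lit 5) (nat_lit 84) (nat_lit 5) (nat_lit 94) (nat_lit 5) (nat_lit 297) (nat_lit 291) (nat_lit 192))))))))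
noncomputable def xc102 : XT := (XT.nd (nat_lit 1560) (nat_lit 1292) (nat_lit 0) (XT.nd (nat_lit 780) (nat_lit 1444) (nat_lit 0) (XT.nd (nat_lit 390) (nat_lit 1140) (nat_lit 0) (XT.nd (nat_lit 156) (nat_lit 684) (nat_lit 0) (XT.nd (nat_lit 78) (nat_lit 380) (nat_lit 0) (XT.lf (nat_lit 0) (nat_lit 1729515214) (nat_lit 760) (nat_lit 37683439903) (nat_lit 76) (nat_lit 19904038373) (nat_lit 75) (nat_lit 5) (nat_lit 85) (nat_lit 5) (nat_lit 76) (nat_lit 5) (nat_lit 298) (nat_lit 291) (nat_lit 191)) (XT.lf (nat_lit 0) (nat_lit 6442811373) (nat_lit 380) (nat_lit 2143944854) (nat_lit 456) (nat_lit 53388439265) (nat_lit 70) (nat_lit 5) (nat_lit 75) (nat_lit 5) (nat_lit 76) (nat_lit 5) (nat_lit 299) (nat_lit 291) (nat_lit 190))) (XT.nd (nat_lit 78) (nat_lit 684) (nat_lit 0) (XT.lf (nat_lit 0) (nat_lit 17251727638) (nat_lit 456) (nat_lit 9977022224) (nat_lit 76) (nat_lit 37554353263) (nat_lit 70)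 (nat_lit 5) (nat_lit 76) (nat_lit 5) (nat_lit 71) (nat_lit 5) (nat_lit 300) (nat_lit 291) (nat_lit 189)) (XT.nd (nat_lit 78) (nat_lit 304) (nat_lit 0) (XT.lf (nat_lit 0) (nat_lit 27481440802) (nat_lit 456) (nat_lit 27509009321) (nat_lit 76) (nat_lit 12781622546) (nat_lit 65) (nat_lit 5) (nat_lit 71) (nat_lit 5) (nat_lit 66) (nat_lit 5) (nat_lit 301) (nat_lit 291) (nat_lit 188)) (XT.lf (nat_lit 0) (nat_lit 24196930779) (nat_lit 304) (nat_lit 15343554851) (nat_lit 380) (nat_lit 31409132440) (nat_lit 61) (nat_lit 5) (nat_lit 65) (nat_lit 5) (nat_lit 66) (nat_lit 5) (nat_lit 302) (nat_lit 291) (nat_lit 187))))) (XT.nd (nat_lit 156) (nat_lit 836) (nat_lit 0) (XT.nd (nat_lit 78) (nat_lit 0) (nat_lit 0) (XT.lf (nat_lit 0) (nat_lit 6430559326) (nat_lit 304) (nat_lit 47147655167) (nat_lit 380) (nat_lit 20752460163) (nat_lit 57) (nat_lit 5) (nat_lit 61) (nat_lit 5) (nat_lit 62) (nat_lit 5) (nat_lit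 303) (nat_lit 291) (nat_lit 186)) (XT.lf (nat_lit 0) (nat_lit 65268115995) (nat_lit 304) (nat_lit 4537488888) (nat_lit 380) (nat_lit 8123283888) (nat_lit 57) (nat_lit 5) (nat_lit 61) (nat_lit 5) (nat_lit 62) (nat_lit 5) (nat_lit 304) (nat_lit 291) (nat_lit 185))) (XT.nd (nat_lit 78) (nat_lit 532) (nat_lit 0) (XT.lf (nat_lit 0) (nat_lit 6755549291) (nat_lit 304) (nat_lit 33974251571) (nat_lit 76) (nat_lit 41010063694) (nat_lit 53) (nat_lit 5) (nat_lit 57) (nat_lit 5) (nat_lit 54) (nat_lit 5) (nat_lit 305) (nat_lit 291) (nat_lit 184)) (XT.nd (nat_lit 78) (nat_lit 228) (nat_lit 0) (XT.lf (nat_lit 0) (nat_lit 23363288430) (nat_lit 380) (nat_lit 57570072614) (nat_lit 76) (nat_lit 4874543167) (nat_lit 49) (nat_lit 5) (nat_lit 54) (nat_lit 5) (nat_lit 50) (nat_lit 5) (nat_lit 306) (nat_lit 291) (nat_lit 183)) (XT.lf (nat_lit 0) (nat_lit 5960111895) (nat_lit 228) (nat_lit 36718931912) (nat_lit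 304) (nat_lit 47453377279) (nat_lit 46) (nat_lit 5) (nat_lit 49) (nat_lit 5) (nat_lit 50) (nat_lit 5) (nat_lit 307) (nat_lit 291) (nat_lit 182)))))) (XT.nd (nat_lit 390) (nat_lit 760) (nat_lit 0) (XT.nd (nat_lit 156) (nat_lit 456) (nat_lit 0) (XT.nd (nat_lit 78) (nat_lit 228) (nat_lit 0) (XT.lf (nat_lit 0) (nat_lit 64729735914) (nat_lit 304) (nat_lit 18315371457) (nat_lit 76) (nat_lit 11698311740) (nat_lit 46) (nat_lit 5) (nat_lit 50) (nat_lit 5) (nat_lit 47) (nat_lit 5) (nat_lit 308) (nat_lit 291) (nat_lit 181)) (XT.lf (nat_lit 0) (nat_lit 53914305270) (nat_lit 228) (nat_lit 36089368925) (nat_lit 304) (nat_lit 9646666590) (nat_lit 43) (nat_lit 5) (nat_lit 46) (nat_lit 5) (nat_lit 47) (nat_lit 5) (nat_lit 309) (nat_lit 291) (nat_lit 180))) (XT.nd (nat_lit 78) (nat_lit 228) (nat_lit 0) (XT.lf (nat_lit 0) (nat_lit 12963712524) (nat_lit 228) (nat_lit 76796315524) (nat_lit 76) (nat_lit 15129686961)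 (nat_lit 40) (nat_lit 5) (nat_lit 43) (nat_lit 5) (nat_lit 41) (nat_lit 5) (nat_lit 310) (nat_lit 291) (nat_lit 179)) (XT.nd (nat_lit 78) (nat_lit 228) (nat_lit 0) (XT.lf (nat_lit 0) (nat_lit 38466186132) (nat_lit 228) (nat_lit 1832446455) (nat_lit 76) (nat_lit 70170640396) (nat_lit 40) (nat_lit 5) (nat_lit 43) (nat_lit 5) (nat_lit 41) (nat_lit 5) (nat_lit 311) (nat_lit 291) (nat_lit 178)) (XT.lf (nat_lit 0) (nat_lit 67509387814) (nat_lit 304) (nat_lit 34914429048) (nat_lit 76) (nat_lit 13996354752) (nat_lit 37) (nat_lit 5) (nat_lit 41) (nat_lit 5) (nat_lit 38) (nat_lit 5) (nat_lit 312) (nat_lit 291) (nat_lit 177))))) (XT.nd (nat_lit 156) (nat_lit 304) (nat_lit 0) (XT.nd (nat_lit 78) (nat_lit 304) (nat_lit 0) (XT.lf (nat_lit 0) (nat_lit 49637548709) (nat_lit 152) (nat_lit 50724046935) (nat_lit 228) (nat_lit 22411271335) (nat_lit 35) (nat_lit 5) (nat_lit 37) (nat_lit 5) (nat_lit 38) (nat_lit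 5) (nat_lit 313) (nat_lit 291) (nat_lit 176)) (XT.lf (nat_lit 0) (nat_lit 6922569790) (nat_lit 304) (nat_lit 116781692041) (nat_lit 76) (nat_lit 5879018391) (nat_lit 31) (nat_lit 5) (nat_lit 35) (nat_lit 5) (nat_lit 32) (nat_lit 5) (nat_lit 314) (nat_lit 291) (nat_lit 175))) (XT.nd (nat_lit 78) (nat_lit 304) (nat_lit 0) (XT.lf (nat_lit 0) (nat_lit 39977314033) (nat_lit 304) (nat_lit 29905758709) (nat_lit 76) (nat_lit 66929116920) (nat_lit 31) (nat_lit 5) (nat_lit 35) (nat_lit 5) (nat_lit 32) (nat_lit 5) (nat_lit 315) (nat_lit 291) (nat_lit 174)) (XT.nd (nat_lit 78) (nat_lit 152) (nat_lit 0) (XT.lf (nat_lit 0) (nat_lit 66031888922) (nat_lit 152) (nat_lit 10674311751) (nat_lit 228) (nat_lit 67861724814) (nat_lit 29) (nat_lit 5) (nat_lit 31) (nat_lit 5) (nat_lit 32) (nat_lit 5) (nat_lit 316) (nat_lit 291) (nat_lit 173)) (XT.lf (nat_lit 0) (nat_lit 17512907037) (nat_lit 152) (nat_lit 100493979058)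 (nat_lit 228) (nat_lit 34855561330) (nat_lit 27) (nat_lit 5) (nat_lit 29) (nat_lit 5) (nat_lit 30) (nat_lit 5) (nat_lit 317) (nat_lit 291) (nat_lit 172))))))) (XT.nd (nat_lit 780) (nat_lit 456) (nat_lit 0) (XT.nd (nat_lit 390) (nat_lit 380) (nat_lit 0) (XT.nd (nat_lit 156) (nat_lit 228) (nat_lit 0) (XT.nd (nat_lit 78) (nat_lit 152) (nat_lit 0) (XT.lf (nat_lit 0) (nat_lit 2335147300) (nat_lit 228) (nat_lit 37918357136) (nat_lit 76) (nat_lit 121487941963) (nat_lit 26) (nat_lit 5) (nat_lit 29) (nat_lit 5) (nat_lit 27) (nat_lit 5) (nat_lit 318) (nat_lit 291) (nat_lit 171)) (XT.lf (nat_lit 0) (nat_lit 42785917466) (nat_lit 228) (nat_lit 102738193046) (nat_lit 76) (nat_lit 25702787292) (nat_lit 24) (nat_lit 5) (nat_lit 27) (nat_lit 5) (nat_lit 25) (nat_lit 5) (nat_lit 319) (nat_lit 291) (nat_lit 170))) (XT.nd (nat_lit 78) (nat_lit 76) (nat_lit 0) (XT.lf (nat_lit 0) (nat_lit 2720142501) (nat_lit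 152) (nat_lit 85144197223) (nat_lit 228) (nat_lit 93537267312) (nat_lit 22) (nat_lit 5) (nat_lit 24) (nat_lit 5) (nat_lit 25) (nat_lit 5) (nat_lit 320) (nat_lit 291) (nat_lit 169)) (XT.nd (nat_lit 78) (nat_lit 76) (nat_lit 0) (XT.lf (nat_lit 0) (nat_lit 120282393156) (nat_lit 152) (nat_lit 18055356322) (nat_lit 228) (nat_lit 53963108992) (nat_lit 22) (nat_lit 5) (nat_lit 24) (nat_lit 5) (nat_lit 25) (nat_lit 5) (nat_lit 321) (nat_lit 291) (nat_lit 168)) (XT.lf (nat_lit 0) (nat_lit 43726319823) (nat_lit 76) (nat_lit 150653888665) (nat_lit 152) (nat_lit 9615283769) (nat_lit 21) (nat_lit 5) (nat_lit 22) (nat_lit 5) (nat_lit 23) (nat_lit 4) (nat_lit 322) (nat_lit 291) (nat_lit 167))))) (XT.nd (nat_lit 156) (nat_lit 152) (nat_lit 0) (XT.nd (nat_lit 78) (nat_lit 152) (nat_lit 0) (XT.lf (nat_lit 0) (nat_lit 38633852412) (nat_lit 152) (nat_lit 46184593177) (nat_lit 76) (nat_lit 131698434116)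 (nat_lit 20) (nat_lit 5) (nat_lit 22) (nat_lit 5) (nat_lit 21) (nat_lit 5) (nat_lit 323) (nat_lit 291) (nat_lit 166)) (XT.lf (nat_lit 0) (nat_lit 79404782895) (nat_lit 152) (nat_lit 12244728771) (nat_lit 228) (nat_lit 138320412726) (nat_lit 18) (nat_lit 5) (nat_lit 20) (nat_lit 5) (nat_lit 21) (nat_lit 5) (nat_lit 324) (nat_lit 291) (nat_lit 165))) (XT.nd (nat_lit 78) (nat_lit 152) (nat_lit 0) (XT.lf (nat_lit 0) (nat_lit 150755929066) (nat_lit 228) (nat_lit 28815441807) (nat_lit 76) (nat_lit 64835367316) (nat_lit 18) (nat_lit 5) (nat_lit 21) (nat_lit 5) (nat_lit 19) (nat_lit 4) (nat_lit 325) (nat_lit 291) (nat_lit 164)) (XT.nd (nat_lit 78) (nat_lit 76) (nat_lit 0) (XT.lf (nat_lit 0) (nat_lit 105854606343) (nat_lit 76) (nat_lit 110594723943) (nat_lit 152) (nat_lit 43456244025) (nat_lit 17) (nat_lit 5) (nat_lit 18) (nat_lit 5) (nat_lit 19) (nat_lit 4) (nat_lit 326) (nat_lit 291) (nat_lit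 163)) (XT.lf (nat_lit 0) (nat_lit 10919206630) (nat_lit 152) (nat_lit 24469237801) (nat_lit 76) (nat_lit 241222003041) (nat_lit 16) (nat_lit 5) (nat_lit 18) (nat_lit 5) (nat_lit 17) (nat_lit 5) (nat_lit 327) (nat_lit 291) (nat_lit 162)))))) (XT.nd (nat_lit 390) (nat_lit 152) (nat_lit 0) (XT.nd (nat_lit 156) (nat_lit 152) (nat_lit 0) (XT.nd (nat_lit 78) (nat_lit 0) (nat_lit 0) (XT.lf (nat_lit 0) (nat_lit 70750615549) (nat_lit 228) (nat_lit 176741295972) (nat_lit 76) (nat_lit 46992758833) (nat_lit 14) (nat_lit 5) (nat_lit 17) (nat_lit 5) (nat_lit 15) (nat_lit 4) (nat_lit 328) (nat_lit 291) (nat_lit 161)) (XT.lf (nat_lit 0) (nat_lit 136397885905) (nat_lit 228) (nat_lit 42165468597) (nat_lit 76) (nat_lit 135174009692) (nat_lit 14) (nat_lit 5) (nat_lit 17) (nat_lit 5) (nat_lit 15) (nat_lit 4) (nat_lit 329) (nat_lit 291) (nat_lit 160))) (XT.nd (nat_lit 78) (nat_lit 76) (nat_lit 0) (XT.lf (nat_lit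 0) (nat_lit 106586916148) (nat_lit 76) (nat_lit 102373595041) (nat_lit 152) (nat_lit 125486584208) (nat_lit 13) (nat_lit 5) (nat_lit 14) (nat_lit 5) (nat_lit 15) (nat_lit 4) (nat_lit 330) (nat_lit 291) (nat_lit 159)) (XT.nd (nat_lit 78) (nat_lit 76) (nat_lit 0) (XT.lf (nat_lit 0) (nat_lit 268744292709) (nat_lit 76) (nat_lit 19317828133) (nat_lit 152) (nat_lit 68714786019) (nat_lit 13) (nat_lit 5) (nat_lit 14) (nat_lit 5) (nat_lit 15) (nat_lit 4) (nat_lit 331) (nat_lit 291) (nat_lit 158)) (XT.lf (nat_lit 0) (nat_lit 63927503588) (nat_lit 76) (nat_lit 311660821668) (nat_lit 76) (nat_lit 5199955134) (nat_lit 12) (nat_lit 4) (nat_lit 13) (nat_lit 5) (nat_lit 13) (nat_lit 4) (nat_lit 332) (nat_lit 291) (nat_lit 157))))) (XT.nd (nat_lit 156) (nat_lit 76) (nat_lit 0) (XT.nd (nat_lit 78) (nat_lit 0) (nat_lit 0) (XT.lf (nat_lit 0) (nat_lit 63250863593) (nat_lit 152) (nat_lit 176797349994) (nat_lit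 76) (nat_lit 166528667532) (nat_lit 11) (nat_lit 5) (nat_lit 13) (nat_lit 5) (nat_lit 12) (nat_lit 4) (nat_lit 333) (nat_lit 291) (nat_lit 156)) (XT.lf (nat_lit 0) (nat_lit 136997564513) (nat_lit 152) (nat_lit 25617311098) (nat_lit 76) (nat_lit 271809332515) (nat_lit 11) (nat_lit 5) (nat_lit 13) (nat_lit 5) (nat_lit 12) (nat_lit 4) (nat_lit 334) (nat_lit 291) (nat_lit 155))) (XT.nd (nat_lit 78) (nat_lit 0) (nat_lit 0) (XT.lf (nat_lit 0) (nat_lit 142207949976) (nat_lit 76) (nat_lit 76655910810) (nat_lit 152) (nat_lit 245524467879) (nat_lit 10) (nat_lit 5) (nat_lit 11) (nat_lit 5) (nat_lit 12) (nat_lit 4) (nat_lit 335) (nat_lit 291) (nat_lit 154)) (XT.nd (nat_lit 78) (nat_lit 0) (nat_lit 0) (XT.lf (nat_lit 0) (nat_lit 307985233817) (nat_lit 152) (nat_lit 172613882922) (nat_lit 0) (nat_lit 16115173769) (nat_lit 10) (nat_lit 5) (nat_lit 12) (nat_lit 4) (nat_lit 10) (nat_lit 4) (nat_lit 336)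 (nat_lit 291) (nat_lit 153)) (XT.lf (nat_lit 0) (nat_lit 405528513421) (nat_lit 152) (nat_lit 12375280659) (nat_lit 0) (nat_lit 113657925671) (nat_lit 10) (nat_lit 5) (nat_lit 12) (nat_lit 4) (nat_lit 10) (nat_lit 4) (nat_lit 337) (nat_lit 291) (nat_lit 152))))))))
noncomputable def xc103 : XT := (XT.nd (nat_lit 38220) (nat_lit 0) (nat_lit 760) (XT.nd (nat_lit 37440) (nat_lit 0) (nat_lit 3496) (XT.nd (nat_lit 37050) (nat_lit 0) (nat_lit 5624) (XT.nd (nat_lit 156) (nat_lit 76) (nat_lit 0) (XT.nd (nat_lit 78) (nat_lit 76) (nat_lit 0) (XT.lf (nat_lit 0) (nat_lit 165994669872) (nat_lit 76) (nat_lit 347471892375) (nat_lit 76) (nat_lit 55600816013) (nat_lit 9) (nat_lit 4) (nat_lit 10) (nat_lit 5) (nat_lit 10) (nat_lit 4) (nat_lit 338) (nat_lit 291) (nat_lit 151)) (XT.lf (nat_lit 0) (nat_lit 20029898906) (nat_lit 152) (nat_lit 250810236022) (nat_lit 76) (nat_lit 338706439122) (nat_lit 8) (nat_lit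 5) (nat_lit 10) (nat_lit 5) (nat_lit 9) (nat_lit 4) (nat_lit 339) (nat_lit 291) (nat_lit 150))) (XT.nd (nat_lit 78) (nat_lit 76) (nat_lit 0) (XT.lf (nat_lit 0) (nat_lit 99788831025) (nat_lit 152) (nat_lit 87304844083) (nat_lit 76) (nat_lit 466123569087) (nat_lit 8) (nat_lit 5) (nat_lit 10) (nat_lit 5) (nat_lit 9) (nat_lit 4) (nat_lit 340) (nat_lit 291) (nat_lit 149)) (XT.nd (nat_lit 78) (nat_lit 0) (nat_lit 0) (XT.lf (nat_lit 0) (nat_lit 92232488460) (nat_lit 76) (nat_lit 95135718380) (nat_lit 152) (nat_lit 512941374860) (nat_lit 7) (nat_lit 5) (nat_lit 8) (nat_lit 5) (nat_lit 9) (nat_lit 4) (nat_lit 341) (nat_lit 291) (nat_lit 148)) (XT.lf (nat_lit 0) (nat_lit 283564632926) (nat_lit 152) (nat_lit 461933500489) (nat_lit 0) (nat_lit 5590637966) (nat_lit 7) (nat_lit 5) (nat_lit 9) (nat_lit 4) (nat_lit 7) (nat_lit 4) (nat_lit 342) (nat_lit 291) (nat_lit 147))))) (XT.nd (nat_lit 156) (nat_lit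 0) (nat_lit 76) (XT.nd (nat_lit 78) (nat_lit 0) (nat_lit 0) (XT.lf (nat_lit 0) (nat_lit 7733825091) (nat_lit 0) (nat_lit 7733825091) (nat_lit 684) (nat_lit 8581549021) (nat_lit 81) (nat_lit 5) (nat_lit 81) (nat_lit 3) (nat_lit 90) (nat_lit 3) (nat_lit 292) (nat_lit 292) (nat_lit 196)) (XT.lf (nat_lit 76) (nat_lit 948605011) (nat_lit 0) (nat_lit 31577038940) (nat_lit 760) (nat_lit 17478935490) (nat_lit 82) (nat_lit 5) (nat_lit 81) (nat_lit 5) (nat_lit 91) (nat_lit 5) (nat_lit 293) (nat_lit 292) (nat_lit 195))) (XT.nd (nat_lit 78) (nat_lit 0) (nat_lit 0) (XT.lf (nat_lit 0) (nat_lit 35111625904) (nat_lit 684) (nat_lit 13962020172) (nat_lit 760) (nat_lit 2946199174) (nat_lit 82) (nat_lit 5) (nat_lit 91) (nat_lit 5) (nat_lit 92) (nat_lit 5) (nat_lit 294) (nat_lit 292) (nat_lit 194)) (XT.nd (nat_lit 78) (nat_lit 0) (nat_lit 76) (XT.lf (nat_lit 76) (nat_lit 24178432137) (nat_lit 0) (nat_lit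 14632203102) (nat_lit 760) (nat_lit 15340399680) (nat_lit 83) (nat_lit 5) (nat_lit 82) (nat_lit 5) (nat_lit 92) (nat_lit 5) (nat_lit 295) (nat_lit 292) (nat_lit 193)) (XT.lf (nat_lit 76) (nat_lit 9369197948) (nat_lit 0) (nat_lit 34178611871) (nat_lit 760) (nat_lit 12867807008) (nat_lit 84) (nat_lit 5) (nat_lit 83) (nat_lit 5) (nat_lit 93) (nat_lit 5) (nat_lit 296) (nat_lit 292) (nat_lit 192)))))) (XT.nd (nat_lit 390) (nat_lit 1292) (nat_lit 0) (XT.nd (nat_lit 156) (nat_lit 1064) (nat_lit 0) (XT.nd (nat_lit 78) (nat_lit 0) (nat_lit 0) (XT.lf (nat_lit 0) (nat_lit 49476180883) (nat_lit 684) (nat_lit 6202624586) (nat_lit 760) (nat_lit 3141957297) (nat_lit 84) (nat_lit 5) (nat_lit 93) (nat_lit 5) (nat_lit 94) (nat_lit 5) (nat_lit 297) (nat_lit 292) (nat_lit 191)) (XT.lf (nat_lit 76) (nat_lit 38564239260) (nat_lit 0) (nat_lit 18489945677) (nat_lit 760) (nat_lit 4305375243) (nat_lit 85) (nat_lit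 5) (nat_lit 84) (nat_lit 5) (nat_lit 94) (nat_lit 5) (nat_lit 298) (nat_lit 292) (nat_lit 190))) (XT.nd (nat_lit 78) (nat_lit 380) (nat_lit 0) (XT.lf (nat_lit 0) (nat_lit 1925285944) (nat_lit 760) (nat_lit 40646290538) (nat_lit 76) (nat_lit 21487768963) (nat_lit 75) (nat_lit 5) (nat_lit 85) (nat_lit 5) (nat_lit 76) (nat_lit 5) (nat_lit 299) (nat_lit 292) (nat_lit 189)) (XT.nd (nat_lit 78) (nat_lit 0) (nat_lit 0) (XT.lf (nat_lit 0) (nat_lit 7007808609) (nat_lit 380) (nat_lit 2319819036) (nat_lit 456) (nat_lit 57602760045) (nat_lit 70) (nat_lit 5) (nat_lit 75) (nat_lit 5) (nat_lit 76) (nat_lit 5) (nat_lit 300) (nat_lit 292) (nat_lit 188)) (XT.lf (nat_lit 0) (nat_lit 18681738876) (nat_lit 456) (nat_lit 10726606393) (nat_lit 76) (nat_lit 40554794958) (nat_lit 70) (nat_lit 5) (nat_lit 76) (nat_lit 5) (nat_lit 71) (nat_lit 5) (nat_lit 301) (nat_lit 292) (nat_lit 187))))) (XT.nd (nat_lit 156)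 (nat_lit 608) (nat_lit 0) (XT.nd (nat_lit 78) (nat_lit 304) (nat_lit 0) (XT.lf (nat_lit 0) (nat_lit 29726853433) (nat_lit 456) (nat_lit 29660802744) (nat_lit 76) (nat_lit 13803728644) (nat_lit 65) (nat_lit 5) (nat_lit 71) (nat_lit 5) (nat_lit 66) (nat_lit 5) (nat_lit 302) (nat_lit 292) (nat_lit 186)) (XT.lf (nat_lit 0) (nat_lit 26179486242) (nat_lit 304) (nat_lit 16568392420) (nat_lit 380) (nat_lit 33875400409) (nat_lit 61) (nat_lit 5) (nat_lit 65) (nat_lit 5) (nat_lit 66) (nat_lit 5) (nat_lit 303) (nat_lit 292) (nat_lit 185))) (XT.nd (nat_lit 78) (nat_lit 304) (nat_lit 0) (XT.lf (nat_lit 0) (nat_lit 6991939752) (nat_lit 304) (nat_lit 50914186463) (nat_lit 380) (nat_lit 22368826412) (nat_lit 57) (nat_lit 5) (nat_lit 61) (nat_lit 5) (nat_lit 62) (nat_lit 5) (nat_lit 304) (nat_lit 292) (nat_lit 184)) (XT.nd (nat_lit 78) (nat_lit 304) (nat_lit 0) (XT.lf (nat_lit 0) (nat_lit 70533024238)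 (nat_lit 304) (nat_lit 4895598077) (nat_lit 380) (nat_lit 8732562743) (nat_lit 57) (nat_lit 5) (nat_lit 61) (nat_lit 5) (nat_lit 62) (nat_lit 5) (nat_lit 305) (nat_lit 292) (nat_lit 183)) (XT.lf (nat_lit 0) (nat_lit 7333129101) (nat_lit 304) (nat_lit 36647463142) (nat_lit 76) (nat_lit 44296528526) (nat_lit 53) (nat_lit 5) (nat_lit 57) (nat_lit 5) (nat_lit 54) (nat_lit 5) (nat_lit 306) (nat_lit 292) (nat_lit 182))))))) (XT.nd (nat_lit 780) (nat_lit 1064) (nat_lit 0) (XT.nd (nat_lit 390) (nat_lit 684) (nat_lit 0) (XT.nd (nat_lit 156) (nat_lit 456) (nat_lit 0) (XT.nd (nat_lit 78) (nat_lit 228) (nat_lit 0) (XT.lf (nat_lit 0) (nat_lit 25267525269) (nat_lit 380) (nat_lit 62131191261) (nat_lit 76) (nat_lit 5271990814) (nat_lit 49) (nat_lit 5) (nat_lit 54) (nat_lit 5) (nat_lit 50) (nat_lit 5) (nat_lit 307) (nat_lit 292) (nat_lit 181)) (XT.lf (nat_lit 0) (nat_lit 6479474652) (nat_lit 228) (nat_lit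 39647125344) (nat_lit 304) (nat_lit 51214687850) (nat_lit 46) (nat_lit 5) (nat_lit 49) (nat_lit 5) (nat_lit 50) (nat_lit 5) (nat_lit 308) (nat_lit 292) (nat_lit 180))) (XT.nd (nat_lit 78) (nat_lit 456) (nat_lit 0) (XT.lf (nat_lit 0) (nat_lit 69939020540) (nat_lit 304) (nat_lit 19739735244) (nat_lit 76) (nat_lit 12642531111) (nat_lit 46) (nat_lit 5) (nat_lit 50) (nat_lit 5) (nat_lit 47) (nat_lit 5) (nat_lit 309) (nat_lit 292) (nat_lit 179)) (XT.nd (nat_lit 78) (nat_lit 228) (nat_lit 0) (XT.lf (nat_lit 0) (nat_lit 58266539638) (nat_lit 228) (nat_lit 38966655234) (nat_lit 304) (nat_lit 10387655860) (nat_lit 43) (nat_lit 5) (nat_lit 46) (nat_lit 5) (nat_lit 47) (nat_lit 5) (nat_lit 310) (nat_lit 292) (nat_lit 178)) (XT.lf (nat_lit 0) (nat_lit 14029124100) (nat_lit 228) (nat_lit 82900339975) (nat_lit 76) (nat_lit 16349963042) (nat_lit 40) (nat_lit 5) (nat_lit 43) (nat_lit 5) (nat_lit 41) (nat_lit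 5) (nat_lit 311) (nat_lit 292) (nat_lit 177))))) (XT.nd (nat_lit 156) (nat_lit 456) (nat_lit 0) (XT.nd (nat_lit 78) (nat_lit 228) (nat_lit 0) (XT.lf (nat_lit 0) (nat_lit 41569698221) (nat_lit 228) (nat_lit 1942300698) (nat_lit 76) (nat_lit 75793459335) (nat_lit 40) (nat_lit 5) (nat_lit 43) (nat_lit 5) (nat_lit 41) (nat_lit 5) (nat_lit 312) (nat_lit 292) (nat_lit 176)) (XT.lf (nat_lit 0) (nat_lit 72935123868) (nat_lit 304) (nat_lit 37671316259) (nat_lit 76) (nat_lit 15126053643) (nat_lit 37) (nat_lit 5) (nat_lit 41) (nat_lit 5) (nat_lit 38) (nat_lit 5) (nat_lit 313) (nat_lit 292) (nat_lit 175))) (XT.nd (nat_lit 78) (nat_lit 304) (nat_lit 0) (XT.lf (nat_lit 0) (nat_lit 53643243594) (nat_lit 152) (nat_lit 54770955610) (nat_lit 228) (nat_lit 24179274150) (nat_lit 35) (nat_lit 5) (nat_lit 37) (nat_lit 5) (nat_lit 38) (nat_lit 5) (nat_lit 314) (nat_lit 292) (nat_lit 174)) (XT.nd (nat_lit 78)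 (nat_lit 0) (nat_lit 0) (XT.lf (nat_lit 0) (nat_lit 7499396393) (nat_lit 304) (nat_lit 126089242978) (nat_lit 76) (nat_lit 6360117661) (nat_lit 31) (nat_lit 5) (nat_lit 35) (nat_lit 5) (nat_lit 32) (nat_lit 5) (nat_lit 315) (nat_lit 292) (nat_lit 173)) (XT.lf (nat_lit 0) (nat_lit 43196814915) (nat_lit 304) (nat_lit 32265826419) (nat_lit 76) (nat_lit 72293425717) (nat_lit 31) (nat_lit 5) (nat_lit 35) (nat_lit 5) (nat_lit 32) (nat_lit 5) (nat_lit 316) (nat_lit 292) (nat_lit 172)))))) (XT.nd (nat_lit 390) (nat_lit 380) (nat_lit 0) (XT.nd (nat_lit 156) (nat_lit 380) (nat_lit 0) (XT.nd (nat_lit 78) (nat_lit 152) (nat_lit 0) (XT.lf (nat_lit 0) (nat_lit 71345425263) (nat_lit 152) (nat_lit 11517492044) (nat_lit 228) (nat_lit 73269401563) (nat_lit 29) (nat_lit 5) (nat_lit 31) (nat_lit 5) (nat_lit 32) (nat_lit 5) (nat_lit 317) (nat_lit 292) (nat_lit 171)) (XT.lf (nat_lit 0) (nat_lit 18944412914)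 (nat_lit 152) (nat_lit 108522378218) (nat_lit 228) (nat_lit 37623656947) (nat_lit 27) (nat_lit 5) (nat_lit 29) (nat_lit 5) (nat_lit 30) (nat_lit 5) (nat_lit 318) (nat_lit 292) (nat_lit 170))) (XT.nd (nat_lit 78) (nat_lit 304) (nat_lit 0) (XT.lf (nat_lit 0) (nat_lit 2540197960) (nat_lit 228) (nat_lit 40922982425) (nat_lit 76) (nat_lit 131216645593) (nat_lit 26) (nat_lit 5) (nat_lit 29) (nat_lit 5) (nat_lit 27) (nat_lit 5) (nat_lit 319) (nat_lit 292) (nat_lit 169)) (XT.nd (nat_lit 78) (nat_lit 152) (nat_lit 0) (XT.lf (nat_lit 0) (nat_lit 46226269827) (nat_lit 228) (nat_lit 110928930735) (nat_lit 76) (nat_lit 27768952720) (nat_lit 24) (nat_lit 5) (nat_lit 27) (nat_lit 5) (nat_lit 25) (nat_lit 5) (nat_lit 320) (nat_lit 292) (nat_lit 168)) (XT.lf (nat_lit 0) (nat_lit 2964841000) (nat_lit 152) (nat_lit 91945253033) (nat_lit 228) (nat_lit 101002790470) (nat_lit 22) (nat_lit 5) (nat_lit 24) (nat_lit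 5) (nat_lit 25) (nat_lit 5) (nat_lit 321) (nat_lit 292) (nat_lit 167))))) (XT.nd (nat_lit 234) (nat_lit 228) (nat_lit 0) (XT.nd (nat_lit 78) (nat_lit 152) (nat_lit 0) (XT.lf (nat_lit 0) (nat_lit 129930065256) (nat_lit 152) (nat_lit 19490081153) (nat_lit 228) (nat_lit 58263992686) (nat_lit 22) (nat_lit 5) (nat_lit 24) (nat_lit 5) (nat_lit 25) (nat_lit 5) (nat_lit 322) (nat_lit 292) (nat_lit 166)) (XT.nd (nat_lit 78) (nat_lit 76) (nat_lit 0) (XT.lf (nat_lit 0) (nat_lit 47249024968) (nat_lit 76) (nat_lit 162696362484) (nat_lit 152) (nat_lit 10368988290) (nat_lit 21) (nat_lit 5) (nat_lit 22) (nat_lit 5) (nat_lit 23) (nat_lit 4) (nat_lit 323) (nat_lit 292) (nat_lit 165)) (XT.lf (nat_lit 0) (nat_lit 41738469402) (nat_lit 152) (nat_lit 49856107694) (nat_lit 76) (nat_lit 142242941865) (nat_lit 20) (nat_lit 5) (nat_lit 22) (nat_lit 5) (nat_lit 21) (nat_lit 5) (nat_lit 324) (nat_lit 292) (nat_lit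 164)))) (XT.nd (nat_lit 78) (nat_lit 76) (nat_lit 0) (XT.lf (nat_lit 0) (nat_lit 85779407920) (nat_lit 152) (nat_lit 13215290462) (nat_lit 228) (nat_lit 149372144155) (nat_lit 18) (nat_lit 5) (nat_lit 20) (nat_lit 5) (nat_lit 21) (nat_lit 5) (nat_lit 325) (nat_lit 292) (nat_lit 163)) (XT.nd (nat_lit 78) (nat_lit 76) (nat_lit 0) (XT.lf (nat_lit 0) (nat_lit 162828779833) (nat_lit 228) (nat_lit 31099586943) (nat_lit 76) (nat_lit 70030278204) (nat_lit 18) (nat_lit 5) (nat_lit 21) (nat_lit 5) (nat_lit 19) (nat_lit 4) (nat_lit 326) (nat_lit 292) (nat_lit 162)) (XT.lf (nat_lit 0) (nat_lit 114343148505) (nat_lit 76) (nat_lit 119433902840) (nat_lit 152) (nat_lit 46920367733) (nat_lit 17) (nat_lit 5) (nat_lit 18) (nat_lit 5) (nat_lit 19) (nat_lit 4) (nat_lit 327) (nat_lit 292) (nat_lit 161))))))))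
noncomputable def xc104 : XT := (XT.nd (nat_lit 38298) (nat_lit 0) (nat_lit 1824) (XT.nd (nat_lit 780) (nat_lit 228) (nat_lit 0) (XT.nd (nat_lit 390) (nat_lit 228) (nat_lit 0) (XT.nd (nat_lit 156) (nat_lit 76) (nat_lit 0) (XT.nd (nat_lit 78) (nat_lit 152) (nat_lit 0) (XT.lf (nat_lit 0) (nat_lit 11803835486) (nat_lit 152) (nat_lit 26407719777) (nat_lit 76) (nat_lit 260527162415) (nat_lit 16) (nat_lit 5) (nat_lit 18) (nat_lit 5) (nat_lit 17) (nat_lit 5) (nat_lit 328) (nat_lit 292) (nat_lit 160)) (XT.lf (nat_lit 0) (nat_lit 76421339874) (nat_lit 228) (nat_lit 190861952677) (nat_lit 76) (nat_lit 50759607515) (nat_lit 14) (nat_lit 5) (nat_lit 17) (nat_lit 5) (nat_lit 15) (nat_lit 4) (nat_lit 329) (nat_lit 292) (nat_lit 159))) (XT.nd (nat_lit 78) (nat_lit 76) (nat_lit 0) (XT.lf (nat_lit 0) (nat_lit 147319601111) (nat_lit 228) (nat_lit 45521440369) (nat_lit 76) (nat_lit 145994808222) (nat_lit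 14) (nat_lit 5) (nat_lit 17) (nat_lit 5) (nat_lit 15) (nat_lit 4) (nat_lit 330) (nat_lit 292) (nat_lit 158)) (XT.nd (nat_lit 78) (nat_lit 0) (nat_lit 0) (XT.lf (nat_lit 0) (nat_lit 115130384808) (nat_lit 76) (nat_lit 110556377288) (nat_lit 152) (nat_lit 135515621719) (nat_lit 13) (nat_lit 5) (nat_lit 14) (nat_lit 5) (nat_lit 15) (nat_lit 4) (nat_lit 331) (nat_lit 292) (nat_lit 157)) (XT.lf (nat_lit 0) (nat_lit 290259128134) (nat_lit 76) (nat_lit 20856675350) (nat_lit 152) (nat_lit 74202812209) (nat_lit 13) (nat_lit 5) (nat_lit 14) (nat_lit 5) (nat_lit 15) (nat_lit 4) (nat_lit 332) (nat_lit 292) (nat_lit 156))))) (XT.nd (nat_lit 156) (nat_lit 76) (nat_lit 0) (XT.nd (nat_lit 78) (nat_lit 76) (nat_lit 0) (XT.lf (nat_lit 0) (nat_lit 69056657490) (nat_lit 76) (nat_lit 336587129931) (nat_lit 76) (nat_lit 5607128122) (nat_lit 12) (nat_lit 4) (nat_lit 13) (nat_lit 5) (nat_lit 13) (nat_lit 4)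 (nat_lit 333) (nat_lit 292) (nat_lit 155)) (XT.lf (nat_lit 0) (nat_lit 68318841031) (nat_lit 152) (nat_lit 190927023980) (nat_lit 76) (nat_lit 179856764594) (nat_lit 11) (nat_lit 5) (nat_lit 13) (nat_lit 5) (nat_lit 12) (nat_lit 4) (nat_lit 334) (nat_lit 292) (nat_lit 154))) (XT.nd (nat_lit 78) (nat_lit 76) (nat_lit 0) (XT.lf (nat_lit 0) (nat_lit 147964692220) (nat_lit 152) (nat_lit 27653627454) (nat_lit 76) (nat_lit 293559452874) (nat_lit 11) (nat_lit 5) (nat_lit 13) (nat_lit 5) (nat_lit 12) (nat_lit 4) (nat_lit 335) (nat_lit 292) (nat_lit 153)) (XT.nd (nat_lit 78) (nat_lit 0) (nat_lit 0) (XT.lf (nat_lit 0) (nat_lit 153597086562) (nat_lit 76) (nat_lit 82782858391) (nat_lit 152) (nat_lit 265159095592) (nat_lit 10) (nat_lit 5) (nat_lit 11) (nat_lit 5) (nat_lit 12) (nat_lit 4) (nat_lit 336) (nat_lit 292) (nat_lit 152)) (XT.lf (nat_lit 0) (nat_lit 332630591013) (nat_lit 152) (nat_lit 186411170651)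 (nat_lit 0) (nat_lit 17409339930) (nat_lit 10) (nat_lit 5) (nat_lit 12) (nat_lit 4) (nat_lit 10) (nat_lit 4) (nat_lit 337) (nat_lit 292) (nat_lit 151)))))) (XT.nd (nat_lit 37128) (nat_lit 0) (nat_lit 5624) (XT.nd (nat_lit 156) (nat_lit 152) (nat_lit 0) (XT.nd (nat_lit 78) (nat_lit 76) (nat_lit 0) (XT.lf (nat_lit 0) (nat_lit 437976848652) (nat_lit 152) (nat_lit 13354355979) (nat_lit 0) (nat_lit 122755145151) (nat_lit 10) (nat_lit 5) (nat_lit 12) (nat_lit 4) (nat_lit 10) (nat_lit 4) (nat_lit 338) (nat_lit 292) (nat_lit 150)) (XT.lf (nat_lit 0) (nat_lit 179284714846) (nat_lit 76) (nat_lit 375264941570) (nat_lit 76) (nat_lit 60042819162) (nat_lit 9) (nat_lit 4) (nat_lit 10) (nat_lit 5) (nat_lit 10) (nat_lit 4) (nat_lit 339) (nat_lit 292) (nat_lit 149))) (XT.nd (nat_lit 78) (nat_lit 76) (nat_lit 0) (XT.lf (nat_lit 0) (nat_lit 21637724250) (nat_lit 152) (nat_lit 270865175570) (nat_lit 76) (nat_lit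 365807124529) (nat_lit 8) (nat_lit 5) (nat_lit 10) (nat_lit 5) (nat_lit 9) (nat_lit 4) (nat_lit 340) (nat_lit 292) (nat_lit 148)) (XT.nd (nat_lit 78) (nat_lit 76) (nat_lit 0) (XT.lf (nat_lit 0) (nat_lit 107776968463) (nat_lit 152) (nat_lit 94280084079) (nat_lit 76) (nat_lit 503417315982) (nat_lit 8) (nat_lit 5) (nat_lit 10) (nat_lit 5) (nat_lit 9) (nat_lit 4) (nat_lit 341) (nat_lit 292) (nat_lit 147)) (XT.lf (nat_lit 0) (nat_lit 99619837528) (nat_lit 76) (nat_lit 102742620763) (nat_lit 152) (nat_lit 553971646810) (nat_lit 7) (nat_lit 5) (nat_lit 8) (nat_lit 5) (nat_lit 9) (nat_lit 4) (nat_lit 342) (nat_lit 292) (nat_lit 146))))) (XT.nd (nat_lit 156) (nat_lit 0) (nat_lit 76) (XT.nd (nat_lit 78) (nat_lit 0) (nat_lit 0) (XT.lf (nat_lit 0) (nat_lit 8372607204) (nat_lit 0) (nat_lit 8372607204) (nat_lit 684) (nat_lit 9225807401) (nat_lit 81) (nat_lit 5) (nat_lit 81) (nat_lit 3) (nat_lit 90)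 (nat_lit 3) (nat_lit 293) (nat_lit 293) (nat_lit 194)) (XT.lf (nat_lit 76) (nat_lit 1067543276) (nat_lit 0) (nat_lit 34134599816) (nat_lit 760) (nat_lit 18798884547) (nat_lit 82) (nat_lit 5) (nat_lit 81) (nat_lit 5) (nat_lit 91) (nat_lit 5) (nat_lit 294) (nat_lit 293) (nat_lit 193))) (XT.nd (nat_lit 78) (nat_lit 0) (nat_lit 0) (XT.lf (nat_lit 0) (nat_lit 37989035068) (nat_lit 684) (nat_lit 15035038982) (nat_lit 760) (nat_lit 3153753592) (nat_lit 82) (nat_lit 5) (nat_lit 91) (nat_lit 5) (nat_lit 92) (nat_lit 5) (nat_lit 295) (nat_lit 293) (nat_lit 192)) (XT.nd (nat_lit 78) (nat_lit 0) (nat_lit 76) (XT.lf (nat_lit 76) (nat_lit 26154739811) (nat_lit 0) (nat_lit 15824809067) (nat_lit 760) (nat_lit 16500197847) (nat_lit 83) (nat_lit 5) (nat_lit 82) (nat_lit 5) (nat_lit 92) (nat_lit 5) (nat_lit 296) (nat_lit 293) (nat_lit 191)) (XT.lf (nat_lit 76) (nat_lit 10162493666) (nat_lit 0) (nat_lit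 36928823112) (nat_lit 760) (nat_lit 13834409874) (nat_lit 84) (nat_lit 5) (nat_lit 83) (nat_lit 5) (nat_lit 93) (nat_lit 5) (nat_lit 297) (nat_lit 293) (nat_lit 190))))))) (XT.nd (nat_lit 780) (nat_lit 1672) (nat_lit 0) (XT.nd (nat_lit 390) (nat_lit 1292) (nat_lit 0) (XT.nd (nat_lit 156) (nat_lit 1064) (nat_lit 0) (XT.nd (nat_lit 78) (nat_lit 0) (nat_lit 0) (XT.lf (nat_lit 0) (nat_lit 53489306447) (nat_lit 684) (nat_lit 6655179002) (nat_lit 760) (nat_lit 3379042883) (nat_lit 84) (nat_lit 5) (nat_lit 93) (nat_lit 5) (nat_lit 94) (nat_lit 5) (nat_lit 298) (nat_lit 293) (nat_lit 189)) (XT.lf (nat_lit 76) (nat_lit 41691136735) (nat_lit 0) (nat_lit 19978989678) (nat_lit 760) (nat_lit 4595485006) (nat_lit 85) (nat_lit 5) (nat_lit 84) (nat_lit 5) (nat_lit 94) (nat_lit 5) (nat_lit 299) (nat_lit 293) (nat_lit 188))) (XT.nd (nat_lit 78) (nat_lit 380) (nat_lit 0) (XT.lf (nat_lit 0) (nat_lit 2128528223)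 (nat_lit 760) (nat_lit 43853562575) (nat_lit 76) (nat_lit 23199423815) (nat_lit 75) (nat_lit 5) (nat_lit 85) (nat_lit 5) (nat_lit 76) (nat_lit 5) (nat_lit 300) (nat_lit 293) (nat_lit 187)) (XT.nd (nat_lit 78) (nat_lit 0) (nat_lit 0) (XT.lf (nat_lit 0) (nat_lit 7610933577) (nat_lit 380) (nat_lit 2509141350) (nat_lit 456) (nat_lit 62162323131) (nat_lit 70) (nat_lit 5) (nat_lit 75) (nat_lit 5) (nat_lit 76) (nat_lit 5) (nat_lit 301) (nat_lit 293) (nat_lit 186)) (XT.lf (nat_lit 0) (nat_lit 20219036068) (nat_lit 456) (nat_lit 11543087434) (nat_lit 76) (nat_lit 43795829304) (nat_lit 70) (nat_lit 5) (nat_lit 76) (nat_lit 5) (nat_lit 71) (nat_lit 5) (nat_lit 302) (nat_lit 293) (nat_lit 185))))) (XT.nd (nat_lit 156) (nat_lit 608) (nat_lit 0) (XT.nd (nat_lit 78) (nat_lit 304) (nat_lit 0) (XT.lf (nat_lit 0) (nat_lit 32145208641) (nat_lit 456) (nat_lit 31991719670) (nat_lit 76) (nat_lit 14907663676)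 (nat_lit 65) (nat_lit 5) (nat_lit 71) (nat_lit 5) (nat_lit 66) (nat_lit 5) (nat_lit 303) (nat_lit 293) (nat_lit 184)) (XT.lf (nat_lit 0) (nat_lit 28313969457) (nat_lit 304) (nat_lit 17891594593) (nat_lit 380) (nat_lit 36545598228) (nat_lit 61) (nat_lit 5) (nat_lit 65) (nat_lit 5) (nat_lit 66) (nat_lit 5) (nat_lit 304) (nat_lit 293) (nat_lit 183))) (XT.nd (nat_lit 78) (nat_lit 304) (nat_lit 0) (XT.lf (nat_lit 0) (nat_lit 7591534713) (nat_lit 304) (nat_lit 54982793674) (nat_lit 380) (nat_lit 24120754881) (nat_lit 57) (nat_lit 5) (nat_lit 61) (nat_lit 5) (nat_lit 62) (nat_lit 5) (nat_lit 305) (nat_lit 293) (nat_lit 182)) (XT.nd (nat_lit 78) (nat_lit 304) (nat_lit 0) (XT.lf (nat_lit 0) (nat_lit 76212925233) (nat_lit 304) (nat_lit 5283053602) (nat_lit 380) (nat_lit 9396373648) (nat_lit 57) (nat_lit 5) (nat_lit 61) (nat_lit 5) (nat_lit 62) (nat_lit 5) (nat_lit 306) (nat_lit 293) (nat_lit 181))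 (XT.lf (nat_lit 0) (nat_lit 7951617450) (nat_lit 304) (nat_lit 39540912668) (nat_lit 76) (nat_lit 47845103119) (nat_lit 53) (nat_lit 5) (nat_lit 57) (nat_lit 5) (nat_lit 54) (nat_lit 5) (nat_lit 307) (nat_lit 293) (nat_lit 180)))))) (XT.nd (nat_lit 390) (nat_lit 684) (nat_lit 0) (XT.nd (nat_lit 156) (nat_lit 456) (nat_lit 0) (XT.nd (nat_lit 78) (nat_lit 228) (nat_lit 0) (XT.lf (nat_lit 0) (nat_lit 27319083123) (nat_lit 380) (nat_lit 67063545990) (nat_lit 76) (nat_lit 5700166569) (nat_lit 49) (nat_lit 5) (nat_lit 54) (nat_lit 5) (nat_lit 50) (nat_lit 5) (nat_lit 308) (nat_lit 293) (nat_lit 179)) (XT.lf (nat_lit 0) (nat_lit 7034315653) (nat_lit 228) (nat_lit 42810904013) (nat_lit 304) (nat_lit 55281890645) (nat_lit 46) (nat_lit 5) (nat_lit 49) (nat_lit 5) (nat_lit 50) (nat_lit 5) (nat_lit 309) (nat_lit 293) (nat_lit 178))) (XT.nd (nat_lit 78) (nat_lit 456) (nat_lit 0) (XT.lf (nat_lit 0)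 (nat_lit 75560638884) (nat_lit 304) (nat_lit 21283878116) (nat_lit 76) (nat_lit 13661096179) (nat_lit 46) (nat_lit 5) (nat_lit 50) (nat_lit 5) (nat_lit 47) (nat_lit 5) (nat_lit 310) (nat_lit 293) (nat_lit 177)) (XT.nd (nat_lit 78) (nat_lit 228) (nat_lit 0) (XT.lf (nat_lit 0) (nat_lit 62961376137) (nat_lit 228) (nat_lit 42075531544) (nat_lit 304) (nat_lit 11192310255) (nat_lit 43) (nat_lit 5) (nat_lit 46) (nat_lit 5) (nat_lit 47) (nat_lit 5) (nat_lit 311) (nat_lit 293) (nat_lit 176)) (XT.lf (nat_lit 0) (nat_lit 15175729212) (nat_lit 228) (nat_lit 89498347290) (nat_lit 76) (nat_lit 17666448704) (nat_lit 40) (nat_lit 5) (nat_lit 43) (nat_lit 5) (nat_lit 41) (nat_lit 5) (nat_lit 312) (nat_lit 293) (nat_lit 175))))) (XT.nd (nat_lit 156) (nat_lit 456) (nat_lit 0) (XT.nd (nat_lit 78) (nat_lit 228) (nat_lit 0) (XT.lf (nat_lit 0) (nat_lit 44917751100) (nat_lit 228) (nat_lit 2066184862) (nat_lit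 76) (nat_lit 81864795914) (nat_lit 40) (nat_lit 5) (nat_lit 43) (nat_lit 5) (nat_lit 41) (nat_lit 5) (nat_lit 313) (nat_lit 293) (nat_lit 174)) (XT.lf (nat_lit 0) (nat_lit 78791354412) (nat_lit 304) (nat_lit 40653928356) (nat_lit 76) (nat_lit 16344703188) (nat_lit 37) (nat_lit 5) (nat_lit 41) (nat_lit 5) (nat_lit 38) (nat_lit 5) (nat_lit 314) (nat_lit 293) (nat_lit 173))) (XT.nd (nat_lit 78) (nat_lit 304) (nat_lit 0) (XT.lf (nat_lit 0) (nat_lit 57964445013) (nat_lit 152) (nat_lit 59143188405) (nat_lit 228) (nat_lit 26092269296) (nat_lit 35) (nat_lit 5) (nat_lit 37) (nat_lit 5) (nat_lit 38) (nat_lit 5) (nat_lit 315) (nat_lit 293) (nat_lit 172)) (XT.nd (nat_lit 78) (nat_lit 0) (nat_lit 0) (XT.lf (nat_lit 0) (nat_lit 8119084919) (nat_lit 304) (nat_lit 136146388910) (nat_lit 76) (nat_lit 6878167299) (nat_lit 31) (nat_lit 5) (nat_lit 35) (nat_lit 5) (nat_lit 32) (nat_lit 5) (nat_lit 316) (nat_lit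 293) (nat_lit 171)) (XT.lf (nat_lit 0) (nat_lit 46670834936) (nat_lit 304) (nat_lit 34819320767) (nat_lit 76) (nat_lit 78085455538) (nat_lit 31) (nat_lit 5) (nat_lit 35) (nat_lit 5) (nat_lit 32) (nat_lit 5) (nat_lit 317) (nat_lit 293) (nat_lit 170))))))))
noncomputable def xc105 : XT := (XT.nd (nat_lit 1560) (nat_lit 152) (nat_lit 0) (XT.nd (nat_lit 780) (nat_lit 608) (nat_lit 0) (XT.nd (nat_lit 390) (nat_lit 304) (nat_lit 0) (XT.nd (nat_lit 156) (nat_lit 380) (nat_lit 0) (XT.nd (nat_lit 78) (nat_lit 152) (nat_lit 0) (XT.lf (nat_lit 0) (nat_lit 77079624122) (nat_lit 152) (nat_lit 12429662458) (nat_lit 228) (nat_lit 79112725606) (nat_lit 29) (nat_lit 5) (nat_lit 31) (nat_lit 5) (nat_lit 32) (nat_lit 5) (nat_lit 318) (nat_lit 293) (nat_lit 169)) (XT.lf (nat_lit 0) (nat_lit 20486091902) (nat_lit 152) (nat_lit 117194635585) (nat_lit 228) (nat_lit 40616103267) (nat_lit 27) (nat_lit 5) (nat_lit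 29) (nat_lit 5) (nat_lit 30) (nat_lit 5) (nat_lit 319) (nat_lit 293) (nat_lit 168))) (XT.nd (nat_lit 78) (nat_lit 304) (nat_lit 0) (XT.lf (nat_lit 0) (nat_lit 2759050693) (nat_lit 228) (nat_lit 44172092554) (nat_lit 76) (nat_lit 141722266226) (nat_lit 26) (nat_lit 5) (nat_lit 29) (nat_lit 5) (nat_lit 27) (nat_lit 5) (nat_lit 320) (nat_lit 293) (nat_lit 167)) (XT.nd (nat_lit 78) (nat_lit 152) (nat_lit 0) (XT.lf (nat_lit 0) (nat_lit 49939356807) (nat_lit 228) (nat_lit 119778967284) (nat_lit 76) (nat_lit 29998992981) (nat_lit 24) (nat_lit 5) (nat_lit 27) (nat_lit 5) (nat_lit 25) (nat_lit 5) (nat_lit 321) (nat_lit 293) (nat_lit 166)) (XT.lf (nat_lit 0) (nat_lit 3225251102) (nat_lit 152) (nat_lit 99291888391) (nat_lit 228) (nat_lit 109068046092) (nat_lit 22) (nat_lit 5) (nat_lit 24) (nat_lit 5) (nat_lit 25) (nat_lit 5) (nat_lit 322) (nat_lit 293) (nat_lit 165))))) (XT.nd (nat_lit 156) (nat_lit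 228) (nat_lit 0) (XT.nd (nat_lit 78) (nat_lit 76) (nat_lit 0) (XT.lf (nat_lit 0) (nat_lit 140345973089) (nat_lit 152) (nat_lit 21040968309) (nat_lit 228) (nat_lit 62911253198) (nat_lit 22) (nat_lit 5) (nat_lit 24) (nat_lit 5) (nat_lit 25) (nat_lit 5) (nat_lit 323) (nat_lit 293) (nat_lit 164)) (XT.lf (nat_lit 0) (nat_lit 51050037123) (nat_lit 76) (nat_lit 175703637605) (nat_lit 152) (nat_lit 11185203015) (nat_lit 21) (nat_lit 5) (nat_lit 22) (nat_lit 5) (nat_lit 23) (nat_lit 4) (nat_lit 324) (nat_lit 293) (nat_lit 163))) (XT.nd (nat_lit 78) (nat_lit 152) (nat_lit 0) (XT.lf (nat_lit 0) (nat_lit 45089471507) (nat_lit 152) (nat_lit 53824660664) (nat_lit 76) (nat_lit 153629778638) (nat_lit 20) (nat_lit 5) (nat_lit 22) (nat_lit 5) (nat_lit 21) (nat_lit 5) (nat_lit 325) (nat_lit 293) (nat_lit 162)) (XT.nd (nat_lit 78) (nat_lit 0) (nat_lit 0) (XT.lf (nat_lit 0) (nat_lit 92660829821) (nat_lit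 152) (nat_lit 14264783409) (nat_lit 228) (nat_lit 161309997315) (nat_lit 18) (nat_lit 5) (nat_lit 20) (nat_lit 5) (nat_lit 21) (nat_lit 5) (nat_lit 326) (nat_lit 293) (nat_lit 161)) (XT.lf (nat_lit 0) (nat_lit 175865693023) (nat_lit 228) (nat_lit 33569472444) (nat_lit 76) (nat_lit 75639629046) (nat_lit 18) (nat_lit 5) (nat_lit 21) (nat_lit 5) (nat_lit 19) (nat_lit 4) (nat_lit 327) (nat_lit 293) (nat_lit 160)))))) (XT.nd (nat_lit 390) (nat_lit 228) (nat_lit 0) (XT.nd (nat_lit 156) (nat_lit 228) (nat_lit 0) (XT.nd (nat_lit 78) (nat_lit 76) (nat_lit 0) (XT.lf (nat_lit 0) (nat_lit 123507896042) (nat_lit 76) (nat_lit 128981414262) (nat_lit 152) (nat_lit 50663386886) (nat_lit 17) (nat_lit 5) (nat_lit 18) (nat_lit 5) (nat_lit 19) (nat_lit 4) (nat_lit 328) (nat_lit 293) (nat_lit 159)) (XT.lf (nat_lit 0) (nat_lit 12757652205) (nat_lit 152) (nat_lit 28503999012) (nat_lit 76) (nat_lit 281375678970)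 (nat_lit 16) (nat_lit 5) (nat_lit 18) (nat_lit 5) (nat_lit 17) (nat_lit 5) (nat_lit 329) (nat_lit 293) (nat_lit 158))) (XT.nd (nat_lit 78) (nat_lit 76) (nat_lit 0) (XT.lf (nat_lit 0) (nat_lit 82544199225) (nat_lit 228) (nat_lit 206114922118) (nat_lit 76) (nat_lit 54826744407) (nat_lit 14) (nat_lit 5) (nat_lit 17) (nat_lit 5) (nat_lit 15) (nat_lit 4) (nat_lit 330) (nat_lit 293) (nat_lit 157)) (XT.nd (nat_lit 78) (nat_lit 76) (nat_lit 0) (XT.lf (nat_lit 0) (nat_lit 159113643424) (nat_lit 228) (nat_lit 49148353031) (nat_lit 76) (nat_lit 157680289446) (nat_lit 14) (nat_lit 5) (nat_lit 17) (nat_lit 5) (nat_lit 15) (nat_lit 4) (nat_lit 331) (nat_lit 293) (nat_lit 156)) (XT.lf (nat_lit 0) (nat_lit 124354974859) (nat_lit 76) (nat_lit 119394795773) (nat_lit 152) (nat_lit 146348393039) (nat_lit 13) (nat_lit 5) (nat_lit 14) (nat_lit 5) (nat_lit 15) (nat_lit 4) (nat_lit 332) (nat_lit 293) (nat_lit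 155))))) (XT.nd (nat_lit 156) (nat_lit 152) (nat_lit 0) (XT.nd (nat_lit 78) (nat_lit 76) (nat_lit 0) (XT.lf (nat_lit 0) (nat_lit 313492968816) (nat_lit 76) (nat_lit 22519568918) (nat_lit 152) (nat_lit 80131186800) (nat_lit 13) (nat_lit 5) (nat_lit 14) (nat_lit 5) (nat_lit 15) (nat_lit 4) (nat_lit 333) (nat_lit 293) (nat_lit 154)) (XT.lf (nat_lit 0) (nat_lit 74594010405) (nat_lit 76) (nat_lit 363508478351) (nat_lit 76) (nat_lit 6048133709) (nat_lit 12) (nat_lit 4) (nat_lit 13) (nat_lit 5) (nat_lit 13) (nat_lit 4) (nat_lit 334) (nat_lit 293) (nat_lit 153))) (XT.nd (nat_lit 78) (nat_lit 76) (nat_lit 0) (XT.lf (nat_lit 0) (nat_lit 73791128449) (nat_lit 152) (nat_lit 206189085407) (nat_lit 76) (nat_lit 194250281463) (nat_lit 11) (nat_lit 5) (nat_lit 13) (nat_lit 5) (nat_lit 12) (nat_lit 4) (nat_lit 335) (nat_lit 293) (nat_lit 152)) (XT.nd (nat_lit 78) (nat_lit 76) (nat_lit 0) (XT.lf (nat_lit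 0) (nat_lit 159808145501) (nat_lit 152) (nat_lit 29854713492) (nat_lit 76) (nat_lit 317048816235) (nat_lit 11) (nat_lit 5) (nat_lit 13) (nat_lit 5) (nat_lit 12) (nat_lit 4) (nat_lit 336) (nat_lit 293) (nat_lit 151)) (XT.lf (nat_lit 0) (nat_lit 165895570727) (nat_lit 76) (nat_lit 89400750022) (nat_lit 152) (nat_lit 286365539188) (nat_lit 10) (nat_lit 5) (nat_lit 11) (nat_lit 5) (nat_lit 12) (nat_lit 4) (nat_lit 337) (nat_lit 293) (nat_lit 150))))))) (XT.nd (nat_lit 37596) (nat_lit 0) (nat_lit 3420) (XT.nd (nat_lit 37206) (nat_lit 0) (nat_lit 5548) (XT.nd (nat_lit 156) (nat_lit 152) (nat_lit 0) (XT.nd (nat_lit 78) (nat_lit 0) (nat_lit 0) (XT.lf (nat_lit 0) (nat_lit 359246643996) (nat_lit 152) (nat_lit 201313928069) (nat_lit 0) (nat_lit 18806332889) (nat_lit 10) (nat_lit 5) (nat_lit 12) (nat_lit 4) (nat_lit 10) (nat_lit 4) (nat_lit 338) (nat_lit 293) (nat_lit 149)) (XT.lf (nat_lit 0) (nat_lit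 473020187009) (nat_lit 152) (nat_lit 14413319055) (nat_lit 0) (nat_lit 132579488026) (nat_lit 10) (nat_lit 5) (nat_lit 12) (nat_lit 4) (nat_lit 10) (nat_lit 4) (nat_lit 339) (nat_lit 293) (nat_lit 148))) (XT.nd (nat_lit 78) (nat_lit 76) (nat_lit 0) (XT.lf (nat_lit 0) (nat_lit 193636469558) (nat_lit 76) (nat_lit 405282105521) (nat_lit 76) (nat_lit 64841047394) (nat_lit 9) (nat_lit 4) (nat_lit 10) (nat_lit 5) (nat_lit 10) (nat_lit 4) (nat_lit 340) (nat_lit 293) (nat_lit 147)) (XT.nd (nat_lit 78) (nat_lit 0) (nat_lit 0) (XT.lf (nat_lit 0) (nat_lit 23373400482) (nat_lit 152) (nat_lit 292525919680) (nat_lit 76) (nat_lit 395075269832) (nat_lit 8) (nat_lit 5) (nat_lit 10) (nat_lit 5) (nat_lit 9) (nat_lit 4) (nat_lit 341) (nat_lit 293) (nat_lit 146)) (XT.lf (nat_lit 0) (nat_lit 116403439173) (nat_lit 152) (nat_lit 101814648272) (nat_lit 76) (nat_lit 543694011761) (nat_lit 8) (nat_lit 5) (nat_lit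 10) (nat_lit 5) (nat_lit 9) (nat_lit 4) (nat_lit 342) (nat_lit 293) (nat_lit 145))))) (XT.nd (nat_lit 156) (nat_lit 0) (nat_lit 76) (XT.nd (nat_lit 78) (nat_lit 0) (nat_lit 0) (XT.lf (nat_lit 0) (nat_lit 9059627806) (nat_lit 0) (nat_lit 9059627806) (nat_lit 684) (nat_lit 9927636103) (nat_lit 81) (nat_lit 5) (nat_lit 81) (nat_lit 3) (nat_lit 90) (nat_lit 3) (nat_lit 294) (nat_lit 294) (nat_lit 192)) (XT.lf (nat_lit 76) (nat_lit 1189855058) (nat_lit 0) (nat_lit 36892286321) (nat_lit 760) (nat_lit 20235609283) (nat_lit 82) (nat_lit 5) (nat_lit 81) (nat_lit 5) (nat_lit 91) (nat_lit 5) (nat_lit 295) (nat_lit 294) (nat_lit 191))) (XT.nd (nat_lit 78) (nat_lit 0) (nat_lit 0) (XT.lf (nat_lit 0) (nat_lit 41086867656) (nat_lit 684) (nat_lit 16200168229) (nat_lit 760) (nat_lit 3381927066) (nat_lit 82) (nat_lit 5) (nat_lit 91) (nat_lit 5) (nat_lit 92) (nat_lit 5) (nat_lit 296) (nat_lit 294) (nat_lit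 190)) (XT.nd (nat_lit 78) (nat_lit 0) (nat_lit 76) (XT.lf (nat_lit 76) (nat_lit 28283155607) (nat_lit 0) (nat_lit 17109680724) (nat_lit 760) (nat_lit 17762400054) (nat_lit 83) (nat_lit 5) (nat_lit 82) (nat_lit 5) (nat_lit 92) (nat_lit 5) (nat_lit 297) (nat_lit 294) (nat_lit 189)) (XT.lf (nat_lit 76) (nat_lit 11013010205) (nat_lit 0) (nat_lit 39896779758) (nat_lit 760) (nat_lit 14887303187) (nat_lit 84) (nat_lit 5) (nat_lit 83) (nat_lit 5) (nat_lit 93) (nat_lit 5) (nat_lit 298) (nat_lit 294) (nat_lit 188)))))) (XT.nd (nat_lit 390) (nat_lit 1292) (nat_lit 0) (XT.nd (nat_lit 156) (nat_lit 1064) (nat_lit 0) (XT.nd (nat_lit 78) (nat_lit 0) (nat_lit 0) (XT.lf (nat_lit 0) (nat_lit 57815631255) (nat_lit 684) (nat_lit 7150165724) (nat_lit 760) (nat_lit 3637131233) (nat_lit 84) (nat_lit 5) (nat_lit 93) (nat_lit 5) (nat_lit 94) (nat_lit 5) (nat_lit 299) (nat_lit 294) (nat_lit 187)) (XT.lf (nat_lit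 76) (nat_lit 45062228715) (nat_lit 0) (nat_lit 21585752223) (nat_lit 760) (nat_lit 4916552942) (nat_lit 85) (nat_lit 5) (nat_lit 84) (nat_lit 5) (nat_lit 94) (nat_lit 5) (nat_lit 300) (nat_lit 294) (nat_lit 186))) (XT.nd (nat_lit 78) (nat_lit 380) (nat_lit 0) (XT.lf (nat_lit 0) (nat_lit 2341008187) (nat_lit 760) (nat_lit 47323754985) (nat_lit 76) (nat_lit 25049061991) (nat_lit 75) (nat_lit 5) (nat_lit 85) (nat_lit 5) (nat_lit 76) (nat_lit 5) (nat_lit 301) (nat_lit 294) (nat_lit 185)) (XT.nd (nat_lit 78) (nat_lit 0) (nat_lit 0) (XT.lf (nat_lit 0) (nat_lit 8256245402) (nat_lit 380) (nat_lit 2713076355) (nat_lit 456) (nat_lit 67093592831) (nat_lit 70) (nat_lit 5) (nat_lit 75) (nat_lit 5) (nat_lit 76) (nat_lit 5) (nat_lit 302) (nat_lit 294) (nat_lit 184)) (XT.lf (nat_lit 0) (nat_lit 21873217117) (nat_lit 456) (nat_lit 12430828436) (nat_lit 76) (nat_lit 47296624205) (nat_lit 70) (nat_lit 5)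 (nat_lit 76) (nat_lit 5) (nat_lit 71) (nat_lit 5) (nat_lit 303) (nat_lit 294) (nat_lit 183))))) (XT.nd (nat_lit 156) (nat_lit 608) (nat_lit 0) (XT.nd (nat_lit 78) (nat_lit 304) (nat_lit 0) (XT.lf (nat_lit 0) (nat_lit 34751296297) (nat_lit 456) (nat_lit 34515094201) (nat_lit 76) (nat_lit 16099965334) (nat_lit 65) (nat_lit 5) (nat_lit 71) (nat_lit 5) (nat_lit 66) (nat_lit 5) (nat_lit 304) (nat_lit 294) (nat_lit 182)) (XT.lf (nat_lit 0) (nat_lit 30613487147) (nat_lit 304) (nat_lit 19320976670) (nat_lit 380) (nat_lit 39435094669) (nat_lit 61) (nat_lit 5) (nat_lit 65) (nat_lit 5) (nat_lit 66) (nat_lit 5) (nat_lit 305) (nat_lit 294) (nat_lit 181))) (XT.nd (nat_lit 78) (nat_lit 304) (nat_lit 0) (XT.lf (nat_lit 0) (nat_lit 8233356616) (nat_lit 304) (nat_lit 59377535389) (nat_lit 380) (nat_lit 26018198498) (nat_lit 57) (nat_lit 5) (nat_lit 61) (nat_lit 5) (nat_lit 62) (nat_lit 5) (nat_lit 306)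 (nat_lit 294) (nat_lit 180)) (XT.nd (nat_lit 78) (nat_lit 304) (nat_lit 0) (XT.lf (nat_lit 0) (nat_lit 82341902887) (nat_lit 304) (nat_lit 5702103651) (nat_lit 380) (nat_lit 10118253194) (nat_lit 57) (nat_lit 5) (nat_lit 61) (nat_lit 5) (nat_lit 62) (nat_lit 5) (nat_lit 307) (nat_lit 294) (nat_lit 179)) (XT.lf (nat_lit 0) (nat_lit 8615042817) (nat_lit 304) (nat_lit 42671308859) (nat_lit 76) (nat_lit 51676871443) (nat_lit 53) (nat_lit 5) (nat_lit 57) (nat_lit 5) (nat_lit 54) (nat_lit 5) (nat_lit 308) (nat_lit 294) (nat_lit 178))))))))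
noncomputable def xc106 : XT := (XT.nd (nat_lit 1560) (nat_lit 760) (nat_lit 0) (XT.nd (nat_lit 780) (nat_lit 988) (nat_lit 0) (XT.nd (nat_lit 390) (nat_lit 684) (nat_lit 0) (XT.nd (nat_lit 156) (nat_lit 456) (nat_lit 0) (XT.nd (nat_lit 78) (nat_lit 228) (nat_lit 0) (XT.lf (nat_lit 0) (nat_lit 29530463540) (nat_lit 380) (nat_lit 72395930276) (nat_lit 76) (nat_lit 6161681000) (nat_lit 49) (nat_lit 5) (nat_lit 54) (nat_lit 5) (nat_lit 50) (nat_lit 5) (nat_lit 309) (nat_lit 294) (nat_lit 177)) (XT.lf (nat_lit 0) (nat_lit 7628339222) (nat_lit 228) (nat_lit 46228925032) (nat_lit 304) (nat_lit 59678745539) (nat_lit 46) (nat_lit 5) (nat_lit 49) (nat_lit 5) (nat_lit 50) (nat_lit 5) (nat_lit 310) (nat_lit 294) (nat_lit 176))) (XT.nd (nat_lit 78) (nat_lit 456) (nat_lit 0) (XT.lf (nat_lit 0) (nat_lit 81628206646) (nat_lit 304) (nat_lit 22956550687) (nat_lit 76) (nat_lit 14760124631) (nat_lit 46)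 (nat_lit 5) (nat_lit 50) (nat_lit 5) (nat_lit 47) (nat_lit 5) (nat_lit 311) (nat_lit 294) (nat_lit 175)) (XT.nd (nat_lit 78) (nat_lit 228) (nat_lit 0) (XT.lf (nat_lit 0) (nat_lit 68027018505) (nat_lit 228) (nat_lit 45434324318) (nat_lit 304) (nat_lit 12065097276) (nat_lit 43) (nat_lit 5) (nat_lit 46) (nat_lit 5) (nat_lit 47) (nat_lit 5) (nat_lit 312) (nat_lit 294) (nat_lit 174)) (XT.lf (nat_lit 0) (nat_lit 16410599606) (nat_lit 228) (nat_lit 96629048507) (nat_lit 76) (nat_lit 19087042222) (nat_lit 40) (nat_lit 5) (nat_lit 43) (nat_lit 5) (nat_lit 41) (nat_lit 5) (nat_lit 313) (nat_lit 294) (nat_lit 173))))) (XT.nd (nat_lit 156) (nat_lit 456) (nat_lit 0) (XT.nd (nat_lit 78) (nat_lit 228) (nat_lit 0) (XT.lf (nat_lit 0) (nat_lit 48530441612) (nat_lit 228) (nat_lit 2204473571) (nat_lit 76) (nat_lit 88420718126) (nat_lit 40) (nat_lit 5) (nat_lit 43) (nat_lit 5) (nat_lit 41) (nat_lit 5) (nat_lit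 314) (nat_lit 294) (nat_lit 172)) (XT.lf (nat_lit 0) (nat_lit 85113027508) (nat_lit 304) (nat_lit 43879585214) (nat_lit 76) (nat_lit 17659622767) (nat_lit 37) (nat_lit 5) (nat_lit 41) (nat_lit 5) (nat_lit 38) (nat_lit 5) (nat_lit 315) (nat_lit 294) (nat_lit 171))) (XT.nd (nat_lit 78) (nat_lit 304) (nat_lit 0) (XT.lf (nat_lit 0) (nat_lit 62627099526) (nat_lit 152) (nat_lit 63866547065) (nat_lit 228) (nat_lit 28161349411) (nat_lit 35) (nat_lit 5) (nat_lit 37) (nat_lit 5) (nat_lit 38) (nat_lit 5) (nat_lit 316) (nat_lit 294) (nat_lit 170)) (XT.nd (nat_lit 78) (nat_lit 0) (nat_lit 0) (XT.lf (nat_lit 0) (nat_lit 8785532849) (nat_lit 304) (nat_lit 147012385426) (nat_lit 76) (nat_lit 7436342687) (nat_lit 31) (nat_lit 5) (nat_lit 35) (nat_lit 5) (nat_lit 32) (nat_lit 5) (nat_lit 317) (nat_lit 294) (nat_lit 169)) (XT.lf (nat_lit 0) (nat_lit 50420169451) (nat_lit 304) (nat_lit 37581056616) (nat_lit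 76) (nat_lit 84339627170) (nat_lit 31) (nat_lit 5) (nat_lit 35) (nat_lit 5) (nat_lit 32) (nat_lit 5) (nat_lit 318) (nat_lit 294) (nat_lit 168)))))) (XT.nd (nat_lit 390) (nat_lit 304) (nat_lit 0) (XT.nd (nat_lit 156) (nat_lit 380) (nat_lit 0) (XT.nd (nat_lit 78) (nat_lit 152) (nat_lit 0) (XT.lf (nat_lit 0) (nat_lit 83268769119) (nat_lit 152) (nat_lit 13416123118) (nat_lit 228) (nat_lit 85426116011) (nat_lit 29) (nat_lit 5) (nat_lit 31) (nat_lit 5) (nat_lit 32) (nat_lit 5) (nat_lit 319) (nat_lit 294) (nat_lit 167)) (XT.lf (nat_lit 0) (nat_lit 22147378051) (nat_lit 152) (nat_lit 126562033514) (nat_lit 228) (nat_lit 43850434193) (nat_lit 27) (nat_lit 5) (nat_lit 29) (nat_lit 5) (nat_lit 30) (nat_lit 5) (nat_lit 320) (nat_lit 294) (nat_lit 166))) (XT.nd (nat_lit 78) (nat_lit 304) (nat_lit 0) (XT.lf (nat_lit 0) (nat_lit 2993180866) (nat_lit 228) (nat_lit 47684659285) (nat_lit 76) (nat_lit 153067153993)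 (nat_lit 26) (nat_lit 5) (nat_lit 29) (nat_lit 5) (nat_lit 27) (nat_lit 5) (nat_lit 321) (nat_lit 294) (nat_lit 165)) (XT.nd (nat_lit 78) (nat_lit 152) (nat_lit 0) (XT.lf (nat_lit 0) (nat_lit 53947352911) (nat_lit 228) (nat_lit 129340470271) (nat_lit 76) (nat_lit 32406220413) (nat_lit 24) (nat_lit 5) (nat_lit 27) (nat_lit 5) (nat_lit 25) (nat_lit 5) (nat_lit 322) (nat_lit 294) (nat_lit 164)) (XT.lf (nat_lit 0) (nat_lit 3503181017) (nat_lit 152) (nat_lit 107227536373) (nat_lit 228) (nat_lit 117780657462) (nat_lit 22) (nat_lit 5) (nat_lit 24) (nat_lit 5) (nat_lit 25) (nat_lit 5) (nat_lit 323) (nat_lit 294) (nat_lit 163))))) (XT.nd (nat_lit 156) (nat_lit 228) (nat_lit 0) (XT.nd (nat_lit 78) (nat_lit 76) (nat_lit 0) (XT.lf (nat_lit 0) (nat_lit 151592085961) (nat_lit 152) (nat_lit 22717113283) (nat_lit 228) (nat_lit 67932271678) (nat_lit 22) (nat_lit 5) (nat_lit 24) (nat_lit 5) (nat_lit 25)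 (nat_lit 5) (nat_lit 324) (nat_lit 294) (nat_lit 162)) (XT.lf (nat_lit 0) (nat_lit 55152121504) (nat_lit 76) (nat_lit 189752697924) (nat_lit 152) (nat_lit 12068612930) (nat_lit 21) (nat_lit 5) (nat_lit 22) (nat_lit 5) (nat_lit 23) (nat_lit 4) (nat_lit 325) (nat_lit 294) (nat_lit 161))) (XT.nd (nat_lit 78) (nat_lit 152) (nat_lit 0) (XT.lf (nat_lit 0) (nat_lit 48706852609) (nat_lit 152) (nat_lit 58113541914) (nat_lit 76) (nat_lit 165926506456) (nat_lit 20) (nat_lit 5) (nat_lit 22) (nat_lit 5) (nat_lit 21) (nat_lit 5) (nat_lit 326) (nat_lit 294) (nat_lit 160)) (XT.nd (nat_lit 78) (nat_lit 0) (nat_lit 0) (XT.lf (nat_lit 0) (nat_lit 100090045029) (nat_lit 152) (nat_lit 15399338604) (nat_lit 228) (nat_lit 174204579017) (nat_lit 18) (nat_lit 5) (nat_lit 20) (nat_lit 5) (nat_lit 21) (nat_lit 5) (nat_lit 327) (nat_lit 294) (nat_lit 159)) (XT.lf (nat_lit 0) (nat_lit 189944045519) (nat_lit 228)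 (nat_lit 36239528306) (nat_lit 76) (nat_lit 81696739515) (nat_lit 18) (nat_lit 5) (nat_lit 21) (nat_lit 5) (nat_lit 19) (nat_lit 4) (nat_lit 328) (nat_lit 294) (nat_lit 158))))))) (XT.nd (nat_lit 780) (nat_lit 152) (nat_lit 0) (XT.nd (nat_lit 390) (nat_lit 228) (nat_lit 0) (XT.nd (nat_lit 156) (nat_lit 228) (nat_lit 0) (XT.nd (nat_lit 78) (nat_lit 76) (nat_lit 0) (XT.lf (nat_lit 0) (nat_lit 133403355964) (nat_lit 76) (nat_lit 139293753874) (nat_lit 152) (nat_lit 54707361244) (nat_lit 17) (nat_lit 5) (nat_lit 18) (nat_lit 5) (nat_lit 19) (nat_lit 4) (nat_lit 329) (nat_lit 294) (nat_lit 157)) (XT.lf (nat_lit 0) (nat_lit 13786417572) (nat_lit 152) (nat_lit 30770311434) (nat_lit 76) (nat_lit 303891171869) (nat_lit 16) (nat_lit 5) (nat_lit 18) (nat_lit 5) (nat_lit 17) (nat_lit 5) (nat_lit 330) (nat_lit 294) (nat_lit 156))) (XT.nd (nat_lit 78) (nat_lit 76) (nat_lit 0) (XT.lf (nat_lit 0) (nat_lit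 89155581666) (nat_lit 228) (nat_lit 222590409806) (nat_lit 76) (nat_lit 59218343743) (nat_lit 14) (nat_lit 5) (nat_lit 17) (nat_lit 5) (nat_lit 15) (nat_lit 4) (nat_lit 331) (nat_lit 294) (nat_lit 155)) (XT.nd (nat_lit 78) (nat_lit 76) (nat_lit 0) (XT.lf (nat_lit 0) (nat_lit 171850000178) (nat_lit 228) (nat_lit 53067530457) (nat_lit 76) (nat_lit 170299767956) (nat_lit 14) (nat_lit 5) (nat_lit 17) (nat_lit 5) (nat_lit 15) (nat_lit 4) (nat_lit 332) (nat_lit 294) (nat_lit 154)) (XT.lf (nat_lit 0) (nat_lit 134315512137) (nat_lit 76) (nat_lit 128941156786) (nat_lit 152) (nat_lit 158048995606) (nat_lit 13) (nat_lit 5) (nat_lit 14) (nat_lit 5) (nat_lit 15) (nat_lit 4) (nat_lit 333) (nat_lit 294) (nat_lit 153))))) (XT.nd (nat_lit 156) (nat_lit 152) (nat_lit 0) (XT.nd (nat_lit 78) (nat_lit 76) (nat_lit 0) (XT.lf (nat_lit 0) (nat_lit 338583646404) (nat_lit 76) (nat_lit 24316298645) (nat_lit 152)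 (nat_lit 86534951302) (nat_lit 13) (nat_lit 5) (nat_lit 14) (nat_lit 5) (nat_lit 15) (nat_lit 4) (nat_lit 334) (nat_lit 294) (nat_lit 152)) (XT.lf (nat_lit 0) (nat_lit 80572522591) (nat_lit 76) (nat_lit 392584336683) (nat_lit 76) (nat_lit 6525498927) (nat_lit 12) (nat_lit 4) (nat_lit 13) (nat_lit 5) (nat_lit 13) (nat_lit 4) (nat_lit 335) (nat_lit 294) (nat_lit 151))) (XT.nd (nat_lit 78) (nat_lit 76) (nat_lit 0) (XT.lf (nat_lit 0) (nat_lit 79700231598) (nat_lit 152) (nat_lit 222673838018) (nat_lit 76) (nat_lit 209794569843) (nat_lit 11) (nat_lit 5) (nat_lit 13) (nat_lit 5) (nat_lit 12) (nat_lit 4) (nat_lit 336) (nat_lit 294) (nat_lit 150)) (XT.nd (nat_lit 78) (nat_lit 76) (nat_lit 0) (XT.lf (nat_lit 0) (nat_lit 172598179431) (nat_lit 152) (nat_lit 32233484811) (nat_lit 76) (nat_lit 342416671407) (nat_lit 11) (nat_lit 5) (nat_lit 13) (nat_lit 5) (nat_lit 12) (nat_lit 4) (nat_lit 337) (nat_lit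 294) (nat_lit 149)) (XT.lf (nat_lit 0) (nat_lit 179176404691) (nat_lit 76) (nat_lit 96548748775) (nat_lit 152) (nat_lit 309269394762) (nat_lit 10) (nat_lit 5) (nat_lit 11) (nat_lit 5) (nat_lit 12) (nat_lit 4) (nat_lit 338) (nat_lit 294) (nat_lit 148)))))) (XT.nd (nat_lit 37284) (nat_lit 0) (nat_lit 5548) (XT.nd (nat_lit 156) (nat_lit 152) (nat_lit 0) (XT.nd (nat_lit 78) (nat_lit 0) (nat_lit 0) (XT.lf (nat_lit 0) (nat_lit 387991181502) (nat_lit 152) (nat_lit 217410352127) (nat_lit 0) (nat_lit 20314479579) (nat_lit 10) (nat_lit 5) (nat_lit 12) (nat_lit 4) (nat_lit 10) (nat_lit 4) (nat_lit 339) (nat_lit 294) (nat_lit 147)) (XT.lf (nat_lit 0) (nat_lit 510866251957) (nat_lit 152) (nat_lit 15558338109) (nat_lit 0) (nat_lit 143189217493) (nat_lit 10) (nat_lit 5) (nat_lit 12) (nat_lit 4) (nat_lit 10) (nat_lit 4) (nat_lit 340) (nat_lit 294) (nat_lit 146))) (XT.nd (nat_lit 78) (nat_lit 76) (nat_lit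 0) (XT.lf (nat_lit 0) (nat_lit 209135083903) (nat_lit 76) (nat_lit 437701217709) (nat_lit 76) (nat_lit 70023875337) (nat_lit 9) (nat_lit 4) (nat_lit 10) (nat_lit 5) (nat_lit 10) (nat_lit 4) (nat_lit 341) (nat_lit 294) (nat_lit 145)) (XT.nd (nat_lit 36972) (nat_lit 0) (nat_lit 5548) (XT.lf (nat_lit 0) (nat_lit 25247266255) (nat_lit 152) (nat_lit 315920731649) (nat_lit 76) (nat_lit 426684356696) (nat_lit 8) (nat_lit 5) (nat_lit 10) (nat_lit 5) (nat_lit 9) (nat_lit 4) (nat_lit 342) (nat_lit 294) (nat_lit 144)) (XT.lf (nat_lit 0) (nat_lit 9799154568) (nat_lit 0) (nat_lit 9799154568) (nat_lit 684) (nat_lit 10690780556) (nat_lit 81) (nat_lit 5) (nat_lit 81) (nat_lit 3) (nat_lit 90) (nat_lit 3) (nat_lit 295) (nat_lit 295) (nat_lit 190))))) (XT.nd (nat_lit 156) (nat_lit 0) (nat_lit 76) (XT.nd (nat_lit 78) (nat_lit 0) (nat_lit 76) (XT.lf (nat_lit 76) (nat_lit 1316686398) (nat_lit 0) (nat_lit 39866747518)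 (nat_lit 760) (nat_lit 21796856837) (nat_lit 82) (nat_lit 5) (nat_lit 81) (nat_lit 5) (nat_lit 91) (nat_lit 5) (nat_lit 296) (nat_lit 295) (nat_lit 189)) (XT.lf (nat_lit 0) (nat_lit 44424151245) (nat_lit 684) (nat_lit 17463882415) (nat_lit 760) (nat_lit 3631796377) (nat_lit 82) (nat_lit 5) (nat_lit 91) (nat_lit 5) (nat_lit 92) (nat_lit 5) (nat_lit 297) (nat_lit 295) (nat_lit 188))) (XT.nd (nat_lit 78) (nat_lit 0) (nat_lit 76) (XT.lf (nat_lit 76) (nat_lit 30576703641) (nat_lit 0) (nat_lit 18494647682) (nat_lit 760) (nat_lit 19133826197) (nat_lit 83) (nat_lit 5) (nat_lit 82) (nat_lit 5) (nat_lit 92) (nat_lit 5) (nat_lit 298) (nat_lit 295) (nat_lit 187)) (XT.nd (nat_lit 78) (nat_lit 0) (nat_lit 76) (XT.lf (nat_lit 76) (nat_lit 11926215841) (nat_lit 0) (nat_lit 43100225498) (nat_lit 760) (nat_lit 16032111622) (nat_lit 84) (nat_lit 5) (nat_lit 83) (nat_lit 5) (nat_lit 93) (nat_lit 5) (nat_lit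 299) (nat_lit 295) (nat_lit 186)) (XT.lf (nat_lit 0) (nat_lit 62481331252) (nat_lit 684) (nat_lit 7690090849) (nat_lit 760) (nat_lit 3917612122) (nat_lit 84) (nat_lit 5) (nat_lit 93) (nat_lit 5) (nat_lit 94) (nat_lit 5) (nat_lit 300) (nat_lit 295) (nat_lit 185))))))))
noncomputable def xc107 : XT := (XT.nd (nat_lit 1560) (nat_lit 1444) (nat_lit 0) (XT.nd (nat_lit 780) (nat_lit 1520) (nat_lit 0) (XT.nd (nat_lit 390) (nat_lit 1216) (nat_lit 0) (XT.nd (nat_lit 156) (nat_lit 760) (nat_lit 0) (XT.nd (nat_lit 78) (nat_lit 684) (nat_lit 0) (XT.lf (nat_lit 76) (nat_lit 48697900634) (nat_lit 0) (nat_lit 23319851230) (nat_lit 760) (nat_lit 5269950167) (nat_lit 85) (nat_lit 5) (nat_lit 84) (nat_lit 5) (nat_lit 94) (nat_lit 5) (nat_lit 301) (nat_lit 295) (nat_lit 184)) (XT.lf (nat_lit 0) (nat_lit 2564466573) (nat_lit 760) (nat_lit 51076997121) (nat_lit 76) (nat_lit 27047572231) (nat_lit 75) (nat_lit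 5) (nat_lit 85) (nat_lit 5) (nat_lit 76) (nat_lit 5) (nat_lit 302) (nat_lit 295) (nat_lit 183))) (XT.nd (nat_lit 78) (nat_lit 380) (nat_lit 0) (XT.lf (nat_lit 0) (nat_lit 8947984008) (nat_lit 380) (nat_lit 2932869116) (nat_lit 456) (nat_lit 72425315383) (nat_lit 70) (nat_lit 5) (nat_lit 75) (nat_lit 5) (nat_lit 76) (nat_lit 5) (nat_lit 303) (nat_lit 295) (nat_lit 182)) (XT.nd (nat_lit 78) (nat_lit 380) (nat_lit 0) (XT.lf (nat_lit 0) (nat_lit 23654502954) (nat_lit 456) (nat_lit 13394682577) (nat_lit 76) (nat_lit 51077892342) (nat_lit 70) (nat_lit 5) (nat_lit 76) (nat_lit 5) (nat_lit 71) (nat_lit 5) (nat_lit 304) (nat_lit 295) (nat_lit 181)) (XT.lf (nat_lit 0) (nat_lit 37560953297) (nat_lit 456) (nat_lit 37245469224) (nat_lit 76) (nat_lit 17387695555) (nat_lit 65) (nat_lit 5) (nat_lit 71) (nat_lit 5) (nat_lit 66) (nat_lit 5) (nat_lit 305) (nat_lit 295) (nat_lit 180))))) (XT.nd (nat_lit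 156) (nat_lit 608) (nat_lit 0) (XT.nd (nat_lit 78) (nat_lit 304) (nat_lit 0) (XT.lf (nat_lit 0) (nat_lit 33092058688) (nat_lit 304) (nat_lit 20864986859) (nat_lit 380) (nat_lit 42560622906) (nat_lit 61) (nat_lit 5) (nat_lit 65) (nat_lit 5) (nat_lit 66) (nat_lit 5) (nat_lit 306) (nat_lit 295) (nat_lit 179)) (XT.lf (nat_lit 0) (nat_lit 8921602585) (nat_lit 304) (nat_lit 64124410221) (nat_lit 380) (nat_lit 28072033688) (nat_lit 57) (nat_lit 5) (nat_lit 61) (nat_lit 5) (nat_lit 62) (nat_lit 5) (nat_lit 307) (nat_lit 295) (nat_lit 178))) (XT.nd (nat_lit 78) (nat_lit 608) (nat_lit 0) (XT.lf (nat_lit 0) (nat_lit 88956641636) (nat_lit 304) (nat_lit 6155190462) (nat_lit 380) (nat_lit 10902138736) (nat_lit 57) (nat_lit 5) (nat_lit 61) (nat_lit 5) (nat_lit 62) (nat_lit 5) (nat_lit 308) (nat_lit 295) (nat_lit 177)) (XT.nd (nat_lit 78) (nat_lit 304) (nat_lit 0) (XT.lf (nat_lit 0) (nat_lit 9327648137)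 (nat_lit 304) (nat_lit 46056826991) (nat_lit 76) (nat_lit 55814587752) (nat_lit 53) (nat_lit 5) (nat_lit 57) (nat_lit 5) (nat_lit 54) (nat_lit 5) (nat_lit 309) (nat_lit 295) (nat_lit 176)) (XT.lf (nat_lit 0) (nat_lit 31915066060) (nat_lit 380) (nat_lit 78159570240) (nat_lit 76) (nat_lit 6659331791) (nat_lit 49) (nat_lit 5) (nat_lit 54) (nat_lit 5) (nat_lit 50) (nat_lit 5) (nat_lit 310) (nat_lit 295) (nat_lit 175)))))) (XT.nd (nat_lit 390) (nat_lit 836) (nat_lit 0) (XT.nd (nat_lit 156) (nat_lit 456) (nat_lit 0) (XT.nd (nat_lit 78) (nat_lit 0) (nat_lit 0) (XT.lf (nat_lit 0) (nat_lit 8265422475) (nat_lit 228) (nat_lit 49921365147) (nat_lit 304) (nat_lit 64431014696) (nat_lit 46) (nat_lit 5) (nat_lit 49) (nat_lit 5) (nat_lit 50) (nat_lit 5) (nat_lit 311) (nat_lit 295) (nat_lit 174)) (XT.lf (nat_lit 0) (nat_lit 88177939044) (nat_lit 304) (nat_lit 24767322275) (nat_lit 76) (nat_lit 15946199311)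 (nat_lit 46) (nat_lit 5) (nat_lit 50) (nat_lit 5) (nat_lit 47) (nat_lit 5) (nat_lit 312) (nat_lit 295) (nat_lit 173))) (XT.nd (nat_lit 78) (nat_lit 228) (nat_lit 0) (XT.lf (nat_lit 0) (nat_lit 73493813282) (nat_lit 228) (nat_lit 49062854771) (nat_lit 304) (nat_lit 13010931087) (nat_lit 43) (nat_lit 5) (nat_lit 46) (nat_lit 5) (nat_lit 47) (nat_lit 5) (nat_lit 313) (nat_lit 295) (nat_lit 172)) (XT.nd (nat_lit 78) (nat_lit 0) (nat_lit 0) (XT.lf (nat_lit 0) (nat_lit 17741290560) (nat_lit 228) (nat_lit 104334366758) (nat_lit 76) (nat_lit 20620244988) (nat_lit 40) (nat_lit 5) (nat_lit 43) (nat_lit 5) (nat_lit 41) (nat_lit 5) (nat_lit 314) (nat_lit 295) (nat_lit 171)) (XT.lf (nat_lit 0) (nat_lit 52429398223) (nat_lit 228) (nat_lit 2357678096) (nat_lit 76) (nat_lit 95500152787) (nat_lit 40) (nat_lit 5) (nat_lit 43) (nat_lit 5) (nat_lit 41) (nat_lit 5) (nat_lit 315) (nat_lit 295) (nat_lit 170)))))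 (XT.nd (nat_lit 156) (nat_lit 456) (nat_lit 0) (XT.nd (nat_lit 78) (nat_lit 152) (nat_lit 0) (XT.lf (nat_lit 0) (nat_lit 91937814514) (nat_lit 304) (nat_lit 47367097598) (nat_lit 76) (nat_lit 19078688305) (nat_lit 37) (nat_lit 5) (nat_lit 41) (nat_lit 5) (nat_lit 38) (nat_lit 5) (nat_lit 316) (nat_lit 295) (nat_lit 169)) (XT.lf (nat_lit 0) (nat_lit 67659128695) (nat_lit 152) (nat_lit 68968929462) (nat_lit 228) (nat_lit 30398566839) (nat_lit 35) (nat_lit 5) (nat_lit 37) (nat_lit 5) (nat_lit 38) (nat_lit 5) (nat_lit 317) (nat_lit 295) (nat_lit 168))) (XT.nd (nat_lit 78) (nat_lit 152) (nat_lit 0) (XT.lf (nat_lit 0) (nat_lit 9502882625) (nat_lit 304) (nat_lit 158751330137) (nat_lit 76) (nat_lit 8038041943) (nat_lit 31) (nat_lit 5) (nat_lit 35) (nat_lit 5) (nat_lit 32) (nat_lit 5) (nat_lit 318) (nat_lit 295) (nat_lit 167)) (XT.nd (nat_lit 78) (nat_lit 152) (nat_lit 0) (XT.lf (nat_lit 0) (nat_lit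 54467215551) (nat_lit 304) (nat_lit 40567128069) (nat_lit 76) (nat_lit 91093086086) (nat_lit 31) (nat_lit 5) (nat_lit 35) (nat_lit 5) (nat_lit 32) (nat_lit 5) (nat_lit 319) (nat_lit 295) (nat_lit 166)) (XT.lf (nat_lit 0) (nat_lit 89949796598) (nat_lit 152) (nat_lit 14482629414) (nat_lit 228) (nat_lit 92246807107) (nat_lit 29) (nat_lit 5) (nat_lit 31) (nat_lit 5) (nat_lit 32) (nat_lit 5) (nat_lit 320) (nat_lit 295) (nat_lit 165))))))) (XT.nd (nat_lit 780) (nat_lit 532) (nat_lit 0) (XT.nd (nat_lit 390) (nat_lit 380) (nat_lit 0) (XT.nd (nat_lit 156) (nat_lit 304) (nat_lit 0) (XT.nd (nat_lit 78) (nat_lit 76) (nat_lit 0) (XT.lf (nat_lit 0) (nat_lit 23938371652) (nat_lit 152) (nat_lit 136679989235) (nat_lit 228) (nat_lit 47345645424) (nat_lit 27) (nat_lit 5) (nat_lit 29) (nat_lit 5) (nat_lit 30) (nat_lit 5) (nat_lit 321) (nat_lit 295) (nat_lit 164)) (XT.lf (nat_lit 0) (nat_lit 3244128920) (nat_lit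 228) (nat_lit 51481255868) (nat_lit 76) (nat_lit 165318618964) (nat_lit 26) (nat_lit 5) (nat_lit 29) (nat_lit 5) (nat_lit 27) (nat_lit 5) (nat_lit 322) (nat_lit 295) (nat_lit 163))) (XT.nd (nat_lit 78) (nat_lit 152) (nat_lit 0) (XT.lf (nat_lit 0) (nat_lit 58274155856) (nat_lit 228) (nat_lit 139669862904) (nat_lit 76) (nat_lit 35004983472) (nat_lit 24) (nat_lit 5) (nat_lit 27) (nat_lit 5) (nat_lit 25) (nat_lit 5) (nat_lit 323) (nat_lit 295) (nat_lit 162)) (XT.nd (nat_lit 78) (nat_lit 0) (nat_lit 0) (XT.lf (nat_lit 0) (nat_lit 3800504966) (nat_lit 152) (nat_lit 115799135125) (nat_lit 228) (nat_lit 127192108414) (nat_lit 22) (nat_lit 5) (nat_lit 24) (nat_lit 5) (nat_lit 25) (nat_lit 5) (nat_lit 324) (nat_lit 295) (nat_lit 161)) (XT.lf (nat_lit 0) (nat_lit 163735257900) (nat_lit 152) (nat_lit 24528367385) (nat_lit 228) (nat_lit 73356666705) (nat_lit 22) (nat_lit 5) (nat_lit 24) (nat_lit 5)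 (nat_lit 25) (nat_lit 5) (nat_lit 325) (nat_lit 295) (nat_lit 160))))) (XT.nd (nat_lit 156) (nat_lit 228) (nat_lit 0) (XT.nd (nat_lit 78) (nat_lit 76) (nat_lit 0) (XT.lf (nat_lit 0) (nat_lit 59579793120) (nat_lit 76) (nat_lit 204926714606) (nat_lit 152) (nat_lit 13024322879) (nat_lit 21) (nat_lit 5) (nat_lit 22) (nat_lit 5) (nat_lit 23) (nat_lit 4) (nat_lit 326) (nat_lit 295) (nat_lit 159)) (XT.lf (nat_lit 0) (nat_lit 52612165719) (nat_lit 152) (nat_lit 62747971972) (nat_lit 76) (nat_lit 179206067240) (nat_lit 20) (nat_lit 5) (nat_lit 22) (nat_lit 5) (nat_lit 21) (nat_lit 5) (nat_lit 327) (nat_lit 295) (nat_lit 158))) (XT.nd (nat_lit 78) (nat_lit 76) (nat_lit 0) (XT.lf (nat_lit 0) (nat_lit 108111265112) (nat_lit 152) (nat_lit 16625603698) (nat_lit 228) (nat_lit 188132184978) (nat_lit 18) (nat_lit 5) (nat_lit 20) (nat_lit 5) (nat_lit 21) (nat_lit 5) (nat_lit 328) (nat_lit 295) (nat_lit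 157)) (XT.nd (nat_lit 78) (nat_lit 76) (nat_lit 0) (XT.lf (nat_lit 0) (nat_lit 205147368419) (nat_lit 228) (nat_lit 39125400161) (nat_lit 76) (nat_lit 88237571394) (nat_lit 18) (nat_lit 5) (nat_lit 21) (nat_lit 5) (nat_lit 19) (nat_lit 4) (nat_lit 329) (nat_lit 295) (nat_lit 156)) (XT.lf (nat_lit 0) (nat_lit 144088337265) (nat_lit 76) (nat_lit 150431961378) (nat_lit 152) (nat_lit 59076151281) (nat_lit 17) (nat_lit 5) (nat_lit 18) (nat_lit 5) (nat_lit 19) (nat_lit 4) (nat_lit 330) (nat_lit 295) (nat_lit 155)))))) (XT.nd (nat_lit 390) (nat_lit 228) (nat_lit 0) (XT.nd (nat_lit 156) (nat_lit 76) (nat_lit 0) (XT.nd (nat_lit 78) (nat_lit 152) (nat_lit 0) (XT.lf (nat_lit 0) (nat_lit 14896321024) (nat_lit 152) (nat_lit 33219927176) (nat_lit 76) (nat_lit 328207128326) (nat_lit 16) (nat_lit 5) (nat_lit 18) (nat_lit 5) (nat_lit 17) (nat_lit 5) (nat_lit 331) (nat_lit 295) (nat_lit 154)) (XT.lf (nat_lit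 0) (nat_lit 96294755311) (nat_lit 228) (nat_lit 240385891834) (nat_lit 76) (nat_lit 63960492126) (nat_lit 14) (nat_lit 5) (nat_lit 17) (nat_lit 5) (nat_lit 15) (nat_lit 4) (nat_lit 332) (nat_lit 295) (nat_lit 153))) (XT.nd (nat_lit 78) (nat_lit 76) (nat_lit 0) (XT.lf (nat_lit 0) (nat_lit 185604228999) (nat_lit 228) (nat_lit 57302052565) (nat_lit 76) (nat_lit 183928083545) (nat_lit 14) (nat_lit 5) (nat_lit 17) (nat_lit 5) (nat_lit 15) (nat_lit 4) (nat_lit 333) (nat_lit 295) (nat_lit 152)) (XT.nd (nat_lit 78) (nat_lit 0) (nat_lit 0) (XT.lf (nat_lit 0) (nat_lit 145071160592) (nat_lit 76) (nat_lit 139251971750) (nat_lit 152) (nat_lit 170686683364) (nat_lit 13) (nat_lit 5) (nat_lit 14) (nat_lit 5) (nat_lit 15) (nat_lit 4) (nat_lit 334) (nat_lit 295) (nat_lit 151)) (XT.lf (nat_lit 0) (nat_lit 365679974675) (nat_lit 76) (nat_lit 26257456630) (nat_lit 152) (nat_lit 93451977138) (nat_lit 13) (nat_lit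 5) (nat_lit 14) (nat_lit 5) (nat_lit 15) (nat_lit 4) (nat_lit 335) (nat_lit 295) (nat_lit 150))))) (XT.nd (nat_lit 234) (nat_lit 76) (nat_lit 0) (XT.nd (nat_lit 78) (nat_lit 76) (nat_lit 0) (XT.lf (nat_lit 0) (nat_lit 87027747713) (nat_lit 76) (nat_lit 423986951298) (nat_lit 76) (nat_lit 7041978588) (nat_lit 12) (nat_lit 4) (nat_lit 13) (nat_lit 5) (nat_lit 13) (nat_lit 4) (nat_lit 336) (nat_lit 295) (nat_lit 149)) (XT.nd (nat_lit 78) (nat_lit 0) (nat_lit 0) (XT.lf (nat_lit 0) (nat_lit 86081233728) (nat_lit 152) (nat_lit 240478850837) (nat_lit 76) (nat_lit 226581792719) (nat_lit 11) (nat_lit 5) (nat_lit 13) (nat_lit 5) (nat_lit 12) (nat_lit 4) (nat_lit 337) (nat_lit 295) (nat_lit 148)) (XT.lf (nat_lit 0) (nat_lit 186410648232) (nat_lit 152) (nat_lit 34803928204) (nat_lit 76) (nat_lit 369813391498) (nat_lit 11) (nat_lit 5) (nat_lit 13) (nat_lit 5) (nat_lit 12) (nat_lit 4) (nat_lit 338)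 (nat_lit 295) (nat_lit 147)))) (XT.nd (nat_lit 78) (nat_lit 0) (nat_lit 0) (XT.lf (nat_lit 0) (nat_lit 193518394558) (nat_lit 76) (nat_lit 104269166811) (nat_lit 152) (nat_lit 334006327377) (nat_lit 10) (nat_lit 5) (nat_lit 11) (nat_lit 5) (nat_lit 12) (nat_lit 4) (nat_lit 339) (nat_lit 295) (nat_lit 146)) (XT.nd (nat_lit 78) (nat_lit 0) (nat_lit 0) (XT.lf (nat_lit 0) (nat_lit 419034596380) (nat_lit 152) (nat_lit 234795729862) (nat_lit 0) (nat_lit 21942758709) (nat_lit 10) (nat_lit 5) (nat_lit 12) (nat_lit 4) (nat_lit 10) (nat_lit 4) (nat_lit 340) (nat_lit 295) (nat_lit 145)) (XT.lf (nat_lit 0) (nat_lit 551739367260) (nat_lit 152) (nat_lit 16796106607) (nat_lit 0) (nat_lit 154647244489) (nat_lit 10) (nat_lit 5) (nat_lit 12) (nat_lit 4) (nat_lit 10) (nat_lit 4) (nat_lit 341) (nat_lit 295) (nat_lit 144))))))))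
noncomputable def xc108 : XT := (XT.nd (nat_lit 1560) (nat_lit 2052) (nat_lit 0) (XT.nd (nat_lit 780) (nat_lit 2280) (nat_lit 0) (XT.nd (nat_lit 390) (nat_lit 836) (nat_lit 0) (XT.nd (nat_lit 156) (nat_lit 0) (nat_lit 76) (XT.nd (nat_lit 78) (nat_lit 0) (nat_lit 0) (XT.lf (nat_lit 0) (nat_lit 10595738286) (nat_lit 0) (nat_lit 10595738286) (nat_lit 684) (nat_lit 11519408540) (nat_lit 81) (nat_lit 5) (nat_lit 81) (nat_lit 3) (nat_lit 90) (nat_lit 3) (nat_lit 296) (nat_lit 296) (nat_lit 188)) (XT.lf (nat_lit 76) (nat_lit 1449150027) (nat_lit 0) (nat_lit 43075873235) (nat_lit 760) (nat_lit 23491221648) (nat_lit 82) (nat_lit 5) (nat_lit 81) (nat_lit 5) (nat_lit 91) (nat_lit 5) (nat_lit 297) (nat_lit 296) (nat_lit 187))) (XT.nd (nat_lit 78) (nat_lit 0) (nat_lit 0) (XT.lf (nat_lit 0) (nat_lit 48021236788) (nat_lit 684) (nat_lit 18833301588) (nat_lit 760) (nat_lit 3904606159) (nat_lit 82) (nat_lit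 5) (nat_lit 91) (nat_lit 5) (nat_lit 92) (nat_lit 5) (nat_lit 298) (nat_lit 296) (nat_lit 186)) (XT.nd (nat_lit 78) (nat_lit 0) (nat_lit 76) (XT.lf (nat_lit 76) (nat_lit 33049327917) (nat_lit 0) (nat_lit 19988101955) (nat_lit 760) (nat_lit 20622037556) (nat_lit 83) (nat_lit 5) (nat_lit 82) (nat_lit 5) (nat_lit 92) (nat_lit 5) (nat_lit 299) (nat_lit 296) (nat_lit 185)) (XT.lf (nat_lit 76) (nat_lit 12907889256) (nat_lit 0) (nat_lit 46558277282) (nat_lit 760) (nat_lit 17275092228) (nat_lit 84) (nat_lit 5) (nat_lit 83) (nat_lit 5) (nat_lit 93) (nat_lit 5) (nat_lit 300) (nat_lit 296) (nat_lit 184))))) (XT.nd (nat_lit 156) (nat_lit 1064) (nat_lit 0) (XT.nd (nat_lit 78) (nat_lit 0) (nat_lit 0) (XT.lf (nat_lit 0) (nat_lit 67514516676) (nat_lit 684) (nat_lit 8277787714) (nat_lit 760) (nat_lit 4222027942) (nat_lit 84) (nat_lit 5) (nat_lit 93) (nat_lit 5) (nat_lit 94) (nat_lit 5) (nat_lit 301) (nat_lit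 296) (nat_lit 183)) (XT.lf (nat_lit 76) (nat_lit 52620047518) (nat_lit 0) (nat_lit 25191645457) (nat_lit 760) (nat_lit 5657315205) (nat_lit 85) (nat_lit 5) (nat_lit 84) (nat_lit 5) (nat_lit 94) (nat_lit 5) (nat_lit 302) (nat_lit 296) (nat_lit 182))) (XT.nd (nat_lit 78) (nat_lit 380) (nat_lit 0) (XT.lf (nat_lit 0) (nat_lit 2800640473) (nat_lit 760) (nat_lit 55135157695) (nat_lit 76) (nat_lit 29206735760) (nat_lit 75) (nat_lit 5) (nat_lit 85) (nat_lit 5) (nat_lit 76) (nat_lit 5) (nat_lit 303) (nat_lit 296) (nat_lit 181)) (XT.nd (nat_lit 78) (nat_lit 0) (nat_lit 0) (XT.lf (nat_lit 0) (nat_lit 9690605114) (nat_lit 380) (nat_lit 3169853458) (nat_lit 456) (nat_lit 78188677998) (nat_lit 70) (nat_lit 5) (nat_lit 75) (nat_lit 5) (nat_lit 76) (nat_lit 5) (nat_lit 304) (nat_lit 296) (nat_lit 180)) (XT.lf (nat_lit 0) (nat_lit 25573808035) (nat_lit 456) (nat_lit 14440012212) (nat_lit 76) (nat_lit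 55162013134) (nat_lit 70) (nat_lit 5) (nat_lit 76) (nat_lit 5) (nat_lit 71) (nat_lit 5) (nat_lit 305) (nat_lit 296) (nat_lit 179)))))) (XT.nd (nat_lit 390) (nat_lit 988) (nat_lit 0) (XT.nd (nat_lit 156) (nat_lit 608) (nat_lit 0) (XT.nd (nat_lit 78) (nat_lit 304) (nat_lit 0) (XT.lf (nat_lit 0) (nat_lit 40591166749) (nat_lit 456) (nat_lit 40198672852) (nat_lit 76) (nat_lit 18778482284) (nat_lit 65) (nat_lit 5) (nat_lit 71) (nat_lit 5) (nat_lit 66) (nat_lit 5) (nat_lit 306) (nat_lit 296) (nat_lit 178)) (XT.lf (nat_lit 0) (nat_lit 35764708508) (nat_lit 304) (nat_lit 22532755814) (nat_lit 380) (nat_lit 45940370428) (nat_lit 61) (nat_lit 5) (nat_lit 65) (nat_lit 5) (nat_lit 66) (nat_lit 5) (nat_lit 307) (nat_lit 296) (nat_lit 177))) (XT.nd (nat_lit 78) (nat_lit 304) (nat_lit 0) (XT.lf (nat_lit 0) (nat_lit 9660688680) (nat_lit 304) (nat_lit 69251509816) (nat_lit 380) (nat_lit 30294116093) (nat_lit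 57) (nat_lit 5) (nat_lit 61) (nat_lit 5) (nat_lit 62) (nat_lit 5) (nat_lit 308) (nat_lit 296) (nat_lit 176)) (XT.nd (nat_lit 78) (nat_lit 304) (nat_lit 0) (XT.lf (nat_lit 0) (nat_lit 96096652493) (nat_lit 304) (nat_lit 6644963826) (nat_lit 380) (nat_lit 11752383641) (nat_lit 57) (nat_lit 5) (nat_lit 61) (nat_lit 5) (nat_lit 62) (nat_lit 5) (nat_lit 309) (nat_lit 296) (nat_lit 175)) (XT.lf (nat_lit 0) (nat_lit 10093923342) (nat_lit 304) (nat_lit 49717207704) (nat_lit 76) (nat_lit 60282812551) (nat_lit 53) (nat_lit 5) (nat_lit 57) (nat_lit 5) (nat_lit 54) (nat_lit 5) (nat_lit 310) (nat_lit 296) (nat_lit 174))))) (XT.nd (nat_lit 156) (nat_lit 456) (nat_lit 0) (XT.nd (nat_lit 78) (nat_lit 228) (nat_lit 0) (XT.lf (nat_lit 0) (nat_lit 34487274635) (nat_lit 380) (nat_lit 84388300829) (nat_lit 76) (nat_lit 7196121812) (nat_lit 49) (nat_lit 5) (nat_lit 54) (nat_lit 5) (nat_lit 50) (nat_lit 5)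 (nat_lit 311) (nat_lit 296) (nat_lit 173)) (XT.lf (nat_lit 0) (nat_lit 8949646770) (nat_lit 228) (nat_lit 53910038448) (nat_lit 304) (nat_lit 69566608281) (nat_lit 46) (nat_lit 5) (nat_lit 49) (nat_lit 5) (nat_lit 50) (nat_lit 5) (nat_lit 312) (nat_lit 296) (nat_lit 172))) (XT.nd (nat_lit 78) (nat_lit 456) (nat_lit 0) (XT.lf (nat_lit 0) (nat_lit 95248871584) (nat_lit 304) (nat_lit 26726629467) (nat_lit 76) (nat_lit 17226408895) (nat_lit 46) (nat_lit 5) (nat_lit 50) (nat_lit 5) (nat_lit 47) (nat_lit 5) (nat_lit 313) (nat_lit 296) (nat_lit 171)) (XT.nd (nat_lit 78) (nat_lit 228) (nat_lit 0) (XT.lf (nat_lit 0) (nat_lit 79394437426) (nat_lit 228) (nat_lit 52982554370) (nat_lit 304) (nat_lit 14035195517) (nat_lit 43) (nat_lit 5) (nat_lit 46) (nat_lit 5) (nat_lit 47) (nat_lit 5) (nat_lit 314) (nat_lit 296) (nat_lit 170)) (XT.lf (nat_lit 0) (nat_lit 19175891288) (nat_lit 228) (nat_lit 112659677802)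 (nat_lit 76) (nat_lit 22275213857) (nat_lit 40) (nat_lit 5) (nat_lit 43) (nat_lit 5) (nat_lit 41) (nat_lit 5) (nat_lit 315) (nat_lit 296) (nat_lit 169))))))) (XT.nd (nat_lit 780) (nat_lit 684) (nat_lit 0) (XT.nd (nat_lit 390) (nat_lit 684) (nat_lit 0) (XT.nd (nat_lit 156) (nat_lit 456) (nat_lit 0) (XT.nd (nat_lit 78) (nat_lit 228) (nat_lit 0) (XT.lf (nat_lit 0) (nat_lit 56637914418) (nat_lit 228) (nat_lit 2526442069) (nat_lit 76) (nat_lit 103145118037) (nat_lit 40) (nat_lit 5) (nat_lit 43) (nat_lit 5) (nat_lit 41) (nat_lit 5) (nat_lit 316) (nat_lit 296) (nat_lit 168)) (XT.lf (nat_lit 0) (nat_lit 99306338309) (nat_lit 304) (nat_lit 51136871413) (nat_lit 76) (nat_lit 20610380931) (nat_lit 37) (nat_lit 5) (nat_lit 41) (nat_lit 5) (nat_lit 38) (nat_lit 5) (nat_lit 317) (nat_lit 296) (nat_lit 167))) (XT.nd (nat_lit 78) (nat_lit 304) (nat_lit 0) (XT.lf (nat_lit 0) (nat_lit 73090601453) (nat_lit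 152) (nat_lit 74480492715) (nat_lit 228) (nat_lit 32817000089) (nat_lit 35) (nat_lit 5) (nat_lit 37) (nat_lit 5) (nat_lit 38) (nat_lit 5) (nat_lit 318) (nat_lit 296) (nat_lit 166)) (XT.nd (nat_lit 78) (nat_lit 0) (nat_lit 0) (XT.lf (nat_lit 0) (nat_lit 10275550776) (nat_lit 304) (nat_lit 171432535551) (nat_lit 76) (nat_lit 8686908208) (nat_lit 31) (nat_lit 5) (nat_lit 35) (nat_lit 5) (nat_lit 32) (nat_lit 5) (nat_lit 319) (nat_lit 296) (nat_lit 165)) (XT.lf (nat_lit 0) (nat_lit 58836109036) (nat_lit 304) (nat_lit 43794997392) (nat_lit 76) (nat_lit 98385924555) (nat_lit 31) (nat_lit 5) (nat_lit 35) (nat_lit 5) (nat_lit 32) (nat_lit 5) (nat_lit 320) (nat_lit 296) (nat_lit 164))))) (XT.nd (nat_lit 156) (nat_lit 380) (nat_lit 0) (XT.nd (nat_lit 78) (nat_lit 152) (nat_lit 0) (XT.lf (nat_lit 0) (nat_lit 97162520680) (nat_lit 152) (nat_lit 15635423963) (nat_lit 228) (nat_lit 99615064892) (nat_lit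 29) (nat_lit 5) (nat_lit 31) (nat_lit 5) (nat_lit 32) (nat_lit 5) (nat_lit 321) (nat_lit 296) (nat_lit 163)) (XT.lf (nat_lit 0) (nat_lit 25869905168) (nat_lit 152) (nat_lit 147608381036) (nat_lit 228) (nat_lit 51122302970) (nat_lit 27) (nat_lit 5) (nat_lit 29) (nat_lit 5) (nat_lit 30) (nat_lit 5) (nat_lit 322) (nat_lit 296) (nat_lit 162))) (XT.nd (nat_lit 78) (nat_lit 304) (nat_lit 0) (XT.lf (nat_lit 0) (nat_lit 3513513131) (nat_lit 228) (nat_lit 55584173209) (nat_lit 76) (nat_lit 178549331947) (nat_lit 26) (nat_lit 5) (nat_lit 29) (nat_lit 5) (nat_lit 27) (nat_lit 5) (nat_lit 323) (nat_lit 296) (nat_lit 161)) (XT.nd (nat_lit 78) (nat_lit 152) (nat_lit 0) (XT.lf (nat_lit 0) (nat_lit 62945531665) (nat_lit 228) (nat_lit 150828152735) (nat_lit 76) (nat_lit 37810753744) (nat_lit 24) (nat_lit 5) (nat_lit 27) (nat_lit 5) (nat_lit 25) (nat_lit 5) (nat_lit 324) (nat_lit 296) (nat_lit 160)) (XT.lf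 (nat_lit 0) (nat_lit 4119179680) (nat_lit 152) (nat_lit 125057403935) (nat_lit 228) (nat_lit 137358044951) (nat_lit 22) (nat_lit 5) (nat_lit 24) (nat_lit 5) (nat_lit 25) (nat_lit 5) (nat_lit 325) (nat_lit 296) (nat_lit 159)))))) (XT.nd (nat_lit 390) (nat_lit 380) (nat_lit 0) (XT.nd (nat_lit 156) (nat_lit 228) (nat_lit 0) (XT.nd (nat_lit 78) (nat_lit 76) (nat_lit 0) (XT.lf (nat_lit 0) (nat_lit 176847628825) (nat_lit 152) (nat_lit 26485394182) (nat_lit 228) (nat_lit 79216466581) (nat_lit 22) (nat_lit 5) (nat_lit 24) (nat_lit 5) (nat_lit 25) (nat_lit 5) (nat_lit 326) (nat_lit 296) (nat_lit 158)) (XT.lf (nat_lit 0) (nat_lit 64359466946) (nat_lit 76) (nat_lit 221315537001) (nat_lit 152) (nat_lit 14057884719) (nat_lit 21) (nat_lit 5) (nat_lit 22) (nat_lit 5) (nat_lit 23) (nat_lit 4) (nat_lit 327) (nat_lit 296) (nat_lit 157))) (XT.nd (nat_lit 78) (nat_lit 152) (nat_lit 0) (XT.lf (nat_lit 0)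 (nat_lit 56828653468) (nat_lit 152) (nat_lit 67755246892) (nat_lit 76) (nat_lit 193547216771) (nat_lit 20) (nat_lit 5) (nat_lit 22) (nat_lit 5) (nat_lit 21) (nat_lit 5) (nat_lit 328) (nat_lit 296) (nat_lit 156)) (XT.nd (nat_lit 78) (nat_lit 0) (nat_lit 0) (XT.lf (nat_lit 0) (nat_lit 116772183194) (nat_lit 152) (nat_lit 17950780600) (nat_lit 228) (nat_lit 203175249180) (nat_lit 18) (nat_lit 5) (nat_lit 20) (nat_lit 5) (nat_lit 21) (nat_lit 5) (nat_lit 329) (nat_lit 296) (nat_lit 155)) (XT.lf (nat_lit 0) (nat_lit 221565844498) (nat_lit 228) (nat_lit 42244037791) (nat_lit 76) (nat_lit 95300943290) (nat_lit 18) (nat_lit 5) (nat_lit 21) (nat_lit 5) (nat_lit 19) (nat_lit 4) (nat_lit 330) (nat_lit 296) (nat_lit 154))))) (XT.nd (nat_lit 156) (nat_lit 228) (nat_lit 0) (XT.nd (nat_lit 78) (nat_lit 76) (nat_lit 0) (XT.lf (nat_lit 0) (nat_lit 155626303444) (nat_lit 76) (nat_lit 162461980560) (nat_lit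 152) (nat_lit 63795557116) (nat_lit 17) (nat_lit 5) (nat_lit 18) (nat_lit 5) (nat_lit 19) (nat_lit 4) (nat_lit 331) (nat_lit 296) (nat_lit 153)) (XT.lf (nat_lit 0) (nat_lit 16094019544) (nat_lit 152) (nat_lit 35867225420) (nat_lit 76) (nat_lit 354467696112) (nat_lit 16) (nat_lit 5) (nat_lit 18) (nat_lit 5) (nat_lit 17) (nat_lit 5) (nat_lit 332) (nat_lit 296) (nat_lit 152))) (XT.nd (nat_lit 78) (nat_lit 76) (nat_lit 0) (XT.lf (nat_lit 0) (nat_lit 104004103150) (nat_lit 228) (nat_lit 259606688802) (nat_lit 76) (nat_lit 69081344600) (nat_lit 14) (nat_lit 5) (nat_lit 17) (nat_lit 5) (nat_lit 15) (nat_lit 4) (nat_lit 333) (nat_lit 296) (nat_lit 151)) (XT.nd (nat_lit 78) (nat_lit 76) (nat_lit 0) (XT.lf (nat_lit 0) (nat_lit 200457907517) (nat_lit 228) (nat_lit 61876888641) (nat_lit 76) (nat_lit 198646046065) (nat_lit 14) (nat_lit 5) (nat_lit 17) (nat_lit 5) (nat_lit 15) (nat_lit 4) (nat_lit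 334) (nat_lit 296) (nat_lit 150)) (XT.lf (nat_lit 0) (nat_lit 156685776179) (nat_lit 76) (nat_lit 150388290687) (nat_lit 152) (nat_lit 184336275192) (nat_lit 13) (nat_lit 5) (nat_lit 14) (nat_lit 5) (nat_lit 15) (nat_lit 4) (nat_lit 335) (nat_lit 296) (nat_lit 149))))))))
noncomputable def xc109 : XT := (XT.nd (nat_lit 38688) (nat_lit 0) (nat_lit 608) (XT.nd (nat_lit 37908) (nat_lit 0) (nat_lit 3572) (XT.nd (nat_lit 390) (nat_lit 0) (nat_lit 0) (XT.nd (nat_lit 156) (nat_lit 152) (nat_lit 0) (XT.nd (nat_lit 78) (nat_lit 76) (nat_lit 0) (XT.lf (nat_lit 0) (nat_lit 394942634445) (nat_lit 76) (nat_lit 28354498713) (nat_lit 152) (nat_lit 100923188234) (nat_lit 13) (nat_lit 5) (nat_lit 14) (nat_lit 5) (nat_lit 15) (nat_lit 4) (nat_lit 336) (nat_lit 296) (nat_lit 148)) (XT.lf (nat_lit 0) (nat_lit 93998046503) (nat_lit 76) (nat_lit 457902364605) (nat_lit 76) (nat_lit 7600569855) (nat_lit 12)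 (nat_lit 4) (nat_lit 13) (nat_lit 5) (nat_lit 13) (nat_lit 4) (nat_lit 337) (nat_lit 296) (nat_lit 147))) (XT.nd (nat_lit 78) (nat_lit 76) (nat_lit 0) (XT.lf (nat_lit 0) (nat_lit 92972005061) (nat_lit 152) (nat_lit 259709533541) (nat_lit 76) (nat_lit 244711471673) (nat_lit 11) (nat_lit 5) (nat_lit 13) (nat_lit 5) (nat_lit 12) (nat_lit 4) (nat_lit 338) (nat_lit 296) (nat_lit 146)) (XT.nd (nat_lit 78) (nat_lit 76) (nat_lit 0) (XT.lf (nat_lit 0) (nat_lit 201327456235) (nat_lit 152) (nat_lit 37581181940) (nat_lit 76) (nat_lit 399401366093) (nat_lit 11) (nat_lit 5) (nat_lit 13) (nat_lit 5) (nat_lit 12) (nat_lit 4) (nat_lit 339) (nat_lit 296) (nat_lit 145)) (XT.lf (nat_lit 0) (nat_lit 209006619802) (nat_lit 76) (nat_lit 112607715017) (nat_lit 152) (nat_lit 360722873549) (nat_lit 10) (nat_lit 5) (nat_lit 11) (nat_lit 5) (nat_lit 12) (nat_lit 4) (nat_lit 340) (nat_lit 296) (nat_lit 144))))) (XT.nd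 (nat_lit 37284) (nat_lit 0) (nat_lit 5396) (XT.nd (nat_lit 37206) (nat_lit 0) (nat_lit 5396) (XT.lf (nat_lit 0) (nat_lit 452560896633) (nat_lit 152) (nat_lit 253573000704) (nat_lit 0) (nat_lit 23700854958) (nat_lit 10) (nat_lit 5) (nat_lit 12) (nat_lit 4) (nat_lit 10) (nat_lit 4) (nat_lit 341) (nat_lit 296) (nat_lit 143)) (XT.lf (nat_lit 0) (nat_lit 11454243844) (nat_lit 0) (nat_lit 11454243844) (nat_lit 684) (nat_lit 12418126467) (nat_lit 81) (nat_lit 5) (nat_lit 81) (nat_lit 3) (nat_lit 90) (nat_lit 3) (nat_lit 297) (nat_lit 297) (nat_lit 186))) (XT.nd (nat_lit 78) (nat_lit 0) (nat_lit 76) (XT.lf (nat_lit 76) (nat_lit 1588340531) (nat_lit 0) (nat_lit 46538906328) (nat_lit 760) (nat_lit 25328180786) (nat_lit 82) (nat_lit 5) (nat_lit 81) (nat_lit 5) (nat_lit 91) (nat_lit 5) (nat_lit 298) (nat_lit 297) (nat_lit 185)) (XT.nd (nat_lit 78) (nat_lit 0) (nat_lit 0) (XT.lf (nat_lit 0) (nat_lit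 51899932853) (nat_lit 684) (nat_lit 20316224785) (nat_lit 760) (nat_lit 4201770667) (nat_lit 82) (nat_lit 5) (nat_lit 91) (nat_lit 5) (nat_lit 92) (nat_lit 5) (nat_lit 299) (nat_lit 297) (nat_lit 184)) (XT.lf (nat_lit 76) (nat_lit 35715983328) (nat_lit 0) (nat_lit 21599052083) (nat_lit 760) (nat_lit 22235368172) (nat_lit 83) (nat_lit 5) (nat_lit 82) (nat_lit 5) (nat_lit 92) (nat_lit 5) (nat_lit 300) (nat_lit 297) (nat_lit 183)))))) (XT.nd (nat_lit 390) (nat_lit 988) (nat_lit 0) (XT.nd (nat_lit 156) (nat_lit 988) (nat_lit 0) (XT.nd (nat_lit 78) (nat_lit 0) (nat_lit 76) (XT.lf (nat_lit 76) (nat_lit 13964162499) (nat_lit 0) (nat_lit 50291541783) (nat_lit 760) (nat_lit 18623159000) (nat_lit 84) (nat_lit 5) (nat_lit 83) (nat_lit 5) (nat_lit 93) (nat_lit 5) (nat_lit 301) (nat_lit 297) (nat_lit 182)) (XT.lf (nat_lit 0) (nat_lit 72945409598) (nat_lit 684) (nat_lit 8916424996) (nat_lit 760) (nat_lit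 4552080001) (nat_lit 84) (nat_lit 5) (nat_lit 93) (nat_lit 5) (nat_lit 94) (nat_lit 5) (nat_lit 302) (nat_lit 297) (nat_lit 181))) (XT.nd (nat_lit 78) (nat_lit 1064) (nat_lit 0) (XT.lf (nat_lit 76) (nat_lit 56852212048) (nat_lit 0) (nat_lit 27212297849) (nat_lit 760) (nat_lit 6080552877) (nat_lit 85) (nat_lit 5) (nat_lit 84) (nat_lit 5) (nat_lit 94) (nat_lit 5) (nat_lit 303) (nat_lit 297) (nat_lit 180)) (XT.nd (nat_lit 78) (nat_lit 380) (nat_lit 0) (XT.lf (nat_lit 0) (nat_lit 3051283423) (nat_lit 760) (nat_lit 59521965513) (nat_lit 76) (nat_lit 31539294641) (nat_lit 75) (nat_lit 5) (nat_lit 85) (nat_lit 5) (nat_lit 76) (nat_lit 5) (nat_lit 304) (nat_lit 297) (nat_lit 179)) (XT.lf (nat_lit 0) (nat_lit 10488815101) (nat_lit 380) (nat_lit 3425460607) (nat_lit 456) (nat_lit 84417483987) (nat_lit 70) (nat_lit 5) (nat_lit 75) (nat_lit 5) (nat_lit 76) (nat_lit 5) (nat_lit 305) (nat_lit 297)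 (nat_lit 178))))) (XT.nd (nat_lit 156) (nat_lit 608) (nat_lit 0) (XT.nd (nat_lit 78) (nat_lit 380) (nat_lit 0) (XT.lf (nat_lit 0) (nat_lit 27642813539) (nat_lit 456) (nat_lit 15572712357) (nat_lit 76) (nat_lit 59573164688) (nat_lit 70) (nat_lit 5) (nat_lit 76) (nat_lit 5) (nat_lit 71) (nat_lit 5) (nat_lit 306) (nat_lit 297) (nat_lit 177)) (XT.lf (nat_lit 0) (nat_lit 43860182644) (nat_lit 456) (nat_lit 43391903862) (nat_lit 76) (nat_lit 20280564609) (nat_lit 65) (nat_lit 5) (nat_lit 71) (nat_lit 5) (nat_lit 66) (nat_lit 5) (nat_lit 307) (nat_lit 297) (nat_lit 176))) (XT.nd (nat_lit 78) (nat_lit 304) (nat_lit 0) (XT.lf (nat_lit 0) (nat_lit 38647563108) (nat_lit 304) (nat_lit 24334150291) (nat_lit 380) (nat_lit 49594078876) (nat_lit 61) (nat_lit 5) (nat_lit 65) (nat_lit 5) (nat_lit 66) (nat_lit 5) (nat_lit 308) (nat_lit 297) (nat_lit 175)) (XT.nd (nat_lit 78) (nat_lit 0) (nat_lit 0) (XT.lf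 (nat_lit 0) (nat_lit 10455284075) (nat_lit 304) (nat_lit 74789184422) (nat_lit 380) (nat_lit 32697343348) (nat_lit 57) (nat_lit 5) (nat_lit 61) (nat_lit 5) (nat_lit 62) (nat_lit 5) (nat_lit 309) (nat_lit 297) (nat_lit 174)) (XT.lf (nat_lit 0) (nat_lit 103804514601) (nat_lit 304) (nat_lit 7174295951) (nat_lit 380) (nat_lit 12673776154) (nat_lit 57) (nat_lit 5) (nat_lit 61) (nat_lit 5) (nat_lit 62) (nat_lit 5) (nat_lit 310) (nat_lit 297) (nat_lit 173))))))) (XT.nd (nat_lit 780) (nat_lit 988) (nat_lit 0) (XT.nd (nat_lit 390) (nat_lit 912) (nat_lit 0) (XT.nd (nat_lit 156) (nat_lit 456) (nat_lit 0) (XT.nd (nat_lit 78) (nat_lit 304) (nat_lit 0) (XT.lf (nat_lit 0) (nat_lit 10918638301) (nat_lit 304) (nat_lit 53673866346) (nat_lit 76) (nat_lit 65108059108) (nat_lit 53) (nat_lit 5) (nat_lit 57) (nat_lit 5) (nat_lit 54) (nat_lit 5) (nat_lit 311) (nat_lit 297) (nat_lit 172)) (XT.lf (nat_lit 0) (nat_lit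 37262548865) (nat_lit 380) (nat_lit 91118758732) (nat_lit 76) (nat_lit 7775278186) (nat_lit 49) (nat_lit 5) (nat_lit 54) (nat_lit 5) (nat_lit 50) (nat_lit 5) (nat_lit 312) (nat_lit 297) (nat_lit 171))) (XT.nd (nat_lit 78) (nat_lit 228) (nat_lit 0) (XT.lf (nat_lit 0) (nat_lit 9685329157) (nat_lit 228) (nat_lit 58218524041) (nat_lit 304) (nat_lit 75115743879) (nat_lit 46) (nat_lit 5) (nat_lit 49) (nat_lit 5) (nat_lit 50) (nat_lit 5) (nat_lit 313) (nat_lit 297) (nat_lit 170)) (XT.nd (nat_lit 78) (nat_lit 228) (nat_lit 0) (XT.lf (nat_lit 0) (nat_lit 102883096654) (nat_lit 304) (nat_lit 28845830992) (nat_lit 76) (nat_lit 18608391326) (nat_lit 46) (nat_lit 5) (nat_lit 50) (nat_lit 5) (nat_lit 47) (nat_lit 5) (nat_lit 314) (nat_lit 297) (nat_lit 169)) (XT.lf (nat_lit 0) (nat_lit 85764098629) (nat_lit 228) (nat_lit 57216590148) (nat_lit 304) (nat_lit 15143770711) (nat_lit 43) (nat_lit 5) (nat_lit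 46) (nat_lit 5) (nat_lit 47) (nat_lit 5) (nat_lit 315) (nat_lit 297) (nat_lit 168))))) (XT.nd (nat_lit 156) (nat_lit 684) (nat_lit 0) (XT.nd (nat_lit 78) (nat_lit 0) (nat_lit 0) (XT.lf (nat_lit 0) (nat_lit 20723077718) (nat_lit 228) (nat_lit 121654072142) (nat_lit 76) (nat_lit 24061817101) (nat_lit 40) (nat_lit 5) (nat_lit 43) (nat_lit 5) (nat_lit 41) (nat_lit 5) (nat_lit 316) (nat_lit 297) (nat_lit 167)) (XT.lf (nat_lit 0) (nat_lit 61181091207) (nat_lit 228) (nat_lit 2711539023) (nat_lit 76) (nat_lit 111400973903) (nat_lit 40) (nat_lit 5) (nat_lit 43) (nat_lit 5) (nat_lit 41) (nat_lit 5) (nat_lit 317) (nat_lit 297) (nat_lit 166))) (XT.nd (nat_lit 78) (nat_lit 456) (nat_lit 0) (XT.lf (nat_lit 0) (nat_lit 107262418277) (nat_lit 304) (nat_lit 55211022436) (nat_lit 76) (nat_lit 22263838945) (nat_lit 37) (nat_lit 5) (nat_lit 41) (nat_lit 5) (nat_lit 38) (nat_lit 5) (nat_lit 318) (nat_lit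 297) (nat_lit 165)) (XT.nd (nat_lit 78) (nat_lit 304) (nat_lit 0) (XT.lf (nat_lit 0) (nat_lit 78953918209) (nat_lit 152) (nat_lit 80433830019) (nat_lit 228) (nat_lit 35430827092) (nat_lit 35) (nat_lit 5) (nat_lit 37) (nat_lit 5) (nat_lit 38) (nat_lit 5) (nat_lit 319) (nat_lit 297) (nat_lit 164)) (XT.lf (nat_lit 0) (nat_lit 11108258024) (nat_lit 304) (nat_lit 185130933837) (nat_lit 76) (nat_lit 9386853071) (nat_lit 31) (nat_lit 5) (nat_lit 35) (nat_lit 5) (nat_lit 32) (nat_lit 5) (nat_lit 320) (nat_lit 297) (nat_lit 163)))))) (XT.nd (nat_lit 390) (nat_lit 456) (nat_lit 0) (XT.nd (nat_lit 156) (nat_lit 380) (nat_lit 0) (XT.nd (nat_lit 78) (nat_lit 152) (nat_lit 0) (XT.lf (nat_lit 0) (nat_lit 63552871080) (nat_lit 304) (nat_lit 47283592962) (nat_lit 76) (nat_lit 106261420933) (nat_lit 31) (nat_lit 5) (nat_lit 35) (nat_lit 5) (nat_lit 32) (nat_lit 5) (nat_lit 321) (nat_lit 297) (nat_lit 162))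 (XT.lf (nat_lit 0) (nat_lit 104949874490) (nat_lit 152) (nat_lit 16881271766) (nat_lit 228) (nat_lit 107574422017) (nat_lit 29) (nat_lit 5) (nat_lit 31) (nat_lit 5) (nat_lit 32) (nat_lit 5) (nat_lit 322) (nat_lit 297) (nat_lit 161))) (XT.nd (nat_lit 78) (nat_lit 228) (nat_lit 0) (XT.lf (nat_lit 0) (nat_lit 27953612622) (nat_lit 152) (nat_lit 159411901194) (nat_lit 228) (nat_lit 55202661549) (nat_lit 27) (nat_lit 5) (nat_lit 29) (nat_lit 5) (nat_lit 30) (nat_lit 5) (nat_lit 323) (nat_lit 297) (nat_lit 160)) (XT.nd (nat_lit 78) (nat_lit 152) (nat_lit 0) (XT.lf (nat_lit 0) (nat_lit 3803042310) (nat_lit 228) (nat_lit 60017547046) (nat_lit 76) (nat_lit 192837756784) (nat_lit 26) (nat_lit 5) (nat_lit 29) (nat_lit 5) (nat_lit 27) (nat_lit 5) (nat_lit 324) (nat_lit 297) (nat_lit 159)) (XT.lf (nat_lit 0) (nat_lit 67989270340) (nat_lit 228) (nat_lit 162881288355) (nat_lit 76) (nat_lit 40840219319)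 (nat_lit 24) (nat_lit 5) (nat_lit 27) (nat_lit 5) (nat_lit 25) (nat_lit 5) (nat_lit 325) (nat_lit 297) (nat_lit 158))))) (XT.nd (nat_lit 234) (nat_lit 228) (nat_lit 0) (XT.nd (nat_lit 78) (nat_lit 76) (nat_lit 0) (XT.lf (nat_lit 0) (nat_lit 4461260623) (nat_lit 152) (nat_lit 135057141996) (nat_lit 228) (nat_lit 148338602010) (nat_lit 22) (nat_lit 5) (nat_lit 24) (nat_lit 5) (nat_lit 25) (nat_lit 5) (nat_lit 326) (nat_lit 297) (nat_lit 157)) (XT.nd (nat_lit 78) (nat_lit 76) (nat_lit 0) (XT.lf (nat_lit 0) (nat_lit 191007056324) (nat_lit 152) (nat_lit 28599731038) (nat_lit 228) (nat_lit 85546296374) (nat_lit 22) (nat_lit 5) (nat_lit 24) (nat_lit 5) (nat_lit 25) (nat_lit 5) (nat_lit 327) (nat_lit 297) (nat_lit 156)) (XT.lf (nat_lit 0) (nat_lit 69519618657) (nat_lit 76) (nat_lit 239016223400) (nat_lit 152) (nat_lit 15175327577) (nat_lit 21) (nat_lit 5) (nat_lit 22) (nat_lit 5) (nat_lit 23)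 (nat_lit 4) (nat_lit 328) (nat_lit 297) (nat_lit 155)))) (XT.nd (nat_lit 78) (nat_lit 152) (nat_lit 0) (XT.lf (nat_lit 0) (nat_lit 61381388210) (nat_lit 152) (nat_lit 73164896034) (nat_lit 76) (nat_lit 209034992872) (nat_lit 20) (nat_lit 5) (nat_lit 22) (nat_lit 5) (nat_lit 21) (nat_lit 5) (nat_lit 329) (nat_lit 297) (nat_lit 154)) (XT.nd (nat_lit 78) (nat_lit 0) (nat_lit 0) (XT.lf (nat_lit 0) (nat_lit 126124260381) (nat_lit 152) (nat_lit 19382666612) (nat_lit 228) (nat_lit 219422829989) (nat_lit 18) (nat_lit 5) (nat_lit 20) (nat_lit 5) (nat_lit 21) (nat_lit 5) (nat_lit 330) (nat_lit 297) (nat_lit 153)) (XT.lf (nat_lit 0) (nat_lit 239296844746) (nat_lit 228) (nat_lit 45613791967) (nat_lit 76) (nat_lit 102928762052) (nat_lit 18) (nat_lit 5) (nat_lit 21) (nat_lit 5) (nat_lit 19) (nat_lit 4) (nat_lit 331) (nat_lit 297) (nat_lit 152))))))))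
noncomputable def xc110 : XT := (XT.nd (nat_lit 38766) (nat_lit 0) (nat_lit 912) (XT.nd (nat_lit 37986) (nat_lit 0) (nat_lit 4560) (XT.nd (nat_lit 390) (nat_lit 228) (nat_lit 0) (XT.nd (nat_lit 156) (nat_lit 228) (nat_lit 0) (XT.nd (nat_lit 78) (nat_lit 76) (nat_lit 0) (XT.lf (nat_lit 0) (nat_lit 168085752025) (nat_lit 76) (nat_lit 175455048634) (nat_lit 152) (nat_lit 68893469289) (nat_lit 17) (nat_lit 5) (nat_lit 18) (nat_lit 5) (nat_lit 19) (nat_lit 4) (nat_lit 332) (nat_lit 297) (nat_lit 151)) (XT.lf (nat_lit 0) (nat_lit 17386679000) (nat_lit 152) (nat_lit 38727776354) (nat_lit 76) (nat_lit 382828539030) (nat_lit 16) (nat_lit 5) (nat_lit 18) (nat_lit 5) (nat_lit 17) (nat_lit 5) (nat_lit 333) (nat_lit 297) (nat_lit 150))) (XT.nd (nat_lit 78) (nat_lit 76) (nat_lit 0) (XT.lf (nat_lit 0) (nat_lit 112329376030) (nat_lit 228) (nat_lit 280366586750) (nat_lit 76) (nat_lit 74611292758) (nat_lit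 14) (nat_lit 5) (nat_lit 17) (nat_lit 5) (nat_lit 15) (nat_lit 4) (nat_lit 334) (nat_lit 297) (nat_lit 149)) (XT.nd (nat_lit 78) (nat_lit 76) (nat_lit 0) (XT.lf (nat_lit 0) (nat_lit 216499118478) (nat_lit 228) (nat_lit 66819042365) (nat_lit 76) (nat_lit 214540915481) (nat_lit 14) (nat_lit 5) (nat_lit 17) (nat_lit 5) (nat_lit 15) (nat_lit 4) (nat_lit 335) (nat_lit 297) (nat_lit 148)) (XT.lf (nat_lit 0) (nat_lit 169228288084) (nat_lit 76) (nat_lit 162416062787) (nat_lit 152) (nat_lit 199078596582) (nat_lit 13) (nat_lit 5) (nat_lit 14) (nat_lit 5) (nat_lit 15) (nat_lit 4) (nat_lit 336) (nat_lit 297) (nat_lit 147))))) (XT.nd (nat_lit 156) (nat_lit 152) (nat_lit 0) (XT.nd (nat_lit 78) (nat_lit 76) (nat_lit 0) (XT.lf (nat_lit 0) (nat_lit 426545128359) (nat_lit 76) (nat_lit 30619811245) (nat_lit 152) (nat_lit 108992801973) (nat_lit 13) (nat_lit 5) (nat_lit 14) (nat_lit 5) (nat_lit 15) (nat_lit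 4) (nat_lit 337) (nat_lit 297) (nat_lit 146)) (XT.lf (nat_lit 0) (nat_lit 101524816641) (nat_lit 76) (nat_lit 494531516396) (nat_lit 76) (nat_lit 8204528491) (nat_lit 12) (nat_lit 4) (nat_lit 13) (nat_lit 5) (nat_lit 13) (nat_lit 4) (nat_lit 338) (nat_lit 297) (nat_lit 145))) (XT.nd (nat_lit 78) (nat_lit 76) (nat_lit 0) (XT.lf (nat_lit 0) (nat_lit 100413428563) (nat_lit 152) (nat_lit 280479758705) (nat_lit 76) (nat_lit 264291077624) (nat_lit 11) (nat_lit 5) (nat_lit 13) (nat_lit 5) (nat_lit 12) (nat_lit 4) (nat_lit 339) (nat_lit 297) (nat_lit 144)) (XT.nd (nat_lit 78) (nat_lit 76) (nat_lit 0) (XT.lf (nat_lit 0) (nat_lit 217437044489) (nat_lit 152) (nat_lit 40581623236) (nat_lit 76) (nat_lit 431355964470) (nat_lit 11) (nat_lit 5) (nat_lit 13) (nat_lit 5) (nat_lit 12) (nat_lit 4) (nat_lit 340) (nat_lit 297) (nat_lit 143)) (XT.lf (nat_lit 0) (nat_lit 225732939577) (nat_lit 76) (nat_lit 121613772943)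 (nat_lit 152) (nat_lit 389577308356) (nat_lit 10) (nat_lit 5) (nat_lit 11) (nat_lit 5) (nat_lit 12) (nat_lit 4) (nat_lit 341) (nat_lit 297) (nat_lit 142)))))) (XT.nd (nat_lit 390) (nat_lit 836) (nat_lit 0) (XT.nd (nat_lit 156) (nat_lit 0) (nat_lit 76) (XT.nd (nat_lit 78) (nat_lit 0) (nat_lit 0) (XT.lf (nat_lit 0) (nat_lit 12379882473) (nat_lit 0) (nat_lit 12379882473) (nat_lit 684) (nat_lit 13391999460) (nat_lit 81) (nat_lit 5) (nat_lit 81) (nat_lit 3) (nat_lit 90) (nat_lit 3) (nat_lit 298) (nat_lit 298) (nat_lit 184)) (XT.lf (nat_lit 76) (nat_lit 1735348190) (nat_lit 0) (nat_lit 50276562072) (nat_lit 760) (nat_lit 27318136729) (nat_lit 82) (nat_lit 5) (nat_lit 81) (nat_lit 5) (nat_lit 91) (nat_lit 5) (nat_lit 299) (nat_lit 298) (nat_lit 183))) (XT.nd (nat_lit 78) (nat_lit 0) (nat_lit 0) (XT.lf (nat_lit 0) (nat_lit 56083646551) (nat_lit 684) (nat_lit 21921168748) (nat_lit 760) (nat_lit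 4524877354) (nat_lit 82) (nat_lit 5) (nat_lit 91) (nat_lit 5) (nat_lit 92) (nat_lit 5) (nat_lit 300) (nat_lit 298) (nat_lit 182)) (XT.nd (nat_lit 78) (nat_lit 0) (nat_lit 76) (XT.lf (nat_lit 76) (nat_lit 38592731454) (nat_lit 0) (nat_lit 23337180271) (nat_lit 760) (nat_lit 23982962726) (nat_lit 83) (nat_lit 5) (nat_lit 82) (nat_lit 5) (nat_lit 92) (nat_lit 5) (nat_lit 301) (nat_lit 298) (nat_lit 181)) (XT.lf (nat_lit 76) (nat_lit 15101564792) (nat_lit 0) (nat_lit 54322240227) (nat_lit 760) (nat_lit 20083913120) (nat_lit 84) (nat_lit 5) (nat_lit 83) (nat_lit 5) (nat_lit 93) (nat_lit 5) (nat_lit 302) (nat_lit 298) (nat_lit 180))))) (XT.nd (nat_lit 156) (nat_lit 1064) (nat_lit 0) (XT.nd (nat_lit 78) (nat_lit 0) (nat_lit 0) (XT.lf (nat_lit 0) (nat_lit 78806532410) (nat_lit 684) (nat_lit 9609518029) (nat_lit 760) (nat_lit 4909636168) (nat_lit 84) (nat_lit 5) (nat_lit 93) (nat_lit 5) (nat_lit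 94) (nat_lit 5) (nat_lit 303) (nat_lit 298) (nat_lit 179)) (XT.lf (nat_lit 76) (nat_lit 61419731200) (nat_lit 0) (nat_lit 29393843367) (nat_lit 760) (nat_lit 6541836318) (nat_lit 85) (nat_lit 5) (nat_lit 84) (nat_lit 5) (nat_lit 94) (nat_lit 5) (nat_lit 304) (nat_lit 298) (nat_lit 178))) (XT.nd (nat_lit 78) (nat_lit 380) (nat_lit 0) (XT.lf (nat_lit 0) (nat_lit 3318184204) (nat_lit 760) (nat_lit 64263142509) (nat_lit 76) (nat_lit 34059026021) (nat_lit 75) (nat_lit 5) (nat_lit 85) (nat_lit 5) (nat_lit 76) (nat_lit 5) (nat_lit 305) (nat_lit 298) (nat_lit 177)) (XT.nd (nat_lit 78) (nat_lit 0) (nat_lit 0) (XT.lf (nat_lit 0) (nat_lit 11347606162) (nat_lit 380) (nat_lit 3701228313) (nat_lit 456) (nat_lit 91148344768) (nat_lit 70) (nat_lit 5) (nat_lit 75) (nat_lit 5) (nat_lit 76) (nat_lit 5) (nat_lit 306) (nat_lit 298) (nat_lit 176)) (XT.lf (nat_lit 0) (nat_lit 29874043887) (nat_lit 456) (nat_lit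 16799238508) (nat_lit 76) (nat_lit 64337466512) (nat_lit 70) (nat_lit 5) (nat_lit 76) (nat_lit 5) (nat_lit 71) (nat_lit 5) (nat_lit 307) (nat_lit 298) (nat_lit 175))))))) (XT.nd (nat_lit 780) (nat_lit 1368) (nat_lit 0) (XT.nd (nat_lit 390) (nat_lit 988) (nat_lit 0) (XT.nd (nat_lit 156) (nat_lit 608) (nat_lit 0) (XT.nd (nat_lit 78) (nat_lit 304) (nat_lit 0) (XT.lf (nat_lit 0) (nat_lit 47387620845) (nat_lit 456) (nat_lit 46843826458) (nat_lit 76) (nat_lit 21902841518) (nat_lit 65) (nat_lit 5) (nat_lit 71) (nat_lit 5) (nat_lit 66) (nat_lit 5) (nat_lit 308) (nat_lit 298) (nat_lit 174)) (XT.lf (nat_lit 0) (nat_lit 41757953478) (nat_lit 304) (nat_lit 26279831226) (nat_lit 380) (nat_lit 53543154238) (nat_lit 61) (nat_lit 5) (nat_lit 65) (nat_lit 5) (nat_lit 66) (nat_lit 5) (nat_lit 309) (nat_lit 298) (nat_lit 173))) (XT.nd (nat_lit 78) (nat_lit 304) (nat_lit 0) (XT.lf (nat_lit 0) (nat_lit 11310345606)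 (nat_lit 304) (nat_lit 80770221972) (nat_lit 380) (nat_lit 35295725096) (nat_lit 57) (nat_lit 5) (nat_lit 61) (nat_lit 5) (nat_lit 62) (nat_lit 5) (nat_lit 310) (nat_lit 298) (nat_lit 172)) (XT.nd (nat_lit 78) (nat_lit 304) (nat_lit 0) (XT.lf (nat_lit 0) (nat_lit 112126133921) (nat_lit 304) (nat_lit 7746297772) (nat_lit 380) (nat_lit 13671561839) (nat_lit 57) (nat_lit 5) (nat_lit 61) (nat_lit 5) (nat_lit 62) (nat_lit 5) (nat_lit 311) (nat_lit 298) (nat_lit 171)) (XT.lf (nat_lit 0) (nat_lit 11806876528) (nat_lit 304) (nat_lit 57950013329) (nat_lit 76) (nat_lit 70318951396) (nat_lit 53) (nat_lit 5) (nat_lit 57) (nat_lit 5) (nat_lit 54) (nat_lit 5) (nat_lit 312) (nat_lit 298) (nat_lit 170))))) (XT.nd (nat_lit 156) (nat_lit 456) (nat_lit 0) (XT.nd (nat_lit 78) (nat_lit 228) (nat_lit 0) (XT.lf (nat_lit 0) (nat_lit 40257520759) (nat_lit 380) (nat_lit 98390592966) (nat_lit 76) (nat_lit 8400272517)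 (nat_lit 49) (nat_lit 5) (nat_lit 54) (nat_lit 5) (nat_lit 50) (nat_lit 5) (nat_lit 313) (nat_lit 298) (nat_lit 169)) (XT.lf (nat_lit 0) (nat_lit 10477054191) (nat_lit 228) (nat_lit 62872304419) (nat_lit 304) (nat_lit 81111120447) (nat_lit 46) (nat_lit 5) (nat_lit 49) (nat_lit 5) (nat_lit 50) (nat_lit 5) (nat_lit 314) (nat_lit 298) (nat_lit 168))) (XT.nd (nat_lit 78) (nat_lit 456) (nat_lit 0) (XT.lf (nat_lit 0) (nat_lit 111126017486) (nat_lit 304) (nat_lit 31137269048) (nat_lit 76) (nat_lit 20100380292) (nat_lit 46) (nat_lit 5) (nat_lit 50) (nat_lit 5) (nat_lit 47) (nat_lit 5) (nat_lit 315) (nat_lit 298) (nat_lit 167)) (XT.nd (nat_lit 78) (nat_lit 228) (nat_lit 0) (XT.lf (nat_lit 0) (nat_lit 92640749675) (nat_lit 228) (nat_lit 61790000545) (nat_lit 304) (nat_lit 16343063480) (nat_lit 43) (nat_lit 5) (nat_lit 46) (nat_lit 5) (nat_lit 47) (nat_lit 5) (nat_lit 316) (nat_lit 298) (nat_lit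 166)) (XT.lf (nat_lit 0) (nat_lit 22392168042) (nat_lit 228) (nat_lit 131370640125) (nat_lit 76) (nat_lit 25990694342) (nat_lit 40) (nat_lit 5) (nat_lit 43) (nat_lit 5) (nat_lit 41) (nat_lit 5) (nat_lit 317) (nat_lit 298) (nat_lit 165)))))) (XT.nd (nat_lit 390) (nat_lit 684) (nat_lit 0) (XT.nd (nat_lit 156) (nat_lit 456) (nat_lit 0) (XT.nd (nat_lit 78) (nat_lit 228) (nat_lit 0) (XT.lf (nat_lit 0) (nat_lit 66085989713) (nat_lit 228) (nat_lit 2913871600) (nat_lit 76) (nat_lit 120316692438) (nat_lit 40) (nat_lit 5) (nat_lit 43) (nat_lit 5) (nat_lit 41) (nat_lit 5) (nat_lit 318) (nat_lit 298) (nat_lit 164)) (XT.lf (nat_lit 0) (nat_lit 115853333638) (nat_lit 304) (nat_lit 59613502061) (nat_lit 76) (nat_lit 24048913430) (nat_lit 37) (nat_lit 5) (nat_lit 41) (nat_lit 5) (nat_lit 38) (nat_lit 5) (nat_lit 319) (nat_lit 298) (nat_lit 163))) (XT.nd (nat_lit 78) (nat_lit 304) (nat_lit 0) (XT.lf (nat_lit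 0) (nat_lit 85284007934) (nat_lit 152) (nat_lit 86864162182) (nat_lit 228) (nat_lit 38255405567) (nat_lit 35) (nat_lit 5) (nat_lit 37) (nat_lit 5) (nat_lit 38) (nat_lit 5) (nat_lit 320) (nat_lit 298) (nat_lit 162)) (XT.nd (nat_lit 78) (nat_lit 0) (nat_lit 0) (XT.lf (nat_lit 0) (nat_lit 12006060630) (nat_lit 304) (nat_lit 199927515747) (nat_lit 76) (nat_lit 10142081329) (nat_lit 31) (nat_lit 5) (nat_lit 35) (nat_lit 5) (nat_lit 32) (nat_lit 5) (nat_lit 321) (nat_lit 298) (nat_lit 161)) (XT.lf (nat_lit 0) (nat_lit 68645565548) (nat_lit 304) (nat_lit 51053416699) (nat_lit 76) (nat_lit 114766297582) (nat_lit 31) (nat_lit 5) (nat_lit 35) (nat_lit 5) (nat_lit 32) (nat_lit 5) (nat_lit 322) (nat_lit 298) (nat_lit 160))))) (XT.nd (nat_lit 156) (nat_lit 380) (nat_lit 0) (XT.nd (nat_lit 78) (nat_lit 152) (nat_lit 0) (XT.lf (nat_lit 0) (nat_lit 113358169109) (nat_lit 152) (nat_lit 18227498718) (nat_lit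 228) (nat_lit 116171932649) (nat_lit 29) (nat_lit 5) (nat_lit 31) (nat_lit 5) (nat_lit 32) (nat_lit 5) (nat_lit 323) (nat_lit 298) (nat_lit 159)) (XT.lf (nat_lit 0) (nat_lit 30202003004) (nat_lit 152) (nat_lit 172160437717) (nat_lit 228) (nat_lit 59610793490) (nat_lit 27) (nat_lit 5) (nat_lit 29) (nat_lit 5) (nat_lit 30) (nat_lit 5) (nat_lit 324) (nat_lit 298) (nat_lit 158))) (XT.nd (nat_lit 78) (nat_lit 304) (nat_lit 0) (XT.lf (nat_lit 0) (nat_lit 4114528603) (nat_lit 228) (nat_lit 64807496745) (nat_lit 76) (nat_lit 208268616731) (nat_lit 26) (nat_lit 5) (nat_lit 29) (nat_lit 5) (nat_lit 27) (nat_lit 5) (nat_lit 325) (nat_lit 298) (nat_lit 157)) (XT.nd (nat_lit 78) (nat_lit 152) (nat_lit 0) (XT.lf (nat_lit 0) (nat_lit 73435353104) (nat_lit 228) (nat_lit 175900546053) (nat_lit 76) (nat_lit 44111385146) (nat_lit 24) (nat_lit 5) (nat_lit 27) (nat_lit 5) (nat_lit 25) (nat_lit 5) (nat_lit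 326) (nat_lit 298) (nat_lit 156)) (XT.lf (nat_lit 0) (nat_lit 4828918132) (nat_lit 152) (nat_lit 145857551616) (nat_lit 228) (nat_lit 160198757269) (nat_lit 22) (nat_lit 5) (nat_lit 24) (nat_lit 5) (nat_lit 25) (nat_lit 5) (nat_lit 327) (nat_lit 298) (nat_lit 155))))))))
noncomputable def xc111 : XT := (XT.nd (nat_lit 38844) (nat_lit 0) (nat_lit 1216) (XT.nd (nat_lit 780) (nat_lit 152) (nat_lit 0) (XT.nd (nat_lit 390) (nat_lit 380) (nat_lit 0) (XT.nd (nat_lit 156) (nat_lit 228) (nat_lit 0) (XT.nd (nat_lit 78) (nat_lit 76) (nat_lit 0) (XT.lf (nat_lit 0) (nat_lit 206297580700) (nat_lit 152) (nat_lit 30883856058) (nat_lit 228) (nat_lit 92383580730) (nat_lit 22) (nat_lit 5) (nat_lit 24) (nat_lit 5) (nat_lit 25) (nat_lit 5) (nat_lit 328) (nat_lit 298) (nat_lit 154)) (XT.lf (nat_lit 0) (nat_lit 75090956974) (nat_lit 76) (nat_lit 258133614755) (nat_lit 152) (nat_lit 16383191300) (nat_lit 21)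 (nat_lit 5) (nat_lit 22) (nat_lit 5) (nat_lit 23) (nat_lit 4) (nat_lit 329) (nat_lit 298) (nat_lit 153))) (XT.nd (nat_lit 78) (nat_lit 152) (nat_lit 0) (XT.lf (nat_lit 0) (nat_lit 66297422641) (nat_lit 152) (nat_lit 79008853656) (nat_lit 76) (nat_lit 225761220593) (nat_lit 20) (nat_lit 5) (nat_lit 22) (nat_lit 5) (nat_lit 21) (nat_lit 5) (nat_lit 330) (nat_lit 298) (nat_lit 152)) (XT.nd (nat_lit 78) (nat_lit 0) (nat_lit 0) (XT.lf (nat_lit 0) (nat_lit 136223033972) (nat_lit 152) (nat_lit 20929699321) (nat_lit 228) (nat_lit 236971135876) (nat_lit 18) (nat_lit 5) (nat_lit 20) (nat_lit 5) (nat_lit 21) (nat_lit 5) (nat_lit 331) (nat_lit 298) (nat_lit 151)) (XT.lf (nat_lit 0) (nat_lit 258445507181) (nat_lit 228) (nat_lit 49254520112) (nat_lit 76) (nat_lit 111166272292) (nat_lit 18) (nat_lit 5) (nat_lit 21) (nat_lit 5) (nat_lit 19) (nat_lit 4) (nat_lit 332) (nat_lit 298) (nat_lit 150))))) (XT.nd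 (nat_lit 156) (nat_lit 228) (nat_lit 0) (XT.nd (nat_lit 78) (nat_lit 76) (nat_lit 0) (XT.lf (nat_lit 0) (nat_lit 181540623422) (nat_lit 76) (nat_lit 189488117158) (nat_lit 152) (nat_lit 74400032226) (nat_lit 17) (nat_lit 5) (nat_lit 18) (nat_lit 5) (nat_lit 19) (nat_lit 4) (nat_lit 333) (nat_lit 298) (nat_lit 149)) (XT.lf (nat_lit 0) (nat_lit 18782018235) (nat_lit 152) (nat_lit 41818430646) (nat_lit 76) (nat_lit 413457760449) (nat_lit 16) (nat_lit 5) (nat_lit 18) (nat_lit 5) (nat_lit 17) (nat_lit 5) (nat_lit 334) (nat_lit 298) (nat_lit 148))) (XT.nd (nat_lit 78) (nat_lit 76) (nat_lit 0) (XT.lf (nat_lit 0) (nat_lit 121319965334) (nat_lit 228) (nat_lit 302788508721) (nat_lit 76) (nat_lit 80583145929) (nat_lit 14) (nat_lit 5) (nat_lit 17) (nat_lit 5) (nat_lit 15) (nat_lit 4) (nat_lit 335) (nat_lit 298) (nat_lit 147)) (XT.nd (nat_lit 78) (nat_lit 76) (nat_lit 0) (XT.lf (nat_lit 0) (nat_lit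 233822973161) (nat_lit 228) (nat_lit 72157709302) (nat_lit 76) (nat_lit 231706919971) (nat_lit 14) (nat_lit 5) (nat_lit 17) (nat_lit 5) (nat_lit 15) (nat_lit 4) (nat_lit 336) (nat_lit 298) (nat_lit 146)) (XT.lf (nat_lit 0) (nat_lit 182773109611) (nat_lit 76) (nat_lit 175406526176) (nat_lit 152) (nat_lit 215000957161) (nat_lit 13) (nat_lit 5) (nat_lit 14) (nat_lit 5) (nat_lit 15) (nat_lit 4) (nat_lit 337) (nat_lit 298) (nat_lit 145)))))) (XT.nd (nat_lit 37674) (nat_lit 0) (nat_lit 5320) (XT.nd (nat_lit 156) (nat_lit 76) (nat_lit 0) (XT.nd (nat_lit 78) (nat_lit 76) (nat_lit 0) (XT.lf (nat_lit 0) (nat_lit 460674811294) (nat_lit 76) (nat_lit 33066783520) (nat_lit 152) (nat_lit 117708589883) (nat_lit 13) (nat_lit 5) (nat_lit 14) (nat_lit 5) (nat_lit 15) (nat_lit 4) (nat_lit 338) (nat_lit 298) (nat_lit 144)) (XT.lf (nat_lit 0) (nat_lit 109652740259) (nat_lit 76) (nat_lit 534091433646) (nat_lit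 76) (nat_lit 8857386868) (nat_lit 12) (nat_lit 4) (nat_lit 13) (nat_lit 5) (nat_lit 13) (nat_lit 4) (nat_lit 339) (nat_lit 298) (nat_lit 143))) (XT.nd (nat_lit 78) (nat_lit 0) (nat_lit 0) (XT.lf (nat_lit 0) (nat_lit 108449643362) (nat_lit 152) (nat_lit 302912534533) (nat_lit 76) (nat_lit 285436668547) (nat_lit 11) (nat_lit 5) (nat_lit 13) (nat_lit 5) (nat_lit 12) (nat_lit 4) (nat_lit 340) (nat_lit 298) (nat_lit 142)) (XT.nd (nat_lit 37362) (nat_lit 0) (nat_lit 5320) (XT.lf (nat_lit 0) (nat_lit 234834915932) (nat_lit 152) (nat_lit 43822963402) (nat_lit 76) (nat_lit 465866575621) (nat_lit 11) (nat_lit 5) (nat_lit 13) (nat_lit 5) (nat_lit 12) (nat_lit 4) (nat_lit 341) (nat_lit 298) (nat_lit 141)) (XT.lf (nat_lit 0) (nat_lit 13378245569) (nat_lit 0) (nat_lit 13378245569) (nat_lit 684) (nat_lit 14446575189) (nat_lit 81) (nat_lit 5) (nat_lit 81) (nat_lit 3) (nat_lit 90) (nat_lit 3) (nat_lit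 299) (nat_lit 299) (nat_lit 182))))) (XT.nd (nat_lit 156) (nat_lit 0) (nat_lit 76) (XT.nd (nat_lit 78) (nat_lit 0) (nat_lit 76) (XT.lf (nat_lit 76) (nat_lit 1891271739) (nat_lit 0) (nat_lit 54311155521) (nat_lit 760) (nat_lit 29472467537) (nat_lit 82) (nat_lit 5) (nat_lit 81) (nat_lit 5) (nat_lit 91) (nat_lit 5) (nat_lit 300) (nat_lit 299) (nat_lit 181)) (XT.lf (nat_lit 0) (nat_lit 60597532264) (nat_lit 684) (nat_lit 23657411956) (nat_lit 760) (nat_lit 4875692159) (nat_lit 82) (nat_lit 5) (nat_lit 91) (nat_lit 5) (nat_lit 92) (nat_lit 5) (nat_lit 301) (nat_lit 299) (nat_lit 180))) (XT.nd (nat_lit 78) (nat_lit 0) (nat_lit 76) (XT.lf (nat_lit 76) (nat_lit 41696841894) (nat_lit 0) (nat_lit 25212902997) (nat_lit 760) (nat_lit 25874820851) (nat_lit 83) (nat_lit 5) (nat_lit 82) (nat_lit 5) (nat_lit 92) (nat_lit 5) (nat_lit 302) (nat_lit 299) (nat_lit 179)) (XT.nd (nat_lit 78) (nat_lit 0) (nat_lit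 76) (XT.lf (nat_lit 76) (nat_lit 16327067626) (nat_lit 0) (nat_lit 58674342406) (nat_lit 760) (nat_lit 21665678811) (nat_lit 84) (nat_lit 5) (nat_lit 83) (nat_lit 5) (nat_lit 93) (nat_lit 5) (nat_lit 303) (nat_lit 299) (nat_lit 178)) (XT.lf (nat_lit 0) (nat_lit 85132908607) (nat_lit 684) (nat_lit 10360943251) (nat_lit 760) (nat_lit 5296739852) (nat_lit 84) (nat_lit 5) (nat_lit 93) (nat_lit 5) (nat_lit 94) (nat_lit 5) (nat_lit 304) (nat_lit 299) (nat_lit 177))))))) (XT.nd (nat_lit 780) (nat_lit 1672) (nat_lit 0) (XT.nd (nat_lit 390) (nat_lit 1216) (nat_lit 0) (XT.nd (nat_lit 156) (nat_lit 760) (nat_lit 0) (XT.nd (nat_lit 78) (nat_lit 684) (nat_lit 0) (XT.lf (nat_lit 76) (nat_lit 66349892505) (nat_lit 0) (nat_lit 31749261751) (nat_lit 760) (nat_lit 7043611903) (nat_lit 85) (nat_lit 5) (nat_lit 84) (nat_lit 5) (nat_lit 94) (nat_lit 5) (nat_lit 305) (nat_lit 299) (nat_lit 176)) (XT.lf (nat_lit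 0) (nat_lit 3603184643) (nat_lit 760) (nat_lit 69386549667) (nat_lit 76) (nat_lit 36780822698) (nat_lit 75) (nat_lit 5) (nat_lit 85) (nat_lit 5) (nat_lit 76) (nat_lit 5) (nat_lit 306) (nat_lit 299) (nat_lit 175))) (XT.nd (nat_lit 78) (nat_lit 380) (nat_lit 0) (XT.lf (nat_lit 0) (nat_lit 12272292101) (nat_lit 380) (nat_lit 3998810510) (nat_lit 456) (nat_lit 98420889700) (nat_lit 70) (nat_lit 5) (nat_lit 75) (nat_lit 5) (nat_lit 76) (nat_lit 5) (nat_lit 307) (nat_lit 299) (nat_lit 174)) (XT.nd (nat_lit 78) (nat_lit 380) (nat_lit 0) (XT.lf (nat_lit 0) (nat_lit 32280947221) (nat_lit 456) (nat_lit 18126638806) (nat_lit 76) (nat_lit 69483133800) (nat_lit 70) (nat_lit 5) (nat_lit 76) (nat_lit 5) (nat_lit 71) (nat_lit 5) (nat_lit 308) (nat_lit 299) (nat_lit 173)) (XT.lf (nat_lit 0) (nat_lit 51194597239) (nat_lit 456) (nat_lit 50574674728) (nat_lit 76) (nat_lit 23654924585) (nat_lit 65) (nat_lit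 5) (nat_lit 71) (nat_lit 5) (nat_lit 66) (nat_lit 5) (nat_lit 309) (nat_lit 299) (nat_lit 172))))) (XT.nd (nat_lit 156) (nat_lit 608) (nat_lit 0) (XT.nd (nat_lit 78) (nat_lit 304) (nat_lit 0) (XT.lf (nat_lit 0) (nat_lit 45114523674) (nat_lit 304) (nat_lit 28381316585) (nat_lit 380) (nat_lit 57810787862) (nat_lit 61) (nat_lit 5) (nat_lit 65) (nat_lit 5) (nat_lit 66) (nat_lit 5) (nat_lit 310) (nat_lit 299) (nat_lit 171)) (XT.lf (nat_lit 0) (nat_lit 12231153025) (nat_lit 304) (nat_lit 87230041715) (nat_lit 380) (nat_lit 38104460504) (nat_lit 57) (nat_lit 5) (nat_lit 61) (nat_lit 5) (nat_lit 62) (nat_lit 5) (nat_lit 311) (nat_lit 299) (nat_lit 170))) (XT.nd (nat_lit 78) (nat_lit 608) (nat_lit 0) (XT.lf (nat_lit 0) (nat_lit 121111020719) (nat_lit 304) (nat_lit 8364336765) (nat_lit 380) (nat_lit 14751469565) (nat_lit 57) (nat_lit 5) (nat_lit 61) (nat_lit 5) (nat_lit 62) (nat_lit 5) (nat_lit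 312) (nat_lit 299) (nat_lit 169)) (XT.nd (nat_lit 78) (nat_lit 304) (nat_lit 0) (XT.lf (nat_lit 0) (nat_lit 12764069966) (nat_lit 304) (nat_lit 62570786065) (nat_lit 76) (nat_lit 75946394427) (nat_lit 53) (nat_lit 5) (nat_lit 57) (nat_lit 5) (nat_lit 54) (nat_lit 5) (nat_lit 313) (nat_lit 299) (nat_lit 168)) (XT.lf (nat_lit 0) (nat_lit 43490097716) (nat_lit 380) (nat_lit 106246694258) (nat_lit 76) (nat_lit 9074842395) (nat_lit 49) (nat_lit 5) (nat_lit 54) (nat_lit 5) (nat_lit 50) (nat_lit 5) (nat_lit 314) (nat_lit 299) (nat_lit 167)))))) (XT.nd (nat_lit 390) (nat_lit 988) (nat_lit 0) (XT.nd (nat_lit 156) (nat_lit 456) (nat_lit 0) (XT.nd (nat_lit 78) (nat_lit 0) (nat_lit 0) (XT.lf (nat_lit 0) (nat_lit 11329706439) (nat_lit 228) (nat_lit 67898915294) (nat_lit 304) (nat_lit 87588107697) (nat_lit 46) (nat_lit 5) (nat_lit 49) (nat_lit 5) (nat_lit 50) (nat_lit 5) (nat_lit 315) (nat_lit 299)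 (nat_lit 166)) (XT.lf (nat_lit 0) (nat_lit 120026621090) (nat_lit 304) (nat_lit 33614337315) (nat_lit 76) (nat_lit 21711255074) (nat_lit 46) (nat_lit 5) (nat_lit 50) (nat_lit 5) (nat_lit 47) (nat_lit 5) (nat_lit 316) (nat_lit 299) (nat_lit 165))) (XT.nd (nat_lit 78) (nat_lit 228) (nat_lit 0) (XT.lf (nat_lit 0) (nat_lit 100065318252) (nat_lit 228) (nat_lit 66729842552) (nat_lit 304) (nat_lit 17640041405) (nat_lit 43) (nat_lit 5) (nat_lit 46) (nat_lit 5) (nat_lit 47) (nat_lit 5) (nat_lit 317) (nat_lit 299) (nat_lit 164)) (XT.nd (nat_lit 78) (nat_lit 0) (nat_lit 0) (XT.lf (nat_lit 0) (nat_lit 24193181495) (nat_lit 228) (nat_lit 141866781571) (nat_lit 76) (nat_lit 28073320837) (nat_lit 40) (nat_lit 5) (nat_lit 43) (nat_lit 5) (nat_lit 41) (nat_lit 5) (nat_lit 318) (nat_lit 299) (nat_lit 163)) (XT.lf (nat_lit 0) (nat_lit 71381794825) (nat_lit 228) (nat_lit 3134472288) (nat_lit 76) (nat_lit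 129945149081) (nat_lit 40) (nat_lit 5) (nat_lit 43) (nat_lit 5) (nat_lit 41) (nat_lit 5) (nat_lit 319) (nat_lit 299) (nat_lit 162))))) (XT.nd (nat_lit 234) (nat_lit 304) (nat_lit 0) (XT.nd (nat_lit 78) (nat_lit 456) (nat_lit 0) (XT.lf (nat_lit 0) (nat_lit 125130106758) (nat_lit 304) (nat_lit 64370234687) (nat_lit 76) (nat_lit 25976227885) (nat_lit 37) (nat_lit 5) (nat_lit 41) (nat_lit 5) (nat_lit 38) (nat_lit 5) (nat_lit 320) (nat_lit 299) (nat_lit 161)) (XT.nd (nat_lit 78) (nat_lit 304) (nat_lit 0) (XT.lf (nat_lit 0) (nat_lit 92118539499) (nat_lit 152) (nat_lit 93809544951) (nat_lit 228) (nat_lit 41307360910) (nat_lit 35) (nat_lit 5) (nat_lit 37) (nat_lit 5) (nat_lit 38) (nat_lit 5) (nat_lit 321) (nat_lit 299) (nat_lit 160)) (XT.lf (nat_lit 0) (nat_lit 12974383241) (nat_lit 304) (nat_lit 215909806173) (nat_lit 76) (nat_lit 10957117256) (nat_lit 31) (nat_lit 5) (nat_lit 35) (nat_lit 5)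 (nat_lit 32) (nat_lit 5) (nat_lit 322) (nat_lit 299) (nat_lit 159)))) (XT.nd (nat_lit 78) (nat_lit 304) (nat_lit 0) (XT.lf (nat_lit 0) (nat_lit 74144467977) (nat_lit 304) (nat_lit 55126661485) (nat_lit 76) (nat_lit 123950999000) (nat_lit 31) (nat_lit 5) (nat_lit 35) (nat_lit 5) (nat_lit 32) (nat_lit 5) (nat_lit 323) (nat_lit 299) (nat_lit 158)) (XT.nd (nat_lit 78) (nat_lit 152) (nat_lit 0) (XT.lf (nat_lit 0) (nat_lit 122437371900) (nat_lit 152) (nat_lit 19682033672) (nat_lit 228) (nat_lit 125458448639) (nat_lit 29) (nat_lit 5) (nat_lit 31) (nat_lit 5) (nat_lit 32) (nat_lit 5) (nat_lit 324) (nat_lit 299) (nat_lit 157)) (XT.lf (nat_lit 0) (nat_lit 32628538221) (nat_lit 152) (nat_lit 185929487092) (nat_lit 228) (nat_lit 64372728829) (nat_lit 27) (nat_lit 5) (nat_lit 29) (nat_lit 5) (nat_lit 30) (nat_lit 5) (nat_lit 325) (nat_lit 299) (nat_lit 156))))))))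
noncomputable def xc112 : XT := (XT.nd (nat_lit 39000) (nat_lit 0) (nat_lit 1444) (XT.nd (nat_lit 780) (nat_lit 304) (nat_lit 0) (XT.nd (nat_lit 390) (nat_lit 380) (nat_lit 0) (XT.nd (nat_lit 156) (nat_lit 228) (nat_lit 0) (XT.nd (nat_lit 78) (nat_lit 152) (nat_lit 0) (XT.lf (nat_lit 0) (nat_lit 4449900517) (nat_lit 228) (nat_lit 69982276471) (nat_lit 76) (nat_lit 224933397739) (nat_lit 26) (nat_lit 5) (nat_lit 29) (nat_lit 5) (nat_lit 27) (nat_lit 5) (nat_lit 326) (nat_lit 299) (nat_lit 155)) (XT.lf (nat_lit 0) (nat_lit 79316132258) (nat_lit 228) (nat_lit 189962948645) (nat_lit 76) (nat_lit 47643680972) (nat_lit 24) (nat_lit 5) (nat_lit 27) (nat_lit 5) (nat_lit 25) (nat_lit 5) (nat_lit 327) (nat_lit 299) (nat_lit 154))) (XT.nd (nat_lit 78) (nat_lit 76) (nat_lit 0) (XT.lf (nat_lit 0) (nat_lit 5224453685) (nat_lit 152) (nat_lit 157522587725) (nat_lit 228) (nat_lit 173008714004) (nat_lit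 22) (nat_lit 5) (nat_lit 24) (nat_lit 5) (nat_lit 25) (nat_lit 5) (nat_lit 328) (nat_lit 299) (nat_lit 153)) (XT.nd (nat_lit 78) (nat_lit 76) (nat_lit 0) (XT.lf (nat_lit 0) (nat_lit 222809926139) (nat_lit 152) (nat_lit 33351260820) (nat_lit 228) (nat_lit 99768763627) (nat_lit 22) (nat_lit 5) (nat_lit 24) (nat_lit 5) (nat_lit 25) (nat_lit 5) (nat_lit 329) (nat_lit 299) (nat_lit 152)) (XT.lf (nat_lit 0) (nat_lit 81106608723) (nat_lit 76) (nat_lit 278780954727) (nat_lit 152) (nat_lit 17688563269) (nat_lit 21) (nat_lit 5) (nat_lit 22) (nat_lit 5) (nat_lit 23) (nat_lit 4) (nat_lit 330) (nat_lit 299) (nat_lit 151))))) (XT.nd (nat_lit 156) (nat_lit 152) (nat_lit 0) (XT.nd (nat_lit 78) (nat_lit 152) (nat_lit 0) (XT.lf (nat_lit 0) (nat_lit 71605951856) (nat_lit 152) (nat_lit 85321645229) (nat_lit 76) (nat_lit 243825057447) (nat_lit 20) (nat_lit 5) (nat_lit 22) (nat_lit 5) (nat_lit 21) (nat_lit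 5) (nat_lit 331) (nat_lit 299) (nat_lit 150)) (XT.lf (nat_lit 0) (nat_lit 147128449358) (nat_lit 152) (nat_lit 22601005463) (nat_lit 228) (nat_lit 255924093796) (nat_lit 18) (nat_lit 5) (nat_lit 20) (nat_lit 5) (nat_lit 21) (nat_lit 5) (nat_lit 332) (nat_lit 299) (nat_lit 149))) (XT.nd (nat_lit 78) (nat_lit 152) (nat_lit 0) (XT.lf (nat_lit 0) (nat_lit 279125361451) (nat_lit 228) (nat_lit 53187701326) (nat_lit 76) (nat_lit 120062325512) (nat_lit 18) (nat_lit 5) (nat_lit 21) (nat_lit 5) (nat_lit 19) (nat_lit 4) (nat_lit 333) (nat_lit 299) (nat_lit 148)) (XT.nd (nat_lit 78) (nat_lit 76) (nat_lit 0) (XT.lf (nat_lit 0) (nat_lit 196070741639) (nat_lit 76) (nat_lit 204644306993) (nat_lit 152) (nat_lit 80347821322) (nat_lit 17) (nat_lit 5) (nat_lit 18) (nat_lit 5) (nat_lit 19) (nat_lit 4) (nat_lit 334) (nat_lit 299) (nat_lit 147)) (XT.lf (nat_lit 0) (nat_lit 20288356198) (nat_lit 152) (nat_lit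 45157416915) (nat_lit 76) (nat_lit 446536900401) (nat_lit 16) (nat_lit 5) (nat_lit 18) (nat_lit 5) (nat_lit 17) (nat_lit 5) (nat_lit 335) (nat_lit 299) (nat_lit 146)))))) (XT.nd (nat_lit 37830) (nat_lit 0) (nat_lit 5244) (XT.nd (nat_lit 156) (nat_lit 152) (nat_lit 0) (XT.nd (nat_lit 78) (nat_lit 0) (nat_lit 0) (XT.lf (nat_lit 0) (nat_lit 131029197010) (nat_lit 228) (nat_lit 327005240851) (nat_lit 76) (nat_lit 87032326540) (nat_lit 14) (nat_lit 5) (nat_lit 17) (nat_lit 5) (nat_lit 15) (nat_lit 4) (nat_lit 336) (nat_lit 299) (nat_lit 145)) (XT.lf (nat_lit 0) (nat_lit 252532176245) (nat_lit 228) (nat_lit 77924447742) (nat_lit 76) (nat_lit 250245815176) (nat_lit 14) (nat_lit 5) (nat_lit 17) (nat_lit 5) (nat_lit 15) (nat_lit 4) (nat_lit 337) (nat_lit 299) (nat_lit 144))) (XT.nd (nat_lit 78) (nat_lit 76) (nat_lit 0) (XT.lf (nat_lit 0) (nat_lit 197400581219) (nat_lit 76) (nat_lit 189436629173)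 (nat_lit 152) (nat_lit 232197666838) (nat_lit 13) (nat_lit 5) (nat_lit 14) (nat_lit 5) (nat_lit 15) (nat_lit 4) (nat_lit 338) (nat_lit 299) (nat_lit 143)) (XT.nd (nat_lit 78) (nat_lit 76) (nat_lit 0) (XT.lf (nat_lit 0) (nat_lit 497534002531) (nat_lit 76) (nat_lit 35709886297) (nat_lit 152) (nat_lit 127122159578) (nat_lit 13) (nat_lit 5) (nat_lit 14) (nat_lit 5) (nat_lit 15) (nat_lit 4) (nat_lit 339) (nat_lit 299) (nat_lit 142)) (XT.lf (nat_lit 0) (nat_lit 118430050603) (nat_lit 76) (nat_lit 576816515774) (nat_lit 76) (nat_lit 9562973786) (nat_lit 12) (nat_lit 4) (nat_lit 13) (nat_lit 5) (nat_lit 13) (nat_lit 4) (nat_lit 340) (nat_lit 299) (nat_lit 141))))) (XT.nd (nat_lit 156) (nat_lit 0) (nat_lit 76) (XT.nd (nat_lit 78) (nat_lit 0) (nat_lit 0) (XT.lf (nat_lit 0) (nat_lit 14455340347) (nat_lit 0) (nat_lit 14455340347) (nat_lit 684) (nat_lit 15587911434) (nat_lit 81) (nat_lit 5) (nat_lit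 81) (nat_lit 3) (nat_lit 90) (nat_lit 3) (nat_lit 300) (nat_lit 300) (nat_lit 180)) (XT.lf (nat_lit 76) (nat_lit 2057230280) (nat_lit 0) (nat_lit 58666737677) (nat_lit 760) (nat_lit 31803584444) (nat_lit 82) (nat_lit 5) (nat_lit 81) (nat_lit 5) (nat_lit 91) (nat_lit 5) (nat_lit 301) (nat_lit 300) (nat_lit 179))) (XT.nd (nat_lit 78) (nat_lit 0) (nat_lit 0) (XT.lf (nat_lit 0) (nat_lit 65468649308) (nat_lit 684) (nat_lit 25535044099) (nat_lit 760) (nat_lit 5256166442) (nat_lit 82) (nat_lit 5) (nat_lit 91) (nat_lit 5) (nat_lit 92) (nat_lit 5) (nat_lit 302) (nat_lit 300) (nat_lit 178)) (XT.nd (nat_lit 78) (nat_lit 0) (nat_lit 76) (XT.lf (nat_lit 76) (nat_lit 45046899880) (nat_lit 0) (nat_lit 27237435497) (nat_lit 760) (nat_lit 27921847935) (nat_lit 83) (nat_lit 5) (nat_lit 82) (nat_lit 5) (nat_lit 92) (nat_lit 5) (nat_lit 303) (nat_lit 300) (nat_lit 177)) (XT.lf (nat_lit 76) (nat_lit 17648131571)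 (nat_lit 0) (nat_lit 63373710718) (nat_lit 760) (nat_lit 23377544777) (nat_lit 84) (nat_lit 5) (nat_lit 83) (nat_lit 5) (nat_lit 93) (nat_lit 5) (nat_lit 304) (nat_lit 300) (nat_lit 176))))))) (XT.nd (nat_lit 780) (nat_lit 1672) (nat_lit 0) (XT.nd (nat_lit 390) (nat_lit 1292) (nat_lit 0) (XT.nd (nat_lit 156) (nat_lit 1064) (nat_lit 0) (XT.nd (nat_lit 78) (nat_lit 0) (nat_lit 0) (XT.lf (nat_lit 0) (nat_lit 91962277239) (nat_lit 684) (nat_lit 11174955697) (nat_lit 760) (nat_lit 5715620321) (nat_lit 84) (nat_lit 5) (nat_lit 93) (nat_lit 5) (nat_lit 94) (nat_lit 5) (nat_lit 305) (nat_lit 300) (nat_lit 175)) (XT.lf (nat_lit 76) (nat_lit 71672100991) (nat_lit 0) (nat_lit 34292555669) (nat_lit 760) (nat_lit 7588606924) (nat_lit 85) (nat_lit 5) (nat_lit 84) (nat_lit 5) (nat_lit 94) (nat_lit 5) (nat_lit 306) (nat_lit 300) (nat_lit 174))) (XT.nd (nat_lit 78) (nat_lit 380) (nat_lit 0) (XT.lf (nat_lit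 0) (nat_lit 3908196704) (nat_lit 760) (nat_lit 74922346546) (nat_lit 76) (nat_lit 39720780451) (nat_lit 75) (nat_lit 5) (nat_lit 85) (nat_lit 5) (nat_lit 76) (nat_lit 5) (nat_lit 307) (nat_lit 300) (nat_lit 173)) (XT.nd (nat_lit 78) (nat_lit 0) (nat_lit 0) (XT.lf (nat_lit 0) (nat_lit 13268545158) (nat_lit 380) (nat_lit 4319987582) (nat_lit 456) (nat_lit 106277994819) (nat_lit 70) (nat_lit 5) (nat_lit 75) (nat_lit 5) (nat_lit 76) (nat_lit 5) (nat_lit 308) (nat_lit 300) (nat_lit 172)) (XT.lf (nat_lit 0) (nat_lit 34877980460) (nat_lit 456) (nat_lit 19562590569) (nat_lit 76) (nat_lit 75040644214) (nat_lit 70) (nat_lit 5) (nat_lit 76) (nat_lit 5) (nat_lit 71) (nat_lit 5) (nat_lit 309) (nat_lit 300) (nat_lit 171))))) (XT.nd (nat_lit 156) (nat_lit 608) (nat_lit 0) (XT.nd (nat_lit 78) (nat_lit 304) (nat_lit 0) (XT.lf (nat_lit 0) (nat_lit 55303853912) (nat_lit 456) (nat_lit 54606367287) (nat_lit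 76) (nat_lit 25547194876) (nat_lit 65) (nat_lit 5) (nat_lit 71) (nat_lit 5) (nat_lit 66) (nat_lit 5) (nat_lit 310) (nat_lit 300) (nat_lit 170)) (XT.lf (nat_lit 0) (nat_lit 48737346334) (nat_lit 304) (nat_lit 30651049331) (nat_lit 380) (nat_lit 62422088894) (nat_lit 61) (nat_lit 5) (nat_lit 65) (nat_lit 5) (nat_lit 66) (nat_lit 5) (nat_lit 311) (nat_lit 300) (nat_lit 169))) (XT.nd (nat_lit 78) (nat_lit 304) (nat_lit 0) (XT.lf (nat_lit 0) (nat_lit 13223345344) (nat_lit 304) (nat_lit 94206903545) (nat_lit 380) (nat_lit 41140023621) (nat_lit 57) (nat_lit 5) (nat_lit 61) (nat_lit 5) (nat_lit 62) (nat_lit 5) (nat_lit 312) (nat_lit 300) (nat_lit 168)) (XT.nd (nat_lit 78) (nat_lit 304) (nat_lit 0) (XT.lf (nat_lit 0) (nat_lit 130812587633) (nat_lit 304) (nat_lit 9032056384) (nat_lit 380) (nat_lit 15919741089) (nat_lit 57) (nat_lit 5) (nat_lit 61) (nat_lit 5) (nat_lit 62) (nat_lit 5) (nat_lit 313)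 (nat_lit 300) (nat_lit 167)) (XT.lf (nat_lit 0) (nat_lit 13796035169) (nat_lit 304) (nat_lit 67563393112) (nat_lit 76) (nat_lit 82023758004) (nat_lit 53) (nat_lit 5) (nat_lit 57) (nat_lit 5) (nat_lit 54) (nat_lit 5) (nat_lit 314) (nat_lit 300) (nat_lit 166)))))) (XT.nd (nat_lit 390) (nat_lit 684) (nat_lit 0) (XT.nd (nat_lit 156) (nat_lit 456) (nat_lit 0) (XT.nd (nat_lit 78) (nat_lit 228) (nat_lit 0) (XT.lf (nat_lit 0) (nat_lit 46979572420) (nat_lit 380) (nat_lit 114733444419) (nat_lit 76) (nat_lit 9803014352) (nat_lit 49) (nat_lit 5) (nat_lit 54) (nat_lit 5) (nat_lit 50) (nat_lit 5) (nat_lit 315) (nat_lit 300) (nat_lit 165)) (XT.lf (nat_lit 0) (nat_lit 12248504004) (nat_lit 228) (nat_lit 73328107771) (nat_lit 304) (nat_lit 94584951935) (nat_lit 46) (nat_lit 5) (nat_lit 49) (nat_lit 5) (nat_lit 50) (nat_lit 5) (nat_lit 316) (nat_lit 300) (nat_lit 164))) (XT.nd (nat_lit 78) (nat_lit 456)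 (nat_lit 0) (XT.lf (nat_lit 0) (nat_lit 129637771872) (nat_lit 304) (nat_lit 36291555925) (nat_lit 76) (nat_lit 23450594059) (nat_lit 46) (nat_lit 5) (nat_lit 50) (nat_lit 5) (nat_lit 47) (nat_lit 5) (nat_lit 317) (nat_lit 300) (nat_lit 163)) (XT.nd (nat_lit 78) (nat_lit 228) (nat_lit 0) (XT.lf (nat_lit 0) (nat_lit 108081953695) (nat_lit 228) (nat_lit 72065350981) (nat_lit 304) (nat_lit 19042270820) (nat_lit 43) (nat_lit 5) (nat_lit 46) (nat_lit 5) (nat_lit 47) (nat_lit 5) (nat_lit 318) (nat_lit 300) (nat_lit 162)) (XT.lf (nat_lit 0) (nat_lit 26136900769) (nat_lit 228) (nat_lit 153204541652) (nat_lit 76) (nat_lit 30322076548) (nat_lit 40) (nat_lit 5) (nat_lit 43) (nat_lit 5) (nat_lit 41) (nat_lit 5) (nat_lit 319) (nat_lit 300) (nat_lit 161))))) (XT.nd (nat_lit 156) (nat_lit 456) (nat_lit 0) (XT.nd (nat_lit 78) (nat_lit 228) (nat_lit 0) (XT.lf (nat_lit 0) (nat_lit 77099990962) (nat_lit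 228) (nat_lit 3374505585) (nat_lit 76) (nat_lit 140343436974) (nat_lit 40) (nat_lit 5) (nat_lit 43) (nat_lit 5) (nat_lit 41) (nat_lit 5) (nat_lit 320) (nat_lit 300) (nat_lit 160)) (XT.lf (nat_lit 0) (nat_lit 135147808190) (nat_lit 304) (nat_lit 69509267438) (nat_lit 76) (nat_lit 28057242250) (nat_lit 37) (nat_lit 5) (nat_lit 41) (nat_lit 5) (nat_lit 38) (nat_lit 5) (nat_lit 321) (nat_lit 300) (nat_lit 159))) (XT.nd (nat_lit 78) (nat_lit 304) (nat_lit 0) (XT.lf (nat_lit 0) (nat_lit 99498148628) (nat_lit 152) (nat_lit 101311093351) (nat_lit 228) (nat_lit 44604682034) (nat_lit 35) (nat_lit 5) (nat_lit 37) (nat_lit 5) (nat_lit 38) (nat_lit 5) (nat_lit 322) (nat_lit 300) (nat_lit 158)) (XT.nd (nat_lit 78) (nat_lit 0) (nat_lit 0) (XT.lf (nat_lit 0) (nat_lit 14019053516) (nat_lit 304) (nat_lit 233172379046) (nat_lit 76) (nat_lit 11836832573) (nat_lit 31) (nat_lit 5) (nat_lit 35) (nat_lit 5)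 (nat_lit 32) (nat_lit 5) (nat_lit 323) (nat_lit 300) (nat_lit 157)) (XT.lf (nat_lit 0) (nat_lit 80082247283) (nat_lit 304) (nat_lit 59527339199) (nat_lit 76) (nat_lit 133869991825) (nat_lit 31) (nat_lit 5) (nat_lit 35) (nat_lit 5) (nat_lit 32) (nat_lit 5) (nat_lit 324) (nat_lit 300) (nat_lit 156))))))))
noncomputable def xc113 : XT := (XT.nd (nat_lit 39078) (nat_lit 0) (nat_lit 1368) (XT.nd (nat_lit 780) (nat_lit 380) (nat_lit 0) (XT.nd (nat_lit 390) (nat_lit 304) (nat_lit 0) (XT.nd (nat_lit 156) (nat_lit 380) (nat_lit 0) (XT.nd (nat_lit 78) (nat_lit 152) (nat_lit 0) (XT.lf (nat_lit 0) (nat_lit 132241405945) (nat_lit 152) (nat_lit 21253454268) (nat_lit 228) (nat_lit 135488918578) (nat_lit 29) (nat_lit 5) (nat_lit 31) (nat_lit 5) (nat_lit 32) (nat_lit 5) (nat_lit 325) (nat_lit 300) (nat_lit 155)) (XT.lf (nat_lit 0) (nat_lit 35247716148) (nat_lit 152) (nat_lit 200800600482) (nat_lit 228)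 (nat_lit 69516607372) (nat_lit 27) (nat_lit 5) (nat_lit 29) (nat_lit 5) (nat_lit 30) (nat_lit 5) (nat_lit 326) (nat_lit 300) (nat_lit 154))) (XT.nd (nat_lit 78) (nat_lit 304) (nat_lit 0) (XT.lf (nat_lit 0) (nat_lit 4811216313) (nat_lit 228) (nat_lit 75572439510) (nat_lit 76) (nat_lit 242930891635) (nat_lit 26) (nat_lit 5) (nat_lit 29) (nat_lit 5) (nat_lit 27) (nat_lit 5) (nat_lit 327) (nat_lit 300) (nat_lit 153)) (XT.nd (nat_lit 78) (nat_lit 152) (nat_lit 0) (XT.lf (nat_lit 0) (nat_lit 85666524782) (nat_lit 228) (nat_lit 205151718854) (nat_lit 76) (nat_lit 51458077555) (nat_lit 24) (nat_lit 5) (nat_lit 27) (nat_lit 5) (nat_lit 25) (nat_lit 5) (nat_lit 328) (nat_lit 300) (nat_lit 152)) (XT.lf (nat_lit 0) (nat_lit 5650316446) (nat_lit 152) (nat_lit 170121335740) (nat_lit 228) (nat_lit 186844315235) (nat_lit 22) (nat_lit 5) (nat_lit 24) (nat_lit 5) (nat_lit 25) (nat_lit 5) (nat_lit 329)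 (nat_lit 300) (nat_lit 151))))) (XT.nd (nat_lit 156) (nat_lit 228) (nat_lit 0) (XT.nd (nat_lit 78) (nat_lit 76) (nat_lit 0) (XT.lf (nat_lit 0) (nat_lit 240642041033) (nat_lit 152) (nat_lit 36016529275) (nat_lit 228) (nat_lit 107745546301) (nat_lit 22) (nat_lit 5) (nat_lit 24) (nat_lit 5) (nat_lit 25) (nat_lit 5) (nat_lit 330) (nat_lit 300) (nat_lit 150)) (XT.lf (nat_lit 0) (nat_lit 87602317798) (nat_lit 76) (nat_lit 301080559699) (nat_lit 152) (nat_lit 19099118721) (nat_lit 21) (nat_lit 5) (nat_lit 22) (nat_lit 5) (nat_lit 23) (nat_lit 4) (nat_lit 331) (nat_lit 300) (nat_lit 149))) (XT.nd (nat_lit 78) (nat_lit 152) (nat_lit 0) (XT.lf (nat_lit 0) (nat_lit 77338487850) (nat_lit 152) (nat_lit 92140589536) (nat_lit 76) (nat_lit 263333581939) (nat_lit 20) (nat_lit 5) (nat_lit 22) (nat_lit 5) (nat_lit 21) (nat_lit 5) (nat_lit 332) (nat_lit 300) (nat_lit 148)) (XT.nd (nat_lit 78) (nat_lit 0)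 (nat_lit 0) (XT.lf (nat_lit 0) (nat_lit 158905217649) (nat_lit 152) (nat_lit 24406454037) (nat_lit 228) (nat_lit 276393963558) (nat_lit 18) (nat_lit 5) (nat_lit 20) (nat_lit 5) (nat_lit 21) (nat_lit 5) (nat_lit 333) (nat_lit 300) (nat_lit 147)) (XT.lf (nat_lit 0) (nat_lit 301459002933) (nat_lit 228) (nat_lit 57436561402) (nat_lit 76) (nat_lit 129669670467) (nat_lit 18) (nat_lit 5) (nat_lit 21) (nat_lit 5) (nat_lit 19) (nat_lit 4) (nat_lit 334) (nat_lit 300) (nat_lit 146)))))) (XT.nd (nat_lit 390) (nat_lit 0) (nat_lit 0) (XT.nd (nat_lit 156) (nat_lit 228) (nat_lit 0) (XT.nd (nat_lit 78) (nat_lit 76) (nat_lit 0) (XT.lf (nat_lit 0) (nat_lit 211762289468) (nat_lit 76) (nat_lit 221013399959) (nat_lit 152) (nat_lit 86772034645) (nat_lit 17) (nat_lit 5) (nat_lit 18) (nat_lit 5) (nat_lit 19) (nat_lit 4) (nat_lit 335) (nat_lit 300) (nat_lit 145)) (XT.lf (nat_lit 0) (nat_lit 21914662438) (nat_lit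 152) (nat_lit 48764447698) (nat_lit 76) (nat_lit 482262012169) (nat_lit 16) (nat_lit 5) (nat_lit 18) (nat_lit 5) (nat_lit 17) (nat_lit 5) (nat_lit 336) (nat_lit 300) (nat_lit 144))) (XT.nd (nat_lit 78) (nat_lit 76) (nat_lit 0) (XT.lf (nat_lit 0) (nat_lit 141514648725) (nat_lit 228) (nat_lit 353160217245) (nat_lit 76) (nat_lit 93997080818) (nat_lit 14) (nat_lit 5) (nat_lit 17) (nat_lit 5) (nat_lit 15) (nat_lit 4) (nat_lit 337) (nat_lit 300) (nat_lit 143)) (XT.nd (nat_lit 78) (nat_lit 76) (nat_lit 0) (XT.lf (nat_lit 0) (nat_lit 272737635487) (nat_lit 228) (nat_lit 84153363864) (nat_lit 76) (nat_lit 270267487941) (nat_lit 14) (nat_lit 5) (nat_lit 17) (nat_lit 5) (nat_lit 15) (nat_lit 4) (nat_lit 338) (nat_lit 300) (nat_lit 142)) (XT.lf (nat_lit 0) (nat_lit 213197448395) (nat_lit 76) (nat_lit 204589485521) (nat_lit 152) (nat_lit 250770593614) (nat_lit 13) (nat_lit 5) (nat_lit 14) (nat_lit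 5) (nat_lit 15) (nat_lit 4) (nat_lit 339) (nat_lit 300) (nat_lit 141))))) (XT.nd (nat_lit 37674) (nat_lit 0) (nat_lit 5168) (XT.nd (nat_lit 37596) (nat_lit 0) (nat_lit 5168) (XT.lf (nat_lit 0) (nat_lit 537341186325) (nat_lit 76) (nat_lit 38564756844) (nat_lit 152) (nat_lit 137289259593) (nat_lit 13) (nat_lit 5) (nat_lit 14) (nat_lit 5) (nat_lit 15) (nat_lit 4) (nat_lit 340) (nat_lit 300) (nat_lit 140)) (XT.lf (nat_lit 0) (nat_lit 15617627598) (nat_lit 0) (nat_lit 15617627598) (nat_lit 684) (nat_lit 16822607440) (nat_lit 81) (nat_lit 5) (nat_lit 81) (nat_lit 3) (nat_lit 90) (nat_lit 3) (nat_lit 301) (nat_lit 301) (nat_lit 178))) (XT.nd (nat_lit 78) (nat_lit 0) (nat_lit 76) (XT.lf (nat_lit 76) (nat_lit 2234374547) (nat_lit 0) (nat_lit 63369241399) (nat_lit 760) (nat_lit 34324996975) (nat_lit 82) (nat_lit 5) (nat_lit 81) (nat_lit 5) (nat_lit 91) (nat_lit 5) (nat_lit 302) (nat_lit 301) (nat_lit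 177)) (XT.nd (nat_lit 78) (nat_lit 0) (nat_lit 0) (XT.lf (nat_lit 0) (nat_lit 70726129647) (nat_lit 684) (nat_lit 27565021142) (nat_lit 760) (nat_lit 5668445517) (nat_lit 82) (nat_lit 5) (nat_lit 91) (nat_lit 5) (nat_lit 92) (nat_lit 5) (nat_lit 303) (nat_lit 301) (nat_lit 176)) (XT.lf (nat_lit 76) (nat_lit 48662920932) (nat_lit 0) (nat_lit 29422860601) (nat_lit 760) (nat_lit 30135912484) (nat_lit 83) (nat_lit 5) (nat_lit 82) (nat_lit 5) (nat_lit 92) (nat_lit 5) (nat_lit 304) (nat_lit 301) (nat_lit 175))))))) (XT.nd (nat_lit 780) (nat_lit 1976) (nat_lit 0) (XT.nd (nat_lit 390) (nat_lit 988) (nat_lit 0) (XT.nd (nat_lit 156) (nat_lit 988) (nat_lit 0) (XT.nd (nat_lit 78) (nat_lit 0) (nat_lit 76) (XT.lf (nat_lit 76) (nat_lit 19072755189) (nat_lit 0) (nat_lit 68448255140) (nat_lit 760) (nat_lit 25229411305) (nat_lit 84) (nat_lit 5) (nat_lit 83) (nat_lit 5) (nat_lit 93) (nat_lit 5) (nat_lit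 305) (nat_lit 301) (nat_lit 174)) (XT.lf (nat_lit 0) (nat_lit 99335322470) (nat_lit 684) (nat_lit 12056209514) (nat_lit 760) (nat_lit 6168704379) (nat_lit 84) (nat_lit 5) (nat_lit 93) (nat_lit 5) (nat_lit 94) (nat_lit 5) (nat_lit 306) (nat_lit 301) (nat_lit 173))) (XT.nd (nat_lit 78) (nat_lit 1064) (nat_lit 0) (XT.lf (nat_lit 76) (nat_lit 77418057930) (nat_lit 0) (nat_lit 37038834762) (nat_lit 760) (nat_lit 8179839913) (nat_lit 85) (nat_lit 5) (nat_lit 84) (nat_lit 5) (nat_lit 94) (nat_lit 5) (nat_lit 307) (nat_lit 301) (nat_lit 172)) (XT.nd (nat_lit 78) (nat_lit 380) (nat_lit 0) (XT.lf (nat_lit 0) (nat_lit 4235219115) (nat_lit 760) (nat_lit 80903165225) (nat_lit 76) (nat_lit 42896292627) (nat_lit 75) (nat_lit 5) (nat_lit 85) (nat_lit 5) (nat_lit 76) (nat_lit 5) (nat_lit 308) (nat_lit 301) (nat_lit 171)) (XT.lf (nat_lit 0) (nat_lit 14342434197) (nat_lit 380) (nat_lit 4666677323) (nat_lit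 456) (nat_lit 114766031680) (nat_lit 70) (nat_lit 5) (nat_lit 75) (nat_lit 5) (nat_lit 76) (nat_lit 5) (nat_lit 309) (nat_lit 301) (nat_lit 170))))) (XT.nd (nat_lit 156) (nat_lit 608) (nat_lit 0) (XT.nd (nat_lit 78) (nat_lit 380) (nat_lit 0) (XT.lf (nat_lit 0) (nat_lit 37680699574) (nat_lit 456) (nat_lit 21115441315) (nat_lit 76) (nat_lit 81042918137) (nat_lit 70) (nat_lit 5) (nat_lit 76) (nat_lit 5) (nat_lit 71) (nat_lit 5) (nat_lit 310) (nat_lit 301) (nat_lit 169)) (XT.lf (nat_lit 0) (nat_lit 59739898246) (nat_lit 456) (nat_lit 58962632654) (nat_lit 76) (nat_lit 27590864434) (nat_lit 65) (nat_lit 5) (nat_lit 71) (nat_lit 5) (nat_lit 66) (nat_lit 5) (nat_lit 311) (nat_lit 301) (nat_lit 168))) (XT.nd (nat_lit 78) (nat_lit 304) (nat_lit 0) (XT.lf (nat_lit 0) (nat_lit 52648045945) (nat_lit 304) (nat_lit 33102470914) (nat_lit 380) (nat_lit 67404228778) (nat_lit 61) (nat_lit 5) (nat_lit 65)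 (nat_lit 5) (nat_lit 66) (nat_lit 5) (nat_lit 312) (nat_lit 301) (nat_lit 167)) (XT.nd (nat_lit 78) (nat_lit 0) (nat_lit 0) (XT.lf (nat_lit 0) (nat_lit 14292958580) (nat_lit 304) (nat_lit 101742134234) (nat_lit 380) (nat_lit 44420256954) (nat_lit 57) (nat_lit 5) (nat_lit 61) (nat_lit 5) (nat_lit 62) (nat_lit 5) (nat_lit 313) (nat_lit 301) (nat_lit 166)) (XT.lf (nat_lit 0) (nat_lit 141288470207) (nat_lit 304) (nat_lit 9753397197) (nat_lit 380) (nat_lit 17183164306) (nat_lit 57) (nat_lit 5) (nat_lit 61) (nat_lit 5) (nat_lit 62) (nat_lit 5) (nat_lit 314) (nat_lit 301) (nat_lit 165)))))) (XT.nd (nat_lit 390) (nat_lit 912) (nat_lit 0) (XT.nd (nat_lit 156) (nat_lit 456) (nat_lit 0) (XT.nd (nat_lit 78) (nat_lit 304) (nat_lit 0) (XT.lf (nat_lit 0) (nat_lit 14909011197) (nat_lit 304) (nat_lit 72957271284) (nat_lit 76) (nat_lit 88587074987) (nat_lit 53) (nat_lit 5) (nat_lit 57) (nat_lit 5) (nat_lit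 54) (nat_lit 5) (nat_lit 315) (nat_lit 301) (nat_lit 164)) (XT.lf (nat_lit 0) (nat_lit 50746740414) (nat_lit 380) (nat_lit 123900987104) (nat_lit 76) (nat_lit 10589128412) (nat_lit 49) (nat_lit 5) (nat_lit 54) (nat_lit 5) (nat_lit 50) (nat_lit 5) (nat_lit 316) (nat_lit 301) (nat_lit 163))) (XT.nd (nat_lit 78) (nat_lit 228) (nat_lit 0) (XT.lf (nat_lit 0) (nat_lit 13239033373) (nat_lit 228) (nat_lit 79192023792) (nat_lit 304) (nat_lit 102142999481) (nat_lit 46) (nat_lit 5) (nat_lit 49) (nat_lit 5) (nat_lit 50) (nat_lit 5) (nat_lit 317) (nat_lit 301) (nat_lit 162)) (XT.nd (nat_lit 78) (nat_lit 228) (nat_lit 0) (XT.lf (nat_lit 0) (nat_lit 140016527756) (nat_lit 304) (nat_lit 39184653740) (nat_lit 76) (nat_lit 25328732272) (nat_lit 46) (nat_lit 5) (nat_lit 50) (nat_lit 5) (nat_lit 47) (nat_lit 5) (nat_lit 318) (nat_lit 301) (nat_lit 161)) (XT.lf (nat_lit 0) (nat_lit 116738292212) (nat_lit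 228) (nat_lit 77828110802) (nat_lit 304) (nat_lit 20557958815) (nat_lit 43) (nat_lit 5) (nat_lit 46) (nat_lit 5) (nat_lit 47) (nat_lit 5) (nat_lit 319) (nat_lit 301) (nat_lit 160))))) (XT.nd (nat_lit 156) (nat_lit 684) (nat_lit 0) (XT.nd (nat_lit 78) (nat_lit 0) (nat_lit 0) (XT.lf (nat_lit 0) (nat_lit 28234938525) (nat_lit 228) (nat_lit 165450974905) (nat_lit 76) (nat_lit 32750320418) (nat_lit 40) (nat_lit 5) (nat_lit 43) (nat_lit 5) (nat_lit 41) (nat_lit 5) (nat_lit 320) (nat_lit 301) (nat_lit 159)) (XT.lf (nat_lit 0) (nat_lit 83274551067) (nat_lit 228) (nat_lit 3635271514) (nat_lit 76) (nat_lit 151573206142) (nat_lit 40) (nat_lit 5) (nat_lit 43) (nat_lit 5) (nat_lit 41) (nat_lit 5) (nat_lit 321) (nat_lit 301) (nat_lit 158))) (XT.nd (nat_lit 78) (nat_lit 456) (nat_lit 0) (XT.lf (nat_lit 0) (nat_lit 145965885324) (nat_lit 304) (nat_lit 75060933023) (nat_lit 76) (nat_lit 30304321746) (nat_lit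 37) (nat_lit 5) (nat_lit 41) (nat_lit 5) (nat_lit 38) (nat_lit 5) (nat_lit 322) (nat_lit 301) (nat_lit 157)) (XT.nd (nat_lit 78) (nat_lit 304) (nat_lit 0) (XT.lf (nat_lit 0) (nat_lit 107466681904) (nat_lit 152) (nat_lit 109413224306) (nat_lit 228) (nat_lit 48166825673) (nat_lit 35) (nat_lit 5) (nat_lit 37) (nat_lit 5) (nat_lit 38) (nat_lit 5) (nat_lit 323) (nat_lit 301) (nat_lit 156)) (XT.lf (nat_lit 0) (nat_lit 15146338786) (nat_lit 304) (nat_lit 251817414552) (nat_lit 76) (nat_lit 12786476313) (nat_lit 31) (nat_lit 5) (nat_lit 35) (nat_lit 5) (nat_lit 32) (nat_lit 5) (nat_lit 324) (nat_lit 301) (nat_lit 155))))))))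
noncomputable def xc114 : XT := (XT.nd (nat_lit 39156) (nat_lit 0) (nat_lit 1368) (XT.nd (nat_lit 780) (nat_lit 380) (nat_lit 0) (XT.nd (nat_lit 390) (nat_lit 456) (nat_lit 0) (XT.nd (nat_lit 156) (nat_lit 380) (nat_lit 0) (XT.nd (nat_lit 78) (nat_lit 152) (nat_lit 0) (XT.lf (nat_lit 0) (nat_lit 86494161313) (nat_lit 304) (nat_lit 64281420022) (nat_lit 76) (nat_lit 144582088517) (nat_lit 31) (nat_lit 5) (nat_lit 35) (nat_lit 5) (nat_lit 32) (nat_lit 5) (nat_lit 325) (nat_lit 301) (nat_lit 154)) (XT.lf (nat_lit 0) (nat_lit 142828472443) (nat_lit 152) (nat_lit 22951036767) (nat_lit 228) (nat_lit 146322711461) (nat_lit 29) (nat_lit 5) (nat_lit 31) (nat_lit 5) (nat_lit 32) (nat_lit 5) (nat_lit 326) (nat_lit 301) (nat_lit 153))) (XT.nd (nat_lit 78) (nat_lit 228) (nat_lit 0) (XT.lf (nat_lit 0) (nat_lit 38075159358) (nat_lit 152) (nat_lit 216861865960) (nat_lit 228) (nat_lit 75072843571) (nat_lit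 27) (nat_lit 5) (nat_lit 29) (nat_lit 5) (nat_lit 30) (nat_lit 5) (nat_lit 327) (nat_lit 301) (nat_lit 152)) (XT.nd (nat_lit 78) (nat_lit 152) (nat_lit 0) (XT.lf (nat_lit 0) (nat_lit 5200677879) (nat_lit 228) (nat_lit 81611016668) (nat_lit 76) (nat_lit 262367782442) (nat_lit 26) (nat_lit 5) (nat_lit 29) (nat_lit 5) (nat_lit 27) (nat_lit 5) (nat_lit 328) (nat_lit 301) (nat_lit 151)) (XT.lf (nat_lit 0) (nat_lit 92524220858) (nat_lit 228) (nat_lit 221556769872) (nat_lit 76) (nat_lit 55577211846) (nat_lit 24) (nat_lit 5) (nat_lit 27) (nat_lit 5) (nat_lit 25) (nat_lit 5) (nat_lit 329) (nat_lit 301) (nat_lit 150))))) (XT.nd (nat_lit 156) (nat_lit 304) (nat_lit 0) (XT.nd (nat_lit 78) (nat_lit 0) (nat_lit 0) (XT.lf (nat_lit 0) (nat_lit 6109120282) (nat_lit 152) (nat_lit 183728419997) (nat_lit 228) (nat_lit 201787491549) (nat_lit 22) (nat_lit 5) (nat_lit 24) (nat_lit 5) (nat_lit 25) (nat_lit 5)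 (nat_lit 330) (nat_lit 301) (nat_lit 149)) (XT.lf (nat_lit 0) (nat_lit 259899680723) (nat_lit 152) (nat_lit 38895423282) (nat_lit 228) (nat_lit 116361144723) (nat_lit 22) (nat_lit 5) (nat_lit 24) (nat_lit 5) (nat_lit 25) (nat_lit 5) (nat_lit 331) (nat_lit 301) (nat_lit 148))) (XT.nd (nat_lit 78) (nat_lit 228) (nat_lit 0) (XT.lf (nat_lit 0) (nat_lit 94616659238) (nat_lit 76) (nat_lit 325164542706) (nat_lit 152) (nat_lit 20623164809) (nat_lit 21) (nat_lit 5) (nat_lit 22) (nat_lit 5) (nat_lit 23) (nat_lit 4) (nat_lit 332) (nat_lit 301) (nat_lit 147)) (XT.nd (nat_lit 78) (nat_lit 152) (nat_lit 0) (XT.lf (nat_lit 0) (nat_lit 83529047542) (nat_lit 152) (nat_lit 99506017674) (nat_lit 76) (nat_lit 284402428899) (nat_lit 20) (nat_lit 5) (nat_lit 22) (nat_lit 5) (nat_lit 21) (nat_lit 5) (nat_lit 333) (nat_lit 301) (nat_lit 146)) (XT.lf (nat_lit 0) (nat_lit 171623201198) (nat_lit 152) (nat_lit 26356713962)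 (nat_lit 228) (nat_lit 298502001784) (nat_lit 18) (nat_lit 5) (nat_lit 20) (nat_lit 5) (nat_lit 21) (nat_lit 5) (nat_lit 334) (nat_lit 301) (nat_lit 145)))))) (XT.nd (nat_lit 390) (nat_lit 76) (nat_lit 0) (XT.nd (nat_lit 156) (nat_lit 228) (nat_lit 0) (XT.nd (nat_lit 78) (nat_lit 76) (nat_lit 0) (XT.lf (nat_lit 0) (nat_lit 325578820360) (nat_lit 228) (nat_lit 62026208509) (nat_lit 76) (nat_lit 140045266492) (nat_lit 18) (nat_lit 5) (nat_lit 21) (nat_lit 5) (nat_lit 19) (nat_lit 4) (nat_lit 335) (nat_lit 301) (nat_lit 144)) (XT.lf (nat_lit 0) (nat_lit 228708321063) (nat_lit 76) (nat_lit 238692370109) (nat_lit 152) (nat_lit 93710700381) (nat_lit 17) (nat_lit 5) (nat_lit 18) (nat_lit 5) (nat_lit 19) (nat_lit 4) (nat_lit 336) (nat_lit 301) (nat_lit 143))) (XT.nd (nat_lit 78) (nat_lit 152) (nat_lit 0) (XT.lf (nat_lit 0) (nat_lit 23670611277) (nat_lit 152) (nat_lit 52660834506) (nat_lit 76)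 (nat_lit 520844824768) (nat_lit 16) (nat_lit 5) (nat_lit 18) (nat_lit 5) (nat_lit 17) (nat_lit 5) (nat_lit 337) (nat_lit 301) (nat_lit 142)) (XT.nd (nat_lit 78) (nat_lit 0) (nat_lit 0) (XT.lf (nat_lit 0) (nat_lit 152838492052) (nat_lit 228) (nat_lit 381408368238) (nat_lit 76) (nat_lit 101518706127) (nat_lit 14) (nat_lit 5) (nat_lit 17) (nat_lit 5) (nat_lit 15) (nat_lit 4) (nat_lit 338) (nat_lit 301) (nat_lit 141)) (XT.lf (nat_lit 0) (nat_lit 294559119871) (nat_lit 228) (nat_lit 90881312245) (nat_lit 76) (nat_lit 291890608127) (nat_lit 14) (nat_lit 5) (nat_lit 17) (nat_lit 5) (nat_lit 15) (nat_lit 4) (nat_lit 339) (nat_lit 301) (nat_lit 140))))) (XT.nd (nat_lit 37752) (nat_lit 0) (nat_lit 5168) (XT.nd (nat_lit 37674) (nat_lit 0) (nat_lit 5168) (XT.lf (nat_lit 0) (nat_lit 230257377222) (nat_lit 76) (nat_lit 220954866254) (nat_lit 152) (nat_lit 270829766334) (nat_lit 13) (nat_lit 5) (nat_lit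 14) (nat_lit 5) (nat_lit 15) (nat_lit 4) (nat_lit 340) (nat_lit 301) (nat_lit 139)) (XT.lf (nat_lit 0) (nat_lit 16872061832) (nat_lit 0) (nat_lit 16872061832) (nat_lit 684) (nat_lit 18157839124) (nat_lit 81) (nat_lit 5) (nat_lit 81) (nat_lit 3) (nat_lit 90) (nat_lit 3) (nat_lit 302) (nat_lit 302) (nat_lit 176))) (XT.nd (nat_lit 78) (nat_lit 0) (nat_lit 76) (XT.lf (nat_lit 76) (nat_lit 2423897698) (nat_lit 0) (nat_lit 68446637970) (nat_lit 760) (nat_lit 37051385772) (nat_lit 82) (nat_lit 5) (nat_lit 81) (nat_lit 5) (nat_lit 91) (nat_lit 5) (nat_lit 303) (nat_lit 302) (nat_lit 175)) (XT.nd (nat_lit 78) (nat_lit 0) (nat_lit 0) (XT.lf (nat_lit 0) (nat_lit 76401356844) (nat_lit 684) (nat_lit 29759226189) (nat_lit 760) (nat_lit 6114878772) (nat_lit 82) (nat_lit 5) (nat_lit 91) (nat_lit 5) (nat_lit 92) (nat_lit 5) (nat_lit 304) (nat_lit 302) (nat_lit 174)) (XT.lf (nat_lit 76) (nat_lit 52566473350)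 (nat_lit 0) (nat_lit 31782202365) (nat_lit 760) (nat_lit 32529910238) (nat_lit 83) (nat_lit 5) (nat_lit 82) (nat_lit 5) (nat_lit 92) (nat_lit 5) (nat_lit 305) (nat_lit 302) (nat_lit 173))))))) (XT.nd (nat_lit 780) (nat_lit 1976) (nat_lit 0) (XT.nd (nat_lit 390) (nat_lit 988) (nat_lit 0) (XT.nd (nat_lit 156) (nat_lit 988) (nat_lit 0) (XT.nd (nat_lit 78) (nat_lit 0) (nat_lit 76) (XT.lf (nat_lit 76) (nat_lit 20609526472) (nat_lit 0) (nat_lit 73928100089) (nat_lit 760) (nat_lit 27232043142) (nat_lit 84) (nat_lit 5) (nat_lit 83) (nat_lit 5) (nat_lit 93) (nat_lit 5) (nat_lit 306) (nat_lit 302) (nat_lit 172)) (XT.lf (nat_lit 0) (nat_lit 107295919745) (nat_lit 684) (nat_lit 13009781515) (nat_lit 760) (nat_lit 6658629425) (nat_lit 84) (nat_lit 5) (nat_lit 93) (nat_lit 5) (nat_lit 94) (nat_lit 5) (nat_lit 307) (nat_lit 302) (nat_lit 171))) (XT.nd (nat_lit 78) (nat_lit 1064) (nat_lit 0) (XT.lf (nat_lit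 76) (nat_lit 83621952547) (nat_lit 0) (nat_lit 40004406082) (nat_lit 760) (nat_lit 8820633514) (nat_lit 85) (nat_lit 5) (nat_lit 84) (nat_lit 5) (nat_lit 94) (nat_lit 5) (nat_lit 308) (nat_lit 302) (nat_lit 170)) (XT.nd (nat_lit 78) (nat_lit 380) (nat_lit 0) (XT.lf (nat_lit 0) (nat_lit 4586353753) (nat_lit 760) (nat_lit 87364299577) (nat_lit 76) (nat_lit 46326152537) (nat_lit 75) (nat_lit 5) (nat_lit 85) (nat_lit 5) (nat_lit 76) (nat_lit 5) (nat_lit 309) (nat_lit 302) (nat_lit 169)) (XT.lf (nat_lit 0) (nat_lit 15500464586) (nat_lit 380) (nat_lit 5040946637) (nat_lit 456) (nat_lit 123935137668) (nat_lit 70) (nat_lit 5) (nat_lit 75) (nat_lit 5) (nat_lit 76) (nat_lit 5) (nat_lit 310) (nat_lit 302) (nat_lit 168))))) (XT.nd (nat_lit 156) (nat_lit 608) (nat_lit 0) (XT.nd (nat_lit 78) (nat_lit 380) (nat_lit 0) (XT.lf (nat_lit 0) (nat_lit 40705855708) (nat_lit 456) (nat_lit 22794254381) (nat_lit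 76) (nat_lit 87525513441) (nat_lit 70) (nat_lit 5) (nat_lit 76) (nat_lit 5) (nat_lit 71) (nat_lit 5) (nat_lit 311) (nat_lit 302) (nat_lit 167)) (XT.lf (nat_lit 0) (nat_lit 64529151852) (nat_lit 456) (nat_lit 63669145997) (nat_lit 76) (nat_lit 29798042683) (nat_lit 65) (nat_lit 5) (nat_lit 71) (nat_lit 5) (nat_lit 66) (nat_lit 5) (nat_lit 312) (nat_lit 302) (nat_lit 166))) (XT.nd (nat_lit 78) (nat_lit 304) (nat_lit 0) (XT.lf (nat_lit 0) (nat_lit 56869930692) (nat_lit 304) (nat_lit 35750100717) (nat_lit 380) (nat_lit 72786598607) (nat_lit 61) (nat_lit 5) (nat_lit 65) (nat_lit 5) (nat_lit 66) (nat_lit 5) (nat_lit 313) (nat_lit 302) (nat_lit 165)) (XT.nd (nat_lit 78) (nat_lit 0) (nat_lit 0) (XT.lf (nat_lit 0) (nat_lit 15446465233) (nat_lit 304) (nat_lit 109880371918) (nat_lit 380) (nat_lit 47964473741) (nat_lit 57) (nat_lit 5) (nat_lit 61) (nat_lit 5) (nat_lit 62) (nat_lit 5) (nat_lit 314)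 (nat_lit 302) (nat_lit 164)) (XT.lf (nat_lit 0) (nat_lit 152600871866) (nat_lit 304) (nat_lit 10532619848) (nat_lit 380) (nat_lit 18549110257) (nat_lit 57) (nat_lit 5) (nat_lit 61) (nat_lit 5) (nat_lit 62) (nat_lit 5) (nat_lit 315) (nat_lit 302) (nat_lit 163)))))) (XT.nd (nat_lit 390) (nat_lit 912) (nat_lit 0) (XT.nd (nat_lit 156) (nat_lit 456) (nat_lit 0) (XT.nd (nat_lit 78) (nat_lit 304) (nat_lit 0) (XT.lf (nat_lit 0) (nat_lit 16109699527) (nat_lit 304) (nat_lit 78784256555) (nat_lit 76) (nat_lit 95675255273) (nat_lit 53) (nat_lit 5) (nat_lit 57) (nat_lit 5) (nat_lit 54) (nat_lit 5) (nat_lit 316) (nat_lit 302) (nat_lit 162)) (XT.lf (nat_lit 0) (nat_lit 54814026115) (nat_lit 380) (nat_lit 133803521431) (nat_lit 76) (nat_lit 11437864405) (nat_lit 49) (nat_lit 5) (nat_lit 54) (nat_lit 5) (nat_lit 50) (nat_lit 5) (nat_lit 317) (nat_lit 302) (nat_lit 161))) (XT.nd (nat_lit 78) (nat_lit 228)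 (nat_lit 0) (XT.lf (nat_lit 0) (nat_lit 14307285885) (nat_lit 228) (nat_lit 85525385865) (nat_lit 304) (nat_lit 110306938918) (nat_lit 46) (nat_lit 5) (nat_lit 49) (nat_lit 5) (nat_lit 50) (nat_lit 5) (nat_lit 318) (nat_lit 302) (nat_lit 160)) (XT.nd (nat_lit 78) (nat_lit 228) (nat_lit 0) (XT.lf (nat_lit 0) (nat_lit 151224480750) (nat_lit 304) (nat_lit 42310658328) (nat_lit 76) (nat_lit 27356823283) (nat_lit 46) (nat_lit 5) (nat_lit 50) (nat_lit 5) (nat_lit 47) (nat_lit 5) (nat_lit 319) (nat_lit 302) (nat_lit 159)) (XT.lf (nat_lit 0) (nat_lit 126085742267) (nat_lit 228) (nat_lit 84052243533) (nat_lit 304) (nat_lit 22195999438) (nat_lit 43) (nat_lit 5) (nat_lit 46) (nat_lit 5) (nat_lit 47) (nat_lit 5) (nat_lit 320) (nat_lit 302) (nat_lit 158))))) (XT.nd (nat_lit 156) (nat_lit 684) (nat_lit 0) (XT.nd (nat_lit 78) (nat_lit 0) (nat_lit 0) (XT.lf (nat_lit 0) (nat_lit 30499808448) (nat_lit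 228) (nat_lit 178678539455) (nat_lit 76) (nat_lit 35372470320) (nat_lit 40) (nat_lit 5) (nat_lit 43) (nat_lit 5) (nat_lit 41) (nat_lit 5) (nat_lit 321) (nat_lit 302) (nat_lit 157)) (XT.lf (nat_lit 0) (nat_lit 89942140005) (nat_lit 228) (nat_lit 3918210418) (nat_lit 76) (nat_lit 163701029548) (nat_lit 40) (nat_lit 5) (nat_lit 43) (nat_lit 5) (nat_lit 41) (nat_lit 5) (nat_lit 322) (nat_lit 302) (nat_lit 156))) (XT.nd (nat_lit 78) (nat_lit 456) (nat_lit 0) (XT.lf (nat_lit 0) (nat_lit 157648516644) (nat_lit 304) (nat_lit 81058026621) (nat_lit 76) (nat_lit 32730810932) (nat_lit 37) (nat_lit 5) (nat_lit 41) (nat_lit 5) (nat_lit 38) (nat_lit 5) (nat_lit 323) (nat_lit 302) (nat_lit 155)) (XT.nd (nat_lit 78) (nat_lit 304) (nat_lit 0) (XT.lf (nat_lit 0) (nat_lit 116071459346) (nat_lit 152) (nat_lit 118163918985) (nat_lit 228) (nat_lit 52014829714) (nat_lit 35) (nat_lit 5) (nat_lit 37) (nat_lit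 5) (nat_lit 38) (nat_lit 5) (nat_lit 324) (nat_lit 302) (nat_lit 154)) (XT.lf (nat_lit 0) (nat_lit 16362985007) (nat_lit 304) (nat_lit 271955301870) (nat_lit 76) (nat_lit 13811706775) (nat_lit 31) (nat_lit 5) (nat_lit 35) (nat_lit 5) (nat_lit 32) (nat_lit 5) (nat_lit 325) (nat_lit 302) (nat_lit 153))))))))
noncomputable def xc115 : XT := (XT.nd (nat_lit 39234) (nat_lit 0) (nat_lit 1140) (XT.nd (nat_lit 780) (nat_lit 304) (nat_lit 0) (XT.nd (nat_lit 390) (nat_lit 456) (nat_lit 0) (XT.nd (nat_lit 156) (nat_lit 380) (nat_lit 0) (XT.nd (nat_lit 78) (nat_lit 152) (nat_lit 0) (XT.lf (nat_lit 0) (nat_lit 93418267476) (nat_lit 304) (nat_lit 69416983766) (nat_lit 76) (nat_lit 156150796670) (nat_lit 31) (nat_lit 5) (nat_lit 35) (nat_lit 5) (nat_lit 32) (nat_lit 5) (nat_lit 326) (nat_lit 302) (nat_lit 152)) (XT.lf (nat_lit 0) (nat_lit 154261398064) (nat_lit 152) (nat_lit 24784810173) (nat_lit 228)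 (nat_lit 158023966817) (nat_lit 29) (nat_lit 5) (nat_lit 31) (nat_lit 5) (nat_lit 32) (nat_lit 5) (nat_lit 327) (nat_lit 302) (nat_lit 151))) (XT.nd (nat_lit 78) (nat_lit 228) (nat_lit 0) (XT.lf (nat_lit 0) (nat_lit 41127710101) (nat_lit 152) (nat_lit 234208429640) (nat_lit 228) (nat_lit 81074305153) (nat_lit 27) (nat_lit 5) (nat_lit 29) (nat_lit 5) (nat_lit 30) (nat_lit 5) (nat_lit 328) (nat_lit 302) (nat_lit 150)) (XT.nd (nat_lit 78) (nat_lit 152) (nat_lit 0) (XT.lf (nat_lit 0) (nat_lit 5620645227) (nat_lit 228) (nat_lit 88133709727) (nat_lit 76) (nat_lit 283359279348) (nat_lit 26) (nat_lit 5) (nat_lit 29) (nat_lit 5) (nat_lit 27) (nat_lit 5) (nat_lit 329) (nat_lit 302) (nat_lit 149)) (XT.lf (nat_lit 0) (nat_lit 99929908607) (nat_lit 228) (nat_lit 239275235939) (nat_lit 76) (nat_lit 60025521928) (nat_lit 24) (nat_lit 5) (nat_lit 27) (nat_lit 5) (nat_lit 25) (nat_lit 5) (nat_lit 330)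 (nat_lit 302) (nat_lit 148))))) (XT.nd (nat_lit 156) (nat_lit 304) (nat_lit 0) (XT.nd (nat_lit 78) (nat_lit 0) (nat_lit 0) (XT.lf (nat_lit 0) (nat_lit 6603661393) (nat_lit 152) (nat_lit 198424445139) (nat_lit 228) (nat_lit 217926745242) (nat_lit 22) (nat_lit 5) (nat_lit 24) (nat_lit 5) (nat_lit 25) (nat_lit 5) (nat_lit 331) (nat_lit 302) (nat_lit 147)) (XT.lf (nat_lit 0) (nat_lit 280697036189) (nat_lit 152) (nat_lit 42004975239) (nat_lit 228) (nat_lit 125666568124) (nat_lit 22) (nat_lit 5) (nat_lit 24) (nat_lit 5) (nat_lit 25) (nat_lit 5) (nat_lit 332) (nat_lit 302) (nat_lit 146))) (XT.nd (nat_lit 78) (nat_lit 228) (nat_lit 0) (XT.lf (nat_lit 0) (nat_lit 102191269768) (nat_lit 76) (nat_lit 351175595553) (nat_lit 152) (nat_lit 22269688596) (nat_lit 21) (nat_lit 5) (nat_lit 22) (nat_lit 5) (nat_lit 23) (nat_lit 4) (nat_lit 333) (nat_lit 302) (nat_lit 145)) (XT.nd (nat_lit 78) (nat_lit 152)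 (nat_lit 0) (XT.lf (nat_lit 0) (nat_lit 90214355453) (nat_lit 152) (nat_lit 107461510212) (nat_lit 76) (nat_lit 307156475410) (nat_lit 20) (nat_lit 5) (nat_lit 22) (nat_lit 5) (nat_lit 21) (nat_lit 5) (nat_lit 334) (nat_lit 302) (nat_lit 144)) (XT.lf (nat_lit 0) (nat_lit 185357829359) (nat_lit 152) (nat_lit 28463316581) (nat_lit 228) (nat_lit 322379179365) (nat_lit 18) (nat_lit 5) (nat_lit 20) (nat_lit 5) (nat_lit 21) (nat_lit 5) (nat_lit 335) (nat_lit 302) (nat_lit 143)))))) (XT.nd (nat_lit 38064) (nat_lit 0) (nat_lit 5092) (XT.nd (nat_lit 156) (nat_lit 228) (nat_lit 0) (XT.nd (nat_lit 78) (nat_lit 76) (nat_lit 0) (XT.lf (nat_lit 0) (nat_lit 351627781332) (nat_lit 228) (nat_lit 66983780324) (nat_lit 76) (nat_lit 151250621684) (nat_lit 18) (nat_lit 5) (nat_lit 21) (nat_lit 5) (nat_lit 19) (nat_lit 4) (nat_lit 336) (nat_lit 302) (nat_lit 142)) (XT.lf (nat_lit 0) (nat_lit 247009314969)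 (nat_lit 76) (nat_lit 257785957723) (nat_lit 152) (nat_lit 101204901203) (nat_lit 17) (nat_lit 5) (nat_lit 18) (nat_lit 5) (nat_lit 19) (nat_lit 4) (nat_lit 337) (nat_lit 302) (nat_lit 141))) (XT.nd (nat_lit 78) (nat_lit 152) (nat_lit 0) (XT.lf (nat_lit 0) (nat_lit 25566640017) (nat_lit 152) (nat_lit 56869612611) (nat_lit 76) (nat_lit 562513998219) (nat_lit 16) (nat_lit 5) (nat_lit 18) (nat_lit 5) (nat_lit 17) (nat_lit 5) (nat_lit 338) (nat_lit 302) (nat_lit 140)) (XT.nd (nat_lit 78) (nat_lit 0) (nat_lit 0) (XT.lf (nat_lit 0) (nat_lit 165067861735) (nat_lit 228) (nat_lit 411917037023) (nat_lit 76) (nat_lit 109641796276) (nat_lit 14) (nat_lit 5) (nat_lit 17) (nat_lit 5) (nat_lit 15) (nat_lit 4) (nat_lit 339) (nat_lit 302) (nat_lit 139)) (XT.lf (nat_lit 0) (nat_lit 318125970127) (nat_lit 228) (nat_lit 98148112896) (nat_lit 76) (nat_lit 315243332388) (nat_lit 14) (nat_lit 5) (nat_lit 17)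 (nat_lit 5) (nat_lit 15) (nat_lit 4) (nat_lit 340) (nat_lit 302) (nat_lit 138))))) (XT.nd (nat_lit 156) (nat_lit 0) (nat_lit 76) (XT.nd (nat_lit 78) (nat_lit 0) (nat_lit 0) (XT.lf (nat_lit 0) (nat_lit 18226134072) (nat_lit 0) (nat_lit 18226134072) (nat_lit 684) (nat_lit 19601398258) (nat_lit 81) (nat_lit 5) (nat_lit 81) (nat_lit 3) (nat_lit 90) (nat_lit 3) (nat_lit 303) (nat_lit 303) (nat_lit 174)) (XT.lf (nat_lit 76) (nat_lit 2627045785) (nat_lit 0) (nat_lit 73929105341) (nat_lit 760) (nat_lit 39998683396) (nat_lit 82) (nat_lit 5) (nat_lit 81) (nat_lit 5) (nat_lit 91) (nat_lit 5) (nat_lit 304) (nat_lit 303) (nat_lit 173))) (XT.nd (nat_lit 78) (nat_lit 0) (nat_lit 0) (XT.lf (nat_lit 0) (nat_lit 82528157458) (nat_lit 684) (nat_lit 32130536435) (nat_lit 760) (nat_lit 6598031362) (nat_lit 82) (nat_lit 5) (nat_lit 91) (nat_lit 5) (nat_lit 92) (nat_lit 5) (nat_lit 305) (nat_lit 303) (nat_lit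 172)) (XT.nd (nat_lit 78) (nat_lit 0) (nat_lit 76) (XT.lf (nat_lit 76) (nat_lit 56780809345) (nat_lit 0) (nat_lit 34329504990) (nat_lit 760) (nat_lit 35117835255) (nat_lit 83) (nat_lit 5) (nat_lit 82) (nat_lit 5) (nat_lit 92) (nat_lit 5) (nat_lit 306) (nat_lit 303) (nat_lit 171)) (XT.lf (nat_lit 76) (nat_lit 22267677194) (nat_lit 0) (nat_lit 79845764196) (nat_lit 760) (nat_lit 29397128311) (nat_lit 84) (nat_lit 5) (nat_lit 83) (nat_lit 5) (nat_lit 93) (nat_lit 5) (nat_lit 307) (nat_lit 303) (nat_lit 170))))))) (XT.nd (nat_lit 780) (nat_lit 1824) (nat_lit 0) (XT.nd (nat_lit 390) (nat_lit 1292) (nat_lit 0) (XT.nd (nat_lit 156) (nat_lit 1064) (nat_lit 0) (XT.nd (nat_lit 78) (nat_lit 0) (nat_lit 0) (XT.lf (nat_lit 0) (nat_lit 115891400147) (nat_lit 684) (nat_lit 14041197817) (nat_lit 760) (nat_lit 7188257962) (nat_lit 84) (nat_lit 5) (nat_lit 93) (nat_lit 5) (nat_lit 94) (nat_lit 5) (nat_lit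 308) (nat_lit 303) (nat_lit 169)) (XT.lf (nat_lit 76) (nat_lit 90320667927) (nat_lit 0) (nat_lit 43206871514) (nat_lit 760) (nat_lit 9514629882) (nat_lit 85) (nat_lit 5) (nat_lit 84) (nat_lit 5) (nat_lit 94) (nat_lit 5) (nat_lit 309) (nat_lit 303) (nat_lit 168))) (XT.nd (nat_lit 78) (nat_lit 380) (nat_lit 0) (XT.lf (nat_lit 0) (nat_lit 4963821988) (nat_lit 760) (nat_lit 94343910907) (nat_lit 76) (nat_lit 50030664235) (nat_lit 75) (nat_lit 5) (nat_lit 85) (nat_lit 5) (nat_lit 76) (nat_lit 5) (nat_lit 310) (nat_lit 303) (nat_lit 167)) (XT.nd (nat_lit 78) (nat_lit 0) (nat_lit 0) (XT.lf (nat_lit 0) (nat_lit 16749620112) (nat_lit 380) (nat_lit 5445024090) (nat_lit 456) (nat_lit 133839509256) (nat_lit 70) (nat_lit 5) (nat_lit 75) (nat_lit 5) (nat_lit 76) (nat_lit 5) (nat_lit 311) (nat_lit 303) (nat_lit 166)) (XT.lf (nat_lit 0) (nat_lit 43971497835) (nat_lit 456) (nat_lit 24608859342) (nat_lit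 76) (nat_lit 94526835941) (nat_lit 70) (nat_lit 5) (nat_lit 76) (nat_lit 5) (nat_lit 71) (nat_lit 5) (nat_lit 312) (nat_lit 303) (nat_lit 165))))) (XT.nd (nat_lit 156) (nat_lit 608) (nat_lit 0) (XT.nd (nat_lit 78) (nat_lit 304) (nat_lit 0) (XT.lf (nat_lit 0) (nat_lit 69700110325) (nat_lit 456) (nat_lit 68753677961) (nat_lit 76) (nat_lit 32181808162) (nat_lit 65) (nat_lit 5) (nat_lit 71) (nat_lit 5) (nat_lit 66) (nat_lit 5) (nat_lit 313) (nat_lit 303) (nat_lit 164)) (XT.lf (nat_lit 0) (nat_lit 61428133747) (nat_lit 304) (nat_lit 38609621917) (nat_lit 380) (nat_lit 78600980137) (nat_lit 61) (nat_lit 5) (nat_lit 65) (nat_lit 5) (nat_lit 66) (nat_lit 5) (nat_lit 314) (nat_lit 303) (nat_lit 163))) (XT.nd (nat_lit 78) (nat_lit 304) (nat_lit 0) (XT.lf (nat_lit 0) (nat_lit 16690815824) (nat_lit 304) (nat_lit 118669830261) (nat_lit 380) (nat_lit 51793569425) (nat_lit 57) (nat_lit 5) (nat_lit 61)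 (nat_lit 5) (nat_lit 62) (nat_lit 5) (nat_lit 315) (nat_lit 303) (nat_lit 162)) (XT.nd (nat_lit 78) (nat_lit 304) (nat_lit 0) (XT.lf (nat_lit 0) (nat_lit 164816935479) (nat_lit 304) (nat_lit 11374329981) (nat_lit 380) (nat_lit 20025574062) (nat_lit 57) (nat_lit 5) (nat_lit 61) (nat_lit 5) (nat_lit 62) (nat_lit 5) (nat_lit 316) (nat_lit 303) (nat_lit 161)) (XT.lf (nat_lit 0) (nat_lit 17405306279) (nat_lit 304) (nat_lit 85078769687) (nat_lit 76) (nat_lit 103330316749) (nat_lit 53) (nat_lit 5) (nat_lit 57) (nat_lit 5) (nat_lit 54) (nat_lit 5) (nat_lit 317) (nat_lit 303) (nat_lit 160)))))) (XT.nd (nat_lit 390) (nat_lit 836) (nat_lit 0) (XT.nd (nat_lit 156) (nat_lit 456) (nat_lit 0) (XT.nd (nat_lit 78) (nat_lit 228) (nat_lit 0) (XT.lf (nat_lit 0) (nat_lit 59205618084) (nat_lit 380) (nat_lit 144499620154) (nat_lit 76) (nat_lit 12354270204) (nat_lit 49) (nat_lit 5) (nat_lit 54) (nat_lit 5) (nat_lit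 50) (nat_lit 5) (nat_lit 318) (nat_lit 303) (nat_lit 159)) (XT.lf (nat_lit 0) (nat_lit 15459696124) (nat_lit 228) (nat_lit 92365702203) (nat_lit 304) (nat_lit 119125063542) (nat_lit 46) (nat_lit 5) (nat_lit 49) (nat_lit 5) (nat_lit 50) (nat_lit 5) (nat_lit 319) (nat_lit 303) (nat_lit 158))) (XT.nd (nat_lit 78) (nat_lit 456) (nat_lit 0) (XT.lf (nat_lit 0) (nat_lit 163328124030) (nat_lit 304) (nat_lit 45687994094) (nat_lit 76) (nat_lit 29546905864) (nat_lit 46) (nat_lit 5) (nat_lit 50) (nat_lit 5) (nat_lit 47) (nat_lit 5) (nat_lit 320) (nat_lit 303) (nat_lit 157)) (XT.nd (nat_lit 78) (nat_lit 228) (nat_lit 0) (XT.lf (nat_lit 0) (nat_lit 136179791873) (nat_lit 228) (nat_lit 90774608773) (nat_lit 304) (nat_lit 23966024316) (nat_lit 43) (nat_lit 5) (nat_lit 46) (nat_lit 5) (nat_lit 47) (nat_lit 5) (nat_lit 321) (nat_lit 303) (nat_lit 156)) (XT.lf (nat_lit 0) (nat_lit 32945001321) (nat_lit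 228) (nat_lit 192965523706) (nat_lit 76) (nat_lit 38204089164) (nat_lit 40) (nat_lit 5) (nat_lit 43) (nat_lit 5) (nat_lit 41) (nat_lit 5) (nat_lit 322) (nat_lit 303) (nat_lit 155))))) (XT.nd (nat_lit 234) (nat_lit 456) (nat_lit 0) (XT.nd (nat_lit 78) (nat_lit 380) (nat_lit 0) (XT.lf (nat_lit 0) (nat_lit 97142333611) (nat_lit 228) (nat_lit 4224909006) (nat_lit 76) (nat_lit 176798798225) (nat_lit 40) (nat_lit 5) (nat_lit 43) (nat_lit 5) (nat_lit 41) (nat_lit 5) (nat_lit 323) (nat_lit 303) (nat_lit 154)) (XT.nd (nat_lit 78) (nat_lit 152) (nat_lit 0) (XT.lf (nat_lit 0) (nat_lit 170264993734) (nat_lit 304) (nat_lit 87535997760) (nat_lit 76) (nat_lit 35351113466) (nat_lit 37) (nat_lit 5) (nat_lit 41) (nat_lit 5) (nat_lit 38) (nat_lit 5) (nat_lit 324) (nat_lit 303) (nat_lit 153)) (XT.lf (nat_lit 0) (nat_lit 125363557172) (nat_lit 152) (nat_lit 127615006385) (nat_lit 228) (nat_lit 56171436176)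 (nat_lit 35) (nat_lit 5) (nat_lit 37) (nat_lit 5) (nat_lit 38) (nat_lit 5) (nat_lit 325) (nat_lit 303) (nat_lit 152)))) (XT.nd (nat_lit 78) (nat_lit 152) (nat_lit 0) (XT.lf (nat_lit 0) (nat_lit 17676258306) (nat_lit 304) (nat_lit 293705290967) (nat_lit 76) (nat_lit 14918625791) (nat_lit 31) (nat_lit 5) (nat_lit 35) (nat_lit 5) (nat_lit 32) (nat_lit 5) (nat_lit 326) (nat_lit 303) (nat_lit 151)) (XT.nd (nat_lit 78) (nat_lit 152) (nat_lit 0) (XT.lf (nat_lit 0) (nat_lit 100895649706) (nat_lit 304) (nat_lit 74964384085) (nat_lit 76) (nat_lit 168644696027) (nat_lit 31) (nat_lit 5) (nat_lit 35) (nat_lit 5) (nat_lit 32) (nat_lit 5) (nat_lit 327) (nat_lit 303) (nat_lit 150)) (XT.lf (nat_lit 0) (nat_lit 166608009347) (nat_lit 152) (nat_lit 26765614932) (nat_lit 228) (nat_lit 170661973360) (nat_lit 29) (nat_lit 5) (nat_lit 31) (nat_lit 5) (nat_lit 32) (nat_lit 5) (nat_lit 328) (nat_lit 303) (nat_lit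 149))))))))
noncomputable def xc116 : XT := (XT.nd (nat_lit 39312) (nat_lit 0) (nat_lit 912) (XT.nd (nat_lit 780) (nat_lit 228) (nat_lit 0) (XT.nd (nat_lit 390) (nat_lit 380) (nat_lit 0) (XT.nd (nat_lit 156) (nat_lit 304) (nat_lit 0) (XT.nd (nat_lit 78) (nat_lit 76) (nat_lit 0) (XT.lf (nat_lit 0) (nat_lit 44423532186) (nat_lit 152) (nat_lit 252943058747) (nat_lit 228) (nat_lit 87556506507) (nat_lit 27) (nat_lit 5) (nat_lit 29) (nat_lit 5) (nat_lit 30) (nat_lit 5) (nat_lit 329) (nat_lit 303) (nat_lit 148)) (XT.lf (nat_lit 0) (nat_lit 6073651713) (nat_lit 228) (nat_lit 95179101057) (nat_lit 76) (nat_lit 306029800083) (nat_lit 26) (nat_lit 5) (nat_lit 29) (nat_lit 5) (nat_lit 27) (nat_lit 5) (nat_lit 330) (nat_lit 303) (nat_lit 147))) (XT.nd (nat_lit 78) (nat_lit 152) (nat_lit 0) (XT.lf (nat_lit 0) (nat_lit 107927516385) (nat_lit 228) (nat_lit 258412046032) (nat_lit 76) (nat_lit 64829392500)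 (nat_lit 24) (nat_lit 5) (nat_lit 27) (nat_lit 5) (nat_lit 25) (nat_lit 5) (nat_lit 331) (nat_lit 303) (nat_lit 146)) (XT.nd (nat_lit 78) (nat_lit 0) (nat_lit 0) (XT.lf (nat_lit 0) (nat_lit 7136936719) (nat_lit 152) (nat_lit 214296473059) (nat_lit 228) (nat_lit 235357673586) (nat_lit 22) (nat_lit 5) (nat_lit 24) (nat_lit 5) (nat_lit 25) (nat_lit 5) (nat_lit 332) (nat_lit 303) (nat_lit 145)) (XT.lf (nat_lit 0) (nat_lit 303157412431) (nat_lit 152) (nat_lit 45363588360) (nat_lit 228) (nat_lit 135716920171) (nat_lit 22) (nat_lit 5) (nat_lit 24) (nat_lit 5) (nat_lit 25) (nat_lit 5) (nat_lit 333) (nat_lit 303) (nat_lit 144))))) (XT.nd (nat_lit 156) (nat_lit 228) (nat_lit 0) (XT.nd (nat_lit 78) (nat_lit 76) (nat_lit 0) (XT.lf (nat_lit 0) (nat_lit 110371096205) (nat_lit 76) (nat_lit 379267833724) (nat_lit 152) (nat_lit 24048409262) (nat_lit 21) (nat_lit 5) (nat_lit 22) (nat_lit 5) (nat_lit 23)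 (nat_lit 4) (nat_lit 334) (nat_lit 303) (nat_lit 143)) (XT.lf (nat_lit 0) (nat_lit 97434062280) (nat_lit 152) (nat_lit 116054153872) (nat_lit 76) (nat_lit 331730581405) (nat_lit 20) (nat_lit 5) (nat_lit 22) (nat_lit 5) (nat_lit 21) (nat_lit 5) (nat_lit 335) (nat_lit 303) (nat_lit 142))) (XT.nd (nat_lit 78) (nat_lit 76) (nat_lit 0) (XT.lf (nat_lit 0) (nat_lit 200190546985) (nat_lit 152) (nat_lit 30738723388) (nat_lit 228) (nat_lit 348166956649) (nat_lit 18) (nat_lit 5) (nat_lit 20) (nat_lit 5) (nat_lit 21) (nat_lit 5) (nat_lit 336) (nat_lit 303) (nat_lit 141)) (XT.nd (nat_lit 78) (nat_lit 76) (nat_lit 0) (XT.lf (nat_lit 0) (nat_lit 379760280368) (nat_lit 228) (nat_lit 72338603406) (nat_lit 76) (nat_lit 163352157934) (nat_lit 18) (nat_lit 5) (nat_lit 21) (nat_lit 5) (nat_lit 19) (nat_lit 4) (nat_lit 337) (nat_lit 303) (nat_lit 140)) (XT.lf (nat_lit 0) (nat_lit 266773770919) (nat_lit 76)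 (nat_lit 278407289422) (nat_lit 152) (nat_lit 109299016886) (nat_lit 17) (nat_lit 5) (nat_lit 18) (nat_lit 5) (nat_lit 19) (nat_lit 4) (nat_lit 338) (nat_lit 303) (nat_lit 139)))))) (XT.nd (nat_lit 38142) (nat_lit 0) (nat_lit 4636) (XT.nd (nat_lit 37908) (nat_lit 0) (nat_lit 5092) (XT.nd (nat_lit 78) (nat_lit 152) (nat_lit 0) (XT.lf (nat_lit 0) (nat_lit 27614011547) (nat_lit 152) (nat_lit 61415676257) (nat_lit 76) (nat_lit 607516479077) (nat_lit 16) (nat_lit 5) (nat_lit 18) (nat_lit 5) (nat_lit 17) (nat_lit 5) (nat_lit 339) (nat_lit 303) (nat_lit 138)) (XT.lf (nat_lit 0) (nat_lit 178275254254) (nat_lit 228) (nat_lit 444866970051) (nat_lit 76) (nat_lit 118414506283) (nat_lit 14) (nat_lit 5) (nat_lit 17) (nat_lit 5) (nat_lit 15) (nat_lit 4) (nat_lit 340) (nat_lit 303) (nat_lit 137))) (XT.nd (nat_lit 78) (nat_lit 0) (nat_lit 0) (XT.lf (nat_lit 0) (nat_lit 19687917607) (nat_lit 0) (nat_lit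 19687917607) (nat_lit 684) (nat_lit 21161735773) (nat_lit 81) (nat_lit 5) (nat_lit 81) (nat_lit 3) (nat_lit 90) (nat_lit 3) (nat_lit 304) (nat_lit 304) (nat_lit 172)) (XT.nd (nat_lit 78) (nat_lit 0) (nat_lit 76) (XT.lf (nat_lit 76) (nat_lit 2845128061) (nat_lit 0) (nat_lit 79849209088) (nat_lit 760) (nat_lit 43184163426) (nat_lit 82) (nat_lit 5) (nat_lit 81) (nat_lit 5) (nat_lit 91) (nat_lit 5) (nat_lit 305) (nat_lit 304) (nat_lit 171)) (XT.lf (nat_lit 0) (nat_lit 89143006134) (nat_lit 684) (nat_lit 34692896488) (nat_lit 760) (nat_lit 7120697506) (nat_lit 82) (nat_lit 5) (nat_lit 91) (nat_lit 5) (nat_lit 92) (nat_lit 5) (nat_lit 306) (nat_lit 304) (nat_lit 170))))) (XT.nd (nat_lit 156) (nat_lit 532) (nat_lit 0) (XT.nd (nat_lit 78) (nat_lit 0) (nat_lit 76) (XT.lf (nat_lit 76) (nat_lit 61331005683) (nat_lit 0) (nat_lit 37079917547) (nat_lit 760) (nat_lit 37914858267) (nat_lit 83) (nat_lit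 5) (nat_lit 82) (nat_lit 5) (nat_lit 92) (nat_lit 5) (nat_lit 307) (nat_lit 304) (nat_lit 169)) (XT.lf (nat_lit 76) (nat_lit 24057140585) (nat_lit 0) (nat_lit 86236354086) (nat_lit 760) (nat_lit 31737343122) (nat_lit 84) (nat_lit 5) (nat_lit 83) (nat_lit 5) (nat_lit 93) (nat_lit 5) (nat_lit 308) (nat_lit 304) (nat_lit 168))) (XT.nd (nat_lit 78) (nat_lit 684) (nat_lit 0) (XT.lf (nat_lit 0) (nat_lit 125172834606) (nat_lit 684) (nat_lit 15156463618) (nat_lit 760) (nat_lit 7760693585) (nat_lit 84) (nat_lit 5) (nat_lit 93) (nat_lit 5) (nat_lit 94) (nat_lit 5) (nat_lit 309) (nat_lit 304) (nat_lit 167)) (XT.nd (nat_lit 78) (nat_lit 684) (nat_lit 0) (XT.lf (nat_lit 76) (nat_lit 97554002410) (nat_lit 0) (nat_lit 46665232745) (nat_lit 760) (nat_lit 10265808577) (nat_lit 85) (nat_lit 5) (nat_lit 84) (nat_lit 5) (nat_lit 94) (nat_lit 5) (nat_lit 310) (nat_lit 304) (nat_lit 166)) (XT.lf (nat_lit 0)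 (nat_lit 5369981189) (nat_lit 760) (nat_lit 101883251082) (nat_lit 76) (nat_lit 54031762345) (nat_lit 75) (nat_lit 5) (nat_lit 85) (nat_lit 5) (nat_lit 76) (nat_lit 5) (nat_lit 311) (nat_lit 304) (nat_lit 165))))))) (XT.nd (nat_lit 780) (nat_lit 1520) (nat_lit 0) (XT.nd (nat_lit 390) (nat_lit 836) (nat_lit 0) (XT.nd (nat_lit 156) (nat_lit 988) (nat_lit 0) (XT.nd (nat_lit 78) (nat_lit 0) (nat_lit 0) (XT.lf (nat_lit 0) (nat_lit 18097407244) (nat_lit 380) (nat_lit 5881313365) (nat_lit 456) (nat_lit 144537719871) (nat_lit 70) (nat_lit 5) (nat_lit 75) (nat_lit 5) (nat_lit 76) (nat_lit 5) (nat_lit 312) (nat_lit 304) (nat_lit 164)) (XT.lf (nat_lit 0) (nat_lit 47497082605) (nat_lit 456) (nat_lit 26569907432) (nat_lit 76) (nat_lit 102088366753) (nat_lit 70) (nat_lit 5) (nat_lit 76) (nat_lit 5) (nat_lit 71) (nat_lit 5) (nat_lit 313) (nat_lit 304) (nat_lit 163))) (XT.nd (nat_lit 78) (nat_lit 608)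 (nat_lit 0) (XT.lf (nat_lit 0) (nat_lit 75283514835) (nat_lit 456) (nat_lit 74246256391) (nat_lit 76) (nat_lit 34756285996) (nat_lit 65) (nat_lit 5) (nat_lit 71) (nat_lit 5) (nat_lit 66) (nat_lit 5) (nat_lit 314) (nat_lit 304) (nat_lit 162)) (XT.nd (nat_lit 78) (nat_lit 304) (nat_lit 0) (XT.lf (nat_lit 0) (nat_lit 66349764934) (nat_lit 304) (nat_lit 41697974269) (nat_lit 380) (nat_lit 84881731422) (nat_lit 61) (nat_lit 5) (nat_lit 65) (nat_lit 5) (nat_lit 66) (nat_lit 5) (nat_lit 315) (nat_lit 304) (nat_lit 161)) (XT.lf (nat_lit 0) (nat_lit 18033482816) (nat_lit 304) (nat_lit 128162583853) (nat_lit 380) (nat_lit 55930142928) (nat_lit 57) (nat_lit 5) (nat_lit 61) (nat_lit 5) (nat_lit 62) (nat_lit 5) (nat_lit 316) (nat_lit 304) (nat_lit 160))))) (XT.nd (nat_lit 156) (nat_lit 532) (nat_lit 0) (XT.nd (nat_lit 78) (nat_lit 304) (nat_lit 0) (XT.lf (nat_lit 0) (nat_lit 178009143767) (nat_lit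 304) (nat_lit 12283505242) (nat_lit 380) (nat_lit 21621219940) (nat_lit 57) (nat_lit 5) (nat_lit 61) (nat_lit 5) (nat_lit 62) (nat_lit 5) (nat_lit 317) (nat_lit 304) (nat_lit 159)) (XT.lf (nat_lit 0) (nat_lit 18803587083) (nat_lit 304) (nat_lit 91878017598) (nat_lit 76) (nat_lit 111597634626) (nat_lit 53) (nat_lit 5) (nat_lit 57) (nat_lit 5) (nat_lit 54) (nat_lit 5) (nat_lit 318) (nat_lit 304) (nat_lit 158))) (XT.nd (nat_lit 78) (nat_lit 228) (nat_lit 0) (XT.lf (nat_lit 0) (nat_lit 63947614410) (nat_lit 380) (nat_lit 156052574171) (nat_lit 76) (nat_lit 13343792073) (nat_lit 49) (nat_lit 5) (nat_lit 54) (nat_lit 5) (nat_lit 50) (nat_lit 5) (nat_lit 319) (nat_lit 304) (nat_lit 157)) (XT.nd (nat_lit 78) (nat_lit 0) (nat_lit 0) (XT.lf (nat_lit 0) (nat_lit 16703182521) (nat_lit 228) (nat_lit 99753488445) (nat_lit 304) (nat_lit 128649555518) (nat_lit 46) (nat_lit 5) (nat_lit 49) (nat_lit 5)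 (nat_lit 50) (nat_lit 5) (nat_lit 320) (nat_lit 304) (nat_lit 156)) (XT.lf (nat_lit 0) (nat_lit 176399247770) (nat_lit 304) (nat_lit 49336589092) (nat_lit 76) (nat_lit 31911975821) (nat_lit 46) (nat_lit 5) (nat_lit 50) (nat_lit 5) (nat_lit 47) (nat_lit 5) (nat_lit 321) (nat_lit 304) (nat_lit 155)))))) (XT.nd (nat_lit 390) (nat_lit 684) (nat_lit 0) (XT.nd (nat_lit 156) (nat_lit 380) (nat_lit 0) (XT.nd (nat_lit 78) (nat_lit 228) (nat_lit 0) (XT.lf (nat_lit 0) (nat_lit 147080339681) (nat_lit 228) (nat_lit 98035022054) (nat_lit 304) (nat_lit 25878457944) (nat_lit 43) (nat_lit 5) (nat_lit 46) (nat_lit 5) (nat_lit 47) (nat_lit 5) (nat_lit 322) (nat_lit 304) (nat_lit 154)) (XT.lf (nat_lit 0) (nat_lit 35585066617) (nat_lit 228) (nat_lit 208396507968) (nat_lit 76) (nat_lit 41261977698) (nat_lit 40) (nat_lit 5) (nat_lit 43) (nat_lit 5) (nat_lit 41) (nat_lit 5) (nat_lit 323) (nat_lit 304) (nat_lit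 153))) (XT.nd (nat_lit 78) (nat_lit 380) (nat_lit 0) (XT.lf (nat_lit 0) (nat_lit 104917854734) (nat_lit 228) (nat_lit 4557107620) (nat_lit 76) (nat_lit 190944147824) (nat_lit 40) (nat_lit 5) (nat_lit 43) (nat_lit 5) (nat_lit 41) (nat_lit 5) (nat_lit 324) (nat_lit 304) (nat_lit 152)) (XT.nd (nat_lit 78) (nat_lit 152) (nat_lit 0) (XT.lf (nat_lit 0) (nat_lit 183890133355) (nat_lit 304) (nat_lit 94533158281) (nat_lit 76) (nat_lit 38180778041) (nat_lit 37) (nat_lit 5) (nat_lit 41) (nat_lit 5) (nat_lit 38) (nat_lit 5) (nat_lit 325) (nat_lit 304) (nat_lit 151)) (XT.lf (nat_lit 0) (nat_lit 135398112491) (nat_lit 152) (nat_lit 137822469825) (nat_lit 228) (nat_lit 60661224532) (nat_lit 35) (nat_lit 5) (nat_lit 37) (nat_lit 5) (nat_lit 38) (nat_lit 5) (nat_lit 326) (nat_lit 304) (nat_lit 150))))) (XT.nd (nat_lit 156) (nat_lit 380) (nat_lit 0) (XT.nd (nat_lit 78) (nat_lit 0) (nat_lit 0) (XT.lf (nat_lit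 0) (nat_lit 19093989370) (nat_lit 304) (nat_lit 317196197223) (nat_lit 76) (nat_lit 16113815506) (nat_lit 31) (nat_lit 5) (nat_lit 35) (nat_lit 5) (nat_lit 32) (nat_lit 5) (nat_lit 327) (nat_lit 304) (nat_lit 149)) (XT.lf (nat_lit 0) (nat_lit 108970663164) (nat_lit 304) (nat_lit 80956426459) (nat_lit 76) (nat_lit 182137845461) (nat_lit 31) (nat_lit 5) (nat_lit 35) (nat_lit 5) (nat_lit 32) (nat_lit 5) (nat_lit 328) (nat_lit 304) (nat_lit 148))) (XT.nd (nat_lit 78) (nat_lit 228) (nat_lit 0) (XT.lf (nat_lit 0) (nat_lit 179941536445) (nat_lit 152) (nat_lit 28905166549) (nat_lit 228) (nat_lit 184311578346) (nat_lit 29) (nat_lit 5) (nat_lit 31) (nat_lit 5) (nat_lit 32) (nat_lit 5) (nat_lit 329) (nat_lit 304) (nat_lit 147)) (XT.nd (nat_lit 78) (nat_lit 76) (nat_lit 0) (XT.lf (nat_lit 0) (nat_lit 47982220383) (nat_lit 152) (nat_lit 273176749962) (nat_lit 228) (nat_lit 94557817958) (nat_lit 27)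 (nat_lit 5) (nat_lit 29) (nat_lit 5) (nat_lit 30) (nat_lit 5) (nat_lit 330) (nat_lit 304) (nat_lit 146)) (XT.lf (nat_lit 0) (nat_lit 6562420109) (nat_lit 228) (nat_lit 102788880575) (nat_lit 76) (nat_lit 330513708769) (nat_lit 26) (nat_lit 5) (nat_lit 29) (nat_lit 5) (nat_lit 27) (nat_lit 5) (nat_lit 331) (nat_lit 304) (nat_lit 145))))))))
noncomputable def xc117 : XT := (XT.nd (nat_lit 39468) (nat_lit 0) (nat_lit 228) (XT.nd (nat_lit 38688) (nat_lit 0) (nat_lit 3344) (XT.nd (nat_lit 390) (nat_lit 228) (nat_lit 0) (XT.nd (nat_lit 156) (nat_lit 152) (nat_lit 0) (XT.nd (nat_lit 78) (nat_lit 152) (nat_lit 0) (XT.lf (nat_lit 0) (nat_lit 116564474117) (nat_lit 228) (nat_lit 279080544023) (nat_lit 76) (nat_lit 70017311817) (nat_lit 24) (nat_lit 5) (nat_lit 27) (nat_lit 5) (nat_lit 25) (nat_lit 5) (nat_lit 332) (nat_lit 304) (nat_lit 144)) (XT.lf (nat_lit 0) (nat_lit 7712163274) (nat_lit 152)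 (nat_lit 231438538220) (nat_lit 228) (nat_lit 254183534323) (nat_lit 22) (nat_lit 5) (nat_lit 24) (nat_lit 5) (nat_lit 25) (nat_lit 5) (nat_lit 333) (nat_lit 304) (nat_lit 143))) (XT.nd (nat_lit 78) (nat_lit 152) (nat_lit 0) (XT.lf (nat_lit 0) (nat_lit 327413960627) (nat_lit 152) (nat_lit 48991145165) (nat_lit 228) (nat_lit 146571724571) (nat_lit 22) (nat_lit 5) (nat_lit 24) (nat_lit 5) (nat_lit 25) (nat_lit 5) (nat_lit 334) (nat_lit 304) (nat_lit 142)) (XT.nd (nat_lit 78) (nat_lit 76) (nat_lit 0) (XT.lf (nat_lit 0) (nat_lit 119204663236) (nat_lit 76) (nat_lit 409607709090) (nat_lit 152) (nat_lit 25969834797) (nat_lit 21) (nat_lit 5) (nat_lit 22) (nat_lit 5) (nat_lit 23) (nat_lit 4) (nat_lit 335) (nat_lit 304) (nat_lit 141)) (XT.lf (nat_lit 0) (nat_lit 105230980671) (nat_lit 152) (nat_lit 125334819209) (nat_lit 76) (nat_lit 358270389339) (nat_lit 20) (nat_lit 5) (nat_lit 22) (nat_lit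 5) (nat_lit 21) (nat_lit 5) (nat_lit 336) (nat_lit 304) (nat_lit 140))))) (XT.nd (nat_lit 156) (nat_lit 76) (nat_lit 0) (XT.nd (nat_lit 78) (nat_lit 0) (nat_lit 0) (XT.lf (nat_lit 0) (nat_lit 216209298355) (nat_lit 152) (nat_lit 33196399346) (nat_lit 228) (nat_lit 376018120909) (nat_lit 18) (nat_lit 5) (nat_lit 20) (nat_lit 5) (nat_lit 21) (nat_lit 5) (nat_lit 337) (nat_lit 304) (nat_lit 139)) (XT.lf (nat_lit 0) (nat_lit 410143054554) (nat_lit 228) (nat_lit 78122365767) (nat_lit 76) (nat_lit 176421605016) (nat_lit 18) (nat_lit 5) (nat_lit 21) (nat_lit 5) (nat_lit 19) (nat_lit 4) (nat_lit 338) (nat_lit 304) (nat_lit 138))) (XT.nd (nat_lit 37986) (nat_lit 0) (nat_lit 4864) (XT.lf (nat_lit 0) (nat_lit 288118853964) (nat_lit 76) (nat_lit 300678548056) (nat_lit 152) (nat_lit 118040986579) (nat_lit 17) (nat_lit 5) (nat_lit 18) (nat_lit 5) (nat_lit 19) (nat_lit 4) (nat_lit 339) (nat_lit 304)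 (nat_lit 137)) (XT.nd (nat_lit 78) (nat_lit 0) (nat_lit 0) (XT.lf (nat_lit 0) (nat_lit 21266117004) (nat_lit 0) (nat_lit 21266117004) (nat_lit 684) (nat_lit 22848009387) (nat_lit 81) (nat_lit 5) (nat_lit 81) (nat_lit 3) (nat_lit 90) (nat_lit 3) (nat_lit 305) (nat_lit 305) (nat_lit 170)) (XT.lf (nat_lit 76) (nat_lit 3079527241) (nat_lit 0) (nat_lit 86242097222) (nat_lit 760) (nat_lit 46626538268) (nat_lit 82) (nat_lit 5) (nat_lit 81) (nat_lit 5) (nat_lit 91) (nat_lit 5) (nat_lit 306) (nat_lit 305) (nat_lit 169)))))) (XT.nd (nat_lit 390) (nat_lit 1596) (nat_lit 0) (XT.nd (nat_lit 156) (nat_lit 0) (nat_lit 76) (XT.nd (nat_lit 78) (nat_lit 0) (nat_lit 0) (XT.lf (nat_lit 0) (nat_lit 96285245732) (nat_lit 684) (nat_lit 37461398456) (nat_lit 760) (nat_lit 7685915408) (nat_lit 82) (nat_lit 5) (nat_lit 91) (nat_lit 5) (nat_lit 92) (nat_lit 5) (nat_lit 307) (nat_lit 305) (nat_lit 168)) (XT.lf (nat_lit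 76) (nat_lit 66244114730) (nat_lit 0) (nat_lit 40049785022) (nat_lit 760) (nat_lit 40937412662) (nat_lit 83) (nat_lit 5) (nat_lit 82) (nat_lit 5) (nat_lit 92) (nat_lit 5) (nat_lit 308) (nat_lit 305) (nat_lit 167))) (XT.nd (nat_lit 78) (nat_lit 0) (nat_lit 76) (XT.lf (nat_lit 76) (nat_lit 25988612736) (nat_lit 0) (nat_lit 93137773347) (nat_lit 760) (nat_lit 34266423632) (nat_lit 84) (nat_lit 5) (nat_lit 83) (nat_lit 5) (nat_lit 93) (nat_lit 5) (nat_lit 309) (nat_lit 305) (nat_lit 166)) (XT.nd (nat_lit 78) (nat_lit 0) (nat_lit 0) (XT.lf (nat_lit 0) (nat_lit 135195339741) (nat_lit 684) (nat_lit 16362096256) (nat_lit 760) (nat_lit 8379298545) (nat_lit 84) (nat_lit 5) (nat_lit 93) (nat_lit 5) (nat_lit 94) (nat_lit 5) (nat_lit 310) (nat_lit 305) (nat_lit 165)) (XT.lf (nat_lit 76) (nat_lit 105364907864) (nat_lit 0) (nat_lit 50400004442) (nat_lit 760) (nat_lit 11078506995) (nat_lit 85) (nat_lit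 5) (nat_lit 84) (nat_lit 5) (nat_lit 94) (nat_lit 5) (nat_lit 311) (nat_lit 305) (nat_lit 164))))) (XT.nd (nat_lit 156) (nat_lit 684) (nat_lit 0) (XT.nd (nat_lit 78) (nat_lit 380) (nat_lit 0) (XT.lf (nat_lit 0) (nat_lit 5807341551) (nat_lit 760) (nat_lit 110026904397) (nat_lit 76) (nat_lit 58353141615) (nat_lit 75) (nat_lit 5) (nat_lit 85) (nat_lit 5) (nat_lit 76) (nat_lit 5) (nat_lit 312) (nat_lit 305) (nat_lit 163)) (XT.lf (nat_lit 0) (nat_lit 19551902089) (nat_lit 380) (nat_lit 6352407723) (nat_lit 456) (nat_lit 156093064171) (nat_lit 70) (nat_lit 5) (nat_lit 75) (nat_lit 5) (nat_lit 76) (nat_lit 5) (nat_lit 313) (nat_lit 305) (nat_lit 162))) (XT.nd (nat_lit 78) (nat_lit 684) (nat_lit 0) (XT.lf (nat_lit 0) (nat_lit 51303592135) (nat_lit 456) (nat_lit 28688932248) (nat_lit 76) (nat_lit 110254907919) (nat_lit 70) (nat_lit 5) (nat_lit 76) (nat_lit 5) (nat_lit 71) (nat_lit 5) (nat_lit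 314) (nat_lit 305) (nat_lit 161)) (XT.nd (nat_lit 78) (nat_lit 304) (nat_lit 0) (XT.lf (nat_lit 0) (nat_lit 81312536629) (nat_lit 456) (nat_lit 80179341842) (nat_lit 76) (nat_lit 37536731590) (nat_lit 65) (nat_lit 5) (nat_lit 71) (nat_lit 5) (nat_lit 66) (nat_lit 5) (nat_lit 315) (nat_lit 305) (nat_lit 160)) (XT.lf (nat_lit 0) (nat_lit 71664073707) (nat_lit 304) (nat_lit 45033454356) (nat_lit 380) (nat_lit 91665988107) (nat_lit 61) (nat_lit 5) (nat_lit 65) (nat_lit 5) (nat_lit 66) (nat_lit 5) (nat_lit 316) (nat_lit 305) (nat_lit 159))))))) (XT.nd (nat_lit 780) (nat_lit 1292) (nat_lit 0) (XT.nd (nat_lit 390) (nat_lit 684) (nat_lit 0) (XT.nd (nat_lit 156) (nat_lit 836) (nat_lit 0) (XT.nd (nat_lit 78) (nat_lit 0) (nat_lit 0) (XT.lf (nat_lit 0) (nat_lit 19482507228) (nat_lit 304) (nat_lit 138414876545) (nat_lit 380) (nat_lit 60398628392) (nat_lit 57) (nat_lit 5) (nat_lit 61) (nat_lit 5) (nat_lit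 62) (nat_lit 5) (nat_lit 317) (nat_lit 305) (nat_lit 158)) (XT.lf (nat_lit 0) (nat_lit 192255750997) (nat_lit 304) (nat_lit 13265524535) (nat_lit 380) (nat_lit 23345430527) (nat_lit 57) (nat_lit 5) (nat_lit 61) (nat_lit 5) (nat_lit 62) (nat_lit 5) (nat_lit 318) (nat_lit 305) (nat_lit 157))) (XT.nd (nat_lit 78) (nat_lit 532) (nat_lit 0) (XT.lf (nat_lit 0) (nat_lit 20312894885) (nat_lit 304) (nat_lit 99222211627) (nat_lit 76) (nat_lit 120526210602) (nat_lit 53) (nat_lit 5) (nat_lit 57) (nat_lit 5) (nat_lit 54) (nat_lit 5) (nat_lit 319) (nat_lit 305) (nat_lit 156)) (XT.nd (nat_lit 78) (nat_lit 228) (nat_lit 0) (XT.lf (nat_lit 0) (nat_lit 69068179118) (nat_lit 380) (nat_lit 168530765362) (nat_lit 76) (nat_lit 14412307315) (nat_lit 49) (nat_lit 5) (nat_lit 54) (nat_lit 5) (nat_lit 50) (nat_lit 5) (nat_lit 320) (nat_lit 305) (nat_lit 155)) (XT.lf (nat_lit 0) (nat_lit 18045190472) (nat_lit 228)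 (nat_lit 107732507288) (nat_lit 304) (nat_lit 138936793359) (nat_lit 46) (nat_lit 5) (nat_lit 49) (nat_lit 5) (nat_lit 50) (nat_lit 5) (nat_lit 321) (nat_lit 305) (nat_lit 154))))) (XT.nd (nat_lit 156) (nat_lit 456) (nat_lit 0) (XT.nd (nat_lit 78) (nat_lit 228) (nat_lit 0) (XT.lf (nat_lit 0) (nat_lit 190515366103) (nat_lit 304) (nat_lit 53277991073) (nat_lit 76) (nat_lit 34466063421) (nat_lit 46) (nat_lit 5) (nat_lit 50) (nat_lit 5) (nat_lit 47) (nat_lit 5) (nat_lit 322) (nat_lit 305) (nat_lit 153)) (XT.lf (nat_lit 0) (nat_lit 158852051885) (nat_lit 228) (nat_lit 105876490296) (nat_lit 304) (nat_lit 27944577928) (nat_lit 43) (nat_lit 5) (nat_lit 46) (nat_lit 5) (nat_lit 47) (nat_lit 5) (nat_lit 323) (nat_lit 305) (nat_lit 152))) (XT.nd (nat_lit 78) (nat_lit 228) (nat_lit 0) (XT.lf (nat_lit 0) (nat_lit 38435700127) (nat_lit 228) (nat_lit 225062863693) (nat_lit 76) (nat_lit 44564274563)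 (nat_lit 40) (nat_lit 5) (nat_lit 43) (nat_lit 5) (nat_lit 41) (nat_lit 5) (nat_lit 324) (nat_lit 305) (nat_lit 151)) (XT.nd (nat_lit 78) (nat_lit 228) (nat_lit 0) (XT.lf (nat_lit 0) (nat_lit 113314827725) (nat_lit 228) (nat_lit 4916708718) (nat_lit 76) (nat_lit 206220919141) (nat_lit 40) (nat_lit 5) (nat_lit 43) (nat_lit 5) (nat_lit 41) (nat_lit 5) (nat_lit 325) (nat_lit 305) (nat_lit 150)) (XT.lf (nat_lit 0) (nat_lit 198604722044) (nat_lit 304) (nat_lit 102090907566) (nat_lit 76) (nat_lit 41236591019) (nat_lit 37) (nat_lit 5) (nat_lit 41) (nat_lit 5) (nat_lit 38) (nat_lit 5) (nat_lit 326) (nat_lit 305) (nat_lit 149)))))) (XT.nd (nat_lit 390) (nat_lit 532) (nat_lit 0) (XT.nd (nat_lit 156) (nat_lit 304) (nat_lit 0) (XT.nd (nat_lit 78) (nat_lit 304) (nat_lit 0) (XT.lf (nat_lit 0) (nat_lit 146234651773) (nat_lit 152) (nat_lit 148846778153) (nat_lit 228) (nat_lit 65510756120) (nat_lit 35)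 (nat_lit 5) (nat_lit 37) (nat_lit 5) (nat_lit 38) (nat_lit 5) (nat_lit 327) (nat_lit 305) (nat_lit 148)) (XT.lf (nat_lit 0) (nat_lit 20624621002) (nat_lit 304) (nat_lit 342567163045) (nat_lit 76) (nat_lit 17404377924) (nat_lit 31) (nat_lit 5) (nat_lit 35) (nat_lit 5) (nat_lit 32) (nat_lit 5) (nat_lit 328) (nat_lit 305) (nat_lit 147))) (XT.nd (nat_lit 78) (nat_lit 304) (nat_lit 0) (XT.lf (nat_lit 0) (nat_lit 117691198145) (nat_lit 304) (nat_lit 87428560987) (nat_lit 76) (nat_lit 196710222336) (nat_lit 31) (nat_lit 5) (nat_lit 35) (nat_lit 5) (nat_lit 32) (nat_lit 5) (nat_lit 329) (nat_lit 305) (nat_lit 146)) (XT.nd (nat_lit 78) (nat_lit 152) (nat_lit 0) (XT.lf (nat_lit 0) (nat_lit 194341048618) (nat_lit 152) (nat_lit 31216124474) (nat_lit 228) (nat_lit 199053630058) (nat_lit 29) (nat_lit 5) (nat_lit 31) (nat_lit 5) (nat_lit 32) (nat_lit 5) (nat_lit 330) (nat_lit 305) (nat_lit 145)) (XT.lf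 (nat_lit 0) (nat_lit 51824918059) (nat_lit 152) (nat_lit 295029386628) (nat_lit 228) (nat_lit 102119692135) (nat_lit 27) (nat_lit 5) (nat_lit 29) (nat_lit 5) (nat_lit 30) (nat_lit 5) (nat_lit 331) (nat_lit 305) (nat_lit 144))))) (XT.nd (nat_lit 234) (nat_lit 152) (nat_lit 0) (XT.nd (nat_lit 78) (nat_lit 304) (nat_lit 0) (XT.lf (nat_lit 0) (nat_lit 7089879646) (nat_lit 228) (nat_lit 111008091359) (nat_lit 76) (nat_lit 356956112638) (nat_lit 26) (nat_lit 5) (nat_lit 29) (nat_lit 5) (nat_lit 27) (nat_lit 5) (nat_lit 332) (nat_lit 305) (nat_lit 143)) (XT.nd (nat_lit 78) (nat_lit 152) (nat_lit 0) (XT.lf (nat_lit 0) (nat_lit 125891995233) (nat_lit 228) (nat_lit 301403158935) (nat_lit 76) (nat_lit 75620040999) (nat_lit 24) (nat_lit 5) (nat_lit 27) (nat_lit 5) (nat_lit 25) (nat_lit 5) (nat_lit 333) (nat_lit 305) (nat_lit 142)) (XT.lf (nat_lit 0) (nat_lit 8332798560) (nat_lit 152) (nat_lit 249952204367)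 (nat_lit 228) (nat_lit 274515856685) (nat_lit 22) (nat_lit 5) (nat_lit 24) (nat_lit 5) (nat_lit 25) (nat_lit 5) (nat_lit 334) (nat_lit 305) (nat_lit 141)))) (XT.nd (nat_lit 78) (nat_lit 152) (nat_lit 0) (XT.lf (nat_lit 0) (nat_lit 353610468425) (nat_lit 152) (nat_lit 52909124825) (nat_lit 228) (nat_lit 158295276997) (nat_lit 22) (nat_lit 5) (nat_lit 24) (nat_lit 5) (nat_lit 25) (nat_lit 5) (nat_lit 335) (nat_lit 305) (nat_lit 140)) (XT.nd (nat_lit 78) (nat_lit 76) (nat_lit 0) (XT.lf (nat_lit 0) (nat_lit 128744362199) (nat_lit 76) (nat_lit 442374995801) (nat_lit 152) (nat_lit 28045323495) (nat_lit 21) (nat_lit 5) (nat_lit 22) (nat_lit 5) (nat_lit 23) (nat_lit 4) (nat_lit 336) (nat_lit 305) (nat_lit 139)) (XT.lf (nat_lit 0) (nat_lit 113651339618) (nat_lit 152) (nat_lit 135358460908) (nat_lit 76) (nat_lit 386933187686) (nat_lit 20) (nat_lit 5) (nat_lit 22) (nat_lit 5) (nat_lit 21) (nat_lit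 5) (nat_lit 337) (nat_lit 305) (nat_lit 138))))))))
noncomputable def xc118 : XT := (XT.nd (nat_lit 39546) (nat_lit 0) (nat_lit 0) (XT.nd (nat_lit 38766) (nat_lit 0) (nat_lit 2128) (XT.nd (nat_lit 38376) (nat_lit 0) (nat_lit 4332) (XT.nd (nat_lit 38142) (nat_lit 0) (nat_lit 4788) (XT.nd (nat_lit 78) (nat_lit 0) (nat_lit 0) (XT.lf (nat_lit 0) (nat_lit 233509049434) (nat_lit 152) (nat_lit 35850892232) (nat_lit 228) (nat_lit 406097691063) (nat_lit 18) (nat_lit 5) (nat_lit 20) (nat_lit 5) (nat_lit 21) (nat_lit 5) (nat_lit 338) (nat_lit 305) (nat_lit 137)) (XT.lf (nat_lit 0) (nat_lit 442956172235) (nat_lit 228) (nat_lit 84369303594) (nat_lit 76) (nat_lit 190536426051) (nat_lit 18) (nat_lit 5) (nat_lit 21) (nat_lit 5) (nat_lit 19) (nat_lit 4) (nat_lit 339) (nat_lit 305) (nat_lit 136))) (XT.nd (nat_lit 78) (nat_lit 0) (nat_lit 0) (XT.lf (nat_lit 0) (nat_lit 22970120689) (nat_lit 0) (nat_lit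 22970120689) (nat_lit 684) (nat_lit 24670135763) (nat_lit 81) (nat_lit 5) (nat_lit 81) (nat_lit 3) (nat_lit 90) (nat_lit 3) (nat_lit 306) (nat_lit 306) (nat_lit 168)) (XT.nd (nat_lit 78) (nat_lit 0) (nat_lit 76) (XT.lf (nat_lit 76) (nat_lit 3331709838) (nat_lit 0) (nat_lit 93145710032) (nat_lit 760) (nat_lit 50346066138) (nat_lit 82) (nat_lit 5) (nat_lit 81) (nat_lit 5) (nat_lit 91) (nat_lit 5) (nat_lit 307) (nat_lit 306) (nat_lit 167)) (XT.lf (nat_lit 0) (nat_lit 103997323884) (nat_lit 684) (nat_lit 40452369188) (nat_lit 760) (nat_lit 8296983859) (nat_lit 82) (nat_lit 5) (nat_lit 91) (nat_lit 5) (nat_lit 92) (nat_lit 5) (nat_lit 308) (nat_lit 306) (nat_lit 166))))) (XT.nd (nat_lit 156) (nat_lit 532) (nat_lit 0) (XT.nd (nat_lit 78) (nat_lit 0) (nat_lit 76) (XT.lf (nat_lit 76) (nat_lit 71549326859) (nat_lit 0) (nat_lit 43256746281) (nat_lit 760) (nat_lit 44203288505) (nat_lit 83) (nat_lit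 5) (nat_lit 82) (nat_lit 5) (nat_lit 92) (nat_lit 5) (nat_lit 309) (nat_lit 306) (nat_lit 165)) (XT.lf (nat_lit 76) (nat_lit 28073618168) (nat_lit 0) (nat_lit 100590947937) (nat_lit 760) (nat_lit 36999243919) (nat_lit 84) (nat_lit 5) (nat_lit 83) (nat_lit 5) (nat_lit 93) (nat_lit 5) (nat_lit 310) (nat_lit 306) (nat_lit 164))) (XT.nd (nat_lit 78) (nat_lit 684) (nat_lit 0) (XT.lf (nat_lit 0) (nat_lit 146018407222) (nat_lit 684) (nat_lit 17665161649) (nat_lit 760) (nat_lit 9047712964) (nat_lit 84) (nat_lit 5) (nat_lit 93) (nat_lit 5) (nat_lit 94) (nat_lit 5) (nat_lit 311) (nat_lit 306) (nat_lit 163)) (XT.nd (nat_lit 78) (nat_lit 684) (nat_lit 0) (XT.lf (nat_lit 76) (nat_lit 113799746294) (nat_lit 0) (nat_lit 54433336311) (nat_lit 760) (nat_lit 11957443360) (nat_lit 85) (nat_lit 5) (nat_lit 84) (nat_lit 5) (nat_lit 94) (nat_lit 5) (nat_lit 312) (nat_lit 306) (nat_lit 162)) (XT.lf (nat_lit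 0) (nat_lit 6278583426) (nat_lit 760) (nat_lit 118823049571) (nat_lit 76) (nat_lit 63020396957) (nat_lit 75) (nat_lit 5) (nat_lit 85) (nat_lit 5) (nat_lit 76) (nat_lit 5) (nat_lit 313) (nat_lit 306) (nat_lit 161)))))) (XT.nd (nat_lit 390) (nat_lit 836) (nat_lit 0) (XT.nd (nat_lit 156) (nat_lit 988) (nat_lit 0) (XT.nd (nat_lit 78) (nat_lit 0) (nat_lit 0) (XT.lf (nat_lit 0) (nat_lit 21121800369) (nat_lit 380) (nat_lit 6861105562) (nat_lit 456) (nat_lit 168573930695) (nat_lit 70) (nat_lit 5) (nat_lit 75) (nat_lit 5) (nat_lit 76) (nat_lit 5) (nat_lit 314) (nat_lit 306) (nat_lit 160)) (XT.lf (nat_lit 0) (nat_lit 55413660474) (nat_lit 456) (nat_lit 30978416017) (nat_lit 76) (nat_lit 119074847728) (nat_lit 70) (nat_lit 5) (nat_lit 76) (nat_lit 5) (nat_lit 71) (nat_lit 5) (nat_lit 315) (nat_lit 306) (nat_lit 159))) (XT.nd (nat_lit 78) (nat_lit 608) (nat_lit 0) (XT.lf (nat_lit 0) (nat_lit 87822975607)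 (nat_lit 456) (nat_lit 86588017841) (nat_lit 76) (nat_lit 40539621004) (nat_lit 65) (nat_lit 5) (nat_lit 71) (nat_lit 5) (nat_lit 66) (nat_lit 5) (nat_lit 316) (nat_lit 306) (nat_lit 158)) (XT.nd (nat_lit 78) (nat_lit 304) (nat_lit 0) (XT.lf (nat_lit 0) (nat_lit 77402624481) (nat_lit 304) (nat_lit 48635823902) (nat_lit 380) (nat_lit 98993881500) (nat_lit 61) (nat_lit 5) (nat_lit 65) (nat_lit 5) (nat_lit 66) (nat_lit 5) (nat_lit 317) (nat_lit 306) (nat_lit 157)) (XT.lf (nat_lit 0) (nat_lit 21046548296) (nat_lit 304) (nat_lit 149487454515) (nat_lit 380) (nat_lit 65225438100) (nat_lit 57) (nat_lit 5) (nat_lit 61) (nat_lit 5) (nat_lit 62) (nat_lit 5) (nat_lit 318) (nat_lit 306) (nat_lit 156))))) (XT.nd (nat_lit 156) (nat_lit 532) (nat_lit 0) (XT.nd (nat_lit 78) (nat_lit 304) (nat_lit 0) (XT.lf (nat_lit 0) (nat_lit 207641248567) (nat_lit 304) (nat_lit 14326199689) (nat_lit 380) (nat_lit 25208360743)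 (nat_lit 57) (nat_lit 5) (nat_lit 61) (nat_lit 5) (nat_lit 62) (nat_lit 5) (nat_lit 319) (nat_lit 306) (nat_lit 155)) (XT.lf (nat_lit 0) (nat_lit 21942231032) (nat_lit 304) (nat_lit 107154803904) (nat_lit 76) (nat_lit 130168963491) (nat_lit 53) (nat_lit 5) (nat_lit 57) (nat_lit 5) (nat_lit 54) (nat_lit 5) (nat_lit 320) (nat_lit 306) (nat_lit 154))) (XT.nd (nat_lit 78) (nat_lit 228) (nat_lit 0) (XT.lf (nat_lit 0) (nat_lit 74597710569) (nat_lit 380) (nat_lit 182008069918) (nat_lit 76) (nat_lit 15566159421) (nat_lit 49) (nat_lit 5) (nat_lit 54) (nat_lit 5) (nat_lit 50) (nat_lit 5) (nat_lit 321) (nat_lit 306) (nat_lit 153)) (XT.nd (nat_lit 78) (nat_lit 0) (nat_lit 0) (XT.lf (nat_lit 0) (nat_lit 19493738280) (nat_lit 228) (nat_lit 116350027425) (nat_lit 304) (nat_lit 150047684529) (nat_lit 46) (nat_lit 5) (nat_lit 49) (nat_lit 5) (nat_lit 50) (nat_lit 5) (nat_lit 322) (nat_lit 306) (nat_lit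 152)) (XT.lf (nat_lit 0) (nat_lit 205760177792) (nat_lit 304) (nat_lit 57535493437) (nat_lit 76) (nat_lit 37224316888) (nat_lit 46) (nat_lit 5) (nat_lit 50) (nat_lit 5) (nat_lit 47) (nat_lit 5) (nat_lit 323) (nat_lit 306) (nat_lit 151))))))) (XT.nd (nat_lit 780) (nat_lit 608) (nat_lit 0) (XT.nd (nat_lit 390) (nat_lit 684) (nat_lit 0) (XT.nd (nat_lit 156) (nat_lit 380) (nat_lit 0) (XT.nd (nat_lit 78) (nat_lit 228) (nat_lit 0) (XT.lf (nat_lit 0) (nat_lit 171564747097) (nat_lit 228) (nat_lit 114345466239) (nat_lit 304) (nat_lit 30176580505) (nat_lit 43) (nat_lit 5) (nat_lit 46) (nat_lit 5) (nat_lit 47) (nat_lit 5) (nat_lit 324) (nat_lit 306) (nat_lit 150)) (XT.lf (nat_lit 0) (nat_lit 41513838184) (nat_lit 228) (nat_lit 243063293240) (nat_lit 76) (nat_lit 48130564204) (nat_lit 40) (nat_lit 5) (nat_lit 43) (nat_lit 5) (nat_lit 41) (nat_lit 5) (nat_lit 325) (nat_lit 306) (nat_lit 149))) (XT.nd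 (nat_lit 78) (nat_lit 380) (nat_lit 0) (XT.lf (nat_lit 0) (nat_lit 122383052876) (nat_lit 228) (nat_lit 5305786575) (nat_lit 76) (nat_lit 222719655335) (nat_lit 40) (nat_lit 5) (nat_lit 43) (nat_lit 5) (nat_lit 41) (nat_lit 5) (nat_lit 326) (nat_lit 306) (nat_lit 148)) (XT.nd (nat_lit 78) (nat_lit 152) (nat_lit 0) (XT.lf (nat_lit 0) (nat_lit 214495995915) (nat_lit 304) (nat_lit 110253976315) (nat_lit 76) (nat_lit 44536676337) (nat_lit 37) (nat_lit 5) (nat_lit 41) (nat_lit 5) (nat_lit 38) (nat_lit 5) (nat_lit 327) (nat_lit 306) (nat_lit 147)) (XT.lf (nat_lit 0) (nat_lit 157937445077) (nat_lit 152) (nat_lit 160753243606) (nat_lit 228) (nat_lit 70748730487) (nat_lit 35) (nat_lit 5) (nat_lit 37) (nat_lit 5) (nat_lit 38) (nat_lit 5) (nat_lit 328) (nat_lit 306) (nat_lit 146))))) (XT.nd (nat_lit 156) (nat_lit 380) (nat_lit 0) (XT.nd (nat_lit 78) (nat_lit 0) (nat_lit 0) (XT.lf (nat_lit 0) (nat_lit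 22277259134) (nat_lit 304) (nat_lit 369968480914) (nat_lit 76) (nat_lit 18797977453) (nat_lit 31) (nat_lit 5) (nat_lit 35) (nat_lit 5) (nat_lit 32) (nat_lit 5) (nat_lit 329) (nat_lit 306) (nat_lit 145)) (XT.lf (nat_lit 0) (nat_lit 127108964786) (nat_lit 304) (nat_lit 94419091075) (nat_lit 76) (nat_lit 212448196878) (nat_lit 31) (nat_lit 5) (nat_lit 35) (nat_lit 5) (nat_lit 32) (nat_lit 5) (nat_lit 330) (nat_lit 306) (nat_lit 144))) (XT.nd (nat_lit 78) (nat_lit 228) (nat_lit 0) (XT.lf (nat_lit 0) (nat_lit 209891924120) (nat_lit 152) (nat_lit 33712166662) (nat_lit 228) (nat_lit 214975455993) (nat_lit 29) (nat_lit 5) (nat_lit 31) (nat_lit 5) (nat_lit 32) (nat_lit 5) (nat_lit 331) (nat_lit 306) (nat_lit 143)) (XT.nd (nat_lit 78) (nat_lit 76) (nat_lit 0) (XT.lf (nat_lit 0) (nat_lit 55974443779) (nat_lit 152) (nat_lit 318630448695) (nat_lit 228) (nat_lit 110286908744) (nat_lit 27) (nat_lit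 5) (nat_lit 29) (nat_lit 5) (nat_lit 30) (nat_lit 5) (nat_lit 332) (nat_lit 306) (nat_lit 142)) (XT.lf (nat_lit 0) (nat_lit 7659184153) (nat_lit 228) (nat_lit 119885395335) (nat_lit 76) (nat_lit 385513722335) (nat_lit 26) (nat_lit 5) (nat_lit 29) (nat_lit 5) (nat_lit 27) (nat_lit 5) (nat_lit 333) (nat_lit 306) (nat_lit 141)))))) (XT.nd (nat_lit 390) (nat_lit 152) (nat_lit 0) (XT.nd (nat_lit 156) (nat_lit 152) (nat_lit 0) (XT.nd (nat_lit 78) (nat_lit 152) (nat_lit 0) (XT.lf (nat_lit 0) (nat_lit 135965380903) (nat_lit 228) (nat_lit 325512129233) (nat_lit 76) (nat_lit 81670796744) (nat_lit 24) (nat_lit 5) (nat_lit 27) (nat_lit 5) (nat_lit 25) (nat_lit 5) (nat_lit 334) (nat_lit 306) (nat_lit 140)) (XT.lf (nat_lit 0) (nat_lit 9002562211) (nat_lit 152) (nat_lit 269947165944) (nat_lit 228) (nat_lit 296475101572) (nat_lit 22) (nat_lit 5) (nat_lit 24) (nat_lit 5) (nat_lit 25) (nat_lit 5) (nat_lit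 335) (nat_lit 306) (nat_lit 139))) (XT.nd (nat_lit 78) (nat_lit 152) (nat_lit 0) (XT.lf (nat_lit 0) (nat_lit 381902213090) (nat_lit 152) (nat_lit 57140730022) (nat_lit 228) (nat_lit 170957025409) (nat_lit 22) (nat_lit 5) (nat_lit 24) (nat_lit 5) (nat_lit 25) (nat_lit 5) (nat_lit 336) (nat_lit 306) (nat_lit 138)) (XT.nd (nat_lit 78) (nat_lit 76) (nat_lit 0) (XT.lf (nat_lit 0) (nat_lit 139046762601) (nat_lit 76) (nat_lit 477763855190) (nat_lit 152) (nat_lit 30287150605) (nat_lit 21) (nat_lit 5) (nat_lit 22) (nat_lit 5) (nat_lit 23) (nat_lit 4) (nat_lit 337) (nat_lit 306) (nat_lit 137)) (XT.lf (nat_lit 0) (nat_lit 122745059008) (nat_lit 152) (nat_lit 146184442446) (nat_lit 76) (nat_lit 417888843387) (nat_lit 20) (nat_lit 5) (nat_lit 22) (nat_lit 5) (nat_lit 21) (nat_lit 5) (nat_lit 338) (nat_lit 306) (nat_lit 136))))) (XT.nd (nat_lit 38220) (nat_lit 0) (nat_lit 4788) (XT.nd (nat_lit 38142)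 (nat_lit 0) (nat_lit 4788) (XT.lf (nat_lit 0) (nat_lit 252192351587) (nat_lit 152) (nat_lit 38717918462) (nat_lit 228) (nat_lit 438583894963) (nat_lit 18) (nat_lit 5) (nat_lit 20) (nat_lit 5) (nat_lit 21) (nat_lit 5) (nat_lit 339) (nat_lit 306) (nat_lit 135)) (XT.lf (nat_lit 0) (nat_lit 24810057440) (nat_lit 0) (nat_lit 24810057440) (nat_lit 684) (nat_lit 26638847468) (nat_lit 81) (nat_lit 5) (nat_lit 81) (nat_lit 3) (nat_lit 90) (nat_lit 3) (nat_lit 307) (nat_lit 307) (nat_lit 166))) (XT.nd (nat_lit 78) (nat_lit 0) (nat_lit 76) (XT.lf (nat_lit 76) (nat_lit 3603236695) (nat_lit 0) (nat_lit 100601006266) (nat_lit 760) (nat_lit 54364667759) (nat_lit 82) (nat_lit 5) (nat_lit 81) (nat_lit 5) (nat_lit 91) (nat_lit 5) (nat_lit 308) (nat_lit 307) (nat_lit 165)) (XT.nd (nat_lit 78) (nat_lit 0) (nat_lit 0) (XT.lf (nat_lit 0) (nat_lit 112325047461) (nat_lit 684) (nat_lit 43683465149) (nat_lit 760)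 (nat_lit 8957480579) (nat_lit 82) (nat_lit 5) (nat_lit 91) (nat_lit 5) (nat_lit 92) (nat_lit 5) (nat_lit 309) (nat_lit 307) (nat_lit 164)) (XT.lf (nat_lit 76) (nat_lit 77278145221) (nat_lit 0) (nat_lit 46719839530) (nat_lit 760) (nat_lit 47731735082) (nat_lit 83) (nat_lit 5) (nat_lit 82) (nat_lit 5) (nat_lit 92) (nat_lit 5) (nat_lit 310) (nat_lit 307) (nat_lit 163))))))))
noncomputable def xc119 : XT := (XT.nd (nat_lit 1560) (nat_lit 760) (nat_lit 0) (XT.nd (nat_lit 780) (nat_lit 1976) (nat_lit 0) (XT.nd (nat_lit 390) (nat_lit 988) (nat_lit 0) (XT.nd (nat_lit 156) (nat_lit 988) (nat_lit 0) (XT.nd (nat_lit 78) (nat_lit 0) (nat_lit 76) (XT.lf (nat_lit 76) (nat_lit 30324579992) (nat_lit 0) (nat_lit 108640069384) (nat_lit 760) (nat_lit 39951901536) (nat_lit 84) (nat_lit 5) (nat_lit 83) (nat_lit 5) (nat_lit 93) (nat_lit 5) (nat_lit 311) (nat_lit 307) (nat_lit 162)) (XT.lf (nat_lit 0) (nat_lit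 157706258658) (nat_lit 684) (nat_lit 19073314303) (nat_lit 760) (nat_lit 9769875797) (nat_lit 84) (nat_lit 5) (nat_lit 93) (nat_lit 5) (nat_lit 94) (nat_lit 5) (nat_lit 312) (nat_lit 307) (nat_lit 161))) (XT.nd (nat_lit 78) (nat_lit 1064) (nat_lit 0) (XT.lf (nat_lit 76) (nat_lit 122908566361) (nat_lit 0) (nat_lit 58789144775) (nat_lit 760) (nat_lit 12907742366) (nat_lit 85) (nat_lit 5) (nat_lit 84) (nat_lit 5) (nat_lit 94) (nat_lit 5) (nat_lit 313) (nat_lit 307) (nat_lit 160)) (XT.nd (nat_lit 78) (nat_lit 380) (nat_lit 0) (XT.lf (nat_lit 0) (nat_lit 6786575304) (nat_lit 760) (nat_lit 128323743351) (nat_lit 76) (nat_lit 68061174816) (nat_lit 75) (nat_lit 5) (nat_lit 85) (nat_lit 5) (nat_lit 76) (nat_lit 5) (nat_lit 314) (nat_lit 307) (nat_lit 159)) (XT.lf (nat_lit 0) (nat_lit 22816470764) (nat_lit 380) (nat_lit 7410427153) (nat_lit 456) (nat_lit 182054205054) (nat_lit 70) (nat_lit 5) (nat_lit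 75) (nat_lit 5) (nat_lit 76) (nat_lit 5) (nat_lit 315) (nat_lit 307) (nat_lit 158))))) (XT.nd (nat_lit 156) (nat_lit 608) (nat_lit 0) (XT.nd (nat_lit 78) (nat_lit 380) (nat_lit 0) (XT.lf (nat_lit 0) (nat_lit 59851709560) (nat_lit 456) (nat_lit 33451861785) (nat_lit 76) (nat_lit 128600447322) (nat_lit 70) (nat_lit 5) (nat_lit 76) (nat_lit 5) (nat_lit 71) (nat_lit 5) (nat_lit 316) (nat_lit 307) (nat_lit 157)) (XT.lf (nat_lit 0) (nat_lit 94853474191) (nat_lit 456) (nat_lit 93510197002) (nat_lit 76) (nat_lit 43782748578) (nat_lit 65) (nat_lit 5) (nat_lit 71) (nat_lit 5) (nat_lit 66) (nat_lit 5) (nat_lit 317) (nat_lit 307) (nat_lit 156))) (XT.nd (nat_lit 78) (nat_lit 304) (nat_lit 0) (XT.lf (nat_lit 0) (nat_lit 83599485399) (nat_lit 304) (nat_lit 52526426780) (nat_lit 380) (nat_lit 106908774688) (nat_lit 61) (nat_lit 5) (nat_lit 65) (nat_lit 5) (nat_lit 66) (nat_lit 5) (nat_lit 318) (nat_lit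 307) (nat_lit 155)) (XT.nd (nat_lit 78) (nat_lit 0) (nat_lit 0) (XT.lf (nat_lit 0) (nat_lit 22734936502) (nat_lit 304) (nat_lit 161445926053) (nat_lit 380) (nat_lit 70439117383) (nat_lit 57) (nat_lit 5) (nat_lit 61) (nat_lit 5) (nat_lit 62) (nat_lit 5) (nat_lit 319) (nat_lit 307) (nat_lit 154)) (XT.lf (nat_lit 0) (nat_lit 224256867289) (nat_lit 304) (nat_lit 15471809717) (nat_lit 380) (nat_lit 27220996487) (nat_lit 57) (nat_lit 5) (nat_lit 61) (nat_lit 5) (nat_lit 62) (nat_lit 5) (nat_lit 320) (nat_lit 307) (nat_lit 153)))))) (XT.nd (nat_lit 390) (nat_lit 912) (nat_lit 0) (XT.nd (nat_lit 156) (nat_lit 456) (nat_lit 0) (XT.nd (nat_lit 78) (nat_lit 304) (nat_lit 0) (XT.lf (nat_lit 0) (nat_lit 23701299978) (nat_lit 304) (nat_lit 115722743212) (nat_lit 76) (nat_lit 140583043020) (nat_lit 53) (nat_lit 5) (nat_lit 57) (nat_lit 5) (nat_lit 54) (nat_lit 5) (nat_lit 321) (nat_lit 307) (nat_lit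 152)) (XT.lf (nat_lit 0) (nat_lit 80569022890) (nat_lit 380) (nat_lit 196564294496) (nat_lit 76) (nat_lit 16812195934) (nat_lit 49) (nat_lit 5) (nat_lit 54) (nat_lit 5) (nat_lit 50) (nat_lit 5) (nat_lit 322) (nat_lit 307) (nat_lit 151))) (XT.nd (nat_lit 78) (nat_lit 228) (nat_lit 0) (XT.lf (nat_lit 0) (nat_lit 21057466226) (nat_lit 228) (nat_lit 125657103311) (nat_lit 304) (nat_lit 162048025098) (nat_lit 46) (nat_lit 5) (nat_lit 49) (nat_lit 5) (nat_lit 50) (nat_lit 5) (nat_lit 323) (nat_lit 307) (nat_lit 150)) (XT.nd (nat_lit 78) (nat_lit 228) (nat_lit 0) (XT.lf (nat_lit 0) (nat_lit 222224063347) (nat_lit 304) (nat_lit 62134271765) (nat_lit 76) (nat_lit 40203092480) (nat_lit 46) (nat_lit 5) (nat_lit 50) (nat_lit 5) (nat_lit 47) (nat_lit 5) (nat_lit 324) (nat_lit 307) (nat_lit 149)) (XT.lf (nat_lit 0) (nat_lit 185293811520) (nat_lit 228) (nat_lit 123492123359) (nat_lit 304) (nat_lit 32587651683)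 (nat_lit 43) (nat_lit 5) (nat_lit 46) (nat_lit 5) (nat_lit 47) (nat_lit 5) (nat_lit 325) (nat_lit 307) (nat_lit 148))))) (XT.nd (nat_lit 156) (nat_lit 684) (nat_lit 0) (XT.nd (nat_lit 78) (nat_lit 0) (nat_lit 0) (XT.lf (nat_lit 0) (nat_lit 44837759066) (nat_lit 228) (nat_lit 262504413328) (nat_lit 76) (nat_lit 51981993288) (nat_lit 40) (nat_lit 5) (nat_lit 43) (nat_lit 5) (nat_lit 41) (nat_lit 5) (nat_lit 326) (nat_lit 307) (nat_lit 147)) (XT.lf (nat_lit 0) (nat_lit 132176302501) (nat_lit 228) (nat_lit 5726598231) (nat_lit 76) (nat_lit 240538138824) (nat_lit 40) (nat_lit 5) (nat_lit 43) (nat_lit 5) (nat_lit 41) (nat_lit 5) (nat_lit 327) (nat_lit 307) (nat_lit 146))) (XT.nd (nat_lit 78) (nat_lit 456) (nat_lit 0) (XT.lf (nat_lit 0) (nat_lit 231658158534) (nat_lit 304) (nat_lit 119070690291) (nat_lit 76) (nat_lit 48100603275) (nat_lit 37) (nat_lit 5) (nat_lit 41) (nat_lit 5) (nat_lit 38)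 (nat_lit 5) (nat_lit 328) (nat_lit 307) (nat_lit 145)) (XT.nd (nat_lit 78) (nat_lit 304) (nat_lit 0) (XT.lf (nat_lit 0) (nat_lit 170575888181) (nat_lit 152) (nat_lit 173612408446) (nat_lit 228) (nat_lit 76406154540) (nat_lit 35) (nat_lit 5) (nat_lit 37) (nat_lit 5) (nat_lit 38) (nat_lit 5) (nat_lit 329) (nat_lit 307) (nat_lit 144)) (XT.lf (nat_lit 0) (nat_lit 24061727633) (nat_lit 304) (nat_lit 399562482728) (nat_lit 76) (nat_lit 20302886718) (nat_lit 31) (nat_lit 5) (nat_lit 35) (nat_lit 5) (nat_lit 32) (nat_lit 5) (nat_lit 330) (nat_lit 307) (nat_lit 143))))))) (XT.nd (nat_lit 39000) (nat_lit 0) (nat_lit 2736) (XT.nd (nat_lit 390) (nat_lit 228) (nat_lit 0) (XT.nd (nat_lit 156) (nat_lit 380) (nat_lit 0) (XT.nd (nat_lit 78) (nat_lit 152) (nat_lit 0) (XT.lf (nat_lit 0) (nat_lit 137279800272) (nat_lit 304) (nat_lit 101969399232) (nat_lit 76) (nat_lit 229445044358) (nat_lit 31) (nat_lit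 5) (nat_lit 35) (nat_lit 5) (nat_lit 32) (nat_lit 5) (nat_lit 331) (nat_lit 307) (nat_lit 142)) (XT.lf (nat_lit 0) (nat_lit 226686357279) (nat_lit 152) (nat_lit 36408070233) (nat_lit 228) (nat_lit 232171379588) (nat_lit 29) (nat_lit 5) (nat_lit 31) (nat_lit 5) (nat_lit 32) (nat_lit 5) (nat_lit 332) (nat_lit 307) (nat_lit 141))) (XT.nd (nat_lit 78) (nat_lit 228) (nat_lit 0) (XT.lf (nat_lit 0) (nat_lit 60455427639) (nat_lit 152) (nat_lit 344119779598) (nat_lit 228) (nat_lit 119107839185) (nat_lit 27) (nat_lit 5) (nat_lit 29) (nat_lit 5) (nat_lit 30) (nat_lit 5) (nat_lit 333) (nat_lit 307) (nat_lit 140)) (XT.nd (nat_lit 78) (nat_lit 152) (nat_lit 0) (XT.lf (nat_lit 0) (nat_lit 8273731416) (nat_lit 228) (nat_lit 129473360594) (nat_lit 76) (nat_lit 416355780929) (nat_lit 26) (nat_lit 5) (nat_lit 29) (nat_lit 5) (nat_lit 27) (nat_lit 5) (nat_lit 334) (nat_lit 307) (nat_lit 139)) (XT.lf (nat_lit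 0) (nat_lit 146844348388) (nat_lit 228) (nat_lit 351550285429) (nat_lit 76) (nat_lit 88205448537) (nat_lit 24) (nat_lit 5) (nat_lit 27) (nat_lit 5) (nat_lit 25) (nat_lit 5) (nat_lit 335) (nat_lit 307) (nat_lit 138))))) (XT.nd (nat_lit 156) (nat_lit 76) (nat_lit 0) (XT.nd (nat_lit 78) (nat_lit 0) (nat_lit 0) (XT.lf (nat_lit 0) (nat_lit 9725459032) (nat_lit 152) (nat_lit 291541897749) (nat_lit 228) (nat_lit 320191374746) (nat_lit 22) (nat_lit 5) (nat_lit 24) (nat_lit 5) (nat_lit 25) (nat_lit 5) (nat_lit 336) (nat_lit 307) (nat_lit 137)) (XT.lf (nat_lit 0) (nat_lit 412456882585) (nat_lit 152) (nat_lit 61711024098) (nat_lit 228) (nat_lit 184631981004) (nat_lit 22) (nat_lit 5) (nat_lit 24) (nat_lit 5) (nat_lit 25) (nat_lit 5) (nat_lit 337) (nat_lit 307) (nat_lit 136))) (XT.nd (nat_lit 38298) (nat_lit 0) (nat_lit 4560) (XT.lf (nat_lit 0) (nat_lit 150172948248) (nat_lit 76) (nat_lit 515983986003)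 (nat_lit 152) (nat_lit 32708580498) (nat_lit 21) (nat_lit 5) (nat_lit 22) (nat_lit 5) (nat_lit 23) (nat_lit 4) (nat_lit 338) (nat_lit 307) (nat_lit 135)) (XT.nd (nat_lit 78) (nat_lit 0) (nat_lit 0) (XT.lf (nat_lit 0) (nat_lit 26796857145) (nat_lit 0) (nat_lit 26796857145) (nat_lit 684) (nat_lit 28765755028) (nat_lit 81) (nat_lit 5) (nat_lit 81) (nat_lit 3) (nat_lit 90) (nat_lit 3) (nat_lit 308) (nat_lit 308) (nat_lit 164)) (XT.lf (nat_lit 76) (nat_lit 3895773812) (nat_lit 0) (nat_lit 108652206993) (nat_lit 760) (nat_lit 58706053398) (nat_lit 82) (nat_lit 5) (nat_lit 81) (nat_lit 5) (nat_lit 91) (nat_lit 5) (nat_lit 309) (nat_lit 308) (nat_lit 163)))))) (XT.nd (nat_lit 390) (nat_lit 1900) (nat_lit 0) (XT.nd (nat_lit 156) (nat_lit 0) (nat_lit 76) (XT.nd (nat_lit 78) (nat_lit 0) (nat_lit 0) (XT.lf (nat_lit 0) (nat_lit 121317856527) (nat_lit 684) (nat_lit 47173775443) (nat_lit 760) (nat_lit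 9671282397) (nat_lit 82) (nat_lit 5) (nat_lit 91) (nat_lit 5) (nat_lit 92) (nat_lit 5) (nat_lit 310) (nat_lit 308) (nat_lit 162)) (XT.lf (nat_lit 76) (nat_lit 83464573976) (nat_lit 0) (nat_lit 50459615947) (nat_lit 760) (nat_lit 51543572496) (nat_lit 83) (nat_lit 5) (nat_lit 82) (nat_lit 5) (nat_lit 92) (nat_lit 5) (nat_lit 311) (nat_lit 308) (nat_lit 161))) (XT.nd (nat_lit 78) (nat_lit 0) (nat_lit 76) (XT.lf (nat_lit 76) (nat_lit 32754895132) (nat_lit 0) (nat_lit 117332857249) (nat_lit 760) (nat_lit 43141810607) (nat_lit 84) (nat_lit 5) (nat_lit 83) (nat_lit 5) (nat_lit 93) (nat_lit 5) (nat_lit 312) (nat_lit 308) (nat_lit 160)) (XT.nd (nat_lit 78) (nat_lit 0) (nat_lit 0) (XT.lf (nat_lit 0) (nat_lit 170328228194) (nat_lit 684) (nat_lit 20594841076) (nat_lit 760) (nat_lit 10550047647) (nat_lit 84) (nat_lit 5) (nat_lit 93) (nat_lit 5) (nat_lit 94) (nat_lit 5) (nat_lit 313) (nat_lit 308)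 (nat_lit 159)) (XT.lf (nat_lit 76) (nat_lit 132745401502) (nat_lit 0) (nat_lit 63493255059) (nat_lit 760) (nat_lit 13934963553) (nat_lit 85) (nat_lit 5) (nat_lit 84) (nat_lit 5) (nat_lit 94) (nat_lit 5) (nat_lit 314) (nat_lit 308) (nat_lit 158))))) (XT.nd (nat_lit 234) (nat_lit 988) (nat_lit 0) (XT.nd (nat_lit 78) (nat_lit 380) (nat_lit 0) (XT.lf (nat_lit 0) (nat_lit 7334392622) (nat_lit 760) (nat_lit 138585227364) (nat_lit 76) (nat_lit 73505336722) (nat_lit 75) (nat_lit 5) (nat_lit 85) (nat_lit 5) (nat_lit 76) (nat_lit 5) (nat_lit 315) (nat_lit 308) (nat_lit 157)) (XT.nd (nat_lit 78) (nat_lit 0) (nat_lit 0) (XT.lf (nat_lit 0) (nat_lit 24646011990) (nat_lit 380) (nat_lit 8003632677) (nat_lit 456) (nat_lit 196613705984) (nat_lit 70) (nat_lit 5) (nat_lit 75) (nat_lit 5) (nat_lit 76) (nat_lit 5) (nat_lit 316) (nat_lit 308) (nat_lit 156)) (XT.lf (nat_lit 0) (nat_lit 64644095509) (nat_lit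 456) (nat_lit 36123871913) (nat_lit 76) (nat_lit 138888150268) (nat_lit 70) (nat_lit 5) (nat_lit 76) (nat_lit 5) (nat_lit 71) (nat_lit 5) (nat_lit 317) (nat_lit 308) (nat_lit 155)))) (XT.nd (nat_lit 78) (nat_lit 608) (nat_lit 0) (XT.lf (nat_lit 0) (nat_lit 102445747784) (nat_lit 456) (nat_lit 100986844152) (nat_lit 76) (nat_lit 47285332365) (nat_lit 65) (nat_lit 5) (nat_lit 71) (nat_lit 5) (nat_lit 66) (nat_lit 5) (nat_lit 318) (nat_lit 308) (nat_lit 154)) (XT.nd (nat_lit 78) (nat_lit 304) (nat_lit 0) (XT.lf (nat_lit 0) (nat_lit 90291431678) (nat_lit 304) (nat_lit 56728315414) (nat_lit 380) (nat_lit 115457518045) (nat_lit 61) (nat_lit 5) (nat_lit 65) (nat_lit 5) (nat_lit 66) (nat_lit 5) (nat_lit 319) (nat_lit 308) (nat_lit 153)) (XT.lf (nat_lit 0) (nat_lit 24557730344) (nat_lit 304) (nat_lit 174361150185) (nat_lit 380) (nat_lit 76070512408) (nat_lit 57) (nat_lit 5) (nat_lit 61) (nat_lit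 5) (nat_lit 62) (nat_lit 5) (nat_lit 320) (nat_lit 308) (nat_lit 152))))))))
noncomputable def xc120 : XT := (XT.nd (nat_lit 39936) (nat_lit 0) (nat_lit 988) (XT.nd (nat_lit 780) (nat_lit 988) (nat_lit 0) (XT.nd (nat_lit 390) (nat_lit 836) (nat_lit 0) (XT.nd (nat_lit 156) (nat_lit 532) (nat_lit 0) (XT.nd (nat_lit 78) (nat_lit 304) (nat_lit 0) (XT.lf (nat_lit 0) (nat_lit 242201119377) (nat_lit 304) (nat_lit 16709137872) (nat_lit 380) (nat_lit 29395218460) (nat_lit 57) (nat_lit 5) (nat_lit 61) (nat_lit 5) (nat_lit 62) (nat_lit 5) (nat_lit 321) (nat_lit 308) (nat_lit 151)) (XT.lf (nat_lit 0) (nat_lit 25600567954) (nat_lit 304) (nat_lit 124976751794) (nat_lit 76) (nat_lit 151830168671) (nat_lit 53) (nat_lit 5) (nat_lit 57) (nat_lit 5) (nat_lit 54) (nat_lit 5) (nat_lit 322) (nat_lit 308) (nat_lit 150))) (XT.nd (nat_lit 78) (nat_lit 228) (nat_lit 0) (XT.lf (nat_lit 0) (nat_lit 87017541527)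 (nat_lit 380) (nat_lit 212285647747) (nat_lit 76) (nat_lit 18157809262) (nat_lit 49) (nat_lit 5) (nat_lit 54) (nat_lit 5) (nat_lit 50) (nat_lit 5) (nat_lit 323) (nat_lit 308) (nat_lit 149)) (XT.nd (nat_lit 78) (nat_lit 0) (nat_lit 0) (XT.lf (nat_lit 0) (nat_lit 22745689110) (nat_lit 228) (nat_lit 135708877416) (nat_lit 304) (nat_lit 175008888545) (nat_lit 46) (nat_lit 5) (nat_lit 49) (nat_lit 5) (nat_lit 50) (nat_lit 5) (nat_lit 324) (nat_lit 308) (nat_lit 148)) (XT.lf (nat_lit 0) (nat_lit 240004621586) (nat_lit 304) (nat_lit 67101531727) (nat_lit 76) (nat_lit 43420051677) (nat_lit 46) (nat_lit 5) (nat_lit 50) (nat_lit 5) (nat_lit 47) (nat_lit 5) (nat_lit 325) (nat_lit 308) (nat_lit 147))))) (XT.nd (nat_lit 156) (nat_lit 380) (nat_lit 0) (XT.nd (nat_lit 78) (nat_lit 228) (nat_lit 0) (XT.lf (nat_lit 0) (nat_lit 200120646906) (nat_lit 228) (nat_lit 133370652882) (nat_lit 304) (nat_lit 35192044422)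 (nat_lit 43) (nat_lit 5) (nat_lit 46) (nat_lit 5) (nat_lit 47) (nat_lit 5) (nat_lit 326) (nat_lit 308) (nat_lit 146)) (XT.lf (nat_lit 0) (nat_lit 48427192194) (nat_lit 228) (nat_lit 283501385589) (nat_lit 76) (nat_lit 56141396327) (nat_lit 40) (nat_lit 5) (nat_lit 43) (nat_lit 5) (nat_lit 41) (nat_lit 5) (nat_lit 327) (nat_lit 308) (nat_lit 145))) (XT.nd (nat_lit 78) (nat_lit 380) (nat_lit 0) (XT.lf (nat_lit 0) (nat_lit 142752640407) (nat_lit 228) (nat_lit 6181595714) (nat_lit 76) (nat_lit 259781971019) (nat_lit 40) (nat_lit 5) (nat_lit 43) (nat_lit 5) (nat_lit 41) (nat_lit 5) (nat_lit 328) (nat_lit 308) (nat_lit 144)) (XT.nd (nat_lit 78) (nat_lit 152) (nat_lit 0) (XT.lf (nat_lit 0) (nat_lit 250192939942) (nat_lit 304) (nat_lit 128593255555) (nat_lit 76) (nat_lit 51949502729) (nat_lit 37) (nat_lit 5) (nat_lit 41) (nat_lit 5) (nat_lit 38) (nat_lit 5) (nat_lit 329) (nat_lit 308) (nat_lit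 143)) (XT.lf (nat_lit 0) (nat_lit 184224914909) (nat_lit 152) (nat_lit 187500462636) (nat_lit 228) (nat_lit 82516525517) (nat_lit 35) (nat_lit 5) (nat_lit 37) (nat_lit 5) (nat_lit 38) (nat_lit 5) (nat_lit 330) (nat_lit 308) (nat_lit 142)))))) (XT.nd (nat_lit 390) (nat_lit 304) (nat_lit 0) (XT.nd (nat_lit 156) (nat_lit 380) (nat_lit 0) (XT.nd (nat_lit 78) (nat_lit 0) (nat_lit 0) (XT.lf (nat_lit 0) (nat_lit 25988627235) (nat_lit 304) (nat_lit 431524500671) (nat_lit 76) (nat_lit 21928035924) (nat_lit 31) (nat_lit 5) (nat_lit 35) (nat_lit 5) (nat_lit 32) (nat_lit 5) (nat_lit 331) (nat_lit 308) (nat_lit 141)) (XT.lf (nat_lit 0) (nat_lit 148264000397) (nat_lit 304) (nat_lit 110124191287) (nat_lit 76) (nat_lit 247801498156) (nat_lit 31) (nat_lit 5) (nat_lit 35) (nat_lit 5) (nat_lit 32) (nat_lit 5) (nat_lit 332) (nat_lit 308) (nat_lit 140))) (XT.nd (nat_lit 78) (nat_lit 228) (nat_lit 0) (XT.lf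 (nat_lit 0) (nat_lit 244823905805) (nat_lit 152) (nat_lit 39319798703) (nat_lit 228) (nat_lit 250743278497) (nat_lit 29) (nat_lit 5) (nat_lit 31) (nat_lit 5) (nat_lit 32) (nat_lit 5) (nat_lit 333) (nat_lit 308) (nat_lit 139)) (XT.nd (nat_lit 78) (nat_lit 76) (nat_lit 0) (XT.lf (nat_lit 0) (nat_lit 65294458177) (nat_lit 152) (nat_lit 371648414612) (nat_lit 228) (nat_lit 128634732560) (nat_lit 27) (nat_lit 5) (nat_lit 29) (nat_lit 5) (nat_lit 30) (nat_lit 5) (nat_lit 334) (nat_lit 308) (nat_lit 138)) (XT.lf (nat_lit 0) (nat_lit 8937183883) (nat_lit 228) (nat_lit 139828771992) (nat_lit 76) (nat_lit 449665067140) (nat_lit 26) (nat_lit 5) (nat_lit 29) (nat_lit 5) (nat_lit 27) (nat_lit 5) (nat_lit 335) (nat_lit 308) (nat_lit 137))))) (XT.nd (nat_lit 38532) (nat_lit 0) (nat_lit 4484) (XT.nd (nat_lit 156) (nat_lit 152) (nat_lit 0) (XT.lf (nat_lit 0) (nat_lit 158593385468) (nat_lit 228) (nat_lit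 379671895589) (nat_lit 76) (nat_lit 95262731517) (nat_lit 24) (nat_lit 5) (nat_lit 27) (nat_lit 5) (nat_lit 25) (nat_lit 5) (nat_lit 336) (nat_lit 308) (nat_lit 136)) (XT.lf (nat_lit 0) (nat_lit 445455570064) (nat_lit 152) (nat_lit 66647079273) (nat_lit 228) (nat_lit 199401162224) (nat_lit 22) (nat_lit 5) (nat_lit 24) (nat_lit 5) (nat_lit 25) (nat_lit 5) (nat_lit 338) (nat_lit 308) (nat_lit 134))) (XT.nd (nat_lit 78) (nat_lit 0) (nat_lit 0) (XT.lf (nat_lit 0) (nat_lit 28942316202) (nat_lit 0) (nat_lit 28942316202) (nat_lit 684) (nat_lit 31063414404) (nat_lit 81) (nat_lit 5) (nat_lit 81) (nat_lit 3) (nat_lit 90) (nat_lit 3) (nat_lit 309) (nat_lit 309) (nat_lit 162)) (XT.nd (nat_lit 78) (nat_lit 0) (nat_lit 76) (XT.lf (nat_lit 76) (nat_lit 4211103567) (nat_lit 0) (nat_lit 117347058643) (nat_lit 760) (nat_lit 63395860902) (nat_lit 82) (nat_lit 5) (nat_lit 81) (nat_lit 5) (nat_lit 91) (nat_lit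 5) (nat_lit 310) (nat_lit 309) (nat_lit 161)) (XT.lf (nat_lit 0) (nat_lit 131029119471) (nat_lit 684) (nat_lit 50943933549) (nat_lit 760) (nat_lit 10442587331) (nat_lit 82) (nat_lit 5) (nat_lit 91) (nat_lit 5) (nat_lit 92) (nat_lit 5) (nat_lit 311) (nat_lit 309) (nat_lit 160))))))) (XT.nd (nat_lit 780) (nat_lit 1672) (nat_lit 0) (XT.nd (nat_lit 390) (nat_lit 1368) (nat_lit 0) (XT.nd (nat_lit 156) (nat_lit 532) (nat_lit 0) (XT.nd (nat_lit 78) (nat_lit 0) (nat_lit 76) (XT.lf (nat_lit 76) (nat_lit 90145321116) (nat_lit 0) (nat_lit 54498262156) (nat_lit 760) (nat_lit 55661312933) (nat_lit 83) (nat_lit 5) (nat_lit 82) (nat_lit 5) (nat_lit 92) (nat_lit 5) (nat_lit 312) (nat_lit 309) (nat_lit 159)) (XT.lf (nat_lit 76) (nat_lit 35379015086) (nat_lit 0) (nat_lit 126720842409) (nat_lit 760) (nat_lit 46587803044) (nat_lit 84) (nat_lit 5) (nat_lit 83) (nat_lit 5) (nat_lit 93) (nat_lit 5) (nat_lit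 313) (nat_lit 309) (nat_lit 158))) (XT.nd (nat_lit 78) (nat_lit 684) (nat_lit 0) (XT.lf (nat_lit 0) (nat_lit 183959175101) (nat_lit 684) (nat_lit 22238708907) (nat_lit 760) (nat_lit 11392835569) (nat_lit 84) (nat_lit 5) (nat_lit 93) (nat_lit 5) (nat_lit 94) (nat_lit 5) (nat_lit 314) (nat_lit 309) (nat_lit 157)) (XT.nd (nat_lit 78) (nat_lit 684) (nat_lit 0) (XT.lf (nat_lit 76) (nat_lit 143368591434) (nat_lit 0) (nat_lit 68573554544) (nat_lit 760) (nat_lit 15045132549) (nat_lit 85) (nat_lit 5) (nat_lit 84) (nat_lit 5) (nat_lit 94) (nat_lit 5) (nat_lit 315) (nat_lit 309) (nat_lit 156)) (XT.lf (nat_lit 0) (nat_lit 7925337527) (nat_lit 760) (nat_lit 149668260012) (nat_lit 76) (nat_lit 79385136020) (nat_lit 75) (nat_lit 5) (nat_lit 85) (nat_lit 5) (nat_lit 76) (nat_lit 5) (nat_lit 316) (nat_lit 309) (nat_lit 155))))) (XT.nd (nat_lit 156) (nat_lit 988) (nat_lit 0) (XT.nd (nat_lit 78) (nat_lit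 0) (nat_lit 0) (XT.lf (nat_lit 0) (nat_lit 26621313975) (nat_lit 380) (nat_lit 8644241666) (nat_lit 456) (nat_lit 212338656823) (nat_lit 70) (nat_lit 5) (nat_lit 75) (nat_lit 5) (nat_lit 76) (nat_lit 5) (nat_lit 317) (nat_lit 309) (nat_lit 154)) (XT.lf (nat_lit 0) (nat_lit 69819266140) (nat_lit 456) (nat_lit 39010233300) (nat_lit 76) (nat_lit 149998916934) (nat_lit 70) (nat_lit 5) (nat_lit 76) (nat_lit 5) (nat_lit 71) (nat_lit 5) (nat_lit 318) (nat_lit 309) (nat_lit 153))) (XT.nd (nat_lit 78) (nat_lit 608) (nat_lit 0) (XT.lf (nat_lit 0) (nat_lit 110644833239) (nat_lit 456) (nat_lit 109062217773) (nat_lit 76) (nat_lit 51068128004) (nat_lit 65) (nat_lit 5) (nat_lit 71) (nat_lit 5) (nat_lit 66) (nat_lit 5) (nat_lit 319) (nat_lit 309) (nat_lit 152)) (XT.nd (nat_lit 78) (nat_lit 304) (nat_lit 0) (XT.lf (nat_lit 0) (nat_lit 97518164806) (nat_lit 304) (nat_lit 61266387309) (nat_lit 380) (nat_lit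 124690725612) (nat_lit 61) (nat_lit 5) (nat_lit 65) (nat_lit 5) (nat_lit 66) (nat_lit 5) (nat_lit 320) (nat_lit 309) (nat_lit 151)) (XT.lf (nat_lit 0) (nat_lit 26525777203) (nat_lit 304) (nat_lit 188309656439) (nat_lit 380) (nat_lit 82152951784) (nat_lit 57) (nat_lit 5) (nat_lit 61) (nat_lit 5) (nat_lit 62) (nat_lit 5) (nat_lit 321) (nat_lit 309) (nat_lit 150)))))) (XT.nd (nat_lit 390) (nat_lit 836) (nat_lit 0) (XT.nd (nat_lit 156) (nat_lit 532) (nat_lit 0) (XT.nd (nat_lit 78) (nat_lit 304) (nat_lit 0) (XT.lf (nat_lit 0) (nat_lit 261580383401) (nat_lit 304) (nat_lit 18045511716) (nat_lit 380) (nat_lit 31743871477) (nat_lit 57) (nat_lit 5) (nat_lit 61) (nat_lit 5) (nat_lit 62) (nat_lit 5) (nat_lit 322) (nat_lit 309) (nat_lit 149)) (XT.lf (nat_lit 0) (nat_lit 27651325991) (nat_lit 304) (nat_lit 134971624727) (nat_lit 76) (nat_lit 163976995582) (nat_lit 53) (nat_lit 5) (nat_lit 57) (nat_lit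 5) (nat_lit 54) (nat_lit 5) (nat_lit 323) (nat_lit 309) (nat_lit 148))) (XT.nd (nat_lit 78) (nat_lit 228) (nat_lit 0) (XT.lf (nat_lit 0) (nat_lit 93981514128) (nat_lit 380) (nat_lit 229265249989) (nat_lit 76) (nat_lit 19610980688) (nat_lit 49) (nat_lit 5) (nat_lit 54) (nat_lit 5) (nat_lit 50) (nat_lit 5) (nat_lit 324) (nat_lit 309) (nat_lit 147)) (XT.nd (nat_lit 78) (nat_lit 0) (nat_lit 0) (XT.lf (nat_lit 0) (nat_lit 24568452595) (nat_lit 228) (nat_lit 146564906746) (nat_lit 304) (nat_lit 189007045993) (nat_lit 46) (nat_lit 5) (nat_lit 49) (nat_lit 5) (nat_lit 50) (nat_lit 5) (nat_lit 325) (nat_lit 309) (nat_lit 146)) (XT.lf (nat_lit 0) (nat_lit 259207248834) (nat_lit 304) (nat_lit 72466669201) (nat_lit 76) (nat_lit 46894266063) (nat_lit 46) (nat_lit 5) (nat_lit 50) (nat_lit 5) (nat_lit 47) (nat_lit 5) (nat_lit 326) (nat_lit 309) (nat_lit 145))))) (XT.nd (nat_lit 156) (nat_lit 380) (nat_lit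 0) (XT.nd (nat_lit 78) (nat_lit 228) (nat_lit 0) (XT.lf (nat_lit 0) (nat_lit 216133153996) (nat_lit 228) (nat_lit 144039584652) (nat_lit 304) (nat_lit 38005162267) (nat_lit 43) (nat_lit 5) (nat_lit 46) (nat_lit 5) (nat_lit 47) (nat_lit 5) (nat_lit 327) (nat_lit 309) (nat_lit 144)) (XT.lf (nat_lit 0) (nat_lit 52303435817) (nat_lit 228) (nat_lit 306178597941) (nat_lit 76) (nat_lit 60633431264) (nat_lit 40) (nat_lit 5) (nat_lit 43) (nat_lit 5) (nat_lit 41) (nat_lit 5) (nat_lit 328) (nat_lit 309) (nat_lit 143))) (XT.nd (nat_lit 78) (nat_lit 380) (nat_lit 0) (XT.lf (nat_lit 0) (nat_lit 154174766683) (nat_lit 228) (nat_lit 6673439579) (nat_lit 76) (nat_lit 280565198359) (nat_lit 40) (nat_lit 5) (nat_lit 43) (nat_lit 5) (nat_lit 41) (nat_lit 5) (nat_lit 329) (nat_lit 309) (nat_lit 142)) (XT.nd (nat_lit 78) (nat_lit 152) (nat_lit 0) (XT.lf (nat_lit 0) (nat_lit 270210200176) (nat_lit 304) (nat_lit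 138878066857) (nat_lit 76) (nat_lit 56106192707) (nat_lit 37) (nat_lit 5) (nat_lit 41) (nat_lit 5) (nat_lit 38) (nat_lit 5) (nat_lit 330) (nat_lit 309) (nat_lit 141)) (XT.lf (nat_lit 0) (nat_lit 198965442116) (nat_lit 152) (nat_lit 202499695047) (nat_lit 228) (nat_lit 89116028811) (nat_lit 35) (nat_lit 5) (nat_lit 37) (nat_lit 5) (nat_lit 38) (nat_lit 5) (nat_lit 331) (nat_lit 309) (nat_lit 140))))))))
noncomputable def xc121 : XT := (XT.nd (nat_lit 39936) (nat_lit 0) (nat_lit 152) (XT.nd (nat_lit 39156) (nat_lit 0) (nat_lit 2660) (XT.nd (nat_lit 390) (nat_lit 304) (nat_lit 0) (XT.nd (nat_lit 156) (nat_lit 380) (nat_lit 0) (XT.nd (nat_lit 78) (nat_lit 0) (nat_lit 0) (XT.lf (nat_lit 0) (nat_lit 28069398992) (nat_lit 304) (nat_lit 466043905277) (nat_lit 76) (nat_lit 23683066066) (nat_lit 31) (nat_lit 5) (nat_lit 35) (nat_lit 5) (nat_lit 32) (nat_lit 5) (nat_lit 332) (nat_lit 309) (nat_lit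 139)) (XT.lf (nat_lit 0) (nat_lit 160126677445) (nat_lit 304) (nat_lit 118931760434) (nat_lit 76) (nat_lit 267626346960) (nat_lit 31) (nat_lit 5) (nat_lit 35) (nat_lit 5) (nat_lit 32) (nat_lit 5) (nat_lit 333) (nat_lit 309) (nat_lit 138))) (XT.nd (nat_lit 78) (nat_lit 228) (nat_lit 0) (XT.lf (nat_lit 0) (nat_lit 264412081594) (nat_lit 152) (nat_lit 42464596292) (nat_lit 228) (nat_lit 270801187743) (nat_lit 29) (nat_lit 5) (nat_lit 31) (nat_lit 5) (nat_lit 32) (nat_lit 5) (nat_lit 334) (nat_lit 309) (nat_lit 137)) (XT.nd (nat_lit 78) (nat_lit 76) (nat_lit 0) (XT.lf (nat_lit 0) (nat_lit 70520240764) (nat_lit 152) (nat_lit 401379475579) (nat_lit 228) (nat_lit 138924024745) (nat_lit 27) (nat_lit 5) (nat_lit 29) (nat_lit 5) (nat_lit 30) (nat_lit 5) (nat_lit 335) (nat_lit 309) (nat_lit 136)) (XT.lf (nat_lit 0) (nat_lit 9653490858) (nat_lit 228) (nat_lit 151012966885) (nat_lit 76) (nat_lit 485638978734)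 (nat_lit 26) (nat_lit 5) (nat_lit 29) (nat_lit 5) (nat_lit 27) (nat_lit 5) (nat_lit 336) (nat_lit 309) (nat_lit 135))))) (XT.nd (nat_lit 38532) (nat_lit 0) (nat_lit 4484) (XT.nd (nat_lit 78) (nat_lit 152) (nat_lit 0) (XT.lf (nat_lit 0) (nat_lit 171282133062) (nat_lit 228) (nat_lit 410043578758) (nat_lit 76) (nat_lit 102884476288) (nat_lit 24) (nat_lit 5) (nat_lit 27) (nat_lit 5) (nat_lit 25) (nat_lit 5) (nat_lit 337) (nat_lit 309) (nat_lit 134)) (XT.lf (nat_lit 0) (nat_lit 11348246448) (nat_lit 152) (nat_lit 340052739696) (nat_lit 228) (nat_lit 373468337825) (nat_lit 22) (nat_lit 5) (nat_lit 24) (nat_lit 5) (nat_lit 25) (nat_lit 5) (nat_lit 338) (nat_lit 309) (nat_lit 133))) (XT.nd (nat_lit 78) (nat_lit 0) (nat_lit 0) (XT.lf (nat_lit 0) (nat_lit 31259167964) (nat_lit 0) (nat_lit 31259167964) (nat_lit 684) (nat_lit 33545400257) (nat_lit 81) (nat_lit 5) (nat_lit 81) (nat_lit 3) (nat_lit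 90) (nat_lit 3) (nat_lit 310) (nat_lit 310) (nat_lit 160)) (XT.nd (nat_lit 78) (nat_lit 0) (nat_lit 76) (XT.lf (nat_lit 76) (nat_lit 4551136443) (nat_lit 0) (nat_lit 126737116794) (nat_lit 760) (nat_lit 68461805521) (nat_lit 82) (nat_lit 5) (nat_lit 81) (nat_lit 5) (nat_lit 91) (nat_lit 5) (nat_lit 311) (nat_lit 310) (nat_lit 159)) (XT.lf (nat_lit 0) (nat_lit 141516451105) (nat_lit 684) (nat_lit 55016238418) (nat_lit 760) (nat_lit 11275938711) (nat_lit 82) (nat_lit 5) (nat_lit 91) (nat_lit 5) (nat_lit 92) (nat_lit 5) (nat_lit 312) (nat_lit 310) (nat_lit 158)))))) (XT.nd (nat_lit 390) (nat_lit 1368) (nat_lit 0) (XT.nd (nat_lit 156) (nat_lit 532) (nat_lit 0) (XT.nd (nat_lit 78) (nat_lit 0) (nat_lit 76) (XT.lf (nat_lit 76) (nat_lit 97360017127) (nat_lit 0) (nat_lit 58859732295) (nat_lit 760) (nat_lit 60109292244) (nat_lit 83) (nat_lit 5) (nat_lit 82) (nat_lit 5) (nat_lit 92) (nat_lit 5)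 (nat_lit 313) (nat_lit 310) (nat_lit 157)) (XT.lf (nat_lit 76) (nat_lit 38212532747) (nat_lit 0) (nat_lit 136859672850) (nat_lit 760) (nat_lit 50310238458) (nat_lit 84) (nat_lit 5) (nat_lit 83) (nat_lit 5) (nat_lit 93) (nat_lit 5) (nat_lit 314) (nat_lit 310) (nat_lit 156))) (XT.nd (nat_lit 78) (nat_lit 684) (nat_lit 0) (XT.lf (nat_lit 0) (nat_lit 198679928873) (nat_lit 684) (nat_lit 24014616786) (nat_lit 760) (nat_lit 12303219985) (nat_lit 84) (nat_lit 5) (nat_lit 93) (nat_lit 5) (nat_lit 94) (nat_lit 5) (nat_lit 315) (nat_lit 310) (nat_lit 155)) (XT.nd (nat_lit 78) (nat_lit 684) (nat_lit 0) (XT.lf (nat_lit 76) (nat_lit 154841128999) (nat_lit 0) (nat_lit 74060158283) (nat_lit 760) (nat_lit 16244775313) (nat_lit 85) (nat_lit 5) (nat_lit 84) (nat_lit 5) (nat_lit 94) (nat_lit 5) (nat_lit 316) (nat_lit 310) (nat_lit 154)) (XT.lf (nat_lit 0) (nat_lit 8562959775) (nat_lit 760) (nat_lit 161638475322)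 (nat_lit 76) (nat_lit 85735408801) (nat_lit 75) (nat_lit 5) (nat_lit 85) (nat_lit 5) (nat_lit 76) (nat_lit 5) (nat_lit 317) (nat_lit 310) (nat_lit 153))))) (XT.nd (nat_lit 156) (nat_lit 988) (nat_lit 0) (XT.nd (nat_lit 78) (nat_lit 0) (nat_lit 0) (XT.lf (nat_lit 0) (nat_lit 28754123538) (nat_lit 380) (nat_lit 9336053955) (nat_lit 456) (nat_lit 229322195151) (nat_lit 70) (nat_lit 5) (nat_lit 75) (nat_lit 5) (nat_lit 76) (nat_lit 5) (nat_lit 318) (nat_lit 310) (nat_lit 152)) (XT.lf (nat_lit 0) (nat_lit 75407930709) (nat_lit 456) (nat_lit 42128009812) (nat_lit 76) (nat_lit 161998585641) (nat_lit 70) (nat_lit 5) (nat_lit 76) (nat_lit 5) (nat_lit 71) (nat_lit 5) (nat_lit 319) (nat_lit 310) (nat_lit 151))) (XT.nd (nat_lit 78) (nat_lit 608) (nat_lit 0) (XT.lf (nat_lit 0) (nat_lit 119499356826) (nat_lit 456) (nat_lit 117784131142) (nat_lit 76) (nat_lit 55153551710) (nat_lit 65) (nat_lit 5) (nat_lit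 71) (nat_lit 5) (nat_lit 66) (nat_lit 5) (nat_lit 320) (nat_lit 310) (nat_lit 150)) (XT.nd (nat_lit 78) (nat_lit 304) (nat_lit 0) (XT.lf (nat_lit 0) (nat_lit 105322548883) (nat_lit 304) (nat_lit 66167532538) (nat_lit 380) (nat_lit 134663073958) (nat_lit 61) (nat_lit 5) (nat_lit 65) (nat_lit 5) (nat_lit 66) (nat_lit 5) (nat_lit 321) (nat_lit 310) (nat_lit 149)) (XT.lf (nat_lit 0) (nat_lit 28650778706) (nat_lit 304) (nat_lit 203374098227) (nat_lit 380) (nat_lit 88722443056) (nat_lit 57) (nat_lit 5) (nat_lit 61) (nat_lit 5) (nat_lit 62) (nat_lit 5) (nat_lit 322) (nat_lit 310) (nat_lit 148))))))) (XT.nd (nat_lit 780) (nat_lit 836) (nat_lit 0) (XT.nd (nat_lit 390) (nat_lit 836) (nat_lit 0) (XT.nd (nat_lit 156) (nat_lit 532) (nat_lit 0) (XT.nd (nat_lit 78) (nat_lit 304) (nat_lit 0) (XT.lf (nat_lit 0) (nat_lit 282509535672) (nat_lit 304) (nat_lit 19488846424) (nat_lit 380) (nat_lit 34280839648)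 (nat_lit 57) (nat_lit 5) (nat_lit 61) (nat_lit 5) (nat_lit 62) (nat_lit 5) (nat_lit 323) (nat_lit 310) (nat_lit 147)) (XT.lf (nat_lit 0) (nat_lit 29865757688) (nat_lit 304) (nat_lit 145766553598) (nat_lit 76) (nat_lit 177095509667) (nat_lit 53) (nat_lit 5) (nat_lit 57) (nat_lit 5) (nat_lit 54) (nat_lit 5) (nat_lit 324) (nat_lit 310) (nat_lit 146))) (XT.nd (nat_lit 78) (nat_lit 228) (nat_lit 0) (XT.lf (nat_lit 0) (nat_lit 101502238000) (nat_lit 380) (nat_lit 247603683998) (nat_lit 76) (nat_lit 21180327838) (nat_lit 49) (nat_lit 5) (nat_lit 54) (nat_lit 5) (nat_lit 50) (nat_lit 5) (nat_lit 325) (nat_lit 310) (nat_lit 145)) (XT.nd (nat_lit 78) (nat_lit 0) (nat_lit 0) (XT.lf (nat_lit 0) (nat_lit 26536593716) (nat_lit 228) (nat_lit 158289515554) (nat_lit 304) (nat_lit 204125420342) (nat_lit 46) (nat_lit 5) (nat_lit 49) (nat_lit 5) (nat_lit 50) (nat_lit 5) (nat_lit 326) (nat_lit 310) (nat_lit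 144)) (XT.lf (nat_lit 0) (nat_lit 279945764200) (nat_lit 304) (nat_lit 78261443526) (nat_lit 76) (nat_lit 50646330541) (nat_lit 46) (nat_lit 5) (nat_lit 50) (nat_lit 5) (nat_lit 47) (nat_lit 5) (nat_lit 327) (nat_lit 310) (nat_lit 143))))) (XT.nd (nat_lit 156) (nat_lit 380) (nat_lit 0) (XT.nd (nat_lit 78) (nat_lit 228) (nat_lit 0) (XT.lf (nat_lit 0) (nat_lit 233426254307) (nat_lit 228) (nat_lit 155562133745) (nat_lit 304) (nat_lit 41043649915) (nat_lit 43) (nat_lit 5) (nat_lit 46) (nat_lit 5) (nat_lit 47) (nat_lit 5) (nat_lit 328) (nat_lit 310) (nat_lit 142)) (XT.lf (nat_lit 0) (nat_lit 56489483870) (nat_lit 228) (nat_lit 330670400783) (nat_lit 76) (nat_lit 65484725819) (nat_lit 40) (nat_lit 5) (nat_lit 43) (nat_lit 5) (nat_lit 41) (nat_lit 5) (nat_lit 329) (nat_lit 310) (nat_lit 141))) (XT.nd (nat_lit 78) (nat_lit 380) (nat_lit 0) (XT.lf (nat_lit 0) (nat_lit 166510389859) (nat_lit 228)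 (nat_lit 7205013827) (nat_lit 76) (nat_lit 303010988352) (nat_lit 40) (nat_lit 5) (nat_lit 43) (nat_lit 5) (nat_lit 41) (nat_lit 5) (nat_lit 330) (nat_lit 310) (nat_lit 140)) (XT.nd (nat_lit 78) (nat_lit 152) (nat_lit 0) (XT.lf (nat_lit 0) (nat_lit 291828580867) (nat_lit 304) (nat_lit 149986040993) (nat_lit 76) (nat_lit 60595313775) (nat_lit 37) (nat_lit 5) (nat_lit 41) (nat_lit 5) (nat_lit 38) (nat_lit 5) (nat_lit 331) (nat_lit 310) (nat_lit 139)) (XT.lf (nat_lit 0) (nat_lit 214884849994) (nat_lit 152) (nat_lit 218698980836) (nat_lit 228) (nat_lit 96243751834) (nat_lit 35) (nat_lit 5) (nat_lit 37) (nat_lit 5) (nat_lit 38) (nat_lit 5) (nat_lit 332) (nat_lit 310) (nat_lit 138)))))) (XT.nd (nat_lit 390) (nat_lit 152) (nat_lit 0) (XT.nd (nat_lit 156) (nat_lit 380) (nat_lit 0) (XT.nd (nat_lit 78) (nat_lit 0) (nat_lit 0) (XT.lf (nat_lit 0) (nat_lit 30316392593) (nat_lit 304) (nat_lit 503325226814)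 (nat_lit 76) (nat_lit 25578386306) (nat_lit 31) (nat_lit 5) (nat_lit 35) (nat_lit 5) (nat_lit 32) (nat_lit 5) (nat_lit 333) (nat_lit 310) (nat_lit 137)) (XT.lf (nat_lit 0) (nat_lit 172938146531) (nat_lit 304) (nat_lit 128444272672) (nat_lit 76) (nat_lit 289037079675) (nat_lit 31) (nat_lit 5) (nat_lit 35) (nat_lit 5) (nat_lit 32) (nat_lit 5) (nat_lit 334) (nat_lit 310) (nat_lit 136))) (XT.nd (nat_lit 78) (nat_lit 228) (nat_lit 0) (XT.lf (nat_lit 0) (nat_lit 285566988559) (nat_lit 152) (nat_lit 45861089864) (nat_lit 228) (nat_lit 292463951287) (nat_lit 29) (nat_lit 5) (nat_lit 31) (nat_lit 5) (nat_lit 32) (nat_lit 5) (nat_lit 335) (nat_lit 310) (nat_lit 135)) (XT.nd (nat_lit 78) (nat_lit 76) (nat_lit 0) (XT.lf (nat_lit 0) (nat_lit 76163768404) (nat_lit 152) (nat_lit 433489137292) (nat_lit 228) (nat_lit 150036672359) (nat_lit 27) (nat_lit 5) (nat_lit 29) (nat_lit 5) (nat_lit 30) (nat_lit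 5) (nat_lit 336) (nat_lit 310) (nat_lit 134)) (XT.lf (nat_lit 0) (nat_lit 10426912328) (nat_lit 228) (nat_lit 163092197938) (nat_lit 76) (nat_lit 524490702504) (nat_lit 26) (nat_lit 5) (nat_lit 29) (nat_lit 5) (nat_lit 27) (nat_lit 5) (nat_lit 337) (nat_lit 310) (nat_lit 133))))) (XT.nd (nat_lit 38610) (nat_lit 0) (nat_lit 4332) (XT.nd (nat_lit 38532) (nat_lit 0) (nat_lit 4332) (XT.lf (nat_lit 0) (nat_lit 184985798319) (nat_lit 228) (nat_lit 442845291671) (nat_lit 76) (nat_lit 111115857032) (nat_lit 24) (nat_lit 5) (nat_lit 27) (nat_lit 5) (nat_lit 25) (nat_lit 5) (nat_lit 338) (nat_lit 310) (nat_lit 132)) (XT.lf (nat_lit 0) (nat_lit 33761158659) (nat_lit 0) (nat_lit 33761158659) (nat_lit 684) (nat_lit 36226385416) (nat_lit 81) (nat_lit 5) (nat_lit 81) (nat_lit 3) (nat_lit 90) (nat_lit 3) (nat_lit 311) (nat_lit 311) (nat_lit 158))) (XT.nd (nat_lit 78) (nat_lit 0) (nat_lit 76) (XT.lf (nat_lit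 76) (nat_lit 4917923338) (nat_lit 0) (nat_lit 136878052409) (nat_lit 760) (nat_lit 73933842339) (nat_lit 82) (nat_lit 5) (nat_lit 81) (nat_lit 5) (nat_lit 91) (nat_lit 5) (nat_lit 312) (nat_lit 311) (nat_lit 157)) (XT.nd (nat_lit 78) (nat_lit 0) (nat_lit 0) (XT.lf (nat_lit 0) (nat_lit 152842055668) (nat_lit 684) (nat_lit 59414785592) (nat_lit 760) (nat_lit 12176251458) (nat_lit 82) (nat_lit 5) (nat_lit 91) (nat_lit 5) (nat_lit 92) (nat_lit 5) (nat_lit 313) (nat_lit 311) (nat_lit 156)) (XT.lf (nat_lit 76) (nat_lit 105151450802) (nat_lit 0) (nat_lit 63569890481) (nat_lit 760) (nat_lit 64913812610) (nat_lit 83) (nat_lit 5) (nat_lit 82) (nat_lit 5) (nat_lit 92) (nat_lit 5) (nat_lit 314) (nat_lit 311) (nat_lit 155))))))))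
noncomputable def xc122 : XT := (XT.nd (nat_lit 1560) (nat_lit 304) (nat_lit 0) (XT.nd (nat_lit 780) (nat_lit 1976) (nat_lit 0) (XT.nd (nat_lit 390) (nat_lit 988) (nat_lit 0) (XT.nd (nat_lit 156) (nat_lit 988) (nat_lit 0) (XT.nd (nat_lit 78) (nat_lit 0) (nat_lit 76) (XT.lf (nat_lit 76) (nat_lit 41272275811) (nat_lit 0) (nat_lit 147809443805) (nat_lit 760) (nat_lit 54331123352) (nat_lit 84) (nat_lit 5) (nat_lit 83) (nat_lit 5) (nat_lit 93) (nat_lit 5) (nat_lit 315) (nat_lit 311) (nat_lit 154)) (XT.lf (nat_lit 0) (nat_lit 214577769481) (nat_lit 684) (nat_lit 25933052219) (nat_lit 760) (nat_lit 13286583869) (nat_lit 84) (nat_lit 5) (nat_lit 93) (nat_lit 5) (nat_lit 94) (nat_lit 5) (nat_lit 316) (nat_lit 311) (nat_lit 153))) (XT.nd (nat_lit 78) (nat_lit 1064) (nat_lit 0) (XT.lf (nat_lit 76) (nat_lit 167231034417) (nat_lit 0) (nat_lit 79985587694) (nat_lit 760) (nat_lit 17540955555) (nat_lit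 85) (nat_lit 5) (nat_lit 84) (nat_lit 5) (nat_lit 94) (nat_lit 5) (nat_lit 317) (nat_lit 311) (nat_lit 152)) (XT.nd (nat_lit 78) (nat_lit 380) (nat_lit 0) (XT.lf (nat_lit 0) (nat_lit 9251078902) (nat_lit 760) (nat_lit 174566770863) (nat_lit 76) (nat_lit 92593780171) (nat_lit 75) (nat_lit 5) (nat_lit 85) (nat_lit 5) (nat_lit 76) (nat_lit 5) (nat_lit 318) (nat_lit 311) (nat_lit 151)) (XT.lf (nat_lit 0) (nat_lit 31057114984) (nat_lit 380) (nat_lit 10083172286) (nat_lit 456) (nat_lit 247664923594) (nat_lit 70) (nat_lit 5) (nat_lit 75) (nat_lit 5) (nat_lit 76) (nat_lit 5) (nat_lit 319) (nat_lit 311) (nat_lit 150))))) (XT.nd (nat_lit 156) (nat_lit 608) (nat_lit 0) (XT.nd (nat_lit 78) (nat_lit 380) (nat_lit 0) (XT.lf (nat_lit 0) (nat_lit 81443242872) (nat_lit 456) (nat_lit 45495642442) (nat_lit 76) (nat_lit 174958262747) (nat_lit 70) (nat_lit 5) (nat_lit 76) (nat_lit 5) (nat_lit 71) (nat_lit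 5) (nat_lit 320) (nat_lit 311) (nat_lit 149)) (XT.lf (nat_lit 0) (nat_lit 129061823315) (nat_lit 456) (nat_lit 127204234702) (nat_lit 76) (nat_lit 59565813098) (nat_lit 65) (nat_lit 5) (nat_lit 71) (nat_lit 5) (nat_lit 66) (nat_lit 5) (nat_lit 321) (nat_lit 311) (nat_lit 148))) (XT.nd (nat_lit 78) (nat_lit 304) (nat_lit 0) (XT.lf (nat_lit 0) (nat_lit 113750865562) (nat_lit 304) (nat_lit 71460793032) (nat_lit 380) (nat_lit 145433625274) (nat_lit 61) (nat_lit 5) (nat_lit 65) (nat_lit 5) (nat_lit 66) (nat_lit 5) (nat_lit 322) (nat_lit 311) (nat_lit 147)) (XT.nd (nat_lit 78) (nat_lit 0) (nat_lit 0) (XT.lf (nat_lit 0) (nat_lit 30945361002) (nat_lit 304) (nat_lit 219643742539) (nat_lit 380) (nat_lit 95817885217) (nat_lit 57) (nat_lit 5) (nat_lit 61) (nat_lit 5) (nat_lit 62) (nat_lit 5) (nat_lit 323) (nat_lit 311) (nat_lit 146)) (XT.lf (nat_lit 0) (nat_lit 305112631858) (nat_lit 304) (nat_lit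 21047691596) (nat_lit 380) (nat_lit 37021127853) (nat_lit 57) (nat_lit 5) (nat_lit 61) (nat_lit 5) (nat_lit 62) (nat_lit 5) (nat_lit 324) (nat_lit 311) (nat_lit 145)))))) (XT.nd (nat_lit 390) (nat_lit 912) (nat_lit 0) (XT.nd (nat_lit 156) (nat_lit 456) (nat_lit 0) (XT.nd (nat_lit 78) (nat_lit 304) (nat_lit 0) (XT.lf (nat_lit 0) (nat_lit 32257012146) (nat_lit 304) (nat_lit 157425476388) (nat_lit 76) (nat_lit 191263454315) (nat_lit 53) (nat_lit 5) (nat_lit 57) (nat_lit 5) (nat_lit 54) (nat_lit 5) (nat_lit 325) (nat_lit 311) (nat_lit 144)) (XT.lf (nat_lit 0) (nat_lit 109624305537) (nat_lit 380) (nat_lit 267409590181) (nat_lit 76) (nat_lit 22875155895) (nat_lit 49) (nat_lit 5) (nat_lit 54) (nat_lit 5) (nat_lit 50) (nat_lit 5) (nat_lit 326) (nat_lit 311) (nat_lit 143))) (XT.nd (nat_lit 78) (nat_lit 228) (nat_lit 0) (XT.lf (nat_lit 0) (nat_lit 28661805948) (nat_lit 228) (nat_lit 170952176343)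 (nat_lit 304) (nat_lit 220453576971) (nat_lit 46) (nat_lit 5) (nat_lit 49) (nat_lit 5) (nat_lit 50) (nat_lit 5) (nat_lit 327) (nat_lit 311) (nat_lit 142)) (XT.nd (nat_lit 78) (nat_lit 228) (nat_lit 0) (XT.lf (nat_lit 0) (nat_lit 302343084681) (nat_lit 304) (nat_lit 84520164897) (nat_lit 76) (nat_lit 54698485538) (nat_lit 46) (nat_lit 5) (nat_lit 50) (nat_lit 5) (nat_lit 47) (nat_lit 5) (nat_lit 328) (nat_lit 311) (nat_lit 141)) (XT.lf (nat_lit 0) (nat_lit 252102453410) (nat_lit 228) (nat_lit 168006574884) (nat_lit 304) (nat_lit 44325491245) (nat_lit 43) (nat_lit 5) (nat_lit 46) (nat_lit 5) (nat_lit 47) (nat_lit 5) (nat_lit 329) (nat_lit 311) (nat_lit 140))))) (XT.nd (nat_lit 156) (nat_lit 684) (nat_lit 0) (XT.nd (nat_lit 78) (nat_lit 0) (nat_lit 0) (XT.lf (nat_lit 0) (nat_lit 61010162803) (nat_lit 228) (nat_lit 357121902365) (nat_lit 76) (nat_lit 70724035481) (nat_lit 40) (nat_lit 5)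 (nat_lit 43) (nat_lit 5) (nat_lit 41) (nat_lit 5) (nat_lit 330) (nat_lit 311) (nat_lit 139)) (XT.lf (nat_lit 0) (nat_lit 179832628662) (nat_lit 228) (nat_lit 7779442265) (nat_lit 76) (nat_lit 327252359638) (nat_lit 40) (nat_lit 5) (nat_lit 43) (nat_lit 5) (nat_lit 41) (nat_lit 5) (nat_lit 331) (nat_lit 311) (nat_lit 138))) (XT.nd (nat_lit 78) (nat_lit 456) (nat_lit 0) (XT.lf (nat_lit 0) (nat_lit 315176208795) (nat_lit 304) (nat_lit 161982977074) (nat_lit 76) (nat_lit 65443475272) (nat_lit 37) (nat_lit 5) (nat_lit 41) (nat_lit 5) (nat_lit 38) (nat_lit 5) (nat_lit 332) (nat_lit 311) (nat_lit 137)) (XT.nd (nat_lit 78) (nat_lit 304) (nat_lit 0) (XT.lf (nat_lit 0) (nat_lit 232077500569) (nat_lit 152) (nat_lit 236194307898) (nat_lit 228) (nat_lit 103941915147) (nat_lit 35) (nat_lit 5) (nat_lit 37) (nat_lit 5) (nat_lit 38) (nat_lit 5) (nat_lit 333) (nat_lit 311) (nat_lit 136)) (XT.lf (nat_lit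 0) (nat_lit 32742940010) (nat_lit 304) (nat_lit 543589366629) (nat_lit 76) (nat_lit 27625235876) (nat_lit 31) (nat_lit 5) (nat_lit 35) (nat_lit 5) (nat_lit 32) (nat_lit 5) (nat_lit 334) (nat_lit 311) (nat_lit 135))))))) (XT.nd (nat_lit 39468) (nat_lit 0) (nat_lit 1444) (XT.nd (nat_lit 39078) (nat_lit 0) (nat_lit 3648) (XT.nd (nat_lit 38844) (nat_lit 0) (nat_lit 4104) (XT.nd (nat_lit 156) (nat_lit 304) (nat_lit 0) (XT.lf (nat_lit 0) (nat_lit 186774342707) (nat_lit 304) (nat_lit 138718075290) (nat_lit 76) (nat_lit 312160581851) (nat_lit 31) (nat_lit 5) (nat_lit 35) (nat_lit 5) (nat_lit 32) (nat_lit 5) (nat_lit 335) (nat_lit 311) (nat_lit 134)) (XT.lf (nat_lit 0) (nat_lit 82258506003) (nat_lit 152) (nat_lit 468167671282) (nat_lit 228) (nat_lit 162038513584) (nat_lit 27) (nat_lit 5) (nat_lit 29) (nat_lit 5) (nat_lit 30) (nat_lit 5) (nat_lit 337) (nat_lit 311) (nat_lit 132))) (XT.nd (nat_lit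 78) (nat_lit 0) (nat_lit 0) (XT.lf (nat_lit 0) (nat_lit 36463129247) (nat_lit 0) (nat_lit 36463129247) (nat_lit 684) (nat_lit 39122226993) (nat_lit 81) (nat_lit 5) (nat_lit 81) (nat_lit 3) (nat_lit 90) (nat_lit 3) (nat_lit 312) (nat_lit 312) (nat_lit 156)) (XT.nd (nat_lit 78) (nat_lit 0) (nat_lit 76) (XT.lf (nat_lit 76) (nat_lit 5313668573) (nat_lit 0) (nat_lit 147829982362) (nat_lit 760) (nat_lit 79844342230) (nat_lit 82) (nat_lit 5) (nat_lit 81) (nat_lit 5) (nat_lit 91) (nat_lit 5) (nat_lit 313) (nat_lit 312) (nat_lit 155)) (XT.lf (nat_lit 0) (nat_lit 165073096797) (nat_lit 684) (nat_lit 64165609129) (nat_lit 760) (nat_lit 13148840643) (nat_lit 82) (nat_lit 5) (nat_lit 91) (nat_lit 5) (nat_lit 92) (nat_lit 5) (nat_lit 314) (nat_lit 312) (nat_lit 154))))) (XT.nd (nat_lit 156) (nat_lit 532) (nat_lit 0) (XT.nd (nat_lit 78) (nat_lit 0) (nat_lit 76) (XT.lf (nat_lit 76) (nat_lit 113565823644)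 (nat_lit 0) (nat_lit 68656664506) (nat_lit 760) (nat_lit 70103297066) (nat_lit 83) (nat_lit 5) (nat_lit 82) (nat_lit 5) (nat_lit 92) (nat_lit 5) (nat_lit 315) (nat_lit 312) (nat_lit 153)) (XT.lf (nat_lit 76) (nat_lit 44576407365) (nat_lit 0) (nat_lit 159635054185) (nat_lit 760) (nat_lit 58674240294) (nat_lit 84) (nat_lit 5) (nat_lit 83) (nat_lit 5) (nat_lit 93) (nat_lit 5) (nat_lit 316) (nat_lit 312) (nat_lit 152))) (XT.nd (nat_lit 78) (nat_lit 684) (nat_lit 0) (XT.lf (nat_lit 0) (nat_lit 231746945686) (nat_lit 684) (nat_lit 28005352509) (nat_lit 760) (nat_lit 14348744362) (nat_lit 84) (nat_lit 5) (nat_lit 93) (nat_lit 5) (nat_lit 94) (nat_lit 5) (nat_lit 317) (nat_lit 312) (nat_lit 151)) (XT.nd (nat_lit 78) (nat_lit 684) (nat_lit 0) (XT.lf (nat_lit 76) (nat_lit 180611759195) (nat_lit 0) (nat_lit 86384963472) (nat_lit 760) (nat_lit 18941315519) (nat_lit 85) (nat_lit 5) (nat_lit 84) (nat_lit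 5) (nat_lit 94) (nat_lit 5) (nat_lit 318) (nat_lit 312) (nat_lit 150)) (XT.lf (nat_lit 0) (nat_lit 9993807827) (nat_lit 760) (nat_lit 188529726999) (nat_lit 76) (nat_lit 100000887065) (nat_lit 75) (nat_lit 5) (nat_lit 85) (nat_lit 5) (nat_lit 76) (nat_lit 5) (nat_lit 319) (nat_lit 312) (nat_lit 149)))))) (XT.nd (nat_lit 390) (nat_lit 836) (nat_lit 0) (XT.nd (nat_lit 156) (nat_lit 988) (nat_lit 0) (XT.nd (nat_lit 78) (nat_lit 0) (nat_lit 0) (XT.lf (nat_lit 0) (nat_lit 33543966043) (nat_lit 380) (nat_lit 10890026699) (nat_lit 456) (nat_lit 267475505025) (nat_lit 70) (nat_lit 5) (nat_lit 75) (nat_lit 5) (nat_lit 76) (nat_lit 5) (nat_lit 320) (nat_lit 312) (nat_lit 148)) (XT.lf (nat_lit 0) (nat_lit 87960998004) (nat_lit 456) (nat_lit 49133057764) (nat_lit 76) (nat_lit 188954743944) (nat_lit 70) (nat_lit 5) (nat_lit 76) (nat_lit 5) (nat_lit 71) (nat_lit 5) (nat_lit 321) (nat_lit 312) (nat_lit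 147))) (XT.nd (nat_lit 78) (nat_lit 608) (nat_lit 0) (XT.lf (nat_lit 0) (nat_lit 139388927909) (nat_lit 456) (nat_lit 137378321307) (nat_lit 76) (nat_lit 64331058642) (nat_lit 65) (nat_lit 5) (nat_lit 71) (nat_lit 5) (nat_lit 66) (nat_lit 5) (nat_lit 322) (nat_lit 312) (nat_lit 146)) (XT.nd (nat_lit 78) (nat_lit 304) (nat_lit 0) (XT.lf (nat_lit 0) (nat_lit 122853089101) (nat_lit 304) (nat_lit 77177534639) (nat_lit 380) (nat_lit 157066176578) (nat_lit 61) (nat_lit 5) (nat_lit 65) (nat_lit 5) (nat_lit 66) (nat_lit 5) (nat_lit 323) (nat_lit 312) (nat_lit 145)) (XT.lf (nat_lit 0) (nat_lit 33423150375) (nat_lit 304) (nat_lit 237214998848) (nat_lit 380) (nat_lit 103481298472) (nat_lit 57) (nat_lit 5) (nat_lit 61) (nat_lit 5) (nat_lit 62) (nat_lit 5) (nat_lit 324) (nat_lit 312) (nat_lit 144))))) (XT.nd (nat_lit 156) (nat_lit 532) (nat_lit 0) (XT.nd (nat_lit 78) (nat_lit 304) (nat_lit 0) (XT.lf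 (nat_lit 0) (nat_lit 329523642864) (nat_lit 304) (nat_lit 22731281836) (nat_lit 380) (nat_lit 39980949969) (nat_lit 57) (nat_lit 5) (nat_lit 61) (nat_lit 5) (nat_lit 62) (nat_lit 5) (nat_lit 325) (nat_lit 312) (nat_lit 143)) (XT.lf (nat_lit 0) (nat_lit 34839282516) (nat_lit 304) (nat_lit 170017455603) (nat_lit 76) (nat_lit 206564791183) (nat_lit 53) (nat_lit 5) (nat_lit 57) (nat_lit 5) (nat_lit 54) (nat_lit 5) (nat_lit 326) (nat_lit 312) (nat_lit 142))) (XT.nd (nat_lit 78) (nat_lit 228) (nat_lit 0) (XT.lf (nat_lit 0) (nat_lit 118395869061) (nat_lit 380) (nat_lit 288800309610) (nat_lit 76) (nat_lit 24705512871) (nat_lit 49) (nat_lit 5) (nat_lit 54) (nat_lit 5) (nat_lit 50) (nat_lit 5) (nat_lit 327) (nat_lit 312) (nat_lit 141)) (XT.nd (nat_lit 78) (nat_lit 0) (nat_lit 0) (XT.lf (nat_lit 0) (nat_lit 30956709215) (nat_lit 228) (nat_lit 184627921391) (nat_lit 304) (nat_lit 238088253905) (nat_lit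 46) (nat_lit 5) (nat_lit 49) (nat_lit 5) (nat_lit 50) (nat_lit 5) (nat_lit 328) (nat_lit 312) (nat_lit 140)) (XT.lf (nat_lit 0) (nat_lit 326531954076) (nat_lit 304) (nat_lit 91279896992) (nat_lit 76) (nat_lit 59074748943) (nat_lit 46) (nat_lit 5) (nat_lit 50) (nat_lit 5) (nat_lit 47) (nat_lit 5) (nat_lit 329) (nat_lit 312) (nat_lit 139))))))))
noncomputable def xc123 : XT := (XT.nd (nat_lit 40326) (nat_lit 0) (nat_lit 152) (XT.nd (nat_lit 39546) (nat_lit 0) (nat_lit 2128) (XT.nd (nat_lit 390) (nat_lit 456) (nat_lit 0) (XT.nd (nat_lit 156) (nat_lit 380) (nat_lit 0) (XT.nd (nat_lit 78) (nat_lit 228) (nat_lit 0) (XT.lf (nat_lit 0) (nat_lit 272272449029) (nat_lit 228) (nat_lit 181446646863) (nat_lit 304) (nat_lit 47870115367) (nat_lit 43) (nat_lit 5) (nat_lit 46) (nat_lit 5) (nat_lit 47) (nat_lit 5) (nat_lit 330) (nat_lit 312) (nat_lit 138)) (XT.lf (nat_lit 0) (nat_lit 65892279174) (nat_lit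 228) (nat_lit 385689828010) (nat_lit 76) (nat_lit 76382414078) (nat_lit 40) (nat_lit 5) (nat_lit 43) (nat_lit 5) (nat_lit 41) (nat_lit 5) (nat_lit 331) (nat_lit 312) (nat_lit 137))) (XT.nd (nat_lit 78) (nat_lit 380) (nat_lit 0) (XT.lf (nat_lit 0) (nat_lit 194220445757) (nat_lit 228) (nat_lit 8400106402) (nat_lit 76) (nat_lit 353432970408) (nat_lit 40) (nat_lit 5) (nat_lit 43) (nat_lit 5) (nat_lit 41) (nat_lit 5) (nat_lit 332) (nat_lit 312) (nat_lit 136)) (XT.nd (nat_lit 78) (nat_lit 152) (nat_lit 0) (XT.lf (nat_lit 0) (nat_lit 340391455583) (nat_lit 304) (nat_lit 174939945831) (nat_lit 76) (nat_lit 70679413167) (nat_lit 37) (nat_lit 5) (nat_lit 41) (nat_lit 5) (nat_lit 38) (nat_lit 5) (nat_lit 333) (nat_lit 312) (nat_lit 135)) (XT.lf (nat_lit 0) (nat_lit 250645297473) (nat_lit 152) (nat_lit 255089345496) (nat_lit 228) (nat_lit 112256122240) (nat_lit 35) (nat_lit 5) (nat_lit 37) (nat_lit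 5) (nat_lit 38) (nat_lit 5) (nat_lit 334) (nat_lit 312) (nat_lit 134))))) (XT.nd (nat_lit 38922) (nat_lit 0) (nat_lit 3952) (XT.nd (nat_lit 156) (nat_lit 152) (nat_lit 0) (XT.lf (nat_lit 0) (nat_lit 35363434890) (nat_lit 304) (nat_lit 587074905594) (nat_lit 76) (nat_lit 29835750858) (nat_lit 31) (nat_lit 5) (nat_lit 35) (nat_lit 5) (nat_lit 32) (nat_lit 5) (nat_lit 335) (nat_lit 312) (nat_lit 133)) (XT.lf (nat_lit 0) (nat_lit 333088558435) (nat_lit 152) (nat_lit 53491255515) (nat_lit 228) (nat_lit 341127741258) (nat_lit 29) (nat_lit 5) (nat_lit 31) (nat_lit 5) (nat_lit 32) (nat_lit 5) (nat_lit 337) (nat_lit 312) (nat_lit 131))) (XT.nd (nat_lit 78) (nat_lit 0) (nat_lit 0) (XT.lf (nat_lit 0) (nat_lit 39381103709) (nat_lit 0) (nat_lit 39381103709) (nat_lit 684) (nat_lit 42250059630) (nat_lit 81) (nat_lit 5) (nat_lit 81) (nat_lit 3) (nat_lit 90) (nat_lit 3) (nat_lit 313) (nat_lit 313) (nat_lit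 154)) (XT.nd (nat_lit 78) (nat_lit 0) (nat_lit 76) (XT.lf (nat_lit 76) (nat_lit 5740743684) (nat_lit 0) (nat_lit 159657826220) (nat_lit 760) (nat_lit 86228282358) (nat_lit 82) (nat_lit 5) (nat_lit 81) (nat_lit 5) (nat_lit 91) (nat_lit 5) (nat_lit 314) (nat_lit 313) (nat_lit 153)) (XT.lf (nat_lit 0) (nat_lit 178282096697) (nat_lit 684) (nat_lit 69296835131) (nat_lit 760) (nat_lit 14199452514) (nat_lit 82) (nat_lit 5) (nat_lit 91) (nat_lit 5) (nat_lit 92) (nat_lit 5) (nat_lit 315) (nat_lit 313) (nat_lit 152)))))) (XT.nd (nat_lit 390) (nat_lit 1368) (nat_lit 0) (XT.nd (nat_lit 156) (nat_lit 532) (nat_lit 0) (XT.nd (nat_lit 78) (nat_lit 0) (nat_lit 76) (XT.lf (nat_lit 76) (nat_lit 122653024358) (nat_lit 0) (nat_lit 74150211714) (nat_lit 760) (nat_lit 75708456790) (nat_lit 83) (nat_lit 5) (nat_lit 82) (nat_lit 5) (nat_lit 92) (nat_lit 5) (nat_lit 316) (nat_lit 313) (nat_lit 151)) (XT.lf (nat_lit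 76) (nat_lit 48144534263) (nat_lit 0) (nat_lit 172406591438) (nat_lit 760) (nat_lit 63365287776) (nat_lit 84) (nat_lit 5) (nat_lit 83) (nat_lit 5) (nat_lit 93) (nat_lit 5) (nat_lit 317) (nat_lit 313) (nat_lit 150))) (XT.nd (nat_lit 78) (nat_lit 684) (nat_lit 0) (XT.lf (nat_lit 0) (nat_lit 250289234473) (nat_lit 684) (nat_lit 30243771204) (nat_lit 760) (nat_lit 15495987003) (nat_lit 84) (nat_lit 5) (nat_lit 93) (nat_lit 5) (nat_lit 94) (nat_lit 5) (nat_lit 318) (nat_lit 313) (nat_lit 149)) (XT.nd (nat_lit 78) (nat_lit 684) (nat_lit 0) (XT.lf (nat_lit 76) (nat_lit 195062622106) (nat_lit 0) (nat_lit 93296213878) (nat_lit 760) (nat_lit 20454120349) (nat_lit 85) (nat_lit 5) (nat_lit 84) (nat_lit 5) (nat_lit 94) (nat_lit 5) (nat_lit 319) (nat_lit 313) (nat_lit 148)) (XT.lf (nat_lit 0) (nat_lit 10795578069) (nat_lit 760) (nat_lit 203610059949) (nat_lit 76) (nat_lit 108000618935) (nat_lit 75)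 (nat_lit 5) (nat_lit 85) (nat_lit 5) (nat_lit 76) (nat_lit 5) (nat_lit 320) (nat_lit 313) (nat_lit 147))))) (XT.nd (nat_lit 156) (nat_lit 988) (nat_lit 0) (XT.nd (nat_lit 78) (nat_lit 0) (nat_lit 0) (XT.lf (nat_lit 0) (nat_lit 36229439654) (nat_lit 380) (nat_lit 11761400843) (nat_lit 456) (nat_lit 288871305667) (nat_lit 70) (nat_lit 5) (nat_lit 75) (nat_lit 5) (nat_lit 76) (nat_lit 5) (nat_lit 321) (nat_lit 313) (nat_lit 146)) (XT.lf (nat_lit 0) (nat_lit 94999846039) (nat_lit 456) (nat_lit 53061785314) (nat_lit 76) (nat_lit 204070969291) (nat_lit 70) (nat_lit 5) (nat_lit 76) (nat_lit 5) (nat_lit 71) (nat_lit 5) (nat_lit 322) (nat_lit 313) (nat_lit 145))) (XT.nd (nat_lit 78) (nat_lit 608) (nat_lit 0) (XT.lf (nat_lit 0) (nat_lit 150541892905) (nat_lit 456) (nat_lit 148366656139) (nat_lit 76) (nat_lit 69477526612) (nat_lit 65) (nat_lit 5) (nat_lit 71) (nat_lit 5) (nat_lit 66) (nat_lit 5)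 (nat_lit 323) (nat_lit 313) (nat_lit 144)) (XT.nd (nat_lit 78) (nat_lit 304) (nat_lit 0) (XT.lf (nat_lit 0) (nat_lit 132683183189) (nat_lit 304) (nat_lit 83351632956) (nat_lit 380) (nat_lit 169629637099) (nat_lit 61) (nat_lit 5) (nat_lit 65) (nat_lit 5) (nat_lit 66) (nat_lit 5) (nat_lit 324) (nat_lit 313) (nat_lit 143)) (XT.lf (nat_lit 0) (nat_lit 36098854680) (nat_lit 304) (nat_lit 256191990341) (nat_lit 380) (nat_lit 111758072616) (nat_lit 57) (nat_lit 5) (nat_lit 61) (nat_lit 5) (nat_lit 62) (nat_lit 5) (nat_lit 325) (nat_lit 313) (nat_lit 142))))))) (XT.nd (nat_lit 858) (nat_lit 304) (nat_lit 0) (XT.nd (nat_lit 390) (nat_lit 836) (nat_lit 0) (XT.nd (nat_lit 156) (nat_lit 532) (nat_lit 0) (XT.nd (nat_lit 78) (nat_lit 304) (nat_lit 0) (XT.lf (nat_lit 0) (nat_lit 355887249362) (nat_lit 304) (nat_lit 24549591406) (nat_lit 380) (nat_lit 43177824361) (nat_lit 57) (nat_lit 5) (nat_lit 61)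 (nat_lit 5) (nat_lit 62) (nat_lit 5) (nat_lit 326) (nat_lit 313) (nat_lit 141)) (XT.lf (nat_lit 0) (nat_lit 37627890651) (nat_lit 304) (nat_lit 183617086878) (nat_lit 76) (nat_lit 223090197834) (nat_lit 53) (nat_lit 5) (nat_lit 57) (nat_lit 5) (nat_lit 54) (nat_lit 5) (nat_lit 327) (nat_lit 313) (nat_lit 140))) (XT.nd (nat_lit 78) (nat_lit 228) (nat_lit 0) (XT.lf (nat_lit 0) (nat_lit 127868926687) (nat_lit 380) (nat_lit 311902578732) (nat_lit 76) (nat_lit 26682249258) (nat_lit 49) (nat_lit 5) (nat_lit 54) (nat_lit 5) (nat_lit 50) (nat_lit 5) (nat_lit 328) (nat_lit 313) (nat_lit 139)) (XT.nd (nat_lit 78) (nat_lit 0) (nat_lit 0) (XT.lf (nat_lit 0) (nat_lit 33434925300) (nat_lit 228) (nat_lit 199397787252) (nat_lit 304) (nat_lit 257133934568) (nat_lit 46) (nat_lit 5) (nat_lit 49) (nat_lit 5) (nat_lit 50) (nat_lit 5) (nat_lit 329) (nat_lit 313) (nat_lit 138)) (XT.lf (nat_lit 0) (nat_lit 352655730070)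 (nat_lit 304) (nat_lit 98580676014) (nat_lit 76) (nat_lit 63801058559) (nat_lit 46) (nat_lit 5) (nat_lit 50) (nat_lit 5) (nat_lit 47) (nat_lit 5) (nat_lit 330) (nat_lit 313) (nat_lit 137))))) (XT.nd (nat_lit 156) (nat_lit 380) (nat_lit 0) (XT.nd (nat_lit 78) (nat_lit 228) (nat_lit 0) (XT.lf (nat_lit 0) (nat_lit 294055787601) (nat_lit 228) (nat_lit 195961989369) (nat_lit 304) (nat_lit 51698511309) (nat_lit 43) (nat_lit 5) (nat_lit 46) (nat_lit 5) (nat_lit 47) (nat_lit 5) (nat_lit 331) (nat_lit 313) (nat_lit 136)) (XT.lf (nat_lit 0) (nat_lit 71164778917) (nat_lit 228) (nat_lit 416543448284) (nat_lit 76) (nat_lit 82493397943) (nat_lit 40) (nat_lit 5) (nat_lit 43) (nat_lit 5) (nat_lit 41) (nat_lit 5) (nat_lit 332) (nat_lit 313) (nat_lit 135))) (XT.nd (nat_lit 78) (nat_lit 380) (nat_lit 0) (XT.lf (nat_lit 0) (nat_lit 209759116056) (nat_lit 228) (nat_lit 9070664945) (nat_lit 76) (nat_lit 381707969836)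 (nat_lit 40) (nat_lit 5) (nat_lit 43) (nat_lit 5) (nat_lit 41) (nat_lit 5) (nat_lit 333) (nat_lit 313) (nat_lit 134)) (XT.nd (nat_lit 78) (nat_lit 152) (nat_lit 0) (XT.lf (nat_lit 0) (nat_lit 367623758041) (nat_lit 304) (nat_lit 188933710248) (nat_lit 76) (nat_lit 76334160487) (nat_lit 37) (nat_lit 5) (nat_lit 41) (nat_lit 5) (nat_lit 38) (nat_lit 5) (nat_lit 334) (nat_lit 313) (nat_lit 133)) (XT.lf (nat_lit 0) (nat_lit 270698290320) (nat_lit 152) (nat_lit 275496058435) (nat_lit 228) (nat_lit 121235629406) (nat_lit 35) (nat_lit 5) (nat_lit 37) (nat_lit 5) (nat_lit 38) (nat_lit 5) (nat_lit 335) (nat_lit 313) (nat_lit 132)))))) (XT.nd (nat_lit 39156) (nat_lit 0) (nat_lit 2964) (XT.nd (nat_lit 38922) (nat_lit 0) (nat_lit 3800) (XT.nd (nat_lit 38844) (nat_lit 0) (nat_lit 3800) (XT.lf (nat_lit 0) (nat_lit 217855494220) (nat_lit 304) (nat_lit 161797874293) (nat_lit 76) (nat_lit 364104992613)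 (nat_lit 31) (nat_lit 5) (nat_lit 35) (nat_lit 5) (nat_lit 32) (nat_lit 5) (nat_lit 337) (nat_lit 313) (nat_lit 130)) (XT.lf (nat_lit 0) (nat_lit 42532384291) (nat_lit 0) (nat_lit 42532384291) (nat_lit 684) (nat_lit 45628396428) (nat_lit 81) (nat_lit 5) (nat_lit 81) (nat_lit 3) (nat_lit 90) (nat_lit 3) (nat_lit 314) (nat_lit 314) (nat_lit 152))) (XT.nd (nat_lit 78) (nat_lit 0) (nat_lit 76) (XT.lf (nat_lit 76) (nat_lit 6201702103) (nat_lit 0) (nat_lit 172431691402) (nat_lit 760) (nat_lit 93123452311) (nat_lit 82) (nat_lit 5) (nat_lit 81) (nat_lit 5) (nat_lit 91) (nat_lit 5) (nat_lit 315) (nat_lit 314) (nat_lit 151)) (XT.nd (nat_lit 78) (nat_lit 0) (nat_lit 0) (XT.lf (nat_lit 0) (nat_lit 192547366899) (nat_lit 684) (nat_lit 74838847778) (nat_lit 760) (nat_lit 15334298136) (nat_lit 82) (nat_lit 5) (nat_lit 91) (nat_lit 5) (nat_lit 92) (nat_lit 5) (nat_lit 316) (nat_lit 314) (nat_lit 150))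 (XT.lf (nat_lit 76) (nat_lit 132466925106) (nat_lit 0) (nat_lit 80083098035) (nat_lit 760) (nat_lit 81762472118) (nat_lit 83) (nat_lit 5) (nat_lit 82) (nat_lit 5) (nat_lit 92) (nat_lit 5) (nat_lit 317) (nat_lit 314) (nat_lit 149))))) (XT.nd (nat_lit 234) (nat_lit 988) (nat_lit 0) (XT.nd (nat_lit 78) (nat_lit 0) (nat_lit 76) (XT.lf (nat_lit 76) (nat_lit 51997823948) (nat_lit 0) (nat_lit 186199747112) (nat_lit 760) (nat_lit 68432031596) (nat_lit 84) (nat_lit 5) (nat_lit 83) (nat_lit 5) (nat_lit 93) (nat_lit 5) (nat_lit 318) (nat_lit 314) (nat_lit 148)) (XT.nd (nat_lit 78) (nat_lit 0) (nat_lit 0) (XT.lf (nat_lit 0) (nat_lit 270314544984) (nat_lit 684) (nat_lit 32661550073) (nat_lit 760) (nat_lit 16735102771) (nat_lit 84) (nat_lit 5) (nat_lit 93) (nat_lit 5) (nat_lit 94) (nat_lit 5) (nat_lit 319) (nat_lit 314) (nat_lit 147)) (XT.lf (nat_lit 76) (nat_lit 210669279830) (nat_lit 0) (nat_lit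 100760299645) (nat_lit 760) (nat_lit 22088306276) (nat_lit 85) (nat_lit 5) (nat_lit 84) (nat_lit 5) (nat_lit 94) (nat_lit 5) (nat_lit 320) (nat_lit 314) (nat_lit 146)))) (XT.nd (nat_lit 78) (nat_lit 380) (nat_lit 0) (XT.lf (nat_lit 0) (nat_lit 11661166714) (nat_lit 760) (nat_lit 219897111308) (nat_lit 76) (nat_lit 116640377731) (nat_lit 75) (nat_lit 5) (nat_lit 85) (nat_lit 5) (nat_lit 76) (nat_lit 5) (nat_lit 321) (nat_lit 314) (nat_lit 145)) (XT.nd (nat_lit 78) (nat_lit 0) (nat_lit 0) (XT.lf (nat_lit 0) (nat_lit 39129472061) (nat_lit 380) (nat_lit 12702460380) (nat_lit 456) (nat_lit 311979089887) (nat_lit 70) (nat_lit 5) (nat_lit 75) (nat_lit 5) (nat_lit 76) (nat_lit 5) (nat_lit 322) (nat_lit 314) (nat_lit 144)) (XT.lf (nat_lit 0) (nat_lit 102601521132) (nat_lit 456) (nat_lit 57305084559) (nat_lit 76) (nat_lit 220396514659) (nat_lit 70) (nat_lit 5) (nat_lit 76) (nat_lit 5) (nat_lit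 71) (nat_lit 5) (nat_lit 323) (nat_lit 314) (nat_lit 143))))))))
noncomputable def xc124 : XT := (XT.nd (nat_lit 40638) (nat_lit 228) (nat_lit 0) (XT.nd (nat_lit 780) (nat_lit 0) (nat_lit 0) (XT.nd (nat_lit 390) (nat_lit 988) (nat_lit 0) (XT.nd (nat_lit 156) (nat_lit 608) (nat_lit 0) (XT.nd (nat_lit 78) (nat_lit 304) (nat_lit 0) (XT.lf (nat_lit 0) (nat_lit 162586831068) (nat_lit 456) (nat_lit 160234333218) (nat_lit 76) (nat_lit 75035714406) (nat_lit 65) (nat_lit 5) (nat_lit 71) (nat_lit 5) (nat_lit 66) (nat_lit 5) (nat_lit 324) (nat_lit 314) (nat_lit 142)) (XT.lf (nat_lit 0) (nat_lit 143299421314) (nat_lit 304) (nat_lit 90019674040) (nat_lit 380) (nat_lit 183198436045) (nat_lit 61) (nat_lit 5) (nat_lit 65) (nat_lit 5) (nat_lit 66) (nat_lit 5) (nat_lit 325) (nat_lit 314) (nat_lit 141))) (XT.nd (nat_lit 78) (nat_lit 304) (nat_lit 0) (XT.lf (nat_lit 0) (nat_lit 38988351081) (nat_lit 304)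 (nat_lit 276687170887) (nat_lit 380) (nat_lit 120697235457) (nat_lit 57) (nat_lit 5) (nat_lit 61) (nat_lit 5) (nat_lit 62) (nat_lit 5) (nat_lit 326) (nat_lit 314) (nat_lit 140)) (XT.nd (nat_lit 78) (nat_lit 304) (nat_lit 0) (XT.lf (nat_lit 0) (nat_lit 384359699706) (nat_lit 304) (nat_lit 26513393273) (nat_lit 380) (nat_lit 46630677191) (nat_lit 57) (nat_lit 5) (nat_lit 61) (nat_lit 5) (nat_lit 62) (nat_lit 5) (nat_lit 327) (nat_lit 314) (nat_lit 139)) (XT.lf (nat_lit 0) (nat_lit 40639378362) (nat_lit 304) (nat_lit 198304940478) (nat_lit 76) (nat_lit 240937605153) (nat_lit 53) (nat_lit 5) (nat_lit 57) (nat_lit 5) (nat_lit 54) (nat_lit 5) (nat_lit 328) (nat_lit 314) (nat_lit 138))))) (XT.nd (nat_lit 156) (nat_lit 456) (nat_lit 0) (XT.nd (nat_lit 78) (nat_lit 228) (nat_lit 0) (XT.lf (nat_lit 0) (nat_lit 138099630895) (nat_lit 380) (nat_lit 336853279848) (nat_lit 76) (nat_lit 28817082419)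 (nat_lit 49) (nat_lit 5) (nat_lit 54) (nat_lit 5) (nat_lit 50) (nat_lit 5) (nat_lit 329) (nat_lit 314) (nat_lit 137)) (XT.lf (nat_lit 0) (nat_lit 36111159094) (nat_lit 228) (nat_lit 215349294861) (nat_lit 304) (nat_lit 277703466506) (nat_lit 46) (nat_lit 5) (nat_lit 49) (nat_lit 5) (nat_lit 50) (nat_lit 5) (nat_lit 330) (nat_lit 314) (nat_lit 136))) (XT.nd (nat_lit 78) (nat_lit 456) (nat_lit 0) (XT.lf (nat_lit 0) (nat_lit 380869234144) (nat_lit 304) (nat_lit 106465747432) (nat_lit 76) (nat_lit 68905425908) (nat_lit 46) (nat_lit 5) (nat_lit 50) (nat_lit 5) (nat_lit 47) (nat_lit 5) (nat_lit 331) (nat_lit 314) (nat_lit 135)) (XT.nd (nat_lit 78) (nat_lit 228) (nat_lit 0) (XT.lf (nat_lit 0) (nat_lit 317581573183) (nat_lit 228) (nat_lit 211638614806) (nat_lit 304) (nat_lit 55833352016) (nat_lit 43) (nat_lit 5) (nat_lit 46) (nat_lit 5) (nat_lit 47) (nat_lit 5) (nat_lit 332) (nat_lit 314) (nat_lit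 134)) (XT.lf (nat_lit 0) (nat_lit 76858919229) (nat_lit 228) (nat_lit 449865581583) (nat_lit 76) (nat_lit 89093204774) (nat_lit 40) (nat_lit 5) (nat_lit 43) (nat_lit 5) (nat_lit 41) (nat_lit 5) (nat_lit 333) (nat_lit 314) (nat_lit 133)))))) (XT.nd (nat_lit 39468) (nat_lit 0) (nat_lit 2280) (XT.nd (nat_lit 39234) (nat_lit 0) (nat_lit 3116) (XT.nd (nat_lit 39156) (nat_lit 0) (nat_lit 3116) (XT.lf (nat_lit 0) (nat_lit 226540732376) (nat_lit 228) (nat_lit 9795075026) (nat_lit 76) (nat_lit 412244917604) (nat_lit 40) (nat_lit 5) (nat_lit 43) (nat_lit 5) (nat_lit 41) (nat_lit 5) (nat_lit 334) (nat_lit 314) (nat_lit 132)) (XT.lf (nat_lit 0) (nat_lit 45935654292) (nat_lit 0) (nat_lit 45935654292) (nat_lit 684) (nat_lit 49277238126) (nat_lit 81) (nat_lit 5) (nat_lit 81) (nat_lit 3) (nat_lit 90) (nat_lit 3) (nat_lit 315) (nat_lit 315) (nat_lit 150))) (XT.nd (nat_lit 78) (nat_lit 0) (nat_lit 76)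 (XT.lf (nat_lit 76) (nat_lit 6699294826) (nat_lit 0) (nat_lit 186227289029) (nat_lit 760) (nat_lit 100570677059) (nat_lit 82) (nat_lit 5) (nat_lit 81) (nat_lit 5) (nat_lit 91) (nat_lit 5) (nat_lit 316) (nat_lit 315) (nat_lit 149)) (XT.nd (nat_lit 78) (nat_lit 0) (nat_lit 0) (XT.lf (nat_lit 0) (nat_lit 207953473180) (nat_lit 684) (nat_lit 80824468834) (nat_lit 760) (nat_lit 16560089843) (nat_lit 82) (nat_lit 5) (nat_lit 91) (nat_lit 5) (nat_lit 92) (nat_lit 5) (nat_lit 317) (nat_lit 315) (nat_lit 148)) (XT.lf (nat_lit 76) (nat_lit 143065701267) (nat_lit 0) (nat_lit 86490491233) (nat_lit 760) (nat_lit 88301188325) (nat_lit 83) (nat_lit 5) (nat_lit 82) (nat_lit 5) (nat_lit 92) (nat_lit 5) (nat_lit 318) (nat_lit 315) (nat_lit 147))))) (XT.nd (nat_lit 156) (nat_lit 988) (nat_lit 0) (XT.nd (nat_lit 78) (nat_lit 0) (nat_lit 76) (XT.lf (nat_lit 76) (nat_lit 56159130441) (nat_lit 0) (nat_lit 201096265597)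 (nat_lit 760) (nat_lit 73904468608) (nat_lit 84) (nat_lit 5) (nat_lit 83) (nat_lit 5) (nat_lit 93) (nat_lit 5) (nat_lit 319) (nat_lit 315) (nat_lit 146)) (XT.lf (nat_lit 0) (nat_lit 291941570511) (nat_lit 684) (nat_lit 35272997032) (nat_lit 760) (nat_lit 18073428147) (nat_lit 84) (nat_lit 5) (nat_lit 93) (nat_lit 5) (nat_lit 94) (nat_lit 5) (nat_lit 320) (nat_lit 315) (nat_lit 145))) (XT.nd (nat_lit 78) (nat_lit 1064) (nat_lit 0) (XT.lf (nat_lit 76) (nat_lit 227524235073) (nat_lit 0) (nat_lit 108821456827) (nat_lit 760) (nat_lit 23853532901) (nat_lit 85) (nat_lit 5) (nat_lit 84) (nat_lit 5) (nat_lit 94) (nat_lit 5) (nat_lit 321) (nat_lit 315) (nat_lit 144)) (XT.nd (nat_lit 78) (nat_lit 380) (nat_lit 0) (XT.lf (nat_lit 0) (nat_lit 12595725346) (nat_lit 760) (nat_lit 237487376922) (nat_lit 76) (nat_lit 125971358705) (nat_lit 75) (nat_lit 5) (nat_lit 85) (nat_lit 5) (nat_lit 76) (nat_lit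 5) (nat_lit 322) (nat_lit 315) (nat_lit 143)) (XT.lf (nat_lit 0) (nat_lit 42261267786) (nat_lit 380) (nat_lit 13718783641) (nat_lit 456) (nat_lit 336935770788) (nat_lit 70) (nat_lit 5) (nat_lit 75) (nat_lit 5) (nat_lit 76) (nat_lit 5) (nat_lit 323) (nat_lit 315) (nat_lit 142))))))) (XT.nd (nat_lit 780) (nat_lit 456) (nat_lit 0) (XT.nd (nat_lit 390) (nat_lit 1064) (nat_lit 0) (XT.nd (nat_lit 156) (nat_lit 608) (nat_lit 0) (XT.nd (nat_lit 78) (nat_lit 380) (nat_lit 0) (XT.lf (nat_lit 0) (nat_lit 110811089504) (nat_lit 456) (nat_lit 61888082218) (nat_lit 76) (nat_lit 238028122512) (nat_lit 70) (nat_lit 5) (nat_lit 76) (nat_lit 5) (nat_lit 71) (nat_lit 5) (nat_lit 324) (nat_lit 315) (nat_lit 141)) (XT.lf (nat_lit 0) (nat_lit 175595137919) (nat_lit 456) (nat_lit 173051660626) (nat_lit 76) (nat_lit 81038559268) (nat_lit 65) (nat_lit 5) (nat_lit 71) (nat_lit 5) (nat_lit 66) (nat_lit 5) (nat_lit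 325) (nat_lit 315) (nat_lit 140))) (XT.nd (nat_lit 78) (nat_lit 304) (nat_lit 0) (XT.lf (nat_lit 0) (nat_lit 154764732590) (nat_lit 304) (nat_lit 97221171186) (nat_lit 380) (nat_lit 197852963173) (nat_lit 61) (nat_lit 5) (nat_lit 65) (nat_lit 5) (nat_lit 66) (nat_lit 5) (nat_lit 326) (nat_lit 315) (nat_lit 139)) (XT.nd (nat_lit 78) (nat_lit 0) (nat_lit 0) (XT.lf (nat_lit 0) (nat_lit 42108780645) (nat_lit 304) (nat_lit 298821991367) (nat_lit 380) (nat_lit 130351742888) (nat_lit 57) (nat_lit 5) (nat_lit 61) (nat_lit 5) (nat_lit 62) (nat_lit 5) (nat_lit 327) (nat_lit 315) (nat_lit 138)) (XT.lf (nat_lit 0) (nat_lit 415109736310) (nat_lit 304) (nat_lit 28634322891) (nat_lit 380) (nat_lit 50359954138) (nat_lit 57) (nat_lit 5) (nat_lit 61) (nat_lit 5) (nat_lit 62) (nat_lit 5) (nat_lit 328) (nat_lit 315) (nat_lit 137))))) (XT.nd (nat_lit 156) (nat_lit 456) (nat_lit 0) (XT.nd (nat_lit 78) (nat_lit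 304) (nat_lit 0) (XT.lf (nat_lit 0) (nat_lit 43891605842) (nat_lit 304) (nat_lit 214168038262) (nat_lit 76) (nat_lit 260212777739) (nat_lit 53) (nat_lit 5) (nat_lit 57) (nat_lit 5) (nat_lit 54) (nat_lit 5) (nat_lit 329) (nat_lit 315) (nat_lit 136)) (XT.lf (nat_lit 0) (nat_lit 149148621662) (nat_lit 380) (nat_lit 363800251783) (nat_lit 76) (nat_lit 31122666109) (nat_lit 49) (nat_lit 5) (nat_lit 54) (nat_lit 5) (nat_lit 50) (nat_lit 5) (nat_lit 330) (nat_lit 315) (nat_lit 135))) (XT.nd (nat_lit 78) (nat_lit 228) (nat_lit 0) (XT.lf (nat_lit 0) (nat_lit 39001286193) (nat_lit 228) (nat_lit 232576968069) (nat_lit 304) (nat_lit 299918729743) (nat_lit 46) (nat_lit 5) (nat_lit 49) (nat_lit 5) (nat_lit 50) (nat_lit 5) (nat_lit 331) (nat_lit 315) (nat_lit 134)) (XT.nd (nat_lit 78) (nat_lit 228) (nat_lit 0) (XT.lf (nat_lit 0) (nat_lit 411339669368) (nat_lit 304) (nat_lit 114981821817) (nat_lit 76)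 (nat_lit 74418102320) (nat_lit 46) (nat_lit 5) (nat_lit 50) (nat_lit 5) (nat_lit 47) (nat_lit 5) (nat_lit 332) (nat_lit 315) (nat_lit 133)) (XT.lf (nat_lit 0) (nat_lit 342989232931) (nat_lit 228) (nat_lit 228569417886) (nat_lit 304) (nat_lit 60299128376) (nat_lit 43) (nat_lit 5) (nat_lit 46) (nat_lit 5) (nat_lit 47) (nat_lit 5) (nat_lit 333) (nat_lit 315) (nat_lit 132)))))) (XT.nd (nat_lit 39468) (nat_lit 0) (nat_lit 2888) (XT.nd (nat_lit 39234) (nat_lit 0) (nat_lit 3344) (XT.nd (nat_lit 156) (nat_lit 228) (nat_lit 0) (XT.lf (nat_lit 0) (nat_lit 83008454096) (nat_lit 228) (nat_lit 485853677077) (nat_lit 76) (nat_lit 96220948361) (nat_lit 40) (nat_lit 5) (nat_lit 43) (nat_lit 5) (nat_lit 41) (nat_lit 5) (nat_lit 334) (nat_lit 315) (nat_lit 131)) (XT.lf (nat_lit 0) (nat_lit 428797989101) (nat_lit 304) (nat_lit 220369902392) (nat_lit 76) (nat_lit 89036819651) (nat_lit 37) (nat_lit 5) (nat_lit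 41) (nat_lit 5) (nat_lit 38) (nat_lit 5) (nat_lit 336) (nat_lit 315) (nat_lit 129))) (XT.nd (nat_lit 78) (nat_lit 0) (nat_lit 0) (XT.lf (nat_lit 0) (nat_lit 49611088989) (nat_lit 0) (nat_lit 49611088989) (nat_lit 684) (nat_lit 53218191167) (nat_lit 81) (nat_lit 5) (nat_lit 81) (nat_lit 3) (nat_lit 90) (nat_lit 3) (nat_lit 316) (nat_lit 316) (nat_lit 148)) (XT.nd (nat_lit 78) (nat_lit 0) (nat_lit 76) (XT.lf (nat_lit 76) (nat_lit 7236487172) (nat_lit 0) (nat_lit 201126382916) (nat_lit 760) (nat_lit 108614058045) (nat_lit 82) (nat_lit 5) (nat_lit 81) (nat_lit 5) (nat_lit 91) (nat_lit 5) (nat_lit 317) (nat_lit 316) (nat_lit 147)) (XT.lf (nat_lit 0) (nat_lit 224591737427) (nat_lit 684) (nat_lit 87289151679) (nat_lit 760) (nat_lit 17884080722) (nat_lit 82) (nat_lit 5) (nat_lit 91) (nat_lit 5) (nat_lit 92) (nat_lit 5) (nat_lit 318) (nat_lit 316) (nat_lit 146))))) (XT.nd (nat_lit 156) (nat_lit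 532) (nat_lit 0) (XT.nd (nat_lit 78) (nat_lit 0) (nat_lit 76) (XT.lf (nat_lit 76) (nat_lit 154512176635) (nat_lit 0) (nat_lit 93410369555) (nat_lit 760) (nat_lit 95363327318) (nat_lit 83) (nat_lit 5) (nat_lit 82) (nat_lit 5) (nat_lit 92) (nat_lit 5) (nat_lit 319) (nat_lit 316) (nat_lit 145)) (XT.lf (nat_lit 76) (nat_lit 60653130232) (nat_lit 0) (nat_lit 217184428708) (nat_lit 760) (nat_lit 79815003809) (nat_lit 84) (nat_lit 5) (nat_lit 83) (nat_lit 5) (nat_lit 93) (nat_lit 5) (nat_lit 320) (nat_lit 316) (nat_lit 144))) (XT.nd (nat_lit 78) (nat_lit 684) (nat_lit 0) (XT.lf (nat_lit 0) (nat_lit 315298492455) (nat_lit 684) (nat_lit 38093570465) (nat_lit 760) (nat_lit 19518888435) (nat_lit 84) (nat_lit 5) (nat_lit 93) (nat_lit 5) (nat_lit 94) (nat_lit 5) (nat_lit 321) (nat_lit 316) (nat_lit 143)) (XT.nd (nat_lit 78) (nat_lit 684) (nat_lit 0) (XT.lf (nat_lit 76) (nat_lit 245727385175) (nat_lit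 0) (nat_lit 117527459047) (nat_lit 760) (nat_lit 25760239849) (nat_lit 85) (nat_lit 5) (nat_lit 84) (nat_lit 5) (nat_lit 94) (nat_lit 5) (nat_lit 322) (nat_lit 316) (nat_lit 142)) (XT.lf (nat_lit 0) (nat_lit 13604811095) (nat_lit 760) (nat_lit 256485078247) (nat_lit 76) (nat_lit 136048853715) (nat_lit 75) (nat_lit 5) (nat_lit 85) (nat_lit 5) (nat_lit 76) (nat_lit 5) (nat_lit 323) (nat_lit 316) (nat_lit 141))))))))
noncomputable def xc125 : XT := (XT.nd (nat_lit 40716) (nat_lit 0) (nat_lit 456) (XT.nd (nat_lit 780) (nat_lit 456) (nat_lit 0) (XT.nd (nat_lit 390) (nat_lit 836) (nat_lit 0) (XT.nd (nat_lit 156) (nat_lit 988) (nat_lit 0) (XT.nd (nat_lit 78) (nat_lit 0) (nat_lit 0) (XT.lf (nat_lit 0) (nat_lit 45643402027) (nat_lit 380) (nat_lit 14816394727) (nat_lit 456) (nat_lit 363889221022) (nat_lit 70) (nat_lit 5) (nat_lit 75) (nat_lit 5) (nat_lit 76) (nat_lit 5) (nat_lit 324) (nat_lit 316)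 (nat_lit 140)) (XT.lf (nat_lit 0) (nat_lit 119677216960) (nat_lit 456) (nat_lit 66837920715) (nat_lit 76) (nat_lit 257070275161) (nat_lit 70) (nat_lit 5) (nat_lit 76) (nat_lit 5) (nat_lit 71) (nat_lit 5) (nat_lit 325) (nat_lit 316) (nat_lit 139))) (XT.nd (nat_lit 78) (nat_lit 608) (nat_lit 0) (XT.lf (nat_lit 0) (nat_lit 189643915247) (nat_lit 456) (nat_lit 186894576698) (nat_lit 76) (nat_lit 87521633472) (nat_lit 65) (nat_lit 5) (nat_lit 71) (nat_lit 5) (nat_lit 66) (nat_lit 5) (nat_lit 326) (nat_lit 316) (nat_lit 138)) (XT.nd (nat_lit 78) (nat_lit 304) (nat_lit 0) (XT.lf (nat_lit 0) (nat_lit 167147075095) (nat_lit 304) (nat_lit 104998799057) (nat_lit 380) (nat_lit 213680044745) (nat_lit 61) (nat_lit 5) (nat_lit 65) (nat_lit 5) (nat_lit 66) (nat_lit 5) (nat_lit 327) (nat_lit 316) (nat_lit 137)) (XT.lf (nat_lit 0) (nat_lit 45478650344) (nat_lit 304) (nat_lit 322727619340) (nat_lit 380)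 (nat_lit 140778792293) (nat_lit 57) (nat_lit 5) (nat_lit 61) (nat_lit 5) (nat_lit 62) (nat_lit 5) (nat_lit 328) (nat_lit 316) (nat_lit 136))))) (XT.nd (nat_lit 156) (nat_lit 532) (nat_lit 0) (XT.nd (nat_lit 78) (nat_lit 304) (nat_lit 0) (XT.lf (nat_lit 0) (nat_lit 448319595999) (nat_lit 304) (nat_lit 30924947114) (nat_lit 380) (nat_lit 54387741186) (nat_lit 57) (nat_lit 5) (nat_lit 61) (nat_lit 5) (nat_lit 62) (nat_lit 5) (nat_lit 329) (nat_lit 316) (nat_lit 135)) (XT.lf (nat_lit 0) (nat_lit 47403857845) (nat_lit 304) (nat_lit 231300368965) (nat_lit 76) (nat_lit 281029940710) (nat_lit 53) (nat_lit 5) (nat_lit 57) (nat_lit 5) (nat_lit 54) (nat_lit 5) (nat_lit 330) (nat_lit 316) (nat_lit 134))) (XT.nd (nat_lit 78) (nat_lit 228) (nat_lit 0) (XT.lf (nat_lit 0) (nat_lit 161081386134) (nat_lit 380) (nat_lit 392903165571) (nat_lit 76) (nat_lit 33612665523) (nat_lit 49) (nat_lit 5) (nat_lit 54)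 (nat_lit 5) (nat_lit 50) (nat_lit 5) (nat_lit 331) (nat_lit 316) (nat_lit 133)) (XT.nd (nat_lit 78) (nat_lit 0) (nat_lit 0) (XT.lf (nat_lit 0) (nat_lit 42122447362) (nat_lit 228) (nat_lit 251182893707) (nat_lit 304) (nat_lit 323911358709) (nat_lit 46) (nat_lit 5) (nat_lit 49) (nat_lit 5) (nat_lit 50) (nat_lit 5) (nat_lit 332) (nat_lit 316) (nat_lit 132)) (XT.lf (nat_lit 0) (nat_lit 444247611515) (nat_lit 304) (nat_lit 124179351264) (nat_lit 76) (nat_lit 80371758273) (nat_lit 46) (nat_lit 5) (nat_lit 50) (nat_lit 5) (nat_lit 47) (nat_lit 5) (nat_lit 333) (nat_lit 316) (nat_lit 131)))))) (XT.nd (nat_lit 39546) (nat_lit 0) (nat_lit 2660) (XT.nd (nat_lit 39312) (nat_lit 0) (nat_lit 3116) (XT.nd (nat_lit 156) (nat_lit 228) (nat_lit 0) (XT.lf (nat_lit 0) (nat_lit 370429343697) (nat_lit 228) (nat_lit 246854726028) (nat_lit 304) (nat_lit 65122294070) (nat_lit 43) (nat_lit 5) (nat_lit 46) (nat_lit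 5) (nat_lit 47) (nat_lit 5) (nat_lit 334) (nat_lit 316) (nat_lit 130)) (XT.lf (nat_lit 0) (nat_lit 264238583570) (nat_lit 228) (nat_lit 11422910751) (nat_lit 76) (nat_lit 480842987090) (nat_lit 40) (nat_lit 5) (nat_lit 43) (nat_lit 5) (nat_lit 41) (nat_lit 5) (nat_lit 336) (nat_lit 316) (nat_lit 128))) (XT.nd (nat_lit 78) (nat_lit 0) (nat_lit 0) (XT.lf (nat_lit 0) (nat_lit 53580475382) (nat_lit 0) (nat_lit 53580475382) (nat_lit 684) (nat_lit 57474595355) (nat_lit 81) (nat_lit 5) (nat_lit 81) (nat_lit 3) (nat_lit 90) (nat_lit 3) (nat_lit 317) (nat_lit 317) (nat_lit 146)) (XT.nd (nat_lit 78) (nat_lit 0) (nat_lit 76) (XT.lf (nat_lit 76) (nat_lit 7816476756) (nat_lit 0) (nat_lit 217217274383) (nat_lit 760) (nat_lit 117301233803) (nat_lit 82) (nat_lit 5) (nat_lit 81) (nat_lit 5) (nat_lit 91) (nat_lit 5) (nat_lit 318) (nat_lit 317) (nat_lit 145)) (XT.lf (nat_lit 0) (nat_lit 242560779434) (nat_lit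 684) (nat_lit 94271190997) (nat_lit 760) (nat_lit 19314107326) (nat_lit 82) (nat_lit 5) (nat_lit 91) (nat_lit 5) (nat_lit 92) (nat_lit 5) (nat_lit 319) (nat_lit 317) (nat_lit 144))))) (XT.nd (nat_lit 156) (nat_lit 532) (nat_lit 0) (XT.nd (nat_lit 78) (nat_lit 0) (nat_lit 76) (XT.lf (nat_lit 76) (nat_lit 166874196091) (nat_lit 0) (nat_lit 100883746978) (nat_lit 760) (nat_lit 102990716487) (nat_lit 83) (nat_lit 5) (nat_lit 82) (nat_lit 5) (nat_lit 92) (nat_lit 5) (nat_lit 320) (nat_lit 317) (nat_lit 143)) (XT.lf (nat_lit 76) (nat_lit 65506468919) (nat_lit 0) (nat_lit 234559578977) (nat_lit 760) (nat_lit 86198641796) (nat_lit 84) (nat_lit 5) (nat_lit 83) (nat_lit 5) (nat_lit 93) (nat_lit 5) (nat_lit 321) (nat_lit 317) (nat_lit 142))) (XT.nd (nat_lit 78) (nat_lit 684) (nat_lit 0) (XT.lf (nat_lit 0) (nat_lit 340523740424) (nat_lit 684) (nat_lit 41139970429) (nat_lit 760) (nat_lit 21080044604)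 (nat_lit 84) (nat_lit 5) (nat_lit 93) (nat_lit 5) (nat_lit 94) (nat_lit 5) (nat_lit 322) (nat_lit 317) (nat_lit 141)) (XT.nd (nat_lit 78) (nat_lit 684) (nat_lit 0) (XT.lf (nat_lit 76) (nat_lit 265386614480) (nat_lit 0) (nat_lit 126929900690) (nat_lit 760) (nat_lit 27819708142) (nat_lit 85) (nat_lit 5) (nat_lit 84) (nat_lit 5) (nat_lit 94) (nat_lit 5) (nat_lit 323) (nat_lit 317) (nat_lit 140)) (XT.lf (nat_lit 0) (nat_lit 14694420025) (nat_lit 760) (nat_lit 277002779543) (nat_lit 76) (nat_lit 146932578810) (nat_lit 75) (nat_lit 5) (nat_lit 85) (nat_lit 5) (nat_lit 76) (nat_lit 5) (nat_lit 324) (nat_lit 317) (nat_lit 139))))))) (XT.nd (nat_lit 40170) (nat_lit 0) (nat_lit 1140) (XT.nd (nat_lit 390) (nat_lit 836) (nat_lit 0) (XT.nd (nat_lit 156) (nat_lit 988) (nat_lit 0) (XT.nd (nat_lit 78) (nat_lit 0) (nat_lit 0) (XT.lf (nat_lit 0) (nat_lit 49295931132) (nat_lit 380) (nat_lit 16001799235)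 (nat_lit 456) (nat_lit 392999148631) (nat_lit 70) (nat_lit 5) (nat_lit 75) (nat_lit 5) (nat_lit 76) (nat_lit 5) (nat_lit 325) (nat_lit 317) (nat_lit 138)) (XT.lf (nat_lit 0) (nat_lit 129252457672) (nat_lit 456) (nat_lit 72183918638) (nat_lit 76) (nat_lit 277635813881) (nat_lit 70) (nat_lit 5) (nat_lit 76) (nat_lit 5) (nat_lit 71) (nat_lit 5) (nat_lit 326) (nat_lit 317) (nat_lit 137))) (XT.nd (nat_lit 78) (nat_lit 608) (nat_lit 0) (XT.lf (nat_lit 0) (nat_lit 204816428377) (nat_lit 456) (nat_lit 201845099644) (nat_lit 76) (nat_lit 94523355116) (nat_lit 65) (nat_lit 5) (nat_lit 71) (nat_lit 5) (nat_lit 66) (nat_lit 5) (nat_lit 327) (nat_lit 317) (nat_lit 136)) (XT.nd (nat_lit 78) (nat_lit 304) (nat_lit 0) (XT.lf (nat_lit 0) (nat_lit 180519838957) (nat_lit 304) (nat_lit 113398646548) (nat_lit 380) (nat_lit 230773457684) (nat_lit 61) (nat_lit 5) (nat_lit 65) (nat_lit 5) (nat_lit 66) (nat_lit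 5) (nat_lit 328) (nat_lit 317) (nat_lit 135)) (XT.lf (nat_lit 0) (nat_lit 49117943098) (nat_lit 304) (nat_lit 348545716287) (nat_lit 380) (nat_lit 152040161155) (nat_lit 57) (nat_lit 5) (nat_lit 61) (nat_lit 5) (nat_lit 62) (nat_lit 5) (nat_lit 329) (nat_lit 317) (nat_lit 134))))) (XT.nd (nat_lit 156) (nat_lit 532) (nat_lit 0) (XT.nd (nat_lit 78) (nat_lit 304) (nat_lit 0) (XT.lf (nat_lit 0) (nat_lit 484186090278) (nat_lit 304) (nat_lit 33398838624) (nat_lit 380) (nat_lit 58737895184) (nat_lit 57) (nat_lit 5) (nat_lit 61) (nat_lit 5) (nat_lit 62) (nat_lit 5) (nat_lit 330) (nat_lit 317) (nat_lit 133)) (XT.lf (nat_lit 0) (nat_lit 51196958255) (nat_lit 304) (nat_lit 249803444814) (nat_lit 76) (nat_lit 303512456640) (nat_lit 53) (nat_lit 5) (nat_lit 57) (nat_lit 5) (nat_lit 54) (nat_lit 5) (nat_lit 331) (nat_lit 317) (nat_lit 132))) (XT.nd (nat_lit 78) (nat_lit 228) (nat_lit 0) (XT.lf (nat_lit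 0) (nat_lit 173968646973) (nat_lit 380) (nat_lit 424334470296) (nat_lit 76) (nat_lit 36301838337) (nat_lit 49) (nat_lit 5) (nat_lit 54) (nat_lit 5) (nat_lit 50) (nat_lit 5) (nat_lit 332) (nat_lit 317) (nat_lit 131)) (XT.nd (nat_lit 39468) (nat_lit 0) (nat_lit 2660) (XT.lf (nat_lit 0) (nat_lit 45493150450) (nat_lit 228) (nat_lit 271277326466) (nat_lit 304) (nat_lit 349823522024) (nat_lit 46) (nat_lit 5) (nat_lit 49) (nat_lit 5) (nat_lit 50) (nat_lit 5) (nat_lit 333) (nat_lit 317) (nat_lit 130)) (XT.lf (nat_lit 0) (nat_lit 57867341460) (nat_lit 0) (nat_lit 57867341460) (nat_lit 684) (nat_lit 62071661830) (nat_lit 81) (nat_lit 5) (nat_lit 81) (nat_lit 3) (nat_lit 90) (nat_lit 3) (nat_lit 318) (nat_lit 318) (nat_lit 144)))))) (XT.nd (nat_lit 390) (nat_lit 1520) (nat_lit 0) (XT.nd (nat_lit 156) (nat_lit 0) (nat_lit 76) (XT.nd (nat_lit 78) (nat_lit 0) (nat_lit 76) (XT.lf (nat_lit 76) (nat_lit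 8442712773) (nat_lit 0) (nat_lit 234595325772) (nat_lit 760) (nat_lit 126683661653) (nat_lit 82) (nat_lit 5) (nat_lit 81) (nat_lit 5) (nat_lit 91) (nat_lit 5) (nat_lit 319) (nat_lit 318) (nat_lit 143)) (XT.lf (nat_lit 0) (nat_lit 261967101847) (nat_lit 684) (nat_lit 101811949362) (nat_lit 760) (nat_lit 20858635900) (nat_lit 82) (nat_lit 5) (nat_lit 91) (nat_lit 5) (nat_lit 92) (nat_lit 5) (nat_lit 320) (nat_lit 318) (nat_lit 142))) (XT.nd (nat_lit 78) (nat_lit 0) (nat_lit 76) (XT.lf (nat_lit 76) (nat_lit 180225027975) (nat_lit 0) (nat_lit 108954916437) (nat_lit 760) (nat_lit 111228536034) (nat_lit 83) (nat_lit 5) (nat_lit 82) (nat_lit 5) (nat_lit 92) (nat_lit 5) (nat_lit 321) (nat_lit 318) (nat_lit 141)) (XT.nd (nat_lit 78) (nat_lit 0) (nat_lit 76) (XT.lf (nat_lit 76) (nat_lit 70747919447) (nat_lit 0) (nat_lit 253324684778) (nat_lit 760) (nat_lit 93093193704) (nat_lit 84) (nat_lit 5)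 (nat_lit 83) (nat_lit 5) (nat_lit 93) (nat_lit 5) (nat_lit 322) (nat_lit 318) (nat_lit 140)) (XT.lf (nat_lit 0) (nat_lit 367766812989) (nat_lit 684) (nat_lit 44430237273) (nat_lit 760) (nat_lit 22766143897) (nat_lit 84) (nat_lit 5) (nat_lit 93) (nat_lit 5) (nat_lit 94) (nat_lit 5) (nat_lit 323) (nat_lit 318) (nat_lit 139))))) (XT.nd (nat_lit 234) (nat_lit 684) (nat_lit 0) (XT.nd (nat_lit 78) (nat_lit 1064) (nat_lit 0) (XT.lf (nat_lit 76) (nat_lit 286618433978) (nat_lit 0) (nat_lit 137084502724) (nat_lit 760) (nat_lit 30044126619) (nat_lit 85) (nat_lit 5) (nat_lit 84) (nat_lit 5) (nat_lit 94) (nat_lit 5) (nat_lit 324) (nat_lit 318) (nat_lit 138)) (XT.nd (nat_lit 78) (nat_lit 380) (nat_lit 0) (XT.lf (nat_lit 0) (nat_lit 15871023045) (nat_lit 760) (nat_lit 299162054579) (nat_lit 76) (nat_lit 158687028048) (nat_lit 75) (nat_lit 5) (nat_lit 85) (nat_lit 5) (nat_lit 76) (nat_lit 5) (nat_lit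 325) (nat_lit 318) (nat_lit 137)) (XT.lf (nat_lit 0) (nat_lit 53240511780) (nat_lit 380) (nat_lit 17282022847) (nat_lit 456) (nat_lit 424438043079) (nat_lit 70) (nat_lit 5) (nat_lit 75) (nat_lit 5) (nat_lit 76) (nat_lit 5) (nat_lit 326) (nat_lit 318) (nat_lit 136)))) (XT.nd (nat_lit 78) (nat_lit 684) (nat_lit 0) (XT.lf (nat_lit 0) (nat_lit 139593565940) (nat_lit 456) (nat_lit 77957744154) (nat_lit 76) (nat_lit 299846607581) (nat_lit 70) (nat_lit 5) (nat_lit 76) (nat_lit 5) (nat_lit 71) (nat_lit 5) (nat_lit 327) (nat_lit 318) (nat_lit 135)) (XT.nd (nat_lit 78) (nat_lit 304) (nat_lit 0) (XT.lf (nat_lit 0) (nat_lit 221202599908) (nat_lit 456) (nat_lit 217991813247) (nat_lit 76) (nat_lit 102085215780) (nat_lit 65) (nat_lit 5) (nat_lit 71) (nat_lit 5) (nat_lit 66) (nat_lit 5) (nat_lit 328) (nat_lit 318) (nat_lit 134)) (XT.lf (nat_lit 0) (nat_lit 194962281574) (nat_lit 304) (nat_lit 122470489889)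 (nat_lit 380) (nat_lit 249234484984) (nat_lit 61) (nat_lit 5) (nat_lit 65) (nat_lit 5) (nat_lit 66) (nat_lit 5) (nat_lit 329) (nat_lit 318) (nat_lit 133))))))))
noncomputable def xc126 : XT := (XT.nd (nat_lit 80574) (nat_lit 0) (nat_lit 836) (XT.nd (nat_lit 40248) (nat_lit 228) (nat_lit 0) (XT.nd (nat_lit 39858) (nat_lit 0) (nat_lit 2432) (XT.nd (nat_lit 156) (nat_lit 608) (nat_lit 0) (XT.nd (nat_lit 78) (nat_lit 0) (nat_lit 0) (XT.lf (nat_lit 0) (nat_lit 53048236507) (nat_lit 304) (nat_lit 376429277054) (nat_lit 380) (nat_lit 164202572846) (nat_lit 57) (nat_lit 5) (nat_lit 61) (nat_lit 5) (nat_lit 62) (nat_lit 5) (nat_lit 330) (nat_lit 318) (nat_lit 132)) (XT.lf (nat_lit 0) (nat_lit 522921771909) (nat_lit 304) (nat_lit 36070656329) (nat_lit 380) (nat_lit 63436184945) (nat_lit 57) (nat_lit 5) (nat_lit 61) (nat_lit 5) (nat_lit 62) (nat_lit 5) (nat_lit 331) (nat_lit 318) (nat_lit 131)))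 (XT.nd (nat_lit 78) (nat_lit 304) (nat_lit 0) (XT.lf (nat_lit 0) (nat_lit 55293393741) (nat_lit 304) (nat_lit 269786902783) (nat_lit 76) (nat_lit 327793556628) (nat_lit 53) (nat_lit 5) (nat_lit 57) (nat_lit 5) (nat_lit 54) (nat_lit 5) (nat_lit 332) (nat_lit 318) (nat_lit 130)) (XT.nd (nat_lit 39546) (nat_lit 0) (nat_lit 2432) (XT.lf (nat_lit 0) (nat_lit 187886781690) (nat_lit 380) (nat_lit 458280414716) (nat_lit 76) (nat_lit 39206122212) (nat_lit 49) (nat_lit 5) (nat_lit 54) (nat_lit 5) (nat_lit 50) (nat_lit 5) (nat_lit 333) (nat_lit 318) (nat_lit 129)) (XT.lf (nat_lit 0) (nat_lit 62497095758) (nat_lit 0) (nat_lit 62497095758) (nat_lit 684) (nat_lit 67036622183) (nat_lit 81) (nat_lit 5) (nat_lit 81) (nat_lit 3) (nat_lit 90) (nat_lit 3) (nat_lit 319) (nat_lit 319) (nat_lit 142))))) (XT.nd (nat_lit 156) (nat_lit 0) (nat_lit 76) (XT.nd (nat_lit 78) (nat_lit 0) (nat_lit 76) (XT.lf (nat_lit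 76) (nat_lit 9118916725) (nat_lit 0) (nat_lit 253363525770) (nat_lit 760) (nat_lit 136816922097) (nat_lit 82) (nat_lit 5) (nat_lit 81) (nat_lit 5) (nat_lit 91) (nat_lit 5) (nat_lit 320) (nat_lit 319) (nat_lit 141)) (XT.lf (nat_lit 0) (nat_lit 282925721759) (nat_lit 684) (nat_lit 109956102058) (nat_lit 760) (nat_lit 22526812359) (nat_lit 82) (nat_lit 5) (nat_lit 91) (nat_lit 5) (nat_lit 92) (nat_lit 5) (nat_lit 321) (nat_lit 319) (nat_lit 140))) (XT.nd (nat_lit 78) (nat_lit 0) (nat_lit 76) (XT.lf (nat_lit 76) (nat_lit 194643798558) (nat_lit 0) (nat_lit 117671712444) (nat_lit 760) (nat_lit 120125586260) (nat_lit 83) (nat_lit 5) (nat_lit 82) (nat_lit 5) (nat_lit 92) (nat_lit 5) (nat_lit 322) (nat_lit 319) (nat_lit 139)) (XT.nd (nat_lit 78) (nat_lit 0) (nat_lit 76) (XT.lf (nat_lit 76) (nat_lit 76408552912) (nat_lit 0) (nat_lit 273590950612) (nat_lit 760) (nat_lit 100539500850) (nat_lit 84)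 (nat_lit 5) (nat_lit 83) (nat_lit 5) (nat_lit 93) (nat_lit 5) (nat_lit 323) (nat_lit 319) (nat_lit 138)) (XT.lf (nat_lit 0) (nat_lit 397189163970) (nat_lit 684) (nat_lit 47983858253) (nat_lit 760) (nat_lit 24587174542) (nat_lit 84) (nat_lit 5) (nat_lit 93) (nat_lit 5) (nat_lit 94) (nat_lit 5) (nat_lit 324) (nat_lit 319) (nat_lit 137)))))) (XT.nd (nat_lit 390) (nat_lit 1444) (nat_lit 0) (XT.nd (nat_lit 156) (nat_lit 760) (nat_lit 0) (XT.nd (nat_lit 78) (nat_lit 684) (nat_lit 0) (XT.lf (nat_lit 76) (nat_lit 309548672018) (nat_lit 0) (nat_lit 148051442965) (nat_lit 760) (nat_lit 32446663800) (nat_lit 85) (nat_lit 5) (nat_lit 84) (nat_lit 5) (nat_lit 94) (nat_lit 5) (nat_lit 325) (nat_lit 319) (nat_lit 136)) (XT.lf (nat_lit 0) (nat_lit 17141604595) (nat_lit 760) (nat_lit 323094206764) (nat_lit 76) (nat_lit 171381855633) (nat_lit 75) (nat_lit 5) (nat_lit 85) (nat_lit 5) (nat_lit 76) (nat_lit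 5) (nat_lit 326) (nat_lit 319) (nat_lit 135))) (XT.nd (nat_lit 78) (nat_lit 380) (nat_lit 0) (XT.lf (nat_lit 0) (nat_lit 57500529607) (nat_lit 380) (nat_lit 18664652982) (nat_lit 456) (nat_lit 458392197086) (nat_lit 70) (nat_lit 5) (nat_lit 75) (nat_lit 5) (nat_lit 76) (nat_lit 5) (nat_lit 327) (nat_lit 319) (nat_lit 134)) (XT.nd (nat_lit 78) (nat_lit 380) (nat_lit 0) (XT.lf (nat_lit 0) (nat_lit 150761832812) (nat_lit 456) (nat_lit 84193602391) (nat_lit 76) (nat_lit 323834274965) (nat_lit 70) (nat_lit 5) (nat_lit 76) (nat_lit 5) (nat_lit 71) (nat_lit 5) (nat_lit 328) (nat_lit 319) (nat_lit 133)) (XT.lf (nat_lit 0) (nat_lit 238899542864) (nat_lit 456) (nat_lit 235430391531) (nat_lit 76) (nat_lit 110252026402) (nat_lit 65) (nat_lit 5) (nat_lit 71) (nat_lit 5) (nat_lit 66) (nat_lit 5) (nat_lit 329) (nat_lit 319) (nat_lit 132))))) (XT.nd (nat_lit 156) (nat_lit 836) (nat_lit 0) (XT.nd (nat_lit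 78) (nat_lit 304) (nat_lit 0) (XT.lf (nat_lit 0) (nat_lit 210559997553) (nat_lit 304) (nat_lit 132268087600) (nat_lit 380) (nat_lit 269172515633) (nat_lit 61) (nat_lit 5) (nat_lit 65) (nat_lit 5) (nat_lit 66) (nat_lit 5) (nat_lit 330) (nat_lit 319) (nat_lit 131)) (XT.lf (nat_lit 0) (nat_lit 57292830992) (nat_lit 304) (nat_lit 406543536454) (nat_lit 380) (nat_lit 177338091772) (nat_lit 57) (nat_lit 5) (nat_lit 61) (nat_lit 5) (nat_lit 62) (nat_lit 5) (nat_lit 331) (nat_lit 319) (nat_lit 130))) (XT.nd (nat_lit 234) (nat_lit 836) (nat_lit 0) (XT.lf (nat_lit 0) (nat_lit 564756194739) (nat_lit 304) (nat_lit 38956232202) (nat_lit 380) (nat_lit 68510443721) (nat_lit 57) (nat_lit 5) (nat_lit 61) (nat_lit 5) (nat_lit 62) (nat_lit 5) (nat_lit 332) (nat_lit 319) (nat_lit 129)) (XT.nd (nat_lit 39468) (nat_lit 0) (nat_lit 2660) (XT.lf (nat_lit 0) (nat_lit 53064717670) (nat_lit 228) (nat_lit 316417543495)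 (nat_lit 304) (nat_lit 408032918042) (nat_lit 46) (nat_lit 5) (nat_lit 49) (nat_lit 5) (nat_lit 50) (nat_lit 5) (nat_lit 335) (nat_lit 319) (nat_lit 126)) (XT.lf (nat_lit 0) (nat_lit 67497178047) (nat_lit 0) (nat_lit 67497178047) (nat_lit 684) (nat_lit 72398889583) (nat_lit 81) (nat_lit 5) (nat_lit 81) (nat_lit 3) (nat_lit 90) (nat_lit 3) (nat_lit 320) (nat_lit 320) (nat_lit 140))))))) (XT.nd (nat_lit 780) (nat_lit 608) (nat_lit 0) (XT.nd (nat_lit 390) (nat_lit 1216) (nat_lit 0) (XT.nd (nat_lit 156) (nat_lit 0) (nat_lit 76) (XT.nd (nat_lit 78) (nat_lit 0) (nat_lit 76) (XT.lf (nat_lit 76) (nat_lit 9849104729) (nat_lit 0) (nat_lit 273633099889) (nat_lit 760) (nat_lit 147761047736) (nat_lit 82) (nat_lit 5) (nat_lit 81) (nat_lit 5) (nat_lit 91) (nat_lit 5) (nat_lit 321) (nat_lit 320) (nat_lit 139)) (XT.lf (nat_lit 0) (nat_lit 305560852687) (nat_lit 684) (nat_lit 118751901562) (nat_lit 760)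 (nat_lit 24328516321) (nat_lit 82) (nat_lit 5) (nat_lit 91) (nat_lit 5) (nat_lit 92) (nat_lit 5) (nat_lit 322) (nat_lit 320) (nat_lit 138))) (XT.nd (nat_lit 78) (nat_lit 0) (nat_lit 76) (XT.lf (nat_lit 76) (nat_lit 210215961175) (nat_lit 0) (nat_lit 127085794684) (nat_lit 760) (nat_lit 129734576356) (nat_lit 83) (nat_lit 5) (nat_lit 82) (nat_lit 5) (nat_lit 92) (nat_lit 5) (nat_lit 323) (nat_lit 320) (nat_lit 137)) (XT.nd (nat_lit 78) (nat_lit 0) (nat_lit 76) (XT.lf (nat_lit 76) (nat_lit 82521922938) (nat_lit 0) (nat_lit 295478476191) (nat_lit 760) (nat_lit 108581676393) (nat_lit 84) (nat_lit 5) (nat_lit 83) (nat_lit 5) (nat_lit 93) (nat_lit 5) (nat_lit 324) (nat_lit 320) (nat_lit 136)) (XT.lf (nat_lit 0) (nat_lit 428965159520) (nat_lit 684) (nat_lit 51821882755) (nat_lit 760) (nat_lit 26553924854) (nat_lit 84) (nat_lit 5) (nat_lit 93) (nat_lit 5) (nat_lit 94) (nat_lit 5) (nat_lit 325)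 (nat_lit 320) (nat_lit 135))))) (XT.nd (nat_lit 156) (nat_lit 760) (nat_lit 0) (XT.nd (nat_lit 78) (nat_lit 684) (nat_lit 0) (XT.lf (nat_lit 76) (nat_lit 334313220205) (nat_lit 0) (nat_lit 159895712743) (nat_lit 760) (nat_lit 35041545612) (nat_lit 85) (nat_lit 5) (nat_lit 84) (nat_lit 5) (nat_lit 94) (nat_lit 5) (nat_lit 326) (nat_lit 320) (nat_lit 134)) (XT.lf (nat_lit 0) (nat_lit 18513704317) (nat_lit 760) (nat_lit 348941046991) (nat_lit 76) (nat_lit 185092288635) (nat_lit 75) (nat_lit 5) (nat_lit 85) (nat_lit 5) (nat_lit 76) (nat_lit 5) (nat_lit 327) (nat_lit 320) (nat_lit 133))) (XT.nd (nat_lit 78) (nat_lit 380) (nat_lit 0) (XT.lf (nat_lit 0) (nat_lit 62101238029) (nat_lit 380) (nat_lit 20157883783) (nat_lit 456) (nat_lit 495062810302) (nat_lit 70) (nat_lit 5) (nat_lit 75) (nat_lit 5) (nat_lit 76) (nat_lit 5) (nat_lit 328) (nat_lit 320) (nat_lit 132)) (XT.nd (nat_lit 78) (nat_lit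 380) (nat_lit 0) (XT.lf (nat_lit 0) (nat_lit 162823449531) (nat_lit 456) (nat_lit 90928437894) (nat_lit 76) (nat_lit 349740964474) (nat_lit 70) (nat_lit 5) (nat_lit 76) (nat_lit 5) (nat_lit 71) (nat_lit 5) (nat_lit 329) (nat_lit 320) (nat_lit 131)) (XT.lf (nat_lit 0) (nat_lit 258012136406) (nat_lit 456) (nat_lit 254264165467) (nat_lit 76) (nat_lit 119072182822) (nat_lit 65) (nat_lit 5) (nat_lit 71) (nat_lit 5) (nat_lit 66) (nat_lit 5) (nat_lit 330) (nat_lit 320) (nat_lit 130)))))) (XT.nd (nat_lit 40092) (nat_lit 0) (nat_lit 1368) (XT.nd (nat_lit 39858) (nat_lit 0) (nat_lit 1824) (XT.nd (nat_lit 78) (nat_lit 304) (nat_lit 0) (XT.lf (nat_lit 0) (nat_lit 227405426175) (nat_lit 304) (nat_lit 142849499046) (nat_lit 380) (nat_lit 290705692612) (nat_lit 61) (nat_lit 5) (nat_lit 65) (nat_lit 5) (nat_lit 66) (nat_lit 5) (nat_lit 331) (nat_lit 320) (nat_lit 129)) (XT.lf (nat_lit 0) (nat_lit 61876888098)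 (nat_lit 304) (nat_lit 439066948413) (nat_lit 380) (nat_lit 191524550207) (nat_lit 57) (nat_lit 5) (nat_lit 61) (nat_lit 5) (nat_lit 62) (nat_lit 5) (nat_lit 332) (nat_lit 320) (nat_lit 128))) (XT.nd (nat_lit 78) (nat_lit 0) (nat_lit 0) (XT.lf (nat_lit 0) (nat_lit 72897222033) (nat_lit 0) (nat_lit 72897222033) (nat_lit 684) (nat_lit 78190232870) (nat_lit 81) (nat_lit 5) (nat_lit 81) (nat_lit 3) (nat_lit 90) (nat_lit 3) (nat_lit 321) (nat_lit 321) (nat_lit 138)) (XT.nd (nat_lit 78) (nat_lit 0) (nat_lit 76) (XT.lf (nat_lit 76) (nat_lit 10637611525) (nat_lit 0) (nat_lit 295524169740) (nat_lit 760) (nat_lit 159580878633) (nat_lit 82) (nat_lit 5) (nat_lit 81) (nat_lit 5) (nat_lit 91) (nat_lit 5) (nat_lit 322) (nat_lit 321) (nat_lit 137)) (XT.lf (nat_lit 0) (nat_lit 330006640986) (nat_lit 684) (nat_lit 128251463272) (nat_lit 760) (nat_lit 26274419518) (nat_lit 82) (nat_lit 5) (nat_lit 91) (nat_lit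 5) (nat_lit 92) (nat_lit 5) (nat_lit 323) (nat_lit 321) (nat_lit 136))))) (XT.nd (nat_lit 156) (nat_lit 532) (nat_lit 0) (XT.nd (nat_lit 78) (nat_lit 0) (nat_lit 76) (XT.lf (nat_lit 76) (nat_lit 227033802825) (nat_lit 0) (nat_lit 137252954250) (nat_lit 760) (nat_lit 140112436424) (nat_lit 83) (nat_lit 5) (nat_lit 82) (nat_lit 5) (nat_lit 92) (nat_lit 5) (nat_lit 324) (nat_lit 321) (nat_lit 135)) (XT.lf (nat_lit 76) (nat_lit 89124264731) (nat_lit 0) (nat_lit 319116968218) (nat_lit 760) (nat_lit 117267366433) (nat_lit 84) (nat_lit 5) (nat_lit 83) (nat_lit 5) (nat_lit 93) (nat_lit 5) (nat_lit 325) (nat_lit 321) (nat_lit 134))) (XT.nd (nat_lit 78) (nat_lit 684) (nat_lit 0) (XT.lf (nat_lit 0) (nat_lit 463283111679) (nat_lit 684) (nat_lit 55967046820) (nat_lit 760) (nat_lit 28678047097) (nat_lit 84) (nat_lit 5) (nat_lit 93) (nat_lit 5) (nat_lit 94) (nat_lit 5) (nat_lit 326) (nat_lit 321) (nat_lit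 133)) (XT.nd (nat_lit 78) (nat_lit 684) (nat_lit 0) (XT.lf (nat_lit 76) (nat_lit 361058838886) (nat_lit 0) (nat_lit 172687502084) (nat_lit 760) (nat_lit 37844139414) (nat_lit 85) (nat_lit 5) (nat_lit 84) (nat_lit 5) (nat_lit 94) (nat_lit 5) (nat_lit 327) (nat_lit 321) (nat_lit 132)) (XT.lf (nat_lit 0) (nat_lit 19995461973) (nat_lit 760) (nat_lit 376855733773) (nat_lit 76) (nat_lit 199899572748) (nat_lit 75) (nat_lit 5) (nat_lit 85) (nat_lit 5) (nat_lit 76) (nat_lit 5) (nat_lit 328) (nat_lit 321) (nat_lit 131))))))))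
noncomputable def xc127 : XT := (XT.nd (nat_lit 81276) (nat_lit 0) (nat_lit 684) (XT.nd (nat_lit 40560) (nat_lit 0) (nat_lit 684) (XT.nd (nat_lit 40170) (nat_lit 0) (nat_lit 1520) (XT.nd (nat_lit 156) (nat_lit 684) (nat_lit 0) (XT.nd (nat_lit 78) (nat_lit 0) (nat_lit 0) (XT.lf (nat_lit 0) (nat_lit 67069908105) (nat_lit 380) (nat_lit 21770564693) (nat_lit 456) (nat_lit 534667181362) (nat_lit 70) (nat_lit 5) (nat_lit 75) (nat_lit 5) (nat_lit 76) (nat_lit 5) (nat_lit 329) (nat_lit 321) (nat_lit 130)) (XT.lf (nat_lit 0) (nat_lit 175849899991) (nat_lit 456) (nat_lit 98202153350) (nat_lit 76) (nat_lit 377720196631) (nat_lit 70) (nat_lit 5) (nat_lit 76) (nat_lit 5) (nat_lit 71) (nat_lit 5) (nat_lit 330) (nat_lit 321) (nat_lit 129))) (XT.nd (nat_lit 78) (nat_lit 304) (nat_lit 0) (XT.lf (nat_lit 0) (nat_lit 278653647538) (nat_lit 456) (nat_lit 274604735100) (nat_lit 76) (nat_lit 128597952567)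 (nat_lit 65) (nat_lit 5) (nat_lit 71) (nat_lit 5) (nat_lit 66) (nat_lit 5) (nat_lit 331) (nat_lit 321) (nat_lit 128)) (XT.nd (nat_lit 39858) (nat_lit 0) (nat_lit 1520) (XT.lf (nat_lit 0) (nat_lit 245598399379) (nat_lit 304) (nat_lit 154277428480) (nat_lit 380) (nat_lit 313961612809) (nat_lit 61) (nat_lit 5) (nat_lit 65) (nat_lit 5) (nat_lit 66) (nat_lit 5) (nat_lit 332) (nat_lit 321) (nat_lit 127)) (XT.lf (nat_lit 0) (nat_lit 78729231056) (nat_lit 0) (nat_lit 78729231056) (nat_lit 684) (nat_lit 84444964635) (nat_lit 81) (nat_lit 5) (nat_lit 81) (nat_lit 3) (nat_lit 90) (nat_lit 3) (nat_lit 322) (nat_lit 322) (nat_lit 136))))) (XT.nd (nat_lit 156) (nat_lit 0) (nat_lit 76) (XT.nd (nat_lit 78) (nat_lit 0) (nat_lit 76) (XT.lf (nat_lit 76) (nat_lit 11489116347) (nat_lit 0) (nat_lit 319166464996) (nat_lit 760) (nat_lit 172346446213) (nat_lit 82) (nat_lit 5) (nat_lit 81) (nat_lit 5) (nat_lit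 91) (nat_lit 5) (nat_lit 323) (nat_lit 322) (nat_lit 135)) (XT.lf (nat_lit 0) (nat_lit 356407961089) (nat_lit 684) (nat_lit 138511074148) (nat_lit 760) (nat_lit 28376048912) (nat_lit 82) (nat_lit 5) (nat_lit 91) (nat_lit 5) (nat_lit 92) (nat_lit 5) (nat_lit 324) (nat_lit 322) (nat_lit 134))) (XT.nd (nat_lit 78) (nat_lit 0) (nat_lit 76) (XT.lf (nat_lit 76) (nat_lit 245196991239) (nat_lit 0) (nat_lit 148233444355) (nat_lit 760) (nat_lit 151320654555) (nat_lit 83) (nat_lit 5) (nat_lit 82) (nat_lit 5) (nat_lit 92) (nat_lit 5) (nat_lit 325) (nat_lit 322) (nat_lit 133)) (XT.nd (nat_lit 78) (nat_lit 0) (nat_lit 76) (XT.lf (nat_lit 76) (nat_lit 96254709988) (nat_lit 0) (nat_lit 344646509088) (nat_lit 760) (nat_lit 126648032092) (nat_lit 84) (nat_lit 5) (nat_lit 83) (nat_lit 5) (nat_lit 93) (nat_lit 5) (nat_lit 326) (nat_lit 322) (nat_lit 132)) (XT.lf (nat_lit 0) (nat_lit 500346394527) (nat_lit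 684) (nat_lit 60443907688) (nat_lit 760) (nat_lit 30972126474) (nat_lit 84) (nat_lit 5) (nat_lit 93) (nat_lit 5) (nat_lit 94) (nat_lit 5) (nat_lit 327) (nat_lit 322) (nat_lit 131)))))) (XT.nd (nat_lit 40326) (nat_lit 0) (nat_lit 836) (XT.nd (nat_lit 156) (nat_lit 380) (nat_lit 0) (XT.nd (nat_lit 78) (nat_lit 684) (nat_lit 0) (XT.lf (nat_lit 76) (nat_lit 389944027020) (nat_lit 0) (nat_lit 186502615696) (nat_lit 760) (nat_lit 40871044842) (nat_lit 85) (nat_lit 5) (nat_lit 84) (nat_lit 5) (nat_lit 94) (nat_lit 5) (nat_lit 328) (nat_lit 322) (nat_lit 130)) (XT.lf (nat_lit 0) (nat_lit 21595665899) (nat_lit 760) (nat_lit 407003680663) (nat_lit 76) (nat_lit 215891453709) (nat_lit 75) (nat_lit 5) (nat_lit 85) (nat_lit 5) (nat_lit 76) (nat_lit 5) (nat_lit 329) (nat_lit 322) (nat_lit 129))) (XT.nd (nat_lit 78) (nat_lit 0) (nat_lit 0) (XT.lf (nat_lit 0) (nat_lit 72435990323) (nat_lit 380) (nat_lit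 23512252913) (nat_lit 456) (nat_lit 577439995373) (nat_lit 70) (nat_lit 5) (nat_lit 75) (nat_lit 5) (nat_lit 76) (nat_lit 5) (nat_lit 330) (nat_lit 322) (nat_lit 128)) (XT.nd (nat_lit 40014) (nat_lit 0) (nat_lit 836) (XT.lf (nat_lit 0) (nat_lit 189918384529) (nat_lit 456) (nat_lit 106057845873) (nat_lit 76) (nat_lit 407937773781) (nat_lit 70) (nat_lit 5) (nat_lit 76) (nat_lit 5) (nat_lit 71) (nat_lit 5) (nat_lit 331) (nat_lit 322) (nat_lit 127)) (XT.lf (nat_lit 0) (nat_lit 85027767809) (nat_lit 0) (nat_lit 85027767809) (nat_lit 684) (nat_lit 91200144397) (nat_lit 81) (nat_lit 5) (nat_lit 81) (nat_lit 3) (nat_lit 90) (nat_lit 3) (nat_lit 323) (nat_lit 323) (nat_lit 134))))) (XT.nd (nat_lit 156) (nat_lit 0) (nat_lit 76) (XT.nd (nat_lit 78) (nat_lit 0) (nat_lit 76) (XT.lf (nat_lit 76) (nat_lit 12408670809) (nat_lit 0) (nat_lit 344700092276) (nat_lit 760) (nat_lit 186133387981) (nat_lit 82)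 (nat_lit 5) (nat_lit 81) (nat_lit 5) (nat_lit 91) (nat_lit 5) (nat_lit 324) (nat_lit 323) (nat_lit 133)) (XT.lf (nat_lit 0) (nat_lit 384921274266) (nat_lit 684) (nat_lit 149591526107) (nat_lit 760) (nat_lit 30645854903) (nat_lit 82) (nat_lit 5) (nat_lit 91) (nat_lit 5) (nat_lit 92) (nat_lit 5) (nat_lit 325) (nat_lit 323) (nat_lit 132))) (XT.nd (nat_lit 78) (nat_lit 0) (nat_lit 76) (XT.lf (nat_lit 76) (nat_lit 264813165651) (nat_lit 0) (nat_lit 160092337465) (nat_lit 760) (nat_lit 163425640953) (nat_lit 83) (nat_lit 5) (nat_lit 82) (nat_lit 5) (nat_lit 92) (nat_lit 5) (nat_lit 326) (nat_lit 323) (nat_lit 131)) (XT.nd (nat_lit 78) (nat_lit 0) (nat_lit 76) (XT.lf (nat_lit 76) (nat_lit 103955518953) (nat_lit 0) (nat_lit 372218387061) (nat_lit 760) (nat_lit 136779254242) (nat_lit 84) (nat_lit 5) (nat_lit 83) (nat_lit 5) (nat_lit 93) (nat_lit 5) (nat_lit 327) (nat_lit 323) (nat_lit 130)) (XT.lf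 (nat_lit 0) (nat_lit 540374649569) (nat_lit 684) (nat_lit 65278989168) (nat_lit 760) (nat_lit 33449755654) (nat_lit 84) (nat_lit 5) (nat_lit 93) (nat_lit 5) (nat_lit 94) (nat_lit 5) (nat_lit 328) (nat_lit 323) (nat_lit 129))))))) (XT.nd (nat_lit 80964) (nat_lit 0) (nat_lit 836) (XT.nd (nat_lit 40404) (nat_lit 0) (nat_lit 912) (XT.nd (nat_lit 156) (nat_lit 380) (nat_lit 0) (XT.nd (nat_lit 78) (nat_lit 684) (nat_lit 0) (XT.lf (nat_lit 76) (nat_lit 421139961580) (nat_lit 0) (nat_lit 201422922213) (nat_lit 760) (nat_lit 44140191970) (nat_lit 85) (nat_lit 5) (nat_lit 84) (nat_lit 5) (nat_lit 94) (nat_lit 5) (nat_lit 329) (nat_lit 323) (nat_lit 128)) (XT.lf (nat_lit 0) (nat_lit 23323805255) (nat_lit 760) (nat_lit 439563536320) (nat_lit 76) (nat_lit 233162697254) (nat_lit 75) (nat_lit 5) (nat_lit 85) (nat_lit 5) (nat_lit 76) (nat_lit 5) (nat_lit 330) (nat_lit 323) (nat_lit 127))) (XT.nd (nat_lit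 40092) (nat_lit 0) (nat_lit 836) (XT.lf (nat_lit 0) (nat_lit 78231289275) (nat_lit 380) (nat_lit 25393270050) (nat_lit 456) (nat_lit 623634714466) (nat_lit 70) (nat_lit 5) (nat_lit 75) (nat_lit 5) (nat_lit 76) (nat_lit 5) (nat_lit 331) (nat_lit 323) (nat_lit 126)) (XT.nd (nat_lit 78) (nat_lit 0) (nat_lit 0) (XT.lf (nat_lit 0) (nat_lit 91830159217) (nat_lit 0) (nat_lit 91830159217) (nat_lit 684) (nat_lit 98495798088) (nat_lit 81) (nat_lit 5) (nat_lit 81) (nat_lit 3) (nat_lit 90) (nat_lit 3) (nat_lit 324) (nat_lit 324) (nat_lit 132)) (XT.lf (nat_lit 76) (nat_lit 13401728975) (nat_lit 0) (nat_lit 372276365501) (nat_lit 760) (nat_lit 201023395500) (nat_lit 82) (nat_lit 5) (nat_lit 81) (nat_lit 5) (nat_lit 91) (nat_lit 5) (nat_lit 325) (nat_lit 324) (nat_lit 131))))) (XT.nd (nat_lit 156) (nat_lit 0) (nat_lit 76) (XT.nd (nat_lit 78) (nat_lit 0) (nat_lit 0) (XT.lf (nat_lit 0) (nat_lit 415715556016)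 (nat_lit 684) (nat_lit 161558476134) (nat_lit 760) (nat_lit 33097285023) (nat_lit 82) (nat_lit 5) (nat_lit 91) (nat_lit 5) (nat_lit 92) (nat_lit 5) (nat_lit 326) (nat_lit 324) (nat_lit 130)) (XT.lf (nat_lit 76) (nat_lit 285998574795) (nat_lit 0) (nat_lit 172899910987) (nat_lit 760) (nat_lit 176499121270) (nat_lit 83) (nat_lit 5) (nat_lit 82) (nat_lit 5) (nat_lit 92) (nat_lit 5) (nat_lit 327) (nat_lit 324) (nat_lit 129))) (XT.nd (nat_lit 78) (nat_lit 0) (nat_lit 76) (XT.lf (nat_lit 76) (nat_lit 112272330982) (nat_lit 0) (nat_lit 401995992839) (nat_lit 760) (nat_lit 147721062673) (nat_lit 84) (nat_lit 5) (nat_lit 83) (nat_lit 5) (nat_lit 93) (nat_lit 5) (nat_lit 328) (nat_lit 324) (nat_lit 128)) (XT.nd (nat_lit 78) (nat_lit 0) (nat_lit 0) (XT.lf (nat_lit 0) (nat_lit 583605087480) (nat_lit 684) (nat_lit 70500938672) (nat_lit 760) (nat_lit 36125615274) (nat_lit 84) (nat_lit 5) (nat_lit 93)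 (nat_lit 5) (nat_lit 94) (nat_lit 5) (nat_lit 329) (nat_lit 324) (nat_lit 127)) (XT.lf (nat_lit 76) (nat_lit 454831512073) (nat_lit 0) (nat_lit 217536839375) (nat_lit 760) (nat_lit 47670947401) (nat_lit 85) (nat_lit 5) (nat_lit 84) (nat_lit 5) (nat_lit 94) (nat_lit 5) (nat_lit 330) (nat_lit 324) (nat_lit 126)))))) (XT.nd (nat_lit 390) (nat_lit 0) (nat_lit 0) (XT.nd (nat_lit 156) (nat_lit 0) (nat_lit 76) (XT.nd (nat_lit 78) (nat_lit 0) (nat_lit 0) (XT.lf (nat_lit 0) (nat_lit 99176717688) (nat_lit 0) (nat_lit 99176717688) (nat_lit 684) (nat_lit 106375155128) (nat_lit 81) (nat_lit 5) (nat_lit 81) (nat_lit 3) (nat_lit 90) (nat_lit 3) (nat_lit 325) (nat_lit 325) (nat_lit 130)) (XT.lf (nat_lit 76) (nat_lit 14474179794) (nat_lit 0) (nat_lit 402058702659) (nat_lit 760) (nat_lit 217104698279) (nat_lit 82) (nat_lit 5) (nat_lit 81) (nat_lit 5) (nat_lit 91) (nat_lit 5) (nat_lit 326) (nat_lit 325)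 (nat_lit 129))) (XT.nd (nat_lit 78) (nat_lit 0) (nat_lit 0) (XT.lf (nat_lit 0) (nat_lit 448973297591) (nat_lit 684) (nat_lit 174482835242) (nat_lit 760) (nat_lit 35744863544) (nat_lit 82) (nat_lit 5) (nat_lit 91) (nat_lit 5) (nat_lit 92) (nat_lit 5) (nat_lit 327) (nat_lit 325) (nat_lit 128)) (XT.nd (nat_lit 78) (nat_lit 0) (nat_lit 76) (XT.lf (nat_lit 76) (nat_lit 308878765899) (nat_lit 0) (nat_lit 186732063781) (nat_lit 760) (nat_lit 190618561466) (nat_lit 83) (nat_lit 5) (nat_lit 82) (nat_lit 5) (nat_lit 92) (nat_lit 5) (nat_lit 328) (nat_lit 325) (nat_lit 127)) (XT.lf (nat_lit 76) (nat_lit 121254435116) (nat_lit 0) (nat_lit 434155787847) (nat_lit 760) (nat_lit 159538291661) (nat_lit 84) (nat_lit 5) (nat_lit 83) (nat_lit 5) (nat_lit 93) (nat_lit 5) (nat_lit 329) (nat_lit 325) (nat_lit 126))))) (XT.nd (nat_lit 40482) (nat_lit 0) (nat_lit 0) (XT.nd (nat_lit 40326) (nat_lit 228) (nat_lit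 0) (XT.lf (nat_lit 0) (nat_lit 630293893952) (nat_lit 684) (nat_lit 76140696868) (nat_lit 760) (nat_lit 39015560903) (nat_lit 84) (nat_lit 5) (nat_lit 93) (nat_lit 5) (nat_lit 94) (nat_lit 5) (nat_lit 330) (nat_lit 325) (nat_lit 125)) (XT.nd (nat_lit 78) (nat_lit 0) (nat_lit 0) (XT.lf (nat_lit 0) (nat_lit 107110980046) (nat_lit 0) (nat_lit 107110980046) (nat_lit 684) (nat_lit 114884904500) (nat_lit 81) (nat_lit 5) (nat_lit 81) (nat_lit 3) (nat_lit 90) (nat_lit 3) (nat_lit 326) (nat_lit 326) (nat_lit 128)) (XT.lf (nat_lit 76) (nat_lit 15632382097) (nat_lit 0) (nat_lit 434223594275) (nat_lit 760) (nat_lit 234472586435) (nat_lit 82) (nat_lit 5) (nat_lit 81) (nat_lit 5) (nat_lit 91) (nat_lit 5) (nat_lit 327) (nat_lit 326) (nat_lit 127)))) (XT.nd (nat_lit 78) (nat_lit 76) (nat_lit 0) (XT.lf (nat_lit 0) (nat_lit 484891587575) (nat_lit 684) (nat_lit 188441188585) (nat_lit 760) (nat_lit 38604277490)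 (nat_lit 82) (nat_lit 5) (nat_lit 91) (nat_lit 5) (nat_lit 92) (nat_lit 5) (nat_lit 328) (nat_lit 326) (nat_lit 126)) (XT.nd (nat_lit 40560) (nat_lit 76) (nat_lit 0) (XT.lf (nat_lit 76) (nat_lit 333589328762) (nat_lit 0) (nat_lit 201670765984) (nat_lit 760) (nat_lit 205867626712) (nat_lit 83) (nat_lit 5) (nat_lit 82) (nat_lit 5) (nat_lit 92) (nat_lit 5) (nat_lit 329) (nat_lit 326) (nat_lit 125)) (XT.lf (nat_lit 76) (nat_lit 16883202363) (nat_lit 0) (nat_lit 468961649343) (nat_lit 760) (nat_lit 253229975220) (nat_lit 82) (nat_lit 5) (nat_lit 81) (nat_lit 5) (nat_lit 91) (nat_lit 5) (nat_lit 328) (nat_lit 327) (nat_lit 125))))))))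

set_option maxRecDepth 10000000 in
noncomputable def Tp : PT := (PT.nd (nat_lit 5374590) (PT.nd (nat_lit 5090358) (PT.nd (nat_lit 4846374) pc0 pc1) (PT.nd (nat_lit 162552) pc2 pc3)) (PT.nd (nat_lit 162474) (PT.nd (nat_lit 81510) pc4 pc5) (PT.nd (nat_lit 120354) pc6 pc7)))

set_option maxRecDepth 10000000 in
noncomputable def Tx : XT := (XT.nd (nat_lit 8804952) (nat_lit 0) (nat_lit 76) XT.nil (XT.nd (nat_lit 4509336) (nat_lit 0) (nat_lit 0) (XT.nd (nat_lit 2071914) (nat_lit 0) (nat_lit 152) (XT.nd (nat_lit 1457430) (nat_lit 0) (nat_lit 152) (XT.nd (nat_lit 1013610) (nat_lit 0) (nat_lit 152) (XT.nd (nat_lit 690768) (nat_lit 0) (nat_lit 152) (XT.nd (nat_lit 487110) (nat_lit 0) (nat_lit 0) (XT.nd (nat_lit 325104) (nat_lit 0) (nat_lit 0) (XT.nd (nat_lit 243204) (nat_lit 0) (nat_lit 0) xc0 xc1) (XT.nd (nat_lit 81276) (nat_lit 0) (nat_lit 0) xc2 xc3)) (XT.nd (nat_lit 121368) (nat_lit 0) (nat_lit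 152) (XT.nd (nat_lit 80028) (nat_lit 0) (nat_lit 76) xc4 xc5) (XT.nd (nat_lit 41184) (nat_lit 0) (nat_lit 0) xc6 xc7))) (XT.nd (nat_lit 162630) (nat_lit 0) (nat_lit 0) (XT.nd (nat_lit 119028) (nat_lit 0) (nat_lit 0) (XT.nd (nat_lit 78468) (nat_lit 0) (nat_lit 0) xc8 xc9) (XT.nd (nat_lit 40404) (nat_lit 0) (nat_lit 0) xc10 xc11)) (XT.nd (nat_lit 80418) (nat_lit 0) (nat_lit 0) (XT.nd (nat_lit 40248) (nat_lit 0) (nat_lit 0) xc12 xc13) (XT.nd (nat_lit 39936) (nat_lit 0) (nat_lit 0) xc14 xc15)))) (XT.nd (nat_lit 241956) (nat_lit 0) (nat_lit 0) (XT.nd (nat_lit 121602) (nat_lit 0) (nat_lit 0) (XT.nd (nat_lit 42744) (nat_lit 0) (nat_lit 0) (XT.nd (nat_lit 39624) (nat_lit 0) (nat_lit 0) xc16 xc17) (XT.nd (nat_lit 39468) (nat_lit 0) (nat_lit 0) xc18 xc19)) (XT.nd (nat_lit 42276) (nat_lit 0) (nat_lit 0) (XT.nd (nat_lit 39156) (nat_lit 0) (nat_lit 0) xc20 xc21) (XT.nd (nat_lit 39078) (nat_lit 0)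 (nat_lit 0) xc22 xc23))) (XT.nd (nat_lit 83694) (nat_lit 0) (nat_lit 0) (XT.nd (nat_lit 41886) (nat_lit 0) (nat_lit 0) (XT.nd (nat_lit 3120) (nat_lit 0) (nat_lit 0) xc24 xc25) (XT.nd (nat_lit 38610) (nat_lit 0) (nat_lit 0) xc26 xc27)) (XT.nd (nat_lit 41652) (nat_lit 0) (nat_lit 0) (XT.nd (nat_lit 38454) (nat_lit 0) (nat_lit 0) xc28 xc29) (XT.nd (nat_lit 38298) (nat_lit 0) (nat_lit 0) xc30 xc31))))) (XT.nd (nat_lit 324948) (nat_lit 0) (nat_lit 0) (XT.nd (nat_lit 163644) (nat_lit 0) (nat_lit 0) (XT.nd (nat_lit 82134) (nat_lit 0) (nat_lit 0) (XT.nd (nat_lit 41106) (nat_lit 0) (nat_lit 0) (XT.nd (nat_lit 3120) (nat_lit 76) (nat_lit 0) xc32 xc33) (XT.nd (nat_lit 3120) (nat_lit 76) (nat_lit 0) xc34 xc35)) (XT.nd (nat_lit 40794) (nat_lit 0) (nat_lit 0) (XT.nd (nat_lit 3120) (nat_lit 0) (nat_lit 0) xc36 xc37) (XT.nd (nat_lit 3120) (nat_lit 0) (nat_lit 0) xc38 xc39))) (XT.nd (nat_lit 80886) (nat_lit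 0) (nat_lit 0) (XT.nd (nat_lit 40482) (nat_lit 0) (nat_lit 0) (XT.nd (nat_lit 3120) (nat_lit 0) (nat_lit 0) xc40 xc41) (XT.nd (nat_lit 3120) (nat_lit 0) (nat_lit 0) xc42 xc43)) (XT.nd (nat_lit 40248) (nat_lit 0) (nat_lit 0) (XT.nd (nat_lit 3120) (nat_lit 76) (nat_lit 0) xc44 xc45) (XT.nd (nat_lit 3120) (nat_lit 76) (nat_lit 0) xc46 xc47)))) (XT.nd (nat_lit 127218) (nat_lit 0) (nat_lit 0) (XT.nd (nat_lit 80496) (nat_lit 0) (nat_lit 0) (XT.nd (nat_lit 40170) (nat_lit 0) (nat_lit 0) (XT.nd (nat_lit 3120) (nat_lit 228) (nat_lit 0) xc48 xc49) (XT.nd (nat_lit 3120) (nat_lit 456) (nat_lit 0) xc50 xc51)) (XT.nd (nat_lit 6318) (nat_lit 0) (nat_lit 0) (XT.nd (nat_lit 3120) (nat_lit 608) (nat_lit 0) xc52 xc53) (XT.nd (nat_lit 37206) (nat_lit 0) (nat_lit 0) xc54 xc55))) (XT.nd (nat_lit 80964) (nat_lit 0) (nat_lit 0) (XT.nd (nat_lit 40404) (nat_lit 0) (nat_lit 0) (XT.nd (nat_lit 37284) (nat_lit 0)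 (nat_lit 0) xc56 xc57) (XT.nd (nat_lit 37362) (nat_lit 0) (nat_lit 0) xc58 xc59)) (XT.nd (nat_lit 40638) (nat_lit 0) (nat_lit 0) (XT.nd (nat_lit 37440) (nat_lit 0) (nat_lit 0) xc60 xc61) (XT.nd (nat_lit 37518) (nat_lit 0) (nat_lit 0) xc62 xc63)))))) (XT.nd (nat_lit 771342) (nat_lit 0) (nat_lit 228) (XT.nd (nat_lit 364026) (nat_lit 0) (nat_lit 0) (XT.nd (nat_lit 198588) (nat_lit 0) (nat_lit 0) (XT.nd (nat_lit 81666) (nat_lit 0) (nat_lit 0) (XT.nd (nat_lit 40716) (nat_lit 0) (nat_lit 0) (XT.nd (nat_lit 37596) (nat_lit 0) (nat_lit 0) xc64 xc65) (XT.nd (nat_lit 37752) (nat_lit 0) (nat_lit 0) xc66 xc67)) (XT.nd (nat_lit 75738) (nat_lit 0) (nat_lit 0) (XT.nd (nat_lit 37830) (nat_lit 0) (nat_lit 0) xc68 xc69) (XT.nd (nat_lit 3120) (nat_lit 608) (nat_lit 0) xc70 xc71))) (XT.nd (nat_lit 82524) (nat_lit 0) (nat_lit 0) (XT.nd (nat_lit 41184) (nat_lit 0) (nat_lit 0) (XT.nd (nat_lit 3120) (nat_lit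 380) (nat_lit 0) xc72 xc73) (XT.nd (nat_lit 3120) (nat_lit 228) (nat_lit 0) xc74 xc75)) (XT.nd (nat_lit 41418) (nat_lit 0) (nat_lit 0) (XT.nd (nat_lit 3120) (nat_lit 76) (nat_lit 0) xc76 xc77) (XT.nd (nat_lit 38298) (nat_lit 0) (nat_lit 684) xc78 xc79)))) (XT.nd (nat_lit 202488) (nat_lit 0) (nat_lit 76) (XT.nd (nat_lit 83226) (nat_lit 0) (nat_lit 76) (XT.nd (nat_lit 41496) (nat_lit 0) (nat_lit 76) (XT.nd (nat_lit 38376) (nat_lit 0) (nat_lit 304) xc80 xc81) (XT.nd (nat_lit 38532) (nat_lit 0) (nat_lit 0) xc82 xc83)) (XT.nd (nat_lit 77298) (nat_lit 0) (nat_lit 0) (XT.nd (nat_lit 38610) (nat_lit 0) (nat_lit 0) xc84 xc85) (XT.nd (nat_lit 3120) (nat_lit 228) (nat_lit 0) xc86 xc87))) (XT.nd (nat_lit 120042) (nat_lit 0) (nat_lit 76) (XT.nd (nat_lit 41964) (nat_lit 0) (nat_lit 0) (XT.nd (nat_lit 38844) (nat_lit 0) (nat_lit 532) xc88 xc89) (XT.nd (nat_lit 38922) (nat_lit 0) (nat_lit 0) xc90 xc91))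 (XT.nd (nat_lit 42354) (nat_lit 0) (nat_lit 0) (XT.nd (nat_lit 3120) (nat_lit 608) (nat_lit 0) xc92 xc93) (XT.nd (nat_lit 39234) (nat_lit 0) (nat_lit 456) xc94 xc95))))) (XT.nd (nat_lit 527982) (nat_lit 0) (nat_lit 456) (XT.nd (nat_lit 243672) (nat_lit 0) (nat_lit 76) (XT.nd (nat_lit 121368) (nat_lit 0) (nat_lit 76) (XT.nd (nat_lit 78702) (nat_lit 0) (nat_lit 0) (XT.nd (nat_lit 39312) (nat_lit 0) (nat_lit 0) xc96 xc97) (XT.nd (nat_lit 3120) (nat_lit 152) (nat_lit 0) xc98 xc99)) (XT.nd (nat_lit 79326) (nat_lit 0) (nat_lit 0) (XT.nd (nat_lit 39624) (nat_lit 0) (nat_lit 0) xc100 xc101) (XT.nd (nat_lit 3120) (nat_lit 228) (nat_lit 0) xc102 xc103))) (XT.nd (nat_lit 160056) (nat_lit 0) (nat_lit 228) (XT.nd (nat_lit 79794) (nat_lit 0) (nat_lit 76) (XT.nd (nat_lit 39858) (nat_lit 0) (nat_lit 76) xc104 xc105) (XT.nd (nat_lit 40014) (nat_lit 0) (nat_lit 152) xc106 xc107)) (XT.nd (nat_lit 43446)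 (nat_lit 0) (nat_lit 0) (XT.nd (nat_lit 3120) (nat_lit 228) (nat_lit 0) xc108 xc109) (XT.nd (nat_lit 40326) (nat_lit 0) (nat_lit 76) xc110 xc111)))) (XT.nd (nat_lit 365352) (nat_lit 0) (nat_lit 760) (XT.nd (nat_lit 162786) (nat_lit 0) (nat_lit 152) (XT.nd (nat_lit 81198) (nat_lit 0) (nat_lit 76) (XT.nd (nat_lit 40560) (nat_lit 0) (nat_lit 76) xc112 xc113) (XT.nd (nat_lit 40716) (nat_lit 0) (nat_lit 76) xc114 xc115)) (XT.nd (nat_lit 81978) (nat_lit 0) (nat_lit 304) (XT.nd (nat_lit 40872) (nat_lit 0) (nat_lit 228) xc116 xc117) (XT.nd (nat_lit 79170) (nat_lit 0) (nat_lit 228) xc118 xc119))) (XT.nd (nat_lit 244062) (nat_lit 0) (nat_lit 1140) (XT.nd (nat_lit 121446) (nat_lit 0) (nat_lit 380) (XT.nd (nat_lit 41496) (nat_lit 0) (nat_lit 0) xc120 xc121) (XT.nd (nat_lit 41808) (nat_lit 0) (nat_lit 152) xc122 xc123)) (XT.nd (nat_lit 163020) (nat_lit 0) (nat_lit 684) (XT.nd (nat_lit 81276) (nat_lit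 0) (nat_lit 228) xc124 xc125) (XT.nd (nat_lit 121836) (nat_lit 0) (nat_lit 1140) xc126 xc127))))))) XT.nil))

set_option maxRecDepth 10000000 in
noncomputable def Te : XT := XT.nil

set_option maxRecDepth 10000000 in
noncomputable def Tz : ZL := (ZL.cons (nat_lit 76) (nat_lit 6) (nat_lit 198627594908951144256) (ZL.cons (nat_lit 152) (nat_lit 6) (nat_lit 192176780040336835856) (ZL.cons (nat_lit 228) (nat_lit 3) (nat_lit 95813118673922355828) (ZL.cons (nat_lit 304) (nat_lit 6) (nat_lit 185209899982233382782) (ZL.cons (nat_lit 380) (nat_lit 6) (nat_lit 179340560072172794198) (ZL.cons (nat_lit 456) (nat_lit 3) (nat_lit 89415399159932635897) (ZL.cons (nat_lit 532) (nat_lit 6) (nat_lit 173001672969307358530) (ZL.cons (nat_lit 608) (nat_lit 6) (nat_lit 167687980965519299798) (ZL.cons (nat_lit 684) (nat_lit 3) (nat_lit 83607989671506167304) (ZL.cons (nat_lit 760) (nat_lit 6) (nat_lit 161949193601428196370)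 (ZL.cons (nat_lit 836) (nat_lit 6) (nat_lit 157170105162382593364) (ZL.cons (nat_lit 912) (nat_lit 3) (nat_lit 78366533311512146131) (ZL.cons (nat_lit 988) (nat_lit 6) (nat_lit 152008689648213342118) (ZL.cons (nat_lit 1064) (nat_lit 6) (nat_lit 147748066368996466234) (ZL.cons (nat_lit 1140) (nat_lit 3) (nat_lit 73671700527387908532) (ZL.cons (nat_lit 1216) (nat_lit 6) (nat_lit 143925948647422749786) (ZL.cons (nat_lit 1292) (nat_lit 6) (nat_lit 143146593227442240276) (ZL.cons (nat_lit 1368) (nat_lit 6) (nat_lit 139393396193902486856) (ZL.cons (nat_lit 1444) (nat_lit 3) (nat_lit 69509353044071313258) (ZL.cons (nat_lit 1520) (nat_lit 6) (nat_lit 136061568786550395298) (ZL.cons (nat_lit 1596) (nat_lit 6) (nat_lit 135339943397679553162) (ZL.cons (nat_lit 1672) (nat_lit 6) (nat_lit 133131366842972027286) (ZL.cons (nat_lit 1748) (nat_lit 6) (nat_lit 132088505080850276076) (ZL.cons (nat_lit 1824)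 (nat_lit 3) (nat_lit 65870784898869647140) (ZL.cons (nat_lit 1900) (nat_lit 6) (nat_lit 129245123355036547696) (ZL.cons (nat_lit 1976) (nat_lit 6) (nat_lit 128576951698674656826) (ZL.cons (nat_lit 2052) (nat_lit 6) (nat_lit 126792948550752064442) (ZL.cons (nat_lit 2128) (nat_lit 6) (nat_lit 125827335808046739248) (ZL.cons (nat_lit 2204) (nat_lit 3) (nat_lit 62753049717397915087) (ZL.cons (nat_lit 2280) (nat_lit 6) (nat_lit 124717449261749214560) (ZL.cons (nat_lit 2356) (nat_lit 6) (nat_lit 123476428105762931658) (ZL.cons (nat_lit 2432) (nat_lit 6) (nat_lit 122857750646168588260) (ZL.cons (nat_lit 2508) (nat_lit 6) (nat_lit 123006326232982055240) (ZL.cons (nat_lit 2584) (nat_lit 6) (nat_lit 121510297286920811494) (ZL.cons (nat_lit 2660) (nat_lit 6) (nat_lit 120616211414045510388) (ZL.cons (nat_lit 2736) (nat_lit 3) (nat_lit 60159385163851038032) (ZL.cons (nat_lit 2812) (nat_lit 6) (nat_lit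 119917292205927240270) (ZL.cons (nat_lit 2888) (nat_lit 6) (nat_lit 118768198542976978320) (ZL.cons (nat_lit 2964) (nat_lit 6) (nat_lit 118195349043352586288) (ZL.cons (nat_lit 3040) (nat_lit 3) (nat_lit 58559904887605864442) (ZL.cons (nat_lit 3116) (nat_lit 6) (nat_lit 117293363792249457920) (ZL.cons (nat_lit 3192) (nat_lit 6) (nat_lit 117815054311611757506) (ZL.cons (nat_lit 3268) (nat_lit 6) (nat_lit 118687972832672626450) (ZL.cons (nat_lit 3344) (nat_lit 6) (nat_lit 117302760845578882240) (ZL.cons (nat_lit 3420) (nat_lit 6) (nat_lit 116474903555879529364) (ZL.cons (nat_lit 3496) (nat_lit 3) (nat_lit 58099747571299285828) (ZL.cons (nat_lit 3572) (nat_lit 6) (nat_lit 115126097966333798438) (ZL.cons (nat_lit 3648) (nat_lit 6) (nat_lit 115487090321772274838) (ZL.cons (nat_lit 3724) (nat_lit 6) (nat_lit 116211214246607381574) (ZL.cons (nat_lit 3800) (nat_lit 6) (nat_lit 115147238632764546438)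 (ZL.cons (nat_lit 3876) (nat_lit 6) (nat_lit 114616822429408627886) (ZL.cons (nat_lit 3952) (nat_lit 3) (nat_lit 56726811265353388533) (ZL.cons (nat_lit 4028) (nat_lit 6) (nat_lit 113641060869107524430) (ZL.cons (nat_lit 4104) (nat_lit 6) (nat_lit 114204486630018807980) (ZL.cons (nat_lit 4180) (nat_lit 6) (nat_lit 113437952102519407168) (ZL.cons (nat_lit 4256) (nat_lit 3) (nat_lit 56591472156222223162) (ZL.cons (nat_lit 4332) (nat_lit 6) (nat_lit 112266026519823937382) (ZL.cons (nat_lit 4408) (nat_lit 6) (nat_lit 112655898263697491896) (ZL.cons (nat_lit 4484) (nat_lit 6) (nat_lit 112164772149479048792) (ZL.cons (nat_lit 4560) (nat_lit 3) (nat_lit 55676919461111027703) (ZL.cons (nat_lit 4636) (nat_lit 6) (nat_lit 111556272327694862556) (ZL.cons (nat_lit 4712) (nat_lit 3) (nat_lit 55660077001775690148) (ZL.cons (nat_lit 4788) (nat_lit 6) (nat_lit 110899092520167941424) (ZL.cons (nat_lit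 4864) (nat_lit 1) (nat_lit 18446744073709551617) ZL.nil))))))))))))))))))))))))))))))))))))))))))))))))))))))))))))))))

noncomputable def vl : XL := ⟨(nat_lit 0), (nat_lit 76), (nat_lit 8131914), (nat_lit 228), (nat_lit 601582501), (nat_lit 76), (nat_lit 8131914), (nat_lit 1), (nat_lit 5), (nat_lit 3), (nat_lit 4), (nat_lit 1), (nat_lit 4), (nat_lit 0), (nat_lit 0), (nat_lit 0)⟩

noncomputable def cp0 : Nat := (nat_lit 5159515072733250571731437807503818720905828546220281824176809337995641164899554505887011772245016513951581162964437463563694705507266228403310086997802456752103820946167504351395063828890183162245196220150145617932192540705864096601256510253700796747958875567467847005757081088602714822969488620674038630145141289257712067456192966744102953699243518748266011788526140237869736101019846207412253525628717673358719520216295524502202646486014149452023303378797587596996359930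550930582754346912822594378651575660373338236739335038885734854880267176414103948733523449222994676873045483491765662961967086114115724315497671835991076513741104036861416696191052798644984768066579788087858014620966278147143806226149822047786460694885283267348460905070205453385491617073183151606416530261431552660213669970213525545397282729000403838410358066763796524122965193557507175280874018238612646051888004756963209606156435980632124756224515105447506720758255540379226897678692892954763674551515919989542199914458049731803457791131934256933898675454486894494270052163794903592547169569160379856819698799417439141934724831162437541408464397889284470814321925785179140868500550484344421761676616622626892050359471413769583243393371611739286638586557870840890222916939534151833239256934292748006733717667469427587955165314840951505527216816037340205995200729579796398887650188300738697263365012434387300096266120597677817868142429992235353107385959387050345605514612603234614778829044845629528377323945984)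

noncomputable def cp1 : Nat := (nat_lit 426825354061170450612748831942564221386184081949758130139695148286447307480828704210617592486138558403244497856823755297399566561136405545616695868105969642486881840823247224061198341437043595786093617964118240948405593395920309650630130583023924499724837349430872157990848416970393093017268386868946685965026107086389685144348208099968263877374279416248433052750027727557053317112434758789903205006226753153881234916250849267223682044516621676298868213970080055991228548477667898392411513387571556154863255389754246035056263564767441016315380666332604543300609113316664192389295397636211111839306370356930719550592259704722334083233405754427218192434992971810805026985393472035237553878304934151479084568737616098453203548234392327747235350070292989087150059288978596387483212890790988098203350697787908279014548364990490070161246941813212326130275825796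949031181747896201763398822056113366470333969901790159875305133664153694606956889420892594264366984936461735281976774378370008167652052731160659108366916090541168182903108066943692449113076990137339416278220181306117435545225259120183653944794623009498471913149971507779540251388892059710973494034729626314927927034952417332111218876647163304389444160226957765107560278548265496459079686180470650639111732761652001664501417522986112204177336108102808097574161191462886598630841875006503056125684164292849127181829946445590604090021130454553272504398583994222814603515235231063144051594451128824104953858620213149523352483516476350503541450544883446557471845982943319452537474195760227814707420478327223227459762220377162496614070016475073368054695710982274848181441203773355857502036804517986862135701118064007280829628366636947831722435202306782578692188891708159580026599468265606990969431477578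75184968492971969835555205730941708495126206081123040963424358907915652648681302527758021864472628277083656276024090747481805730562793927109439373651645415844638986825341476732904779207681876549232923589013135773716894107528728192783677402126133291454193122742791902378919753087290460640432356637841293269147815352879276389409608008553375977488679436298560931984314222620537908035446222652225280528320961884917004542563859860092383514344869039524656172241929082167213299286805730679196376712011778271559023785915301615781548232869227569251288594437521751628000720079604331891537903327144896981619263286919686767827755726959443339543940428235438395481285432126547397738832922494544287567765275198785679831403636005263899083014604071095277073500859010522315902156524866772231596441135903783870267426125587606390113291772053893537734786921380506486197806663168118290428000791501112997598243986316416182506599287392877739049780503682335625569007629828017670344754454953186825299387663847937218911736024469472994262268477246090765719242025043463179274063228868732183811096608088817709187919344419121362512016296392723733142185226821769116981559338551590546040134965865425859028733415960376057102182531976514334312726689617550703232470310792986624)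

noncomputable def rc0 : Nat := (nat_lit 426825354061170450612748831942564221386184081949758130139695148286447307480828704210617592486138558403244497856823755297399566561136405545616695868105969642486881840823247224061198341437043595786093617964118240948405593395920309650630130583023924499724837349430872157990848416970393093017268386868946685965026107086389685144348208099968263877374279416248433052750027727557053317112434758789903205006226753153881234916250849267223682044516621676298868213970080055991228548477667898392411513387571556154863255389754246035056263564767441016315380666332604543300609113316664192389295397636211111839306370356930719550592259704722334083233405754427218192434992971810805026985393472035237553878304934151479084568737616098453203548234392327747235350070292989087150059288978596387483212890790988098203350697787908279014548364990490070161246941813212326130275825796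949031181747896201763398822056113366470333969901790159875305133664153694606956889420892594264366984936461735281976774378370008167652052731160659108366916090541168182903108066943692449113076990137339416278220181306117435545225259120183653944794623009498471913149971507779540251388892059710973494034729626314927927034952417332111218876647163304389444160226957765107560278548265496459079686180470650639111732761652001664501417522986112204177336108102808097574161191462886598630841875006503056125684164292849127181829946445590604090021130454553272504398583994222814603515235231063144051594451128824104953858620213149523352483516476350503541450544883446557471845982943319452537474195760227814707420478327223227459762220377162496614070016475073368054695710982274848181441203773355857502036804517986862135701118064007280829628366636947831722435202306782578692188891708159580026599468265606990969431477578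75184968492971969835555205730941708495126206081123040963424358907915652648681302527758021864472628277083656276024090747481805730562793927109439373651645415844638986825341476732904779207681876549232923589013135773716894107528728192783677402126133291454193122742791902378919753087290460640432356637841293269147815352879276389409608008553375977488679436298560931984314222620537908035446222652225280528320961884917004542563859860092383514344869039524656172241929082167213299286805730679196376712011778271559023785915301615781548232869227569251288594437521751628000720079604331891537903327144896981619263286919686767827755726959443339543940428235438395481285432126547397738832922494544287567765275198785679831403636005263899083014604071095277073500859010522315902156524866772231596441135903783870267426125587606390113291772053893537734786921380506486197806663168118290428000791501112997598243986316416182506599287392877739049780503682335625569007629828017670344754454953186825299387663847937218911736024469472994262268477246090765719242025043463179274063228868732183811096608088817709187919344419121362512016296392723733142185226821769116981559338551590546040134965865425859028733415960376057102182531976514334312726689617550703232470310792986624)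

end Vale.Agent.Lib.P154.PChain.BQ.S3
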