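import Vale.Agent.Lib.P154.PChain.BQ.R3_0

set_option linter.all false

namespace Vale.Agent.Lib.P154.PChain.BQ.S4

open Vale.Agent.Lib.P154.Chain

noncomputable def pc0 : PT := (PT.nd (nat_lit 4075032) (PT.nd (nat_lit 3872154) (PT.nd (nat_lit 3790878) (PT.nd (nat_lit 3750240) (PT.nd (nat_lit 3709758) (PT.nd (nat_lit 3709680) PT.nil (PT.lf (nat_lit 76) (nat_lit 6) (nat_lit 1) (nat_lit 3) (nat_lit 149) (nat_lit 91) (nat_lit 150))) (PT.lf (nat_lit 76) (nat_lit 6) (nat_lit 1) (nat_lit 1) (nat_lit 150) (nat_lit 91) (nat_lit 149))) (PT.nd (nat_lit 78) (PT.lf (nat_lit 152) (nat_lit 6) (nat_lit 2) (nat_lit 3) (nat_lit 148) (nat_lit 92) (nat_lit 150)) (PT.nd (nat_lit 78) (PT.lf (nat_lit 228) (nat_lit 3) (nat_lit 3) (nat_lit 1) (nat_lit 149) (nat_lit 92) (nat_lit 149)) (PT.lf (nat_lit 152) (nat_lit 6) (nat_lit 2) (nat_lit 1) (nat_lit 150) (nat_lit 92) (nat_lit 148))))) (PT.nd (nat_lit 40638)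 (PT.nd (nat_lit 78) (PT.lf (nat_lit 304) (nat_lit 6) (nat_lit 4) (nat_lit 3) (nat_lit 148) (nat_lit 93) (nat_lit 149)) (PT.nd (nat_lit 40482) (PT.lf (nat_lit 304) (nat_lit 6) (nat_lit 4) (nat_lit 1) (nat_lit 149) (nat_lit 93) (nat_lit 148)) (PT.lf (nat_lit 380) (nat_lit 6) (nat_lit 5) (nat_lit 3) (nat_lit 147) (nat_lit 94) (nat_lit 149)))) (PT.nd (nat_lit 78) (PT.lf (nat_lit 456) (nat_lit 3) (nat_lit 6) (nat_lit 1) (nat_lit 148) (nat_lit 94) (nat_lit 148)) (PT.nd (nat_lit 40482) (PT.lf (nat_lit 380) (nat_lit 6) (nat_lit 5) (nat_lit 1) (nat_lit 149) (nat_lit 94) (nat_lit 147)) (PT.lf (nat_lit 532) (nat_lit 6) (nat_lit 7) (nat_lit 3) (nat_lit 147) (nat_lit 95) (nat_lit 148)))))) (PT.nd (nat_lit 81198) (PT.nd (nat_lit 40560) (PT.nd (nat_lit 40482) (PT.lf (nat_lit 532) (nat_lit 6) (nat_lit 7) (nat_lit 1) (nat_lit 148) (nat_lit 95) (nat_lit 147)) (PT.lf (nat_lit 608) (nat_lit 6) (nat_lit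 8) (nat_lit 3) (nat_lit 146) (nat_lit 96) (nat_lit 148))) (PT.nd (nat_lit 78) (PT.lf (nat_lit 684) (nat_lit 3) (nat_lit 9) (nat_lit 1) (nat_lit 147) (nat_lit 96) (nat_lit 147)) (PT.nd (nat_lit 40482) (PT.lf (nat_lit 608) (nat_lit 6) (nat_lit 8) (nat_lit 1) (nat_lit 148) (nat_lit 96) (nat_lit 146)) (PT.lf (nat_lit 760) (nat_lit 6) (nat_lit 10) (nat_lit 3) (nat_lit 146) (nat_lit 97) (nat_lit 147))))) (PT.nd (nat_lit 40638) (PT.nd (nat_lit 40482) (PT.lf (nat_lit 760) (nat_lit 6) (nat_lit 10) (nat_lit 1) (nat_lit 147) (nat_lit 97) (nat_lit 146)) (PT.nd (nat_lit 78) (PT.lf (nat_lit 836) (nat_lit 6) (nat_lit 11) (nat_lit 3) (nat_lit 145) (nat_lit 98) (nat_lit 147)) (PT.lf (nat_lit 912) (nat_lit 3) (nat_lit 12) (nat_lit 1) (nat_lit 146) (nat_lit 98) (nat_lit 146)))) (PT.nd (nat_lit 40482) (PT.lf (nat_lit 836) (nat_lit 6) (nat_lit 11) (nat_lit 1) (nat_lit 147) (nat_lit 98) (nat_lit 145)) (PT.nd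 (nat_lit 78) (PT.lf (nat_lit 988) (nat_lit 6) (nat_lit 13) (nat_lit 3) (nat_lit 145) (nat_lit 99) (nat_lit 146)) (PT.lf (nat_lit 988) (nat_lit 6) (nat_lit 13) (nat_lit 1) (nat_lit 146) (nat_lit 99) (nat_lit 145))))))) (PT.nd (nat_lit 121836) (PT.nd (nat_lit 40716) (PT.nd (nat_lit 156) (PT.nd (nat_lit 78) (PT.lf (nat_lit 1064) (nat_lit 6) (nat_lit 14) (nat_lit 3) (nat_lit 144) (nat_lit 100) (nat_lit 146)) (PT.lf (nat_lit 1140) (nat_lit 3) (nat_lit 15) (nat_lit 1) (nat_lit 145) (nat_lit 100) (nat_lit 145))) (PT.nd (nat_lit 40404) (PT.lf (nat_lit 1064) (nat_lit 6) (nat_lit 14) (nat_lit 1) (nat_lit 146) (nat_lit 100) (nat_lit 144)) (PT.nd (nat_lit 78) (PT.lf (nat_lit 1216) (nat_lit 6) (nat_lit 16) (nat_lit 3) (nat_lit 143) (nat_lit 101) (nat_lit 146)) (PT.lf (nat_lit 1292) (nat_lit 6) (nat_lit 17) (nat_lit 3) (nat_lit 144) (nat_lit 101) (nat_lit 145))))) (PT.nd (nat_lit 40560) (PT.nd (nat_lit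 78) (PT.lf (nat_lit 1292) (nat_lit 6) (nat_lit 17) (nat_lit 1) (nat_lit 145) (nat_lit 101) (nat_lit 144)) (PT.nd (nat_lit 40404) (PT.lf (nat_lit 1216) (nat_lit 6) (nat_lit 16) (nat_lit 1) (nat_lit 146) (nat_lit 101) (nat_lit 143)) (PT.lf (nat_lit 1368) (nat_lit 6) (nat_lit 18) (nat_lit 3) (nat_lit 143) (nat_lit 102) (nat_lit 145)))) (PT.nd (nat_lit 78) (PT.lf (nat_lit 1444) (nat_lit 3) (nat_lit 19) (nat_lit 1) (nat_lit 144) (nat_lit 102) (nat_lit 144)) (PT.nd (nat_lit 40404) (PT.lf (nat_lit 1368) (nat_lit 6) (nat_lit 18) (nat_lit 1) (nat_lit 145) (nat_lit 102) (nat_lit 143)) (PT.lf (nat_lit 1520) (nat_lit 6) (nat_lit 20) (nat_lit 3) (nat_lit 142) (nat_lit 103) (nat_lit 145)))))) (PT.nd (nat_lit 40716) (PT.nd (nat_lit 156) (PT.nd (nat_lit 78) (PT.lf (nat_lit 1596) (nat_lit 6) (nat_lit 21) (nat_lit 3) (nat_lit 143) (nat_lit 103) (nat_lit 144)) (PT.lf (nat_lit 1596) (nat_lit 6) (nat_lit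 21) (nat_lit 1) (nat_lit 144) (nat_lit 103) (nat_lit 143))) (PT.nd (nat_lit 40404) (PT.lf (nat_lit 1520) (nat_lit 6) (nat_lit 20) (nat_lit 1) (nat_lit 145) (nat_lit 103) (nat_lit 142)) (PT.nd (nat_lit 78) (PT.lf (nat_lit 1672) (nat_lit 6) (nat_lit 22) (nat_lit 3) (nat_lit 142) (nat_lit 104) (nat_lit 144)) (PT.lf (nat_lit 1748) (nat_lit 3) (nat_lit 23) (nat_lit 1) (nat_lit 143) (nat_lit 104) (nat_lit 143))))) (PT.nd (nat_lit 40560) (PT.nd (nat_lit 40404) (PT.lf (nat_lit 1672) (nat_lit 6) (nat_lit 22) (nat_lit 1) (nat_lit 144) (nat_lit 104) (nat_lit 142)) (PT.nd (nat_lit 78) (PT.lf (nat_lit 1824) (nat_lit 6) (nat_lit 24) (nat_lit 3) (nat_lit 141) (nat_lit 105) (nat_lit 144)) (PT.lf (nat_lit 1900) (nat_lit 6) (nat_lit 25) (nat_lit 3) (nat_lit 142) (nat_lit 105) (nat_lit 143)))) (PT.nd (nat_lit 78) (PT.lf (nat_lit 1900) (nat_lit 6) (nat_lit 25) (nat_lit 1) (nat_lit 143) (nat_lit 105) (nat_lit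 142)) (PT.nd (nat_lit 40326) (PT.lf (nat_lit 1824) (nat_lit 6) (nat_lit 24) (nat_lit 1) (nat_lit 144) (nat_lit 105) (nat_lit 141)) (PT.lf (nat_lit 1976) (nat_lit 6) (nat_lit 26) (nat_lit 3) (nat_lit 140) (nat_lit 106) (nat_lit 144))))))))
noncomputable def pc1 : PT := (PT.nd (nat_lit 162552) (PT.nd (nat_lit 81354) (PT.nd (nat_lit 40638) (PT.nd (nat_lit 156) (PT.nd (nat_lit 78) (PT.lf (nat_lit 2052) (nat_lit 6) (nat_lit 27) (nat_lit 3) (nat_lit 141) (nat_lit 106) (nat_lit 143)) (PT.lf (nat_lit 2128) (nat_lit 3) (nat_lit 28) (nat_lit 1) (nat_lit 142) (nat_lit 106) (nat_lit 142))) (PT.nd (nat_lit 78) (PT.lf (nat_lit 2052) (nat_lit 6) (nat_lit 27) (nat_lit 1) (nat_lit 143) (nat_lit 106) (nat_lit 141)) (PT.nd (nat_lit 40326) (PT.lf (nat_lit 1976) (nat_lit 6) (nat_lit 26) (nat_lit 1) (nat_lit 144) (nat_lit 106) (nat_lit 140)) (PT.lf (nat_lit 2204) (nat_lit 6) (nat_lit 29) (nat_lit 3) (nat_lit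 140) (nat_lit 107) (nat_lit 143))))) (PT.nd (nat_lit 40482) (PT.nd (nat_lit 78) (PT.lf (nat_lit 2280) (nat_lit 6) (nat_lit 30) (nat_lit 3) (nat_lit 141) (nat_lit 107) (nat_lit 142)) (PT.nd (nat_lit 78) (PT.lf (nat_lit 2280) (nat_lit 6) (nat_lit 30) (nat_lit 1) (nat_lit 142) (nat_lit 107) (nat_lit 141)) (PT.lf (nat_lit 2204) (nat_lit 6) (nat_lit 29) (nat_lit 1) (nat_lit 143) (nat_lit 107) (nat_lit 140)))) (PT.nd (nat_lit 78) (PT.lf (nat_lit 2356) (nat_lit 6) (nat_lit 31) (nat_lit 3) (nat_lit 139) (nat_lit 108) (nat_lit 143)) (PT.nd (nat_lit 78) (PT.lf (nat_lit 2432) (nat_lit 6) (nat_lit 32) (nat_lit 3) (nat_lit 140) (nat_lit 108) (nat_lit 142)) (PT.lf (nat_lit 2508) (nat_lit 3) (nat_lit 33) (nat_lit 1) (nat_lit 141) (nat_lit 108) (nat_lit 141)))))) (PT.nd (nat_lit 40560) (PT.nd (nat_lit 40326) (PT.nd (nat_lit 78) (PT.lf (nat_lit 2432) (nat_lit 6) (nat_lit 32) (nat_lit 1) (nat_lit 142)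 (nat_lit 108) (nat_lit 140)) (PT.lf (nat_lit 2356) (nat_lit 6) (nat_lit 31) (nat_lit 1) (nat_lit 143) (nat_lit 108) (nat_lit 139))) (PT.nd (nat_lit 78) (PT.lf (nat_lit 2584) (nat_lit 6) (nat_lit 34) (nat_lit 3) (nat_lit 138) (nat_lit 109) (nat_lit 143)) (PT.nd (nat_lit 78) (PT.lf (nat_lit 2660) (nat_lit 6) (nat_lit 35) (nat_lit 3) (nat_lit 139) (nat_lit 109) (nat_lit 142)) (PT.lf (nat_lit 2736) (nat_lit 6) (nat_lit 36) (nat_lit 3) (nat_lit 140) (nat_lit 109) (nat_lit 141))))) (PT.nd (nat_lit 40404) (PT.nd (nat_lit 78) (PT.lf (nat_lit 2736) (nat_lit 6) (nat_lit 36) (nat_lit 1) (nat_lit 141) (nat_lit 109) (nat_lit 140)) (PT.nd (nat_lit 78) (PT.lf (nat_lit 2660) (nat_lit 6) (nat_lit 35) (nat_lit 1) (nat_lit 142) (nat_lit 109) (nat_lit 139)) (PT.lf (nat_lit 2584) (nat_lit 6) (nat_lit 34) (nat_lit 1) (nat_lit 143) (nat_lit 109) (nat_lit 138)))) (PT.nd (nat_lit 78) (PT.lf (nat_lit 2812) (nat_lit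 6) (nat_lit 37) (nat_lit 3) (nat_lit 138) (nat_lit 110) (nat_lit 142)) (PT.nd (nat_lit 78) (PT.lf (nat_lit 2888) (nat_lit 6) (nat_lit 38) (nat_lit 3) (nat_lit 139) (nat_lit 110) (nat_lit 141)) (PT.lf (nat_lit 2964) (nat_lit 3) (nat_lit 39) (nat_lit 1) (nat_lit 140) (nat_lit 110) (nat_lit 140))))))) (PT.nd (nat_lit 81198) (PT.nd (nat_lit 40560) (PT.nd (nat_lit 40326) (PT.nd (nat_lit 78) (PT.lf (nat_lit 2888) (nat_lit 6) (nat_lit 38) (nat_lit 1) (nat_lit 141) (nat_lit 110) (nat_lit 139)) (PT.lf (nat_lit 2812) (nat_lit 6) (nat_lit 37) (nat_lit 1) (nat_lit 142) (nat_lit 110) (nat_lit 138))) (PT.nd (nat_lit 78) (PT.lf (nat_lit 3040) (nat_lit 6) (nat_lit 40) (nat_lit 3) (nat_lit 137) (nat_lit 111) (nat_lit 142)) (PT.nd (nat_lit 78) (PT.lf (nat_lit 3116) (nat_lit 6) (nat_lit 41) (nat_lit 3) (nat_lit 138) (nat_lit 111) (nat_lit 141)) (PT.lf (nat_lit 3192) (nat_lit 6) (nat_lit 42) (nat_lit 3)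 (nat_lit 139) (nat_lit 111) (nat_lit 140))))) (PT.nd (nat_lit 40404) (PT.nd (nat_lit 78) (PT.lf (nat_lit 3192) (nat_lit 6) (nat_lit 42) (nat_lit 1) (nat_lit 140) (nat_lit 111) (nat_lit 139)) (PT.nd (nat_lit 78) (PT.lf (nat_lit 3116) (nat_lit 6) (nat_lit 41) (nat_lit 1) (nat_lit 141) (nat_lit 111) (nat_lit 138)) (PT.lf (nat_lit 3040) (nat_lit 6) (nat_lit 40) (nat_lit 1) (nat_lit 142) (nat_lit 111) (nat_lit 137)))) (PT.nd (nat_lit 78) (PT.lf (nat_lit 3268) (nat_lit 6) (nat_lit 43) (nat_lit 3) (nat_lit 137) (nat_lit 112) (nat_lit 141)) (PT.nd (nat_lit 78) (PT.lf (nat_lit 3344) (nat_lit 6) (nat_lit 44) (nat_lit 3) (nat_lit 138) (nat_lit 112) (nat_lit 140)) (PT.lf (nat_lit 3420) (nat_lit 3) (nat_lit 45) (nat_lit 1) (nat_lit 139) (nat_lit 112) (nat_lit 139)))))) (PT.nd (nat_lit 40560) (PT.nd (nat_lit 40326) (PT.nd (nat_lit 78) (PT.lf (nat_lit 3344) (nat_lit 6) (nat_lit 44) (nat_lit 1) (nat_lit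 140) (nat_lit 112) (nat_lit 138)) (PT.lf (nat_lit 3268) (nat_lit 6) (nat_lit 43) (nat_lit 1) (nat_lit 141) (nat_lit 112) (nat_lit 137))) (PT.nd (nat_lit 78) (PT.lf (nat_lit 3496) (nat_lit 6) (nat_lit 46) (nat_lit 3) (nat_lit 136) (nat_lit 113) (nat_lit 141)) (PT.nd (nat_lit 78) (PT.lf (nat_lit 3572) (nat_lit 6) (nat_lit 47) (nat_lit 3) (nat_lit 137) (nat_lit 113) (nat_lit 140)) (PT.lf (nat_lit 3648) (nat_lit 6) (nat_lit 48) (nat_lit 3) (nat_lit 138) (nat_lit 113) (nat_lit 139))))) (PT.nd (nat_lit 40326) (PT.nd (nat_lit 78) (PT.lf (nat_lit 3648) (nat_lit 6) (nat_lit 48) (nat_lit 1) (nat_lit 139) (nat_lit 113) (nat_lit 138)) (PT.nd (nat_lit 78) (PT.lf (nat_lit 3572) (nat_lit 6) (nat_lit 47) (nat_lit 1) (nat_lit 140) (nat_lit 113) (nat_lit 137)) (PT.lf (nat_lit 3496) (nat_lit 6) (nat_lit 46) (nat_lit 1) (nat_lit 141) (nat_lit 113) (nat_lit 136)))) (PT.nd (nat_lit 78) (PT.lf (nat_lit 3724)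 (nat_lit 6) (nat_lit 49) (nat_lit 3) (nat_lit 135) (nat_lit 114) (nat_lit 141)) (PT.nd (nat_lit 78) (PT.lf (nat_lit 3800) (nat_lit 6) (nat_lit 50) (nat_lit 3) (nat_lit 136) (nat_lit 114) (nat_lit 140)) (PT.lf (nat_lit 3876) (nat_lit 6) (nat_lit 51) (nat_lit 3) (nat_lit 137) (nat_lit 114) (nat_lit 139))))))))
noncomputable def pc2 : PT := (PT.nd (nat_lit 121758) (PT.nd (nat_lit 40872) (PT.nd (nat_lit 40404) (PT.nd (nat_lit 156) (PT.nd (nat_lit 78) (PT.lf (nat_lit 3952) (nat_lit 3) (nat_lit 52) (nat_lit 1) (nat_lit 138) (nat_lit 114) (nat_lit 138)) (PT.lf (nat_lit 3876) (nat_lit 6) (nat_lit 51) (nat_lit 1) (nat_lit 139) (nat_lit 114) (nat_lit 137))) (PT.nd (nat_lit 78) (PT.lf (nat_lit 3800) (nat_lit 6) (nat_lit 50) (nat_lit 1) (nat_lit 140) (nat_lit 114) (nat_lit 136)) (PT.nd (nat_lit 40092) (PT.lf (nat_lit 3724) (nat_lit 6) (nat_lit 49) (nat_lit 1) (nat_lit 141) (nat_lit 114) (nat_lit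 135)) (PT.lf (nat_lit 4028) (nat_lit 6) (nat_lit 53) (nat_lit 3) (nat_lit 134) (nat_lit 115) (nat_lit 141))))) (PT.nd (nat_lit 234) (PT.nd (nat_lit 78) (PT.lf (nat_lit 4104) (nat_lit 6) (nat_lit 54) (nat_lit 3) (nat_lit 135) (nat_lit 115) (nat_lit 140)) (PT.nd (nat_lit 78) (PT.lf (nat_lit 4180) (nat_lit 6) (nat_lit 55) (nat_lit 3) (nat_lit 136) (nat_lit 115) (nat_lit 139)) (PT.lf (nat_lit 4256) (nat_lit 6) (nat_lit 56) (nat_lit 3) (nat_lit 137) (nat_lit 115) (nat_lit 138)))) (PT.nd (nat_lit 78) (PT.lf (nat_lit 4256) (nat_lit 6) (nat_lit 56) (nat_lit 1) (nat_lit 138) (nat_lit 115) (nat_lit 137)) (PT.nd (nat_lit 78) (PT.lf (nat_lit 4180) (nat_lit 6) (nat_lit 55) (nat_lit 1) (nat_lit 139) (nat_lit 115) (nat_lit 136)) (PT.lf (nat_lit 4104) (nat_lit 6) (nat_lit 54) (nat_lit 1) (nat_lit 140) (nat_lit 115) (nat_lit 135)))))) (PT.nd (nat_lit 40404) (PT.nd (nat_lit 40170) (PT.nd (nat_lit 40092)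 (PT.lf (nat_lit 4028) (nat_lit 6) (nat_lit 53) (nat_lit 1) (nat_lit 141) (nat_lit 115) (nat_lit 134)) (PT.lf (nat_lit 4332) (nat_lit 6) (nat_lit 57) (nat_lit 3) (nat_lit 134) (nat_lit 116) (nat_lit 140))) (PT.nd (nat_lit 78) (PT.lf (nat_lit 4408) (nat_lit 6) (nat_lit 58) (nat_lit 3) (nat_lit 135) (nat_lit 116) (nat_lit 139)) (PT.nd (nat_lit 78) (PT.lf (nat_lit 4484) (nat_lit 6) (nat_lit 59) (nat_lit 3) (nat_lit 136) (nat_lit 116) (nat_lit 138)) (PT.lf (nat_lit 4560) (nat_lit 3) (nat_lit 60) (nat_lit 1) (nat_lit 137) (nat_lit 116) (nat_lit 137))))) (PT.nd (nat_lit 40248) (PT.nd (nat_lit 78) (PT.lf (nat_lit 4484) (nat_lit 6) (nat_lit 59) (nat_lit 1) (nat_lit 138) (nat_lit 116) (nat_lit 136)) (PT.nd (nat_lit 78) (PT.lf (nat_lit 4408) (nat_lit 6) (nat_lit 58) (nat_lit 1) (nat_lit 139) (nat_lit 116) (nat_lit 135)) (PT.lf (nat_lit 4332) (nat_lit 6) (nat_lit 57) (nat_lit 1) (nat_lit 140) (nat_lit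 116) (nat_lit 134)))) (PT.nd (nat_lit 78) (PT.lf (nat_lit 4636) (nat_lit 6) (nat_lit 61) (nat_lit 3) (nat_lit 133) (nat_lit 117) (nat_lit 140)) (PT.nd (nat_lit 78) (PT.lf (nat_lit 4712) (nat_lit 6) (nat_lit 62) (nat_lit 3) (nat_lit 134) (nat_lit 117) (nat_lit 139)) (PT.lf (nat_lit 4788) (nat_lit 6) (nat_lit 63) (nat_lit 3) (nat_lit 135) (nat_lit 117) (nat_lit 138))))))) (PT.nd (nat_lit 40794) (PT.nd (nat_lit 40326) (PT.nd (nat_lit 156) (PT.nd (nat_lit 78) (PT.lf (nat_lit 4864) (nat_lit 6) (nat_lit 64) (nat_lit 3) (nat_lit 136) (nat_lit 117) (nat_lit 137)) (PT.lf (nat_lit 4864) (nat_lit 6) (nat_lit 64) (nat_lit 1) (nat_lit 137) (nat_lit 117) (nat_lit 136))) (PT.nd (nat_lit 78) (PT.lf (nat_lit 4788) (nat_lit 6) (nat_lit 63) (nat_lit 1) (nat_lit 138) (nat_lit 117) (nat_lit 135)) (PT.nd (nat_lit 78) (PT.lf (nat_lit 4712) (nat_lit 6) (nat_lit 62) (nat_lit 1) (nat_lit 139) (nat_lit 117) (nat_lit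 134)) (PT.lf (nat_lit 4636) (nat_lit 6) (nat_lit 61) (nat_lit 1) (nat_lit 140) (nat_lit 117) (nat_lit 133))))) (PT.nd (nat_lit 234) (PT.nd (nat_lit 78) (PT.lf (nat_lit 4940) (nat_lit 6) (nat_lit 65) (nat_lit 3) (nat_lit 132) (nat_lit 118) (nat_lit 140)) (PT.nd (nat_lit 78) (PT.lf (nat_lit 5016) (nat_lit 6) (nat_lit 66) (nat_lit 3) (nat_lit 133) (nat_lit 118) (nat_lit 139)) (PT.lf (nat_lit 5092) (nat_lit 6) (nat_lit 67) (nat_lit 3) (nat_lit 134) (nat_lit 118) (nat_lit 138)))) (PT.nd (nat_lit 78) (PT.lf (nat_lit 5168) (nat_lit 6) (nat_lit 68) (nat_lit 3) (nat_lit 135) (nat_lit 118) (nat_lit 137)) (PT.nd (nat_lit 78) (PT.lf (nat_lit 5244) (nat_lit 3) (nat_lit 69) (nat_lit 1) (nat_lit 136) (nat_lit 118) (nat_lit 136)) (PT.lf (nat_lit 5168) (nat_lit 6) (nat_lit 68) (nat_lit 1) (nat_lit 137) (nat_lit 118) (nat_lit 135)))))) (PT.nd (nat_lit 40248) (PT.nd (nat_lit 156) (PT.nd (nat_lit 78) (PT.lf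 (nat_lit 5092) (nat_lit 6) (nat_lit 67) (nat_lit 1) (nat_lit 138) (nat_lit 118) (nat_lit 134)) (PT.lf (nat_lit 5016) (nat_lit 6) (nat_lit 66) (nat_lit 1) (nat_lit 139) (nat_lit 118) (nat_lit 133))) (PT.nd (nat_lit 39936) (PT.lf (nat_lit 4940) (nat_lit 6) (nat_lit 65) (nat_lit 1) (nat_lit 140) (nat_lit 118) (nat_lit 132)) (PT.nd (nat_lit 78) (PT.lf (nat_lit 5320) (nat_lit 6) (nat_lit 70) (nat_lit 3) (nat_lit 131) (nat_lit 119) (nat_lit 140)) (PT.lf (nat_lit 5396) (nat_lit 6) (nat_lit 71) (nat_lit 3) (nat_lit 132) (nat_lit 119) (nat_lit 139))))) (PT.nd (nat_lit 234) (PT.nd (nat_lit 78) (PT.lf (nat_lit 5472) (nat_lit 6) (nat_lit 72) (nat_lit 3) (nat_lit 133) (nat_lit 119) (nat_lit 138)) (PT.nd (nat_lit 78) (PT.lf (nat_lit 5548) (nat_lit 6) (nat_lit 73) (nat_lit 3) (nat_lit 134) (nat_lit 119) (nat_lit 137)) (PT.lf (nat_lit 5624) (nat_lit 6) (nat_lit 74) (nat_lit 3) (nat_lit 135) (nat_lit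 119) (nat_lit 136)))) (PT.nd (nat_lit 78) (PT.lf (nat_lit 5624) (nat_lit 6) (nat_lit 74) (nat_lit 1) (nat_lit 136) (nat_lit 119) (nat_lit 135)) (PT.nd (nat_lit 78) (PT.lf (nat_lit 5548) (nat_lit 6) (nat_lit 73) (nat_lit 1) (nat_lit 137) (nat_lit 119) (nat_lit 134)) (PT.lf (nat_lit 5472) (nat_lit 6) (nat_lit 72) (nat_lit 1) (nat_lit 138) (nat_lit 119) (nat_lit 133))))))))
noncomputable def pc3 : PT := (PT.nd (nat_lit 81276) (PT.nd (nat_lit 40638) (PT.nd (nat_lit 40170) (PT.nd (nat_lit 39936) (PT.nd (nat_lit 78) (PT.lf (nat_lit 5396) (nat_lit 6) (nat_lit 71) (nat_lit 1) (nat_lit 139) (nat_lit 119) (nat_lit 132)) (PT.lf (nat_lit 5320) (nat_lit 6) (nat_lit 70) (nat_lit 1) (nat_lit 140) (nat_lit 119) (nat_lit 131))) (PT.nd (nat_lit 78) (PT.lf (nat_lit 5700) (nat_lit 6) (nat_lit 75) (nat_lit 3) (nat_lit 130) (nat_lit 120) (nat_lit 140)) (PT.nd (nat_lit 78) (PT.lf (nat_lit 5776) (nat_lit 6)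 (nat_lit 76) (nat_lit 3) (nat_lit 131) (nat_lit 120) (nat_lit 139)) (PT.lf (nat_lit 5852) (nat_lit 6) (nat_lit 77) (nat_lit 3) (nat_lit 132) (nat_lit 120) (nat_lit 138))))) (PT.nd (nat_lit 234) (PT.nd (nat_lit 78) (PT.lf (nat_lit 5928) (nat_lit 6) (nat_lit 78) (nat_lit 3) (nat_lit 133) (nat_lit 120) (nat_lit 137)) (PT.nd (nat_lit 78) (PT.lf (nat_lit 6004) (nat_lit 6) (nat_lit 79) (nat_lit 3) (nat_lit 134) (nat_lit 120) (nat_lit 136)) (PT.lf (nat_lit 6080) (nat_lit 3) (nat_lit 80) (nat_lit 1) (nat_lit 135) (nat_lit 120) (nat_lit 135)))) (PT.nd (nat_lit 78) (PT.lf (nat_lit 6004) (nat_lit 6) (nat_lit 79) (nat_lit 1) (nat_lit 136) (nat_lit 120) (nat_lit 134)) (PT.nd (nat_lit 78) (PT.lf (nat_lit 5928) (nat_lit 6) (nat_lit 78) (nat_lit 1) (nat_lit 137) (nat_lit 120) (nat_lit 133)) (PT.lf (nat_lit 5852) (nat_lit 6) (nat_lit 77) (nat_lit 1) (nat_lit 138) (nat_lit 120) (nat_lit 132)))))) (PT.nd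 (nat_lit 40170) (PT.nd (nat_lit 39936) (PT.nd (nat_lit 78) (PT.lf (nat_lit 5776) (nat_lit 6) (nat_lit 76) (nat_lit 1) (nat_lit 139) (nat_lit 120) (nat_lit 131)) (PT.lf (nat_lit 5700) (nat_lit 6) (nat_lit 75) (nat_lit 1) (nat_lit 140) (nat_lit 120) (nat_lit 130))) (PT.nd (nat_lit 78) (PT.lf (nat_lit 6460) (nat_lit 6) (nat_lit 85) (nat_lit 3) (nat_lit 130) (nat_lit 121) (nat_lit 139)) (PT.nd (nat_lit 78) (PT.lf (nat_lit 6536) (nat_lit 6) (nat_lit 86) (nat_lit 3) (nat_lit 131) (nat_lit 121) (nat_lit 138)) (PT.lf (nat_lit 6612) (nat_lit 6) (nat_lit 87) (nat_lit 3) (nat_lit 132) (nat_lit 121) (nat_lit 137))))) (PT.nd (nat_lit 234) (PT.nd (nat_lit 78) (PT.lf (nat_lit 6688) (nat_lit 6) (nat_lit 88) (nat_lit 3) (nat_lit 133) (nat_lit 121) (nat_lit 136)) (PT.nd (nat_lit 78) (PT.lf (nat_lit 6764) (nat_lit 6) (nat_lit 89) (nat_lit 3) (nat_lit 134) (nat_lit 121) (nat_lit 135)) (PT.lf (nat_lit 6764)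 (nat_lit 6) (nat_lit 89) (nat_lit 1) (nat_lit 135) (nat_lit 121) (nat_lit 134)))) (PT.nd (nat_lit 78) (PT.lf (nat_lit 6688) (nat_lit 6) (nat_lit 88) (nat_lit 1) (nat_lit 136) (nat_lit 121) (nat_lit 133)) (PT.nd (nat_lit 78) (PT.lf (nat_lit 6612) (nat_lit 6) (nat_lit 87) (nat_lit 1) (nat_lit 137) (nat_lit 121) (nat_lit 132)) (PT.lf (nat_lit 6536) (nat_lit 6) (nat_lit 86) (nat_lit 1) (nat_lit 138) (nat_lit 121) (nat_lit 131))))))) (PT.nd (nat_lit 40638) (PT.nd (nat_lit 40170) (PT.nd (nat_lit 39936) (PT.nd (nat_lit 39858) (PT.lf (nat_lit 6460) (nat_lit 6) (nat_lit 85) (nat_lit 1) (nat_lit 139) (nat_lit 121) (nat_lit 130)) (PT.lf (nat_lit 6384) (nat_lit 6) (nat_lit 84) (nat_lit 3) (nat_lit 129) (nat_lit 122) (nat_lit 139))) (PT.nd (nat_lit 78) (PT.lf (nat_lit 7144) (nat_lit 6) (nat_lit 94) (nat_lit 3) (nat_lit 130) (nat_lit 122) (nat_lit 138)) (PT.nd (nat_lit 78) (PT.lf (nat_lit 7220) (nat_lit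 6) (nat_lit 95) (nat_lit 3) (nat_lit 131) (nat_lit 122) (nat_lit 137)) (PT.lf (nat_lit 7296) (nat_lit 6) (nat_lit 96) (nat_lit 3) (nat_lit 132) (nat_lit 122) (nat_lit 136))))) (PT.nd (nat_lit 234) (PT.nd (nat_lit 78) (PT.lf (nat_lit 7372) (nat_lit 6) (nat_lit 97) (nat_lit 3) (nat_lit 133) (nat_lit 122) (nat_lit 135)) (PT.nd (nat_lit 78) (PT.lf (nat_lit 7448) (nat_lit 3) (nat_lit 98) (nat_lit 1) (nat_lit 134) (nat_lit 122) (nat_lit 134)) (PT.lf (nat_lit 7372) (nat_lit 6) (nat_lit 97) (nat_lit 1) (nat_lit 135) (nat_lit 122) (nat_lit 133)))) (PT.nd (nat_lit 78) (PT.lf (nat_lit 7296) (nat_lit 6) (nat_lit 96) (nat_lit 1) (nat_lit 136) (nat_lit 122) (nat_lit 132)) (PT.nd (nat_lit 78) (PT.lf (nat_lit 7220) (nat_lit 6) (nat_lit 95) (nat_lit 1) (nat_lit 137) (nat_lit 122) (nat_lit 131)) (PT.lf (nat_lit 7144) (nat_lit 6) (nat_lit 94) (nat_lit 1) (nat_lit 138) (nat_lit 122) (nat_lit 130))))))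 (PT.nd (nat_lit 40092) (PT.nd (nat_lit 39858) (PT.nd (nat_lit 39780) (PT.lf (nat_lit 6384) (nat_lit 6) (nat_lit 84) (nat_lit 1) (nat_lit 139) (nat_lit 122) (nat_lit 129)) (PT.lf (nat_lit 6308) (nat_lit 6) (nat_lit 83) (nat_lit 3) (nat_lit 128) (nat_lit 123) (nat_lit 139))) (PT.nd (nat_lit 78) (PT.lf (nat_lit 7068) (nat_lit 6) (nat_lit 93) (nat_lit 3) (nat_lit 129) (nat_lit 123) (nat_lit 138)) (PT.nd (nat_lit 78) (PT.lf (nat_lit 7752) (nat_lit 6) (nat_lit 102) (nat_lit 3) (nat_lit 130) (nat_lit 123) (nat_lit 137)) (PT.lf (nat_lit 7828) (nat_lit 6) (nat_lit 103) (nat_lit 3) (nat_lit 131) (nat_lit 123) (nat_lit 136))))) (PT.nd (nat_lit 234) (PT.nd (nat_lit 78) (PT.lf (nat_lit 7904) (nat_lit 6) (nat_lit 104) (nat_lit 3) (nat_lit 132) (nat_lit 123) (nat_lit 135)) (PT.nd (nat_lit 78) (PT.lf (nat_lit 7980) (nat_lit 6) (nat_lit 105) (nat_lit 3) (nat_lit 133) (nat_lit 123) (nat_lit 134)) (PT.lf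 (nat_lit 7980) (nat_lit 6) (nat_lit 105) (nat_lit 1) (nat_lit 134) (nat_lit 123) (nat_lit 133)))) (PT.nd (nat_lit 78) (PT.lf (nat_lit 7904) (nat_lit 6) (nat_lit 104) (nat_lit 1) (nat_lit 135) (nat_lit 123) (nat_lit 132)) (PT.nd (nat_lit 78) (PT.lf (nat_lit 7828) (nat_lit 6) (nat_lit 103) (nat_lit 1) (nat_lit 136) (nat_lit 123) (nat_lit 131)) (PT.lf (nat_lit 7752) (nat_lit 6) (nat_lit 102) (nat_lit 1) (nat_lit 137) (nat_lit 123) (nat_lit 130))))))))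
noncomputable def pc4 : PT := (PT.nd (nat_lit 80886) (PT.nd (nat_lit 40482) (PT.nd (nat_lit 40014) (PT.nd (nat_lit 39780) (PT.nd (nat_lit 78) (PT.lf (nat_lit 7068) (nat_lit 6) (nat_lit 93) (nat_lit 1) (nat_lit 138) (nat_lit 123) (nat_lit 129)) (PT.lf (nat_lit 6308) (nat_lit 6) (nat_lit 83) (nat_lit 1) (nat_lit 139) (nat_lit 123) (nat_lit 128))) (PT.nd (nat_lit 78) (PT.lf (nat_lit 6232) (nat_lit 6) (nat_lit 82) (nat_lit 3) (nat_lit 127) (nat_lit 124) (nat_lit 139)) (PT.nd (nat_lit 78) (PT.lf (nat_lit 6992) (nat_lit 6) (nat_lit 92) (nat_lit 3) (nat_lit 128) (nat_lit 124) (nat_lit 138)) (PT.lf (nat_lit 7676) (nat_lit 6) (nat_lit 101) (nat_lit 3) (nat_lit 129) (nat_lit 124) (nat_lit 137))))) (PT.nd (nat_lit 234) (PT.nd (nat_lit 78) (PT.lf (nat_lit 8284) (nat_lit 6) (nat_lit 109) (nat_lit 3) (nat_lit 130) (nat_lit 124) (nat_lit 136)) (PT.nd (nat_lit 78) (PT.lf (nat_lit 8360) (nat_lit 6)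 (nat_lit 110) (nat_lit 3) (nat_lit 131) (nat_lit 124) (nat_lit 135)) (PT.lf (nat_lit 8436) (nat_lit 6) (nat_lit 111) (nat_lit 3) (nat_lit 132) (nat_lit 124) (nat_lit 134)))) (PT.nd (nat_lit 78) (PT.lf (nat_lit 8512) (nat_lit 3) (nat_lit 112) (nat_lit 1) (nat_lit 133) (nat_lit 124) (nat_lit 133)) (PT.nd (nat_lit 78) (PT.lf (nat_lit 8436) (nat_lit 6) (nat_lit 111) (nat_lit 1) (nat_lit 134) (nat_lit 124) (nat_lit 132)) (PT.lf (nat_lit 8360) (nat_lit 6) (nat_lit 110) (nat_lit 1) (nat_lit 135) (nat_lit 124) (nat_lit 131)))))) (PT.nd (nat_lit 39936) (PT.nd (nat_lit 156) (PT.nd (nat_lit 78) (PT.lf (nat_lit 8284) (nat_lit 6) (nat_lit 109) (nat_lit 1) (nat_lit 136) (nat_lit 124) (nat_lit 130)) (PT.lf (nat_lit 7676) (nat_lit 6) (nat_lit 101) (nat_lit 1) (nat_lit 137) (nat_lit 124) (nat_lit 129))) (PT.nd (nat_lit 78) (PT.lf (nat_lit 6992) (nat_lit 6) (nat_lit 92) (nat_lit 1) (nat_lit 138) (nat_lit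 124) (nat_lit 128)) (PT.nd (nat_lit 39624) (PT.lf (nat_lit 6232) (nat_lit 6) (nat_lit 82) (nat_lit 1) (nat_lit 139) (nat_lit 124) (nat_lit 127)) (PT.lf (nat_lit 6156) (nat_lit 6) (nat_lit 81) (nat_lit 3) (nat_lit 126) (nat_lit 125) (nat_lit 139))))) (PT.nd (nat_lit 234) (PT.nd (nat_lit 78) (PT.lf (nat_lit 6916) (nat_lit 6) (nat_lit 91) (nat_lit 3) (nat_lit 127) (nat_lit 125) (nat_lit 138)) (PT.nd (nat_lit 78) (PT.lf (nat_lit 7600) (nat_lit 6) (nat_lit 100) (nat_lit 3) (nat_lit 128) (nat_lit 125) (nat_lit 137)) (PT.lf (nat_lit 8208) (nat_lit 6) (nat_lit 108) (nat_lit 3) (nat_lit 129) (nat_lit 125) (nat_lit 136)))) (PT.nd (nat_lit 78) (PT.lf (nat_lit 8740) (nat_lit 6) (nat_lit 115) (nat_lit 3) (nat_lit 130) (nat_lit 125) (nat_lit 135)) (PT.nd (nat_lit 78) (PT.lf (nat_lit 8816) (nat_lit 6) (nat_lit 116) (nat_lit 3) (nat_lit 131) (nat_lit 125) (nat_lit 134)) (PT.lf (nat_lit 8892) (nat_lit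 6) (nat_lit 117) (nat_lit 3) (nat_lit 132) (nat_lit 125) (nat_lit 133))))))) (PT.nd (nat_lit 40326) (PT.nd (nat_lit 390) (PT.nd (nat_lit 156) (PT.nd (nat_lit 78) (PT.lf (nat_lit 8892) (nat_lit 6) (nat_lit 117) (nat_lit 1) (nat_lit 133) (nat_lit 125) (nat_lit 132)) (PT.lf (nat_lit 8816) (nat_lit 6) (nat_lit 116) (nat_lit 1) (nat_lit 134) (nat_lit 125) (nat_lit 131))) (PT.nd (nat_lit 78) (PT.lf (nat_lit 8740) (nat_lit 6) (nat_lit 115) (nat_lit 1) (nat_lit 135) (nat_lit 125) (nat_lit 130)) (PT.nd (nat_lit 78) (PT.lf (nat_lit 8208) (nat_lit 6) (nat_lit 108) (nat_lit 1) (nat_lit 136) (nat_lit 125) (nat_lit 129)) (PT.lf (nat_lit 7600) (nat_lit 6) (nat_lit 100) (nat_lit 1) (nat_lit 137) (nat_lit 125) (nat_lit 128))))) (PT.nd (nat_lit 39702) (PT.nd (nat_lit 78) (PT.lf (nat_lit 6916) (nat_lit 6) (nat_lit 91) (nat_lit 1) (nat_lit 138) (nat_lit 125) (nat_lit 127)) (PT.nd (nat_lit 39546) (PT.lf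 (nat_lit 6156) (nat_lit 6) (nat_lit 81) (nat_lit 1) (nat_lit 139) (nat_lit 125) (nat_lit 126)) (PT.lf (nat_lit 6156) (nat_lit 6) (nat_lit 81) (nat_lit 5) (nat_lit 125) (nat_lit 126) (nat_lit 139)))) (PT.nd (nat_lit 78) (PT.lf (nat_lit 6840) (nat_lit 3) (nat_lit 90) (nat_lit 3) (nat_lit 126) (nat_lit 126) (nat_lit 138)) (PT.nd (nat_lit 78) (PT.lf (nat_lit 7524) (nat_lit 6) (nat_lit 99) (nat_lit 3) (nat_lit 127) (nat_lit 126) (nat_lit 137)) (PT.lf (nat_lit 8132) (nat_lit 6) (nat_lit 107) (nat_lit 3) (nat_lit 128) (nat_lit 126) (nat_lit 136)))))) (PT.nd (nat_lit 390) (PT.nd (nat_lit 156) (PT.nd (nat_lit 78) (PT.lf (nat_lit 8664) (nat_lit 6) (nat_lit 114) (nat_lit 3) (nat_lit 129) (nat_lit 126) (nat_lit 135)) (PT.lf (nat_lit 9120) (nat_lit 6) (nat_lit 120) (nat_lit 3) (nat_lit 130) (nat_lit 126) (nat_lit 134))) (PT.nd (nat_lit 78) (PT.lf (nat_lit 9196) (nat_lit 6) (nat_lit 121) (nat_lit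 3) (nat_lit 131) (nat_lit 126) (nat_lit 133)) (PT.nd (nat_lit 78) (PT.lf (nat_lit 9272) (nat_lit 3) (nat_lit 122) (nat_lit 1) (nat_lit 132) (nat_lit 126) (nat_lit 132)) (PT.lf (nat_lit 9196) (nat_lit 6) (nat_lit 121) (nat_lit 1) (nat_lit 133) (nat_lit 126) (nat_lit 131))))) (PT.nd (nat_lit 234) (PT.nd (nat_lit 78) (PT.lf (nat_lit 9120) (nat_lit 6) (nat_lit 120) (nat_lit 1) (nat_lit 134) (nat_lit 126) (nat_lit 130)) (PT.nd (nat_lit 78) (PT.lf (nat_lit 8664) (nat_lit 6) (nat_lit 114) (nat_lit 1) (nat_lit 135) (nat_lit 126) (nat_lit 129)) (PT.lf (nat_lit 8132) (nat_lit 6) (nat_lit 107) (nat_lit 1) (nat_lit 136) (nat_lit 126) (nat_lit 128)))) (PT.nd (nat_lit 78) (PT.lf (nat_lit 7524) (nat_lit 6) (nat_lit 99) (nat_lit 1) (nat_lit 137) (nat_lit 126) (nat_lit 127)) (PT.nd (nat_lit 78) (PT.lf (nat_lit 6840) (nat_lit 3) (nat_lit 90) (nat_lit 0) (nat_lit 138) (nat_lit 126) (nat_lit 126)) (PT.lf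 (nat_lit 6156) (nat_lit 6) (nat_lit 81) (nat_lit 0) (nat_lit 139) (nat_lit 126) (nat_lit 125))))))))
noncomputable def pc5 : PT := (PT.nd (nat_lit 41028) (PT.nd (nat_lit 858) (PT.nd (nat_lit 390) (PT.nd (nat_lit 156) (PT.nd (nat_lit 78) (PT.lf (nat_lit 6232) (nat_lit 6) (nat_lit 82) (nat_lit 5) (nat_lit 124) (nat_lit 127) (nat_lit 139)) (PT.lf (nat_lit 6916) (nat_lit 6) (nat_lit 91) (nat_lit 5) (nat_lit 125) (nat_lit 127) (nat_lit 138))) (PT.nd (nat_lit 78) (PT.lf (nat_lit 7524) (nat_lit 6) (nat_lit 99) (nat_lit 5) (nat_lit 126) (nat_lit 127) (nat_lit 137)) (PT.nd (nat_lit 78) (PT.lf (nat_lit 8056) (nat_lit 3) (nat_lit 106) (nat_lit 3) (nat_lit 127) (nat_lit 127) (nat_lit 136)) (PT.lf (nat_lit 8588) (nat_lit 6) (nat_lit 113) (nat_lit 3) (nat_lit 128) (nat_lit 127) (nat_lit 135))))) (PT.nd (nat_lit 234) (PT.nd (nat_lit 78) (PT.lf (nat_lit 9044) (nat_lit 6) (nat_lit 119) (nat_lit 3) (nat_lit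 129) (nat_lit 127) (nat_lit 134)) (PT.nd (nat_lit 78) (PT.lf (nat_lit 9424) (nat_lit 6) (nat_lit 124) (nat_lit 3) (nat_lit 130) (nat_lit 127) (nat_lit 133)) (PT.lf (nat_lit 9500) (nat_lit 6) (nat_lit 125) (nat_lit 3) (nat_lit 131) (nat_lit 127) (nat_lit 132)))) (PT.nd (nat_lit 78) (PT.lf (nat_lit 9500) (nat_lit 6) (nat_lit 125) (nat_lit 1) (nat_lit 132) (nat_lit 127) (nat_lit 131)) (PT.nd (nat_lit 78) (PT.lf (nat_lit 9424) (nat_lit 6) (nat_lit 124) (nat_lit 1) (nat_lit 133) (nat_lit 127) (nat_lit 130)) (PT.lf (nat_lit 9044) (nat_lit 6) (nat_lit 119) (nat_lit 1) (nat_lit 134) (nat_lit 127) (nat_lit 129)))))) (PT.nd (nat_lit 39702) (PT.nd (nat_lit 156) (PT.nd (nat_lit 78) (PT.lf (nat_lit 8588) (nat_lit 6) (nat_lit 113) (nat_lit 1) (nat_lit 135) (nat_lit 127) (nat_lit 128)) (PT.lf (nat_lit 8056) (nat_lit 3) (nat_lit 106) (nat_lit 0) (nat_lit 136) (nat_lit 127) (nat_lit 127))) (PT.nd (nat_lit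 78) (PT.lf (nat_lit 7524) (nat_lit 6) (nat_lit 99) (nat_lit 0) (nat_lit 137) (nat_lit 127) (nat_lit 126)) (PT.nd (nat_lit 78) (PT.lf (nat_lit 6916) (nat_lit 6) (nat_lit 91) (nat_lit 0) (nat_lit 138) (nat_lit 127) (nat_lit 125)) (PT.lf (nat_lit 6232) (nat_lit 6) (nat_lit 82) (nat_lit 0) (nat_lit 139) (nat_lit 127) (nat_lit 124))))) (PT.nd (nat_lit 234) (PT.nd (nat_lit 78) (PT.lf (nat_lit 6308) (nat_lit 6) (nat_lit 83) (nat_lit 5) (nat_lit 123) (nat_lit 128) (nat_lit 139)) (PT.nd (nat_lit 78) (PT.lf (nat_lit 6992) (nat_lit 6) (nat_lit 92) (nat_lit 5) (nat_lit 124) (nat_lit 128) (nat_lit 138)) (PT.lf (nat_lit 7600) (nat_lit 6) (nat_lit 100) (nat_lit 5) (nat_lit 125) (nat_lit 128) (nat_lit 137)))) (PT.nd (nat_lit 78) (PT.lf (nat_lit 8132) (nat_lit 6) (nat_lit 107) (nat_lit 5) (nat_lit 126) (nat_lit 128) (nat_lit 136)) (PT.nd (nat_lit 78) (PT.lf (nat_lit 8588) (nat_lit 6) (nat_lit 113) (nat_lit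 5) (nat_lit 127) (nat_lit 128) (nat_lit 135)) (PT.lf (nat_lit 8968) (nat_lit 3) (nat_lit 118) (nat_lit 3) (nat_lit 128) (nat_lit 128) (nat_lit 134))))))) (PT.nd (nat_lit 40092) (PT.nd (nat_lit 390) (PT.nd (nat_lit 156) (PT.nd (nat_lit 78) (PT.lf (nat_lit 9348) (nat_lit 6) (nat_lit 123) (nat_lit 3) (nat_lit 129) (nat_lit 128) (nat_lit 133)) (PT.lf (nat_lit 9652) (nat_lit 6) (nat_lit 127) (nat_lit 3) (nat_lit 130) (nat_lit 128) (nat_lit 132))) (PT.nd (nat_lit 78) (PT.lf (nat_lit 9728) (nat_lit 3) (nat_lit 128) (nat_lit 1) (nat_lit 131) (nat_lit 128) (nat_lit 131)) (PT.nd (nat_lit 78) (PT.lf (nat_lit 9652) (nat_lit 6) (nat_lit 127) (nat_lit 1) (nat_lit 132) (nat_lit 128) (nat_lit 130)) (PT.lf (nat_lit 9348) (nat_lit 6) (nat_lit 123) (nat_lit 1) (nat_lit 133) (nat_lit 128) (nat_lit 129))))) (PT.nd (nat_lit 234) (PT.nd (nat_lit 78) (PT.lf (nat_lit 8968) (nat_lit 3) (nat_lit 118) (nat_lit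 0) (nat_lit 134) (nat_lit 128) (nat_lit 128)) (PT.nd (nat_lit 78) (PT.lf (nat_lit 8588) (nat_lit 6) (nat_lit 113) (nat_lit 0) (nat_lit 135) (nat_lit 128) (nat_lit 127)) (PT.lf (nat_lit 8132) (nat_lit 6) (nat_lit 107) (nat_lit 0) (nat_lit 136) (nat_lit 128) (nat_lit 126)))) (PT.nd (nat_lit 78) (PT.lf (nat_lit 7600) (nat_lit 6) (nat_lit 100) (nat_lit 0) (nat_lit 137) (nat_lit 128) (nat_lit 125)) (PT.nd (nat_lit 78) (PT.lf (nat_lit 6992) (nat_lit 6) (nat_lit 92) (nat_lit 0) (nat_lit 138) (nat_lit 128) (nat_lit 124)) (PT.lf (nat_lit 6308) (nat_lit 6) (nat_lit 83) (nat_lit 0) (nat_lit 139) (nat_lit 128) (nat_lit 123)))))) (PT.nd (nat_lit 390) (PT.nd (nat_lit 156) (PT.nd (nat_lit 78) (PT.lf (nat_lit 6384) (nat_lit 6) (nat_lit 84) (nat_lit 5) (nat_lit 122) (nat_lit 129) (nat_lit 139)) (PT.lf (nat_lit 7068) (nat_lit 6) (nat_lit 93) (nat_lit 5) (nat_lit 123) (nat_lit 129) (nat_lit 138))) (PT.nd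 (nat_lit 78) (PT.lf (nat_lit 7676) (nat_lit 6) (nat_lit 101) (nat_lit 5) (nat_lit 124) (nat_lit 129) (nat_lit 137)) (PT.nd (nat_lit 78) (PT.lf (nat_lit 8208) (nat_lit 6) (nat_lit 108) (nat_lit 5) (nat_lit 125) (nat_lit 129) (nat_lit 136)) (PT.lf (nat_lit 8664) (nat_lit 6) (nat_lit 114) (nat_lit 5) (nat_lit 126) (nat_lit 129) (nat_lit 135))))) (PT.nd (nat_lit 234) (PT.nd (nat_lit 78) (PT.lf (nat_lit 9044) (nat_lit 6) (nat_lit 119) (nat_lit 5) (nat_lit 127) (nat_lit 129) (nat_lit 134)) (PT.nd (nat_lit 78) (PT.lf (nat_lit 9348) (nat_lit 6) (nat_lit 123) (nat_lit 5) (nat_lit 128) (nat_lit 129) (nat_lit 133)) (PT.lf (nat_lit 9576) (nat_lit 3) (nat_lit 126) (nat_lit 3) (nat_lit 129) (nat_lit 129) (nat_lit 132)))) (PT.nd (nat_lit 78) (PT.lf (nat_lit 9804) (nat_lit 6) (nat_lit 129) (nat_lit 3) (nat_lit 130) (nat_lit 129) (nat_lit 131)) (PT.nd (nat_lit 78) (PT.lf (nat_lit 9804) (nat_lit 6) (nat_lit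 129) (nat_lit 1) (nat_lit 131) (nat_lit 129) (nat_lit 130)) (PT.lf (nat_lit 9576) (nat_lit 3) (nat_lit 126) (nat_lit 0) (nat_lit 132) (nat_lit 129) (nat_lit 129))))))))
noncomputable def pc6 : PT := (PT.nd (nat_lit 40794) (PT.nd (nat_lit 39936) (PT.nd (nat_lit 390) (PT.nd (nat_lit 156) (PT.nd (nat_lit 78) (PT.lf (nat_lit 9348) (nat_lit 6) (nat_lit 123) (nat_lit 0) (nat_lit 133) (nat_lit 129) (nat_lit 128)) (PT.lf (nat_lit 9044) (nat_lit 6) (nat_lit 119) (nat_lit 0) (nat_lit 134) (nat_lit 129) (nat_lit 127))) (PT.nd (nat_lit 78) (PT.lf (nat_lit 8664) (nat_lit 6) (nat_lit 114) (nat_lit 0) (nat_lit 135) (nat_lit 129) (nat_lit 126)) (PT.nd (nat_lit 78) (PT.lf (nat_lit 8208) (nat_lit 6) (nat_lit 108) (nat_lit 0) (nat_lit 136) (nat_lit 129) (nat_lit 125)) (PT.lf (nat_lit 7676) (nat_lit 6) (nat_lit 101) (nat_lit 0) (nat_lit 137) (nat_lit 129) (nat_lit 124))))) (PT.nd (nat_lit 39312) (PT.nd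 (nat_lit 78) (PT.lf (nat_lit 7068) (nat_lit 6) (nat_lit 93) (nat_lit 0) (nat_lit 138) (nat_lit 129) (nat_lit 123)) (PT.nd (nat_lit 39156) (PT.lf (nat_lit 6384) (nat_lit 6) (nat_lit 84) (nat_lit 0) (nat_lit 139) (nat_lit 129) (nat_lit 122)) (PT.lf (nat_lit 5700) (nat_lit 6) (nat_lit 75) (nat_lit 5) (nat_lit 120) (nat_lit 130) (nat_lit 140)))) (PT.nd (nat_lit 78) (PT.lf (nat_lit 6460) (nat_lit 6) (nat_lit 85) (nat_lit 5) (nat_lit 121) (nat_lit 130) (nat_lit 139)) (PT.nd (nat_lit 78) (PT.lf (nat_lit 7144) (nat_lit 6) (nat_lit 94) (nat_lit 5) (nat_lit 122) (nat_lit 130) (nat_lit 138)) (PT.lf (nat_lit 7752) (nat_lit 6) (nat_lit 102) (nat_lit 5) (nat_lit 123) (nat_lit 130) (nat_lit 137)))))) (PT.nd (nat_lit 390) (PT.nd (nat_lit 156) (PT.nd (nat_lit 78) (PT.lf (nat_lit 8284) (nat_lit 6) (nat_lit 109) (nat_lit 5) (nat_lit 124) (nat_lit 130) (nat_lit 136)) (PT.lf (nat_lit 8740) (nat_lit 6) (nat_lit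 115) (nat_lit 5) (nat_lit 125) (nat_lit 130) (nat_lit 135))) (PT.nd (nat_lit 78) (PT.lf (nat_lit 9120) (nat_lit 6) (nat_lit 120) (nat_lit 5) (nat_lit 126) (nat_lit 130) (nat_lit 134)) (PT.nd (nat_lit 78) (PT.lf (nat_lit 9424) (nat_lit 6) (nat_lit 124) (nat_lit 5) (nat_lit 127) (nat_lit 130) (nat_lit 133)) (PT.lf (nat_lit 9652) (nat_lit 6) (nat_lit 127) (nat_lit 5) (nat_lit 128) (nat_lit 130) (nat_lit 132))))) (PT.nd (nat_lit 234) (PT.nd (nat_lit 78) (PT.lf (nat_lit 9804) (nat_lit 6) (nat_lit 129) (nat_lit 5) (nat_lit 129) (nat_lit 130) (nat_lit 131)) (PT.nd (nat_lit 78) (PT.lf (nat_lit 9880) (nat_lit 1) (nat_lit 130) (nat_lit 0) (nat_lit 130) (nat_lit 130) (nat_lit 130)) (PT.lf (nat_lit 9804) (nat_lit 6) (nat_lit 129) (nat_lit 0) (nat_lit 131) (nat_lit 130) (nat_lit 129)))) (PT.nd (nat_lit 78) (PT.lf (nat_lit 9652) (nat_lit 6) (nat_lit 127) (nat_lit 0) (nat_lit 132) (nat_lit 130) (nat_lit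 128)) (PT.nd (nat_lit 78) (PT.lf (nat_lit 9424) (nat_lit 6) (nat_lit 124) (nat_lit 0) (nat_lit 133) (nat_lit 130) (nat_lit 127)) (PT.lf (nat_lit 9120) (nat_lit 6) (nat_lit 120) (nat_lit 0) (nat_lit 134) (nat_lit 130) (nat_lit 126))))))) (PT.nd (nat_lit 39780) (PT.nd (nat_lit 390) (PT.nd (nat_lit 156) (PT.nd (nat_lit 78) (PT.lf (nat_lit 8740) (nat_lit 6) (nat_lit 115) (nat_lit 0) (nat_lit 135) (nat_lit 130) (nat_lit 125)) (PT.lf (nat_lit 8284) (nat_lit 6) (nat_lit 109) (nat_lit 0) (nat_lit 136) (nat_lit 130) (nat_lit 124))) (PT.nd (nat_lit 78) (PT.lf (nat_lit 7752) (nat_lit 6) (nat_lit 102) (nat_lit 0) (nat_lit 137) (nat_lit 130) (nat_lit 123)) (PT.nd (nat_lit 78) (PT.lf (nat_lit 7144) (nat_lit 6) (nat_lit 94) (nat_lit 0) (nat_lit 138) (nat_lit 130) (nat_lit 122)) (PT.lf (nat_lit 6460) (nat_lit 6) (nat_lit 85) (nat_lit 0) (nat_lit 139) (nat_lit 130) (nat_lit 121))))) (PT.nd (nat_lit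 39156) (PT.nd (nat_lit 39000) (PT.lf (nat_lit 5700) (nat_lit 6) (nat_lit 75) (nat_lit 0) (nat_lit 140) (nat_lit 130) (nat_lit 120)) (PT.nd (nat_lit 78) (PT.lf (nat_lit 5320) (nat_lit 6) (nat_lit 70) (nat_lit 5) (nat_lit 119) (nat_lit 131) (nat_lit 140)) (PT.lf (nat_lit 5776) (nat_lit 6) (nat_lit 76) (nat_lit 5) (nat_lit 120) (nat_lit 131) (nat_lit 139)))) (PT.nd (nat_lit 78) (PT.lf (nat_lit 6536) (nat_lit 6) (nat_lit 86) (nat_lit 5) (nat_lit 121) (nat_lit 131) (nat_lit 138)) (PT.nd (nat_lit 78) (PT.lf (nat_lit 7220) (nat_lit 6) (nat_lit 95) (nat_lit 5) (nat_lit 122) (nat_lit 131) (nat_lit 137)) (PT.lf (nat_lit 7828) (nat_lit 6) (nat_lit 103) (nat_lit 5) (nat_lit 123) (nat_lit 131) (nat_lit 136)))))) (PT.nd (nat_lit 390) (PT.nd (nat_lit 156) (PT.nd (nat_lit 78) (PT.lf (nat_lit 8360) (nat_lit 6) (nat_lit 110) (nat_lit 5) (nat_lit 124) (nat_lit 131) (nat_lit 135)) (PT.lf (nat_lit 8816)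 (nat_lit 6) (nat_lit 116) (nat_lit 5) (nat_lit 125) (nat_lit 131) (nat_lit 134))) (PT.nd (nat_lit 78) (PT.lf (nat_lit 9196) (nat_lit 6) (nat_lit 121) (nat_lit 5) (nat_lit 126) (nat_lit 131) (nat_lit 133)) (PT.nd (nat_lit 78) (PT.lf (nat_lit 9500) (nat_lit 6) (nat_lit 125) (nat_lit 5) (nat_lit 127) (nat_lit 131) (nat_lit 132)) (PT.lf (nat_lit 9728) (nat_lit 3) (nat_lit 128) (nat_lit 4) (nat_lit 128) (nat_lit 131) (nat_lit 131))))) (PT.nd (nat_lit 234) (PT.nd (nat_lit 78) (PT.lf (nat_lit 9804) (nat_lit 6) (nat_lit 129) (nat_lit 4) (nat_lit 129) (nat_lit 131) (nat_lit 130)) (PT.nd (nat_lit 78) (PT.lf (nat_lit 9804) (nat_lit 6) (nat_lit 129) (nat_lit 2) (nat_lit 130) (nat_lit 131) (nat_lit 129)) (PT.lf (nat_lit 9728) (nat_lit 3) (nat_lit 128) (nat_lit 0) (nat_lit 131) (nat_lit 131) (nat_lit 128)))) (PT.nd (nat_lit 78) (PT.lf (nat_lit 9500) (nat_lit 6) (nat_lit 125) (nat_lit 0) (nat_lit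 132) (nat_lit 131) (nat_lit 127)) (PT.nd (nat_lit 78) (PT.lf (nat_lit 9196) (nat_lit 6) (nat_lit 121) (nat_lit 0) (nat_lit 133) (nat_lit 131) (nat_lit 126)) (PT.lf (nat_lit 8816) (nat_lit 6) (nat_lit 116) (nat_lit 0) (nat_lit 134) (nat_lit 131) (nat_lit 125))))))))
noncomputable def pc7 : PT := (PT.nd (nat_lit 40560) (PT.nd (nat_lit 39702) (PT.nd (nat_lit 390) (PT.nd (nat_lit 156) (PT.nd (nat_lit 78) (PT.lf (nat_lit 8360) (nat_lit 6) (nat_lit 110) (nat_lit 0) (nat_lit 135) (nat_lit 131) (nat_lit 124)) (PT.lf (nat_lit 7828) (nat_lit 6) (nat_lit 103) (nat_lit 0) (nat_lit 136) (nat_lit 131) (nat_lit 123))) (PT.nd (nat_lit 78) (PT.lf (nat_lit 7220) (nat_lit 6) (nat_lit 95) (nat_lit 0) (nat_lit 137) (nat_lit 131) (nat_lit 122)) (PT.nd (nat_lit 78) (PT.lf (nat_lit 6536) (nat_lit 6) (nat_lit 86) (nat_lit 0) (nat_lit 138) (nat_lit 131) (nat_lit 121)) (PT.lf (nat_lit 5776) (nat_lit 6) (nat_lit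 76) (nat_lit 0) (nat_lit 139) (nat_lit 131) (nat_lit 120))))) (PT.nd (nat_lit 39078) (PT.nd (nat_lit 38922) (PT.lf (nat_lit 5320) (nat_lit 6) (nat_lit 70) (nat_lit 0) (nat_lit 140) (nat_lit 131) (nat_lit 119)) (PT.nd (nat_lit 78) (PT.lf (nat_lit 4940) (nat_lit 6) (nat_lit 65) (nat_lit 5) (nat_lit 118) (nat_lit 132) (nat_lit 140)) (PT.lf (nat_lit 5396) (nat_lit 6) (nat_lit 71) (nat_lit 5) (nat_lit 119) (nat_lit 132) (nat_lit 139)))) (PT.nd (nat_lit 78) (PT.lf (nat_lit 5852) (nat_lit 6) (nat_lit 77) (nat_lit 5) (nat_lit 120) (nat_lit 132) (nat_lit 138)) (PT.nd (nat_lit 78) (PT.lf (nat_lit 6612) (nat_lit 6) (nat_lit 87) (nat_lit 5) (nat_lit 121) (nat_lit 132) (nat_lit 137)) (PT.lf (nat_lit 7296) (nat_lit 6) (nat_lit 96) (nat_lit 5) (nat_lit 122) (nat_lit 132) (nat_lit 136)))))) (PT.nd (nat_lit 390) (PT.nd (nat_lit 156) (PT.nd (nat_lit 78) (PT.lf (nat_lit 7904) (nat_lit 6) (nat_lit 104)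 (nat_lit 5) (nat_lit 123) (nat_lit 132) (nat_lit 135)) (PT.lf (nat_lit 8436) (nat_lit 6) (nat_lit 111) (nat_lit 5) (nat_lit 124) (nat_lit 132) (nat_lit 134))) (PT.nd (nat_lit 78) (PT.lf (nat_lit 8892) (nat_lit 6) (nat_lit 117) (nat_lit 5) (nat_lit 125) (nat_lit 132) (nat_lit 133)) (PT.nd (nat_lit 78) (PT.lf (nat_lit 9272) (nat_lit 3) (nat_lit 122) (nat_lit 4) (nat_lit 126) (nat_lit 132) (nat_lit 132)) (PT.lf (nat_lit 9500) (nat_lit 6) (nat_lit 125) (nat_lit 4) (nat_lit 127) (nat_lit 132) (nat_lit 131))))) (PT.nd (nat_lit 234) (PT.nd (nat_lit 78) (PT.lf (nat_lit 9652) (nat_lit 6) (nat_lit 127) (nat_lit 4) (nat_lit 128) (nat_lit 132) (nat_lit 130)) (PT.nd (nat_lit 78) (PT.lf (nat_lit 9576) (nat_lit 3) (nat_lit 126) (nat_lit 2) (nat_lit 129) (nat_lit 132) (nat_lit 129)) (PT.lf (nat_lit 9652) (nat_lit 6) (nat_lit 127) (nat_lit 2) (nat_lit 130) (nat_lit 132) (nat_lit 128)))) (PT.nd (nat_lit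 78) (PT.lf (nat_lit 9500) (nat_lit 6) (nat_lit 125) (nat_lit 2) (nat_lit 131) (nat_lit 132) (nat_lit 127)) (PT.nd (nat_lit 78) (PT.lf (nat_lit 9272) (nat_lit 3) (nat_lit 122) (nat_lit 0) (nat_lit 132) (nat_lit 132) (nat_lit 126)) (PT.lf (nat_lit 8892) (nat_lit 6) (nat_lit 117) (nat_lit 0) (nat_lit 133) (nat_lit 132) (nat_lit 125))))))) (PT.nd (nat_lit 39624) (PT.nd (nat_lit 390) (PT.nd (nat_lit 156) (PT.nd (nat_lit 78) (PT.lf (nat_lit 8436) (nat_lit 6) (nat_lit 111) (nat_lit 0) (nat_lit 134) (nat_lit 132) (nat_lit 124)) (PT.lf (nat_lit 7904) (nat_lit 6) (nat_lit 104) (nat_lit 0) (nat_lit 135) (nat_lit 132) (nat_lit 123))) (PT.nd (nat_lit 78) (PT.lf (nat_lit 7296) (nat_lit 6) (nat_lit 96) (nat_lit 0) (nat_lit 136) (nat_lit 132) (nat_lit 122)) (PT.nd (nat_lit 78) (PT.lf (nat_lit 6612) (nat_lit 6) (nat_lit 87) (nat_lit 0) (nat_lit 137) (nat_lit 132) (nat_lit 121)) (PT.lf (nat_lit 5852)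 (nat_lit 6) (nat_lit 77) (nat_lit 0) (nat_lit 138) (nat_lit 132) (nat_lit 120))))) (PT.nd (nat_lit 39000) (PT.nd (nat_lit 78) (PT.lf (nat_lit 5396) (nat_lit 6) (nat_lit 71) (nat_lit 0) (nat_lit 139) (nat_lit 132) (nat_lit 119)) (PT.nd (nat_lit 38844) (PT.lf (nat_lit 4940) (nat_lit 6) (nat_lit 65) (nat_lit 0) (nat_lit 140) (nat_lit 132) (nat_lit 118)) (PT.lf (nat_lit 4636) (nat_lit 6) (nat_lit 61) (nat_lit 5) (nat_lit 117) (nat_lit 133) (nat_lit 140)))) (PT.nd (nat_lit 78) (PT.lf (nat_lit 5016) (nat_lit 6) (nat_lit 66) (nat_lit 5) (nat_lit 118) (nat_lit 133) (nat_lit 139)) (PT.nd (nat_lit 78) (PT.lf (nat_lit 5472) (nat_lit 6) (nat_lit 72) (nat_lit 5) (nat_lit 119) (nat_lit 133) (nat_lit 138)) (PT.lf (nat_lit 5928) (nat_lit 6) (nat_lit 78) (nat_lit 5) (nat_lit 120) (nat_lit 133) (nat_lit 137)))))) (PT.nd (nat_lit 468) (PT.nd (nat_lit 234) (PT.nd (nat_lit 78) (PT.lf (nat_lit 6688) (nat_lit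 6) (nat_lit 88) (nat_lit 5) (nat_lit 121) (nat_lit 133) (nat_lit 136)) (PT.nd (nat_lit 78) (PT.lf (nat_lit 7372) (nat_lit 6) (nat_lit 97) (nat_lit 5) (nat_lit 122) (nat_lit 133) (nat_lit 135)) (PT.lf (nat_lit 7980) (nat_lit 6) (nat_lit 105) (nat_lit 5) (nat_lit 123) (nat_lit 133) (nat_lit 134)))) (PT.nd (nat_lit 78) (PT.lf (nat_lit 8512) (nat_lit 3) (nat_lit 112) (nat_lit 4) (nat_lit 124) (nat_lit 133) (nat_lit 133)) (PT.nd (nat_lit 78) (PT.lf (nat_lit 8892) (nat_lit 6) (nat_lit 117) (nat_lit 4) (nat_lit 125) (nat_lit 133) (nat_lit 132)) (PT.lf (nat_lit 9196) (nat_lit 6) (nat_lit 121) (nat_lit 4) (nat_lit 126) (nat_lit 133) (nat_lit 131))))) (PT.nd (nat_lit 234) (PT.nd (nat_lit 78) (PT.lf (nat_lit 9424) (nat_lit 6) (nat_lit 124) (nat_lit 4) (nat_lit 127) (nat_lit 133) (nat_lit 130)) (PT.nd (nat_lit 78) (PT.lf (nat_lit 9348) (nat_lit 6) (nat_lit 123) (nat_lit 4) (nat_lit 128) (nat_lit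 133) (nat_lit 129)) (PT.lf (nat_lit 9348) (nat_lit 6) (nat_lit 123) (nat_lit 2) (nat_lit 129) (nat_lit 133) (nat_lit 128)))) (PT.nd (nat_lit 78) (PT.lf (nat_lit 9424) (nat_lit 6) (nat_lit 124) (nat_lit 2) (nat_lit 130) (nat_lit 133) (nat_lit 127)) (PT.nd (nat_lit 78) (PT.lf (nat_lit 9196) (nat_lit 6) (nat_lit 121) (nat_lit 2) (nat_lit 131) (nat_lit 133) (nat_lit 126)) (PT.lf (nat_lit 8892) (nat_lit 6) (nat_lit 117) (nat_lit 2) (nat_lit 132) (nat_lit 133) (nat_lit 125))))))))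
noncomputable def pc8 : PT := (PT.nd (nat_lit 40326) (PT.nd (nat_lit 39468) (PT.nd (nat_lit 390) (PT.nd (nat_lit 156) (PT.nd (nat_lit 78) (PT.lf (nat_lit 8512) (nat_lit 3) (nat_lit 112) (nat_lit 0) (nat_lit 133) (nat_lit 133) (nat_lit 124)) (PT.lf (nat_lit 7980) (nat_lit 6) (nat_lit 105) (nat_lit 0) (nat_lit 134) (nat_lit 133) (nat_lit 123))) (PT.nd (nat_lit 78) (PT.lf (nat_lit 7372) (nat_lit 6) (nat_lit 97) (nat_lit 0) (nat_lit 135) (nat_lit 133) (nat_lit 122)) (PT.nd (nat_lit 78) (PT.lf (nat_lit 6688) (nat_lit 6) (nat_lit 88) (nat_lit 0) (nat_lit 136) (nat_lit 133) (nat_lit 121)) (PT.lf (nat_lit 5928) (nat_lit 6) (nat_lit 78) (nat_lit 0) (nat_lit 137) (nat_lit 133) (nat_lit 120))))) (PT.nd (nat_lit 38844) (PT.nd (nat_lit 78) (PT.lf (nat_lit 5472) (nat_lit 6) (nat_lit 72) (nat_lit 0) (nat_lit 138) (nat_lit 133) (nat_lit 119)) (PT.nd (nat_lit 78) (PT.lf (nat_lit 5016) (nat_lit 6) (nat_lit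 66) (nat_lit 0) (nat_lit 139) (nat_lit 133) (nat_lit 118)) (PT.lf (nat_lit 4636) (nat_lit 6) (nat_lit 61) (nat_lit 0) (nat_lit 140) (nat_lit 133) (nat_lit 117)))) (PT.nd (nat_lit 78) (PT.lf (nat_lit 4028) (nat_lit 6) (nat_lit 53) (nat_lit 5) (nat_lit 115) (nat_lit 134) (nat_lit 141)) (PT.nd (nat_lit 78) (PT.lf (nat_lit 4332) (nat_lit 6) (nat_lit 57) (nat_lit 5) (nat_lit 116) (nat_lit 134) (nat_lit 140)) (PT.lf (nat_lit 4712) (nat_lit 6) (nat_lit 62) (nat_lit 5) (nat_lit 117) (nat_lit 134) (nat_lit 139)))))) (PT.nd (nat_lit 390) (PT.nd (nat_lit 156) (PT.nd (nat_lit 78) (PT.lf (nat_lit 5092) (nat_lit 6) (nat_lit 67) (nat_lit 5) (nat_lit 118) (nat_lit 134) (nat_lit 138)) (PT.lf (nat_lit 5548) (nat_lit 6) (nat_lit 73) (nat_lit 5) (nat_lit 119) (nat_lit 134) (nat_lit 137))) (PT.nd (nat_lit 78) (PT.lf (nat_lit 6004) (nat_lit 6) (nat_lit 79) (nat_lit 5) (nat_lit 120) (nat_lit 134) (nat_lit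 136)) (PT.nd (nat_lit 78) (PT.lf (nat_lit 6764) (nat_lit 6) (nat_lit 89) (nat_lit 5) (nat_lit 121) (nat_lit 134) (nat_lit 135)) (PT.lf (nat_lit 7448) (nat_lit 3) (nat_lit 98) (nat_lit 4) (nat_lit 122) (nat_lit 134) (nat_lit 134))))) (PT.nd (nat_lit 234) (PT.nd (nat_lit 78) (PT.lf (nat_lit 7980) (nat_lit 6) (nat_lit 105) (nat_lit 4) (nat_lit 123) (nat_lit 134) (nat_lit 133)) (PT.nd (nat_lit 78) (PT.lf (nat_lit 8436) (nat_lit 6) (nat_lit 111) (nat_lit 4) (nat_lit 124) (nat_lit 134) (nat_lit 132)) (PT.lf (nat_lit 8816) (nat_lit 6) (nat_lit 116) (nat_lit 4) (nat_lit 125) (nat_lit 134) (nat_lit 131)))) (PT.nd (nat_lit 78) (PT.lf (nat_lit 9120) (nat_lit 6) (nat_lit 120) (nat_lit 4) (nat_lit 126) (nat_lit 134) (nat_lit 130)) (PT.nd (nat_lit 78) (PT.lf (nat_lit 9044) (nat_lit 6) (nat_lit 119) (nat_lit 4) (nat_lit 127) (nat_lit 134) (nat_lit 129)) (PT.lf (nat_lit 8968) (nat_lit 3) (nat_lit 118)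 (nat_lit 2) (nat_lit 128) (nat_lit 134) (nat_lit 128))))))) (PT.nd (nat_lit 858) (PT.nd (nat_lit 390) (PT.nd (nat_lit 156) (PT.nd (nat_lit 78) (PT.lf (nat_lit 9044) (nat_lit 6) (nat_lit 119) (nat_lit 2) (nat_lit 129) (nat_lit 134) (nat_lit 127)) (PT.lf (nat_lit 9120) (nat_lit 6) (nat_lit 120) (nat_lit 2) (nat_lit 130) (nat_lit 134) (nat_lit 126))) (PT.nd (nat_lit 78) (PT.lf (nat_lit 8816) (nat_lit 6) (nat_lit 116) (nat_lit 2) (nat_lit 131) (nat_lit 134) (nat_lit 125)) (PT.nd (nat_lit 78) (PT.lf (nat_lit 8436) (nat_lit 6) (nat_lit 111) (nat_lit 2) (nat_lit 132) (nat_lit 134) (nat_lit 124)) (PT.lf (nat_lit 7980) (nat_lit 6) (nat_lit 105) (nat_lit 2) (nat_lit 133) (nat_lit 134) (nat_lit 123))))) (PT.nd (nat_lit 234) (PT.nd (nat_lit 78) (PT.lf (nat_lit 7448) (nat_lit 3) (nat_lit 98) (nat_lit 0) (nat_lit 134) (nat_lit 134) (nat_lit 122)) (PT.nd (nat_lit 78) (PT.lf (nat_lit 6764) (nat_lit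 6) (nat_lit 89) (nat_lit 0) (nat_lit 135) (nat_lit 134) (nat_lit 121)) (PT.lf (nat_lit 6004) (nat_lit 6) (nat_lit 79) (nat_lit 0) (nat_lit 136) (nat_lit 134) (nat_lit 120)))) (PT.nd (nat_lit 78) (PT.lf (nat_lit 5548) (nat_lit 6) (nat_lit 73) (nat_lit 0) (nat_lit 137) (nat_lit 134) (nat_lit 119)) (PT.nd (nat_lit 78) (PT.lf (nat_lit 5092) (nat_lit 6) (nat_lit 67) (nat_lit 0) (nat_lit 138) (nat_lit 134) (nat_lit 118)) (PT.lf (nat_lit 4712) (nat_lit 6) (nat_lit 62) (nat_lit 0) (nat_lit 139) (nat_lit 134) (nat_lit 117)))))) (PT.nd (nat_lit 38844) (PT.nd (nat_lit 38610) (PT.nd (nat_lit 78) (PT.lf (nat_lit 4332) (nat_lit 6) (nat_lit 57) (nat_lit 0) (nat_lit 140) (nat_lit 134) (nat_lit 116)) (PT.lf (nat_lit 4028) (nat_lit 6) (nat_lit 53) (nat_lit 0) (nat_lit 141) (nat_lit 134) (nat_lit 115))) (PT.nd (nat_lit 78) (PT.lf (nat_lit 3724) (nat_lit 6) (nat_lit 49) (nat_lit 5) (nat_lit 114) (nat_lit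 135) (nat_lit 141)) (PT.nd (nat_lit 78) (PT.lf (nat_lit 4104) (nat_lit 6) (nat_lit 54) (nat_lit 5) (nat_lit 115) (nat_lit 135) (nat_lit 140)) (PT.lf (nat_lit 4408) (nat_lit 6) (nat_lit 58) (nat_lit 5) (nat_lit 116) (nat_lit 135) (nat_lit 139))))) (PT.nd (nat_lit 234) (PT.nd (nat_lit 78) (PT.lf (nat_lit 4788) (nat_lit 6) (nat_lit 63) (nat_lit 5) (nat_lit 117) (nat_lit 135) (nat_lit 138)) (PT.nd (nat_lit 78) (PT.lf (nat_lit 5168) (nat_lit 6) (nat_lit 68) (nat_lit 5) (nat_lit 118) (nat_lit 135) (nat_lit 137)) (PT.lf (nat_lit 5624) (nat_lit 6) (nat_lit 74) (nat_lit 5) (nat_lit 119) (nat_lit 135) (nat_lit 136)))) (PT.nd (nat_lit 78) (PT.lf (nat_lit 6080) (nat_lit 3) (nat_lit 80) (nat_lit 4) (nat_lit 120) (nat_lit 135) (nat_lit 135)) (PT.nd (nat_lit 78) (PT.lf (nat_lit 6764) (nat_lit 6) (nat_lit 89) (nat_lit 4) (nat_lit 121) (nat_lit 135) (nat_lit 134)) (PT.lf (nat_lit 7372) (nat_lit 6) (nat_lit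 97) (nat_lit 4) (nat_lit 122) (nat_lit 135) (nat_lit 133))))))))
noncomputable def pc9 : PT := (PT.nd (nat_lit 40092) (PT.nd (nat_lit 858) (PT.nd (nat_lit 390) (PT.nd (nat_lit 156) (PT.nd (nat_lit 78) (PT.lf (nat_lit 7904) (nat_lit 6) (nat_lit 104) (nat_lit 4) (nat_lit 123) (nat_lit 135) (nat_lit 132)) (PT.lf (nat_lit 8360) (nat_lit 6) (nat_lit 110) (nat_lit 4) (nat_lit 124) (nat_lit 135) (nat_lit 131))) (PT.nd (nat_lit 78) (PT.lf (nat_lit 8740) (nat_lit 6) (nat_lit 115) (nat_lit 4) (nat_lit 125) (nat_lit 135) (nat_lit 130)) (PT.nd (nat_lit 78) (PT.lf (nat_lit 8664) (nat_lit 6) (nat_lit 114) (nat_lit 4) (nat_lit 126) (nat_lit 135) (nat_lit 129)) (PT.lf (nat_lit 8588) (nat_lit 6) (nat_lit 113) (nat_lit 4) (nat_lit 127) (nat_lit 135) (nat_lit 128))))) (PT.nd (nat_lit 234) (PT.nd (nat_lit 78) (PT.lf (nat_lit 8588) (nat_lit 6) (nat_lit 113) (nat_lit 2) (nat_lit 128) (nat_lit 135) (nat_lit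 127)) (PT.nd (nat_lit 78) (PT.lf (nat_lit 8664) (nat_lit 6) (nat_lit 114) (nat_lit 2) (nat_lit 129) (nat_lit 135) (nat_lit 126)) (PT.lf (nat_lit 8740) (nat_lit 6) (nat_lit 115) (nat_lit 2) (nat_lit 130) (nat_lit 135) (nat_lit 125)))) (PT.nd (nat_lit 78) (PT.lf (nat_lit 8360) (nat_lit 6) (nat_lit 110) (nat_lit 2) (nat_lit 131) (nat_lit 135) (nat_lit 124)) (PT.nd (nat_lit 78) (PT.lf (nat_lit 7904) (nat_lit 6) (nat_lit 104) (nat_lit 2) (nat_lit 132) (nat_lit 135) (nat_lit 123)) (PT.lf (nat_lit 7372) (nat_lit 6) (nat_lit 97) (nat_lit 2) (nat_lit 133) (nat_lit 135) (nat_lit 122)))))) (PT.nd (nat_lit 390) (PT.nd (nat_lit 156) (PT.nd (nat_lit 78) (PT.lf (nat_lit 6764) (nat_lit 6) (nat_lit 89) (nat_lit 2) (nat_lit 134) (nat_lit 135) (nat_lit 121)) (PT.lf (nat_lit 6080) (nat_lit 3) (nat_lit 80) (nat_lit 0) (nat_lit 135) (nat_lit 135) (nat_lit 120))) (PT.nd (nat_lit 78) (PT.lf (nat_lit 5624)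 (nat_lit 6) (nat_lit 74) (nat_lit 0) (nat_lit 136) (nat_lit 135) (nat_lit 119)) (PT.nd (nat_lit 78) (PT.lf (nat_lit 5168) (nat_lit 6) (nat_lit 68) (nat_lit 0) (nat_lit 137) (nat_lit 135) (nat_lit 118)) (PT.lf (nat_lit 4788) (nat_lit 6) (nat_lit 63) (nat_lit 0) (nat_lit 138) (nat_lit 135) (nat_lit 117))))) (PT.nd (nat_lit 38610) (PT.nd (nat_lit 78) (PT.lf (nat_lit 4408) (nat_lit 6) (nat_lit 58) (nat_lit 0) (nat_lit 139) (nat_lit 135) (nat_lit 116)) (PT.nd (nat_lit 78) (PT.lf (nat_lit 4104) (nat_lit 6) (nat_lit 54) (nat_lit 0) (nat_lit 140) (nat_lit 135) (nat_lit 115)) (PT.lf (nat_lit 3724) (nat_lit 6) (nat_lit 49) (nat_lit 0) (nat_lit 141) (nat_lit 135) (nat_lit 114)))) (PT.nd (nat_lit 78) (PT.lf (nat_lit 3496) (nat_lit 6) (nat_lit 46) (nat_lit 5) (nat_lit 113) (nat_lit 136) (nat_lit 141)) (PT.nd (nat_lit 78) (PT.lf (nat_lit 3800) (nat_lit 6) (nat_lit 50) (nat_lit 5) (nat_lit 114) (nat_lit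 136) (nat_lit 140)) (PT.lf (nat_lit 4180) (nat_lit 6) (nat_lit 55) (nat_lit 5) (nat_lit 115) (nat_lit 136) (nat_lit 139))))))) (PT.nd (nat_lit 858) (PT.nd (nat_lit 390) (PT.nd (nat_lit 156) (PT.nd (nat_lit 78) (PT.lf (nat_lit 4484) (nat_lit 6) (nat_lit 59) (nat_lit 5) (nat_lit 116) (nat_lit 136) (nat_lit 138)) (PT.lf (nat_lit 4864) (nat_lit 6) (nat_lit 64) (nat_lit 5) (nat_lit 117) (nat_lit 136) (nat_lit 137))) (PT.nd (nat_lit 78) (PT.lf (nat_lit 5244) (nat_lit 3) (nat_lit 69) (nat_lit 4) (nat_lit 118) (nat_lit 136) (nat_lit 136)) (PT.nd (nat_lit 78) (PT.lf (nat_lit 5624) (nat_lit 6) (nat_lit 74) (nat_lit 4) (nat_lit 119) (nat_lit 136) (nat_lit 135)) (PT.lf (nat_lit 6004) (nat_lit 6) (nat_lit 79) (nat_lit 4) (nat_lit 120) (nat_lit 136) (nat_lit 134))))) (PT.nd (nat_lit 234) (PT.nd (nat_lit 78) (PT.lf (nat_lit 6688) (nat_lit 6) (nat_lit 88) (nat_lit 4) (nat_lit 121) (nat_lit 136) (nat_lit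 133)) (PT.nd (nat_lit 78) (PT.lf (nat_lit 7296) (nat_lit 6) (nat_lit 96) (nat_lit 4) (nat_lit 122) (nat_lit 136) (nat_lit 132)) (PT.lf (nat_lit 7828) (nat_lit 6) (nat_lit 103) (nat_lit 4) (nat_lit 123) (nat_lit 136) (nat_lit 131)))) (PT.nd (nat_lit 78) (PT.lf (nat_lit 8284) (nat_lit 6) (nat_lit 109) (nat_lit 4) (nat_lit 124) (nat_lit 136) (nat_lit 130)) (PT.nd (nat_lit 78) (PT.lf (nat_lit 8208) (nat_lit 6) (nat_lit 108) (nat_lit 4) (nat_lit 125) (nat_lit 136) (nat_lit 129)) (PT.lf (nat_lit 8132) (nat_lit 6) (nat_lit 107) (nat_lit 4) (nat_lit 126) (nat_lit 136) (nat_lit 128)))))) (PT.nd (nat_lit 390) (PT.nd (nat_lit 156) (PT.nd (nat_lit 78) (PT.lf (nat_lit 8056) (nat_lit 3) (nat_lit 106) (nat_lit 2) (nat_lit 127) (nat_lit 136) (nat_lit 127)) (PT.lf (nat_lit 8132) (nat_lit 6) (nat_lit 107) (nat_lit 2) (nat_lit 128) (nat_lit 136) (nat_lit 126))) (PT.nd (nat_lit 78) (PT.lf (nat_lit 8208)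 (nat_lit 6) (nat_lit 108) (nat_lit 2) (nat_lit 129) (nat_lit 136) (nat_lit 125)) (PT.nd (nat_lit 78) (PT.lf (nat_lit 8284) (nat_lit 6) (nat_lit 109) (nat_lit 2) (nat_lit 130) (nat_lit 136) (nat_lit 124)) (PT.lf (nat_lit 7828) (nat_lit 6) (nat_lit 103) (nat_lit 2) (nat_lit 131) (nat_lit 136) (nat_lit 123))))) (PT.nd (nat_lit 234) (PT.nd (nat_lit 78) (PT.lf (nat_lit 7296) (nat_lit 6) (nat_lit 96) (nat_lit 2) (nat_lit 132) (nat_lit 136) (nat_lit 122)) (PT.nd (nat_lit 78) (PT.lf (nat_lit 6688) (nat_lit 6) (nat_lit 88) (nat_lit 2) (nat_lit 133) (nat_lit 136) (nat_lit 121)) (PT.lf (nat_lit 6004) (nat_lit 6) (nat_lit 79) (nat_lit 2) (nat_lit 134) (nat_lit 136) (nat_lit 120)))) (PT.nd (nat_lit 78) (PT.lf (nat_lit 5624) (nat_lit 6) (nat_lit 74) (nat_lit 2) (nat_lit 135) (nat_lit 136) (nat_lit 119)) (PT.nd (nat_lit 78) (PT.lf (nat_lit 5244) (nat_lit 3) (nat_lit 69) (nat_lit 0) (nat_lit 136) (nat_lit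 136) (nat_lit 118)) (PT.lf (nat_lit 4864) (nat_lit 6) (nat_lit 64) (nat_lit 0) (nat_lit 137) (nat_lit 136) (nat_lit 117))))))))
noncomputable def pc10 : PT := (PT.nd (nat_lit 39936) (PT.nd (nat_lit 39078) (PT.nd (nat_lit 38610) (PT.nd (nat_lit 156) (PT.nd (nat_lit 78) (PT.lf (nat_lit 4484) (nat_lit 6) (nat_lit 59) (nat_lit 0) (nat_lit 138) (nat_lit 136) (nat_lit 116)) (PT.lf (nat_lit 4180) (nat_lit 6) (nat_lit 55) (nat_lit 0) (nat_lit 139) (nat_lit 136) (nat_lit 115))) (PT.nd (nat_lit 78) (PT.lf (nat_lit 3800) (nat_lit 6) (nat_lit 50) (nat_lit 0) (nat_lit 140) (nat_lit 136) (nat_lit 114)) (PT.nd (nat_lit 38298) (PT.lf (nat_lit 3496) (nat_lit 6) (nat_lit 46) (nat_lit 0) (nat_lit 141) (nat_lit 136) (nat_lit 113)) (PT.lf (nat_lit 3040) (nat_lit 6) (nat_lit 40) (nat_lit 5) (nat_lit 111) (nat_lit 137) (nat_lit 142))))) (PT.nd (nat_lit 234) (PT.nd (nat_lit 78) (PT.lf (nat_lit 3268) (nat_lit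 6) (nat_lit 43) (nat_lit 5) (nat_lit 112) (nat_lit 137) (nat_lit 141)) (PT.nd (nat_lit 78) (PT.lf (nat_lit 3572) (nat_lit 6) (nat_lit 47) (nat_lit 5) (nat_lit 113) (nat_lit 137) (nat_lit 140)) (PT.lf (nat_lit 3876) (nat_lit 6) (nat_lit 51) (nat_lit 5) (nat_lit 114) (nat_lit 137) (nat_lit 139)))) (PT.nd (nat_lit 78) (PT.lf (nat_lit 4256) (nat_lit 6) (nat_lit 56) (nat_lit 5) (nat_lit 115) (nat_lit 137) (nat_lit 138)) (PT.nd (nat_lit 78) (PT.lf (nat_lit 4560) (nat_lit 3) (nat_lit 60) (nat_lit 4) (nat_lit 116) (nat_lit 137) (nat_lit 137)) (PT.lf (nat_lit 4864) (nat_lit 6) (nat_lit 64) (nat_lit 4) (nat_lit 117) (nat_lit 137) (nat_lit 136)))))) (PT.nd (nat_lit 390) (PT.nd (nat_lit 156) (PT.nd (nat_lit 78) (PT.lf (nat_lit 5168) (nat_lit 6) (nat_lit 68) (nat_lit 4) (nat_lit 118) (nat_lit 137) (nat_lit 135)) (PT.lf (nat_lit 5548) (nat_lit 6) (nat_lit 73) (nat_lit 4) (nat_lit 119) (nat_lit 137)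 (nat_lit 134))) (PT.nd (nat_lit 78) (PT.lf (nat_lit 5928) (nat_lit 6) (nat_lit 78) (nat_lit 4) (nat_lit 120) (nat_lit 137) (nat_lit 133)) (PT.nd (nat_lit 78) (PT.lf (nat_lit 6612) (nat_lit 6) (nat_lit 87) (nat_lit 4) (nat_lit 121) (nat_lit 137) (nat_lit 132)) (PT.lf (nat_lit 7220) (nat_lit 6) (nat_lit 95) (nat_lit 4) (nat_lit 122) (nat_lit 137) (nat_lit 131))))) (PT.nd (nat_lit 234) (PT.nd (nat_lit 78) (PT.lf (nat_lit 7752) (nat_lit 6) (nat_lit 102) (nat_lit 4) (nat_lit 123) (nat_lit 137) (nat_lit 130)) (PT.nd (nat_lit 78) (PT.lf (nat_lit 7676) (nat_lit 6) (nat_lit 101) (nat_lit 4) (nat_lit 124) (nat_lit 137) (nat_lit 129)) (PT.lf (nat_lit 7600) (nat_lit 6) (nat_lit 100) (nat_lit 4) (nat_lit 125) (nat_lit 137) (nat_lit 128)))) (PT.nd (nat_lit 78) (PT.lf (nat_lit 7524) (nat_lit 6) (nat_lit 99) (nat_lit 4) (nat_lit 126) (nat_lit 137) (nat_lit 127)) (PT.nd (nat_lit 78) (PT.lf (nat_lit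 7524) (nat_lit 6) (nat_lit 99) (nat_lit 2) (nat_lit 127) (nat_lit 137) (nat_lit 126)) (PT.lf (nat_lit 7600) (nat_lit 6) (nat_lit 100) (nat_lit 2) (nat_lit 128) (nat_lit 137) (nat_lit 125))))))) (PT.nd (nat_lit 858) (PT.nd (nat_lit 390) (PT.nd (nat_lit 156) (PT.nd (nat_lit 78) (PT.lf (nat_lit 7676) (nat_lit 6) (nat_lit 101) (nat_lit 2) (nat_lit 129) (nat_lit 137) (nat_lit 124)) (PT.lf (nat_lit 7752) (nat_lit 6) (nat_lit 102) (nat_lit 2) (nat_lit 130) (nat_lit 137) (nat_lit 123))) (PT.nd (nat_lit 78) (PT.lf (nat_lit 7220) (nat_lit 6) (nat_lit 95) (nat_lit 2) (nat_lit 131) (nat_lit 137) (nat_lit 122)) (PT.nd (nat_lit 78) (PT.lf (nat_lit 6612) (nat_lit 6) (nat_lit 87) (nat_lit 2) (nat_lit 132) (nat_lit 137) (nat_lit 121)) (PT.lf (nat_lit 5928) (nat_lit 6) (nat_lit 78) (nat_lit 2) (nat_lit 133) (nat_lit 137) (nat_lit 120))))) (PT.nd (nat_lit 234) (PT.nd (nat_lit 78) (PT.lf (nat_lit 5548)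 (nat_lit 6) (nat_lit 73) (nat_lit 2) (nat_lit 134) (nat_lit 137) (nat_lit 119)) (PT.nd (nat_lit 78) (PT.lf (nat_lit 5168) (nat_lit 6) (nat_lit 68) (nat_lit 2) (nat_lit 135) (nat_lit 137) (nat_lit 118)) (PT.lf (nat_lit 4864) (nat_lit 6) (nat_lit 64) (nat_lit 2) (nat_lit 136) (nat_lit 137) (nat_lit 117)))) (PT.nd (nat_lit 78) (PT.lf (nat_lit 4560) (nat_lit 3) (nat_lit 60) (nat_lit 0) (nat_lit 137) (nat_lit 137) (nat_lit 116)) (PT.nd (nat_lit 78) (PT.lf (nat_lit 4256) (nat_lit 6) (nat_lit 56) (nat_lit 0) (nat_lit 138) (nat_lit 137) (nat_lit 115)) (PT.lf (nat_lit 3876) (nat_lit 6) (nat_lit 51) (nat_lit 0) (nat_lit 139) (nat_lit 137) (nat_lit 114)))))) (PT.nd (nat_lit 38376) (PT.nd (nat_lit 156) (PT.nd (nat_lit 78) (PT.lf (nat_lit 3572) (nat_lit 6) (nat_lit 47) (nat_lit 0) (nat_lit 140) (nat_lit 137) (nat_lit 113)) (PT.lf (nat_lit 3268) (nat_lit 6) (nat_lit 43) (nat_lit 0) (nat_lit 141)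 (nat_lit 137) (nat_lit 112))) (PT.nd (nat_lit 38064) (PT.lf (nat_lit 3040) (nat_lit 6) (nat_lit 40) (nat_lit 0) (nat_lit 142) (nat_lit 137) (nat_lit 111)) (PT.nd (nat_lit 78) (PT.lf (nat_lit 2584) (nat_lit 6) (nat_lit 34) (nat_lit 5) (nat_lit 109) (nat_lit 138) (nat_lit 143)) (PT.lf (nat_lit 2812) (nat_lit 6) (nat_lit 37) (nat_lit 5) (nat_lit 110) (nat_lit 138) (nat_lit 142))))) (PT.nd (nat_lit 234) (PT.nd (nat_lit 78) (PT.lf (nat_lit 3116) (nat_lit 6) (nat_lit 41) (nat_lit 5) (nat_lit 111) (nat_lit 138) (nat_lit 141)) (PT.nd (nat_lit 78) (PT.lf (nat_lit 3344) (nat_lit 6) (nat_lit 44) (nat_lit 5) (nat_lit 112) (nat_lit 138) (nat_lit 140)) (PT.lf (nat_lit 3648) (nat_lit 6) (nat_lit 48) (nat_lit 5) (nat_lit 113) (nat_lit 138) (nat_lit 139)))) (PT.nd (nat_lit 78) (PT.lf (nat_lit 3952) (nat_lit 3) (nat_lit 52) (nat_lit 4) (nat_lit 114) (nat_lit 138) (nat_lit 138)) (PT.nd (nat_lit 78) (PT.lf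 (nat_lit 4256) (nat_lit 6) (nat_lit 56) (nat_lit 4) (nat_lit 115) (nat_lit 138) (nat_lit 137)) (PT.lf (nat_lit 4484) (nat_lit 6) (nat_lit 59) (nat_lit 4) (nat_lit 116) (nat_lit 138) (nat_lit 136))))))))
noncomputable def pc11 : PT := (PT.nd (nat_lit 1716) (PT.nd (nat_lit 858) (PT.nd (nat_lit 390) (PT.nd (nat_lit 156) (PT.nd (nat_lit 78) (PT.lf (nat_lit 4788) (nat_lit 6) (nat_lit 63) (nat_lit 4) (nat_lit 117) (nat_lit 138) (nat_lit 135)) (PT.lf (nat_lit 5092) (nat_lit 6) (nat_lit 67) (nat_lit 4) (nat_lit 118) (nat_lit 138) (nat_lit 134))) (PT.nd (nat_lit 78) (PT.lf (nat_lit 5472) (nat_lit 6) (nat_lit 72) (nat_lit 4) (nat_lit 119) (nat_lit 138) (nat_lit 133)) (PT.nd (nat_lit 78) (PT.lf (nat_lit 5852) (nat_lit 6) (nat_lit 77) (nat_lit 4) (nat_lit 120) (nat_lit 138) (nat_lit 132)) (PT.lf (nat_lit 6536) (nat_lit 6) (nat_lit 86) (nat_lit 4) (nat_lit 121) (nat_lit 138) (nat_lit 131))))) (PT.nd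 (nat_lit 234) (PT.nd (nat_lit 78) (PT.lf (nat_lit 7144) (nat_lit 6) (nat_lit 94) (nat_lit 4) (nat_lit 122) (nat_lit 138) (nat_lit 130)) (PT.nd (nat_lit 78) (PT.lf (nat_lit 7068) (nat_lit 6) (nat_lit 93) (nat_lit 4) (nat_lit 123) (nat_lit 138) (nat_lit 129)) (PT.lf (nat_lit 6992) (nat_lit 6) (nat_lit 92) (nat_lit 4) (nat_lit 124) (nat_lit 138) (nat_lit 128)))) (PT.nd (nat_lit 78) (PT.lf (nat_lit 6916) (nat_lit 6) (nat_lit 91) (nat_lit 4) (nat_lit 125) (nat_lit 138) (nat_lit 127)) (PT.nd (nat_lit 78) (PT.lf (nat_lit 6840) (nat_lit 3) (nat_lit 90) (nat_lit 2) (nat_lit 126) (nat_lit 138) (nat_lit 126)) (PT.lf (nat_lit 6916) (nat_lit 6) (nat_lit 91) (nat_lit 2) (nat_lit 127) (nat_lit 138) (nat_lit 125)))))) (PT.nd (nat_lit 390) (PT.nd (nat_lit 156) (PT.nd (nat_lit 78) (PT.lf (nat_lit 6992) (nat_lit 6) (nat_lit 92) (nat_lit 2) (nat_lit 128) (nat_lit 138) (nat_lit 124)) (PT.lf (nat_lit 7068)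 (nat_lit 6) (nat_lit 93) (nat_lit 2) (nat_lit 129) (nat_lit 138) (nat_lit 123))) (PT.nd (nat_lit 78) (PT.lf (nat_lit 7144) (nat_lit 6) (nat_lit 94) (nat_lit 2) (nat_lit 130) (nat_lit 138) (nat_lit 122)) (PT.nd (nat_lit 78) (PT.lf (nat_lit 6536) (nat_lit 6) (nat_lit 86) (nat_lit 2) (nat_lit 131) (nat_lit 138) (nat_lit 121)) (PT.lf (nat_lit 5852) (nat_lit 6) (nat_lit 77) (nat_lit 2) (nat_lit 132) (nat_lit 138) (nat_lit 120))))) (PT.nd (nat_lit 234) (PT.nd (nat_lit 78) (PT.lf (nat_lit 5472) (nat_lit 6) (nat_lit 72) (nat_lit 2) (nat_lit 133) (nat_lit 138) (nat_lit 119)) (PT.nd (nat_lit 78) (PT.lf (nat_lit 5092) (nat_lit 6) (nat_lit 67) (nat_lit 2) (nat_lit 134) (nat_lit 138) (nat_lit 118)) (PT.lf (nat_lit 4788) (nat_lit 6) (nat_lit 63) (nat_lit 2) (nat_lit 135) (nat_lit 138) (nat_lit 117)))) (PT.nd (nat_lit 78) (PT.lf (nat_lit 4484) (nat_lit 6) (nat_lit 59) (nat_lit 2) (nat_lit 136) (nat_lit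 138) (nat_lit 116)) (PT.nd (nat_lit 78) (PT.lf (nat_lit 4256) (nat_lit 6) (nat_lit 56) (nat_lit 2) (nat_lit 137) (nat_lit 138) (nat_lit 115)) (PT.lf (nat_lit 3952) (nat_lit 3) (nat_lit 52) (nat_lit 0) (nat_lit 138) (nat_lit 138) (nat_lit 114))))))) (PT.nd (nat_lit 38688) (PT.nd (nat_lit 38220) (PT.nd (nat_lit 156) (PT.nd (nat_lit 78) (PT.lf (nat_lit 3648) (nat_lit 6) (nat_lit 48) (nat_lit 0) (nat_lit 139) (nat_lit 138) (nat_lit 113)) (PT.lf (nat_lit 3344) (nat_lit 6) (nat_lit 44) (nat_lit 0) (nat_lit 140) (nat_lit 138) (nat_lit 112))) (PT.nd (nat_lit 78) (PT.lf (nat_lit 3116) (nat_lit 6) (nat_lit 41) (nat_lit 0) (nat_lit 141) (nat_lit 138) (nat_lit 111)) (PT.nd (nat_lit 78) (PT.lf (nat_lit 2812) (nat_lit 6) (nat_lit 37) (nat_lit 0) (nat_lit 142) (nat_lit 138) (nat_lit 110)) (PT.lf (nat_lit 2584) (nat_lit 6) (nat_lit 34) (nat_lit 0) (nat_lit 143) (nat_lit 138) (nat_lit 109))))) (PT.nd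 (nat_lit 234) (PT.nd (nat_lit 78) (PT.lf (nat_lit 2356) (nat_lit 6) (nat_lit 31) (nat_lit 5) (nat_lit 108) (nat_lit 139) (nat_lit 143)) (PT.nd (nat_lit 78) (PT.lf (nat_lit 2660) (nat_lit 6) (nat_lit 35) (nat_lit 5) (nat_lit 109) (nat_lit 139) (nat_lit 142)) (PT.lf (nat_lit 2888) (nat_lit 6) (nat_lit 38) (nat_lit 5) (nat_lit 110) (nat_lit 139) (nat_lit 141)))) (PT.nd (nat_lit 78) (PT.lf (nat_lit 3192) (nat_lit 6) (nat_lit 42) (nat_lit 5) (nat_lit 111) (nat_lit 139) (nat_lit 140)) (PT.nd (nat_lit 78) (PT.lf (nat_lit 3420) (nat_lit 3) (nat_lit 45) (nat_lit 4) (nat_lit 112) (nat_lit 139) (nat_lit 139)) (PT.lf (nat_lit 3648) (nat_lit 6) (nat_lit 48) (nat_lit 4) (nat_lit 113) (nat_lit 139) (nat_lit 138)))))) (PT.nd (nat_lit 390) (PT.nd (nat_lit 156) (PT.nd (nat_lit 78) (PT.lf (nat_lit 3876) (nat_lit 6) (nat_lit 51) (nat_lit 4) (nat_lit 114) (nat_lit 139) (nat_lit 137)) (PT.lf (nat_lit 4180)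 (nat_lit 6) (nat_lit 55) (nat_lit 4) (nat_lit 115) (nat_lit 139) (nat_lit 136))) (PT.nd (nat_lit 78) (PT.lf (nat_lit 4408) (nat_lit 6) (nat_lit 58) (nat_lit 4) (nat_lit 116) (nat_lit 139) (nat_lit 135)) (PT.nd (nat_lit 78) (PT.lf (nat_lit 4712) (nat_lit 6) (nat_lit 62) (nat_lit 4) (nat_lit 117) (nat_lit 139) (nat_lit 134)) (PT.lf (nat_lit 5016) (nat_lit 6) (nat_lit 66) (nat_lit 4) (nat_lit 118) (nat_lit 139) (nat_lit 133))))) (PT.nd (nat_lit 234) (PT.nd (nat_lit 78) (PT.lf (nat_lit 5396) (nat_lit 6) (nat_lit 71) (nat_lit 4) (nat_lit 119) (nat_lit 139) (nat_lit 132)) (PT.nd (nat_lit 78) (PT.lf (nat_lit 5776) (nat_lit 6) (nat_lit 76) (nat_lit 4) (nat_lit 120) (nat_lit 139) (nat_lit 131)) (PT.lf (nat_lit 6460) (nat_lit 6) (nat_lit 85) (nat_lit 4) (nat_lit 121) (nat_lit 139) (nat_lit 130)))) (PT.nd (nat_lit 78) (PT.lf (nat_lit 6384) (nat_lit 6) (nat_lit 84) (nat_lit 4) (nat_lit 122) (nat_lit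 139) (nat_lit 129)) (PT.nd (nat_lit 78) (PT.lf (nat_lit 6308) (nat_lit 6) (nat_lit 83) (nat_lit 4) (nat_lit 123) (nat_lit 139) (nat_lit 128)) (PT.lf (nat_lit 6232) (nat_lit 6) (nat_lit 82) (nat_lit 4) (nat_lit 124) (nat_lit 139) (nat_lit 127))))))))
noncomputable def pc12 : PT := (PT.nd (nat_lit 39390) (PT.nd (nat_lit 858) (PT.nd (nat_lit 390) (PT.nd (nat_lit 156) (PT.nd (nat_lit 78) (PT.lf (nat_lit 6156) (nat_lit 6) (nat_lit 81) (nat_lit 4) (nat_lit 125) (nat_lit 139) (nat_lit 126)) (PT.lf (nat_lit 6156) (nat_lit 6) (nat_lit 81) (nat_lit 2) (nat_lit 126) (nat_lit 139) (nat_lit 125))) (PT.nd (nat_lit 78) (PT.lf (nat_lit 6232) (nat_lit 6) (nat_lit 82) (nat_lit 2) (nat_lit 127) (nat_lit 139) (nat_lit 124)) (PT.nd (nat_lit 78) (PT.lf (nat_lit 6308) (nat_lit 6) (nat_lit 83) (nat_lit 2) (nat_lit 128) (nat_lit 139) (nat_lit 123)) (PT.lf (nat_lit 6384) (nat_lit 6) (nat_lit 84) (nat_lit 2)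 (nat_lit 129) (nat_lit 139) (nat_lit 122))))) (PT.nd (nat_lit 234) (PT.nd (nat_lit 78) (PT.lf (nat_lit 6460) (nat_lit 6) (nat_lit 85) (nat_lit 2) (nat_lit 130) (nat_lit 139) (nat_lit 121)) (PT.nd (nat_lit 78) (PT.lf (nat_lit 5776) (nat_lit 6) (nat_lit 76) (nat_lit 2) (nat_lit 131) (nat_lit 139) (nat_lit 120)) (PT.lf (nat_lit 5396) (nat_lit 6) (nat_lit 71) (nat_lit 2) (nat_lit 132) (nat_lit 139) (nat_lit 119)))) (PT.nd (nat_lit 78) (PT.lf (nat_lit 5016) (nat_lit 6) (nat_lit 66) (nat_lit 2) (nat_lit 133) (nat_lit 139) (nat_lit 118)) (PT.nd (nat_lit 78) (PT.lf (nat_lit 4712) (nat_lit 6) (nat_lit 62) (nat_lit 2) (nat_lit 134) (nat_lit 139) (nat_lit 117)) (PT.lf (nat_lit 4408) (nat_lit 6) (nat_lit 58) (nat_lit 2) (nat_lit 135) (nat_lit 139) (nat_lit 116)))))) (PT.nd (nat_lit 390) (PT.nd (nat_lit 156) (PT.nd (nat_lit 78) (PT.lf (nat_lit 4180) (nat_lit 6) (nat_lit 55) (nat_lit 2) (nat_lit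 136) (nat_lit 139) (nat_lit 115)) (PT.lf (nat_lit 3876) (nat_lit 6) (nat_lit 51) (nat_lit 2) (nat_lit 137) (nat_lit 139) (nat_lit 114))) (PT.nd (nat_lit 78) (PT.lf (nat_lit 3648) (nat_lit 6) (nat_lit 48) (nat_lit 2) (nat_lit 138) (nat_lit 139) (nat_lit 113)) (PT.nd (nat_lit 78) (PT.lf (nat_lit 3420) (nat_lit 3) (nat_lit 45) (nat_lit 0) (nat_lit 139) (nat_lit 139) (nat_lit 112)) (PT.lf (nat_lit 3192) (nat_lit 6) (nat_lit 42) (nat_lit 0) (nat_lit 140) (nat_lit 139) (nat_lit 111))))) (PT.nd (nat_lit 37908) (PT.nd (nat_lit 78) (PT.lf (nat_lit 2888) (nat_lit 6) (nat_lit 38) (nat_lit 0) (nat_lit 141) (nat_lit 139) (nat_lit 110)) (PT.nd (nat_lit 78) (PT.lf (nat_lit 2660) (nat_lit 6) (nat_lit 35) (nat_lit 0) (nat_lit 142) (nat_lit 139) (nat_lit 109)) (PT.lf (nat_lit 2356) (nat_lit 6) (nat_lit 31) (nat_lit 0) (nat_lit 143) (nat_lit 139) (nat_lit 108)))) (PT.nd (nat_lit 78) (PT.lf (nat_lit 1976)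 (nat_lit 6) (nat_lit 26) (nat_lit 5) (nat_lit 106) (nat_lit 140) (nat_lit 144)) (PT.nd (nat_lit 78) (PT.lf (nat_lit 2204) (nat_lit 6) (nat_lit 29) (nat_lit 5) (nat_lit 107) (nat_lit 140) (nat_lit 143)) (PT.lf (nat_lit 2432) (nat_lit 6) (nat_lit 32) (nat_lit 5) (nat_lit 108) (nat_lit 140) (nat_lit 142))))))) (PT.nd (nat_lit 858) (PT.nd (nat_lit 390) (PT.nd (nat_lit 156) (PT.nd (nat_lit 78) (PT.lf (nat_lit 2736) (nat_lit 6) (nat_lit 36) (nat_lit 5) (nat_lit 109) (nat_lit 140) (nat_lit 141)) (PT.lf (nat_lit 2964) (nat_lit 3) (nat_lit 39) (nat_lit 4) (nat_lit 110) (nat_lit 140) (nat_lit 140))) (PT.nd (nat_lit 78) (PT.lf (nat_lit 3192) (nat_lit 6) (nat_lit 42) (nat_lit 4) (nat_lit 111) (nat_lit 140) (nat_lit 139)) (PT.nd (nat_lit 78) (PT.lf (nat_lit 3344) (nat_lit 6) (nat_lit 44) (nat_lit 4) (nat_lit 112) (nat_lit 140) (nat_lit 138)) (PT.lf (nat_lit 3572) (nat_lit 6) (nat_lit 47) (nat_lit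 4) (nat_lit 113) (nat_lit 140) (nat_lit 137))))) (PT.nd (nat_lit 234) (PT.nd (nat_lit 78) (PT.lf (nat_lit 3800) (nat_lit 6) (nat_lit 50) (nat_lit 4) (nat_lit 114) (nat_lit 140) (nat_lit 136)) (PT.nd (nat_lit 78) (PT.lf (nat_lit 4104) (nat_lit 6) (nat_lit 54) (nat_lit 4) (nat_lit 115) (nat_lit 140) (nat_lit 135)) (PT.lf (nat_lit 4332) (nat_lit 6) (nat_lit 57) (nat_lit 4) (nat_lit 116) (nat_lit 140) (nat_lit 134)))) (PT.nd (nat_lit 78) (PT.lf (nat_lit 4636) (nat_lit 6) (nat_lit 61) (nat_lit 4) (nat_lit 117) (nat_lit 140) (nat_lit 133)) (PT.nd (nat_lit 78) (PT.lf (nat_lit 4940) (nat_lit 6) (nat_lit 65) (nat_lit 4) (nat_lit 118) (nat_lit 140) (nat_lit 132)) (PT.lf (nat_lit 5320) (nat_lit 6) (nat_lit 70) (nat_lit 4) (nat_lit 119) (nat_lit 140) (nat_lit 131)))))) (PT.nd (nat_lit 1092) (PT.nd (nat_lit 858) (PT.nd (nat_lit 780) (PT.lf (nat_lit 5700) (nat_lit 6) (nat_lit 75) (nat_lit 4) (nat_lit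 120) (nat_lit 140) (nat_lit 130)) (PT.lf (nat_lit 5700) (nat_lit 6) (nat_lit 75) (nat_lit 2) (nat_lit 130) (nat_lit 140) (nat_lit 120))) (PT.nd (nat_lit 78) (PT.lf (nat_lit 5320) (nat_lit 6) (nat_lit 70) (nat_lit 2) (nat_lit 131) (nat_lit 140) (nat_lit 119)) (PT.nd (nat_lit 78) (PT.lf (nat_lit 4940) (nat_lit 6) (nat_lit 65) (nat_lit 2) (nat_lit 132) (nat_lit 140) (nat_lit 118)) (PT.lf (nat_lit 4636) (nat_lit 6) (nat_lit 61) (nat_lit 2) (nat_lit 133) (nat_lit 140) (nat_lit 117))))) (PT.nd (nat_lit 234) (PT.nd (nat_lit 78) (PT.lf (nat_lit 4332) (nat_lit 6) (nat_lit 57) (nat_lit 2) (nat_lit 134) (nat_lit 140) (nat_lit 116)) (PT.nd (nat_lit 78) (PT.lf (nat_lit 4104) (nat_lit 6) (nat_lit 54) (nat_lit 2) (nat_lit 135) (nat_lit 140) (nat_lit 115)) (PT.lf (nat_lit 3800) (nat_lit 6) (nat_lit 50) (nat_lit 2) (nat_lit 136) (nat_lit 140) (nat_lit 114)))) (PT.nd (nat_lit 78) (PT.lf (nat_lit 3572)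 (nat_lit 6) (nat_lit 47) (nat_lit 2) (nat_lit 137) (nat_lit 140) (nat_lit 113)) (PT.nd (nat_lit 78) (PT.lf (nat_lit 3344) (nat_lit 6) (nat_lit 44) (nat_lit 2) (nat_lit 138) (nat_lit 140) (nat_lit 112)) (PT.lf (nat_lit 3192) (nat_lit 6) (nat_lit 42) (nat_lit 2) (nat_lit 139) (nat_lit 140) (nat_lit 111))))))))
noncomputable def pc13 : PT := (PT.nd (nat_lit 40638) (PT.nd (nat_lit 38376) (PT.nd (nat_lit 37908) (PT.nd (nat_lit 156) (PT.nd (nat_lit 78) (PT.lf (nat_lit 2964) (nat_lit 3) (nat_lit 39) (nat_lit 0) (nat_lit 140) (nat_lit 140) (nat_lit 110)) (PT.lf (nat_lit 2736) (nat_lit 6) (nat_lit 36) (nat_lit 0) (nat_lit 141) (nat_lit 140) (nat_lit 109))) (PT.nd (nat_lit 78) (PT.lf (nat_lit 2432) (nat_lit 6) (nat_lit 32) (nat_lit 0) (nat_lit 142) (nat_lit 140) (nat_lit 108)) (PT.nd (nat_lit 78) (PT.lf (nat_lit 2204) (nat_lit 6) (nat_lit 29) (nat_lit 0) (nat_lit 143) (nat_lit 140) (nat_lit 107))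 (PT.lf (nat_lit 1976) (nat_lit 6) (nat_lit 26) (nat_lit 0) (nat_lit 144) (nat_lit 140) (nat_lit 106))))) (PT.nd (nat_lit 234) (PT.nd (nat_lit 78) (PT.lf (nat_lit 1824) (nat_lit 6) (nat_lit 24) (nat_lit 5) (nat_lit 105) (nat_lit 141) (nat_lit 144)) (PT.nd (nat_lit 78) (PT.lf (nat_lit 2052) (nat_lit 6) (nat_lit 27) (nat_lit 5) (nat_lit 106) (nat_lit 141) (nat_lit 143)) (PT.lf (nat_lit 2280) (nat_lit 6) (nat_lit 30) (nat_lit 5) (nat_lit 107) (nat_lit 141) (nat_lit 142)))) (PT.nd (nat_lit 78) (PT.lf (nat_lit 2508) (nat_lit 3) (nat_lit 33) (nat_lit 4) (nat_lit 108) (nat_lit 141) (nat_lit 141)) (PT.nd (nat_lit 78) (PT.lf (nat_lit 2736) (nat_lit 6) (nat_lit 36) (nat_lit 4) (nat_lit 109) (nat_lit 141) (nat_lit 140)) (PT.lf (nat_lit 2888) (nat_lit 6) (nat_lit 38) (nat_lit 4) (nat_lit 110) (nat_lit 141) (nat_lit 139)))))) (PT.nd (nat_lit 1794) (PT.nd (nat_lit 156) (PT.nd (nat_lit 78) (PT.lf (nat_lit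 3116) (nat_lit 6) (nat_lit 41) (nat_lit 4) (nat_lit 111) (nat_lit 141) (nat_lit 138)) (PT.lf (nat_lit 3268) (nat_lit 6) (nat_lit 43) (nat_lit 4) (nat_lit 112) (nat_lit 141) (nat_lit 137))) (PT.nd (nat_lit 78) (PT.lf (nat_lit 3496) (nat_lit 6) (nat_lit 46) (nat_lit 4) (nat_lit 113) (nat_lit 141) (nat_lit 136)) (PT.nd (nat_lit 78) (PT.lf (nat_lit 3724) (nat_lit 6) (nat_lit 49) (nat_lit 4) (nat_lit 114) (nat_lit 141) (nat_lit 135)) (PT.lf (nat_lit 4028) (nat_lit 6) (nat_lit 53) (nat_lit 4) (nat_lit 115) (nat_lit 141) (nat_lit 134))))) (PT.nd (nat_lit 234) (PT.nd (nat_lit 78) (PT.lf (nat_lit 4028) (nat_lit 6) (nat_lit 53) (nat_lit 2) (nat_lit 134) (nat_lit 141) (nat_lit 115)) (PT.nd (nat_lit 78) (PT.lf (nat_lit 3724) (nat_lit 6) (nat_lit 49) (nat_lit 2) (nat_lit 135) (nat_lit 141) (nat_lit 114)) (PT.lf (nat_lit 3496) (nat_lit 6) (nat_lit 46) (nat_lit 2) (nat_lit 136) (nat_lit 141) (nat_lit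 113)))) (PT.nd (nat_lit 78) (PT.lf (nat_lit 3268) (nat_lit 6) (nat_lit 43) (nat_lit 2) (nat_lit 137) (nat_lit 141) (nat_lit 112)) (PT.nd (nat_lit 78) (PT.lf (nat_lit 3116) (nat_lit 6) (nat_lit 41) (nat_lit 2) (nat_lit 138) (nat_lit 141) (nat_lit 111)) (PT.lf (nat_lit 2888) (nat_lit 6) (nat_lit 38) (nat_lit 2) (nat_lit 139) (nat_lit 141) (nat_lit 110))))))) (PT.nd (nat_lit 38220) (PT.nd (nat_lit 37752) (PT.nd (nat_lit 156) (PT.nd (nat_lit 78) (PT.lf (nat_lit 2736) (nat_lit 6) (nat_lit 36) (nat_lit 2) (nat_lit 140) (nat_lit 141) (nat_lit 109)) (PT.lf (nat_lit 2508) (nat_lit 3) (nat_lit 33) (nat_lit 0) (nat_lit 141) (nat_lit 141) (nat_lit 108))) (PT.nd (nat_lit 78) (PT.lf (nat_lit 2280) (nat_lit 6) (nat_lit 30) (nat_lit 0) (nat_lit 142) (nat_lit 141) (nat_lit 107)) (PT.nd (nat_lit 78) (PT.lf (nat_lit 2052) (nat_lit 6) (nat_lit 27) (nat_lit 0) (nat_lit 143) (nat_lit 141) (nat_lit 106))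 (PT.lf (nat_lit 1824) (nat_lit 6) (nat_lit 24) (nat_lit 0) (nat_lit 144) (nat_lit 141) (nat_lit 105))))) (PT.nd (nat_lit 234) (PT.nd (nat_lit 78) (PT.lf (nat_lit 1520) (nat_lit 6) (nat_lit 20) (nat_lit 5) (nat_lit 103) (nat_lit 142) (nat_lit 145)) (PT.nd (nat_lit 78) (PT.lf (nat_lit 1672) (nat_lit 6) (nat_lit 22) (nat_lit 5) (nat_lit 104) (nat_lit 142) (nat_lit 144)) (PT.lf (nat_lit 1900) (nat_lit 6) (nat_lit 25) (nat_lit 5) (nat_lit 105) (nat_lit 142) (nat_lit 143)))) (PT.nd (nat_lit 78) (PT.lf (nat_lit 2128) (nat_lit 3) (nat_lit 28) (nat_lit 4) (nat_lit 106) (nat_lit 142) (nat_lit 142)) (PT.nd (nat_lit 78) (PT.lf (nat_lit 2280) (nat_lit 6) (nat_lit 30) (nat_lit 4) (nat_lit 107) (nat_lit 142) (nat_lit 141)) (PT.lf (nat_lit 2432) (nat_lit 6) (nat_lit 32) (nat_lit 4) (nat_lit 108) (nat_lit 142) (nat_lit 140)))))) (PT.nd (nat_lit 2340) (PT.nd (nat_lit 156) (PT.nd (nat_lit 78) (PT.lf (nat_lit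 2660) (nat_lit 6) (nat_lit 35) (nat_lit 4) (nat_lit 109) (nat_lit 142) (nat_lit 139)) (PT.lf (nat_lit 2812) (nat_lit 6) (nat_lit 37) (nat_lit 4) (nat_lit 110) (nat_lit 142) (nat_lit 138))) (PT.nd (nat_lit 2028) (PT.lf (nat_lit 3040) (nat_lit 6) (nat_lit 40) (nat_lit 4) (nat_lit 111) (nat_lit 142) (nat_lit 137)) (PT.nd (nat_lit 78) (PT.lf (nat_lit 3040) (nat_lit 6) (nat_lit 40) (nat_lit 2) (nat_lit 137) (nat_lit 142) (nat_lit 111)) (PT.lf (nat_lit 2812) (nat_lit 6) (nat_lit 37) (nat_lit 2) (nat_lit 138) (nat_lit 142) (nat_lit 110))))) (PT.nd (nat_lit 234) (PT.nd (nat_lit 78) (PT.lf (nat_lit 2660) (nat_lit 6) (nat_lit 35) (nat_lit 2) (nat_lit 139) (nat_lit 142) (nat_lit 109)) (PT.nd (nat_lit 78) (PT.lf (nat_lit 2432) (nat_lit 6) (nat_lit 32) (nat_lit 2) (nat_lit 140) (nat_lit 142) (nat_lit 108)) (PT.lf (nat_lit 2280) (nat_lit 6) (nat_lit 30) (nat_lit 2) (nat_lit 141) (nat_lit 142) (nat_lit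 107)))) (PT.nd (nat_lit 78) (PT.lf (nat_lit 2128) (nat_lit 3) (nat_lit 28) (nat_lit 0) (nat_lit 142) (nat_lit 142) (nat_lit 106)) (PT.nd (nat_lit 78) (PT.lf (nat_lit 1900) (nat_lit 6) (nat_lit 25) (nat_lit 0) (nat_lit 143) (nat_lit 142) (nat_lit 105)) (PT.lf (nat_lit 1672) (nat_lit 6) (nat_lit 22) (nat_lit 0) (nat_lit 144) (nat_lit 142) (nat_lit 104))))))))
noncomputable def pc14 : PT := (PT.nd (nat_lit 78000) (PT.nd (nat_lit 40170) (PT.nd (nat_lit 37518) (PT.nd (nat_lit 37284) (PT.nd (nat_lit 37206) (PT.lf (nat_lit 1520) (nat_lit 6) (nat_lit 20) (nat_lit 0) (nat_lit 145) (nat_lit 142) (nat_lit 103)) (PT.lf (nat_lit 1216) (nat_lit 6) (nat_lit 16) (nat_lit 5) (nat_lit 101) (nat_lit 143) (nat_lit 146))) (PT.nd (nat_lit 78) (PT.lf (nat_lit 1368) (nat_lit 6) (nat_lit 18) (nat_lit 5) (nat_lit 102) (nat_lit 143) (nat_lit 145)) (PT.nd (nat_lit 78) (PT.lf (nat_lit 1596) (nat_lit 6) (nat_lit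 21) (nat_lit 5) (nat_lit 103) (nat_lit 143) (nat_lit 144)) (PT.lf (nat_lit 1748) (nat_lit 3) (nat_lit 23) (nat_lit 4) (nat_lit 104) (nat_lit 143) (nat_lit 143))))) (PT.nd (nat_lit 234) (PT.nd (nat_lit 78) (PT.lf (nat_lit 1900) (nat_lit 6) (nat_lit 25) (nat_lit 4) (nat_lit 105) (nat_lit 143) (nat_lit 142)) (PT.nd (nat_lit 78) (PT.lf (nat_lit 2052) (nat_lit 6) (nat_lit 27) (nat_lit 4) (nat_lit 106) (nat_lit 143) (nat_lit 141)) (PT.lf (nat_lit 2204) (nat_lit 6) (nat_lit 29) (nat_lit 4) (nat_lit 107) (nat_lit 143) (nat_lit 140)))) (PT.nd (nat_lit 78) (PT.lf (nat_lit 2356) (nat_lit 6) (nat_lit 31) (nat_lit 4) (nat_lit 108) (nat_lit 143) (nat_lit 139)) (PT.nd (nat_lit 2262) (PT.lf (nat_lit 2584) (nat_lit 6) (nat_lit 34) (nat_lit 4) (nat_lit 109) (nat_lit 143) (nat_lit 138)) (PT.lf (nat_lit 2584) (nat_lit 6) (nat_lit 34) (nat_lit 2) (nat_lit 138) (nat_lit 143) (nat_lit 109)))))) (PT.nd (nat_lit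 390) (PT.nd (nat_lit 156) (PT.nd (nat_lit 78) (PT.lf (nat_lit 2356) (nat_lit 6) (nat_lit 31) (nat_lit 2) (nat_lit 139) (nat_lit 143) (nat_lit 108)) (PT.lf (nat_lit 2204) (nat_lit 6) (nat_lit 29) (nat_lit 2) (nat_lit 140) (nat_lit 143) (nat_lit 107))) (PT.nd (nat_lit 78) (PT.lf (nat_lit 2052) (nat_lit 6) (nat_lit 27) (nat_lit 2) (nat_lit 141) (nat_lit 143) (nat_lit 106)) (PT.nd (nat_lit 78) (PT.lf (nat_lit 1900) (nat_lit 6) (nat_lit 25) (nat_lit 2) (nat_lit 142) (nat_lit 143) (nat_lit 105)) (PT.lf (nat_lit 1748) (nat_lit 3) (nat_lit 23) (nat_lit 0) (nat_lit 143) (nat_lit 143) (nat_lit 104))))) (PT.nd (nat_lit 37206) (PT.nd (nat_lit 78) (PT.lf (nat_lit 1596) (nat_lit 6) (nat_lit 21) (nat_lit 0) (nat_lit 144) (nat_lit 143) (nat_lit 103)) (PT.nd (nat_lit 78) (PT.lf (nat_lit 1368) (nat_lit 6) (nat_lit 18) (nat_lit 0) (nat_lit 145) (nat_lit 143) (nat_lit 102)) (PT.lf (nat_lit 1216) (nat_lit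 6) (nat_lit 16) (nat_lit 0) (nat_lit 146) (nat_lit 143) (nat_lit 101)))) (PT.nd (nat_lit 78) (PT.lf (nat_lit 1064) (nat_lit 6) (nat_lit 14) (nat_lit 5) (nat_lit 100) (nat_lit 144) (nat_lit 146)) (PT.nd (nat_lit 78) (PT.lf (nat_lit 1292) (nat_lit 6) (nat_lit 17) (nat_lit 5) (nat_lit 101) (nat_lit 144) (nat_lit 145)) (PT.lf (nat_lit 1444) (nat_lit 3) (nat_lit 19) (nat_lit 4) (nat_lit 102) (nat_lit 144) (nat_lit 144))))))) (PT.nd (nat_lit 40248) (PT.nd (nat_lit 2964) (PT.nd (nat_lit 156) (PT.nd (nat_lit 78) (PT.lf (nat_lit 1596) (nat_lit 6) (nat_lit 21) (nat_lit 4) (nat_lit 103) (nat_lit 144) (nat_lit 143)) (PT.lf (nat_lit 1672) (nat_lit 6) (nat_lit 22) (nat_lit 4) (nat_lit 104) (nat_lit 144) (nat_lit 142))) (PT.nd (nat_lit 78) (PT.lf (nat_lit 1824) (nat_lit 6) (nat_lit 24) (nat_lit 4) (nat_lit 105) (nat_lit 144) (nat_lit 141)) (PT.nd (nat_lit 2652) (PT.lf (nat_lit 1976) (nat_lit 6) (nat_lit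 26) (nat_lit 4) (nat_lit 106) (nat_lit 144) (nat_lit 140)) (PT.lf (nat_lit 1976) (nat_lit 6) (nat_lit 26) (nat_lit 2) (nat_lit 140) (nat_lit 144) (nat_lit 106))))) (PT.nd (nat_lit 234) (PT.nd (nat_lit 78) (PT.lf (nat_lit 1824) (nat_lit 6) (nat_lit 24) (nat_lit 2) (nat_lit 141) (nat_lit 144) (nat_lit 105)) (PT.nd (nat_lit 78) (PT.lf (nat_lit 1672) (nat_lit 6) (nat_lit 22) (nat_lit 2) (nat_lit 142) (nat_lit 144) (nat_lit 104)) (PT.lf (nat_lit 1596) (nat_lit 6) (nat_lit 21) (nat_lit 2) (nat_lit 143) (nat_lit 144) (nat_lit 103)))) (PT.nd (nat_lit 78) (PT.lf (nat_lit 1444) (nat_lit 3) (nat_lit 19) (nat_lit 0) (nat_lit 144) (nat_lit 144) (nat_lit 102)) (PT.nd (nat_lit 78) (PT.lf (nat_lit 1292) (nat_lit 6) (nat_lit 17) (nat_lit 0) (nat_lit 145) (nat_lit 144) (nat_lit 101)) (PT.lf (nat_lit 1064) (nat_lit 6) (nat_lit 14) (nat_lit 0) (nat_lit 146) (nat_lit 144) (nat_lit 100)))))) (PT.nd (nat_lit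 390) (PT.nd (nat_lit 156) (PT.nd (nat_lit 78) (PT.lf (nat_lit 836) (nat_lit 6) (nat_lit 11) (nat_lit 5) (nat_lit 98) (nat_lit 145) (nat_lit 147)) (PT.lf (nat_lit 988) (nat_lit 6) (nat_lit 13) (nat_lit 5) (nat_lit 99) (nat_lit 145) (nat_lit 146))) (PT.nd (nat_lit 78) (PT.lf (nat_lit 1140) (nat_lit 3) (nat_lit 15) (nat_lit 4) (nat_lit 100) (nat_lit 145) (nat_lit 145)) (PT.nd (nat_lit 78) (PT.lf (nat_lit 1292) (nat_lit 6) (nat_lit 17) (nat_lit 4) (nat_lit 101) (nat_lit 145) (nat_lit 144)) (PT.lf (nat_lit 1368) (nat_lit 6) (nat_lit 18) (nat_lit 4) (nat_lit 102) (nat_lit 145) (nat_lit 143))))) (PT.nd (nat_lit 3198) (PT.nd (nat_lit 3042) (PT.lf (nat_lit 1520) (nat_lit 6) (nat_lit 20) (nat_lit 4) (nat_lit 103) (nat_lit 145) (nat_lit 142)) (PT.nd (nat_lit 78) (PT.lf (nat_lit 1520) (nat_lit 6) (nat_lit 20) (nat_lit 2) (nat_lit 142) (nat_lit 145) (nat_lit 103)) (PT.lf (nat_lit 1368) (nat_lit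 6) (nat_lit 18) (nat_lit 2) (nat_lit 143) (nat_lit 145) (nat_lit 102)))) (PT.nd (nat_lit 78) (PT.lf (nat_lit 1292) (nat_lit 6) (nat_lit 17) (nat_lit 2) (nat_lit 144) (nat_lit 145) (nat_lit 101)) (PT.nd (nat_lit 78) (PT.lf (nat_lit 1140) (nat_lit 3) (nat_lit 15) (nat_lit 0) (nat_lit 145) (nat_lit 145) (nat_lit 100)) (PT.lf (nat_lit 988) (nat_lit 6) (nat_lit 13) (nat_lit 0) (nat_lit 146) (nat_lit 145) (nat_lit 99))))))))
noncomputable def pc15 : PT := (PT.nd (nat_lit 81432) (PT.nd (nat_lit 40638) (PT.nd (nat_lit 36972) (PT.nd (nat_lit 36738) (PT.nd (nat_lit 36660) (PT.lf (nat_lit 836) (nat_lit 6) (nat_lit 11) (nat_lit 0) (nat_lit 147) (nat_lit 145) (nat_lit 98)) (PT.lf (nat_lit 608) (nat_lit 6) (nat_lit 8) (nat_lit 5) (nat_lit 96) (nat_lit 146) (nat_lit 148))) (PT.nd (nat_lit 78) (PT.lf (nat_lit 760) (nat_lit 6) (nat_lit 10) (nat_lit 5) (nat_lit 97) (nat_lit 146) (nat_lit 147)) (PT.nd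 (nat_lit 78) (PT.lf (nat_lit 912) (nat_lit 3) (nat_lit 12) (nat_lit 4) (nat_lit 98) (nat_lit 146) (nat_lit 146)) (PT.lf (nat_lit 988) (nat_lit 6) (nat_lit 13) (nat_lit 4) (nat_lit 99) (nat_lit 146) (nat_lit 145))))) (PT.nd (nat_lit 3432) (PT.nd (nat_lit 78) (PT.lf (nat_lit 1064) (nat_lit 6) (nat_lit 14) (nat_lit 4) (nat_lit 100) (nat_lit 146) (nat_lit 144)) (PT.nd (nat_lit 3276) (PT.lf (nat_lit 1216) (nat_lit 6) (nat_lit 16) (nat_lit 4) (nat_lit 101) (nat_lit 146) (nat_lit 143)) (PT.lf (nat_lit 1216) (nat_lit 6) (nat_lit 16) (nat_lit 2) (nat_lit 143) (nat_lit 146) (nat_lit 101)))) (PT.nd (nat_lit 78) (PT.lf (nat_lit 1064) (nat_lit 6) (nat_lit 14) (nat_lit 2) (nat_lit 144) (nat_lit 146) (nat_lit 100)) (PT.nd (nat_lit 78) (PT.lf (nat_lit 988) (nat_lit 6) (nat_lit 13) (nat_lit 2) (nat_lit 145) (nat_lit 146) (nat_lit 99)) (PT.lf (nat_lit 912) (nat_lit 3) (nat_lit 12) (nat_lit 0) (nat_lit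 146) (nat_lit 146) (nat_lit 98)))))) (PT.nd (nat_lit 36738) (PT.nd (nat_lit 36504) (PT.nd (nat_lit 78) (PT.lf (nat_lit 760) (nat_lit 6) (nat_lit 10) (nat_lit 0) (nat_lit 147) (nat_lit 146) (nat_lit 97)) (PT.lf (nat_lit 608) (nat_lit 6) (nat_lit 8) (nat_lit 0) (nat_lit 148) (nat_lit 146) (nat_lit 96))) (PT.nd (nat_lit 78) (PT.lf (nat_lit 380) (nat_lit 6) (nat_lit 5) (nat_lit 5) (nat_lit 94) (nat_lit 147) (nat_lit 149)) (PT.nd (nat_lit 78) (PT.lf (nat_lit 532) (nat_lit 6) (nat_lit 7) (nat_lit 5) (nat_lit 95) (nat_lit 147) (nat_lit 148)) (PT.lf (nat_lit 684) (nat_lit 3) (nat_lit 9) (nat_lit 4) (nat_lit 96) (nat_lit 147) (nat_lit 147))))) (PT.nd (nat_lit 3822) (PT.nd (nat_lit 78) (PT.lf (nat_lit 760) (nat_lit 6) (nat_lit 10) (nat_lit 4) (nat_lit 97) (nat_lit 147) (nat_lit 146)) (PT.nd (nat_lit 3666) (PT.lf (nat_lit 836) (nat_lit 6) (nat_lit 11) (nat_lit 4) (nat_lit 98) (nat_lit 147) (nat_lit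 145)) (PT.lf (nat_lit 836) (nat_lit 6) (nat_lit 11) (nat_lit 2) (nat_lit 145) (nat_lit 147) (nat_lit 98)))) (PT.nd (nat_lit 78) (PT.lf (nat_lit 760) (nat_lit 6) (nat_lit 10) (nat_lit 2) (nat_lit 146) (nat_lit 147) (nat_lit 97)) (PT.nd (nat_lit 78) (PT.lf (nat_lit 684) (nat_lit 3) (nat_lit 9) (nat_lit 0) (nat_lit 147) (nat_lit 147) (nat_lit 96)) (PT.lf (nat_lit 532) (nat_lit 6) (nat_lit 7) (nat_lit 0) (nat_lit 148) (nat_lit 147) (nat_lit 95))))))) (PT.nd (nat_lit 76752) (PT.nd (nat_lit 36504) (PT.nd (nat_lit 36270) (PT.nd (nat_lit 36192) (PT.lf (nat_lit 380) (nat_lit 6) (nat_lit 5) (nat_lit 0) (nat_lit 149) (nat_lit 147) (nat_lit 94)) (PT.lf (nat_lit 152) (nat_lit 6) (nat_lit 2) (nat_lit 5) (nat_lit 92) (nat_lit 148) (nat_lit 150))) (PT.nd (nat_lit 78) (PT.lf (nat_lit 304) (nat_lit 6) (nat_lit 4) (nat_lit 5) (nat_lit 93) (nat_lit 148) (nat_lit 149)) (PT.nd (nat_lit 78) (PT.lf (nat_lit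 456) (nat_lit 3) (nat_lit 6) (nat_lit 4) (nat_lit 94) (nat_lit 148) (nat_lit 148)) (PT.lf (nat_lit 532) (nat_lit 6) (nat_lit 7) (nat_lit 4) (nat_lit 95) (nat_lit 148) (nat_lit 147))))) (PT.nd (nat_lit 4056) (PT.nd (nat_lit 3900) (PT.lf (nat_lit 608) (nat_lit 6) (nat_lit 8) (nat_lit 4) (nat_lit 96) (nat_lit 148) (nat_lit 146)) (PT.nd (nat_lit 78) (PT.lf (nat_lit 608) (nat_lit 6) (nat_lit 8) (nat_lit 2) (nat_lit 146) (nat_lit 148) (nat_lit 96)) (PT.lf (nat_lit 532) (nat_lit 6) (nat_lit 7) (nat_lit 2) (nat_lit 147) (nat_lit 148) (nat_lit 95)))) (PT.nd (nat_lit 78) (PT.lf (nat_lit 456) (nat_lit 3) (nat_lit 6) (nat_lit 0) (nat_lit 148) (nat_lit 148) (nat_lit 94)) (PT.nd (nat_lit 78) (PT.lf (nat_lit 304) (nat_lit 6) (nat_lit 4) (nat_lit 0) (nat_lit 149) (nat_lit 148) (nat_lit 93)) (PT.lf (nat_lit 152) (nat_lit 6) (nat_lit 2) (nat_lit 0) (nat_lit 150) (nat_lit 148) (nat_lit 92)))))) (PT.nd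 (nat_lit 4524) (PT.nd (nat_lit 234) (PT.nd (nat_lit 78) (PT.lf (nat_lit 76) (nat_lit 6) (nat_lit 1) (nat_lit 5) (nat_lit 91) (nat_lit 149) (nat_lit 150)) (PT.nd (nat_lit 78) (PT.lf (nat_lit 228) (nat_lit 3) (nat_lit 3) (nat_lit 4) (nat_lit 92) (nat_lit 149) (nat_lit 149)) (PT.lf (nat_lit 304) (nat_lit 6) (nat_lit 4) (nat_lit 4) (nat_lit 93) (nat_lit 149) (nat_lit 148)))) (PT.nd (nat_lit 4134) (PT.lf (nat_lit 380) (nat_lit 6) (nat_lit 5) (nat_lit 4) (nat_lit 94) (nat_lit 149) (nat_lit 147)) (PT.nd (nat_lit 78) (PT.lf (nat_lit 380) (nat_lit 6) (nat_lit 5) (nat_lit 2) (nat_lit 147) (nat_lit 149) (nat_lit 94)) (PT.lf (nat_lit 304) (nat_lit 6) (nat_lit 4) (nat_lit 2) (nat_lit 148) (nat_lit 149) (nat_lit 93))))) (PT.nd (nat_lit 36192) (PT.nd (nat_lit 78) (PT.lf (nat_lit 228) (nat_lit 3) (nat_lit 3) (nat_lit 0) (nat_lit 149) (nat_lit 149) (nat_lit 92)) (PT.nd (nat_lit 36036) (PT.lf (nat_lit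 76) (nat_lit 6) (nat_lit 1) (nat_lit 0) (nat_lit 150) (nat_lit 149) (nat_lit 91)) (PT.lf (nat_lit 76) (nat_lit 6) (nat_lit 1) (nat_lit 4) (nat_lit 91) (nat_lit 150) (nat_lit 149)))) (PT.nd (nat_lit 4368) (PT.lf (nat_lit 152) (nat_lit 6) (nat_lit 2) (nat_lit 4) (nat_lit 92) (nat_lit 150) (nat_lit 148)) (PT.nd (nat_lit 78) (PT.lf (nat_lit 152) (nat_lit 6) (nat_lit 2) (nat_lit 2) (nat_lit 148) (nat_lit 150) (nat_lit 92)) (PT.lf (nat_lit 76) (nat_lit 6) (nat_lit 1) (nat_lit 2) (nat_lit 149) (nat_lit 150) (nat_lit 91))))))))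
noncomputable def xc0 : XT := (XT.nd (nat_lit 162240) (nat_lit 0) (nat_lit 0) (XT.nd (nat_lit 121524) (nat_lit 0) (nat_lit 0) (XT.nd (nat_lit 81042) (nat_lit 0) (nat_lit 0) (XT.nd (nat_lit 40638) (nat_lit 0) (nat_lit 0) (XT.nd (nat_lit 40560) (nat_lit 0) (nat_lit 0) (XT.lf (nat_lit 0) (nat_lit 349579038364) (nat_lit 76) (nat_lit 935728521) (nat_lit 76) (nat_lit 935728521) (nat_lit 3) (nat_lit 4) (nat_lit 4) (nat_lit 5) (nat_lit 4) (nat_lit 4) (nat_lit 390) (nat_lit 195) (nat_lit 195)) (XT.lf (nat_lit 0) (nat_lit 664314107325) (nat_lit 76) (nat_lit 2604209585) (nat_lit 76) (nat_lit 2553117845) (nat_lit 3) (nat_lit 4) (nat_lit 4) (nat_lit 5) (nat_lit 4) (nat_lit 4) (nat_lit 389) (nat_lit 196) (nat_lit 195))) (XT.nd (nat_lit 40326) (nat_lit 0) (nat_lit 0) (XT.lf (nat_lit 0) (nat_lit 699132654963) (nat_lit 76) (nat_lit 1934386800) (nat_lit 76) (nat_lit 1834636259) (nat_lit 3) (nat_lit 4)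 (nat_lit 4) (nat_lit 5) (nat_lit 4) (nat_lit 4) (nat_lit 390) (nat_lit 196) (nat_lit 194)) (XT.lf (nat_lit 0) (nat_lit 284612102307) (nat_lit 76) (nat_lit 2303923632) (nat_lit 76) (nat_lit 2303923632) (nat_lit 3) (nat_lit 4) (nat_lit 4) (nat_lit 5) (nat_lit 4) (nat_lit 4) (nat_lit 386) (nat_lit 197) (nat_lit 197)))) (XT.nd (nat_lit 156) (nat_lit 0) (nat_lit 0) (XT.nd (nat_lit 78) (nat_lit 0) (nat_lit 0) (XT.lf (nat_lit 0) (nat_lit 599423119579) (nat_lit 76) (nat_lit 3972723369) (nat_lit 76) (nat_lit 3919077042) (nat_lit 3) (nat_lit 4) (nat_lit 4) (nat_lit 5) (nat_lit 4) (nat_lit 4) (nat_lit 387) (nat_lit 197) (nat_lit 196)) (XT.lf (nat_lit 0) (nat_lit 631077259943) (nat_lit 76) (nat_lit 3331324609) (nat_lit 76) (nat_lit 3226586542) (nat_lit 3) (nat_lit 4) (nat_lit 4) (nat_lit 5) (nat_lit 4) (nat_lit 4) (nat_lit 388) (nat_lit 197) (nat_lit 195))) (XT.nd (nat_lit 78) (nat_lit 0) (nat_lit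 0) (XT.lf (nat_lit 0) (nat_lit 664261992707) (nat_lit 76) (nat_lit 2682123846) (nat_lit 76) (nat_lit 2528726979) (nat_lit 3) (nat_lit 4) (nat_lit 4) (nat_lit 5) (nat_lit 4) (nat_lit 4) (nat_lit 389) (nat_lit 197) (nat_lit 194)) (XT.nd (nat_lit 40170) (nat_lit 0) (nat_lit 0) (XT.lf (nat_lit 0) (nat_lit 699056329141) (nat_lit 76) (nat_lit 2023575362) (nat_lit 76) (nat_lit 1823836780) (nat_lit 3) (nat_lit 4) (nat_lit 4) (nat_lit 5) (nat_lit 4) (nat_lit 4) (nat_lit 390) (nat_lit 197) (nat_lit 193)) (XT.lf (nat_lit 0) (nat_lit 256468582333) (nat_lit 76) (nat_lit 2953966290) (nat_lit 76) (nat_lit 2953966290) (nat_lit 3) (nat_lit 4) (nat_lit 4) (nat_lit 5) (nat_lit 4) (nat_lit 4) (nat_lit 384) (nat_lit 198) (nat_lit 198)))))) (XT.nd (nat_lit 390) (nat_lit 0) (nat_lit 0) (XT.nd (nat_lit 156) (nat_lit 0) (nat_lit 0) (XT.nd (nat_lit 78) (nat_lit 0) (nat_lit 0) (XT.lf (nat_lit 0) (nat_lit 540408612870)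 (nat_lit 76) (nat_lit 5294537138) (nat_lit 76) (nat_lit 5238208494) (nat_lit 3) (nat_lit 4) (nat_lit 4) (nat_lit 5) (nat_lit 4) (nat_lit 4) (nat_lit 385) (nat_lit 198) (nat_lit 197)) (XT.lf (nat_lit 0) (nat_lit 569196177118) (nat_lit 76) (nat_lit 4677227320) (nat_lit 76) (nat_lit 4567252350) (nat_lit 3) (nat_lit 4) (nat_lit 4) (nat_lit 5) (nat_lit 4) (nat_lit 4) (nat_lit 386) (nat_lit 198) (nat_lit 196))) (XT.nd (nat_lit 78) (nat_lit 0) (nat_lit 0) (XT.lf (nat_lit 0) (nat_lit 599368399230) (nat_lit 76) (nat_lit 4054533343) (nat_lit 76) (nat_lit 3893466632) (nat_lit 3) (nat_lit 4) (nat_lit 4) (nat_lit 5) (nat_lit 4) (nat_lit 4) (nat_lit 387) (nat_lit 198) (nat_lit 195)) (XT.nd (nat_lit 78) (nat_lit 0) (nat_lit 0) (XT.lf (nat_lit 0) (nat_lit 630997117829) (nat_lit 76) (nat_lit 3424972600) (nat_lit 76) (nat_lit 3215247089) (nat_lit 3) (nat_lit 4) (nat_lit 4) (nat_lit 5) (nat_lit 4) (nat_lit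 4) (nat_lit 388) (nat_lit 198) (nat_lit 194)) (XT.lf (nat_lit 0) (nat_lit 664157639389) (nat_lit 76) (nat_lit 2787046138) (nat_lit 76) (nat_lit 2530978912) (nat_lit 3) (nat_lit 4) (nat_lit 4) (nat_lit 5) (nat_lit 4) (nat_lit 4) (nat_lit 389) (nat_lit 198) (nat_lit 193))))) (XT.nd (nat_lit 40092) (nat_lit 0) (nat_lit 0) (XT.nd (nat_lit 40014) (nat_lit 0) (nat_lit 0) (XT.lf (nat_lit 0) (nat_lit 698928917532) (nat_lit 76) (nat_lit 2139235083) (nat_lit 76) (nat_lit 1839032892) (nat_lit 3) (nat_lit 4) (nat_lit 4) (nat_lit 5) (nat_lit 4) (nat_lit 4) (nat_lit 390) (nat_lit 198) (nat_lit 192)) (XT.lf (nat_lit 0) (nat_lit 230857430870) (nat_lit 76) (nat_lit 3586786125) (nat_lit 76) (nat_lit 3586786125) (nat_lit 3) (nat_lit 4) (nat_lit 4) (nat_lit 5) (nat_lit 4) (nat_lit 4) (nat_lit 382) (nat_lit 199) (nat_lit 199))) (XT.nd (nat_lit 78) (nat_lit 0) (nat_lit 0) (XT.lf (nat_lit 0) (nat_lit 486716424296)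 (nat_lit 76) (nat_lit 6578019188) (nat_lit 76) (nat_lit 6518874112) (nat_lit 3) (nat_lit 4) (nat_lit 4) (nat_lit 5) (nat_lit 4) (nat_lit 4) (nat_lit 383) (nat_lit 199) (nat_lit 198)) (XT.nd (nat_lit 78) (nat_lit 0) (nat_lit 0) (XT.lf (nat_lit 0) (nat_lit 512907735796) (nat_lit 76) (nat_lit 5980781639) (nat_lit 76) (nat_lit 5865307920) (nat_lit 3) (nat_lit 4) (nat_lit 4) (nat_lit 5) (nat_lit 4) (nat_lit 4) (nat_lit 384) (nat_lit 199) (nat_lit 197)) (XT.lf (nat_lit 0) (nat_lit 540351156504) (nat_lit 76) (nat_lit 5380437610) (nat_lit 76) (nat_lit 5211317564) (nat_lit 3) (nat_lit 4) (nat_lit 4) (nat_lit 5) (nat_lit 4) (nat_lit 4) (nat_lit 385) (nat_lit 199) (nat_lit 196))))))) (XT.nd (nat_lit 40560) (nat_lit 0) (nat_lit 0) (XT.nd (nat_lit 40170) (nat_lit 0) (nat_lit 0) (XT.nd (nat_lit 156) (nat_lit 0) (nat_lit 0) (XT.nd (nat_lit 78) (nat_lit 0) (nat_lit 0) (XT.lf (nat_lit 0) (nat_lit 569112027899)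 (nat_lit 76) (nat_lit 4775557710) (nat_lit 76) (nat_lit 4555345924) (nat_lit 3) (nat_lit 4) (nat_lit 4) (nat_lit 5) (nat_lit 4) (nat_lit 4) (nat_lit 386) (nat_lit 199) (nat_lit 195)) (XT.lf (nat_lit 0) (nat_lit 599258828246) (nat_lit 76) (nat_lit 4164701749) (nat_lit 76) (nat_lit 3895831163) (nat_lit 3) (nat_lit 4) (nat_lit 4) (nat_lit 5) (nat_lit 4) (nat_lit 4) (nat_lit 387) (nat_lit 199) (nat_lit 194))) (XT.nd (nat_lit 78) (nat_lit 0) (nat_lit 0) (XT.lf (nat_lit 0) (nat_lit 630863335641) (nat_lit 76) (nat_lit 3546415307) (nat_lit 76) (nat_lit 3231203007) (nat_lit 3) (nat_lit 4) (nat_lit 4) (nat_lit 5) (nat_lit 4) (nat_lit 4) (nat_lit 388) (nat_lit 199) (nat_lit 193)) (XT.nd (nat_lit 78) (nat_lit 0) (nat_lit 0) (XT.lf (nat_lit 0) (nat_lit 664000798910) (nat_lit 76) (nat_lit 2919226275) (nat_lit 76) (nat_lit 2559879008) (nat_lit 3) (nat_lit 4) (nat_lit 4) (nat_lit 5) (nat_lit 4) (nat_lit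 4) (nat_lit 389) (nat_lit 199) (nat_lit 192)) (XT.lf (nat_lit 0) (nat_lit 698750116777) (nat_lit 76) (nat_lit 2281641345) (nat_lit 76) (nat_lit 1880260777) (nat_lit 3) (nat_lit 4) (nat_lit 4) (nat_lit 5) (nat_lit 4) (nat_lit 4) (nat_lit 390) (nat_lit 199) (nat_lit 191))))) (XT.nd (nat_lit 156) (nat_lit 0) (nat_lit 0) (XT.nd (nat_lit 78) (nat_lit 0) (nat_lit 0) (XT.lf (nat_lit 0) (nat_lit 207539004835) (nat_lit 76) (nat_lit 4206144951) (nat_lit 76) (nat_lit 4206144951) (nat_lit 3) (nat_lit 4) (nat_lit 4) (nat_lit 5) (nat_lit 4) (nat_lit 4) (nat_lit 380) (nat_lit 200) (nat_lit 200)) (XT.lf (nat_lit 0) (nat_lit 437843520597) (nat_lit 76) (nat_lit 7830961139) (nat_lit 76) (nat_lit 7768858810) (nat_lit 3) (nat_lit 4) (nat_lit 4) (nat_lit 5) (nat_lit 4) (nat_lit 4) (nat_lit 381) (nat_lit 200) (nat_lit 199))) (XT.nd (nat_lit 78) (nat_lit 0) (nat_lit 0) (XT.lf (nat_lit 0) (nat_lit 461683961426)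 (nat_lit 76) (nat_lit 7250063763) (nat_lit 76) (nat_lit 7128816358) (nat_lit 3) (nat_lit 4) (nat_lit 4) (nat_lit 5) (nat_lit 4) (nat_lit 4) (nat_lit 382) (nat_lit 200) (nat_lit 198)) (XT.nd (nat_lit 78) (nat_lit 0) (nat_lit 0) (XT.lf (nat_lit 0) (nat_lit 486656095112) (nat_lit 76) (nat_lit 6668214684) (nat_lit 76) (nat_lit 6490638636) (nat_lit 3) (nat_lit 4) (nat_lit 4) (nat_lit 5) (nat_lit 4) (nat_lit 4) (nat_lit 383) (nat_lit 200) (nat_lit 197)) (XT.lf (nat_lit 0) (nat_lit 512819379115) (nat_lit 76) (nat_lit 6084028549) (nat_lit 76) (nat_lit 5852806173) (nat_lit 3) (nat_lit 4) (nat_lit 4) (nat_lit 5) (nat_lit 4) (nat_lit 4) (nat_lit 384) (nat_lit 200) (nat_lit 196)))))) (XT.nd (nat_lit 390) (nat_lit 0) (nat_lit 0) (XT.nd (nat_lit 156) (nat_lit 0) (nat_lit 0) (XT.nd (nat_lit 78) (nat_lit 0) (nat_lit 0) (XT.lf (nat_lit 0) (nat_lit 540236106971) (nat_lit 76) (nat_lit 5496114437) (nat_lit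 76) (nat_lit 5213800321) (nat_lit 3) (nat_lit 4) (nat_lit 4) (nat_lit 5) (nat_lit 4) (nat_lit 4) (nat_lit 385) (nat_lit 200) (nat_lit 195)) (XT.lf (nat_lit 0) (nat_lit 568971556601) (nat_lit 76) (nat_lit 4903072553) (nat_lit 76) (nat_lit 4572099638) (nat_lit 3) (nat_lit 4) (nat_lit 4) (nat_lit 5) (nat_lit 4) (nat_lit 4) (nat_lit 386) (nat_lit 200) (nat_lit 194))) (XT.nd (nat_lit 78) (nat_lit 0) (nat_lit 0) (XT.lf (nat_lit 0) (nat_lit 599094145743) (nat_lit 76) (nat_lit 4303490893) (nat_lit 76) (nat_lit 3926176263) (nat_lit 3) (nat_lit 4) (nat_lit 4) (nat_lit 5) (nat_lit 4) (nat_lit 4) (nat_lit 387) (nat_lit 200) (nat_lit 193)) (XT.nd (nat_lit 78) (nat_lit 0) (nat_lit 0) (XT.lf (nat_lit 0) (nat_lit 630675594848) (nat_lit 76) (nat_lit 3695941882) (nat_lit 76) (nat_lit 3274492286) (nat_lit 3) (nat_lit 4) (nat_lit 4) (nat_lit 5) (nat_lit 4) (nat_lit 4) (nat_lit 388) (nat_lit 200) (nat_lit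 192)) (XT.lf (nat_lit 0) (nat_lit 663791097841) (nat_lit 76) (nat_lit 3078978973) (nat_lit 76) (nat_lit 2615496076) (nat_lit 3) (nat_lit 4) (nat_lit 4) (nat_lit 5) (nat_lit 4) (nat_lit 4) (nat_lit 389) (nat_lit 200) (nat_lit 191))))) (XT.nd (nat_lit 39780) (nat_lit 0) (nat_lit 0) (XT.nd (nat_lit 39702) (nat_lit 0) (nat_lit 0) (XT.lf (nat_lit 0) (nat_lit 698519501160) (nat_lit 76) (nat_lit 2451133208) (nat_lit 76) (nat_lit 1947618596) (nat_lit 3) (nat_lit 4) (nat_lit 4) (nat_lit 5) (nat_lit 4) (nat_lit 4) (nat_lit 390) (nat_lit 200) (nat_lit 190)) (XT.lf (nat_lit 0) (nat_lit 186295730516) (nat_lit 76) (nat_lit 4815562874) (nat_lit 76) (nat_lit 4815562874) (nat_lit 3) (nat_lit 4) (nat_lit 4) (nat_lit 5) (nat_lit 4) (nat_lit 4) (nat_lit 378) (nat_lit 201) (nat_lit 201))) (XT.nd (nat_lit 78) (nat_lit 0) (nat_lit 0) (XT.lf (nat_lit 0) (nat_lit 393333225050) (nat_lit 76) (nat_lit 9060641615)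 (nat_lit 76) (nat_lit 8995434169) (nat_lit 3) (nat_lit 4) (nat_lit 4) (nat_lit 5) (nat_lit 4) (nat_lit 4) (nat_lit 379) (nat_lit 201) (nat_lit 200)) (XT.nd (nat_lit 78) (nat_lit 0) (nat_lit 0) (XT.lf (nat_lit 0) (nat_lit 415045564341) (nat_lit 76) (nat_lit 8492605990) (nat_lit 76) (nat_lit 8365296215) (nat_lit 3) (nat_lit 4) (nat_lit 4) (nat_lit 5) (nat_lit 4) (nat_lit 4) (nat_lit 380) (nat_lit 201) (nat_lit 199)) (XT.lf (nat_lit 0) (nat_lit 437780174953) (nat_lit 76) (nat_lit 7925666410) (nat_lit 76) (nat_lit 7739211559) (nat_lit 3) (nat_lit 4) (nat_lit 4) (nat_lit 5) (nat_lit 4) (nat_lit 4) (nat_lit 381) (nat_lit 201) (nat_lit 198))))))))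
noncomputable def xc1 : XT := (XT.nd (nat_lit 40950) (nat_lit 0) (nat_lit 0) (XT.nd (nat_lit 40170) (nat_lit 0) (nat_lit 0) (XT.nd (nat_lit 312) (nat_lit 0) (nat_lit 0) (XT.nd (nat_lit 156) (nat_lit 0) (nat_lit 0) (XT.nd (nat_lit 78) (nat_lit 0) (nat_lit 0) (XT.lf (nat_lit 0) (nat_lit 461591186912) (nat_lit 76) (nat_lit 7358473017) (nat_lit 76) (nat_lit 7115689523) (nat_lit 3) (nat_lit 4) (nat_lit 4) (nat_lit 5) (nat_lit 4) (nat_lit 4) (nat_lit 382) (nat_lit 201) (nat_lit 197)) (XT.lf (nat_lit 0) (nat_lit 486535293102) (nat_lit 76) (nat_lit 6789675352) (nat_lit 76) (nat_lit 6493245531) (nat_lit 3) (nat_lit 4) (nat_lit 4) (nat_lit 5) (nat_lit 4) (nat_lit 4) (nat_lit 383) (nat_lit 201) (nat_lit 196))) (XT.nd (nat_lit 78) (nat_lit 0) (nat_lit 0) (XT.lf (nat_lit 0) (nat_lit 512671884252) (nat_lit 76) (nat_lit 6217919134) (nat_lit 76) (nat_lit 5870397572) (nat_lit 3) (nat_lit 4) (nat_lit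 4) (nat_lit 5) (nat_lit 4) (nat_lit 4) (nat_lit 384) (nat_lit 201) (nat_lit 195)) (XT.lf (nat_lit 0) (nat_lit 540063190343) (nat_lit 76) (nat_lit 5641843039) (nat_lit 76) (nat_lit 5245662677) (nat_lit 3) (nat_lit 4) (nat_lit 4) (nat_lit 5) (nat_lit 4) (nat_lit 4) (nat_lit 385) (nat_lit 201) (nat_lit 194)))) (XT.nd (nat_lit 156) (nat_lit 0) (nat_lit 0) (XT.nd (nat_lit 78) (nat_lit 0) (nat_lit 0) (XT.lf (nat_lit 0) (nat_lit 568774428768) (nat_lit 76) (nat_lit 5060075456) (nat_lit 76) (nat_lit 4617553380) (nat_lit 3) (nat_lit 4) (nat_lit 4) (nat_lit 5) (nat_lit 4) (nat_lit 4) (nat_lit 386) (nat_lit 201) (nat_lit 193)) (XT.lf (nat_lit 0) (nat_lit 598873959621) (nat_lit 76) (nat_lit 4471231226) (nat_lit 76) (nat_lit 3984574184) (nat_lit 3) (nat_lit 4) (nat_lit 4) (nat_lit 5) (nat_lit 4) (nat_lit 4) (nat_lit 387) (nat_lit 201) (nat_lit 192))) (XT.nd (nat_lit 78) (nat_lit 0) (nat_lit 0) (XT.lf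 (nat_lit 0) (nat_lit 630433448449) (nat_lit 76) (nat_lit 3873908338) (nat_lit 76) (nat_lit 3345217995) (nat_lit 3) (nat_lit 4) (nat_lit 4) (nat_lit 5) (nat_lit 4) (nat_lit 4) (nat_lit 388) (nat_lit 201) (nat_lit 191)) (XT.nd (nat_lit 78) (nat_lit 0) (nat_lit 0) (XT.lf (nat_lit 0) (nat_lit 663528036894) (nat_lit 76) (nat_lit 3266684595) (nat_lit 76) (nat_lit 2697962537) (nat_lit 3) (nat_lit 4) (nat_lit 4) (nat_lit 5) (nat_lit 4) (nat_lit 4) (nat_lit 389) (nat_lit 201) (nat_lit 190)) (XT.lf (nat_lit 0) (nat_lit 698236521594) (nat_lit 76) (nat_lit 2648114226) (nat_lit 76) (nat_lit 2041266725) (nat_lit 3) (nat_lit 4) (nat_lit 4) (nat_lit 5) (nat_lit 4) (nat_lit 4) (nat_lit 390) (nat_lit 201) (nat_lit 189)))))) (XT.nd (nat_lit 390) (nat_lit 0) (nat_lit 0) (XT.nd (nat_lit 156) (nat_lit 0) (nat_lit 0) (XT.nd (nat_lit 78) (nat_lit 0) (nat_lit 0) (XT.lf (nat_lit 0) (nat_lit 166930041250) (nat_lit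 76) (nat_lit 5418346166) (nat_lit 76) (nat_lit 5418346166) (nat_lit 3) (nat_lit 4) (nat_lit 4) (nat_lit 5) (nat_lit 4) (nat_lit 4) (nat_lit 376) (nat_lit 202) (nat_lit 202)) (XT.lf (nat_lit 0) (nat_lit 352770887139) (nat_lit 76) (nat_lit 10273884506) (nat_lit 76) (nat_lit 10205416688) (nat_lit 3) (nat_lit 4) (nat_lit 4) (nat_lit 5) (nat_lit 4) (nat_lit 4) (nat_lit 377) (nat_lit 202) (nat_lit 201))) (XT.nd (nat_lit 78) (nat_lit 0) (nat_lit 0) (XT.lf (nat_lit 0) (nat_lit 372557393437) (nat_lit 76) (nat_lit 9715457641) (nat_lit 76) (nat_lit 9581782377) (nat_lit 3) (nat_lit 4) (nat_lit 4) (nat_lit 5) (nat_lit 4) (nat_lit 4) (nat_lit 378) (nat_lit 202) (nat_lit 200)) (XT.nd (nat_lit 78) (nat_lit 0) (nat_lit 0) (XT.lf (nat_lit 0) (nat_lit 393266712124) (nat_lit 76) (nat_lit 9160082149) (nat_lit 76) (nat_lit 8964304556) (nat_lit 3) (nat_lit 4) (nat_lit 4) (nat_lit 5) (nat_lit 4) (nat_lit 4)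 (nat_lit 379) (nat_lit 202) (nat_lit 199)) (XT.lf (nat_lit 0) (nat_lit 414948151101) (nat_lit 76) (nat_lit 8606435708) (nat_lit 76) (nat_lit 8351513039) (nat_lit 3) (nat_lit 4) (nat_lit 4) (nat_lit 5) (nat_lit 4) (nat_lit 4) (nat_lit 380) (nat_lit 202) (nat_lit 198))))) (XT.nd (nat_lit 156) (nat_lit 0) (nat_lit 0) (XT.nd (nat_lit 78) (nat_lit 0) (nat_lit 0) (XT.lf (nat_lit 0) (nat_lit 437653332843) (nat_lit 76) (nat_lit 8053200111) (nat_lit 76) (nat_lit 7741948799) (nat_lit 3) (nat_lit 4) (nat_lit 4) (nat_lit 5) (nat_lit 4) (nat_lit 4) (nat_lit 381) (nat_lit 202) (nat_lit 197)) (XT.lf (nat_lit 0) (nat_lit 461436317305) (nat_lit 76) (nat_lit 7499058132) (nat_lit 76) (nat_lit 7134160492) (nat_lit 3) (nat_lit 4) (nat_lit 4) (nat_lit 5) (nat_lit 4) (nat_lit 4) (nat_lit 382) (nat_lit 202) (nat_lit 196))) (XT.nd (nat_lit 78) (nat_lit 0) (nat_lit 0) (XT.lf (nat_lit 0) (nat_lit 486353730642)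 (nat_lit 76) (nat_lit 6942690384) (nat_lit 76) (nat_lit 6526701004) (nat_lit 3) (nat_lit 4) (nat_lit 4) (nat_lit 5) (nat_lit 4) (nat_lit 4) (nat_lit 383) (nat_lit 202) (nat_lit 195)) (XT.nd (nat_lit 78) (nat_lit 0) (nat_lit 0) (XT.lf (nat_lit 0) (nat_lit 512464900028) (nat_lit 76) (nat_lit 6382772182) (nat_lit 76) (nat_lit 5918124002) (nat_lit 3) (nat_lit 4) (nat_lit 4) (nat_lit 5) (nat_lit 4) (nat_lit 4) (nat_lit 384) (nat_lit 202) (nat_lit 194)) (XT.lf (nat_lit 0) (nat_lit 539831994914) (nat_lit 76) (nat_lit 5817970388) (nat_lit 76) (nat_lit 5306980494) (nat_lit 3) (nat_lit 4) (nat_lit 4) (nat_lit 5) (nat_lit 4) (nat_lit 4) (nat_lit 385) (nat_lit 202) (nat_lit 193))))))) (XT.nd (nat_lit 40092) (nat_lit 0) (nat_lit 0) (XT.nd (nat_lit 39702) (nat_lit 0) (nat_lit 0) (XT.nd (nat_lit 156) (nat_lit 0) (nat_lit 0) (XT.nd (nat_lit 78) (nat_lit 0) (nat_lit 0) (XT.lf (nat_lit 0) (nat_lit 568520175050)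 (nat_lit 76) (nat_lit 5246940236) (nat_lit 76) (nat_lit 4691815376) (nat_lit 3) (nat_lit 4) (nat_lit 4) (nat_lit 5) (nat_lit 4) (nat_lit 4) (nat_lit 386) (nat_lit 202) (nat_lit 192)) (XT.lf (nat_lit 0) (nat_lit 598597745626) (nat_lit 76) (nat_lit 4668322130) (nat_lit 76) (nat_lit 4071163968) (nat_lit 3) (nat_lit 4) (nat_lit 4) (nat_lit 5) (nat_lit 4) (nat_lit 4) (nat_lit 387) (nat_lit 202) (nat_lit 191))) (XT.nd (nat_lit 78) (nat_lit 0) (nat_lit 0) (XT.lf (nat_lit 0) (nat_lit 630136319905) (nat_lit 76) (nat_lit 4080738407) (nat_lit 76) (nat_lit 3443548531) (nat_lit 3) (nat_lit 4) (nat_lit 4) (nat_lit 5) (nat_lit 4) (nat_lit 4) (nat_lit 388) (nat_lit 202) (nat_lit 190)) (XT.nd (nat_lit 78) (nat_lit 0) (nat_lit 0) (XT.lf (nat_lit 0) (nat_lit 663210989732) (nat_lit 76) (nat_lit 3482790060) (nat_lit 76) (nat_lit 2807474740) (nat_lit 3) (nat_lit 4) (nat_lit 4) (nat_lit 5) (nat_lit 4) (nat_lit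 4) (nat_lit 389) (nat_lit 202) (nat_lit 189)) (XT.lf (nat_lit 0) (nat_lit 697900504320) (nat_lit 76) (nat_lit 2873053400) (nat_lit 76) (nat_lit 2161428135) (nat_lit 3) (nat_lit 4) (nat_lit 4) (nat_lit 5) (nat_lit 4) (nat_lit 4) (nat_lit 390) (nat_lit 202) (nat_lit 188))))) (XT.nd (nat_lit 156) (nat_lit 0) (nat_lit 0) (XT.nd (nat_lit 78) (nat_lit 0) (nat_lit 0) (XT.lf (nat_lit 0) (nat_lit 149262506313) (nat_lit 76) (nat_lit 6017612814) (nat_lit 76) (nat_lit 6017612814) (nat_lit 3) (nat_lit 4) (nat_lit 4) (nat_lit 5) (nat_lit 4) (nat_lit 4) (nat_lit 374) (nat_lit 203) (nat_lit 203)) (XT.lf (nat_lit 0) (nat_lit 315779953797) (nat_lit 76) (nat_lit 11477112346) (nat_lit 76) (nat_lit 11405221137) (nat_lit 3) (nat_lit 4) (nat_lit 4) (nat_lit 5) (nat_lit 4) (nat_lit 4) (nat_lit 375) (nat_lit 203) (nat_lit 202))) (XT.nd (nat_lit 78) (nat_lit 0) (nat_lit 0) (XT.lf (nat_lit 0) (nat_lit 333824311525)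 (nat_lit 76) (nat_lit 10925240819) (nat_lit 76) (nat_lit 10784881792) (nat_lit 3) (nat_lit 4) (nat_lit 4) (nat_lit 5) (nat_lit 4) (nat_lit 4) (nat_lit 376) (nat_lit 203) (nat_lit 201)) (XT.nd (nat_lit 78) (nat_lit 0) (nat_lit 0) (XT.lf (nat_lit 0) (nat_lit 352701048567) (nat_lit 76) (nat_lit 10378297067) (nat_lit 76) (nat_lit 10172730594) (nat_lit 3) (nat_lit 4) (nat_lit 4) (nat_lit 5) (nat_lit 4) (nat_lit 4) (nat_lit 377) (nat_lit 203) (nat_lit 200)) (XT.lf (nat_lit 0) (nat_lit 372455109535) (nat_lit 76) (nat_lit 9834978844) (nat_lit 76) (nat_lit 9567310042) (nat_lit 3) (nat_lit 4) (nat_lit 4) (nat_lit 5) (nat_lit 4) (nat_lit 4) (nat_lit 378) (nat_lit 203) (nat_lit 199)))))) (XT.nd (nat_lit 390) (nat_lit 0) (nat_lit 0) (XT.nd (nat_lit 156) (nat_lit 0) (nat_lit 0) (XT.nd (nat_lit 78) (nat_lit 0) (nat_lit 0) (XT.lf (nat_lit 0) (nat_lit 393133527908) (nat_lit 76) (nat_lit 9293992535)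 (nat_lit 76) (nat_lit 8967178657) (nat_lit 3) (nat_lit 4) (nat_lit 4) (nat_lit 5) (nat_lit 4) (nat_lit 4) (nat_lit 379) (nat_lit 203) (nat_lit 198)) (XT.lf (nat_lit 0) (nat_lit 414785538015) (nat_lit 76) (nat_lit 8754050078) (nat_lit 76) (nat_lit 8370907556) (nat_lit 3) (nat_lit 4) (nat_lit 4) (nat_lit 5) (nat_lit 4) (nat_lit 4) (nat_lit 380) (nat_lit 203) (nat_lit 197))) (XT.nd (nat_lit 78) (nat_lit 0) (nat_lit 0) (XT.lf (nat_lit 0) (nat_lit 437462692261) (nat_lit 76) (nat_lit 8213865895) (nat_lit 76) (nat_lit 7777077046) (nat_lit 3) (nat_lit 4) (nat_lit 4) (nat_lit 5) (nat_lit 4) (nat_lit 4) (nat_lit 381) (nat_lit 203) (nat_lit 196)) (XT.nd (nat_lit 78) (nat_lit 0) (nat_lit 0) (XT.lf (nat_lit 0) (nat_lit 461218983870) (nat_lit 76) (nat_lit 7672153832) (nat_lit 76) (nat_lit 7184273244) (nat_lit 3) (nat_lit 4) (nat_lit 4) (nat_lit 5) (nat_lit 4) (nat_lit 4) (nat_lit 382) (nat_lit 203)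 (nat_lit 195)) (XT.lf (nat_lit 0) (nat_lit 486110975442) (nat_lit 76) (nat_lit 7127624101) (nat_lit 76) (nat_lit 6591084712) (nat_lit 3) (nat_lit 4) (nat_lit 4) (nat_lit 5) (nat_lit 4) (nat_lit 4) (nat_lit 383) (nat_lit 203) (nat_lit 194))))) (XT.nd (nat_lit 156) (nat_lit 0) (nat_lit 0) (XT.nd (nat_lit 78) (nat_lit 0) (nat_lit 0) (XT.lf (nat_lit 0) (nat_lit 512197933624) (nat_lit 76) (nat_lit 6578980201) (nat_lit 76) (nat_lit 5996099097) (nat_lit 3) (nat_lit 4) (nat_lit 4) (nat_lit 5) (nat_lit 4) (nat_lit 4) (nat_lit 384) (nat_lit 203) (nat_lit 193)) (XT.lf (nat_lit 0) (nat_lit 539541970220) (nat_lit 76) (nat_lit 6024915837) (nat_lit 76) (nat_lit 5397899767) (nat_lit 3) (nat_lit 4) (nat_lit 4) (nat_lit 5) (nat_lit 4) (nat_lit 4) (nat_lit 385) (nat_lit 203) (nat_lit 192))) (XT.nd (nat_lit 78) (nat_lit 0) (nat_lit 0) (XT.lf (nat_lit 0) (nat_lit 568208190079) (nat_lit 76) (nat_lit 5464111808)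 (nat_lit 76) (nat_lit 4795062438) (nat_lit 3) (nat_lit 4) (nat_lit 4) (nat_lit 5) (nat_lit 4) (nat_lit 4) (nat_lit 386) (nat_lit 203) (nat_lit 191)) (XT.nd (nat_lit 78) (nat_lit 0) (nat_lit 0) (XT.lf (nat_lit 0) (nat_lit 598264846106) (nat_lit 76) (nat_lit 4895232867) (nat_lit 76) (nat_lit 4186151782) (nat_lit 3) (nat_lit 4) (nat_lit 4) (nat_lit 5) (nat_lit 4) (nat_lit 4) (nat_lit 387) (nat_lit 203) (nat_lit 190)) (XT.lf (nat_lit 0) (nat_lit 629783501768) (nat_lit 76) (nat_lit 4316924540) (nat_lit 76) (nat_lit 3569718012) (nat_lit 3) (nat_lit 4) (nat_lit 4) (nat_lit 5) (nat_lit 4) (nat_lit 4) (nat_lit 388) (nat_lit 203) (nat_lit 189))))))))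
noncomputable def xc2 : XT := (XT.nd (nat_lit 40638) (nat_lit 0) (nat_lit 0) (XT.nd (nat_lit 39858) (nat_lit 0) (nat_lit 0) (XT.nd (nat_lit 39468) (nat_lit 0) (nat_lit 0) (XT.nd (nat_lit 39312) (nat_lit 0) (nat_lit 0) (XT.nd (nat_lit 78) (nat_lit 0) (nat_lit 0) (XT.lf (nat_lit 0) (nat_lit 662839201482) (nat_lit 76) (nat_lit 3727809903) (nat_lit 76) (nat_lit 2944293428) (nat_lit 3) (nat_lit 4) (nat_lit 4) (nat_lit 5) (nat_lit 4) (nat_lit 4) (nat_lit 389) (nat_lit 203) (nat_lit 188)) (XT.lf (nat_lit 0) (nat_lit 697510649296) (nat_lit 76) (nat_lit 3126486301) (nat_lit 76) (nat_lit 2308388926) (nat_lit 3) (nat_lit 4) (nat_lit 4) (nat_lit 5) (nat_lit 4) (nat_lit 4) (nat_lit 390) (nat_lit 203) (nat_lit 187))) (XT.nd (nat_lit 78) (nat_lit 0) (nat_lit 0) (XT.lf (nat_lit 0) (nat_lit 133130133217) (nat_lit 76) (nat_lit 6616315986) (nat_lit 76) (nat_lit 6616315986) (nat_lit 3) (nat_lit 4) (nat_lit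 4) (nat_lit 5) (nat_lit 4) (nat_lit 4) (nat_lit 372) (nat_lit 204) (nat_lit 204)) (XT.lf (nat_lit 0) (nat_lit 282018404821) (nat_lit 76) (nat_lit 12676395279) (nat_lit 76) (nat_lit 12600909509) (nat_lit 3) (nat_lit 4) (nat_lit 4) (nat_lit 5) (nat_lit 4) (nat_lit 4) (nat_lit 373) (nat_lit 204) (nat_lit 203)))) (XT.nd (nat_lit 156) (nat_lit 0) (nat_lit 0) (XT.nd (nat_lit 78) (nat_lit 0) (nat_lit 0) (XT.lf (nat_lit 0) (nat_lit 298487453102) (nat_lit 76) (nat_lit 12128201541) (nat_lit 76) (nat_lit 11980824562) (nat_lit 3) (nat_lit 4) (nat_lit 4) (nat_lit 5) (nat_lit 4) (nat_lit 4) (nat_lit 374) (nat_lit 204) (nat_lit 202)) (XT.lf (nat_lit 0) (nat_lit 315706623296) (nat_lit 76) (nat_lit 11586745536) (nat_lit 76) (nat_lit 11370900739) (nat_lit 3) (nat_lit 4) (nat_lit 4) (nat_lit 5) (nat_lit 4) (nat_lit 4) (nat_lit 375) (nat_lit 204) (nat_lit 201))) (XT.nd (nat_lit 78) (nat_lit 0) (nat_lit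 0) (XT.lf (nat_lit 0) (nat_lit 333716913428) (nat_lit 76) (nat_lit 11050738082) (nat_lit 76) (nat_lit 10769685840) (nat_lit 3) (nat_lit 4) (nat_lit 4) (nat_lit 5) (nat_lit 4) (nat_lit 4) (nat_lit 376) (nat_lit 204) (nat_lit 200)) (XT.nd (nat_lit 78) (nat_lit 0) (nat_lit 0) (XT.lf (nat_lit 0) (nat_lit 352561205140) (nat_lit 76) (nat_lit 10518902973) (nat_lit 76) (nat_lit 10175748401) (nat_lit 3) (nat_lit 4) (nat_lit 4) (nat_lit 5) (nat_lit 4) (nat_lit 4) (nat_lit 377) (nat_lit 204) (nat_lit 199)) (XT.lf (nat_lit 0) (nat_lit 372284365794) (nat_lit 76) (nat_lit 9989973933) (nat_lit 76) (nat_lit 9587674285) (nat_lit 3) (nat_lit 4) (nat_lit 4) (nat_lit 5) (nat_lit 4) (nat_lit 4) (nat_lit 378) (nat_lit 204) (nat_lit 198)))))) (XT.nd (nat_lit 390) (nat_lit 0) (nat_lit 0) (XT.nd (nat_lit 156) (nat_lit 0) (nat_lit 0) (XT.nd (nat_lit 78) (nat_lit 0) (nat_lit 0) (XT.lf (nat_lit 0) (nat_lit 392933355296)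 (nat_lit 76) (nat_lit 9462691608) (nat_lit 76) (nat_lit 9004063317) (nat_lit 3) (nat_lit 4) (nat_lit 4) (nat_lit 5) (nat_lit 4) (nat_lit 4) (nat_lit 379) (nat_lit 204) (nat_lit 197)) (XT.lf (nat_lit 0) (nat_lit 414557337908) (nat_lit 76) (nat_lit 8935800564) (nat_lit 76) (nat_lit 8423525945) (nat_lit 3) (nat_lit 4) (nat_lit 4) (nat_lit 5) (nat_lit 4) (nat_lit 4) (nat_lit 380) (nat_lit 204) (nat_lit 196))) (XT.nd (nat_lit 78) (nat_lit 0) (nat_lit 0) (XT.lf (nat_lit 0) (nat_lit 437207799301) (nat_lit 76) (nat_lit 8408046298) (nat_lit 76) (nat_lit 7844679939) (nat_lit 3) (nat_lit 4) (nat_lit 4) (nat_lit 5) (nat_lit 4) (nat_lit 4) (nat_lit 381) (nat_lit 204) (nat_lit 195)) (XT.nd (nat_lit 78) (nat_lit 0) (nat_lit 0) (XT.lf (nat_lit 0) (nat_lit 460938669145) (nat_lit 76) (nat_lit 7878172252) (nat_lit 76) (nat_lit 7266147093) (nat_lit 3) (nat_lit 4) (nat_lit 4) (nat_lit 5) (nat_lit 4) (nat_lit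 4) (nat_lit 382) (nat_lit 204) (nat_lit 194)) (XT.lf (nat_lit 0) (nat_lit 485806449513) (nat_lit 76) (nat_lit 7344916822) (nat_lit 76) (nat_lit 6686549949) (nat_lit 3) (nat_lit 4) (nat_lit 4) (nat_lit 5) (nat_lit 4) (nat_lit 4) (nat_lit 383) (nat_lit 204) (nat_lit 193))))) (XT.nd (nat_lit 156) (nat_lit 0) (nat_lit 0) (XT.nd (nat_lit 78) (nat_lit 0) (nat_lit 0) (XT.lf (nat_lit 0) (nat_lit 511870349404) (nat_lit 76) (nat_lit 6807010351) (nat_lit 76) (nat_lit 6104508513) (nat_lit 3) (nat_lit 4) (nat_lit 4) (nat_lit 5) (nat_lit 4) (nat_lit 4) (nat_lit 384) (nat_lit 204) (nat_lit 192)) (XT.lf (nat_lit 0) (nat_lit 539192425724) (nat_lit 76) (nat_lit 6263172111) (nat_lit 76) (nat_lit 5518636971) (nat_lit 3) (nat_lit 4) (nat_lit 4) (nat_lit 5) (nat_lit 4) (nat_lit 4) (nat_lit 385) (nat_lit 204) (nat_lit 191))) (XT.nd (nat_lit 78) (nat_lit 0) (nat_lit 0) (XT.lf (nat_lit 0) (nat_lit 567837731034)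 (nat_lit 76) (nat_lit 5712107248) (nat_lit 76) (nat_lit 4927540393) (nat_lit 3) (nat_lit 4) (nat_lit 4) (nat_lit 5) (nat_lit 4) (nat_lit 4) (nat_lit 386) (nat_lit 204) (nat_lit 190)) (XT.nd (nat_lit 78) (nat_lit 0) (nat_lit 0) (XT.lf (nat_lit 0) (nat_lit 597874468443) (nat_lit 76) (nat_lit 5152503703) (nat_lit 76) (nat_lit 4329811404) (nat_lit 3) (nat_lit 4) (nat_lit 4) (nat_lit 5) (nat_lit 4) (nat_lit 4) (nat_lit 387) (nat_lit 204) (nat_lit 189)) (XT.lf (nat_lit 0) (nat_lit 629374153993) (nat_lit 76) (nat_lit 4583029086) (nat_lit 76) (nat_lit 3724026842) (nat_lit 3) (nat_lit 4) (nat_lit 4) (nat_lit 5) (nat_lit 4) (nat_lit 4) (nat_lit 388) (nat_lit 204) (nat_lit 188))))))) (XT.nd (nat_lit 39780) (nat_lit 0) (nat_lit 0) (XT.nd (nat_lit 39390) (nat_lit 0) (nat_lit 0) (XT.nd (nat_lit 39156) (nat_lit 0) (nat_lit 0) (XT.nd (nat_lit 78) (nat_lit 0) (nat_lit 0) (XT.lf (nat_lit 0) (nat_lit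 662411786934) (nat_lit 76) (nat_lit 4002327506) (nat_lit 76) (nat_lit 3108744361) (nat_lit 3) (nat_lit 4) (nat_lit 4) (nat_lit 5) (nat_lit 4) (nat_lit 4) (nat_lit 389) (nat_lit 204) (nat_lit 187)) (XT.lf (nat_lit 0) (nat_lit 697066028297) (nat_lit 76) (nat_lit 3409016339) (nat_lit 76) (nat_lit 2482499003) (nat_lit 3) (nat_lit 4) (nat_lit 4) (nat_lit 5) (nat_lit 4) (nat_lit 4) (nat_lit 390) (nat_lit 204) (nat_lit 186))) (XT.nd (nat_lit 78) (nat_lit 0) (nat_lit 0) (XT.lf (nat_lit 0) (nat_lit 118384827259) (nat_lit 76) (nat_lit 7217265601) (nat_lit 76) (nat_lit 7217265601) (nat_lit 3) (nat_lit 4) (nat_lit 4) (nat_lit 5) (nat_lit 4) (nat_lit 4) (nat_lit 370) (nat_lit 205) (nat_lit 205)) (XT.nd (nat_lit 78) (nat_lit 0) (nat_lit 0) (XT.lf (nat_lit 0) (nat_lit 251175518563) (nat_lit 76) (nat_lit 13877496054) (nat_lit 76) (nat_lit 13798235996) (nat_lit 3) (nat_lit 4) (nat_lit 4) (nat_lit 5)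 (nat_lit 4) (nat_lit 4) (nat_lit 371) (nat_lit 205) (nat_lit 204)) (XT.lf (nat_lit 0) (nat_lit 266220828933) (nat_lit 76) (nat_lit 13330256680) (nat_lit 76) (nat_lit 13175510852) (nat_lit 3) (nat_lit 4) (nat_lit 4) (nat_lit 5) (nat_lit 4) (nat_lit 4) (nat_lit 372) (nat_lit 205) (nat_lit 203))))) (XT.nd (nat_lit 156) (nat_lit 0) (nat_lit 0) (XT.nd (nat_lit 78) (nat_lit 0) (nat_lit 0) (XT.lf (nat_lit 0) (nat_lit 281941407795) (nat_lit 76) (nat_lit 12791510128) (nat_lit 76) (nat_lit 12564873091) (nat_lit 3) (nat_lit 4) (nat_lit 4) (nat_lit 5) (nat_lit 4) (nat_lit 4) (nat_lit 373) (nat_lit 205) (nat_lit 202)) (XT.lf (nat_lit 0) (nat_lit 298374685100) (nat_lit 76) (nat_lit 12259973667) (nat_lit 76) (nat_lit 11964868813) (nat_lit 3) (nat_lit 4) (nat_lit 4) (nat_lit 5) (nat_lit 4) (nat_lit 4) (nat_lit 374) (nat_lit 205) (nat_lit 201))) (XT.nd (nat_lit 78) (nat_lit 0) (nat_lit 0) (XT.lf (nat_lit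 0) (nat_lit 315559787698) (nat_lit 76) (nat_lit 11734381737) (nat_lit 76) (nat_lit 11374069436) (nat_lit 3) (nat_lit 4) (nat_lit 4) (nat_lit 5) (nat_lit 4) (nat_lit 4) (nat_lit 375) (nat_lit 205) (nat_lit 200)) (XT.nd (nat_lit 78) (nat_lit 0) (nat_lit 0) (XT.lf (nat_lit 0) (nat_lit 333537632500) (nat_lit 76) (nat_lit 11213482925) (nat_lit 76) (nat_lit 10791068295) (nat_lit 3) (nat_lit 4) (nat_lit 4) (nat_lit 5) (nat_lit 4) (nat_lit 4) (nat_lit 376) (nat_lit 205) (nat_lit 199)) (XT.lf (nat_lit 0) (nat_lit 352351023898) (nat_lit 76) (nat_lit 10696036999) (nat_lit 76) (nat_lit 10214477293) (nat_lit 3) (nat_lit 4) (nat_lit 4) (nat_lit 5) (nat_lit 4) (nat_lit 4) (nat_lit 377) (nat_lit 205) (nat_lit 198)))))) (XT.nd (nat_lit 390) (nat_lit 0) (nat_lit 0) (XT.nd (nat_lit 156) (nat_lit 0) (nat_lit 0) (XT.nd (nat_lit 78) (nat_lit 0) (nat_lit 0) (XT.lf (nat_lit 0) (nat_lit 372044755682) (nat_lit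 76) (nat_lit 10180811943) (nat_lit 76) (nat_lit 9642923594) (nat_lit 3) (nat_lit 4) (nat_lit 4) (nat_lit 5) (nat_lit 4) (nat_lit 4) (nat_lit 378) (nat_lit 205) (nat_lit 197)) (XT.lf (nat_lit 0) (nat_lit 392665717688) (nat_lit 76) (nat_lit 9666581031) (nat_lit 76) (nat_lit 9075046355) (nat_lit 3) (nat_lit 4) (nat_lit 4) (nat_lit 5) (nat_lit 4) (nat_lit 4) (nat_lit 379) (nat_lit 205) (nat_lit 196))) (XT.nd (nat_lit 78) (nat_lit 0) (nat_lit 0) (XT.lf (nat_lit 0) (nat_lit 414263007446) (nat_lit 76) (nat_lit 9152119904) (nat_lit 76) (nat_lit 8509493488) (nat_lit 3) (nat_lit 4) (nat_lit 4) (nat_lit 5) (nat_lit 4) (nat_lit 4) (nat_lit 380) (nat_lit 205) (nat_lit 195)) (XT.nd (nat_lit 78) (nat_lit 0) (nat_lit 0) (XT.lf (nat_lit 0) (nat_lit 436888047075) (nat_lit 76) (nat_lit 8636203654) (nat_lit 76) (nat_lit 7944918438) (nat_lit 3) (nat_lit 4) (nat_lit 4) (nat_lit 5) (nat_lit 4) (nat_lit 4)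 (nat_lit 381) (nat_lit 205) (nat_lit 194)) (XT.lf (nat_lit 0) (nat_lit 460594705715) (nat_lit 76) (nat_lit 8117603910) (nat_lit 76) (nat_lit 7379976979) (nat_lit 3) (nat_lit 4) (nat_lit 4) (nat_lit 5) (nat_lit 4) (nat_lit 4) (nat_lit 382) (nat_lit 205) (nat_lit 193))))) (XT.nd (nat_lit 156) (nat_lit 0) (nat_lit 0) (XT.nd (nat_lit 78) (nat_lit 0) (nat_lit 0) (XT.lf (nat_lit 0) (nat_lit 485439427792) (nat_lit 76) (nat_lit 7595085910) (nat_lit 76) (nat_lit 6813324013) (nat_lit 3) (nat_lit 4) (nat_lit 4) (nat_lit 5) (nat_lit 4) (nat_lit 4) (nat_lit 383) (nat_lit 205) (nat_lit 192)) (XT.lf (nat_lit 0) (nat_lit 511481367407) (nat_lit 76) (nat_lit 7067405563) (nat_lit 76) (nat_lit 6243610365) (nat_lit 3) (nat_lit 4) (nat_lit 4) (nat_lit 5) (nat_lit 4) (nat_lit 4) (nat_lit 384) (nat_lit 205) (nat_lit 191))) (XT.nd (nat_lit 78) (nat_lit 0) (nat_lit 0) (XT.lf (nat_lit 0) (nat_lit 538782529178)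 (nat_lit 76) (nat_lit 6533306488) (nat_lit 76) (nat_lit 5669479575) (nat_lit 3) (nat_lit 4) (nat_lit 4) (nat_lit 5) (nat_lit 4) (nat_lit 4) (nat_lit 385) (nat_lit 205) (nat_lit 190)) (XT.nd (nat_lit 78) (nat_lit 0) (nat_lit 0) (XT.lf (nat_lit 0) (nat_lit 567407915870) (nat_lit 76) (nat_lit 5991517021) (nat_lit 76) (nat_lit 5089564665) (nat_lit 3) (nat_lit 4) (nat_lit 4) (nat_lit 5) (nat_lit 4) (nat_lit 4) (nat_lit 386) (nat_lit 205) (nat_lit 189)) (XT.lf (nat_lit 0) (nat_lit 597425683167) (nat_lit 76) (nat_lit 5440747186) (nat_lit 76) (nat_lit 4502484884) (nat_lit 3) (nat_lit 4) (nat_lit 4) (nat_lit 5) (nat_lit 4) (nat_lit 4) (nat_lit 387) (nat_lit 205) (nat_lit 188))))))))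
noncomputable def xc3 : XT := (XT.nd (nat_lit 40326) (nat_lit 0) (nat_lit 0) (XT.nd (nat_lit 39546) (nat_lit 0) (nat_lit 0) (XT.nd (nat_lit 39156) (nat_lit 0) (nat_lit 0) (XT.nd (nat_lit 156) (nat_lit 0) (nat_lit 0) (XT.nd (nat_lit 78) (nat_lit 0) (nat_lit 0) (XT.lf (nat_lit 0) (nat_lit 628907301943) (nat_lit 76) (nat_lit 4879685626) (nat_lit 76) (nat_lit 3906842423) (nat_lit 3) (nat_lit 4) (nat_lit 4) (nat_lit 5) (nat_lit 4) (nat_lit 4) (nat_lit 388) (nat_lit 205) (nat_lit 187)) (XT.lf (nat_lit 0) (nat_lit 661927728433) (nat_lit 76) (nat_lit 4306996481) (nat_lit 76) (nat_lit 3301219088) (nat_lit 3) (nat_lit 4) (nat_lit 4) (nat_lit 5) (nat_lit 4) (nat_lit 4) (nat_lit 389) (nat_lit 205) (nat_lit 186))) (XT.nd (nat_lit 38922) (nat_lit 0) (nat_lit 0) (XT.lf (nat_lit 0) (nat_lit 696565582700) (nat_lit 76) (nat_lit 3721316206) (nat_lit 76) (nat_lit 2684172916) (nat_lit 3) (nat_lit 4) (nat_lit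 4) (nat_lit 5) (nat_lit 4) (nat_lit 4) (nat_lit 390) (nat_lit 205) (nat_lit 185)) (XT.lf (nat_lit 0) (nat_lit 104891993684) (nat_lit 76) (nat_lit 7823148214) (nat_lit 76) (nat_lit 7823148214) (nat_lit 3) (nat_lit 4) (nat_lit 4) (nat_lit 5) (nat_lit 4) (nat_lit 4) (nat_lit 368) (nat_lit 206) (nat_lit 206)))) (XT.nd (nat_lit 156) (nat_lit 0) (nat_lit 0) (XT.nd (nat_lit 78) (nat_lit 0) (nat_lit 0) (XT.lf (nat_lit 0) (nat_lit 222968937122) (nat_lit 76) (nat_lit 15085911457) (nat_lit 76) (nat_lit 15002688396) (nat_lit 3) (nat_lit 4) (nat_lit 4) (nat_lit 5) (nat_lit 4) (nat_lit 4) (nat_lit 369) (nat_lit 206) (nat_lit 205)) (XT.lf (nat_lit 0) (nat_lit 236728245142) (nat_lit 76) (nat_lit 14537037144) (nat_lit 76) (nat_lit 14374554025) (nat_lit 3) (nat_lit 4) (nat_lit 4) (nat_lit 5) (nat_lit 4) (nat_lit 4) (nat_lit 370) (nat_lit 206) (nat_lit 204))) (XT.nd (nat_lit 78) (nat_lit 0) (nat_lit 0)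 (XT.lf (nat_lit 0) (nat_lit 251094671686) (nat_lit 76) (nat_lit 13998366646) (nat_lit 76) (nat_lit 13760397757) (nat_lit 3) (nat_lit 4) (nat_lit 4) (nat_lit 5) (nat_lit 4) (nat_lit 4) (nat_lit 371) (nat_lit 206) (nat_lit 203)) (XT.nd (nat_lit 78) (nat_lit 0) (nat_lit 0) (XT.lf (nat_lit 0) (nat_lit 266102422531) (nat_lit 76) (nat_lit 13468617413) (nat_lit 76) (nat_lit 13158757315) (nat_lit 3) (nat_lit 4) (nat_lit 4) (nat_lit 5) (nat_lit 4) (nat_lit 4) (nat_lit 372) (nat_lit 206) (nat_lit 202)) (XT.lf (nat_lit 0) (nat_lit 281787230417) (nat_lit 76) (nat_lit 12946528139) (nat_lit 76) (nat_lit 12568200223) (nat_lit 3) (nat_lit 4) (nat_lit 4) (nat_lit 5) (nat_lit 4) (nat_lit 4) (nat_lit 373) (nat_lit 206) (nat_lit 201)))))) (XT.nd (nat_lit 390) (nat_lit 0) (nat_lit 0) (XT.nd (nat_lit 156) (nat_lit 0) (nat_lit 0) (XT.nd (nat_lit 78) (nat_lit 0) (nat_lit 0) (XT.lf (nat_lit 0) (nat_lit 298186440126)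 (nat_lit 76) (nat_lit 12430855753) (nat_lit 76) (nat_lit 11987320391) (nat_lit 3) (nat_lit 4) (nat_lit 4) (nat_lit 5) (nat_lit 4) (nat_lit 4) (nat_lit 374) (nat_lit 206) (nat_lit 200)) (XT.lf (nat_lit 0) (nat_lit 315339097394) (nat_lit 76) (nat_lit 11920372464) (nat_lit 76) (nat_lit 11414734773) (nat_lit 3) (nat_lit 4) (nat_lit 4) (nat_lit 5) (nat_lit 4) (nat_lit 4) (nat_lit 375) (nat_lit 206) (nat_lit 199))) (XT.nd (nat_lit 78) (nat_lit 0) (nat_lit 0) (XT.lf (nat_lit 0) (nat_lit 333286041882) (nat_lit 76) (nat_lit 11413862836) (nat_lit 76) (nat_lit 10849080069) (nat_lit 3) (nat_lit 4) (nat_lit 4) (nat_lit 5) (nat_lit 4) (nat_lit 4) (nat_lit 376) (nat_lit 206) (nat_lit 198)) (XT.nd (nat_lit 78) (nat_lit 0) (nat_lit 0) (XT.lf (nat_lit 0) (nat_lit 352070004410) (nat_lit 76) (nat_lit 10910120893) (nat_lit 76) (nat_lit 10289009483) (nat_lit 3) (nat_lit 4) (nat_lit 4) (nat_lit 5) (nat_lit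 4) (nat_lit 4) (nat_lit 377) (nat_lit 206) (nat_lit 197)) (XT.lf (nat_lit 0) (nat_lit 371735708698) (nat_lit 76) (nat_lit 10407947250) (nat_lit 76) (nat_lit 9733189513) (nat_lit 3) (nat_lit 4) (nat_lit 4) (nat_lit 5) (nat_lit 4) (nat_lit 4) (nat_lit 378) (nat_lit 206) (nat_lit 196))))) (XT.nd (nat_lit 156) (nat_lit 0) (nat_lit 0) (XT.nd (nat_lit 78) (nat_lit 0) (nat_lit 0) (XT.lf (nat_lit 0) (nat_lit 392329977851) (nat_lit 76) (nat_lit 9906146256) (nat_lit 76) (nat_lit 9180296779) (nat_lit 3) (nat_lit 4) (nat_lit 4) (nat_lit 5) (nat_lit 4) (nat_lit 4) (nat_lit 379) (nat_lit 206) (nat_lit 195)) (XT.lf (nat_lit 0) (nat_lit 413901845844) (nat_lit 76) (nat_lit 9403523145) (nat_lit 76) (nat_lit 8629014868) (nat_lit 3) (nat_lit 4) (nat_lit 4) (nat_lit 5) (nat_lit 4) (nat_lit 4) (nat_lit 380) (nat_lit 206) (nat_lit 194))) (XT.nd (nat_lit 78) (nat_lit 0) (nat_lit 0) (XT.lf (nat_lit 0) (nat_lit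 436502674268) (nat_lit 76) (nat_lit 8898881197) (nat_lit 76) (nat_lit 8078031205) (nat_lit 3) (nat_lit 4) (nat_lit 4) (nat_lit 5) (nat_lit 4) (nat_lit 4) (nat_lit 381) (nat_lit 206) (nat_lit 193)) (XT.nd (nat_lit 78) (nat_lit 0) (nat_lit 0) (XT.lf (nat_lit 0) (nat_lit 460186274618) (nat_lit 76) (nat_lit 8391018882) (nat_lit 76) (nat_lit 7526033925) (nat_lit 3) (nat_lit 4) (nat_lit 4) (nat_lit 5) (nat_lit 4) (nat_lit 4) (nat_lit 382) (nat_lit 206) (nat_lit 192)) (XT.lf (nat_lit 0) (nat_lit 485009036419) (nat_lit 76) (nat_lit 7878727006) (nat_lit 76) (nat_lit 6971708747) (nat_lit 3) (nat_lit 4) (nat_lit 4) (nat_lit 5) (nat_lit 4) (nat_lit 4) (nat_lit 383) (nat_lit 206) (nat_lit 191))))))) (XT.nd (nat_lit 39468) (nat_lit 0) (nat_lit 0) (XT.nd (nat_lit 390) (nat_lit 0) (nat_lit 0) (XT.nd (nat_lit 156) (nat_lit 0) (nat_lit 0) (XT.nd (nat_lit 78) (nat_lit 0) (nat_lit 0) (XT.lf (nat_lit 0)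 (nat_lit 511030061486) (nat_lit 76) (nat_lit 7360785825) (nat_lit 76) (nat_lit 6413735851) (nat_lit 3) (nat_lit 4) (nat_lit 4) (nat_lit 5) (nat_lit 4) (nat_lit 4) (nat_lit 384) (nat_lit 206) (nat_lit 190)) (XT.lf (nat_lit 0) (nat_lit 538311304638) (nat_lit 76) (nat_lit 6835962145) (nat_lit 76) (nat_lit 5850786728) (nat_lit 3) (nat_lit 4) (nat_lit 4) (nat_lit 5) (nat_lit 4) (nat_lit 4) (nat_lit 385) (nat_lit 206) (nat_lit 189))) (XT.nd (nat_lit 78) (nat_lit 0) (nat_lit 0) (XT.lf (nat_lit 0) (nat_lit 566917721218) (nat_lit 76) (nat_lit 6303006388) (nat_lit 76) (nat_lit 5281521025) (nat_lit 3) (nat_lit 4) (nat_lit 4) (nat_lit 5) (nat_lit 4) (nat_lit 4) (nat_lit 386) (nat_lit 206) (nat_lit 188)) (XT.nd (nat_lit 78) (nat_lit 0) (nat_lit 0) (XT.lf (nat_lit 0) (nat_lit 596917421742) (nat_lit 76) (nat_lit 5760649610) (nat_lit 76) (nat_lit 4704583347) (nat_lit 3) (nat_lit 4) (nat_lit 4) (nat_lit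 5) (nat_lit 4) (nat_lit 4) (nat_lit 387) (nat_lit 206) (nat_lit 187)) (XT.lf (nat_lit 0) (nat_lit 628381834066) (nat_lit 76) (nat_lit 5207600486) (nat_lit 76) (nat_lit 4118600031) (nat_lit 3) (nat_lit 4) (nat_lit 4) (nat_lit 5) (nat_lit 4) (nat_lit 4) (nat_lit 388) (nat_lit 206) (nat_lit 186))))) (XT.nd (nat_lit 38844) (nat_lit 0) (nat_lit 0) (XT.nd (nat_lit 78) (nat_lit 0) (nat_lit 0) (XT.lf (nat_lit 0) (nat_lit 661385873460) (nat_lit 76) (nat_lit 4642542233) (nat_lit 76) (nat_lit 3522175881) (nat_lit 3) (nat_lit 4) (nat_lit 4) (nat_lit 5) (nat_lit 4) (nat_lit 4) (nat_lit 389) (nat_lit 206) (nat_lit 185)) (XT.lf (nat_lit 0) (nat_lit 696008120968) (nat_lit 76) (nat_lit 4064129472) (nat_lit 76) (nat_lit 2913890839) (nat_lit 3) (nat_lit 4) (nat_lit 4) (nat_lit 5) (nat_lit 4) (nat_lit 4) (nat_lit 390) (nat_lit 206) (nat_lit 184))) (XT.nd (nat_lit 78) (nat_lit 0) (nat_lit 0) (XT.lf (nat_lit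 0) (nat_lit 92529269162) (nat_lit 76) (nat_lit 8436545383) (nat_lit 76) (nat_lit 8436545383) (nat_lit 3) (nat_lit 4) (nat_lit 4) (nat_lit 5) (nat_lit 4) (nat_lit 4) (nat_lit 366) (nat_lit 207) (nat_lit 207)) (XT.nd (nat_lit 78) (nat_lit 0) (nat_lit 0) (XT.lf (nat_lit 0) (nat_lit 197142003144) (nat_lit 76) (nat_lit 16306910522) (nat_lit 76) (nat_lit 16219526308) (nat_lit 3) (nat_lit 4) (nat_lit 4) (nat_lit 5) (nat_lit 4) (nat_lit 4) (nat_lit 367) (nat_lit 207) (nat_lit 206)) (XT.lf (nat_lit 0) (nat_lit 209740507524) (nat_lit 76) (nat_lit 15753927668) (nat_lit 76) (nat_lit 15583320393) (nat_lit 3) (nat_lit 4) (nat_lit 4) (nat_lit 5) (nat_lit 4) (nat_lit 4) (nat_lit 368) (nat_lit 207) (nat_lit 205)))))) (XT.nd (nat_lit 390) (nat_lit 0) (nat_lit 0) (XT.nd (nat_lit 156) (nat_lit 0) (nat_lit 0) (XT.nd (nat_lit 78) (nat_lit 0) (nat_lit 0) (XT.lf (nat_lit 0) (nat_lit 222884047901) (nat_lit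 76) (nat_lit 15212825578) (nat_lit 76) (nat_lit 14962958245) (nat_lit 3) (nat_lit 4) (nat_lit 4) (nat_lit 5) (nat_lit 4) (nat_lit 4) (nat_lit 369) (nat_lit 207) (nat_lit 204)) (XT.lf (nat_lit 0) (nat_lit 236603918420) (nat_lit 76) (nat_lit 14682315914) (nat_lit 76) (nat_lit 14356962811) (nat_lit 3) (nat_lit 4) (nat_lit 4) (nat_lit 5) (nat_lit 4) (nat_lit 4) (nat_lit 370) (nat_lit 207) (nat_lit 203))) (XT.nd (nat_lit 78) (nat_lit 0) (nat_lit 0) (XT.lf (nat_lit 0) (nat_lit 250932785439) (nat_lit 76) (nat_lit 14161135557) (nat_lit 76) (nat_lit 13763891246) (nat_lit 3) (nat_lit 4) (nat_lit 4) (nat_lit 5) (nat_lit 4) (nat_lit 4) (nat_lit 371) (nat_lit 207) (nat_lit 202)) (XT.nd (nat_lit 78) (nat_lit 0) (nat_lit 0) (XT.lf (nat_lit 0) (nat_lit 265904765308) (nat_lit 76) (nat_lit 13648043603) (nat_lit 76) (nat_lit 13182331473) (nat_lit 3) (nat_lit 4) (nat_lit 4) (nat_lit 5) (nat_lit 4) (nat_lit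 4) (nat_lit 372) (nat_lit 207) (nat_lit 201)) (XT.lf (nat_lit 0) (nat_lit 281555505598) (nat_lit 76) (nat_lit 13141818402) (nat_lit 76) (nat_lit 12610898827) (nat_lit 3) (nat_lit 4) (nat_lit 4) (nat_lit 5) (nat_lit 4) (nat_lit 4) (nat_lit 373) (nat_lit 207) (nat_lit 200))))) (XT.nd (nat_lit 156) (nat_lit 0) (nat_lit 0) (XT.nd (nat_lit 78) (nat_lit 0) (nat_lit 0) (XT.lf (nat_lit 0) (nat_lit 297922269977) (nat_lit 76) (nat_lit 12641254659) (nat_lit 76) (nat_lit 12048232754) (nat_lit 3) (nat_lit 4) (nat_lit 4) (nat_lit 5) (nat_lit 4) (nat_lit 4) (nat_lit 374) (nat_lit 207) (nat_lit 199)) (XT.lf (nat_lit 0) (nat_lit 315044026931) (nat_lit 76) (nat_lit 12145160553) (nat_lit 76) (nat_lit 11492993572) (nat_lit 3) (nat_lit 4) (nat_lit 4) (nat_lit 5) (nat_lit 4) (nat_lit 4) (nat_lit 375) (nat_lit 207) (nat_lit 198))) (XT.nd (nat_lit 78) (nat_lit 0) (nat_lit 0) (XT.lf (nat_lit 0) (nat_lit 332961542549)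 (nat_lit 76) (nat_lit 11652354909) (nat_lit 76) (nat_lit 10943859285) (nat_lit 3) (nat_lit 4) (nat_lit 4) (nat_lit 5) (nat_lit 4) (nat_lit 4) (nat_lit 376) (nat_lit 207) (nat_lit 197)) (XT.nd (nat_lit 78) (nat_lit 0) (nat_lit 0) (XT.lf (nat_lit 0) (nat_lit 351717477581) (nat_lit 76) (nat_lit 11161664379) (nat_lit 76) (nat_lit 10399522428) (nat_lit 3) (nat_lit 4) (nat_lit 4) (nat_lit 5) (nat_lit 4) (nat_lit 4) (nat_lit 377) (nat_lit 207) (nat_lit 196)) (XT.lf (nat_lit 0) (nat_lit 371356489015) (nat_lit 76) (nat_lit 10671920653) (nat_lit 76) (nat_lit 9858686962) (nat_lit 3) (nat_lit 4) (nat_lit 4) (nat_lit 5) (nat_lit 4) (nat_lit 4) (nat_lit 378) (nat_lit 207) (nat_lit 195))))))))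
noncomputable def xc4 : XT := (XT.nd (nat_lit 40014) (nat_lit 0) (nat_lit 0) (XT.nd (nat_lit 702) (nat_lit 0) (nat_lit 0) (XT.nd (nat_lit 312) (nat_lit 0) (nat_lit 0) (XT.nd (nat_lit 156) (nat_lit 0) (nat_lit 0) (XT.nd (nat_lit 78) (nat_lit 0) (nat_lit 0) (XT.lf (nat_lit 0) (nat_lit 391925336404) (nat_lit 76) (nat_lit 10181957675) (nat_lit 76) (nat_lit 9320065184) (nat_lit 3) (nat_lit 4) (nat_lit 4) (nat_lit 5) (nat_lit 4) (nat_lit 4) (nat_lit 379) (nat_lit 207) (nat_lit 194)) (XT.lf (nat_lit 0) (nat_lit 413472993193) (nat_lit 76) (nat_lit 9690608866) (nat_lit 76) (nat_lit 8782374661) (nat_lit 3) (nat_lit 4) (nat_lit 4) (nat_lit 5) (nat_lit 4) (nat_lit 4) (nat_lit 380) (nat_lit 207) (nat_lit 193))) (XT.nd (nat_lit 78) (nat_lit 0) (nat_lit 0) (XT.lf (nat_lit 0) (nat_lit 436050763326) (nat_lit 76) (nat_lit 9196704348) (nat_lit 76) (nat_lit 8244335176) (nat_lit 3) (nat_lit 4) (nat_lit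 4) (nat_lit 5) (nat_lit 4) (nat_lit 4) (nat_lit 381) (nat_lit 207) (nat_lit 192)) (XT.lf (nat_lit 0) (nat_lit 459712403400) (nat_lit 76) (nat_lit 8699068157) (nat_lit 76) (nat_lit 7704665684) (nat_lit 3) (nat_lit 4) (nat_lit 4) (nat_lit 5) (nat_lit 4) (nat_lit 4) (nat_lit 382) (nat_lit 207) (nat_lit 191)))) (XT.nd (nat_lit 156) (nat_lit 0) (nat_lit 0) (XT.nd (nat_lit 78) (nat_lit 0) (nat_lit 0) (XT.lf (nat_lit 0) (nat_lit 484514250653) (nat_lit 76) (nat_lit 8196515446) (nat_lit 76) (nat_lit 7162081258) (nat_lit 3) (nat_lit 4) (nat_lit 4) (nat_lit 5) (nat_lit 4) (nat_lit 4) (nat_lit 383) (nat_lit 207) (nat_lit 190)) (XT.lf (nat_lit 0) (nat_lit 510515357101) (nat_lit 76) (nat_lit 7687849660) (nat_lit 76) (nat_lit 6615290029) (nat_lit 3) (nat_lit 4) (nat_lit 4) (nat_lit 5) (nat_lit 4) (nat_lit 4) (nat_lit 384) (nat_lit 207) (nat_lit 189))) (XT.nd (nat_lit 78) (nat_lit 0) (nat_lit 0) (XT.lf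 (nat_lit 0) (nat_lit 537777630141) (nat_lit 76) (nat_lit 7171859691) (nat_lit 76) (nat_lit 6062990114) (nat_lit 3) (nat_lit 4) (nat_lit 4) (nat_lit 5) (nat_lit 4) (nat_lit 4) (nat_lit 385) (nat_lit 207) (nat_lit 188)) (XT.nd (nat_lit 78) (nat_lit 0) (nat_lit 0) (XT.lf (nat_lit 0) (nat_lit 566365979948) (nat_lit 76) (nat_lit 6647316991) (nat_lit 76) (nat_lit 5503866514) (nat_lit 3) (nat_lit 4) (nat_lit 4) (nat_lit 5) (nat_lit 4) (nat_lit 4) (nat_lit 386) (nat_lit 207) (nat_lit 187)) (XT.lf (nat_lit 0) (nat_lit 596348474020) (nat_lit 76) (nat_lit 6112972649) (nat_lit 76) (nat_lit 4936587980) (nat_lit 3) (nat_lit 4) (nat_lit 4) (nat_lit 5) (nat_lit 4) (nat_lit 4) (nat_lit 387) (nat_lit 207) (nat_lit 186)))))) (XT.nd (nat_lit 38922) (nat_lit 0) (nat_lit 0) (XT.nd (nat_lit 156) (nat_lit 0) (nat_lit 0) (XT.nd (nat_lit 78) (nat_lit 0) (nat_lit 0) (XT.lf (nat_lit 0) (nat_lit 627796499248) (nat_lit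 76) (nat_lit 5567554416) (nat_lit 76) (nat_lit 4359803851) (nat_lit 3) (nat_lit 4) (nat_lit 4) (nat_lit 5) (nat_lit 4) (nat_lit 4) (nat_lit 388) (nat_lit 207) (nat_lit 185)) (XT.lf (nat_lit 0) (nat_lit 660784931884) (nat_lit 76) (nat_lit 5009763677) (nat_lit 76) (nat_lit 3772140830) (nat_lit 3) (nat_lit 4) (nat_lit 4) (nat_lit 5) (nat_lit 4) (nat_lit 4) (nat_lit 389) (nat_lit 207) (nat_lit 184))) (XT.nd (nat_lit 38610) (nat_lit 0) (nat_lit 0) (XT.lf (nat_lit 0) (nat_lit 695392315813) (nat_lit 76) (nat_lit 4438272360) (nat_lit 76) (nat_lit 3172199720) (nat_lit 3) (nat_lit 4) (nat_lit 4) (nat_lit 5) (nat_lit 4) (nat_lit 4) (nat_lit 390) (nat_lit 207) (nat_lit 183)) (XT.nd (nat_lit 78) (nat_lit 0) (nat_lit 0) (XT.lf (nat_lit 0) (nat_lit 81185370528) (nat_lit 76) (nat_lit 9059950664) (nat_lit 76) (nat_lit 9059950664) (nat_lit 3) (nat_lit 4) (nat_lit 4) (nat_lit 5) (nat_lit 4) (nat_lit 4)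 (nat_lit 364) (nat_lit 208) (nat_lit 208)) (XT.lf (nat_lit 0) (nat_lit 173461342908) (nat_lit 76) (nat_lit 17545569873) (nat_lit 76) (nat_lit 17453816449) (nat_lit 3) (nat_lit 4) (nat_lit 4) (nat_lit 5) (nat_lit 4) (nat_lit 4) (nat_lit 365) (nat_lit 208) (nat_lit 207))))) (XT.nd (nat_lit 156) (nat_lit 0) (nat_lit 0) (XT.nd (nat_lit 78) (nat_lit 0) (nat_lit 0) (XT.lf (nat_lit 0) (nat_lit 185012884487) (nat_lit 76) (nat_lit 16986103568) (nat_lit 76) (nat_lit 16806965929) (nat_lit 3) (nat_lit 4) (nat_lit 4) (nat_lit 5) (nat_lit 4) (nat_lit 4) (nat_lit 366) (nat_lit 208) (nat_lit 206)) (XT.lf (nat_lit 0) (nat_lit 197052869462) (nat_lit 76) (nat_lit 16440170349) (nat_lit 76) (nat_lit 16177809649) (nat_lit 3) (nat_lit 4) (nat_lit 4) (nat_lit 5) (nat_lit 4) (nat_lit 4) (nat_lit 367) (nat_lit 208) (nat_lit 205))) (XT.nd (nat_lit 78) (nat_lit 0) (nat_lit 0) (XT.lf (nat_lit 0) (nat_lit 209609964465)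 (nat_lit 76) (nat_lit 15906470376) (nat_lit 76) (nat_lit 15564849619) (nat_lit 3) (nat_lit 4) (nat_lit 4) (nat_lit 5) (nat_lit 4) (nat_lit 4) (nat_lit 368) (nat_lit 208) (nat_lit 204)) (XT.nd (nat_lit 78) (nat_lit 0) (nat_lit 0) (XT.lf (nat_lit 0) (nat_lit 222714067342) (nat_lit 76) (nat_lit 15383732935) (nat_lit 76) (nat_lit 14966626408) (nat_lit 3) (nat_lit 4) (nat_lit 4) (nat_lit 5) (nat_lit 4) (nat_lit 4) (nat_lit 369) (nat_lit 208) (nat_lit 203)) (XT.lf (nat_lit 0) (nat_lit 236396378336) (nat_lit 76) (nat_lit 14870713413) (nat_lit 76) (nat_lit 14381715677) (nat_lit 3) (nat_lit 4) (nat_lit 4) (nat_lit 5) (nat_lit 4) (nat_lit 4) (nat_lit 370) (nat_lit 208) (nat_lit 202))))))) (XT.nd (nat_lit 780) (nat_lit 0) (nat_lit 0) (XT.nd (nat_lit 390) (nat_lit 0) (nat_lit 0) (XT.nd (nat_lit 156) (nat_lit 0) (nat_lit 0) (XT.nd (nat_lit 78) (nat_lit 0) (nat_lit 0) (XT.lf (nat_lit 0) (nat_lit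 250689474379) (nat_lit 76) (nat_lit 14366190334) (nat_lit 76) (nat_lit 13808724780) (nat_lit 3) (nat_lit 4) (nat_lit 4) (nat_lit 5) (nat_lit 4) (nat_lit 4) (nat_lit 371) (nat_lit 208) (nat_lit 201)) (XT.lf (nat_lit 0) (nat_lit 265627386652) (nat_lit 76) (nat_lit 13868962454) (nat_lit 76) (nat_lit 13246289454) (nat_lit 3) (nat_lit 4) (nat_lit 4) (nat_lit 5) (nat_lit 4) (nat_lit 4) (nat_lit 372) (nat_lit 208) (nat_lit 200))) (XT.nd (nat_lit 78) (nat_lit 0) (nat_lit 0) (XT.lf (nat_lit 0) (nat_lit 281245681612) (nat_lit 76) (nat_lit 13377845896) (nat_lit 76) (nat_lit 12693070566) (nat_lit 3) (nat_lit 4) (nat_lit 4) (nat_lit 5) (nat_lit 4) (nat_lit 4) (nat_lit 373) (nat_lit 208) (nat_lit 199)) (XT.nd (nat_lit 78) (nat_lit 0) (nat_lit 0) (XT.lf (nat_lit 0) (nat_lit 297581545677) (nat_lit 76) (nat_lit 12891671335) (nat_lit 76) (nat_lit 12147750930) (nat_lit 3) (nat_lit 4) (nat_lit 4) (nat_lit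 5) (nat_lit 4) (nat_lit 4) (nat_lit 374) (nat_lit 208) (nat_lit 198)) (XT.lf (nat_lit 0) (nat_lit 314673873761) (nat_lit 76) (nat_lit 12409281213) (nat_lit 76) (nat_lit 11609032165) (nat_lit 3) (nat_lit 4) (nat_lit 4) (nat_lit 5) (nat_lit 4) (nat_lit 4) (nat_lit 375) (nat_lit 208) (nat_lit 197))))) (XT.nd (nat_lit 156) (nat_lit 0) (nat_lit 0) (XT.nd (nat_lit 78) (nat_lit 0) (nat_lit 0) (XT.lf (nat_lit 0) (nat_lit 332563361882) (nat_lit 76) (nat_lit 11929526982) (nat_lit 76) (nat_lit 11075631606) (nat_lit 3) (nat_lit 4) (nat_lit 4) (nat_lit 5) (nat_lit 4) (nat_lit 4) (nat_lit 376) (nat_lit 208) (nat_lit 196)) (XT.lf (nat_lit 0) (nat_lit 351292604061) (nat_lit 76) (nat_lit 11451266370) (nat_lit 76) (nat_lit 10546279254) (nat_lit 3) (nat_lit 4) (nat_lit 4) (nat_lit 5) (nat_lit 4) (nat_lit 4) (nat_lit 377) (nat_lit 208) (nat_lit 195))) (XT.nd (nat_lit 78) (nat_lit 0) (nat_lit 0) (XT.lf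 (nat_lit 0) (nat_lit 370906193731) (nat_lit 76) (nat_lit 10973360661) (nat_lit 76) (nat_lit 10019714745) (nat_lit 3) (nat_lit 4) (nat_lit 4) (nat_lit 5) (nat_lit 4) (nat_lit 4) (nat_lit 378) (nat_lit 208) (nat_lit 194)) (XT.nd (nat_lit 78) (nat_lit 0) (nat_lit 0) (XT.lf (nat_lit 0) (nat_lit 391450829915) (nat_lit 76) (nat_lit 10494671984) (nat_lit 76) (nat_lit 9494684354) (nat_lit 3) (nat_lit 4) (nat_lit 4) (nat_lit 5) (nat_lit 4) (nat_lit 4) (nat_lit 379) (nat_lit 208) (nat_lit 193)) (XT.lf (nat_lit 0) (nat_lit 412975428414) (nat_lit 76) (nat_lit 10014060604) (nat_lit 76) (nat_lit 8969938008) (nat_lit 3) (nat_lit 4) (nat_lit 4) (nat_lit 5) (nat_lit 4) (nat_lit 4) (nat_lit 380) (nat_lit 208) (nat_lit 192)))))) (XT.nd (nat_lit 390) (nat_lit 0) (nat_lit 0) (XT.nd (nat_lit 156) (nat_lit 0) (nat_lit 0) (XT.nd (nat_lit 78) (nat_lit 0) (nat_lit 0) (XT.lf (nat_lit 0) (nat_lit 435531238271)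 (nat_lit 76) (nat_lit 9530382210) (nat_lit 76) (nat_lit 8444226313) (nat_lit 3) (nat_lit 4) (nat_lit 4) (nat_lit 5) (nat_lit 4) (nat_lit 4) (nat_lit 381) (nat_lit 208) (nat_lit 191)) (XT.lf (nat_lit 0) (nat_lit 459171963796) (nat_lit 76) (nat_lit 9042485184) (nat_lit 76) (nat_lit 7916297572) (nat_lit 3) (nat_lit 4) (nat_lit 4) (nat_lit 5) (nat_lit 4) (nat_lit 4) (nat_lit 382) (nat_lit 208) (nat_lit 190))) (XT.nd (nat_lit 78) (nat_lit 0) (nat_lit 0) (XT.lf (nat_lit 0) (nat_lit 483953892431) (nat_lit 76) (nat_lit 8549207869) (nat_lit 76) (nat_lit 7384894813) (nat_lit 3) (nat_lit 4) (nat_lit 4) (nat_lit 5) (nat_lit 4) (nat_lit 4) (nat_lit 383) (nat_lit 208) (nat_lit 189)) (XT.nd (nat_lit 78) (nat_lit 0) (nat_lit 0) (XT.lf (nat_lit 0) (nat_lit 509936028767) (nat_lit 76) (nat_lit 8049375794) (nat_lit 76) (nat_lit 6848752792) (nat_lit 3) (nat_lit 4) (nat_lit 4) (nat_lit 5) (nat_lit 4) (nat_lit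 4) (nat_lit 384) (nat_lit 208) (nat_lit 188)) (XT.lf (nat_lit 0) (nat_lit 537180235034) (nat_lit 76) (nat_lit 7541798882) (nat_lit 76) (nat_lit 6306594980) (nat_lit 3) (nat_lit 4) (nat_lit 4) (nat_lit 5) (nat_lit 4) (nat_lit 4) (nat_lit 385) (nat_lit 208) (nat_lit 187))))) (XT.nd (nat_lit 156) (nat_lit 0) (nat_lit 0) (XT.nd (nat_lit 78) (nat_lit 0) (nat_lit 0) (XT.lf (nat_lit 0) (nat_lit 565751378389) (nat_lit 76) (nat_lit 7025268617) (nat_lit 76) (nat_lit 5757130524) (nat_lit 3) (nat_lit 4) (nat_lit 4) (nat_lit 5) (nat_lit 4) (nat_lit 4) (nat_lit 386) (nat_lit 208) (nat_lit 186)) (XT.lf (nat_lit 0) (nat_lit 595717485365) (nat_lit 76) (nat_lit 6498555166) (nat_lit 76) (nat_lit 5199051176) (nat_lit 3) (nat_lit 4) (nat_lit 4) (nat_lit 5) (nat_lit 4) (nat_lit 4) (nat_lit 387) (nat_lit 208) (nat_lit 185))) (XT.nd (nat_lit 78) (nat_lit 0) (nat_lit 0) (XT.lf (nat_lit 0) (nat_lit 627149903835)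 (nat_lit 76) (nat_lit 5960404448) (nat_lit 76) (nat_lit 4631028176) (nat_lit 3) (nat_lit 4) (nat_lit 4) (nat_lit 5) (nat_lit 4) (nat_lit 4) (nat_lit 388) (nat_lit 208) (nat_lit 184)) (XT.nd (nat_lit 78) (nat_lit 0) (nat_lit 0) (XT.lf (nat_lit 0) (nat_lit 660123472891) (nat_lit 76) (nat_lit 5409535153) (nat_lit 76) (nat_lit 4051709088) (nat_lit 3) (nat_lit 4) (nat_lit 4) (nat_lit 5) (nat_lit 4) (nat_lit 4) (nat_lit 389) (nat_lit 208) (nat_lit 183)) (XT.lf (nat_lit 0) (nat_lit 694716701030) (nat_lit 76) (nat_lit 4844635686) (nat_lit 76) (nat_lit 3459714581) (nat_lit 3) (nat_lit 4) (nat_lit 4) (nat_lit 5) (nat_lit 4) (nat_lit 4) (nat_lit 390) (nat_lit 208) (nat_lit 182))))))))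
noncomputable def xc5 : XT := (XT.nd (nat_lit 1482) (nat_lit 0) (nat_lit 0) (XT.nd (nat_lit 702) (nat_lit 0) (nat_lit 0) (XT.nd (nat_lit 312) (nat_lit 0) (nat_lit 0) (XT.nd (nat_lit 156) (nat_lit 0) (nat_lit 0) (XT.nd (nat_lit 78) (nat_lit 0) (nat_lit 0) (XT.lf (nat_lit 0) (nat_lit 70759049855) (nat_lit 76) (nat_lit 9695785396) (nat_lit 76) (nat_lit 9695785396) (nat_lit 3) (nat_lit 4) (nat_lit 4) (nat_lit 5) (nat_lit 4) (nat_lit 4) (nat_lit 362) (nat_lit 209) (nat_lit 209)) (XT.lf (nat_lit 0) (nat_lit 151714672735) (nat_lit 76) (nat_lit 18806806485) (nat_lit 76) (nat_lit 18710465389) (nat_lit 3) (nat_lit 4) (nat_lit 4) (nat_lit 5) (nat_lit 4) (nat_lit 4) (nat_lit 363) (nat_lit 209) (nat_lit 208))) (XT.nd (nat_lit 78) (nat_lit 0) (nat_lit 0) (XT.lf (nat_lit 0) (nat_lit 162322804527) (nat_lit 76) (nat_lit 18238564770) (nat_lit 76) (nat_lit 18050470249) (nat_lit 3) (nat_lit 4) (nat_lit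 4) (nat_lit 5) (nat_lit 4) (nat_lit 4) (nat_lit 364) (nat_lit 209) (nat_lit 207)) (XT.lf (nat_lit 0) (nat_lit 173367752542) (nat_lit 76) (nat_lit 17685492691) (nat_lit 76) (nat_lit 17410013957) (nat_lit 3) (nat_lit 4) (nat_lit 4) (nat_lit 5) (nat_lit 4) (nat_lit 4) (nat_lit 365) (nat_lit 209) (nat_lit 206)))) (XT.nd (nat_lit 156) (nat_lit 0) (nat_lit 0) (XT.nd (nat_lit 78) (nat_lit 0) (nat_lit 0) (XT.lf (nat_lit 0) (nat_lit 184875814276) (nat_lit 76) (nat_lit 17146273411) (nat_lit 76) (nat_lit 16787571616) (nat_lit 3) (nat_lit 4) (nat_lit 4) (nat_lit 5) (nat_lit 4) (nat_lit 4) (nat_lit 366) (nat_lit 209) (nat_lit 205)) (XT.lf (nat_lit 0) (nat_lit 196874389875) (nat_lit 76) (nat_lit 16619623074) (nat_lit 76) (nat_lit 16181661221) (nat_lit 3) (nat_lit 4) (nat_lit 4) (nat_lit 5) (nat_lit 4) (nat_lit 4) (nat_lit 367) (nat_lit 209) (nat_lit 204))) (XT.nd (nat_lit 78) (nat_lit 0) (nat_lit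 0) (XT.lf (nat_lit 0) (nat_lit 209392047377) (nat_lit 76) (nat_lit 16104287750) (nat_lit 76) (nat_lit 15590840127) (nat_lit 3) (nat_lit 4) (nat_lit 4) (nat_lit 5) (nat_lit 4) (nat_lit 4) (nat_lit 368) (nat_lit 209) (nat_lit 203)) (XT.nd (nat_lit 78) (nat_lit 0) (nat_lit 0) (XT.lf (nat_lit 0) (nat_lit 222458590728) (nat_lit 76) (nat_lit 15599040451) (nat_lit 76) (nat_lit 15013701619) (nat_lit 3) (nat_lit 4) (nat_lit 4) (nat_lit 5) (nat_lit 4) (nat_lit 4) (nat_lit 369) (nat_lit 209) (nat_lit 202)) (XT.lf (nat_lit 0) (nat_lit 236105130747) (nat_lit 76) (nat_lit 15102678207) (nat_lit 76) (nat_lit 14448871556) (nat_lit 3) (nat_lit 4) (nat_lit 4) (nat_lit 5) (nat_lit 4) (nat_lit 4) (nat_lit 370) (nat_lit 209) (nat_lit 201)))))) (XT.nd (nat_lit 390) (nat_lit 0) (nat_lit 0) (XT.nd (nat_lit 156) (nat_lit 0) (nat_lit 0) (XT.nd (nat_lit 78) (nat_lit 0) (nat_lit 0) (XT.lf (nat_lit 0) (nat_lit 250364159193)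 (nat_lit 76) (nat_lit 14614019202) (nat_lit 76) (nat_lit 13895005106) (nat_lit 3) (nat_lit 4) (nat_lit 4) (nat_lit 5) (nat_lit 4) (nat_lit 4) (nat_lit 371) (nat_lit 209) (nat_lit 200)) (XT.lf (nat_lit 0) (nat_lit 265269626137) (nat_lit 76) (nat_lit 14131899964) (nat_lit 76) (nat_lit 13350783539) (nat_lit 3) (nat_lit 4) (nat_lit 4) (nat_lit 5) (nat_lit 4) (nat_lit 4) (nat_lit 372) (nat_lit 209) (nat_lit 199))) (XT.nd (nat_lit 78) (nat_lit 0) (nat_lit 0) (XT.lf (nat_lit 0) (nat_lit 280857020783) (nat_lit 76) (nat_lit 13655172589) (nat_lit 76) (nat_lit 12814911088) (nat_lit 3) (nat_lit 4) (nat_lit 4) (nat_lit 5) (nat_lit 4) (nat_lit 4) (nat_lit 373) (nat_lit 209) (nat_lit 198)) (XT.nd (nat_lit 78) (nat_lit 0) (nat_lit 0) (XT.lf (nat_lit 0) (nat_lit 297163455978) (nat_lit 76) (nat_lit 13182702012) (nat_lit 76) (nat_lit 12286111868) (nat_lit 3) (nat_lit 4) (nat_lit 4) (nat_lit 5) (nat_lit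 4) (nat_lit 4) (nat_lit 374) (nat_lit 209) (nat_lit 197)) (XT.lf (nat_lit 0) (nat_lit 314227756565) (nat_lit 76) (nat_lit 12713363303) (nat_lit 76) (nat_lit 11763126832) (nat_lit 3) (nat_lit 4) (nat_lit 4) (nat_lit 5) (nat_lit 4) (nat_lit 4) (nat_lit 375) (nat_lit 209) (nat_lit 196))))) (XT.nd (nat_lit 156) (nat_lit 0) (nat_lit 0) (XT.nd (nat_lit 78) (nat_lit 0) (nat_lit 0) (XT.lf (nat_lit 0) (nat_lit 332090551834) (nat_lit 76) (nat_lit 12246038989) (nat_lit 76) (nat_lit 11244710778) (nat_lit 3) (nat_lit 4) (nat_lit 4) (nat_lit 5) (nat_lit 4) (nat_lit 4) (nat_lit 376) (nat_lit 209) (nat_lit 195)) (XT.lf (nat_lit 0) (nat_lit 350794372248) (nat_lit 76) (nat_lit 11779616394) (nat_lit 76) (nat_lit 10729629382) (nat_lit 3) (nat_lit 4) (nat_lit 4) (nat_lit 5) (nat_lit 4) (nat_lit 4) (nat_lit 377) (nat_lit 209) (nat_lit 194))) (XT.nd (nat_lit 78) (nat_lit 0) (nat_lit 0) (XT.lf (nat_lit 0)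 (nat_lit 370383750714) (nat_lit 76) (nat_lit 11312984986) (nat_lit 76) (nat_lit 10216656260) (nat_lit 3) (nat_lit 4) (nat_lit 4) (nat_lit 5) (nat_lit 4) (nat_lit 4) (nat_lit 378) (nat_lit 209) (nat_lit 193)) (XT.nd (nat_lit 78) (nat_lit 0) (nat_lit 0) (XT.lf (nat_lit 0) (nat_lit 390905328608) (nat_lit 76) (nat_lit 10845033739) (nat_lit 76) (nat_lit 9704570047) (nat_lit 3) (nat_lit 4) (nat_lit 4) (nat_lit 5) (nat_lit 4) (nat_lit 4) (nat_lit 379) (nat_lit 209) (nat_lit 192)) (XT.lf (nat_lit 0) (nat_lit 412407966830) (nat_lit 76) (nat_lit 10374648483) (nat_lit 76) (nat_lit 9192151490) (nat_lit 3) (nat_lit 4) (nat_lit 4) (nat_lit 5) (nat_lit 4) (nat_lit 4) (nat_lit 380) (nat_lit 209) (nat_lit 191))))))) (XT.nd (nat_lit 39000) (nat_lit 0) (nat_lit 0) (XT.nd (nat_lit 390) (nat_lit 0) (nat_lit 0) (XT.nd (nat_lit 156) (nat_lit 0) (nat_lit 0) (XT.nd (nat_lit 78) (nat_lit 0) (nat_lit 0) (XT.lf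 (nat_lit 0) (nat_lit 434942862138) (nat_lit 76) (nat_lit 9900709254) (nat_lit 76) (nat_lit 8678180546) (nat_lit 3) (nat_lit 4) (nat_lit 4) (nat_lit 5) (nat_lit 4) (nat_lit 4) (nat_lit 381) (nat_lit 209) (nat_lit 190)) (XT.lf (nat_lit 0) (nat_lit 458563669045) (nat_lit 76) (nat_lit 9422087624) (nat_lit 76) (nat_lit 8161433473) (nat_lit 3) (nat_lit 4) (nat_lit 4) (nat_lit 5) (nat_lit 4) (nat_lit 4) (nat_lit 382) (nat_lit 209) (nat_lit 189))) (XT.nd (nat_lit 78) (nat_lit 0) (nat_lit 0) (XT.lf (nat_lit 0) (nat_lit 483326627568) (nat_lit 76) (nat_lit 8937644019) (nat_lit 76) (nat_lit 7640679922) (nat_lit 3) (nat_lit 4) (nat_lit 4) (nat_lit 5) (nat_lit 4) (nat_lit 4) (nat_lit 383) (nat_lit 209) (nat_lit 188)) (XT.nd (nat_lit 78) (nat_lit 0) (nat_lit 0) (XT.lf (nat_lit 0) (nat_lit 509290697130) (nat_lit 76) (nat_lit 8446225001) (nat_lit 76) (nat_lit 7114680003) (nat_lit 3) (nat_lit 4) (nat_lit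 4) (nat_lit 5) (nat_lit 4) (nat_lit 4) (nat_lit 384) (nat_lit 209) (nat_lit 187)) (XT.lf (nat_lit 0) (nat_lit 536517696946) (nat_lit 76) (nat_lit 7946660525) (nat_lit 76) (nat_lit 6582181335) (nat_lit 3) (nat_lit 4) (nat_lit 4) (nat_lit 5) (nat_lit 4) (nat_lit 4) (nat_lit 385) (nat_lit 209) (nat_lit 186))))) (XT.nd (nat_lit 156) (nat_lit 0) (nat_lit 0) (XT.nd (nat_lit 78) (nat_lit 0) (nat_lit 0) (XT.lf (nat_lit 0) (nat_lit 565072453205) (nat_lit 76) (nat_lit 7437761151) (nat_lit 76) (nat_lit 6041916065) (nat_lit 3) (nat_lit 4) (nat_lit 4) (nat_lit 5) (nat_lit 4) (nat_lit 4) (nat_lit 386) (nat_lit 209) (nat_lit 185)) (XT.lf (nat_lit 0) (nat_lit 595022953422) (nat_lit 76) (nat_lit 6918315215) (nat_lit 76) (nat_lit 5492597847) (nat_lit 3) (nat_lit 4) (nat_lit 4) (nat_lit 5) (nat_lit 4) (nat_lit 4) (nat_lit 387) (nat_lit 209) (nat_lit 184))) (XT.nd (nat_lit 78) (nat_lit 0) (nat_lit 0) (XT.lf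 (nat_lit 0) (nat_lit 626440508313) (nat_lit 76) (nat_lit 6387085940) (nat_lit 76) (nat_lit 4932918780) (nat_lit 3) (nat_lit 4) (nat_lit 4) (nat_lit 5) (nat_lit 4) (nat_lit 4) (nat_lit 388) (nat_lit 209) (nat_lit 183)) (XT.nd (nat_lit 78) (nat_lit 0) (nat_lit 0) (XT.lf (nat_lit 0) (nat_lit 659399921579) (nat_lit 76) (nat_lit 5842808495) (nat_lit 76) (nat_lit 4361546294) (nat_lit 3) (nat_lit 4) (nat_lit 4) (nat_lit 5) (nat_lit 4) (nat_lit 4) (nat_lit 389) (nat_lit 209) (nat_lit 182)) (XT.lf (nat_lit 0) (nat_lit 693979668014) (nat_lit 76) (nat_lit 5284186981) (nat_lit 76) (nat_lit 3777119980) (nat_lit 3) (nat_lit 4) (nat_lit 4) (nat_lit 5) (nat_lit 4) (nat_lit 4) (nat_lit 390) (nat_lit 209) (nat_lit 181)))))) (XT.nd (nat_lit 390) (nat_lit 0) (nat_lit 0) (XT.nd (nat_lit 156) (nat_lit 0) (nat_lit 0) (XT.nd (nat_lit 78) (nat_lit 0) (nat_lit 0) (XT.lf (nat_lit 0) (nat_lit 61158145931) (nat_lit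 76) (nat_lit 10346413395) (nat_lit 76) (nat_lit 10346413395) (nat_lit 3) (nat_lit 4) (nat_lit 4) (nat_lit 5) (nat_lit 4) (nat_lit 4) (nat_lit 360) (nat_lit 210) (nat_lit 210)) (XT.lf (nat_lit 0) (nat_lit 131708807897) (nat_lit 76) (nat_lit 20095408141) (nat_lit 76) (nat_lit 19994249990) (nat_lit 3) (nat_lit 4) (nat_lit 4) (nat_lit 5) (nat_lit 4) (nat_lit 4) (nat_lit 361) (nat_lit 210) (nat_lit 209))) (XT.nd (nat_lit 78) (nat_lit 0) (nat_lit 0) (XT.lf (nat_lit 0) (nat_lit 141467766355) (nat_lit 76) (nat_lit 19516167406) (nat_lit 76) (nat_lit 19318668160) (nat_lit 3) (nat_lit 4) (nat_lit 4) (nat_lit 5) (nat_lit 4) (nat_lit 4) (nat_lit 362) (nat_lit 210) (nat_lit 208)) (XT.nd (nat_lit 78) (nat_lit 0) (nat_lit 0) (XT.lf (nat_lit 0) (nat_lit 151616402851) (nat_lit 76) (nat_lit 18953725444) (nat_lit 76) (nat_lit 18664472773) (nat_lit 3) (nat_lit 4) (nat_lit 4) (nat_lit 5) (nat_lit 4) (nat_lit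 4) (nat_lit 363) (nat_lit 210) (nat_lit 207)) (XT.lf (nat_lit 0) (nat_lit 162178880805) (nat_lit 76) (nat_lit 18406743106) (nat_lit 76) (nat_lit 18030106221) (nat_lit 3) (nat_lit 4) (nat_lit 4) (nat_lit 5) (nat_lit 4) (nat_lit 4) (nat_lit 364) (nat_lit 210) (nat_lit 206))))) (XT.nd (nat_lit 156) (nat_lit 0) (nat_lit 0) (XT.nd (nat_lit 78) (nat_lit 0) (nat_lit 0) (XT.lf (nat_lit 0) (nat_lit 173180348975) (nat_lit 76) (nat_lit 17873918053) (nat_lit 76) (nat_lit 17414058107) (nat_lit 3) (nat_lit 4) (nat_lit 4) (nat_lit 5) (nat_lit 4) (nat_lit 4) (nat_lit 365) (nat_lit 210) (nat_lit 205)) (XT.lf (nat_lit 0) (nat_lit 184647001333) (nat_lit 76) (nat_lit 17353981654) (nat_lit 76) (nat_lit 16814861650) (nat_lit 3) (nat_lit 4) (nat_lit 4) (nat_lit 5) (nat_lit 4) (nat_lit 4) (nat_lit 366) (nat_lit 210) (nat_lit 204))) (XT.nd (nat_lit 78) (nat_lit 0) (nat_lit 0) (XT.lf (nat_lit 0) (nat_lit 196606139431)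 (nat_lit 76) (nat_lit 16845695966) (nat_lit 76) (nat_lit 16231090192) (nat_lit 3) (nat_lit 4) (nat_lit 4) (nat_lit 5) (nat_lit 4) (nat_lit 4) (nat_lit 367) (nat_lit 210) (nat_lit 203)) (XT.nd (nat_lit 78) (nat_lit 0) (nat_lit 0) (XT.lf (nat_lit 0) (nat_lit 209086237409) (nat_lit 76) (nat_lit 16347850784) (nat_lit 76) (nat_lit 15661353801) (nat_lit 3) (nat_lit 4) (nat_lit 4) (nat_lit 5) (nat_lit 4) (nat_lit 4) (nat_lit 368) (nat_lit 210) (nat_lit 202)) (XT.lf (nat_lit 0) (nat_lit 222117009784) (nat_lit 76) (nat_lit 15859260762) (nat_lit 76) (nat_lit 15104295962) (nat_lit 3) (nat_lit 4) (nat_lit 4) (nat_lit 5) (nat_lit 4) (nat_lit 4) (nat_lit 369) (nat_lit 210) (nat_lit 201))))))))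
noncomputable def xc6 : XT := (XT.nd (nat_lit 1482) (nat_lit 0) (nat_lit 0) (XT.nd (nat_lit 702) (nat_lit 0) (nat_lit 0) (XT.nd (nat_lit 312) (nat_lit 0) (nat_lit 0) (XT.nd (nat_lit 156) (nat_lit 0) (nat_lit 0) (XT.nd (nat_lit 78) (nat_lit 0) (nat_lit 0) (XT.lf (nat_lit 0) (nat_lit 235729482206) (nat_lit 76) (nat_lit 15378762592) (nat_lit 76) (nat_lit 14558590346) (nat_lit 3) (nat_lit 4) (nat_lit 4) (nat_lit 5) (nat_lit 4) (nat_lit 4) (nat_lit 370) (nat_lit 210) (nat_lit 200)) (XT.lf (nat_lit 0) (nat_lit 249956065323) (nat_lit 76) (nat_lit 14905212230) (nat_lit 76) (nat_lit 14022937654) (nat_lit 3) (nat_lit 4) (nat_lit 4) (nat_lit 5) (nat_lit 4) (nat_lit 4) (nat_lit 371) (nat_lit 210) (nat_lit 199))) (XT.nd (nat_lit 78) (nat_lit 0) (nat_lit 0) (XT.lf (nat_lit 0) (nat_lit 264830631952) (nat_lit 76) (nat_lit 14437482175) (nat_lit 76) (nat_lit 13496062523) (nat_lit 3) (nat_lit 4) (nat_lit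 4) (nat_lit 5) (nat_lit 4) (nat_lit 4) (nat_lit 372) (nat_lit 210) (nat_lit 198)) (XT.lf (nat_lit 0) (nat_lit 280388597728) (nat_lit 76) (nat_lit 13974458784) (nat_lit 76) (nat_lit 12976710489) (nat_lit 3) (nat_lit 4) (nat_lit 4) (nat_lit 5) (nat_lit 4) (nat_lit 4) (nat_lit 373) (nat_lit 210) (nat_lit 197)))) (XT.nd (nat_lit 156) (nat_lit 0) (nat_lit 0) (XT.nd (nat_lit 78) (nat_lit 0) (nat_lit 0) (XT.lf (nat_lit 0) (nat_lit 296667005427) (nat_lit 76) (nat_lit 13515039620) (nat_lit 76) (nat_lit 12463644998) (nat_lit 3) (nat_lit 4) (nat_lit 4) (nat_lit 5) (nat_lit 4) (nat_lit 4) (nat_lit 374) (nat_lit 210) (nat_lit 196)) (XT.lf (nat_lit 0) (nat_lit 313704613162) (nat_lit 76) (nat_lit 13058130828) (nat_lit 76) (nat_lit 11955644466) (nat_lit 3) (nat_lit 4) (nat_lit 4) (nat_lit 5) (nat_lit 4) (nat_lit 4) (nat_lit 375) (nat_lit 210) (nat_lit 195))) (XT.nd (nat_lit 78) (nat_lit 0) (nat_lit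 0) (XT.lf (nat_lit 0) (nat_lit 331541986665) (nat_lit 76) (nat_lit 12602644531) (nat_lit 76) (nat_lit 11451499369) (nat_lit 3) (nat_lit 4) (nat_lit 4) (nat_lit 5) (nat_lit 4) (nat_lit 4) (nat_lit 376) (nat_lit 210) (nat_lit 194)) (XT.nd (nat_lit 78) (nat_lit 0) (nat_lit 0) (XT.lf (nat_lit 0) (nat_lit 350221595875) (nat_lit 76) (nat_lit 12147496236) (nat_lit 76) (nat_lit 10950009360) (nat_lit 3) (nat_lit 4) (nat_lit 4) (nat_lit 5) (nat_lit 4) (nat_lit 4) (nat_lit 377) (nat_lit 210) (nat_lit 193)) (XT.lf (nat_lit 0) (nat_lit 369787916050) (nat_lit 76) (nat_lit 11691602259) (nat_lit 76) (nat_lit 10449980416) (nat_lit 3) (nat_lit 4) (nat_lit 4) (nat_lit 5) (nat_lit 4) (nat_lit 4) (nat_lit 378) (nat_lit 210) (nat_lit 192)))))) (XT.nd (nat_lit 390) (nat_lit 0) (nat_lit 0) (XT.nd (nat_lit 156) (nat_lit 0) (nat_lit 0) (XT.nd (nat_lit 78) (nat_lit 0) (nat_lit 0) (XT.lf (nat_lit 0) (nat_lit 390287533668)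 (nat_lit 76) (nat_lit 11233877135) (nat_lit 76) (nat_lit 9950221992) (nat_lit 3) (nat_lit 4) (nat_lit 4) (nat_lit 5) (nat_lit 4) (nat_lit 4) (nat_lit 379) (nat_lit 210) (nat_lit 191)) (XT.lf (nat_lit 0) (nat_lit 411769257342) (nat_lit 76) (nat_lit 10773231045) (nat_lit 76) (nat_lit 9449544186) (nat_lit 3) (nat_lit 4) (nat_lit 4) (nat_lit 5) (nat_lit 4) (nat_lit 4) (nat_lit 380) (nat_lit 210) (nat_lit 190))) (XT.nd (nat_lit 78) (nat_lit 0) (nat_lit 0) (XT.lf (nat_lit 0) (nat_lit 434284234032) (nat_lit 76) (nat_lit 10308567212) (nat_lit 76) (nat_lit 8946754910) (nat_lit 3) (nat_lit 4) (nat_lit 4) (nat_lit 5) (nat_lit 4) (nat_lit 4) (nat_lit 381) (nat_lit 210) (nat_lit 189)) (XT.nd (nat_lit 78) (nat_lit 0) (nat_lit 0) (XT.lf (nat_lit 0) (nat_lit 457886070827) (nat_lit 76) (nat_lit 9838779292) (nat_lit 76) (nat_lit 8440657044) (nat_lit 3) (nat_lit 4) (nat_lit 4) (nat_lit 5) (nat_lit 4)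 (nat_lit 4) (nat_lit 382) (nat_lit 210) (nat_lit 188)) (XT.lf (nat_lit 0) (nat_lit 482630962575) (nat_lit 76) (nat_lit 9362748744) (nat_lit 76) (nat_lit 7930045595) (nat_lit 3) (nat_lit 4) (nat_lit 4) (nat_lit 5) (nat_lit 4) (nat_lit 4) (nat_lit 383) (nat_lit 210) (nat_lit 187))))) (XT.nd (nat_lit 156) (nat_lit 0) (nat_lit 0) (XT.nd (nat_lit 78) (nat_lit 0) (nat_lit 0) (XT.lf (nat_lit 0) (nat_lit 508577825687) (nat_lit 76) (nat_lit 8879342161) (nat_lit 76) (nat_lit 7413704822) (nat_lit 3) (nat_lit 4) (nat_lit 4) (nat_lit 5) (nat_lit 4) (nat_lit 4) (nat_lit 384) (nat_lit 210) (nat_lit 186)) (XT.lf (nat_lit 0) (nat_lit 535788438406) (nat_lit 76) (nat_lit 8387408576) (nat_lit 76) (nat_lit 6890405340) (nat_lit 3) (nat_lit 4) (nat_lit 4) (nat_lit 5) (nat_lit 4) (nat_lit 4) (nat_lit 385) (nat_lit 210) (nat_lit 185))) (XT.nd (nat_lit 78) (nat_lit 0) (nat_lit 0) (XT.lf (nat_lit 0) (nat_lit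 564327587907) (nat_lit 76) (nat_lit 7885776718) (nat_lit 76) (nat_lit 6358901199) (nat_lit 3) (nat_lit 4) (nat_lit 4) (nat_lit 5) (nat_lit 4) (nat_lit 4) (nat_lit 386) (nat_lit 210) (nat_lit 184)) (XT.nd (nat_lit 78) (nat_lit 0) (nat_lit 0) (XT.lf (nat_lit 0) (nat_lit 594263224545) (nat_lit 76) (nat_lit 7373252225) (nat_lit 76) (nat_lit 5817926913) (nat_lit 3) (nat_lit 4) (nat_lit 4) (nat_lit 5) (nat_lit 4) (nat_lit 4) (nat_lit 387) (nat_lit 210) (nat_lit 183)) (XT.lf (nat_lit 0) (nat_lit 625666623646) (nat_lit 76) (nat_lit 6848614800) (nat_lit 76) (nat_lit 5266194449) (nat_lit 3) (nat_lit 4) (nat_lit 4) (nat_lit 5) (nat_lit 4) (nat_lit 4) (nat_lit 388) (nat_lit 210) (nat_lit 182))))))) (XT.nd (nat_lit 38844) (nat_lit 0) (nat_lit 0) (XT.nd (nat_lit 38454) (nat_lit 0) (nat_lit 0) (XT.nd (nat_lit 38220) (nat_lit 0) (nat_lit 0) (XT.nd (nat_lit 78) (nat_lit 0) (nat_lit 0) (XT.lf (nat_lit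 0) (nat_lit 658612555207) (nat_lit 76) (nat_lit 6310615308) (nat_lit 76) (nat_lit 4702390156) (nat_lit 3) (nat_lit 4) (nat_lit 4) (nat_lit 5) (nat_lit 4) (nat_lit 4) (nat_lit 389) (nat_lit 210) (nat_lit 181)) (XT.lf (nat_lit 0) (nat_lit 693179461923) (nat_lit 76) (nat_lit 5757972797) (nat_lit 76) (nat_lit 4125171644) (nat_lit 3) (nat_lit 4) (nat_lit 4) (nat_lit 5) (nat_lit 4) (nat_lit 4) (nat_lit 390) (nat_lit 210) (nat_lit 180))) (XT.nd (nat_lit 78) (nat_lit 0) (nat_lit 0) (XT.lf (nat_lit 0) (nat_lit 52298723145) (nat_lit 76) (nat_lit 11014154681) (nat_lit 76) (nat_lit 11014154681) (nat_lit 3) (nat_lit 4) (nat_lit 4) (nat_lit 5) (nat_lit 4) (nat_lit 4) (nat_lit 358) (nat_lit 211) (nat_lit 211)) (XT.nd (nat_lit 78) (nat_lit 0) (nat_lit 0) (XT.lf (nat_lit 0) (nat_lit 113267855118) (nat_lit 76) (nat_lit 21416061841) (nat_lit 76) (nat_lit 21309845783) (nat_lit 3) (nat_lit 4) (nat_lit 4)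 (nat_lit 5) (nat_lit 4) (nat_lit 4) (nat_lit 359) (nat_lit 211) (nat_lit 210)) (XT.lf (nat_lit 0) (nat_lit 122263441840) (nat_lit 76) (nat_lit 20823653235) (nat_lit 76) (nat_lit 20616279026) (nat_lit 3) (nat_lit 4) (nat_lit 4) (nat_lit 5) (nat_lit 4) (nat_lit 4) (nat_lit 360) (nat_lit 211) (nat_lit 209))))) (XT.nd (nat_lit 156) (nat_lit 0) (nat_lit 0) (XT.nd (nat_lit 78) (nat_lit 0) (nat_lit 0) (XT.lf (nat_lit 0) (nat_lit 131605624519) (nat_lit 76) (nat_lit 20249673048) (nat_lit 76) (nat_lit 19945957743) (nat_lit 3) (nat_lit 4) (nat_lit 4) (nat_lit 5) (nat_lit 4) (nat_lit 4) (nat_lit 361) (nat_lit 211) (nat_lit 208)) (XT.lf (nat_lit 0) (nat_lit 141316646447) (nat_lit 76) (nat_lit 19692754659) (nat_lit 76) (nat_lit 19297285930) (nat_lit 3) (nat_lit 4) (nat_lit 4) (nat_lit 5) (nat_lit 4) (nat_lit 4) (nat_lit 362) (nat_lit 211) (nat_lit 207))) (XT.nd (nat_lit 78) (nat_lit 0) (nat_lit 0)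 (XT.lf (nat_lit 0) (nat_lit 151419629106) (nat_lit 76) (nat_lit 19151572073) (nat_lit 76) (nat_lit 18668719130) (nat_lit 3) (nat_lit 4) (nat_lit 4) (nat_lit 5) (nat_lit 4) (nat_lit 4) (nat_lit 363) (nat_lit 211) (nat_lit 206)) (XT.nd (nat_lit 78) (nat_lit 0) (nat_lit 0) (XT.lf (nat_lit 0) (nat_lit 161938627215) (nat_lit 76) (nat_lit 18624836760) (nat_lit 76) (nat_lit 18058760756) (nat_lit 3) (nat_lit 4) (nat_lit 4) (nat_lit 5) (nat_lit 4) (nat_lit 4) (nat_lit 364) (nat_lit 211) (nat_lit 205)) (XT.lf (nat_lit 0) (nat_lit 172898686009) (nat_lit 76) (nat_lit 18111294589) (nat_lit 76) (nat_lit 17465958527) (nat_lit 3) (nat_lit 4) (nat_lit 4) (nat_lit 5) (nat_lit 4) (nat_lit 4) (nat_lit 365) (nat_lit 211) (nat_lit 204)))))) (XT.nd (nat_lit 390) (nat_lit 0) (nat_lit 0) (XT.nd (nat_lit 156) (nat_lit 0) (nat_lit 0) (XT.nd (nat_lit 78) (nat_lit 0) (nat_lit 0) (XT.lf (nat_lit 0) (nat_lit 184325900866)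 (nat_lit 76) (nat_lit 17609722839) (nat_lit 76) (nat_lit 16888901007) (nat_lit 3) (nat_lit 4) (nat_lit 4) (nat_lit 5) (nat_lit 4) (nat_lit 4) (nat_lit 366) (nat_lit 211) (nat_lit 203)) (XT.lf (nat_lit 0) (nat_lit 196247479439) (nat_lit 76) (nat_lit 17118927293) (nat_lit 76) (nat_lit 16326214252) (nat_lit 3) (nat_lit 4) (nat_lit 4) (nat_lit 5) (nat_lit 4) (nat_lit 4) (nat_lit 367) (nat_lit 211) (nat_lit 202))) (XT.nd (nat_lit 78) (nat_lit 0) (nat_lit 0) (XT.lf (nat_lit 0) (nat_lit 208691806441) (nat_lit 76) (nat_lit 16637739389) (nat_lit 76) (nat_lit 15776558530) (nat_lit 3) (nat_lit 4) (nat_lit 4) (nat_lit 5) (nat_lit 4) (nat_lit 4) (nat_lit 368) (nat_lit 211) (nat_lit 201)) (XT.nd (nat_lit 78) (nat_lit 0) (nat_lit 0) (XT.lf (nat_lit 0) (nat_lit 221688511220) (nat_lit 76) (nat_lit 16165013442) (nat_lit 76) (nat_lit 15238625137) (nat_lit 3) (nat_lit 4) (nat_lit 4) (nat_lit 5) (nat_lit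 4) (nat_lit 4) (nat_lit 369) (nat_lit 211) (nat_lit 200)) (XT.lf (nat_lit 0) (nat_lit 235268538312) (nat_lit 76) (nat_lit 15699623914) (nat_lit 76) (nat_lit 14711133279) (nat_lit 3) (nat_lit 4) (nat_lit 4) (nat_lit 5) (nat_lit 4) (nat_lit 4) (nat_lit 370) (nat_lit 211) (nat_lit 199))))) (XT.nd (nat_lit 156) (nat_lit 0) (nat_lit 0) (XT.nd (nat_lit 78) (nat_lit 0) (nat_lit 0) (XT.lf (nat_lit 0) (nat_lit 249464221115) (nat_lit 76) (nat_lit 15240462734) (nat_lit 76) (nat_lit 14192827025) (nat_lit 3) (nat_lit 4) (nat_lit 4) (nat_lit 5) (nat_lit 4) (nat_lit 4) (nat_lit 371) (nat_lit 211) (nat_lit 198)) (XT.lf (nat_lit 0) (nat_lit 264309358874) (nat_lit 76) (nat_lit 14786436663) (nat_lit 76) (nat_lit 13682472310) (nat_lit 3) (nat_lit 4) (nat_lit 4) (nat_lit 5) (nat_lit 4) (nat_lit 4) (nat_lit 372) (nat_lit 211) (nat_lit 197))) (XT.nd (nat_lit 78) (nat_lit 0) (nat_lit 0) (XT.lf (nat_lit 0)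 (nat_lit 279839297154) (nat_lit 76) (nat_lit 14336464685) (nat_lit 76) (nat_lit 13178854005) (nat_lit 3) (nat_lit 4) (nat_lit 4) (nat_lit 5) (nat_lit 4) (nat_lit 4) (nat_lit 373) (nat_lit 211) (nat_lit 196)) (XT.nd (nat_lit 78) (nat_lit 0) (nat_lit 0) (XT.lf (nat_lit 0) (nat_lit 296091012000) (nat_lit 76) (nat_lit 13889475438) (nat_lit 76) (nat_lit 12680773018) (nat_lit 3) (nat_lit 4) (nat_lit 4) (nat_lit 5) (nat_lit 4) (nat_lit 4) (nat_lit 374) (nat_lit 211) (nat_lit 195)) (XT.lf (nat_lit 0) (nat_lit 313103197970) (nat_lit 76) (nat_lit 13444404663) (nat_lit 76) (nat_lit 12187043443) (nat_lit 3) (nat_lit 4) (nat_lit 4) (nat_lit 5) (nat_lit 4) (nat_lit 4) (nat_lit 375) (nat_lit 211) (nat_lit 194))))))))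
noncomputable def xc7 : XT := (XT.nd (nat_lit 39468) (nat_lit 0) (nat_lit 0) (XT.nd (nat_lit 780) (nat_lit 0) (nat_lit 0) (XT.nd (nat_lit 390) (nat_lit 0) (nat_lit 0) (XT.nd (nat_lit 156) (nat_lit 0) (nat_lit 0) (XT.nd (nat_lit 78) (nat_lit 0) (nat_lit 0) (XT.lf (nat_lit 0) (nat_lit 330916360269) (nat_lit 76) (nat_lit 13000192667) (nat_lit 76) (nat_lit 11696489732) (nat_lit 3) (nat_lit 4) (nat_lit 4) (nat_lit 5) (nat_lit 4) (nat_lit 4) (nat_lit 376) (nat_lit 211) (nat_lit 193)) (XT.lf (nat_lit 0) (nat_lit 349572911188) (nat_lit 76) (nat_lit 12555781803) (nat_lit 76) (nat_lit 11207943902) (nat_lit 3) (nat_lit 4) (nat_lit 4) (nat_lit 5) (nat_lit 4) (nat_lit 4) (nat_lit 377) (nat_lit 211) (nat_lit 192))) (XT.nd (nat_lit 78) (nat_lit 0) (nat_lit 0) (XT.lf (nat_lit 0) (nat_lit 369117271088) (nat_lit 76) (nat_lit 12110113949) (nat_lit 76) (nat_lit 10720242747) (nat_lit 3) (nat_lit 4) (nat_lit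 4) (nat_lit 5) (nat_lit 4) (nat_lit 4) (nat_lit 378) (nat_lit 211) (nat_lit 191)) (XT.nd (nat_lit 78) (nat_lit 0) (nat_lit 0) (XT.lf (nat_lit 0) (nat_lit 389595974156) (nat_lit 76) (nat_lit 11662127991) (nat_lit 76) (nat_lit 10232225074) (nat_lit 3) (nat_lit 4) (nat_lit 4) (nat_lit 5) (nat_lit 4) (nat_lit 4) (nat_lit 379) (nat_lit 211) (nat_lit 190)) (XT.lf (nat_lit 0) (nat_lit 411057779212) (nat_lit 76) (nat_lit 11210757296) (nat_lit 76) (nat_lit 9742728936) (nat_lit 3) (nat_lit 4) (nat_lit 4) (nat_lit 5) (nat_lit 4) (nat_lit 4) (nat_lit 380) (nat_lit 211) (nat_lit 189))))) (XT.nd (nat_lit 156) (nat_lit 0) (nat_lit 0) (XT.nd (nat_lit 78) (nat_lit 0) (nat_lit 0) (XT.lf (nat_lit 0) (nat_lit 433553785790) (nat_lit 76) (nat_lit 10754927173) (nat_lit 76) (nat_lit 9250588867) (nat_lit 3) (nat_lit 4) (nat_lit 4) (nat_lit 5) (nat_lit 4) (nat_lit 4) (nat_lit 381) (nat_lit 211) (nat_lit 188))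 (XT.lf (nat_lit 0) (nat_lit 457137555811) (nat_lit 76) (nat_lit 10293552311) (nat_lit 76) (nat_lit 8754633104) (nat_lit 3) (nat_lit 4) (nat_lit 4) (nat_lit 5) (nat_lit 4) (nat_lit 4) (nat_lit 382) (nat_lit 211) (nat_lit 187))) (XT.nd (nat_lit 78) (nat_lit 0) (nat_lit 0) (XT.lf (nat_lit 0) (nat_lit 481865241109) (nat_lit 76) (nat_lit 9825534198) (nat_lit 76) (nat_lit 8253680800) (nat_lit 3) (nat_lit 4) (nat_lit 4) (nat_lit 5) (nat_lit 4) (nat_lit 4) (nat_lit 383) (nat_lit 211) (nat_lit 186)) (XT.nd (nat_lit 78) (nat_lit 0) (nat_lit 0) (XT.lf (nat_lit 0) (nat_lit 507795717124) (nat_lit 76) (nat_lit 9349758506) (nat_lit 76) (nat_lit 7746539212) (nat_lit 3) (nat_lit 4) (nat_lit 4) (nat_lit 5) (nat_lit 4) (nat_lit 4) (nat_lit 384) (nat_lit 211) (nat_lit 185)) (XT.lf (nat_lit 0) (nat_lit 534990723085) (nat_lit 76) (nat_lit 8865092436) (nat_lit 76) (nat_lit 7232000860) (nat_lit 3) (nat_lit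 4) (nat_lit 4) (nat_lit 5) (nat_lit 4) (nat_lit 4) (nat_lit 385) (nat_lit 211) (nat_lit 184)))))) (XT.nd (nat_lit 38298) (nat_lit 0) (nat_lit 0) (XT.nd (nat_lit 156) (nat_lit 0) (nat_lit 0) (XT.nd (nat_lit 78) (nat_lit 0) (nat_lit 0) (XT.lf (nat_lit 0) (nat_lit 563515009006) (nat_lit 76) (nat_lit 8370382021) (nat_lit 76) (nat_lit 6708840652) (nat_lit 3) (nat_lit 4) (nat_lit 4) (nat_lit 5) (nat_lit 4) (nat_lit 4) (nat_lit 386) (nat_lit 211) (nat_lit 183)) (XT.lf (nat_lit 0) (nat_lit 593436489855) (nat_lit 76) (nat_lit 7864449378) (nat_lit 76) (nat_lit 6175812968) (nat_lit 3) (nat_lit 4) (nat_lit 4) (nat_lit 5) (nat_lit 4) (nat_lit 4) (nat_lit 387) (nat_lit 211) (nat_lit 182))) (XT.nd (nat_lit 78) (nat_lit 0) (nat_lit 0) (XT.lf (nat_lit 0) (nat_lit 624826407251) (nat_lit 76) (nat_lit 7346089907) (nat_lit 76) (nat_lit 5631648696) (nat_lit 3) (nat_lit 4) (nat_lit 4) (nat_lit 5) (nat_lit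 4) (nat_lit 4) (nat_lit 388) (nat_lit 211) (nat_lit 181)) (XT.nd (nat_lit 78) (nat_lit 0) (nat_lit 0) (XT.lf (nat_lit 0) (nat_lit 657759499093) (nat_lit 76) (nat_lit 6814069418) (nat_lit 76) (nat_lit 5075052207) (nat_lit 3) (nat_lit 4) (nat_lit 4) (nat_lit 5) (nat_lit 4) (nat_lit 4) (nat_lit 389) (nat_lit 211) (nat_lit 180)) (XT.lf (nat_lit 0) (nat_lit 692314177506) (nat_lit 76) (nat_lit 6267121195) (nat_lit 76) (nat_lit 4504698269) (nat_lit 3) (nat_lit 4) (nat_lit 4) (nat_lit 5) (nat_lit 4) (nat_lit 4) (nat_lit 390) (nat_lit 211) (nat_lit 179))))) (XT.nd (nat_lit 156) (nat_lit 0) (nat_lit 0) (XT.nd (nat_lit 78) (nat_lit 0) (nat_lit 0) (XT.lf (nat_lit 0) (nat_lit 44104289612) (nat_lit 76) (nat_lit 11701298348) (nat_lit 76) (nat_lit 11701298348) (nat_lit 3) (nat_lit 4) (nat_lit 4) (nat_lit 5) (nat_lit 4) (nat_lit 4) (nat_lit 356) (nat_lit 212) (nat_lit 212)) (XT.lf (nat_lit 0) (nat_lit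 96231571526) (nat_lit 76) (nat_lit 22773380393) (nat_lit 76) (nat_lit 22661853532) (nat_lit 3) (nat_lit 4) (nat_lit 4) (nat_lit 5) (nat_lit 4) (nat_lit 4) (nat_lit 357) (nat_lit 212) (nat_lit 211))) (XT.nd (nat_lit 78) (nat_lit 0) (nat_lit 0) (XT.lf (nat_lit 0) (nat_lit 104541953766) (nat_lit 76) (nat_lit 22165677129) (nat_lit 76) (nat_lit 21947934210) (nat_lit 3) (nat_lit 4) (nat_lit 4) (nat_lit 5) (nat_lit 4) (nat_lit 4) (nat_lit 358) (nat_lit 212) (nat_lit 210)) (XT.nd (nat_lit 78) (nat_lit 0) (nat_lit 0) (XT.lf (nat_lit 0) (nat_lit 113159512570) (nat_lit 76) (nat_lit 21578039994) (nat_lit 76) (nat_lit 21259138924) (nat_lit 3) (nat_lit 4) (nat_lit 4) (nat_lit 5) (nat_lit 4) (nat_lit 4) (nat_lit 359) (nat_lit 212) (nat_lit 209)) (XT.lf (nat_lit 0) (nat_lit 122104765937) (nat_lit 76) (nat_lit 21009069850) (nat_lit 76) (nat_lit 20593827685) (nat_lit 3) (nat_lit 4) (nat_lit 4) (nat_lit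 5) (nat_lit 4) (nat_lit 4) (nat_lit 360) (nat_lit 212) (nat_lit 208))))))) (XT.nd (nat_lit 780) (nat_lit 0) (nat_lit 0) (XT.nd (nat_lit 390) (nat_lit 0) (nat_lit 0) (XT.nd (nat_lit 156) (nat_lit 0) (nat_lit 0) (XT.nd (nat_lit 78) (nat_lit 0) (nat_lit 0) (XT.lf (nat_lit 0) (nat_lit 131399012087) (nat_lit 76) (nat_lit 20457412008) (nat_lit 76) (nat_lit 19950416418) (nat_lit 3) (nat_lit 4) (nat_lit 4) (nat_lit 5) (nat_lit 4) (nat_lit 4) (nat_lit 361) (nat_lit 212) (nat_lit 207)) (XT.lf (nat_lit 0) (nat_lit 141064380178) (nat_lit 76) (nat_lit 19921752997) (nat_lit 76) (nat_lit 19327373192) (nat_lit 3) (nat_lit 4) (nat_lit 4) (nat_lit 5) (nat_lit 4) (nat_lit 4) (nat_lit 362) (nat_lit 212) (nat_lit 206))) (XT.nd (nat_lit 78) (nat_lit 0) (nat_lit 0) (XT.lf (nat_lit 0) (nat_lit 151123882992) (nat_lit 76) (nat_lit 19400817436) (nat_lit 76) (nat_lit 18723214571) (nat_lit 3) (nat_lit 4) (nat_lit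 4) (nat_lit 5) (nat_lit 4) (nat_lit 4) (nat_lit 363) (nat_lit 212) (nat_lit 205)) (XT.nd (nat_lit 78) (nat_lit 0) (nat_lit 0) (XT.lf (nat_lit 0) (nat_lit 161601471725) (nat_lit 76) (nat_lit 18893365005) (nat_lit 76) (nat_lit 18136502082) (nat_lit 3) (nat_lit 4) (nat_lit 4) (nat_lit 5) (nat_lit 4) (nat_lit 4) (nat_lit 364) (nat_lit 212) (nat_lit 204)) (XT.lf (nat_lit 0) (nat_lit 172522093018) (nat_lit 76) (nat_lit 18398187482) (nat_lit 76) (nat_lit 17565838789) (nat_lit 3) (nat_lit 4) (nat_lit 4) (nat_lit 5) (nat_lit 4) (nat_lit 4) (nat_lit 365) (nat_lit 212) (nat_lit 203))))) (XT.nd (nat_lit 156) (nat_lit 0) (nat_lit 0) (XT.nd (nat_lit 78) (nat_lit 0) (nat_lit 0) (XT.lf (nat_lit 0) (nat_lit 183911748350) (nat_lit 76) (nat_lit 17914105874) (nat_lit 76) (nat_lit 17009865972) (nat_lit 3) (nat_lit 4) (nat_lit 4) (nat_lit 5) (nat_lit 4) (nat_lit 4) (nat_lit 366) (nat_lit 212) (nat_lit 202))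 (XT.lf (nat_lit 0) (nat_lit 195797555947) (nat_lit 76) (nat_lit 17439967606) (nat_lit 76) (nat_lit 16467259886) (nat_lit 3) (nat_lit 4) (nat_lit 4) (nat_lit 5) (nat_lit 4) (nat_lit 4) (nat_lit 367) (nat_lit 212) (nat_lit 201))) (XT.nd (nat_lit 78) (nat_lit 0) (nat_lit 0) (XT.lf (nat_lit 0) (nat_lit 208207815352) (nat_lit 76) (nat_lit 16974643776) (nat_lit 76) (nat_lit 15936728610) (nat_lit 3) (nat_lit 4) (nat_lit 4) (nat_lit 5) (nat_lit 4) (nat_lit 4) (nat_lit 368) (nat_lit 212) (nat_lit 200)) (XT.nd (nat_lit 78) (nat_lit 0) (nat_lit 0) (XT.lf (nat_lit 0) (nat_lit 221172074802) (nat_lit 76) (nat_lit 16517026471) (nat_lit 76) (nat_lit 15417008976) (nat_lit 3) (nat_lit 4) (nat_lit 4) (nat_lit 5) (nat_lit 4) (nat_lit 4) (nat_lit 369) (nat_lit 212) (nat_lit 199)) (XT.lf (nat_lit 0) (nat_lit 234721201580) (nat_lit 76) (nat_lit 16066026126) (nat_lit 76) (nat_lit 14906863555) (nat_lit 3) (nat_lit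 4) (nat_lit 4) (nat_lit 5) (nat_lit 4) (nat_lit 4) (nat_lit 370) (nat_lit 212) (nat_lit 198)))))) (XT.nd (nat_lit 390) (nat_lit 0) (nat_lit 0) (XT.nd (nat_lit 156) (nat_lit 0) (nat_lit 0) (XT.nd (nat_lit 78) (nat_lit 0) (nat_lit 0) (XT.lf (nat_lit 0) (nat_lit 248887455512) (nat_lit 76) (nat_lit 15620568931) (nat_lit 76) (nat_lit 14405077716) (nat_lit 3) (nat_lit 4) (nat_lit 4) (nat_lit 5) (nat_lit 4) (nat_lit 4) (nat_lit 371) (nat_lit 212) (nat_lit 197)) (XT.lf (nat_lit 0) (nat_lit 263704565775) (nat_lit 76) (nat_lit 15179594273) (nat_lit 76) (nat_lit 13910456731) (nat_lit 3) (nat_lit 4) (nat_lit 4) (nat_lit 5) (nat_lit 4) (nat_lit 4) (nat_lit 372) (nat_lit 212) (nat_lit 196))) (XT.nd (nat_lit 78) (nat_lit 0) (nat_lit 0) (XT.lf (nat_lit 0) (nat_lit 279207811203) (nat_lit 76) (nat_lit 14742052212) (nat_lit 76) (nat_lit 13421822930) (nat_lit 3) (nat_lit 4) (nat_lit 4) (nat_lit 5) (nat_lit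 4) (nat_lit 4) (nat_lit 373) (nat_lit 212) (nat_lit 195)) (XT.nd (nat_lit 78) (nat_lit 0) (nat_lit 0) (XT.lf (nat_lit 0) (nat_lit 295434104284) (nat_lit 76) (nat_lit 14306900982) (nat_lit 76) (nat_lit 12938012900) (nat_lit 3) (nat_lit 4) (nat_lit 4) (nat_lit 5) (nat_lit 4) (nat_lit 4) (nat_lit 374) (nat_lit 212) (nat_lit 194)) (XT.lf (nat_lit 0) (nat_lit 312422079049) (nat_lit 76) (nat_lit 13873104508) (nat_lit 76) (nat_lit 12457874712) (nat_lit 3) (nat_lit 4) (nat_lit 4) (nat_lit 5) (nat_lit 4) (nat_lit 4) (nat_lit 375) (nat_lit 212) (nat_lit 193))))) (XT.nd (nat_lit 156) (nat_lit 0) (nat_lit 0) (XT.nd (nat_lit 78) (nat_lit 0) (nat_lit 0) (XT.lf (nat_lit 0) (nat_lit 330212183058) (nat_lit 76) (nat_lit 13439629942) (nat_lit 76) (nat_lit 11980265180) (nat_lit 3) (nat_lit 4) (nat_lit 4) (nat_lit 5) (nat_lit 4) (nat_lit 4) (nat_lit 376) (nat_lit 212) (nat_lit 192)) (XT.lf (nat_lit 0) (nat_lit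 348846773701) (nat_lit 76) (nat_lit 13005445201) (nat_lit 76) (nat_lit 11504047138) (nat_lit 3) (nat_lit 4) (nat_lit 4) (nat_lit 5) (nat_lit 4) (nat_lit 4) (nat_lit 377) (nat_lit 212) (nat_lit 191))) (XT.nd (nat_lit 78) (nat_lit 0) (nat_lit 0) (XT.lf (nat_lit 0) (nat_lit 368370219052) (nat_lit 76) (nat_lit 12569516512) (nat_lit 76) (nat_lit 11028086734) (nat_lit 3) (nat_lit 4) (nat_lit 4) (nat_lit 5) (nat_lit 4) (nat_lit 4) (nat_lit 378) (nat_lit 212) (nat_lit 190)) (XT.nd (nat_lit 78) (nat_lit 0) (nat_lit 0) (XT.lf (nat_lit 0) (nat_lit 388829003503) (nat_lit 76) (nat_lit 12130805950) (nat_lit 76) (nat_lit 10551250729) (nat_lit 3) (nat_lit 4) (nat_lit 4) (nat_lit 5) (nat_lit 4) (nat_lit 4) (nat_lit 379) (nat_lit 212) (nat_lit 189)) (XT.lf (nat_lit 0) (nat_lit 410271838446) (nat_lit 76) (nat_lit 11688268966) (nat_lit 76) (nat_lit 10072403799) (nat_lit 3) (nat_lit 4) (nat_lit 4) (nat_lit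 5) (nat_lit 4) (nat_lit 4) (nat_lit 380) (nat_lit 212) (nat_lit 188))))))))
noncomputable def xc8 : XT := (XT.nd (nat_lit 39234) (nat_lit 0) (nat_lit 0) (XT.nd (nat_lit 702) (nat_lit 0) (nat_lit 0) (XT.nd (nat_lit 312) (nat_lit 0) (nat_lit 0) (XT.nd (nat_lit 156) (nat_lit 0) (nat_lit 0) (XT.nd (nat_lit 78) (nat_lit 0) (nat_lit 0) (XT.lf (nat_lit 0) (nat_lit 432749778250) (nat_lit 76) (nat_lit 11240851900) (nat_lit 76) (nat_lit 9590405832) (nat_lit 3) (nat_lit 4) (nat_lit 4) (nat_lit 5) (nat_lit 4) (nat_lit 4) (nat_lit 381) (nat_lit 212) (nat_lit 187)) (XT.lf (nat_lit 0) (nat_lit 456316341820) (nat_lit 76) (nat_lit 10787489473) (nat_lit 76) (nat_lit 9104109214) (nat_lit 3) (nat_lit 4) (nat_lit 4) (nat_lit 5) (nat_lit 4) (nat_lit 4) (nat_lit 382) (nat_lit 212) (nat_lit 186))) (XT.nd (nat_lit 78) (nat_lit 0) (nat_lit 0) (XT.lf (nat_lit 0) (nat_lit 481027640022) (nat_lit 76) (nat_lit 10327102251)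 (nat_lit 76) (nat_lit 8612356096) (nat_lit 3) (nat_lit 4) (nat_lit 4) (nat_lit 5) (nat_lit 4) (nat_lit 4) (nat_lit 383) (nat_lit 212) (nat_lit 185)) (XT.lf (nat_lit 0) (nat_lit 506942509278) (nat_lit 76) (nat_lit 9858594075) (nat_lit 76) (nat_lit 8113975637) (nat_lit 3) (nat_lit 4) (nat_lit 4) (nat_lit 5) (nat_lit 4) (nat_lit 4) (nat_lit 384) (nat_lit 212) (nat_lit 184)))) (XT.nd (nat_lit 156) (nat_lit 0) (nat_lit 0) (XT.nd (nat_lit 78) (nat_lit 0) (nat_lit 0) (XT.lf (nat_lit 0) (nat_lit 534122651660) (nat_lit 76) (nat_lit 9380849448) (nat_lit 76) (nat_lit 7607781217) (nat_lit 3) (nat_lit 4) (nat_lit 4) (nat_lit 5) (nat_lit 4) (nat_lit 4) (nat_lit 385) (nat_lit 212) (nat_lit 183)) (XT.lf (nat_lit 0) (nat_lit 562632781791) (nat_lit 76) (nat_lit 8892730883) (nat_lit 76) (nat_lit 7092567612) (nat_lit 3) (nat_lit 4) (nat_lit 4) (nat_lit 5) (nat_lit 4) (nat_lit 4) (nat_lit 386) (nat_lit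 212) (nat_lit 182))) (XT.nd (nat_lit 78) (nat_lit 0) (nat_lit 0) (XT.lf (nat_lit 0) (nat_lit 592540780935) (nat_lit 76) (nat_lit 8393076193) (nat_lit 76) (nat_lit 6567108122) (nat_lit 3) (nat_lit 4) (nat_lit 4) (nat_lit 5) (nat_lit 4) (nat_lit 4) (nat_lit 387) (nat_lit 212) (nat_lit 181)) (XT.nd (nat_lit 78) (nat_lit 0) (nat_lit 0) (XT.lf (nat_lit 0) (nat_lit 623917858612) (nat_lit 76) (nat_lit 7880695725) (nat_lit 76) (nat_lit 6030151652) (nat_lit 3) (nat_lit 4) (nat_lit 4) (nat_lit 5) (nat_lit 4) (nat_lit 4) (nat_lit 388) (nat_lit 212) (nat_lit 180)) (XT.lf (nat_lit 0) (nat_lit 656838722151) (nat_lit 76) (nat_lit 7354369524) (nat_lit 76) (nat_lit 5480419737) (nat_lit 3) (nat_lit 4) (nat_lit 4) (nat_lit 5) (nat_lit 4) (nat_lit 4) (nat_lit 389) (nat_lit 212) (nat_lit 179)))))) (XT.nd (nat_lit 38142) (nat_lit 0) (nat_lit 0) (XT.nd (nat_lit 37908) (nat_lit 0) (nat_lit 0) (XT.nd (nat_lit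 37830) (nat_lit 0) (nat_lit 0) (XT.lf (nat_lit 0) (nat_lit 691381754561) (nat_lit 76) (nat_lit 6812844433) (nat_lit 76) (nat_lit 4916603489) (nat_lit 3) (nat_lit 4) (nat_lit 4) (nat_lit 5) (nat_lit 4) (nat_lit 4) (nat_lit 390) (nat_lit 212) (nat_lit 178)) (XT.lf (nat_lit 0) (nat_lit 36505087141) (nat_lit 76) (nat_lit 12410114679) (nat_lit 76) (nat_lit 12410114679) (nat_lit 3) (nat_lit 4) (nat_lit 4) (nat_lit 5) (nat_lit 4) (nat_lit 4) (nat_lit 354) (nat_lit 213) (nat_lit 213))) (XT.nd (nat_lit 78) (nat_lit 0) (nat_lit 0) (XT.lf (nat_lit 0) (nat_lit 80453874502) (nat_lit 76) (nat_lit 24171927380) (nat_lit 76) (nat_lit 24054824176) (nat_lit 3) (nat_lit 4) (nat_lit 4) (nat_lit 5) (nat_lit 4) (nat_lit 4) (nat_lit 355) (nat_lit 213) (nat_lit 212)) (XT.nd (nat_lit 78) (nat_lit 0) (nat_lit 0) (XT.lf (nat_lit 0) (nat_lit 88150312075) (nat_lit 76) (nat_lit 23546832852) (nat_lit 76) (nat_lit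 23318202786) (nat_lit 3) (nat_lit 4) (nat_lit 4) (nat_lit 5) (nat_lit 4) (nat_lit 4) (nat_lit 356) (nat_lit 213) (nat_lit 211)) (XT.lf (nat_lit 0) (nat_lit 96117811850) (nat_lit 76) (nat_lit 22943457453) (nat_lit 76) (nat_lit 22608611329) (nat_lit 3) (nat_lit 4) (nat_lit 4) (nat_lit 5) (nat_lit 4) (nat_lit 4) (nat_lit 357) (nat_lit 213) (nat_lit 210))))) (XT.nd (nat_lit 156) (nat_lit 0) (nat_lit 0) (XT.nd (nat_lit 78) (nat_lit 0) (nat_lit 0) (XT.lf (nat_lit 0) (nat_lit 104375344068) (nat_lit 76) (nat_lit 22360364575) (nat_lit 76) (nat_lit 21924360301) (nat_lit 3) (nat_lit 4) (nat_lit 4) (nat_lit 5) (nat_lit 4) (nat_lit 4) (nat_lit 358) (nat_lit 213) (nat_lit 209)) (XT.lf (nat_lit 0) (nat_lit 112942569517) (nat_lit 76) (nat_lit 21796165903) (nat_lit 76) (nat_lit 21263820533) (nat_lit 3) (nat_lit 4) (nat_lit 4) (nat_lit 5) (nat_lit 4) (nat_lit 4) (nat_lit 359) (nat_lit 213) (nat_lit 208)))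 (XT.nd (nat_lit 78) (nat_lit 0) (nat_lit 0) (XT.lf (nat_lit 0) (nat_lit 121839886354) (nat_lit 76) (nat_lit 21249518105) (nat_lit 76) (nat_lit 20625419310) (nat_lit 3) (nat_lit 4) (nat_lit 4) (nat_lit 5) (nat_lit 4) (nat_lit 4) (nat_lit 360) (nat_lit 213) (nat_lit 207)) (XT.nd (nat_lit 78) (nat_lit 0) (nat_lit 0) (XT.lf (nat_lit 0) (nat_lit 131088478667) (nat_lit 76) (nat_lit 20719119640) (nat_lit 76) (nat_lit 20007636631) (nat_lit 3) (nat_lit 4) (nat_lit 4) (nat_lit 5) (nat_lit 4) (nat_lit 4) (nat_lit 361) (nat_lit 213) (nat_lit 206)) (XT.lf (nat_lit 0) (nat_lit 140710366913) (nat_lit 76) (nat_lit 20203707653) (nat_lit 76) (nat_lit 19409001584) (nat_lit 3) (nat_lit 4) (nat_lit 4) (nat_lit 5) (nat_lit 4) (nat_lit 4) (nat_lit 362) (nat_lit 213) (nat_lit 205))))))) (XT.nd (nat_lit 780) (nat_lit 0) (nat_lit 0) (XT.nd (nat_lit 390) (nat_lit 0) (nat_lit 0) (XT.nd (nat_lit 156) (nat_lit 0)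 (nat_lit 0) (XT.nd (nat_lit 78) (nat_lit 0) (nat_lit 0) (XT.lf (nat_lit 0) (nat_lit 150728460351) (nat_lit 76) (nat_lit 19702054974) (nat_lit 76) (nat_lit 18828088847) (nat_lit 3) (nat_lit 4) (nat_lit 4) (nat_lit 5) (nat_lit 4) (nat_lit 4) (nat_lit 363) (nat_lit 213) (nat_lit 204)) (XT.lf (nat_lit 0) (nat_lit 161166611583) (nat_lit 76) (nat_lit 19212967192) (nat_lit 76) (nat_lit 18263515295) (nat_lit 3) (nat_lit 4) (nat_lit 4) (nat_lit 5) (nat_lit 4) (nat_lit 4) (nat_lit 364) (nat_lit 213) (nat_lit 203))) (XT.nd (nat_lit 78) (nat_lit 0) (nat_lit 0) (XT.lf (nat_lit 0) (nat_lit 172049673351) (nat_lit 76) (nat_lit 18735279811) (nat_lit 76) (nat_lit 17713936705) (nat_lit 3) (nat_lit 4) (nat_lit 4) (nat_lit 5) (nat_lit 4) (nat_lit 4) (nat_lit 365) (nat_lit 213) (nat_lit 202)) (XT.nd (nat_lit 78) (nat_lit 0) (nat_lit 0) (XT.lf (nat_lit 0) (nat_lit 183403557707) (nat_lit 76) (nat_lit 18267855481)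 (nat_lit 76) (nat_lit 17178044557) (nat_lit 3) (nat_lit 4) (nat_lit 4) (nat_lit 5) (nat_lit 4) (nat_lit 4) (nat_lit 366) (nat_lit 213) (nat_lit 201)) (XT.lf (nat_lit 0) (nat_lit 195255297708) (nat_lit 76) (nat_lit 17809581287) (nat_lit 76) (nat_lit 16654562917) (nat_lit 3) (nat_lit 4) (nat_lit 4) (nat_lit 5) (nat_lit 4) (nat_lit 4) (nat_lit 367) (nat_lit 213) (nat_lit 200))))) (XT.nd (nat_lit 156) (nat_lit 0) (nat_lit 0) (XT.nd (nat_lit 78) (nat_lit 0) (nat_lit 0) (XT.lf (nat_lit 0) (nat_lit 207633111783) (nat_lit 76) (nat_lit 17359366099) (nat_lit 76) (nat_lit 16142245400) (nat_lit 3) (nat_lit 4) (nat_lit 4) (nat_lit 5) (nat_lit 4) (nat_lit 4) (nat_lit 368) (nat_lit 213) (nat_lit 199)) (XT.lf (nat_lit 0) (nat_lit 220566470919) (nat_lit 76) (nat_lit 16916137977) (nat_lit 76) (nat_lit 15639872202) (nat_lit 3) (nat_lit 4) (nat_lit 4) (nat_lit 5) (nat_lit 4) (nat_lit 4) (nat_lit 369) (nat_lit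 213) (nat_lit 198))) (XT.nd (nat_lit 78) (nat_lit 0) (nat_lit 0) (XT.lf (nat_lit 0) (nat_lit 234086168827) (nat_lit 76) (nat_lit 16478841616) (nat_lit 76) (nat_lit 15146247198) (nat_lit 3) (nat_lit 4) (nat_lit 4) (nat_lit 5) (nat_lit 4) (nat_lit 4) (nat_lit 370) (nat_lit 213) (nat_lit 197)) (XT.nd (nat_lit 78) (nat_lit 0) (nat_lit 0) (XT.lf (nat_lit 0) (nat_lit 248224395263) (nat_lit 76) (nat_lit 16046435834) (nat_lit 76) (nat_lit 14660195088) (nat_lit 3) (nat_lit 4) (nat_lit 4) (nat_lit 5) (nat_lit 4) (nat_lit 4) (nat_lit 371) (nat_lit 213) (nat_lit 196)) (XT.lf (nat_lit 0) (nat_lit 263014812673) (nat_lit 76) (nat_lit 15617891093) (nat_lit 76) (nat_lit 14180558607) (nat_lit 3) (nat_lit 4) (nat_lit 4) (nat_lit 5) (nat_lit 4) (nat_lit 4) (nat_lit 372) (nat_lit 213) (nat_lit 195)))))) (XT.nd (nat_lit 390) (nat_lit 0) (nat_lit 0) (XT.nd (nat_lit 156) (nat_lit 0) (nat_lit 0) (XT.nd (nat_lit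 78) (nat_lit 0) (nat_lit 0) (XT.lf (nat_lit 0) (nat_lit 278492636336) (nat_lit 76) (nat_lit 15192187049) (nat_lit 76) (nat_lit 13706195763) (nat_lit 3) (nat_lit 4) (nat_lit 4) (nat_lit 5) (nat_lit 4) (nat_lit 4) (nat_lit 373) (nat_lit 213) (nat_lit 194)) (XT.lf (nat_lit 0) (nat_lit 294694718212) (nat_lit 76) (nat_lit 14768310120) (nat_lit 76) (nat_lit 13235977120) (nat_lit 3) (nat_lit 4) (nat_lit 4) (nat_lit 5) (nat_lit 4) (nat_lit 4) (nat_lit 374) (nat_lit 213) (nat_lit 193))) (XT.nd (nat_lit 78) (nat_lit 0) (nat_lit 0) (XT.lf (nat_lit 0) (nat_lit 311659634687) (nat_lit 76) (nat_lit 14345251076) (nat_lit 76) (nat_lit 12768783110) (nat_lit 3) (nat_lit 4) (nat_lit 4) (nat_lit 5) (nat_lit 4) (nat_lit 4) (nat_lit 375) (nat_lit 213) (nat_lit 192)) (XT.nd (nat_lit 78) (nat_lit 0) (nat_lit 0) (XT.lf (nat_lit 0) (nat_lit 329427778420) (nat_lit 76) (nat_lit 13922002634) (nat_lit 76) (nat_lit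 12303501366) (nat_lit 3) (nat_lit 4) (nat_lit 4) (nat_lit 5) (nat_lit 4) (nat_lit 4) (nat_lit 376) (nat_lit 213) (nat_lit 191)) (XT.lf (nat_lit 0) (nat_lit 348041454515) (nat_lit 76) (nat_lit 13497557058) (nat_lit 76) (nat_lit 11839024076) (nat_lit 3) (nat_lit 4) (nat_lit 4) (nat_lit 5) (nat_lit 4) (nat_lit 4) (nat_lit 377) (nat_lit 213) (nat_lit 190))))) (XT.nd (nat_lit 156) (nat_lit 0) (nat_lit 0) (XT.nd (nat_lit 78) (nat_lit 0) (nat_lit 0) (XT.lf (nat_lit 0) (nat_lit 367544981247) (nat_lit 76) (nat_lit 13070903765) (nat_lit 76) (nat_lit 11374245340) (nat_lit 3) (nat_lit 4) (nat_lit 4) (nat_lit 5) (nat_lit 4) (nat_lit 4) (nat_lit 378) (nat_lit 213) (nat_lit 189)) (XT.lf (nat_lit 0) (nat_lit 387984795586) (nat_lit 76) (nat_lit 12641026913) (nat_lit 76) (nat_lit 10908058542) (nat_lit 3) (nat_lit 4) (nat_lit 4) (nat_lit 5) (nat_lit 4) (nat_lit 4) (nat_lit 379) (nat_lit 213) (nat_lit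 188))) (XT.nd (nat_lit 78) (nat_lit 0) (nat_lit 0) (XT.lf (nat_lit 0) (nat_lit 409409563755) (nat_lit 76) (nat_lit 12206902986) (nat_lit 76) (nat_lit 10439353714) (nat_lit 3) (nat_lit 4) (nat_lit 4) (nat_lit 5) (nat_lit 4) (nat_lit 4) (nat_lit 380) (nat_lit 213) (nat_lit 187)) (XT.nd (nat_lit 78) (nat_lit 0) (nat_lit 0) (XT.lf (nat_lit 0) (nat_lit 431870297109) (nat_lit 76) (nat_lit 11767498355) (nat_lit 76) (nat_lit 9967014892) (nat_lit 3) (nat_lit 4) (nat_lit 4) (nat_lit 5) (nat_lit 4) (nat_lit 4) (nat_lit 381) (nat_lit 213) (nat_lit 186)) (XT.lf (nat_lit 0) (nat_lit 455420473582) (nat_lit 76) (nat_lit 11321766820) (nat_lit 76) (nat_lit 9489917460) (nat_lit 3) (nat_lit 4) (nat_lit 4) (nat_lit 5) (nat_lit 4) (nat_lit 4) (nat_lit 382) (nat_lit 213) (nat_lit 185))))))))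
noncomputable def xc9 : XT := (XT.nd (nat_lit 39078) (nat_lit 0) (nat_lit 0) (XT.nd (nat_lit 38298) (nat_lit 0) (nat_lit 0) (XT.nd (nat_lit 312) (nat_lit 0) (nat_lit 0) (XT.nd (nat_lit 156) (nat_lit 0) (nat_lit 0) (XT.nd (nat_lit 78) (nat_lit 0) (nat_lit 0) (XT.lf (nat_lit 0) (nat_lit 480116165025) (nat_lit 76) (nat_lit 10868647113) (nat_lit 76) (nat_lit 9006925471) (nat_lit 3) (nat_lit 4) (nat_lit 4) (nat_lit 5) (nat_lit 4) (nat_lit 4) (nat_lit 383) (nat_lit 213) (nat_lit 184)) (XT.lf (nat_lit 0) (nat_lit 506016170703) (nat_lit 76) (nat_lit 10407060380) (nat_lit 76) (nat_lit 8516888945) (nat_lit 3) (nat_lit 4) (nat_lit 4) (nat_lit 5) (nat_lit 4) (nat_lit 4) (nat_lit 384) (nat_lit 213) (nat_lit 183))) (XT.nd (nat_lit 78) (nat_lit 0) (nat_lit 0) (XT.lf (nat_lit 0) (nat_lit 533182157294) (nat_lit 76) (nat_lit 9935907603) (nat_lit 76) (nat_lit 8018641128) (nat_lit 3) (nat_lit 4) (nat_lit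 4) (nat_lit 5) (nat_lit 4) (nat_lit 4) (nat_lit 385) (nat_lit 213) (nat_lit 182)) (XT.lf (nat_lit 0) (nat_lit 561678805721) (nat_lit 76) (nat_lit 9454066991) (nat_lit 76) (nat_lit 7510995716) (nat_lit 3) (nat_lit 4) (nat_lit 4) (nat_lit 5) (nat_lit 4) (nat_lit 4) (nat_lit 386) (nat_lit 213) (nat_lit 181)))) (XT.nd (nat_lit 156) (nat_lit 0) (nat_lit 0) (XT.nd (nat_lit 78) (nat_lit 0) (nat_lit 0) (XT.lf (nat_lit 0) (nat_lit 591573965146) (nat_lit 76) (nat_lit 8960391304) (nat_lit 76) (nat_lit 6992744028) (nat_lit 3) (nat_lit 4) (nat_lit 4) (nat_lit 5) (nat_lit 4) (nat_lit 4) (nat_lit 387) (nat_lit 213) (nat_lit 180)) (XT.lf (nat_lit 0) (nat_lit 622938814520) (nat_lit 76) (nat_lit 8453705124) (nat_lit 76) (nat_lit 6462652133) (nat_lit 3) (nat_lit 4) (nat_lit 4) (nat_lit 5) (nat_lit 4) (nat_lit 4) (nat_lit 388) (nat_lit 213) (nat_lit 179))) (XT.nd (nat_lit 78) (nat_lit 0) (nat_lit 0) (XT.lf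 (nat_lit 0) (nat_lit 655848032056) (nat_lit 76) (nat_lit 7932802055) (nat_lit 76) (nat_lit 5919457907) (nat_lit 3) (nat_lit 4) (nat_lit 4) (nat_lit 5) (nat_lit 4) (nat_lit 4) (nat_lit 389) (nat_lit 213) (nat_lit 178)) (XT.nd (nat_lit 37674) (nat_lit 0) (nat_lit 0) (XT.lf (nat_lit 0) (nat_lit 690379973033) (nat_lit 76) (nat_lit 7396441851) (nat_lit 76) (nat_lit 5361868030) (nat_lit 3) (nat_lit 4) (nat_lit 4) (nat_lit 5) (nat_lit 4) (nat_lit 4) (nat_lit 390) (nat_lit 213) (nat_lit 177)) (XT.lf (nat_lit 0) (nat_lit 29437446303) (nat_lit 76) (nat_lit 13142866593) (nat_lit 76) (nat_lit 13142866593) (nat_lit 3) (nat_lit 4) (nat_lit 4) (nat_lit 5) (nat_lit 4) (nat_lit 4) (nat_lit 352) (nat_lit 214) (nat_lit 214)))))) (XT.nd (nat_lit 390) (nat_lit 0) (nat_lit 0) (XT.nd (nat_lit 156) (nat_lit 0) (nat_lit 0) (XT.nd (nat_lit 78) (nat_lit 0) (nat_lit 0) (XT.lf (nat_lit 0) (nat_lit 65801488318)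 (nat_lit 76) (nat_lit 25616240726) (nat_lit 76) (nat_lit 25493282362) (nat_lit 3) (nat_lit 4) (nat_lit 4) (nat_lit 5) (nat_lit 4) (nat_lit 4) (nat_lit 353) (nat_lit 214) (nat_lit 213)) (XT.lf (nat_lit 0) (nat_lit 72948993774) (nat_lit 76) (nat_lit 24971677321) (nat_lit 76) (nat_lit 24731615752) (nat_lit 3) (nat_lit 4) (nat_lit 4) (nat_lit 5) (nat_lit 4) (nat_lit 4) (nat_lit 354) (nat_lit 214) (nat_lit 212))) (XT.nd (nat_lit 78) (nat_lit 0) (nat_lit 0) (XT.lf (nat_lit 0) (nat_lit 80334426843) (nat_lit 76) (nat_lit 24350508293) (nat_lit 76) (nat_lit 23998919863) (nat_lit 3) (nat_lit 4) (nat_lit 4) (nat_lit 5) (nat_lit 4) (nat_lit 4) (nat_lit 355) (nat_lit 214) (nat_lit 211)) (XT.nd (nat_lit 78) (nat_lit 0) (nat_lit 0) (XT.lf (nat_lit 0) (nat_lit 87975371891) (nat_lit 76) (nat_lit 23751254670) (nat_lit 76) (nat_lit 23293450182) (nat_lit 3) (nat_lit 4) (nat_lit 4) (nat_lit 5) (nat_lit 4)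 (nat_lit 4) (nat_lit 356) (nat_lit 214) (nat_lit 210)) (XT.lf (nat_lit 0) (nat_lit 95890021644) (nat_lit 76) (nat_lit 23172489657) (nat_lit 76) (nat_lit 22613527019) (nat_lit 3) (nat_lit 4) (nat_lit 4) (nat_lit 5) (nat_lit 4) (nat_lit 4) (nat_lit 357) (nat_lit 214) (nat_lit 209))))) (XT.nd (nat_lit 156) (nat_lit 0) (nat_lit 0) (XT.nd (nat_lit 78) (nat_lit 0) (nat_lit 0) (XT.lf (nat_lit 0) (nat_lit 104097220506) (nat_lit 76) (nat_lit 22612835242) (nat_lit 76) (nat_lit 21957531508) (nat_lit 3) (nat_lit 4) (nat_lit 4) (nat_lit 5) (nat_lit 4) (nat_lit 4) (nat_lit 358) (nat_lit 214) (nat_lit 208)) (XT.lf (nat_lit 0) (nat_lit 112616509426) (nat_lit 76) (nat_lit 22070958915) (nat_lit 76) (nat_lit 21323901756) (nat_lit 3) (nat_lit 4) (nat_lit 4) (nat_lit 5) (nat_lit 4) (nat_lit 4) (nat_lit 359) (nat_lit 214) (nat_lit 207))) (XT.nd (nat_lit 78) (nat_lit 0) (nat_lit 0) (XT.lf (nat_lit 0) (nat_lit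 121468172426) (nat_lit 76) (nat_lit 21545570494) (nat_lit 76) (nat_lit 20711129121) (nat_lit 3) (nat_lit 4) (nat_lit 4) (nat_lit 5) (nat_lit 4) (nat_lit 4) (nat_lit 360) (nat_lit 214) (nat_lit 206)) (XT.nd (nat_lit 78) (nat_lit 0) (nat_lit 0) (XT.lf (nat_lit 0) (nat_lit 130673284894) (nat_lit 76) (nat_lit 21035419055) (nat_lit 76) (nat_lit 20117754621) (nat_lit 3) (nat_lit 4) (nat_lit 4) (nat_lit 5) (nat_lit 4) (nat_lit 4) (nat_lit 361) (nat_lit 214) (nat_lit 205)) (XT.lf (nat_lit 0) (nat_lit 140253763764) (nat_lit 76) (nat_lit 20539289950) (nat_lit 76) (nat_lit 19542365458) (nat_lit 3) (nat_lit 4) (nat_lit 4) (nat_lit 5) (nat_lit 4) (nat_lit 4) (nat_lit 362) (nat_lit 214) (nat_lit 204))))))) (XT.nd (nat_lit 780) (nat_lit 0) (nat_lit 0) (XT.nd (nat_lit 390) (nat_lit 0) (nat_lit 0) (XT.nd (nat_lit 156) (nat_lit 0) (nat_lit 0) (XT.nd (nat_lit 78) (nat_lit 0) (nat_lit 0) (XT.lf (nat_lit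 0) (nat_lit 150232419700) (nat_lit 76) (nat_lit 20056001920) (nat_lit 76) (nat_lit 18983591658) (nat_lit 3) (nat_lit 4) (nat_lit 4) (nat_lit 5) (nat_lit 4) (nat_lit 4) (nat_lit 363) (nat_lit 214) (nat_lit 203)) (XT.lf (nat_lit 0) (nat_lit 160633011408) (nat_lit 76) (nat_lit 19584404279) (nat_lit 76) (nat_lit 18440102809) (nat_lit 3) (nat_lit 4) (nat_lit 4) (nat_lit 5) (nat_lit 4) (nat_lit 4) (nat_lit 364) (nat_lit 214) (nat_lit 202))) (XT.nd (nat_lit 78) (nat_lit 0) (nat_lit 0) (XT.lf (nat_lit 0) (nat_lit 171480302200) (nat_lit 76) (nat_lit 19123374176) (nat_lit 76) (nat_lit 17910604888) (nat_lit 3) (nat_lit 4) (nat_lit 4) (nat_lit 5) (nat_lit 4) (nat_lit 4) (nat_lit 365) (nat_lit 214) (nat_lit 201)) (XT.nd (nat_lit 78) (nat_lit 0) (nat_lit 0) (XT.lf (nat_lit 0) (nat_lit 182800118960) (nat_lit 76) (nat_lit 18671813921) (nat_lit 76) (nat_lit 17393837186) (nat_lit 3) (nat_lit 4) (nat_lit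 4) (nat_lit 5) (nat_lit 4) (nat_lit 4) (nat_lit 366) (nat_lit 214) (nat_lit 200)) (XT.lf (nat_lit 0) (nat_lit 194619413631) (nat_lit 76) (nat_lit 18228648368) (nat_lit 76) (nat_lit 16888569305) (nat_lit 3) (nat_lit 4) (nat_lit 4) (nat_lit 5) (nat_lit 4) (nat_lit 4) (nat_lit 367) (nat_lit 214) (nat_lit 199))))) (XT.nd (nat_lit 156) (nat_lit 0) (nat_lit 0) (XT.nd (nat_lit 78) (nat_lit 0) (nat_lit 0) (XT.lf (nat_lit 0) (nat_lit 206966327392) (nat_lit 76) (nat_lit 17792822364) (nat_lit 76) (nat_lit 16393598224) (nat_lit 3) (nat_lit 4) (nat_lit 4) (nat_lit 5) (nat_lit 4) (nat_lit 4) (nat_lit 368) (nat_lit 214) (nat_lit 198)) (XT.lf (nat_lit 0) (nat_lit 219870257657) (nat_lit 76) (nat_lit 17363298226) (nat_lit 76) (nat_lit 15907745443) (nat_lit 3) (nat_lit 4) (nat_lit 4) (nat_lit 5) (nat_lit 4) (nat_lit 4) (nat_lit 369) (nat_lit 214) (nat_lit 197))) (XT.nd (nat_lit 78) (nat_lit 0) (nat_lit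 0) (XT.lf (nat_lit 0) (nat_lit 233361928069) (nat_lit 76) (nat_lit 16939053278) (nat_lit 76) (nat_lit 15429854168) (nat_lit 3) (nat_lit 4) (nat_lit 4) (nat_lit 5) (nat_lit 4) (nat_lit 4) (nat_lit 370) (nat_lit 214) (nat_lit 196)) (XT.nd (nat_lit 78) (nat_lit 0) (nat_lit 0) (XT.lf (nat_lit 0) (nat_lit 247473461653) (nat_lit 76) (nat_lit 16519077413) (nat_lit 76) (nat_lit 14958786563) (nat_lit 3) (nat_lit 4) (nat_lit 4) (nat_lit 5) (nat_lit 4) (nat_lit 4) (nat_lit 371) (nat_lit 214) (nat_lit 195)) (XT.lf (nat_lit 0) (nat_lit 262238457298) (nat_lit 76) (nat_lit 16102370688) (nat_lit 76) (nat_lit 14493421038) (nat_lit 3) (nat_lit 4) (nat_lit 4) (nat_lit 5) (nat_lit 4) (nat_lit 4) (nat_lit 372) (nat_lit 214) (nat_lit 194)))))) (XT.nd (nat_lit 390) (nat_lit 0) (nat_lit 0) (XT.nd (nat_lit 156) (nat_lit 0) (nat_lit 0) (XT.nd (nat_lit 78) (nat_lit 0) (nat_lit 0) (XT.lf (nat_lit 0) (nat_lit 277692069756)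 (nat_lit 76) (nat_lit 15687940945) (nat_lit 76) (nat_lit 14032649581) (nat_lit 3) (nat_lit 4) (nat_lit 4) (nat_lit 5) (nat_lit 4) (nat_lit 4) (nat_lit 373) (nat_lit 214) (nat_lit 193)) (XT.lf (nat_lit 0) (nat_lit 293871093342) (nat_lit 76) (nat_lit 15274801446) (nat_lit 76) (nat_lit 13575375116) (nat_lit 3) (nat_lit 4) (nat_lit 4) (nat_lit 5) (nat_lit 4) (nat_lit 4) (nat_lit 374) (nat_lit 214) (nat_lit 192))) (XT.nd (nat_lit 78) (nat_lit 0) (nat_lit 0) (XT.lf (nat_lit 0) (nat_lit 310814049541) (nat_lit 76) (nat_lit 14861968526) (nat_lit 76) (nat_lit 13120508895) (nat_lit 3) (nat_lit 4) (nat_lit 4) (nat_lit 5) (nat_lit 4) (nat_lit 4) (nat_lit 375) (nat_lit 214) (nat_lit 191)) (XT.nd (nat_lit 78) (nat_lit 0) (nat_lit 0) (XT.lf (nat_lit 0) (nat_lit 328561278725) (nat_lit 76) (nat_lit 14448459249) (nat_lit 76) (nat_lit 12666967902) (nat_lit 3) (nat_lit 4) (nat_lit 4) (nat_lit 5) (nat_lit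 4) (nat_lit 4) (nat_lit 376) (nat_lit 214) (nat_lit 190)) (XT.lf (nat_lit 0) (nat_lit 347155036202) (nat_lit 76) (nat_lit 14033289070) (nat_lit 76) (nat_lit 12213672280) (nat_lit 3) (nat_lit 4) (nat_lit 4) (nat_lit 5) (nat_lit 4) (nat_lit 4) (nat_lit 377) (nat_lit 214) (nat_lit 189))))) (XT.nd (nat_lit 156) (nat_lit 0) (nat_lit 0) (XT.nd (nat_lit 78) (nat_lit 0) (nat_lit 0) (XT.lf (nat_lit 0) (nat_lit 366639592822) (nat_lit 76) (nat_lit 13615469487) (nat_lit 76) (nat_lit 11759542751) (nat_lit 3) (nat_lit 4) (nat_lit 4) (nat_lit 5) (nat_lit 4) (nat_lit 4) (nat_lit 378) (nat_lit 214) (nat_lit 188)) (XT.lf (nat_lit 0) (nat_lit 387061340387) (nat_lit 76) (nat_lit 13194005692) (nat_lit 76) (nat_lit 11303498055) (nat_lit 3) (nat_lit 4) (nat_lit 4) (nat_lit 5) (nat_lit 4) (nat_lit 4) (nat_lit 379) (nat_lit 214) (nat_lit 187))) (XT.nd (nat_lit 78) (nat_lit 0) (nat_lit 0) (XT.lf (nat_lit 0)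 (nat_lit 408468902105) (nat_lit 76) (nat_lit 12767894200) (nat_lit 76) (nat_lit 10844452373) (nat_lit 3) (nat_lit 4) (nat_lit 4) (nat_lit 5) (nat_lit 4) (nat_lit 4) (nat_lit 380) (nat_lit 214) (nat_lit 186)) (XT.nd (nat_lit 78) (nat_lit 0) (nat_lit 0) (XT.lf (nat_lit 0) (nat_lit 430913248363) (nat_lit 76) (nat_lit 12336120461) (nat_lit 76) (nat_lit 10381312737) (nat_lit 3) (nat_lit 4) (nat_lit 4) (nat_lit 5) (nat_lit 4) (nat_lit 4) (nat_lit 381) (nat_lit 214) (nat_lit 185)) (XT.lf (nat_lit 0) (nat_lit 454447818078) (nat_lit 76) (nat_lit 11897656440) (nat_lit 76) (nat_lit 9912976434) (nat_lit 3) (nat_lit 4) (nat_lit 4) (nat_lit 5) (nat_lit 4) (nat_lit 4) (nat_lit 382) (nat_lit 214) (nat_lit 184))))))))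
noncomputable def xc10 : XT := (XT.nd (nat_lit 38922) (nat_lit 0) (nat_lit 0) (XT.nd (nat_lit 38142) (nat_lit 0) (nat_lit 0) (XT.nd (nat_lit 312) (nat_lit 0) (nat_lit 0) (XT.nd (nat_lit 156) (nat_lit 0) (nat_lit 0) (XT.nd (nat_lit 78) (nat_lit 0) (nat_lit 0) (XT.lf (nat_lit 0) (nat_lit 479128645942) (nat_lit 76) (nat_lit 11451458177) (nat_lit 76) (nat_lit 9438328378) (nat_lit 3) (nat_lit 4) (nat_lit 4) (nat_lit 5) (nat_lit 4) (nat_lit 4) (nat_lit 383) (nat_lit 214) (nat_lit 183)) (XT.lf (nat_lit 0) (nat_lit 505014495829) (nat_lit 76) (nat_lit 10996463294) (nat_lit 76) (nat_lit 8956238454) (nat_lit 3) (nat_lit 4) (nat_lit 4) (nat_lit 5) (nat_lit 4) (nat_lit 4) (nat_lit 384) (nat_lit 214) (nat_lit 182))) (XT.nd (nat_lit 78) (nat_lit 0) (nat_lit 0) (XT.lf (nat_lit 0) (nat_lit 532167000716) (nat_lit 76) (nat_lit 10531588470) (nat_lit 76) (nat_lit 8465558830) (nat_lit 3) (nat_lit 4) (nat_lit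 4) (nat_lit 5) (nat_lit 4) (nat_lit 4) (nat_lit 385) (nat_lit 214) (nat_lit 181)) (XT.lf (nat_lit 0) (nat_lit 560650809424) (nat_lit 76) (nat_lit 10055726861) (nat_lit 76) (nat_lit 7965121220) (nat_lit 3) (nat_lit 4) (nat_lit 4) (nat_lit 5) (nat_lit 4) (nat_lit 4) (nat_lit 386) (nat_lit 214) (nat_lit 180)))) (XT.nd (nat_lit 156) (nat_lit 0) (nat_lit 0) (XT.nd (nat_lit 78) (nat_lit 0) (nat_lit 0) (XT.lf (nat_lit 0) (nat_lit 590533740546) (nat_lit 76) (nat_lit 9567745462) (nat_lit 76) (nat_lit 7453734107) (nat_lit 3) (nat_lit 4) (nat_lit 4) (nat_lit 5) (nat_lit 4) (nat_lit 4) (nat_lit 387) (nat_lit 214) (nat_lit 179)) (XT.lf (nat_lit 0) (nat_lit 621886943916) (nat_lit 76) (nat_lit 9066482414) (nat_lit 76) (nat_lit 6930179901) (nat_lit 3) (nat_lit 4) (nat_lit 4) (nat_lit 5) (nat_lit 4) (nat_lit 4) (nat_lit 388) (nat_lit 214) (nat_lit 178))) (XT.nd (nat_lit 78) (nat_lit 0) (nat_lit 0) (XT.lf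 (nat_lit 0) (nat_lit 654785070020) (nat_lit 76) (nat_lit 8550744232) (nat_lit 76) (nat_lit 6393212046) (nat_lit 3) (nat_lit 4) (nat_lit 4) (nat_lit 5) (nat_lit 4) (nat_lit 4) (nat_lit 389) (nat_lit 214) (nat_lit 177)) (XT.nd (nat_lit 37518) (nat_lit 0) (nat_lit 0) (XT.lf (nat_lit 0) (nat_lit 689306447729) (nat_lit 76) (nat_lit 8019302969) (nat_lit 76) (nat_lit 5841552046) (nat_lit 3) (nat_lit 4) (nat_lit 4) (nat_lit 5) (nat_lit 4) (nat_lit 4) (nat_lit 390) (nat_lit 214) (nat_lit 176)) (XT.lf (nat_lit 0) (nat_lit 22843200528) (nat_lit 76) (nat_lit 13901820516) (nat_lit 76) (nat_lit 13901820516) (nat_lit 3) (nat_lit 4) (nat_lit 4) (nat_lit 5) (nat_lit 4) (nat_lit 4) (nat_lit 350) (nat_lit 215) (nat_lit 215)))))) (XT.nd (nat_lit 390) (nat_lit 0) (nat_lit 0) (XT.nd (nat_lit 156) (nat_lit 0) (nat_lit 0) (XT.nd (nat_lit 78) (nat_lit 0) (nat_lit 0) (XT.lf (nat_lit 0) (nat_lit 52152714745)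 (nat_lit 76) (nat_lit 27110855010) (nat_lit 76) (nat_lit 26981748727) (nat_lit 3) (nat_lit 4) (nat_lit 4) (nat_lit 5) (nat_lit 4) (nat_lit 4) (nat_lit 351) (nat_lit 215) (nat_lit 214)) (XT.lf (nat_lit 0) (nat_lit 58810653073) (nat_lit 76) (nat_lit 26444753546) (nat_lit 76) (nat_lit 26192688899) (nat_lit 3) (nat_lit 4) (nat_lit 4) (nat_lit 5) (nat_lit 4) (nat_lit 4) (nat_lit 352) (nat_lit 215) (nat_lit 213))) (XT.nd (nat_lit 78) (nat_lit 0) (nat_lit 0) (XT.lf (nat_lit 0) (nat_lit 65676068277) (nat_lit 76) (nat_lit 25803750685) (nat_lit 76) (nat_lit 25434582834) (nat_lit 3) (nat_lit 4) (nat_lit 4) (nat_lit 5) (nat_lit 4) (nat_lit 4) (nat_lit 353) (nat_lit 215) (nat_lit 212)) (XT.nd (nat_lit 78) (nat_lit 0) (nat_lit 0) (XT.lf (nat_lit 0) (nat_lit 72765306582) (nat_lit 76) (nat_lit 25186320230) (nat_lit 76) (nat_lit 24705625518) (nat_lit 3) (nat_lit 4) (nat_lit 4) (nat_lit 5) (nat_lit 4)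 (nat_lit 4) (nat_lit 354) (nat_lit 215) (nat_lit 211)) (XT.lf (nat_lit 0) (nat_lit 80095247127) (nat_lit 76) (nat_lit 24590992108) (nat_lit 76) (nat_lit 24004081337) (nat_lit 3) (nat_lit 4) (nat_lit 4) (nat_lit 5) (nat_lit 4) (nat_lit 4) (nat_lit 355) (nat_lit 215) (nat_lit 210))))) (XT.nd (nat_lit 156) (nat_lit 0) (nat_lit 0) (XT.nd (nat_lit 78) (nat_lit 0) (nat_lit 0) (XT.lf (nat_lit 0) (nat_lit 87683342151) (nat_lit 76) (nat_lit 24016348871) (nat_lit 76) (nat_lit 23328279949) (nat_lit 3) (nat_lit 4) (nat_lit 4) (nat_lit 5) (nat_lit 4) (nat_lit 4) (nat_lit 356) (nat_lit 215) (nat_lit 209)) (XT.lf (nat_lit 0) (nat_lit 95547658549) (nat_lit 76) (nat_lit 23461022321) (nat_lit 76) (nat_lit 22676612304) (nat_lit 3) (nat_lit 4) (nat_lit 4) (nat_lit 5) (nat_lit 4) (nat_lit 4) (nat_lit 357) (nat_lit 215) (nat_lit 208))) (XT.nd (nat_lit 78) (nat_lit 0) (nat_lit 0) (XT.lf (nat_lit 0) (nat_lit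 103706920881) (nat_lit 76) (nat_lit 22923690251) (nat_lit 76) (nat_lit 22047526810) (nat_lit 3) (nat_lit 4) (nat_lit 4) (nat_lit 5) (nat_lit 4) (nat_lit 4) (nat_lit 358) (nat_lit 215) (nat_lit 207)) (XT.nd (nat_lit 78) (nat_lit 0) (nat_lit 0) (XT.lf (nat_lit 0) (nat_lit 112180555964) (nat_lit 76) (nat_lit 22403073301) (nat_lit 76) (nat_lit 21439525646) (nat_lit 3) (nat_lit 4) (nat_lit 4) (nat_lit 5) (nat_lit 4) (nat_lit 4) (nat_lit 359) (nat_lit 215) (nat_lit 206)) (XT.lf (nat_lit 0) (nat_lit 120988739119) (nat_lit 76) (nat_lit 21897931906) (nat_lit 76) (nat_lit 20851161189) (nat_lit 3) (nat_lit 4) (nat_lit 4) (nat_lit 5) (nat_lit 4) (nat_lit 4) (nat_lit 360) (nat_lit 215) (nat_lit 205))))))) (XT.nd (nat_lit 780) (nat_lit 0) (nat_lit 0) (XT.nd (nat_lit 390) (nat_lit 0) (nat_lit 0) (XT.nd (nat_lit 156) (nat_lit 0) (nat_lit 0) (XT.nd (nat_lit 78) (nat_lit 0) (nat_lit 0) (XT.lf (nat_lit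 0) (nat_lit 130152442211) (nat_lit 76) (nat_lit 21407063347) (nat_lit 76) (nat_lit 20281032573) (nat_lit 3) (nat_lit 4) (nat_lit 4) (nat_lit 5) (nat_lit 4) (nat_lit 4) (nat_lit 361) (nat_lit 215) (nat_lit 204)) (XT.lf (nat_lit 0) (nat_lit 139693483580) (nat_lit 76) (nat_lit 20929298891) (nat_lit 76) (nat_lit 19727782347) (nat_lit 3) (nat_lit 4) (nat_lit 4) (nat_lit 5) (nat_lit 4) (nat_lit 4) (nat_lit 362) (nat_lit 215) (nat_lit 203))) (XT.nd (nat_lit 78) (nat_lit 0) (nat_lit 0) (XT.lf (nat_lit 0) (nat_lit 149634579992) (nat_lit 76) (nat_lit 20463501003) (nat_lit 76) (nat_lit 19190093250) (nat_lit 3) (nat_lit 4) (nat_lit 4) (nat_lit 5) (nat_lit 4) (nat_lit 4) (nat_lit 363) (nat_lit 215) (nat_lit 202)) (XT.nd (nat_lit 78) (nat_lit 0) (nat_lit 0) (XT.lf (nat_lit 0) (nat_lit 159999400723) (nat_lit 76) (nat_lit 20008560640) (nat_lit 76) (nat_lit 18666685069) (nat_lit 3) (nat_lit 4) (nat_lit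 4) (nat_lit 5) (nat_lit 4) (nat_lit 4) (nat_lit 364) (nat_lit 215) (nat_lit 201)) (XT.lf (nat_lit 0) (nat_lit 170812623919) (nat_lit 76) (nat_lit 19563394612) (nat_lit 76) (nat_lit 18156311595) (nat_lit 3) (nat_lit 4) (nat_lit 4) (nat_lit 5) (nat_lit 4) (nat_lit 4) (nat_lit 365) (nat_lit 215) (nat_lit 200))))) (XT.nd (nat_lit 156) (nat_lit 0) (nat_lit 0) (XT.nd (nat_lit 78) (nat_lit 0) (nat_lit 0) (XT.lf (nat_lit 0) (nat_lit 182099995349) (nat_lit 76) (nat_lit 19126942998) (nat_lit 76) (nat_lit 17657757652) (nat_lit 3) (nat_lit 4) (nat_lit 4) (nat_lit 5) (nat_lit 4) (nat_lit 4) (nat_lit 366) (nat_lit 215) (nat_lit 199)) (XT.lf (nat_lit 0) (nat_lit 193888389707) (nat_lit 76) (nat_lit 18698166629) (nat_lit 76) (nat_lit 17169836207) (nat_lit 3) (nat_lit 4) (nat_lit 4) (nat_lit 5) (nat_lit 4) (nat_lit 4) (nat_lit 367) (nat_lit 215) (nat_lit 198))) (XT.nd (nat_lit 78) (nat_lit 0) (nat_lit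 0) (XT.lf (nat_lit 0) (nat_lit 206205874597) (nat_lit 76) (nat_lit 18276044608) (nat_lit 76) (nat_lit 16691385543) (nat_lit 3) (nat_lit 4) (nat_lit 4) (nat_lit 5) (nat_lit 4) (nat_lit 4) (nat_lit 368) (nat_lit 215) (nat_lit 197)) (XT.nd (nat_lit 78) (nat_lit 0) (nat_lit 0) (XT.lf (nat_lit 0) (nat_lit 219081777367) (nat_lit 76) (nat_lit 17859571883) (nat_lit 76) (nat_lit 16221266491) (nat_lit 3) (nat_lit 4) (nat_lit 4) (nat_lit 5) (nat_lit 4) (nat_lit 4) (nat_lit 369) (nat_lit 215) (nat_lit 196)) (XT.lf (nat_lit 0) (nat_lit 232546754926) (nat_lit 76) (nat_lit 17447756853) (nat_lit 76) (nat_lit 15758359720) (nat_lit 3) (nat_lit 4) (nat_lit 4) (nat_lit 5) (nat_lit 4) (nat_lit 4) (nat_lit 370) (nat_lit 215) (nat_lit 195)))))) (XT.nd (nat_lit 390) (nat_lit 0) (nat_lit 0) (XT.nd (nat_lit 156) (nat_lit 0) (nat_lit 0) (XT.nd (nat_lit 78) (nat_lit 0) (nat_lit 0) (XT.lf (nat_lit 0) (nat_lit 246632866744)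 (nat_lit 76) (nat_lit 17039619004) (nat_lit 76) (nat_lit 15301563071) (nat_lit 3) (nat_lit 4) (nat_lit 4) (nat_lit 5) (nat_lit 4) (nat_lit 4) (nat_lit 371) (nat_lit 215) (nat_lit 194)) (XT.lf (nat_lit 0) (nat_lit 261373651185) (nat_lit 76) (nat_lit 16634186581) (nat_lit 76) (nat_lit 14849788934) (nat_lit 3) (nat_lit 4) (nat_lit 4) (nat_lit 5) (nat_lit 4) (nat_lit 4) (nat_lit 372) (nat_lit 215) (nat_lit 193))) (XT.nd (nat_lit 78) (nat_lit 0) (nat_lit 0) (XT.lf (nat_lit 0) (nat_lit 276804205353) (nat_lit 76) (nat_lit 16230494268) (nat_lit 76) (nat_lit 14401961655) (nat_lit 3) (nat_lit 4) (nat_lit 4) (nat_lit 5) (nat_lit 4) (nat_lit 4) (nat_lit 373) (nat_lit 215) (nat_lit 192)) (XT.nd (nat_lit 78) (nat_lit 0) (nat_lit 0) (XT.lf (nat_lit 0) (nat_lit 292961268663) (nat_lit 76) (nat_lit 15827580893) (nat_lit 76) (nat_lit 13957014979) (nat_lit 3) (nat_lit 4) (nat_lit 4) (nat_lit 5) (nat_lit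 4) (nat_lit 4) (nat_lit 374) (nat_lit 215) (nat_lit 191)) (XT.lf (nat_lit 0) (nat_lit 309883310313) (nat_lit 76) (nat_lit 15424487138) (nat_lit 76) (nat_lit 13513889509) (nat_lit 3) (nat_lit 4) (nat_lit 4) (nat_lit 5) (nat_lit 4) (nat_lit 4) (nat_lit 375) (nat_lit 215) (nat_lit 190))))) (XT.nd (nat_lit 156) (nat_lit 0) (nat_lit 0) (XT.nd (nat_lit 78) (nat_lit 0) (nat_lit 0) (XT.lf (nat_lit 0) (nat_lit 327610620879) (nat_lit 76) (nat_lit 15020253257) (nat_lit 76) (nat_lit 13071530184) (nat_lit 3) (nat_lit 4) (nat_lit 4) (nat_lit 5) (nat_lit 4) (nat_lit 4) (nat_lit 376) (nat_lit 215) (nat_lit 189)) (XT.lf (nat_lit 0) (nat_lit 346185408243) (nat_lit 76) (nat_lit 14613916787) (nat_lit 76) (nat_lit 12628883769) (nat_lit 3) (nat_lit 4) (nat_lit 4) (nat_lit 5) (nat_lit 4) (nat_lit 4) (nat_lit 377) (nat_lit 215) (nat_lit 188))) (XT.nd (nat_lit 78) (nat_lit 0) (nat_lit 0) (XT.lf (nat_lit 0)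 (nat_lit 365651898090) (nat_lit 76) (nat_lit 14204510261) (nat_lit 76) (nat_lit 12184896342) (nat_lit 3) (nat_lit 4) (nat_lit 4) (nat_lit 5) (nat_lit 4) (nat_lit 4) (nat_lit 378) (nat_lit 215) (nat_lit 187)) (XT.nd (nat_lit 78) (nat_lit 0) (nat_lit 0) (XT.lf (nat_lit 0) (nat_lit 386056439204) (nat_lit 76) (nat_lit 13791058902) (nat_lit 76) (nat_lit 11738510792) (nat_lit 3) (nat_lit 4) (nat_lit 4) (nat_lit 5) (nat_lit 4) (nat_lit 4) (nat_lit 379) (nat_lit 215) (nat_lit 186)) (XT.lf (nat_lit 0) (nat_lit 407447613826) (nat_lit 76) (nat_lit 13372578302) (nat_lit 76) (nat_lit 11288664295) (nat_lit 3) (nat_lit 4) (nat_lit 4) (nat_lit 5) (nat_lit 4) (nat_lit 4) (nat_lit 380) (nat_lit 215) (nat_lit 185))))))))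
noncomputable def xc11 : XT := (XT.nd (nat_lit 38766) (nat_lit 0) (nat_lit 0) (XT.nd (nat_lit 702) (nat_lit 0) (nat_lit 0) (XT.nd (nat_lit 312) (nat_lit 0) (nat_lit 0) (XT.nd (nat_lit 156) (nat_lit 0) (nat_lit 0) (XT.nd (nat_lit 78) (nat_lit 0) (nat_lit 0) (XT.lf (nat_lit 0) (nat_lit 429876353325) (nat_lit 76) (nat_lit 12948072077) (nat_lit 76) (nat_lit 10834285788) (nat_lit 3) (nat_lit 4) (nat_lit 4) (nat_lit 5) (nat_lit 4) (nat_lit 4) (nat_lit 381) (nat_lit 215) (nat_lit 184)) (XT.lf (nat_lit 0) (nat_lit 453396059461) (nat_lit 76) (nat_lit 12516529500) (nat_lit 76) (nat_lit 10374293418) (nat_lit 3) (nat_lit 4) (nat_lit 4) (nat_lit 5) (nat_lit 4) (nat_lit 4) (nat_lit 382) (nat_lit 215) (nat_lit 183))) (XT.nd (nat_lit 78) (nat_lit 0) (nat_lit 0) (XT.lf (nat_lit 0) (nat_lit 478062731534) (nat_lit 76) (nat_lit 12076923087) (nat_lit 76) (nat_lit 9907591965) (nat_lit 3) (nat_lit 4) (nat_lit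 4) (nat_lit 5) (nat_lit 4) (nat_lit 4) (nat_lit 383) (nat_lit 215) (nat_lit 182)) (XT.lf (nat_lit 0) (nat_lit 503935099717) (nat_lit 76) (nat_lit 11628206157) (nat_lit 76) (nat_lit 9433070234) (nat_lit 3) (nat_lit 4) (nat_lit 4) (nat_lit 5) (nat_lit 4) (nat_lit 4) (nat_lit 384) (nat_lit 215) (nat_lit 181)))) (XT.nd (nat_lit 156) (nat_lit 0) (nat_lit 0) (XT.nd (nat_lit 78) (nat_lit 0) (nat_lit 0) (XT.lf (nat_lit 0) (nat_lit 531074764885) (nat_lit 76) (nat_lit 11169310336) (nat_lit 76) (nat_lit 8949598413) (nat_lit 3) (nat_lit 4) (nat_lit 4) (nat_lit 5) (nat_lit 4) (nat_lit 4) (nat_lit 385) (nat_lit 215) (nat_lit 180)) (XT.lf (nat_lit 0) (nat_lit 559546345290) (nat_lit 76) (nat_lit 10699143015) (nat_lit 76) (nat_lit 8456025377) (nat_lit 3) (nat_lit 4) (nat_lit 4) (nat_lit 5) (nat_lit 4) (nat_lit 4) (nat_lit 386) (nat_lit 215) (nat_lit 179))) (XT.nd (nat_lit 78) (nat_lit 0) (nat_lit 0)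 (XT.lf (nat_lit 0) (nat_lit 589417630408) (nat_lit 76) (nat_lit 10216584748) (nat_lit 76) (nat_lit 7951175953) (nat_lit 3) (nat_lit 4) (nat_lit 4) (nat_lit 5) (nat_lit 4) (nat_lit 4) (nat_lit 387) (nat_lit 215) (nat_lit 178)) (XT.nd (nat_lit 78) (nat_lit 0) (nat_lit 0) (XT.lf (nat_lit 0) (nat_lit 620759742347) (nat_lit 76) (nat_lit 9720486587) (nat_lit 76) (nat_lit 7433848118) (nat_lit 3) (nat_lit 4) (nat_lit 4) (nat_lit 5) (nat_lit 4) (nat_lit 4) (nat_lit 388) (nat_lit 215) (nat_lit 177)) (XT.lf (nat_lit 0) (nat_lit 653647305182) (nat_lit 76) (nat_lit 9209667345) (nat_lit 76) (nat_lit 6902810140) (nat_lit 3) (nat_lit 4) (nat_lit 4) (nat_lit 5) (nat_lit 4) (nat_lit 4) (nat_lit 389) (nat_lit 215) (nat_lit 176)))))) (XT.nd (nat_lit 37674) (nat_lit 0) (nat_lit 0) (XT.nd (nat_lit 37440) (nat_lit 0) (nat_lit 0) (XT.nd (nat_lit 37362) (nat_lit 0) (nat_lit 0) (XT.lf (nat_lit 0) (nat_lit 688158622636)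 (nat_lit 76) (nat_lit 8682910787) (nat_lit 76) (nat_lit 6356797643) (nat_lit 3) (nat_lit 4) (nat_lit 4) (nat_lit 5) (nat_lit 4) (nat_lit 4) (nat_lit 390) (nat_lit 215) (nat_lit 175)) (XT.lf (nat_lit 0) (nat_lit 16669153670) (nat_lit 76) (nat_lit 14689256752) (nat_lit 76) (nat_lit 14689256752) (nat_lit 3) (nat_lit 4) (nat_lit 4) (nat_lit 5) (nat_lit 4) (nat_lit 4) (nat_lit 348) (nat_lit 216) (nat_lit 216))) (XT.nd (nat_lit 78) (nat_lit 0) (nat_lit 0) (XT.lf (nat_lit 0) (nat_lit 39396316024) (nat_lit 76) (nat_lit 28660322701) (nat_lit 76) (nat_lit 28524761104) (nat_lit 3) (nat_lit 4) (nat_lit 4) (nat_lit 5) (nat_lit 4) (nat_lit 4) (nat_lit 349) (nat_lit 216) (nat_lit 215)) (XT.nd (nat_lit 78) (nat_lit 0) (nat_lit 0) (XT.lf (nat_lit 0) (nat_lit 45618949546) (nat_lit 76) (nat_lit 27970612411) (nat_lit 76) (nat_lit 27705944532) (nat_lit 3) (nat_lit 4) (nat_lit 4) (nat_lit 5) (nat_lit 4)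 (nat_lit 4) (nat_lit 350) (nat_lit 216) (nat_lit 214)) (XT.lf (nat_lit 0) (nat_lit 52021023701) (nat_lit 76) (nat_lit 27307740467) (nat_lit 76) (nat_lit 26920114223) (nat_lit 3) (nat_lit 4) (nat_lit 4) (nat_lit 5) (nat_lit 4) (nat_lit 4) (nat_lit 351) (nat_lit 216) (nat_lit 213))))) (XT.nd (nat_lit 156) (nat_lit 0) (nat_lit 0) (XT.nd (nat_lit 78) (nat_lit 0) (nat_lit 0) (XT.lf (nat_lit 0) (nat_lit 58617781521) (nat_lit 76) (nat_lit 26670128601) (nat_lit 76) (nat_lit 26165399153) (nat_lit 3) (nat_lit 4) (nat_lit 4) (nat_lit 5) (nat_lit 4) (nat_lit 4) (nat_lit 352) (nat_lit 216) (nat_lit 212)) (XT.lf (nat_lit 0) (nat_lit 65424929574) (nat_lit 76) (nat_lit 26056258690) (nat_lit 76) (nat_lit 25440002381) (nat_lit 3) (nat_lit 4) (nat_lit 4) (nat_lit 5) (nat_lit 4) (nat_lit 4) (nat_lit 353) (nat_lit 216) (nat_lit 211))) (XT.nd (nat_lit 78) (nat_lit 0) (nat_lit 0) (XT.lf (nat_lit 0) (nat_lit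 72458675355) (nat_lit 76) (nat_lit 25464669140) (nat_lit 76) (nat_lit 24742196773) (nat_lit 3) (nat_lit 4) (nat_lit 4) (nat_lit 5) (nat_lit 4) (nat_lit 4) (nat_lit 354) (nat_lit 216) (nat_lit 210)) (XT.nd (nat_lit 78) (nat_lit 0) (nat_lit 0) (XT.lf (nat_lit 0) (nat_lit 79735765876) (nat_lit 76) (nat_lit 24893951404) (nat_lit 76) (nat_lit 24070320886) (nat_lit 3) (nat_lit 4) (nat_lit 4) (nat_lit 5) (nat_lit 4) (nat_lit 4) (nat_lit 355) (nat_lit 216) (nat_lit 209)) (XT.lf (nat_lit 0) (nat_lit 87273527546) (nat_lit 76) (nat_lit 24342746630) (nat_lit 76) (nat_lit 23422775016) (nat_lit 3) (nat_lit 4) (nat_lit 4) (nat_lit 5) (nat_lit 4) (nat_lit 4) (nat_lit 356) (nat_lit 216) (nat_lit 208))))))) (XT.nd (nat_lit 780) (nat_lit 0) (nat_lit 0) (XT.nd (nat_lit 390) (nat_lit 0) (nat_lit 0) (XT.nd (nat_lit 156) (nat_lit 0) (nat_lit 0) (XT.nd (nat_lit 78) (nat_lit 0) (nat_lit 0) (XT.lf (nat_lit 0)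 (nat_lit 95089907414) (nat_lit 76) (nat_lit 23809742426) (nat_lit 76) (nat_lit 22798017387) (nat_lit 3) (nat_lit 4) (nat_lit 4) (nat_lit 5) (nat_lit 4) (nat_lit 4) (nat_lit 357) (nat_lit 216) (nat_lit 207)) (XT.lf (nat_lit 0) (nat_lit 103203515909) (nat_lit 76) (nat_lit 23293669733) (nat_lit 76) (nat_lit 22194560481) (nat_lit 3) (nat_lit 4) (nat_lit 4) (nat_lit 5) (nat_lit 4) (nat_lit 4) (nat_lit 358) (nat_lit 216) (nat_lit 206))) (XT.nd (nat_lit 78) (nat_lit 0) (nat_lit 0) (XT.lf (nat_lit 0) (nat_lit 111633671147) (nat_lit 76) (nat_lit 22793299808) (nat_lit 76) (nat_lit 21610967495) (nat_lit 3) (nat_lit 4) (nat_lit 4) (nat_lit 5) (nat_lit 4) (nat_lit 4) (nat_lit 359) (nat_lit 216) (nat_lit 205)) (XT.nd (nat_lit 78) (nat_lit 0) (nat_lit 0) (XT.lf (nat_lit 0) (nat_lit 120400444926) (nat_lit 76) (nat_lit 22307441294) (nat_lit 76) (nat_lit 21045848923) (nat_lit 3) (nat_lit 4) (nat_lit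 4) (nat_lit 5) (nat_lit 4) (nat_lit 4) (nat_lit 360) (nat_lit 216) (nat_lit 204)) (XT.lf (nat_lit 0) (nat_lit 129524710517) (nat_lit 76) (nat_lit 21834937385) (nat_lit 76) (nat_lit 20497859244) (nat_lit 3) (nat_lit 4) (nat_lit 4) (nat_lit 5) (nat_lit 4) (nat_lit 4) (nat_lit 361) (nat_lit 216) (nat_lit 203))))) (XT.nd (nat_lit 156) (nat_lit 0) (nat_lit 0) (XT.nd (nat_lit 78) (nat_lit 0) (nat_lit 0) (XT.lf (nat_lit 0) (nat_lit 139028192361) (nat_lit 76) (nat_lit 21374663070) (nat_lit 76) (nat_lit 19965693721) (nat_lit 3) (nat_lit 4) (nat_lit 4) (nat_lit 5) (nat_lit 4) (nat_lit 4) (nat_lit 362) (nat_lit 216) (nat_lit 202)) (XT.lf (nat_lit 0) (nat_lit 148933517797) (nat_lit 76) (nat_lit 20925522460) (nat_lit 76) (nat_lit 19448085292) (nat_lit 3) (nat_lit 4) (nat_lit 4) (nat_lit 5) (nat_lit 4) (nat_lit 4) (nat_lit 363) (nat_lit 216) (nat_lit 201))) (XT.nd (nat_lit 78) (nat_lit 0) (nat_lit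 0) (XT.lf (nat_lit 0) (nat_lit 159264270932) (nat_lit 76) (nat_lit 20486446172) (nat_lit 76) (nat_lit 18943801558) (nat_lit 3) (nat_lit 4) (nat_lit 4) (nat_lit 5) (nat_lit 4) (nat_lit 4) (nat_lit 364) (nat_lit 216) (nat_lit 200)) (XT.nd (nat_lit 78) (nat_lit 0) (nat_lit 0) (XT.lf (nat_lit 0) (nat_lit 170045048799) (nat_lit 76) (nat_lit 20056388786) (nat_lit 76) (nat_lit 18451641842) (nat_lit 3) (nat_lit 4) (nat_lit 4) (nat_lit 5) (nat_lit 4) (nat_lit 4) (nat_lit 365) (nat_lit 216) (nat_lit 199)) (XT.lf (nat_lit 0) (nat_lit 181301519914) (nat_lit 76) (nat_lit 19634326355) (nat_lit 76) (nat_lit 17970434336) (nat_lit 3) (nat_lit 4) (nat_lit 4) (nat_lit 5) (nat_lit 4) (nat_lit 4) (nat_lit 366) (nat_lit 216) (nat_lit 198)))))) (XT.nd (nat_lit 390) (nat_lit 0) (nat_lit 0) (XT.nd (nat_lit 156) (nat_lit 0) (nat_lit 0) (XT.nd (nat_lit 78) (nat_lit 0) (nat_lit 0) (XT.lf (nat_lit 0) (nat_lit 193060485401)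 (nat_lit 76) (nat_lit 19219253970) (nat_lit 76) (nat_lit 17499033307) (nat_lit 3) (nat_lit 4) (nat_lit 4) (nat_lit 5) (nat_lit 4) (nat_lit 4) (nat_lit 367) (nat_lit 216) (nat_lit 197)) (XT.lf (nat_lit 0) (nat_lit 205349942796) (nat_lit 76) (nat_lit 18810183362) (nat_lit 76) (nat_lit 17036316373) (nat_lit 3) (nat_lit 4) (nat_lit 4) (nat_lit 5) (nat_lit 4) (nat_lit 4) (nat_lit 368) (nat_lit 216) (nat_lit 196))) (XT.nd (nat_lit 78) (nat_lit 0) (nat_lit 0) (XT.lf (nat_lit 0) (nat_lit 218199152713) (nat_lit 76) (nat_lit 18406140554) (nat_lit 76) (nat_lit 16581181825) (nat_lit 3) (nat_lit 4) (nat_lit 4) (nat_lit 5) (nat_lit 4) (nat_lit 4) (nat_lit 369) (nat_lit 216) (nat_lit 195)) (XT.nd (nat_lit 78) (nat_lit 0) (nat_lit 0) (XT.lf (nat_lit 0) (nat_lit 231638708507) (nat_lit 76) (nat_lit 18006163540) (nat_lit 76) (nat_lit 16132546011) (nat_lit 3) (nat_lit 4) (nat_lit 4) (nat_lit 5) (nat_lit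 4) (nat_lit 4) (nat_lit 370) (nat_lit 216) (nat_lit 194)) (XT.lf (nat_lit 0) (nat_lit 245700609121) (nat_lit 76) (nat_lit 17609299993) (nat_lit 76) (nat_lit 15689340749) (nat_lit 3) (nat_lit 4) (nat_lit 4) (nat_lit 5) (nat_lit 4) (nat_lit 4) (nat_lit 371) (nat_lit 216) (nat_lit 193))))) (XT.nd (nat_lit 156) (nat_lit 0) (nat_lit 0) (XT.nd (nat_lit 78) (nat_lit 0) (nat_lit 0) (XT.lf (nat_lit 0) (nat_lit 260418335271) (nat_lit 76) (nat_lit 17214605000) (nat_lit 76) (nat_lit 15250510790) (nat_lit 3) (nat_lit 4) (nat_lit 4) (nat_lit 5) (nat_lit 4) (nat_lit 4) (nat_lit 372) (nat_lit 216) (nat_lit 192)) (XT.lf (nat_lit 0) (nat_lit 275826929163) (nat_lit 76) (nat_lit 16821138810) (nat_lit 76) (nat_lit 14815011299) (nat_lit 3) (nat_lit 4) (nat_lit 4) (nat_lit 5) (nat_lit 4) (nat_lit 4) (nat_lit 373) (nat_lit 216) (nat_lit 191))) (XT.nd (nat_lit 78) (nat_lit 0) (nat_lit 0) (XT.lf (nat_lit 0)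 (nat_lit 291963077924) (nat_lit 76) (nat_lit 16427964601) (nat_lit 76) (nat_lit 14381805374) (nat_lit 3) (nat_lit 4) (nat_lit 4) (nat_lit 5) (nat_lit 4) (nat_lit 4) (nat_lit 374) (nat_lit 216) (nat_lit 190)) (XT.nd (nat_lit 78) (nat_lit 0) (nat_lit 0) (XT.lf (nat_lit 0) (nat_lit 308865200956) (nat_lit 76) (nat_lit 16034146242) (nat_lit 76) (nat_lit 13949861572) (nat_lit 3) (nat_lit 4) (nat_lit 4) (nat_lit 5) (nat_lit 4) (nat_lit 4) (nat_lit 375) (nat_lit 216) (nat_lit 189)) (XT.lf (nat_lit 0) (nat_lit 326573541410) (nat_lit 76) (nat_lit 15638746070) (nat_lit 76) (nat_lit 13518151455) (nat_lit 3) (nat_lit 4) (nat_lit 4) (nat_lit 5) (nat_lit 4) (nat_lit 4) (nat_lit 376) (nat_lit 216) (nat_lit 188))))))))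
noncomputable def xc12 : XT := (XT.nd (nat_lit 38610) (nat_lit 0) (nat_lit 0) (XT.nd (nat_lit 702) (nat_lit 0) (nat_lit 0) (XT.nd (nat_lit 312) (nat_lit 0) (nat_lit 0) (XT.nd (nat_lit 156) (nat_lit 0) (nat_lit 0) (XT.nd (nat_lit 78) (nat_lit 0) (nat_lit 0) (XT.lf (nat_lit 0) (nat_lit 345130262001) (nat_lit 76) (nat_lit 15240822658) (nat_lit 76) (nat_lit 13085647142) (nat_lit 3) (nat_lit 4) (nat_lit 4) (nat_lit 5) (nat_lit 4) (nat_lit 4) (nat_lit 377) (nat_lit 216) (nat_lit 187)) (XT.lf (nat_lit 0) (nat_lit 364579545396) (nat_lit 76) (nat_lit 14839428568) (nat_lit 76) (nat_lit 12651318861) (nat_lit 3) (nat_lit 4) (nat_lit 4) (nat_lit 5) (nat_lit 4) (nat_lit 4) (nat_lit 378) (nat_lit 216) (nat_lit 186))) (XT.nd (nat_lit 78) (nat_lit 0) (nat_lit 0) (XT.lf (nat_lit 0) (nat_lit 384967699414) (nat_lit 76) (nat_lit 14433608100) (nat_lit 76) (nat_lit 12214132496) (nat_lit 3) (nat_lit 4) (nat_lit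 4) (nat_lit 5) (nat_lit 4) (nat_lit 4) (nat_lit 379) (nat_lit 216) (nat_lit 185)) (XT.lf (nat_lit 0) (nat_lit 406343267278) (nat_lit 76) (nat_lit 14022395014) (nat_lit 76) (nat_lit 11773047129) (nat_lit 3) (nat_lit 4) (nat_lit 4) (nat_lit 5) (nat_lit 4) (nat_lit 4) (nat_lit 380) (nat_lit 216) (nat_lit 184)))) (XT.nd (nat_lit 156) (nat_lit 0) (nat_lit 0) (XT.nd (nat_lit 78) (nat_lit 0) (nat_lit 0) (XT.lf (nat_lit 0) (nat_lit 428757143197) (nat_lit 76) (nat_lit 13604810233) (nat_lit 76) (nat_lit 11327012554) (nat_lit 3) (nat_lit 4) (nat_lit 4) (nat_lit 5) (nat_lit 4) (nat_lit 4) (nat_lit 381) (nat_lit 216) (nat_lit 183)) (XT.lf (nat_lit 0) (nat_lit 452262693543) (nat_lit 76) (nat_lit 13179859506) (nat_lit 76) (nat_lit 10874966787) (nat_lit 3) (nat_lit 4) (nat_lit 4) (nat_lit 5) (nat_lit 4) (nat_lit 4) (nat_lit 382) (nat_lit 216) (nat_lit 182))) (XT.nd (nat_lit 78) (nat_lit 0) (nat_lit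 0) (XT.lf (nat_lit 0) (nat_lit 476915883912) (nat_lit 76) (nat_lit 12746531046) (nat_lit 76) (nat_lit 10415833526) (nat_lit 3) (nat_lit 4) (nat_lit 4) (nat_lit 5) (nat_lit 4) (nat_lit 4) (nat_lit 383) (nat_lit 216) (nat_lit 181)) (XT.nd (nat_lit 78) (nat_lit 0) (nat_lit 0) (XT.lf (nat_lit 0) (nat_lit 502775412376) (nat_lit 76) (nat_lit 12303793119) (nat_lit 76) (nat_lit 9948519598) (nat_lit 3) (nat_lit 4) (nat_lit 4) (nat_lit 5) (nat_lit 4) (nat_lit 4) (nat_lit 384) (nat_lit 216) (nat_lit 180)) (XT.lf (nat_lit 0) (nat_lit 529902849241) (nat_lit 76) (nat_lit 11850591586) (nat_lit 76) (nat_lit 9471912351) (nat_lit 3) (nat_lit 4) (nat_lit 4) (nat_lit 5) (nat_lit 4) (nat_lit 4) (nat_lit 385) (nat_lit 216) (nat_lit 179)))))) (XT.nd (nat_lit 37518) (nat_lit 0) (nat_lit 0) (XT.nd (nat_lit 156) (nat_lit 0) (nat_lit 0) (XT.nd (nat_lit 78) (nat_lit 0) (nat_lit 0) (XT.lf (nat_lit 0) (nat_lit 558362783642)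 (nat_lit 76) (nat_lit 11385847397) (nat_lit 76) (nat_lit 8984877005) (nat_lit 3) (nat_lit 4) (nat_lit 4) (nat_lit 5) (nat_lit 4) (nat_lit 4) (nat_lit 386) (nat_lit 216) (nat_lit 178)) (XT.lf (nat_lit 0) (nat_lit 588222977329) (nat_lit 76) (nat_lit 10908454017) (nat_lit 76) (nat_lit 8486253952) (nat_lit 3) (nat_lit 4) (nat_lit 4) (nat_lit 5) (nat_lit 4) (nat_lit 4) (nat_lit 387) (nat_lit 216) (nat_lit 177))) (XT.nd (nat_lit 78) (nat_lit 0) (nat_lit 0) (XT.lf (nat_lit 0) (nat_lit 619554525999) (nat_lit 76) (nat_lit 10417274796) (nat_lit 76) (nat_lit 7974855995) (nat_lit 3) (nat_lit 4) (nat_lit 4) (nat_lit 5) (nat_lit 4) (nat_lit 4) (nat_lit 388) (nat_lit 216) (nat_lit 176)) (XT.nd (nat_lit 78) (nat_lit 0) (nat_lit 0) (XT.lf (nat_lit 0) (nat_lit 652432028579) (nat_lit 76) (nat_lit 9911140260) (nat_lit 76) (nat_lit 7449465519) (nat_lit 3) (nat_lit 4) (nat_lit 4) (nat_lit 5) (nat_lit 4)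 (nat_lit 4) (nat_lit 389) (nat_lit 216) (nat_lit 175)) (XT.lf (nat_lit 0) (nat_lit 686933764836) (nat_lit 76) (nat_lit 9388845326) (nat_lit 76) (nat_lit 6908831595) (nat_lit 3) (nat_lit 4) (nat_lit 4) (nat_lit 5) (nat_lit 4) (nat_lit 4) (nat_lit 390) (nat_lit 216) (nat_lit 174))))) (XT.nd (nat_lit 156) (nat_lit 0) (nat_lit 0) (XT.nd (nat_lit 78) (nat_lit 0) (nat_lit 0) (XT.lf (nat_lit 0) (nat_lit 10866596038) (nat_lit 76) (nat_lit 15507479417) (nat_lit 76) (nat_lit 15507479417) (nat_lit 3) (nat_lit 4) (nat_lit 4) (nat_lit 5) (nat_lit 4) (nat_lit 4) (nat_lit 346) (nat_lit 217) (nat_lit 217)) (XT.lf (nat_lit 0) (nat_lit 27430499664) (nat_lit 76) (nat_lit 30269234474) (nat_lit 76) (nat_lit 30126894797) (nat_lit 3) (nat_lit 4) (nat_lit 4) (nat_lit 5) (nat_lit 4) (nat_lit 4) (nat_lit 347) (nat_lit 217) (nat_lit 216))) (XT.nd (nat_lit 78) (nat_lit 0) (nat_lit 0) (XT.lf (nat_lit 0) (nat_lit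 33267483254) (nat_lit 76) (nat_lit 29553833451) (nat_lit 76) (nat_lit 29275932178) (nat_lit 3) (nat_lit 4) (nat_lit 4) (nat_lit 5) (nat_lit 4) (nat_lit 4) (nat_lit 348) (nat_lit 217) (nat_lit 215)) (XT.nd (nat_lit 78) (nat_lit 0) (nat_lit 0) (XT.lf (nat_lit 0) (nat_lit 39258040428) (nat_lit 76) (nat_lit 28867052431) (nat_lit 76) (nat_lit 28460044875) (nat_lit 3) (nat_lit 4) (nat_lit 4) (nat_lit 5) (nat_lit 4) (nat_lit 4) (nat_lit 349) (nat_lit 217) (nat_lit 214)) (XT.lf (nat_lit 0) (nat_lit 45416434416) (nat_lit 76) (nat_lit 28207256219) (nat_lit 76) (nat_lit 27677290298) (nat_lit 3) (nat_lit 4) (nat_lit 4) (nat_lit 5) (nat_lit 4) (nat_lit 4) (nat_lit 350) (nat_lit 217) (nat_lit 213))))))) (XT.nd (nat_lit 780) (nat_lit 0) (nat_lit 0) (XT.nd (nat_lit 390) (nat_lit 0) (nat_lit 0) (XT.nd (nat_lit 156) (nat_lit 0) (nat_lit 0) (XT.nd (nat_lit 78) (nat_lit 0) (nat_lit 0) (XT.lf (nat_lit 0)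 (nat_lit 51757328063) (nat_lit 76) (nat_lit 27572873872) (nat_lit 76) (nat_lit 26925804748) (nat_lit 3) (nat_lit 4) (nat_lit 4) (nat_lit 5) (nat_lit 4) (nat_lit 4) (nat_lit 351) (nat_lit 217) (nat_lit 212)) (XT.lf (nat_lit 0) (nat_lit 58295818733) (nat_lit 76) (nat_lit 26962394957) (nat_lit 76) (nat_lit 26203798971) (nat_lit 3) (nat_lit 4) (nat_lit 4) (nat_lit 5) (nat_lit 4) (nat_lit 4) (nat_lit 352) (nat_lit 217) (nat_lit 211))) (XT.nd (nat_lit 78) (nat_lit 0) (nat_lit 0) (XT.lf (nat_lit 0) (nat_lit 65047474261) (nat_lit 76) (nat_lit 26374365952) (nat_lit 76) (nat_lit 25509553908) (nat_lit 3) (nat_lit 4) (nat_lit 4) (nat_lit 5) (nat_lit 4) (nat_lit 4) (nat_lit 353) (nat_lit 217) (nat_lit 210)) (XT.nd (nat_lit 78) (nat_lit 0) (nat_lit 0) (XT.lf (nat_lit 0) (nat_lit 72028370019) (nat_lit 76) (nat_lit 25807386788) (nat_lit 76) (nat_lit 24841416593) (nat_lit 3) (nat_lit 4) (nat_lit 4)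 (nat_lit 5) (nat_lit 4) (nat_lit 4) (nat_lit 354) (nat_lit 217) (nat_lit 209)) (XT.lf (nat_lit 0) (nat_lit 79255127185) (nat_lit 76) (nat_lit 25260107514) (nat_lit 76) (nat_lit 24197796224) (nat_lit 3) (nat_lit 4) (nat_lit 4) (nat_lit 5) (nat_lit 4) (nat_lit 4) (nat_lit 355) (nat_lit 217) (nat_lit 208))))) (XT.nd (nat_lit 156) (nat_lit 0) (nat_lit 0) (XT.nd (nat_lit 78) (nat_lit 0) (nat_lit 0) (XT.lf (nat_lit 0) (nat_lit 86744952325) (nat_lit 76) (nat_lit 24731225086) (nat_lit 76) (nat_lit 23577160371) (nat_lit 3) (nat_lit 4) (nat_lit 4) (nat_lit 5) (nat_lit 4) (nat_lit 4) (nat_lit 356) (nat_lit 217) (nat_lit 207)) (XT.lf (nat_lit 0) (nat_lit 94515678356) (nat_lit 76) (nat_lit 24219480258) (nat_lit 76) (nat_lit 22978031329) (nat_lit 3) (nat_lit 4) (nat_lit 4) (nat_lit 5) (nat_lit 4) (nat_lit 4) (nat_lit 357) (nat_lit 217) (nat_lit 206))) (XT.nd (nat_lit 78) (nat_lit 0) (nat_lit 0) (XT.lf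 (nat_lit 0) (nat_lit 102585807007) (nat_lit 76) (nat_lit 23723654591) (nat_lit 76) (nat_lit 22398982601) (nat_lit 3) (nat_lit 4) (nat_lit 4) (nat_lit 5) (nat_lit 4) (nat_lit 4) (nat_lit 358) (nat_lit 217) (nat_lit 205)) (XT.nd (nat_lit 78) (nat_lit 0) (nat_lit 0) (XT.lf (nat_lit 0) (nat_lit 110974552869) (nat_lit 76) (nat_lit 23242567548) (nat_lit 76) (nat_lit 21838635500) (nat_lit 3) (nat_lit 4) (nat_lit 4) (nat_lit 5) (nat_lit 4) (nat_lit 4) (nat_lit 359) (nat_lit 217) (nat_lit 204)) (XT.lf (nat_lit 0) (nat_lit 119701889146) (nat_lit 76) (nat_lit 22775073683) (nat_lit 76) (nat_lit 21295655865) (nat_lit 3) (nat_lit 4) (nat_lit 4) (nat_lit 5) (nat_lit 4) (nat_lit 4) (nat_lit 360) (nat_lit 217) (nat_lit 203)))))) (XT.nd (nat_lit 390) (nat_lit 0) (nat_lit 0) (XT.nd (nat_lit 156) (nat_lit 0) (nat_lit 0) (XT.nd (nat_lit 78) (nat_lit 0) (nat_lit 0) (XT.lf (nat_lit 0) (nat_lit 128788595212)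 (nat_lit 76) (nat_lit 22320059915) (nat_lit 76) (nat_lit 20768750889) (nat_lit 3) (nat_lit 4) (nat_lit 4) (nat_lit 5) (nat_lit 4) (nat_lit 4) (nat_lit 361) (nat_lit 217) (nat_lit 202)) (XT.lf (nat_lit 0) (nat_lit 138256306081) (nat_lit 76) (nat_lit 21876442879) (nat_lit 76) (nat_lit 20256666034) (nat_lit 3) (nat_lit 4) (nat_lit 4) (nat_lit 5) (nat_lit 4) (nat_lit 4) (nat_lit 362) (nat_lit 217) (nat_lit 201))) (XT.nd (nat_lit 78) (nat_lit 0) (nat_lit 0) (XT.lf (nat_lit 0) (nat_lit 148127563920) (nat_lit 76) (nat_lit 21443166343) (nat_lit 76) (nat_lit 19758182053) (nat_lit 3) (nat_lit 4) (nat_lit 4) (nat_lit 5) (nat_lit 4) (nat_lit 4) (nat_lit 363) (nat_lit 217) (nat_lit 200)) (XT.nd (nat_lit 78) (nat_lit 0) (nat_lit 0) (XT.lf (nat_lit 0) (nat_lit 158425871726) (nat_lit 76) (nat_lit 21019198697) (nat_lit 76) (nat_lit 19272112077) (nat_lit 3) (nat_lit 4) (nat_lit 4) (nat_lit 5) (nat_lit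 4) (nat_lit 4) (nat_lit 364) (nat_lit 217) (nat_lit 199)) (XT.lf (nat_lit 0) (nat_lit 169175749278) (nat_lit 76) (nat_lit 20603530493) (nat_lit 76) (nat_lit 18797298798) (nat_lit 3) (nat_lit 4) (nat_lit 4) (nat_lit 5) (nat_lit 4) (nat_lit 4) (nat_lit 365) (nat_lit 217) (nat_lit 198))))) (XT.nd (nat_lit 156) (nat_lit 0) (nat_lit 0) (XT.nd (nat_lit 78) (nat_lit 0) (nat_lit 0) (XT.lf (nat_lit 0) (nat_lit 180402791523) (nat_lit 76) (nat_lit 20195172046) (nat_lit 76) (nat_lit 18332611708) (nat_lit 3) (nat_lit 4) (nat_lit 4) (nat_lit 5) (nat_lit 4) (nat_lit 4) (nat_lit 366) (nat_lit 217) (nat_lit 197)) (XT.lf (nat_lit 0) (nat_lit 192133729515) (nat_lit 76) (nat_lit 19793151074) (nat_lit 76) (nat_lit 17876944408) (nat_lit 3) (nat_lit 4) (nat_lit 4) (nat_lit 5) (nat_lit 4) (nat_lit 4) (nat_lit 367) (nat_lit 217) (nat_lit 196))) (XT.nd (nat_lit 78) (nat_lit 0) (nat_lit 0) (XT.lf (nat_lit 0)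 (nat_lit 204396494057) (nat_lit 76) (nat_lit 19396510384) (nat_lit 76) (nat_lit 17429211978) (nat_lit 3) (nat_lit 4) (nat_lit 4) (nat_lit 5) (nat_lit 4) (nat_lit 4) (nat_lit 368) (nat_lit 217) (nat_lit 195)) (XT.nd (nat_lit 78) (nat_lit 0) (nat_lit 0) (XT.lf (nat_lit 0) (nat_lit 217220282208) (nat_lit 76) (nat_lit 19004305592) (nat_lit 76) (nat_lit 16988348386) (nat_lit 3) (nat_lit 4) (nat_lit 4) (nat_lit 5) (nat_lit 4) (nat_lit 4) (nat_lit 369) (nat_lit 217) (nat_lit 194)) (XT.lf (nat_lit 0) (nat_lit 230635626797) (nat_lit 76) (nat_lit 18615602880) (nat_lit 76) (nat_lit 16553303959) (nat_lit 3) (nat_lit 4) (nat_lit 4) (nat_lit 5) (nat_lit 4) (nat_lit 4) (nat_lit 370) (nat_lit 217) (nat_lit 193))))))))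
noncomputable def xc13 : XT := (XT.nd (nat_lit 38532) (nat_lit 0) (nat_lit 0) (XT.nd (nat_lit 702) (nat_lit 0) (nat_lit 0) (XT.nd (nat_lit 312) (nat_lit 0) (nat_lit 0) (XT.nd (nat_lit 156) (nat_lit 0) (nat_lit 0) (XT.nd (nat_lit 78) (nat_lit 0) (nat_lit 0) (XT.lf (nat_lit 0) (nat_lit 244674469122) (nat_lit 76) (nat_lit 18229476762) (nat_lit 76) (nat_lit 16123042876) (nat_lit 3) (nat_lit 4) (nat_lit 4) (nat_lit 5) (nat_lit 4) (nat_lit 4) (nat_lit 371) (nat_lit 217) (nat_lit 192)) (XT.lf (nat_lit 0) (nat_lit 259370234996) (nat_lit 76) (nat_lit 17845007893) (nat_lit 76) (nat_lit 15696540705) (nat_lit 3) (nat_lit 4) (nat_lit 4) (nat_lit 5) (nat_lit 4) (nat_lit 4) (nat_lit 372) (nat_lit 217) (nat_lit 191))) (XT.nd (nat_lit 78) (nat_lit 0) (nat_lit 0) (XT.lf (nat_lit 0) (nat_lit 274757914339) (nat_lit 76) (nat_lit 17461280869) (nat_lit 76) (nat_lit 15272781966) (nat_lit 3) (nat_lit 4) (nat_lit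 4) (nat_lit 5) (nat_lit 4) (nat_lit 4) (nat_lit 373) (nat_lit 217) (nat_lit 190)) (XT.lf (nat_lit 0) (nat_lit 290874144482) (nat_lit 76) (nat_lit 17077382055) (nat_lit 76) (nat_lit 14850757709) (nat_lit 3) (nat_lit 4) (nat_lit 4) (nat_lit 5) (nat_lit 4) (nat_lit 4) (nat_lit 374) (nat_lit 217) (nat_lit 189)))) (XT.nd (nat_lit 156) (nat_lit 0) (nat_lit 0) (XT.nd (nat_lit 78) (nat_lit 0) (nat_lit 0) (XT.lf (nat_lit 0) (nat_lit 307757297402) (nat_lit 76) (nat_lit 16692397406) (nat_lit 76) (nat_lit 14429463114) (nat_lit 3) (nat_lit 4) (nat_lit 4) (nat_lit 5) (nat_lit 4) (nat_lit 4) (nat_lit 375) (nat_lit 217) (nat_lit 188)) (XT.lf (nat_lit 0) (nat_lit 325447571082) (nat_lit 76) (nat_lit 16305410292) (nat_lit 76) (nat_lit 14007895100) (nat_lit 3) (nat_lit 4) (nat_lit 4) (nat_lit 5) (nat_lit 4) (nat_lit 4) (nat_lit 376) (nat_lit 217) (nat_lit 187))) (XT.nd (nat_lit 78) (nat_lit 0) (nat_lit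 0) (XT.lf (nat_lit 0) (nat_lit 343987085221) (nat_lit 76) (nat_lit 15915499315) (nat_lit 76) (nat_lit 13585049932) (nat_lit 3) (nat_lit 4) (nat_lit 4) (nat_lit 5) (nat_lit 4) (nat_lit 4) (nat_lit 377) (nat_lit 217) (nat_lit 186)) (XT.nd (nat_lit 78) (nat_lit 0) (nat_lit 0) (XT.lf (nat_lit 0) (nat_lit 363419981520) (nat_lit 76) (nat_lit 15521736116) (nat_lit 76) (nat_lit 13159920836) (nat_lit 3) (nat_lit 4) (nat_lit 4) (nat_lit 5) (nat_lit 4) (nat_lit 4) (nat_lit 378) (nat_lit 217) (nat_lit 185)) (XT.lf (nat_lit 0) (nat_lit 383792528780) (nat_lit 76) (nat_lit 15123183163) (nat_lit 76) (nat_lit 12731495601) (nat_lit 3) (nat_lit 4) (nat_lit 4) (nat_lit 5) (nat_lit 4) (nat_lit 4) (nat_lit 379) (nat_lit 217) (nat_lit 184)))))) (XT.nd (nat_lit 390) (nat_lit 0) (nat_lit 0) (XT.nd (nat_lit 156) (nat_lit 0) (nat_lit 0) (XT.nd (nat_lit 78) (nat_lit 0) (nat_lit 0) (XT.lf (nat_lit 0) (nat_lit 405153233064)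 (nat_lit 76) (nat_lit 14718891521) (nat_lit 76) (nat_lit 12298754166) (nat_lit 3) (nat_lit 4) (nat_lit 4) (nat_lit 5) (nat_lit 4) (nat_lit 4) (nat_lit 380) (nat_lit 217) (nat_lit 183)) (XT.lf (nat_lit 0) (nat_lit 427552953194) (nat_lit 76) (nat_lit 14307898590) (nat_lit 76) (nat_lit 11860666194) (nat_lit 3) (nat_lit 4) (nat_lit 4) (nat_lit 5) (nat_lit 4) (nat_lit 4) (nat_lit 381) (nat_lit 217) (nat_lit 182))) (XT.nd (nat_lit 78) (nat_lit 0) (nat_lit 0) (XT.lf (nat_lit 0) (nat_lit 451045021835) (nat_lit 76) (nat_lit 13889225816) (nat_lit 76) (nat_lit 11416188620) (nat_lit 3) (nat_lit 4) (nat_lit 4) (nat_lit 5) (nat_lit 4) (nat_lit 4) (nat_lit 382) (nat_lit 217) (nat_lit 181)) (XT.nd (nat_lit 78) (nat_lit 0) (nat_lit 0) (XT.lf (nat_lit 0) (nat_lit 475685372486) (nat_lit 76) (nat_lit 13461876358) (nat_lit 76) (nat_lit 10964263162) (nat_lit 3) (nat_lit 4) (nat_lit 4) (nat_lit 5) (nat_lit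 4) (nat_lit 4) (nat_lit 383) (nat_lit 217) (nat_lit 180)) (XT.lf (nat_lit 0) (nat_lit 501532672646) (nat_lit 76) (nat_lit 13024832719) (nat_lit 76) (nat_lit 10503813808) (nat_lit 3) (nat_lit 4) (nat_lit 4) (nat_lit 5) (nat_lit 4) (nat_lit 4) (nat_lit 384) (nat_lit 217) (nat_lit 179))))) (XT.nd (nat_lit 156) (nat_lit 0) (nat_lit 0) (XT.nd (nat_lit 78) (nat_lit 0) (nat_lit 0) (XT.lf (nat_lit 0) (nat_lit 528648463508) (nat_lit 76) (nat_lit 12577054319) (nat_lit 76) (nat_lit 10033744250) (nat_lit 3) (nat_lit 4) (nat_lit 4) (nat_lit 5) (nat_lit 4) (nat_lit 4) (nat_lit 385) (nat_lit 217) (nat_lit 178)) (XT.lf (nat_lit 0) (nat_lit 557097306477) (nat_lit 76) (nat_lit 12117475017) (nat_lit 76) (nat_lit 9552935275) (nat_lit 3) (nat_lit 4) (nat_lit 4) (nat_lit 5) (nat_lit 4) (nat_lit 4) (nat_lit 386) (nat_lit 217) (nat_lit 177))) (XT.nd (nat_lit 78) (nat_lit 0) (nat_lit 0) (XT.lf (nat_lit 0) (nat_lit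 586946936895) (nat_lit 76) (nat_lit 11645000577) (nat_lit 76) (nat_lit 9060242099) (nat_lit 3) (nat_lit 4) (nat_lit 4) (nat_lit 5) (nat_lit 4) (nat_lit 4) (nat_lit 387) (nat_lit 217) (nat_lit 176)) (XT.nd (nat_lit 78) (nat_lit 0) (nat_lit 0) (XT.lf (nat_lit 0) (nat_lit 618268425310) (nat_lit 76) (nat_lit 11158506062) (nat_lit 76) (nat_lit 8554491644) (nat_lit 3) (nat_lit 4) (nat_lit 4) (nat_lit 5) (nat_lit 4) (nat_lit 4) (nat_lit 388) (nat_lit 217) (nat_lit 175)) (XT.lf (nat_lit 0) (nat_lit 651136346694) (nat_lit 76) (nat_lit 10656833149) (nat_lit 76) (nat_lit 8034479742) (nat_lit 3) (nat_lit 4) (nat_lit 4) (nat_lit 5) (nat_lit 4) (nat_lit 4) (nat_lit 389) (nat_lit 217) (nat_lit 174))))))) (XT.nd (nat_lit 780) (nat_lit 0) (nat_lit 0) (XT.nd (nat_lit 390) (nat_lit 0) (nat_lit 0) (XT.nd (nat_lit 156) (nat_lit 0) (nat_lit 0) (XT.nd (nat_lit 78) (nat_lit 0) (nat_lit 0) (XT.lf (nat_lit 0)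 (nat_lit 5390864330) (nat_lit 76) (nat_lit 16358826020) (nat_lit 76) (nat_lit 16358826020) (nat_lit 3) (nat_lit 4) (nat_lit 4) (nat_lit 5) (nat_lit 4) (nat_lit 4) (nat_lit 344) (nat_lit 218) (nat_lit 218)) (XT.lf (nat_lit 0) (nat_lit 16161995475) (nat_lit 76) (nat_lit 31942238726) (nat_lit 76) (nat_lit 31792782066) (nat_lit 3) (nat_lit 4) (nat_lit 4) (nat_lit 5) (nat_lit 4) (nat_lit 4) (nat_lit 345) (nat_lit 218) (nat_lit 217))) (XT.nd (nat_lit 78) (nat_lit 0) (nat_lit 0) (XT.lf (nat_lit 0) (nat_lit 21658826787) (nat_lit 76) (nat_lit 31199044779) (nat_lit 76) (nat_lit 30907248442) (nat_lit 3) (nat_lit 4) (nat_lit 4) (nat_lit 5) (nat_lit 4) (nat_lit 4) (nat_lit 346) (nat_lit 218) (nat_lit 216)) (XT.nd (nat_lit 78) (nat_lit 0) (nat_lit 0) (XT.lf (nat_lit 0) (nat_lit 27285310288) (nat_lit 76) (nat_lit 30486300690) (nat_lit 76) (nat_lit 30058942756) (nat_lit 3) (nat_lit 4) (nat_lit 4) (nat_lit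 5) (nat_lit 4) (nat_lit 4) (nat_lit 347) (nat_lit 218) (nat_lit 215)) (XT.lf (nat_lit 0) (nat_lit 33054842368) (nat_lit 76) (nat_lit 29802309449) (nat_lit 76) (nat_lit 29245845233) (nat_lit 3) (nat_lit 4) (nat_lit 4) (nat_lit 5) (nat_lit 4) (nat_lit 4) (nat_lit 348) (nat_lit 218) (nat_lit 214))))) (XT.nd (nat_lit 156) (nat_lit 0) (nat_lit 0) (XT.nd (nat_lit 78) (nat_lit 0) (nat_lit 0) (XT.lf (nat_lit 0) (nat_lit 38981160008) (nat_lit 76) (nat_lit 29145442506) (nat_lit 76) (nat_lit 28466019926) (nat_lit 3) (nat_lit 4) (nat_lit 4) (nat_lit 5) (nat_lit 4) (nat_lit 4) (nat_lit 349) (nat_lit 218) (nat_lit 213)) (XT.lf (nat_lit 0) (nat_lit 45078373489) (nat_lit 76) (nat_lit 28514135892) (nat_lit 76) (nat_lit 27717610108) (nat_lit 3) (nat_lit 4) (nat_lit 4) (nat_lit 5) (nat_lit 4) (nat_lit 4) (nat_lit 350) (nat_lit 218) (nat_lit 212))) (XT.nd (nat_lit 78) (nat_lit 0) (nat_lit 0) (XT.lf (nat_lit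 0) (nat_lit 51360999985) (nat_lit 76) (nat_lit 27906886497) (nat_lit 76) (nat_lit 26998833851) (nat_lit 3) (nat_lit 4) (nat_lit 4) (nat_lit 5) (nat_lit 4) (nat_lit 4) (nat_lit 351) (nat_lit 218) (nat_lit 211)) (XT.nd (nat_lit 78) (nat_lit 0) (nat_lit 0) (XT.lf (nat_lit 0) (nat_lit 57843998130) (nat_lit 76) (nat_lit 27322248487) (nat_lit 76) (nat_lit 26307979783) (nat_lit 3) (nat_lit 4) (nat_lit 4) (nat_lit 5) (nat_lit 4) (nat_lit 4) (nat_lit 352) (nat_lit 218) (nat_lit 210)) (XT.lf (nat_lit 0) (nat_lit 64542803635) (nat_lit 76) (nat_lit 26758829868) (nat_lit 76) (nat_lit 25643403013) (nat_lit 3) (nat_lit 4) (nat_lit 4) (nat_lit 5) (nat_lit 4) (nat_lit 4) (nat_lit 353) (nat_lit 218) (nat_lit 209)))))) (XT.nd (nat_lit 390) (nat_lit 0) (nat_lit 0) (XT.nd (nat_lit 156) (nat_lit 0) (nat_lit 0) (XT.nd (nat_lit 78) (nat_lit 0) (nat_lit 0) (XT.lf (nat_lit 0) (nat_lit 71473366037) (nat_lit 76)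 (nat_lit 26215289166) (nat_lit 76) (nat_lit 25003521216) (nat_lit 3) (nat_lit 4) (nat_lit 4) (nat_lit 5) (nat_lit 4) (nat_lit 4) (nat_lit 354) (nat_lit 218) (nat_lit 208)) (XT.lf (nat_lit 0) (nat_lit 78652186674) (nat_lit 76) (nat_lit 25690332239) (nat_lit 76) (nat_lit 24386810863) (nat_lit 3) (nat_lit 4) (nat_lit 4) (nat_lit 5) (nat_lit 4) (nat_lit 4) (nat_lit 355) (nat_lit 218) (nat_lit 207))) (XT.nd (nat_lit 78) (nat_lit 0) (nat_lit 0) (XT.lf (nat_lit 0) (nat_lit 86096357977) (nat_lit 76) (nat_lit 25182709187) (nat_lit 76) (nat_lit 23791803598) (nat_lit 3) (nat_lit 4) (nat_lit 4) (nat_lit 5) (nat_lit 4) (nat_lit 4) (nat_lit 356) (nat_lit 218) (nat_lit 206)) (XT.nd (nat_lit 78) (nat_lit 0) (nat_lit 0) (XT.lf (nat_lit 0) (nat_lit 93823604163) (nat_lit 76) (nat_lit 24691211384) (nat_lit 76) (nat_lit 23217082734) (nat_lit 3) (nat_lit 4) (nat_lit 4) (nat_lit 5) (nat_lit 4) (nat_lit 4)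 (nat_lit 357) (nat_lit 218) (nat_lit 205)) (XT.lf (nat_lit 0) (nat_lit 101852323438) (nat_lit 76) (nat_lit 24214668599) (nat_lit 76) (nat_lit 22661279891) (nat_lit 3) (nat_lit 4) (nat_lit 4) (nat_lit 5) (nat_lit 4) (nat_lit 4) (nat_lit 358) (nat_lit 218) (nat_lit 204))))) (XT.nd (nat_lit 156) (nat_lit 0) (nat_lit 0) (XT.nd (nat_lit 78) (nat_lit 0) (nat_lit 0) (XT.lf (nat_lit 0) (nat_lit 110201631799) (nat_lit 76) (nat_lit 23751946205) (nat_lit 76) (nat_lit 22123071727) (nat_lit 3) (nat_lit 4) (nat_lit 4) (nat_lit 5) (nat_lit 4) (nat_lit 4) (nat_lit 359) (nat_lit 218) (nat_lit 203)) (XT.lf (nat_lit 0) (nat_lit 118891408552) (nat_lit 76) (nat_lit 23301942481) (nat_lit 76) (nat_lit 21601176794) (nat_lit 3) (nat_lit 4) (nat_lit 4) (nat_lit 5) (nat_lit 4) (nat_lit 4) (nat_lit 360) (nat_lit 218) (nat_lit 202))) (XT.nd (nat_lit 78) (nat_lit 0) (nat_lit 0) (XT.lf (nat_lit 0) (nat_lit 127942343642)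 (nat_lit 76) (nat_lit 22863585991) (nat_lit 76) (nat_lit 21094352487) (nat_lit 3) (nat_lit 4) (nat_lit 4) (nat_lit 5) (nat_lit 4) (nat_lit 4) (nat_lit 361) (nat_lit 218) (nat_lit 201)) (XT.nd (nat_lit 78) (nat_lit 0) (nat_lit 0) (XT.lf (nat_lit 0) (nat_lit 137375986914) (nat_lit 76) (nat_lit 22435833029) (nat_lit 76) (nat_lit 20601392079) (nat_lit 3) (nat_lit 4) (nat_lit 4) (nat_lit 5) (nat_lit 4) (nat_lit 4) (nat_lit 362) (nat_lit 218) (nat_lit 200)) (XT.lf (nat_lit 0) (nat_lit 147214799424) (nat_lit 76) (nat_lit 22017665136) (nat_lit 76) (nat_lit 20121121856) (nat_lit 3) (nat_lit 4) (nat_lit 4) (nat_lit 5) (nat_lit 4) (nat_lit 4) (nat_lit 363) (nat_lit 218) (nat_lit 199))))))))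
noncomputable def xc14 : XT := (XT.nd (nat_lit 1482) (nat_lit 0) (nat_lit 0) (XT.nd (nat_lit 702) (nat_lit 0) (nat_lit 0) (XT.nd (nat_lit 312) (nat_lit 0) (nat_lit 0) (XT.nd (nat_lit 156) (nat_lit 0) (nat_lit 0) (XT.nd (nat_lit 78) (nat_lit 0) (nat_lit 0) (XT.lf (nat_lit 0) (nat_lit 157482206915) (nat_lit 76) (nat_lit 21608086672) (nat_lit 76) (nat_lit 19652398317) (nat_lit 3) (nat_lit 4) (nat_lit 4) (nat_lit 5) (nat_lit 4) (nat_lit 4) (nat_lit 364) (nat_lit 218) (nat_lit 198)) (XT.lf (nat_lit 0) (nat_lit 168202655597) (nat_lit 76) (nat_lit 21206122453) (nat_lit 76) (nat_lit 19194105454) (nat_lit 3) (nat_lit 4) (nat_lit 4) (nat_lit 5) (nat_lit 4) (nat_lit 4) (nat_lit 365) (nat_lit 218) (nat_lit 197))) (XT.nd (nat_lit 78) (nat_lit 0) (nat_lit 0) (XT.lf (nat_lit 0) (nat_lit 179401670346) (nat_lit 76) (nat_lit 20810815419) (nat_lit 76) (nat_lit 18745152093) (nat_lit 3) (nat_lit 4) (nat_lit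 4) (nat_lit 5) (nat_lit 4) (nat_lit 4) (nat_lit 366) (nat_lit 218) (nat_lit 196)) (XT.lf (nat_lit 0) (nat_lit 191105915485) (nat_lit 76) (nat_lit 20421224364) (nat_lit 76) (nat_lit 18304469298) (nat_lit 3) (nat_lit 4) (nat_lit 4) (nat_lit 5) (nat_lit 4) (nat_lit 4) (nat_lit 367) (nat_lit 218) (nat_lit 195)))) (XT.nd (nat_lit 156) (nat_lit 0) (nat_lit 0) (XT.nd (nat_lit 78) (nat_lit 0) (nat_lit 0) (XT.lf (nat_lit 0) (nat_lit 203343258262) (nat_lit 76) (nat_lit 20036421690) (nat_lit 76) (nat_lit 17871007824) (nat_lit 3) (nat_lit 4) (nat_lit 4) (nat_lit 5) (nat_lit 4) (nat_lit 4) (nat_lit 368) (nat_lit 218) (nat_lit 194)) (XT.lf (nat_lit 0) (nat_lit 216142835209) (nat_lit 76) (nat_lit 19655491200) (nat_lit 76) (nat_lit 17443735620) (nat_lit 3) (nat_lit 4) (nat_lit 4) (nat_lit 5) (nat_lit 4) (nat_lit 4) (nat_lit 369) (nat_lit 218) (nat_lit 193))) (XT.nd (nat_lit 78) (nat_lit 0) (nat_lit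 0) (XT.lf (nat_lit 0) (nat_lit 229535121508) (nat_lit 76) (nat_lit 19277525917) (nat_lit 76) (nat_lit 17021635371) (nat_lit 3) (nat_lit 4) (nat_lit 4) (nat_lit 5) (nat_lit 4) (nat_lit 4) (nat_lit 370) (nat_lit 218) (nat_lit 192)) (XT.nd (nat_lit 78) (nat_lit 0) (nat_lit 0) (XT.lf (nat_lit 0) (nat_lit 243552003556) (nat_lit 76) (nat_lit 18901625924) (nat_lit 76) (nat_lit 16603702076) (nat_lit 3) (nat_lit 4) (nat_lit 4) (nat_lit 5) (nat_lit 4) (nat_lit 4) (nat_lit 371) (nat_lit 218) (nat_lit 191)) (XT.lf (nat_lit 0) (nat_lit 258226854881) (nat_lit 76) (nat_lit 18526896220) (nat_lit 76) (nat_lit 16188940657) (nat_lit 3) (nat_lit 4) (nat_lit 4) (nat_lit 5) (nat_lit 4) (nat_lit 4) (nat_lit 372) (nat_lit 218) (nat_lit 190)))))) (XT.nd (nat_lit 390) (nat_lit 0) (nat_lit 0) (XT.nd (nat_lit 156) (nat_lit 0) (nat_lit 0) (XT.nd (nat_lit 78) (nat_lit 0) (nat_lit 0) (XT.lf (nat_lit 0) (nat_lit 273594615606)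 (nat_lit 76) (nat_lit 18152444592) (nat_lit 76) (nat_lit 15776363585) (nat_lit 3) (nat_lit 4) (nat_lit 4) (nat_lit 5) (nat_lit 4) (nat_lit 4) (nat_lit 373) (nat_lit 218) (nat_lit 189)) (XT.lf (nat_lit 0) (nat_lit 289691875637) (nat_lit 76) (nat_lit 17777379488) (nat_lit 76) (nat_lit 15364988536) (nat_lit 3) (nat_lit 4) (nat_lit 4) (nat_lit 5) (nat_lit 4) (nat_lit 4) (nat_lit 374) (nat_lit 218) (nat_lit 188))) (XT.nd (nat_lit 78) (nat_lit 0) (nat_lit 0) (XT.lf (nat_lit 0) (nat_lit 306556961783) (nat_lit 76) (nat_lit 17400807896) (nat_lit 76) (nat_lit 14953836043) (nat_lit 3) (nat_lit 4) (nat_lit 4) (nat_lit 5) (nat_lit 4) (nat_lit 4) (nat_lit 375) (nat_lit 218) (nat_lit 187)) (XT.nd (nat_lit 78) (nat_lit 0) (nat_lit 0) (XT.lf (nat_lit 0) (nat_lit 324230029013) (nat_lit 76) (nat_lit 17021833218) (nat_lit 76) (nat_lit 14541927174) (nat_lit 3) (nat_lit 4) (nat_lit 4) (nat_lit 5) (nat_lit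 4) (nat_lit 4) (nat_lit 376) (nat_lit 218) (nat_lit 186)) (XT.lf (nat_lit 0) (nat_lit 342753156056) (nat_lit 76) (nat_lit 16639553132) (nat_lit 76) (nat_lit 14128281192) (nat_lit 3) (nat_lit 4) (nat_lit 4) (nat_lit 5) (nat_lit 4) (nat_lit 4) (nat_lit 377) (nat_lit 218) (nat_lit 185))))) (XT.nd (nat_lit 156) (nat_lit 0) (nat_lit 0) (XT.nd (nat_lit 78) (nat_lit 0) (nat_lit 0) (XT.lf (nat_lit 0) (nat_lit 362170445596) (nat_lit 76) (nat_lit 16253057448) (nat_lit 76) (nat_lit 13711913225) (nat_lit 3) (nat_lit 4) (nat_lit 4) (nat_lit 5) (nat_lit 4) (nat_lit 4) (nat_lit 378) (nat_lit 218) (nat_lit 184)) (XT.lf (nat_lit 0) (nat_lit 382528129276) (nat_lit 76) (nat_lit 15861425938) (nat_lit 76) (nat_lit 13291831923) (nat_lit 3) (nat_lit 4) (nat_lit 4) (nat_lit 5) (nat_lit 4) (nat_lit 4) (nat_lit 379) (nat_lit 218) (nat_lit 183))) (XT.nd (nat_lit 78) (nat_lit 0) (nat_lit 0) (XT.lf (nat_lit 0)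 (nat_lit 403874677771) (nat_lit 76) (nat_lit 15463726146) (nat_lit 76) (nat_lit 12867037090) (nat_lit 3) (nat_lit 4) (nat_lit 4) (nat_lit 5) (nat_lit 4) (nat_lit 4) (nat_lit 380) (nat_lit 218) (nat_lit 182)) (XT.nd (nat_lit 78) (nat_lit 0) (nat_lit 0) (XT.lf (nat_lit 0) (nat_lit 426260916196) (nat_lit 76) (nat_lit 15059011168) (nat_lit 76) (nat_lit 12436517312) (nat_lit 3) (nat_lit 4) (nat_lit 4) (nat_lit 5) (nat_lit 4) (nat_lit 4) (nat_lit 381) (nat_lit 218) (nat_lit 181)) (XT.lf (nat_lit 0) (nat_lit 449740145119) (nat_lit 76) (nat_lit 14646317397) (nat_lit 76) (nat_lit 11999247540) (nat_lit 3) (nat_lit 4) (nat_lit 4) (nat_lit 5) (nat_lit 4) (nat_lit 4) (nat_lit 382) (nat_lit 218) (nat_lit 180))))))) (XT.nd (nat_lit 37674) (nat_lit 0) (nat_lit 0) (XT.nd (nat_lit 390) (nat_lit 0) (nat_lit 0) (XT.nd (nat_lit 156) (nat_lit 0) (nat_lit 0) (XT.nd (nat_lit 78) (nat_lit 0) (nat_lit 0) (XT.lf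 (nat_lit 0) (nat_lit 474368267465) (nat_lit 76) (nat_lit 14224662228) (nat_lit 76) (nat_lit 11554186656) (nat_lit 3) (nat_lit 4) (nat_lit 4) (nat_lit 5) (nat_lit 4) (nat_lit 4) (nat_lit 383) (nat_lit 218) (nat_lit 179)) (XT.lf (nat_lit 0) (nat_lit 500203921622) (nat_lit 76) (nat_lit 13793041720) (nat_lit 76) (nat_lit 11100274992) (nat_lit 3) (nat_lit 4) (nat_lit 4) (nat_lit 5) (nat_lit 4) (nat_lit 4) (nat_lit 384) (nat_lit 218) (nat_lit 178))) (XT.nd (nat_lit 78) (nat_lit 0) (nat_lit 0) (XT.lf (nat_lit 0) (nat_lit 527308621052) (nat_lit 76) (nat_lit 13350428207) (nat_lit 76) (nat_lit 10636431805) (nat_lit 3) (nat_lit 4) (nat_lit 4) (nat_lit 5) (nat_lit 4) (nat_lit 4) (nat_lit 385) (nat_lit 218) (nat_lit 177)) (XT.nd (nat_lit 78) (nat_lit 0) (nat_lit 0) (XT.lf (nat_lit 0) (nat_lit 555746900753) (nat_lit 76) (nat_lit 12895767845) (nat_lit 76) (nat_lit 10161552707) (nat_lit 3) (nat_lit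 4) (nat_lit 4) (nat_lit 5) (nat_lit 4) (nat_lit 4) (nat_lit 386) (nat_lit 218) (nat_lit 176)) (XT.lf (nat_lit 0) (nat_lit 585586470916) (nat_lit 76) (nat_lit 12427978111) (nat_lit 76) (nat_lit 9674507033) (nat_lit 3) (nat_lit 4) (nat_lit 4) (nat_lit 5) (nat_lit 4) (nat_lit 4) (nat_lit 387) (nat_lit 218) (nat_lit 175))))) (XT.nd (nat_lit 37050) (nat_lit 0) (nat_lit 0) (XT.nd (nat_lit 78) (nat_lit 0) (nat_lit 0) (XT.lf (nat_lit 0) (nat_lit 616898378135) (nat_lit 76) (nat_lit 11945945219) (nat_lit 76) (nat_lit 9174135151) (nat_lit 3) (nat_lit 4) (nat_lit 4) (nat_lit 5) (nat_lit 4) (nat_lit 4) (nat_lit 388) (nat_lit 218) (nat_lit 174)) (XT.lf (nat_lit 0) (nat_lit 649757174570) (nat_lit 76) (nat_lit 11448521473) (nat_lit 76) (nat_lit 8659245700) (nat_lit 3) (nat_lit 4) (nat_lit 4) (nat_lit 5) (nat_lit 4) (nat_lit 4) (nat_lit 389) (nat_lit 218) (nat_lit 173))) (XT.nd (nat_lit 78) (nat_lit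 0) (nat_lit 0) (XT.lf (nat_lit 0) (nat_lit 200941324) (nat_lit 76) (nat_lit 17245676739) (nat_lit 76) (nat_lit 17245676739) (nat_lit 3) (nat_lit 4) (nat_lit 4) (nat_lit 5) (nat_lit 4) (nat_lit 4) (nat_lit 342) (nat_lit 219) (nat_lit 219)) (XT.nd (nat_lit 78) (nat_lit 0) (nat_lit 0) (XT.lf (nat_lit 0) (nat_lit 5505216182) (nat_lit 76) (nat_lit 33684060439) (nat_lit 76) (nat_lit 33527130946) (nat_lit 3) (nat_lit 4) (nat_lit 4) (nat_lit 5) (nat_lit 4) (nat_lit 4) (nat_lit 343) (nat_lit 219) (nat_lit 218)) (XT.lf (nat_lit 0) (nat_lit 10703645106) (nat_lit 76) (nat_lit 32910942283) (nat_lit 76) (nat_lit 32604556130) (nat_lit 3) (nat_lit 4) (nat_lit 4) (nat_lit 5) (nat_lit 4) (nat_lit 4) (nat_lit 344) (nat_lit 219) (nat_lit 217)))))) (XT.nd (nat_lit 390) (nat_lit 0) (nat_lit 0) (XT.nd (nat_lit 156) (nat_lit 0) (nat_lit 0) (XT.nd (nat_lit 78) (nat_lit 0) (nat_lit 0) (XT.lf (nat_lit 0) (nat_lit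 16009546631) (nat_lit 76) (nat_lit 32170158253) (nat_lit 76) (nat_lit 31721432423) (nat_lit 3) (nat_lit 4) (nat_lit 4) (nat_lit 5) (nat_lit 4) (nat_lit 4) (nat_lit 345) (nat_lit 219) (nat_lit 216)) (XT.lf (nat_lit 0) (nat_lit 21435553856) (nat_lit 76) (nat_lit 31459944577) (nat_lit 76) (nat_lit 30875657150) (nat_lit 3) (nat_lit 4) (nat_lit 4) (nat_lit 5) (nat_lit 4) (nat_lit 4) (nat_lit 346) (nat_lit 219) (nat_lit 215))) (XT.nd (nat_lit 78) (nat_lit 0) (nat_lit 0) (XT.lf (nat_lit 0) (nat_lit 26994585847) (nat_lit 76) (nat_lit 30778610269) (nat_lit 76) (nat_lit 30065216560) (nat_lit 3) (nat_lit 4) (nat_lit 4) (nat_lit 5) (nat_lit 4) (nat_lit 4) (nat_lit 347) (nat_lit 219) (nat_lit 214)) (XT.nd (nat_lit 78) (nat_lit 0) (nat_lit 0) (XT.lf (nat_lit 0) (nat_lit 32699878394) (nat_lit 76) (nat_lit 30124533107) (nat_lit 76) (nat_lit 29288181033) (nat_lit 3) (nat_lit 4) (nat_lit 4) (nat_lit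 5) (nat_lit 4) (nat_lit 4) (nat_lit 348) (nat_lit 219) (nat_lit 213)) (XT.lf (nat_lit 0) (nat_lit 38565015526) (nat_lit 76) (nat_lit 29496155762) (nat_lit 76) (nat_lit 28542700484) (nat_lit 3) (nat_lit 4) (nat_lit 4) (nat_lit 5) (nat_lit 4) (nat_lit 4) (nat_lit 349) (nat_lit 219) (nat_lit 212))))) (XT.nd (nat_lit 156) (nat_lit 0) (nat_lit 0) (XT.nd (nat_lit 78) (nat_lit 0) (nat_lit 0) (XT.lf (nat_lit 0) (nat_lit 44603961856) (nat_lit 76) (nat_lit 28891982099) (nat_lit 76) (nat_lit 27826999959) (nat_lit 3) (nat_lit 4) (nat_lit 4) (nat_lit 5) (nat_lit 4) (nat_lit 4) (nat_lit 350) (nat_lit 219) (nat_lit 211)) (XT.lf (nat_lit 0) (nat_lit 50831095827) (nat_lit 76) (nat_lit 28310573608) (nat_lit 76) (nat_lit 27139375411) (nat_lit 3) (nat_lit 4) (nat_lit 4) (nat_lit 5) (nat_lit 4) (nat_lit 4) (nat_lit 351) (nat_lit 219) (nat_lit 210))) (XT.nd (nat_lit 78) (nat_lit 0) (nat_lit 0) (XT.lf (nat_lit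 0) (nat_lit 57261243949) (nat_lit 76) (nat_lit 27750545984) (nat_lit 76) (nat_lit 26478189636) (nat_lit 3) (nat_lit 4) (nat_lit 4) (nat_lit 5) (nat_lit 4) (nat_lit 4) (nat_lit 352) (nat_lit 219) (nat_lit 209)) (XT.nd (nat_lit 78) (nat_lit 0) (nat_lit 0) (XT.lf (nat_lit 0) (nat_lit 63909716099) (nat_lit 76) (nat_lit 27210565828) (nat_lit 76) (nat_lit 25841868384) (nat_lit 3) (nat_lit 4) (nat_lit 4) (nat_lit 5) (nat_lit 4) (nat_lit 4) (nat_lit 353) (nat_lit 219) (nat_lit 208)) (XT.lf (nat_lit 0) (nat_lit 70792341972) (nat_lit 76) (nat_lit 26689347472) (nat_lit 76) (nat_lit 25228896604) (nat_lit 3) (nat_lit 4) (nat_lit 4) (nat_lit 5) (nat_lit 4) (nat_lit 4) (nat_lit 354) (nat_lit 219) (nat_lit 207))))))))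
noncomputable def xc15 : XT := (XT.nd (nat_lit 1560) (nat_lit 0) (nat_lit 0) (XT.nd (nat_lit 780) (nat_lit 0) (nat_lit 0) (XT.nd (nat_lit 390) (nat_lit 0) (nat_lit 0) (XT.nd (nat_lit 156) (nat_lit 0) (nat_lit 0) (XT.nd (nat_lit 78) (nat_lit 0) (nat_lit 0) (XT.lf (nat_lit 0) (nat_lit 77925508772) (nat_lit 76) (nat_lit 26185649921) (nat_lit 76) (nat_lit 24637814839) (nat_lit 3) (nat_lit 4) (nat_lit 4) (nat_lit 5) (nat_lit 4) (nat_lit 4) (nat_lit 355) (nat_lit 219) (nat_lit 206)) (XT.lf (nat_lit 0) (nat_lit 85326200230) (nat_lit 76) (nat_lit 25698273895) (nat_lit 76) (nat_lit 24067215751) (nat_lit 3) (nat_lit 4) (nat_lit 4) (nat_lit 5) (nat_lit 4) (nat_lit 4) (nat_lit 356) (nat_lit 219) (nat_lit 205))) (XT.nd (nat_lit 78) (nat_lit 0) (nat_lit 0) (XT.lf (nat_lit 0) (nat_lit 93012037040) (nat_lit 76) (nat_lit 25226058974) (nat_lit 76) (nat_lit 23515740773) (nat_lit 3) (nat_lit 4) (nat_lit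 4) (nat_lit 5) (nat_lit 4) (nat_lit 4) (nat_lit 357) (nat_lit 219) (nat_lit 204)) (XT.nd (nat_lit 78) (nat_lit 0) (nat_lit 0) (XT.lf (nat_lit 0) (nat_lit 101001318813) (nat_lit 76) (nat_lit 24767880837) (nat_lit 76) (nat_lit 22982076866) (nat_lit 3) (nat_lit 4) (nat_lit 4) (nat_lit 5) (nat_lit 4) (nat_lit 4) (nat_lit 358) (nat_lit 219) (nat_lit 203)) (XT.lf (nat_lit 0) (nat_lit 109313067650) (nat_lit 76) (nat_lit 24322648585) (nat_lit 76) (nat_lit 22464953405) (nat_lit 3) (nat_lit 4) (nat_lit 4) (nat_lit 5) (nat_lit 4) (nat_lit 4) (nat_lit 359) (nat_lit 219) (nat_lit 202))))) (XT.nd (nat_lit 156) (nat_lit 0) (nat_lit 0) (XT.nd (nat_lit 78) (nat_lit 0) (nat_lit 0) (XT.lf (nat_lit 0) (nat_lit 117967073427) (nat_lit 76) (nat_lit 23889302139) (nat_lit 76) (nat_lit 21963139141) (nat_lit 3) (nat_lit 4) (nat_lit 4) (nat_lit 5) (nat_lit 4) (nat_lit 4) (nat_lit 360) (nat_lit 219) (nat_lit 201))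 (XT.lf (nat_lit 0) (nat_lit 126983940920) (nat_lit 76) (nat_lit 23466809724) (nat_lit 76) (nat_lit 21475439280) (nat_lit 3) (nat_lit 4) (nat_lit 4) (nat_lit 5) (nat_lit 4) (nat_lit 4) (nat_lit 361) (nat_lit 219) (nat_lit 200))) (XT.nd (nat_lit 78) (nat_lit 0) (nat_lit 0) (XT.lf (nat_lit 0) (nat_lit 136385138863) (nat_lit 76) (nat_lit 23054165404) (nat_lit 76) (nat_lit 21000692631) (nat_lit 3) (nat_lit 4) (nat_lit 4) (nat_lit 5) (nat_lit 4) (nat_lit 4) (nat_lit 362) (nat_lit 219) (nat_lit 199)) (XT.nd (nat_lit 78) (nat_lit 0) (nat_lit 0) (XT.lf (nat_lit 0) (nat_lit 146193051059) (nat_lit 76) (nat_lit 22650386693) (nat_lit 76) (nat_lit 20537768844) (nat_lit 3) (nat_lit 4) (nat_lit 4) (nat_lit 5) (nat_lit 4) (nat_lit 4) (nat_lit 363) (nat_lit 219) (nat_lit 198)) (XT.lf (nat_lit 0) (nat_lit 156431029680) (nat_lit 76) (nat_lit 22254512214) (nat_lit 76) (nat_lit 20085565721) (nat_lit 3) (nat_lit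 4) (nat_lit 4) (nat_lit 5) (nat_lit 4) (nat_lit 4) (nat_lit 364) (nat_lit 219) (nat_lit 197)))))) (XT.nd (nat_lit 390) (nat_lit 0) (nat_lit 0) (XT.nd (nat_lit 156) (nat_lit 0) (nat_lit 0) (XT.nd (nat_lit 78) (nat_lit 0) (nat_lit 0) (XT.lf (nat_lit 0) (nat_lit 167123450866) (nat_lit 76) (nat_lit 21865599408) (nat_lit 76) (nat_lit 19643006588) (nat_lit 3) (nat_lit 4) (nat_lit 4) (nat_lit 5) (nat_lit 4) (nat_lit 4) (nat_lit 365) (nat_lit 219) (nat_lit 196)) (XT.lf (nat_lit 0) (nat_lit 178295772762) (nat_lit 76) (nat_lit 21482722291) (nat_lit 76) (nat_lit 19209037731) (nat_lit 3) (nat_lit 4) (nat_lit 4) (nat_lit 5) (nat_lit 4) (nat_lit 4) (nat_lit 366) (nat_lit 219) (nat_lit 195))) (XT.nd (nat_lit 78) (nat_lit 0) (nat_lit 0) (XT.lf (nat_lit 0) (nat_lit 189974596135) (nat_lit 76) (nat_lit 21104969253) (nat_lit 76) (nat_lit 18782625893) (nat_lit 3) (nat_lit 4) (nat_lit 4) (nat_lit 5) (nat_lit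 4) (nat_lit 4) (nat_lit 367) (nat_lit 219) (nat_lit 194)) (XT.nd (nat_lit 78) (nat_lit 0) (nat_lit 0) (XT.lf (nat_lit 0) (nat_lit 202187727708) (nat_lit 76) (nat_lit 20731440880) (nat_lit 76) (nat_lit 18362755806) (nat_lit 3) (nat_lit 4) (nat_lit 4) (nat_lit 5) (nat_lit 4) (nat_lit 4) (nat_lit 368) (nat_lit 219) (nat_lit 193)) (XT.lf (nat_lit 0) (nat_lit 214964246365) (nat_lit 76) (nat_lit 20361247820) (nat_lit 76) (nat_lit 17948427780) (nat_lit 3) (nat_lit 4) (nat_lit 4) (nat_lit 5) (nat_lit 4) (nat_lit 4) (nat_lit 369) (nat_lit 219) (nat_lit 192))))) (XT.nd (nat_lit 156) (nat_lit 0) (nat_lit 0) (XT.nd (nat_lit 78) (nat_lit 0) (nat_lit 0) (XT.lf (nat_lit 0) (nat_lit 228334572388) (nat_lit 76) (nat_lit 19993508661) (nat_lit 76) (nat_lit 17538655320) (nat_lit 3) (nat_lit 4) (nat_lit 4) (nat_lit 5) (nat_lit 4) (nat_lit 4) (nat_lit 370) (nat_lit 219) (nat_lit 191)) (XT.lf (nat_lit 0) (nat_lit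 242330539887) (nat_lit 76) (nat_lit 19627347833) (nat_lit 76) (nat_lit 17132462776) (nat_lit 3) (nat_lit 4) (nat_lit 4) (nat_lit 5) (nat_lit 4) (nat_lit 4) (nat_lit 371) (nat_lit 219) (nat_lit 190))) (XT.nd (nat_lit 78) (nat_lit 0) (nat_lit 0) (XT.lf (nat_lit 0) (nat_lit 256985472594) (nat_lit 76) (nat_lit 19261893524) (nat_lit 76) (nat_lit 16728883025) (nat_lit 3) (nat_lit 4) (nat_lit 4) (nat_lit 5) (nat_lit 4) (nat_lit 4) (nat_lit 372) (nat_lit 219) (nat_lit 189)) (XT.nd (nat_lit 78) (nat_lit 0) (nat_lit 0) (XT.lf (nat_lit 0) (nat_lit 272334263207) (nat_lit 76) (nat_lit 18896275606) (nat_lit 76) (nat_lit 16326955161) (nat_lit 3) (nat_lit 4) (nat_lit 4) (nat_lit 5) (nat_lit 4) (nat_lit 4) (nat_lit 373) (nat_lit 219) (nat_lit 188)) (XT.lf (nat_lit 0) (nat_lit 288413456464) (nat_lit 76) (nat_lit 18529623560) (nat_lit 76) (nat_lit 15925722213) (nat_lit 3) (nat_lit 4) (nat_lit 4) (nat_lit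 5) (nat_lit 4) (nat_lit 4) (nat_lit 374) (nat_lit 219) (nat_lit 187))))))) (XT.nd (nat_lit 780) (nat_lit 0) (nat_lit 0) (XT.nd (nat_lit 390) (nat_lit 0) (nat_lit 0) (XT.nd (nat_lit 156) (nat_lit 0) (nat_lit 0) (XT.nd (nat_lit 78) (nat_lit 0) (nat_lit 0) (XT.lf (nat_lit 0) (nat_lit 305261336160) (nat_lit 76) (nat_lit 18161064404) (nat_lit 76) (nat_lit 15524228866) (nat_lit 3) (nat_lit 4) (nat_lit 4) (nat_lit 5) (nat_lit 4) (nat_lit 4) (nat_lit 375) (nat_lit 219) (nat_lit 186)) (XT.lf (nat_lit 0) (nat_lit 322918016292) (nat_lit 76) (nat_lit 17789720616) (nat_lit 76) (nat_lit 15121519182) (nat_lit 3) (nat_lit 4) (nat_lit 4) (nat_lit 5) (nat_lit 4) (nat_lit 4) (nat_lit 376) (nat_lit 219) (nat_lit 185))) (XT.nd (nat_lit 78) (nat_lit 0) (nat_lit 0) (XT.lf (nat_lit 0) (nat_lit 341425536577) (nat_lit 76) (nat_lit 17414708045) (nat_lit 76) (nat_lit 14716634329) (nat_lit 3) (nat_lit 4) (nat_lit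 4) (nat_lit 5) (nat_lit 4) (nat_lit 4) (nat_lit 377) (nat_lit 219) (nat_lit 184)) (XT.nd (nat_lit 78) (nat_lit 0) (nat_lit 0) (XT.lf (nat_lit 0) (nat_lit 360827962538) (nat_lit 76) (nat_lit 17035133804) (nat_lit 76) (nat_lit 14308610296) (nat_lit 3) (nat_lit 4) (nat_lit 4) (nat_lit 5) (nat_lit 4) (nat_lit 4) (nat_lit 378) (nat_lit 219) (nat_lit 183)) (XT.lf (nat_lit 0) (nat_lit 381171490428) (nat_lit 76) (nat_lit 16650094145) (nat_lit 76) (nat_lit 13896475596) (nat_lit 3) (nat_lit 4) (nat_lit 4) (nat_lit 5) (nat_lit 4) (nat_lit 4) (nat_lit 379) (nat_lit 219) (nat_lit 182))))) (XT.nd (nat_lit 156) (nat_lit 0) (nat_lit 0) (XT.nd (nat_lit 78) (nat_lit 0) (nat_lit 0) (XT.lf (nat_lit 0) (nat_lit 402504557219) (nat_lit 76) (nat_lit 16258672306) (nat_lit 76) (nat_lit 13479248956) (nat_lit 3) (nat_lit 4) (nat_lit 4) (nat_lit 5) (nat_lit 4) (nat_lit 4) (nat_lit 380) (nat_lit 219) (nat_lit 181))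 (XT.lf (nat_lit 0) (nat_lit 424877955925) (nat_lit 76) (nat_lit 15859936331) (nat_lit 76) (nat_lit 13055936980) (nat_lit 3) (nat_lit 4) (nat_lit 4) (nat_lit 5) (nat_lit 4) (nat_lit 4) (nat_lit 381) (nat_lit 219) (nat_lit 180))) (XT.nd (nat_lit 78) (nat_lit 0) (nat_lit 0) (XT.lf (nat_lit 0) (nat_lit 448344956544) (nat_lit 76) (nat_lit 15452936848) (nat_lit 76) (nat_lit 12625531782) (nat_lit 3) (nat_lit 4) (nat_lit 4) (nat_lit 5) (nat_lit 4) (nat_lit 4) (nat_lit 382) (nat_lit 219) (nat_lit 179)) (XT.nd (nat_lit 78) (nat_lit 0) (nat_lit 0) (XT.lf (nat_lit 0) (nat_lit 472961432887) (nat_lit 76) (nat_lit 15036704810) (nat_lit 76) (nat_lit 12187008588) (nat_lit 3) (nat_lit 4) (nat_lit 4) (nat_lit 5) (nat_lit 4) (nat_lit 4) (nat_lit 383) (nat_lit 219) (nat_lit 178)) (XT.lf (nat_lit 0) (nat_lit 498785995613) (nat_lit 76) (nat_lit 14610249191) (nat_lit 76) (nat_lit 11739323295) (nat_lit 3) (nat_lit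 4) (nat_lit 4) (nat_lit 5) (nat_lit 4) (nat_lit 4) (nat_lit 384) (nat_lit 219) (nat_lit 177)))))) (XT.nd (nat_lit 37128) (nat_lit 0) (nat_lit 0) (XT.nd (nat_lit 156) (nat_lit 0) (nat_lit 0) (XT.nd (nat_lit 78) (nat_lit 0) (nat_lit 0) (XT.lf (nat_lit 0) (nat_lit 525880131774) (nat_lit 76) (nat_lit 14172554617) (nat_lit 76) (nat_lit 11281409985) (nat_lit 3) (nat_lit 4) (nat_lit 4) (nat_lit 5) (nat_lit 4) (nat_lit 4) (nat_lit 385) (nat_lit 219) (nat_lit 176)) (XT.lf (nat_lit 0) (nat_lit 554308351219) (nat_lit 76) (nat_lit 13722578961) (nat_lit 76) (nat_lit 10812178390) (nat_lit 3) (nat_lit 4) (nat_lit 4) (nat_lit 5) (nat_lit 4) (nat_lit 4) (nat_lit 386) (nat_lit 219) (nat_lit 175))) (XT.nd (nat_lit 78) (nat_lit 0) (nat_lit 0) (XT.lf (nat_lit 0) (nat_lit 584138340186) (nat_lit 76) (nat_lit 13259250851) (nat_lit 76) (nat_lit 10330511289) (nat_lit 3) (nat_lit 4) (nat_lit 4) (nat_lit 5) (nat_lit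 4) (nat_lit 4) (nat_lit 387) (nat_lit 219) (nat_lit 174)) (XT.nd (nat_lit 78) (nat_lit 0) (nat_lit 0) (XT.lf (nat_lit 0) (nat_lit 615441122457) (nat_lit 76) (nat_lit 12781467125) (nat_lit 76) (nat_lit 9835261858) (nat_lit 3) (nat_lit 4) (nat_lit 4) (nat_lit 5) (nat_lit 4) (nat_lit 4) (nat_lit 388) (nat_lit 219) (nat_lit 173)) (XT.lf (nat_lit 0) (nat_lit 648291228465) (nat_lit 76) (nat_lit 12288090202) (nat_lit 76) (nat_lit 9325250931) (nat_lit 3) (nat_lit 4) (nat_lit 4) (nat_lit 5) (nat_lit 4) (nat_lit 4) (nat_lit 389) (nat_lit 219) (nat_lit 172))))) (XT.nd (nat_lit 156) (nat_lit 76) (nat_lit 0) (XT.nd (nat_lit 78) (nat_lit 0) (nat_lit 0) (XT.lf (nat_lit 0) (nat_lit 13503573906) (nat_lit 152) (nat_lit 4589169732) (nat_lit 0) (nat_lit 13503573906) (nat_lit 4) (nat_lit 5) (nat_lit 6) (nat_lit 4) (nat_lit 4) (nat_lit 4) (nat_lit 340) (nat_lit 220) (nat_lit 220)) (XT.lf (nat_lit 0) (nat_lit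 30953121032) (nat_lit 152) (nat_lit 4470685244) (nat_lit 0) (nat_lit 30788345064) (nat_lit 4) (nat_lit 5) (nat_lit 6) (nat_lit 4) (nat_lit 4) (nat_lit 4) (nat_lit 341) (nat_lit 220) (nat_lit 219))) (XT.nd (nat_lit 78) (nat_lit 0) (nat_lit 0) (XT.lf (nat_lit 0) (nat_lit 319894916) (nat_lit 76) (nat_lit 34694308232) (nat_lit 76) (nat_lit 34372602771) (nat_lit 3) (nat_lit 4) (nat_lit 4) (nat_lit 5) (nat_lit 4) (nat_lit 4) (nat_lit 342) (nat_lit 220) (nat_lit 218)) (XT.nd (nat_lit 78) (nat_lit 0) (nat_lit 0) (XT.lf (nat_lit 0) (nat_lit 5345144895) (nat_lit 76) (nat_lit 33923375942) (nat_lit 76) (nat_lit 33452213820) (nat_lit 3) (nat_lit 4) (nat_lit 4) (nat_lit 5) (nat_lit 4) (nat_lit 4) (nat_lit 343) (nat_lit 220) (nat_lit 217)) (XT.lf (nat_lit 0) (nat_lit 10469208529) (nat_lit 76) (nat_lit 33184887071) (nat_lit 76) (nat_lit 32571385273) (nat_lit 3) (nat_lit 4) (nat_lit 4) (nat_lit 5) (nat_lit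 4) (nat_lit 4) (nat_lit 344) (nat_lit 220) (nat_lit 216))))))))
noncomputable def xc16 : XT := (XT.nd (nat_lit 1482) (nat_lit 0) (nat_lit 0) (XT.nd (nat_lit 702) (nat_lit 0) (nat_lit 0) (XT.nd (nat_lit 312) (nat_lit 0) (nat_lit 0) (XT.nd (nat_lit 156) (nat_lit 0) (nat_lit 0) (XT.nd (nat_lit 78) (nat_lit 0) (nat_lit 0) (XT.lf (nat_lit 0) (nat_lit 15704285968) (nat_lit 76) (nat_lit 32477083312) (nat_lit 76) (nat_lit 31728019916) (nat_lit 3) (nat_lit 4) (nat_lit 4) (nat_lit 5) (nat_lit 4) (nat_lit 4) (nat_lit 345) (nat_lit 220) (nat_lit 215)) (XT.lf (nat_lit 0) (nat_lit 21062841683) (nat_lit 76) (nat_lit 31798279417) (nat_lit 76) (nat_lit 30920109739) (nat_lit 3) (nat_lit 4) (nat_lit 4) (nat_lit 5) (nat_lit 4) (nat_lit 4) (nat_lit 346) (nat_lit 220) (nat_lit 214))) (XT.nd (nat_lit 78) (nat_lit 0) (nat_lit 0) (XT.lf (nat_lit 0) (nat_lit 26557634141) (nat_lit 76) (nat_lit 31146859188) (nat_lit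 76) (nat_lit 30145731146) (nat_lit 3) (nat_lit 4) (nat_lit 4) (nat_lit 5) (nat_lit 4) (nat_lit 4) (nat_lit 347) (nat_lit 220) (nat_lit 213)) (XT.lf (nat_lit 0) (nat_lit 32201746179) (nat_lit 76) (nat_lit 30521271623) (nat_lit 76) (nat_lit 29403040377) (nat_lit 3) (nat_lit 4) (nat_lit 4) (nat_lit 5) (nat_lit 4) (nat_lit 4) (nat_lit 348) (nat_lit 220) (nat_lit 212)))) (XT.nd (nat_lit 156) (nat_lit 0) (nat_lit 0) (XT.nd (nat_lit 78) (nat_lit 0) (nat_lit 0) (XT.lf (nat_lit 0) (nat_lit 38008616161) (nat_lit 76) (nat_lit 29920027229) (nat_lit 76) (nat_lit 28690269122) (nat_lit 3) (nat_lit 4) (nat_lit 4) (nat_lit 5) (nat_lit 4) (nat_lit 4) (nat_lit 349) (nat_lit 220) (nat_lit 211)) (XT.lf (nat_lit 0) (nat_lit 43992069966) (nat_lit 76) (nat_lit 29341694471) (nat_lit 76) (nat_lit 28005720306) (nat_lit 3) (nat_lit 4) (nat_lit 4) (nat_lit 5) (nat_lit 4) (nat_lit 4) (nat_lit 350) (nat_lit 220)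 (nat_lit 210))) (XT.nd (nat_lit 78) (nat_lit 0) (nat_lit 0) (XT.lf (nat_lit 0) (nat_lit 50166353914) (nat_lit 76) (nat_lit 28784896366) (nat_lit 76) (nat_lit 27347764050) (nat_lit 3) (nat_lit 4) (nat_lit 4) (nat_lit 5) (nat_lit 4) (nat_lit 4) (nat_lit 351) (nat_lit 220) (nat_lit 209)) (XT.nd (nat_lit 78) (nat_lit 0) (nat_lit 0) (XT.lf (nat_lit 0) (nat_lit 56546168681) (nat_lit 76) (nat_lit 28248307205) (nat_lit 76) (nat_lit 26714833793) (nat_lit 3) (nat_lit 4) (nat_lit 4) (nat_lit 5) (nat_lit 4) (nat_lit 4) (nat_lit 352) (nat_lit 220) (nat_lit 208)) (XT.lf (nat_lit 0) (nat_lit 63146704302) (nat_lit 76) (nat_lit 27730649395) (nat_lit 76) (nat_lit 26105422558) (nat_lit 3) (nat_lit 4) (nat_lit 4) (nat_lit 5) (nat_lit 4) (nat_lit 4) (nat_lit 353) (nat_lit 220) (nat_lit 207)))))) (XT.nd (nat_lit 390) (nat_lit 0) (nat_lit 0) (XT.nd (nat_lit 156) (nat_lit 0) (nat_lit 0) (XT.nd (nat_lit 78)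 (nat_lit 0) (nat_lit 0) (XT.lf (nat_lit 0) (nat_lit 69983676337) (nat_lit 76) (nat_lit 27230690416) (nat_lit 76) (nat_lit 25518079365) (nat_lit 3) (nat_lit 4) (nat_lit 4) (nat_lit 5) (nat_lit 4) (nat_lit 4) (nat_lit 354) (nat_lit 220) (nat_lit 206)) (XT.lf (nat_lit 0) (nat_lit 77073363293) (nat_lit 76) (nat_lit 26747239890) (nat_lit 76) (nat_lit 24951405779) (nat_lit 3) (nat_lit 4) (nat_lit 4) (nat_lit 5) (nat_lit 4) (nat_lit 4) (nat_lit 355) (nat_lit 220) (nat_lit 205))) (XT.nd (nat_lit 78) (nat_lit 0) (nat_lit 0) (XT.lf (nat_lit 0) (nat_lit 84432645375) (nat_lit 76) (nat_lit 26279146745) (nat_lit 76) (nat_lit 24404052576) (nat_lit 3) (nat_lit 4) (nat_lit 4) (nat_lit 5) (nat_lit 4) (nat_lit 4) (nat_lit 356) (nat_lit 220) (nat_lit 204)) (XT.nd (nat_lit 78) (nat_lit 0) (nat_lit 0) (XT.lf (nat_lit 0) (nat_lit 92079044684) (nat_lit 76) (nat_lit 25825296473) (nat_lit 76) (nat_lit 23874716534)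 (nat_lit 3) (nat_lit 4) (nat_lit 4) (nat_lit 5) (nat_lit 4) (nat_lit 4) (nat_lit 357) (nat_lit 220) (nat_lit 203)) (XT.lf (nat_lit 0) (nat_lit 100030766932) (nat_lit 76) (nat_lit 25384608479) (nat_lit 76) (nat_lit 23362137331) (nat_lit 3) (nat_lit 4) (nat_lit 4) (nat_lit 5) (nat_lit 4) (nat_lit 4) (nat_lit 358) (nat_lit 220) (nat_lit 202))))) (XT.nd (nat_lit 156) (nat_lit 0) (nat_lit 0) (XT.nd (nat_lit 78) (nat_lit 0) (nat_lit 0) (XT.lf (nat_lit 0) (nat_lit 108306744792) (nat_lit 76) (nat_lit 24956033504) (nat_lit 76) (nat_lit 22865094538) (nat_lit 3) (nat_lit 4) (nat_lit 4) (nat_lit 5) (nat_lit 4) (nat_lit 4) (nat_lit 359) (nat_lit 220) (nat_lit 201)) (XT.lf (nat_lit 0) (nat_lit 116926682973) (nat_lit 76) (nat_lit 24538551133) (nat_lit 76) (nat_lit 22382404721) (nat_lit 3) (nat_lit 4) (nat_lit 4) (nat_lit 5) (nat_lit 4) (nat_lit 4) (nat_lit 360) (nat_lit 220) (nat_lit 200))) (XT.nd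 (nat_lit 78) (nat_lit 0) (nat_lit 0) (XT.lf (nat_lit 0) (nat_lit 125911105137) (nat_lit 76) (nat_lit 24131167360) (nat_lit 76) (nat_lit 21912918618) (nat_lit 3) (nat_lit 4) (nat_lit 4) (nat_lit 5) (nat_lit 4) (nat_lit 4) (nat_lit 361) (nat_lit 220) (nat_lit 199)) (XT.nd (nat_lit 78) (nat_lit 0) (nat_lit 0) (XT.lf (nat_lit 0) (nat_lit 135281402765) (nat_lit 76) (nat_lit 23732912223) (nat_lit 76) (nat_lit 21455518406) (nat_lit 3) (nat_lit 4) (nat_lit 4) (nat_lit 5) (nat_lit 4) (nat_lit 4) (nat_lit 362) (nat_lit 220) (nat_lit 198)) (XT.lf (nat_lit 0) (nat_lit 145059886091) (nat_lit 76) (nat_lit 23342837496) (nat_lit 76) (nat_lit 21009115035) (nat_lit 3) (nat_lit 4) (nat_lit 4) (nat_lit 5) (nat_lit 4) (nat_lit 4) (nat_lit 363) (nat_lit 220) (nat_lit 197))))))) (XT.nd (nat_lit 780) (nat_lit 0) (nat_lit 0) (XT.nd (nat_lit 390) (nat_lit 0) (nat_lit 0) (XT.nd (nat_lit 156) (nat_lit 0) (nat_lit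 0) (XT.nd (nat_lit 78) (nat_lit 0) (nat_lit 0) (XT.lf (nat_lit 0) (nat_lit 155269837216) (nat_lit 76) (nat_lit 22960014430) (nat_lit 76) (nat_lit 20572645642) (nat_lit 3) (nat_lit 4) (nat_lit 4) (nat_lit 5) (nat_lit 4) (nat_lit 4) (nat_lit 364) (nat_lit 220) (nat_lit 196)) (XT.lf (nat_lit 0) (nat_lit 165935565549) (nat_lit 76) (nat_lit 22583531540) (nat_lit 76) (nat_lit 20145071013) (nat_lit 3) (nat_lit 4) (nat_lit 4) (nat_lit 5) (nat_lit 4) (nat_lit 4) (nat_lit 365) (nat_lit 220) (nat_lit 195))) (XT.nd (nat_lit 78) (nat_lit 0) (nat_lit 0) (XT.lf (nat_lit 0) (nat_lit 177082465680) (nat_lit 76) (nat_lit 22212492440) (nat_lit 76) (nat_lit 19725373113) (nat_lit 3) (nat_lit 4) (nat_lit 4) (nat_lit 5) (nat_lit 4) (nat_lit 4) (nat_lit 366) (nat_lit 220) (nat_lit 194)) (XT.nd (nat_lit 78) (nat_lit 0) (nat_lit 0) (XT.lf (nat_lit 0) (nat_lit 188737077849) (nat_lit 76) (nat_lit 21846013703) (nat_lit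 76) (nat_lit 19312552661) (nat_lit 3) (nat_lit 4) (nat_lit 4) (nat_lit 5) (nat_lit 4) (nat_lit 4) (nat_lit 367) (nat_lit 220) (nat_lit 193)) (XT.lf (nat_lit 0) (nat_lit 200927151132) (nat_lit 76) (nat_lit 21483222761) (nat_lit 76) (nat_lit 18905626752) (nat_lit 3) (nat_lit 4) (nat_lit 4) (nat_lit 5) (nat_lit 4) (nat_lit 4) (nat_lit 368) (nat_lit 220) (nat_lit 192))))) (XT.nd (nat_lit 156) (nat_lit 0) (nat_lit 0) (XT.nd (nat_lit 78) (nat_lit 0) (nat_lit 0) (XT.lf (nat_lit 0) (nat_lit 213681709512) (nat_lit 76) (nat_lit 21123255824) (nat_lit 76) (nat_lit 18503626515) (nat_lit 3) (nat_lit 4) (nat_lit 4) (nat_lit 5) (nat_lit 4) (nat_lit 4) (nat_lit 369) (nat_lit 220) (nat_lit 191)) (XT.lf (nat_lit 0) (nat_lit 227031120987) (nat_lit 76) (nat_lit 20765255831) (nat_lit 76) (nat_lit 18105594806) (nat_lit 3) (nat_lit 4) (nat_lit 4) (nat_lit 5) (nat_lit 4) (nat_lit 4) (nat_lit 370) (nat_lit 220)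 (nat_lit 190))) (XT.nd (nat_lit 78) (nat_lit 0) (nat_lit 0) (XT.lf (nat_lit 0) (nat_lit 241007169868) (nat_lit 76) (nat_lit 20408370398) (nat_lit 76) (nat_lit 17710583930) (nat_lit 3) (nat_lit 4) (nat_lit 4) (nat_lit 5) (nat_lit 4) (nat_lit 4) (nat_lit 371) (nat_lit 220) (nat_lit 189)) (XT.nd (nat_lit 78) (nat_lit 0) (nat_lit 0) (XT.lf (nat_lit 0) (nat_lit 255643132463) (nat_lit 76) (nat_lit 20051749800) (nat_lit 76) (nat_lit 17317653386) (nat_lit 3) (nat_lit 4) (nat_lit 4) (nat_lit 5) (nat_lit 4) (nat_lit 4) (nat_lit 372) (nat_lit 220) (nat_lit 188)) (XT.lf (nat_lit 0) (nat_lit 270973856302) (nat_lit 76) (nat_lit 19694544939) (nat_lit 76) (nat_lit 16925867625) (nat_lit 3) (nat_lit 4) (nat_lit 4) (nat_lit 5) (nat_lit 4) (nat_lit 4) (nat_lit 373) (nat_lit 220) (nat_lit 187)))))) (XT.nd (nat_lit 390) (nat_lit 0) (nat_lit 0) (XT.nd (nat_lit 156) (nat_lit 0) (nat_lit 0) (XT.nd (nat_lit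 78) (nat_lit 0) (nat_lit 0) (XT.lf (nat_lit 0) (nat_lit 287035843108) (nat_lit 76) (nat_lit 19335905328) (nat_lit 76) (nat_lit 16534293822) (nat_lit 3) (nat_lit 4) (nat_lit 4) (nat_lit 5) (nat_lit 4) (nat_lit 4) (nat_lit 374) (nat_lit 220) (nat_lit 186)) (XT.lf (nat_lit 0) (nat_lit 303867335707) (nat_lit 76) (nat_lit 18974977063) (nat_lit 76) (nat_lit 16141999661) (nat_lit 3) (nat_lit 4) (nat_lit 4) (nat_lit 5) (nat_lit 4) (nat_lit 4) (nat_lit 375) (nat_lit 220) (nat_lit 185))) (XT.nd (nat_lit 78) (nat_lit 0) (nat_lit 0) (XT.lf (nat_lit 0) (nat_lit 321508409081) (nat_lit 76) (nat_lit 18610900790) (nat_lit 76) (nat_lit 15748051106) (nat_lit 3) (nat_lit 4) (nat_lit 4) (nat_lit 5) (nat_lit 4) (nat_lit 4) (nat_lit 376) (nat_lit 220) (nat_lit 184)) (XT.nd (nat_lit 78) (nat_lit 0) (nat_lit 0) (XT.lf (nat_lit 0) (nat_lit 340001065787) (nat_lit 76) (nat_lit 18242809663) (nat_lit 76) (nat_lit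 15351510186) (nat_lit 3) (nat_lit 4) (nat_lit 4) (nat_lit 5) (nat_lit 4) (nat_lit 4) (nat_lit 377) (nat_lit 220) (nat_lit 183)) (XT.lf (nat_lit 0) (nat_lit 359389335958) (nat_lit 76) (nat_lit 17869827272) (nat_lit 76) (nat_lit 14951432755) (nat_lit 3) (nat_lit 4) (nat_lit 4) (nat_lit 5) (nat_lit 4) (nat_lit 4) (nat_lit 378) (nat_lit 220) (nat_lit 182))))) (XT.nd (nat_lit 156) (nat_lit 0) (nat_lit 0) (XT.nd (nat_lit 78) (nat_lit 0) (nat_lit 0) (XT.lf (nat_lit 0) (nat_lit 379719382144) (nat_lit 76) (nat_lit 17491065566) (nat_lit 76) (nat_lit 14546866248) (nat_lit 3) (nat_lit 4) (nat_lit 4) (nat_lit 5) (nat_lit 4) (nat_lit 4) (nat_lit 379) (nat_lit 220) (nat_lit 181)) (XT.lf (nat_lit 0) (nat_lit 401039609215) (nat_lit 76) (nat_lit 17105622730) (nat_lit 76) (nat_lit 14136847411) (nat_lit 3) (nat_lit 4) (nat_lit 4) (nat_lit 5) (nat_lit 4) (nat_lit 4) (nat_lit 380) (nat_lit 220) (nat_lit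 180))) (XT.nd (nat_lit 78) (nat_lit 0) (nat_lit 0) (XT.lf (nat_lit 0) (nat_lit 423400779618) (nat_lit 76) (nat_lit 16712581043) (nat_lit 76) (nat_lit 13720400009) (nat_lit 3) (nat_lit 4) (nat_lit 4) (nat_lit 5) (nat_lit 4) (nat_lit 4) (nat_lit 381) (nat_lit 220) (nat_lit 179)) (XT.nd (nat_lit 78) (nat_lit 0) (nat_lit 0) (XT.lf (nat_lit 0) (nat_lit 446856134234) (nat_lit 76) (nat_lit 16311004691) (nat_lit 76) (nat_lit 13296532501) (nat_lit 3) (nat_lit 4) (nat_lit 4) (nat_lit 5) (nat_lit 4) (nat_lit 4) (nat_lit 382) (nat_lit 220) (nat_lit 178)) (XT.lf (nat_lit 0) (nat_lit 471461519145) (nat_lit 76) (nat_lit 15899937541) (nat_lit 76) (nat_lit 12864235678) (nat_lit 3) (nat_lit 4) (nat_lit 4) (nat_lit 5) (nat_lit 4) (nat_lit 4) (nat_lit 383) (nat_lit 220) (nat_lit 177))))))))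
noncomputable def xc17 : XT := (XT.nd (nat_lit 38064) (nat_lit 0) (nat_lit 0) (XT.nd (nat_lit 37284) (nat_lit 0) (nat_lit 0) (XT.nd (nat_lit 312) (nat_lit 0) (nat_lit 0) (XT.nd (nat_lit 156) (nat_lit 0) (nat_lit 0) (XT.nd (nat_lit 78) (nat_lit 0) (nat_lit 0) (XT.lf (nat_lit 0) (nat_lit 497275518602) (nat_lit 76) (nat_lit 15478400862) (nat_lit 76) (nat_lit 12422480262) (nat_lit 3) (nat_lit 4) (nat_lit 4) (nat_lit 5) (nat_lit 4) (nat_lit 4) (nat_lit 384) (nat_lit 220) (nat_lit 176)) (XT.lf (nat_lit 0) (nat_lit 524359594508) (nat_lit 76) (nat_lit 15045390994) (nat_lit 76) (nat_lit 11970214454) (nat_lit 3) (nat_lit 4) (nat_lit 4) (nat_lit 5) (nat_lit 4) (nat_lit 4) (nat_lit 385) (nat_lit 220) (nat_lit 175))) (XT.nd (nat_lit 78) (nat_lit 0) (nat_lit 0) (XT.lf (nat_lit 0) (nat_lit 552778232758) (nat_lit 76) (nat_lit 14599876961) (nat_lit 76) (nat_lit 11506361432) (nat_lit 3) (nat_lit 4) (nat_lit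 4) (nat_lit 5) (nat_lit 4) (nat_lit 4) (nat_lit 386) (nat_lit 220) (nat_lit 174)) (XT.lf (nat_lit 0) (nat_lit 582599096776) (nat_lit 76) (nat_lit 14140798017) (nat_lit 76) (nat_lit 11029816783) (nat_lit 3) (nat_lit 4) (nat_lit 4) (nat_lit 5) (nat_lit 4) (nat_lit 4) (nat_lit 387) (nat_lit 220) (nat_lit 173)))) (XT.nd (nat_lit 36738) (nat_lit 0) (nat_lit 76) (XT.nd (nat_lit 78) (nat_lit 0) (nat_lit 0) (XT.lf (nat_lit 0) (nat_lit 613893188619) (nat_lit 76) (nat_lit 13667061115) (nat_lit 76) (nat_lit 10539445876) (nat_lit 3) (nat_lit 4) (nat_lit 4) (nat_lit 5) (nat_lit 4) (nat_lit 4) (nat_lit 388) (nat_lit 220) (nat_lit 172)) (XT.lf (nat_lit 0) (nat_lit 646735018031) (nat_lit 76) (nat_lit 13177538311) (nat_lit 76) (nat_lit 10034081163) (nat_lit 3) (nat_lit 4) (nat_lit 4) (nat_lit 5) (nat_lit 4) (nat_lit 4) (nat_lit 389) (nat_lit 220) (nat_lit 171))) (XT.nd (nat_lit 78) (nat_lit 0) (nat_lit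 0) (XT.lf (nat_lit 0) (nat_lit 9814053335) (nat_lit 152) (nat_lit 9166388017) (nat_lit 0) (nat_lit 9814053335) (nat_lit 4) (nat_lit 5) (nat_lit 6) (nat_lit 4) (nat_lit 4) (nat_lit 4) (nat_lit 338) (nat_lit 221) (nat_lit 221)) (XT.nd (nat_lit 78) (nat_lit 0) (nat_lit 0) (XT.lf (nat_lit 0) (nat_lit 23334908625) (nat_lit 152) (nat_lit 13824515083) (nat_lit 0) (nat_lit 23161893858) (nat_lit 4) (nat_lit 5) (nat_lit 6) (nat_lit 4) (nat_lit 4) (nat_lit 4) (nat_lit 339) (nat_lit 221) (nat_lit 220)) (XT.lf (nat_lit 0) (nat_lit 27135507246) (nat_lit 152) (nat_lit 9261671259) (nat_lit 0) (nat_lit 26797716512) (nat_lit 4) (nat_lit 5) (nat_lit 6) (nat_lit 4) (nat_lit 4) (nat_lit 4) (nat_lit 340) (nat_lit 221) (nat_lit 219)))))) (XT.nd (nat_lit 390) (nat_lit 0) (nat_lit 0) (XT.nd (nat_lit 156) (nat_lit 0) (nat_lit 0) (XT.nd (nat_lit 78) (nat_lit 76) (nat_lit 0) (XT.lf (nat_lit 0) (nat_lit 31038951578)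 (nat_lit 152) (nat_lit 4633380650) (nat_lit 0) (nat_lit 30544231350) (nat_lit 4) (nat_lit 5) (nat_lit 6) (nat_lit 4) (nat_lit 4) (nat_lit 4) (nat_lit 341) (nat_lit 221) (nat_lit 218)) (XT.lf (nat_lit 0) (nat_lit 73736510) (nat_lit 76) (nat_lit 34981950259) (nat_lit 76) (nat_lit 34337773371) (nat_lit 3) (nat_lit 4) (nat_lit 4) (nat_lit 5) (nat_lit 4) (nat_lit 4) (nat_lit 342) (nat_lit 221) (nat_lit 217))) (XT.nd (nat_lit 78) (nat_lit 0) (nat_lit 0) (XT.lf (nat_lit 0) (nat_lit 5024621200) (nat_lit 76) (nat_lit 34245647254) (nat_lit 76) (nat_lit 33459130689) (nat_lit 3) (nat_lit 4) (nat_lit 4) (nat_lit 5) (nat_lit 4) (nat_lit 4) (nat_lit 343) (nat_lit 221) (nat_lit 216)) (XT.nd (nat_lit 78) (nat_lit 0) (nat_lit 0) (XT.lf (nat_lit 0) (nat_lit 10077860747) (nat_lit 76) (nat_lit 33540138653) (nat_lit 76) (nat_lit 32618060492) (nat_lit 3) (nat_lit 4) (nat_lit 4) (nat_lit 5) (nat_lit 4) (nat_lit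 4) (nat_lit 344) (nat_lit 221) (nat_lit 215)) (XT.lf (nat_lit 0) (nat_lit 15245486676) (nat_lit 76) (nat_lit 32863744676) (nat_lit 76) (nat_lit 31812560232) (nat_lit 3) (nat_lit 4) (nat_lit 4) (nat_lit 5) (nat_lit 4) (nat_lit 4) (nat_lit 345) (nat_lit 221) (nat_lit 214))))) (XT.nd (nat_lit 156) (nat_lit 0) (nat_lit 0) (XT.nd (nat_lit 78) (nat_lit 0) (nat_lit 0) (XT.lf (nat_lit 0) (nat_lit 20539802858) (nat_lit 76) (nat_lit 32214854860) (nat_lit 76) (nat_lit 31040712051) (nat_lit 3) (nat_lit 4) (nat_lit 4) (nat_lit 5) (nat_lit 4) (nat_lit 4) (nat_lit 346) (nat_lit 221) (nat_lit 213)) (XT.lf (nat_lit 0) (nat_lit 25973414807) (nat_lit 76) (nat_lit 31591924228) (nat_lit 76) (nat_lit 30300678216) (nat_lit 3) (nat_lit 4) (nat_lit 4) (nat_lit 5) (nat_lit 4) (nat_lit 4) (nat_lit 347) (nat_lit 221) (nat_lit 212))) (XT.nd (nat_lit 78) (nat_lit 0) (nat_lit 0) (XT.lf (nat_lit 0) (nat_lit 31559259695)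 (nat_lit 76) (nat_lit 30993469614) (nat_lit 76) (nat_lit 29590696741) (nat_lit 3) (nat_lit 4) (nat_lit 4) (nat_lit 5) (nat_lit 4) (nat_lit 4) (nat_lit 348) (nat_lit 221) (nat_lit 211)) (XT.nd (nat_lit 78) (nat_lit 0) (nat_lit 0) (XT.lf (nat_lit 0) (nat_lit 37310637152) (nat_lit 76) (nat_lit 30418066125) (nat_lit 76) (nat_lit 28909077193) (nat_lit 3) (nat_lit 4) (nat_lit 4) (nat_lit 5) (nat_lit 4) (nat_lit 4) (nat_lit 349) (nat_lit 221) (nat_lit 210)) (XT.lf (nat_lit 0) (nat_lit 43241240934) (nat_lit 76) (nat_lit 29864343753) (nat_lit 76) (nat_lit 28254196671) (nat_lit 3) (nat_lit 4) (nat_lit 4) (nat_lit 5) (nat_lit 4) (nat_lit 4) (nat_lit 350) (nat_lit 221) (nat_lit 209))))))) (XT.nd (nat_lit 780) (nat_lit 0) (nat_lit 0) (XT.nd (nat_lit 390) (nat_lit 0) (nat_lit 0) (XT.nd (nat_lit 156) (nat_lit 0) (nat_lit 0) (XT.nd (nat_lit 78) (nat_lit 0) (nat_lit 0) (XT.lf (nat_lit 0) (nat_lit 49365191527)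 (nat_lit 76) (nat_lit 29330984112) (nat_lit 76) (nat_lit 27624495933) (nat_lit 3) (nat_lit 4) (nat_lit 4) (nat_lit 5) (nat_lit 4) (nat_lit 4) (nat_lit 351) (nat_lit 221) (nat_lit 208)) (XT.lf (nat_lit 0) (nat_lit 55697069765) (nat_lit 76) (nat_lit 28816717296) (nat_lit 76) (nat_lit 27018475693) (nat_lit 3) (nat_lit 4) (nat_lit 4) (nat_lit 5) (nat_lit 4) (nat_lit 4) (nat_lit 352) (nat_lit 221) (nat_lit 207))) (XT.nd (nat_lit 78) (nat_lit 0) (nat_lit 0) (XT.lf (nat_lit 0) (nat_lit 62251951548) (nat_lit 76) (nat_lit 28320318862) (nat_lit 76) (nat_lit 26434693045) (nat_lit 3) (nat_lit 4) (nat_lit 4) (nat_lit 5) (nat_lit 4) (nat_lit 4) (nat_lit 353) (nat_lit 221) (nat_lit 206)) (XT.nd (nat_lit 78) (nat_lit 0) (nat_lit 0) (XT.lf (nat_lit 0) (nat_lit 69045443739) (nat_lit 76) (nat_lit 27840606909) (nat_lit 76) (nat_lit 25871758031) (nat_lit 3) (nat_lit 4) (nat_lit 4) (nat_lit 5) (nat_lit 4)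 (nat_lit 4) (nat_lit 354) (nat_lit 221) (nat_lit 205)) (XT.lf (nat_lit 0) (nat_lit 76093721318) (nat_lit 76) (nat_lit 27376439265) (nat_lit 76) (nat_lit 25328330329) (nat_lit 3) (nat_lit 4) (nat_lit 4) (nat_lit 5) (nat_lit 4) (nat_lit 4) (nat_lit 355) (nat_lit 221) (nat_lit 204))))) (XT.nd (nat_lit 156) (nat_lit 0) (nat_lit 0) (XT.nd (nat_lit 78) (nat_lit 0) (nat_lit 0) (XT.lf (nat_lit 0) (nat_lit 83413565899) (nat_lit 76) (nat_lit 26926710769) (nat_lit 76) (nat_lit 24803116063) (nat_lit 3) (nat_lit 4) (nat_lit 4) (nat_lit 5) (nat_lit 4) (nat_lit 4) (nat_lit 356) (nat_lit 221) (nat_lit 203)) (XT.lf (nat_lit 0) (nat_lit 91022405683) (nat_lit 76) (nat_lit 26490350639) (nat_lit 76) (nat_lit 24294864724) (nat_lit 3) (nat_lit 4) (nat_lit 4) (nat_lit 5) (nat_lit 4) (nat_lit 4) (nat_lit 357) (nat_lit 221) (nat_lit 202))) (XT.nd (nat_lit 78) (nat_lit 0) (nat_lit 0) (XT.lf (nat_lit 0) (nat_lit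 98938356956) (nat_lit 76) (nat_lit 26066319922) (nat_lit 76) (nat_lit 23802366189) (nat_lit 3) (nat_lit 4) (nat_lit 4) (nat_lit 5) (nat_lit 4) (nat_lit 4) (nat_lit 358) (nat_lit 221) (nat_lit 201)) (XT.nd (nat_lit 78) (nat_lit 0) (nat_lit 0) (XT.lf (nat_lit 0) (nat_lit 107180267219) (nat_lit 76) (nat_lit 25653609021) (nat_lit 76) (nat_lit 23324447843) (nat_lit 3) (nat_lit 4) (nat_lit 4) (nat_lit 5) (nat_lit 4) (nat_lit 4) (nat_lit 359) (nat_lit 221) (nat_lit 200)) (XT.lf (nat_lit 0) (nat_lit 115767760071) (nat_lit 76) (nat_lit 25251235292) (nat_lit 76) (nat_lit 22859971784) (nat_lit 3) (nat_lit 4) (nat_lit 4) (nat_lit 5) (nat_lit 4) (nat_lit 4) (nat_lit 360) (nat_lit 221) (nat_lit 199)))))) (XT.nd (nat_lit 390) (nat_lit 0) (nat_lit 0) (XT.nd (nat_lit 156) (nat_lit 0) (nat_lit 0) (XT.nd (nat_lit 78) (nat_lit 0) (nat_lit 0) (XT.lf (nat_lit 0) (nat_lit 124721281921) (nat_lit 76) (nat_lit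 24858240702) (nat_lit 76) (nat_lit 22407832118) (nat_lit 3) (nat_lit 4) (nat_lit 4) (nat_lit 5) (nat_lit 4) (nat_lit 4) (nat_lit 361) (nat_lit 221) (nat_lit 198)) (XT.lf (nat_lit 0) (nat_lit 134062150678) (nat_lit 76) (nat_lit 24473689549) (nat_lit 76) (nat_lit 21966952322) (nat_lit 3) (nat_lit 4) (nat_lit 4) (nat_lit 5) (nat_lit 4) (nat_lit 4) (nat_lit 362) (nat_lit 221) (nat_lit 197))) (XT.nd (nat_lit 78) (nat_lit 0) (nat_lit 0) (XT.lf (nat_lit 0) (nat_lit 143812606508) (nat_lit 76) (nat_lit 24096666235) (nat_lit 76) (nat_lit 21536282681) (nat_lit 3) (nat_lit 4) (nat_lit 4) (nat_lit 5) (nat_lit 4) (nat_lit 4) (nat_lit 363) (nat_lit 221) (nat_lit 196)) (XT.nd (nat_lit 78) (nat_lit 0) (nat_lit 0) (XT.lf (nat_lit 0) (nat_lit 153995864780) (nat_lit 76) (nat_lit 23726273086) (nat_lit 76) (nat_lit 21114797792) (nat_lit 3) (nat_lit 4) (nat_lit 4) (nat_lit 5) (nat_lit 4) (nat_lit 4) (nat_lit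 364) (nat_lit 221) (nat_lit 195)) (XT.lf (nat_lit 0) (nat_lit 164636171348) (nat_lit 76) (nat_lit 23361628213) (nat_lit 76) (nat_lit 20701494119) (nat_lit 3) (nat_lit 4) (nat_lit 4) (nat_lit 5) (nat_lit 4) (nat_lit 4) (nat_lit 365) (nat_lit 221) (nat_lit 194))))) (XT.nd (nat_lit 156) (nat_lit 0) (nat_lit 0) (XT.nd (nat_lit 78) (nat_lit 0) (nat_lit 0) (XT.lf (nat_lit 0) (nat_lit 175758860276) (nat_lit 76) (nat_lit 23001863415) (nat_lit 76) (nat_lit 20295387606) (nat_lit 3) (nat_lit 4) (nat_lit 4) (nat_lit 5) (nat_lit 4) (nat_lit 4) (nat_lit 366) (nat_lit 221) (nat_lit 193)) (XT.lf (nat_lit 0) (nat_lit 187390414154) (nat_lit 76) (nat_lit 22646122108) (nat_lit 76) (nat_lit 19895511333) (nat_lit 3) (nat_lit 4) (nat_lit 4) (nat_lit 5) (nat_lit 4) (nat_lit 4) (nat_lit 367) (nat_lit 221) (nat_lit 192))) (XT.nd (nat_lit 78) (nat_lit 0) (nat_lit 0) (XT.lf (nat_lit 0) (nat_lit 199558527161) (nat_lit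 76) (nat_lit 22293557289) (nat_lit 76) (nat_lit 19500913213) (nat_lit 3) (nat_lit 4) (nat_lit 4) (nat_lit 5) (nat_lit 4) (nat_lit 4) (nat_lit 368) (nat_lit 221) (nat_lit 191)) (XT.nd (nat_lit 78) (nat_lit 0) (nat_lit 0) (XT.lf (nat_lit 0) (nat_lit 212292170992) (nat_lit 76) (nat_lit 21943329518) (nat_lit 76) (nat_lit 19110653727) (nat_lit 3) (nat_lit 4) (nat_lit 4) (nat_lit 5) (nat_lit 4) (nat_lit 4) (nat_lit 369) (nat_lit 221) (nat_lit 190)) (XT.lf (nat_lit 0) (nat_lit 225621663849) (nat_lit 76) (nat_lit 21594604920) (nat_lit 76) (nat_lit 18723803686) (nat_lit 3) (nat_lit 4) (nat_lit 4) (nat_lit 5) (nat_lit 4) (nat_lit 4) (nat_lit 370) (nat_lit 221) (nat_lit 189))))))))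
noncomputable def xc18 : XT := (XT.nd (nat_lit 37908) (nat_lit 0) (nat_lit 0) (XT.nd (nat_lit 702) (nat_lit 0) (nat_lit 0) (XT.nd (nat_lit 312) (nat_lit 0) (nat_lit 0) (XT.nd (nat_lit 156) (nat_lit 0) (nat_lit 0) (XT.nd (nat_lit 78) (nat_lit 0) (nat_lit 0) (XT.lf (nat_lit 0) (nat_lit 239578742617) (nat_lit 76) (nat_lit 21246553197) (nat_lit 76) (nat_lit 18339442018) (nat_lit 3) (nat_lit 4) (nat_lit 4) (nat_lit 5) (nat_lit 4) (nat_lit 4) (nat_lit 371) (nat_lit 221) (nat_lit 188)) (XT.lf (nat_lit 0) (nat_lit 254196638439) (nat_lit 76) (nat_lit 20898345656) (nat_lit 76) (nat_lit 17956653576) (nat_lit 3) (nat_lit 4) (nat_lit 4) (nat_lit 5) (nat_lit 4) (nat_lit 4) (nat_lit 372) (nat_lit 221) (nat_lit 187))) (XT.nd (nat_lit 78) (nat_lit 0) (nat_lit 0) (XT.lf (nat_lit 0) (nat_lit 269510155827) (nat_lit 76) (nat_lit 20549153231) (nat_lit 76) (nat_lit 17574526959) (nat_lit 3) (nat_lit 4) (nat_lit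 4) (nat_lit 5) (nat_lit 4) (nat_lit 4) (nat_lit 373) (nat_lit 221) (nat_lit 186)) (XT.lf (nat_lit 0) (nat_lit 285555755537) (nat_lit 76) (nat_lit 20198144511) (nat_lit 76) (nat_lit 17192152343) (nat_lit 3) (nat_lit 4) (nat_lit 4) (nat_lit 5) (nat_lit 4) (nat_lit 4) (nat_lit 374) (nat_lit 221) (nat_lit 185)))) (XT.nd (nat_lit 156) (nat_lit 0) (nat_lit 0) (XT.nd (nat_lit 78) (nat_lit 0) (nat_lit 0) (XT.lf (nat_lit 0) (nat_lit 302371641377) (nat_lit 76) (nat_lit 19844483761) (nat_lit 76) (nat_lit 16808619311) (nat_lit 3) (nat_lit 4) (nat_lit 4) (nat_lit 5) (nat_lit 4) (nat_lit 4) (nat_lit 375) (nat_lit 221) (nat_lit 184)) (XT.lf (nat_lit 0) (nat_lit 319997851172) (nat_lit 76) (nat_lit 19487328932) (nat_lit 76) (nat_lit 16423014689) (nat_lit 3) (nat_lit 4) (nat_lit 4) (nat_lit 5) (nat_lit 4) (nat_lit 4) (nat_lit 376) (nat_lit 221) (nat_lit 183))) (XT.nd (nat_lit 78) (nat_lit 0) (nat_lit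 0) (XT.lf (nat_lit 0) (nat_lit 338476352088) (nat_lit 76) (nat_lit 19125829655) (nat_lit 76) (nat_lit 16034420371) (nat_lit 3) (nat_lit 4) (nat_lit 4) (nat_lit 5) (nat_lit 4) (nat_lit 4) (nat_lit 377) (nat_lit 221) (nat_lit 182)) (XT.nd (nat_lit 78) (nat_lit 0) (nat_lit 0) (XT.lf (nat_lit 0) (nat_lit 357851140555) (nat_lit 76) (nat_lit 18759125217) (nat_lit 76) (nat_lit 15641911133) (nat_lit 3) (nat_lit 4) (nat_lit 4) (nat_lit 5) (nat_lit 4) (nat_lit 4) (nat_lit 378) (nat_lit 221) (nat_lit 181)) (XT.lf (nat_lit 0) (nat_lit 378168347021) (nat_lit 76) (nat_lit 18386342513) (nat_lit 76) (nat_lit 15244552428) (nat_lit 3) (nat_lit 4) (nat_lit 4) (nat_lit 5) (nat_lit 4) (nat_lit 4) (nat_lit 379) (nat_lit 221) (nat_lit 180)))))) (XT.nd (nat_lit 390) (nat_lit 0) (nat_lit 0) (XT.nd (nat_lit 156) (nat_lit 0) (nat_lit 0) (XT.nd (nat_lit 78) (nat_lit 0) (nat_lit 0) (XT.lf (nat_lit 0) (nat_lit 399476345789)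 (nat_lit 76) (nat_lit 18006593965) (nat_lit 76) (nat_lit 14841398166) (nat_lit 3) (nat_lit 4) (nat_lit 4) (nat_lit 5) (nat_lit 4) (nat_lit 4) (nat_lit 380) (nat_lit 221) (nat_lit 179)) (XT.lf (nat_lit 0) (nat_lit 421825870188) (nat_lit 76) (nat_lit 17618975410) (nat_lit 76) (nat_lit 14431488453) (nat_lit 3) (nat_lit 4) (nat_lit 4) (nat_lit 5) (nat_lit 4) (nat_lit 4) (nat_lit 381) (nat_lit 221) (nat_lit 178))) (XT.nd (nat_lit 78) (nat_lit 0) (nat_lit 0) (XT.lf (nat_lit 0) (nat_lit 445270133372) (nat_lit 76) (nat_lit 17222563946) (nat_lit 76) (nat_lit 14013847316) (nat_lit 3) (nat_lit 4) (nat_lit 4) (nat_lit 5) (nat_lit 4) (nat_lit 4) (nat_lit 382) (nat_lit 221) (nat_lit 177)) (XT.nd (nat_lit 78) (nat_lit 0) (nat_lit 0) (XT.lf (nat_lit 0) (nat_lit 469864955016) (nat_lit 76) (nat_lit 16816415737) (nat_lit 76) (nat_lit 13587480370) (nat_lit 3) (nat_lit 4) (nat_lit 4) (nat_lit 5) (nat_lit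 4) (nat_lit 4) (nat_lit 383) (nat_lit 221) (nat_lit 176)) (XT.lf (nat_lit 0) (nat_lit 495668894217) (nat_lit 76) (nat_lit 16399563762) (nat_lit 76) (nat_lit 13151372456) (nat_lit 3) (nat_lit 4) (nat_lit 4) (nat_lit 5) (nat_lit 4) (nat_lit 4) (nat_lit 384) (nat_lit 221) (nat_lit 175))))) (XT.nd (nat_lit 156) (nat_lit 0) (nat_lit 0) (XT.nd (nat_lit 78) (nat_lit 0) (nat_lit 0) (XT.lf (nat_lit 0) (nat_lit 522743388927) (nat_lit 76) (nat_lit 15971015518) (nat_lit 76) (nat_lit 12704485222) (nat_lit 3) (nat_lit 4) (nat_lit 4) (nat_lit 5) (nat_lit 4) (nat_lit 4) (nat_lit 385) (nat_lit 221) (nat_lit 174)) (XT.lf (nat_lit 0) (nat_lit 551152902228) (nat_lit 76) (nat_lit 15529750651) (nat_lit 76) (nat_lit 12245754651) (nat_lit 3) (nat_lit 4) (nat_lit 4) (nat_lit 5) (nat_lit 4) (nat_lit 4) (nat_lit 386) (nat_lit 221) (nat_lit 173))) (XT.nd (nat_lit 78) (nat_lit 0) (nat_lit 0) (XT.lf (nat_lit 0)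 (nat_lit 580965075819) (nat_lit 76) (nat_lit 15074718531) (nat_lit 76) (nat_lit 11774088526) (nat_lit 3) (nat_lit 4) (nat_lit 4) (nat_lit 5) (nat_lit 4) (nat_lit 4) (nat_lit 387) (nat_lit 221) (nat_lit 172)) (XT.nd (nat_lit 78) (nat_lit 0) (nat_lit 0) (XT.lf (nat_lit 0) (nat_lit 612250891066) (nat_lit 76) (nat_lit 14604835748) (nat_lit 76) (nat_lit 11288363833) (nat_lit 3) (nat_lit 4) (nat_lit 4) (nat_lit 5) (nat_lit 4) (nat_lit 4) (nat_lit 388) (nat_lit 221) (nat_lit 171)) (XT.lf (nat_lit 0) (nat_lit 645084838004) (nat_lit 76) (nat_lit 14118983533) (nat_lit 76) (nat_lit 10787424086) (nat_lit 3) (nat_lit 4) (nat_lit 4) (nat_lit 5) (nat_lit 4) (nat_lit 4) (nat_lit 389) (nat_lit 221) (nat_lit 170))))))) (XT.nd (nat_lit 780) (nat_lit 0) (nat_lit 0) (XT.nd (nat_lit 390) (nat_lit 76) (nat_lit 0) (XT.nd (nat_lit 156) (nat_lit 0) (nat_lit 0) (XT.nd (nat_lit 78) (nat_lit 0) (nat_lit 0) (XT.lf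 (nat_lit 0) (nat_lit 6345845103) (nat_lit 152) (nat_lit 13568253721) (nat_lit 0) (nat_lit 6345845103) (nat_lit 4) (nat_lit 5) (nat_lit 6) (nat_lit 4) (nat_lit 4) (nat_lit 4) (nat_lit 336) (nat_lit 222) (nat_lit 222)) (XT.lf (nat_lit 0) (nat_lit 16187941169) (nat_lit 152) (nat_lit 22797188071) (nat_lit 0) (nat_lit 16006275664) (nat_lit 4) (nat_lit 5) (nat_lit 6) (nat_lit 4) (nat_lit 4) (nat_lit 4) (nat_lit 337) (nat_lit 222) (nat_lit 221))) (XT.nd (nat_lit 78) (nat_lit 0) (nat_lit 0) (XT.lf (nat_lit 0) (nat_lit 19762884077) (nat_lit 152) (nat_lit 18420274418) (nat_lit 0) (nat_lit 19408203805) (nat_lit 4) (nat_lit 5) (nat_lit 6) (nat_lit 4) (nat_lit 4) (nat_lit 4) (nat_lit 338) (nat_lit 222) (nat_lit 220)) (XT.nd (nat_lit 78) (nat_lit 0) (nat_lit 0) (XT.lf (nat_lit 0) (nat_lit 23425030699) (nat_lit 152) (nat_lit 13995345259) (nat_lit 0) (nat_lit 22905574459) (nat_lit 4) (nat_lit 5) (nat_lit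 6) (nat_lit 4) (nat_lit 4) (nat_lit 4) (nat_lit 339) (nat_lit 222) (nat_lit 219)) (XT.lf (nat_lit 0) (nat_lit 27183100432) (nat_lit 152) (nat_lit 9511865048) (nat_lit 0) (nat_lit 26506714699) (nat_lit 4) (nat_lit 5) (nat_lit 6) (nat_lit 4) (nat_lit 4) (nat_lit 4) (nat_lit 340) (nat_lit 222) (nat_lit 218))))) (XT.nd (nat_lit 156) (nat_lit 76) (nat_lit 0) (XT.nd (nat_lit 78) (nat_lit 0) (nat_lit 0) (XT.lf (nat_lit 0) (nat_lit 31046041062) (nat_lit 152) (nat_lit 4959158833) (nat_lit 0) (nat_lit 30220198669) (nat_lit 4) (nat_lit 5) (nat_lit 6) (nat_lit 4) (nat_lit 4) (nat_lit 4) (nat_lit 341) (nat_lit 222) (nat_lit 217)) (XT.lf (nat_lit 0) (nat_lit 35023050065) (nat_lit 152) (nat_lit 326386836) (nat_lit 0) (nat_lit 34054867995) (nat_lit 4) (nat_lit 5) (nat_lit 6) (nat_lit 4) (nat_lit 4) (nat_lit 4) (nat_lit 342) (nat_lit 222) (nat_lit 216))) (XT.nd (nat_lit 78) (nat_lit 0) (nat_lit 0) (XT.lf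 (nat_lit 0) (nat_lit 4542881943) (nat_lit 76) (nat_lit 34651641686) (nat_lit 76) (nat_lit 33547898020) (nat_lit 3) (nat_lit 4) (nat_lit 4) (nat_lit 5) (nat_lit 4) (nat_lit 4) (nat_lit 343) (nat_lit 222) (nat_lit 215)) (XT.nd (nat_lit 78) (nat_lit 0) (nat_lit 0) (XT.lf (nat_lit 0) (nat_lit 9528669981) (nat_lit 76) (nat_lit 33977542868) (nat_lit 76) (nat_lit 32744692919) (nat_lit 3) (nat_lit 4) (nat_lit 4) (nat_lit 5) (nat_lit 4) (nat_lit 4) (nat_lit 344) (nat_lit 222) (nat_lit 214)) (XT.lf (nat_lit 0) (nat_lit 14632056376) (nat_lit 76) (nat_lit 33331062968) (nat_lit 76) (nat_lit 31975254655) (nat_lit 3) (nat_lit 4) (nat_lit 4) (nat_lit 5) (nat_lit 4) (nat_lit 4) (nat_lit 345) (nat_lit 222) (nat_lit 213)))))) (XT.nd (nat_lit 390) (nat_lit 0) (nat_lit 0) (XT.nd (nat_lit 156) (nat_lit 0) (nat_lit 0) (XT.nd (nat_lit 78) (nat_lit 0) (nat_lit 0) (XT.lf (nat_lit 0) (nat_lit 19865192050) (nat_lit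 76) (nat_lit 32710662750) (nat_lit 76) (nat_lit 31237751233) (nat_lit 3) (nat_lit 4) (nat_lit 4) (nat_lit 5) (nat_lit 4) (nat_lit 4) (nat_lit 346) (nat_lit 222) (nat_lit 212)) (XT.lf (nat_lit 0) (nat_lit 25240536848) (nat_lit 76) (nat_lit 32114865070) (nat_lit 76) (nat_lit 30530426691) (nat_lit 3) (nat_lit 4) (nat_lit 4) (nat_lit 5) (nat_lit 4) (nat_lit 4) (nat_lit 347) (nat_lit 222) (nat_lit 211))) (XT.nd (nat_lit 78) (nat_lit 0) (nat_lit 0) (XT.lf (nat_lit 0) (nat_lit 30770889212) (nat_lit 76) (nat_lit 31542251361) (nat_lit 76) (nat_lit 29851596924) (nat_lit 3) (nat_lit 4) (nat_lit 4) (nat_lit 5) (nat_lit 4) (nat_lit 4) (nat_lit 348) (nat_lit 222) (nat_lit 210)) (XT.nd (nat_lit 78) (nat_lit 0) (nat_lit 0) (XT.lf (nat_lit 0) (nat_lit 36469416645) (nat_lit 76) (nat_lit 30991458258) (nat_lit 76) (nat_lit 29199645670) (nat_lit 3) (nat_lit 4) (nat_lit 4) (nat_lit 5) (nat_lit 4) (nat_lit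 4) (nat_lit 349) (nat_lit 222) (nat_lit 209)) (XT.lf (nat_lit 0) (nat_lit 42349687072) (nat_lit 76) (nat_lit 30461174349) (nat_lit 76) (nat_lit 28573020665) (nat_lit 3) (nat_lit 4) (nat_lit 4) (nat_lit 5) (nat_lit 4) (nat_lit 4) (nat_lit 350) (nat_lit 222) (nat_lit 208))))) (XT.nd (nat_lit 156) (nat_lit 0) (nat_lit 0) (XT.nd (nat_lit 78) (nat_lit 0) (nat_lit 0) (XT.lf (nat_lit 0) (nat_lit 48425701136) (nat_lit 76) (nat_lit 29950137053) (nat_lit 76) (nat_lit 27970229945) (nat_lit 3) (nat_lit 4) (nat_lit 4) (nat_lit 5) (nat_lit 4) (nat_lit 4) (nat_lit 351) (nat_lit 222) (nat_lit 207)) (XT.lf (nat_lit 0) (nat_lit 54711925537) (nat_lit 76) (nat_lit 29457129614) (nat_lit 76) (nat_lit 27389838292) (nat_lit 3) (nat_lit 4) (nat_lit 4) (nat_lit 5) (nat_lit 4) (nat_lit 4) (nat_lit 352) (nat_lit 222) (nat_lit 206))) (XT.nd (nat_lit 78) (nat_lit 0) (nat_lit 0) (XT.lf (nat_lit 0) (nat_lit 61223327475)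 (nat_lit 76) (nat_lit 28980978205) (nat_lit 76) (nat_lit 26830463823) (nat_lit 3) (nat_lit 4) (nat_lit 4) (nat_lit 5) (nat_lit 4) (nat_lit 4) (nat_lit 353) (nat_lit 222) (nat_lit 205)) (XT.nd (nat_lit 78) (nat_lit 0) (nat_lit 0) (XT.lf (nat_lit 0) (nat_lit 67975410290) (nat_lit 76) (nat_lit 28520549133) (nat_lit 76) (nat_lit 26290774693) (nat_lit 3) (nat_lit 4) (nat_lit 4) (nat_lit 5) (nat_lit 4) (nat_lit 4) (nat_lit 354) (nat_lit 222) (nat_lit 204)) (XT.lf (nat_lit 0) (nat_lit 74984250368) (nat_lit 76) (nat_lit 28074746138) (nat_lit 76) (nat_lit 25769485928) (nat_lit 3) (nat_lit 4) (nat_lit 4) (nat_lit 5) (nat_lit 4) (nat_lit 4) (nat_lit 355) (nat_lit 222) (nat_lit 203))))))))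
noncomputable def xc19 : XT := (XT.nd (nat_lit 1482) (nat_lit 0) (nat_lit 0) (XT.nd (nat_lit 702) (nat_lit 0) (nat_lit 0) (XT.nd (nat_lit 312) (nat_lit 0) (nat_lit 0) (XT.nd (nat_lit 156) (nat_lit 0) (nat_lit 0) (XT.nd (nat_lit 78) (nat_lit 0) (nat_lit 0) (XT.lf (nat_lit 0) (nat_lit 82266535424) (nat_lit 76) (nat_lit 27642507784) (nat_lit 76) (nat_lit 25265356365) (nat_lit 3) (nat_lit 4) (nat_lit 4) (nat_lit 5) (nat_lit 4) (nat_lit 4) (nat_lit 356) (nat_lit 222) (nat_lit 202)) (XT.lf (nat_lit 0) (nat_lit 89839604232) (nat_lit 76) (nat_lit 27222804932) (nat_lit 76) (nat_lit 24777185694) (nat_lit 3) (nat_lit 4) (nat_lit 4) (nat_lit 5) (nat_lit 4) (nat_lit 4) (nat_lit 357) (nat_lit 222) (nat_lit 201))) (XT.nd (nat_lit 78) (nat_lit 0) (nat_lit 0) (XT.lf (nat_lit 0) (nat_lit 97721487908) (nat_lit 76) (nat_lit 26814638289) (nat_lit 76) (nat_lit 24303811606) (nat_lit 3) (nat_lit 4) (nat_lit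 4) (nat_lit 5) (nat_lit 4) (nat_lit 4) (nat_lit 358) (nat_lit 222) (nat_lit 200)) (XT.lf (nat_lit 0) (nat_lit 105930952842) (nat_lit 76) (nat_lit 26417036031) (nat_lit 76) (nat_lit 23844107018) (nat_lit 3) (nat_lit 4) (nat_lit 4) (nat_lit 5) (nat_lit 4) (nat_lit 4) (nat_lit 359) (nat_lit 222) (nat_lit 199)))) (XT.nd (nat_lit 156) (nat_lit 0) (nat_lit 0) (XT.nd (nat_lit 78) (nat_lit 0) (nat_lit 0) (XT.lf (nat_lit 0) (nat_lit 114487545379) (nat_lit 76) (nat_lit 26029051485) (nat_lit 76) (nat_lit 23396977397) (nat_lit 3) (nat_lit 4) (nat_lit 4) (nat_lit 5) (nat_lit 4) (nat_lit 4) (nat_lit 360) (nat_lit 222) (nat_lit 198)) (XT.lf (nat_lit 0) (nat_lit 123411638359) (nat_lit 76) (nat_lit 25649760879) (nat_lit 76) (nat_lit 22961358147) (nat_lit 3) (nat_lit 4) (nat_lit 4) (nat_lit 5) (nat_lit 4) (nat_lit 4) (nat_lit 361) (nat_lit 222) (nat_lit 197))) (XT.nd (nat_lit 78) (nat_lit 0) (nat_lit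 0) (XT.lf (nat_lit 0) (nat_lit 132724479621) (nat_lit 76) (nat_lit 25278261139) (nat_lit 76) (nat_lit 22536212080) (nat_lit 3) (nat_lit 4) (nat_lit 4) (nat_lit 5) (nat_lit 4) (nat_lit 4) (nat_lit 362) (nat_lit 222) (nat_lit 196)) (XT.nd (nat_lit 78) (nat_lit 0) (nat_lit 0) (XT.lf (nat_lit 0) (nat_lit 142448242598) (nat_lit 76) (nat_lit 24913667742) (nat_lit 76) (nat_lit 22120526943) (nat_lit 3) (nat_lit 4) (nat_lit 4) (nat_lit 5) (nat_lit 4) (nat_lit 4) (nat_lit 363) (nat_lit 222) (nat_lit 195)) (XT.lf (nat_lit 0) (nat_lit 152606079105) (nat_lit 76) (nat_lit 24555112610) (nat_lit 76) (nat_lit 21713313010) (nat_lit 3) (nat_lit 4) (nat_lit 4) (nat_lit 5) (nat_lit 4) (nat_lit 4) (nat_lit 364) (nat_lit 222) (nat_lit 194)))))) (XT.nd (nat_lit 390) (nat_lit 0) (nat_lit 0) (XT.nd (nat_lit 156) (nat_lit 0) (nat_lit 0) (XT.nd (nat_lit 78) (nat_lit 0) (nat_lit 0) (XT.lf (nat_lit 0) (nat_lit 163222174469)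 (nat_lit 76) (nat_lit 24201742038) (nat_lit 76) (nat_lit 21313600725) (nat_lit 3) (nat_lit 4) (nat_lit 4) (nat_lit 5) (nat_lit 4) (nat_lit 4) (nat_lit 365) (nat_lit 222) (nat_lit 193)) (XT.lf (nat_lit 0) (nat_lit 174321805106) (nat_lit 76) (nat_lit 23852714670) (nat_lit 76) (nat_lit 20920438390) (nat_lit 3) (nat_lit 4) (nat_lit 4) (nat_lit 5) (nat_lit 4) (nat_lit 4) (nat_lit 366) (nat_lit 222) (nat_lit 192))) (XT.nd (nat_lit 78) (nat_lit 0) (nat_lit 0) (XT.lf (nat_lit 0) (nat_lit 185931398708) (nat_lit 76) (nat_lit 23507199486) (nat_lit 76) (nat_lit 20532889905) (nat_lit 3) (nat_lit 4) (nat_lit 4) (nat_lit 5) (nat_lit 4) (nat_lit 4) (nat_lit 367) (nat_lit 222) (nat_lit 191)) (XT.nd (nat_lit 78) (nat_lit 0) (nat_lit 0) (XT.lf (nat_lit 0) (nat_lit 198078597166) (nat_lit 76) (nat_lit 23164373832) (nat_lit 76) (nat_lit 20150032537) (nat_lit 3) (nat_lit 4) (nat_lit 4) (nat_lit 5) (nat_lit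 4) (nat_lit 4) (nat_lit 368) (nat_lit 222) (nat_lit 190)) (XT.lf (nat_lit 0) (nat_lit 210792322379) (nat_lit 76) (nat_lit 22823421457) (nat_lit 76) (nat_lit 19770954718) (nat_lit 3) (nat_lit 4) (nat_lit 4) (nat_lit 5) (nat_lit 4) (nat_lit 4) (nat_lit 369) (nat_lit 222) (nat_lit 189))))) (XT.nd (nat_lit 156) (nat_lit 0) (nat_lit 0) (XT.nd (nat_lit 78) (nat_lit 0) (nat_lit 0) (XT.lf (nat_lit 0) (nat_lit 224102845123) (nat_lit 76) (nat_lit 22483530569) (nat_lit 76) (nat_lit 19394753885) (nat_lit 3) (nat_lit 4) (nat_lit 4) (nat_lit 5) (nat_lit 4) (nat_lit 4) (nat_lit 370) (nat_lit 222) (nat_lit 188)) (XT.lf (nat_lit 0) (nat_lit 238041857119) (nat_lit 76) (nat_lit 22143891904) (nat_lit 76) (nat_lit 19020534319) (nat_lit 3) (nat_lit 4) (nat_lit 4) (nat_lit 5) (nat_lit 4) (nat_lit 4) (nat_lit 371) (nat_lit 222) (nat_lit 187))) (XT.nd (nat_lit 78) (nat_lit 0) (nat_lit 0) (XT.lf (nat_lit 0)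 (nat_lit 252642546489) (nat_lit 76) (nat_lit 21803696799) (nat_lit 76) (nat_lit 18647405022) (nat_lit 3) (nat_lit 4) (nat_lit 4) (nat_lit 5) (nat_lit 4) (nat_lit 4) (nat_lit 372) (nat_lit 222) (nat_lit 186)) (XT.nd (nat_lit 78) (nat_lit 0) (nat_lit 0) (XT.lf (nat_lit 0) (nat_lit 267939676780) (nat_lit 76) (nat_lit 21462135264) (nat_lit 76) (nat_lit 18274477591) (nat_lit 3) (nat_lit 4) (nat_lit 4) (nat_lit 5) (nat_lit 4) (nat_lit 4) (nat_lit 373) (nat_lit 222) (nat_lit 185)) (XT.lf (nat_lit 0) (nat_lit 283969669732) (nat_lit 76) (nat_lit 21118394059) (nat_lit 76) (nat_lit 17900864104) (nat_lit 3) (nat_lit 4) (nat_lit 4) (nat_lit 5) (nat_lit 4) (nat_lit 4) (nat_lit 374) (nat_lit 222) (nat_lit 184))))))) (XT.nd (nat_lit 780) (nat_lit 0) (nat_lit 0) (XT.nd (nat_lit 390) (nat_lit 0) (nat_lit 0) (XT.nd (nat_lit 156) (nat_lit 0) (nat_lit 0) (XT.nd (nat_lit 78) (nat_lit 0) (nat_lit 0) (XT.lf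 (nat_lit 0) (nat_lit 300770691993) (nat_lit 76) (nat_lit 20771654753) (nat_lit 76) (nat_lit 17525675005) (nat_lit 3) (nat_lit 4) (nat_lit 4) (nat_lit 5) (nat_lit 4) (nat_lit 4) (nat_lit 375) (nat_lit 222) (nat_lit 183)) (XT.lf (nat_lit 0) (nat_lit 318382745998) (nat_lit 76) (nat_lit 20421091774) (nat_lit 76) (nat_lit 17148016985) (nat_lit 3) (nat_lit 4) (nat_lit 4) (nat_lit 5) (nat_lit 4) (nat_lit 4) (nat_lit 376) (nat_lit 222) (nat_lit 182))) (XT.nd (nat_lit 78) (nat_lit 0) (nat_lit 0) (XT.lf (nat_lit 0) (nat_lit 336847765209) (nat_lit 76) (nat_lit 20065870450) (nat_lit 76) (nat_lit 16766990861) (nat_lit 3) (nat_lit 4) (nat_lit 4) (nat_lit 5) (nat_lit 4) (nat_lit 4) (nat_lit 377) (nat_lit 222) (nat_lit 181)) (XT.nd (nat_lit 78) (nat_lit 0) (nat_lit 0) (XT.lf (nat_lit 0) (nat_lit 356209713957) (nat_lit 76) (nat_lit 19705145015) (nat_lit 76) (nat_lit 16381689425) (nat_lit 3) (nat_lit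 4) (nat_lit 4) (nat_lit 5) (nat_lit 4) (nat_lit 4) (nat_lit 378) (nat_lit 222) (nat_lit 180)) (XT.lf (nat_lit 0) (nat_lit 376514692121) (nat_lit 76) (nat_lit 19338056599) (nat_lit 76) (nat_lit 15991195295) (nat_lit 3) (nat_lit 4) (nat_lit 4) (nat_lit 5) (nat_lit 4) (nat_lit 4) (nat_lit 379) (nat_lit 222) (nat_lit 179))))) (XT.nd (nat_lit 156) (nat_lit 0) (nat_lit 0) (XT.nd (nat_lit 78) (nat_lit 0) (nat_lit 0) (XT.lf (nat_lit 0) (nat_lit 397811044885) (nat_lit 76) (nat_lit 18963731183) (nat_lit 76) (nat_lit 15594578722) (nat_lit 3) (nat_lit 4) (nat_lit 4) (nat_lit 5) (nat_lit 4) (nat_lit 4) (nat_lit 380) (nat_lit 222) (nat_lit 178)) (XT.lf (nat_lit 0) (nat_lit 420149477852) (nat_lit 76) (nat_lit 18581277515) (nat_lit 76) (nat_lit 15190895380) (nat_lit 3) (nat_lit 4) (nat_lit 4) (nat_lit 5) (nat_lit 4) (nat_lit 4) (nat_lit 381) (nat_lit 222) (nat_lit 177))) (XT.nd (nat_lit 78) (nat_lit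 0) (nat_lit 0) (XT.lf (nat_lit 0) (nat_lit 443583177768) (nat_lit 76) (nat_lit 18189784992) (nat_lit 76) (nat_lit 14779184120) (nat_lit 3) (nat_lit 4) (nat_lit 4) (nat_lit 5) (nat_lit 4) (nat_lit 4) (nat_lit 382) (nat_lit 222) (nat_lit 176)) (XT.nd (nat_lit 78) (nat_lit 0) (nat_lit 0) (XT.lf (nat_lit 0) (nat_lit 468167939156) (nat_lit 76) (nat_lit 17788321487) (nat_lit 76) (nat_lit 14358464677) (nat_lit 3) (nat_lit 4) (nat_lit 4) (nat_lit 5) (nat_lit 4) (nat_lit 4) (nat_lit 383) (nat_lit 222) (nat_lit 175)) (XT.lf (nat_lit 0) (nat_lit 493962297161) (nat_lit 76) (nat_lit 17375931137) (nat_lit 76) (nat_lit 13927735336) (nat_lit 3) (nat_lit 4) (nat_lit 4) (nat_lit 5) (nat_lit 4) (nat_lit 4) (nat_lit 384) (nat_lit 222) (nat_lit 174)))))) (XT.nd (nat_lit 36660) (nat_lit 0) (nat_lit 76) (XT.nd (nat_lit 156) (nat_lit 0) (nat_lit 0) (XT.nd (nat_lit 78) (nat_lit 0) (nat_lit 0) (XT.lf (nat_lit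 0) (nat_lit 521027666923) (nat_lit 76) (nat_lit 16951632058) (nat_lit 76) (nat_lit 13485970553) (nat_lit 3) (nat_lit 4) (nat_lit 4) (nat_lit 5) (nat_lit 4) (nat_lit 4) (nat_lit 385) (nat_lit 222) (nat_lit 173)) (XT.lf (nat_lit 0) (nat_lit 549428489797) (nat_lit 76) (nat_lit 16514414016) (nat_lit 76) (nat_lit 13032118506) (nat_lit 3) (nat_lit 4) (nat_lit 4) (nat_lit 5) (nat_lit 4) (nat_lit 4) (nat_lit 386) (nat_lit 222) (nat_lit 172))) (XT.nd (nat_lit 78) (nat_lit 0) (nat_lit 0) (XT.lf (nat_lit 0) (nat_lit 579232386791) (nat_lit 76) (nat_lit 16063236014) (nat_lit 76) (nat_lit 12565098595) (nat_lit 3) (nat_lit 4) (nat_lit 4) (nat_lit 5) (nat_lit 4) (nat_lit 4) (nat_lit 387) (nat_lit 222) (nat_lit 171)) (XT.nd (nat_lit 78) (nat_lit 0) (nat_lit 0) (XT.lf (nat_lit 0) (nat_lit 610510319564) (nat_lit 76) (nat_lit 15597023820) (nat_lit 76) (nat_lit 12083798868) (nat_lit 3) (nat_lit 4) (nat_lit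 4) (nat_lit 5) (nat_lit 4) (nat_lit 4) (nat_lit 388) (nat_lit 222) (nat_lit 170)) (XT.lf (nat_lit 0) (nat_lit 643336759385) (nat_lit 76) (nat_lit 15114667404) (nat_lit 76) (nat_lit 11587073374) (nat_lit 3) (nat_lit 4) (nat_lit 4) (nat_lit 5) (nat_lit 4) (nat_lit 4) (nat_lit 389) (nat_lit 222) (nat_lit 169))))) (XT.nd (nat_lit 156) (nat_lit 0) (nat_lit 0) (XT.nd (nat_lit 78) (nat_lit 0) (nat_lit 0) (XT.lf (nat_lit 0) (nat_lit 3072288470) (nat_lit 152) (nat_lit 17823579152) (nat_lit 0) (nat_lit 3072288470) (nat_lit 4) (nat_lit 5) (nat_lit 6) (nat_lit 4) (nat_lit 4) (nat_lit 4) (nat_lit 334) (nat_lit 223) (nat_lit 223)) (XT.lf (nat_lit 0) (nat_lit 9456555563) (nat_lit 152) (nat_lit 31448564241) (nat_lit 0) (nat_lit 9265806783) (nat_lit 4) (nat_lit 5) (nat_lit 6) (nat_lit 4) (nat_lit 4) (nat_lit 4) (nat_lit 335) (nat_lit 223) (nat_lit 222))) (XT.nd (nat_lit 78) (nat_lit 0) (nat_lit 0) (XT.lf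 (nat_lit 0) (nat_lit 12833206483) (nat_lit 152) (nat_lit 27228380744) (nat_lit 0) (nat_lit 12460792198) (nat_lit 4) (nat_lit 5) (nat_lit 6) (nat_lit 4) (nat_lit 4) (nat_lit 4) (nat_lit 336) (nat_lit 223) (nat_lit 221)) (XT.nd (nat_lit 78) (nat_lit 0) (nat_lit 0) (XT.lf (nat_lit 0) (nat_lit 16282569346) (nat_lit 152) (nat_lit 22976559757) (nat_lit 0) (nat_lit 15737140295) (nat_lit 4) (nat_lit 5) (nat_lit 6) (nat_lit 4) (nat_lit 4) (nat_lit 4) (nat_lit 337) (nat_lit 223) (nat_lit 220)) (XT.lf (nat_lit 0) (nat_lit 19812856922) (nat_lit 152) (nat_lit 18682977897) (nat_lit 0) (nat_lit 19102651902) (nat_lit 4) (nat_lit 5) (nat_lit 6) (nat_lit 4) (nat_lit 4) (nat_lit 4) (nat_lit 338) (nat_lit 223) (nat_lit 219))))))))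
noncomputable def xc20 : XT := (XT.nd (nat_lit 1482) (nat_lit 0) (nat_lit 0) (XT.nd (nat_lit 702) (nat_lit 0) (nat_lit 0) (XT.nd (nat_lit 312) (nat_lit 76) (nat_lit 0) (XT.nd (nat_lit 156) (nat_lit 0) (nat_lit 0) (XT.nd (nat_lit 78) (nat_lit 0) (nat_lit 0) (XT.lf (nat_lit 0) (nat_lit 23432474656) (nat_lit 152) (nat_lit 14337412351) (nat_lit 0) (nat_lit 22565340143) (nat_lit 4) (nat_lit 5) (nat_lit 6) (nat_lit 4) (nat_lit 4) (nat_lit 4) (nat_lit 339) (nat_lit 223) (nat_lit 218)) (XT.lf (nat_lit 0) (nat_lit 27150040687) (nat_lit 152) (nat_lit 9929516533) (nat_lit 0) (nat_lit 26133449514) (nat_lit 4) (nat_lit 5) (nat_lit 6) (nat_lit 4) (nat_lit 4) (nat_lit 4) (nat_lit 340) (nat_lit 223) (nat_lit 217))) (XT.nd (nat_lit 78) (nat_lit 0) (nat_lit 0) (XT.lf (nat_lit 0) (nat_lit 30974406362) (nat_lit 152) (nat_lit 5448795454) (nat_lit 0) (nat_lit 29815475512) (nat_lit 4) (nat_lit 5) (nat_lit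 6) (nat_lit 4) (nat_lit 4) (nat_lit 4) (nat_lit 341) (nat_lit 223) (nat_lit 216)) (XT.lf (nat_lit 0) (nat_lit 34914677313) (nat_lit 152) (nat_lit 884580730) (nat_lit 0) (nat_lit 33620184866) (nat_lit 4) (nat_lit 5) (nat_lit 6) (nat_lit 4) (nat_lit 4) (nat_lit 4) (nat_lit 342) (nat_lit 223) (nat_lit 215)))) (XT.nd (nat_lit 156) (nat_lit 0) (nat_lit 0) (XT.nd (nat_lit 78) (nat_lit 0) (nat_lit 0) (XT.lf (nat_lit 0) (nat_lit 3898780128) (nat_lit 76) (nat_lit 35142325893) (nat_lit 76) (nat_lit 33718727164) (nat_lit 3) (nat_lit 4) (nat_lit 4) (nat_lit 5) (nat_lit 4) (nat_lit 4) (nat_lit 343) (nat_lit 223) (nat_lit 214)) (XT.lf (nat_lit 0) (nat_lit 8820328632) (nat_lit 76) (nat_lit 34498141153) (nat_lit 76) (nat_lit 32951584060) (nat_lit 3) (nat_lit 4) (nat_lit 4) (nat_lit 5) (nat_lit 4) (nat_lit 4) (nat_lit 344) (nat_lit 223) (nat_lit 213))) (XT.nd (nat_lit 78) (nat_lit 0) (nat_lit 0) (XT.lf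 (nat_lit 0) (nat_lit 13862534519) (nat_lit 76) (nat_lit 33880150852) (nat_lit 76) (nat_lit 32216490554) (nat_lit 3) (nat_lit 4) (nat_lit 4) (nat_lit 5) (nat_lit 4) (nat_lit 4) (nat_lit 345) (nat_lit 223) (nat_lit 212)) (XT.nd (nat_lit 78) (nat_lit 0) (nat_lit 0) (XT.lf (nat_lit 0) (nat_lit 19037403042) (nat_lit 76) (nat_lit 33286883584) (nat_lit 76) (nat_lit 31511696425) (nat_lit 3) (nat_lit 4) (nat_lit 4) (nat_lit 5) (nat_lit 4) (nat_lit 4) (nat_lit 346) (nat_lit 223) (nat_lit 211)) (XT.lf (nat_lit 0) (nat_lit 24357255316) (nat_lit 76) (nat_lit 32716926809) (nat_lit 76) (nat_lit 30835523592) (nat_lit 3) (nat_lit 4) (nat_lit 4) (nat_lit 5) (nat_lit 4) (nat_lit 4) (nat_lit 347) (nat_lit 223) (nat_lit 210)))))) (XT.nd (nat_lit 390) (nat_lit 0) (nat_lit 0) (XT.nd (nat_lit 156) (nat_lit 0) (nat_lit 0) (XT.nd (nat_lit 78) (nat_lit 0) (nat_lit 0) (XT.lf (nat_lit 0) (nat_lit 29834757656) (nat_lit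 76) (nat_lit 32168923486) (nat_lit 76) (nat_lit 30186362118) (nat_lit 3) (nat_lit 4) (nat_lit 4) (nat_lit 5) (nat_lit 4) (nat_lit 4) (nat_lit 348) (nat_lit 223) (nat_lit 209)) (XT.lf (nat_lit 0) (nat_lit 35482951735) (nat_lit 76) (nat_lit 31641568846) (nat_lit 76) (nat_lit 29562666382) (nat_lit 3) (nat_lit 4) (nat_lit 4) (nat_lit 5) (nat_lit 4) (nat_lit 4) (nat_lit 349) (nat_lit 223) (nat_lit 208))) (XT.nd (nat_lit 78) (nat_lit 0) (nat_lit 0) (XT.lf (nat_lit 0) (nat_lit 41315285633) (nat_lit 76) (nat_lit 31133607282) (nat_lit 76) (nat_lit 28962951394) (nat_lit 3) (nat_lit 4) (nat_lit 4) (nat_lit 5) (nat_lit 4) (nat_lit 4) (nat_lit 350) (nat_lit 223) (nat_lit 207)) (XT.nd (nat_lit 78) (nat_lit 0) (nat_lit 0) (XT.lf (nat_lit 0) (nat_lit 47345645859) (nat_lit 76) (nat_lit 30643829363) (nat_lit 76) (nat_lit 28385789261) (nat_lit 3) (nat_lit 4) (nat_lit 4) (nat_lit 5) (nat_lit 4) (nat_lit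 4) (nat_lit 351) (nat_lit 223) (nat_lit 206)) (XT.lf (nat_lit 0) (nat_lit 53588390415) (nat_lit 76) (nat_lit 30171068950) (nat_lit 76) (nat_lit 27829805787) (nat_lit 3) (nat_lit 4) (nat_lit 4) (nat_lit 5) (nat_lit 4) (nat_lit 4) (nat_lit 352) (nat_lit 223) (nat_lit 205))))) (XT.nd (nat_lit 156) (nat_lit 0) (nat_lit 0) (XT.nd (nat_lit 78) (nat_lit 0) (nat_lit 0) (XT.lf (nat_lit 0) (nat_lit 60058382977) (nat_lit 76) (nat_lit 29714200422) (nat_lit 76) (nat_lit 27293677202) (nat_lit 3) (nat_lit 4) (nat_lit 4) (nat_lit 5) (nat_lit 4) (nat_lit 4) (nat_lit 353) (nat_lit 223) (nat_lit 204)) (XT.lf (nat_lit 0) (nat_lit 66771028291) (nat_lit 76) (nat_lit 29272135999) (nat_lit 76) (nat_lit 26776127009) (nat_lit 3) (nat_lit 4) (nat_lit 4) (nat_lit 5) (nat_lit 4) (nat_lit 4) (nat_lit 354) (nat_lit 223) (nat_lit 203))) (XT.nd (nat_lit 78) (nat_lit 0) (nat_lit 0) (XT.lf (nat_lit 0) (nat_lit 73742308844)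 (nat_lit 76) (nat_lit 28843823146) (nat_lit 76) (nat_lit 26275922947) (nat_lit 3) (nat_lit 4) (nat_lit 4) (nat_lit 5) (nat_lit 4) (nat_lit 4) (nat_lit 355) (nat_lit 223) (nat_lit 202)) (XT.nd (nat_lit 78) (nat_lit 0) (nat_lit 0) (XT.lf (nat_lit 0) (nat_lit 80988822924) (nat_lit 76) (nat_lit 28428242070) (nat_lit 76) (nat_lit 25791874052) (nat_lit 3) (nat_lit 4) (nat_lit 4) (nat_lit 5) (nat_lit 4) (nat_lit 4) (nat_lit 356) (nat_lit 223) (nat_lit 201)) (XT.lf (nat_lit 0) (nat_lit 88527824136) (nat_lit 76) (nat_lit 28024403292) (nat_lit 76) (nat_lit 25322827828) (nat_lit 3) (nat_lit 4) (nat_lit 4) (nat_lit 5) (nat_lit 4) (nat_lit 4) (nat_lit 357) (nat_lit 223) (nat_lit 200))))))) (XT.nd (nat_lit 780) (nat_lit 0) (nat_lit 0) (XT.nd (nat_lit 390) (nat_lit 0) (nat_lit 0) (XT.nd (nat_lit 156) (nat_lit 0) (nat_lit 0) (XT.nd (nat_lit 78) (nat_lit 0) (nat_lit 0) (XT.lf (nat_lit 0) (nat_lit 96377262482)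 (nat_lit 76) (nat_lit 27631345292) (nat_lit 76) (nat_lit 24867667499) (nat_lit 3) (nat_lit 4) (nat_lit 4) (nat_lit 5) (nat_lit 4) (nat_lit 4) (nat_lit 358) (nat_lit 223) (nat_lit 199)) (XT.lf (nat_lit 0) (nat_lit 104555827103) (nat_lit 76) (nat_lit 27248132216) (nat_lit 76) (nat_lit 24425309348) (nat_lit 3) (nat_lit 4) (nat_lit 4) (nat_lit 5) (nat_lit 4) (nat_lit 4) (nat_lit 359) (nat_lit 223) (nat_lit 198))) (XT.nd (nat_lit 78) (nat_lit 0) (nat_lit 0) (XT.lf (nat_lit 0) (nat_lit 113082990769) (nat_lit 76) (nat_lit 26873851654) (nat_lit 76) (nat_lit 23994700142) (nat_lit 3) (nat_lit 4) (nat_lit 4) (nat_lit 5) (nat_lit 4) (nat_lit 4) (nat_lit 360) (nat_lit 223) (nat_lit 197)) (XT.nd (nat_lit 78) (nat_lit 0) (nat_lit 0) (XT.lf (nat_lit 0) (nat_lit 121979056253) (nat_lit 76) (nat_lit 26507612461) (nat_lit 76) (nat_lit 23574814622) (nat_lit 3) (nat_lit 4) (nat_lit 4) (nat_lit 5) (nat_lit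 4) (nat_lit 4) (nat_lit 361) (nat_lit 223) (nat_lit 196)) (XT.lf (nat_lit 0) (nat_lit 131265204662) (nat_lit 76) (nat_lit 26148542638) (nat_lit 76) (nat_lit 23164653059) (nat_lit 3) (nat_lit 4) (nat_lit 4) (nat_lit 5) (nat_lit 4) (nat_lit 4) (nat_lit 362) (nat_lit 223) (nat_lit 195))))) (XT.nd (nat_lit 156) (nat_lit 0) (nat_lit 0) (XT.nd (nat_lit 78) (nat_lit 0) (nat_lit 0) (XT.lf (nat_lit 0) (nat_lit 140963545874) (nat_lit 76) (nat_lit 25795787258) (nat_lit 76) (nat_lit 22763238879) (nat_lit 3) (nat_lit 4) (nat_lit 4) (nat_lit 5) (nat_lit 4) (nat_lit 4) (nat_lit 363) (nat_lit 223) (nat_lit 194)) (XT.lf (nat_lit 0) (nat_lit 151097171177) (nat_lit 76) (nat_lit 25448506427) (nat_lit 76) (nat_lit 22369616333) (nat_lit 3) (nat_lit 4) (nat_lit 4) (nat_lit 5) (nat_lit 4) (nat_lit 4) (nat_lit 364) (nat_lit 223) (nat_lit 193))) (XT.nd (nat_lit 78) (nat_lit 0) (nat_lit 0) (XT.lf (nat_lit 0)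 (nat_lit 161690208250) (nat_lit 76) (nat_lit 25105873285) (nat_lit 76) (nat_lit 21982848226) (nat_lit 3) (nat_lit 4) (nat_lit 4) (nat_lit 5) (nat_lit 4) (nat_lit 4) (nat_lit 365) (nat_lit 223) (nat_lit 192)) (XT.nd (nat_lit 78) (nat_lit 0) (nat_lit 0) (XT.lf (nat_lit 0) (nat_lit 172767878611) (nat_lit 76) (nat_lit 24767072040) (nat_lit 76) (nat_lit 21602013680) (nat_lit 3) (nat_lit 4) (nat_lit 4) (nat_lit 5) (nat_lit 4) (nat_lit 4) (nat_lit 366) (nat_lit 223) (nat_lit 191)) (XT.lf (nat_lit 0) (nat_lit 184356557665) (nat_lit 76) (nat_lit 24431296022) (nat_lit 76) (nat_lit 21226205947) (nat_lit 3) (nat_lit 4) (nat_lit 4) (nat_lit 5) (nat_lit 4) (nat_lit 4) (nat_lit 367) (nat_lit 223) (nat_lit 190)))))) (XT.nd (nat_lit 390) (nat_lit 0) (nat_lit 0) (XT.nd (nat_lit 156) (nat_lit 0) (nat_lit 0) (XT.nd (nat_lit 78) (nat_lit 0) (nat_lit 0) (XT.lf (nat_lit 0) (nat_lit 196483837504) (nat_lit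 76) (nat_lit 24097745764) (nat_lit 76) (nat_lit 20854530246) (nat_lit 3) (nat_lit 4) (nat_lit 4) (nat_lit 5) (nat_lit 4) (nat_lit 4) (nat_lit 368) (nat_lit 223) (nat_lit 189)) (XT.lf (nat_lit 0) (nat_lit 209178592605) (nat_lit 76) (nat_lit 23765627099) (nat_lit 76) (nat_lit 20486101635) (nat_lit 3) (nat_lit 4) (nat_lit 4) (nat_lit 5) (nat_lit 4) (nat_lit 4) (nat_lit 369) (nat_lit 223) (nat_lit 188))) (XT.nd (nat_lit 78) (nat_lit 0) (nat_lit 0) (XT.lf (nat_lit 0) (nat_lit 222471048576) (nat_lit 76) (nat_lit 23434149269) (nat_lit 76) (nat_lit 20120042903) (nat_lit 3) (nat_lit 4) (nat_lit 4) (nat_lit 5) (nat_lit 4) (nat_lit 4) (nat_lit 370) (nat_lit 223) (nat_lit 187)) (XT.nd (nat_lit 78) (nat_lit 0) (nat_lit 0) (XT.lf (nat_lit 0) (nat_lit 236392854120) (nat_lit 76) (nat_lit 23102523039) (nat_lit 76) (nat_lit 19755482482) (nat_lit 3) (nat_lit 4) (nat_lit 4) (nat_lit 5) (nat_lit 4) (nat_lit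 4) (nat_lit 371) (nat_lit 223) (nat_lit 186)) (XT.lf (nat_lit 0) (nat_lit 250977156394) (nat_lit 76) (nat_lit 22769958825) (nat_lit 76) (nat_lit 19391552371) (nat_lit 3) (nat_lit 4) (nat_lit 4) (nat_lit 5) (nat_lit 4) (nat_lit 4) (nat_lit 372) (nat_lit 223) (nat_lit 185))))) (XT.nd (nat_lit 156) (nat_lit 0) (nat_lit 0) (XT.nd (nat_lit 78) (nat_lit 0) (nat_lit 0) (XT.lf (nat_lit 0) (nat_lit 266258679927) (nat_lit 76) (nat_lit 22435664805) (nat_lit 76) (nat_lit 19027386070) (nat_lit 3) (nat_lit 4) (nat_lit 4) (nat_lit 5) (nat_lit 4) (nat_lit 4) (nat_lit 373) (nat_lit 223) (nat_lit 184)) (XT.lf (nat_lit 0) (nat_lit 282273809299) (nat_lit 76) (nat_lit 22098845044) (nat_lit 76) (nat_lit 18662116516) (nat_lit 3) (nat_lit 4) (nat_lit 4) (nat_lit 5) (nat_lit 4) (nat_lit 4) (nat_lit 374) (nat_lit 223) (nat_lit 183))) (XT.nd (nat_lit 78) (nat_lit 0) (nat_lit 0) (XT.lf (nat_lit 0) (nat_lit 299060675771)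 (nat_lit 76) (nat_lit 21758697587) (nat_lit 76) (nat_lit 18294874019) (nat_lit 3) (nat_lit 4) (nat_lit 4) (nat_lit 5) (nat_lit 4) (nat_lit 4) (nat_lit 375) (nat_lit 223) (nat_lit 182)) (XT.nd (nat_lit 78) (nat_lit 0) (nat_lit 0) (XT.lf (nat_lit 0) (nat_lit 316659248071) (nat_lit 76) (nat_lit 21414412561) (nat_lit 76) (nat_lit 17924784192) (nat_lit 3) (nat_lit 4) (nat_lit 4) (nat_lit 5) (nat_lit 4) (nat_lit 4) (nat_lit 376) (nat_lit 223) (nat_lit 181)) (XT.lf (nat_lit 0) (nat_lit 335111427564) (nat_lit 76) (nat_lit 21065170240) (nat_lit 76) (nat_lit 17550965870) (nat_lit 3) (nat_lit 4) (nat_lit 4) (nat_lit 5) (nat_lit 4) (nat_lit 4) (nat_lit 377) (nat_lit 223) (nat_lit 180))))))))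
noncomputable def xc21 : XT := (XT.nd (nat_lit 37596) (nat_lit 0) (nat_lit 0) (XT.nd (nat_lit 702) (nat_lit 0) (nat_lit 0) (XT.nd (nat_lit 312) (nat_lit 0) (nat_lit 0) (XT.nd (nat_lit 156) (nat_lit 0) (nat_lit 0) (XT.nd (nat_lit 78) (nat_lit 0) (nat_lit 0) (XT.lf (nat_lit 0) (nat_lit 354461148008) (nat_lit 76) (nat_lit 20710139093) (nat_lit 76) (nat_lit 17172529009) (nat_lit 3) (nat_lit 4) (nat_lit 4) (nat_lit 5) (nat_lit 4) (nat_lit 4) (nat_lit 378) (nat_lit 223) (nat_lit 179)) (XT.lf (nat_lit 0) (nat_lit 374754480168) (nat_lit 76) (nat_lit 20348473810) (nat_lit 76) (nat_lit 16788572568) (nat_lit 3) (nat_lit 4) (nat_lit 4) (nat_lit 5) (nat_lit 4) (nat_lit 4) (nat_lit 379) (nat_lit 223) (nat_lit 178))) (XT.nd (nat_lit 78) (nat_lit 0) (nat_lit 0) (XT.lf (nat_lit 0) (nat_lit 396039741500) (nat_lit 76) (nat_lit 19979313281) (nat_lit 76) (nat_lit 16398182366) (nat_lit 3) (nat_lit 4) (nat_lit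 4) (nat_lit 5) (nat_lit 4) (nat_lit 4) (nat_lit 380) (nat_lit 223) (nat_lit 177)) (XT.lf (nat_lit 0) (nat_lit 418367611200) (nat_lit 76) (nat_lit 19601778553) (nat_lit 76) (nat_lit 16000428902) (nat_lit 3) (nat_lit 4) (nat_lit 4) (nat_lit 5) (nat_lit 4) (nat_lit 4) (nat_lit 381) (nat_lit 223) (nat_lit 176)))) (XT.nd (nat_lit 156) (nat_lit 0) (nat_lit 0) (XT.nd (nat_lit 78) (nat_lit 0) (nat_lit 0) (XT.lf (nat_lit 0) (nat_lit 441791250860) (nat_lit 76) (nat_lit 19214970735) (nat_lit 76) (nat_lit 15594365144) (nat_lit 3) (nat_lit 4) (nat_lit 4) (nat_lit 5) (nat_lit 4) (nat_lit 4) (nat_lit 382) (nat_lit 223) (nat_lit 175)) (XT.lf (nat_lit 0) (nat_lit 466366431052) (nat_lit 76) (nat_lit 18817968854) (nat_lit 76) (nat_lit 15179024274) (nat_lit 3) (nat_lit 4) (nat_lit 4) (nat_lit 5) (nat_lit 4) (nat_lit 4) (nat_lit 383) (nat_lit 223) (nat_lit 174))) (XT.nd (nat_lit 78) (nat_lit 0) (nat_lit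 0) (XT.lf (nat_lit 0) (nat_lit 492151664109) (nat_lit 76) (nat_lit 18409827669) (nat_lit 76) (nat_lit 14753417384) (nat_lit 3) (nat_lit 4) (nat_lit 4) (nat_lit 5) (nat_lit 4) (nat_lit 4) (nat_lit 384) (nat_lit 223) (nat_lit 173)) (XT.nd (nat_lit 78) (nat_lit 0) (nat_lit 0) (XT.lf (nat_lit 0) (nat_lit 519208343443) (nat_lit 76) (nat_lit 17989575415) (nat_lit 76) (nat_lit 14316531125) (nat_lit 3) (nat_lit 4) (nat_lit 4) (nat_lit 5) (nat_lit 4) (nat_lit 4) (nat_lit 385) (nat_lit 223) (nat_lit 172)) (XT.lf (nat_lit 0) (nat_lit 547600889721) (nat_lit 76) (nat_lit 17556211491) (nat_lit 76) (nat_lit 13867325292) (nat_lit 3) (nat_lit 4) (nat_lit 4) (nat_lit 5) (nat_lit 4) (nat_lit 4) (nat_lit 386) (nat_lit 223) (nat_lit 171)))))) (XT.nd (nat_lit 36504) (nat_lit 0) (nat_lit 76) (XT.nd (nat_lit 156) (nat_lit 0) (nat_lit 0) (XT.nd (nat_lit 78) (nat_lit 0) (nat_lit 0) (XT.lf (nat_lit 0) (nat_lit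 577396904241) (nat_lit 76) (nat_lit 17108704079) (nat_lit 76) (nat_lit 13404730347) (nat_lit 3) (nat_lit 4) (nat_lit 4) (nat_lit 5) (nat_lit 4) (nat_lit 4) (nat_lit 387) (nat_lit 223) (nat_lit 170)) (XT.lf (nat_lit 0) (nat_lit 608667329896) (nat_lit 76) (nat_lit 16645987683) (nat_lit 76) (nat_lit 12927644873) (nat_lit 3) (nat_lit 4) (nat_lit 4) (nat_lit 5) (nat_lit 4) (nat_lit 4) (nat_lit 388) (nat_lit 223) (nat_lit 169))) (XT.nd (nat_lit 36192) (nat_lit 0) (nat_lit 76) (XT.lf (nat_lit 0) (nat_lit 641486620081) (nat_lit 76) (nat_lit 16166960600) (nat_lit 76) (nat_lit 12434932953) (nat_lit 3) (nat_lit 4) (nat_lit 4) (nat_lit 5) (nat_lit 4) (nat_lit 4) (nat_lit 389) (nat_lit 223) (nat_lit 168)) (XT.nd (nat_lit 78) (nat_lit 152) (nat_lit 0) (XT.lf (nat_lit 0) (nat_lit 21835617190) (nat_lit 76) (nat_lit 30601239) (nat_lit 76) (nat_lit 30601239) (nat_lit 6) (nat_lit 4) (nat_lit 7) (nat_lit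 5) (nat_lit 7) (nat_lit 4) (nat_lit 332) (nat_lit 224) (nat_lit 224)) (XT.lf (nat_lit 0) (nat_lit 3089671174) (nat_lit 152) (nat_lit 39834159588) (nat_lit 0) (nat_lit 2889384955) (nat_lit 4) (nat_lit 5) (nat_lit 6) (nat_lit 4) (nat_lit 4) (nat_lit 4) (nat_lit 333) (nat_lit 224) (nat_lit 223))))) (XT.nd (nat_lit 156) (nat_lit 0) (nat_lit 0) (XT.nd (nat_lit 78) (nat_lit 0) (nat_lit 0) (XT.lf (nat_lit 0) (nat_lit 6293169031) (nat_lit 152) (nat_lit 35743625273) (nat_lit 0) (nat_lit 5902134032) (nat_lit 4) (nat_lit 5) (nat_lit 6) (nat_lit 4) (nat_lit 4) (nat_lit 4) (nat_lit 334) (nat_lit 224) (nat_lit 222)) (XT.lf (nat_lit 0) (nat_lit 9555915149) (nat_lit 152) (nat_lit 31636904511) (nat_lit 0) (nat_lit 8983214645) (nat_lit 4) (nat_lit 5) (nat_lit 6) (nat_lit 4) (nat_lit 4) (nat_lit 4) (nat_lit 335) (nat_lit 224) (nat_lit 221))) (XT.nd (nat_lit 78) (nat_lit 0) (nat_lit 0) (XT.lf (nat_lit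 0) (nat_lit 12885677970) (nat_lit 152) (nat_lit 27504219397) (nat_lit 0) (nat_lit 12139962700) (nat_lit 4) (nat_lit 5) (nat_lit 6) (nat_lit 4) (nat_lit 4) (nat_lit 4) (nat_lit 336) (nat_lit 224) (nat_lit 220)) (XT.nd (nat_lit 78) (nat_lit 0) (nat_lit 0) (XT.lf (nat_lit 0) (nat_lit 16290385502) (nat_lit 152) (nat_lit 23335730203) (nat_lit 0) (nat_lit 15379894263) (nat_lit 4) (nat_lit 5) (nat_lit 6) (nat_lit 4) (nat_lit 4) (nat_lit 4) (nat_lit 337) (nat_lit 224) (nat_lit 219)) (XT.lf (nat_lit 0) (nat_lit 19778144189) (nat_lit 152) (nat_lit 19121511956) (nat_lit 0) (nat_lit 18710723458) (nat_lit 4) (nat_lit 5) (nat_lit 6) (nat_lit 4) (nat_lit 4) (nat_lit 4) (nat_lit 338) (nat_lit 224) (nat_lit 218))))))) (XT.nd (nat_lit 780) (nat_lit 0) (nat_lit 0) (XT.nd (nat_lit 390) (nat_lit 0) (nat_lit 0) (XT.nd (nat_lit 156) (nat_lit 76) (nat_lit 0) (XT.nd (nat_lit 78) (nat_lit 0) (nat_lit 0) (XT.lf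 (nat_lit 0) (nat_lit 23357258221) (nat_lit 152) (nat_lit 14851530803) (nat_lit 0) (nat_lit 22140380829) (nat_lit 4) (nat_lit 5) (nat_lit 6) (nat_lit 4) (nat_lit 4) (nat_lit 4) (nat_lit 339) (nat_lit 224) (nat_lit 217)) (XT.lf (nat_lit 0) (nat_lit 27036249297) (nat_lit 152) (nat_lit 10515620122) (nat_lit 0) (nat_lit 25677032228) (nat_lit 4) (nat_lit 5) (nat_lit 6) (nat_lit 4) (nat_lit 4) (nat_lit 4) (nat_lit 340) (nat_lit 224) (nat_lit 216))) (XT.nd (nat_lit 78) (nat_lit 76) (nat_lit 0) (XT.lf (nat_lit 0) (nat_lit 30823876919) (nat_lit 152) (nat_lit 6103456316) (nat_lit 0) (nat_lit 29329098254) (nat_lit 4) (nat_lit 5) (nat_lit 6) (nat_lit 4) (nat_lit 4) (nat_lit 4) (nat_lit 341) (nat_lit 224) (nat_lit 215)) (XT.nd (nat_lit 78) (nat_lit 76) (nat_lit 0) (XT.lf (nat_lit 0) (nat_lit 34729159249) (nat_lit 152) (nat_lit 1604534232) (nat_lit 0) (nat_lit 33105274301) (nat_lit 4) (nat_lit 5)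 (nat_lit 6) (nat_lit 4) (nat_lit 4) (nat_lit 4) (nat_lit 342) (nat_lit 224) (nat_lit 214)) (XT.lf (nat_lit 0) (nat_lit 3090782178) (nat_lit 76) (nat_lit 35718868171) (nat_lit 76) (nat_lit 33972024858) (nat_lit 3) (nat_lit 4) (nat_lit 4) (nat_lit 5) (nat_lit 4) (nat_lit 4) (nat_lit 343) (nat_lit 224) (nat_lit 213))))) (XT.nd (nat_lit 156) (nat_lit 0) (nat_lit 0) (XT.nd (nat_lit 78) (nat_lit 0) (nat_lit 0) (XT.lf (nat_lit 0) (nat_lit 7951150174) (nat_lit 76) (nat_lit 35103173028) (nat_lit 76) (nat_lit 33239226512) (nat_lit 3) (nat_lit 4) (nat_lit 4) (nat_lit 5) (nat_lit 4) (nat_lit 4) (nat_lit 344) (nat_lit 224) (nat_lit 212)) (XT.lf (nat_lit 0) (nat_lit 12935088911) (nat_lit 76) (nat_lit 34512315678) (nat_lit 76) (nat_lit 32536842300) (nat_lit 3) (nat_lit 4) (nat_lit 4) (nat_lit 5) (nat_lit 4) (nat_lit 4) (nat_lit 345) (nat_lit 224) (nat_lit 211))) (XT.nd (nat_lit 78) (nat_lit 0) (nat_lit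 0) (XT.lf (nat_lit 0) (nat_lit 18054464909) (nat_lit 76) (nat_lit 33944889315) (nat_lit 76) (nat_lit 31863199879) (nat_lit 3) (nat_lit 4) (nat_lit 4) (nat_lit 5) (nat_lit 4) (nat_lit 4) (nat_lit 346) (nat_lit 224) (nat_lit 210)) (XT.nd (nat_lit 78) (nat_lit 0) (nat_lit 0) (XT.lf (nat_lit 0) (nat_lit 23321467160) (nat_lit 76) (nat_lit 33399542926) (nat_lit 76) (nat_lit 31216695339) (nat_lit 3) (nat_lit 4) (nat_lit 4) (nat_lit 5) (nat_lit 4) (nat_lit 4) (nat_lit 347) (nat_lit 224) (nat_lit 209)) (XT.lf (nat_lit 0) (nat_lit 28748636145) (nat_lit 76) (nat_lit 32874978066) (nat_lit 76) (nat_lit 30595789384) (nat_lit 3) (nat_lit 4) (nat_lit 4) (nat_lit 5) (nat_lit 4) (nat_lit 4) (nat_lit 348) (nat_lit 224) (nat_lit 208)))))) (XT.nd (nat_lit 390) (nat_lit 0) (nat_lit 0) (XT.nd (nat_lit 156) (nat_lit 0) (nat_lit 0) (XT.nd (nat_lit 78) (nat_lit 0) (nat_lit 0) (XT.lf (nat_lit 0) (nat_lit 34348893694)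 (nat_lit 76) (nat_lit 32369945772) (nat_lit 76) (nat_lit 29999003665) (nat_lit 3) (nat_lit 4) (nat_lit 4) (nat_lit 5) (nat_lit 4) (nat_lit 4) (nat_lit 349) (nat_lit 224) (nat_lit 207)) (XT.lf (nat_lit 0) (nat_lit 40135573755) (nat_lit 76) (nat_lit 31883243585) (nat_lit 76) (nat_lit 29424917264) (nat_lit 3) (nat_lit 4) (nat_lit 4) (nat_lit 5) (nat_lit 4) (nat_lit 4) (nat_lit 350) (nat_lit 224) (nat_lit 206))) (XT.nd (nat_lit 78) (nat_lit 0) (nat_lit 0) (XT.lf (nat_lit 0) (nat_lit 46122454136) (nat_lit 76) (nat_lit 31413712691) (nat_lit 76) (nat_lit 28872163309) (nat_lit 3) (nat_lit 4) (nat_lit 4) (nat_lit 5) (nat_lit 4) (nat_lit 4) (nat_lit 351) (nat_lit 224) (nat_lit 205)) (XT.nd (nat_lit 78) (nat_lit 0) (nat_lit 0) (XT.lf (nat_lit 0) (nat_lit 52323789316) (nat_lit 76) (nat_lit 30960235159) (nat_lit 76) (nat_lit 28339425719) (nat_lit 3) (nat_lit 4) (nat_lit 4) (nat_lit 5) (nat_lit 4)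 (nat_lit 4) (nat_lit 352) (nat_lit 224) (nat_lit 204)) (XT.lf (nat_lit 0) (nat_lit 58754344377) (nat_lit 76) (nat_lit 30521731281) (nat_lit 76) (nat_lit 27825436071) (nat_lit 3) (nat_lit 4) (nat_lit 4) (nat_lit 5) (nat_lit 4) (nat_lit 4) (nat_lit 353) (nat_lit 224) (nat_lit 203))))) (XT.nd (nat_lit 156) (nat_lit 0) (nat_lit 0) (XT.nd (nat_lit 78) (nat_lit 0) (nat_lit 0) (XT.lf (nat_lit 0) (nat_lit 65429430166) (nat_lit 76) (nat_lit 30097157000) (nat_lit 76) (nat_lit 27328970581) (nat_lit 3) (nat_lit 4) (nat_lit 4) (nat_lit 5) (nat_lit 4) (nat_lit 4) (nat_lit 354) (nat_lit 224) (nat_lit 202)) (XT.lf (nat_lit 0) (nat_lit 72364939743) (nat_lit 76) (nat_lit 29685501424) (nat_lit 76) (nat_lit 26848847188) (nat_lit 3) (nat_lit 4) (nat_lit 4) (nat_lit 5) (nat_lit 4) (nat_lit 4) (nat_lit 355) (nat_lit 224) (nat_lit 201))) (XT.nd (nat_lit 78) (nat_lit 0) (nat_lit 0) (XT.lf (nat_lit 0) (nat_lit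 79577386227) (nat_lit 76) (nat_lit 29285784422) (nat_lit 76) (nat_lit 26383922740) (nat_lit 3) (nat_lit 4) (nat_lit 4) (nat_lit 5) (nat_lit 4) (nat_lit 4) (nat_lit 356) (nat_lit 224) (nat_lit 200)) (XT.nd (nat_lit 78) (nat_lit 0) (nat_lit 0) (XT.lf (nat_lit 0) (nat_lit 87083942109) (nat_lit 76) (nat_lit 28897054286) (nat_lit 76) (nat_lit 25933090275) (nat_lit 3) (nat_lit 4) (nat_lit 4) (nat_lit 5) (nat_lit 4) (nat_lit 4) (nat_lit 357) (nat_lit 224) (nat_lit 199)) (XT.lf (nat_lit 0) (nat_lit 94902480142) (nat_lit 76) (nat_lit 28518385469) (nat_lit 76) (nat_lit 25495276382) (nat_lit 3) (nat_lit 4) (nat_lit 4) (nat_lit 5) (nat_lit 4) (nat_lit 4) (nat_lit 358) (nat_lit 224) (nat_lit 198))))))))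
noncomputable def xc22 : XT := (XT.nd (nat_lit 1482) (nat_lit 0) (nat_lit 0) (XT.nd (nat_lit 702) (nat_lit 0) (nat_lit 0) (XT.nd (nat_lit 312) (nat_lit 0) (nat_lit 0) (XT.nd (nat_lit 156) (nat_lit 0) (nat_lit 0) (XT.nd (nat_lit 78) (nat_lit 0) (nat_lit 0) (XT.lf (nat_lit 0) (nat_lit 103051615891) (nat_lit 76) (nat_lit 28148876378) (nat_lit 76) (nat_lit 25069438647) (nat_lit 3) (nat_lit 4) (nat_lit 4) (nat_lit 5) (nat_lit 4) (nat_lit 4) (nat_lit 359) (nat_lit 224) (nat_lit 197)) (XT.lf (nat_lit 0) (nat_lit 111550752062) (nat_lit 76) (nat_lit 27787647229) (nat_lit 76) (nat_lit 24654563171) (nat_lit 3) (nat_lit 4) (nat_lit 4) (nat_lit 5) (nat_lit 4) (nat_lit 4) (nat_lit 360) (nat_lit 224) (nat_lit 196))) (XT.nd (nat_lit 78) (nat_lit 0) (nat_lit 0) (XT.lf (nat_lit 0) (nat_lit 120420124693) (nat_lit 76) (nat_lit 27433837952) (nat_lit 76) (nat_lit 24249662154) (nat_lit 3) (nat_lit 4) (nat_lit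 4) (nat_lit 5) (nat_lit 4) (nat_lit 4) (nat_lit 361) (nat_lit 224) (nat_lit 195)) (XT.lf (nat_lit 0) (nat_lit 129680851337) (nat_lit 76) (nat_lit 27086606146) (nat_lit 76) (nat_lit 23853771548) (nat_lit 3) (nat_lit 4) (nat_lit 4) (nat_lit 5) (nat_lit 4) (nat_lit 4) (nat_lit 362) (nat_lit 224) (nat_lit 194)))) (XT.nd (nat_lit 156) (nat_lit 0) (nat_lit 0) (XT.nd (nat_lit 78) (nat_lit 0) (nat_lit 0) (XT.lf (nat_lit 0) (nat_lit 139354981344) (nat_lit 76) (nat_lit 26745125068) (nat_lit 76) (nat_lit 23465948755) (nat_lit 3) (nat_lit 4) (nat_lit 4) (nat_lit 5) (nat_lit 4) (nat_lit 4) (nat_lit 363) (nat_lit 224) (nat_lit 193)) (XT.lf (nat_lit 0) (nat_lit 149465548357) (nat_lit 76) (nat_lit 26408581666) (nat_lit 76) (nat_lit 23085270388) (nat_lit 3) (nat_lit 4) (nat_lit 4) (nat_lit 5) (nat_lit 4) (nat_lit 4) (nat_lit 364) (nat_lit 224) (nat_lit 192))) (XT.nd (nat_lit 78) (nat_lit 0) (nat_lit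 0) (XT.lf (nat_lit 0) (nat_lit 160036625154) (nat_lit 76) (nat_lit 26076174649) (nat_lit 76) (nat_lit 22710830069) (nat_lit 3) (nat_lit 4) (nat_lit 4) (nat_lit 5) (nat_lit 4) (nat_lit 4) (nat_lit 365) (nat_lit 224) (nat_lit 191)) (XT.nd (nat_lit 78) (nat_lit 0) (nat_lit 0) (XT.lf (nat_lit 0) (nat_lit 171093380966) (nat_lit 76) (nat_lit 25747112569) (nat_lit 76) (nat_lit 22341736274) (nat_lit 3) (nat_lit 4) (nat_lit 4) (nat_lit 5) (nat_lit 4) (nat_lit 4) (nat_lit 366) (nat_lit 224) (nat_lit 190)) (XT.lf (nat_lit 0) (nat_lit 182662141402) (nat_lit 76) (nat_lit 25420611947) (nat_lit 76) (nat_lit 21977110209) (nat_lit 3) (nat_lit 4) (nat_lit 4) (nat_lit 5) (nat_lit 4) (nat_lit 4) (nat_lit 367) (nat_lit 224) (nat_lit 189)))))) (XT.nd (nat_lit 390) (nat_lit 0) (nat_lit 0) (XT.nd (nat_lit 156) (nat_lit 0) (nat_lit 0) (XT.nd (nat_lit 78) (nat_lit 0) (nat_lit 0) (XT.lf (nat_lit 0) (nat_lit 194770451129)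 (nat_lit 76) (nat_lit 25095895399) (nat_lit 76) (nat_lit 21616083715) (nat_lit 3) (nat_lit 4) (nat_lit 4) (nat_lit 5) (nat_lit 4) (nat_lit 4) (nat_lit 368) (nat_lit 224) (nat_lit 188)) (XT.lf (nat_lit 0) (nat_lit 207447139457) (nat_lit 76) (nat_lit 24772189791) (nat_lit 76) (nat_lit 21257797207) (nat_lit 3) (nat_lit 4) (nat_lit 4) (nat_lit 5) (nat_lit 4) (nat_lit 4) (nat_lit 369) (nat_lit 224) (nat_lit 187))) (XT.nd (nat_lit 78) (nat_lit 0) (nat_lit 0) (XT.lf (nat_lit 0) (nat_lit 220722388976) (nat_lit 76) (nat_lit 24448724396) (nat_lit 76) (nat_lit 20901397620) (nat_lit 3) (nat_lit 4) (nat_lit 4) (nat_lit 5) (nat_lit 4) (nat_lit 4) (nat_lit 370) (nat_lit 224) (nat_lit 186)) (XT.nd (nat_lit 78) (nat_lit 0) (nat_lit 0) (XT.lf (nat_lit 0) (nat_lit 234627807424) (nat_lit 76) (nat_lit 24124729057) (nat_lit 76) (nat_lit 20546036385) (nat_lit 3) (nat_lit 4) (nat_lit 4) (nat_lit 5) (nat_lit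 4) (nat_lit 4) (nat_lit 371) (nat_lit 224) (nat_lit 185)) (XT.lf (nat_lit 0) (nat_lit 249196502940) (nat_lit 76) (nat_lit 23799432358) (nat_lit 76) (nat_lit 20190867404) (nat_lit 3) (nat_lit 4) (nat_lit 4) (nat_lit 5) (nat_lit 4) (nat_lit 4) (nat_lit 372) (nat_lit 224) (nat_lit 184))))) (XT.nd (nat_lit 156) (nat_lit 0) (nat_lit 0) (XT.nd (nat_lit 78) (nat_lit 0) (nat_lit 0) (XT.lf (nat_lit 0) (nat_lit 264463162894) (nat_lit 76) (nat_lit 23472059782) (nat_lit 76) (nat_lit 19835045035) (nat_lit 3) (nat_lit 4) (nat_lit 4) (nat_lit 5) (nat_lit 4) (nat_lit 4) (nat_lit 373) (nat_lit 224) (nat_lit 183)) (XT.lf (nat_lit 0) (nat_lit 280464136476) (nat_lit 76) (nat_lit 23141831870) (nat_lit 76) (nat_lit 19477722083) (nat_lit 3) (nat_lit 4) (nat_lit 4) (nat_lit 5) (nat_lit 4) (nat_lit 4) (nat_lit 374) (nat_lit 224) (nat_lit 182))) (XT.nd (nat_lit 78) (nat_lit 0) (nat_lit 0) (XT.lf (nat_lit 0)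 (nat_lit 297237521243) (nat_lit 76) (nat_lit 22807962367) (nat_lit 76) (nat_lit 19118047779) (nat_lit 3) (nat_lit 4) (nat_lit 4) (nat_lit 5) (nat_lit 4) (nat_lit 4) (nat_lit 375) (nat_lit 224) (nat_lit 181)) (XT.nd (nat_lit 78) (nat_lit 0) (nat_lit 0) (XT.lf (nat_lit 0) (nat_lit 314823253825) (nat_lit 76) (nat_lit 22469656344) (nat_lit 76) (nat_lit 18755165755) (nat_lit 3) (nat_lit 4) (nat_lit 4) (nat_lit 5) (nat_lit 4) (nat_lit 4) (nat_lit 376) (nat_lit 224) (nat_lit 180)) (XT.lf (nat_lit 0) (nat_lit 333263205013) (nat_lit 76) (nat_lit 22126108311) (nat_lit 76) (nat_lit 18388212007) (nat_lit 3) (nat_lit 4) (nat_lit 4) (nat_lit 5) (nat_lit 4) (nat_lit 4) (nat_lit 377) (nat_lit 224) (nat_lit 179))))))) (XT.nd (nat_lit 780) (nat_lit 0) (nat_lit 0) (XT.nd (nat_lit 390) (nat_lit 0) (nat_lit 0) (XT.nd (nat_lit 156) (nat_lit 0) (nat_lit 0) (XT.nd (nat_lit 78) (nat_lit 0) (nat_lit 0) (XT.lf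 (nat_lit 0) (nat_lit 352601279454) (nat_lit 76) (nat_lit 21776500296) (nat_lit 76) (nat_lit 18016312835) (nat_lit 3) (nat_lit 4) (nat_lit 4) (nat_lit 5) (nat_lit 4) (nat_lit 4) (nat_lit 378) (nat_lit 224) (nat_lit 178)) (XT.lf (nat_lit 0) (nat_lit 372883520182) (nat_lit 76) (nat_lit 21419999900) (nat_lit 76) (nat_lit 17638582766) (nat_lit 3) (nat_lit 4) (nat_lit 4) (nat_lit 5) (nat_lit 4) (nat_lit 4) (nat_lit 379) (nat_lit 224) (nat_lit 177))) (XT.nd (nat_lit 78) (nat_lit 0) (nat_lit 0) (XT.lf (nat_lit 0) (nat_lit 394158218247) (nat_lit 76) (nat_lit 21055758311) (nat_lit 76) (nat_lit 17254122441) (nat_lit 3) (nat_lit 4) (nat_lit 4) (nat_lit 5) (nat_lit 4) (nat_lit 4) (nat_lit 380) (nat_lit 224) (nat_lit 176)) (XT.nd (nat_lit 78) (nat_lit 0) (nat_lit 0) (XT.lf (nat_lit 0) (nat_lit 416476027690) (nat_lit 76) (nat_lit 20682908289) (nat_lit 76) (nat_lit 16862016479) (nat_lit 3) (nat_lit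 4) (nat_lit 4) (nat_lit 5) (nat_lit 4) (nat_lit 4) (nat_lit 381) (nat_lit 224) (nat_lit 175)) (XT.lf (nat_lit 0) (nat_lit 439890086155) (nat_lit 76) (nat_lit 20300562094) (nat_lit 76) (nat_lit 16461331294) (nat_lit 3) (nat_lit 4) (nat_lit 4) (nat_lit 5) (nat_lit 4) (nat_lit 4) (nat_lit 382) (nat_lit 224) (nat_lit 174))))) (XT.nd (nat_lit 156) (nat_lit 0) (nat_lit 0) (XT.nd (nat_lit 78) (nat_lit 0) (nat_lit 0) (XT.lf (nat_lit 0) (nat_lit 464456141398) (nat_lit 76) (nat_lit 19907809379) (nat_lit 76) (nat_lit 16051112875) (nat_lit 3) (nat_lit 4) (nat_lit 4) (nat_lit 5) (nat_lit 4) (nat_lit 4) (nat_lit 383) (nat_lit 224) (nat_lit 173)) (XT.lf (nat_lit 0) (nat_lit 490232684028) (nat_lit 76) (nat_lit 19503715019) (nat_lit 76) (nat_lit 15630384510) (nat_lit 3) (nat_lit 4) (nat_lit 4) (nat_lit 5) (nat_lit 4) (nat_lit 4) (nat_lit 384) (nat_lit 224) (nat_lit 172))) (XT.nd (nat_lit 78) (nat_lit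 0) (nat_lit 0) (XT.lf (nat_lit 0) (nat_lit 517281086766) (nat_lit 76) (nat_lit 19087316883) (nat_lit 76) (nat_lit 15198144465) (nat_lit 3) (nat_lit 4) (nat_lit 4) (nat_lit 5) (nat_lit 4) (nat_lit 4) (nat_lit 385) (nat_lit 224) (nat_lit 171)) (XT.nd (nat_lit 78) (nat_lit 0) (nat_lit 0) (XT.lf (nat_lit 0) (nat_lit 545665750569) (nat_lit 76) (nat_lit 18657623548) (nat_lit 76) (nat_lit 14753363597) (nat_lit 3) (nat_lit 4) (nat_lit 4) (nat_lit 5) (nat_lit 4) (nat_lit 4) (nat_lit 386) (nat_lit 224) (nat_lit 170)) (XT.lf (nat_lit 0) (nat_lit 575454257972) (nat_lit 76) (nat_lit 18213611934) (nat_lit 76) (nat_lit 14294982905) (nat_lit 3) (nat_lit 4) (nat_lit 4) (nat_lit 5) (nat_lit 4) (nat_lit 4) (nat_lit 387) (nat_lit 224) (nat_lit 169)))))) (XT.nd (nat_lit 36348) (nat_lit 0) (nat_lit 76) (XT.nd (nat_lit 36114) (nat_lit 0) (nat_lit 152) (XT.nd (nat_lit 78) (nat_lit 0) (nat_lit 0) (XT.lf (nat_lit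 0) (nat_lit 606717533991) (nat_lit 76) (nat_lit 17754224872) (nat_lit 76) (nat_lit 13821911006) (nat_lit 3) (nat_lit 4) (nat_lit 4) (nat_lit 5) (nat_lit 4) (nat_lit 4) (nat_lit 388) (nat_lit 224) (nat_lit 168)) (XT.lf (nat_lit 0) (nat_lit 639530014999) (nat_lit 76) (nat_lit 17278368581) (nat_lit 76) (nat_lit 13333021537) (nat_lit 3) (nat_lit 4) (nat_lit 4) (nat_lit 5) (nat_lit 4) (nat_lit 4) (nat_lit 389) (nat_lit 224) (nat_lit 167))) (XT.nd (nat_lit 78) (nat_lit 76) (nat_lit 0) (XT.lf (nat_lit 0) (nat_lit 14139325953) (nat_lit 76) (nat_lit 2938683177) (nat_lit 76) (nat_lit 2938683177) (nat_lit 6) (nat_lit 4) (nat_lit 7) (nat_lit 5) (nat_lit 7) (nat_lit 4) (nat_lit 330) (nat_lit 225) (nat_lit 225)) (XT.nd (nat_lit 78) (nat_lit 76) (nat_lit 0) (XT.lf (nat_lit 0) (nat_lit 35835560557) (nat_lit 76) (nat_lit 3125791352) (nat_lit 76) (nat_lit 2904975796) (nat_lit 6) (nat_lit 4) (nat_lit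 7) (nat_lit 5) (nat_lit 7) (nat_lit 4) (nat_lit 331) (nat_lit 225) (nat_lit 224)) (XT.lf (nat_lit 0) (nat_lit 102489812) (nat_lit 152) (nat_lit 221011971) (nat_lit 76) (nat_lit 43472646703) (nat_lit 5) (nat_lit 5) (nat_lit 7) (nat_lit 5) (nat_lit 6) (nat_lit 4) (nat_lit 332) (nat_lit 225) (nat_lit 223))))) (XT.nd (nat_lit 156) (nat_lit 0) (nat_lit 0) (XT.nd (nat_lit 78) (nat_lit 0) (nat_lit 0) (XT.lf (nat_lit 0) (nat_lit 3193998739) (nat_lit 152) (nat_lit 40031916871) (nat_lit 0) (nat_lit 2592663210) (nat_lit 4) (nat_lit 5) (nat_lit 6) (nat_lit 4) (nat_lit 4) (nat_lit 4) (nat_lit 333) (nat_lit 225) (nat_lit 222)) (XT.lf (nat_lit 0) (nat_lit 6348264093) (nat_lit 152) (nat_lit 36033255858) (nat_lit 0) (nat_lit 5565263059) (nat_lit 4) (nat_lit 5) (nat_lit 6) (nat_lit 4) (nat_lit 4) (nat_lit 4) (nat_lit 334) (nat_lit 225) (nat_lit 221))) (XT.nd (nat_lit 78) (nat_lit 0) (nat_lit 0) (XT.lf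 (nat_lit 0) (nat_lit 9564122112) (nat_lit 152) (nat_lit 32014033480) (nat_lit 0) (nat_lit 8608106312) (nat_lit 4) (nat_lit 5) (nat_lit 6) (nat_lit 4) (nat_lit 4) (nat_lit 4) (nat_lit 335) (nat_lit 225) (nat_lit 220)) (XT.nd (nat_lit 78) (nat_lit 0) (nat_lit 0) (XT.lf (nat_lit 0) (nat_lit 12849229601) (nat_lit 152) (nat_lit 27964680159) (nat_lit 0) (nat_lit 11728437833) (nat_lit 4) (nat_lit 5) (nat_lit 6) (nat_lit 4) (nat_lit 4) (nat_lit 4) (nat_lit 336) (nat_lit 225) (nat_lit 219)) (XT.lf (nat_lit 0) (nat_lit 16211408245) (nat_lit 152) (nat_lit 23875554578) (nat_lit 0) (nat_lit 14933686983) (nat_lit 4) (nat_lit 5) (nat_lit 6) (nat_lit 4) (nat_lit 4) (nat_lit 4) (nat_lit 337) (nat_lit 225) (nat_lit 218))))))))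
noncomputable def xc23 : XT := (XT.nd (nat_lit 1560) (nat_lit 0) (nat_lit 0) (XT.nd (nat_lit 780) (nat_lit 0) (nat_lit 0) (XT.nd (nat_lit 390) (nat_lit 76) (nat_lit 0) (XT.nd (nat_lit 156) (nat_lit 0) (nat_lit 0) (XT.nd (nat_lit 78) (nat_lit 0) (nat_lit 0) (XT.lf (nat_lit 0) (nat_lit 19658663230) (nat_lit 152) (nat_lit 19736920724) (nat_lit 0) (nat_lit 18231485308) (nat_lit 4) (nat_lit 5) (nat_lit 6) (nat_lit 4) (nat_lit 4) (nat_lit 4) (nat_lit 338) (nat_lit 225) (nat_lit 217)) (XT.lf (nat_lit 0) (nat_lit 23199202307) (nat_lit 152) (nat_lit 15538924708) (nat_lit 0) (nat_lit 21629684708) (nat_lit 4) (nat_lit 5) (nat_lit 6) (nat_lit 4) (nat_lit 4) (nat_lit 4) (nat_lit 339) (nat_lit 225) (nat_lit 216))) (XT.nd (nat_lit 78) (nat_lit 0) (nat_lit 0) (XT.lf (nat_lit 0) (nat_lit 26841455330) (nat_lit 152) (nat_lit 11271571299) (nat_lit 0) (nat_lit 25136376135) (nat_lit 4) (nat_lit 5) (nat_lit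 6) (nat_lit 4) (nat_lit 4) (nat_lit 4) (nat_lit 340) (nat_lit 225) (nat_lit 215)) (XT.nd (nat_lit 78) (nat_lit 0) (nat_lit 0) (XT.lf (nat_lit 0) (nat_lit 30594094331) (nat_lit 152) (nat_lit 6924700133) (nat_lit 0) (nat_lit 28759908853) (nat_lit 4) (nat_lit 5) (nat_lit 6) (nat_lit 4) (nat_lit 4) (nat_lit 4) (nat_lit 341) (nat_lit 225) (nat_lit 214)) (XT.lf (nat_lit 0) (nat_lit 34466054165) (nat_lit 152) (nat_lit 2487961517) (nat_lit 0) (nat_lit 32508910322) (nat_lit 4) (nat_lit 5) (nat_lit 6) (nat_lit 4) (nat_lit 4) (nat_lit 4) (nat_lit 342) (nat_lit 225) (nat_lit 213))))) (XT.nd (nat_lit 156) (nat_lit 0) (nat_lit 0) (XT.nd (nat_lit 78) (nat_lit 0) (nat_lit 0) (XT.lf (nat_lit 0) (nat_lit 2116964289) (nat_lit 76) (nat_lit 36382641238) (nat_lit 76) (nat_lit 34308394192) (nat_lit 3) (nat_lit 4) (nat_lit 4) (nat_lit 5) (nat_lit 4) (nat_lit 4) (nat_lit 343) (nat_lit 225) (nat_lit 212)) (XT.lf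 (nat_lit 0) (nat_lit 6919065134) (nat_lit 76) (nat_lit 35794079046) (nat_lit 76) (nat_lit 33608305139) (nat_lit 3) (nat_lit 4) (nat_lit 4) (nat_lit 5) (nat_lit 4) (nat_lit 4) (nat_lit 344) (nat_lit 225) (nat_lit 211))) (XT.nd (nat_lit 78) (nat_lit 0) (nat_lit 0) (XT.lf (nat_lit 0) (nat_lit 11847511347) (nat_lit 76) (nat_lit 35229062601) (nat_lit 76) (nat_lit 32937072635) (nat_lit 3) (nat_lit 4) (nat_lit 4) (nat_lit 5) (nat_lit 4) (nat_lit 4) (nat_lit 345) (nat_lit 225) (nat_lit 210)) (XT.nd (nat_lit 78) (nat_lit 0) (nat_lit 0) (XT.lf (nat_lit 0) (nat_lit 16914037322) (nat_lit 76) (nat_lit 34686246624) (nat_lit 76) (nat_lit 32293098508) (nat_lit 3) (nat_lit 4) (nat_lit 4) (nat_lit 5) (nat_lit 4) (nat_lit 4) (nat_lit 346) (nat_lit 225) (nat_lit 209)) (XT.lf (nat_lit 0) (nat_lit 22130706217) (nat_lit 76) (nat_lit 34164338698) (nat_lit 76) (nat_lit 31674849486) (nat_lit 3) (nat_lit 4) (nat_lit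 4) (nat_lit 5) (nat_lit 4) (nat_lit 4) (nat_lit 347) (nat_lit 225) (nat_lit 208)))))) (XT.nd (nat_lit 390) (nat_lit 0) (nat_lit 0) (XT.nd (nat_lit 156) (nat_lit 0) (nat_lit 0) (XT.nd (nat_lit 78) (nat_lit 0) (nat_lit 0) (XT.lf (nat_lit 0) (nat_lit 27509938673) (nat_lit 76) (nat_lit 33662096184) (nat_lit 76) (nat_lit 31080853547) (nat_lit 3) (nat_lit 4) (nat_lit 4) (nat_lit 5) (nat_lit 4) (nat_lit 4) (nat_lit 348) (nat_lit 225) (nat_lit 207)) (XT.lf (nat_lit 0) (nat_lit 33064542385) (nat_lit 76) (nat_lit 33178323266) (nat_lit 76) (nat_lit 30509696415) (nat_lit 3) (nat_lit 4) (nat_lit 4) (nat_lit 5) (nat_lit 4) (nat_lit 4) (nat_lit 349) (nat_lit 225) (nat_lit 206))) (XT.nd (nat_lit 78) (nat_lit 0) (nat_lit 0) (XT.lf (nat_lit 0) (nat_lit 38807742601) (nat_lit 76) (nat_lit 32711868105) (nat_lit 76) (nat_lit 29960018193) (nat_lit 3) (nat_lit 4) (nat_lit 4) (nat_lit 5) (nat_lit 4) (nat_lit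 4) (nat_lit 350) (nat_lit 225) (nat_lit 205)) (XT.nd (nat_lit 78) (nat_lit 0) (nat_lit 0) (XT.lf (nat_lit 0) (nat_lit 44753213606) (nat_lit 76) (nat_lit 32261620092) (nat_lit 76) (nat_lit 29430510122) (nat_lit 3) (nat_lit 4) (nat_lit 4) (nat_lit 5) (nat_lit 4) (nat_lit 4) (nat_lit 351) (nat_lit 225) (nat_lit 204)) (XT.lf (nat_lit 0) (nat_lit 50915111285) (nat_lit 76) (nat_lit 31826507209) (nat_lit 76) (nat_lit 28919911470) (nat_lit 3) (nat_lit 4) (nat_lit 4) (nat_lit 5) (nat_lit 4) (nat_lit 4) (nat_lit 352) (nat_lit 225) (nat_lit 203))))) (XT.nd (nat_lit 156) (nat_lit 0) (nat_lit 0) (XT.nd (nat_lit 78) (nat_lit 0) (nat_lit 0) (XT.lf (nat_lit 0) (nat_lit 57308106821) (nat_lit 76) (nat_lit 31405493473) (nat_lit 76) (nat_lit 28427006524) (nat_lit 3) (nat_lit 4) (nat_lit 4) (nat_lit 5) (nat_lit 4) (nat_lit 4) (nat_lit 353) (nat_lit 225) (nat_lit 202)) (XT.lf (nat_lit 0) (nat_lit 63947421634)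 (nat_lit 76) (nat_lit 30997576470) (nat_lit 76) (nat_lit 27950621703) (nat_lit 3) (nat_lit 4) (nat_lit 4) (nat_lit 5) (nat_lit 4) (nat_lit 4) (nat_lit 354) (nat_lit 225) (nat_lit 201))) (XT.nd (nat_lit 78) (nat_lit 0) (nat_lit 0) (XT.lf (nat_lit 0) (nat_lit 70848863615) (nat_lit 76) (nat_lit 30601784968) (nat_lit 76) (nat_lit 27489622756) (nat_lit 3) (nat_lit 4) (nat_lit 4) (nat_lit 5) (nat_lit 4) (nat_lit 4) (nat_lit 355) (nat_lit 225) (nat_lit 200)) (XT.nd (nat_lit 78) (nat_lit 0) (nat_lit 0) (XT.lf (nat_lit 0) (nat_lit 78028864769) (nat_lit 76) (nat_lit 30217176609) (nat_lit 76) (nat_lit 27042912067) (nat_lit 3) (nat_lit 4) (nat_lit 4) (nat_lit 5) (nat_lit 4) (nat_lit 4) (nat_lit 356) (nat_lit 225) (nat_lit 199)) (XT.lf (nat_lit 0) (nat_lit 85504520337) (nat_lit 76) (nat_lit 29842835656) (nat_lit 76) (nat_lit 26609426038) (nat_lit 3) (nat_lit 4) (nat_lit 4) (nat_lit 5) (nat_lit 4)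 (nat_lit 4) (nat_lit 357) (nat_lit 225) (nat_lit 198))))))) (XT.nd (nat_lit 780) (nat_lit 0) (nat_lit 0) (XT.nd (nat_lit 390) (nat_lit 0) (nat_lit 0) (XT.nd (nat_lit 156) (nat_lit 0) (nat_lit 0) (XT.nd (nat_lit 78) (nat_lit 0) (nat_lit 0) (XT.lf (nat_lit 0) (nat_lit 93293629499) (nat_lit 76) (nat_lit 29477870822) (nat_lit 76) (nat_lit 26188132561) (nat_lit 3) (nat_lit 4) (nat_lit 4) (nat_lit 5) (nat_lit 4) (nat_lit 4) (nat_lit 358) (nat_lit 225) (nat_lit 197)) (XT.lf (nat_lit 0) (nat_lit 101414737753) (nat_lit 76) (nat_lit 29121413144) (nat_lit 76) (nat_lit 25778028556) (nat_lit 3) (nat_lit 4) (nat_lit 4) (nat_lit 5) (nat_lit 4) (nat_lit 4) (nat_lit 359) (nat_lit 225) (nat_lit 196))) (XT.nd (nat_lit 78) (nat_lit 0) (nat_lit 0) (XT.lf (nat_lit 0) (nat_lit 109887181071) (nat_lit 76) (nat_lit 28772613912) (nat_lit 76) (nat_lit 25378137584) (nat_lit 3) (nat_lit 4) (nat_lit 4) (nat_lit 5)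 (nat_lit 4) (nat_lit 4) (nat_lit 360) (nat_lit 225) (nat_lit 195)) (XT.nd (nat_lit 78) (nat_lit 0) (nat_lit 0) (XT.lf (nat_lit 0) (nat_lit 118731131937) (nat_lit 76) (nat_lit 28430642652) (nat_lit 76) (nat_lit 24987507524) (nat_lit 3) (nat_lit 4) (nat_lit 4) (nat_lit 5) (nat_lit 4) (nat_lit 4) (nat_lit 361) (nat_lit 225) (nat_lit 194)) (XT.lf (nat_lit 0) (nat_lit 127967647377) (nat_lit 76) (nat_lit 28094685148) (nat_lit 76) (nat_lit 24605208305) (nat_lit 3) (nat_lit 4) (nat_lit 4) (nat_lit 5) (nat_lit 4) (nat_lit 4) (nat_lit 362) (nat_lit 225) (nat_lit 193))))) (XT.nd (nat_lit 156) (nat_lit 0) (nat_lit 0) (XT.nd (nat_lit 78) (nat_lit 0) (nat_lit 0) (XT.lf (nat_lit 0) (nat_lit 137618719094) (nat_lit 76) (nat_lit 27763941499) (nat_lit 76) (nat_lit 24230329690) (nat_lit 3) (nat_lit 4) (nat_lit 4) (nat_lit 5) (nat_lit 4) (nat_lit 4) (nat_lit 363) (nat_lit 225) (nat_lit 192)) (XT.lf (nat_lit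 0) (nat_lit 147707325830) (nat_lit 76) (nat_lit 27437624221) (nat_lit 76) (nat_lit 23861979112) (nat_lit 3) (nat_lit 4) (nat_lit 4) (nat_lit 5) (nat_lit 4) (nat_lit 4) (nat_lit 364) (nat_lit 225) (nat_lit 191))) (XT.nd (nat_lit 78) (nat_lit 0) (nat_lit 0) (XT.lf (nat_lit 0) (nat_lit 158257488079) (nat_lit 76) (nat_lit 27114956369) (nat_lit 76) (nat_lit 23499279544) (nat_lit 3) (nat_lit 4) (nat_lit 4) (nat_lit 5) (nat_lit 4) (nat_lit 4) (nat_lit 365) (nat_lit 225) (nat_lit 190)) (XT.nd (nat_lit 78) (nat_lit 0) (nat_lit 0) (XT.lf (nat_lit 0) (nat_lit 169294325273) (nat_lit 76) (nat_lit 26795169685) (nat_lit 76) (nat_lit 23141367417) (nat_lit 3) (nat_lit 4) (nat_lit 4) (nat_lit 5) (nat_lit 4) (nat_lit 4) (nat_lit 366) (nat_lit 225) (nat_lit 189)) (XT.lf (nat_lit 0) (nat_lit 180844115596) (nat_lit 76) (nat_lit 26477502773) (nat_lit 76) (nat_lit 22787390559) (nat_lit 3) (nat_lit 4) (nat_lit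 4) (nat_lit 5) (nat_lit 4) (nat_lit 4) (nat_lit 367) (nat_lit 225) (nat_lit 188)))))) (XT.nd (nat_lit 390) (nat_lit 0) (nat_lit 0) (XT.nd (nat_lit 156) (nat_lit 0) (nat_lit 0) (XT.nd (nat_lit 78) (nat_lit 0) (nat_lit 0) (XT.lf (nat_lit 0) (nat_lit 192934358550) (nat_lit 76) (nat_lit 26161199282) (nat_lit 76) (nat_lit 22436506168) (nat_lit 3) (nat_lit 4) (nat_lit 4) (nat_lit 5) (nat_lit 4) (nat_lit 4) (nat_lit 368) (nat_lit 225) (nat_lit 187)) (XT.lf (nat_lit 0) (nat_lit 205593840426) (nat_lit 76) (nat_lit 25845506110) (nat_lit 76) (nat_lit 22087878804) (nat_lit 3) (nat_lit 4) (nat_lit 4) (nat_lit 5) (nat_lit 4) (nat_lit 4) (nat_lit 369) (nat_lit 225) (nat_lit 186))) (XT.nd (nat_lit 78) (nat_lit 0) (nat_lit 0) (XT.lf (nat_lit 0) (nat_lit 218852702849) (nat_lit 76) (nat_lit 25529671606) (nat_lit 76) (nat_lit 21740678404) (nat_lit 3) (nat_lit 4) (nat_lit 4) (nat_lit 5) (nat_lit 4) (nat_lit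 4) (nat_lit 370) (nat_lit 225) (nat_lit 185)) (XT.nd (nat_lit 78) (nat_lit 0) (nat_lit 0) (XT.lf (nat_lit 0) (nat_lit 232742514539) (nat_lit 76) (nat_lit 25212943782) (nat_lit 76) (nat_lit 21394078298) (nat_lit 3) (nat_lit 4) (nat_lit 4) (nat_lit 5) (nat_lit 4) (nat_lit 4) (nat_lit 371) (nat_lit 225) (nat_lit 184)) (XT.lf (nat_lit 0) (nat_lit 247296346475) (nat_lit 76) (nat_lit 24894568526) (nat_lit 76) (nat_lit 21047253249) (nat_lit 3) (nat_lit 4) (nat_lit 4) (nat_lit 5) (nat_lit 4) (nat_lit 4) (nat_lit 372) (nat_lit 225) (nat_lit 183))))) (XT.nd (nat_lit 156) (nat_lit 0) (nat_lit 0) (XT.nd (nat_lit 78) (nat_lit 0) (nat_lit 0) (XT.lf (nat_lit 0) (nat_lit 262548850639) (nat_lit 76) (nat_lit 24573787801) (nat_lit 76) (nat_lit 20699377483) (nat_lit 3) (nat_lit 4) (nat_lit 4) (nat_lit 5) (nat_lit 4) (nat_lit 4) (nat_lit 373) (nat_lit 225) (nat_lit 182)) (XT.lf (nat_lit 0) (nat_lit 278536342517)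 (nat_lit 76) (nat_lit 24249837842) (nat_lit 76) (nat_lit 20349622724) (nat_lit 3) (nat_lit 4) (nat_lit 4) (nat_lit 5) (nat_lit 4) (nat_lit 4) (nat_lit 374) (nat_lit 225) (nat_lit 181))) (XT.nd (nat_lit 78) (nat_lit 0) (nat_lit 0) (XT.lf (nat_lit 0) (nat_lit 295296887565) (nat_lit 76) (nat_lit 23921947341) (nat_lit 76) (nat_lit 19997156223) (nat_lit 3) (nat_lit 4) (nat_lit 4) (nat_lit 5) (nat_lit 4) (nat_lit 4) (nat_lit 375) (nat_lit 225) (nat_lit 180)) (XT.nd (nat_lit 78) (nat_lit 0) (nat_lit 0) (XT.lf (nat_lit 0) (nat_lit 312870391843) (nat_lit 76) (nat_lit 23589335607) (nat_lit 76) (nat_lit 19641138773) (nat_lit 3) (nat_lit 4) (nat_lit 4) (nat_lit 5) (nat_lit 4) (nat_lit 4) (nat_lit 376) (nat_lit 225) (nat_lit 179)) (XT.lf (nat_lit 0) (nat_lit 331298697028) (nat_lit 76) (nat_lit 23251210705) (nat_lit 76) (nat_lit 19280722715) (nat_lit 3) (nat_lit 4) (nat_lit 4) (nat_lit 5) (nat_lit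 4) (nat_lit 4) (nat_lit 377) (nat_lit 225) (nat_lit 178))))))))
noncomputable def xc24 : XT := (XT.nd (nat_lit 37284) (nat_lit 0) (nat_lit 0) (XT.nd (nat_lit 702) (nat_lit 0) (nat_lit 0) (XT.nd (nat_lit 312) (nat_lit 0) (nat_lit 0) (XT.nd (nat_lit 156) (nat_lit 0) (nat_lit 0) (XT.nd (nat_lit 78) (nat_lit 0) (nat_lit 0) (XT.lf (nat_lit 0) (nat_lit 350625680038) (nat_lit 76) (nat_lit 22906767578) (nat_lit 76) (nat_lit 18915049914) (nat_lit 3) (nat_lit 4) (nat_lit 4) (nat_lit 5) (nat_lit 4) (nat_lit 4) (nat_lit 378) (nat_lit 225) (nat_lit 177)) (XT.lf (nat_lit 0) (nat_lit 370897357497) (nat_lit 76) (nat_lit 22555186122) (nat_lit 76) (nat_lit 18543249721) (nat_lit 3) (nat_lit 4) (nat_lit 4) (nat_lit 5) (nat_lit 4) (nat_lit 4) (nat_lit 379) (nat_lit 225) (nat_lit 176))) (XT.nd (nat_lit 78) (nat_lit 0) (nat_lit 0) (XT.lf (nat_lit 0) (nat_lit 392161995306) (nat_lit 76) (nat_lit 22195629238)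 (nat_lit 76) (nat_lit 18164436899) (nat_lit 3) (nat_lit 4) (nat_lit 4) (nat_lit 5) (nat_lit 4) (nat_lit 4) (nat_lit 380) (nat_lit 225) (nat_lit 175)) (XT.lf (nat_lit 0) (nat_lit 414470223554) (nat_lit 76) (nat_lit 21827240840) (nat_lit 76) (nat_lit 17777709510) (nat_lit 3) (nat_lit 4) (nat_lit 4) (nat_lit 5) (nat_lit 4) (nat_lit 4) (nat_lit 381) (nat_lit 225) (nat_lit 174)))) (XT.nd (nat_lit 156) (nat_lit 0) (nat_lit 0) (XT.nd (nat_lit 78) (nat_lit 0) (nat_lit 0) (XT.lf (nat_lit 0) (nat_lit 437875157070) (nat_lit 76) (nat_lit 21449143811) (nat_lit 76) (nat_lit 17382146776) (nat_lit 3) (nat_lit 4) (nat_lit 4) (nat_lit 5) (nat_lit 4) (nat_lit 4) (nat_lit 382) (nat_lit 225) (nat_lit 173)) (XT.lf (nat_lit 0) (nat_lit 462432521886) (nat_lit 76) (nat_lit 21060437920) (nat_lit 76) (nat_lit 16976806881) (nat_lit 3) (nat_lit 4) (nat_lit 4) (nat_lit 5) (nat_lit 4) (nat_lit 4) (nat_lit 383) (nat_lit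 225) (nat_lit 172))) (XT.nd (nat_lit 78) (nat_lit 0) (nat_lit 0) (XT.lf (nat_lit 0) (nat_lit 488200787919) (nat_lit 76) (nat_lit 20660197678) (nat_lit 76) (nat_lit 16560724730) (nat_lit 3) (nat_lit 4) (nat_lit 4) (nat_lit 5) (nat_lit 4) (nat_lit 4) (nat_lit 384) (nat_lit 225) (nat_lit 171)) (XT.nd (nat_lit 78) (nat_lit 0) (nat_lit 0) (XT.lf (nat_lit 0) (nat_lit 515241308183) (nat_lit 76) (nat_lit 20247470132) (nat_lit 76) (nat_lit 16132909651) (nat_lit 3) (nat_lit 4) (nat_lit 4) (nat_lit 5) (nat_lit 4) (nat_lit 4) (nat_lit 385) (nat_lit 225) (nat_lit 170)) (XT.lf (nat_lit 0) (nat_lit 543618464869) (nat_lit 76) (nat_lit 19821272596) (nat_lit 76) (nat_lit 15692343037) (nat_lit 3) (nat_lit 4) (nat_lit 4) (nat_lit 5) (nat_lit 4) (nat_lit 4) (nat_lit 386) (nat_lit 225) (nat_lit 169)))))) (XT.nd (nat_lit 36192) (nat_lit 0) (nat_lit 76) (XT.nd (nat_lit 156) (nat_lit 0) (nat_lit 0) (XT.nd (nat_lit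 78) (nat_lit 0) (nat_lit 0) (XT.lf (nat_lit 0) (nat_lit 573399822636) (nat_lit 76) (nat_lit 19380590315) (nat_lit 76) (nat_lit 15237975919) (nat_lit 3) (nat_lit 4) (nat_lit 4) (nat_lit 5) (nat_lit 4) (nat_lit 4) (nat_lit 387) (nat_lit 225) (nat_lit 168)) (XT.lf (nat_lit 0) (nat_lit 604656289479) (nat_lit 76) (nat_lit 18924374045) (nat_lit 76) (nat_lit 14768726471) (nat_lit 3) (nat_lit 4) (nat_lit 4) (nat_lit 5) (nat_lit 4) (nat_lit 4) (nat_lit 388) (nat_lit 225) (nat_lit 167))) (XT.nd (nat_lit 35880) (nat_lit 0) (nat_lit 228) (XT.lf (nat_lit 0) (nat_lit 637462285556) (nat_lit 76) (nat_lit 18451537557) (nat_lit 76) (nat_lit 14283477433) (nat_lit 3) (nat_lit 4) (nat_lit 4) (nat_lit 5) (nat_lit 4) (nat_lit 4) (nat_lit 389) (nat_lit 225) (nat_lit 166)) (XT.nd (nat_lit 78) (nat_lit 0) (nat_lit 0) (XT.lf (nat_lit 0) (nat_lit 6875251800) (nat_lit 76) (nat_lit 5721945567) (nat_lit 76) (nat_lit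 5721945567) (nat_lit 6) (nat_lit 4) (nat_lit 7) (nat_lit 5) (nat_lit 7) (nat_lit 4) (nat_lit 328) (nat_lit 226) (nat_lit 226)) (XT.lf (nat_lit 0) (nat_lit 20888153639) (nat_lit 76) (nat_lit 8818370206) (nat_lit 76) (nat_lit 8586513872) (nat_lit 6) (nat_lit 4) (nat_lit 7) (nat_lit 5) (nat_lit 7) (nat_lit 4) (nat_lit 329) (nat_lit 226) (nat_lit 225))))) (XT.nd (nat_lit 156) (nat_lit 152) (nat_lit 0) (XT.nd (nat_lit 78) (nat_lit 0) (nat_lit 0) (XT.lf (nat_lit 0) (nat_lit 28179571648) (nat_lit 76) (nat_lit 6154603123) (nat_lit 76) (nat_lit 5701931232) (nat_lit 6) (nat_lit 4) (nat_lit 7) (nat_lit 5) (nat_lit 7) (nat_lit 4) (nat_lit 330) (nat_lit 226) (nat_lit 224)) (XT.lf (nat_lit 0) (nat_lit 35642118147) (nat_lit 76) (nat_lit 3446247584) (nat_lit 76) (nat_lit 2783275163) (nat_lit 6) (nat_lit 4) (nat_lit 7) (nat_lit 5) (nat_lit 7) (nat_lit 4) (nat_lit 331) (nat_lit 226) (nat_lit 223))) (XT.nd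 (nat_lit 78) (nat_lit 76) (nat_lit 0) (XT.lf (nat_lit 0) (nat_lit 170757503) (nat_lit 152) (nat_lit 513205758) (nat_lit 76) (nat_lit 43119911740) (nat_lit 5) (nat_lit 5) (nat_lit 7) (nat_lit 5) (nat_lit 6) (nat_lit 4) (nat_lit 332) (nat_lit 226) (nat_lit 222)) (XT.nd (nat_lit 78) (nat_lit 0) (nat_lit 0) (XT.lf (nat_lit 0) (nat_lit 3202616051) (nat_lit 152) (nat_lit 40427902288) (nat_lit 0) (nat_lit 2198799460) (nat_lit 4) (nat_lit 5) (nat_lit 6) (nat_lit 4) (nat_lit 4) (nat_lit 4) (nat_lit 333) (nat_lit 226) (nat_lit 221)) (XT.lf (nat_lit 0) (nat_lit 6309993306) (nat_lit 152) (nat_lit 36516739658) (nat_lit 0) (nat_lit 5133161949) (nat_lit 4) (nat_lit 5) (nat_lit 6) (nat_lit 4) (nat_lit 4) (nat_lit 4) (nat_lit 334) (nat_lit 226) (nat_lit 220))))))) (XT.nd (nat_lit 780) (nat_lit 0) (nat_lit 0) (XT.nd (nat_lit 390) (nat_lit 76) (nat_lit 0) (XT.nd (nat_lit 156) (nat_lit 0) (nat_lit 0) (XT.nd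 (nat_lit 78) (nat_lit 0) (nat_lit 0) (XT.lf (nat_lit 0) (nat_lit 9481195993) (nat_lit 152) (nat_lit 32580849073) (nat_lit 0) (nat_lit 8139588668) (nat_lit 4) (nat_lit 5) (nat_lit 6) (nat_lit 4) (nat_lit 4) (nat_lit 4) (nat_lit 335) (nat_lit 226) (nat_lit 219)) (XT.lf (nat_lit 0) (nat_lit 12723774594) (nat_lit 152) (nat_lit 28610859365) (nat_lit 0) (nat_lit 11225237776) (nat_lit 4) (nat_lit 5) (nat_lit 6) (nat_lit 4) (nat_lit 4) (nat_lit 4) (nat_lit 336) (nat_lit 226) (nat_lit 218))) (XT.nd (nat_lit 78) (nat_lit 0) (nat_lit 0) (XT.lf (nat_lit 0) (nat_lit 16045449535) (nat_lit 152) (nat_lit 24597318178) (nat_lit 0) (nat_lit 14397456056) (nat_lit 4) (nat_lit 5) (nat_lit 6) (nat_lit 4) (nat_lit 4) (nat_lit 4) (nat_lit 337) (nat_lit 226) (nat_lit 217)) (XT.nd (nat_lit 78) (nat_lit 0) (nat_lit 0) (XT.lf (nat_lit 0) (nat_lit 19454129565) (nat_lit 152) (nat_lit 20530669460) (nat_lit 0) (nat_lit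 17663796410) (nat_lit 4) (nat_lit 5) (nat_lit 6) (nat_lit 4) (nat_lit 4) (nat_lit 4) (nat_lit 338) (nat_lit 226) (nat_lit 216)) (XT.lf (nat_lit 0) (nat_lit 22957930589) (nat_lit 152) (nat_lit 16401230716) (nat_lit 0) (nat_lit 21032035837) (nat_lit 4) (nat_lit 5) (nat_lit 6) (nat_lit 4) (nat_lit 4) (nat_lit 4) (nat_lit 339) (nat_lit 226) (nat_lit 215))))) (XT.nd (nat_lit 156) (nat_lit 76) (nat_lit 0) (XT.nd (nat_lit 78) (nat_lit 0) (nat_lit 0) (XT.lf (nat_lit 0) (nat_lit 26565194992) (nat_lit 152) (nat_lit 12199169948) (nat_lit 0) (nat_lit 24510193957) (nat_lit 4) (nat_lit 5) (nat_lit 6) (nat_lit 4) (nat_lit 4) (nat_lit 4) (nat_lit 340) (nat_lit 226) (nat_lit 214)) (XT.lf (nat_lit 0) (nat_lit 30284511496) (nat_lit 152) (nat_lit 7914482250) (nat_lit 0) (nat_lit 28106552097) (nat_lit 4) (nat_lit 5) (nat_lit 6) (nat_lit 4) (nat_lit 4) (nat_lit 4) (nat_lit 341) (nat_lit 226) (nat_lit 213)))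 (XT.nd (nat_lit 78) (nat_lit 76) (nat_lit 0) (XT.lf (nat_lit 0) (nat_lit 34124735619) (nat_lit 152) (nat_lit 3536965984) (nat_lit 0) (nat_lit 31829673016) (nat_lit 4) (nat_lit 5) (nat_lit 6) (nat_lit 4) (nat_lit 4) (nat_lit 4) (nat_lit 342) (nat_lit 226) (nat_lit 212)) (XT.nd (nat_lit 78) (nat_lit 0) (nat_lit 0) (XT.lf (nat_lit 0) (nat_lit 975007847) (nat_lit 76) (nat_lit 37135225507) (nat_lit 76) (nat_lit 34728636043) (nat_lit 3) (nat_lit 4) (nat_lit 4) (nat_lit 5) (nat_lit 4) (nat_lit 4) (nat_lit 343) (nat_lit 226) (nat_lit 211)) (XT.lf (nat_lit 0) (nat_lit 5721616168) (nat_lit 76) (nat_lit 36572504221) (nat_lit 76) (nat_lit 34059698699) (nat_lit 3) (nat_lit 4) (nat_lit 4) (nat_lit 5) (nat_lit 4) (nat_lit 4) (nat_lit 344) (nat_lit 226) (nat_lit 210)))))) (XT.nd (nat_lit 390) (nat_lit 0) (nat_lit 0) (XT.nd (nat_lit 156) (nat_lit 0) (nat_lit 0) (XT.nd (nat_lit 78) (nat_lit 0) (nat_lit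 0) (XT.lf (nat_lit 0) (nat_lit 10597212357) (nat_lit 76) (nat_lit 36032098162) (nat_lit 76) (nat_lit 33418134488) (nat_lit 3) (nat_lit 4) (nat_lit 4) (nat_lit 5) (nat_lit 4) (nat_lit 4) (nat_lit 345) (nat_lit 226) (nat_lit 209)) (XT.lf (nat_lit 0) (nat_lit 15613404977) (nat_lit 76) (nat_lit 35512720648) (nat_lit 76) (nat_lit 32802415879) (nat_lit 3) (nat_lit 4) (nat_lit 4) (nat_lit 5) (nat_lit 4) (nat_lit 4) (nat_lit 346) (nat_lit 226) (nat_lit 208))) (XT.nd (nat_lit 78) (nat_lit 0) (nat_lit 0) (XT.lf (nat_lit 0) (nat_lit 20782137343) (nat_lit 76) (nat_lit 35013135067) (nat_lit 76) (nat_lit 32211076874) (nat_lit 3) (nat_lit 4) (nat_lit 4) (nat_lit 5) (nat_lit 4) (nat_lit 4) (nat_lit 347) (nat_lit 226) (nat_lit 207)) (XT.nd (nat_lit 78) (nat_lit 0) (nat_lit 0) (XT.lf (nat_lit 0) (nat_lit 26115715961) (nat_lit 76) (nat_lit 34532151929) (nat_lit 76) (nat_lit 31642709522) (nat_lit 3) (nat_lit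 4) (nat_lit 4) (nat_lit 5) (nat_lit 4) (nat_lit 4) (nat_lit 348) (nat_lit 226) (nat_lit 206)) (XT.lf (nat_lit 0) (nat_lit 31626839829) (nat_lit 76) (nat_lit 34068626037) (nat_lit 76) (nat_lit 31095960569) (nat_lit 3) (nat_lit 4) (nat_lit 4) (nat_lit 5) (nat_lit 4) (nat_lit 4) (nat_lit 349) (nat_lit 226) (nat_lit 205))))) (XT.nd (nat_lit 156) (nat_lit 0) (nat_lit 0) (XT.nd (nat_lit 78) (nat_lit 0) (nat_lit 0) (XT.lf (nat_lit 0) (nat_lit 37328630668) (nat_lit 76) (nat_lit 33621453757) (nat_lit 76) (nat_lit 30569528231) (nat_lit 3) (nat_lit 4) (nat_lit 4) (nat_lit 5) (nat_lit 4) (nat_lit 4) (nat_lit 350) (nat_lit 226) (nat_lit 204)) (XT.lf (nat_lit 0) (nat_lit 43234664173) (nat_lit 76) (nat_lit 33189570394) (nat_lit 76) (nat_lit 30062159098) (nat_lit 3) (nat_lit 4) (nat_lit 4) (nat_lit 5) (nat_lit 4) (nat_lit 4) (nat_lit 351) (nat_lit 226) (nat_lit 203))) (XT.nd (nat_lit 78) (nat_lit 0)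 (nat_lit 0) (XT.lf (nat_lit 0) (nat_lit 49359002326) (nat_lit 76) (nat_lit 32771947653) (nat_lit 76) (nat_lit 29572645148) (nat_lit 3) (nat_lit 4) (nat_lit 4) (nat_lit 5) (nat_lit 4) (nat_lit 4) (nat_lit 352) (nat_lit 226) (nat_lit 202)) (XT.nd (nat_lit 78) (nat_lit 0) (nat_lit 0) (XT.lf (nat_lit 0) (nat_lit 55716226887) (nat_lit 76) (nat_lit 32367591194) (nat_lit 76) (nat_lit 29099820871) (nat_lit 3) (nat_lit 4) (nat_lit 4) (nat_lit 5) (nat_lit 4) (nat_lit 4) (nat_lit 353) (nat_lit 226) (nat_lit 201)) (XT.lf (nat_lit 0) (nat_lit 62321474103) (nat_lit 76) (nat_lit 31975538265) (nat_lit 76) (nat_lit 28642560496) (nat_lit 3) (nat_lit 4) (nat_lit 4) (nat_lit 5) (nat_lit 4) (nat_lit 4) (nat_lit 354) (nat_lit 226) (nat_lit 200))))))))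
noncomputable def xc25 : XT := (XT.nd (nat_lit 1482) (nat_lit 0) (nat_lit 0) (XT.nd (nat_lit 702) (nat_lit 0) (nat_lit 0) (XT.nd (nat_lit 312) (nat_lit 0) (nat_lit 0) (XT.nd (nat_lit 156) (nat_lit 0) (nat_lit 0) (XT.nd (nat_lit 78) (nat_lit 0) (nat_lit 0) (XT.lf (nat_lit 0) (nat_lit 69190470755) (nat_lit 76) (nat_lit 31594855406) (nat_lit 76) (nat_lit 28199775308) (nat_lit 3) (nat_lit 4) (nat_lit 4) (nat_lit 5) (nat_lit 4) (nat_lit 4) (nat_lit 355) (nat_lit 226) (nat_lit 199)) (XT.lf (nat_lit 0) (nat_lit 76339571595) (nat_lit 76) (nat_lit 31224636229) (nat_lit 76) (nat_lit 27770411055) (nat_lit 3) (nat_lit 4) (nat_lit 4) (nat_lit 5) (nat_lit 4) (nat_lit 4) (nat_lit 356) (nat_lit 226) (nat_lit 198))) (XT.nd (nat_lit 78) (nat_lit 0) (nat_lit 0) (XT.lf (nat_lit 0) (nat_lit 83785798293) (nat_lit 76) (nat_lit 30863999260) (nat_lit 76) (nat_lit 27353445443) (nat_lit 3) (nat_lit 4) (nat_lit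 4) (nat_lit 5) (nat_lit 4) (nat_lit 4) (nat_lit 357) (nat_lit 226) (nat_lit 197)) (XT.lf (nat_lit 0) (nat_lit 91546879959) (nat_lit 76) (nat_lit 30512085840) (nat_lit 76) (nat_lit 26947885695) (nat_lit 3) (nat_lit 4) (nat_lit 4) (nat_lit 5) (nat_lit 4) (nat_lit 4) (nat_lit 358) (nat_lit 226) (nat_lit 196)))) (XT.nd (nat_lit 156) (nat_lit 0) (nat_lit 0) (XT.nd (nat_lit 78) (nat_lit 0) (nat_lit 0) (XT.lf (nat_lit 0) (nat_lit 99641295360) (nat_lit 76) (nat_lit 30168058079) (nat_lit 76) (nat_lit 26552766194) (nat_lit 3) (nat_lit 4) (nat_lit 4) (nat_lit 5) (nat_lit 4) (nat_lit 4) (nat_lit 359) (nat_lit 226) (nat_lit 195)) (XT.lf (nat_lit 0) (nat_lit 108088316913) (nat_lit 76) (nat_lit 29831096864) (nat_lit 76) (nat_lit 26167146179) (nat_lit 3) (nat_lit 4) (nat_lit 4) (nat_lit 5) (nat_lit 4) (nat_lit 4) (nat_lit 360) (nat_lit 226) (nat_lit 194))) (XT.nd (nat_lit 78) (nat_lit 0) (nat_lit 0)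 (XT.lf (nat_lit 0) (nat_lit 116908056574) (nat_lit 76) (nat_lit 29500399905) (nat_lit 76) (nat_lit 25790107506) (nat_lit 3) (nat_lit 4) (nat_lit 4) (nat_lit 5) (nat_lit 4) (nat_lit 4) (nat_lit 361) (nat_lit 226) (nat_lit 193)) (XT.nd (nat_lit 78) (nat_lit 0) (nat_lit 0) (XT.lf (nat_lit 0) (nat_lit 126121513724) (nat_lit 76) (nat_lit 29175179830) (nat_lit 76) (nat_lit 25420752465) (nat_lit 3) (nat_lit 4) (nat_lit 4) (nat_lit 5) (nat_lit 4) (nat_lit 4) (nat_lit 362) (nat_lit 226) (nat_lit 192)) (XT.lf (nat_lit 0) (nat_lit 135750625164) (nat_lit 76) (nat_lit 28854662305) (nat_lit 76) (nat_lit 25058201639) (nat_lit 3) (nat_lit 4) (nat_lit 4) (nat_lit 5) (nat_lit 4) (nat_lit 4) (nat_lit 363) (nat_lit 226) (nat_lit 191)))))) (XT.nd (nat_lit 390) (nat_lit 0) (nat_lit 0) (XT.nd (nat_lit 156) (nat_lit 0) (nat_lit 0) (XT.nd (nat_lit 78) (nat_lit 0) (nat_lit 0) (XT.lf (nat_lit 0) (nat_lit 145818317352)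 (nat_lit 76) (nat_lit 28538084193) (nat_lit 76) (nat_lit 24701591812) (nat_lit 3) (nat_lit 4) (nat_lit 4) (nat_lit 5) (nat_lit 4) (nat_lit 4) (nat_lit 364) (nat_lit 226) (nat_lit 190)) (XT.lf (nat_lit 0) (nat_lit 156348560983) (nat_lit 76) (nat_lit 28224691737) (nat_lit 76) (nat_lit 24350073912) (nat_lit 3) (nat_lit 4) (nat_lit 4) (nat_lit 5) (nat_lit 4) (nat_lit 4) (nat_lit 365) (nat_lit 226) (nat_lit 189))) (XT.nd (nat_lit 78) (nat_lit 0) (nat_lit 0) (XT.lf (nat_lit 0) (nat_lit 167366428064) (nat_lit 76) (nat_lit 27913738763) (nat_lit 76) (nat_lit 24002810993) (nat_lit 3) (nat_lit 4) (nat_lit 4) (nat_lit 5) (nat_lit 4) (nat_lit 4) (nat_lit 366) (nat_lit 226) (nat_lit 188)) (XT.nd (nat_lit 78) (nat_lit 0) (nat_lit 0) (XT.lf (nat_lit 0) (nat_lit 178898151614) (nat_lit 76) (nat_lit 27604484908) (nat_lit 76) (nat_lit 23658976237) (nat_lit 3) (nat_lit 4) (nat_lit 4) (nat_lit 5) (nat_lit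 4) (nat_lit 4) (nat_lit 367) (nat_lit 226) (nat_lit 187)) (XT.lf (nat_lit 0) (nat_lit 190971188117) (nat_lit 76) (nat_lit 27296193853) (nat_lit 76) (nat_lit 23317750991) (nat_lit 3) (nat_lit 4) (nat_lit 4) (nat_lit 5) (nat_lit 4) (nat_lit 4) (nat_lit 368) (nat_lit 226) (nat_lit 186))))) (XT.nd (nat_lit 156) (nat_lit 0) (nat_lit 0) (XT.nd (nat_lit 78) (nat_lit 0) (nat_lit 0) (XT.lf (nat_lit 0) (nat_lit 203614282897) (nat_lit 76) (nat_lit 26988131572) (nat_lit 76) (nat_lit 22978322813) (nat_lit 3) (nat_lit 4) (nat_lit 4) (nat_lit 5) (nat_lit 4) (nat_lit 4) (nat_lit 369) (nat_lit 226) (nat_lit 185)) (XT.lf (nat_lit 0) (nat_lit 216857538562) (nat_lit 76) (nat_lit 26679564583) (nat_lit 76) (nat_lit 22639883542) (nat_lit 3) (nat_lit 4) (nat_lit 4) (nat_lit 5) (nat_lit 4) (nat_lit 4) (nat_lit 370) (nat_lit 226) (nat_lit 184))) (XT.nd (nat_lit 78) (nat_lit 0) (nat_lit 0) (XT.lf (nat_lit 0)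 (nat_lit 230732486672) (nat_lit 76) (nat_lit 26369758202) (nat_lit 76) (nat_lit 22301627369) (nat_lit 3) (nat_lit 4) (nat_lit 4) (nat_lit 5) (nat_lit 4) (nat_lit 4) (nat_lit 371) (nat_lit 226) (nat_lit 183)) (XT.nd (nat_lit 78) (nat_lit 0) (nat_lit 0) (XT.lf (nat_lit 0) (nat_lit 245272162818) (nat_lit 76) (nat_lit 26057974796) (nat_lit 76) (nat_lit 21962748922) (nat_lit 3) (nat_lit 4) (nat_lit 4) (nat_lit 5) (nat_lit 4) (nat_lit 4) (nat_lit 372) (nat_lit 226) (nat_lit 182)) (XT.lf (nat_lit 0) (nat_lit 260511185278) (nat_lit 76) (nat_lit 25743472024) (nat_lit 76) (nat_lit 21622441349) (nat_lit 3) (nat_lit 4) (nat_lit 4) (nat_lit 5) (nat_lit 4) (nat_lit 4) (nat_lit 373) (nat_lit 226) (nat_lit 181))))))) (XT.nd (nat_lit 780) (nat_lit 0) (nat_lit 0) (XT.nd (nat_lit 390) (nat_lit 0) (nat_lit 0) (XT.nd (nat_lit 156) (nat_lit 0) (nat_lit 0) (XT.nd (nat_lit 78) (nat_lit 0) (nat_lit 0) (XT.lf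 (nat_lit 0) (nat_lit 276485837436) (nat_lit 76) (nat_lit 25425501068) (nat_lit 76) (nat_lit 21279894393) (nat_lit 3) (nat_lit 4) (nat_lit 4) (nat_lit 5) (nat_lit 4) (nat_lit 4) (nat_lit 374) (nat_lit 226) (nat_lit 180)) (XT.lf (nat_lit 0) (nat_lit 293234154181) (nat_lit 76) (nat_lit 25103304855) (nat_lit 76) (nat_lit 20934292465) (nat_lit 3) (nat_lit 4) (nat_lit 4) (nat_lit 5) (nat_lit 4) (nat_lit 4) (nat_lit 375) (nat_lit 226) (nat_lit 179))) (XT.nd (nat_lit 78) (nat_lit 0) (nat_lit 0) (XT.lf (nat_lit 0) (nat_lit 310796012456) (nat_lit 76) (nat_lit 24776116252) (nat_lit 76) (nat_lit 20584812705) (nat_lit 3) (nat_lit 4) (nat_lit 4) (nat_lit 5) (nat_lit 4) (nat_lit 4) (nat_lit 376) (nat_lit 226) (nat_lit 178)) (XT.nd (nat_lit 78) (nat_lit 0) (nat_lit 0) (XT.lf (nat_lit 0) (nat_lit 329213226209) (nat_lit 76) (nat_lit 24443156238) (nat_lit 76) (nat_lit 20230623018) (nat_lit 3) (nat_lit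 4) (nat_lit 4) (nat_lit 5) (nat_lit 4) (nat_lit 4) (nat_lit 377) (nat_lit 226) (nat_lit 177)) (XT.lf (nat_lit 0) (nat_lit 348529645950) (nat_lit 76) (nat_lit 24103632051) (nat_lit 76) (nat_lit 19870880095) (nat_lit 3) (nat_lit 4) (nat_lit 4) (nat_lit 5) (nat_lit 4) (nat_lit 4) (nat_lit 378) (nat_lit 226) (nat_lit 176))))) (XT.nd (nat_lit 156) (nat_lit 0) (nat_lit 0) (XT.nd (nat_lit 78) (nat_lit 0) (nat_lit 0) (XT.lf (nat_lit 0) (nat_lit 368791263154) (nat_lit 76) (nat_lit 23756735300) (nat_lit 76) (nat_lit 19504727404) (nat_lit 3) (nat_lit 4) (nat_lit 4) (nat_lit 5) (nat_lit 4) (nat_lit 4) (nat_lit 379) (nat_lit 226) (nat_lit 175)) (XT.lf (nat_lit 0) (nat_lit 390046319767) (nat_lit 76) (nat_lit 23401640041) (nat_lit 76) (nat_lit 19131293155) (nat_lit 3) (nat_lit 4) (nat_lit 4) (nat_lit 5) (nat_lit 4) (nat_lit 4) (nat_lit 380) (nat_lit 226) (nat_lit 174))) (XT.nd (nat_lit 78) (nat_lit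 0) (nat_lit 0) (XT.lf (nat_lit 0) (nat_lit 412345423067) (nat_lit 76) (nat_lit 23037500808) (nat_lit 76) (nat_lit 18749688217) (nat_lit 3) (nat_lit 4) (nat_lit 4) (nat_lit 5) (nat_lit 4) (nat_lit 4) (nat_lit 381) (nat_lit 226) (nat_lit 173)) (XT.nd (nat_lit 78) (nat_lit 0) (nat_lit 0) (XT.lf (nat_lit 0) (nat_lit 435741666156) (nat_lit 76) (nat_lit 22663450603) (nat_lit 76) (nat_lit 18359004008) (nat_lit 3) (nat_lit 4) (nat_lit 4) (nat_lit 5) (nat_lit 4) (nat_lit 4) (nat_lit 382) (nat_lit 226) (nat_lit 172)) (XT.lf (nat_lit 0) (nat_lit 460290754375) (nat_lit 76) (nat_lit 22278598831) (nat_lit 76) (nat_lit 17958310327) (nat_lit 3) (nat_lit 4) (nat_lit 4) (nat_lit 5) (nat_lit 4) (nat_lit 4) (nat_lit 383) (nat_lit 226) (nat_lit 171)))))) (XT.nd (nat_lit 390) (nat_lit 0) (nat_lit 0) (XT.nd (nat_lit 156) (nat_lit 0) (nat_lit 0) (XT.nd (nat_lit 78) (nat_lit 0) (nat_lit 0) (XT.lf (nat_lit 0)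 (nat_lit 486051137934) (nat_lit 76) (nat_lit 21882029178) (nat_lit 76) (nat_lit 17546653141) (nat_lit 3) (nat_lit 4) (nat_lit 4) (nat_lit 5) (nat_lit 4) (nat_lit 4) (nat_lit 384) (nat_lit 226) (nat_lit 170)) (XT.lf (nat_lit 0) (nat_lit 513084151081) (nat_lit 76) (nat_lit 21472797431) (nat_lit 76) (nat_lit 17123052315) (nat_lit 3) (nat_lit 4) (nat_lit 4) (nat_lit 5) (nat_lit 4) (nat_lit 4) (nat_lit 385) (nat_lit 226) (nat_lit 169))) (XT.nd (nat_lit 78) (nat_lit 0) (nat_lit 0) (XT.lf (nat_lit 0) (nat_lit 541454158131) (nat_lit 76) (nat_lit 21049929227) (nat_lit 76) (nat_lit 16686499275) (nat_lit 3) (nat_lit 4) (nat_lit 4) (nat_lit 5) (nat_lit 4) (nat_lit 4) (nat_lit 386) (nat_lit 226) (nat_lit 168)) (XT.nd (nat_lit 78) (nat_lit 0) (nat_lit 0) (XT.lf (nat_lit 0) (nat_lit 571228706721) (nat_lit 76) (nat_lit 20612417739) (nat_lit 76) (nat_lit 16235954609) (nat_lit 3) (nat_lit 4) (nat_lit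 4) (nat_lit 5) (nat_lit 4) (nat_lit 4) (nat_lit 387) (nat_lit 226) (nat_lit 167)) (XT.lf (nat_lit 0) (nat_lit 602478688633) (nat_lit 76) (nat_lit 20159221272) (nat_lit 76) (nat_lit 15770345591) (nat_lit 3) (nat_lit 4) (nat_lit 4) (nat_lit 5) (nat_lit 4) (nat_lit 4) (nat_lit 388) (nat_lit 226) (nat_lit 166))))) (XT.nd (nat_lit 35802) (nat_lit 0) (nat_lit 228) (XT.nd (nat_lit 35724) (nat_lit 0) (nat_lit 304) (XT.lf (nat_lit 0) (nat_lit 635278508586) (nat_lit 76) (nat_lit 19689260786) (nat_lit 76) (nat_lit 15288563629) (nat_lit 3) (nat_lit 4) (nat_lit 4) (nat_lit 5) (nat_lit 4) (nat_lit 4) (nat_lit 389) (nat_lit 226) (nat_lit 165)) (XT.lf (nat_lit 0) (nat_lit 8388487021) (nat_lit 152) (nat_lit 10603666) (nat_lit 0) (nat_lit 8388487021) (nat_lit 7) (nat_lit 5) (nat_lit 9) (nat_lit 4) (nat_lit 7) (nat_lit 4) (nat_lit 326) (nat_lit 227) (nat_lit 227))) (XT.nd (nat_lit 78) (nat_lit 0) (nat_lit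 0) (XT.lf (nat_lit 0) (nat_lit 6749627130) (nat_lit 76) (nat_lit 14280866300) (nat_lit 76) (nat_lit 14037417149) (nat_lit 6) (nat_lit 4) (nat_lit 7) (nat_lit 5) (nat_lit 7) (nat_lit 4) (nat_lit 327) (nat_lit 227) (nat_lit 226)) (XT.nd (nat_lit 78) (nat_lit 0) (nat_lit 0) (XT.lf (nat_lit 0) (nat_lit 13646469329) (nat_lit 76) (nat_lit 11734989742) (nat_lit 76) (nat_lit 11259684257) (nat_lit 6) (nat_lit 4) (nat_lit 7) (nat_lit 5) (nat_lit 7) (nat_lit 4) (nat_lit 328) (nat_lit 227) (nat_lit 225)) (XT.lf (nat_lit 0) (nat_lit 20685039108) (nat_lit 76) (nat_lit 9154849249) (nat_lit 76) (nat_lit 8458728207) (nat_lit 6) (nat_lit 4) (nat_lit 7) (nat_lit 5) (nat_lit 7) (nat_lit 4) (nat_lit 329) (nat_lit 227) (nat_lit 224))))))))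
noncomputable def xc26 : XT := (XT.nd (nat_lit 1482) (nat_lit 0) (nat_lit 0) (XT.nd (nat_lit 702) (nat_lit 76) (nat_lit 0) (XT.nd (nat_lit 312) (nat_lit 0) (nat_lit 0) (XT.nd (nat_lit 156) (nat_lit 152) (nat_lit 0) (XT.nd (nat_lit 78) (nat_lit 0) (nat_lit 0) (XT.lf (nat_lit 0) (nat_lit 27882094966) (nat_lit 76) (nat_lit 6534301629) (nat_lit 76) (nat_lit 5627880057) (nat_lit 6) (nat_lit 4) (nat_lit 7) (nat_lit 5) (nat_lit 7) (nat_lit 4) (nat_lit 330) (nat_lit 227) (nat_lit 223)) (XT.lf (nat_lit 0) (nat_lit 35254772749) (nat_lit 76) (nat_lit 3867107482) (nat_lit 76) (nat_lit 2760399691) (nat_lit 6) (nat_lit 4) (nat_lit 7) (nat_lit 5) (nat_lit 7) (nat_lit 4) (nat_lit 331) (nat_lit 227) (nat_lit 222))) (XT.nd (nat_lit 78) (nat_lit 76) (nat_lit 0) (XT.lf (nat_lit 0) (nat_lit 145721996) (nat_lit 152) (nat_lit 998726477) (nat_lit 76) (nat_lit 42672436584) (nat_lit 5) (nat_lit 5) (nat_lit 7)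 (nat_lit 5) (nat_lit 6) (nat_lit 4) (nat_lit 332) (nat_lit 227) (nat_lit 221)) (XT.lf (nat_lit 0) (nat_lit 3115543625) (nat_lit 152) (nat_lit 41023058662) (nat_lit 0) (nat_lit 1706855934) (nat_lit 4) (nat_lit 5) (nat_lit 6) (nat_lit 4) (nat_lit 4) (nat_lit 4) (nat_lit 333) (nat_lit 227) (nat_lit 220)))) (XT.nd (nat_lit 156) (nat_lit 0) (nat_lit 0) (XT.nd (nat_lit 78) (nat_lit 0) (nat_lit 0) (XT.lf (nat_lit 0) (nat_lit 6178265548) (nat_lit 152) (nat_lit 37195227825) (nat_lit 0) (nat_lit 4604801889) (nat_lit 4) (nat_lit 5) (nat_lit 6) (nat_lit 4) (nat_lit 4) (nat_lit 4) (nat_lit 334) (nat_lit 227) (nat_lit 219)) (XT.lf (nat_lit 0) (nat_lit 9306939347) (nat_lit 152) (nat_lit 33338700853) (nat_lit 0) (nat_lit 7576546194) (nat_lit 4) (nat_lit 5) (nat_lit 6) (nat_lit 4) (nat_lit 4) (nat_lit 4) (nat_lit 335) (nat_lit 227) (nat_lit 218))) (XT.nd (nat_lit 78) (nat_lit 0) (nat_lit 0) (XT.lf (nat_lit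 0) (nat_lit 12509014245) (nat_lit 152) (nat_lit 29444295538) (nat_lit 0) (nat_lit 10629164432) (nat_lit 4) (nat_lit 5) (nat_lit 6) (nat_lit 4) (nat_lit 4) (nat_lit 4) (nat_lit 336) (nat_lit 227) (nat_lit 217)) (XT.nd (nat_lit 78) (nat_lit 0) (nat_lit 0) (XT.lf (nat_lit 0) (nat_lit 15792114231) (nat_lit 152) (nat_lit 25502739487) (nat_lit 0) (nat_lit 13769924742) (nat_lit 4) (nat_lit 5) (nat_lit 6) (nat_lit 4) (nat_lit 4) (nat_lit 4) (nat_lit 337) (nat_lit 227) (nat_lit 216)) (XT.lf (nat_lit 0) (nat_lit 19164056209) (nat_lit 152) (nat_lit 21504648042) (nat_lit 0) (nat_lit 17006305123) (nat_lit 4) (nat_lit 5) (nat_lit 6) (nat_lit 4) (nat_lit 4) (nat_lit 4) (nat_lit 338) (nat_lit 227) (nat_lit 215)))))) (XT.nd (nat_lit 390) (nat_lit 76) (nat_lit 0) (XT.nd (nat_lit 156) (nat_lit 0) (nat_lit 0) (XT.nd (nat_lit 78) (nat_lit 0) (nat_lit 0) (XT.lf (nat_lit 0) (nat_lit 22632868613) (nat_lit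 152) (nat_lit 17440501939) (nat_lit 0) (nat_lit 20346011244) (nat_lit 4) (nat_lit 5) (nat_lit 6) (nat_lit 4) (nat_lit 4) (nat_lit 4) (nat_lit 339) (nat_lit 227) (nat_lit 214)) (XT.lf (nat_lit 0) (nat_lit 26206810518) (nat_lit 152) (nat_lit 13300624638) (nat_lit 0) (nat_lit 23796994785) (nat_lit 4) (nat_lit 5) (nat_lit 6) (nat_lit 4) (nat_lit 4) (nat_lit 4) (nat_lit 340) (nat_lit 227) (nat_lit 213))) (XT.nd (nat_lit 78) (nat_lit 0) (nat_lit 0) (XT.lf (nat_lit 0) (nat_lit 29894391312) (nat_lit 152) (nat_lit 9075159290) (nat_lit 0) (nat_lit 27367472375) (nat_lit 4) (nat_lit 5) (nat_lit 6) (nat_lit 4) (nat_lit 4) (nat_lit 4) (nat_lit 341) (nat_lit 227) (nat_lit 212)) (XT.nd (nat_lit 78) (nat_lit 0) (nat_lit 0) (XT.lf (nat_lit 0) (nat_lit 33704390948) (nat_lit 152) (nat_lit 4754045261) (nat_lit 0) (nat_lit 31065945150) (nat_lit 4) (nat_lit 5) (nat_lit 6) (nat_lit 4) (nat_lit 4) (nat_lit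 4) (nat_lit 342) (nat_lit 227) (nat_lit 211)) (XT.lf (nat_lit 0) (nat_lit 37645880854) (nat_lit 152) (nat_lit 326994187) (nat_lit 0) (nat_lit 34901218997) (nat_lit 4) (nat_lit 5) (nat_lit 6) (nat_lit 4) (nat_lit 4) (nat_lit 4) (nat_lit 343) (nat_lit 227) (nat_lit 210))))) (XT.nd (nat_lit 156) (nat_lit 0) (nat_lit 0) (XT.nd (nat_lit 78) (nat_lit 0) (nat_lit 0) (XT.lf (nat_lit 0) (nat_lit 4355952205) (nat_lit 76) (nat_lit 37440301946) (nat_lit 76) (nat_lit 34594481938) (nat_lit 3) (nat_lit 4) (nat_lit 4) (nat_lit 5) (nat_lit 4) (nat_lit 4) (nat_lit 344) (nat_lit 227) (nat_lit 209)) (XT.lf (nat_lit 0) (nat_lit 9181215039) (nat_lit 76) (nat_lit 36923334349) (nat_lit 76) (nat_lit 33981173246) (nat_lit 3) (nat_lit 4) (nat_lit 4) (nat_lit 5) (nat_lit 4) (nat_lit 4) (nat_lit 345) (nat_lit 227) (nat_lit 208))) (XT.nd (nat_lit 78) (nat_lit 0) (nat_lit 0) (XT.lf (nat_lit 0) (nat_lit 14149471129)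 (nat_lit 76) (nat_lit 36426279181) (nat_lit 76) (nat_lit 33392364653) (nat_lit 3) (nat_lit 4) (nat_lit 4) (nat_lit 5) (nat_lit 4) (nat_lit 4) (nat_lit 346) (nat_lit 227) (nat_lit 207)) (XT.nd (nat_lit 78) (nat_lit 0) (nat_lit 0) (XT.lf (nat_lit 0) (nat_lit 19272549659) (nat_lit 76) (nat_lit 35947952977) (nat_lit 76) (nat_lit 32826654235) (nat_lit 3) (nat_lit 4) (nat_lit 4) (nat_lit 5) (nat_lit 4) (nat_lit 4) (nat_lit 347) (nat_lit 227) (nat_lit 206)) (XT.lf (nat_lit 0) (nat_lit 24562648432) (nat_lit 76) (nat_lit 35487216865) (nat_lit 76) (nat_lit 32282695062) (nat_lit 3) (nat_lit 4) (nat_lit 4) (nat_lit 5) (nat_lit 4) (nat_lit 4) (nat_lit 348) (nat_lit 227) (nat_lit 205))))))) (XT.nd (nat_lit 780) (nat_lit 0) (nat_lit 0) (XT.nd (nat_lit 390) (nat_lit 0) (nat_lit 0) (XT.nd (nat_lit 156) (nat_lit 0) (nat_lit 0) (XT.nd (nat_lit 78) (nat_lit 0) (nat_lit 0) (XT.lf (nat_lit 0) (nat_lit 30032362923)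 (nat_lit 76) (nat_lit 35042973854) (nat_lit 76) (nat_lit 31759191993) (nat_lit 3) (nat_lit 4) (nat_lit 4) (nat_lit 5) (nat_lit 4) (nat_lit 4) (nat_lit 349) (nat_lit 227) (nat_lit 204)) (XT.lf (nat_lit 0) (nat_lit 35694716262) (nat_lit 76) (nat_lit 34614166223) (nat_lit 76) (nat_lit 31254898593) (nat_lit 3) (nat_lit 4) (nat_lit 4) (nat_lit 5) (nat_lit 4) (nat_lit 4) (nat_lit 350) (nat_lit 227) (nat_lit 203))) (XT.nd (nat_lit 78) (nat_lit 0) (nat_lit 0) (XT.lf (nat_lit 0) (nat_lit 41563190241) (nat_lit 76) (nat_lit 34199773001) (nat_lit 76) (nat_lit 30768614162) (nat_lit 3) (nat_lit 4) (nat_lit 4) (nat_lit 5) (nat_lit 4) (nat_lit 4) (nat_lit 351) (nat_lit 227) (nat_lit 202)) (XT.nd (nat_lit 78) (nat_lit 0) (nat_lit 0) (XT.lf (nat_lit 0) (nat_lit 47651757419) (nat_lit 76) (nat_lit 33798807538) (nat_lit 76) (nat_lit 30299180881) (nat_lit 3) (nat_lit 4) (nat_lit 4) (nat_lit 5) (nat_lit 4)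 (nat_lit 4) (nat_lit 352) (nat_lit 227) (nat_lit 201)) (XT.lf (nat_lit 0) (nat_lit 53974914384) (nat_lit 76) (nat_lit 33410315154) (nat_lit 76) (nat_lit 29845481051) (nat_lit 3) (nat_lit 4) (nat_lit 4) (nat_lit 5) (nat_lit 4) (nat_lit 4) (nat_lit 353) (nat_lit 227) (nat_lit 200))))) (XT.nd (nat_lit 156) (nat_lit 0) (nat_lit 0) (XT.nd (nat_lit 78) (nat_lit 0) (nat_lit 0) (XT.lf (nat_lit 0) (nat_lit 60547716270) (nat_lit 76) (nat_lit 33033370867) (nat_lit 76) (nat_lit 29406434434) (nat_lit 3) (nat_lit 4) (nat_lit 4) (nat_lit 5) (nat_lit 4) (nat_lit 4) (nat_lit 354) (nat_lit 227) (nat_lit 199)) (XT.lf (nat_lit 0) (nat_lit 67385812608) (nat_lit 76) (nat_lit 32667077191) (nat_lit 76) (nat_lit 28980995683) (nat_lit 3) (nat_lit 4) (nat_lit 4) (nat_lit 5) (nat_lit 4) (nat_lit 4) (nat_lit 355) (nat_lit 227) (nat_lit 198))) (XT.nd (nat_lit 78) (nat_lit 0) (nat_lit 0) (XT.lf (nat_lit 0) (nat_lit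 74505484577) (nat_lit 76) (nat_lit 32310561998) (nat_lit 76) (nat_lit 28568151846) (nat_lit 3) (nat_lit 4) (nat_lit 4) (nat_lit 5) (nat_lit 4) (nat_lit 4) (nat_lit 356) (nat_lit 227) (nat_lit 197)) (XT.nd (nat_lit 78) (nat_lit 0) (nat_lit 0) (XT.lf (nat_lit 0) (nat_lit 81923683779) (nat_lit 76) (nat_lit 31962976442) (nat_lit 76) (nat_lit 28166919963) (nat_lit 3) (nat_lit 4) (nat_lit 4) (nat_lit 5) (nat_lit 4) (nat_lit 4) (nat_lit 357) (nat_lit 227) (nat_lit 196)) (XT.lf (nat_lit 0) (nat_lit 89658072592) (nat_lit 76) (nat_lit 31623492939) (nat_lit 76) (nat_lit 27776344720) (nat_lit 3) (nat_lit 4) (nat_lit 4) (nat_lit 5) (nat_lit 4) (nat_lit 4) (nat_lit 358) (nat_lit 227) (nat_lit 195)))))) (XT.nd (nat_lit 390) (nat_lit 0) (nat_lit 0) (XT.nd (nat_lit 156) (nat_lit 0) (nat_lit 0) (XT.nd (nat_lit 78) (nat_lit 0) (nat_lit 0) (XT.lf (nat_lit 0) (nat_lit 97727066228) (nat_lit 76) (nat_lit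 31291303194) (nat_lit 76) (nat_lit 27395496175) (nat_lit 3) (nat_lit 4) (nat_lit 4) (nat_lit 5) (nat_lit 4) (nat_lit 4) (nat_lit 359) (nat_lit 227) (nat_lit 194)) (XT.lf (nat_lit 0) (nat_lit 106149876577) (nat_lit 76) (nat_lit 30965616281) (nat_lit 76) (nat_lit 27023467547) (nat_lit 3) (nat_lit 4) (nat_lit 4) (nat_lit 5) (nat_lit 4) (nat_lit 4) (nat_lit 360) (nat_lit 227) (nat_lit 193))) (XT.nd (nat_lit 78) (nat_lit 0) (nat_lit 0) (XT.lf (nat_lit 0) (nat_lit 114946557948) (nat_lit 76) (nat_lit 30645656752) (nat_lit 76) (nat_lit 26659373053) (nat_lit 3) (nat_lit 4) (nat_lit 4) (nat_lit 5) (nat_lit 4) (nat_lit 4) (nat_lit 361) (nat_lit 227) (nat_lit 192)) (XT.nd (nat_lit 78) (nat_lit 0) (nat_lit 0) (XT.lf (nat_lit 0) (nat_lit 124138054821) (nat_lit 76) (nat_lit 30330662801) (nat_lit 76) (nat_lit 26302345801) (nat_lit 3) (nat_lit 4) (nat_lit 4) (nat_lit 5) (nat_lit 4) (nat_lit 4) (nat_lit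 362) (nat_lit 227) (nat_lit 191)) (XT.lf (nat_lit 0) (nat_lit 133746251713) (nat_lit 76) (nat_lit 30019884441) (nat_lit 76) (nat_lit 25951535726) (nat_lit 3) (nat_lit 4) (nat_lit 4) (nat_lit 5) (nat_lit 4) (nat_lit 4) (nat_lit 363) (nat_lit 227) (nat_lit 190))))) (XT.nd (nat_lit 156) (nat_lit 0) (nat_lit 0) (XT.nd (nat_lit 78) (nat_lit 0) (nat_lit 0) (XT.lf (nat_lit 0) (nat_lit 143794025283) (nat_lit 76) (nat_lit 29712581725) (nat_lit 76) (nat_lit 25606107566) (nat_lit 3) (nat_lit 4) (nat_lit 4) (nat_lit 5) (nat_lit 4) (nat_lit 4) (nat_lit 364) (nat_lit 227) (nat_lit 189)) (XT.lf (nat_lit 0) (nat_lit 154305298801) (nat_lit 76) (nat_lit 29408022978) (nat_lit 76) (nat_lit 25265238874) (nat_lit 3) (nat_lit 4) (nat_lit 4) (nat_lit 5) (nat_lit 4) (nat_lit 4) (nat_lit 365) (nat_lit 227) (nat_lit 188))) (XT.nd (nat_lit 78) (nat_lit 0) (nat_lit 0) (XT.lf (nat_lit 0) (nat_lit 165305099109) (nat_lit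 76) (nat_lit 29105483062) (nat_lit 76) (nat_lit 24928118056) (nat_lit 3) (nat_lit 4) (nat_lit 4) (nat_lit 5) (nat_lit 4) (nat_lit 4) (nat_lit 366) (nat_lit 227) (nat_lit 187)) (XT.nd (nat_lit 78) (nat_lit 0) (nat_lit 0) (XT.lf (nat_lit 0) (nat_lit 176819616208) (nat_lit 76) (nat_lit 28804241642) (nat_lit 76) (nat_lit 24593942446) (nat_lit 3) (nat_lit 4) (nat_lit 4) (nat_lit 5) (nat_lit 4) (nat_lit 4) (nat_lit 367) (nat_lit 227) (nat_lit 186)) (XT.lf (nat_lit 0) (nat_lit 188876265614) (nat_lit 76) (nat_lit 28503581478) (nat_lit 76) (nat_lit 24261916385) (nat_lit 3) (nat_lit 4) (nat_lit 4) (nat_lit 5) (nat_lit 4) (nat_lit 4) (nat_lit 368) (nat_lit 227) (nat_lit 185))))))))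
noncomputable def xc27 : XT := (XT.nd (nat_lit 1560) (nat_lit 0) (nat_lit 0) (XT.nd (nat_lit 780) (nat_lit 0) (nat_lit 0) (XT.nd (nat_lit 390) (nat_lit 0) (nat_lit 0) (XT.nd (nat_lit 156) (nat_lit 0) (nat_lit 0) (XT.nd (nat_lit 78) (nat_lit 0) (nat_lit 0) (XT.lf (nat_lit 0) (nat_lit 201503753636) (nat_lit 76) (nat_lit 28202786712) (nat_lit 76) (nat_lit 23931249337) (nat_lit 3) (nat_lit 4) (nat_lit 4) (nat_lit 5) (nat_lit 4) (nat_lit 4) (nat_lit 369) (nat_lit 227) (nat_lit 184)) (XT.lf (nat_lit 0) (nat_lit 214732145722) (nat_lit 76) (nat_lit 27901141166) (nat_lit 76) (nat_lit 23601153998) (nat_lit 3) (nat_lit 4) (nat_lit 4) (nat_lit 5) (nat_lit 4) (nat_lit 4) (nat_lit 370) (nat_lit 227) (nat_lit 183))) (XT.nd (nat_lit 78) (nat_lit 0) (nat_lit 0) (XT.lf (nat_lit 0) (nat_lit 228592938042) (nat_lit 76) (nat_lit 27597926636) (nat_lit 76) (nat_lit 23270844428) (nat_lit 3) (nat_lit 4) (nat_lit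 4) (nat_lit 5) (nat_lit 4) (nat_lit 4) (nat_lit 371) (nat_lit 227) (nat_lit 182)) (XT.nd (nat_lit 78) (nat_lit 0) (nat_lit 0) (XT.lf (nat_lit 0) (nat_lit 243119132484) (nat_lit 76) (nat_lit 27292421183) (nat_lit 76) (nat_lit 22939534174) (nat_lit 3) (nat_lit 4) (nat_lit 4) (nat_lit 5) (nat_lit 4) (nat_lit 4) (nat_lit 372) (nat_lit 227) (nat_lit 181)) (XT.lf (nat_lit 0) (nat_lit 258345315224) (nat_lit 76) (nat_lit 26983897414) (nat_lit 76) (nat_lit 22606434404) (nat_lit 3) (nat_lit 4) (nat_lit 4) (nat_lit 5) (nat_lit 4) (nat_lit 4) (nat_lit 373) (nat_lit 227) (nat_lit 180))))) (XT.nd (nat_lit 156) (nat_lit 0) (nat_lit 0) (XT.nd (nat_lit 78) (nat_lit 0) (nat_lit 0) (XT.lf (nat_lit 0) (nat_lit 274307739080) (nat_lit 76) (nat_lit 26671620746) (nat_lit 76) (nat_lit 22270752022) (nat_lit 3) (nat_lit 4) (nat_lit 4) (nat_lit 5) (nat_lit 4) (nat_lit 4) (nat_lit 374) (nat_lit 227) (nat_lit 179))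 (XT.lf (nat_lit 0) (nat_lit 291044409821) (nat_lit 76) (nat_lit 26354847665) (nat_lit 76) (nat_lit 21931687784) (nat_lit 3) (nat_lit 4) (nat_lit 4) (nat_lit 5) (nat_lit 4) (nat_lit 4) (nat_lit 375) (nat_lit 227) (nat_lit 178))) (XT.nd (nat_lit 78) (nat_lit 0) (nat_lit 0) (XT.lf (nat_lit 0) (nat_lit 308595176664) (nat_lit 76) (nat_lit 26032823950) (nat_lit 76) (nat_lit 21588434395) (nat_lit 3) (nat_lit 4) (nat_lit 4) (nat_lit 5) (nat_lit 4) (nat_lit 4) (nat_lit 376) (nat_lit 227) (nat_lit 177)) (XT.nd (nat_lit 78) (nat_lit 0) (nat_lit 0) (XT.lf (nat_lit 0) (nat_lit 327001827149) (nat_lit 76) (nat_lit 25704782876) (nat_lit 76) (nat_lit 21240174585) (nat_lit 3) (nat_lit 4) (nat_lit 4) (nat_lit 5) (nat_lit 4) (nat_lit 4) (nat_lit 377) (nat_lit 227) (nat_lit 176)) (XT.lf (nat_lit 0) (nat_lit 346308186634) (nat_lit 76) (nat_lit 25369943394) (nat_lit 76) (nat_lit 20886079163) (nat_lit 3) (nat_lit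 4) (nat_lit 4) (nat_lit 5) (nat_lit 4) (nat_lit 4) (nat_lit 378) (nat_lit 227) (nat_lit 175)))))) (XT.nd (nat_lit 390) (nat_lit 0) (nat_lit 0) (XT.nd (nat_lit 156) (nat_lit 0) (nat_lit 0) (XT.nd (nat_lit 78) (nat_lit 0) (nat_lit 0) (XT.lf (nat_lit 0) (nat_lit 366560222643) (nat_lit 76) (nat_lit 25027508267) (nat_lit 76) (nat_lit 20525305046) (nat_lit 3) (nat_lit 4) (nat_lit 4) (nat_lit 5) (nat_lit 4) (nat_lit 4) (nat_lit 379) (nat_lit 227) (nat_lit 174)) (XT.lf (nat_lit 0) (nat_lit 387806154307) (nat_lit 76) (nat_lit 24676662173) (nat_lit 76) (nat_lit 20156993248) (nat_lit 3) (nat_lit 4) (nat_lit 4) (nat_lit 5) (nat_lit 4) (nat_lit 4) (nat_lit 380) (nat_lit 227) (nat_lit 173))) (XT.nd (nat_lit 78) (nat_lit 0) (nat_lit 0) (XT.lf (nat_lit 0) (nat_lit 410096567180) (nat_lit 76) (nat_lit 24316569765) (nat_lit 76) (nat_lit 19780266835) (nat_lit 3) (nat_lit 4) (nat_lit 4) (nat_lit 5) (nat_lit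 4) (nat_lit 4) (nat_lit 381) (nat_lit 227) (nat_lit 172)) (XT.nd (nat_lit 78) (nat_lit 0) (nat_lit 0) (XT.lf (nat_lit 0) (nat_lit 433484533671) (nat_lit 76) (nat_lit 23946373679) (nat_lit 76) (nat_lit 19394228840) (nat_lit 3) (nat_lit 4) (nat_lit 4) (nat_lit 5) (nat_lit 4) (nat_lit 4) (nat_lit 382) (nat_lit 227) (nat_lit 171)) (XT.lf (nat_lit 0) (nat_lit 458025739417) (nat_lit 76) (nat_lit 23565192496) (nat_lit 76) (nat_lit 18997960124) (nat_lit 3) (nat_lit 4) (nat_lit 4) (nat_lit 5) (nat_lit 4) (nat_lit 4) (nat_lit 383) (nat_lit 227) (nat_lit 170))))) (XT.nd (nat_lit 156) (nat_lit 0) (nat_lit 0) (XT.nd (nat_lit 78) (nat_lit 0) (nat_lit 0) (XT.lf (nat_lit 0) (nat_lit 483778615859) (nat_lit 76) (nat_lit 23172118642) (nat_lit 76) (nat_lit 18590517192) (nat_lit 3) (nat_lit 4) (nat_lit 4) (nat_lit 5) (nat_lit 4) (nat_lit 4) (nat_lit 384) (nat_lit 227) (nat_lit 169)) (XT.lf (nat_lit 0) (nat_lit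 510804479369) (nat_lit 76) (nat_lit 22766216227) (nat_lit 76) (nat_lit 18170929940) (nat_lit 3) (nat_lit 4) (nat_lit 4) (nat_lit 5) (nat_lit 4) (nat_lit 4) (nat_lit 385) (nat_lit 227) (nat_lit 168))) (XT.nd (nat_lit 78) (nat_lit 0) (nat_lit 0) (XT.lf (nat_lit 0) (nat_lit 539167677243) (nat_lit 76) (nat_lit 22346518816) (nat_lit 76) (nat_lit 17738199351) (nat_lit 3) (nat_lit 4) (nat_lit 4) (nat_lit 5) (nat_lit 4) (nat_lit 4) (nat_lit 386) (nat_lit 227) (nat_lit 167)) (XT.nd (nat_lit 78) (nat_lit 0) (nat_lit 0) (XT.lf (nat_lit 0) (nat_lit 568935740902) (nat_lit 76) (nat_lit 21912027130) (nat_lit 76) (nat_lit 17291295115) (nat_lit 3) (nat_lit 4) (nat_lit 4) (nat_lit 5) (nat_lit 4) (nat_lit 4) (nat_lit 387) (nat_lit 227) (nat_lit 166)) (XT.lf (nat_lit 0) (nat_lit 600179546690) (nat_lit 76) (nat_lit 21461706665) (nat_lit 76) (nat_lit 16829153174) (nat_lit 3) (nat_lit 4) (nat_lit 4) (nat_lit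 5) (nat_lit 4) (nat_lit 4) (nat_lit 388) (nat_lit 227) (nat_lit 165))))))) (XT.nd (nat_lit 36270) (nat_lit 0) (nat_lit 76) (XT.nd (nat_lit 35880) (nat_lit 0) (nat_lit 152) (XT.nd (nat_lit 35646) (nat_lit 0) (nat_lit 228) (XT.nd (nat_lit 35568) (nat_lit 0) (nat_lit 304) (XT.lf (nat_lit 0) (nat_lit 632973484620) (nat_lit 76) (nat_lit 20994485230) (nat_lit 76) (nat_lit 16350673190) (nat_lit 3) (nat_lit 4) (nat_lit 4) (nat_lit 5) (nat_lit 4) (nat_lit 4) (nat_lit 389) (nat_lit 227) (nat_lit 164)) (XT.lf (nat_lit 0) (nat_lit 4521415981) (nat_lit 152) (nat_lit 6359038170) (nat_lit 0) (nat_lit 4521415981) (nat_lit 7) (nat_lit 5) (nat_lit 9) (nat_lit 4) (nat_lit 7) (nat_lit 4) (nat_lit 324) (nat_lit 228) (nat_lit 228))) (XT.nd (nat_lit 78) (nat_lit 76) (nat_lit 0) (XT.lf (nat_lit 0) (nat_lit 12969728155) (nat_lit 152) (nat_lit 6470322317) (nat_lit 0) (nat_lit 12714106546) (nat_lit 7) (nat_lit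 5) (nat_lit 9) (nat_lit 4) (nat_lit 7) (nat_lit 4) (nat_lit 325) (nat_lit 228) (nat_lit 227)) (XT.nd (nat_lit 78) (nat_lit 76) (nat_lit 0) (XT.lf (nat_lit 0) (nat_lit 16975097076) (nat_lit 152) (nat_lit 126947084) (nat_lit 0) (nat_lit 16476026316) (nat_lit 7) (nat_lit 5) (nat_lit 9) (nat_lit 4) (nat_lit 7) (nat_lit 4) (nat_lit 326) (nat_lit 228) (nat_lit 226)) (XT.lf (nat_lit 0) (nat_lit 6536356872) (nat_lit 76) (nat_lit 14634169295) (nat_lit 76) (nat_lit 13903242201) (nat_lit 6) (nat_lit 4) (nat_lit 7) (nat_lit 5) (nat_lit 7) (nat_lit 4) (nat_lit 327) (nat_lit 228) (nat_lit 225))))) (XT.nd (nat_lit 156) (nat_lit 76) (nat_lit 0) (XT.nd (nat_lit 78) (nat_lit 0) (nat_lit 0) (XT.lf (nat_lit 0) (nat_lit 13334118813) (nat_lit 76) (nat_lit 12133673173) (nat_lit 76) (nat_lit 11181930523) (nat_lit 6) (nat_lit 4) (nat_lit 7) (nat_lit 5) (nat_lit 7) (nat_lit 4) (nat_lit 328) (nat_lit 228) (nat_lit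 224)) (XT.lf (nat_lit 0) (nat_lit 20278326441) (nat_lit 76) (nat_lit 9596752142) (nat_lit 76) (nat_lit 8434708962) (nat_lit 6) (nat_lit 4) (nat_lit 7) (nat_lit 5) (nat_lit 7) (nat_lit 4) (nat_lit 329) (nat_lit 228) (nat_lit 223))) (XT.nd (nat_lit 78) (nat_lit 76) (nat_lit 0) (XT.lf (nat_lit 0) (nat_lit 27385513582) (nat_lit 76) (nat_lit 7017365914) (nat_lit 76) (nat_lit 5655036514) (nat_lit 6) (nat_lit 4) (nat_lit 7) (nat_lit 5) (nat_lit 7) (nat_lit 4) (nat_lit 330) (nat_lit 228) (nat_lit 222)) (XT.nd (nat_lit 78) (nat_lit 76) (nat_lit 0) (XT.lf (nat_lit 0) (nat_lit 34672602113) (nat_lit 76) (nat_lit 4389373093) (nat_lit 76) (nat_lit 2836294914) (nat_lit 6) (nat_lit 4) (nat_lit 7) (nat_lit 5) (nat_lit 7) (nat_lit 4) (nat_lit 331) (nat_lit 228) (nat_lit 221)) (XT.lf (nat_lit 0) (nat_lit 27323685) (nat_lit 152) (nat_lit 1678730129) (nat_lit 76) (nat_lit 42129155818) (nat_lit 5) (nat_lit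 5) (nat_lit 7) (nat_lit 5) (nat_lit 6) (nat_lit 4) (nat_lit 332) (nat_lit 228) (nat_lit 220)))))) (XT.nd (nat_lit 390) (nat_lit 0) (nat_lit 0) (XT.nd (nat_lit 156) (nat_lit 0) (nat_lit 0) (XT.nd (nat_lit 78) (nat_lit 0) (nat_lit 0) (XT.lf (nat_lit 0) (nat_lit 2932574147) (nat_lit 152) (nat_lit 41818803030) (nat_lit 0) (nat_lit 1115661337) (nat_lit 4) (nat_lit 5) (nat_lit 6) (nat_lit 4) (nat_lit 4) (nat_lit 4) (nat_lit 333) (nat_lit 228) (nat_lit 219)) (XT.lf (nat_lit 0) (nat_lit 5952767182) (nat_lit 152) (nat_lit 38070335806) (nat_lit 0) (nat_lit 3978924879) (nat_lit 4) (nat_lit 5) (nat_lit 6) (nat_lit 4) (nat_lit 4) (nat_lit 4) (nat_lit 334) (nat_lit 228) (nat_lit 218))) (XT.nd (nat_lit 78) (nat_lit 0) (nat_lit 0) (XT.lf (nat_lit 0) (nat_lit 9040937279) (nat_lit 152) (nat_lit 34289393227) (nat_lit 0) (nat_lit 6917638315) (nat_lit 4) (nat_lit 5) (nat_lit 6) (nat_lit 4) (nat_lit 4) (nat_lit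 4) (nat_lit 335) (nat_lit 228) (nat_lit 217)) (XT.nd (nat_lit 78) (nat_lit 0) (nat_lit 0) (XT.lf (nat_lit 0) (nat_lit 12204437222) (nat_lit 152) (nat_lit 30466973049) (nat_lit 0) (nat_lit 9938798582) (nat_lit 4) (nat_lit 5) (nat_lit 6) (nat_lit 4) (nat_lit 4) (nat_lit 4) (nat_lit 336) (nat_lit 228) (nat_lit 216)) (XT.lf (nat_lit 0) (nat_lit 15450799156) (nat_lit 152) (nat_lit 26593974270) (nat_lit 0) (nat_lit 13049598918) (nat_lit 4) (nat_lit 5) (nat_lit 6) (nat_lit 4) (nat_lit 4) (nat_lit 4) (nat_lit 337) (nat_lit 228) (nat_lit 215))))) (XT.nd (nat_lit 156) (nat_lit 0) (nat_lit 0) (XT.nd (nat_lit 78) (nat_lit 0) (nat_lit 0) (XT.lf (nat_lit 0) (nat_lit 18787752512) (nat_lit 152) (nat_lit 22661175467) (nat_lit 0) (nat_lit 16257445992) (nat_lit 4) (nat_lit 5) (nat_lit 6) (nat_lit 4) (nat_lit 4) (nat_lit 4) (nat_lit 338) (nat_lit 228) (nat_lit 214)) (XT.lf (nat_lit 0) (nat_lit 22223242419)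 (nat_lit 152) (nat_lit 18659212830) (nat_lit 0) (nat_lit 19569977535) (nat_lit 4) (nat_lit 5) (nat_lit 6) (nat_lit 4) (nat_lit 4) (nat_lit 4) (nat_lit 339) (nat_lit 228) (nat_lit 213))) (XT.nd (nat_lit 78) (nat_lit 0) (nat_lit 0) (XT.lf (nat_lit 0) (nat_lit 25765448614) (nat_lit 152) (nat_lit 14578557880) (nat_lit 0) (nat_lit 22995080526) (nat_lit 4) (nat_lit 5) (nat_lit 6) (nat_lit 4) (nat_lit 4) (nat_lit 4) (nat_lit 340) (nat_lit 228) (nat_lit 212)) (XT.nd (nat_lit 78) (nat_lit 0) (nat_lit 0) (XT.lf (nat_lit 0) (nat_lit 29422804921) (nat_lit 152) (nat_lit 10409494769) (nat_lit 0) (nat_lit 26540909972) (nat_lit 4) (nat_lit 5) (nat_lit 6) (nat_lit 4) (nat_lit 4) (nat_lit 4) (nat_lit 341) (nat_lit 228) (nat_lit 211)) (XT.lf (nat_lit 0) (nat_lit 33204019332) (nat_lit 152) (nat_lit 6142097158) (nat_lit 0) (nat_lit 30215908324) (nat_lit 4) (nat_lit 5) (nat_lit 6) (nat_lit 4) (nat_lit 4)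 (nat_lit 4) (nat_lit 342) (nat_lit 228) (nat_lit 210))))))))
noncomputable def xc28 : XT := (XT.nd (nat_lit 1482) (nat_lit 0) (nat_lit 0) (XT.nd (nat_lit 702) (nat_lit 0) (nat_lit 0) (XT.nd (nat_lit 312) (nat_lit 0) (nat_lit 0) (XT.nd (nat_lit 156) (nat_lit 0) (nat_lit 0) (XT.nd (nat_lit 78) (nat_lit 76) (nat_lit 0) (XT.lf (nat_lit 0) (nat_lit 37118094738) (nat_lit 152) (nat_lit 1766204576) (nat_lit 0) (nat_lit 34028825579) (nat_lit 4) (nat_lit 5) (nat_lit 6) (nat_lit 4) (nat_lit 4) (nat_lit 4) (nat_lit 343) (nat_lit 228) (nat_lit 209)) (XT.lf (nat_lit 0) (nat_lit 2818821666) (nat_lit 76) (nat_lit 38399538405) (nat_lit 76) (nat_lit 35213928151) (nat_lit 3) (nat_lit 4) (nat_lit 4) (nat_lit 5) (nat_lit 4) (nat_lit 4) (nat_lit 344) (nat_lit 228) (nat_lit 208))) (XT.nd (nat_lit 78) (nat_lit 0) (nat_lit 0) (XT.lf (nat_lit 0) (nat_lit 7596147970) (nat_lit 76) (nat_lit 37904893154) (nat_lit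 76) (nat_lit 34627529475) (nat_lit 3) (nat_lit 4) (nat_lit 4) (nat_lit 5) (nat_lit 4) (nat_lit 4) (nat_lit 345) (nat_lit 228) (nat_lit 207)) (XT.lf (nat_lit 0) (nat_lit 12518750224) (nat_lit 76) (nat_lit 37429097363) (nat_lit 76) (nat_lit 34064349470) (nat_lit 3) (nat_lit 4) (nat_lit 4) (nat_lit 5) (nat_lit 4) (nat_lit 4) (nat_lit 346) (nat_lit 228) (nat_lit 206)))) (XT.nd (nat_lit 156) (nat_lit 0) (nat_lit 0) (XT.nd (nat_lit 78) (nat_lit 0) (nat_lit 0) (XT.lf (nat_lit 0) (nat_lit 17598348908) (nat_lit 76) (nat_lit 36971018184) (nat_lit 76) (nat_lit 33523047231) (nat_lit 3) (nat_lit 4) (nat_lit 4) (nat_lit 5) (nat_lit 4) (nat_lit 4) (nat_lit 347) (nat_lit 228) (nat_lit 205)) (XT.lf (nat_lit 0) (nat_lit 22847038305) (nat_lit 76) (nat_lit 36529564954) (nat_lit 76) (nat_lit 33002333942) (nat_lit 3) (nat_lit 4) (nat_lit 4) (nat_lit 5) (nat_lit 4) (nat_lit 4) (nat_lit 348) (nat_lit 228)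 (nat_lit 204))) (XT.nd (nat_lit 78) (nat_lit 0) (nat_lit 0) (XT.lf (nat_lit 0) (nat_lit 28277315296) (nat_lit 76) (nat_lit 36103686592) (nat_lit 76) (nat_lit 32500969811) (nat_lit 3) (nat_lit 4) (nat_lit 4) (nat_lit 5) (nat_lit 4) (nat_lit 4) (nat_lit 349) (nat_lit 228) (nat_lit 203)) (XT.nd (nat_lit 78) (nat_lit 0) (nat_lit 0) (XT.lf (nat_lit 0) (nat_lit 33902109109) (nat_lit 76) (nat_lit 35692369103) (nat_lit 76) (nat_lit 32017761112) (nat_lit 3) (nat_lit 4) (nat_lit 4) (nat_lit 5) (nat_lit 4) (nat_lit 4) (nat_lit 350) (nat_lit 228) (nat_lit 202)) (XT.lf (nat_lit 0) (nat_lit 39734812113) (nat_lit 76) (nat_lit 35294633159) (nat_lit 76) (nat_lit 31551557350) (nat_lit 3) (nat_lit 4) (nat_lit 4) (nat_lit 5) (nat_lit 4) (nat_lit 4) (nat_lit 351) (nat_lit 228) (nat_lit 201)))))) (XT.nd (nat_lit 390) (nat_lit 0) (nat_lit 0) (XT.nd (nat_lit 156) (nat_lit 0) (nat_lit 0) (XT.nd (nat_lit 78)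 (nat_lit 0) (nat_lit 0) (XT.lf (nat_lit 0) (nat_lit 45789311694) (nat_lit 76) (nat_lit 34909531770) (nat_lit 76) (nat_lit 31101248516) (nat_lit 3) (nat_lit 4) (nat_lit 4) (nat_lit 5) (nat_lit 4) (nat_lit 4) (nat_lit 352) (nat_lit 228) (nat_lit 200)) (XT.lf (nat_lit 0) (nat_lit 52080023329) (nat_lit 76) (nat_lit 34536148028) (nat_lit 76) (nat_lit 30665762444) (nat_lit 3) (nat_lit 4) (nat_lit 4) (nat_lit 5) (nat_lit 4) (nat_lit 4) (nat_lit 353) (nat_lit 228) (nat_lit 199))) (XT.nd (nat_lit 78) (nat_lit 0) (nat_lit 0) (XT.lf (nat_lit 0) (nat_lit 58621924902) (nat_lit 76) (nat_lit 34173592924) (nat_lit 76) (nat_lit 30244062265) (nat_lit 3) (nat_lit 4) (nat_lit 4) (nat_lit 5) (nat_lit 4) (nat_lit 4) (nat_lit 354) (nat_lit 228) (nat_lit 198)) (XT.nd (nat_lit 78) (nat_lit 0) (nat_lit 0) (XT.lf (nat_lit 0) (nat_lit 65430592369) (nat_lit 76) (nat_lit 33821003232) (nat_lit 76) (nat_lit 29835143929)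 (nat_lit 3) (nat_lit 4) (nat_lit 4) (nat_lit 5) (nat_lit 4) (nat_lit 4) (nat_lit 355) (nat_lit 228) (nat_lit 197)) (XT.lf (nat_lit 0) (nat_lit 72522236843) (nat_lit 76) (nat_lit 33477539452) (nat_lit 76) (nat_lit 29438033822) (nat_lit 3) (nat_lit 4) (nat_lit 4) (nat_lit 5) (nat_lit 4) (nat_lit 4) (nat_lit 356) (nat_lit 228) (nat_lit 196))))) (XT.nd (nat_lit 156) (nat_lit 0) (nat_lit 0) (XT.nd (nat_lit 78) (nat_lit 0) (nat_lit 0) (XT.lf (nat_lit 0) (nat_lit 79913743191) (nat_lit 76) (nat_lit 33142383814) (nat_lit 76) (nat_lit 29051786444) (nat_lit 3) (nat_lit 4) (nat_lit 4) (nat_lit 5) (nat_lit 4) (nat_lit 4) (nat_lit 357) (nat_lit 228) (nat_lit 195)) (XT.lf (nat_lit 0) (nat_lit 87622710240) (nat_lit 76) (nat_lit 32814738327) (nat_lit 76) (nat_lit 28675482157) (nat_lit 3) (nat_lit 4) (nat_lit 4) (nat_lit 5) (nat_lit 4) (nat_lit 4) (nat_lit 358) (nat_lit 228) (nat_lit 194))) (XT.nd (nat_lit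 78) (nat_lit 0) (nat_lit 0) (XT.lf (nat_lit 0) (nat_lit 95667492671) (nat_lit 76) (nat_lit 32493822884) (nat_lit 76) (nat_lit 28308224999) (nat_lit 3) (nat_lit 4) (nat_lit 4) (nat_lit 5) (nat_lit 4) (nat_lit 4) (nat_lit 359) (nat_lit 228) (nat_lit 193)) (XT.nd (nat_lit 78) (nat_lit 0) (nat_lit 0) (XT.lf (nat_lit 0) (nat_lit 104067244730) (nat_lit 76) (nat_lit 32178873400) (nat_lit 76) (nat_lit 27949140549) (nat_lit 3) (nat_lit 4) (nat_lit 4) (nat_lit 5) (nat_lit 4) (nat_lit 4) (nat_lit 360) (nat_lit 228) (nat_lit 192)) (XT.lf (nat_lit 0) (nat_lit 112841965825) (nat_lit 76) (nat_lit 31869139995) (nat_lit 76) (nat_lit 27597373843) (nat_lit 3) (nat_lit 4) (nat_lit 4) (nat_lit 5) (nat_lit 4) (nat_lit 4) (nat_lit 361) (nat_lit 228) (nat_lit 191))))))) (XT.nd (nat_lit 780) (nat_lit 0) (nat_lit 0) (XT.nd (nat_lit 390) (nat_lit 0) (nat_lit 0) (XT.nd (nat_lit 156) (nat_lit 0) (nat_lit 0) (XT.nd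 (nat_lit 78) (nat_lit 0) (nat_lit 0) (XT.lf (nat_lit 0) (nat_lit 122012548149) (nat_lit 76) (nat_lit 31563885209) (nat_lit 76) (nat_lit 27252087342) (nat_lit 3) (nat_lit 4) (nat_lit 4) (nat_lit 5) (nat_lit 4) (nat_lit 4) (nat_lit 362) (nat_lit 228) (nat_lit 190)) (XT.lf (nat_lit 0) (nat_lit 131600826423) (nat_lit 76) (nat_lit 31262382245) (nat_lit 76) (nat_lit 26912458935) (nat_lit 3) (nat_lit 4) (nat_lit 4) (nat_lit 5) (nat_lit 4) (nat_lit 4) (nat_lit 363) (nat_lit 228) (nat_lit 189))) (XT.nd (nat_lit 78) (nat_lit 0) (nat_lit 0) (XT.lf (nat_lit 0) (nat_lit 141629629881) (nat_lit 76) (nat_lit 30963913239) (nat_lit 76) (nat_lit 26577679983) (nat_lit 3) (nat_lit 4) (nat_lit 4) (nat_lit 5) (nat_lit 4) (nat_lit 4) (nat_lit 364) (nat_lit 228) (nat_lit 188)) (XT.nd (nat_lit 78) (nat_lit 0) (nat_lit 0) (XT.lf (nat_lit 0) (nat_lit 152122836625) (nat_lit 76) (nat_lit 30667767550) (nat_lit 76)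 (nat_lit 26246953393) (nat_lit 3) (nat_lit 4) (nat_lit 4) (nat_lit 5) (nat_lit 4) (nat_lit 4) (nat_lit 365) (nat_lit 228) (nat_lit 187)) (XT.lf (nat_lit 0) (nat_lit 163105430482) (nat_lit 76) (nat_lit 30373240069) (nat_lit 76) (nat_lit 25919491721) (nat_lit 3) (nat_lit 4) (nat_lit 4) (nat_lit 5) (nat_lit 4) (nat_lit 4) (nat_lit 366) (nat_lit 228) (nat_lit 186))))) (XT.nd (nat_lit 156) (nat_lit 0) (nat_lit 0) (XT.nd (nat_lit 78) (nat_lit 0) (nat_lit 0) (XT.lf (nat_lit 0) (nat_lit 174603560484) (nat_lit 76) (nat_lit 30079629540) (nat_lit 76) (nat_lit 25594515296) (nat_lit 3) (nat_lit 4) (nat_lit 4) (nat_lit 5) (nat_lit 4) (nat_lit 4) (nat_lit 367) (nat_lit 228) (nat_lit 185)) (XT.lf (nat_lit 0) (nat_lit 186644603132) (nat_lit 76) (nat_lit 29786236891) (nat_lit 76) (nat_lit 25271250365) (nat_lit 3) (nat_lit 4) (nat_lit 4) (nat_lit 5) (nat_lit 4) (nat_lit 4) (nat_lit 368) (nat_lit 228)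 (nat_lit 184))) (XT.nd (nat_lit 78) (nat_lit 0) (nat_lit 0) (XT.lf (nat_lit 0) (nat_lit 199257227575) (nat_lit 76) (nat_lit 29492363568) (nat_lit 76) (nat_lit 24948927249) (nat_lit 3) (nat_lit 4) (nat_lit 4) (nat_lit 5) (nat_lit 4) (nat_lit 4) (nat_lit 369) (nat_lit 228) (nat_lit 183)) (XT.nd (nat_lit 78) (nat_lit 0) (nat_lit 0) (XT.lf (nat_lit 0) (nat_lit 212471463870) (nat_lit 76) (nat_lit 29197309873) (nat_lit 76) (nat_lit 24626778513) (nat_lit 3) (nat_lit 4) (nat_lit 4) (nat_lit 5) (nat_lit 4) (nat_lit 4) (nat_lit 370) (nat_lit 228) (nat_lit 182)) (XT.lf (nat_lit 0) (nat_lit 226318774486) (nat_lit 76) (nat_lit 28900373296) (nat_lit 76) (nat_lit 24304037136) (nat_lit 3) (nat_lit 4) (nat_lit 4) (nat_lit 5) (nat_lit 4) (nat_lit 4) (nat_lit 371) (nat_lit 228) (nat_lit 181)))))) (XT.nd (nat_lit 390) (nat_lit 0) (nat_lit 0) (XT.nd (nat_lit 156) (nat_lit 0) (nat_lit 0) (XT.nd (nat_lit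 78) (nat_lit 0) (nat_lit 0) (XT.lf (nat_lit 0) (nat_lit 240832129209) (nat_lit 76) (nat_lit 28600846846) (nat_lit 76) (nat_lit 23979934685) (nat_lit 3) (nat_lit 4) (nat_lit 4) (nat_lit 5) (nat_lit 4) (nat_lit 4) (nat_lit 372) (nat_lit 228) (nat_lit 180)) (XT.lf (nat_lit 0) (nat_lit 256046083646) (nat_lit 76) (nat_lit 28298017364) (nat_lit 76) (nat_lit 23653699489) (nat_lit 3) (nat_lit 4) (nat_lit 4) (nat_lit 5) (nat_lit 4) (nat_lit 4) (nat_lit 373) (nat_lit 228) (nat_lit 179))) (XT.nd (nat_lit 78) (nat_lit 0) (nat_lit 0) (XT.lf (nat_lit 0) (nat_lit 271996861498) (nat_lit 76) (nat_lit 27991163828) (nat_lit 76) (nat_lit 23324554796) (nat_lit 3) (nat_lit 4) (nat_lit 4) (nat_lit 5) (nat_lit 4) (nat_lit 4) (nat_lit 374) (nat_lit 228) (nat_lit 178)) (XT.nd (nat_lit 78) (nat_lit 0) (nat_lit 0) (XT.lf (nat_lit 0) (nat_lit 288722440808) (nat_lit 76) (nat_lit 27679555635) (nat_lit 76) (nat_lit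 22991716929) (nat_lit 3) (nat_lit 4) (nat_lit 4) (nat_lit 5) (nat_lit 4) (nat_lit 4) (nat_lit 375) (nat_lit 228) (nat_lit 177)) (XT.lf (nat_lit 0) (nat_lit 306262644382) (nat_lit 76) (nat_lit 27362450860) (nat_lit 76) (nat_lit 22654393417) (nat_lit 3) (nat_lit 4) (nat_lit 4) (nat_lit 5) (nat_lit 4) (nat_lit 4) (nat_lit 376) (nat_lit 228) (nat_lit 176))))) (XT.nd (nat_lit 156) (nat_lit 0) (nat_lit 0) (XT.nd (nat_lit 78) (nat_lit 0) (nat_lit 0) (XT.lf (nat_lit 0) (nat_lit 324659234612) (nat_lit 76) (nat_lit 27039094491) (nat_lit 76) (nat_lit 22311781109) (nat_lit 3) (nat_lit 4) (nat_lit 4) (nat_lit 5) (nat_lit 4) (nat_lit 4) (nat_lit 377) (nat_lit 228) (nat_lit 175)) (XT.lf (nat_lit 0) (nat_lit 343956012901) (nat_lit 76) (nat_lit 26708716633) (nat_lit 76) (nat_lit 21963064261) (nat_lit 3) (nat_lit 4) (nat_lit 4) (nat_lit 5) (nat_lit 4) (nat_lit 4) (nat_lit 378) (nat_lit 228) (nat_lit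 174))) (XT.nd (nat_lit 78) (nat_lit 0) (nat_lit 0) (XT.lf (nat_lit 0) (nat_lit 364198923961) (nat_lit 76) (nat_lit 26370530672) (nat_lit 76) (nat_lit 21607412595) (nat_lit 3) (nat_lit 4) (nat_lit 4) (nat_lit 5) (nat_lit 4) (nat_lit 4) (nat_lit 379) (nat_lit 228) (nat_lit 173)) (XT.nd (nat_lit 78) (nat_lit 0) (nat_lit 0) (XT.lf (nat_lit 0) (nat_lit 385436165199) (nat_lit 76) (nat_lit 26023731402) (nat_lit 76) (nat_lit 21243979321) (nat_lit 3) (nat_lit 4) (nat_lit 4) (nat_lit 5) (nat_lit 4) (nat_lit 4) (nat_lit 380) (nat_lit 228) (nat_lit 172)) (XT.lf (nat_lit 0) (nat_lit 407718301474) (nat_lit 76) (nat_lit 25667493112) (nat_lit 76) (nat_lit 20871899122) (nat_lit 3) (nat_lit 4) (nat_lit 4) (nat_lit 5) (nat_lit 4) (nat_lit 4) (nat_lit 381) (nat_lit 228) (nat_lit 171))))))))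
noncomputable def xc29 : XT := (XT.nd (nat_lit 36816) (nat_lit 0) (nat_lit 0) (XT.nd (nat_lit 36036) (nat_lit 0) (nat_lit 228) (XT.nd (nat_lit 312) (nat_lit 0) (nat_lit 0) (XT.nd (nat_lit 156) (nat_lit 0) (nat_lit 0) (XT.nd (nat_lit 78) (nat_lit 0) (nat_lit 0) (XT.lf (nat_lit 0) (nat_lit 431098385492) (nat_lit 76) (nat_lit 25300967615) (nat_lit 76) (nat_lit 20490286092) (nat_lit 3) (nat_lit 4) (nat_lit 4) (nat_lit 5) (nat_lit 4) (nat_lit 4) (nat_lit 382) (nat_lit 228) (nat_lit 170)) (XT.lf (nat_lit 0) (nat_lit 455632084120) (nat_lit 76) (nat_lit 24923282231) (nat_lit 76) (nat_lit 20098231630) (nat_lit 3) (nat_lit 4) (nat_lit 4) (nat_lit 5) (nat_lit 4) (nat_lit 4) (nat_lit 383) (nat_lit 228) (nat_lit 169))) (XT.nd (nat_lit 78) (nat_lit 0) (nat_lit 0) (XT.lf (nat_lit 0) (nat_lit 481377810926) (nat_lit 76) (nat_lit 24533537710) (nat_lit 76) (nat_lit 19694802272) (nat_lit 3) (nat_lit 4)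 (nat_lit 4) (nat_lit 5) (nat_lit 4) (nat_lit 4) (nat_lit 384) (nat_lit 228) (nat_lit 168)) (XT.lf (nat_lit 0) (nat_lit 508396865260) (nat_lit 76) (nat_lit 24130806087) (nat_lit 76) (nat_lit 19279037472) (nat_lit 3) (nat_lit 4) (nat_lit 4) (nat_lit 5) (nat_lit 4) (nat_lit 4) (nat_lit 385) (nat_lit 228) (nat_lit 167)))) (XT.nd (nat_lit 156) (nat_lit 0) (nat_lit 0) (XT.nd (nat_lit 78) (nat_lit 0) (nat_lit 0) (XT.lf (nat_lit 0) (nat_lit 536753578203) (nat_lit 76) (nat_lit 23714128479) (nat_lit 76) (nat_lit 18849947313) (nat_lit 3) (nat_lit 4) (nat_lit 4) (nat_lit 5) (nat_lit 4) (nat_lit 4) (nat_lit 386) (nat_lit 228) (nat_lit 166)) (XT.lf (nat_lit 0) (nat_lit 566515465738) (nat_lit 76) (nat_lit 23282512796) (nat_lit 76) (nat_lit 18406510154) (nat_lit 3) (nat_lit 4) (nat_lit 4) (nat_lit 5) (nat_lit 4) (nat_lit 4) (nat_lit 387) (nat_lit 228) (nat_lit 165))) (XT.nd (nat_lit 78) (nat_lit 0)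 (nat_lit 0) (XT.lf (nat_lit 0) (nat_lit 597753389503) (nat_lit 76) (nat_lit 22834931381) (nat_lit 76) (nat_lit 17947670190) (nat_lit 3) (nat_lit 4) (nat_lit 4) (nat_lit 5) (nat_lit 4) (nat_lit 4) (nat_lit 388) (nat_lit 228) (nat_lit 164)) (XT.nd (nat_lit 35412) (nat_lit 0) (nat_lit 304) (XT.lf (nat_lit 0) (nat_lit 630541725506) (nat_lit 76) (nat_lit 22370318565) (nat_lit 76) (nat_lit 17472334946) (nat_lit 3) (nat_lit 4) (nat_lit 4) (nat_lit 5) (nat_lit 4) (nat_lit 4) (nat_lit 389) (nat_lit 228) (nat_lit 163)) (XT.lf (nat_lit 0) (nat_lit 859509101) (nat_lit 152) (nat_lit 12434726424) (nat_lit 0) (nat_lit 859509101) (nat_lit 7) (nat_lit 5) (nat_lit 9) (nat_lit 4) (nat_lit 7) (nat_lit 4) (nat_lit 322) (nat_lit 229) (nat_lit 229)))))) (XT.nd (nat_lit 390) (nat_lit 0) (nat_lit 0) (XT.nd (nat_lit 156) (nat_lit 76) (nat_lit 0) (XT.nd (nat_lit 78) (nat_lit 0) (nat_lit 0) (XT.lf (nat_lit 0)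 (nat_lit 5453461436) (nat_lit 152) (nat_lit 18885084758) (nat_lit 0) (nat_lit 5185058747) (nat_lit 7) (nat_lit 5) (nat_lit 9) (nat_lit 4) (nat_lit 7) (nat_lit 4) (nat_lit 323) (nat_lit 229) (nat_lit 228)) (XT.lf (nat_lit 0) (nat_lit 9250861147) (nat_lit 152) (nat_lit 12829103080) (nat_lit 0) (nat_lit 8726836849) (nat_lit 7) (nat_lit 5) (nat_lit 9) (nat_lit 4) (nat_lit 7) (nat_lit 4) (nat_lit 324) (nat_lit 229) (nat_lit 227))) (XT.nd (nat_lit 78) (nat_lit 76) (nat_lit 0) (XT.lf (nat_lit 0) (nat_lit 13120258763) (nat_lit 152) (nat_lit 6687088809) (nat_lit 0) (nat_lit 12352785315) (nat_lit 7) (nat_lit 5) (nat_lit 9) (nat_lit 4) (nat_lit 7) (nat_lit 4) (nat_lit 325) (nat_lit 229) (nat_lit 226)) (XT.nd (nat_lit 78) (nat_lit 76) (nat_lit 0) (XT.lf (nat_lit 0) (nat_lit 17070867136) (nat_lit 152) (nat_lit 444418101) (nat_lit 0) (nat_lit 16071537353) (nat_lit 7) (nat_lit 5) (nat_lit 9) (nat_lit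 4) (nat_lit 7) (nat_lit 4) (nat_lit 326) (nat_lit 229) (nat_lit 225)) (XT.lf (nat_lit 0) (nat_lit 6109308571) (nat_lit 76) (nat_lit 15098167333) (nat_lit 76) (nat_lit 13878021993) (nat_lit 6) (nat_lit 4) (nat_lit 7) (nat_lit 5) (nat_lit 7) (nat_lit 4) (nat_lit 327) (nat_lit 229) (nat_lit 224))))) (XT.nd (nat_lit 156) (nat_lit 0) (nat_lit 0) (XT.nd (nat_lit 78) (nat_lit 0) (nat_lit 0) (XT.lf (nat_lit 0) (nat_lit 12812708360) (nat_lit 76) (nat_lit 12640890673) (nat_lit 76) (nat_lit 11210444803) (nat_lit 6) (nat_lit 4) (nat_lit 7) (nat_lit 5) (nat_lit 7) (nat_lit 4) (nat_lit 328) (nat_lit 229) (nat_lit 223)) (XT.lf (nat_lit 0) (nat_lit 19667047272) (nat_lit 76) (nat_lit 10145131034) (nat_lit 76) (nat_lit 8514398946) (nat_lit 6) (nat_lit 4) (nat_lit 7) (nat_lit 5) (nat_lit 7) (nat_lit 4) (nat_lit 329) (nat_lit 229) (nat_lit 222))) (XT.nd (nat_lit 78) (nat_lit 0) (nat_lit 0) (XT.lf (nat_lit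 0) (nat_lit 26688645161) (nat_lit 76) (nat_lit 7604946132) (nat_lit 76) (nat_lit 5783465264) (nat_lit 6) (nat_lit 4) (nat_lit 7) (nat_lit 5) (nat_lit 7) (nat_lit 4) (nat_lit 330) (nat_lit 229) (nat_lit 221)) (XT.nd (nat_lit 78) (nat_lit 0) (nat_lit 0) (XT.lf (nat_lit 0) (nat_lit 33894220118) (nat_lit 76) (nat_lit 5014287908) (nat_lit 76) (nat_lit 3011141535) (nat_lit 6) (nat_lit 4) (nat_lit 7) (nat_lit 5) (nat_lit 7) (nat_lit 4) (nat_lit 331) (nat_lit 229) (nat_lit 220)) (XT.lf (nat_lit 0) (nat_lit 41300928272) (nat_lit 76) (nat_lit 2366988127) (nat_lit 76) (nat_lit 190826987) (nat_lit 6) (nat_lit 4) (nat_lit 7) (nat_lit 5) (nat_lit 7) (nat_lit 4) (nat_lit 332) (nat_lit 229) (nat_lit 219))))))) (XT.nd (nat_lit 780) (nat_lit 76) (nat_lit 0) (XT.nd (nat_lit 390) (nat_lit 0) (nat_lit 0) (XT.nd (nat_lit 156) (nat_lit 0) (nat_lit 0) (XT.nd (nat_lit 78) (nat_lit 0) (nat_lit 0) (XT.lf (nat_lit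 0) (nat_lit 2653271975) (nat_lit 152) (nat_lit 42817030024) (nat_lit 0) (nat_lit 423808063) (nat_lit 4) (nat_lit 5) (nat_lit 6) (nat_lit 4) (nat_lit 4) (nat_lit 4) (nat_lit 333) (nat_lit 229) (nat_lit 218)) (XT.lf (nat_lit 0) (nat_lit 5632961308) (nat_lit 152) (nat_lit 39144147193) (nat_lit 0) (nat_lit 3254040735) (nat_lit 4) (nat_lit 5) (nat_lit 6) (nat_lit 4) (nat_lit 4) (nat_lit 4) (nat_lit 334) (nat_lit 229) (nat_lit 217))) (XT.nd (nat_lit 78) (nat_lit 0) (nat_lit 0) (XT.lf (nat_lit 0) (nat_lit 8682556449) (nat_lit 152) (nat_lit 35435189750) (nat_lit 0) (nat_lit 6161296200) (nat_lit 4) (nat_lit 5) (nat_lit 6) (nat_lit 4) (nat_lit 4) (nat_lit 4) (nat_lit 335) (nat_lit 229) (nat_lit 216)) (XT.nd (nat_lit 78) (nat_lit 0) (nat_lit 0) (XT.lf (nat_lit 0) (nat_lit 11809318340) (nat_lit 152) (nat_lit 31681326844) (nat_lit 0) (nat_lit 9152496495) (nat_lit 4) (nat_lit 5) (nat_lit 6) (nat_lit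 4) (nat_lit 4) (nat_lit 4) (nat_lit 336) (nat_lit 229) (nat_lit 215)) (XT.lf (nat_lit 0) (nat_lit 15020691653) (nat_lit 152) (nat_lit 27873620707) (nat_lit 0) (nat_lit 12234763524) (nat_lit 4) (nat_lit 5) (nat_lit 6) (nat_lit 4) (nat_lit 4) (nat_lit 4) (nat_lit 337) (nat_lit 229) (nat_lit 214))))) (XT.nd (nat_lit 156) (nat_lit 0) (nat_lit 0) (XT.nd (nat_lit 78) (nat_lit 0) (nat_lit 0) (XT.lf (nat_lit 0) (nat_lit 18324322513) (nat_lit 152) (nat_lit 24003005370) (nat_lit 0) (nat_lit 15415436020) (nat_lit 4) (nat_lit 5) (nat_lit 6) (nat_lit 4) (nat_lit 4) (nat_lit 4) (nat_lit 338) (nat_lit 229) (nat_lit 213)) (XT.lf (nat_lit 0) (nat_lit 21728076709) (nat_lit 152) (nat_lit 20060265084) (nat_lit 0) (nat_lit 18702087012) (nat_lit 4) (nat_lit 5) (nat_lit 6) (nat_lit 4) (nat_lit 4) (nat_lit 4) (nat_lit 339) (nat_lit 229) (nat_lit 212))) (XT.nd (nat_lit 78) (nat_lit 0) (nat_lit 0) (XT.lf (nat_lit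 0) (nat_lit 25240058417) (nat_lit 152) (nat_lit 16036012371) (nat_lit 0) (nat_lit 22102541859) (nat_lit 4) (nat_lit 5) (nat_lit 6) (nat_lit 4) (nat_lit 4) (nat_lit 4) (nat_lit 340) (nat_lit 229) (nat_lit 211)) (XT.nd (nat_lit 78) (nat_lit 0) (nat_lit 0) (XT.lf (nat_lit 0) (nat_lit 28868629499) (nat_lit 152) (nat_lit 11920665677) (nat_lit 0) (nat_lit 25624896883) (nat_lit 4) (nat_lit 5) (nat_lit 6) (nat_lit 4) (nat_lit 4) (nat_lit 4) (nat_lit 341) (nat_lit 229) (nat_lit 210)) (XT.lf (nat_lit 0) (nat_lit 32622429410) (nat_lit 152) (nat_lit 7704426559) (nat_lit 0) (nat_lit 29277538643) (nat_lit 4) (nat_lit 5) (nat_lit 6) (nat_lit 4) (nat_lit 4) (nat_lit 4) (nat_lit 342) (nat_lit 229) (nat_lit 209)))))) (XT.nd (nat_lit 390) (nat_lit 0) (nat_lit 0) (XT.nd (nat_lit 156) (nat_lit 0) (nat_lit 0) (XT.nd (nat_lit 78) (nat_lit 76) (nat_lit 0) (XT.lf (nat_lit 0) (nat_lit 36510395768) (nat_lit 152)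 (nat_lit 3377256350) (nat_lit 0) (nat_lit 33069163905) (nat_lit 4) (nat_lit 5) (nat_lit 6) (nat_lit 4) (nat_lit 4) (nat_lit 4) (nat_lit 343) (nat_lit 229) (nat_lit 208)) (XT.lf (nat_lit 0) (nat_lit 1106564715) (nat_lit 76) (nat_lit 39452497497) (nat_lit 76) (nat_lit 35919512209) (nat_lit 3) (nat_lit 4) (nat_lit 4) (nat_lit 5) (nat_lit 4) (nat_lit 4) (nat_lit 344) (nat_lit 229) (nat_lit 207))) (XT.nd (nat_lit 78) (nat_lit 0) (nat_lit 0) (XT.lf (nat_lit 0) (nat_lit 5838237182) (nat_lit 76) (nat_lit 38979111622) (nat_lit 76) (nat_lit 35358742121) (nat_lit 3) (nat_lit 4) (nat_lit 4) (nat_lit 5) (nat_lit 4) (nat_lit 4) (nat_lit 345) (nat_lit 229) (nat_lit 206)) (XT.nd (nat_lit 78) (nat_lit 0) (nat_lit 0) (XT.lf (nat_lit 0) (nat_lit 10717359591) (nat_lit 76) (nat_lit 38523562856) (nat_lit 76) (nat_lit 34819970294) (nat_lit 3) (nat_lit 4) (nat_lit 4) (nat_lit 5) (nat_lit 4) (nat_lit 4) (nat_lit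 346) (nat_lit 229) (nat_lit 205)) (XT.lf (nat_lit 0) (nat_lit 15755548899) (nat_lit 76) (nat_lit 38084766559) (nat_lit 76) (nat_lit 34301913939) (nat_lit 3) (nat_lit 4) (nat_lit 4) (nat_lit 5) (nat_lit 4) (nat_lit 4) (nat_lit 347) (nat_lit 229) (nat_lit 204))))) (XT.nd (nat_lit 156) (nat_lit 0) (nat_lit 0) (XT.nd (nat_lit 78) (nat_lit 0) (nat_lit 0) (XT.lf (nat_lit 0) (nat_lit 20964800795) (nat_lit 76) (nat_lit 37661677977) (nat_lit 76) (nat_lit 33803339588) (nat_lit 3) (nat_lit 4) (nat_lit 4) (nat_lit 5) (nat_lit 4) (nat_lit 4) (nat_lit 348) (nat_lit 229) (nat_lit 203)) (XT.lf (nat_lit 0) (nat_lit 26357518261) (nat_lit 76) (nat_lit 37253289757) (nat_lit 76) (nat_lit 33323060159) (nat_lit 3) (nat_lit 4) (nat_lit 4) (nat_lit 5) (nat_lit 4) (nat_lit 4) (nat_lit 349) (nat_lit 229) (nat_lit 202))) (XT.nd (nat_lit 78) (nat_lit 0) (nat_lit 0) (XT.lf (nat_lit 0) (nat_lit 31946541098) (nat_lit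 76) (nat_lit 36858629546) (nat_lit 76) (nat_lit 32859932129) (nat_lit 3) (nat_lit 4) (nat_lit 4) (nat_lit 5) (nat_lit 4) (nat_lit 4) (nat_lit 350) (nat_lit 229) (nat_lit 201)) (XT.nd (nat_lit 78) (nat_lit 0) (nat_lit 0) (XT.lf (nat_lit 0) (nat_lit 37745176506) (nat_lit 76) (nat_lit 36476757677) (nat_lit 76) (nat_lit 32412852814) (nat_lit 3) (nat_lit 4) (nat_lit 4) (nat_lit 5) (nat_lit 4) (nat_lit 4) (nat_lit 351) (nat_lit 229) (nat_lit 200)) (XT.lf (nat_lit 0) (nat_lit 43767230757) (nat_lit 76) (nat_lit 36106764930) (nat_lit 76) (nat_lit 31980757738) (nat_lit 3) (nat_lit 4) (nat_lit 4) (nat_lit 5) (nat_lit 4) (nat_lit 4) (nat_lit 352) (nat_lit 229) (nat_lit 199))))))))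
noncomputable def xc30 : XT := (XT.nd (nat_lit 1482) (nat_lit 0) (nat_lit 0) (XT.nd (nat_lit 702) (nat_lit 0) (nat_lit 0) (XT.nd (nat_lit 312) (nat_lit 0) (nat_lit 0) (XT.nd (nat_lit 156) (nat_lit 0) (nat_lit 0) (XT.nd (nat_lit 78) (nat_lit 0) (nat_lit 0) (XT.lf (nat_lit 0) (nat_lit 50027042078) (nat_lit 76) (nat_lit 35747770371) (nat_lit 76) (nat_lit 31562618103) (nat_lit 3) (nat_lit 4) (nat_lit 4) (nat_lit 5) (nat_lit 4) (nat_lit 4) (nat_lit 353) (nat_lit 229) (nat_lit 198)) (XT.lf (nat_lit 0) (nat_lit 56539514780) (nat_lit 76) (nat_lit 35398919251) (nat_lit 76) (nat_lit 31157438340) (nat_lit 3) (nat_lit 4) (nat_lit 4) (nat_lit 5) (nat_lit 4) (nat_lit 4) (nat_lit 354) (nat_lit 229) (nat_lit 197))) (XT.nd (nat_lit 78) (nat_lit 0) (nat_lit 0) (XT.lf (nat_lit 0) (nat_lit 63320154751) (nat_lit 76) (nat_lit 35059380972) (nat_lit 76) (nat_lit 30764253733) (nat_lit 3) (nat_lit 4) (nat_lit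 4) (nat_lit 5) (nat_lit 4) (nat_lit 4) (nat_lit 355) (nat_lit 229) (nat_lit 196)) (XT.lf (nat_lit 0) (nat_lit 70385106372) (nat_lit 76) (nat_lit 34728347109) (nat_lit 76) (nat_lit 30382128131) (nat_lit 3) (nat_lit 4) (nat_lit 4) (nat_lit 5) (nat_lit 4) (nat_lit 4) (nat_lit 356) (nat_lit 229) (nat_lit 195)))) (XT.nd (nat_lit 156) (nat_lit 0) (nat_lit 0) (XT.nd (nat_lit 78) (nat_lit 0) (nat_lit 0) (XT.lf (nat_lit 0) (nat_lit 77751190956) (nat_lit 76) (nat_lit 34405029487) (nat_lit 76) (nat_lit 30010151708) (nat_lit 3) (nat_lit 4) (nat_lit 4) (nat_lit 5) (nat_lit 4) (nat_lit 4) (nat_lit 357) (nat_lit 229) (nat_lit 194)) (XT.lf (nat_lit 0) (nat_lit 85435946800) (nat_lit 76) (nat_lit 34088658302) (nat_lit 76) (nat_lit 29647438809) (nat_lit 3) (nat_lit 4) (nat_lit 4) (nat_lit 5) (nat_lit 4) (nat_lit 4) (nat_lit 358) (nat_lit 229) (nat_lit 193))) (XT.nd (nat_lit 78) (nat_lit 0) (nat_lit 0)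 (XT.lf (nat_lit 0) (nat_lit 93457670942) (nat_lit 76) (nat_lit 33778480289) (nat_lit 76) (nat_lit 29293125829) (nat_lit 3) (nat_lit 4) (nat_lit 4) (nat_lit 5) (nat_lit 4) (nat_lit 4) (nat_lit 359) (nat_lit 229) (nat_lit 192)) (XT.nd (nat_lit 78) (nat_lit 0) (nat_lit 0) (XT.lf (nat_lit 0) (nat_lit 101835462724) (nat_lit 76) (nat_lit 33473756928) (nat_lit 76) (nat_lit 28946369168) (nat_lit 3) (nat_lit 4) (nat_lit 4) (nat_lit 5) (nat_lit 4) (nat_lit 4) (nat_lit 360) (nat_lit 229) (nat_lit 191)) (XT.lf (nat_lit 0) (nat_lit 110589269270) (nat_lit 76) (nat_lit 33173762689) (nat_lit 76) (nat_lit 28606343214) (nat_lit 3) (nat_lit 4) (nat_lit 4) (nat_lit 5) (nat_lit 4) (nat_lit 4) (nat_lit 361) (nat_lit 229) (nat_lit 190)))))) (XT.nd (nat_lit 390) (nat_lit 0) (nat_lit 0) (XT.nd (nat_lit 156) (nat_lit 0) (nat_lit 0) (XT.nd (nat_lit 78) (nat_lit 0) (nat_lit 0) (XT.lf (nat_lit 0) (nat_lit 119739932976)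 (nat_lit 76) (nat_lit 32877783299) (nat_lit 76) (nat_lit 28272238380) (nat_lit 3) (nat_lit 4) (nat_lit 4) (nat_lit 5) (nat_lit 4) (nat_lit 4) (nat_lit 362) (nat_lit 229) (nat_lit 189)) (XT.lf (nat_lit 0) (nat_lit 129309241138) (nat_lit 76) (nat_lit 32585114045) (nat_lit 76) (nat_lit 27943259181) (nat_lit 3) (nat_lit 4) (nat_lit 4) (nat_lit 5) (nat_lit 4) (nat_lit 4) (nat_lit 363) (nat_lit 229) (nat_lit 188))) (XT.nd (nat_lit 78) (nat_lit 0) (nat_lit 0) (XT.lf (nat_lit 0) (nat_lit 139319977822) (nat_lit 76) (nat_lit 32295058096) (nat_lit 76) (nat_lit 27618622331) (nat_lit 3) (nat_lit 4) (nat_lit 4) (nat_lit 5) (nat_lit 4) (nat_lit 4) (nat_lit 364) (nat_lit 229) (nat_lit 187)) (XT.nd (nat_lit 78) (nat_lit 0) (nat_lit 0) (XT.lf (nat_lit 0) (nat_lit 149795978115) (nat_lit 76) (nat_lit 32006924842) (nat_lit 76) (nat_lit 27297554886) (nat_lit 3) (nat_lit 4) (nat_lit 4) (nat_lit 5) (nat_lit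 4) (nat_lit 4) (nat_lit 365) (nat_lit 229) (nat_lit 186)) (XT.lf (nat_lit 0) (nat_lit 160762184876) (nat_lit 76) (nat_lit 31720028252) (nat_lit 76) (nat_lit 26979292400) (nat_lit 3) (nat_lit 4) (nat_lit 4) (nat_lit 5) (nat_lit 4) (nat_lit 4) (nat_lit 366) (nat_lit 229) (nat_lit 185))))) (XT.nd (nat_lit 156) (nat_lit 0) (nat_lit 0) (XT.nd (nat_lit 78) (nat_lit 0) (nat_lit 0) (XT.lf (nat_lit 0) (nat_lit 172244708120) (nat_lit 76) (nat_lit 31433685239) (nat_lit 76) (nat_lit 26663077104) (nat_lit 3) (nat_lit 4) (nat_lit 4) (nat_lit 5) (nat_lit 4) (nat_lit 4) (nat_lit 367) (nat_lit 229) (nat_lit 184)) (XT.lf (nat_lit 0) (nat_lit 184270887189) (nat_lit 76) (nat_lit 31147214033) (nat_lit 76) (nat_lit 26348156106) (nat_lit 3) (nat_lit 4) (nat_lit 4) (nat_lit 5) (nat_lit 4) (nat_lit 4) (nat_lit 368) (nat_lit 229) (nat_lit 183))) (XT.nd (nat_lit 78) (nat_lit 0) (nat_lit 0) (XT.lf (nat_lit 0)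 (nat_lit 196869355841) (nat_lit 76) (nat_lit 30859932561) (nat_lit 76) (nat_lit 26033779593) (nat_lit 3) (nat_lit 4) (nat_lit 4) (nat_lit 5) (nat_lit 4) (nat_lit 4) (nat_lit 369) (nat_lit 229) (nat_lit 182)) (XT.nd (nat_lit 78) (nat_lit 0) (nat_lit 0) (XT.lf (nat_lit 0) (nat_lit 210070110432) (nat_lit 76) (nat_lit 30571156818) (nat_lit 76) (nat_lit 25719199049) (nat_lit 3) (nat_lit 4) (nat_lit 4) (nat_lit 5) (nat_lit 4) (nat_lit 4) (nat_lit 370) (nat_lit 229) (nat_lit 181)) (XT.lf (nat_lit 0) (nat_lit 223904581329) (nat_lit 76) (nat_lit 30280199244) (nat_lit 76) (nat_lit 25403665474) (nat_lit 3) (nat_lit 4) (nat_lit 4) (nat_lit 5) (nat_lit 4) (nat_lit 4) (nat_lit 371) (nat_lit 229) (nat_lit 180))))))) (XT.nd (nat_lit 780) (nat_lit 0) (nat_lit 0) (XT.nd (nat_lit 390) (nat_lit 0) (nat_lit 0) (XT.nd (nat_lit 156) (nat_lit 0) (nat_lit 0) (XT.nd (nat_lit 78) (nat_lit 0) (nat_lit 0) (XT.lf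 (nat_lit 0) (nat_lit 238405707749) (nat_lit 76) (nat_lit 29986367082) (nat_lit 76) (nat_lit 25086427598) (nat_lit 3) (nat_lit 4) (nat_lit 4) (nat_lit 5) (nat_lit 4) (nat_lit 4) (nat_lit 372) (nat_lit 229) (nat_lit 179)) (XT.lf (nat_lit 0) (nat_lit 253608016182) (nat_lit 76) (nat_lit 29688960732) (nat_lit 76) (nat_lit 24766730091) (nat_lit 3) (nat_lit 4) (nat_lit 4) (nat_lit 5) (nat_lit 4) (nat_lit 4) (nat_lit 373) (nat_lit 229) (nat_lit 178))) (XT.nd (nat_lit 78) (nat_lit 0) (nat_lit 0) (XT.lf (nat_lit 0) (nat_lit 269547702602) (nat_lit 76) (nat_lit 29387272084) (nat_lit 76) (nat_lit 24443811769) (nat_lit 3) (nat_lit 4) (nat_lit 4) (nat_lit 5) (nat_lit 4) (nat_lit 4) (nat_lit 374) (nat_lit 229) (nat_lit 177)) (XT.nd (nat_lit 78) (nat_lit 0) (nat_lit 0) (XT.lf (nat_lit 0) (nat_lit 286262718643) (nat_lit 76) (nat_lit 29080582831) (nat_lit 76) (nat_lit 24116903780) (nat_lit 3) (nat_lit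 4) (nat_lit 4) (nat_lit 5) (nat_lit 4) (nat_lit 4) (nat_lit 375) (nat_lit 229) (nat_lit 176)) (XT.lf (nat_lit 0) (nat_lit 303792861963) (nat_lit 76) (nat_lit 28768162760) (nat_lit 76) (nat_lit 23785227770) (nat_lit 3) (nat_lit 4) (nat_lit 4) (nat_lit 5) (nat_lit 4) (nat_lit 4) (nat_lit 376) (nat_lit 229) (nat_lit 175))))) (XT.nd (nat_lit 156) (nat_lit 0) (nat_lit 0) (XT.nd (nat_lit 78) (nat_lit 0) (nat_lit 0) (XT.lf (nat_lit 0) (nat_lit 322179870996) (nat_lit 76) (nat_lit 28449268016) (nat_lit 76) (nat_lit 23447994035) (nat_lit 3) (nat_lit 4) (nat_lit 4) (nat_lit 5) (nat_lit 4) (nat_lit 4) (nat_lit 377) (nat_lit 229) (nat_lit 174)) (XT.lf (nat_lit 0) (nat_lit 341467524338) (nat_lit 76) (nat_lit 28123139323) (nat_lit 76) (nat_lit 23104399638) (nat_lit 3) (nat_lit 4) (nat_lit 4) (nat_lit 5) (nat_lit 4) (nat_lit 4) (nat_lit 378) (nat_lit 229) (nat_lit 173))) (XT.nd (nat_lit 78) (nat_lit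 0) (nat_lit 0) (XT.lf (nat_lit 0) (nat_lit 361701744970) (nat_lit 76) (nat_lit 27789000186) (nat_lit 76) (nat_lit 22753626497) (nat_lit 3) (nat_lit 4) (nat_lit 4) (nat_lit 5) (nat_lit 4) (nat_lit 4) (nat_lit 379) (nat_lit 229) (nat_lit 172)) (XT.nd (nat_lit 78) (nat_lit 0) (nat_lit 0) (XT.lf (nat_lit 0) (nat_lit 382930709611) (nat_lit 76) (nat_lit 27446055035) (nat_lit 76) (nat_lit 22394839437) (nat_lit 3) (nat_lit 4) (nat_lit 4) (nat_lit 5) (nat_lit 4) (nat_lit 4) (nat_lit 380) (nat_lit 229) (nat_lit 171)) (XT.lf (nat_lit 0) (nat_lit 405204963412) (nat_lit 76) (nat_lit 27093487334) (nat_lit 76) (nat_lit 22027184203) (nat_lit 3) (nat_lit 4) (nat_lit 4) (nat_lit 5) (nat_lit 4) (nat_lit 4) (nat_lit 381) (nat_lit 229) (nat_lit 170)))))) (XT.nd (nat_lit 390) (nat_lit 0) (nat_lit 0) (XT.nd (nat_lit 156) (nat_lit 0) (nat_lit 0) (XT.nd (nat_lit 78) (nat_lit 0) (nat_lit 0) (XT.lf (nat_lit 0)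 (nat_lit 428577540313) (nat_lit 76) (nat_lit 26730457636) (nat_lit 76) (nat_lit 21649785427) (nat_lit 3) (nat_lit 4) (nat_lit 4) (nat_lit 5) (nat_lit 4) (nat_lit 4) (nat_lit 382) (nat_lit 229) (nat_lit 169)) (XT.lf (nat_lit 0) (nat_lit 453104089305) (nat_lit 76) (nat_lit 26356101585) (nat_lit 76) (nat_lit 21261744539) (nat_lit 3) (nat_lit 4) (nat_lit 4) (nat_lit 5) (nat_lit 4) (nat_lit 4) (nat_lit 383) (nat_lit 229) (nat_lit 168))) (XT.nd (nat_lit 78) (nat_lit 0) (nat_lit 0) (XT.lf (nat_lit 0) (nat_lit 478843006934) (nat_lit 76) (nat_lit 25969527856) (nat_lit 76) (nat_lit 20862137632) (nat_lit 3) (nat_lit 4) (nat_lit 4) (nat_lit 5) (nat_lit 4) (nat_lit 4) (nat_lit 384) (nat_lit 229) (nat_lit 167)) (XT.nd (nat_lit 78) (nat_lit 0) (nat_lit 0) (XT.lf (nat_lit 0) (nat_lit 505855576338) (nat_lit 76) (nat_lit 25569816036) (nat_lit 76) (nat_lit 20450013262) (nat_lit 3) (nat_lit 4) (nat_lit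 4) (nat_lit 5) (nat_lit 4) (nat_lit 4) (nat_lit 385) (nat_lit 229) (nat_lit 166)) (XT.lf (nat_lit 0) (nat_lit 534206113156) (nat_lit 76) (nat_lit 25156014431) (nat_lit 76) (nat_lit 20024390180) (nat_lit 3) (nat_lit 4) (nat_lit 4) (nat_lit 5) (nat_lit 4) (nat_lit 4) (nat_lit 386) (nat_lit 229) (nat_lit 165))))) (XT.nd (nat_lit 156) (nat_lit 0) (nat_lit 0) (XT.nd (nat_lit 78) (nat_lit 0) (nat_lit 0) (XT.lf (nat_lit 0) (nat_lit 563962118668) (nat_lit 76) (nat_lit 24727137798) (nat_lit 76) (nat_lit 19584254998) (nat_lit 3) (nat_lit 4) (nat_lit 4) (nat_lit 5) (nat_lit 4) (nat_lit 4) (nat_lit 387) (nat_lit 229) (nat_lit 164)) (XT.lf (nat_lit 0) (nat_lit 595194440506) (nat_lit 76) (nat_lit 24282165002) (nat_lit 76) (nat_lit 19128559775) (nat_lit 3) (nat_lit 4) (nat_lit 4) (nat_lit 5) (nat_lit 4) (nat_lit 4) (nat_lit 388) (nat_lit 229) (nat_lit 163))) (XT.nd (nat_lit 35256) (nat_lit 0) (nat_lit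 456) (XT.lf (nat_lit 0) (nat_lit 627977441341) (nat_lit 76) (nat_lit 23820036585) (nat_lit 76) (nat_lit 18656219522) (nat_lit 3) (nat_lit 4) (nat_lit 4) (nat_lit 5) (nat_lit 4) (nat_lit 4) (nat_lit 389) (nat_lit 229) (nat_lit 162)) (XT.nd (nat_lit 78) (nat_lit 0) (nat_lit 0) (XT.lf (nat_lit 0) (nat_lit 7859179031) (nat_lit 76) (nat_lit 2581702813) (nat_lit 76) (nat_lit 2581702813) (nat_lit 9) (nat_lit 4) (nat_lit 10) (nat_lit 5) (nat_lit 10) (nat_lit 4) (nat_lit 320) (nat_lit 230) (nat_lit 230)) (XT.lf (nat_lit 0) (nat_lit 23567652705) (nat_lit 76) (nat_lit 1939043580) (nat_lit 76) (nat_lit 1643129615) (nat_lit 9) (nat_lit 4) (nat_lit 10) (nat_lit 5) (nat_lit 10) (nat_lit 4) (nat_lit 321) (nat_lit 230) (nat_lit 229))))))))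
noncomputable def xc31 : XT := (XT.nd (nat_lit 1560) (nat_lit 76) (nat_lit 0) (XT.nd (nat_lit 780) (nat_lit 152) (nat_lit 0) (XT.nd (nat_lit 390) (nat_lit 76) (nat_lit 0) (XT.nd (nat_lit 156) (nat_lit 0) (nat_lit 0) (XT.nd (nat_lit 78) (nat_lit 0) (nat_lit 0) (XT.lf (nat_lit 0) (nat_lit 1937448846) (nat_lit 152) (nat_lit 24986030924) (nat_lit 0) (nat_lit 1387223333) (nat_lit 7) (nat_lit 5) (nat_lit 9) (nat_lit 4) (nat_lit 7) (nat_lit 4) (nat_lit 322) (nat_lit 230) (nat_lit 228)) (XT.lf (nat_lit 0) (nat_lit 5611518575) (nat_lit 152) (nat_lit 19112689574) (nat_lit 0) (nat_lit 4805671454) (nat_lit 7) (nat_lit 5) (nat_lit 9) (nat_lit 4) (nat_lit 7) (nat_lit 4) (nat_lit 323) (nat_lit 230) (nat_lit 227))) (XT.nd (nat_lit 78) (nat_lit 0) (nat_lit 0) (XT.lf (nat_lit 0) (nat_lit 9351419710) (nat_lit 152) (nat_lit 13162447647) (nat_lit 0) (nat_lit 8302123438) (nat_lit 7) (nat_lit 5) (nat_lit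 9) (nat_lit 4) (nat_lit 7) (nat_lit 4) (nat_lit 324) (nat_lit 230) (nat_lit 226)) (XT.nd (nat_lit 78) (nat_lit 0) (nat_lit 0) (XT.lf (nat_lit 0) (nat_lit 13166056778) (nat_lit 152) (nat_lit 7121137902) (nat_lit 0) (nat_lit 11884904172) (nat_lit 7) (nat_lit 5) (nat_lit 9) (nat_lit 4) (nat_lit 7) (nat_lit 4) (nat_lit 325) (nat_lit 230) (nat_lit 225)) (XT.lf (nat_lit 0) (nat_lit 17064512248) (nat_lit 152) (nat_lit 974376266) (nat_lit 0) (nat_lit 15562544085) (nat_lit 7) (nat_lit 5) (nat_lit 9) (nat_lit 4) (nat_lit 7) (nat_lit 4) (nat_lit 326) (nat_lit 230) (nat_lit 224))))) (XT.nd (nat_lit 156) (nat_lit 0) (nat_lit 0) (XT.nd (nat_lit 78) (nat_lit 0) (nat_lit 0) (XT.lf (nat_lit 0) (nat_lit 5467465445) (nat_lit 76) (nat_lit 15673965170) (nat_lit 76) (nat_lit 13961696477) (nat_lit 6) (nat_lit 4) (nat_lit 7) (nat_lit 5) (nat_lit 7) (nat_lit 4) (nat_lit 327) (nat_lit 230) (nat_lit 223)) (XT.lf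 (nat_lit 0) (nat_lit 12080996518) (nat_lit 76) (nat_lit 13257849902) (nat_lit 76) (nat_lit 11345294990) (nat_lit 6) (nat_lit 4) (nat_lit 7) (nat_lit 5) (nat_lit 7) (nat_lit 4) (nat_lit 328) (nat_lit 230) (nat_lit 222))) (XT.nd (nat_lit 78) (nat_lit 0) (nat_lit 0) (XT.lf (nat_lit 0) (nat_lit 18849746177) (nat_lit 76) (nat_lit 10801291589) (nat_lit 76) (nat_lit 8697987897) (nat_lit 6) (nat_lit 4) (nat_lit 7) (nat_lit 5) (nat_lit 7) (nat_lit 4) (nat_lit 329) (nat_lit 230) (nat_lit 221)) (XT.nd (nat_lit 78) (nat_lit 0) (nat_lit 0) (XT.lf (nat_lit 0) (nat_lit 25789830492) (nat_lit 76) (nat_lit 8298441284) (nat_lit 76) (nat_lit 6013472087) (nat_lit 6) (nat_lit 4) (nat_lit 7) (nat_lit 5) (nat_lit 7) (nat_lit 4) (nat_lit 330) (nat_lit 230) (nat_lit 220)) (XT.lf (nat_lit 0) (nat_lit 32917773473) (nat_lit 76) (nat_lit 5743339818) (nat_lit 76) (nat_lit 3285355855) (nat_lit 6) (nat_lit 4) (nat_lit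 7) (nat_lit 5) (nat_lit 7) (nat_lit 4) (nat_lit 331) (nat_lit 230) (nat_lit 219)))))) (XT.nd (nat_lit 390) (nat_lit 0) (nat_lit 0) (XT.nd (nat_lit 156) (nat_lit 0) (nat_lit 0) (XT.nd (nat_lit 78) (nat_lit 152) (nat_lit 0) (XT.lf (nat_lit 0) (nat_lit 40250546412) (nat_lit 76) (nat_lit 3129903617) (nat_lit 76) (nat_lit 507143686) (nat_lit 6) (nat_lit 4) (nat_lit 7) (nat_lit 5) (nat_lit 7) (nat_lit 4) (nat_lit 332) (nat_lit 230) (nat_lit 218)) (XT.lf (nat_lit 0) (nat_lit 1900348871) (nat_lit 76) (nat_lit 382596638) (nat_lit 152) (nat_lit 43643493140) (nat_lit 4) (nat_lit 5) (nat_lit 5) (nat_lit 5) (nat_lit 6) (nat_lit 4) (nat_lit 333) (nat_lit 230) (nat_lit 217))) (XT.nd (nat_lit 78) (nat_lit 0) (nat_lit 0) (XT.lf (nat_lit 0) (nat_lit 5218086482) (nat_lit 152) (nat_lit 40419218678) (nat_lit 0) (nat_lit 2428423544) (nat_lit 4) (nat_lit 5) (nat_lit 6) (nat_lit 4) (nat_lit 4) (nat_lit 4)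 (nat_lit 334) (nat_lit 230) (nat_lit 216)) (XT.nd (nat_lit 78) (nat_lit 0) (nat_lit 0) (XT.lf (nat_lit 0) (nat_lit 8230943571) (nat_lit 152) (nat_lit 36778818508) (nat_lit 0) (nat_lit 5305719036) (nat_lit 4) (nat_lit 5) (nat_lit 6) (nat_lit 4) (nat_lit 4) (nat_lit 4) (nat_lit 335) (nat_lit 230) (nat_lit 215)) (XT.lf (nat_lit 0) (nat_lit 11322716841) (nat_lit 152) (nat_lit 33090248243) (nat_lit 0) (nat_lit 8268386024) (nat_lit 4) (nat_lit 5) (nat_lit 6) (nat_lit 4) (nat_lit 4) (nat_lit 4) (nat_lit 336) (nat_lit 230) (nat_lit 214))))) (XT.nd (nat_lit 156) (nat_lit 0) (nat_lit 0) (XT.nd (nat_lit 78) (nat_lit 0) (nat_lit 0) (XT.lf (nat_lit 0) (nat_lit 14500767657) (nat_lit 152) (nat_lit 29344725573) (nat_lit 0) (nat_lit 11323478475) (nat_lit 4) (nat_lit 5) (nat_lit 6) (nat_lit 4) (nat_lit 4) (nat_lit 4) (nat_lit 337) (nat_lit 230) (nat_lit 213)) (XT.lf (nat_lit 0) (nat_lit 17772662806)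 (nat_lit 152) (nat_lit 25533332586) (nat_lit 0) (nat_lit 14478270420) (nat_lit 4) (nat_lit 5) (nat_lit 6) (nat_lit 4) (nat_lit 4) (nat_lit 4) (nat_lit 338) (nat_lit 230) (nat_lit 212))) (XT.nd (nat_lit 78) (nat_lit 0) (nat_lit 0) (XT.lf (nat_lit 0) (nat_lit 21146192516) (nat_lit 152) (nat_lit 21646994537) (nat_lit 0) (nat_lit 17740273269) (nat_lit 4) (nat_lit 5) (nat_lit 6) (nat_lit 4) (nat_lit 4) (nat_lit 4) (nat_lit 339) (nat_lit 230) (nat_lit 211)) (XT.nd (nat_lit 78) (nat_lit 0) (nat_lit 0) (XT.lf (nat_lit 0) (nat_lit 24629388999) (nat_lit 152) (nat_lit 17676458242) (nat_lit 0) (nat_lit 21117253693) (nat_lit 4) (nat_lit 5) (nat_lit 6) (nat_lit 4) (nat_lit 4) (nat_lit 4) (nat_lit 340) (nat_lit 230) (nat_lit 210)) (XT.lf (nat_lit 0) (nat_lit 28230545580) (nat_lit 152) (nat_lit 13612270041) (nat_lit 0) (nat_lit 24617252124) (nat_lit 4) (nat_lit 5) (nat_lit 6) (nat_lit 4) (nat_lit 4)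 (nat_lit 4) (nat_lit 341) (nat_lit 230) (nat_lit 209))))))) (XT.nd (nat_lit 780) (nat_lit 0) (nat_lit 0) (XT.nd (nat_lit 390) (nat_lit 0) (nat_lit 0) (XT.nd (nat_lit 156) (nat_lit 76) (nat_lit 0) (XT.nd (nat_lit 78) (nat_lit 0) (nat_lit 0) (XT.lf (nat_lit 0) (nat_lit 31958236443) (nat_lit 152) (nat_lit 9444753296) (nat_lit 0) (nat_lit 28248601891) (nat_lit 4) (nat_lit 5) (nat_lit 6) (nat_lit 4) (nat_lit 4) (nat_lit 4) (nat_lit 342) (nat_lit 230) (nat_lit 208)) (XT.lf (nat_lit 0) (nat_lit 35821337041) (nat_lit 152) (nat_lit 5163985348) (nat_lit 0) (nat_lit 32019949064) (nat_lit 4) (nat_lit 5) (nat_lit 6) (nat_lit 4) (nat_lit 4) (nat_lit 4) (nat_lit 343) (nat_lit 230) (nat_lit 207))) (XT.nd (nat_lit 78) (nat_lit 76) (nat_lit 0) (XT.lf (nat_lit 0) (nat_lit 39829045233) (nat_lit 152) (nat_lit 759773893) (nat_lit 0) (nat_lit 35940273042) (nat_lit 4) (nat_lit 5) (nat_lit 6) (nat_lit 4) (nat_lit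 4) (nat_lit 4) (nat_lit 344) (nat_lit 230) (nat_lit 206)) (XT.nd (nat_lit 78) (nat_lit 0) (nat_lit 0) (XT.lf (nat_lit 0) (nat_lit 3903297173) (nat_lit 76) (nat_lit 40148547416) (nat_lit 76) (nat_lit 36176552165) (nat_lit 3) (nat_lit 4) (nat_lit 4) (nat_lit 5) (nat_lit 4) (nat_lit 4) (nat_lit 345) (nat_lit 230) (nat_lit 205)) (XT.lf (nat_lit 0) (nat_lit 8741010205) (nat_lit 76) (nat_lit 39712281531) (nat_lit 76) (nat_lit 35661026222) (nat_lit 3) (nat_lit 4) (nat_lit 4) (nat_lit 5) (nat_lit 4) (nat_lit 4) (nat_lit 346) (nat_lit 230) (nat_lit 204))))) (XT.nd (nat_lit 156) (nat_lit 0) (nat_lit 0) (XT.nd (nat_lit 78) (nat_lit 0) (nat_lit 0) (XT.lf (nat_lit 0) (nat_lit 13739762012) (nat_lit 76) (nat_lit 39291849883) (nat_lit 76) (nat_lit 35165108804) (nat_lit 3) (nat_lit 4) (nat_lit 4) (nat_lit 5) (nat_lit 4) (nat_lit 4) (nat_lit 347) (nat_lit 230) (nat_lit 203)) (XT.lf (nat_lit 0) (nat_lit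 18911454384) (nat_lit 76) (nat_lit 38886251443) (nat_lit 76) (nat_lit 34687619155) (nat_lit 3) (nat_lit 4) (nat_lit 4) (nat_lit 5) (nat_lit 4) (nat_lit 4) (nat_lit 348) (nat_lit 230) (nat_lit 202))) (XT.nd (nat_lit 78) (nat_lit 0) (nat_lit 0) (XT.lf (nat_lit 0) (nat_lit 24268400873) (nat_lit 76) (nat_lit 38494520501) (nat_lit 76) (nat_lit 34227420395) (nat_lit 3) (nat_lit 4) (nat_lit 4) (nat_lit 5) (nat_lit 4) (nat_lit 4) (nat_lit 349) (nat_lit 230) (nat_lit 201)) (XT.nd (nat_lit 78) (nat_lit 0) (nat_lit 0) (XT.lf (nat_lit 0) (nat_lit 29823356114) (nat_lit 76) (nat_lit 38115724364) (nat_lit 76) (nat_lit 33783416812) (nat_lit 3) (nat_lit 4) (nat_lit 4) (nat_lit 5) (nat_lit 4) (nat_lit 4) (nat_lit 350) (nat_lit 230) (nat_lit 200)) (XT.lf (nat_lit 0) (nat_lit 35589546192) (nat_lit 76) (nat_lit 37748961137) (nat_lit 76) (nat_lit 33354551255) (nat_lit 3) (nat_lit 4) (nat_lit 4) (nat_lit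 5) (nat_lit 4) (nat_lit 4) (nat_lit 351) (nat_lit 230) (nat_lit 199)))))) (XT.nd (nat_lit 390) (nat_lit 0) (nat_lit 0) (XT.nd (nat_lit 156) (nat_lit 0) (nat_lit 0) (XT.nd (nat_lit 78) (nat_lit 0) (nat_lit 0) (XT.lf (nat_lit 0) (nat_lit 41580700130) (nat_lit 76) (nat_lit 37393357573) (nat_lit 76) (nat_lit 32939802616) (nat_lit 3) (nat_lit 4) (nat_lit 4) (nat_lit 5) (nat_lit 4) (nat_lit 4) (nat_lit 352) (nat_lit 230) (nat_lit 198)) (XT.lf (nat_lit 0) (nat_lit 47811082580) (nat_lit 76) (nat_lit 37048066998) (nat_lit 76) (nat_lit 32538183397) (nat_lit 3) (nat_lit 4) (nat_lit 4) (nat_lit 5) (nat_lit 4) (nat_lit 4) (nat_lit 353) (nat_lit 230) (nat_lit 197))) (XT.nd (nat_lit 78) (nat_lit 0) (nat_lit 0) (XT.lf (nat_lit 0) (nat_lit 54295527787) (nat_lit 76) (nat_lit 36712267291) (nat_lit 76) (nat_lit 32148737363) (nat_lit 3) (nat_lit 4) (nat_lit 4) (nat_lit 5) (nat_lit 4) (nat_lit 4) (nat_lit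 354) (nat_lit 230) (nat_lit 196)) (XT.nd (nat_lit 78) (nat_lit 0) (nat_lit 0) (XT.lf (nat_lit 0) (nat_lit 61049474905) (nat_lit 76) (nat_lit 36385158929) (nat_lit 76) (nat_lit 31770537262) (nat_lit 3) (nat_lit 4) (nat_lit 4) (nat_lit 5) (nat_lit 4) (nat_lit 4) (nat_lit 355) (nat_lit 230) (nat_lit 195)) (XT.lf (nat_lit 0) (nat_lit 68089004761) (nat_lit 76) (nat_lit 36065963083) (nat_lit 76) (nat_lit 31402682615) (nat_lit 3) (nat_lit 4) (nat_lit 4) (nat_lit 5) (nat_lit 4) (nat_lit 4) (nat_lit 356) (nat_lit 230) (nat_lit 194))))) (XT.nd (nat_lit 156) (nat_lit 0) (nat_lit 0) (XT.nd (nat_lit 78) (nat_lit 0) (nat_lit 0) (XT.lf (nat_lit 0) (nat_lit 75430878140) (nat_lit 76) (nat_lit 35753919762) (nat_lit 76) (nat_lit 31044297580) (nat_lit 3) (nat_lit 4) (nat_lit 4) (nat_lit 5) (nat_lit 4) (nat_lit 4) (nat_lit 357) (nat_lit 230) (nat_lit 193)) (XT.lf (nat_lit 0) (nat_lit 83092575694) (nat_lit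 76) (nat_lit 35448286007) (nat_lit 76) (nat_lit 30694528859) (nat_lit 3) (nat_lit 4) (nat_lit 4) (nat_lit 5) (nat_lit 4) (nat_lit 4) (nat_lit 358) (nat_lit 230) (nat_lit 192))) (XT.nd (nat_lit 78) (nat_lit 0) (nat_lit 0) (XT.lf (nat_lit 0) (nat_lit 91092339559) (nat_lit 76) (nat_lit 35148334117) (nat_lit 76) (nat_lit 30352543668) (nat_lit 3) (nat_lit 4) (nat_lit 4) (nat_lit 5) (nat_lit 4) (nat_lit 4) (nat_lit 359) (nat_lit 230) (nat_lit 191)) (XT.nd (nat_lit 78) (nat_lit 0) (nat_lit 0) (XT.lf (nat_lit 0) (nat_lit 99449216792) (nat_lit 76) (nat_lit 34853349922) (nat_lit 76) (nat_lit 30017527758) (nat_lit 3) (nat_lit 4) (nat_lit 4) (nat_lit 5) (nat_lit 4) (nat_lit 4) (nat_lit 360) (nat_lit 230) (nat_lit 190)) (XT.lf (nat_lit 0) (nat_lit 108183104720) (nat_lit 76) (nat_lit 34562631079) (nat_lit 76) (nat_lit 29688683471) (nat_lit 3) (nat_lit 4) (nat_lit 4) (nat_lit 5) (nat_lit 4) (nat_lit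 4) (nat_lit 361) (nat_lit 230) (nat_lit 189))))))))
noncomputable def xc32 : XT := (XT.nd (nat_lit 1482) (nat_lit 0) (nat_lit 0) (XT.nd (nat_lit 702) (nat_lit 0) (nat_lit 0) (XT.nd (nat_lit 312) (nat_lit 0) (nat_lit 0) (XT.nd (nat_lit 156) (nat_lit 0) (nat_lit 0) (XT.nd (nat_lit 78) (nat_lit 0) (nat_lit 0) (XT.lf (nat_lit 0) (nat_lit 117314798315) (nat_lit 76) (nat_lit 34275485399) (nat_lit 76) (nat_lit 29365227846) (nat_lit 3) (nat_lit 4) (nat_lit 4) (nat_lit 5) (nat_lit 4) (nat_lit 4) (nat_lit 362) (nat_lit 230) (nat_lit 188)) (XT.lf (nat_lit 0) (nat_lit 126866039703) (nat_lit 76) (nat_lit 33991229202) (nat_lit 76) (nat_lit 29046390748) (nat_lit 3) (nat_lit 4) (nat_lit 4) (nat_lit 5) (nat_lit 4) (nat_lit 4) (nat_lit 363) (nat_lit 230) (nat_lit 187))) (XT.nd (nat_lit 78) (nat_lit 0) (nat_lit 0) (XT.lf (nat_lit 0) (nat_lit 136859569936) (nat_lit 76) (nat_lit 33709185689) (nat_lit 76)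 (nat_lit 28731413043) (nat_lit 3) (nat_lit 4) (nat_lit 4) (nat_lit 5) (nat_lit 4) (nat_lit 4) (nat_lit 364) (nat_lit 230) (nat_lit 186)) (XT.lf (nat_lit 0) (nat_lit 147319183133) (nat_lit 76) (nat_lit 33428683326) (nat_lit 76) (nat_lit 28419544784) (nat_lit 3) (nat_lit 4) (nat_lit 4) (nat_lit 5) (nat_lit 4) (nat_lit 4) (nat_lit 365) (nat_lit 230) (nat_lit 185)))) (XT.nd (nat_lit 156) (nat_lit 0) (nat_lit 0) (XT.nd (nat_lit 78) (nat_lit 0) (nat_lit 0) (XT.lf (nat_lit 0) (nat_lit 158269783135) (nat_lit 76) (nat_lit 33149054251) (nat_lit 76) (nat_lit 28110043427) (nat_lit 3) (nat_lit 4) (nat_lit 4) (nat_lit 5) (nat_lit 4) (nat_lit 4) (nat_lit 366) (nat_lit 230) (nat_lit 184)) (XT.lf (nat_lit 0) (nat_lit 169737442800) (nat_lit 76) (nat_lit 32869632681) (nat_lit 76) (nat_lit 27802172064) (nat_lit 3) (nat_lit 4) (nat_lit 4) (nat_lit 5) (nat_lit 4) (nat_lit 4) (nat_lit 367) (nat_lit 230) (nat_lit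 183))) (XT.nd (nat_lit 78) (nat_lit 0) (nat_lit 0) (XT.lf (nat_lit 0) (nat_lit 181749466078) (nat_lit 76) (nat_lit 32589753326) (nat_lit 76) (nat_lit 27495197668) (nat_lit 3) (nat_lit 4) (nat_lit 4) (nat_lit 5) (nat_lit 4) (nat_lit 4) (nat_lit 368) (nat_lit 230) (nat_lit 182)) (XT.nd (nat_lit 78) (nat_lit 0) (nat_lit 0) (XT.lf (nat_lit 0) (nat_lit 194334453026) (nat_lit 76) (nat_lit 32308749806) (nat_lit 76) (nat_lit 27188389348) (nat_lit 3) (nat_lit 4) (nat_lit 4) (nat_lit 5) (nat_lit 4) (nat_lit 4) (nat_lit 369) (nat_lit 230) (nat_lit 181)) (XT.lf (nat_lit 0) (nat_lit 207522367898) (nat_lit 76) (nat_lit 32025953066) (nat_lit 76) (nat_lit 26881016608) (nat_lit 3) (nat_lit 4) (nat_lit 4) (nat_lit 5) (nat_lit 4) (nat_lit 4) (nat_lit 370) (nat_lit 230) (nat_lit 180)))))) (XT.nd (nat_lit 390) (nat_lit 0) (nat_lit 0) (XT.nd (nat_lit 156) (nat_lit 0) (nat_lit 0) (XT.nd (nat_lit 78) (nat_lit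 0) (nat_lit 0) (XT.lf (nat_lit 0) (nat_lit 221344610492) (nat_lit 76) (nat_lit 31740689780) (nat_lit 76) (nat_lit 26572347607) (nat_lit 3) (nat_lit 4) (nat_lit 4) (nat_lit 5) (nat_lit 4) (nat_lit 4) (nat_lit 371) (nat_lit 230) (nat_lit 179)) (XT.lf (nat_lit 0) (nat_lit 235834090908) (nat_lit 76) (nat_lit 31452280750) (nat_lit 76) (nat_lit 26261647420) (nat_lit 3) (nat_lit 4) (nat_lit 4) (nat_lit 5) (nat_lit 4) (nat_lit 4) (nat_lit 372) (nat_lit 230) (nat_lit 178))) (XT.nd (nat_lit 78) (nat_lit 0) (nat_lit 0) (XT.lf (nat_lit 0) (nat_lit 251025307910) (nat_lit 76) (nat_lit 31160039287) (nat_lit 76) (nat_lit 25948176284) (nat_lit 3) (nat_lit 4) (nat_lit 4) (nat_lit 5) (nat_lit 4) (nat_lit 4) (nat_lit 373) (nat_lit 230) (nat_lit 177)) (XT.nd (nat_lit 78) (nat_lit 0) (nat_lit 0) (XT.lf (nat_lit 0) (nat_lit 266954431062) (nat_lit 76) (nat_lit 30863269579) (nat_lit 76) (nat_lit 25631187840)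 (nat_lit 3) (nat_lit 4) (nat_lit 4) (nat_lit 5) (nat_lit 4) (nat_lit 4) (nat_lit 374) (nat_lit 230) (nat_lit 176)) (XT.lf (nat_lit 0) (nat_lit 283659386847) (nat_lit 76) (nat_lit 30561265032) (nat_lit 76) (nat_lit 25309927352) (nat_lit 3) (nat_lit 4) (nat_lit 4) (nat_lit 5) (nat_lit 4) (nat_lit 4) (nat_lit 375) (nat_lit 230) (nat_lit 175))))) (XT.nd (nat_lit 156) (nat_lit 0) (nat_lit 0) (XT.nd (nat_lit 78) (nat_lit 0) (nat_lit 0) (XT.lf (nat_lit 0) (nat_lit 301179948971) (nat_lit 76) (nat_lit 30253306585) (nat_lit 76) (nat_lit 24983629916) (nat_lit 3) (nat_lit 4) (nat_lit 4) (nat_lit 5) (nat_lit 4) (nat_lit 4) (nat_lit 376) (nat_lit 230) (nat_lit 174)) (XT.lf (nat_lit 0) (nat_lit 319557833056) (nat_lit 76) (nat_lit 29938661006) (nat_lit 76) (nat_lit 24651518632) (nat_lit 3) (nat_lit 4) (nat_lit 4) (nat_lit 5) (nat_lit 4) (nat_lit 4) (nat_lit 377) (nat_lit 230) (nat_lit 173))) (XT.nd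 (nat_lit 78) (nat_lit 0) (nat_lit 0) (XT.lf (nat_lit 0) (nat_lit 338836795970) (nat_lit 76) (nat_lit 29616579138) (nat_lit 76) (nat_lit 24312802760) (nat_lit 3) (nat_lit 4) (nat_lit 4) (nat_lit 5) (nat_lit 4) (nat_lit 4) (nat_lit 378) (nat_lit 230) (nat_lit 172)) (XT.nd (nat_lit 78) (nat_lit 0) (nat_lit 0) (XT.lf (nat_lit 0) (nat_lit 359062740006) (nat_lit 76) (nat_lit 29286294120) (nat_lit 76) (nat_lit 23966675832) (nat_lit 3) (nat_lit 4) (nat_lit 4) (nat_lit 5) (nat_lit 4) (nat_lit 4) (nat_lit 379) (nat_lit 230) (nat_lit 171)) (XT.lf (nat_lit 0) (nat_lit 380283822173) (nat_lit 76) (nat_lit 28947019558) (nat_lit 76) (nat_lit 23612313738) (nat_lit 3) (nat_lit 4) (nat_lit 4) (nat_lit 5) (nat_lit 4) (nat_lit 4) (nat_lit 380) (nat_lit 230) (nat_lit 170))))))) (XT.nd (nat_lit 35802) (nat_lit 0) (nat_lit 228) (XT.nd (nat_lit 390) (nat_lit 0) (nat_lit 0) (XT.nd (nat_lit 156) (nat_lit 0) (nat_lit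 0) (XT.nd (nat_lit 78) (nat_lit 0) (nat_lit 0) (XT.lf (nat_lit 0) (nat_lit 402550568857) (nat_lit 76) (nat_lit 28597947656) (nat_lit 76) (nat_lit 23248872757) (nat_lit 3) (nat_lit 4) (nat_lit 4) (nat_lit 5) (nat_lit 4) (nat_lit 4) (nat_lit 381) (nat_lit 230) (nat_lit 169)) (XT.lf (nat_lit 0) (nat_lit 425915996122) (nat_lit 76) (nat_lit 28238247290) (nat_lit 76) (nat_lit 22875487555) (nat_lit 3) (nat_lit 4) (nat_lit 4) (nat_lit 5) (nat_lit 4) (nat_lit 4) (nat_lit 382) (nat_lit 230) (nat_lit 168))) (XT.nd (nat_lit 78) (nat_lit 0) (nat_lit 0) (XT.lf (nat_lit 0) (nat_lit 450435735937) (nat_lit 76) (nat_lit 27867062032) (nat_lit 76) (nat_lit 22491269118) (nat_lit 3) (nat_lit 4) (nat_lit 4) (nat_lit 5) (nat_lit 4) (nat_lit 4) (nat_lit 383) (nat_lit 230) (nat_lit 167)) (XT.nd (nat_lit 78) (nat_lit 0) (nat_lit 0) (XT.lf (nat_lit 0) (nat_lit 476168168636) (nat_lit 76) (nat_lit 27483508105) (nat_lit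 76) (nat_lit 22095302642) (nat_lit 3) (nat_lit 4) (nat_lit 4) (nat_lit 5) (nat_lit 4) (nat_lit 4) (nat_lit 384) (nat_lit 230) (nat_lit 166)) (XT.lf (nat_lit 0) (nat_lit 503174561914) (nat_lit 76) (nat_lit 27086672288) (nat_lit 76) (nat_lit 21686645348) (nat_lit 3) (nat_lit 4) (nat_lit 4) (nat_lit 5) (nat_lit 4) (nat_lit 4) (nat_lit 385) (nat_lit 230) (nat_lit 165))))) (XT.nd (nat_lit 156) (nat_lit 0) (nat_lit 0) (XT.nd (nat_lit 78) (nat_lit 0) (nat_lit 0) (XT.lf (nat_lit 0) (nat_lit 531519216710) (nat_lit 76) (nat_lit 26675609733) (nat_lit 76) (nat_lit 21264324244) (nat_lit 3) (nat_lit 4) (nat_lit 4) (nat_lit 5) (nat_lit 4) (nat_lit 4) (nat_lit 386) (nat_lit 230) (nat_lit 164)) (XT.lf (nat_lit 0) (nat_lit 561269620295) (nat_lit 76) (nat_lit 26249341719) (nat_lit 76) (nat_lit 20827333802) (nat_lit 3) (nat_lit 4) (nat_lit 4) (nat_lit 5) (nat_lit 4) (nat_lit 4) (nat_lit 387) (nat_lit 230)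 (nat_lit 163))) (XT.nd (nat_lit 78) (nat_lit 0) (nat_lit 0) (XT.lf (nat_lit 0) (nat_lit 592496606965) (nat_lit 76) (nat_lit 25806853322) (nat_lit 76) (nat_lit 20374633570) (nat_lit 3) (nat_lit 4) (nat_lit 4) (nat_lit 5) (nat_lit 4) (nat_lit 4) (nat_lit 388) (nat_lit 230) (nat_lit 162)) (XT.nd (nat_lit 35100) (nat_lit 0) (nat_lit 456) (XT.lf (nat_lit 0) (nat_lit 625274526687) (nat_lit 76) (nat_lit 25347091000) (nat_lit 76) (nat_lit 19905145689) (nat_lit 3) (nat_lit 4) (nat_lit 4) (nat_lit 5) (nat_lit 4) (nat_lit 4) (nat_lit 389) (nat_lit 230) (nat_lit 161)) (XT.lf (nat_lit 0) (nat_lit 287556159) (nat_lit 76) (nat_lit 5857845702) (nat_lit 76) (nat_lit 5857845702) (nat_lit 9) (nat_lit 4) (nat_lit 10) (nat_lit 5) (nat_lit 10) (nat_lit 4) (nat_lit 318) (nat_lit 231) (nat_lit 231)))))) (XT.nd (nat_lit 390) (nat_lit 76) (nat_lit 0) (XT.nd (nat_lit 156) (nat_lit 152) (nat_lit 0) (XT.nd (nat_lit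 78) (nat_lit 0) (nat_lit 0) (XT.lf (nat_lit 0) (nat_lit 8020413512) (nat_lit 76) (nat_lit 8644817030) (nat_lit 76) (nat_lit 8334107367) (nat_lit 9) (nat_lit 4) (nat_lit 10) (nat_lit 5) (nat_lit 10) (nat_lit 4) (nat_lit 319) (nat_lit 231) (nat_lit 230)) (XT.lf (nat_lit 0) (nat_lit 15604432631) (nat_lit 76) (nat_lit 5525273719) (nat_lit 76) (nat_lit 4918650092) (nat_lit 9) (nat_lit 4) (nat_lit 10) (nat_lit 5) (nat_lit 10) (nat_lit 4) (nat_lit 320) (nat_lit 231) (nat_lit 229))) (XT.nd (nat_lit 78) (nat_lit 152) (nat_lit 0) (XT.lf (nat_lit 0) (nat_lit 23345226863) (nat_lit 76) (nat_lit 2349633987) (nat_lit 76) (nat_lit 1461187536) (nat_lit 9) (nat_lit 4) (nat_lit 10) (nat_lit 5) (nat_lit 10) (nat_lit 4) (nat_lit 321) (nat_lit 231) (nat_lit 228)) (XT.nd (nat_lit 78) (nat_lit 0) (nat_lit 0) (XT.lf (nat_lit 0) (nat_lit 2043035337) (nat_lit 152) (nat_lit 25336042720) (nat_lit 0) (nat_lit 941274252)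 (nat_lit 7) (nat_lit 5) (nat_lit 9) (nat_lit 4) (nat_lit 7) (nat_lit 4) (nat_lit 322) (nat_lit 231) (nat_lit 227)) (XT.lf (nat_lit 0) (nat_lit 5659606491) (nat_lit 152) (nat_lit 19568441121) (nat_lit 0) (nat_lit 4314396254) (nat_lit 7) (nat_lit 5) (nat_lit 9) (nat_lit 4) (nat_lit 7) (nat_lit 4) (nat_lit 323) (nat_lit 231) (nat_lit 226))))) (XT.nd (nat_lit 156) (nat_lit 76) (nat_lit 0) (XT.nd (nat_lit 78) (nat_lit 0) (nat_lit 0) (XT.lf (nat_lit 0) (nat_lit 9344747078) (nat_lit 152) (nat_lit 13718903720) (nat_lit 0) (nat_lit 7767680507) (nat_lit 7) (nat_lit 5) (nat_lit 9) (nat_lit 4) (nat_lit 7) (nat_lit 4) (nat_lit 324) (nat_lit 231) (nat_lit 225)) (XT.lf (nat_lit 0) (nat_lit 13107231242) (nat_lit 152) (nat_lit 7773503047) (nat_lit 0) (nat_lit 11309349115) (nat_lit 7) (nat_lit 5) (nat_lit 9) (nat_lit 4) (nat_lit 7) (nat_lit 4) (nat_lit 325) (nat_lit 231) (nat_lit 224))) (XT.nd (nat_lit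 78) (nat_lit 76) (nat_lit 0) (XT.lf (nat_lit 0) (nat_lit 16956017281) (nat_lit 152) (nat_lit 1718083384) (nat_lit 0) (nat_lit 14947834623) (nat_lit 7) (nat_lit 5) (nat_lit 9) (nat_lit 4) (nat_lit 7) (nat_lit 4) (nat_lit 326) (nat_lit 231) (nat_lit 223)) (XT.nd (nat_lit 78) (nat_lit 0) (nat_lit 0) (XT.lf (nat_lit 0) (nat_lit 4609299295) (nat_lit 76) (nat_lit 16362933753) (nat_lit 76) (nat_lit 14154464876) (nat_lit 6) (nat_lit 4) (nat_lit 7) (nat_lit 5) (nat_lit 7) (nat_lit 4) (nat_lit 327) (nat_lit 231) (nat_lit 222)) (XT.lf (nat_lit 0) (nat_lit 11137241116) (nat_lit 76) (nat_lit 13986019811) (nat_lit 76) (nat_lit 11586802155) (nat_lit 6) (nat_lit 4) (nat_lit 7) (nat_lit 5) (nat_lit 7) (nat_lit 4) (nat_lit 328) (nat_lit 231) (nat_lit 221))))))))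
noncomputable def xc33 : XT := (XT.nd (nat_lit 1482) (nat_lit 0) (nat_lit 0) (XT.nd (nat_lit 702) (nat_lit 76) (nat_lit 0) (XT.nd (nat_lit 312) (nat_lit 152) (nat_lit 0) (XT.nd (nat_lit 156) (nat_lit 0) (nat_lit 0) (XT.nd (nat_lit 78) (nat_lit 0) (nat_lit 0) (XT.lf (nat_lit 0) (nat_lit 17824477200) (nat_lit 76) (nat_lit 11566796095) (nat_lit 76) (nat_lit 8985912934) (nat_lit 6) (nat_lit 4) (nat_lit 7) (nat_lit 5) (nat_lit 7) (nat_lit 4) (nat_lit 329) (nat_lit 231) (nat_lit 220)) (XT.lf (nat_lit 0) (nat_lit 24686929540) (nat_lit 76) (nat_lit 9099502548) (nat_lit 76) (nat_lit 6345604620) (nat_lit 6) (nat_lit 4) (nat_lit 7) (nat_lit 5) (nat_lit 7) (nat_lit 4) (nat_lit 330) (nat_lit 231) (nat_lit 219))) (XT.nd (nat_lit 78) (nat_lit 0) (nat_lit 0) (XT.lf (nat_lit 0) (nat_lit 31740937306) (nat_lit 76) (nat_lit 6578264662) (nat_lit 76) (nat_lit 3659590766) (nat_lit 6) (nat_lit 4) (nat_lit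 7) (nat_lit 5) (nat_lit 7) (nat_lit 4) (nat_lit 331) (nat_lit 231) (nat_lit 218)) (XT.lf (nat_lit 0) (nat_lit 39003295755) (nat_lit 76) (nat_lit 3997079489) (nat_lit 76) (nat_lit 921476099) (nat_lit 6) (nat_lit 4) (nat_lit 7) (nat_lit 5) (nat_lit 7) (nat_lit 4) (nat_lit 332) (nat_lit 231) (nat_lit 217)))) (XT.nd (nat_lit 156) (nat_lit 0) (nat_lit 0) (XT.nd (nat_lit 78) (nat_lit 0) (nat_lit 0) (XT.lf (nat_lit 0) (nat_lit 512585233) (nat_lit 76) (nat_lit 1310656367) (nat_lit 152) (nat_lit 44140733220) (nat_lit 4) (nat_lit 5) (nat_lit 5) (nat_lit 5) (nat_lit 6) (nat_lit 4) (nat_lit 333) (nat_lit 231) (nat_lit 216)) (XT.lf (nat_lit 0) (nat_lit 4707154907) (nat_lit 152) (nat_lit 41898586147) (nat_lit 0) (nat_lit 1500107549) (nat_lit 4) (nat_lit 5) (nat_lit 6) (nat_lit 4) (nat_lit 4) (nat_lit 4) (nat_lit 334) (nat_lit 231) (nat_lit 215))) (XT.nd (nat_lit 78) (nat_lit 0) (nat_lit 0) (XT.lf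 (nat_lit 0) (nat_lit 7685023375) (nat_lit 152) (nat_lit 38323478617) (nat_lit 0) (nat_lit 4348869734) (nat_lit 4) (nat_lit 5) (nat_lit 6) (nat_lit 4) (nat_lit 4) (nat_lit 4) (nat_lit 335) (nat_lit 231) (nat_lit 214)) (XT.nd (nat_lit 78) (nat_lit 0) (nat_lit 0) (XT.lf (nat_lit 0) (nat_lit 10743474149) (nat_lit 152) (nat_lit 34697091820) (nat_lit 0) (nat_lit 7284362144) (nat_lit 4) (nat_lit 5) (nat_lit 6) (nat_lit 4) (nat_lit 4) (nat_lit 4) (nat_lit 336) (nat_lit 231) (nat_lit 213)) (XT.lf (nat_lit 0) (nat_lit 13889789254) (nat_lit 152) (nat_lit 31010791499) (nat_lit 0) (nat_lit 10313574045) (nat_lit 4) (nat_lit 5) (nat_lit 6) (nat_lit 4) (nat_lit 4) (nat_lit 4) (nat_lit 337) (nat_lit 231) (nat_lit 212)))))) (XT.nd (nat_lit 390) (nat_lit 76) (nat_lit 0) (XT.nd (nat_lit 156) (nat_lit 0) (nat_lit 0) (XT.nd (nat_lit 78) (nat_lit 0) (nat_lit 0) (XT.lf (nat_lit 0) (nat_lit 17131459917) (nat_lit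 152) (nat_lit 27255800750) (nat_lit 0) (nat_lit 13443717846) (nat_lit 4) (nat_lit 5) (nat_lit 6) (nat_lit 4) (nat_lit 4) (nat_lit 4) (nat_lit 338) (nat_lit 231) (nat_lit 211)) (XT.lf (nat_lit 0) (nat_lit 20476204401) (nat_lit 152) (nat_lit 23423179119) (nat_lit 0) (nat_lit 16682246272) (nat_lit 4) (nat_lit 5) (nat_lit 6) (nat_lit 4) (nat_lit 4) (nat_lit 4) (nat_lit 339) (nat_lit 231) (nat_lit 210))) (XT.nd (nat_lit 78) (nat_lit 0) (nat_lit 0) (XT.lf (nat_lit 0) (nat_lit 23931986384) (nat_lit 152) (nat_lit 19503801316) (nat_lit 0) (nat_lit 20036870104) (nat_lit 4) (nat_lit 5) (nat_lit 6) (nat_lit 4) (nat_lit 4) (nat_lit 4) (nat_lit 340) (nat_lit 231) (nat_lit 209)) (XT.nd (nat_lit 78) (nat_lit 0) (nat_lit 0) (XT.lf (nat_lit 0) (nat_lit 27507033918) (nat_lit 152) (nat_lit 15488335488) (nat_lit 0) (nat_lit 23515576542) (nat_lit 4) (nat_lit 5) (nat_lit 6) (nat_lit 4) (nat_lit 4) (nat_lit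 4) (nat_lit 341) (nat_lit 231) (nat_lit 208)) (XT.lf (nat_lit 0) (nat_lit 31209859020) (nat_lit 152) (nat_lit 11367221004) (nat_lit 0) (nat_lit 27126648220) (nat_lit 4) (nat_lit 5) (nat_lit 6) (nat_lit 4) (nat_lit 4) (nat_lit 4) (nat_lit 342) (nat_lit 231) (nat_lit 207))))) (XT.nd (nat_lit 156) (nat_lit 76) (nat_lit 0) (XT.nd (nat_lit 78) (nat_lit 0) (nat_lit 0) (XT.lf (nat_lit 0) (nat_lit 35049277942) (nat_lit 152) (nat_lit 7130645686) (nat_lit 0) (nat_lit 30878682928) (nat_lit 4) (nat_lit 5) (nat_lit 6) (nat_lit 4) (nat_lit 4) (nat_lit 4) (nat_lit 343) (nat_lit 231) (nat_lit 206)) (XT.lf (nat_lit 0) (nat_lit 39034432157) (nat_lit 152) (nat_lit 2768522449) (nat_lit 0) (nat_lit 34780614082) (nat_lit 4) (nat_lit 5) (nat_lit 6) (nat_lit 4) (nat_lit 4) (nat_lit 4) (nat_lit 344) (nat_lit 231) (nat_lit 205))) (XT.nd (nat_lit 78) (nat_lit 0) (nat_lit 0) (XT.lf (nat_lit 0) (nat_lit 1786720941)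 (nat_lit 76) (nat_lit 41415984906) (nat_lit 76) (nat_lit 37082906773) (nat_lit 3) (nat_lit 4) (nat_lit 4) (nat_lit 5) (nat_lit 4) (nat_lit 4) (nat_lit 345) (nat_lit 231) (nat_lit 204)) (XT.nd (nat_lit 78) (nat_lit 0) (nat_lit 0) (XT.lf (nat_lit 0) (nat_lit 6584996473) (nat_lit 76) (nat_lit 40998083670) (nat_lit 76) (nat_lit 36589519768) (nat_lit 3) (nat_lit 4) (nat_lit 4) (nat_lit 5) (nat_lit 4) (nat_lit 4) (nat_lit 346) (nat_lit 231) (nat_lit 203)) (XT.lf (nat_lit 0) (nat_lit 11546188755) (nat_lit 76) (nat_lit 40595142164) (nat_lit 76) (nat_lit 36114687053) (nat_lit 3) (nat_lit 4) (nat_lit 4) (nat_lit 5) (nat_lit 4) (nat_lit 4) (nat_lit 347) (nat_lit 231) (nat_lit 202))))))) (XT.nd (nat_lit 780) (nat_lit 0) (nat_lit 0) (XT.nd (nat_lit 390) (nat_lit 0) (nat_lit 0) (XT.nd (nat_lit 156) (nat_lit 0) (nat_lit 0) (XT.nd (nat_lit 78) (nat_lit 0) (nat_lit 0) (XT.lf (nat_lit 0) (nat_lit 16682110151)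 (nat_lit 76) (nat_lit 40206201002) (nat_lit 76) (nat_lit 35657278072) (nat_lit 3) (nat_lit 4) (nat_lit 4) (nat_lit 5) (nat_lit 4) (nat_lit 4) (nat_lit 348) (nat_lit 231) (nat_lit 201)) (XT.lf (nat_lit 0) (nat_lit 22004989044) (nat_lit 76) (nat_lit 39830334134) (nat_lit 76) (nat_lit 35216203759) (nat_lit 3) (nat_lit 4) (nat_lit 4) (nat_lit 5) (nat_lit 4) (nat_lit 4) (nat_lit 349) (nat_lit 231) (nat_lit 200))) (XT.nd (nat_lit 78) (nat_lit 0) (nat_lit 0) (XT.lf (nat_lit 0) (nat_lit 27527498956) (nat_lit 76) (nat_lit 39466646639) (nat_lit 76) (nat_lit 34790413935) (nat_lit 3) (nat_lit 4) (nat_lit 4) (nat_lit 5) (nat_lit 4) (nat_lit 4) (nat_lit 350) (nat_lit 231) (nat_lit 199)) (XT.nd (nat_lit 78) (nat_lit 0) (nat_lit 0) (XT.lf (nat_lit 0) (nat_lit 33262788719) (nat_lit 76) (nat_lit 39114272595) (nat_lit 76) (nat_lit 34378894814) (nat_lit 3) (nat_lit 4) (nat_lit 4) (nat_lit 5) (nat_lit 4)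 (nat_lit 4) (nat_lit 351) (nat_lit 231) (nat_lit 198)) (XT.lf (nat_lit 0) (nat_lit 39224513786) (nat_lit 76) (nat_lit 38772373015) (nat_lit 76) (nat_lit 33980666591) (nat_lit 3) (nat_lit 4) (nat_lit 4) (nat_lit 5) (nat_lit 4) (nat_lit 4) (nat_lit 352) (nat_lit 231) (nat_lit 197))))) (XT.nd (nat_lit 156) (nat_lit 0) (nat_lit 0) (XT.nd (nat_lit 78) (nat_lit 0) (nat_lit 0) (XT.lf (nat_lit 0) (nat_lit 45426868741) (nat_lit 76) (nat_lit 38440133853) (nat_lit 76) (nat_lit 33594781102) (nat_lit 3) (nat_lit 4) (nat_lit 4) (nat_lit 5) (nat_lit 4) (nat_lit 4) (nat_lit 353) (nat_lit 231) (nat_lit 196)) (XT.lf (nat_lit 0) (nat_lit 51884621094) (nat_lit 76) (nat_lit 38116764063) (nat_lit 76) (nat_lit 33220319572) (nat_lit 3) (nat_lit 4) (nat_lit 4) (nat_lit 5) (nat_lit 4) (nat_lit 4) (nat_lit 354) (nat_lit 231) (nat_lit 195))) (XT.nd (nat_lit 78) (nat_lit 0) (nat_lit 0) (XT.lf (nat_lit 0) (nat_lit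 58613146448) (nat_lit 76) (nat_lit 37801493718) (nat_lit 76) (nat_lit 32856390427) (nat_lit 3) (nat_lit 4) (nat_lit 4) (nat_lit 5) (nat_lit 4) (nat_lit 4) (nat_lit 355) (nat_lit 231) (nat_lit 194)) (XT.nd (nat_lit 78) (nat_lit 0) (nat_lit 0) (XT.lf (nat_lit 0) (nat_lit 65628465099) (nat_lit 76) (nat_lit 37493572173) (nat_lit 76) (nat_lit 32502127168) (nat_lit 3) (nat_lit 4) (nat_lit 4) (nat_lit 5) (nat_lit 4) (nat_lit 4) (nat_lit 356) (nat_lit 231) (nat_lit 193)) (XT.lf (nat_lit 0) (nat_lit 72947280188) (nat_lit 76) (nat_lit 37192266282) (nat_lit 76) (nat_lit 32156686311) (nat_lit 3) (nat_lit 4) (nat_lit 4) (nat_lit 5) (nat_lit 4) (nat_lit 4) (nat_lit 357) (nat_lit 231) (nat_lit 192)))))) (XT.nd (nat_lit 390) (nat_lit 0) (nat_lit 0) (XT.nd (nat_lit 156) (nat_lit 0) (nat_lit 0) (XT.nd (nat_lit 78) (nat_lit 0) (nat_lit 0) (XT.lf (nat_lit 0) (nat_lit 80587017466) (nat_lit 76) (nat_lit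 36896858651) (nat_lit 76) (nat_lit 31819245378) (nat_lit 3) (nat_lit 4) (nat_lit 4) (nat_lit 5) (nat_lit 4) (nat_lit 4) (nat_lit 358) (nat_lit 231) (nat_lit 191)) (XT.lf (nat_lit 0) (nat_lit 88565866782) (nat_lit 76) (nat_lit 36606645927) (nat_lit 76) (nat_lit 31489000939) (nat_lit 3) (nat_lit 4) (nat_lit 4) (nat_lit 5) (nat_lit 4) (nat_lit 4) (nat_lit 359) (nat_lit 231) (nat_lit 190))) (XT.nd (nat_lit 78) (nat_lit 0) (nat_lit 0) (XT.lf (nat_lit 0) (nat_lit 96902825398) (nat_lit 76) (nat_lit 36320937127) (nat_lit 76) (nat_lit 31165166696) (nat_lit 3) (nat_lit 4) (nat_lit 4) (nat_lit 5) (nat_lit 4) (nat_lit 4) (nat_lit 360) (nat_lit 231) (nat_lit 189)) (XT.nd (nat_lit 78) (nat_lit 0) (nat_lit 0) (XT.lf (nat_lit 0) (nat_lit 105617743213) (nat_lit 76) (nat_lit 36039051994) (nat_lit 76) (nat_lit 30846971617) (nat_lit 3) (nat_lit 4) (nat_lit 4) (nat_lit 5) (nat_lit 4) (nat_lit 4) (nat_lit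 361) (nat_lit 231) (nat_lit 188)) (XT.lf (nat_lit 0) (nat_lit 114731370034) (nat_lit 76) (nat_lit 35760319371) (nat_lit 76) (nat_lit 30533658094) (nat_lit 3) (nat_lit 4) (nat_lit 4) (nat_lit 5) (nat_lit 4) (nat_lit 4) (nat_lit 362) (nat_lit 231) (nat_lit 187))))) (XT.nd (nat_lit 156) (nat_lit 0) (nat_lit 0) (XT.nd (nat_lit 78) (nat_lit 0) (nat_lit 0) (XT.lf (nat_lit 0) (nat_lit 124265404971) (nat_lit 76) (nat_lit 35484075610) (nat_lit 76) (nat_lit 30224480141) (nat_lit 3) (nat_lit 4) (nat_lit 4) (nat_lit 5) (nat_lit 4) (nat_lit 4) (nat_lit 363) (nat_lit 231) (nat_lit 186)) (XT.lf (nat_lit 0) (nat_lit 134242548108) (nat_lit 76) (nat_lit 35209662987) (nat_lit 76) (nat_lit 29918701622) (nat_lit 3) (nat_lit 4) (nat_lit 4) (nat_lit 5) (nat_lit 4) (nat_lit 4) (nat_lit 364) (nat_lit 231) (nat_lit 185))) (XT.nd (nat_lit 78) (nat_lit 0) (nat_lit 0) (XT.lf (nat_lit 0) (nat_lit 144686554546) (nat_lit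 76) (nat_lit 34936428140) (nat_lit 76) (nat_lit 29615594493) (nat_lit 3) (nat_lit 4) (nat_lit 4) (nat_lit 5) (nat_lit 4) (nat_lit 4) (nat_lit 365) (nat_lit 231) (nat_lit 184)) (XT.nd (nat_lit 78) (nat_lit 0) (nat_lit 0) (XT.lf (nat_lit 0) (nat_lit 155622290969) (nat_lit 76) (nat_lit 34663720508) (nat_lit 76) (nat_lit 29314437068) (nat_lit 3) (nat_lit 4) (nat_lit 4) (nat_lit 5) (nat_lit 4) (nat_lit 4) (nat_lit 366) (nat_lit 231) (nat_lit 183)) (XT.lf (nat_lit 0) (nat_lit 167075794844) (nat_lit 76) (nat_lit 34390890788) (nat_lit 76) (nat_lit 29014512308) (nat_lit 3) (nat_lit 4) (nat_lit 4) (nat_lit 5) (nat_lit 4) (nat_lit 4) (nat_lit 367) (nat_lit 231) (nat_lit 182))))))))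
noncomputable def xc34 : XT := (XT.nd (nat_lit 1482) (nat_lit 0) (nat_lit 0) (XT.nd (nat_lit 702) (nat_lit 0) (nat_lit 0) (XT.nd (nat_lit 312) (nat_lit 0) (nat_lit 0) (XT.nd (nat_lit 156) (nat_lit 0) (nat_lit 0) (XT.nd (nat_lit 78) (nat_lit 0) (nat_lit 0) (XT.lf (nat_lit 0) (nat_lit 179074336418) (nat_lit 76) (nat_lit 34117289386) (nat_lit 76) (nat_lit 28715106105) (nat_lit 3) (nat_lit 4) (nat_lit 4) (nat_lit 5) (nat_lit 4) (nat_lit 4) (nat_lit 368) (nat_lit 231) (nat_lit 181)) (XT.lf (nat_lit 0) (nat_lit 191646483647) (nat_lit 76) (nat_lit 33842264869) (nat_lit 76) (nat_lit 28415505587) (nat_lit 3) (nat_lit 4) (nat_lit 4) (nat_lit 5) (nat_lit 4) (nat_lit 4) (nat_lit 369) (nat_lit 231) (nat_lit 180))) (XT.nd (nat_lit 78) (nat_lit 0) (nat_lit 0) (XT.lf (nat_lit 0) (nat_lit 204822170216) (nat_lit 76) (nat_lit 33565162418) (nat_lit 76) (nat_lit 28114997421) (nat_lit 3) (nat_lit 4) (nat_lit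 4) (nat_lit 5) (nat_lit 4) (nat_lit 4) (nat_lit 370) (nat_lit 231) (nat_lit 179)) (XT.lf (nat_lit 0) (nat_lit 218632766806) (nat_lit 76) (nat_lit 33285322263) (nat_lit 76) (nat_lit 27812866110) (nat_lit 3) (nat_lit 4) (nat_lit 4) (nat_lit 5) (nat_lit 4) (nat_lit 4) (nat_lit 371) (nat_lit 231) (nat_lit 178)))) (XT.nd (nat_lit 156) (nat_lit 0) (nat_lit 0) (XT.nd (nat_lit 78) (nat_lit 0) (nat_lit 0) (XT.lf (nat_lit 0) (nat_lit 233111155790) (nat_lit 76) (nat_lit 33002078121) (nat_lit 76) (nat_lit 27508392294) (nat_lit 3) (nat_lit 4) (nat_lit 4) (nat_lit 5) (nat_lit 4) (nat_lit 4) (nat_lit 372) (nat_lit 231) (nat_lit 177)) (XT.lf (nat_lit 0) (nat_lit 248291809524) (nat_lit 76) (nat_lit 32714755598) (nat_lit 76) (nat_lit 27200851035) (nat_lit 3) (nat_lit 4) (nat_lit 4) (nat_lit 5) (nat_lit 4) (nat_lit 4) (nat_lit 373) (nat_lit 231) (nat_lit 176))) (XT.nd (nat_lit 78) (nat_lit 0) (nat_lit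 0) (XT.lf (nat_lit 0) (nat_lit 264210872420) (nat_lit 76) (nat_lit 32422670596) (nat_lit 76) (nat_lit 26889510093) (nat_lit 3) (nat_lit 4) (nat_lit 4) (nat_lit 5) (nat_lit 4) (nat_lit 4) (nat_lit 374) (nat_lit 231) (nat_lit 175)) (XT.nd (nat_lit 78) (nat_lit 0) (nat_lit 0) (XT.lf (nat_lit 0) (nat_lit 280906247010) (nat_lit 76) (nat_lit 32125127672) (nat_lit 76) (nat_lit 26573628179) (nat_lit 3) (nat_lit 4) (nat_lit 4) (nat_lit 5) (nat_lit 4) (nat_lit 4) (nat_lit 375) (nat_lit 231) (nat_lit 174)) (XT.lf (nat_lit 0) (nat_lit 298417684185) (nat_lit 76) (nat_lit 31821418391) (nat_lit 76) (nat_lit 26252453193) (nat_lit 3) (nat_lit 4) (nat_lit 4) (nat_lit 5) (nat_lit 4) (nat_lit 4) (nat_lit 376) (nat_lit 231) (nat_lit 173)))))) (XT.nd (nat_lit 390) (nat_lit 0) (nat_lit 0) (XT.nd (nat_lit 156) (nat_lit 0) (nat_lit 0) (XT.nd (nat_lit 78) (nat_lit 0) (nat_lit 0) (XT.lf (nat_lit 0) (nat_lit 316786877843)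 (nat_lit 76) (nat_lit 31510819636) (nat_lit 76) (nat_lit 25925220434) (nat_lit 3) (nat_lit 4) (nat_lit 4) (nat_lit 5) (nat_lit 4) (nat_lit 4) (nat_lit 377) (nat_lit 231) (nat_lit 172)) (XT.lf (nat_lit 0) (nat_lit 336057564160) (nat_lit 76) (nat_lit 31192591887) (nat_lit 76) (nat_lit 25591150776) (nat_lit 3) (nat_lit 4) (nat_lit 4) (nat_lit 5) (nat_lit 4) (nat_lit 4) (nat_lit 378) (nat_lit 231) (nat_lit 171))) (XT.nd (nat_lit 78) (nat_lit 0) (nat_lit 0) (XT.lf (nat_lit 0) (nat_lit 356275625722) (nat_lit 76) (nat_lit 30865977457) (nat_lit 76) (nat_lit 25249448814) (nat_lit 3) (nat_lit 4) (nat_lit 4) (nat_lit 5) (nat_lit 4) (nat_lit 4) (nat_lit 379) (nat_lit 231) (nat_lit 170)) (XT.nd (nat_lit 78) (nat_lit 0) (nat_lit 0) (XT.lf (nat_lit 0) (nat_lit 377489200772) (nat_lit 76) (nat_lit 30530198694) (nat_lit 76) (nat_lit 24899300972) (nat_lit 3) (nat_lit 4) (nat_lit 4) (nat_lit 5) (nat_lit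 4) (nat_lit 4) (nat_lit 380) (nat_lit 231) (nat_lit 169)) (XT.lf (nat_lit 0) (nat_lit 399748797820) (nat_lit 76) (nat_lit 30184456125) (nat_lit 76) (nat_lit 24539873566) (nat_lit 3) (nat_lit 4) (nat_lit 4) (nat_lit 5) (nat_lit 4) (nat_lit 4) (nat_lit 381) (nat_lit 231) (nat_lit 168))))) (XT.nd (nat_lit 156) (nat_lit 0) (nat_lit 0) (XT.nd (nat_lit 78) (nat_lit 0) (nat_lit 0) (XT.lf (nat_lit 0) (nat_lit 423107415908) (nat_lit 76) (nat_lit 29827926552) (nat_lit 76) (nat_lit 24170310815) (nat_lit 3) (nat_lit 4) (nat_lit 4) (nat_lit 5) (nat_lit 4) (nat_lit 4) (nat_lit 382) (nat_lit 231) (nat_lit 167)) (XT.lf (nat_lit 0) (nat_lit 447620670793) (nat_lit 76) (nat_lit 29459761096) (nat_lit 76) (nat_lit 23789732809) (nat_lit 3) (nat_lit 4) (nat_lit 4) (nat_lit 5) (nat_lit 4) (nat_lit 4) (nat_lit 383) (nat_lit 231) (nat_lit 166))) (XT.nd (nat_lit 78) (nat_lit 0) (nat_lit 0) (XT.lf (nat_lit 0)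 (nat_lit 473346927367) (nat_lit 76) (nat_lit 29079083173) (nat_lit 76) (nat_lit 23397233409) (nat_lit 3) (nat_lit 4) (nat_lit 4) (nat_lit 5) (nat_lit 4) (nat_lit 4) (nat_lit 384) (nat_lit 231) (nat_lit 165)) (XT.nd (nat_lit 78) (nat_lit 0) (nat_lit 0) (XT.lf (nat_lit 0) (nat_lit 500347438623) (nat_lit 76) (nat_lit 28684986405) (nat_lit 76) (nat_lit 22991878093) (nat_lit 3) (nat_lit 4) (nat_lit 4) (nat_lit 5) (nat_lit 4) (nat_lit 4) (nat_lit 385) (nat_lit 231) (nat_lit 164)) (XT.lf (nat_lit 0) (nat_lit 528686491491) (nat_lit 76) (nat_lit 28276532469) (nat_lit 76) (nat_lit 22572701729) (nat_lit 3) (nat_lit 4) (nat_lit 4) (nat_lit 5) (nat_lit 4) (nat_lit 4) (nat_lit 386) (nat_lit 231) (nat_lit 163))))))) (XT.nd (nat_lit 35646) (nat_lit 0) (nat_lit 228) (XT.nd (nat_lit 35256) (nat_lit 0) (nat_lit 304) (XT.nd (nat_lit 156) (nat_lit 0) (nat_lit 0) (XT.nd (nat_lit 78) (nat_lit 0) (nat_lit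 0) (XT.lf (nat_lit 0) (nat_lit 558431559909) (nat_lit 76) (nat_lit 27852748854) (nat_lit 76) (nat_lit 22138706278) (nat_lit 3) (nat_lit 4) (nat_lit 4) (nat_lit 5) (nat_lit 4) (nat_lit 4) (nat_lit 387) (nat_lit 231) (nat_lit 162)) (XT.lf (nat_lit 0) (nat_lit 589653465466) (nat_lit 76) (nat_lit 27412626552) (nat_lit 76) (nat_lit 21688858418) (nat_lit 3) (nat_lit 4) (nat_lit 4) (nat_lit 5) (nat_lit 4) (nat_lit 4) (nat_lit 388) (nat_lit 231) (nat_lit 161))) (XT.nd (nat_lit 34944) (nat_lit 0) (nat_lit 532) (XT.lf (nat_lit 0) (nat_lit 622426546033) (nat_lit 76) (nat_lit 26955117653) (nat_lit 76) (nat_lit 21222087083) (nat_lit 3) (nat_lit 4) (nat_lit 4) (nat_lit 5) (nat_lit 4) (nat_lit 4) (nat_lit 389) (nat_lit 231) (nat_lit 160)) (XT.nd (nat_lit 78) (nat_lit 0) (nat_lit 0) (XT.lf (nat_lit 0) (nat_lit 2191110180) (nat_lit 152) (nat_lit 6700623650) (nat_lit 0) (nat_lit 2191110180) (nat_lit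 10) (nat_lit 5) (nat_lit 12) (nat_lit 4) (nat_lit 10) (nat_lit 4) (nat_lit 316) (nat_lit 232) (nat_lit 232)) (XT.lf (nat_lit 0) (nat_lit 8427629629) (nat_lit 152) (nat_lit 6533181375) (nat_lit 0) (nat_lit 8101384483) (nat_lit 10) (nat_lit 5) (nat_lit 12) (nat_lit 4) (nat_lit 10) (nat_lit 4) (nat_lit 317) (nat_lit 232) (nat_lit 231))))) (XT.nd (nat_lit 156) (nat_lit 152) (nat_lit 0) (XT.nd (nat_lit 78) (nat_lit 0) (nat_lit 0) (XT.lf (nat_lit 0) (nat_lit 455490616) (nat_lit 76) (nat_lit 12095652901) (nat_lit 76) (nat_lit 11458698092) (nat_lit 9) (nat_lit 4) (nat_lit 10) (nat_lit 5) (nat_lit 10) (nat_lit 4) (nat_lit 318) (nat_lit 232) (nat_lit 230)) (XT.lf (nat_lit 0) (nat_lit 7786866378) (nat_lit 76) (nat_lit 9075936957) (nat_lit 76) (nat_lit 8143068184) (nat_lit 9) (nat_lit 4) (nat_lit 10) (nat_lit 5) (nat_lit 10) (nat_lit 4) (nat_lit 319) (nat_lit 232) (nat_lit 229))) (XT.nd (nat_lit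 78) (nat_lit 152) (nat_lit 0) (XT.lf (nat_lit 0) (nat_lit 15262385086) (nat_lit 76) (nat_lit 6005115961) (nat_lit 76) (nat_lit 4790424364) (nat_lit 9) (nat_lit 4) (nat_lit 10) (nat_lit 5) (nat_lit 10) (nat_lit 4) (nat_lit 320) (nat_lit 232) (nat_lit 228)) (XT.nd (nat_lit 78) (nat_lit 152) (nat_lit 0) (XT.lf (nat_lit 0) (nat_lit 22899845594) (nat_lit 76) (nat_lit 2875878433) (nat_lit 76) (nat_lit 1392784147) (nat_lit 9) (nat_lit 4) (nat_lit 10) (nat_lit 5) (nat_lit 10) (nat_lit 4) (nat_lit 321) (nat_lit 232) (nat_lit 227)) (XT.lf (nat_lit 0) (nat_lit 2036029073) (nat_lit 152) (nat_lit 25920321597) (nat_lit 0) (nat_lit 380109174) (nat_lit 7) (nat_lit 5) (nat_lit 9) (nat_lit 4) (nat_lit 7) (nat_lit 4) (nat_lit 322) (nat_lit 232) (nat_lit 226)))))) (XT.nd (nat_lit 390) (nat_lit 0) (nat_lit 0) (XT.nd (nat_lit 156) (nat_lit 76) (nat_lit 0) (XT.nd (nat_lit 78) (nat_lit 0) (nat_lit 0) (XT.lf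 (nat_lit 0) (nat_lit 5597839678) (nat_lit 152) (nat_lit 20253424524) (nat_lit 0) (nat_lit 3710063444) (nat_lit 7) (nat_lit 5) (nat_lit 9) (nat_lit 4) (nat_lit 7) (nat_lit 4) (nat_lit 323) (nat_lit 232) (nat_lit 225)) (XT.lf (nat_lit 0) (nat_lit 9230827362) (nat_lit 152) (nat_lit 14499796194) (nat_lit 0) (nat_lit 7122235571) (nat_lit 7) (nat_lit 5) (nat_lit 9) (nat_lit 4) (nat_lit 7) (nat_lit 4) (nat_lit 324) (nat_lit 232) (nat_lit 224))) (XT.nd (nat_lit 78) (nat_lit 76) (nat_lit 0) (XT.lf (nat_lit 0) (nat_lit 12943642095) (nat_lit 152) (nat_lit 8645737494) (nat_lit 0) (nat_lit 10624749775) (nat_lit 7) (nat_lit 5) (nat_lit 9) (nat_lit 4) (nat_lit 7) (nat_lit 4) (nat_lit 325) (nat_lit 232) (nat_lit 223)) (XT.nd (nat_lit 78) (nat_lit 76) (nat_lit 0) (XT.lf (nat_lit 0) (nat_lit 16745123913) (nat_lit 152) (nat_lit 2677310187) (nat_lit 0) (nat_lit 14225945373) (nat_lit 7) (nat_lit 5) (nat_lit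 9) (nat_lit 4) (nat_lit 7) (nat_lit 4) (nat_lit 326) (nat_lit 232) (nat_lit 222)) (XT.lf (nat_lit 0) (nat_lit 3532766869) (nat_lit 76) (nat_lit 17166713484) (nat_lit 76) (nat_lit 14456786164) (nat_lit 6) (nat_lit 4) (nat_lit 7) (nat_lit 5) (nat_lit 7) (nat_lit 4) (nat_lit 327) (nat_lit 232) (nat_lit 221))))) (XT.nd (nat_lit 156) (nat_lit 0) (nat_lit 0) (XT.nd (nat_lit 78) (nat_lit 0) (nat_lit 0) (XT.lf (nat_lit 0) (nat_lit 9979195115) (nat_lit 76) (nat_lit 14827134139) (nat_lit 76) (nat_lit 11935541314) (nat_lit 6) (nat_lit 4) (nat_lit 7) (nat_lit 5) (nat_lit 7) (nat_lit 4) (nat_lit 328) (nat_lit 232) (nat_lit 220)) (XT.lf (nat_lit 0) (nat_lit 16588799225) (nat_lit 76) (nat_lit 12443467181) (nat_lit 76) (nat_lit 9378859590) (nat_lit 6) (nat_lit 4) (nat_lit 7) (nat_lit 5) (nat_lit 7) (nat_lit 4) (nat_lit 329) (nat_lit 232) (nat_lit 219))) (XT.nd (nat_lit 78) (nat_lit 0) (nat_lit 0) (XT.lf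 (nat_lit 0) (nat_lit 23377316349) (nat_lit 76) (nat_lit 10010037214) (nat_lit 76) (nat_lit 6780653655) (nat_lit 6) (nat_lit 4) (nat_lit 7) (nat_lit 5) (nat_lit 7) (nat_lit 4) (nat_lit 330) (nat_lit 232) (nat_lit 218)) (XT.nd (nat_lit 78) (nat_lit 0) (nat_lit 0) (XT.lf (nat_lit 0) (nat_lit 30360909625) (nat_lit 76) (nat_lit 7521050355) (nat_lit 76) (nat_lit 4134737303) (nat_lit 6) (nat_lit 4) (nat_lit 7) (nat_lit 5) (nat_lit 7) (nat_lit 4) (nat_lit 331) (nat_lit 232) (nat_lit 217)) (XT.lf (nat_lit 0) (nat_lit 37556206655) (nat_lit 76) (nat_lit 4970580447) (nat_lit 76) (nat_lit 1434810734) (nat_lit 6) (nat_lit 4) (nat_lit 7) (nat_lit 5) (nat_lit 7) (nat_lit 4) (nat_lit 332) (nat_lit 232) (nat_lit 216))))))))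
noncomputable def xc35 : XT := (XT.nd (nat_lit 1482) (nat_lit 0) (nat_lit 0) (XT.nd (nat_lit 702) (nat_lit 76) (nat_lit 0) (XT.nd (nat_lit 312) (nat_lit 0) (nat_lit 0) (XT.nd (nat_lit 156) (nat_lit 0) (nat_lit 0) (XT.nd (nat_lit 78) (nat_lit 76) (nat_lit 0) (XT.lf (nat_lit 0) (nat_lit 1283128426) (nat_lit 152) (nat_lit 1047696114) (nat_lit 76) (nat_lit 43675480272) (nat_lit 5) (nat_lit 5) (nat_lit 7) (nat_lit 5) (nat_lit 6) (nat_lit 4) (nat_lit 333) (nat_lit 232) (nat_lit 215)) (XT.lf (nat_lit 0) (nat_lit 4098950081) (nat_lit 152) (nat_lit 43585771902) (nat_lit 0) (nat_lit 466882475) (nat_lit 4) (nat_lit 5) (nat_lit 6) (nat_lit 4) (nat_lit 4) (nat_lit 4) (nat_lit 334) (nat_lit 232) (nat_lit 214))) (XT.nd (nat_lit 78) (nat_lit 0) (nat_lit 0) (XT.lf (nat_lit 0) (nat_lit 7043496052) (nat_lit 152) (nat_lit 40072847840) (nat_lit 0) (nat_lit 3288470082) (nat_lit 4) (nat_lit 5) (nat_lit 6)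 (nat_lit 4) (nat_lit 4) (nat_lit 4) (nat_lit 335) (nat_lit 232) (nat_lit 213)) (XT.lf (nat_lit 0) (nat_lit 10070211115) (nat_lit 152) (nat_lit 36505683392) (nat_lit 0) (nat_lit 6198081941) (nat_lit 4) (nat_lit 5) (nat_lit 6) (nat_lit 4) (nat_lit 4) (nat_lit 4) (nat_lit 336) (nat_lit 232) (nat_lit 212)))) (XT.nd (nat_lit 156) (nat_lit 0) (nat_lit 0) (XT.nd (nat_lit 78) (nat_lit 0) (nat_lit 0) (XT.lf (nat_lit 0) (nat_lit 13186301734) (nat_lit 152) (nat_lit 32875785310) (nat_lit 0) (nat_lit 9202645698) (nat_lit 4) (nat_lit 5) (nat_lit 6) (nat_lit 4) (nat_lit 4) (nat_lit 4) (nat_lit 337) (nat_lit 232) (nat_lit 211)) (XT.lf (nat_lit 0) (nat_lit 16399187171) (nat_lit 152) (nat_lit 29174510978) (nat_lit 0) (nat_lit 12309315078) (nat_lit 4) (nat_lit 5) (nat_lit 6) (nat_lit 4) (nat_lit 4) (nat_lit 4) (nat_lit 338) (nat_lit 232) (nat_lit 210))) (XT.nd (nat_lit 78) (nat_lit 0) (nat_lit 0) (XT.lf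 (nat_lit 0) (nat_lit 19716517155) (nat_lit 152) (nat_lit 25393047839) (nat_lit 0) (nat_lit 15525486911) (nat_lit 4) (nat_lit 5) (nat_lit 6) (nat_lit 4) (nat_lit 4) (nat_lit 4) (nat_lit 339) (nat_lit 232) (nat_lit 209)) (XT.nd (nat_lit 78) (nat_lit 0) (nat_lit 0) (XT.lf (nat_lit 0) (nat_lit 23146190090) (nat_lit 152) (nat_lit 21522392409) (nat_lit 0) (nat_lit 18858818750) (nat_lit 4) (nat_lit 5) (nat_lit 6) (nat_lit 4) (nat_lit 4) (nat_lit 4) (nat_lit 340) (nat_lit 232) (nat_lit 208)) (XT.lf (nat_lit 0) (nat_lit 26696371864) (nat_lit 152) (nat_lit 17553328843) (nat_lit 0) (nat_lit 22317247099) (nat_lit 4) (nat_lit 5) (nat_lit 6) (nat_lit 4) (nat_lit 4) (nat_lit 4) (nat_lit 341) (nat_lit 232) (nat_lit 207)))))) (XT.nd (nat_lit 390) (nat_lit 0) (nat_lit 0) (XT.nd (nat_lit 156) (nat_lit 76) (nat_lit 0) (XT.nd (nat_lit 78) (nat_lit 0) (nat_lit 0) (XT.lf (nat_lit 0) (nat_lit 30375515290)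 (nat_lit 152) (nat_lit 13476406988) (nat_lit 0) (nat_lit 25909006312) (nat_lit 4) (nat_lit 5) (nat_lit 6) (nat_lit 4) (nat_lit 4) (nat_lit 4) (nat_lit 342) (nat_lit 232) (nat_lit 206)) (XT.lf (nat_lit 0) (nat_lit 34192380235) (nat_lit 152) (nat_lit 9281919888) (nat_lit 0) (nat_lit 29642648196) (nat_lit 4) (nat_lit 5) (nat_lit 6) (nat_lit 4) (nat_lit 4) (nat_lit 4) (nat_lit 343) (nat_lit 232) (nat_lit 205))) (XT.nd (nat_lit 78) (nat_lit 76) (nat_lit 0) (XT.lf (nat_lit 0) (nat_lit 38156054471) (nat_lit 152) (nat_lit 4959880668) (nat_lit 0) (nat_lit 33527062374) (nat_lit 4) (nat_lit 5) (nat_lit 6) (nat_lit 4) (nat_lit 4) (nat_lit 4) (nat_lit 344) (nat_lit 232) (nat_lit 204)) (XT.nd (nat_lit 78) (nat_lit 76) (nat_lit 0) (XT.lf (nat_lit 0) (nat_lit 42275975319) (nat_lit 152) (nat_lit 499998760) (nat_lit 0) (nat_lit 37571497452) (nat_lit 4) (nat_lit 5) (nat_lit 6) (nat_lit 4) (nat_lit 4)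 (nat_lit 4) (nat_lit 345) (nat_lit 232) (nat_lit 203)) (XT.lf (nat_lit 0) (nat_lit 4244185028) (nat_lit 76) (nat_lit 42384030707) (nat_lit 76) (nat_lit 37607661631) (nat_lit 3) (nat_lit 4) (nat_lit 4) (nat_lit 5) (nat_lit 4) (nat_lit 4) (nat_lit 346) (nat_lit 232) (nat_lit 202))))) (XT.nd (nat_lit 156) (nat_lit 0) (nat_lit 0) (XT.nd (nat_lit 78) (nat_lit 0) (nat_lit 0) (XT.lf (nat_lit 0) (nat_lit 9169606335) (nat_lit 76) (nat_lit 41997746479) (nat_lit 76) (nat_lit 37152909585) (nat_lit 3) (nat_lit 4) (nat_lit 4) (nat_lit 5) (nat_lit 4) (nat_lit 4) (nat_lit 347) (nat_lit 232) (nat_lit 201)) (XT.lf (nat_lit 0) (nat_lit 14271460134) (nat_lit 76) (nat_lit 41624669391) (nat_lit 76) (nat_lit 36714625051) (nat_lit 3) (nat_lit 4) (nat_lit 4) (nat_lit 5) (nat_lit 4) (nat_lit 4) (nat_lit 348) (nat_lit 232) (nat_lit 200))) (XT.nd (nat_lit 78) (nat_lit 0) (nat_lit 0) (XT.lf (nat_lit 0) (nat_lit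 19561893697) (nat_lit 76) (nat_lit 41263911165) (nat_lit 76) (nat_lit 36291764496) (nat_lit 3) (nat_lit 4) (nat_lit 4) (nat_lit 5) (nat_lit 4) (nat_lit 4) (nat_lit 349) (nat_lit 232) (nat_lit 199)) (XT.nd (nat_lit 78) (nat_lit 0) (nat_lit 0) (XT.lf (nat_lit 0) (nat_lit 25053503295) (nat_lit 76) (nat_lit 40914612853) (nat_lit 76) (nat_lit 35883321108) (nat_lit 3) (nat_lit 4) (nat_lit 4) (nat_lit 5) (nat_lit 4) (nat_lit 4) (nat_lit 350) (nat_lit 232) (nat_lit 198)) (XT.lf (nat_lit 0) (nat_lit 30759364188) (nat_lit 76) (nat_lit 40575942793) (nat_lit 76) (nat_lit 35488322404) (nat_lit 3) (nat_lit 4) (nat_lit 4) (nat_lit 5) (nat_lit 4) (nat_lit 4) (nat_lit 351) (nat_lit 232) (nat_lit 197))))))) (XT.nd (nat_lit 780) (nat_lit 0) (nat_lit 0) (XT.nd (nat_lit 390) (nat_lit 0) (nat_lit 0) (XT.nd (nat_lit 156) (nat_lit 0) (nat_lit 0) (XT.nd (nat_lit 78) (nat_lit 0) (nat_lit 0) (XT.lf (nat_lit 0)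 (nat_lit 36693061760) (nat_lit 76) (nat_lit 40247094626) (nat_lit 76) (nat_lit 35105827910) (nat_lit 3) (nat_lit 4) (nat_lit 4) (nat_lit 5) (nat_lit 4) (nat_lit 4) (nat_lit 352) (nat_lit 232) (nat_lit 196)) (XT.lf (nat_lit 0) (nat_lit 42868723861) (nat_lit 76) (nat_lit 39927285381) (nat_lit 76) (nat_lit 34734926926) (nat_lit 3) (nat_lit 4) (nat_lit 4) (nat_lit 5) (nat_lit 4) (nat_lit 4) (nat_lit 353) (nat_lit 232) (nat_lit 195))) (XT.nd (nat_lit 78) (nat_lit 0) (nat_lit 0) (XT.lf (nat_lit 0) (nat_lit 49301054450) (nat_lit 76) (nat_lit 39615753608) (nat_lit 76) (nat_lit 34374736352) (nat_lit 3) (nat_lit 4) (nat_lit 4) (nat_lit 5) (nat_lit 4) (nat_lit 4) (nat_lit 354) (nat_lit 232) (nat_lit 194)) (XT.nd (nat_lit 78) (nat_lit 0) (nat_lit 0) (XT.lf (nat_lit 0) (nat_lit 56005368598) (nat_lit 76) (nat_lit 39311757564) (nat_lit 76) (nat_lit 34024398594) (nat_lit 3) (nat_lit 4) (nat_lit 4)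 (nat_lit 5) (nat_lit 4) (nat_lit 4) (nat_lit 355) (nat_lit 232) (nat_lit 193)) (XT.lf (nat_lit 0) (nat_lit 62997628960) (nat_lit 76) (nat_lit 39014573449) (nat_lit 76) (nat_lit 33683079513) (nat_lit 3) (nat_lit 4) (nat_lit 4) (nat_lit 5) (nat_lit 4) (nat_lit 4) (nat_lit 356) (nat_lit 232) (nat_lit 192))))) (XT.nd (nat_lit 156) (nat_lit 0) (nat_lit 0) (XT.nd (nat_lit 78) (nat_lit 0) (nat_lit 0) (XT.lf (nat_lit 0) (nat_lit 70294483773) (nat_lit 76) (nat_lit 38723493682) (nat_lit 76) (nat_lit 33349966445) (nat_lit 3) (nat_lit 4) (nat_lit 4) (nat_lit 5) (nat_lit 4) (nat_lit 4) (nat_lit 357) (nat_lit 232) (nat_lit 191)) (XT.lf (nat_lit 0) (nat_lit 77913306501) (nat_lit 76) (nat_lit 38437825216) (nat_lit 76) (nat_lit 33024266263) (nat_lit 3) (nat_lit 4) (nat_lit 4) (nat_lit 5) (nat_lit 4) (nat_lit 4) (nat_lit 358) (nat_lit 232) (nat_lit 190))) (XT.nd (nat_lit 78) (nat_lit 0) (nat_lit 0) (XT.lf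 (nat_lit 0) (nat_lit 85872237200) (nat_lit 76) (nat_lit 38156887887) (nat_lit 76) (nat_lit 32705203492) (nat_lit 3) (nat_lit 4) (nat_lit 4) (nat_lit 5) (nat_lit 4) (nat_lit 4) (nat_lit 359) (nat_lit 232) (nat_lit 189)) (XT.nd (nat_lit 78) (nat_lit 0) (nat_lit 0) (XT.lf (nat_lit 0) (nat_lit 94190225703) (nat_lit 76) (nat_lit 37880012798) (nat_lit 76) (nat_lit 32392018457) (nat_lit 3) (nat_lit 4) (nat_lit 4) (nat_lit 5) (nat_lit 4) (nat_lit 4) (nat_lit 360) (nat_lit 232) (nat_lit 188)) (XT.lf (nat_lit 0) (nat_lit 102887076745) (nat_lit 76) (nat_lit 37606540722) (nat_lit 76) (nat_lit 32083965480) (nat_lit 3) (nat_lit 4) (nat_lit 4) (nat_lit 5) (nat_lit 4) (nat_lit 4) (nat_lit 361) (nat_lit 232) (nat_lit 187)))))) (XT.nd (nat_lit 390) (nat_lit 0) (nat_lit 0) (XT.nd (nat_lit 156) (nat_lit 0) (nat_lit 0) (XT.nd (nat_lit 78) (nat_lit 0) (nat_lit 0) (XT.lf (nat_lit 0) (nat_lit 111983497115)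 (nat_lit 76) (nat_lit 37335820535) (nat_lit 76) (nat_lit 31780311102) (nat_lit 3) (nat_lit 4) (nat_lit 4) (nat_lit 5) (nat_lit 4) (nat_lit 4) (nat_lit 362) (nat_lit 232) (nat_lit 186)) (XT.lf (nat_lit 0) (nat_lit 121501144955) (nat_lit 76) (nat_lit 37067207665) (nat_lit 76) (nat_lit 31480332335) (nat_lit 3) (nat_lit 4) (nat_lit 4) (nat_lit 5) (nat_lit 4) (nat_lit 4) (nat_lit 363) (nat_lit 232) (nat_lit 185))) (XT.nd (nat_lit 78) (nat_lit 0) (nat_lit 0) (XT.lf (nat_lit 0) (nat_lit 131462681334) (nat_lit 76) (nat_lit 36800062557) (nat_lit 76) (nat_lit 31183314945) (nat_lit 3) (nat_lit 4) (nat_lit 4) (nat_lit 5) (nat_lit 4) (nat_lit 4) (nat_lit 364) (nat_lit 232) (nat_lit 184)) (XT.nd (nat_lit 78) (nat_lit 0) (nat_lit 0) (XT.lf (nat_lit 0) (nat_lit 141891824193) (nat_lit 76) (nat_lit 36533749153) (nat_lit 76) (nat_lit 30888551748) (nat_lit 3) (nat_lit 4) (nat_lit 4) (nat_lit 5) (nat_lit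 4) (nat_lit 4) (nat_lit 365) (nat_lit 232) (nat_lit 183)) (XT.lf (nat_lit 0) (nat_lit 152813404826) (nat_lit 76) (nat_lit 36267633372) (nat_lit 76) (nat_lit 30595340926) (nat_lit 3) (nat_lit 4) (nat_lit 4) (nat_lit 5) (nat_lit 4) (nat_lit 4) (nat_lit 366) (nat_lit 232) (nat_lit 182))))) (XT.nd (nat_lit 156) (nat_lit 0) (nat_lit 0) (XT.nd (nat_lit 78) (nat_lit 0) (nat_lit 0) (XT.lf (nat_lit 0) (nat_lit 164253426996) (nat_lit 76) (nat_lit 36001081605) (nat_lit 76) (nat_lit 30302984359) (nat_lit 3) (nat_lit 4) (nat_lit 4) (nat_lit 5) (nat_lit 4) (nat_lit 4) (nat_lit 367) (nat_lit 232) (nat_lit 181)) (XT.lf (nat_lit 0) (nat_lit 176239128851) (nat_lit 76) (nat_lit 35733459205) (nat_lit 76) (nat_lit 30010785959) (nat_lit 3) (nat_lit 4) (nat_lit 4) (nat_lit 5) (nat_lit 4) (nat_lit 4) (nat_lit 368) (nat_lit 232) (nat_lit 180))) (XT.nd (nat_lit 78) (nat_lit 0) (nat_lit 0) (XT.lf (nat_lit 0)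 (nat_lit 188799047777) (nat_lit 76) (nat_lit 35464128977) (nat_lit 76) (nat_lit 29718050015) (nat_lit 3) (nat_lit 4) (nat_lit 4) (nat_lit 5) (nat_lit 4) (nat_lit 4) (nat_lit 369) (nat_lit 232) (nat_lit 179)) (XT.nd (nat_lit 78) (nat_lit 0) (nat_lit 0) (XT.lf (nat_lit 0) (nat_lit 201963088342) (nat_lit 76) (nat_lit 35192449657) (nat_lit 76) (nat_lit 29424079539) (nat_lit 3) (nat_lit 4) (nat_lit 4) (nat_lit 5) (nat_lit 4) (nat_lit 4) (nat_lit 370) (nat_lit 232) (nat_lit 178)) (XT.lf (nat_lit 0) (nat_lit 215762593501) (nat_lit 76) (nat_lit 34917774390) (nat_lit 76) (nat_lit 29128174599) (nat_lit 3) (nat_lit 4) (nat_lit 4) (nat_lit 5) (nat_lit 4) (nat_lit 4) (nat_lit 371) (nat_lit 232) (nat_lit 177))))))))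
noncomputable def xc36 : XT := (XT.nd (nat_lit 36192) (nat_lit 0) (nat_lit 76) (XT.nd (nat_lit 702) (nat_lit 0) (nat_lit 0) (XT.nd (nat_lit 312) (nat_lit 0) (nat_lit 0) (XT.nd (nat_lit 156) (nat_lit 0) (nat_lit 0) (XT.nd (nat_lit 78) (nat_lit 0) (nat_lit 0) (XT.lf (nat_lit 0) (nat_lit 230230419217) (nat_lit 76) (nat_lit 34639449187) (nat_lit 76) (nat_lit 28829630660) (nat_lit 3) (nat_lit 4) (nat_lit 4) (nat_lit 5) (nat_lit 4) (nat_lit 4) (nat_lit 372) (nat_lit 232) (nat_lit 176)) (XT.lf (nat_lit 0) (nat_lit 245401012695) (nat_lit 76) (nat_lit 34356811370) (nat_lit 76) (nat_lit 28527736903) (nat_lit 3) (nat_lit 4) (nat_lit 4) (nat_lit 5) (nat_lit 4) (nat_lit 4) (nat_lit 373) (nat_lit 232) (nat_lit 175))) (XT.nd (nat_lit 78) (nat_lit 0) (nat_lit 0) (XT.lf (nat_lit 0) (nat_lit 261310494395) (nat_lit 76) (nat_lit 34069187991) (nat_lit 76) (nat_lit 28221774534) (nat_lit 3) (nat_lit 4) (nat_lit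 4) (nat_lit 5) (nat_lit 4) (nat_lit 4) (nat_lit 374) (nat_lit 232) (nat_lit 174)) (XT.lf (nat_lit 0) (nat_lit 277996744036) (nat_lit 76) (nat_lit 33775894233) (nat_lit 76) (nat_lit 27911015071) (nat_lit 3) (nat_lit 4) (nat_lit 4) (nat_lit 5) (nat_lit 4) (nat_lit 4) (nat_lit 375) (nat_lit 232) (nat_lit 173)))) (XT.nd (nat_lit 156) (nat_lit 0) (nat_lit 0) (XT.nd (nat_lit 78) (nat_lit 0) (nat_lit 0) (XT.lf (nat_lit 0) (nat_lit 295499490784) (nat_lit 76) (nat_lit 33476231777) (nat_lit 76) (nat_lit 27594718610) (nat_lit 3) (nat_lit 4) (nat_lit 4) (nat_lit 5) (nat_lit 4) (nat_lit 4) (nat_lit 376) (nat_lit 232) (nat_lit 172)) (XT.lf (nat_lit 0) (nat_lit 313860407845) (nat_lit 76) (nat_lit 33169487141) (nat_lit 76) (nat_lit 27272132065) (nat_lit 3) (nat_lit 4) (nat_lit 4) (nat_lit 5) (nat_lit 4) (nat_lit 4) (nat_lit 377) (nat_lit 232) (nat_lit 171))) (XT.nd (nat_lit 78) (nat_lit 0) (nat_lit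 0) (XT.lf (nat_lit 0) (nat_lit 333123211689) (nat_lit 76) (nat_lit 32854929980) (nat_lit 76) (nat_lit 26942487372) (nat_lit 3) (nat_lit 4) (nat_lit 4) (nat_lit 5) (nat_lit 4) (nat_lit 4) (nat_lit 378) (nat_lit 232) (nat_lit 170)) (XT.nd (nat_lit 78) (nat_lit 0) (nat_lit 0) (XT.lf (nat_lit 0) (nat_lit 353333766134) (nat_lit 76) (nat_lit 32531811350) (nat_lit 76) (nat_lit 26604999663) (nat_lit 3) (nat_lit 4) (nat_lit 4) (nat_lit 5) (nat_lit 4) (nat_lit 4) (nat_lit 379) (nat_lit 232) (nat_lit 169)) (XT.lf (nat_lit 0) (nat_lit 374540191547) (nat_lit 76) (nat_lit 32199361919) (nat_lit 76) (nat_lit 26258865396) (nat_lit 3) (nat_lit 4) (nat_lit 4) (nat_lit 5) (nat_lit 4) (nat_lit 4) (nat_lit 380) (nat_lit 232) (nat_lit 168)))))) (XT.nd (nat_lit 390) (nat_lit 0) (nat_lit 0) (XT.nd (nat_lit 156) (nat_lit 0) (nat_lit 0) (XT.nd (nat_lit 78) (nat_lit 0) (nat_lit 0) (XT.lf (nat_lit 0) (nat_lit 396792979418)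 (nat_lit 76) (nat_lit 31856790142) (nat_lit 76) (nat_lit 25903260441) (nat_lit 3) (nat_lit 4) (nat_lit 4) (nat_lit 5) (nat_lit 4) (nat_lit 4) (nat_lit 381) (nat_lit 232) (nat_lit 167)) (XT.lf (nat_lit 0) (nat_lit 420145112576) (nat_lit 76) (nat_lit 31503280372) (nat_lit 76) (nat_lit 25537338121) (nat_lit 3) (nat_lit 4) (nat_lit 4) (nat_lit 5) (nat_lit 4) (nat_lit 4) (nat_lit 382) (nat_lit 232) (nat_lit 166))) (XT.nd (nat_lit 78) (nat_lit 0) (nat_lit 0) (XT.lf (nat_lit 0) (nat_lit 444652191336) (nat_lit 76) (nat_lit 31137990919) (nat_lit 76) (nat_lit 25160227191) (nat_lit 3) (nat_lit 4) (nat_lit 4) (nat_lit 5) (nat_lit 4) (nat_lit 4) (nat_lit 383) (nat_lit 232) (nat_lit 165)) (XT.nd (nat_lit 78) (nat_lit 0) (nat_lit 0) (XT.lf (nat_lit 0) (nat_lit 470372565888) (nat_lit 76) (nat_lit 30760052046) (nat_lit 76) (nat_lit 24771029769) (nat_lit 3) (nat_lit 4) (nat_lit 4) (nat_lit 5) (nat_lit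 4) (nat_lit 4) (nat_lit 384) (nat_lit 232) (nat_lit 164)) (XT.lf (nat_lit 0) (nat_lit 497367475217) (nat_lit 76) (nat_lit 30368563898) (nat_lit 76) (nat_lit 24368819193) (nat_lit 3) (nat_lit 4) (nat_lit 4) (nat_lit 5) (nat_lit 4) (nat_lit 4) (nat_lit 385) (nat_lit 232) (nat_lit 163))))) (XT.nd (nat_lit 156) (nat_lit 0) (nat_lit 0) (XT.nd (nat_lit 78) (nat_lit 0) (nat_lit 0) (XT.lf (nat_lit 0) (nat_lit 525701192917) (nat_lit 76) (nat_lit 29962594360) (nat_lit 76) (nat_lit 23952637820) (nat_lit 3) (nat_lit 4) (nat_lit 4) (nat_lit 5) (nat_lit 4) (nat_lit 4) (nat_lit 386) (nat_lit 232) (nat_lit 162)) (XT.lf (nat_lit 0) (nat_lit 555441180221) (nat_lit 76) (nat_lit 29541176840) (nat_lit 76) (nat_lit 23521494742) (nat_lit 3) (nat_lit 4) (nat_lit 4) (nat_lit 5) (nat_lit 4) (nat_lit 4) (nat_lit 387) (nat_lit 232) (nat_lit 161))) (XT.nd (nat_lit 78) (nat_lit 0) (nat_lit 0) (XT.lf (nat_lit 0)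 (nat_lit 586658246624) (nat_lit 76) (nat_lit 29103307961) (nat_lit 76) (nat_lit 23074363427) (nat_lit 3) (nat_lit 4) (nat_lit 4) (nat_lit 5) (nat_lit 4) (nat_lit 4) (nat_lit 388) (nat_lit 232) (nat_lit 160)) (XT.nd (nat_lit 34788) (nat_lit 0) (nat_lit 684) (XT.lf (nat_lit 0) (nat_lit 619426718472) (nat_lit 76) (nat_lit 28647945179) (nat_lit 76) (nat_lit 22610179277) (nat_lit 3) (nat_lit 4) (nat_lit 4) (nat_lit 5) (nat_lit 4) (nat_lit 4) (nat_lit 389) (nat_lit 232) (nat_lit 159)) (XT.lf (nat_lit 0) (nat_lit 7182155295) (nat_lit 76) (nat_lit 1535252619) (nat_lit 76) (nat_lit 1535252619) (nat_lit 12) (nat_lit 4) (nat_lit 13) (nat_lit 5) (nat_lit 13) (nat_lit 4) (nat_lit 314) (nat_lit 233) (nat_lit 233))))))) (XT.nd (nat_lit 780) (nat_lit 228) (nat_lit 0) (XT.nd (nat_lit 390) (nat_lit 152) (nat_lit 0) (XT.nd (nat_lit 156) (nat_lit 76) (nat_lit 0) (XT.nd (nat_lit 78) (nat_lit 0) (nat_lit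 0) (XT.lf (nat_lit 0) (nat_lit 740729703) (nat_lit 152) (nat_lit 20179638245) (nat_lit 0) (nat_lit 398172300) (nat_lit 10) (nat_lit 5) (nat_lit 12) (nat_lit 4) (nat_lit 10) (nat_lit 4) (nat_lit 315) (nat_lit 233) (nat_lit 232)) (XT.lf (nat_lit 0) (nat_lit 4657538156) (nat_lit 152) (nat_lit 13522830016) (nat_lit 0) (nat_lit 3988735607) (nat_lit 10) (nat_lit 5) (nat_lit 12) (nat_lit 4) (nat_lit 10) (nat_lit 4) (nat_lit 316) (nat_lit 233) (nat_lit 231))) (XT.nd (nat_lit 78) (nat_lit 76) (nat_lit 0) (XT.lf (nat_lit 0) (nat_lit 8638909704) (nat_lit 152) (nat_lit 6770557150) (nat_lit 0) (nat_lit 7659397491) (nat_lit 10) (nat_lit 5) (nat_lit 12) (nat_lit 4) (nat_lit 10) (nat_lit 4) (nat_lit 317) (nat_lit 233) (nat_lit 230)) (XT.nd (nat_lit 78) (nat_lit 0) (nat_lit 0) (XT.lf (nat_lit 0) (nat_lit 96340694) (nat_lit 76) (nat_lit 12599487255) (nat_lit 76) (nat_lit 11324061078) (nat_lit 9) (nat_lit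 4) (nat_lit 10) (nat_lit 5) (nat_lit 10) (nat_lit 4) (nat_lit 318) (nat_lit 233) (nat_lit 229)) (XT.lf (nat_lit 0) (nat_lit 7319216045) (nat_lit 76) (nat_lit 9628493626) (nat_lit 76) (nat_lit 8071244626) (nat_lit 9) (nat_lit 4) (nat_lit 10) (nat_lit 5) (nat_lit 10) (nat_lit 4) (nat_lit 319) (nat_lit 233) (nat_lit 228))))) (XT.nd (nat_lit 156) (nat_lit 152) (nat_lit 0) (XT.nd (nat_lit 78) (nat_lit 0) (nat_lit 0) (XT.lf (nat_lit 0) (nat_lit 14691401028) (nat_lit 76) (nat_lit 6604074834) (nat_lit 76) (nat_lit 4778423144) (nat_lit 9) (nat_lit 4) (nat_lit 10) (nat_lit 5) (nat_lit 10) (nat_lit 4) (nat_lit 320) (nat_lit 233) (nat_lit 227)) (XT.lf (nat_lit 0) (nat_lit 22230448465) (nat_lit 76) (nat_lit 3519029881) (nat_lit 76) (nat_lit 1437756584) (nat_lit 9) (nat_lit 4) (nat_lit 10) (nat_lit 5) (nat_lit 10) (nat_lit 4) (nat_lit 321) (nat_lit 233) (nat_lit 226))) (XT.nd (nat_lit 78) (nat_lit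 0) (nat_lit 0) (XT.lf (nat_lit 0) (nat_lit 1613765228) (nat_lit 76) (nat_lit 307448272) (nat_lit 152) (nat_lit 26437610551) (nat_lit 7) (nat_lit 5) (nat_lit 8) (nat_lit 5) (nat_lit 9) (nat_lit 4) (nat_lit 322) (nat_lit 233) (nat_lit 225)) (XT.nd (nat_lit 78) (nat_lit 0) (nat_lit 0) (XT.lf (nat_lit 0) (nat_lit 5426071073) (nat_lit 152) (nat_lit 21169270693) (nat_lit 0) (nat_lit 2991234137) (nat_lit 7) (nat_lit 5) (nat_lit 9) (nat_lit 4) (nat_lit 7) (nat_lit 4) (nat_lit 323) (nat_lit 233) (nat_lit 224)) (XT.lf (nat_lit 0) (nat_lit 9009389325) (nat_lit 152) (nat_lit 15506984337) (nat_lit 0) (nat_lit 6364251859) (nat_lit 7) (nat_lit 5) (nat_lit 9) (nat_lit 4) (nat_lit 7) (nat_lit 4) (nat_lit 324) (nat_lit 233) (nat_lit 223)))))) (XT.nd (nat_lit 390) (nat_lit 152) (nat_lit 0) (XT.nd (nat_lit 156) (nat_lit 76) (nat_lit 0) (XT.nd (nat_lit 78) (nat_lit 0) (nat_lit 0) (XT.lf (nat_lit 0) (nat_lit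 12674899838) (nat_lit 152) (nat_lit 9739917992) (nat_lit 0) (nat_lit 9829476153) (nat_lit 7) (nat_lit 5) (nat_lit 9) (nat_lit 4) (nat_lit 7) (nat_lit 4) (nat_lit 325) (nat_lit 233) (nat_lit 222)) (XT.lf (nat_lit 0) (nat_lit 16431330017) (nat_lit 152) (nat_lit 3854340548) (nat_lit 0) (nat_lit 13395157551) (nat_lit 7) (nat_lit 5) (nat_lit 9) (nat_lit 4) (nat_lit 7) (nat_lit 4) (nat_lit 326) (nat_lit 233) (nat_lit 221))) (XT.nd (nat_lit 78) (nat_lit 0) (nat_lit 0) (XT.lf (nat_lit 0) (nat_lit 2235304994) (nat_lit 76) (nat_lit 18087218124) (nat_lit 76) (nat_lit 14869380154) (nat_lit 6) (nat_lit 4) (nat_lit 7) (nat_lit 5) (nat_lit 7) (nat_lit 4) (nat_lit 327) (nat_lit 233) (nat_lit 220)) (XT.nd (nat_lit 78) (nat_lit 0) (nat_lit 0) (XT.lf (nat_lit 0) (nat_lit 8604101266) (nat_lit 76) (nat_lit 15783195537) (nat_lit 76) (nat_lit 12392342801) (nat_lit 6) (nat_lit 4) (nat_lit 7) (nat_lit 5) (nat_lit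 7) (nat_lit 4) (nat_lit 328) (nat_lit 233) (nat_lit 219)) (XT.lf (nat_lit 0) (nat_lit 15139770160) (nat_lit 76) (nat_lit 13433392159) (nat_lit 76) (nat_lit 9877763454) (nat_lit 6) (nat_lit 4) (nat_lit 7) (nat_lit 5) (nat_lit 7) (nat_lit 4) (nat_lit 329) (nat_lit 233) (nat_lit 218))))) (XT.nd (nat_lit 156) (nat_lit 152) (nat_lit 0) (XT.nd (nat_lit 78) (nat_lit 0) (nat_lit 0) (XT.lf (nat_lit 0) (nat_lit 21857872794) (nat_lit 76) (nat_lit 11032213220) (nat_lit 76) (nat_lit 7319655022) (nat_lit 6) (nat_lit 4) (nat_lit 7) (nat_lit 5) (nat_lit 7) (nat_lit 4) (nat_lit 330) (nat_lit 233) (nat_lit 217)) (XT.lf (nat_lit 0) (nat_lit 28774404651) (nat_lit 76) (nat_lit 8573941626) (nat_lit 76) (nat_lit 4711926768) (nat_lit 6) (nat_lit 4) (nat_lit 7) (nat_lit 5) (nat_lit 7) (nat_lit 4) (nat_lit 331) (nat_lit 233) (nat_lit 216))) (XT.nd (nat_lit 78) (nat_lit 152) (nat_lit 0) (XT.lf (nat_lit 0) (nat_lit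 35905833663) (nat_lit 76) (nat_lit 6052724351) (nat_lit 76) (nat_lit 2048369816) (nat_lit 6) (nat_lit 4) (nat_lit 7) (nat_lit 5) (nat_lit 7) (nat_lit 4) (nat_lit 332) (nat_lit 233) (nat_lit 215)) (XT.nd (nat_lit 78) (nat_lit 76) (nat_lit 0) (XT.lf (nat_lit 0) (nat_lit 655677960) (nat_lit 152) (nat_lit 2795776312) (nat_lit 76) (nat_lit 42602357238) (nat_lit 5) (nat_lit 5) (nat_lit 7) (nat_lit 5) (nat_lit 6) (nat_lit 4) (nat_lit 333) (nat_lit 233) (nat_lit 214)) (XT.lf (nat_lit 0) (nat_lit 2706902524) (nat_lit 76) (nat_lit 695987689) (nat_lit 152) (nat_lit 44799671682) (nat_lit 4) (nat_lit 5) (nat_lit 5) (nat_lit 5) (nat_lit 6) (nat_lit 4) (nat_lit 334) (nat_lit 233) (nat_lit 213))))))))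
noncomputable def xc37 : XT := (XT.nd (nat_lit 1482) (nat_lit 0) (nat_lit 0) (XT.nd (nat_lit 702) (nat_lit 76) (nat_lit 0) (XT.nd (nat_lit 312) (nat_lit 0) (nat_lit 0) (XT.nd (nat_lit 156) (nat_lit 0) (nat_lit 0) (XT.nd (nat_lit 78) (nat_lit 0) (nat_lit 0) (XT.lf (nat_lit 0) (nat_lit 6304834156) (nat_lit 152) (nat_lit 42031091341) (nat_lit 0) (nat_lit 2121995319) (nat_lit 4) (nat_lit 5) (nat_lit 6) (nat_lit 4) (nat_lit 4) (nat_lit 4) (nat_lit 335) (nat_lit 233) (nat_lit 212)) (XT.lf (nat_lit 0) (nat_lit 9301324732) (nat_lit 152) (nat_lit 38520329131) (nat_lit 0) (nat_lit 5006959034) (nat_lit 4) (nat_lit 5) (nat_lit 6) (nat_lit 4) (nat_lit 4) (nat_lit 4) (nat_lit 336) (nat_lit 233) (nat_lit 211))) (XT.nd (nat_lit 78) (nat_lit 0) (nat_lit 0) (XT.lf (nat_lit 0) (nat_lit 12388630125) (nat_lit 152) (nat_lit 34944147466) (nat_lit 0) (nat_lit 7988048369) (nat_lit 4) (nat_lit 5) (nat_lit 6)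 (nat_lit 4) (nat_lit 4) (nat_lit 4) (nat_lit 337) (nat_lit 233) (nat_lit 210)) (XT.lf (nat_lit 0) (nat_lit 15574101063) (nat_lit 152) (nat_lit 31294031626) (nat_lit 0) (nat_lit 11072361156) (nat_lit 4) (nat_lit 5) (nat_lit 6) (nat_lit 4) (nat_lit 4) (nat_lit 4) (nat_lit 338) (nat_lit 233) (nat_lit 209)))) (XT.nd (nat_lit 156) (nat_lit 0) (nat_lit 0) (XT.nd (nat_lit 78) (nat_lit 0) (nat_lit 0) (XT.lf (nat_lit 0) (nat_lit 18865321999) (nat_lit 152) (nat_lit 27561290861) (nat_lit 0) (nat_lit 14267240996) (nat_lit 4) (nat_lit 5) (nat_lit 6) (nat_lit 4) (nat_lit 4) (nat_lit 4) (nat_lit 339) (nat_lit 233) (nat_lit 208)) (XT.lf (nat_lit 0) (nat_lit 22270129174) (nat_lit 152) (nat_lit 23737037692) (nat_lit 0) (nat_lit 17580294746) (nat_lit 4) (nat_lit 5) (nat_lit 6) (nat_lit 4) (nat_lit 4) (nat_lit 4) (nat_lit 340) (nat_lit 233) (nat_lit 207))) (XT.nd (nat_lit 78) (nat_lit 0) (nat_lit 0) (XT.lf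 (nat_lit 0) (nat_lit 25796629271) (nat_lit 152) (nat_lit 19812166755) (nat_lit 0) (nat_lit 21019410630) (nat_lit 4) (nat_lit 5) (nat_lit 6) (nat_lit 4) (nat_lit 4) (nat_lit 4) (nat_lit 341) (nat_lit 233) (nat_lit 206)) (XT.nd (nat_lit 78) (nat_lit 0) (nat_lit 0) (XT.lf (nat_lit 0) (nat_lit 29453218721) (nat_lit 152) (nat_lit 15777333118) (nat_lit 0) (nat_lit 24592777018) (nat_lit 4) (nat_lit 5) (nat_lit 6) (nat_lit 4) (nat_lit 4) (nat_lit 4) (nat_lit 342) (nat_lit 233) (nat_lit 205)) (XT.lf (nat_lit 0) (nat_lit 33248603687) (nat_lit 152) (nat_lit 11622930036) (nat_lit 0) (nat_lit 28308901927) (nat_lit 4) (nat_lit 5) (nat_lit 6) (nat_lit 4) (nat_lit 4) (nat_lit 4) (nat_lit 343) (nat_lit 233) (nat_lit 204)))))) (XT.nd (nat_lit 390) (nat_lit 0) (nat_lit 0) (XT.nd (nat_lit 156) (nat_lit 76) (nat_lit 0) (XT.nd (nat_lit 78) (nat_lit 0) (nat_lit 0) (XT.lf (nat_lit 0) (nat_lit 37191820801)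 (nat_lit 152) (nat_lit 7339066071) (nat_lit 0) (nat_lit 32176633271) (nat_lit 4) (nat_lit 5) (nat_lit 6) (nat_lit 4) (nat_lit 4) (nat_lit 4) (nat_lit 344) (nat_lit 233) (nat_lit 203)) (XT.lf (nat_lit 0) (nat_lit 41292258675) (nat_lit 152) (nat_lit 2915541549) (nat_lit 0) (nat_lit 36205179936) (nat_lit 4) (nat_lit 5) (nat_lit 6) (nat_lit 4) (nat_lit 4) (nat_lit 4) (nat_lit 345) (nat_lit 233) (nat_lit 202))) (XT.nd (nat_lit 78) (nat_lit 0) (nat_lit 0) (XT.lf (nat_lit 0) (nat_lit 1713002511) (nat_lit 76) (nat_lit 43873422516) (nat_lit 76) (nat_lit 38717875959) (nat_lit 3) (nat_lit 4) (nat_lit 4) (nat_lit 5) (nat_lit 4) (nat_lit 4) (nat_lit 346) (nat_lit 233) (nat_lit 201)) (XT.nd (nat_lit 78) (nat_lit 0) (nat_lit 0) (XT.lf (nat_lit 0) (nat_lit 6604356221) (nat_lit 76) (nat_lit 43503002361) (nat_lit 76) (nat_lit 38282248358) (nat_lit 3) (nat_lit 4) (nat_lit 4) (nat_lit 5) (nat_lit 4) (nat_lit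 4) (nat_lit 347) (nat_lit 233) (nat_lit 200)) (XT.lf (nat_lit 0) (nat_lit 11673764690) (nat_lit 76) (nat_lit 43145033916) (nat_lit 76) (nat_lit 37862177583) (nat_lit 3) (nat_lit 4) (nat_lit 4) (nat_lit 5) (nat_lit 4) (nat_lit 4) (nat_lit 348) (nat_lit 233) (nat_lit 199))))) (XT.nd (nat_lit 156) (nat_lit 0) (nat_lit 0) (XT.nd (nat_lit 78) (nat_lit 0) (nat_lit 0) (XT.lf (nat_lit 0) (nat_lit 16933297940) (nat_lit 76) (nat_lit 42798664873) (nat_lit 76) (nat_lit 37456663465) (nat_lit 3) (nat_lit 4) (nat_lit 4) (nat_lit 5) (nat_lit 4) (nat_lit 4) (nat_lit 349) (nat_lit 233) (nat_lit 198)) (XT.lf (nat_lit 0) (nat_lit 22395478667) (nat_lit 76) (nat_lit 42463070545) (nat_lit 76) (nat_lit 37064740494) (nat_lit 3) (nat_lit 4) (nat_lit 4) (nat_lit 5) (nat_lit 4) (nat_lit 4) (nat_lit 350) (nat_lit 233) (nat_lit 197))) (XT.nd (nat_lit 78) (nat_lit 0) (nat_lit 0) (XT.lf (nat_lit 0) (nat_lit 28073312064)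 (nat_lit 76) (nat_lit 42137451897) (nat_lit 76) (nat_lit 36685475519) (nat_lit 3) (nat_lit 4) (nat_lit 4) (nat_lit 5) (nat_lit 4) (nat_lit 4) (nat_lit 351) (nat_lit 233) (nat_lit 196)) (XT.nd (nat_lit 78) (nat_lit 0) (nat_lit 0) (XT.lf (nat_lit 0) (nat_lit 33980316783) (nat_lit 76) (nat_lit 41821033648) (nat_lit 76) (nat_lit 36317965529) (nat_lit 3) (nat_lit 4) (nat_lit 4) (nat_lit 5) (nat_lit 4) (nat_lit 4) (nat_lit 352) (nat_lit 233) (nat_lit 195)) (XT.lf (nat_lit 0) (nat_lit 40130557119) (nat_lit 76) (nat_lit 41513062420) (nat_lit 76) (nat_lit 35961335501) (nat_lit 3) (nat_lit 4) (nat_lit 4) (nat_lit 5) (nat_lit 4) (nat_lit 4) (nat_lit 353) (nat_lit 233) (nat_lit 194))))))) (XT.nd (nat_lit 780) (nat_lit 0) (nat_lit 0) (XT.nd (nat_lit 390) (nat_lit 0) (nat_lit 0) (XT.nd (nat_lit 156) (nat_lit 0) (nat_lit 0) (XT.nd (nat_lit 78) (nat_lit 0) (nat_lit 0) (XT.lf (nat_lit 0) (nat_lit 46538676503)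 (nat_lit 76) (nat_lit 41212804948) (nat_lit 76) (nat_lit 35614736315) (nat_lit 3) (nat_lit 4) (nat_lit 4) (nat_lit 5) (nat_lit 4) (nat_lit 4) (nat_lit 354) (nat_lit 233) (nat_lit 193)) (XT.lf (nat_lit 0) (nat_lit 53219932362) (nat_lit 76) (nat_lit 40919546334) (nat_lit 76) (nat_lit 35277342735) (nat_lit 3) (nat_lit 4) (nat_lit 4) (nat_lit 5) (nat_lit 4) (nat_lit 4) (nat_lit 355) (nat_lit 233) (nat_lit 192))) (XT.nd (nat_lit 78) (nat_lit 0) (nat_lit 0) (XT.lf (nat_lit 0) (nat_lit 60190232447) (nat_lit 76) (nat_lit 40632588343) (nat_lit 76) (nat_lit 34948351443) (nat_lit 3) (nat_lit 4) (nat_lit 4) (nat_lit 5) (nat_lit 4) (nat_lit 4) (nat_lit 356) (nat_lit 233) (nat_lit 191)) (XT.nd (nat_lit 78) (nat_lit 0) (nat_lit 0) (XT.lf (nat_lit 0) (nat_lit 67466172711) (nat_lit 76) (nat_lit 40351247741) (nat_lit 76) (nat_lit 34626979126) (nat_lit 3) (nat_lit 4) (nat_lit 4) (nat_lit 5) (nat_lit 4)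 (nat_lit 4) (nat_lit 357) (nat_lit 233) (nat_lit 190)) (XT.lf (nat_lit 0) (nat_lit 75065076822) (nat_lit 76) (nat_lit 40074854670) (nat_lit 76) (nat_lit 34312460612) (nat_lit 3) (nat_lit 4) (nat_lit 4) (nat_lit 5) (nat_lit 4) (nat_lit 4) (nat_lit 358) (nat_lit 233) (nat_lit 189))))) (XT.nd (nat_lit 156) (nat_lit 0) (nat_lit 0) (XT.nd (nat_lit 78) (nat_lit 0) (nat_lit 0) (XT.lf (nat_lit 0) (nat_lit 83005037408) (nat_lit 76) (nat_lit 39802751052) (nat_lit 76) (nat_lit 34004047048) (nat_lit 3) (nat_lit 4) (nat_lit 4) (nat_lit 5) (nat_lit 4) (nat_lit 4) (nat_lit 359) (nat_lit 233) (nat_lit 188)) (XT.lf (nat_lit 0) (nat_lit 91304959137) (nat_lit 76) (nat_lit 39534289020) (nat_lit 76) (nat_lit 33701004115) (nat_lit 3) (nat_lit 4) (nat_lit 4) (nat_lit 5) (nat_lit 4) (nat_lit 4) (nat_lit 360) (nat_lit 233) (nat_lit 187))) (XT.nd (nat_lit 78) (nat_lit 0) (nat_lit 0) (XT.lf (nat_lit 0) (nat_lit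 99984603729) (nat_lit 76) (nat_lit 39268829380) (nat_lit 76) (nat_lit 33402610283) (nat_lit 3) (nat_lit 4) (nat_lit 4) (nat_lit 5) (nat_lit 4) (nat_lit 4) (nat_lit 361) (nat_lit 233) (nat_lit 186)) (XT.nd (nat_lit 78) (nat_lit 0) (nat_lit 0) (XT.lf (nat_lit 0) (nat_lit 109064637002) (nat_lit 76) (nat_lit 39005740083) (nat_lit 76) (nat_lit 33108155091) (nat_lit 3) (nat_lit 4) (nat_lit 4) (nat_lit 5) (nat_lit 4) (nat_lit 4) (nat_lit 362) (nat_lit 233) (nat_lit 185)) (XT.lf (nat_lit 0) (nat_lit 118566678084) (nat_lit 76) (nat_lit 38744394728) (nat_lit 76) (nat_lit 32816937454) (nat_lit 3) (nat_lit 4) (nat_lit 4) (nat_lit 5) (nat_lit 4) (nat_lit 4) (nat_lit 363) (nat_lit 233) (nat_lit 184)))))) (XT.nd (nat_lit 390) (nat_lit 0) (nat_lit 0) (XT.nd (nat_lit 156) (nat_lit 0) (nat_lit 0) (XT.nd (nat_lit 78) (nat_lit 0) (nat_lit 0) (XT.lf (nat_lit 0) (nat_lit 128513350883) (nat_lit 76) (nat_lit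 38484171064) (nat_lit 76) (nat_lit 32528263997) (nat_lit 3) (nat_lit 4) (nat_lit 4) (nat_lit 5) (nat_lit 4) (nat_lit 4) (nat_lit 364) (nat_lit 233) (nat_lit 183)) (XT.lf (nat_lit 0) (nat_lit 138928337953) (nat_lit 76) (nat_lit 38224449510) (nat_lit 76) (nat_lit 32241447402) (nat_lit 3) (nat_lit 4) (nat_lit 4) (nat_lit 5) (nat_lit 4) (nat_lit 4) (nat_lit 365) (nat_lit 233) (nat_lit 182))) (XT.nd (nat_lit 78) (nat_lit 0) (nat_lit 0) (XT.lf (nat_lit 0) (nat_lit 149836436881) (nat_lit 76) (nat_lit 37964611682) (nat_lit 76) (nat_lit 31955804773) (nat_lit 3) (nat_lit 4) (nat_lit 4) (nat_lit 5) (nat_lit 4) (nat_lit 4) (nat_lit 366) (nat_lit 233) (nat_lit 181)) (XT.nd (nat_lit 78) (nat_lit 0) (nat_lit 0) (XT.lf (nat_lit 0) (nat_lit 161263619332) (nat_lit 76) (nat_lit 37704038918) (nat_lit 76) (nat_lit 31670656008) (nat_lit 3) (nat_lit 4) (nat_lit 4) (nat_lit 5) (nat_lit 4) (nat_lit 4) (nat_lit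 367) (nat_lit 233) (nat_lit 180)) (XT.lf (nat_lit 0) (nat_lit 173237092884) (nat_lit 76) (nat_lit 37442110806) (nat_lit 76) (nat_lit 31385322182) (nat_lit 3) (nat_lit 4) (nat_lit 4) (nat_lit 5) (nat_lit 4) (nat_lit 4) (nat_lit 368) (nat_lit 233) (nat_lit 179))))) (XT.nd (nat_lit 156) (nat_lit 0) (nat_lit 0) (XT.nd (nat_lit 78) (nat_lit 0) (nat_lit 0) (XT.lf (nat_lit 0) (nat_lit 185785365807) (nat_lit 76) (nat_lit 37178203709) (nat_lit 76) (nat_lit 31099123929) (nat_lit 3) (nat_lit 4) (nat_lit 4) (nat_lit 5) (nat_lit 4) (nat_lit 4) (nat_lit 369) (nat_lit 233) (nat_lit 178)) (XT.lf (nat_lit 0) (nat_lit 198938314940) (nat_lit 76) (nat_lit 36911689277) (nat_lit 76) (nat_lit 30811379823) (nat_lit 3) (nat_lit 4) (nat_lit 4) (nat_lit 5) (nat_lit 4) (nat_lit 4) (nat_lit 370) (nat_lit 233) (nat_lit 177))) (XT.nd (nat_lit 78) (nat_lit 0) (nat_lit 0) (XT.lf (nat_lit 0) (nat_lit 212727256830) (nat_lit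 76) (nat_lit 36641932950) (nat_lit 76) (nat_lit 30521404760) (nat_lit 3) (nat_lit 4) (nat_lit 4) (nat_lit 5) (nat_lit 4) (nat_lit 4) (nat_lit 371) (nat_lit 233) (nat_lit 176)) (XT.nd (nat_lit 78) (nat_lit 0) (nat_lit 0) (XT.lf (nat_lit 0) (nat_lit 227185022290) (nat_lit 76) (nat_lit 36368292453) (nat_lit 76) (nat_lit 30228508323) (nat_lit 3) (nat_lit 4) (nat_lit 4) (nat_lit 5) (nat_lit 4) (nat_lit 4) (nat_lit 372) (nat_lit 233) (nat_lit 175)) (XT.lf (nat_lit 0) (nat_lit 242346034572) (nat_lit 76) (nat_lit 36090116260) (nat_lit 76) (nat_lit 29931993140) (nat_lit 3) (nat_lit 4) (nat_lit 4) (nat_lit 5) (nat_lit 4) (nat_lit 4) (nat_lit 373) (nat_lit 233) (nat_lit 174))))))))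
noncomputable def xc38 : XT := (XT.nd (nat_lit 36036) (nat_lit 0) (nat_lit 76) (XT.nd (nat_lit 702) (nat_lit 0) (nat_lit 0) (XT.nd (nat_lit 312) (nat_lit 0) (nat_lit 0) (XT.nd (nat_lit 156) (nat_lit 0) (nat_lit 0) (XT.nd (nat_lit 78) (nat_lit 0) (nat_lit 0) (XT.lf (nat_lit 0) (nat_lit 258246391325) (nat_lit 76) (nat_lit 35806742047) (nat_lit 76) (nat_lit 29631153222) (nat_lit 3) (nat_lit 4) (nat_lit 4) (nat_lit 5) (nat_lit 4) (nat_lit 4) (nat_lit 374) (nat_lit 233) (nat_lit 173)) (XT.lf (nat_lit 0) (nat_lit 274923950539) (nat_lit 76) (nat_lit 35517495113) (nat_lit 76) (nat_lit 29325272283) (nat_lit 3) (nat_lit 4) (nat_lit 4) (nat_lit 5) (nat_lit 4) (nat_lit 4) (nat_lit 375) (nat_lit 233) (nat_lit 172))) (XT.nd (nat_lit 78) (nat_lit 0) (nat_lit 0) (XT.lf (nat_lit 0) (nat_lit 292418420690) (nat_lit 76) (nat_lit 35221686775) (nat_lit 76) (nat_lit 29013622036) (nat_lit 3) (nat_lit 4) (nat_lit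 4) (nat_lit 5) (nat_lit 4) (nat_lit 4) (nat_lit 376) (nat_lit 233) (nat_lit 171)) (XT.lf (nat_lit 0) (nat_lit 310771455277) (nat_lit 76) (nat_lit 34918612728) (nat_lit 76) (nat_lit 28695460457) (nat_lit 3) (nat_lit 4) (nat_lit 4) (nat_lit 5) (nat_lit 4) (nat_lit 4) (nat_lit 377) (nat_lit 233) (nat_lit 170)))) (XT.nd (nat_lit 156) (nat_lit 0) (nat_lit 0) (XT.nd (nat_lit 78) (nat_lit 0) (nat_lit 0) (XT.lf (nat_lit 0) (nat_lit 330026752003) (nat_lit 76) (nat_lit 34607551366) (nat_lit 76) (nat_lit 28370030017) (nat_lit 3) (nat_lit 4) (nat_lit 4) (nat_lit 5) (nat_lit 4) (nat_lit 4) (nat_lit 378) (nat_lit 233) (nat_lit 169)) (XT.lf (nat_lit 0) (nat_lit 350230156812) (nat_lit 76) (nat_lit 34287762068) (nat_lit 76) (nat_lit 28036555882) (nat_lit 3) (nat_lit 4) (nat_lit 4) (nat_lit 5) (nat_lit 4) (nat_lit 4) (nat_lit 379) (nat_lit 233) (nat_lit 168))) (XT.nd (nat_lit 78) (nat_lit 0) (nat_lit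 0) (XT.lf (nat_lit 0) (nat_lit 371429773048) (nat_lit 76) (nat_lit 33958483431) (nat_lit 76) (nat_lit 27694244066) (nat_lit 3) (nat_lit 4) (nat_lit 4) (nat_lit 5) (nat_lit 4) (nat_lit 4) (nat_lit 380) (nat_lit 233) (nat_lit 167)) (XT.nd (nat_lit 78) (nat_lit 0) (nat_lit 0) (XT.lf (nat_lit 0) (nat_lit 393676075989) (nat_lit 76) (nat_lit 33618931457) (nat_lit 76) (nat_lit 27342279542) (nat_lit 3) (nat_lit 4) (nat_lit 4) (nat_lit 5) (nat_lit 4) (nat_lit 4) (nat_lit 381) (nat_lit 233) (nat_lit 166)) (XT.lf (nat_lit 0) (nat_lit 417022033022) (nat_lit 76) (nat_lit 33268297689) (nat_lit 76) (nat_lit 26979824298) (nat_lit 3) (nat_lit 4) (nat_lit 4) (nat_lit 5) (nat_lit 4) (nat_lit 4) (nat_lit 382) (nat_lit 233) (nat_lit 165)))))) (XT.nd (nat_lit 390) (nat_lit 0) (nat_lit 0) (XT.nd (nat_lit 156) (nat_lit 0) (nat_lit 0) (XT.nd (nat_lit 78) (nat_lit 0) (nat_lit 0) (XT.lf (nat_lit 0) (nat_lit 441523229760)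 (nat_lit 76) (nat_lit 32905747286) (nat_lit 76) (nat_lit 26606015346) (nat_lit 3) (nat_lit 4) (nat_lit 4) (nat_lit 5) (nat_lit 4) (nat_lit 4) (nat_lit 383) (nat_lit 233) (nat_lit 164)) (XT.lf (nat_lit 0) (nat_lit 467238002384) (nat_lit 76) (nat_lit 32530417031) (nat_lit 76) (nat_lit 26219962664) (nat_lit 3) (nat_lit 4) (nat_lit 4) (nat_lit 5) (nat_lit 4) (nat_lit 4) (nat_lit 384) (nat_lit 233) (nat_lit 163))) (XT.nd (nat_lit 78) (nat_lit 0) (nat_lit 0) (XT.lf (nat_lit 0) (nat_lit 494227576545) (nat_lit 76) (nat_lit 32141413282) (nat_lit 76) (nat_lit 25820747079) (nat_lit 3) (nat_lit 4) (nat_lit 4) (nat_lit 5) (nat_lit 4) (nat_lit 4) (nat_lit 385) (nat_lit 233) (nat_lit 162)) (XT.nd (nat_lit 78) (nat_lit 0) (nat_lit 0) (XT.lf (nat_lit 0) (nat_lit 522556213133) (nat_lit 76) (nat_lit 31737809840) (nat_lit 76) (nat_lit 25407418078) (nat_lit 3) (nat_lit 4) (nat_lit 4) (nat_lit 5) (nat_lit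 4) (nat_lit 4) (nat_lit 386) (nat_lit 233) (nat_lit 161)) (XT.lf (nat_lit 0) (nat_lit 552291361282) (nat_lit 76) (nat_lit 31318645743) (nat_lit 76) (nat_lit 24978991545) (nat_lit 3) (nat_lit 4) (nat_lit 4) (nat_lit 5) (nat_lit 4) (nat_lit 4) (nat_lit 387) (nat_lit 233) (nat_lit 160))))) (XT.nd (nat_lit 34710) (nat_lit 0) (nat_lit 684) (XT.nd (nat_lit 78) (nat_lit 0) (nat_lit 0) (XT.lf (nat_lit 0) (nat_lit 583503818965) (nat_lit 76) (nat_lit 30882922981) (nat_lit 76) (nat_lit 24534447416) (nat_lit 3) (nat_lit 4) (nat_lit 4) (nat_lit 5) (nat_lit 4) (nat_lit 4) (nat_lit 388) (nat_lit 233) (nat_lit 159)) (XT.lf (nat_lit 0) (nat_lit 616267901557) (nat_lit 76) (nat_lit 30429604120) (nat_lit 76) (nat_lit 24072727252) (nat_lit 3) (nat_lit 4) (nat_lit 4) (nat_lit 5) (nat_lit 4) (nat_lit 4) (nat_lit 389) (nat_lit 233) (nat_lit 158))) (XT.nd (nat_lit 78) (nat_lit 76) (nat_lit 0) (XT.lf (nat_lit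 0) (nat_lit 4455007632) (nat_lit 152) (nat_lit 592604942) (nat_lit 0) (nat_lit 4455007632) (nat_lit 13) (nat_lit 5) (nat_lit 15) (nat_lit 4) (nat_lit 13) (nat_lit 4) (nat_lit 312) (nat_lit 234) (nat_lit 234)) (XT.nd (nat_lit 78) (nat_lit 0) (nat_lit 0) (XT.lf (nat_lit 0) (nat_lit 6440638754) (nat_lit 76) (nat_lit 6836385235) (nat_lit 76) (nat_lit 6458715698) (nat_lit 12) (nat_lit 4) (nat_lit 13) (nat_lit 5) (nat_lit 13) (nat_lit 4) (nat_lit 313) (nat_lit 234) (nat_lit 233)) (XT.lf (nat_lit 0) (nat_lit 14245627687) (nat_lit 76) (nat_lit 3500219689) (nat_lit 76) (nat_lit 2762864878) (nat_lit 12) (nat_lit 4) (nat_lit 13) (nat_lit 5) (nat_lit 13) (nat_lit 4) (nat_lit 314) (nat_lit 234) (nat_lit 232))))))) (XT.nd (nat_lit 780) (nat_lit 228) (nat_lit 0) (XT.nd (nat_lit 390) (nat_lit 152) (nat_lit 0) (XT.nd (nat_lit 156) (nat_lit 76) (nat_lit 0) (XT.nd (nat_lit 78) (nat_lit 0) (nat_lit 0)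 (XT.lf (nat_lit 0) (nat_lit 895543454) (nat_lit 76) (nat_lit 68093456) (nat_lit 152) (nat_lit 20361852482) (nat_lit 10) (nat_lit 5) (nat_lit 11) (nat_lit 5) (nat_lit 12) (nat_lit 4) (nat_lit 315) (nat_lit 234) (nat_lit 231)) (XT.lf (nat_lit 0) (nat_lit 4815344513) (nat_lit 152) (nat_lit 13887867641) (nat_lit 0) (nat_lit 3476147028) (nat_lit 10) (nat_lit 5) (nat_lit 12) (nat_lit 4) (nat_lit 10) (nat_lit 4) (nat_lit 316) (nat_lit 234) (nat_lit 230))) (XT.nd (nat_lit 78) (nat_lit 76) (nat_lit 0) (XT.lf (nat_lit 0) (nat_lit 8735727755) (nat_lit 152) (nat_lit 7245873882) (nat_lit 0) (nat_lit 7100616305) (nat_lit 10) (nat_lit 5) (nat_lit 12) (nat_lit 4) (nat_lit 10) (nat_lit 4) (nat_lit 317) (nat_lit 234) (nat_lit 229)) (XT.nd (nat_lit 78) (nat_lit 76) (nat_lit 0) (XT.lf (nat_lit 0) (nat_lit 12733057751) (nat_lit 152) (nat_lit 487087261) (nat_lit 0) (nat_lit 10816123478) (nat_lit 10) (nat_lit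 5) (nat_lit 12) (nat_lit 4) (nat_lit 10) (nat_lit 4) (nat_lit 318) (nat_lit 234) (nat_lit 228)) (XT.lf (nat_lit 0) (nat_lit 6616349060) (nat_lit 76) (nat_lit 10303802646) (nat_lit 76) (nat_lit 8118465684) (nat_lit 9) (nat_lit 4) (nat_lit 10) (nat_lit 5) (nat_lit 10) (nat_lit 4) (nat_lit 319) (nat_lit 234) (nat_lit 227))))) (XT.nd (nat_lit 156) (nat_lit 152) (nat_lit 0) (XT.nd (nat_lit 78) (nat_lit 0) (nat_lit 0) (XT.lf (nat_lit 0) (nat_lit 13890120972) (nat_lit 76) (nat_lit 7323576430) (nat_lit 76) (nat_lit 4882617858) (nat_lit 9) (nat_lit 4) (nat_lit 10) (nat_lit 5) (nat_lit 10) (nat_lit 4) (nat_lit 320) (nat_lit 234) (nat_lit 226)) (XT.lf (nat_lit 0) (nat_lit 21335441675) (nat_lit 76) (nat_lit 4280619644) (nat_lit 76) (nat_lit 1596211922) (nat_lit 9) (nat_lit 4) (nat_lit 10) (nat_lit 5) (nat_lit 10) (nat_lit 4) (nat_lit 321) (nat_lit 234) (nat_lit 225))) (XT.nd (nat_lit 78) (nat_lit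 0) (nat_lit 0) (XT.lf (nat_lit 0) (nat_lit 571893730) (nat_lit 76) (nat_lit 1129646653) (nat_lit 152) (nat_lit 26685796541) (nat_lit 7) (nat_lit 5) (nat_lit 8) (nat_lit 5) (nat_lit 9) (nat_lit 4) (nat_lit 322) (nat_lit 234) (nat_lit 224)) (XT.nd (nat_lit 78) (nat_lit 0) (nat_lit 0) (XT.lf (nat_lit 0) (nat_lit 5143891703) (nat_lit 152) (nat_lit 22318160217) (nat_lit 0) (nat_lit 2156196834) (nat_lit 7) (nat_lit 5) (nat_lit 9) (nat_lit 4) (nat_lit 7) (nat_lit 4) (nat_lit 323) (nat_lit 234) (nat_lit 223)) (XT.lf (nat_lit 0) (nat_lit 8679905735) (nat_lit 152) (nat_lit 16742866216) (nat_lit 0) (nat_lit 5491924646) (nat_lit 7) (nat_lit 5) (nat_lit 9) (nat_lit 4) (nat_lit 7) (nat_lit 4) (nat_lit 324) (nat_lit 234) (nat_lit 222)))))) (XT.nd (nat_lit 390) (nat_lit 152) (nat_lit 0) (XT.nd (nat_lit 156) (nat_lit 76) (nat_lit 0) (XT.nd (nat_lit 78) (nat_lit 0) (nat_lit 0) (XT.lf (nat_lit 0) (nat_lit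 12300364609) (nat_lit 152) (nat_lit 11058649733) (nat_lit 0) (nat_lit 8921634740) (nat_lit 7) (nat_lit 5) (nat_lit 9) (nat_lit 4) (nat_lit 7) (nat_lit 4) (nat_lit 325) (nat_lit 234) (nat_lit 221)) (XT.lf (nat_lit 0) (nat_lit 16013888465) (nat_lit 152) (nat_lit 5251976920) (nat_lit 0) (nat_lit 12453493092) (nat_lit 7) (nat_lit 5) (nat_lit 9) (nat_lit 4) (nat_lit 7) (nat_lit 4) (nat_lit 326) (nat_lit 234) (nat_lit 220))) (XT.nd (nat_lit 78) (nat_lit 0) (nat_lit 0) (XT.lf (nat_lit 0) (nat_lit 713824477) (nat_lit 76) (nat_lit 19126639351) (nat_lit 76) (nat_lit 15393229211) (nat_lit 6) (nat_lit 4) (nat_lit 7) (nat_lit 5) (nat_lit 7) (nat_lit 4) (nat_lit 327) (nat_lit 234) (nat_lit 219)) (XT.nd (nat_lit 78) (nat_lit 0) (nat_lit 0) (XT.lf (nat_lit 0) (nat_lit 7008685533) (nat_lit 76) (nat_lit 16856480344) (nat_lit 76) (nat_lit 12958294236) (nat_lit 6) (nat_lit 4) (nat_lit 7) (nat_lit 5) (nat_lit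 7) (nat_lit 4) (nat_lit 328) (nat_lit 234) (nat_lit 218)) (XT.lf (nat_lit 0) (nat_lit 13473939937) (nat_lit 76) (nat_lit 14538927994) (nat_lit 76) (nat_lit 10483812392) (nat_lit 6) (nat_lit 4) (nat_lit 7) (nat_lit 5) (nat_lit 7) (nat_lit 4) (nat_lit 329) (nat_lit 234) (nat_lit 217))))) (XT.nd (nat_lit 156) (nat_lit 152) (nat_lit 0) (XT.nd (nat_lit 78) (nat_lit 0) (nat_lit 0) (XT.lf (nat_lit 0) (nat_lit 20124981152) (nat_lit 76) (nat_lit 12168464319) (nat_lit 76) (nat_lit 7963892057) (nat_lit 6) (nat_lit 4) (nat_lit 7) (nat_lit 5) (nat_lit 7) (nat_lit 4) (nat_lit 330) (nat_lit 234) (nat_lit 216)) (XT.lf (nat_lit 0) (nat_lit 26977644991) (nat_lit 76) (nat_lit 9739445359) (nat_lit 76) (nat_lit 5392533420) (nat_lit 6) (nat_lit 4) (nat_lit 7) (nat_lit 5) (nat_lit 7) (nat_lit 4) (nat_lit 331) (nat_lit 234) (nat_lit 215))) (XT.nd (nat_lit 78) (nat_lit 152) (nat_lit 0) (XT.lf (nat_lit 0) (nat_lit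 34048247318) (nat_lit 76) (nat_lit 7246087734) (nat_lit 76) (nat_lit 2763614199) (nat_lit 6) (nat_lit 4) (nat_lit 7) (nat_lit 5) (nat_lit 7) (nat_lit 4) (nat_lit 332) (nat_lit 234) (nat_lit 214)) (XT.nd (nat_lit 78) (nat_lit 152) (nat_lit 0) (XT.lf (nat_lit 0) (nat_lit 41353622903) (nat_lit 76) (nat_lit 4682454880) (nat_lit 76) (nat_lit 70875062) (nat_lit 6) (nat_lit 4) (nat_lit 7) (nat_lit 5) (nat_lit 7) (nat_lit 4) (nat_lit 333) (nat_lit 234) (nat_lit 213)) (XT.lf (nat_lit 0) (nat_lit 627711914) (nat_lit 76) (nat_lit 1988019839) (nat_lit 152) (nat_lit 45643189801) (nat_lit 4) (nat_lit 5) (nat_lit 5) (nat_lit 5) (nat_lit 6) (nat_lit 4) (nat_lit 334) (nat_lit 234) (nat_lit 212))))))))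
noncomputable def xc39 : XT := (XT.nd (nat_lit 1560) (nat_lit 0) (nat_lit 0) (XT.nd (nat_lit 780) (nat_lit 76) (nat_lit 0) (XT.nd (nat_lit 390) (nat_lit 0) (nat_lit 0) (XT.nd (nat_lit 156) (nat_lit 0) (nat_lit 0) (XT.nd (nat_lit 78) (nat_lit 0) (nat_lit 0) (XT.lf (nat_lit 0) (nat_lit 5467278967) (nat_lit 152) (nat_lit 44202871605) (nat_lit 0) (nat_lit 846668123) (nat_lit 4) (nat_lit 5) (nat_lit 6) (nat_lit 4) (nat_lit 4) (nat_lit 4) (nat_lit 335) (nat_lit 234) (nat_lit 211)) (XT.lf (nat_lit 0) (nat_lit 8434984318) (nat_lit 152) (nat_lit 40745825812) (nat_lit 0) (nat_lit 3708157416) (nat_lit 4) (nat_lit 5) (nat_lit 6) (nat_lit 4) (nat_lit 4) (nat_lit 4) (nat_lit 336) (nat_lit 234) (nat_lit 210))) (XT.nd (nat_lit 78) (nat_lit 0) (nat_lit 0) (XT.lf (nat_lit 0) (nat_lit 11494875211) (nat_lit 152) (nat_lit 37220802639) (nat_lit 0) (nat_lit 6666890158) (nat_lit 4) (nat_lit 5) (nat_lit 6)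 (nat_lit 4) (nat_lit 4) (nat_lit 4) (nat_lit 337) (nat_lit 234) (nat_lit 209)) (XT.nd (nat_lit 78) (nat_lit 0) (nat_lit 0) (XT.lf (nat_lit 0) (nat_lit 14654237100) (nat_lit 152) (nat_lit 33619409173) (nat_lit 0) (nat_lit 9729910952) (nat_lit 4) (nat_lit 5) (nat_lit 6) (nat_lit 4) (nat_lit 4) (nat_lit 4) (nat_lit 338) (nat_lit 234) (nat_lit 208)) (XT.lf (nat_lit 0) (nat_lit 17920592276) (nat_lit 152) (nat_lit 29933070669) (nat_lit 0) (nat_lit 12904512703) (nat_lit 4) (nat_lit 5) (nat_lit 6) (nat_lit 4) (nat_lit 4) (nat_lit 4) (nat_lit 339) (nat_lit 234) (nat_lit 207))))) (XT.nd (nat_lit 156) (nat_lit 0) (nat_lit 0) (XT.nd (nat_lit 78) (nat_lit 0) (nat_lit 0) (XT.lf (nat_lit 0) (nat_lit 21301717775) (nat_lit 152) (nat_lit 26153010129) (nat_lit 0) (nat_lit 16198253988) (nat_lit 4) (nat_lit 5) (nat_lit 6) (nat_lit 4) (nat_lit 4) (nat_lit 4) (nat_lit 340) (nat_lit 234) (nat_lit 206)) (XT.lf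 (nat_lit 0) (nat_lit 24805663896) (nat_lit 152) (nat_lit 22270227410) (nat_lit 0) (nat_lit 19618977048) (nat_lit 4) (nat_lit 5) (nat_lit 6) (nat_lit 4) (nat_lit 4) (nat_lit 4) (nat_lit 341) (nat_lit 234) (nat_lit 205))) (XT.nd (nat_lit 78) (nat_lit 0) (nat_lit 0) (XT.lf (nat_lit 0) (nat_lit 28440773367) (nat_lit 152) (nat_lit 18275477791) (nat_lit 0) (nat_lit 23174826461) (nat_lit 4) (nat_lit 5) (nat_lit 6) (nat_lit 4) (nat_lit 4) (nat_lit 4) (nat_lit 342) (nat_lit 234) (nat_lit 204)) (XT.nd (nat_lit 78) (nat_lit 0) (nat_lit 0) (XT.lf (nat_lit 0) (nat_lit 32215701211) (nat_lit 152) (nat_lit 14159249963) (nat_lit 0) (nat_lit 26874268535) (nat_lit 4) (nat_lit 5) (nat_lit 6) (nat_lit 4) (nat_lit 4) (nat_lit 4) (nat_lit 343) (nat_lit 234) (nat_lit 203)) (XT.lf (nat_lit 0) (nat_lit 36139435352) (nat_lit 152) (nat_lit 9911743384) (nat_lit 0) (nat_lit 30726111467) (nat_lit 4) (nat_lit 5) (nat_lit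 6) (nat_lit 4) (nat_lit 4) (nat_lit 4) (nat_lit 344) (nat_lit 234) (nat_lit 202)))))) (XT.nd (nat_lit 390) (nat_lit 0) (nat_lit 0) (XT.nd (nat_lit 156) (nat_lit 76) (nat_lit 0) (XT.nd (nat_lit 78) (nat_lit 0) (nat_lit 0) (XT.lf (nat_lit 0) (nat_lit 40221318013) (nat_lit 152) (nat_lit 5522844943) (nat_lit 0) (nat_lit 34739526310) (nat_lit 4) (nat_lit 5) (nat_lit 6) (nat_lit 4) (nat_lit 4) (nat_lit 4) (nat_lit 345) (nat_lit 234) (nat_lit 201)) (XT.lf (nat_lit 0) (nat_lit 44471067963) (nat_lit 152) (nat_lit 982104882) (nat_lit 0) (nat_lit 38924068814) (nat_lit 4) (nat_lit 5) (nat_lit 6) (nat_lit 4) (nat_lit 4) (nat_lit 4) (nat_lit 346) (nat_lit 234) (nat_lit 200))) (XT.nd (nat_lit 78) (nat_lit 0) (nat_lit 0) (XT.lf (nat_lit 0) (nat_lit 3844330675) (nat_lit 76) (nat_lit 45114493755) (nat_lit 76) (nat_lit 39505392276) (nat_lit 3) (nat_lit 4) (nat_lit 4) (nat_lit 5) (nat_lit 4) (nat_lit 4)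 (nat_lit 347) (nat_lit 234) (nat_lit 199)) (XT.nd (nat_lit 78) (nat_lit 0) (nat_lit 0) (XT.lf (nat_lit 0) (nat_lit 8882838831) (nat_lit 76) (nat_lit 44770914492) (nat_lit 76) (nat_lit 39102667938) (nat_lit 3) (nat_lit 4) (nat_lit 4) (nat_lit 5) (nat_lit 4) (nat_lit 4) (nat_lit 348) (nat_lit 234) (nat_lit 198)) (XT.lf (nat_lit 0) (nat_lit 14112943209) (nat_lit 76) (nat_lit 44438249433) (nat_lit 76) (nat_lit 38713674236) (nat_lit 3) (nat_lit 4) (nat_lit 4) (nat_lit 5) (nat_lit 4) (nat_lit 4) (nat_lit 349) (nat_lit 234) (nat_lit 197))))) (XT.nd (nat_lit 156) (nat_lit 0) (nat_lit 0) (XT.nd (nat_lit 78) (nat_lit 0) (nat_lit 0) (XT.lf (nat_lit 0) (nat_lit 19547096441) (nat_lit 76) (nat_lit 44115706518) (nat_lit 76) (nat_lit 38337484994) (nat_lit 3) (nat_lit 4) (nat_lit 4) (nat_lit 5) (nat_lit 4) (nat_lit 4) (nat_lit 350) (nat_lit 234) (nat_lit 196)) (XT.lf (nat_lit 0) (nat_lit 25198236985)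 (nat_lit 76) (nat_lit 43802517788) (nat_lit 76) (nat_lit 37973204523) (nat_lit 3) (nat_lit 4) (nat_lit 4) (nat_lit 5) (nat_lit 4) (nat_lit 4) (nat_lit 351) (nat_lit 234) (nat_lit 195))) (XT.nd (nat_lit 78) (nat_lit 0) (nat_lit 0) (XT.lf (nat_lit 0) (nat_lit 31079819939) (nat_lit 76) (nat_lit 43497937555) (nat_lit 76) (nat_lit 37619965490) (nat_lit 3) (nat_lit 4) (nat_lit 4) (nat_lit 5) (nat_lit 4) (nat_lit 4) (nat_lit 352) (nat_lit 234) (nat_lit 194)) (XT.nd (nat_lit 78) (nat_lit 0) (nat_lit 0) (XT.lf (nat_lit 0) (nat_lit 37205849071) (nat_lit 76) (nat_lit 43201240628) (nat_lit 76) (nat_lit 37276926849) (nat_lit 3) (nat_lit 4) (nat_lit 4) (nat_lit 5) (nat_lit 4) (nat_lit 4) (nat_lit 353) (nat_lit 234) (nat_lit 193)) (XT.lf (nat_lit 0) (nat_lit 43590910165) (nat_lit 76) (nat_lit 42911720586) (nat_lit 76) (nat_lit 36943271841) (nat_lit 3) (nat_lit 4) (nat_lit 4) (nat_lit 5) (nat_lit 4)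 (nat_lit 4) (nat_lit 354) (nat_lit 234) (nat_lit 192))))))) (XT.nd (nat_lit 780) (nat_lit 0) (nat_lit 0) (XT.nd (nat_lit 390) (nat_lit 0) (nat_lit 0) (XT.nd (nat_lit 156) (nat_lit 0) (nat_lit 0) (XT.nd (nat_lit 78) (nat_lit 0) (nat_lit 0) (XT.lf (nat_lit 0) (nat_lit 50250205747) (nat_lit 76) (nat_lit 42628688096) (nat_lit 76) (nat_lit 36618206050) (nat_lit 3) (nat_lit 4) (nat_lit 4) (nat_lit 5) (nat_lit 4) (nat_lit 4) (nat_lit 355) (nat_lit 234) (nat_lit 191)) (XT.lf (nat_lit 0) (nat_lit 57199591284) (nat_lit 76) (nat_lit 42351469270) (nat_lit 76) (nat_lit 36300955509) (nat_lit 3) (nat_lit 4) (nat_lit 4) (nat_lit 5) (nat_lit 4) (nat_lit 4) (nat_lit 356) (nat_lit 234) (nat_lit 190))) (XT.nd (nat_lit 78) (nat_lit 0) (nat_lit 0) (XT.lf (nat_lit 0) (nat_lit 64455612930) (nat_lit 76) (nat_lit 42079404064) (nat_lit 76) (nat_lit 35990764860) (nat_lit 3) (nat_lit 4) (nat_lit 4) (nat_lit 5)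 (nat_lit 4) (nat_lit 4) (nat_lit 357) (nat_lit 234) (nat_lit 189)) (XT.nd (nat_lit 78) (nat_lit 0) (nat_lit 0) (XT.lf (nat_lit 0) (nat_lit 72035546928) (nat_lit 76) (nat_lit 41811844703) (nat_lit 76) (nat_lit 35686895553) (nat_lit 3) (nat_lit 4) (nat_lit 4) (nat_lit 5) (nat_lit 4) (nat_lit 4) (nat_lit 358) (nat_lit 234) (nat_lit 188)) (XT.lf (nat_lit 0) (nat_lit 79957440741) (nat_lit 76) (nat_lit 41548154142) (nat_lit 76) (nat_lit 35388624091) (nat_lit 3) (nat_lit 4) (nat_lit 4) (nat_lit 5) (nat_lit 4) (nat_lit 4) (nat_lit 359) (nat_lit 234) (nat_lit 187))))) (XT.nd (nat_lit 156) (nat_lit 0) (nat_lit 0) (XT.nd (nat_lit 78) (nat_lit 0) (nat_lit 0) (XT.lf (nat_lit 0) (nat_lit 88240156019) (nat_lit 76) (nat_lit 41287704546) (nat_lit 76) (nat_lit 35095240304) (nat_lit 3) (nat_lit 4) (nat_lit 4) (nat_lit 5) (nat_lit 4) (nat_lit 4) (nat_lit 360) (nat_lit 234) (nat_lit 186)) (XT.lf (nat_lit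 0) (nat_lit 96903413514) (nat_lit 76) (nat_lit 41029875796) (nat_lit 76) (nat_lit 34806045658) (nat_lit 3) (nat_lit 4) (nat_lit 4) (nat_lit 5) (nat_lit 4) (nat_lit 4) (nat_lit 361) (nat_lit 234) (nat_lit 185))) (XT.nd (nat_lit 78) (nat_lit 0) (nat_lit 0) (XT.lf (nat_lit 0) (nat_lit 105967840029) (nat_lit 76) (nat_lit 40774054015) (nat_lit 76) (nat_lit 34520351595) (nat_lit 3) (nat_lit 4) (nat_lit 4) (nat_lit 5) (nat_lit 4) (nat_lit 4) (nat_lit 362) (nat_lit 234) (nat_lit 184)) (XT.nd (nat_lit 78) (nat_lit 0) (nat_lit 0) (XT.lf (nat_lit 0) (nat_lit 115455017532) (nat_lit 76) (nat_lit 40519630103) (nat_lit 76) (nat_lit 34237477890) (nat_lit 3) (nat_lit 4) (nat_lit 4) (nat_lit 5) (nat_lit 4) (nat_lit 4) (nat_lit 363) (nat_lit 234) (nat_lit 183)) (XT.lf (nat_lit 0) (nat_lit 125387534541) (nat_lit 76) (nat_lit 40265998290) (nat_lit 76) (nat_lit 33956751036) (nat_lit 3) (nat_lit 4) (nat_lit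 4) (nat_lit 5) (nat_lit 4) (nat_lit 4) (nat_lit 364) (nat_lit 234) (nat_lit 182)))))) (XT.nd (nat_lit 390) (nat_lit 0) (nat_lit 0) (XT.nd (nat_lit 156) (nat_lit 0) (nat_lit 0) (XT.nd (nat_lit 78) (nat_lit 0) (nat_lit 0) (XT.lf (nat_lit 0) (nat_lit 135789039906) (nat_lit 76) (nat_lit 40012554688) (nat_lit 76) (nat_lit 33677502634) (nat_lit 3) (nat_lit 4) (nat_lit 4) (nat_lit 5) (nat_lit 4) (nat_lit 4) (nat_lit 365) (nat_lit 234) (nat_lit 181)) (XT.lf (nat_lit 0) (nat_lit 146684299115) (nat_lit 76) (nat_lit 39758695863) (nat_lit 76) (nat_lit 33399067808) (nat_lit 3) (nat_lit 4) (nat_lit 4) (nat_lit 5) (nat_lit 4) (nat_lit 4) (nat_lit 366) (nat_lit 234) (nat_lit 180))) (XT.nd (nat_lit 78) (nat_lit 0) (nat_lit 0) (XT.lf (nat_lit 0) (nat_lit 158099253263) (nat_lit 76) (nat_lit 39503817387) (nat_lit 76) (nat_lit 33120783617) (nat_lit 3) (nat_lit 4) (nat_lit 4) (nat_lit 5) (nat_lit 4) (nat_lit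 4) (nat_lit 367) (nat_lit 234) (nat_lit 179)) (XT.nd (nat_lit 78) (nat_lit 0) (nat_lit 0) (XT.lf (nat_lit 0) (nat_lit 170061080812) (nat_lit 76) (nat_lit 39247312407) (nat_lit 76) (nat_lit 32841987481) (nat_lit 3) (nat_lit 4) (nat_lit 4) (nat_lit 5) (nat_lit 4) (nat_lit 4) (nat_lit 368) (nat_lit 234) (nat_lit 178)) (XT.lf (nat_lit 0) (nat_lit 182598262302) (nat_lit 76) (nat_lit 38988570198) (nat_lit 76) (nat_lit 32562015598) (nat_lit 3) (nat_lit 4) (nat_lit 4) (nat_lit 5) (nat_lit 4) (nat_lit 4) (nat_lit 369) (nat_lit 234) (nat_lit 177))))) (XT.nd (nat_lit 156) (nat_lit 0) (nat_lit 0) (XT.nd (nat_lit 78) (nat_lit 0) (nat_lit 0) (XT.lf (nat_lit 0) (nat_lit 195740648167) (nat_lit 76) (nat_lit 38726974706) (nat_lit 76) (nat_lit 32280201369) (nat_lit 3) (nat_lit 4) (nat_lit 4) (nat_lit 5) (nat_lit 4) (nat_lit 4) (nat_lit 370) (nat_lit 234) (nat_lit 176)) (XT.lf (nat_lit 0) (nat_lit 209519529802)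 (nat_lit 76) (nat_lit 38461903085) (nat_lit 76) (nat_lit 31995873808) (nat_lit 3) (nat_lit 4) (nat_lit 4) (nat_lit 5) (nat_lit 4) (nat_lit 4) (nat_lit 371) (nat_lit 234) (nat_lit 175))) (XT.nd (nat_lit 78) (nat_lit 0) (nat_lit 0) (XT.lf (nat_lit 0) (nat_lit 223967714066) (nat_lit 76) (nat_lit 38192724211) (nat_lit 76) (nat_lit 31708355945) (nat_lit 3) (nat_lit 4) (nat_lit 4) (nat_lit 5) (nat_lit 4) (nat_lit 4) (nat_lit 372) (nat_lit 234) (nat_lit 174)) (XT.nd (nat_lit 78) (nat_lit 0) (nat_lit 0) (XT.lf (nat_lit 0) (nat_lit 239119601400) (nat_lit 76) (nat_lit 37918797184) (nat_lit 76) (nat_lit 31416963213) (nat_lit 3) (nat_lit 4) (nat_lit 4) (nat_lit 5) (nat_lit 4) (nat_lit 4) (nat_lit 373) (nat_lit 234) (nat_lit 173)) (XT.lf (nat_lit 0) (nat_lit 255011267725) (nat_lit 76) (nat_lit 37639469795) (nat_lit 76) (nat_lit 31121001819) (nat_lit 3) (nat_lit 4) (nat_lit 4) (nat_lit 5) (nat_lit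 4) (nat_lit 4) (nat_lit 374) (nat_lit 234) (nat_lit 172))))))))
noncomputable def xc40 : XT := (XT.nd (nat_lit 35880) (nat_lit 0) (nat_lit 228) (XT.nd (nat_lit 702) (nat_lit 0) (nat_lit 0) (XT.nd (nat_lit 312) (nat_lit 0) (nat_lit 0) (XT.nd (nat_lit 156) (nat_lit 0) (nat_lit 0) (XT.nd (nat_lit 78) (nat_lit 0) (nat_lit 0) (XT.lf (nat_lit 0) (nat_lit 271680550342) (nat_lit 76) (nat_lit 37354076979) (nat_lit 76) (nat_lit 30819767095) (nat_lit 3) (nat_lit 4) (nat_lit 4) (nat_lit 5) (nat_lit 4) (nat_lit 4) (nat_lit 375) (nat_lit 234) (nat_lit 171)) (XT.lf (nat_lit 0) (nat_lit 289167138019) (nat_lit 76) (nat_lit 37061939230) (nat_lit 76) (nat_lit 30512541813) (nat_lit 3) (nat_lit 4) (nat_lit 4) (nat_lit 5) (nat_lit 4) (nat_lit 4) (nat_lit 376) (nat_lit 234) (nat_lit 170))) (XT.nd (nat_lit 78) (nat_lit 0) (nat_lit 0) (XT.lf (nat_lit 0) (nat_lit 307512665489) (nat_lit 76) (nat_lit 36762360982)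 (nat_lit 76) (nat_lit 30198594487) (nat_lit 3) (nat_lit 4) (nat_lit 4) (nat_lit 5) (nat_lit 4) (nat_lit 4) (nat_lit 377) (nat_lit 234) (nat_lit 169)) (XT.lf (nat_lit 0) (nat_lit 326760812580) (nat_lit 76) (nat_lit 36454628953) (nat_lit 76) (nat_lit 29877177621) (nat_lit 3) (nat_lit 4) (nat_lit 4) (nat_lit 5) (nat_lit 4) (nat_lit 4) (nat_lit 378) (nat_lit 234) (nat_lit 168)))) (XT.nd (nat_lit 156) (nat_lit 0) (nat_lit 0) (XT.nd (nat_lit 78) (nat_lit 0) (nat_lit 0) (XT.lf (nat_lit 0) (nat_lit 346957408211) (nat_lit 76) (nat_lit 36138010448) (nat_lit 76) (nat_lit 29547525938) (nat_lit 3) (nat_lit 4) (nat_lit 4) (nat_lit 5) (nat_lit 4) (nat_lit 4) (nat_lit 379) (nat_lit 234) (nat_lit 167)) (XT.lf (nat_lit 0) (nat_lit 368150539517) (nat_lit 76) (nat_lit 35811751613) (nat_lit 76) (nat_lit 29208854553) (nat_lit 3) (nat_lit 4) (nat_lit 4) (nat_lit 5) (nat_lit 4) (nat_lit 4) (nat_lit 380) (nat_lit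 234) (nat_lit 166))) (XT.nd (nat_lit 78) (nat_lit 0) (nat_lit 0) (XT.lf (nat_lit 0) (nat_lit 390390666334) (nat_lit 76) (nat_lit 35475075642) (nat_lit 76) (nat_lit 28860357105) (nat_lit 3) (nat_lit 4) (nat_lit 4) (nat_lit 5) (nat_lit 4) (nat_lit 4) (nat_lit 381) (nat_lit 234) (nat_lit 165)) (XT.nd (nat_lit 78) (nat_lit 0) (nat_lit 0) (XT.lf (nat_lit 0) (nat_lit 413730741344) (nat_lit 76) (nat_lit 35127180924) (nat_lit 76) (nat_lit 28501203838) (nat_lit 3) (nat_lit 4) (nat_lit 4) (nat_lit 5) (nat_lit 4) (nat_lit 4) (nat_lit 382) (nat_lit 234) (nat_lit 164)) (XT.lf (nat_lit 0) (nat_lit 438226336155) (nat_lit 76) (nat_lit 34767239140) (nat_lit 76) (nat_lit 28130539626) (nat_lit 3) (nat_lit 4) (nat_lit 4) (nat_lit 5) (nat_lit 4) (nat_lit 4) (nat_lit 383) (nat_lit 234) (nat_lit 163)))))) (XT.nd (nat_lit 390) (nat_lit 0) (nat_lit 0) (XT.nd (nat_lit 156) (nat_lit 0) (nat_lit 0) (XT.nd (nat_lit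 78) (nat_lit 0) (nat_lit 0) (XT.lf (nat_lit 0) (nat_lit 463935773611) (nat_lit 76) (nat_lit 34394393285) (nat_lit 76) (nat_lit 27747481935) (nat_lit 3) (nat_lit 4) (nat_lit 4) (nat_lit 5) (nat_lit 4) (nat_lit 4) (nat_lit 384) (nat_lit 234) (nat_lit 162)) (XT.lf (nat_lit 0) (nat_lit 490920266659) (nat_lit 76) (nat_lit 34007755630) (nat_lit 76) (nat_lit 27351118723) (nat_lit 3) (nat_lit 4) (nat_lit 4) (nat_lit 5) (nat_lit 4) (nat_lit 4) (nat_lit 385) (nat_lit 234) (nat_lit 161))) (XT.nd (nat_lit 78) (nat_lit 0) (nat_lit 0) (XT.lf (nat_lit 0) (nat_lit 519244064092) (nat_lit 76) (nat_lit 33606405611) (nat_lit 76) (nat_lit 26940506267) (nat_lit 3) (nat_lit 4) (nat_lit 4) (nat_lit 5) (nat_lit 4) (nat_lit 4) (nat_lit 386) (nat_lit 234) (nat_lit 160)) (XT.nd (nat_lit 78) (nat_lit 0) (nat_lit 0) (XT.lf (nat_lit 0) (nat_lit 548974603522) (nat_lit 76) (nat_lit 33189387631) (nat_lit 76) (nat_lit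 26514666920) (nat_lit 3) (nat_lit 4) (nat_lit 4) (nat_lit 5) (nat_lit 4) (nat_lit 4) (nat_lit 387) (nat_lit 234) (nat_lit 159)) (XT.lf (nat_lit 0) (nat_lit 580182671949) (nat_lit 76) (nat_lit 32755708791) (nat_lit 76) (nat_lit 26072586777) (nat_lit 3) (nat_lit 4) (nat_lit 4) (nat_lit 5) (nat_lit 4) (nat_lit 4) (nat_lit 388) (nat_lit 234) (nat_lit 158))))) (XT.nd (nat_lit 34554) (nat_lit 0) (nat_lit 684) (XT.nd (nat_lit 34476) (nat_lit 0) (nat_lit 760) (XT.lf (nat_lit 0) (nat_lit 612942574297) (nat_lit 76) (nat_lit 32304336522) (nat_lit 76) (nat_lit 25613213267) (nat_lit 3) (nat_lit 4) (nat_lit 4) (nat_lit 5) (nat_lit 4) (nat_lit 4) (nat_lit 389) (nat_lit 234) (nat_lit 157)) (XT.lf (nat_lit 0) (nat_lit 523081890) (nat_lit 152) (nat_lit 7780965791) (nat_lit 0) (nat_lit 523081890) (nat_lit 13) (nat_lit 5) (nat_lit 15) (nat_lit 4) (nat_lit 13) (nat_lit 4) (nat_lit 310) (nat_lit 235) (nat_lit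 235))) (XT.nd (nat_lit 78) (nat_lit 76) (nat_lit 0) (XT.lf (nat_lit 0) (nat_lit 5110471088) (nat_lit 152) (nat_lit 8487111266) (nat_lit 0) (nat_lit 4713918074) (nat_lit 13) (nat_lit 5) (nat_lit 15) (nat_lit 4) (nat_lit 13) (nat_lit 4) (nat_lit 311) (nat_lit 235) (nat_lit 234)) (XT.nd (nat_lit 78) (nat_lit 76) (nat_lit 0) (XT.lf (nat_lit 0) (nat_lit 9238544012) (nat_lit 152) (nat_lit 1305838408) (nat_lit 0) (nat_lit 8464321461) (nat_lit 13) (nat_lit 5) (nat_lit 15) (nat_lit 4) (nat_lit 13) (nat_lit 4) (nat_lit 312) (nat_lit 235) (nat_lit 233)) (XT.lf (nat_lit 0) (nat_lit 6197338804) (nat_lit 76) (nat_lit 7339630322) (nat_lit 76) (nat_lit 6205722497) (nat_lit 12) (nat_lit 4) (nat_lit 13) (nat_lit 5) (nat_lit 13) (nat_lit 4) (nat_lit 313) (nat_lit 235) (nat_lit 232))))))) (XT.nd (nat_lit 780) (nat_lit 76) (nat_lit 0) (XT.nd (nat_lit 390) (nat_lit 228) (nat_lit 0) (XT.nd (nat_lit 156) (nat_lit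 0) (nat_lit 0) (XT.nd (nat_lit 78) (nat_lit 152) (nat_lit 0) (XT.lf (nat_lit 0) (nat_lit 13889296402) (nat_lit 76) (nat_lit 4053031360) (nat_lit 76) (nat_lit 2576566132) (nat_lit 12) (nat_lit 4) (nat_lit 13) (nat_lit 5) (nat_lit 13) (nat_lit 4) (nat_lit 314) (nat_lit 235) (nat_lit 231)) (XT.lf (nat_lit 0) (nat_lit 400545771) (nat_lit 76) (nat_lit 674213324) (nat_lit 152) (nat_lit 20264278413) (nat_lit 10) (nat_lit 5) (nat_lit 11) (nat_lit 5) (nat_lit 12) (nat_lit 4) (nat_lit 315) (nat_lit 235) (nat_lit 230))) (XT.nd (nat_lit 78) (nat_lit 0) (nat_lit 0) (XT.lf (nat_lit 0) (nat_lit 4856015161) (nat_lit 152) (nat_lit 14497229316) (nat_lit 0) (nat_lit 2843234174) (nat_lit 10) (nat_lit 5) (nat_lit 12) (nat_lit 4) (nat_lit 10) (nat_lit 4) (nat_lit 316) (nat_lit 235) (nat_lit 229)) (XT.nd (nat_lit 78) (nat_lit 0) (nat_lit 0) (XT.lf (nat_lit 0) (nat_lit 8718314302) (nat_lit 152) (nat_lit 7960263277)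 (nat_lit 0) (nat_lit 6423710491) (nat_lit 10) (nat_lit 5) (nat_lit 12) (nat_lit 4) (nat_lit 10) (nat_lit 4) (nat_lit 317) (nat_lit 235) (nat_lit 228)) (XT.lf (nat_lit 0) (nat_lit 12660326107) (nat_lit 152) (nat_lit 1301503056) (nat_lit 0) (nat_lit 10097319607) (nat_lit 10) (nat_lit 5) (nat_lit 12) (nat_lit 4) (nat_lit 10) (nat_lit 4) (nat_lit 318) (nat_lit 235) (nat_lit 227))))) (XT.nd (nat_lit 156) (nat_lit 152) (nat_lit 0) (XT.nd (nat_lit 78) (nat_lit 0) (nat_lit 0) (XT.lf (nat_lit 0) (nat_lit 5676591930) (nat_lit 76) (nat_lit 11103471897) (nat_lit 76) (nat_lit 8284843789) (nat_lit 9) (nat_lit 4) (nat_lit 10) (nat_lit 5) (nat_lit 10) (nat_lit 4) (nat_lit 319) (nat_lit 235) (nat_lit 226)) (XT.lf (nat_lit 0) (nat_lit 12856637109) (nat_lit 76) (nat_lit 8165333848) (nat_lit 76) (nat_lit 5103256588) (nat_lit 9) (nat_lit 4) (nat_lit 10) (nat_lit 5) (nat_lit 10) (nat_lit 4) (nat_lit 320)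 (nat_lit 235) (nat_lit 225))) (XT.nd (nat_lit 78) (nat_lit 152) (nat_lit 0) (XT.lf (nat_lit 0) (nat_lit 20212694255) (nat_lit 76) (nat_lit 5162461031) (nat_lit 76) (nat_lit 1868527437) (nat_lit 9) (nat_lit 4) (nat_lit 10) (nat_lit 5) (nat_lit 10) (nat_lit 4) (nat_lit 321) (nat_lit 235) (nat_lit 224)) (XT.nd (nat_lit 78) (nat_lit 76) (nat_lit 0) (XT.lf (nat_lit 0) (nat_lit 1381371034) (nat_lit 152) (nat_lit 682938528) (nat_lit 76) (nat_lit 26357512569) (nat_lit 8) (nat_lit 5) (nat_lit 10) (nat_lit 5) (nat_lit 9) (nat_lit 4) (nat_lit 322) (nat_lit 235) (nat_lit 223)) (XT.lf (nat_lit 0) (nat_lit 4750629713) (nat_lit 152) (nat_lit 23702828545) (nat_lit 0) (nat_lit 1202963351) (nat_lit 7) (nat_lit 5) (nat_lit 9) (nat_lit 4) (nat_lit 7) (nat_lit 4) (nat_lit 323) (nat_lit 235) (nat_lit 222)))))) (XT.nd (nat_lit 390) (nat_lit 0) (nat_lit 0) (XT.nd (nat_lit 156) (nat_lit 76) (nat_lit 0) (XT.nd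 (nat_lit 78) (nat_lit 0) (nat_lit 0) (XT.lf (nat_lit 0) (nat_lit 8241592106) (nat_lit 152) (nat_lit 18210384407) (nat_lit 0) (nat_lit 4503176964) (nat_lit 7) (nat_lit 5) (nat_lit 9) (nat_lit 4) (nat_lit 7) (nat_lit 4) (nat_lit 324) (nat_lit 235) (nat_lit 221)) (XT.lf (nat_lit 0) (nat_lit 11819144657) (nat_lit 152) (nat_lit 12605072555) (nat_lit 0) (nat_lit 7899064010) (nat_lit 7) (nat_lit 5) (nat_lit 9) (nat_lit 4) (nat_lit 7) (nat_lit 4) (nat_lit 325) (nat_lit 235) (nat_lit 220))) (XT.nd (nat_lit 78) (nat_lit 76) (nat_lit 0) (XT.lf (nat_lit 0) (nat_lit 15491805349) (nat_lit 152) (nat_lit 6873547008) (nat_lit 0) (nat_lit 11398709936) (nat_lit 7) (nat_lit 5) (nat_lit 9) (nat_lit 4) (nat_lit 7) (nat_lit 4) (nat_lit 326) (nat_lit 235) (nat_lit 219)) (XT.nd (nat_lit 78) (nat_lit 76) (nat_lit 0) (XT.lf (nat_lit 0) (nat_lit 19268318612) (nat_lit 152) (nat_lit 1002161278) (nat_lit 0) (nat_lit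 15010447231) (nat_lit 7) (nat_lit 5) (nat_lit 9) (nat_lit 4) (nat_lit 7) (nat_lit 4) (nat_lit 327) (nat_lit 235) (nat_lit 218)) (XT.lf (nat_lit 0) (nat_lit 5189149309) (nat_lit 76) (nat_lit 18049543998) (nat_lit 76) (nat_lit 13634743123) (nat_lit 6) (nat_lit 4) (nat_lit 7) (nat_lit 5) (nat_lit 7) (nat_lit 4) (nat_lit 328) (nat_lit 235) (nat_lit 217))))) (XT.nd (nat_lit 156) (nat_lit 0) (nat_lit 0) (XT.nd (nat_lit 78) (nat_lit 0) (nat_lit 0) (XT.lf (nat_lit 0) (nat_lit 11587342294) (nat_lit 76) (nat_lit 15762706913) (nat_lit 76) (nat_lit 11198449378) (nat_lit 6) (nat_lit 4) (nat_lit 7) (nat_lit 5) (nat_lit 7) (nat_lit 4) (nat_lit 329) (nat_lit 235) (nat_lit 216)) (XT.lf (nat_lit 0) (nat_lit 18174515491) (nat_lit 76) (nat_lit 13421495872) (nat_lit 76) (nat_lit 8714898660) (nat_lit 6) (nat_lit 4) (nat_lit 7) (nat_lit 5) (nat_lit 7) (nat_lit 4) (nat_lit 330) (nat_lit 235) (nat_lit 215)))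 (XT.nd (nat_lit 78) (nat_lit 0) (nat_lit 0) (XT.lf (nat_lit 0) (nat_lit 24966352645) (nat_lit 76) (nat_lit 11020336562) (nat_lit 76) (nat_lit 6178177753) (nat_lit 6) (nat_lit 4) (nat_lit 7) (nat_lit 5) (nat_lit 7) (nat_lit 4) (nat_lit 331) (nat_lit 235) (nat_lit 214)) (XT.nd (nat_lit 78) (nat_lit 0) (nat_lit 0) (XT.lf (nat_lit 0) (nat_lit 31979024797) (nat_lit 76) (nat_lit 8553511938) (nat_lit 76) (nat_lit 3582246847) (nat_lit 6) (nat_lit 4) (nat_lit 7) (nat_lit 5) (nat_lit 7) (nat_lit 4) (nat_lit 332) (nat_lit 235) (nat_lit 213)) (XT.lf (nat_lit 0) (nat_lit 39229228786) (nat_lit 76) (nat_lit 6015148608) (nat_lit 76) (nat_lit 920925152) (nat_lit 6) (nat_lit 4) (nat_lit 7) (nat_lit 5) (nat_lit 7) (nat_lit 4) (nat_lit 333) (nat_lit 235) (nat_lit 212))))))))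
noncomputable def xc41 : XT := (XT.nd (nat_lit 1482) (nat_lit 0) (nat_lit 0) (XT.nd (nat_lit 702) (nat_lit 76) (nat_lit 0) (XT.nd (nat_lit 312) (nat_lit 0) (nat_lit 0) (XT.nd (nat_lit 156) (nat_lit 0) (nat_lit 0) (XT.nd (nat_lit 78) (nat_lit 76) (nat_lit 0) (XT.lf (nat_lit 0) (nat_lit 1754124530) (nat_lit 152) (nat_lit 1615371371) (nat_lit 76) (nat_lit 44950395524) (nat_lit 5) (nat_lit 5) (nat_lit 7) (nat_lit 5) (nat_lit 6) (nat_lit 4) (nat_lit 334) (nat_lit 235) (nat_lit 211)) (XT.lf (nat_lit 0) (nat_lit 3979133867) (nat_lit 76) (nat_lit 558420955) (nat_lit 152) (nat_lit 46043657097) (nat_lit 4) (nat_lit 5) (nat_lit 5) (nat_lit 5) (nat_lit 6) (nat_lit 4) (nat_lit 335) (nat_lit 235) (nat_lit 210))) (XT.nd (nat_lit 78) (nat_lit 0) (nat_lit 0) (XT.lf (nat_lit 0) (nat_lit 7469127158) (nat_lit 152) (nat_lit 43187472237) (nat_lit 0) (nat_lit 2298584701) (nat_lit 4) (nat_lit 5) (nat_lit 6)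 (nat_lit 4) (nat_lit 4) (nat_lit 4) (nat_lit 336) (nat_lit 235) (nat_lit 209)) (XT.lf (nat_lit 0) (nat_lit 10502909003) (nat_lit 152) (nat_lit 39711171437) (nat_lit 0) (nat_lit 5236025451) (nat_lit 4) (nat_lit 5) (nat_lit 6) (nat_lit 4) (nat_lit 4) (nat_lit 4) (nat_lit 337) (nat_lit 235) (nat_lit 208)))) (XT.nd (nat_lit 156) (nat_lit 0) (nat_lit 0) (XT.nd (nat_lit 78) (nat_lit 0) (nat_lit 0) (XT.lf (nat_lit 0) (nat_lit 13637405132) (nat_lit 152) (nat_lit 36156180232) (nat_lit 0) (nat_lit 8278768156) (nat_lit 4) (nat_lit 5) (nat_lit 6) (nat_lit 4) (nat_lit 4) (nat_lit 4) (nat_lit 338) (nat_lit 235) (nat_lit 207)) (XT.lf (nat_lit 0) (nat_lit 16880078632) (nat_lit 152) (nat_lit 32514034357) (nat_lit 0) (nat_lit 11434057442) (nat_lit 4) (nat_lit 5) (nat_lit 6) (nat_lit 4) (nat_lit 4) (nat_lit 4) (nat_lit 339) (nat_lit 235) (nat_lit 206))) (XT.nd (nat_lit 78) (nat_lit 0) (nat_lit 0) (XT.lf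 (nat_lit 0) (nat_lit 20238650154) (nat_lit 152) (nat_lit 28776062036) (nat_lit 0) (nat_lit 14709405902) (nat_lit 4) (nat_lit 5) (nat_lit 6) (nat_lit 4) (nat_lit 4) (nat_lit 4) (nat_lit 340) (nat_lit 235) (nat_lit 205)) (XT.nd (nat_lit 78) (nat_lit 0) (nat_lit 0) (XT.lf (nat_lit 0) (nat_lit 23721116296) (nat_lit 152) (nat_lit 24933363334) (nat_lit 0) (nat_lit 18112611987) (nat_lit 4) (nat_lit 5) (nat_lit 6) (nat_lit 4) (nat_lit 4) (nat_lit 4) (nat_lit 341) (nat_lit 235) (nat_lit 204)) (XT.lf (nat_lit 0) (nat_lit 27335768645) (nat_lit 152) (nat_lit 20976788970) (nat_lit 0) (nat_lit 21651778566) (nat_lit 4) (nat_lit 5) (nat_lit 6) (nat_lit 4) (nat_lit 4) (nat_lit 4) (nat_lit 342) (nat_lit 235) (nat_lit 203)))))) (XT.nd (nat_lit 390) (nat_lit 0) (nat_lit 0) (XT.nd (nat_lit 156) (nat_lit 76) (nat_lit 0) (XT.nd (nat_lit 78) (nat_lit 0) (nat_lit 0) (XT.lf (nat_lit 0) (nat_lit 31091213516)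 (nat_lit 152) (nat_lit 16896918527) (nat_lit 0) (nat_lit 25335332228) (nat_lit 4) (nat_lit 5) (nat_lit 6) (nat_lit 4) (nat_lit 4) (nat_lit 4) (nat_lit 343) (nat_lit 235) (nat_lit 202)) (XT.lf (nat_lit 0) (nat_lit 34996392444) (nat_lit 152) (nat_lit 12684038030) (nat_lit 0) (nat_lit 29172043337) (nat_lit 4) (nat_lit 5) (nat_lit 6) (nat_lit 4) (nat_lit 4) (nat_lit 4) (nat_lit 344) (nat_lit 235) (nat_lit 201))) (XT.nd (nat_lit 78) (nat_lit 76) (nat_lit 0) (XT.lf (nat_lit 0) (nat_lit 39060603474) (nat_lit 152) (nat_lit 8328116809) (nat_lit 0) (nat_lit 33171046921) (nat_lit 4) (nat_lit 5) (nat_lit 6) (nat_lit 4) (nat_lit 4) (nat_lit 4) (nat_lit 345) (nat_lit 235) (nat_lit 200)) (XT.nd (nat_lit 78) (nat_lit 76) (nat_lit 0) (XT.lf (nat_lit 0) (nat_lit 43293523299) (nat_lit 152) (nat_lit 3818783624) (nat_lit 0) (nat_lit 37341864417) (nat_lit 4) (nat_lit 5) (nat_lit 6) (nat_lit 4) (nat_lit 4)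 (nat_lit 4) (nat_lit 346) (nat_lit 235) (nat_lit 199)) (XT.lf (nat_lit 0) (nat_lit 882958209) (nat_lit 76) (nat_lit 46836057542) (nat_lit 76) (nat_lit 40825253585) (nat_lit 3) (nat_lit 4) (nat_lit 4) (nat_lit 5) (nat_lit 4) (nat_lit 4) (nat_lit 347) (nat_lit 235) (nat_lit 198))))) (XT.nd (nat_lit 156) (nat_lit 0) (nat_lit 0) (XT.nd (nat_lit 78) (nat_lit 0) (nat_lit 0) (XT.lf (nat_lit 0) (nat_lit 5892037494) (nat_lit 76) (nat_lit 46506182264) (nat_lit 76) (nat_lit 40439049663) (nat_lit 3) (nat_lit 4) (nat_lit 4) (nat_lit 5) (nat_lit 4) (nat_lit 4) (nat_lit 348) (nat_lit 235) (nat_lit 197)) (XT.lf (nat_lit 0) (nat_lit 11094114377) (nat_lit 76) (nat_lit 46186568618) (nat_lit 76) (nat_lit 40065789690) (nat_lit 3) (nat_lit 4) (nat_lit 4) (nat_lit 5) (nat_lit 4) (nat_lit 4) (nat_lit 349) (nat_lit 235) (nat_lit 196))) (XT.nd (nat_lit 78) (nat_lit 0) (nat_lit 0) (XT.lf (nat_lit 0) (nat_lit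 16501574755) (nat_lit 76) (nat_lit 45876455620) (nat_lit 76) (nat_lit 39704584952) (nat_lit 3) (nat_lit 4) (nat_lit 4) (nat_lit 5) (nat_lit 4) (nat_lit 4) (nat_lit 350) (nat_lit 235) (nat_lit 195)) (XT.nd (nat_lit 78) (nat_lit 0) (nat_lit 0) (XT.lf (nat_lit 0) (nat_lit 22127293535) (nat_lit 76) (nat_lit 45575104906) (nat_lit 76) (nat_lit 39354575439) (nat_lit 3) (nat_lit 4) (nat_lit 4) (nat_lit 5) (nat_lit 4) (nat_lit 4) (nat_lit 351) (nat_lit 235) (nat_lit 194)) (XT.lf (nat_lit 0) (nat_lit 27984665284) (nat_lit 76) (nat_lit 45281798975) (nat_lit 76) (nat_lit 39014927793) (nat_lit 3) (nat_lit 4) (nat_lit 4) (nat_lit 5) (nat_lit 4) (nat_lit 4) (nat_lit 352) (nat_lit 235) (nat_lit 193))))))) (XT.nd (nat_lit 780) (nat_lit 0) (nat_lit 0) (XT.nd (nat_lit 390) (nat_lit 0) (nat_lit 0) (XT.nd (nat_lit 156) (nat_lit 0) (nat_lit 0) (XT.nd (nat_lit 78) (nat_lit 0) (nat_lit 0) (XT.lf (nat_lit 0)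 (nat_lit 34087636126) (nat_lit 76) (nat_lit 44995839478) (nat_lit 76) (nat_lit 38684833330) (nat_lit 3) (nat_lit 4) (nat_lit 4) (nat_lit 5) (nat_lit 4) (nat_lit 4) (nat_lit 353) (nat_lit 235) (nat_lit 192)) (XT.lf (nat_lit 0) (nat_lit 40450736943) (nat_lit 76) (nat_lit 44716545560) (nat_lit 76) (nat_lit 38363506110) (nat_lit 3) (nat_lit 4) (nat_lit 4) (nat_lit 5) (nat_lit 4) (nat_lit 4) (nat_lit 354) (nat_lit 235) (nat_lit 191))) (XT.nd (nat_lit 78) (nat_lit 0) (nat_lit 0) (XT.lf (nat_lit 0) (nat_lit 47089117977) (nat_lit 76) (nat_lit 44443252235) (nat_lit 76) (nat_lit 38050181070) (nat_lit 3) (nat_lit 4) (nat_lit 4) (nat_lit 5) (nat_lit 4) (nat_lit 4) (nat_lit 355) (nat_lit 235) (nat_lit 190)) (XT.nd (nat_lit 78) (nat_lit 0) (nat_lit 0) (XT.lf (nat_lit 0) (nat_lit 54018584895) (nat_lit 76) (nat_lit 44175308805) (nat_lit 76) (nat_lit 37744112197) (nat_lit 3) (nat_lit 4) (nat_lit 4)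 (nat_lit 5) (nat_lit 4) (nat_lit 4) (nat_lit 356) (nat_lit 235) (nat_lit 189)) (XT.lf (nat_lit 0) (nat_lit 61255636429) (nat_lit 76) (nat_lit 43912077309) (nat_lit 76) (nat_lit 37444570755) (nat_lit 3) (nat_lit 4) (nat_lit 4) (nat_lit 5) (nat_lit 4) (nat_lit 4) (nat_lit 357) (nat_lit 235) (nat_lit 188))))) (XT.nd (nat_lit 156) (nat_lit 0) (nat_lit 0) (XT.nd (nat_lit 78) (nat_lit 0) (nat_lit 0) (XT.lf (nat_lit 0) (nat_lit 68817503654) (nat_lit 76) (nat_lit 43652931006) (nat_lit 76) (nat_lit 37150843551) (nat_lit 3) (nat_lit 4) (nat_lit 4) (nat_lit 5) (nat_lit 4) (nat_lit 4) (nat_lit 358) (nat_lit 235) (nat_lit 187)) (XT.lf (nat_lit 0) (nat_lit 76722191015) (nat_lit 76) (nat_lit 43397252880) (nat_lit 76) (nat_lit 36862231235) (nat_lit 3) (nat_lit 4) (nat_lit 4) (nat_lit 5) (nat_lit 4) (nat_lit 4) (nat_lit 359) (nat_lit 235) (nat_lit 186))) (XT.nd (nat_lit 78) (nat_lit 0) (nat_lit 0) (XT.lf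 (nat_lit 0) (nat_lit 84988519197) (nat_lit 76) (nat_lit 43144434175) (nat_lit 76) (nat_lit 36578046633) (nat_lit 3) (nat_lit 4) (nat_lit 4) (nat_lit 5) (nat_lit 4) (nat_lit 4) (nat_lit 360) (nat_lit 235) (nat_lit 185)) (XT.nd (nat_lit 78) (nat_lit 0) (nat_lit 0) (XT.lf (nat_lit 0) (nat_lit 93636169934) (nat_lit 76) (nat_lit 42893872940) (nat_lit 76) (nat_lit 36297613116) (nat_lit 3) (nat_lit 4) (nat_lit 4) (nat_lit 5) (nat_lit 4) (nat_lit 4) (nat_lit 361) (nat_lit 235) (nat_lit 184)) (XT.lf (nat_lit 0) (nat_lit 102685732870) (nat_lit 76) (nat_lit 42644972602) (nat_lit 76) (nat_lit 36020262985) (nat_lit 3) (nat_lit 4) (nat_lit 4) (nat_lit 5) (nat_lit 4) (nat_lit 4) (nat_lit 362) (nat_lit 235) (nat_lit 183)))))) (XT.nd (nat_lit 390) (nat_lit 0) (nat_lit 0) (XT.nd (nat_lit 156) (nat_lit 0) (nat_lit 0) (XT.nd (nat_lit 78) (nat_lit 0) (nat_lit 0) (XT.lf (nat_lit 0) (nat_lit 112158754583)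 (nat_lit 76) (nat_lit 42397140541) (nat_lit 76) (nat_lit 35745335883) (nat_lit 3) (nat_lit 4) (nat_lit 4) (nat_lit 5) (nat_lit 4) (nat_lit 4) (nat_lit 363) (nat_lit 235) (nat_lit 182)) (XT.lf (nat_lit 0) (nat_lit 122077789887) (nat_lit 76) (nat_lit 42149786680) (nat_lit 76) (nat_lit 35472177222) (nat_lit 3) (nat_lit 4) (nat_lit 4) (nat_lit 5) (nat_lit 4) (nat_lit 4) (nat_lit 364) (nat_lit 235) (nat_lit 181))) (XT.nd (nat_lit 78) (nat_lit 0) (nat_lit 0) (XT.lf (nat_lit 0) (nat_lit 132466455533) (nat_lit 76) (nat_lit 41902322081) (nat_lit 76) (nat_lit 35200136623) (nat_lit 3) (nat_lit 4) (nat_lit 4) (nat_lit 5) (nat_lit 4) (nat_lit 4) (nat_lit 365) (nat_lit 235) (nat_lit 180)) (XT.nd (nat_lit 78) (nat_lit 0) (nat_lit 0) (XT.lf (nat_lit 0) (nat_lit 143349486439) (nat_lit 76) (nat_lit 41654157544) (nat_lit 76) (nat_lit 34928566371) (nat_lit 3) (nat_lit 4) (nat_lit 4) (nat_lit 5) (nat_lit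 4) (nat_lit 4) (nat_lit 366) (nat_lit 235) (nat_lit 179)) (XT.lf (nat_lit 0) (nat_lit 154752794584) (nat_lit 76) (nat_lit 41404702200) (nat_lit 76) (nat_lit 34656819870) (nat_lit 3) (nat_lit 4) (nat_lit 4) (nat_lit 5) (nat_lit 4) (nat_lit 4) (nat_lit 367) (nat_lit 235) (nat_lit 178))))) (XT.nd (nat_lit 156) (nat_lit 0) (nat_lit 0) (XT.nd (nat_lit 78) (nat_lit 0) (nat_lit 0) (XT.lf (nat_lit 0) (nat_lit 166703530700) (nat_lit 76) (nat_lit 41153362108) (nat_lit 76) (nat_lit 34384250104) (nat_lit 3) (nat_lit 4) (nat_lit 4) (nat_lit 5) (nat_lit 4) (nat_lit 4) (nat_lit 368) (nat_lit 235) (nat_lit 177)) (XT.lf (nat_lit 0) (nat_lit 179230148923) (nat_lit 76) (nat_lit 40899538839) (nat_lit 76) (nat_lit 34110208099) (nat_lit 3) (nat_lit 4) (nat_lit 4) (nat_lit 5) (nat_lit 4) (nat_lit 4) (nat_lit 369) (nat_lit 235) (nat_lit 176))) (XT.nd (nat_lit 78) (nat_lit 0) (nat_lit 0) (XT.lf (nat_lit 0)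 (nat_lit 192362474532) (nat_lit 76) (nat_lit 40642628052) (nat_lit 76) (nat_lit 33834041372) (nat_lit 3) (nat_lit 4) (nat_lit 4) (nat_lit 5) (nat_lit 4) (nat_lit 4) (nat_lit 370) (nat_lit 235) (nat_lit 175)) (XT.nd (nat_lit 78) (nat_lit 0) (nat_lit 0) (XT.lf (nat_lit 0) (nat_lit 206131774971) (nat_lit 76) (nat_lit 40382018054) (nat_lit 76) (nat_lit 33555092385) (nat_lit 3) (nat_lit 4) (nat_lit 4) (nat_lit 5) (nat_lit 4) (nat_lit 4) (nat_lit 371) (nat_lit 235) (nat_lit 174)) (XT.lf (nat_lit 0) (nat_lit 220570834287) (nat_lit 76) (nat_lit 40117088346) (nat_lit 76) (nat_lit 33272696972) (nat_lit 3) (nat_lit 4) (nat_lit 4) (nat_lit 5) (nat_lit 4) (nat_lit 4) (nat_lit 372) (nat_lit 235) (nat_lit 173))))))))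
noncomputable def xc42 : XT := (XT.nd (nat_lit 35724) (nat_lit 0) (nat_lit 228) (XT.nd (nat_lit 702) (nat_lit 0) (nat_lit 0) (XT.nd (nat_lit 312) (nat_lit 0) (nat_lit 0) (XT.nd (nat_lit 156) (nat_lit 0) (nat_lit 0) (XT.nd (nat_lit 78) (nat_lit 0) (nat_lit 0) (XT.lf (nat_lit 0) (nat_lit 235714031194) (nat_lit 76) (nat_lit 39847208143) (nat_lit 76) (nat_lit 32986182764) (nat_lit 3) (nat_lit 4) (nat_lit 4) (nat_lit 5) (nat_lit 4) (nat_lit 4) (nat_lit 373) (nat_lit 235) (nat_lit 172)) (XT.lf (nat_lit 0) (nat_lit 251597420921) (nat_lit 76) (nat_lit 39571734873) (nat_lit 76) (nat_lit 32694867585) (nat_lit 3) (nat_lit 4) (nat_lit 4) (nat_lit 5) (nat_lit 4) (nat_lit 4) (nat_lit 374) (nat_lit 235) (nat_lit 171))) (XT.nd (nat_lit 78) (nat_lit 0) (nat_lit 0) (XT.lf (nat_lit 0) (nat_lit 268258821065) (nat_lit 76) (nat_lit 39290012646) (nat_lit 76) (nat_lit 32398057826) (nat_lit 3) (nat_lit 4) (nat_lit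 4) (nat_lit 5) (nat_lit 4) (nat_lit 4) (nat_lit 375) (nat_lit 235) (nat_lit 170)) (XT.lf (nat_lit 0) (nat_lit 285737901625) (nat_lit 76) (nat_lit 39001370697) (nat_lit 76) (nat_lit 32095046798) (nat_lit 3) (nat_lit 4) (nat_lit 4) (nat_lit 5) (nat_lit 4) (nat_lit 4) (nat_lit 376) (nat_lit 235) (nat_lit 169)))) (XT.nd (nat_lit 156) (nat_lit 0) (nat_lit 0) (XT.nd (nat_lit 78) (nat_lit 0) (nat_lit 0) (XT.lf (nat_lit 0) (nat_lit 304076279459) (nat_lit 76) (nat_lit 38705121781) (nat_lit 76) (nat_lit 31785113045) (nat_lit 3) (nat_lit 4) (nat_lit 4) (nat_lit 5) (nat_lit 4) (nat_lit 4) (nat_lit 377) (nat_lit 235) (nat_lit 168)) (XT.lf (nat_lit 0) (nat_lit 323317617372) (nat_lit 76) (nat_lit 38400560545) (nat_lit 76) (nat_lit 31467518631) (nat_lit 3) (nat_lit 4) (nat_lit 4) (nat_lit 5) (nat_lit 4) (nat_lit 4) (nat_lit 378) (nat_lit 235) (nat_lit 167))) (XT.nd (nat_lit 78) (nat_lit 0) (nat_lit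 0) (XT.lf (nat_lit 0) (nat_lit 343507728073) (nat_lit 76) (nat_lit 38086961842) (nat_lit 76) (nat_lit 31141507379) (nat_lit 3) (nat_lit 4) (nat_lit 4) (nat_lit 5) (nat_lit 4) (nat_lit 4) (nat_lit 379) (nat_lit 235) (nat_lit 166)) (XT.nd (nat_lit 78) (nat_lit 0) (nat_lit 0) (XT.lf (nat_lit 0) (nat_lit 364694683255) (nat_lit 76) (nat_lit 37763579010) (nat_lit 76) (nat_lit 30806303070) (nat_lit 3) (nat_lit 4) (nat_lit 4) (nat_lit 5) (nat_lit 4) (nat_lit 4) (nat_lit 380) (nat_lit 235) (nat_lit 165)) (XT.lf (nat_lit 0) (nat_lit 386928928049) (nat_lit 76) (nat_lit 37429642088) (nat_lit 76) (nat_lit 30461107599) (nat_lit 3) (nat_lit 4) (nat_lit 4) (nat_lit 5) (nat_lit 4) (nat_lit 4) (nat_lit 381) (nat_lit 235) (nat_lit 164)))))) (XT.nd (nat_lit 390) (nat_lit 0) (nat_lit 0) (XT.nd (nat_lit 156) (nat_lit 0) (nat_lit 0) (XT.nd (nat_lit 78) (nat_lit 0) (nat_lit 0) (XT.lf (nat_lit 0) (nat_lit 410263401132)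 (nat_lit 76) (nat_lit 37084355990) (nat_lit 76) (nat_lit 30105099073) (nat_lit 3) (nat_lit 4) (nat_lit 4) (nat_lit 5) (nat_lit 4) (nat_lit 4) (nat_lit 382) (nat_lit 235) (nat_lit 163)) (XT.lf (nat_lit 0) (nat_lit 434753660774) (nat_lit 76) (nat_lit 36726898605) (nat_lit 76) (nat_lit 29737429852) (nat_lit 3) (nat_lit 4) (nat_lit 4) (nat_lit 5) (nat_lit 4) (nat_lit 4) (nat_lit 383) (nat_lit 235) (nat_lit 162))) (XT.nd (nat_lit 78) (nat_lit 0) (nat_lit 0) (XT.lf (nat_lit 0) (nat_lit 460458017118) (nat_lit 76) (nat_lit 36356418844) (nat_lit 76) (nat_lit 29357224533) (nat_lit 3) (nat_lit 4) (nat_lit 4) (nat_lit 5) (nat_lit 4) (nat_lit 4) (nat_lit 384) (nat_lit 235) (nat_lit 161)) (XT.nd (nat_lit 78) (nat_lit 0) (nat_lit 0) (XT.lf (nat_lit 0) (nat_lit 487437671011) (nat_lit 76) (nat_lit 35972034613) (nat_lit 76) (nat_lit 28963577866) (nat_lit 3) (nat_lit 4) (nat_lit 4) (nat_lit 5) (nat_lit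 4) (nat_lit 4) (nat_lit 385) (nat_lit 235) (nat_lit 160)) (XT.lf (nat_lit 0) (nat_lit 515756859725) (nat_lit 76) (nat_lit 35572830711) (nat_lit 76) (nat_lit 28555552596) (nat_lit 3) (nat_lit 4) (nat_lit 4) (nat_lit 5) (nat_lit 4) (nat_lit 4) (nat_lit 386) (nat_lit 235) (nat_lit 159))))) (XT.nd (nat_lit 156) (nat_lit 0) (nat_lit 0) (XT.nd (nat_lit 78) (nat_lit 0) (nat_lit 0) (XT.lf (nat_lit 0) (nat_lit 545483009899) (nat_lit 76) (nat_lit 35157856652) (nat_lit 76) (nat_lit 28132177235) (nat_lit 3) (nat_lit 4) (nat_lit 4) (nat_lit 5) (nat_lit 4) (nat_lit 4) (nat_lit 387) (nat_lit 235) (nat_lit 158)) (XT.lf (nat_lit 0) (nat_lit 576686898082) (nat_lit 76) (nat_lit 34726124404) (nat_lit 76) (nat_lit 27692443746) (nat_lit 3) (nat_lit 4) (nat_lit 4) (nat_lit 5) (nat_lit 4) (nat_lit 4) (nat_lit 388) (nat_lit 235) (nat_lit 157))) (XT.nd (nat_lit 34320) (nat_lit 0) (nat_lit 912) (XT.lf (nat_lit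 0) (nat_lit 609442819245) (nat_lit 76) (nat_lit 34276606032) (nat_lit 76) (nat_lit 27235305145) (nat_lit 3) (nat_lit 4) (nat_lit 4) (nat_lit 5) (nat_lit 4) (nat_lit 4) (nat_lit 389) (nat_lit 235) (nat_lit 156)) (XT.nd (nat_lit 78) (nat_lit 0) (nat_lit 0) (XT.lf (nat_lit 0) (nat_lit 1880190082) (nat_lit 152) (nat_lit 3167255511) (nat_lit 152) (nat_lit 3167255511) (nat_lit 15) (nat_lit 4) (nat_lit 17) (nat_lit 5) (nat_lit 17) (nat_lit 4) (nat_lit 308) (nat_lit 236) (nat_lit 236)) (XT.lf (nat_lit 0) (nat_lit 11603906811) (nat_lit 152) (nat_lit 2930014918) (nat_lit 152) (nat_lit 2492815220) (nat_lit 15) (nat_lit 4) (nat_lit 17) (nat_lit 5) (nat_lit 17) (nat_lit 4) (nat_lit 309) (nat_lit 236) (nat_lit 235))))))) (XT.nd (nat_lit 780) (nat_lit 228) (nat_lit 0) (XT.nd (nat_lit 390) (nat_lit 228) (nat_lit 0) (XT.nd (nat_lit 156) (nat_lit 76) (nat_lit 0) (XT.nd (nat_lit 78) (nat_lit 0) (nat_lit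 0) (XT.lf (nat_lit 0) (nat_lit 1391118965) (nat_lit 152) (nat_lit 15688591532) (nat_lit 0) (nat_lit 578185287) (nat_lit 13) (nat_lit 5) (nat_lit 15) (nat_lit 4) (nat_lit 13) (nat_lit 4) (nat_lit 310) (nat_lit 236) (nat_lit 234)) (XT.lf (nat_lit 0) (nat_lit 5387402005) (nat_lit 152) (nat_lit 8734399740) (nat_lit 0) (nat_lit 4196798789) (nat_lit 13) (nat_lit 5) (nat_lit 15) (nat_lit 4) (nat_lit 13) (nat_lit 4) (nat_lit 311) (nat_lit 236) (nat_lit 233))) (XT.nd (nat_lit 78) (nat_lit 76) (nat_lit 0) (XT.lf (nat_lit 0) (nat_lit 9450689913) (nat_lit 152) (nat_lit 1668011190) (nat_lit 0) (nat_lit 7900401424) (nat_lit 13) (nat_lit 5) (nat_lit 15) (nat_lit 4) (nat_lit 13) (nat_lit 4) (nat_lit 312) (nat_lit 236) (nat_lit 232)) (XT.nd (nat_lit 78) (nat_lit 0) (nat_lit 0) (XT.lf (nat_lit 0) (nat_lit 5710159619) (nat_lit 76) (nat_lit 7969649161) (nat_lit 76) (nat_lit 6076803268) (nat_lit 12) (nat_lit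 4) (nat_lit 13) (nat_lit 5) (nat_lit 13) (nat_lit 4) (nat_lit 313) (nat_lit 236) (nat_lit 231)) (XT.lf (nat_lit 0) (nat_lit 13294468325) (nat_lit 76) (nat_lit 4730256469) (nat_lit 76) (nat_lit 2511165431) (nat_lit 12) (nat_lit 4) (nat_lit 13) (nat_lit 5) (nat_lit 13) (nat_lit 4) (nat_lit 314) (nat_lit 236) (nat_lit 230))))) (XT.nd (nat_lit 156) (nat_lit 76) (nat_lit 0) (XT.nd (nat_lit 78) (nat_lit 76) (nat_lit 0) (XT.lf (nat_lit 0) (nat_lit 1073255267) (nat_lit 152) (nat_lit 329627402) (nat_lit 76) (nat_lit 19956389457) (nat_lit 11) (nat_lit 5) (nat_lit 13) (nat_lit 5) (nat_lit 12) (nat_lit 4) (nat_lit 315) (nat_lit 236) (nat_lit 229)) (XT.lf (nat_lit 0) (nat_lit 4779646935) (nat_lit 152) (nat_lit 15352365900) (nat_lit 0) (nat_lit 2088490110) (nat_lit 10) (nat_lit 5) (nat_lit 12) (nat_lit 4) (nat_lit 10) (nat_lit 4) (nat_lit 316) (nat_lit 236) (nat_lit 228))) (XT.nd (nat_lit 78) (nat_lit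 76) (nat_lit 0) (XT.lf (nat_lit 0) (nat_lit 8586627884) (nat_lit 152) (nat_lit 8915426261) (nat_lit 0) (nat_lit 5627068370) (nat_lit 10) (nat_lit 5) (nat_lit 12) (nat_lit 4) (nat_lit 10) (nat_lit 4) (nat_lit 317) (nat_lit 236) (nat_lit 227)) (XT.nd (nat_lit 78) (nat_lit 76) (nat_lit 0) (XT.lf (nat_lit 0) (nat_lit 12475955697) (nat_lit 152) (nat_lit 2351929278) (nat_lit 0) (nat_lit 9260774575) (nat_lit 10) (nat_lit 5) (nat_lit 12) (nat_lit 4) (nat_lit 10) (nat_lit 4) (nat_lit 318) (nat_lit 236) (nat_lit 226)) (XT.lf (nat_lit 0) (nat_lit 4497707139) (nat_lit 76) (nat_lit 12029405353) (nat_lit 76) (nat_lit 8570775080) (nat_lit 9) (nat_lit 4) (nat_lit 10) (nat_lit 5) (nat_lit 10) (nat_lit 4) (nat_lit 319) (nat_lit 236) (nat_lit 225)))))) (XT.nd (nat_lit 390) (nat_lit 76) (nat_lit 0) (XT.nd (nat_lit 156) (nat_lit 152) (nat_lit 0) (XT.nd (nat_lit 78) (nat_lit 0) (nat_lit 0) (XT.lf (nat_lit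 0) (nat_lit 11588488761) (nat_lit 76) (nat_lit 9131351272) (nat_lit 76) (nat_lit 5440864664) (nat_lit 9) (nat_lit 4) (nat_lit 10) (nat_lit 5) (nat_lit 10) (nat_lit 4) (nat_lit 320) (nat_lit 236) (nat_lit 224)) (XT.lf (nat_lit 0) (nat_lit 18859532996) (nat_lit 76) (nat_lit 6166653664) (nat_lit 76) (nat_lit 2255351499) (nat_lit 9) (nat_lit 4) (nat_lit 10) (nat_lit 5) (nat_lit 10) (nat_lit 4) (nat_lit 321) (nat_lit 236) (nat_lit 223))) (XT.nd (nat_lit 78) (nat_lit 76) (nat_lit 0) (XT.lf (nat_lit 0) (nat_lit 961555599) (nat_lit 152) (nat_lit 2150413715) (nat_lit 76) (nat_lit 25350311847) (nat_lit 8) (nat_lit 5) (nat_lit 10) (nat_lit 5) (nat_lit 9) (nat_lit 4) (nat_lit 322) (nat_lit 236) (nat_lit 222)) (XT.nd (nat_lit 78) (nat_lit 0) (nat_lit 0) (XT.lf (nat_lit 0) (nat_lit 4245348764) (nat_lit 152) (nat_lit 25326572507) (nat_lit 0) (nat_lit 129264084) (nat_lit 7) (nat_lit 5) (nat_lit 9)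 (nat_lit 4) (nat_lit 7) (nat_lit 4) (nat_lit 323) (nat_lit 236) (nat_lit 221)) (XT.lf (nat_lit 0) (nat_lit 7693404834) (nat_lit 152) (nat_lit 19913033000) (nat_lit 0) (nat_lit 3395654650) (nat_lit 7) (nat_lit 5) (nat_lit 9) (nat_lit 4) (nat_lit 7) (nat_lit 4) (nat_lit 324) (nat_lit 236) (nat_lit 220))))) (XT.nd (nat_lit 156) (nat_lit 76) (nat_lit 0) (XT.nd (nat_lit 78) (nat_lit 0) (nat_lit 0) (XT.lf (nat_lit 0) (nat_lit 11230094221) (nat_lit 152) (nat_lit 14382868415) (nat_lit 0) (nat_lit 6759329270) (nat_lit 7) (nat_lit 5) (nat_lit 9) (nat_lit 4) (nat_lit 7) (nat_lit 4) (nat_lit 325) (nat_lit 236) (nat_lit 219)) (XT.lf (nat_lit 0) (nat_lit 14863837614) (nat_lit 152) (nat_lit 8722911695) (nat_lit 0) (nat_lit 10228296695) (nat_lit 7) (nat_lit 5) (nat_lit 9) (nat_lit 4) (nat_lit 7) (nat_lit 4) (nat_lit 326) (nat_lit 236) (nat_lit 218))) (XT.nd (nat_lit 78) (nat_lit 76) (nat_lit 0) (XT.lf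 (nat_lit 0) (nat_lit 18603286782) (nat_lit 152) (nat_lit 2919686752) (nat_lit 0) (nat_lit 13810816370) (nat_lit 7) (nat_lit 5) (nat_lit 9) (nat_lit 4) (nat_lit 7) (nat_lit 4) (nat_lit 327) (nat_lit 236) (nat_lit 217)) (XT.nd (nat_lit 78) (nat_lit 0) (nat_lit 0) (XT.lf (nat_lit 0) (nat_lit 3141160364) (nat_lit 76) (nat_lit 19365227128) (nat_lit 76) (nat_lit 14423300056) (nat_lit 6) (nat_lit 4) (nat_lit 7) (nat_lit 5) (nat_lit 7) (nat_lit 4) (nat_lit 328) (nat_lit 236) (nat_lit 216)) (XT.lf (nat_lit 0) (nat_lit 9475485331) (nat_lit 76) (nat_lit 17107642676) (nat_lit 76) (nat_lit 12023375927) (nat_lit 6) (nat_lit 4) (nat_lit 7) (nat_lit 5) (nat_lit 7) (nat_lit 4) (nat_lit 329) (nat_lit 236) (nat_lit 215))))))))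
noncomputable def xc43 : XT := (XT.nd (nat_lit 1560) (nat_lit 0) (nat_lit 0) (XT.nd (nat_lit 780) (nat_lit 76) (nat_lit 0) (XT.nd (nat_lit 390) (nat_lit 76) (nat_lit 0) (XT.nd (nat_lit 156) (nat_lit 76) (nat_lit 0) (XT.nd (nat_lit 78) (nat_lit 0) (nat_lit 0) (XT.lf (nat_lit 0) (nat_lit 16001831844) (nat_lit 76) (nat_lit 14794291285) (nat_lit 76) (nat_lit 9574462940) (nat_lit 6) (nat_lit 4) (nat_lit 7) (nat_lit 5) (nat_lit 7) (nat_lit 4) (nat_lit 330) (nat_lit 236) (nat_lit 214)) (XT.lf (nat_lit 0) (nat_lit 22735738822) (nat_lit 76) (nat_lit 12419664976) (nat_lit 76) (nat_lit 7070730348) (nat_lit 6) (nat_lit 4) (nat_lit 7) (nat_lit 5) (nat_lit 7) (nat_lit 4) (nat_lit 331) (nat_lit 236) (nat_lit 213))) (XT.nd (nat_lit 78) (nat_lit 76) (nat_lit 0) (XT.lf (nat_lit 0) (nat_lit 29693239379) (nat_lit 76) (nat_lit 9978109877) (nat_lit 76) (nat_lit 4506216884) (nat_lit 6) (nat_lit 4) (nat_lit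 7) (nat_lit 5) (nat_lit 7) (nat_lit 4) (nat_lit 332) (nat_lit 236) (nat_lit 212)) (XT.nd (nat_lit 78) (nat_lit 76) (nat_lit 0) (XT.lf (nat_lit 0) (nat_lit 36890898991) (nat_lit 76) (nat_lit 7463812761) (nat_lit 76) (nat_lit 1874816564) (nat_lit 6) (nat_lit 4) (nat_lit 7) (nat_lit 5) (nat_lit 7) (nat_lit 4) (nat_lit 333) (nat_lit 236) (nat_lit 211)) (XT.lf (nat_lit 0) (nat_lit 803179122) (nat_lit 152) (nat_lit 4054005856) (nat_lit 76) (nat_lit 43529073594) (nat_lit 5) (nat_lit 5) (nat_lit 7) (nat_lit 5) (nat_lit 6) (nat_lit 4) (nat_lit 334) (nat_lit 236) (nat_lit 210))))) (XT.nd (nat_lit 156) (nat_lit 0) (nat_lit 0) (XT.nd (nat_lit 78) (nat_lit 0) (nat_lit 0) (XT.lf (nat_lit 0) (nat_lit 1409717400) (nat_lit 76) (nat_lit 2110505290) (nat_lit 152) (nat_lit 47130692387) (nat_lit 4) (nat_lit 5) (nat_lit 5) (nat_lit 5) (nat_lit 6) (nat_lit 4) (nat_lit 335) (nat_lit 236) (nat_lit 209)) (XT.lf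 (nat_lit 0) (nat_lit 6401453591) (nat_lit 152) (nat_lit 45851081848) (nat_lit 0) (nat_lit 774884766) (nat_lit 4) (nat_lit 5) (nat_lit 6) (nat_lit 4) (nat_lit 4) (nat_lit 4) (nat_lit 336) (nat_lit 236) (nat_lit 208))) (XT.nd (nat_lit 78) (nat_lit 0) (nat_lit 0) (XT.lf (nat_lit 0) (nat_lit 9410369676) (nat_lit 152) (nat_lit 42421183310) (nat_lit 0) (nat_lit 3692047426) (nat_lit 4) (nat_lit 5) (nat_lit 6) (nat_lit 4) (nat_lit 4) (nat_lit 4) (nat_lit 337) (nat_lit 236) (nat_lit 207)) (XT.nd (nat_lit 78) (nat_lit 0) (nat_lit 0) (XT.lf (nat_lit 0) (nat_lit 12521184130) (nat_lit 152) (nat_lit 38910384734) (nat_lit 0) (nat_lit 6715477666) (nat_lit 4) (nat_lit 5) (nat_lit 6) (nat_lit 4) (nat_lit 4) (nat_lit 4) (nat_lit 338) (nat_lit 236) (nat_lit 206)) (XT.lf (nat_lit 0) (nat_lit 15741303653) (nat_lit 152) (nat_lit 35310327077) (nat_lit 0) (nat_lit 9852374128) (nat_lit 4) (nat_lit 5) (nat_lit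 6) (nat_lit 4) (nat_lit 4) (nat_lit 4) (nat_lit 339) (nat_lit 236) (nat_lit 205)))))) (XT.nd (nat_lit 390) (nat_lit 76) (nat_lit 0) (XT.nd (nat_lit 156) (nat_lit 0) (nat_lit 0) (XT.nd (nat_lit 78) (nat_lit 0) (nat_lit 0) (XT.lf (nat_lit 0) (nat_lit 19078395196) (nat_lit 152) (nat_lit 31612438774) (nat_lit 0) (nat_lit 13110205613) (nat_lit 4) (nat_lit 5) (nat_lit 6) (nat_lit 4) (nat_lit 4) (nat_lit 4) (nat_lit 340) (nat_lit 236) (nat_lit 204)) (XT.lf (nat_lit 0) (nat_lit 22540404216) (nat_lit 152) (nat_lit 27807915327) (nat_lit 0) (nat_lit 16496728864) (nat_lit 4) (nat_lit 5) (nat_lit 6) (nat_lit 4) (nat_lit 4) (nat_lit 4) (nat_lit 341) (nat_lit 236) (nat_lit 203))) (XT.nd (nat_lit 78) (nat_lit 0) (nat_lit 0) (XT.lf (nat_lit 0) (nat_lit 26135573592) (nat_lit 152) (nat_lit 23887698348) (nat_lit 0) (nat_lit 20020007030) (nat_lit 4) (nat_lit 5) (nat_lit 6) (nat_lit 4) (nat_lit 4) (nat_lit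 4) (nat_lit 342) (nat_lit 236) (nat_lit 202)) (XT.nd (nat_lit 78) (nat_lit 0) (nat_lit 0) (XT.lf (nat_lit 0) (nat_lit 29872463249) (nat_lit 152) (nat_lit 19842453987) (nat_lit 0) (nat_lit 23688428869) (nat_lit 4) (nat_lit 5) (nat_lit 6) (nat_lit 4) (nat_lit 4) (nat_lit 4) (nat_lit 343) (nat_lit 236) (nat_lit 201)) (XT.lf (nat_lit 0) (nat_lit 33759970546) (nat_lit 152) (nat_lit 15662550709) (nat_lit 0) (nat_lit 27510728720) (nat_lit 4) (nat_lit 5) (nat_lit 6) (nat_lit 4) (nat_lit 4) (nat_lit 4) (nat_lit 344) (nat_lit 236) (nat_lit 200))))) (XT.nd (nat_lit 156) (nat_lit 76) (nat_lit 0) (XT.nd (nat_lit 78) (nat_lit 0) (nat_lit 0) (XT.lf (nat_lit 0) (nat_lit 37807351451) (nat_lit 152) (nat_lit 11338036365) (nat_lit 0) (nat_lit 31496007296) (nat_lit 4) (nat_lit 5) (nat_lit 6) (nat_lit 4) (nat_lit 4) (nat_lit 4) (nat_lit 345) (nat_lit 236) (nat_lit 199)) (XT.lf (nat_lit 0) (nat_lit 42024242585)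 (nat_lit 152) (nat_lit 6858614491) (nat_lit 0) (nat_lit 35653753354) (nat_lit 4) (nat_lit 5) (nat_lit 6) (nat_lit 4) (nat_lit 4) (nat_lit 4) (nat_lit 346) (nat_lit 236) (nat_lit 198))) (XT.nd (nat_lit 78) (nat_lit 76) (nat_lit 0) (XT.lf (nat_lit 0) (nat_lit 46420684166) (nat_lit 152) (nat_lit 2213619797) (nat_lit 0) (nat_lit 39993866292) (nat_lit 4) (nat_lit 5) (nat_lit 6) (nat_lit 4) (nat_lit 4) (nat_lit 4) (nat_lit 347) (nat_lit 236) (nat_lit 197)) (XT.nd (nat_lit 78) (nat_lit 0) (nat_lit 0) (XT.lf (nat_lit 0) (nat_lit 2694239723) (nat_lit 76) (nat_lit 48354968821) (nat_lit 76) (nat_lit 41874504620) (nat_lit 3) (nat_lit 4) (nat_lit 4) (nat_lit 5) (nat_lit 4) (nat_lit 4) (nat_lit 348) (nat_lit 236) (nat_lit 196)) (XT.lf (nat_lit 0) (nat_lit 7869623754) (nat_lit 76) (nat_lit 48047785093) (nat_lit 76) (nat_lit 41516229151) (nat_lit 3) (nat_lit 4) (nat_lit 4) (nat_lit 5) (nat_lit 4) (nat_lit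 4) (nat_lit 349) (nat_lit 236) (nat_lit 195))))))) (XT.nd (nat_lit 780) (nat_lit 0) (nat_lit 0) (XT.nd (nat_lit 390) (nat_lit 0) (nat_lit 0) (XT.nd (nat_lit 156) (nat_lit 0) (nat_lit 0) (XT.nd (nat_lit 78) (nat_lit 0) (nat_lit 0) (XT.lf (nat_lit 0) (nat_lit 13251662367) (nat_lit 76) (nat_lit 47749510111) (nat_lit 76) (nat_lit 41169295370) (nat_lit 3) (nat_lit 4) (nat_lit 4) (nat_lit 5) (nat_lit 4) (nat_lit 4) (nat_lit 350) (nat_lit 236) (nat_lit 194)) (XT.lf (nat_lit 0) (nat_lit 18853169942) (nat_lit 76) (nat_lit 47459433699) (nat_lit 76) (nat_lit 40832877243) (nat_lit 3) (nat_lit 4) (nat_lit 4) (nat_lit 5) (nat_lit 4) (nat_lit 4) (nat_lit 351) (nat_lit 236) (nat_lit 193))) (XT.nd (nat_lit 78) (nat_lit 0) (nat_lit 0) (XT.lf (nat_lit 0) (nat_lit 24687483401) (nat_lit 76) (nat_lit 47176865197) (nat_lit 76) (nat_lit 40506173775) (nat_lit 3) (nat_lit 4) (nat_lit 4) (nat_lit 5) (nat_lit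 4) (nat_lit 4) (nat_lit 352) (nat_lit 236) (nat_lit 192)) (XT.nd (nat_lit 78) (nat_lit 0) (nat_lit 0) (XT.lf (nat_lit 0) (nat_lit 30768493967) (nat_lit 76) (nat_lit 46901131824) (nat_lit 76) (nat_lit 40188407101) (nat_lit 3) (nat_lit 4) (nat_lit 4) (nat_lit 5) (nat_lit 4) (nat_lit 4) (nat_lit 353) (nat_lit 236) (nat_lit 191)) (XT.lf (nat_lit 0) (nat_lit 37110680236) (nat_lit 76) (nat_lit 46631577071) (nat_lit 76) (nat_lit 39878820633) (nat_lit 3) (nat_lit 4) (nat_lit 4) (nat_lit 5) (nat_lit 4) (nat_lit 4) (nat_lit 354) (nat_lit 236) (nat_lit 190))))) (XT.nd (nat_lit 156) (nat_lit 0) (nat_lit 0) (XT.nd (nat_lit 78) (nat_lit 0) (nat_lit 0) (XT.lf (nat_lit 0) (nat_lit 43729142651) (nat_lit 76) (nat_lit 46367559142) (nat_lit 76) (nat_lit 39576677261) (nat_lit 3) (nat_lit 4) (nat_lit 4) (nat_lit 5) (nat_lit 4) (nat_lit 4) (nat_lit 355) (nat_lit 236) (nat_lit 189)) (XT.lf (nat_lit 0) (nat_lit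 50639639457) (nat_lit 76) (nat_lit 46108449422) (nat_lit 76) (nat_lit 39281257595) (nat_lit 3) (nat_lit 4) (nat_lit 4) (nat_lit 5) (nat_lit 4) (nat_lit 4) (nat_lit 356) (nat_lit 236) (nat_lit 188))) (XT.nd (nat_lit 78) (nat_lit 0) (nat_lit 0) (XT.lf (nat_lit 0) (nat_lit 57858624218) (nat_lit 76) (nat_lit 45853630983) (nat_lit 76) (nat_lit 38991858256) (nat_lit 3) (nat_lit 4) (nat_lit 4) (nat_lit 5) (nat_lit 4) (nat_lit 4) (nat_lit 357) (nat_lit 236) (nat_lit 187)) (XT.nd (nat_lit 78) (nat_lit 0) (nat_lit 0) (XT.lf (nat_lit 0) (nat_lit 65403284991) (nat_lit 76) (nat_lit 45602497116) (nat_lit 76) (nat_lit 38707790197) (nat_lit 3) (nat_lit 4) (nat_lit 4) (nat_lit 5) (nat_lit 4) (nat_lit 4) (nat_lit 358) (nat_lit 236) (nat_lit 186)) (XT.lf (nat_lit 0) (nat_lit 73291585256) (nat_lit 76) (nat_lit 45354449881) (nat_lit 76) (nat_lit 38428377066) (nat_lit 3) (nat_lit 4) (nat_lit 4) (nat_lit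 5) (nat_lit 4) (nat_lit 4) (nat_lit 359) (nat_lit 236) (nat_lit 185)))))) (XT.nd (nat_lit 390) (nat_lit 0) (nat_lit 0) (XT.nd (nat_lit 156) (nat_lit 0) (nat_lit 0) (XT.nd (nat_lit 78) (nat_lit 0) (nat_lit 0) (XT.lf (nat_lit 0) (nat_lit 81542306680) (nat_lit 76) (nat_lit 45108898691) (nat_lit 76) (nat_lit 38152953593) (nat_lit 3) (nat_lit 4) (nat_lit 4) (nat_lit 5) (nat_lit 4) (nat_lit 4) (nat_lit 360) (nat_lit 236) (nat_lit 184)) (XT.lf (nat_lit 0) (nat_lit 90175093837) (nat_lit 76) (nat_lit 44865258899) (nat_lit 76) (nat_lit 37880864009) (nat_lit 3) (nat_lit 4) (nat_lit 4) (nat_lit 5) (nat_lit 4) (nat_lit 4) (nat_lit 361) (nat_lit 236) (nat_lit 183))) (XT.nd (nat_lit 78) (nat_lit 0) (nat_lit 0) (XT.lf (nat_lit 0) (nat_lit 99210500983) (nat_lit 76) (nat_lit 44622950412) (nat_lit 76) (nat_lit 37611460481) (nat_lit 3) (nat_lit 4) (nat_lit 4) (nat_lit 5) (nat_lit 4) (nat_lit 4) (nat_lit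 362) (nat_lit 236) (nat_lit 182)) (XT.nd (nat_lit 78) (nat_lit 0) (nat_lit 0) (XT.lf (nat_lit 0) (nat_lit 108670040991) (nat_lit 76) (nat_lit 44381396303) (nat_lit 76) (nat_lit 37344101572) (nat_lit 3) (nat_lit 4) (nat_lit 4) (nat_lit 5) (nat_lit 4) (nat_lit 4) (nat_lit 363) (nat_lit 236) (nat_lit 181)) (XT.lf (nat_lit 0) (nat_lit 118576236577) (nat_lit 76) (nat_lit 44140021445) (nat_lit 76) (nat_lit 37078150713) (nat_lit 3) (nat_lit 4) (nat_lit 4) (nat_lit 5) (nat_lit 4) (nat_lit 4) (nat_lit 364) (nat_lit 236) (nat_lit 180))))) (XT.nd (nat_lit 156) (nat_lit 0) (nat_lit 0) (XT.nd (nat_lit 78) (nat_lit 0) (nat_lit 0) (XT.lf (nat_lit 0) (nat_lit 128952673920) (nat_lit 76) (nat_lit 43898251135) (nat_lit 76) (nat_lit 36812974688) (nat_lit 3) (nat_lit 4) (nat_lit 4) (nat_lit 5) (nat_lit 4) (nat_lit 4) (nat_lit 365) (nat_lit 236) (nat_lit 179)) (XT.lf (nat_lit 0) (nat_lit 139824058822) (nat_lit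 76) (nat_lit 43655509730) (nat_lit 76) (nat_lit 36547942126) (nat_lit 3) (nat_lit 4) (nat_lit 4) (nat_lit 5) (nat_lit 4) (nat_lit 4) (nat_lit 366) (nat_lit 236) (nat_lit 178))) (XT.nd (nat_lit 78) (nat_lit 0) (nat_lit 0) (XT.lf (nat_lit 0) (nat_lit 151216275535) (nat_lit 76) (nat_lit 43411219273) (nat_lit 76) (nat_lit 36282421996) (nat_lit 3) (nat_lit 4) (nat_lit 4) (nat_lit 5) (nat_lit 4) (nat_lit 4) (nat_lit 367) (nat_lit 236) (nat_lit 177)) (XT.nd (nat_lit 78) (nat_lit 0) (nat_lit 0) (XT.lf (nat_lit 0) (nat_lit 163156448383) (nat_lit 76) (nat_lit 43164798121) (nat_lit 76) (nat_lit 36015782108) (nat_lit 3) (nat_lit 4) (nat_lit 4) (nat_lit 5) (nat_lit 4) (nat_lit 4) (nat_lit 368) (nat_lit 236) (nat_lit 176)) (XT.lf (nat_lit 0) (nat_lit 175673006350) (nat_lit 76) (nat_lit 42915659557) (nat_lit 76) (nat_lit 35747387604) (nat_lit 3) (nat_lit 4) (nat_lit 4) (nat_lit 5) (nat_lit 4) (nat_lit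 4) (nat_lit 369) (nat_lit 236) (nat_lit 175))))))))
noncomputable def xc44 : XT := (XT.nd (nat_lit 1482) (nat_lit 0) (nat_lit 0) (XT.nd (nat_lit 702) (nat_lit 0) (nat_lit 0) (XT.nd (nat_lit 312) (nat_lit 0) (nat_lit 0) (XT.nd (nat_lit 156) (nat_lit 0) (nat_lit 0) (XT.nd (nat_lit 78) (nat_lit 0) (nat_lit 0) (XT.lf (nat_lit 0) (nat_lit 188795750764) (nat_lit 76) (nat_lit 42663210394) (nat_lit 76) (nat_lit 35476599451) (nat_lit 3) (nat_lit 4) (nat_lit 4) (nat_lit 5) (nat_lit 4) (nat_lit 4) (nat_lit 370) (nat_lit 236) (nat_lit 174)) (XT.lf (nat_lit 0) (nat_lit 202555926254) (nat_lit 76) (nat_lit 42406849562) (nat_lit 76) (nat_lit 35202772914) (nat_lit 3) (nat_lit 4) (nat_lit 4) (nat_lit 5) (nat_lit 4) (nat_lit 4) (nat_lit 371) (nat_lit 236) (nat_lit 173))) (XT.nd (nat_lit 78) (nat_lit 0) (nat_lit 0) (XT.lf (nat_lit 0) (nat_lit 216986295143) (nat_lit 76) (nat_lit 42145966679) (nat_lit 76)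 (nat_lit 34925256026) (nat_lit 3) (nat_lit 4) (nat_lit 4) (nat_lit 5) (nat_lit 4) (nat_lit 4) (nat_lit 372) (nat_lit 236) (nat_lit 172)) (XT.lf (nat_lit 0) (nat_lit 232121215453) (nat_lit 76) (nat_lit 41879940594) (nat_lit 76) (nat_lit 34643388033) (nat_lit 3) (nat_lit 4) (nat_lit 4) (nat_lit 5) (nat_lit 4) (nat_lit 4) (nat_lit 373) (nat_lit 236) (nat_lit 171)))) (XT.nd (nat_lit 156) (nat_lit 0) (nat_lit 0) (XT.nd (nat_lit 78) (nat_lit 0) (nat_lit 0) (XT.lf (nat_lit 0) (nat_lit 247996722707) (nat_lit 76) (nat_lit 41608137913) (nat_lit 76) (nat_lit 34356497819) (nat_lit 3) (nat_lit 4) (nat_lit 4) (nat_lit 5) (nat_lit 4) (nat_lit 4) (nat_lit 374) (nat_lit 236) (nat_lit 170)) (XT.lf (nat_lit 0) (nat_lit 264650615733) (nat_lit 76) (nat_lit 41329911485) (nat_lit 76) (nat_lit 34063902313) (nat_lit 3) (nat_lit 4) (nat_lit 4) (nat_lit 5) (nat_lit 4) (nat_lit 4) (nat_lit 375) (nat_lit 236) (nat_lit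 169))) (XT.nd (nat_lit 78) (nat_lit 0) (nat_lit 0) (XT.lf (nat_lit 0) (nat_lit 282122546657) (nat_lit 76) (nat_lit 41044598868) (nat_lit 76) (nat_lit 33764904859) (nat_lit 3) (nat_lit 4) (nat_lit 4) (nat_lit 5) (nat_lit 4) (nat_lit 4) (nat_lit 376) (nat_lit 236) (nat_lit 168)) (XT.nd (nat_lit 78) (nat_lit 0) (nat_lit 0) (XT.lf (nat_lit 0) (nat_lit 300454115314) (nat_lit 76) (nat_lit 40751520745) (nat_lit 76) (nat_lit 33458793558) (nat_lit 3) (nat_lit 4) (nat_lit 4) (nat_lit 5) (nat_lit 4) (nat_lit 4) (nat_lit 377) (nat_lit 236) (nat_lit 167)) (XT.lf (nat_lit 0) (nat_lit 319688968297) (nat_lit 76) (nat_lit 40449979311) (nat_lit 76) (nat_lit 33144839574) (nat_lit 3) (nat_lit 4) (nat_lit 4) (nat_lit 5) (nat_lit 4) (nat_lit 4) (nat_lit 378) (nat_lit 236) (nat_lit 166)))))) (XT.nd (nat_lit 390) (nat_lit 0) (nat_lit 0) (XT.nd (nat_lit 156) (nat_lit 0) (nat_lit 0) (XT.nd (nat_lit 78) (nat_lit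 0) (nat_lit 0) (XT.lf (nat_lit 0) (nat_lit 339872902874) (nat_lit 76) (nat_lit 40139256611) (nat_lit 76) (nat_lit 32822295398) (nat_lit 3) (nat_lit 4) (nat_lit 4) (nat_lit 5) (nat_lit 4) (nat_lit 4) (nat_lit 379) (nat_lit 236) (nat_lit 165)) (XT.lf (nat_lit 0) (nat_lit 361053976032) (nat_lit 76) (nat_lit 39818612829) (nat_lit 76) (nat_lit 32490393066) (nat_lit 3) (nat_lit 4) (nat_lit 4) (nat_lit 5) (nat_lit 4) (nat_lit 4) (nat_lit 380) (nat_lit 236) (nat_lit 164))) (XT.nd (nat_lit 78) (nat_lit 0) (nat_lit 0) (XT.lf (nat_lit 0) (nat_lit 383282618899) (nat_lit 76) (nat_lit 39487284527) (nat_lit 76) (nat_lit 32148342336) (nat_lit 3) (nat_lit 4) (nat_lit 4) (nat_lit 5) (nat_lit 4) (nat_lit 4) (nat_lit 381) (nat_lit 236) (nat_lit 163)) (XT.nd (nat_lit 78) (nat_lit 0) (nat_lit 0) (XT.lf (nat_lit 0) (nat_lit 406611756814) (nat_lit 76) (nat_lit 39144482827) (nat_lit 76) (nat_lit 31795328801)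 (nat_lit 3) (nat_lit 4) (nat_lit 4) (nat_lit 5) (nat_lit 4) (nat_lit 4) (nat_lit 382) (nat_lit 236) (nat_lit 162)) (XT.lf (nat_lit 0) (nat_lit 431096935344) (nat_lit 76) (nat_lit 38789391537) (nat_lit 76) (nat_lit 31430511953) (nat_lit 3) (nat_lit 4) (nat_lit 4) (nat_lit 5) (nat_lit 4) (nat_lit 4) (nat_lit 383) (nat_lit 236) (nat_lit 161))))) (XT.nd (nat_lit 156) (nat_lit 0) (nat_lit 0) (XT.nd (nat_lit 78) (nat_lit 0) (nat_lit 0) (XT.lf (nat_lit 0) (nat_lit 456796452533) (nat_lit 76) (nat_lit 38421165199) (nat_lit 76) (nat_lit 31053023179) (nat_lit 3) (nat_lit 4) (nat_lit 4) (nat_lit 5) (nat_lit 4) (nat_lit 4) (nat_lit 384) (nat_lit 236) (nat_lit 160)) (XT.lf (nat_lit 0) (nat_lit 483771497707) (nat_lit 76) (nat_lit 38038927085) (nat_lit 76) (nat_lit 30661963697) (nat_lit 3) (nat_lit 4) (nat_lit 4) (nat_lit 5) (nat_lit 4) (nat_lit 4) (nat_lit 385) (nat_lit 236) (nat_lit 159))) (XT.nd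 (nat_lit 78) (nat_lit 0) (nat_lit 0) (XT.lf (nat_lit 0) (nat_lit 512086297164) (nat_lit 76) (nat_lit 37641767105) (nat_lit 76) (nat_lit 30256402414) (nat_lit 3) (nat_lit 4) (nat_lit 4) (nat_lit 5) (nat_lit 4) (nat_lit 4) (nat_lit 386) (nat_lit 236) (nat_lit 158)) (XT.nd (nat_lit 78) (nat_lit 0) (nat_lit 0) (XT.lf (nat_lit 0) (nat_lit 541808267095) (nat_lit 76) (nat_lit 37228739638) (nat_lit 76) (nat_lit 29835373707) (nat_lit 3) (nat_lit 4) (nat_lit 4) (nat_lit 5) (nat_lit 4) (nat_lit 4) (nat_lit 387) (nat_lit 236) (nat_lit 157)) (XT.lf (nat_lit 0) (nat_lit 573008174093) (nat_lit 76) (nat_lit 36798861286) (nat_lit 76) (nat_lit 29397875126) (nat_lit 3) (nat_lit 4) (nat_lit 4) (nat_lit 5) (nat_lit 4) (nat_lit 4) (nat_lit 388) (nat_lit 236) (nat_lit 156))))))) (XT.nd (nat_lit 34866) (nat_lit 0) (nat_lit 304) (XT.nd (nat_lit 34476) (nat_lit 0) (nat_lit 684) (XT.nd (nat_lit 34242) (nat_lit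 0) (nat_lit 912) (XT.nd (nat_lit 34164) (nat_lit 0) (nat_lit 1064) (XT.lf (nat_lit 0) (nat_lit 605760303651) (nat_lit 76) (nat_lit 36351108530) (nat_lit 76) (nat_lit 28942865009) (nat_lit 3) (nat_lit 4) (nat_lit 4) (nat_lit 5) (nat_lit 4) (nat_lit 4) (nat_lit 389) (nat_lit 236) (nat_lit 155)) (XT.lf (nat_lit 0) (nat_lit 1068637057) (nat_lit 152) (nat_lit 5526322573) (nat_lit 0) (nat_lit 1068637057) (nat_lit 17) (nat_lit 5) (nat_lit 19) (nat_lit 4) (nat_lit 17) (nat_lit 4) (nat_lit 306) (nat_lit 237) (nat_lit 237))) (XT.nd (nat_lit 78) (nat_lit 152) (nat_lit 0) (XT.lf (nat_lit 0) (nat_lit 6249637978) (nat_lit 152) (nat_lit 3824269641) (nat_lit 0) (nat_lit 5790578295) (nat_lit 17) (nat_lit 5) (nat_lit 19) (nat_lit 4) (nat_lit 17) (nat_lit 4) (nat_lit 307) (nat_lit 237) (nat_lit 236)) (XT.nd (nat_lit 78) (nat_lit 0) (nat_lit 0) (XT.lf (nat_lit 0) (nat_lit 3636904235) (nat_lit 152) (nat_lit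 6846186220) (nat_lit 152) (nat_lit 5949926839) (nat_lit 15) (nat_lit 4) (nat_lit 17) (nat_lit 5) (nat_lit 17) (nat_lit 4) (nat_lit 308) (nat_lit 237) (nat_lit 235)) (XT.lf (nat_lit 0) (nat_lit 11362834758) (nat_lit 152) (nat_lit 3491800132) (nat_lit 152) (nat_lit 2179160086) (nat_lit 15) (nat_lit 4) (nat_lit 17) (nat_lit 5) (nat_lit 17) (nat_lit 4) (nat_lit 309) (nat_lit 237) (nat_lit 234))))) (XT.nd (nat_lit 156) (nat_lit 76) (nat_lit 0) (XT.nd (nat_lit 78) (nat_lit 0) (nat_lit 0) (XT.lf (nat_lit 0) (nat_lit 1599705486) (nat_lit 76) (nat_lit 14391365) (nat_lit 152) (nat_lit 16054706277) (nat_lit 13) (nat_lit 5) (nat_lit 14) (nat_lit 5) (nat_lit 15) (nat_lit 4) (nat_lit 310) (nat_lit 237) (nat_lit 233)) (XT.lf (nat_lit 0) (nat_lit 5545370185) (nat_lit 152) (nat_lit 9229565469) (nat_lit 0) (nat_lit 3557881998) (nat_lit 13) (nat_lit 5) (nat_lit 15) (nat_lit 4) (nat_lit 13) (nat_lit 4)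 (nat_lit 311) (nat_lit 237) (nat_lit 232))) (XT.nd (nat_lit 78) (nat_lit 76) (nat_lit 0) (XT.lf (nat_lit 0) (nat_lit 9546958078) (nat_lit 152) (nat_lit 2272590547) (nat_lit 0) (nat_lit 7216912487) (nat_lit 13) (nat_lit 5) (nat_lit 15) (nat_lit 4) (nat_lit 13) (nat_lit 4) (nat_lit 312) (nat_lit 237) (nat_lit 231)) (XT.nd (nat_lit 78) (nat_lit 0) (nat_lit 0) (XT.lf (nat_lit 0) (nat_lit 4977941248) (nat_lit 76) (nat_lit 8727941796) (nat_lit 76) (nat_lit 6071651060) (nat_lit 12) (nat_lit 4) (nat_lit 13) (nat_lit 5) (nat_lit 13) (nat_lit 4) (nat_lit 313) (nat_lit 237) (nat_lit 230)) (XT.lf (nat_lit 0) (nat_lit 12459727201) (nat_lit 76) (nat_lit 5533507458) (nat_lit 76) (nat_lit 2566507058) (nat_lit 12) (nat_lit 4) (nat_lit 13) (nat_lit 5) (nat_lit 13) (nat_lit 4) (nat_lit 314) (nat_lit 237) (nat_lit 229)))))) (XT.nd (nat_lit 390) (nat_lit 152) (nat_lit 0) (XT.nd (nat_lit 156) (nat_lit 76)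 (nat_lit 0) (XT.nd (nat_lit 78) (nat_lit 76) (nat_lit 0) (XT.lf (nat_lit 0) (nat_lit 963915721) (nat_lit 152) (nat_lit 1286887134) (nat_lit 76) (nat_lit 19135198879) (nat_lit 11) (nat_lit 5) (nat_lit 13) (nat_lit 5) (nat_lit 12) (nat_lit 4) (nat_lit 315) (nat_lit 237) (nat_lit 228)) (XT.lf (nat_lit 0) (nat_lit 4586058004) (nat_lit 152) (nat_lit 16455313433) (nat_lit 0) (nat_lit 1210117826) (nat_lit 10) (nat_lit 5) (nat_lit 12) (nat_lit 4) (nat_lit 10) (nat_lit 4) (nat_lit 316) (nat_lit 237) (nat_lit 227))) (XT.nd (nat_lit 78) (nat_lit 76) (nat_lit 0) (XT.lf (nat_lit 0) (nat_lit 8340354962) (nat_lit 152) (nat_lit 10113637032) (nat_lit 0) (nat_lit 4708793175) (nat_lit 10) (nat_lit 5) (nat_lit 12) (nat_lit 4) (nat_lit 10) (nat_lit 4) (nat_lit 317) (nat_lit 237) (nat_lit 226)) (XT.nd (nat_lit 78) (nat_lit 76) (nat_lit 0) (XT.lf (nat_lit 0) (nat_lit 12179507545) (nat_lit 152) (nat_lit 3640866943)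 (nat_lit 0) (nat_lit 8304496607) (nat_lit 10) (nat_lit 5) (nat_lit 12) (nat_lit 4) (nat_lit 10) (nat_lit 4) (nat_lit 318) (nat_lit 237) (nat_lit 225)) (XT.lf (nat_lit 0) (nat_lit 3076887817) (nat_lit 76) (nat_lit 13083807618) (nat_lit 76) (nat_lit 8976940345) (nat_lit 9) (nat_lit 4) (nat_lit 10) (nat_lit 5) (nat_lit 10) (nat_lit 4) (nat_lit 319) (nat_lit 237) (nat_lit 224))))) (XT.nd (nat_lit 156) (nat_lit 152) (nat_lit 0) (XT.nd (nat_lit 78) (nat_lit 0) (nat_lit 0) (XT.lf (nat_lit 0) (nat_lit 10082656528) (nat_lit 76) (nat_lit 10223928745) (nat_lit 76) (nat_lit 5896245916) (nat_lit 9) (nat_lit 4) (nat_lit 10) (nat_lit 5) (nat_lit 10) (nat_lit 4) (nat_lit 320) (nat_lit 237) (nat_lit 223)) (XT.lf (nat_lit 0) (nat_lit 17272736087) (nat_lit 76) (nat_lit 7295588477) (nat_lit 76) (nat_lit 2757605118) (nat_lit 9) (nat_lit 4) (nat_lit 10) (nat_lit 5) (nat_lit 10) (nat_lit 4) (nat_lit 321)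 (nat_lit 237) (nat_lit 222))) (XT.nd (nat_lit 78) (nat_lit 76) (nat_lit 0) (XT.lf (nat_lit 0) (nat_lit 432165652) (nat_lit 152) (nat_lit 3852329990) (nat_lit 76) (nat_lit 24224761143) (nat_lit 8) (nat_lit 5) (nat_lit 10) (nat_lit 5) (nat_lit 9) (nat_lit 4) (nat_lit 322) (nat_lit 237) (nat_lit 221)) (XT.nd (nat_lit 78) (nat_lit 0) (nat_lit 0) (XT.lf (nat_lit 0) (nat_lit 2541310506) (nat_lit 76) (nat_lit 1102752354) (nat_lit 152) (nat_lit 26107722862) (nat_lit 7) (nat_lit 5) (nat_lit 8) (nat_lit 5) (nat_lit 9) (nat_lit 4) (nat_lit 323) (nat_lit 237) (nat_lit 220)) (XT.lf (nat_lit 0) (nat_lit 7034038712) (nat_lit 152) (nat_lit 21854865921) (nat_lit 0) (nat_lit 2166720747) (nat_lit 7) (nat_lit 5) (nat_lit 9) (nat_lit 4) (nat_lit 7) (nat_lit 4) (nat_lit 324) (nat_lit 237) (nat_lit 219))))))))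
noncomputable def xc45 : XT := (XT.nd (nat_lit 1482) (nat_lit 76) (nat_lit 0) (XT.nd (nat_lit 702) (nat_lit 152) (nat_lit 0) (XT.nd (nat_lit 312) (nat_lit 0) (nat_lit 0) (XT.nd (nat_lit 156) (nat_lit 76) (nat_lit 0) (XT.nd (nat_lit 78) (nat_lit 0) (nat_lit 0) (XT.lf (nat_lit 0) (nat_lit 10531810799) (nat_lit 152) (nat_lit 16396270163) (nat_lit 0) (nat_lit 5499716867) (nat_lit 7) (nat_lit 5) (nat_lit 9) (nat_lit 4) (nat_lit 7) (nat_lit 4) (nat_lit 325) (nat_lit 237) (nat_lit 218)) (XT.lf (nat_lit 0) (nat_lit 14128490097) (nat_lit 152) (nat_lit 10804474229) (nat_lit 0) (nat_lit 8939466671) (nat_lit 7) (nat_lit 5) (nat_lit 9) (nat_lit 4) (nat_lit 7) (nat_lit 4) (nat_lit 326) (nat_lit 237) (nat_lit 217))) (XT.nd (nat_lit 78) (nat_lit 76) (nat_lit 0) (XT.lf (nat_lit 0) (nat_lit 17832640128) (nat_lit 152) (nat_lit 5066164321) (nat_lit 0) (nat_lit 12494160042) (nat_lit 7) (nat_lit 5) (nat_lit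 9) (nat_lit 4) (nat_lit 7) (nat_lit 4) (nat_lit 327) (nat_lit 237) (nat_lit 216)) (XT.lf (nat_lit 0) (nat_lit 859842535) (nat_lit 76) (nat_lit 20806662313) (nat_lit 76) (nat_lit 15325842550) (nat_lit 6) (nat_lit 4) (nat_lit 7) (nat_lit 5) (nat_lit 7) (nat_lit 4) (nat_lit 328) (nat_lit 237) (nat_lit 215)))) (XT.nd (nat_lit 156) (nat_lit 0) (nat_lit 0) (XT.nd (nat_lit 78) (nat_lit 0) (nat_lit 0) (XT.lf (nat_lit 0) (nat_lit 7133340817) (nat_lit 76) (nat_lit 18576937511) (nat_lit 76) (nat_lit 12960556152) (nat_lit 6) (nat_lit 4) (nat_lit 7) (nat_lit 5) (nat_lit 7) (nat_lit 4) (nat_lit 329) (nat_lit 237) (nat_lit 214)) (XT.lf (nat_lit 0) (nat_lit 13601757154) (nat_lit 76) (nat_lit 16290119121) (nat_lit 76) (nat_lit 10544631479) (nat_lit 6) (nat_lit 4) (nat_lit 7) (nat_lit 5) (nat_lit 7) (nat_lit 4) (nat_lit 330) (nat_lit 237) (nat_lit 213))) (XT.nd (nat_lit 78) (nat_lit 0) (nat_lit 0) (XT.lf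 (nat_lit 0) (nat_lit 20280492538) (nat_lit 76) (nat_lit 13940762337) (nat_lit 76) (nat_lit 8072316330) (nat_lit 6) (nat_lit 4) (nat_lit 7) (nat_lit 5) (nat_lit 7) (nat_lit 4) (nat_lit 331) (nat_lit 237) (nat_lit 212)) (XT.nd (nat_lit 78) (nat_lit 0) (nat_lit 0) (XT.lf (nat_lit 0) (nat_lit 27185448717) (nat_lit 76) (nat_lit 11523273451) (nat_lit 76) (nat_lit 5537724240) (nat_lit 6) (nat_lit 4) (nat_lit 7) (nat_lit 5) (nat_lit 7) (nat_lit 4) (nat_lit 332) (nat_lit 237) (nat_lit 211)) (XT.lf (nat_lit 0) (nat_lit 34333066066) (nat_lit 76) (nat_lit 9031896538) (nat_lit 76) (nat_lit 2934820466) (nat_lit 6) (nat_lit 4) (nat_lit 7) (nat_lit 5) (nat_lit 7) (nat_lit 4) (nat_lit 333) (nat_lit 237) (nat_lit 210)))))) (XT.nd (nat_lit 390) (nat_lit 0) (nat_lit 0) (XT.nd (nat_lit 156) (nat_lit 76) (nat_lit 0) (XT.nd (nat_lit 78) (nat_lit 76) (nat_lit 0) (XT.lf (nat_lit 0) (nat_lit 41740362720) (nat_lit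 76) (nat_lit 6460699748) (nat_lit 76) (nat_lit 257407618) (nat_lit 6) (nat_lit 4) (nat_lit 7) (nat_lit 5) (nat_lit 7) (nat_lit 4) (nat_lit 334) (nat_lit 237) (nat_lit 209)) (XT.lf (nat_lit 0) (nat_lit 2420845026) (nat_lit 152) (nat_lit 1341717977) (nat_lit 76) (nat_lit 46963131891) (nat_lit 5) (nat_lit 5) (nat_lit 7) (nat_lit 5) (nat_lit 6) (nat_lit 4) (nat_lit 335) (nat_lit 237) (nat_lit 208))) (XT.nd (nat_lit 78) (nat_lit 0) (nat_lit 0) (XT.lf (nat_lit 0) (nat_lit 4348175504) (nat_lit 76) (nat_lit 895222974) (nat_lit 152) (nat_lit 47861750541) (nat_lit 4) (nat_lit 5) (nat_lit 5) (nat_lit 5) (nat_lit 6) (nat_lit 4) (nat_lit 336) (nat_lit 237) (nat_lit 207)) (XT.nd (nat_lit 78) (nat_lit 0) (nat_lit 0) (XT.lf (nat_lit 0) (nat_lit 8214655948) (nat_lit 152) (nat_lit 45357290666) (nat_lit 0) (nat_lit 2031279946) (nat_lit 4) (nat_lit 5) (nat_lit 6) (nat_lit 4) (nat_lit 4) (nat_lit 4) (nat_lit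 337) (nat_lit 237) (nat_lit 206)) (XT.lf (nat_lit 0) (nat_lit 11302916424) (nat_lit 152) (nat_lit 41888580309) (nat_lit 0) (nat_lit 5036317362) (nat_lit 4) (nat_lit 5) (nat_lit 6) (nat_lit 4) (nat_lit 4) (nat_lit 4) (nat_lit 338) (nat_lit 237) (nat_lit 205))))) (XT.nd (nat_lit 156) (nat_lit 0) (nat_lit 0) (XT.nd (nat_lit 78) (nat_lit 0) (nat_lit 0) (XT.lf (nat_lit 0) (nat_lit 14501555969) (nat_lit 152) (nat_lit 38328606669) (nat_lit 0) (nat_lit 8155696848) (nat_lit 4) (nat_lit 5) (nat_lit 6) (nat_lit 4) (nat_lit 4) (nat_lit 4) (nat_lit 339) (nat_lit 237) (nat_lit 204)) (XT.lf (nat_lit 0) (nat_lit 17818190390) (nat_lit 152) (nat_lit 34668893620) (nat_lit 0) (nat_lit 11396845500) (nat_lit 4) (nat_lit 5) (nat_lit 6) (nat_lit 4) (nat_lit 4) (nat_lit 4) (nat_lit 340) (nat_lit 237) (nat_lit 203))) (XT.nd (nat_lit 78) (nat_lit 0) (nat_lit 0) (XT.lf (nat_lit 0) (nat_lit 21260716436) (nat_lit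 152) (nat_lit 30900727559) (nat_lit 0) (nat_lit 14767480337) (nat_lit 4) (nat_lit 5) (nat_lit 6) (nat_lit 4) (nat_lit 4) (nat_lit 4) (nat_lit 341) (nat_lit 237) (nat_lit 202)) (XT.nd (nat_lit 78) (nat_lit 0) (nat_lit 0) (XT.lf (nat_lit 0) (nat_lit 24837330599) (nat_lit 152) (nat_lit 27015136661) (nat_lit 0) (nat_lit 18275626682) (nat_lit 4) (nat_lit 5) (nat_lit 6) (nat_lit 4) (nat_lit 4) (nat_lit 4) (nat_lit 342) (nat_lit 237) (nat_lit 201)) (XT.lf (nat_lit 0) (nat_lit 28556548625) (nat_lit 152) (nat_lit 23002869521) (nat_lit 0) (nat_lit 21929637262) (nat_lit 4) (nat_lit 5) (nat_lit 6) (nat_lit 4) (nat_lit 4) (nat_lit 4) (nat_lit 343) (nat_lit 237) (nat_lit 200))))))) (XT.nd (nat_lit 780) (nat_lit 0) (nat_lit 0) (XT.nd (nat_lit 390) (nat_lit 76) (nat_lit 0) (XT.nd (nat_lit 156) (nat_lit 0) (nat_lit 0) (XT.nd (nat_lit 78) (nat_lit 0) (nat_lit 0) (XT.lf (nat_lit 0) (nat_lit 32427225797)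 (nat_lit 152) (nat_lit 18854373120) (nat_lit 0) (nat_lit 25738212104) (nat_lit 4) (nat_lit 5) (nat_lit 6) (nat_lit 4) (nat_lit 4) (nat_lit 4) (nat_lit 344) (nat_lit 237) (nat_lit 199)) (XT.lf (nat_lit 0) (nat_lit 36458578011) (nat_lit 152) (nat_lit 14559770087) (nat_lit 0) (nat_lit 29710419243) (nat_lit 4) (nat_lit 5) (nat_lit 6) (nat_lit 4) (nat_lit 4) (nat_lit 4) (nat_lit 345) (nat_lit 237) (nat_lit 198))) (XT.nd (nat_lit 78) (nat_lit 0) (nat_lit 0) (XT.lf (nat_lit 0) (nat_lit 40660203726) (nat_lit 152) (nat_lit 10108835176) (nat_lit 0) (nat_lit 33855716315) (nat_lit 4) (nat_lit 5) (nat_lit 6) (nat_lit 4) (nat_lit 4) (nat_lit 4) (nat_lit 346) (nat_lit 237) (nat_lit 197)) (XT.nd (nat_lit 78) (nat_lit 0) (nat_lit 0) (XT.lf (nat_lit 0) (nat_lit 45042106812) (nat_lit 152) (nat_lit 5490970923) (nat_lit 0) (nat_lit 38183973074) (nat_lit 4) (nat_lit 5) (nat_lit 6) (nat_lit 4) (nat_lit 4)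 (nat_lit 4) (nat_lit 347) (nat_lit 237) (nat_lit 196)) (XT.lf (nat_lit 0) (nat_lit 49614720373) (nat_lit 152) (nat_lit 695182413) (nat_lit 0) (nat_lit 42705494894) (nat_lit 4) (nat_lit 5) (nat_lit 6) (nat_lit 4) (nat_lit 4) (nat_lit 4) (nat_lit 348) (nat_lit 237) (nat_lit 195))))) (XT.nd (nat_lit 156) (nat_lit 0) (nat_lit 0) (XT.nd (nat_lit 78) (nat_lit 0) (nat_lit 0) (XT.lf (nat_lit 0) (nat_lit 4431793981) (nat_lit 76) (nat_lit 50026330325) (nat_lit 76) (nat_lit 43068446046) (nat_lit 3) (nat_lit 4) (nat_lit 4) (nat_lit 5) (nat_lit 4) (nat_lit 4) (nat_lit 349) (nat_lit 237) (nat_lit 194)) (XT.lf (nat_lit 0) (nat_lit 9789621390) (nat_lit 76) (nat_lit 49739329645) (nat_lit 76) (nat_lit 42735103652) (nat_lit 3) (nat_lit 4) (nat_lit 4) (nat_lit 5) (nat_lit 4) (nat_lit 4) (nat_lit 350) (nat_lit 237) (nat_lit 193))) (XT.nd (nat_lit 78) (nat_lit 0) (nat_lit 0) (XT.lf (nat_lit 0) (nat_lit 15368070675)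 (nat_lit 76) (nat_lit 49459990662) (nat_lit 76) (nat_lit 42411629703) (nat_lit 3) (nat_lit 4) (nat_lit 4) (nat_lit 5) (nat_lit 4) (nat_lit 4) (nat_lit 351) (nat_lit 237) (nat_lit 192)) (XT.nd (nat_lit 78) (nat_lit 0) (nat_lit 0) (XT.lf (nat_lit 0) (nat_lit 21180423858) (nat_lit 76) (nat_lit 49187648284) (nat_lit 76) (nat_lit 42097254024) (nat_lit 3) (nat_lit 4) (nat_lit 4) (nat_lit 5) (nat_lit 4) (nat_lit 4) (nat_lit 352) (nat_lit 237) (nat_lit 191)) (XT.lf (nat_lit 0) (nat_lit 27240519875) (nat_lit 76) (nat_lit 48921654076) (nat_lit 76) (nat_lit 41791228101) (nat_lit 3) (nat_lit 4) (nat_lit 4) (nat_lit 5) (nat_lit 4) (nat_lit 4) (nat_lit 353) (nat_lit 237) (nat_lit 190)))))) (XT.nd (nat_lit 390) (nat_lit 0) (nat_lit 0) (XT.nd (nat_lit 156) (nat_lit 0) (nat_lit 0) (XT.nd (nat_lit 78) (nat_lit 0) (nat_lit 0) (XT.lf (nat_lit 0) (nat_lit 33562787526) (nat_lit 76) (nat_lit 48661374719)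 (nat_lit 76) (nat_lit 41492823301) (nat_lit 3) (nat_lit 4) (nat_lit 4) (nat_lit 5) (nat_lit 4) (nat_lit 4) (nat_lit 354) (nat_lit 237) (nat_lit 189)) (XT.lf (nat_lit 0) (nat_lit 40162279829) (nat_lit 76) (nat_lit 48406190500) (nat_lit 76) (nat_lit 41201329136) (nat_lit 3) (nat_lit 4) (nat_lit 4) (nat_lit 5) (nat_lit 4) (nat_lit 4) (nat_lit 355) (nat_lit 237) (nat_lit 188))) (XT.nd (nat_lit 78) (nat_lit 0) (nat_lit 0) (XT.lf (nat_lit 0) (nat_lit 47054709861) (nat_lit 76) (nat_lit 48155493837) (nat_lit 76) (nat_lit 40916051573) (nat_lit 3) (nat_lit 4) (nat_lit 4) (nat_lit 5) (nat_lit 4) (nat_lit 4) (nat_lit 356) (nat_lit 237) (nat_lit 187)) (XT.nd (nat_lit 78) (nat_lit 0) (nat_lit 0) (XT.lf (nat_lit 0) (nat_lit 54256488171) (nat_lit 76) (nat_lit 47908687834) (nat_lit 76) (nat_lit 40636311378) (nat_lit 3) (nat_lit 4) (nat_lit 4) (nat_lit 5) (nat_lit 4) (nat_lit 4) (nat_lit 357) (nat_lit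 237) (nat_lit 186)) (XT.lf (nat_lit 0) (nat_lit 61784761848) (nat_lit 76) (nat_lit 47665184858) (nat_lit 76) (nat_lit 40361442505) (nat_lit 3) (nat_lit 4) (nat_lit 4) (nat_lit 5) (nat_lit 4) (nat_lit 4) (nat_lit 358) (nat_lit 237) (nat_lit 185))))) (XT.nd (nat_lit 156) (nat_lit 0) (nat_lit 0) (XT.nd (nat_lit 78) (nat_lit 0) (nat_lit 0) (XT.lf (nat_lit 0) (nat_lit 69657455355) (nat_lit 76) (nat_lit 47424405138) (nat_lit 76) (nat_lit 40090790503) (nat_lit 3) (nat_lit 4) (nat_lit 4) (nat_lit 5) (nat_lit 4) (nat_lit 4) (nat_lit 359) (nat_lit 237) (nat_lit 184)) (XT.lf (nat_lit 0) (nat_lit 77893313199) (nat_lit 76) (nat_lit 47185775391) (nat_lit 76) (nat_lit 39823710964) (nat_lit 3) (nat_lit 4) (nat_lit 4) (nat_lit 5) (nat_lit 4) (nat_lit 4) (nat_lit 360) (nat_lit 237) (nat_lit 183))) (XT.nd (nat_lit 78) (nat_lit 0) (nat_lit 0) (XT.lf (nat_lit 0) (nat_lit 86511944566) (nat_lit 76) (nat_lit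 46948727450) (nat_lit 76) (nat_lit 39559567982) (nat_lit 3) (nat_lit 4) (nat_lit 4) (nat_lit 5) (nat_lit 4) (nat_lit 4) (nat_lit 361) (nat_lit 237) (nat_lit 182)) (XT.nd (nat_lit 78) (nat_lit 0) (nat_lit 0) (XT.lf (nat_lit 0) (nat_lit 95533870008) (nat_lit 76) (nat_lit 46712696916) (nat_lit 76) (nat_lit 39297732647) (nat_lit 3) (nat_lit 4) (nat_lit 4) (nat_lit 5) (nat_lit 4) (nat_lit 4) (nat_lit 362) (nat_lit 237) (nat_lit 181)) (XT.lf (nat_lit 0) (nat_lit 104980570297) (nat_lit 76) (nat_lit 46477121810) (nat_lit 76) (nat_lit 39037581541) (nat_lit 3) (nat_lit 4) (nat_lit 4) (nat_lit 5) (nat_lit 4) (nat_lit 4) (nat_lit 363) (nat_lit 237) (nat_lit 180))))))))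
noncomputable def xc46 : XT := (XT.nd (nat_lit 1482) (nat_lit 0) (nat_lit 0) (XT.nd (nat_lit 702) (nat_lit 0) (nat_lit 0) (XT.nd (nat_lit 312) (nat_lit 0) (nat_lit 0) (XT.nd (nat_lit 156) (nat_lit 0) (nat_lit 0) (XT.nd (nat_lit 78) (nat_lit 0) (nat_lit 0) (XT.lf (nat_lit 0) (nat_lit 114874537579) (nat_lit 76) (nat_lit 46241441240) (nat_lit 76) (nat_lit 38778495256) (nat_lit 3) (nat_lit 4) (nat_lit 4) (nat_lit 5) (nat_lit 4) (nat_lit 4) (nat_lit 364) (nat_lit 237) (nat_lit 179)) (XT.lf (nat_lit 0) (nat_lit 125239328918) (nat_lit 76) (nat_lit 46005094062) (nat_lit 76) (nat_lit 38519856921) (nat_lit 3) (nat_lit 4) (nat_lit 4) (nat_lit 5) (nat_lit 4) (nat_lit 4) (nat_lit 365) (nat_lit 237) (nat_lit 178))) (XT.nd (nat_lit 78) (nat_lit 0) (nat_lit 0) (XT.lf (nat_lit 0) (nat_lit 136099622389) (nat_lit 76) (nat_lit 45767517543) (nat_lit 76) (nat_lit 38261050729) (nat_lit 3) (nat_lit 4) (nat_lit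 4) (nat_lit 5) (nat_lit 4) (nat_lit 4) (nat_lit 366) (nat_lit 237) (nat_lit 177)) (XT.lf (nat_lit 0) (nat_lit 147481275834) (nat_lit 76) (nat_lit 45528146027) (nat_lit 76) (nat_lit 38001460476) (nat_lit 3) (nat_lit 4) (nat_lit 4) (nat_lit 5) (nat_lit 4) (nat_lit 4) (nat_lit 367) (nat_lit 237) (nat_lit 176)))) (XT.nd (nat_lit 156) (nat_lit 0) (nat_lit 0) (XT.nd (nat_lit 78) (nat_lit 0) (nat_lit 0) (XT.lf (nat_lit 0) (nat_lit 159411388426) (nat_lit 76) (nat_lit 45286409580) (nat_lit 76) (nat_lit 37740468090) (nat_lit 3) (nat_lit 4) (nat_lit 4) (nat_lit 5) (nat_lit 4) (nat_lit 4) (nat_lit 368) (nat_lit 237) (nat_lit 175)) (XT.lf (nat_lit 0) (nat_lit 171918365197) (nat_lit 76) (nat_lit 45041732640) (nat_lit 76) (nat_lit 37477452160) (nat_lit 3) (nat_lit 4) (nat_lit 4) (nat_lit 5) (nat_lit 4) (nat_lit 4) (nat_lit 369) (nat_lit 237) (nat_lit 174))) (XT.nd (nat_lit 78) (nat_lit 0) (nat_lit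 0) (XT.lf (nat_lit 0) (nat_lit 185031984663) (nat_lit 76) (nat_lit 44793532643) (nat_lit 76) (nat_lit 37211786458) (nat_lit 3) (nat_lit 4) (nat_lit 4) (nat_lit 5) (nat_lit 4) (nat_lit 4) (nat_lit 370) (nat_lit 237) (nat_lit 173)) (XT.nd (nat_lit 78) (nat_lit 0) (nat_lit 0) (XT.lf (nat_lit 0) (nat_lit 198783469726) (nat_lit 76) (nat_lit 44541218635) (nat_lit 76) (nat_lit 36942838446) (nat_lit 3) (nat_lit 4) (nat_lit 4) (nat_lit 5) (nat_lit 4) (nat_lit 4) (nat_lit 371) (nat_lit 237) (nat_lit 172)) (XT.lf (nat_lit 0) (nat_lit 213205562018) (nat_lit 76) (nat_lit 44284189870) (nat_lit 76) (nat_lit 36669967772) (nat_lit 3) (nat_lit 4) (nat_lit 4) (nat_lit 5) (nat_lit 4) (nat_lit 4) (nat_lit 372) (nat_lit 237) (nat_lit 171)))))) (XT.nd (nat_lit 390) (nat_lit 0) (nat_lit 0) (XT.nd (nat_lit 156) (nat_lit 0) (nat_lit 0) (XT.nd (nat_lit 78) (nat_lit 0) (nat_lit 0) (XT.lf (nat_lit 0) (nat_lit 228332599854)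 (nat_lit 76) (nat_lit 44021834375) (nat_lit 76) (nat_lit 36392524744) (nat_lit 3) (nat_lit 4) (nat_lit 4) (nat_lit 5) (nat_lit 4) (nat_lit 4) (nat_lit 373) (nat_lit 237) (nat_lit 170)) (XT.lf (nat_lit 0) (nat_lit 244200599991) (nat_lit 76) (nat_lit 43753527492) (nat_lit 76) (nat_lit 36109848783) (nat_lit 3) (nat_lit 4) (nat_lit 4) (nat_lit 5) (nat_lit 4) (nat_lit 4) (nat_lit 374) (nat_lit 237) (nat_lit 169))) (XT.nd (nat_lit 78) (nat_lit 0) (nat_lit 0) (XT.lf (nat_lit 0) (nat_lit 260847343381) (nat_lit 76) (nat_lit 43478630397) (nat_lit 76) (nat_lit 35821266851) (nat_lit 3) (nat_lit 4) (nat_lit 4) (nat_lit 5) (nat_lit 4) (nat_lit 4) (nat_lit 375) (nat_lit 237) (nat_lit 168)) (XT.nd (nat_lit 78) (nat_lit 0) (nat_lit 0) (XT.lf (nat_lit 0) (nat_lit 278312465128) (nat_lit 76) (nat_lit 43196488573) (nat_lit 76) (nat_lit 35526091849) (nat_lit 3) (nat_lit 4) (nat_lit 4) (nat_lit 5) (nat_lit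 4) (nat_lit 4) (nat_lit 376) (nat_lit 237) (nat_lit 167)) (XT.lf (nat_lit 0) (nat_lit 296637548854) (nat_lit 76) (nat_lit 42906430253) (nat_lit 76) (nat_lit 35223620978) (nat_lit 3) (nat_lit 4) (nat_lit 4) (nat_lit 5) (nat_lit 4) (nat_lit 4) (nat_lit 377) (nat_lit 237) (nat_lit 166))))) (XT.nd (nat_lit 156) (nat_lit 0) (nat_lit 0) (XT.nd (nat_lit 78) (nat_lit 0) (nat_lit 0) (XT.lf (nat_lit 0) (nat_lit 315866225713) (nat_lit 76) (nat_lit 42607764822) (nat_lit 76) (nat_lit 34913134071) (nat_lit 3) (nat_lit 4) (nat_lit 4) (nat_lit 5) (nat_lit 4) (nat_lit 4) (nat_lit 378) (nat_lit 237) (nat_lit 165)) (XT.lf (nat_lit 0) (nat_lit 336044278267) (nat_lit 76) (nat_lit 42299781172) (nat_lit 76) (nat_lit 34593891872) (nat_lit 3) (nat_lit 4) (nat_lit 4) (nat_lit 5) (nat_lit 4) (nat_lit 4) (nat_lit 379) (nat_lit 237) (nat_lit 164))) (XT.nd (nat_lit 78) (nat_lit 0) (nat_lit 0) (XT.lf (nat_lit 0)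 (nat_lit 357219749499) (nat_lit 76) (nat_lit 41981746008) (nat_lit 76) (nat_lit 34265134281) (nat_lit 3) (nat_lit 4) (nat_lit 4) (nat_lit 5) (nat_lit 4) (nat_lit 4) (nat_lit 380) (nat_lit 237) (nat_lit 163)) (XT.nd (nat_lit 78) (nat_lit 0) (nat_lit 0) (XT.lf (nat_lit 0) (nat_lit 379443057197) (nat_lit 76) (nat_lit 41652902105) (nat_lit 76) (nat_lit 33926078542) (nat_lit 3) (nat_lit 4) (nat_lit 4) (nat_lit 5) (nat_lit 4) (nat_lit 4) (nat_lit 381) (nat_lit 237) (nat_lit 162)) (XT.lf (nat_lit 0) (nat_lit 402767114000) (nat_lit 76) (nat_lit 41312466500) (nat_lit 76) (nat_lit 33575917379) (nat_lit 3) (nat_lit 4) (nat_lit 4) (nat_lit 5) (nat_lit 4) (nat_lit 4) (nat_lit 382) (nat_lit 237) (nat_lit 161))))))) (XT.nd (nat_lit 34788) (nat_lit 0) (nat_lit 532) (XT.nd (nat_lit 390) (nat_lit 0) (nat_lit 0) (XT.nd (nat_lit 156) (nat_lit 0) (nat_lit 0) (XT.nd (nat_lit 78) (nat_lit 0) (nat_lit 0) (XT.lf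 (nat_lit 0) (nat_lit 427247453374) (nat_lit 76) (nat_lit 40959628633) (nat_lit 76) (nat_lit 33213817076) (nat_lit 3) (nat_lit 4) (nat_lit 4) (nat_lit 5) (nat_lit 4) (nat_lit 4) (nat_lit 383) (nat_lit 237) (nat_lit 160)) (XT.lf (nat_lit 0) (nat_lit 452942361844) (nat_lit 76) (nat_lit 40593548413) (nat_lit 76) (nat_lit 32838915488) (nat_lit 3) (nat_lit 4) (nat_lit 4) (nat_lit 5) (nat_lit 4) (nat_lit 4) (nat_lit 384) (nat_lit 237) (nat_lit 159))) (XT.nd (nat_lit 78) (nat_lit 0) (nat_lit 0) (XT.lf (nat_lit 0) (nat_lit 479913017762) (nat_lit 76) (nat_lit 40213354220) (nat_lit 76) (nat_lit 32450319993) (nat_lit 3) (nat_lit 4) (nat_lit 4) (nat_lit 5) (nat_lit 4) (nat_lit 4) (nat_lit 385) (nat_lit 237) (nat_lit 158)) (XT.nd (nat_lit 78) (nat_lit 0) (nat_lit 0) (XT.lf (nat_lit 0) (nat_lit 508223636976) (nat_lit 76) (nat_lit 39818140831) (nat_lit 76) (nat_lit 32047105363) (nat_lit 3) (nat_lit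 4) (nat_lit 4) (nat_lit 5) (nat_lit 4) (nat_lit 4) (nat_lit 386) (nat_lit 237) (nat_lit 157)) (XT.lf (nat_lit 0) (nat_lit 537941625721) (nat_lit 76) (nat_lit 39406967261) (nat_lit 76) (nat_lit 31628311564) (nat_lit 3) (nat_lit 4) (nat_lit 4) (nat_lit 5) (nat_lit 4) (nat_lit 4) (nat_lit 387) (nat_lit 237) (nat_lit 156))))) (XT.nd (nat_lit 34164) (nat_lit 0) (nat_lit 1064) (XT.nd (nat_lit 34086) (nat_lit 0) (nat_lit 1216) (XT.lf (nat_lit 0) (nat_lit 569137741115) (nat_lit 76) (nat_lit 38978854526) (nat_lit 76) (nat_lit 31192941467) (nat_lit 3) (nat_lit 4) (nat_lit 4) (nat_lit 5) (nat_lit 4) (nat_lit 4) (nat_lit 388) (nat_lit 237) (nat_lit 155)) (XT.lf (nat_lit 0) (nat_lit 1875641376) (nat_lit 152) (nat_lit 2644428356) (nat_lit 152) (nat_lit 2644428356) (nat_lit 19) (nat_lit 4) (nat_lit 21) (nat_lit 5) (nat_lit 21) (nat_lit 4) (nat_lit 304) (nat_lit 238) (nat_lit 238))) (XT.nd (nat_lit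 78) (nat_lit 152) (nat_lit 0) (XT.lf (nat_lit 0) (nat_lit 11512453362) (nat_lit 152) (nat_lit 1905535249) (nat_lit 152) (nat_lit 1399421949) (nat_lit 19) (nat_lit 4) (nat_lit 21) (nat_lit 5) (nat_lit 21) (nat_lit 4) (nat_lit 305) (nat_lit 238) (nat_lit 237)) (XT.nd (nat_lit 78) (nat_lit 0) (nat_lit 0) (XT.lf (nat_lit 0) (nat_lit 2546907542) (nat_lit 152) (nat_lit 11178145272) (nat_lit 0) (nat_lit 1605835192) (nat_lit 17) (nat_lit 5) (nat_lit 19) (nat_lit 4) (nat_lit 17) (nat_lit 4) (nat_lit 306) (nat_lit 238) (nat_lit 236)) (XT.lf (nat_lit 0) (nat_lit 6590338798) (nat_lit 152) (nat_lit 4069293695) (nat_lit 0) (nat_lit 5212066750) (nat_lit 17) (nat_lit 5) (nat_lit 19) (nat_lit 4) (nat_lit 17) (nat_lit 4) (nat_lit 307) (nat_lit 238) (nat_lit 235)))))) (XT.nd (nat_lit 390) (nat_lit 228) (nat_lit 0) (XT.nd (nat_lit 156) (nat_lit 152) (nat_lit 0) (XT.nd (nat_lit 78) (nat_lit 0) (nat_lit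 0) (XT.lf (nat_lit 0) (nat_lit 3266182455) (nat_lit 152) (nat_lit 7486170709) (nat_lit 152) (nat_lit 5691517997) (nat_lit 15) (nat_lit 4) (nat_lit 17) (nat_lit 5) (nat_lit 17) (nat_lit 4) (nat_lit 308) (nat_lit 238) (nat_lit 234)) (XT.lf (nat_lit 0) (nat_lit 10880116671) (nat_lit 152) (nat_lit 4179508444) (nat_lit 152) (nat_lit 1988302718) (nat_lit 15) (nat_lit 4) (nat_lit 17) (nat_lit 5) (nat_lit 17) (nat_lit 4) (nat_lit 309) (nat_lit 238) (nat_lit 233))) (XT.nd (nat_lit 78) (nat_lit 0) (nat_lit 0) (XT.lf (nat_lit 0) (nat_lit 970969698) (nat_lit 76) (nat_lit 755783941) (nat_lit 152) (nat_lit 15959697241) (nat_lit 13) (nat_lit 5) (nat_lit 14) (nat_lit 5) (nat_lit 15) (nat_lit 4) (nat_lit 310) (nat_lit 238) (nat_lit 232)) (XT.nd (nat_lit 78) (nat_lit 0) (nat_lit 0) (XT.lf (nat_lit 0) (nat_lit 5584751742) (nat_lit 152) (nat_lit 9973787421) (nat_lit 0) (nat_lit 2795646469) (nat_lit 13)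 (nat_lit 5) (nat_lit 15) (nat_lit 4) (nat_lit 13) (nat_lit 4) (nat_lit 311) (nat_lit 238) (nat_lit 231)) (XT.lf (nat_lit 0) (nat_lit 9527577716) (nat_lit 152) (nat_lit 3121015952) (nat_lit 0) (nat_lit 6412227297) (nat_lit 13) (nat_lit 5) (nat_lit 15) (nat_lit 4) (nat_lit 13) (nat_lit 4) (nat_lit 312) (nat_lit 238) (nat_lit 230))))) (XT.nd (nat_lit 156) (nat_lit 152) (nat_lit 0) (XT.nd (nat_lit 78) (nat_lit 0) (nat_lit 0) (XT.lf (nat_lit 0) (nat_lit 3998940313) (nat_lit 76) (nat_lit 9616313687) (nat_lit 76) (nat_lit 6190253605) (nat_lit 12) (nat_lit 4) (nat_lit 13) (nat_lit 5) (nat_lit 13) (nat_lit 4) (nat_lit 313) (nat_lit 238) (nat_lit 229)) (XT.lf (nat_lit 0) (nat_lit 11383085549) (nat_lit 76) (nat_lit 6464696828) (nat_lit 76) (nat_lit 2742722781) (nat_lit 12) (nat_lit 4) (nat_lit 13) (nat_lit 5) (nat_lit 13) (nat_lit 4) (nat_lit 314) (nat_lit 238) (nat_lit 228))) (XT.nd (nat_lit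 78) (nat_lit 76) (nat_lit 0) (XT.lf (nat_lit 0) (nat_lit 740226482) (nat_lit 152) (nat_lit 2486332580) (nat_lit 76) (nat_lit 18193043592) (nat_lit 11) (nat_lit 5) (nat_lit 13) (nat_lit 5) (nat_lit 12) (nat_lit 4) (nat_lit 315) (nat_lit 238) (nat_lit 227)) (XT.nd (nat_lit 78) (nat_lit 0) (nat_lit 0) (XT.lf (nat_lit 0) (nat_lit 4274787445) (nat_lit 152) (nat_lit 17808697982) (nat_lit 0) (nat_lit 206025959) (nat_lit 10) (nat_lit 5) (nat_lit 12) (nat_lit 4) (nat_lit 10) (nat_lit 4) (nat_lit 316) (nat_lit 238) (nat_lit 226)) (XT.lf (nat_lit 0) (nat_lit 7978909172) (nat_lit 152) (nat_lit 11557748474) (nat_lit 0) (nat_lit 3666698536) (nat_lit 10) (nat_lit 5) (nat_lit 12) (nat_lit 4) (nat_lit 10) (nat_lit 4) (nat_lit 317) (nat_lit 238) (nat_lit 225))))))))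
noncomputable def xc47 : XT := (XT.nd (nat_lit 1560) (nat_lit 76) (nat_lit 0) (XT.nd (nat_lit 780) (nat_lit 228) (nat_lit 0) (XT.nd (nat_lit 390) (nat_lit 152) (nat_lit 0) (XT.nd (nat_lit 156) (nat_lit 0) (nat_lit 0) (XT.nd (nat_lit 78) (nat_lit 76) (nat_lit 0) (XT.lf (nat_lit 0) (nat_lit 11770275821) (nat_lit 152) (nat_lit 5171384950) (nat_lit 0) (nat_lit 7226208851) (nat_lit 10) (nat_lit 5) (nat_lit 12) (nat_lit 4) (nat_lit 10) (nat_lit 4) (nat_lit 318) (nat_lit 238) (nat_lit 224)) (XT.lf (nat_lit 0) (nat_lit 1410751062) (nat_lit 76) (nat_lit 14269189172) (nat_lit 76) (nat_lit 9504306645) (nat_lit 9) (nat_lit 4) (nat_lit 10) (nat_lit 5) (nat_lit 10) (nat_lit 4) (nat_lit 319) (nat_lit 238) (nat_lit 223))) (XT.nd (nat_lit 78) (nat_lit 0) (nat_lit 0) (XT.lf (nat_lit 0) (nat_lit 8335555096) (nat_lit 76) (nat_lit 11445667640) (nat_lit 76) (nat_lit 6470484583) (nat_lit 9) (nat_lit 4) (nat_lit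 10) (nat_lit 5) (nat_lit 10) (nat_lit 4) (nat_lit 320) (nat_lit 238) (nat_lit 222)) (XT.nd (nat_lit 78) (nat_lit 0) (nat_lit 0) (XT.lf (nat_lit 0) (nat_lit 15448525438) (nat_lit 76) (nat_lit 8551953412) (nat_lit 76) (nat_lit 3376484136) (nat_lit 9) (nat_lit 4) (nat_lit 10) (nat_lit 5) (nat_lit 10) (nat_lit 4) (nat_lit 321) (nat_lit 238) (nat_lit 221)) (XT.lf (nat_lit 0) (nat_lit 22766597733) (nat_lit 76) (nat_lit 5581156692) (nat_lit 76) (nat_lit 214938636) (nat_lit 9) (nat_lit 4) (nat_lit 10) (nat_lit 5) (nat_lit 10) (nat_lit 4) (nat_lit 322) (nat_lit 238) (nat_lit 220))))) (XT.nd (nat_lit 156) (nat_lit 0) (nat_lit 0) (XT.nd (nat_lit 78) (nat_lit 0) (nat_lit 0) (XT.lf (nat_lit 0) (nat_lit 463121137) (nat_lit 76) (nat_lit 2469076276) (nat_lit 152) (nat_lit 26876802919) (nat_lit 7) (nat_lit 5) (nat_lit 8) (nat_lit 5) (nat_lit 9) (nat_lit 4) (nat_lit 323) (nat_lit 238) (nat_lit 219))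 (XT.lf (nat_lit 0) (nat_lit 6261923820) (nat_lit 152) (nat_lit 24040506582) (nat_lit 0) (nat_lit 813449222) (nat_lit 7) (nat_lit 5) (nat_lit 9) (nat_lit 4) (nat_lit 7) (nat_lit 4) (nat_lit 324) (nat_lit 238) (nat_lit 218))) (XT.nd (nat_lit 78) (nat_lit 0) (nat_lit 0) (XT.lf (nat_lit 0) (nat_lit 9722631813) (nat_lit 152) (nat_lit 18650071610) (nat_lit 0) (nat_lit 4117227722) (nat_lit 7) (nat_lit 5) (nat_lit 9) (nat_lit 4) (nat_lit 7) (nat_lit 4) (nat_lit 325) (nat_lit 238) (nat_lit 217)) (XT.nd (nat_lit 78) (nat_lit 0) (nat_lit 0) (XT.lf (nat_lit 0) (nat_lit 13284011973) (nat_lit 152) (nat_lit 13123190712) (nat_lit 0) (nat_lit 7529151222) (nat_lit 7) (nat_lit 5) (nat_lit 9) (nat_lit 4) (nat_lit 7) (nat_lit 4) (nat_lit 326) (nat_lit 238) (nat_lit 216)) (XT.lf (nat_lit 0) (nat_lit 16954543777) (nat_lit 152) (nat_lit 7446704647) (nat_lit 0) (nat_lit 11057343350) (nat_lit 7) (nat_lit 5)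 (nat_lit 9) (nat_lit 4) (nat_lit 7) (nat_lit 4) (nat_lit 327) (nat_lit 238) (nat_lit 215)))))) (XT.nd (nat_lit 390) (nat_lit 152) (nat_lit 0) (XT.nd (nat_lit 156) (nat_lit 0) (nat_lit 0) (XT.nd (nat_lit 78) (nat_lit 76) (nat_lit 0) (XT.lf (nat_lit 0) (nat_lit 20742966587) (nat_lit 152) (nat_lit 1607097971) (nat_lit 0) (nat_lit 14710204562) (nat_lit 7) (nat_lit 5) (nat_lit 9) (nat_lit 4) (nat_lit 7) (nat_lit 4) (nat_lit 328) (nat_lit 238) (nat_lit 214)) (XT.lf (nat_lit 0) (nat_lit 4555332218) (nat_lit 76) (nat_lit 20174089740) (nat_lit 76) (nat_lit 14012221433) (nat_lit 6) (nat_lit 4) (nat_lit 7) (nat_lit 5) (nat_lit 7) (nat_lit 4) (nat_lit 329) (nat_lit 238) (nat_lit 213))) (XT.nd (nat_lit 78) (nat_lit 0) (nat_lit 0) (XT.lf (nat_lit 0) (nat_lit 10968576960) (nat_lit 76) (nat_lit 17912540874) (nat_lit 76) (nat_lit 11627714202) (nat_lit 6) (nat_lit 4) (nat_lit 7) (nat_lit 5) (nat_lit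 7) (nat_lit 4) (nat_lit 330) (nat_lit 238) (nat_lit 212)) (XT.nd (nat_lit 78) (nat_lit 0) (nat_lit 0) (XT.lf (nat_lit 0) (nat_lit 17594767966) (nat_lit 76) (nat_lit 15587250303) (nat_lit 76) (nat_lit 9185320427) (nat_lit 6) (nat_lit 4) (nat_lit 7) (nat_lit 5) (nat_lit 7) (nat_lit 4) (nat_lit 331) (nat_lit 238) (nat_lit 211)) (XT.lf (nat_lit 0) (nat_lit 24449681883) (nat_lit 76) (nat_lit 13192681621) (nat_lit 76) (nat_lit 6679224884) (nat_lit 6) (nat_lit 4) (nat_lit 7) (nat_lit 5) (nat_lit 7) (nat_lit 4) (nat_lit 332) (nat_lit 238) (nat_lit 210))))) (XT.nd (nat_lit 156) (nat_lit 152) (nat_lit 0) (XT.nd (nat_lit 78) (nat_lit 0) (nat_lit 0) (XT.lf (nat_lit 0) (nat_lit 31549639933) (nat_lit 76) (nat_lit 10723133473) (nat_lit 76) (nat_lit 4103460678) (nat_lit 6) (nat_lit 4) (nat_lit 7) (nat_lit 5) (nat_lit 7) (nat_lit 4) (nat_lit 333) (nat_lit 238) (nat_lit 209)) (XT.lf (nat_lit 0) (nat_lit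 38911546778) (nat_lit 76) (nat_lit 8172725984) (nat_lit 76) (nat_lit 1451895038) (nat_lit 6) (nat_lit 4) (nat_lit 7) (nat_lit 5) (nat_lit 7) (nat_lit 4) (nat_lit 334) (nat_lit 238) (nat_lit 208))) (XT.nd (nat_lit 78) (nat_lit 76) (nat_lit 0) (XT.lf (nat_lit 0) (nat_lit 1240760153) (nat_lit 152) (nat_lit 4273613727) (nat_lit 76) (nat_lit 45291157742) (nat_lit 5) (nat_lit 5) (nat_lit 7) (nat_lit 5) (nat_lit 6) (nat_lit 4) (nat_lit 335) (nat_lit 238) (nat_lit 207)) (XT.nd (nat_lit 78) (nat_lit 0) (nat_lit 0) (XT.lf (nat_lit 0) (nat_lit 1276016832) (nat_lit 76) (nat_lit 2716637947) (nat_lit 152) (nat_lit 49195878313) (nat_lit 4) (nat_lit 5) (nat_lit 5) (nat_lit 5) (nat_lit 6) (nat_lit 4) (nat_lit 336) (nat_lit 238) (nat_lit 206)) (XT.lf (nat_lit 0) (nat_lit 6912920879) (nat_lit 152) (nat_lit 48526484238) (nat_lit 0) (nat_lit 249768803) (nat_lit 4) (nat_lit 5) (nat_lit 6) (nat_lit 4) (nat_lit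 4) (nat_lit 4) (nat_lit 337) (nat_lit 238) (nat_lit 205))))))) (XT.nd (nat_lit 780) (nat_lit 76) (nat_lit 0) (XT.nd (nat_lit 390) (nat_lit 0) (nat_lit 0) (XT.nd (nat_lit 156) (nat_lit 0) (nat_lit 0) (XT.nd (nat_lit 78) (nat_lit 0) (nat_lit 0) (XT.lf (nat_lit 0) (nat_lit 9979701377) (nat_lit 152) (nat_lit 45097857898) (nat_lit 0) (nat_lit 3237289243) (nat_lit 4) (nat_lit 5) (nat_lit 6) (nat_lit 4) (nat_lit 4) (nat_lit 4) (nat_lit 338) (nat_lit 238) (nat_lit 204)) (XT.lf (nat_lit 0) (nat_lit 13157883800) (nat_lit 152) (nat_lit 41576059513) (nat_lit 0) (nat_lit 6339985896) (nat_lit 4) (nat_lit 5) (nat_lit 6) (nat_lit 4) (nat_lit 4) (nat_lit 4) (nat_lit 339) (nat_lit 238) (nat_lit 203))) (XT.nd (nat_lit 78) (nat_lit 0) (nat_lit 0) (XT.lf (nat_lit 0) (nat_lit 16455035247) (nat_lit 152) (nat_lit 37952703850) (nat_lit 0) (nat_lit 9565246135) (nat_lit 4) (nat_lit 5) (nat_lit 6) (nat_lit 4)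 (nat_lit 4) (nat_lit 4) (nat_lit 340) (nat_lit 238) (nat_lit 202)) (XT.nd (nat_lit 78) (nat_lit 0) (nat_lit 0) (XT.lf (nat_lit 0) (nat_lit 19879006081) (nat_lit 152) (nat_lit 34219163870) (nat_lit 0) (nat_lit 12920749150) (nat_lit 4) (nat_lit 5) (nat_lit 6) (nat_lit 4) (nat_lit 4) (nat_lit 4) (nat_lit 341) (nat_lit 238) (nat_lit 201)) (XT.lf (nat_lit 0) (nat_lit 23437948612) (nat_lit 152) (nat_lit 30366550192) (nat_lit 0) (nat_lit 16414484235) (nat_lit 4) (nat_lit 5) (nat_lit 6) (nat_lit 4) (nat_lit 4) (nat_lit 4) (nat_lit 342) (nat_lit 238) (nat_lit 200))))) (XT.nd (nat_lit 156) (nat_lit 0) (nat_lit 0) (XT.nd (nat_lit 78) (nat_lit 0) (nat_lit 0) (XT.lf (nat_lit 0) (nat_lit 27140336514) (nat_lit 152) (nat_lit 26385689928) (nat_lit 0) (nat_lit 20054769807) (nat_lit 4) (nat_lit 5) (nat_lit 6) (nat_lit 4) (nat_lit 4) (nat_lit 4) (nat_lit 343) (nat_lit 238) (nat_lit 199)) (XT.lf (nat_lit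 0) (nat_lit 30994984994) (nat_lit 152) (nat_lit 22267104839) (nat_lit 0) (nat_lit 23850273213) (nat_lit 4) (nat_lit 5) (nat_lit 6) (nat_lit 4) (nat_lit 4) (nat_lit 4) (nat_lit 344) (nat_lit 238) (nat_lit 198))) (XT.nd (nat_lit 78) (nat_lit 0) (nat_lit 0) (XT.lf (nat_lit 0) (nat_lit 35011071789) (nat_lit 152) (nat_lit 18000988768) (nat_lit 0) (nat_lit 27810031364) (nat_lit 4) (nat_lit 5) (nat_lit 6) (nat_lit 4) (nat_lit 4) (nat_lit 4) (nat_lit 345) (nat_lit 238) (nat_lit 197)) (XT.nd (nat_lit 78) (nat_lit 0) (nat_lit 0) (XT.lf (nat_lit 0) (nat_lit 39198159009) (nat_lit 152) (nat_lit 13577184298) (nat_lit 0) (nat_lit 31943472257) (nat_lit 4) (nat_lit 5) (nat_lit 6) (nat_lit 4) (nat_lit 4) (nat_lit 4) (nat_lit 346) (nat_lit 238) (nat_lit 196)) (XT.lf (nat_lit 0) (nat_lit 43566215910) (nat_lit 152) (nat_lit 8985158560) (nat_lit 0) (nat_lit 36260437418) (nat_lit 4) (nat_lit 5) (nat_lit 6)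 (nat_lit 4) (nat_lit 4) (nat_lit 4) (nat_lit 347) (nat_lit 238) (nat_lit 195)))))) (XT.nd (nat_lit 390) (nat_lit 0) (nat_lit 0) (XT.nd (nat_lit 156) (nat_lit 0) (nat_lit 0) (XT.nd (nat_lit 78) (nat_lit 76) (nat_lit 0) (XT.lf (nat_lit 0) (nat_lit 48125642627) (nat_lit 152) (nat_lit 4213978160) (nat_lit 0) (nat_lit 40771205335) (nat_lit 4) (nat_lit 5) (nat_lit 6) (nat_lit 4) (nat_lit 4) (nat_lit 4) (nat_lit 348) (nat_lit 238) (nat_lit 194)) (XT.lf (nat_lit 0) (nat_lit 772439751) (nat_lit 76) (nat_lit 52126915136) (nat_lit 76) (nat_lit 44726136129) (nat_lit 3) (nat_lit 4) (nat_lit 4) (nat_lit 5) (nat_lit 4) (nat_lit 4) (nat_lit 349) (nat_lit 238) (nat_lit 193))) (XT.nd (nat_lit 78) (nat_lit 0) (nat_lit 0) (XT.lf (nat_lit 0) (nat_lit 6107208870) (nat_lit 76) (nat_lit 51850651886) (nat_lit 76) (nat_lit 44405737913) (nat_lit 3) (nat_lit 4) (nat_lit 4) (nat_lit 5) (nat_lit 4) (nat_lit 4) (nat_lit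 350) (nat_lit 238) (nat_lit 192)) (XT.nd (nat_lit 78) (nat_lit 0) (nat_lit 0) (XT.lf (nat_lit 0) (nat_lit 11663697879) (nat_lit 76) (nat_lit 51581539027) (nat_lit 76) (nat_lit 44094591753) (nat_lit 3) (nat_lit 4) (nat_lit 4) (nat_lit 5) (nat_lit 4) (nat_lit 4) (nat_lit 351) (nat_lit 238) (nat_lit 191)) (XT.lf (nat_lit 0) (nat_lit 17455136513) (nat_lit 76) (nat_lit 51318935815) (nat_lit 76) (nat_lit 43791956825) (nat_lit 3) (nat_lit 4) (nat_lit 4) (nat_lit 5) (nat_lit 4) (nat_lit 4) (nat_lit 352) (nat_lit 238) (nat_lit 190))))) (XT.nd (nat_lit 156) (nat_lit 0) (nat_lit 0) (XT.nd (nat_lit 78) (nat_lit 0) (nat_lit 0) (XT.lf (nat_lit 0) (nat_lit 23495313912) (nat_lit 76) (nat_lit 51062217003) (nat_lit 76) (nat_lit 43497112570) (nat_lit 3) (nat_lit 4) (nat_lit 4) (nat_lit 5) (nat_lit 4) (nat_lit 4) (nat_lit 353) (nat_lit 238) (nat_lit 189)) (XT.lf (nat_lit 0) (nat_lit 29798611450) (nat_lit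 76) (nat_lit 50810771356) (nat_lit 76) (nat_lit 43209356977) (nat_lit 3) (nat_lit 4) (nat_lit 4) (nat_lit 5) (nat_lit 4) (nat_lit 4) (nat_lit 354) (nat_lit 238) (nat_lit 188))) (XT.nd (nat_lit 78) (nat_lit 0) (nat_lit 0) (XT.lf (nat_lit 0) (nat_lit 36380036980) (nat_lit 76) (nat_lit 50564000194) (nat_lit 76) (nat_lit 42928004915) (nat_lit 3) (nat_lit 4) (nat_lit 4) (nat_lit 5) (nat_lit 4) (nat_lit 4) (nat_lit 355) (nat_lit 238) (nat_lit 187)) (XT.nd (nat_lit 78) (nat_lit 0) (nat_lit 0) (XT.lf (nat_lit 0) (nat_lit 43255260561) (nat_lit 76) (nat_lit 50321315967) (nat_lit 76) (nat_lit 42652386496) (nat_lit 3) (nat_lit 4) (nat_lit 4) (nat_lit 5) (nat_lit 4) (nat_lit 4) (nat_lit 356) (nat_lit 238) (nat_lit 186)) (XT.lf (nat_lit 0) (nat_lit 50440651774) (nat_lit 76) (nat_lit 50082140854) (nat_lit 76) (nat_lit 42381845488) (nat_lit 3) (nat_lit 4) (nat_lit 4) (nat_lit 5) (nat_lit 4) (nat_lit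 4) (nat_lit 357) (nat_lit 238) (nat_lit 185))))))))
noncomputable def xc48 : XT := (XT.nd (nat_lit 1482) (nat_lit 0) (nat_lit 0) (XT.nd (nat_lit 702) (nat_lit 0) (nat_lit 0) (XT.nd (nat_lit 312) (nat_lit 0) (nat_lit 0) (XT.nd (nat_lit 156) (nat_lit 0) (nat_lit 0) (XT.nd (nat_lit 78) (nat_lit 0) (nat_lit 0) (XT.lf (nat_lit 0) (nat_lit 57953318693) (nat_lit 76) (nat_lit 49845905393) (nat_lit 76) (nat_lit 42115737744) (nat_lit 3) (nat_lit 4) (nat_lit 4) (nat_lit 5) (nat_lit 4) (nat_lit 4) (nat_lit 358) (nat_lit 238) (nat_lit 184)) (XT.lf (nat_lit 0) (nat_lit 65811148621) (nat_lit 76) (nat_lit 49612047117) (nat_lit 76) (nat_lit 41853429675) (nat_lit 3) (nat_lit 4) (nat_lit 4) (nat_lit 5) (nat_lit 4) (nat_lit 4) (nat_lit 359) (nat_lit 238) (nat_lit 183))) (XT.nd (nat_lit 78) (nat_lit 0) (nat_lit 0) (XT.lf (nat_lit 0) (nat_lit 74032850675) (nat_lit 76) (nat_lit 49380009220) (nat_lit 76) (nat_lit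 41594296738) (nat_lit 3) (nat_lit 4) (nat_lit 4) (nat_lit 5) (nat_lit 4) (nat_lit 4) (nat_lit 360) (nat_lit 238) (nat_lit 182)) (XT.lf (nat_lit 0) (nat_lit 82638000338) (nat_lit 76) (nat_lit 49149239232) (nat_lit 76) (nat_lit 41337721949) (nat_lit 3) (nat_lit 4) (nat_lit 4) (nat_lit 5) (nat_lit 4) (nat_lit 4) (nat_lit 361) (nat_lit 238) (nat_lit 181)))) (XT.nd (nat_lit 156) (nat_lit 0) (nat_lit 0) (XT.nd (nat_lit 78) (nat_lit 0) (nat_lit 0) (XT.lf (nat_lit 0) (nat_lit 91647086060) (nat_lit 76) (nat_lit 48919187700) (nat_lit 76) (nat_lit 41083094417) (nat_lit 3) (nat_lit 4) (nat_lit 4) (nat_lit 5) (nat_lit 4) (nat_lit 4) (nat_lit 362) (nat_lit 238) (nat_lit 180)) (XT.lf (nat_lit 0) (nat_lit 101081558046) (nat_lit 76) (nat_lit 48689306883) (nat_lit 76) (nat_lit 40829807885) (nat_lit 3) (nat_lit 4) (nat_lit 4) (nat_lit 5) (nat_lit 4) (nat_lit 4) (nat_lit 363) (nat_lit 238) (nat_lit 179)))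 (XT.nd (nat_lit 78) (nat_lit 0) (nat_lit 0) (XT.lf (nat_lit 0) (nat_lit 110963879325) (nat_lit 76) (nat_lit 48459049444) (nat_lit 76) (nat_lit 40577259290) (nat_lit 3) (nat_lit 4) (nat_lit 4) (nat_lit 5) (nat_lit 4) (nat_lit 4) (nat_lit 364) (nat_lit 238) (nat_lit 178)) (XT.nd (nat_lit 78) (nat_lit 0) (nat_lit 0) (XT.lf (nat_lit 0) (nat_lit 121317579232) (nat_lit 76) (nat_lit 48227867153) (nat_lit 76) (nat_lit 40324847325) (nat_lit 3) (nat_lit 4) (nat_lit 4) (nat_lit 5) (nat_lit 4) (nat_lit 4) (nat_lit 365) (nat_lit 238) (nat_lit 177)) (XT.lf (nat_lit 0) (nat_lit 132167309435) (nat_lit 76) (nat_lit 47995209576) (nat_lit 76) (nat_lit 40071971011) (nat_lit 3) (nat_lit 4) (nat_lit 4) (nat_lit 5) (nat_lit 4) (nat_lit 4) (nat_lit 366) (nat_lit 238) (nat_lit 176)))))) (XT.nd (nat_lit 390) (nat_lit 0) (nat_lit 0) (XT.nd (nat_lit 156) (nat_lit 0) (nat_lit 0) (XT.nd (nat_lit 78) (nat_lit 0)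 (nat_lit 0) (XT.lf (nat_lit 0) (nat_lit 143538902624) (nat_lit 76) (nat_lit 47760522764) (nat_lit 76) (nat_lit 39818028260) (nat_lit 3) (nat_lit 4) (nat_lit 4) (nat_lit 5) (nat_lit 4) (nat_lit 4) (nat_lit 367) (nat_lit 238) (nat_lit 175)) (XT.lf (nat_lit 0) (nat_lit 155459434020) (nat_lit 76) (nat_lit 47523247941) (nat_lit 76) (nat_lit 39562414447) (nat_lit 3) (nat_lit 4) (nat_lit 4) (nat_lit 5) (nat_lit 4) (nat_lit 4) (nat_lit 368) (nat_lit 238) (nat_lit 174))) (XT.nd (nat_lit 78) (nat_lit 0) (nat_lit 0) (XT.lf (nat_lit 0) (nat_lit 167957285843) (nat_lit 76) (nat_lit 47282820167) (nat_lit 76) (nat_lit 39304520968) (nat_lit 3) (nat_lit 4) (nat_lit 4) (nat_lit 5) (nat_lit 4) (nat_lit 4) (nat_lit 369) (nat_lit 238) (nat_lit 173)) (XT.nd (nat_lit 78) (nat_lit 0) (nat_lit 0) (XT.lf (nat_lit 0) (nat_lit 181062214881) (nat_lit 76) (nat_lit 47038666994) (nat_lit 76) (nat_lit 39043733790) (nat_lit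 3) (nat_lit 4) (nat_lit 4) (nat_lit 5) (nat_lit 4) (nat_lit 4) (nat_lit 370) (nat_lit 238) (nat_lit 172)) (XT.lf (nat_lit 0) (nat_lit 194805423347) (nat_lit 76) (nat_lit 46790207105) (nat_lit 76) (nat_lit 38779431992) (nat_lit 3) (nat_lit 4) (nat_lit 4) (nat_lit 5) (nat_lit 4) (nat_lit 4) (nat_lit 371) (nat_lit 238) (nat_lit 171))))) (XT.nd (nat_lit 156) (nat_lit 0) (nat_lit 0) (XT.nd (nat_lit 78) (nat_lit 0) (nat_lit 0) (XT.lf (nat_lit 0) (nat_lit 209219633166) (nat_lit 76) (nat_lit 46536848929) (nat_lit 76) (nat_lit 38510986284) (nat_lit 3) (nat_lit 4) (nat_lit 4) (nat_lit 5) (nat_lit 4) (nat_lit 4) (nat_lit 372) (nat_lit 238) (nat_lit 170)) (XT.lf (nat_lit 0) (nat_lit 224339163884) (nat_lit 76) (nat_lit 46277989232) (nat_lit 76) (nat_lit 38237757509) (nat_lit 3) (nat_lit 4) (nat_lit 4) (nat_lit 5) (nat_lit 4) (nat_lit 4) (nat_lit 373) (nat_lit 238) (nat_lit 169))) (XT.nd (nat_lit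 78) (nat_lit 0) (nat_lit 0) (XT.lf (nat_lit 0) (nat_lit 240200014385) (nat_lit 76) (nat_lit 46013011683) (nat_lit 76) (nat_lit 37959095122) (nat_lit 3) (nat_lit 4) (nat_lit 4) (nat_lit 5) (nat_lit 4) (nat_lit 4) (nat_lit 374) (nat_lit 238) (nat_lit 168)) (XT.nd (nat_lit 78) (nat_lit 0) (nat_lit 0) (XT.lf (nat_lit 0) (nat_lit 256839948598) (nat_lit 76) (nat_lit 45741285380) (nat_lit 76) (nat_lit 37674335642) (nat_lit 3) (nat_lit 4) (nat_lit 4) (nat_lit 5) (nat_lit 4) (nat_lit 4) (nat_lit 375) (nat_lit 238) (nat_lit 167)) (XT.lf (nat_lit 0) (nat_lit 274298585415) (nat_lit 76) (nat_lit 45462163359) (nat_lit 76) (nat_lit 37382801070) (nat_lit 3) (nat_lit 4) (nat_lit 4) (nat_lit 5) (nat_lit 4) (nat_lit 4) (nat_lit 376) (nat_lit 238) (nat_lit 166))))))) (XT.nd (nat_lit 780) (nat_lit 0) (nat_lit 0) (XT.nd (nat_lit 390) (nat_lit 0) (nat_lit 0) (XT.nd (nat_lit 156) (nat_lit 0) (nat_lit 0) (XT.nd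 (nat_lit 78) (nat_lit 0) (nat_lit 0) (XT.lf (nat_lit 0) (nat_lit 292617493017) (nat_lit 76) (nat_lit 45174981041) (nat_lit 76) (nat_lit 37083797276) (nat_lit 3) (nat_lit 4) (nat_lit 4) (nat_lit 5) (nat_lit 4) (nat_lit 4) (nat_lit 377) (nat_lit 238) (nat_lit 165)) (XT.lf (nat_lit 0) (nat_lit 311840287853) (nat_lit 76) (nat_lit 44879054660) (nat_lit 76) (nat_lit 36776612346) (nat_lit 3) (nat_lit 4) (nat_lit 4) (nat_lit 5) (nat_lit 4) (nat_lit 4) (nat_lit 378) (nat_lit 238) (nat_lit 164))) (XT.nd (nat_lit 78) (nat_lit 0) (nat_lit 0) (XT.lf (nat_lit 0) (nat_lit 332012738480) (nat_lit 76) (nat_lit 44573679629) (nat_lit 76) (nat_lit 36460514888) (nat_lit 3) (nat_lit 4) (nat_lit 4) (nat_lit 5) (nat_lit 4) (nat_lit 4) (nat_lit 379) (nat_lit 238) (nat_lit 163)) (XT.nd (nat_lit 78) (nat_lit 0) (nat_lit 0) (XT.lf (nat_lit 0) (nat_lit 353182874544) (nat_lit 76) (nat_lit 44258128865) (nat_lit 76)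 (nat_lit 36134752288) (nat_lit 3) (nat_lit 4) (nat_lit 4) (nat_lit 5) (nat_lit 4) (nat_lit 4) (nat_lit 380) (nat_lit 238) (nat_lit 162)) (XT.lf (nat_lit 0) (nat_lit 375401101129) (nat_lit 76) (nat_lit 43931651056) (nat_lit 76) (nat_lit 35798548921) (nat_lit 3) (nat_lit 4) (nat_lit 4) (nat_lit 5) (nat_lit 4) (nat_lit 4) (nat_lit 381) (nat_lit 238) (nat_lit 161))))) (XT.nd (nat_lit 156) (nat_lit 0) (nat_lit 0) (XT.nd (nat_lit 78) (nat_lit 0) (nat_lit 0) (XT.lf (nat_lit 0) (nat_lit 398720318777) (nat_lit 76) (nat_lit 43593468875) (nat_lit 76) (nat_lit 35451104303) (nat_lit 3) (nat_lit 4) (nat_lit 4) (nat_lit 5) (nat_lit 4) (nat_lit 4) (nat_lit 382) (nat_lit 238) (nat_lit 160)) (XT.lf (nat_lit 0) (nat_lit 423196049432) (nat_lit 76) (nat_lit 43242777125) (nat_lit 76) (nat_lit 35091591185) (nat_lit 3) (nat_lit 4) (nat_lit 4) (nat_lit 5) (nat_lit 4) (nat_lit 4) (nat_lit 383) (nat_lit 238)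 (nat_lit 159))) (XT.nd (nat_lit 78) (nat_lit 0) (nat_lit 0) (XT.lf (nat_lit 0) (nat_lit 448886568646) (nat_lit 76) (nat_lit 42878740826) (nat_lit 76) (nat_lit 34719153584) (nat_lit 3) (nat_lit 4) (nat_lit 4) (nat_lit 5) (nat_lit 4) (nat_lit 4) (nat_lit 384) (nat_lit 238) (nat_lit 158)) (XT.nd (nat_lit 78) (nat_lit 0) (nat_lit 0) (XT.lf (nat_lit 0) (nat_lit 475853044320) (nat_lit 76) (nat_lit 42500493225) (nat_lit 76) (nat_lit 34332904743) (nat_lit 3) (nat_lit 4) (nat_lit 4) (nat_lit 5) (nat_lit 4) (nat_lit 4) (nat_lit 385) (nat_lit 238) (nat_lit 157)) (XT.lf (nat_lit 0) (nat_lit 504159682349) (nat_lit 76) (nat_lit 42107133733) (nat_lit 76) (nat_lit 33931925021) (nat_lit 3) (nat_lit 4) (nat_lit 4) (nat_lit 5) (nat_lit 4) (nat_lit 4) (nat_lit 386) (nat_lit 238) (nat_lit 156)))))) (XT.nd (nat_lit 34242) (nat_lit 0) (nat_lit 912) (XT.nd (nat_lit 34008) (nat_lit 0) (nat_lit 1216) (XT.nd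 (nat_lit 78) (nat_lit 0) (nat_lit 0) (XT.lf (nat_lit 0) (nat_lit 533873879490) (nat_lit 76) (nat_lit 41697725779) (nat_lit 76) (nat_lit 33515259706) (nat_lit 3) (nat_lit 4) (nat_lit 4) (nat_lit 5) (nat_lit 4) (nat_lit 4) (nat_lit 387) (nat_lit 238) (nat_lit 155)) (XT.lf (nat_lit 0) (nat_lit 565066383831) (nat_lit 76) (nat_lit 41271294583) (nat_lit 76) (nat_lit 33081916738) (nat_lit 3) (nat_lit 4) (nat_lit 4) (nat_lit 5) (nat_lit 4) (nat_lit 4) (nat_lit 388) (nat_lit 238) (nat_lit 154))) (XT.nd (nat_lit 78) (nat_lit 152) (nat_lit 0) (XT.lf (nat_lit 0) (nat_lit 630667250) (nat_lit 152) (nat_lit 5453533038) (nat_lit 0) (nat_lit 630667250) (nat_lit 21) (nat_lit 5) (nat_lit 23) (nat_lit 4) (nat_lit 21) (nat_lit 4) (nat_lit 302) (nat_lit 239) (nat_lit 239)) (XT.nd (nat_lit 78) (nat_lit 152) (nat_lit 0) (XT.lf (nat_lit 0) (nat_lit 5322378025) (nat_lit 152) (nat_lit 3754655424) (nat_lit 0)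 (nat_lit 4790959060) (nat_lit 21) (nat_lit 5) (nat_lit 23) (nat_lit 4) (nat_lit 21) (nat_lit 4) (nat_lit 303) (nat_lit 239) (nat_lit 238)) (XT.lf (nat_lit 0) (nat_lit 3629127809) (nat_lit 152) (nat_lit 5870539311) (nat_lit 152) (nat_lit 4833007046) (nat_lit 19) (nat_lit 4) (nat_lit 21) (nat_lit 5) (nat_lit 21) (nat_lit 4) (nat_lit 304) (nat_lit 239) (nat_lit 237))))) (XT.nd (nat_lit 156) (nat_lit 152) (nat_lit 0) (XT.nd (nat_lit 78) (nat_lit 152) (nat_lit 0) (XT.lf (nat_lit 0) (nat_lit 11273960378) (nat_lit 152) (nat_lit 2535087977) (nat_lit 152) (nat_lit 1015543044) (nat_lit 19) (nat_lit 4) (nat_lit 21) (nat_lit 5) (nat_lit 21) (nat_lit 4) (nat_lit 305) (nat_lit 239) (nat_lit 236)) (XT.lf (nat_lit 0) (nat_lit 2835710794) (nat_lit 152) (nat_lit 11554944458) (nat_lit 0) (nat_lit 951325446) (nat_lit 17) (nat_lit 5) (nat_lit 19) (nat_lit 4) (nat_lit 17) (nat_lit 4) (nat_lit 306) (nat_lit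 239) (nat_lit 235))) (XT.nd (nat_lit 78) (nat_lit 152) (nat_lit 0) (XT.lf (nat_lit 0) (nat_lit 6813491945) (nat_lit 152) (nat_lit 4559925193) (nat_lit 0) (nat_lit 4512725933) (nat_lit 17) (nat_lit 5) (nat_lit 19) (nat_lit 4) (nat_lit 17) (nat_lit 4) (nat_lit 307) (nat_lit 239) (nat_lit 234)) (XT.nd (nat_lit 78) (nat_lit 0) (nat_lit 0) (XT.lf (nat_lit 0) (nat_lit 2647332156) (nat_lit 152) (nat_lit 8255988261) (nat_lit 152) (nat_lit 5558669234) (nat_lit 15) (nat_lit 4) (nat_lit 17) (nat_lit 5) (nat_lit 17) (nat_lit 4) (nat_lit 308) (nat_lit 239) (nat_lit 233)) (XT.lf (nat_lit 0) (nat_lit 10154603220) (nat_lit 152) (nat_lit 4994777257) (nat_lit 152) (nat_lit 1919788693) (nat_lit 15) (nat_lit 4) (nat_lit 17) (nat_lit 5) (nat_lit 17) (nat_lit 4) (nat_lit 309) (nat_lit 239) (nat_lit 232))))))))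
noncomputable def xc49 : XT := (XT.nd (nat_lit 1482) (nat_lit 228) (nat_lit 0) (XT.nd (nat_lit 702) (nat_lit 228) (nat_lit 0) (XT.nd (nat_lit 312) (nat_lit 152) (nat_lit 0) (XT.nd (nat_lit 156) (nat_lit 76) (nat_lit 0) (XT.nd (nat_lit 78) (nat_lit 0) (nat_lit 0) (XT.lf (nat_lit 0) (nat_lit 91391748) (nat_lit 76) (nat_lit 1628640244) (nat_lit 152) (nat_lit 15991315347) (nat_lit 13) (nat_lit 5) (nat_lit 14) (nat_lit 5) (nat_lit 15) (nat_lit 4) (nat_lit 310) (nat_lit 239) (nat_lit 231)) (XT.lf (nat_lit 0) (nat_lit 5505640443) (nat_lit 152) (nat_lit 10968837551) (nat_lit 0) (nat_lit 1908277356) (nat_lit 13) (nat_lit 5) (nat_lit 15) (nat_lit 4) (nat_lit 13) (nat_lit 4) (nat_lit 311) (nat_lit 239) (nat_lit 230))) (XT.nd (nat_lit 78) (nat_lit 76) (nat_lit 0) (XT.lf (nat_lit 0) (nat_lit 9392502683) (nat_lit 152) (nat_lit 4215307467) (nat_lit 0) (nat_lit 5484429934) (nat_lit 13) (nat_lit 5)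 (nat_lit 15) (nat_lit 4) (nat_lit 13) (nat_lit 4) (nat_lit 312) (nat_lit 239) (nat_lit 229)) (XT.lf (nat_lit 0) (nat_lit 2770825862) (nat_lit 76) (nat_lit 10636880005) (nat_lit 76) (nat_lit 6432893291) (nat_lit 12) (nat_lit 4) (nat_lit 13) (nat_lit 5) (nat_lit 13) (nat_lit 4) (nat_lit 313) (nat_lit 239) (nat_lit 228)))) (XT.nd (nat_lit 156) (nat_lit 76) (nat_lit 0) (XT.nd (nat_lit 78) (nat_lit 76) (nat_lit 0) (XT.lf (nat_lit 0) (nat_lit 10061979937) (nat_lit 76) (nat_lit 7526041698) (nat_lit 76) (nat_lit 3040232160) (nat_lit 12) (nat_lit 4) (nat_lit 13) (nat_lit 5) (nat_lit 13) (nat_lit 4) (nat_lit 314) (nat_lit 239) (nat_lit 227)) (XT.lf (nat_lit 0) (nat_lit 401654957) (nat_lit 152) (nat_lit 3930819563) (nat_lit 76) (nat_lit 17127680370) (nat_lit 11) (nat_lit 5) (nat_lit 13) (nat_lit 5) (nat_lit 12) (nat_lit 4) (nat_lit 315) (nat_lit 239) (nat_lit 226))) (XT.nd (nat_lit 78) (nat_lit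 0) (nat_lit 0) (XT.lf (nat_lit 0) (nat_lit 2903232709) (nat_lit 76) (nat_lit 956799751) (nat_lit 152) (nat_lit 18473880463) (nat_lit 10) (nat_lit 5) (nat_lit 11) (nat_lit 5) (nat_lit 12) (nat_lit 4) (nat_lit 316) (nat_lit 239) (nat_lit 225)) (XT.nd (nat_lit 78) (nat_lit 0) (nat_lit 0) (XT.lf (nat_lit 0) (nat_lit 7501429928) (nat_lit 152) (nat_lit 13251198946) (nat_lit 0) (nat_lit 2498303275) (nat_lit 10) (nat_lit 5) (nat_lit 12) (nat_lit 4) (nat_lit 10) (nat_lit 4) (nat_lit 317) (nat_lit 239) (nat_lit 224)) (XT.lf (nat_lit 0) (nat_lit 11247286165) (nat_lit 152) (nat_lit 6947127389) (nat_lit 0) (nat_lit 6023343955) (nat_lit 10) (nat_lit 5) (nat_lit 12) (nat_lit 4) (nat_lit 10) (nat_lit 4) (nat_lit 318) (nat_lit 239) (nat_lit 223)))))) (XT.nd (nat_lit 390) (nat_lit 76) (nat_lit 0) (XT.nd (nat_lit 156) (nat_lit 76) (nat_lit 0) (XT.nd (nat_lit 78) (nat_lit 76) (nat_lit 0) (XT.lf (nat_lit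 0) (nat_lit 15091581550) (nat_lit 152) (nat_lit 488517522) (nat_lit 0) (nat_lit 9657338811) (nat_lit 10) (nat_lit 5) (nat_lit 12) (nat_lit 4) (nat_lit 10) (nat_lit 4) (nat_lit 319) (nat_lit 239) (nat_lit 222)) (XT.lf (nat_lit 0) (nat_lit 6343024699) (nat_lit 76) (nat_lit 12799476861) (nat_lit 76) (nat_lit 7164947902) (nat_lit 9) (nat_lit 4) (nat_lit 10) (nat_lit 5) (nat_lit 10) (nat_lit 4) (nat_lit 320) (nat_lit 239) (nat_lit 221))) (XT.nd (nat_lit 78) (nat_lit 76) (nat_lit 0) (XT.lf (nat_lit 0) (nat_lit 13382557693) (nat_lit 76) (nat_lit 9938739813) (nat_lit 76) (nat_lit 4113462074) (nat_lit 9) (nat_lit 4) (nat_lit 10) (nat_lit 5) (nat_lit 10) (nat_lit 4) (nat_lit 321) (nat_lit 239) (nat_lit 220)) (XT.nd (nat_lit 78) (nat_lit 76) (nat_lit 0) (XT.lf (nat_lit 0) (nat_lit 20630689655) (nat_lit 76) (nat_lit 6999349931) (nat_lit 76) (nat_lit 992406687) (nat_lit 9) (nat_lit 4) (nat_lit 10)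 (nat_lit 5) (nat_lit 10) (nat_lit 4) (nat_lit 322) (nat_lit 239) (nat_lit 219)) (XT.lf (nat_lit 0) (nat_lit 2135054788) (nat_lit 152) (nat_lit 1803095692) (nat_lit 76) (nat_lit 25933465068) (nat_lit 8) (nat_lit 5) (nat_lit 10) (nat_lit 5) (nat_lit 9) (nat_lit 4) (nat_lit 323) (nat_lit 239) (nat_lit 218))))) (XT.nd (nat_lit 156) (nat_lit 0) (nat_lit 0) (XT.nd (nat_lit 78) (nat_lit 0) (nat_lit 0) (XT.lf (nat_lit 0) (nat_lit 4696537353) (nat_lit 76) (nat_lit 689448662) (nat_lit 152) (nat_lit 25796474452) (nat_lit 7) (nat_lit 5) (nat_lit 8) (nat_lit 5) (nat_lit 9) (nat_lit 4) (nat_lit 324) (nat_lit 239) (nat_lit 217)) (XT.lf (nat_lit 0) (nat_lit 8800630644) (nat_lit 152) (nat_lit 21149638952) (nat_lit 0) (nat_lit 2608570195) (nat_lit 7) (nat_lit 5) (nat_lit 9) (nat_lit 4) (nat_lit 7) (nat_lit 4) (nat_lit 325) (nat_lit 239) (nat_lit 216))) (XT.nd (nat_lit 78) (nat_lit 0) (nat_lit 0) (XT.lf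 (nat_lit 0) (nat_lit 12328392578) (nat_lit 152) (nat_lit 15684581897) (nat_lit 0) (nat_lit 5993992453) (nat_lit 7) (nat_lit 5) (nat_lit 9) (nat_lit 4) (nat_lit 7) (nat_lit 4) (nat_lit 326) (nat_lit 239) (nat_lit 215)) (XT.nd (nat_lit 78) (nat_lit 0) (nat_lit 0) (XT.lf (nat_lit 0) (nat_lit 15966907024) (nat_lit 152) (nat_lit 10066975682) (nat_lit 0) (nat_lit 9496945302) (nat_lit 7) (nat_lit 5) (nat_lit 9) (nat_lit 4) (nat_lit 7) (nat_lit 4) (nat_lit 327) (nat_lit 239) (nat_lit 214)) (XT.lf (nat_lit 0) (nat_lit 19724837111) (nat_lit 152) (nat_lit 4283445054) (nat_lit 0) (nat_lit 13125769106) (nat_lit 7) (nat_lit 5) (nat_lit 9) (nat_lit 4) (nat_lit 7) (nat_lit 4) (nat_lit 328) (nat_lit 239) (nat_lit 213))))))) (XT.nd (nat_lit 780) (nat_lit 0) (nat_lit 0) (XT.nd (nat_lit 390) (nat_lit 152) (nat_lit 0) (XT.nd (nat_lit 156) (nat_lit 0) (nat_lit 0) (XT.nd (nat_lit 78) (nat_lit 0) (nat_lit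 0) (XT.lf (nat_lit 0) (nat_lit 1735321418) (nat_lit 76) (nat_lit 21902902104) (nat_lit 76) (nat_lit 15180875735) (nat_lit 6) (nat_lit 4) (nat_lit 7) (nat_lit 5) (nat_lit 7) (nat_lit 4) (nat_lit 329) (nat_lit 239) (nat_lit 212)) (XT.lf (nat_lit 0) (nat_lit 8096021783) (nat_lit 76) (nat_lit 19665419452) (nat_lit 76) (nat_lit 12826289879) (nat_lit 6) (nat_lit 4) (nat_lit 7) (nat_lit 5) (nat_lit 7) (nat_lit 4) (nat_lit 330) (nat_lit 239) (nat_lit 211))) (XT.nd (nat_lit 78) (nat_lit 0) (nat_lit 0) (XT.lf (nat_lit 0) (nat_lit 14672170526) (nat_lit 76) (nat_lit 17363049085) (nat_lit 76) (nat_lit 10412392650) (nat_lit 6) (nat_lit 4) (nat_lit 7) (nat_lit 5) (nat_lit 7) (nat_lit 4) (nat_lit 331) (nat_lit 239) (nat_lit 210)) (XT.nd (nat_lit 78) (nat_lit 0) (nat_lit 0) (XT.lf (nat_lit 0) (nat_lit 21479425144) (nat_lit 76) (nat_lit 14990309168) (nat_lit 76) (nat_lit 7933436675) (nat_lit 6) (nat_lit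 4) (nat_lit 7) (nat_lit 5) (nat_lit 7) (nat_lit 4) (nat_lit 332) (nat_lit 239) (nat_lit 209)) (XT.lf (nat_lit 0) (nat_lit 28533993385) (nat_lit 76) (nat_lit 12541550321) (nat_lit 76) (nat_lit 5383519677) (nat_lit 6) (nat_lit 4) (nat_lit 7) (nat_lit 5) (nat_lit 7) (nat_lit 4) (nat_lit 333) (nat_lit 239) (nat_lit 208))))) (XT.nd (nat_lit 156) (nat_lit 152) (nat_lit 0) (XT.nd (nat_lit 78) (nat_lit 0) (nat_lit 0) (XT.lf (nat_lit 0) (nat_lit 35852671842) (nat_lit 76) (nat_lit 10010942165) (nat_lit 76) (nat_lit 2756570425) (nat_lit 6) (nat_lit 4) (nat_lit 7) (nat_lit 5) (nat_lit 7) (nat_lit 4) (nat_lit 334) (nat_lit 239) (nat_lit 207)) (XT.lf (nat_lit 0) (nat_lit 43452885939) (nat_lit 76) (nat_lit 7392459443) (nat_lit 76) (nat_lit 46334279) (nat_lit 6) (nat_lit 4) (nat_lit 7) (nat_lit 5) (nat_lit 7) (nat_lit 4) (nat_lit 335) (nat_lit 239) (nat_lit 206))) (XT.nd (nat_lit 78) (nat_lit 76) (nat_lit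 0) (XT.lf (nat_lit 0) (nat_lit 2665507973) (nat_lit 152) (nat_lit 1969218031) (nat_lit 76) (nat_lit 48642081783) (nat_lit 5) (nat_lit 5) (nat_lit 7) (nat_lit 5) (nat_lit 6) (nat_lit 4) (nat_lit 336) (nat_lit 239) (nat_lit 205)) (XT.nd (nat_lit 78) (nat_lit 0) (nat_lit 0) (XT.lf (nat_lit 0) (nat_lit 3817279921) (nat_lit 76) (nat_lit 1711506595) (nat_lit 152) (nat_lit 50251524542) (nat_lit 4) (nat_lit 5) (nat_lit 5) (nat_lit 5) (nat_lit 6) (nat_lit 4) (nat_lit 337) (nat_lit 239) (nat_lit 204)) (XT.lf (nat_lit 0) (nat_lit 8548388478) (nat_lit 152) (nat_lit 48545858639) (nat_lit 0) (nat_lit 1314109909) (nat_lit 4) (nat_lit 5) (nat_lit 6) (nat_lit 4) (nat_lit 4) (nat_lit 4) (nat_lit 338) (nat_lit 239) (nat_lit 203)))))) (XT.nd (nat_lit 390) (nat_lit 0) (nat_lit 0) (XT.nd (nat_lit 156) (nat_lit 0) (nat_lit 0) (XT.nd (nat_lit 78) (nat_lit 0) (nat_lit 0) (XT.lf (nat_lit 0) (nat_lit 11707087927)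 (nat_lit 152) (nat_lit 45060417639) (nat_lit 0) (nat_lit 4400918149) (nat_lit 4) (nat_lit 5) (nat_lit 6) (nat_lit 4) (nat_lit 4) (nat_lit 4) (nat_lit 339) (nat_lit 239) (nat_lit 202)) (XT.lf (nat_lit 0) (nat_lit 14985684161) (nat_lit 152) (nat_lit 41471688057) (nat_lit 0) (nat_lit 7611046566) (nat_lit 4) (nat_lit 5) (nat_lit 6) (nat_lit 4) (nat_lit 4) (nat_lit 4) (nat_lit 340) (nat_lit 239) (nat_lit 201))) (XT.nd (nat_lit 78) (nat_lit 0) (nat_lit 0) (XT.lf (nat_lit 0) (nat_lit 18391983364) (nat_lit 152) (nat_lit 37771125298) (nat_lit 0) (nat_lit 10952138322) (nat_lit 4) (nat_lit 5) (nat_lit 6) (nat_lit 4) (nat_lit 4) (nat_lit 4) (nat_lit 341) (nat_lit 239) (nat_lit 200)) (XT.nd (nat_lit 78) (nat_lit 0) (nat_lit 0) (XT.lf (nat_lit 0) (nat_lit 21934095770) (nat_lit 152) (nat_lit 33949918497) (nat_lit 0) (nat_lit 14432148399) (nat_lit 4) (nat_lit 5) (nat_lit 6) (nat_lit 4) (nat_lit 4)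 (nat_lit 4) (nat_lit 342) (nat_lit 239) (nat_lit 199)) (XT.lf (nat_lit 0) (nat_lit 25620454981) (nat_lit 152) (nat_lit 29998969544) (nat_lit 0) (nat_lit 18059362534) (nat_lit 4) (nat_lit 5) (nat_lit 6) (nat_lit 4) (nat_lit 4) (nat_lit 4) (nat_lit 343) (nat_lit 239) (nat_lit 198))))) (XT.nd (nat_lit 156) (nat_lit 0) (nat_lit 0) (XT.nd (nat_lit 78) (nat_lit 0) (nat_lit 0) (XT.lf (nat_lit 0) (nat_lit 29459838042) (nat_lit 152) (nat_lit 25908871417) (nat_lit 0) (nat_lit 21842416952) (nat_lit 4) (nat_lit 5) (nat_lit 6) (nat_lit 4) (nat_lit 4) (nat_lit 4) (nat_lit 344) (nat_lit 239) (nat_lit 197)) (XT.lf (nat_lit 0) (nat_lit 33461386342) (nat_lit 152) (nat_lit 21669885787) (nat_lit 0) (nat_lit 25790318925) (nat_lit 4) (nat_lit 5) (nat_lit 6) (nat_lit 4) (nat_lit 4) (nat_lit 4) (nat_lit 345) (nat_lit 239) (nat_lit 196))) (XT.nd (nat_lit 78) (nat_lit 0) (nat_lit 0) (XT.lf (nat_lit 0) (nat_lit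 37634627377) (nat_lit 152) (nat_lit 17271919832) (nat_lit 0) (nat_lit 29912468220) (nat_lit 4) (nat_lit 5) (nat_lit 6) (nat_lit 4) (nat_lit 4) (nat_lit 4) (nat_lit 346) (nat_lit 239) (nat_lit 195)) (XT.nd (nat_lit 78) (nat_lit 0) (nat_lit 0) (XT.lf (nat_lit 0) (nat_lit 41989497434) (nat_lit 152) (nat_lit 12704502204) (nat_lit 0) (nat_lit 34218679477) (nat_lit 4) (nat_lit 5) (nat_lit 6) (nat_lit 4) (nat_lit 4) (nat_lit 4) (nat_lit 347) (nat_lit 239) (nat_lit 194)) (XT.lf (nat_lit 0) (nat_lit 46536365253) (nat_lit 152) (nat_lit 7956758098) (nat_lit 0) (nat_lit 38719205581) (nat_lit 4) (nat_lit 5) (nat_lit 6) (nat_lit 4) (nat_lit 4) (nat_lit 4) (nat_lit 348) (nat_lit 239) (nat_lit 193))))))))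
noncomputable def xc50 : XT := (XT.nd (nat_lit 1482) (nat_lit 0) (nat_lit 0) (XT.nd (nat_lit 702) (nat_lit 0) (nat_lit 0) (XT.nd (nat_lit 312) (nat_lit 0) (nat_lit 0) (XT.nd (nat_lit 156) (nat_lit 0) (nat_lit 0) (XT.nd (nat_lit 78) (nat_lit 76) (nat_lit 0) (XT.lf (nat_lit 0) (nat_lit 51286056708) (nat_lit 152) (nat_lit 3017383363) (nat_lit 0) (nat_lit 43424762071) (nat_lit 4) (nat_lit 5) (nat_lit 6) (nat_lit 4) (nat_lit 4) (nat_lit 4) (nat_lit 349) (nat_lit 239) (nat_lit 192)) (XT.lf (nat_lit 0) (nat_lit 2195657157) (nat_lit 76) (nat_lit 54088503793) (nat_lit 76) (nat_lit 46185175854) (nat_lit 3) (nat_lit 4) (nat_lit 4) (nat_lit 5) (nat_lit 4) (nat_lit 4) (nat_lit 350) (nat_lit 239) (nat_lit 191))) (XT.nd (nat_lit 78) (nat_lit 0) (nat_lit 0) (XT.lf (nat_lit 0) (nat_lit 7731231617) (nat_lit 76) (nat_lit 53829130100) (nat_lit 76) (nat_lit 45885770446) (nat_lit 3) (nat_lit 4) (nat_lit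 4) (nat_lit 5) (nat_lit 4) (nat_lit 4) (nat_lit 351) (nat_lit 239) (nat_lit 190)) (XT.lf (nat_lit 0) (nat_lit 13502751633) (nat_lit 76) (nat_lit 53575802283) (nat_lit 76) (nat_lit 45594317186) (nat_lit 3) (nat_lit 4) (nat_lit 4) (nat_lit 5) (nat_lit 4) (nat_lit 4) (nat_lit 352) (nat_lit 239) (nat_lit 189)))) (XT.nd (nat_lit 156) (nat_lit 0) (nat_lit 0) (XT.nd (nat_lit 78) (nat_lit 0) (nat_lit 0) (XT.lf (nat_lit 0) (nat_lit 19523958920) (nat_lit 76) (nat_lit 53327917181) (nat_lit 76) (nat_lit 45310122138) (nat_lit 3) (nat_lit 4) (nat_lit 4) (nat_lit 5) (nat_lit 4) (nat_lit 4) (nat_lit 353) (nat_lit 239) (nat_lit 188)) (XT.lf (nat_lit 0) (nat_lit 25809189685) (nat_lit 76) (nat_lit 53084884591) (nat_lit 76) (nat_lit 45032508648) (nat_lit 3) (nat_lit 4) (nat_lit 4) (nat_lit 5) (nat_lit 4) (nat_lit 4) (nat_lit 354) (nat_lit 239) (nat_lit 187))) (XT.nd (nat_lit 78) (nat_lit 0) (nat_lit 0)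 (XT.lf (nat_lit 0) (nat_lit 32373408763) (nat_lit 76) (nat_lit 52846125865) (nat_lit 76) (nat_lit 44760815730) (nat_lit 3) (nat_lit 4) (nat_lit 4) (nat_lit 5) (nat_lit 4) (nat_lit 4) (nat_lit 355) (nat_lit 239) (nat_lit 186)) (XT.nd (nat_lit 78) (nat_lit 0) (nat_lit 0) (XT.lf (nat_lit 0) (nat_lit 39232245248) (nat_lit 76) (nat_lit 52611072529) (nat_lit 76) (nat_lit 44494396497) (nat_lit 3) (nat_lit 4) (nat_lit 4) (nat_lit 5) (nat_lit 4) (nat_lit 4) (nat_lit 356) (nat_lit 239) (nat_lit 185)) (XT.lf (nat_lit 0) (nat_lit 46402029703) (nat_lit 76) (nat_lit 52379164932) (nat_lit 76) (nat_lit 44232616618) (nat_lit 3) (nat_lit 4) (nat_lit 4) (nat_lit 5) (nat_lit 4) (nat_lit 4) (nat_lit 357) (nat_lit 239) (nat_lit 184)))))) (XT.nd (nat_lit 390) (nat_lit 0) (nat_lit 0) (XT.nd (nat_lit 156) (nat_lit 0) (nat_lit 0) (XT.nd (nat_lit 78) (nat_lit 0) (nat_lit 0) (XT.lf (nat_lit 0) (nat_lit 53899833043)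 (nat_lit 76) (nat_lit 52149850913) (nat_lit 76) (nat_lit 43974852807) (nat_lit 3) (nat_lit 4) (nat_lit 4) (nat_lit 5) (nat_lit 4) (nat_lit 4) (nat_lit 358) (nat_lit 239) (nat_lit 183)) (XT.lf (nat_lit 0) (nat_lit 61743507180) (nat_lit 76) (nat_lit 51922584487) (nat_lit 76) (nat_lit 43720491341) (nat_lit 3) (nat_lit 4) (nat_lit 4) (nat_lit 5) (nat_lit 4) (nat_lit 4) (nat_lit 359) (nat_lit 239) (nat_lit 182))) (XT.nd (nat_lit 78) (nat_lit 0) (nat_lit 0) (XT.lf (nat_lit 0) (nat_lit 69951727530) (nat_lit 76) (nat_lit 51696824544) (nat_lit 76) (nat_lit 43468926596) (nat_lit 3) (nat_lit 4) (nat_lit 4) (nat_lit 5) (nat_lit 4) (nat_lit 4) (nat_lit 360) (nat_lit 239) (nat_lit 181)) (XT.nd (nat_lit 78) (nat_lit 0) (nat_lit 0) (XT.lf (nat_lit 0) (nat_lit 78544037474) (nat_lit 76) (nat_lit 51472033558) (nat_lit 76) (nat_lit 43219559610) (nat_lit 3) (nat_lit 4) (nat_lit 4) (nat_lit 5) (nat_lit 4)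 (nat_lit 4) (nat_lit 361) (nat_lit 239) (nat_lit 180)) (XT.lf (nat_lit 0) (nat_lit 87540894893) (nat_lit 76) (nat_lit 51247676315) (nat_lit 76) (nat_lit 42971796652) (nat_lit 3) (nat_lit 4) (nat_lit 4) (nat_lit 5) (nat_lit 4) (nat_lit 4) (nat_lit 362) (nat_lit 239) (nat_lit 179))))) (XT.nd (nat_lit 156) (nat_lit 0) (nat_lit 0) (XT.nd (nat_lit 78) (nat_lit 0) (nat_lit 0) (XT.lf (nat_lit 0) (nat_lit 96963720876) (nat_lit 76) (nat_lit 51023218629) (nat_lit 76) (nat_lit 42725047809) (nat_lit 3) (nat_lit 4) (nat_lit 4) (nat_lit 5) (nat_lit 4) (nat_lit 4) (nat_lit 363) (nat_lit 239) (nat_lit 178)) (XT.lf (nat_lit 0) (nat_lit 106834950722) (nat_lit 76) (nat_lit 50798126078) (nat_lit 76) (nat_lit 42478725585) (nat_lit 3) (nat_lit 4) (nat_lit 4) (nat_lit 5) (nat_lit 4) (nat_lit 4) (nat_lit 364) (nat_lit 239) (nat_lit 177))) (XT.nd (nat_lit 78) (nat_lit 0) (nat_lit 0) (XT.lf (nat_lit 0) (nat_lit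 117178087361) (nat_lit 76) (nat_lit 50571862728) (nat_lit 76) (nat_lit 42232243498) (nat_lit 3) (nat_lit 4) (nat_lit 4) (nat_lit 5) (nat_lit 4) (nat_lit 4) (nat_lit 365) (nat_lit 239) (nat_lit 176)) (XT.nd (nat_lit 78) (nat_lit 0) (nat_lit 0) (XT.lf (nat_lit 0) (nat_lit 128017757308) (nat_lit 76) (nat_lit 50343889855) (nat_lit 76) (nat_lit 41985014686) (nat_lit 3) (nat_lit 4) (nat_lit 4) (nat_lit 5) (nat_lit 4) (nat_lit 4) (nat_lit 366) (nat_lit 239) (nat_lit 175)) (XT.lf (nat_lit 0) (nat_lit 139379769301) (nat_lit 76) (nat_lit 50113664668) (nat_lit 76) (nat_lit 41736450509) (nat_lit 3) (nat_lit 4) (nat_lit 4) (nat_lit 5) (nat_lit 4) (nat_lit 4) (nat_lit 367) (nat_lit 239) (nat_lit 174))))))) (XT.nd (nat_lit 780) (nat_lit 0) (nat_lit 0) (XT.nd (nat_lit 390) (nat_lit 0) (nat_lit 0) (XT.nd (nat_lit 156) (nat_lit 0) (nat_lit 0) (XT.nd (nat_lit 78) (nat_lit 0) (nat_lit 0) (XT.lf (nat_lit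 0) (nat_lit 151291175750) (nat_lit 76) (nat_lit 49880639010) (nat_lit 76) (nat_lit 41485959147) (nat_lit 3) (nat_lit 4) (nat_lit 4) (nat_lit 5) (nat_lit 4) (nat_lit 4) (nat_lit 368) (nat_lit 239) (nat_lit 173)) (XT.lf (nat_lit 0) (nat_lit 163780337145) (nat_lit 76) (nat_lit 49644258060) (nat_lit 76) (nat_lit 41232944192) (nat_lit 3) (nat_lit 4) (nat_lit 4) (nat_lit 5) (nat_lit 4) (nat_lit 4) (nat_lit 369) (nat_lit 239) (nat_lit 172))) (XT.nd (nat_lit 78) (nat_lit 0) (nat_lit 0) (XT.lf (nat_lit 0) (nat_lit 176876989586) (nat_lit 76) (nat_lit 49403959006) (nat_lit 76) (nat_lit 40976803228) (nat_lit 3) (nat_lit 4) (nat_lit 4) (nat_lit 5) (nat_lit 4) (nat_lit 4) (nat_lit 370) (nat_lit 239) (nat_lit 171)) (XT.nd (nat_lit 78) (nat_lit 0) (nat_lit 0) (XT.lf (nat_lit 0) (nat_lit 190612315579) (nat_lit 76) (nat_lit 49159169706) (nat_lit 76) (nat_lit 40716926396) (nat_lit 3) (nat_lit 4) (nat_lit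 4) (nat_lit 5) (nat_lit 4) (nat_lit 4) (nat_lit 371) (nat_lit 239) (nat_lit 170)) (XT.lf (nat_lit 0) (nat_lit 205019018280) (nat_lit 76) (nat_lit 48909307329) (nat_lit 76) (nat_lit 40452694941) (nat_lit 3) (nat_lit 4) (nat_lit 4) (nat_lit 5) (nat_lit 4) (nat_lit 4) (nat_lit 372) (nat_lit 239) (nat_lit 169))))) (XT.nd (nat_lit 156) (nat_lit 0) (nat_lit 0) (XT.nd (nat_lit 78) (nat_lit 0) (nat_lit 0) (XT.lf (nat_lit 0) (nat_lit 220131399363) (nat_lit 76) (nat_lit 48653776965) (nat_lit 76) (nat_lit 40183479740) (nat_lit 3) (nat_lit 4) (nat_lit 4) (nat_lit 5) (nat_lit 4) (nat_lit 4) (nat_lit 373) (nat_lit 239) (nat_lit 168)) (XT.lf (nat_lit 0) (nat_lit 235985440687) (nat_lit 76) (nat_lit 48391970208) (nat_lit 76) (nat_lit 39908639805) (nat_lit 3) (nat_lit 4) (nat_lit 4) (nat_lit 5) (nat_lit 4) (nat_lit 4) (nat_lit 374) (nat_lit 239) (nat_lit 167))) (XT.nd (nat_lit 78) (nat_lit 0) (nat_lit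 0) (XT.lf (nat_lit 0) (nat_lit 252618889969) (nat_lit 76) (nat_lit 48123263708) (nat_lit 76) (nat_lit 39627520755) (nat_lit 3) (nat_lit 4) (nat_lit 4) (nat_lit 5) (nat_lit 4) (nat_lit 4) (nat_lit 375) (nat_lit 239) (nat_lit 166)) (XT.nd (nat_lit 78) (nat_lit 0) (nat_lit 0) (XT.lf (nat_lit 0) (nat_lit 270071350661) (nat_lit 76) (nat_lit 47847017689) (nat_lit 76) (nat_lit 39339453259) (nat_lit 3) (nat_lit 4) (nat_lit 4) (nat_lit 5) (nat_lit 4) (nat_lit 4) (nat_lit 376) (nat_lit 239) (nat_lit 165)) (XT.lf (nat_lit 0) (nat_lit 288384376241) (nat_lit 76) (nat_lit 47562574421) (nat_lit 76) (nat_lit 39043751443) (nat_lit 3) (nat_lit 4) (nat_lit 4) (nat_lit 5) (nat_lit 4) (nat_lit 4) (nat_lit 377) (nat_lit 239) (nat_lit 164)))))) (XT.nd (nat_lit 390) (nat_lit 0) (nat_lit 0) (XT.nd (nat_lit 156) (nat_lit 0) (nat_lit 0) (XT.nd (nat_lit 78) (nat_lit 0) (nat_lit 0) (XT.lf (nat_lit 0) (nat_lit 307601569150)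 (nat_lit 76) (nat_lit 47269256659) (nat_lit 76) (nat_lit 38739711253) (nat_lit 3) (nat_lit 4) (nat_lit 4) (nat_lit 5) (nat_lit 4) (nat_lit 4) (nat_lit 378) (nat_lit 239) (nat_lit 163)) (XT.lf (nat_lit 0) (nat_lit 327768684608) (nat_lit 76) (nat_lit 46966366028) (nat_lit 76) (nat_lit 38426608786) (nat_lit 3) (nat_lit 4) (nat_lit 4) (nat_lit 5) (nat_lit 4) (nat_lit 4) (nat_lit 379) (nat_lit 239) (nat_lit 162))) (XT.nd (nat_lit 78) (nat_lit 0) (nat_lit 0) (XT.lf (nat_lit 0) (nat_lit 348933739559) (nat_lit 76) (nat_lit 46653181358) (nat_lit 76) (nat_lit 38103698558) (nat_lit 3) (nat_lit 4) (nat_lit 4) (nat_lit 5) (nat_lit 4) (nat_lit 4) (nat_lit 380) (nat_lit 239) (nat_lit 161)) (XT.nd (nat_lit 78) (nat_lit 0) (nat_lit 0) (XT.lf (nat_lit 0) (nat_lit 371147126990) (nat_lit 76) (nat_lit 46328956972) (nat_lit 76) (nat_lit 37770211736) (nat_lit 3) (nat_lit 4) (nat_lit 4) (nat_lit 5) (nat_lit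 4) (nat_lit 4) (nat_lit 381) (nat_lit 239) (nat_lit 160)) (XT.lf (nat_lit 0) (nat_lit 394461735919) (nat_lit 76) (nat_lit 45992920908) (nat_lit 76) (nat_lit 37425354304) (nat_lit 3) (nat_lit 4) (nat_lit 4) (nat_lit 5) (nat_lit 4) (nat_lit 4) (nat_lit 382) (nat_lit 239) (nat_lit 159))))) (XT.nd (nat_lit 156) (nat_lit 0) (nat_lit 0) (XT.nd (nat_lit 78) (nat_lit 0) (nat_lit 0) (XT.lf (nat_lit 0) (nat_lit 418933077318) (nat_lit 76) (nat_lit 45644273079) (nat_lit 76) (nat_lit 37068305173) (nat_lit 3) (nat_lit 4) (nat_lit 4) (nat_lit 5) (nat_lit 4) (nat_lit 4) (nat_lit 383) (nat_lit 239) (nat_lit 158)) (XT.lf (nat_lit 0) (nat_lit 444619416288) (nat_lit 76) (nat_lit 45282183372) (nat_lit 76) (nat_lit 36698214225) (nat_lit 3) (nat_lit 4) (nat_lit 4) (nat_lit 5) (nat_lit 4) (nat_lit 4) (nat_lit 384) (nat_lit 239) (nat_lit 157))) (XT.nd (nat_lit 78) (nat_lit 0) (nat_lit 0) (XT.lf (nat_lit 0)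 (nat_lit 471581910777) (nat_lit 76) (nat_lit 44905789668) (nat_lit 76) (nat_lit 36314200292) (nat_lit 3) (nat_lit 4) (nat_lit 4) (nat_lit 5) (nat_lit 4) (nat_lit 4) (nat_lit 385) (nat_lit 239) (nat_lit 156)) (XT.nd (nat_lit 78) (nat_lit 0) (nat_lit 0) (XT.lf (nat_lit 0) (nat_lit 499884757201) (nat_lit 76) (nat_lit 44514195792) (nat_lit 76) (nat_lit 35915349055) (nat_lit 3) (nat_lit 4) (nat_lit 4) (nat_lit 5) (nat_lit 4) (nat_lit 4) (nat_lit 386) (nat_lit 239) (nat_lit 155)) (XT.lf (nat_lit 0) (nat_lit 529595343290) (nat_lit 76) (nat_lit 44106469378) (nat_lit 76) (nat_lit 35500710868) (nat_lit 3) (nat_lit 4) (nat_lit 4) (nat_lit 5) (nat_lit 4) (nat_lit 4) (nat_lit 387) (nat_lit 239) (nat_lit 154))))))))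
noncomputable def xc51 : XT := (XT.nd (nat_lit 35178) (nat_lit 0) (nat_lit 76) (XT.nd (nat_lit 34398) (nat_lit 0) (nat_lit 532) (XT.nd (nat_lit 34008) (nat_lit 0) (nat_lit 1064) (XT.nd (nat_lit 33852) (nat_lit 0) (nat_lit 1368) (XT.nd (nat_lit 33774) (nat_lit 0) (nat_lit 1520) (XT.lf (nat_lit 0) (nat_lit 560784408535) (nat_lit 76) (nat_lit 43681639647) (nat_lit 76) (nat_lit 35069298497) (nat_lit 3) (nat_lit 4) (nat_lit 4) (nat_lit 5) (nat_lit 4) (nat_lit 4) (nat_lit 388) (nat_lit 239) (nat_lit 153)) (XT.lf (nat_lit 0) (nat_lit 319629249) (nat_lit 152) (nat_lit 2993628498) (nat_lit 152) (nat_lit 2993628498) (nat_lit 23) (nat_lit 4) (nat_lit 25) (nat_lit 5) (nat_lit 25) (nat_lit 4) (nat_lit 300) (nat_lit 240) (nat_lit 240))) (XT.nd (nat_lit 78) (nat_lit 152) (nat_lit 0) (XT.lf (nat_lit 0) (nat_lit 8150017060) (nat_lit 152) (nat_lit 2723891620) (nat_lit 152) (nat_lit 2138002211) (nat_lit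 23) (nat_lit 4) (nat_lit 25) (nat_lit 5) (nat_lit 25) (nat_lit 4) (nat_lit 301) (nat_lit 240) (nat_lit 239)) (XT.lf (nat_lit 0) (nat_lit 1745841079) (nat_lit 152) (nat_lit 11031223559) (nat_lit 0) (nat_lit 656432200) (nat_lit 21) (nat_lit 5) (nat_lit 23) (nat_lit 4) (nat_lit 21) (nat_lit 4) (nat_lit 302) (nat_lit 240) (nat_lit 238)))) (XT.nd (nat_lit 156) (nat_lit 152) (nat_lit 0) (XT.nd (nat_lit 78) (nat_lit 152) (nat_lit 0) (XT.lf (nat_lit 0) (nat_lit 5736900477) (nat_lit 152) (nat_lit 3997058129) (nat_lit 0) (nat_lit 4141378298) (nat_lit 21) (nat_lit 5) (nat_lit 23) (nat_lit 4) (nat_lit 21) (nat_lit 4) (nat_lit 303) (nat_lit 240) (nat_lit 237)) (XT.lf (nat_lit 0) (nat_lit 3262372134) (nat_lit 152) (nat_lit 6579439804) (nat_lit 152) (nat_lit 4501904957) (nat_lit 19) (nat_lit 4) (nat_lit 21) (nat_lit 5) (nat_lit 21) (nat_lit 4) (nat_lit 304) (nat_lit 240) (nat_lit 236))) (XT.nd (nat_lit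 78) (nat_lit 152) (nat_lit 0) (XT.lf (nat_lit 0) (nat_lit 10796406569) (nat_lit 152) (nat_lit 3289579067) (nat_lit 152) (nat_lit 752984538) (nat_lit 19) (nat_lit 4) (nat_lit 21) (nat_lit 5) (nat_lit 21) (nat_lit 4) (nat_lit 305) (nat_lit 240) (nat_lit 235)) (XT.nd (nat_lit 78) (nat_lit 0) (nat_lit 0) (XT.lf (nat_lit 0) (nat_lit 3004371496) (nat_lit 152) (nat_lit 12183939844) (nat_lit 0) (nat_lit 172186517) (nat_lit 17) (nat_lit 5) (nat_lit 19) (nat_lit 4) (nat_lit 17) (nat_lit 4) (nat_lit 306) (nat_lit 240) (nat_lit 234)) (XT.lf (nat_lit 0) (nat_lit 6919628739) (nat_lit 152) (nat_lit 5297332307) (nat_lit 0) (nat_lit 3690890747) (nat_lit 17) (nat_lit 5) (nat_lit 19) (nat_lit 4) (nat_lit 17) (nat_lit 4) (nat_lit 307) (nat_lit 240) (nat_lit 233)))))) (XT.nd (nat_lit 390) (nat_lit 228) (nat_lit 0) (XT.nd (nat_lit 156) (nat_lit 152) (nat_lit 0) (XT.nd (nat_lit 78) (nat_lit 0) (nat_lit 0)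 (XT.lf (nat_lit 0) (nat_lit 1778879882) (nat_lit 152) (nat_lit 9157471775) (nat_lit 152) (nat_lit 5551064246) (nat_lit 15) (nat_lit 4) (nat_lit 17) (nat_lit 5) (nat_lit 17) (nat_lit 4) (nat_lit 308) (nat_lit 240) (nat_lit 232)) (XT.lf (nat_lit 0) (nat_lit 9184566994) (nat_lit 152) (nat_lit 5939547686) (nat_lit 152) (nat_lit 1973454884) (nat_lit 15) (nat_lit 4) (nat_lit 17) (nat_lit 5) (nat_lit 17) (nat_lit 4) (nat_lit 309) (nat_lit 240) (nat_lit 231))) (XT.nd (nat_lit 78) (nat_lit 76) (nat_lit 0) (XT.lf (nat_lit 0) (nat_lit 1610170747) (nat_lit 228) (nat_lit 1007800173) (nat_lit 76) (nat_lit 15124768118) (nat_lit 14) (nat_lit 5) (nat_lit 17) (nat_lit 5) (nat_lit 15) (nat_lit 4) (nat_lit 310) (nat_lit 240) (nat_lit 230)) (XT.nd (nat_lit 78) (nat_lit 0) (nat_lit 0) (XT.lf (nat_lit 0) (nat_lit 5307847926) (nat_lit 152) (nat_lit 12217085026) (nat_lit 0) (nat_lit 893661876) (nat_lit 13)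 (nat_lit 5) (nat_lit 15) (nat_lit 4) (nat_lit 13) (nat_lit 4) (nat_lit 311) (nat_lit 240) (nat_lit 229)) (XT.lf (nat_lit 0) (nat_lit 9141411373) (nat_lit 152) (nat_lit 5558070547) (nat_lit 0) (nat_lit 4431311359) (nat_lit 13) (nat_lit 5) (nat_lit 15) (nat_lit 4) (nat_lit 13) (nat_lit 4) (nat_lit 312) (nat_lit 240) (nat_lit 228))))) (XT.nd (nat_lit 156) (nat_lit 152) (nat_lit 0) (XT.nd (nat_lit 78) (nat_lit 0) (nat_lit 0) (XT.lf (nat_lit 0) (nat_lit 1290673810) (nat_lit 76) (nat_lit 11792070670) (nat_lit 76) (nat_lit 6800147832) (nat_lit 12) (nat_lit 4) (nat_lit 13) (nat_lit 5) (nat_lit 13) (nat_lit 4) (nat_lit 313) (nat_lit 240) (nat_lit 227)) (XT.lf (nat_lit 0) (nat_lit 8493264877) (nat_lit 76) (nat_lit 8720069078) (nat_lit 76) (nat_lit 3459743551) (nat_lit 12) (nat_lit 4) (nat_lit 13) (nat_lit 5) (nat_lit 13) (nat_lit 4) (nat_lit 314) (nat_lit 240) (nat_lit 226))) (XT.nd (nat_lit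 78) (nat_lit 152) (nat_lit 0) (XT.lf (nat_lit 0) (nat_lit 15883076765) (nat_lit 76) (nat_lit 5570291470) (nat_lit 76) (nat_lit 54344335) (nat_lit 12) (nat_lit 4) (nat_lit 13) (nat_lit 5) (nat_lit 13) (nat_lit 4) (nat_lit 315) (nat_lit 240) (nat_lit 225)) (XT.nd (nat_lit 78) (nat_lit 0) (nat_lit 0) (XT.lf (nat_lit 0) (nat_lit 1069695775) (nat_lit 76) (nat_lit 2261568644) (nat_lit 152) (nat_lit 19054012230) (nat_lit 10) (nat_lit 5) (nat_lit 11) (nat_lit 5) (nat_lit 12) (nat_lit 4) (nat_lit 316) (nat_lit 240) (nat_lit 224)) (XT.lf (nat_lit 0) (nat_lit 6906780376) (nat_lit 152) (nat_lit 15198020474) (nat_lit 0) (nat_lit 1200825499) (nat_lit 10) (nat_lit 5) (nat_lit 12) (nat_lit 4) (nat_lit 10) (nat_lit 4) (nat_lit 317) (nat_lit 240) (nat_lit 223))))))) (XT.nd (nat_lit 780) (nat_lit 228) (nat_lit 0) (XT.nd (nat_lit 390) (nat_lit 152) (nat_lit 0) (XT.nd (nat_lit 156) (nat_lit 76) (nat_lit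 0) (XT.nd (nat_lit 78) (nat_lit 0) (nat_lit 0) (XT.lf (nat_lit 0) (nat_lit 10609293363) (nat_lit 152) (nat_lit 8972322218) (nat_lit 0) (nat_lit 4693037956) (nat_lit 10) (nat_lit 5) (nat_lit 12) (nat_lit 4) (nat_lit 10) (nat_lit 4) (nat_lit 318) (nat_lit 240) (nat_lit 222)) (XT.lf (nat_lit 0) (nat_lit 14412309462) (nat_lit 152) (nat_lit 2588353591) (nat_lit 0) (nat_lit 8295767836) (nat_lit 10) (nat_lit 5) (nat_lit 12) (nat_lit 4) (nat_lit 10) (nat_lit 4) (nat_lit 319) (nat_lit 240) (nat_lit 221))) (XT.nd (nat_lit 78) (nat_lit 0) (nat_lit 0) (XT.lf (nat_lit 0) (nat_lit 4100321217) (nat_lit 76) (nat_lit 14288579762) (nat_lit 76) (nat_lit 7981289356) (nat_lit 9) (nat_lit 4) (nat_lit 10) (nat_lit 5) (nat_lit 10) (nat_lit 4) (nat_lit 320) (nat_lit 240) (nat_lit 220)) (XT.nd (nat_lit 78) (nat_lit 0) (nat_lit 0) (XT.lf (nat_lit 0) (nat_lit 11069913879) (nat_lit 76) (nat_lit 11459249552) (nat_lit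 76) (nat_lit 4970293641) (nat_lit 9) (nat_lit 4) (nat_lit 10) (nat_lit 5) (nat_lit 10) (nat_lit 4) (nat_lit 321) (nat_lit 240) (nat_lit 219)) (XT.lf (nat_lit 0) (nat_lit 18251436000) (nat_lit 76) (nat_lit 8549770944) (nat_lit 76) (nat_lit 1887800267) (nat_lit 9) (nat_lit 4) (nat_lit 10) (nat_lit 5) (nat_lit 10) (nat_lit 4) (nat_lit 322) (nat_lit 240) (nat_lit 218))))) (XT.nd (nat_lit 156) (nat_lit 0) (nat_lit 0) (XT.nd (nat_lit 78) (nat_lit 76) (nat_lit 0) (XT.lf (nat_lit 0) (nat_lit 1232769121) (nat_lit 152) (nat_lit 4299569946) (nat_lit 76) (nat_lit 24408339783) (nat_lit 8) (nat_lit 5) (nat_lit 10) (nat_lit 5) (nat_lit 9) (nat_lit 4) (nat_lit 323) (nat_lit 240) (nat_lit 217)) (XT.lf (nat_lit 0) (nat_lit 2053921691) (nat_lit 76) (nat_lit 2354662615) (nat_lit 152) (nat_lit 26846719899) (nat_lit 7) (nat_lit 5) (nat_lit 8) (nat_lit 5) (nat_lit 9) (nat_lit 4) (nat_lit 324) (nat_lit 240)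 (nat_lit 216))) (XT.nd (nat_lit 78) (nat_lit 0) (nat_lit 0) (XT.lf (nat_lit 0) (nat_lit 7763612053) (nat_lit 152) (nat_lit 23900923539) (nat_lit 0) (nat_lit 970152245) (nat_lit 7) (nat_lit 5) (nat_lit 9) (nat_lit 4) (nat_lit 7) (nat_lit 4) (nat_lit 325) (nat_lit 240) (nat_lit 215)) (XT.nd (nat_lit 78) (nat_lit 0) (nat_lit 0) (XT.lf (nat_lit 0) (nat_lit 11259356629) (nat_lit 152) (nat_lit 18494746334) (nat_lit 0) (nat_lit 4330335224) (nat_lit 7) (nat_lit 5) (nat_lit 9) (nat_lit 4) (nat_lit 7) (nat_lit 4) (nat_lit 326) (nat_lit 240) (nat_lit 214)) (XT.lf (nat_lit 0) (nat_lit 14867378352) (nat_lit 152) (nat_lit 12933216167) (nat_lit 0) (nat_lit 7809250664) (nat_lit 7) (nat_lit 5) (nat_lit 9) (nat_lit 4) (nat_lit 7) (nat_lit 4) (nat_lit 327) (nat_lit 240) (nat_lit 213)))))) (XT.nd (nat_lit 390) (nat_lit 152) (nat_lit 0) (XT.nd (nat_lit 156) (nat_lit 76) (nat_lit 0) (XT.nd (nat_lit 78) (nat_lit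 0) (nat_lit 0) (XT.lf (nat_lit 0) (nat_lit 18596267752) (nat_lit 152) (nat_lit 7203091299) (nat_lit 0) (nat_lit 11415181699) (nat_lit 7) (nat_lit 5) (nat_lit 9) (nat_lit 4) (nat_lit 7) (nat_lit 4) (nat_lit 328) (nat_lit 240) (nat_lit 212)) (XT.lf (nat_lit 0) (nat_lit 22454903135) (nat_lit 152) (nat_lit 1290728577) (nat_lit 0) (nat_lit 15156713878) (nat_lit 7) (nat_lit 5) (nat_lit 9) (nat_lit 4) (nat_lit 7) (nat_lit 4) (nat_lit 329) (nat_lit 240) (nat_lit 211))) (XT.nd (nat_lit 78) (nat_lit 0) (nat_lit 0) (XT.lf (nat_lit 0) (nat_lit 4977252208) (nat_lit 76) (nat_lit 21552928377) (nat_lit 76) (nat_lit 14143212259) (nat_lit 6) (nat_lit 4) (nat_lit 7) (nat_lit 5) (nat_lit 7) (nat_lit 4) (nat_lit 330) (nat_lit 240) (nat_lit 210)) (XT.nd (nat_lit 78) (nat_lit 0) (nat_lit 0) (XT.lf (nat_lit 0) (nat_lit 11505741652) (nat_lit 76) (nat_lit 19272386775) (nat_lit 76) (nat_lit 11756454599) (nat_lit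 6) (nat_lit 4) (nat_lit 7) (nat_lit 5) (nat_lit 7) (nat_lit 4) (nat_lit 331) (nat_lit 240) (nat_lit 209)) (XT.lf (nat_lit 0) (nat_lit 18267606461) (nat_lit 76) (nat_lit 16920436158) (nat_lit 76) (nat_lit 9303345832) (nat_lit 6) (nat_lit 4) (nat_lit 7) (nat_lit 5) (nat_lit 7) (nat_lit 4) (nat_lit 332) (nat_lit 240) (nat_lit 208))))) (XT.nd (nat_lit 156) (nat_lit 152) (nat_lit 0) (XT.nd (nat_lit 78) (nat_lit 0) (nat_lit 0) (XT.lf (nat_lit 0) (nat_lit 25278946314) (nat_lit 76) (nat_lit 14491476644) (nat_lit 76) (nat_lit 6778045222) (nat_lit 6) (nat_lit 4) (nat_lit 7) (nat_lit 5) (nat_lit 7) (nat_lit 4) (nat_lit 333) (nat_lit 240) (nat_lit 207)) (XT.lf (nat_lit 0) (nat_lit 32556454877) (nat_lit 76) (nat_lit 11979724997) (nat_lit 76) (nat_lit 4174540150) (nat_lit 6) (nat_lit 4) (nat_lit 7) (nat_lit 5) (nat_lit 7) (nat_lit 4) (nat_lit 334) (nat_lit 240) (nat_lit 206))) (XT.nd (nat_lit 78)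 (nat_lit 152) (nat_lit 0) (XT.lf (nat_lit 0) (nat_lit 40117459551) (nat_lit 76) (nat_lit 9379200854) (nat_lit 76) (nat_lit 1486631793) (nat_lit 6) (nat_lit 4) (nat_lit 7) (nat_lit 5) (nat_lit 7) (nat_lit 4) (nat_lit 335) (nat_lit 240) (nat_lit 205)) (XT.nd (nat_lit 78) (nat_lit 76) (nat_lit 0) (XT.lf (nat_lit 0) (nat_lit 1250725011) (nat_lit 152) (nat_lit 5411805847) (nat_lit 76) (nat_lit 46708056083) (nat_lit 5) (nat_lit 5) (nat_lit 7) (nat_lit 5) (nat_lit 6) (nat_lit 4) (nat_lit 336) (nat_lit 240) (nat_lit 204)) (XT.lf (nat_lit 0) (nat_lit 223442117) (nat_lit 76) (nat_lit 3814847783) (nat_lit 152) (nat_lit 51839598437) (nat_lit 4) (nat_lit 5) (nat_lit 5) (nat_lit 5) (nat_lit 6) (nat_lit 4) (nat_lit 337) (nat_lit 240) (nat_lit 203))))))))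
noncomputable def xc52 : XT := (XT.nd (nat_lit 1482) (nat_lit 0) (nat_lit 0) (XT.nd (nat_lit 702) (nat_lit 76) (nat_lit 0) (XT.nd (nat_lit 312) (nat_lit 0) (nat_lit 0) (XT.nd (nat_lit 156) (nat_lit 0) (nat_lit 0) (XT.nd (nat_lit 78) (nat_lit 0) (nat_lit 0) (XT.lf (nat_lit 0) (nat_lit 6255275207) (nat_lit 76) (nat_lit 762194625) (nat_lit 152) (nat_lit 51490497425) (nat_lit 4) (nat_lit 5) (nat_lit 5) (nat_lit 5) (nat_lit 6) (nat_lit 4) (nat_lit 338) (nat_lit 240) (nat_lit 202)) (XT.lf (nat_lit 0) (nat_lit 10145714074) (nat_lit 152) (nat_lit 48789977139) (nat_lit 0) (nat_lit 2333876780) (nat_lit 4) (nat_lit 5) (nat_lit 6) (nat_lit 4) (nat_lit 4) (nat_lit 4) (nat_lit 339) (nat_lit 240) (nat_lit 201))) (XT.nd (nat_lit 78) (nat_lit 0) (nat_lit 0) (XT.lf (nat_lit 0) (nat_lit 13406638677) (nat_lit 152) (nat_lit 45234224777) (nat_lit 0) (nat_lit 5529593938) (nat_lit 4) (nat_lit 5) (nat_lit 6)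 (nat_lit 4) (nat_lit 4) (nat_lit 4) (nat_lit 340) (nat_lit 240) (nat_lit 200)) (XT.lf (nat_lit 0) (nat_lit 16796107754) (nat_lit 152) (nat_lit 41565068894) (nat_lit 0) (nat_lit 8856960686) (nat_lit 4) (nat_lit 5) (nat_lit 6) (nat_lit 4) (nat_lit 4) (nat_lit 4) (nat_lit 341) (nat_lit 240) (nat_lit 199)))) (XT.nd (nat_lit 156) (nat_lit 0) (nat_lit 0) (XT.nd (nat_lit 78) (nat_lit 0) (nat_lit 0) (XT.lf (nat_lit 0) (nat_lit 20322191470) (nat_lit 152) (nat_lit 37773773404) (nat_lit 0) (nat_lit 12323899325) (nat_lit 4) (nat_lit 5) (nat_lit 6) (nat_lit 4) (nat_lit 4) (nat_lit 4) (nat_lit 342) (nat_lit 240) (nat_lit 198)) (XT.lf (nat_lit 0) (nat_lit 23993285261) (nat_lit 152) (nat_lit 33851311414) (nat_lit 0) (nat_lit 15938664473) (nat_lit 4) (nat_lit 5) (nat_lit 6) (nat_lit 4) (nat_lit 4) (nat_lit 4) (nat_lit 343) (nat_lit 240) (nat_lit 197))) (XT.nd (nat_lit 78) (nat_lit 0) (nat_lit 0) (XT.lf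 (nat_lit 0) (nat_lit 27818129828) (nat_lit 152) (nat_lit 29788343728) (nat_lit 0) (nat_lit 19709862713) (nat_lit 4) (nat_lit 5) (nat_lit 6) (nat_lit 4) (nat_lit 4) (nat_lit 4) (nat_lit 344) (nat_lit 240) (nat_lit 196)) (XT.nd (nat_lit 78) (nat_lit 0) (nat_lit 0) (XT.lf (nat_lit 0) (nat_lit 31805831942) (nat_lit 152) (nat_lit 25575196613) (nat_lit 0) (nat_lit 23646473087) (nat_lit 4) (nat_lit 5) (nat_lit 6) (nat_lit 4) (nat_lit 4) (nat_lit 4) (nat_lit 345) (nat_lit 240) (nat_lit 195)) (XT.lf (nat_lit 0) (nat_lit 35965886134) (nat_lit 152) (nat_lit 21201838768) (nat_lit 0) (nat_lit 27757868478) (nat_lit 4) (nat_lit 5) (nat_lit 6) (nat_lit 4) (nat_lit 4) (nat_lit 4) (nat_lit 346) (nat_lit 240) (nat_lit 194)))))) (XT.nd (nat_lit 390) (nat_lit 0) (nat_lit 0) (XT.nd (nat_lit 156) (nat_lit 76) (nat_lit 0) (XT.nd (nat_lit 78) (nat_lit 0) (nat_lit 0) (XT.lf (nat_lit 0) (nat_lit 40308197293)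 (nat_lit 152) (nat_lit 16657857434) (nat_lit 0) (nat_lit 32053837923) (nat_lit 4) (nat_lit 5) (nat_lit 6) (nat_lit 4) (nat_lit 4) (nat_lit 4) (nat_lit 347) (nat_lit 240) (nat_lit 193)) (XT.lf (nat_lit 0) (nat_lit 44843104255) (nat_lit 152) (nat_lit 11932433610) (nat_lit 0) (nat_lit 36544609920) (nat_lit 4) (nat_lit 5) (nat_lit 6) (nat_lit 4) (nat_lit 4) (nat_lit 4) (nat_lit 348) (nat_lit 240) (nat_lit 192))) (XT.nd (nat_lit 78) (nat_lit 76) (nat_lit 0) (XT.lf (nat_lit 0) (nat_lit 49581404420) (nat_lit 152) (nat_lit 7014316285) (nat_lit 0) (nat_lit 41240876783) (nat_lit 4) (nat_lit 5) (nat_lit 6) (nat_lit 4) (nat_lit 4) (nat_lit 4) (nat_lit 349) (nat_lit 240) (nat_lit 191)) (XT.nd (nat_lit 78) (nat_lit 76) (nat_lit 0) (XT.lf (nat_lit 0) (nat_lit 54534379452) (nat_lit 152) (nat_lit 1891795657) (nat_lit 0) (nat_lit 46153820101) (nat_lit 4) (nat_lit 5) (nat_lit 6) (nat_lit 4) (nat_lit 4)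 (nat_lit 4) (nat_lit 350) (nat_lit 240) (nat_lit 190)) (XT.lf (nat_lit 0) (nat_lit 3561308876) (nat_lit 76) (nat_lit 56208115287) (nat_lit 76) (nat_lit 47789430492) (nat_lit 3) (nat_lit 4) (nat_lit 4) (nat_lit 5) (nat_lit 4) (nat_lit 4) (nat_lit 351) (nat_lit 240) (nat_lit 189))))) (XT.nd (nat_lit 156) (nat_lit 0) (nat_lit 0) (XT.nd (nat_lit 78) (nat_lit 0) (nat_lit 0) (XT.lf (nat_lit 0) (nat_lit 9313858780) (nat_lit 76) (nat_lit 55963621180) (nat_lit 76) (nat_lit 47508626439) (nat_lit 3) (nat_lit 4) (nat_lit 4) (nat_lit 5) (nat_lit 4) (nat_lit 4) (nat_lit 352) (nat_lit 240) (nat_lit 188)) (XT.lf (nat_lit 0) (nat_lit 15316999293) (nat_lit 76) (nat_lit 55724149135) (nat_lit 76) (nat_lit 47234573494) (nat_lit 3) (nat_lit 4) (nat_lit 4) (nat_lit 5) (nat_lit 4) (nat_lit 4) (nat_lit 353) (nat_lit 240) (nat_lit 187))) (XT.nd (nat_lit 78) (nat_lit 0) (nat_lit 0) (XT.lf (nat_lit 0) (nat_lit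 21585023606) (nat_lit 76) (nat_lit 55489128981) (nat_lit 76) (nat_lit 46966619149) (nat_lit 3) (nat_lit 4) (nat_lit 4) (nat_lit 5) (nat_lit 4) (nat_lit 4) (nat_lit 354) (nat_lit 240) (nat_lit 186)) (XT.nd (nat_lit 78) (nat_lit 0) (nat_lit 0) (XT.lf (nat_lit 0) (nat_lit 28132855589) (nat_lit 76) (nat_lit 55258001146) (nat_lit 76) (nat_lit 46704125417) (nat_lit 3) (nat_lit 4) (nat_lit 4) (nat_lit 5) (nat_lit 4) (nat_lit 4) (nat_lit 355) (nat_lit 240) (nat_lit 185)) (XT.lf (nat_lit 0) (nat_lit 34976085315) (nat_lit 76) (nat_lit 55030215325) (nat_lit 76) (nat_lit 46446467313) (nat_lit 3) (nat_lit 4) (nat_lit 4) (nat_lit 5) (nat_lit 4) (nat_lit 4) (nat_lit 356) (nat_lit 240) (nat_lit 184))))))) (XT.nd (nat_lit 780) (nat_lit 0) (nat_lit 0) (XT.nd (nat_lit 390) (nat_lit 0) (nat_lit 0) (XT.nd (nat_lit 156) (nat_lit 0) (nat_lit 0) (XT.nd (nat_lit 78) (nat_lit 0) (nat_lit 0) (XT.lf (nat_lit 0)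 (nat_lit 42131006191) (nat_lit 76) (nat_lit 54805229171) (nat_lit 76) (nat_lit 46193031367) (nat_lit 3) (nat_lit 4) (nat_lit 4) (nat_lit 5) (nat_lit 4) (nat_lit 4) (nat_lit 357) (nat_lit 240) (nat_lit 183)) (XT.lf (nat_lit 0) (nat_lit 49614653741) (nat_lit 76) (nat_lit 54582507003) (nat_lit 76) (nat_lit 45943214158) (nat_lit 3) (nat_lit 4) (nat_lit 4) (nat_lit 5) (nat_lit 4) (nat_lit 4) (nat_lit 358) (nat_lit 240) (nat_lit 182))) (XT.nd (nat_lit 78) (nat_lit 0) (nat_lit 0) (XT.lf (nat_lit 0) (nat_lit 57444846173) (nat_lit 76) (nat_lit 54361518530) (nat_lit 76) (nat_lit 45696420885) (nat_lit 3) (nat_lit 4) (nat_lit 4) (nat_lit 5) (nat_lit 4) (nat_lit 4) (nat_lit 359) (nat_lit 240) (nat_lit 181)) (XT.nd (nat_lit 78) (nat_lit 0) (nat_lit 0) (XT.lf (nat_lit 0) (nat_lit 65640226804) (nat_lit 76) (nat_lit 54141737589) (nat_lit 76) (nat_lit 45452063943) (nat_lit 3) (nat_lit 4) (nat_lit 4)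 (nat_lit 5) (nat_lit 4) (nat_lit 4) (nat_lit 360) (nat_lit 240) (nat_lit 180)) (XT.lf (nat_lit 0) (nat_lit 74220308445) (nat_lit 76) (nat_lit 53922640892) (nat_lit 76) (nat_lit 45209561531) (nat_lit 3) (nat_lit 4) (nat_lit 4) (nat_lit 5) (nat_lit 4) (nat_lit 4) (nat_lit 361) (nat_lit 240) (nat_lit 179))))) (XT.nd (nat_lit 156) (nat_lit 0) (nat_lit 0) (XT.nd (nat_lit 78) (nat_lit 0) (nat_lit 0) (XT.lf (nat_lit 0) (nat_lit 83205519860) (nat_lit 76) (nat_lit 53703706780) (nat_lit 76) (nat_lit 44968336263) (nat_lit 3) (nat_lit 4) (nat_lit 4) (nat_lit 5) (nat_lit 4) (nat_lit 4) (nat_lit 362) (nat_lit 240) (nat_lit 178)) (XT.lf (nat_lit 0) (nat_lit 92617254411) (nat_lit 76) (nat_lit 53484413982) (nat_lit 76) (nat_lit 44727813791) (nat_lit 3) (nat_lit 4) (nat_lit 4) (nat_lit 5) (nat_lit 4) (nat_lit 4) (nat_lit 363) (nat_lit 240) (nat_lit 177))) (XT.nd (nat_lit 78) (nat_lit 0) (nat_lit 0) (XT.lf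 (nat_lit 0) (nat_lit 102477920990) (nat_lit 76) (nat_lit 53264240371) (nat_lit 76) (nat_lit 44487421444) (nat_lit 3) (nat_lit 4) (nat_lit 4) (nat_lit 5) (nat_lit 4) (nat_lit 4) (nat_lit 364) (nat_lit 240) (nat_lit 176)) (XT.nd (nat_lit 78) (nat_lit 0) (nat_lit 0) (XT.lf (nat_lit 0) (nat_lit 112810997373) (nat_lit 76) (nat_lit 53042661726) (nat_lit 76) (nat_lit 44246586859) (nat_lit 3) (nat_lit 4) (nat_lit 4) (nat_lit 5) (nat_lit 4) (nat_lit 4) (nat_lit 365) (nat_lit 240) (nat_lit 175)) (XT.lf (nat_lit 0) (nat_lit 123641086124) (nat_lit 76) (nat_lit 52819150477) (nat_lit 76) (nat_lit 44004736620) (nat_lit 3) (nat_lit 4) (nat_lit 4) (nat_lit 5) (nat_lit 4) (nat_lit 4) (nat_lit 366) (nat_lit 240) (nat_lit 174)))))) (XT.nd (nat_lit 390) (nat_lit 0) (nat_lit 0) (XT.nd (nat_lit 156) (nat_lit 0) (nat_lit 0) (XT.nd (nat_lit 78) (nat_lit 0) (nat_lit 0) (XT.lf (nat_lit 0) (nat_lit 134993973169)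 (nat_lit 76) (nat_lit 52593174455) (nat_lit 76) (nat_lit 43761294894) (nat_lit 3) (nat_lit 4) (nat_lit 4) (nat_lit 5) (nat_lit 4) (nat_lit 4) (nat_lit 367) (nat_lit 240) (nat_lit 173)) (XT.lf (nat_lit 0) (nat_lit 146896689190) (nat_lit 76) (nat_lit 52364195623) (nat_lit 76) (nat_lit 43515682056) (nat_lit 3) (nat_lit 4) (nat_lit 4) (nat_lit 5) (nat_lit 4) (nat_lit 4) (nat_lit 368) (nat_lit 240) (nat_lit 172))) (XT.nd (nat_lit 78) (nat_lit 0) (nat_lit 0) (XT.lf (nat_lit 0) (nat_lit 159377573989) (nat_lit 76) (nat_lit 52131668791) (nat_lit 76) (nat_lit 43267313316) (nat_lit 3) (nat_lit 4) (nat_lit 4) (nat_lit 5) (nat_lit 4) (nat_lit 4) (nat_lit 369) (nat_lit 240) (nat_lit 171)) (XT.nd (nat_lit 78) (nat_lit 0) (nat_lit 0) (XT.lf (nat_lit 0) (nat_lit 172466343956) (nat_lit 76) (nat_lit 51895040325) (nat_lit 76) (nat_lit 43015597318) (nat_lit 3) (nat_lit 4) (nat_lit 4) (nat_lit 5) (nat_lit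 4) (nat_lit 4) (nat_lit 370) (nat_lit 240) (nat_lit 170)) (XT.lf (nat_lit 0) (nat_lit 186194162831) (nat_lit 76) (nat_lit 51653746824) (nat_lit 76) (nat_lit 42759934738) (nat_lit 3) (nat_lit 4) (nat_lit 4) (nat_lit 5) (nat_lit 4) (nat_lit 4) (nat_lit 371) (nat_lit 240) (nat_lit 169))))) (XT.nd (nat_lit 156) (nat_lit 0) (nat_lit 0) (XT.nd (nat_lit 78) (nat_lit 0) (nat_lit 0) (XT.lf (nat_lit 0) (nat_lit 200593715896) (nat_lit 76) (nat_lit 51407213780) (nat_lit 76) (nat_lit 42499716857) (nat_lit 3) (nat_lit 4) (nat_lit 4) (nat_lit 5) (nat_lit 4) (nat_lit 4) (nat_lit 372) (nat_lit 240) (nat_lit 168)) (XT.lf (nat_lit 0) (nat_lit 215699287802) (nat_lit 76) (nat_lit 51154854209) (nat_lit 76) (nat_lit 42234324108) (nat_lit 3) (nat_lit 4) (nat_lit 4) (nat_lit 5) (nat_lit 4) (nat_lit 4) (nat_lit 373) (nat_lit 240) (nat_lit 167))) (XT.nd (nat_lit 78) (nat_lit 0) (nat_lit 0) (XT.lf (nat_lit 0)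 (nat_lit 231546844196) (nat_lit 76) (nat_lit 50896067254) (nat_lit 76) (nat_lit 41963124603) (nat_lit 3) (nat_lit 4) (nat_lit 4) (nat_lit 5) (nat_lit 4) (nat_lit 4) (nat_lit 374) (nat_lit 240) (nat_lit 166)) (XT.nd (nat_lit 78) (nat_lit 0) (nat_lit 0) (XT.lf (nat_lit 0) (nat_lit 248174117354) (nat_lit 76) (nat_lit 50630236757) (nat_lit 76) (nat_lit 41685472630) (nat_lit 3) (nat_lit 4) (nat_lit 4) (nat_lit 5) (nat_lit 4) (nat_lit 4) (nat_lit 375) (nat_lit 240) (nat_lit 165)) (XT.lf (nat_lit 0) (nat_lit 265620696023) (nat_lit 76) (nat_lit 50356729788) (nat_lit 76) (nat_lit 41400707112) (nat_lit 3) (nat_lit 4) (nat_lit 4) (nat_lit 5) (nat_lit 4) (nat_lit 4) (nat_lit 376) (nat_lit 240) (nat_lit 164))))))))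
noncomputable def xc53 : XT := (XT.nd (nat_lit 35022) (nat_lit 0) (nat_lit 380) (XT.nd (nat_lit 702) (nat_lit 0) (nat_lit 0) (XT.nd (nat_lit 312) (nat_lit 0) (nat_lit 0) (XT.nd (nat_lit 156) (nat_lit 0) (nat_lit 0) (XT.nd (nat_lit 78) (nat_lit 0) (nat_lit 0) (XT.lf (nat_lit 0) (nat_lit 283928119676) (nat_lit 76) (nat_lit 50074895140) (nat_lit 76) (nat_lit 41108150036) (nat_lit 3) (nat_lit 4) (nat_lit 4) (nat_lit 5) (nat_lit 4) (nat_lit 4) (nat_lit 377) (nat_lit 240) (nat_lit 163)) (XT.lf (nat_lit 0) (nat_lit 303139977416) (nat_lit 76) (nat_lit 49784061777) (nat_lit 76) (nat_lit 40807104837) (nat_lit 3) (nat_lit 4) (nat_lit 4) (nat_lit 5) (nat_lit 4) (nat_lit 4) (nat_lit 378) (nat_lit 240) (nat_lit 162))) (XT.nd (nat_lit 78) (nat_lit 0) (nat_lit 0) (XT.lf (nat_lit 0) (nat_lit 323302011762) (nat_lit 76) (nat_lit 49483537240) (nat_lit 76) (nat_lit 40496854742) (nat_lit 3) (nat_lit 4) (nat_lit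 4) (nat_lit 5) (nat_lit 4) (nat_lit 4) (nat_lit 379) (nat_lit 240) (nat_lit 161)) (XT.lf (nat_lit 0) (nat_lit 344462227558) (nat_lit 76) (nat_lit 49172605993) (nat_lit 76) (nat_lit 40176661059) (nat_lit 3) (nat_lit 4) (nat_lit 4) (nat_lit 5) (nat_lit 4) (nat_lit 4) (nat_lit 380) (nat_lit 240) (nat_lit 160)))) (XT.nd (nat_lit 156) (nat_lit 0) (nat_lit 0) (XT.nd (nat_lit 78) (nat_lit 0) (nat_lit 0) (XT.lf (nat_lit 0) (nat_lit 366671006270) (nat_lit 76) (nat_lit 48850527725) (nat_lit 76) (nat_lit 39845761423) (nat_lit 3) (nat_lit 4) (nat_lit 4) (nat_lit 5) (nat_lit 4) (nat_lit 4) (nat_lit 381) (nat_lit 240) (nat_lit 159)) (XT.lf (nat_lit 0) (nat_lit 389981225942) (nat_lit 76) (nat_lit 48516535582) (nat_lit 76) (nat_lit 39503367978) (nat_lit 3) (nat_lit 4) (nat_lit 4) (nat_lit 5) (nat_lit 4) (nat_lit 4) (nat_lit 382) (nat_lit 240) (nat_lit 158))) (XT.nd (nat_lit 78) (nat_lit 0) (nat_lit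 0) (XT.lf (nat_lit 0) (nat_lit 414448387098) (nat_lit 76) (nat_lit 48169834345) (nat_lit 76) (nat_lit 39148665500) (nat_lit 3) (nat_lit 4) (nat_lit 4) (nat_lit 5) (nat_lit 4) (nat_lit 4) (nat_lit 383) (nat_lit 240) (nat_lit 157)) (XT.nd (nat_lit 78) (nat_lit 0) (nat_lit 0) (XT.lf (nat_lit 0) (nat_lit 440130744883) (nat_lit 76) (nat_lit 47809598535) (nat_lit 76) (nat_lit 38780809461) (nat_lit 3) (nat_lit 4) (nat_lit 4) (nat_lit 5) (nat_lit 4) (nat_lit 4) (nat_lit 384) (nat_lit 240) (nat_lit 156)) (XT.lf (nat_lit 0) (nat_lit 467089447767) (nat_lit 76) (nat_lit 47434970447) (nat_lit 76) (nat_lit 38398924012) (nat_lit 3) (nat_lit 4) (nat_lit 4) (nat_lit 5) (nat_lit 4) (nat_lit 4) (nat_lit 385) (nat_lit 240) (nat_lit 155)))))) (XT.nd (nat_lit 33930) (nat_lit 0) (nat_lit 1216) (XT.nd (nat_lit 156) (nat_lit 0) (nat_lit 0) (XT.nd (nat_lit 78) (nat_lit 0) (nat_lit 0) (XT.lf (nat_lit 0) (nat_lit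 495388683140) (nat_lit 76) (nat_lit 47045058110) (nat_lit 76) (nat_lit 38002099902) (nat_lit 3) (nat_lit 4) (nat_lit 4) (nat_lit 5) (nat_lit 4) (nat_lit 4) (nat_lit 386) (nat_lit 240) (nat_lit 154)) (XT.lf (nat_lit 0) (nat_lit 525095830132) (nat_lit 76) (nat_lit 46638933161) (nat_lit 76) (nat_lit 37589392313) (nat_lit 3) (nat_lit 4) (nat_lit 4) (nat_lit 5) (nat_lit 4) (nat_lit 4) (nat_lit 387) (nat_lit 240) (nat_lit 153))) (XT.nd (nat_lit 33618) (nat_lit 0) (nat_lit 1672) (XT.lf (nat_lit 0) (nat_lit 556281620046) (nat_lit 76) (nat_lit 46215628636) (nat_lit 76) (nat_lit 37159818607) (nat_lit 3) (nat_lit 4) (nat_lit 4) (nat_lit 5) (nat_lit 4) (nat_lit 4) (nat_lit 388) (nat_lit 240) (nat_lit 152)) (XT.nd (nat_lit 78) (nat_lit 228) (nat_lit 0) (XT.lf (nat_lit 0) (nat_lit 5161343334) (nat_lit 152) (nat_lit 388871454) (nat_lit 152) (nat_lit 388871454) (nat_lit 28) (nat_lit 4) (nat_lit 30)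 (nat_lit 5) (nat_lit 30) (nat_lit 4) (nat_lit 298) (nat_lit 241) (nat_lit 241)) (XT.lf (nat_lit 0) (nat_lit 3159250141) (nat_lit 228) (nat_lit 6533330857) (nat_lit 0) (nat_lit 2544066261) (nat_lit 25) (nat_lit 5) (nat_lit 28) (nat_lit 4) (nat_lit 25) (nat_lit 4) (nat_lit 299) (nat_lit 241) (nat_lit 240))))) (XT.nd (nat_lit 156) (nat_lit 304) (nat_lit 0) (XT.nd (nat_lit 78) (nat_lit 0) (nat_lit 0) (XT.lf (nat_lit 0) (nat_lit 518632763) (nat_lit 152) (nat_lit 6649981914) (nat_lit 152) (nat_lit 5448908625) (nat_lit 23) (nat_lit 4) (nat_lit 25) (nat_lit 5) (nat_lit 25) (nat_lit 4) (nat_lit 300) (nat_lit 241) (nat_lit 239)) (XT.lf (nat_lit 0) (nat_lit 7914509670) (nat_lit 152) (nat_lit 3431893717) (nat_lit 152) (nat_lit 1672830514) (nat_lit 23) (nat_lit 4) (nat_lit 25) (nat_lit 5) (nat_lit 25) (nat_lit 4) (nat_lit 301) (nat_lit 241) (nat_lit 238))) (XT.nd (nat_lit 78) (nat_lit 152) (nat_lit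 0) (XT.lf (nat_lit 0) (nat_lit 2039608797) (nat_lit 76) (nat_lit 72630697) (nat_lit 152) (nat_lit 11332494893) (nat_lit 21) (nat_lit 5) (nat_lit 22) (nat_lit 5) (nat_lit 23) (nat_lit 4) (nat_lit 302) (nat_lit 241) (nat_lit 237)) (XT.nd (nat_lit 78) (nat_lit 152) (nat_lit 0) (XT.lf (nat_lit 0) (nat_lit 6035513373) (nat_lit 152) (nat_lit 4482440689) (nat_lit 0) (nat_lit 3372089118) (nat_lit 21) (nat_lit 5) (nat_lit 23) (nat_lit 4) (nat_lit 21) (nat_lit 4) (nat_lit 303) (nat_lit 241) (nat_lit 236)) (XT.lf (nat_lit 0) (nat_lit 2650142501) (nat_lit 152) (nat_lit 7417246046) (nat_lit 152) (nat_lit 4294762108) (nat_lit 19) (nat_lit 4) (nat_lit 21) (nat_lit 5) (nat_lit 21) (nat_lit 4) (nat_lit 304) (nat_lit 241) (nat_lit 235))))))) (XT.nd (nat_lit 780) (nat_lit 304) (nat_lit 0) (XT.nd (nat_lit 390) (nat_lit 228) (nat_lit 0) (XT.nd (nat_lit 156) (nat_lit 152) (nat_lit 0) (XT.nd (nat_lit 78)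 (nat_lit 152) (nat_lit 0) (XT.lf (nat_lit 0) (nat_lit 10078654903) (nat_lit 152) (nat_lit 4170804927) (nat_lit 152) (nat_lit 611121291) (nat_lit 19) (nat_lit 4) (nat_lit 21) (nat_lit 5) (nat_lit 21) (nat_lit 4) (nat_lit 305) (nat_lit 241) (nat_lit 234)) (XT.lf (nat_lit 0) (nat_lit 2307433431) (nat_lit 76) (nat_lit 757687413) (nat_lit 152) (nat_lit 12320771251) (nat_lit 17) (nat_lit 5) (nat_lit 18) (nat_lit 5) (nat_lit 19) (nat_lit 4) (nat_lit 306) (nat_lit 241) (nat_lit 233))) (XT.nd (nat_lit 78) (nat_lit 152) (nat_lit 0) (XT.lf (nat_lit 0) (nat_lit 6909001885) (nat_lit 152) (nat_lit 6283270766) (nat_lit 0) (nat_lit 2744604442) (nat_lit 17) (nat_lit 5) (nat_lit 19) (nat_lit 4) (nat_lit 17) (nat_lit 4) (nat_lit 307) (nat_lit 241) (nat_lit 232)) (XT.nd (nat_lit 78) (nat_lit 0) (nat_lit 0) (XT.lf (nat_lit 0) (nat_lit 658757892) (nat_lit 152) (nat_lit 10192767641) (nat_lit 152) (nat_lit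 5668684925) (nat_lit 15) (nat_lit 4) (nat_lit 17) (nat_lit 5) (nat_lit 17) (nat_lit 4) (nat_lit 308) (nat_lit 241) (nat_lit 231)) (XT.lf (nat_lit 0) (nat_lit 7967698382) (nat_lit 152) (nat_lit 7016069185) (nat_lit 152) (nat_lit 2149429066) (nat_lit 15) (nat_lit 4) (nat_lit 17) (nat_lit 5) (nat_lit 17) (nat_lit 4) (nat_lit 309) (nat_lit 241) (nat_lit 230))))) (XT.nd (nat_lit 156) (nat_lit 76) (nat_lit 0) (XT.nd (nat_lit 78) (nat_lit 76) (nat_lit 0) (XT.lf (nat_lit 0) (nat_lit 1386032813) (nat_lit 228) (nat_lit 2351517999) (nat_lit 76) (nat_lit 14043693685) (nat_lit 14) (nat_lit 5) (nat_lit 17) (nat_lit 5) (nat_lit 15) (nat_lit 4) (nat_lit 310) (nat_lit 241) (nat_lit 229)) (XT.lf (nat_lit 0) (nat_lit 4736043237) (nat_lit 76) (nat_lit 258902209) (nat_lit 152) (nat_lit 13466641845) (nat_lit 13) (nat_lit 5) (nat_lit 14) (nat_lit 5) (nat_lit 15) (nat_lit 4) (nat_lit 311) (nat_lit 241) (nat_lit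 228))) (XT.nd (nat_lit 78) (nat_lit 76) (nat_lit 0) (XT.lf (nat_lit 0) (nat_lit 8773705949) (nat_lit 152) (nat_lit 7152502248) (nat_lit 0) (nat_lit 3250364146) (nat_lit 13) (nat_lit 5) (nat_lit 15) (nat_lit 4) (nat_lit 13) (nat_lit 4) (nat_lit 312) (nat_lit 241) (nat_lit 227)) (XT.nd (nat_lit 78) (nat_lit 76) (nat_lit 0) (XT.lf (nat_lit 0) (nat_lit 12646544444) (nat_lit 152) (nat_lit 430795952) (nat_lit 0) (nat_lit 6854799952) (nat_lit 13) (nat_lit 5) (nat_lit 15) (nat_lit 4) (nat_lit 13) (nat_lit 4) (nat_lit 313) (nat_lit 241) (nat_lit 226)) (XT.lf (nat_lit 0) (nat_lit 6673205331) (nat_lit 76) (nat_lit 10049621891) (nat_lit 76) (nat_lit 4002255790) (nat_lit 12) (nat_lit 4) (nat_lit 13) (nat_lit 5) (nat_lit 13) (nat_lit 4) (nat_lit 314) (nat_lit 241) (nat_lit 225)))))) (XT.nd (nat_lit 390) (nat_lit 152) (nat_lit 0) (XT.nd (nat_lit 156) (nat_lit 76) (nat_lit 0) (XT.nd (nat_lit 78) (nat_lit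 76) (nat_lit 0) (XT.lf (nat_lit 0) (nat_lit 13982687959) (nat_lit 76) (nat_lit 6935070329) (nat_lit 76) (nat_lit 644255078) (nat_lit 12) (nat_lit 4) (nat_lit 13) (nat_lit 5) (nat_lit 13) (nat_lit 4) (nat_lit 315) (nat_lit 241) (nat_lit 224)) (XT.lf (nat_lit 0) (nat_lit 2699836932) (nat_lit 152) (nat_lit 988005874) (nat_lit 76) (nat_lit 18755251425) (nat_lit 11) (nat_lit 5) (nat_lit 13) (nat_lit 5) (nat_lit 12) (nat_lit 4) (nat_lit 316) (nat_lit 241) (nat_lit 223))) (XT.nd (nat_lit 78) (nat_lit 0) (nat_lit 0) (XT.lf (nat_lit 0) (nat_lit 5960845414) (nat_lit 76) (nat_lit 236389979) (nat_lit 152) (nat_lit 17170149078) (nat_lit 10) (nat_lit 5) (nat_lit 11) (nat_lit 5) (nat_lit 12) (nat_lit 4) (nat_lit 317) (nat_lit 241) (nat_lit 222)) (XT.nd (nat_lit 78) (nat_lit 0) (nat_lit 0) (XT.lf (nat_lit 0) (nat_lit 9854778383) (nat_lit 152) (nat_lit 11251791331) (nat_lit 0) (nat_lit 3232123457) (nat_lit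 10) (nat_lit 5) (nat_lit 12) (nat_lit 4) (nat_lit 10) (nat_lit 4) (nat_lit 318) (nat_lit 241) (nat_lit 221)) (XT.lf (nat_lit 0) (nat_lit 13618480877) (nat_lit 152) (nat_lit 4938909599) (nat_lit 0) (nat_lit 6805077171) (nat_lit 10) (nat_lit 5) (nat_lit 12) (nat_lit 4) (nat_lit 10) (nat_lit 4) (nat_lit 319) (nat_lit 241) (nat_lit 220))))) (XT.nd (nat_lit 156) (nat_lit 76) (nat_lit 0) (XT.nd (nat_lit 78) (nat_lit 0) (nat_lit 0) (XT.lf (nat_lit 0) (nat_lit 1602104880) (nat_lit 76) (nat_lit 15916521826) (nat_lit 76) (nat_lit 8921452615) (nat_lit 9) (nat_lit 4) (nat_lit 10) (nat_lit 5) (nat_lit 10) (nat_lit 4) (nat_lit 320) (nat_lit 241) (nat_lit 219)) (XT.lf (nat_lit 0) (nat_lit 8505087701) (nat_lit 76) (nat_lit 13117102891) (nat_lit 76) (nat_lit 5949018913) (nat_lit 9) (nat_lit 4) (nat_lit 10) (nat_lit 5) (nat_lit 10) (nat_lit 4) (nat_lit 321) (nat_lit 241) (nat_lit 218))) (XT.nd (nat_lit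 78) (nat_lit 76) (nat_lit 0) (XT.lf (nat_lit 0) (nat_lit 15623171880) (nat_lit 76) (nat_lit 10236111211) (nat_lit 76) (nat_lit 2903251266) (nat_lit 9) (nat_lit 4) (nat_lit 10) (nat_lit 5) (nat_lit 10) (nat_lit 4) (nat_lit 322) (nat_lit 241) (nat_lit 217)) (XT.nd (nat_lit 78) (nat_lit 0) (nat_lit 0) (XT.lf (nat_lit 0) (nat_lit 215961492) (nat_lit 152) (nat_lit 7047068379) (nat_lit 76) (nat_lit 22753686332) (nat_lit 8) (nat_lit 5) (nat_lit 10) (nat_lit 5) (nat_lit 9) (nat_lit 4) (nat_lit 323) (nat_lit 241) (nat_lit 216)) (XT.lf (nat_lit 0) (nat_lit 3327464058) (nat_lit 152) (nat_lit 817944779) (nat_lit 76) (nat_lit 27189171815) (nat_lit 8) (nat_lit 5) (nat_lit 10) (nat_lit 5) (nat_lit 9) (nat_lit 4) (nat_lit 324) (nat_lit 241) (nat_lit 215))))))))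
noncomputable def xc54 : XT := (XT.nd (nat_lit 1482) (nat_lit 76) (nat_lit 0) (XT.nd (nat_lit 702) (nat_lit 152) (nat_lit 0) (XT.nd (nat_lit 312) (nat_lit 76) (nat_lit 0) (XT.nd (nat_lit 156) (nat_lit 0) (nat_lit 0) (XT.nd (nat_lit 78) (nat_lit 0) (nat_lit 0) (XT.lf (nat_lit 0) (nat_lit 5793598801) (nat_lit 76) (nat_lit 828442455) (nat_lit 152) (nat_lit 26094967901) (nat_lit 7) (nat_lit 5) (nat_lit 8) (nat_lit 5) (nat_lit 9) (nat_lit 4) (nat_lit 325) (nat_lit 241) (nat_lit 214)) (XT.lf (nat_lit 0) (nat_lit 10074358801) (nat_lit 152) (nat_lit 21560374891) (nat_lit 0) (nat_lit 2534218446) (nat_lit 7) (nat_lit 5) (nat_lit 9) (nat_lit 4) (nat_lit 7) (nat_lit 4) (nat_lit 326) (nat_lit 241) (nat_lit 213))) (XT.nd (nat_lit 78) (nat_lit 0) (nat_lit 0) (XT.lf (nat_lit 0) (nat_lit 13653339837) (nat_lit 152) (nat_lit 16052250484) (nat_lit 0) (nat_lit 5990241117) (nat_lit 7) (nat_lit 5) (nat_lit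 9) (nat_lit 4) (nat_lit 7) (nat_lit 4) (nat_lit 327) (nat_lit 241) (nat_lit 212)) (XT.lf (nat_lit 0) (nat_lit 17354571438) (nat_lit 152) (nat_lit 10372988245) (nat_lit 0) (nat_lit 9574369514) (nat_lit 7) (nat_lit 5) (nat_lit 9) (nat_lit 4) (nat_lit 7) (nat_lit 4) (nat_lit 328) (nat_lit 241) (nat_lit 211)))) (XT.nd (nat_lit 156) (nat_lit 0) (nat_lit 0) (XT.nd (nat_lit 78) (nat_lit 76) (nat_lit 0) (XT.lf (nat_lit 0) (nat_lit 21186866061) (nat_lit 152) (nat_lit 4509066121) (nat_lit 0) (nat_lit 13295137277) (nat_lit 7) (nat_lit 5) (nat_lit 9) (nat_lit 4) (nat_lit 7) (nat_lit 4) (nat_lit 329) (nat_lit 241) (nat_lit 210)) (XT.lf (nat_lit 0) (nat_lit 1604842591) (nat_lit 76) (nat_lit 23579561716) (nat_lit 76) (nat_lit 15581616874) (nat_lit 6) (nat_lit 4) (nat_lit 7) (nat_lit 5) (nat_lit 7) (nat_lit 4) (nat_lit 330) (nat_lit 241) (nat_lit 209))) (XT.nd (nat_lit 78) (nat_lit 0) (nat_lit 0) (XT.lf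 (nat_lit 0) (nat_lit 8087942227) (nat_lit 76) (nat_lit 21319809414) (nat_lit 76) (nat_lit 13220706421) (nat_lit 6) (nat_lit 4) (nat_lit 7) (nat_lit 5) (nat_lit 7) (nat_lit 4) (nat_lit 331) (nat_lit 241) (nat_lit 208)) (XT.nd (nat_lit 78) (nat_lit 0) (nat_lit 0) (XT.lf (nat_lit 0) (nat_lit 14806578647) (nat_lit 76) (nat_lit 18987658131) (nat_lit 76) (nat_lit 10792214042) (nat_lit 6) (nat_lit 4) (nat_lit 7) (nat_lit 5) (nat_lit 7) (nat_lit 4) (nat_lit 332) (nat_lit 241) (nat_lit 207)) (XT.lf (nat_lit 0) (nat_lit 21776748606) (nat_lit 76) (nat_lit 16577555126) (nat_lit 76) (nat_lit 8290357612) (nat_lit 6) (nat_lit 4) (nat_lit 7) (nat_lit 5) (nat_lit 7) (nat_lit 4) (nat_lit 333) (nat_lit 241) (nat_lit 206)))))) (XT.nd (nat_lit 390) (nat_lit 0) (nat_lit 0) (XT.nd (nat_lit 156) (nat_lit 152) (nat_lit 0) (XT.nd (nat_lit 78) (nat_lit 0) (nat_lit 0) (XT.lf (nat_lit 0) (nat_lit 29015047746) (nat_lit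 76) (nat_lit 14083762057) (nat_lit 76) (nat_lit 5709180330) (nat_lit 6) (nat_lit 4) (nat_lit 7) (nat_lit 5) (nat_lit 7) (nat_lit 4) (nat_lit 334) (nat_lit 241) (nat_lit 205)) (XT.lf (nat_lit 0) (nat_lit 36538710112) (nat_lit 76) (nat_lit 11500341323) (nat_lit 76) (nat_lit 3042536535) (nat_lit 6) (nat_lit 4) (nat_lit 7) (nat_lit 5) (nat_lit 7) (nat_lit 4) (nat_lit 335) (nat_lit 241) (nat_lit 204))) (XT.nd (nat_lit 78) (nat_lit 152) (nat_lit 0) (XT.lf (nat_lit 0) (nat_lit 44365649187) (nat_lit 76) (nat_lit 8821141922) (nat_lit 76) (nat_lit 284077076) (nat_lit 6) (nat_lit 4) (nat_lit 7) (nat_lit 5) (nat_lit 7) (nat_lit 4) (nat_lit 336) (nat_lit 241) (nat_lit 203)) (XT.nd (nat_lit 78) (nat_lit 76) (nat_lit 0) (XT.lf (nat_lit 0) (nat_lit 2490421234) (nat_lit 152) (nat_lit 3507187085) (nat_lit 76) (nat_lit 49981902816) (nat_lit 5) (nat_lit 5) (nat_lit 7) (nat_lit 5) (nat_lit 6) (nat_lit 4)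 (nat_lit 337) (nat_lit 241) (nat_lit 202)) (XT.lf (nat_lit 0) (nat_lit 2374739261) (nat_lit 76) (nat_lit 3019983220) (nat_lit 152) (nat_lit 53218622794) (nat_lit 4) (nat_lit 5) (nat_lit 5) (nat_lit 5) (nat_lit 6) (nat_lit 4) (nat_lit 338) (nat_lit 241) (nat_lit 201))))) (XT.nd (nat_lit 156) (nat_lit 0) (nat_lit 0) (XT.nd (nat_lit 78) (nat_lit 0) (nat_lit 0) (XT.lf (nat_lit 0) (nat_lit 8470044684) (nat_lit 152) (nat_lit 52773617915) (nat_lit 0) (nat_lit 133940261) (nat_lit 4) (nat_lit 5) (nat_lit 6) (nat_lit 4) (nat_lit 4) (nat_lit 4) (nat_lit 339) (nat_lit 241) (nat_lit 200)) (XT.lf (nat_lit 0) (nat_lit 11714139162) (nat_lit 152) (nat_lit 49249272430) (nat_lit 0) (nat_lit 3315932410) (nat_lit 4) (nat_lit 5) (nat_lit 6) (nat_lit 4) (nat_lit 4) (nat_lit 4) (nat_lit 340) (nat_lit 241) (nat_lit 199))) (XT.nd (nat_lit 78) (nat_lit 0) (nat_lit 0) (XT.lf (nat_lit 0) (nat_lit 15087579549) (nat_lit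 152) (nat_lit 45610027858) (nat_lit 0) (nat_lit 6630227722) (nat_lit 4) (nat_lit 5) (nat_lit 6) (nat_lit 4) (nat_lit 4) (nat_lit 4) (nat_lit 341) (nat_lit 241) (nat_lit 198)) (XT.nd (nat_lit 78) (nat_lit 0) (nat_lit 0) (XT.lf (nat_lit 0) (nat_lit 18598397845) (nat_lit 152) (nat_lit 41847219331) (nat_lit 0) (nat_lit 10084717374) (nat_lit 4) (nat_lit 5) (nat_lit 6) (nat_lit 4) (nat_lit 4) (nat_lit 4) (nat_lit 342) (nat_lit 241) (nat_lit 197)) (XT.lf (nat_lit 0) (nat_lit 22254953141) (nat_lit 152) (nat_lit 37951887781) (nat_lit 0) (nat_lit 13687626344) (nat_lit 4) (nat_lit 5) (nat_lit 6) (nat_lit 4) (nat_lit 4) (nat_lit 4) (nat_lit 343) (nat_lit 241) (nat_lit 196))))))) (XT.nd (nat_lit 780) (nat_lit 0) (nat_lit 0) (XT.nd (nat_lit 390) (nat_lit 76) (nat_lit 0) (XT.nd (nat_lit 156) (nat_lit 0) (nat_lit 0) (XT.nd (nat_lit 78) (nat_lit 0) (nat_lit 0) (XT.lf (nat_lit 0) (nat_lit 26065951522)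 (nat_lit 152) (nat_lit 33914758610) (nat_lit 0) (nat_lit 17447532984) (nat_lit 4) (nat_lit 5) (nat_lit 6) (nat_lit 4) (nat_lit 4) (nat_lit 4) (nat_lit 344) (nat_lit 241) (nat_lit 195)) (XT.lf (nat_lit 0) (nat_lit 30040466794) (nat_lit 152) (nat_lit 29726219605) (nat_lit 0) (nat_lit 21373389455) (nat_lit 4) (nat_lit 5) (nat_lit 6) (nat_lit 4) (nat_lit 4) (nat_lit 4) (nat_lit 345) (nat_lit 241) (nat_lit 194))) (XT.nd (nat_lit 78) (nat_lit 0) (nat_lit 0) (XT.lf (nat_lit 0) (nat_lit 34187962086) (nat_lit 152) (nat_lit 25376298054) (nat_lit 0) (nat_lit 25474543034) (nat_lit 4) (nat_lit 5) (nat_lit 6) (nat_lit 4) (nat_lit 4) (nat_lit 4) (nat_lit 346) (nat_lit 241) (nat_lit 193)) (XT.nd (nat_lit 78) (nat_lit 0) (nat_lit 0) (XT.lf (nat_lit 0) (nat_lit 38518312390) (nat_lit 152) (nat_lit 20854637002) (nat_lit 0) (nat_lit 29760758371) (nat_lit 4) (nat_lit 5) (nat_lit 6) (nat_lit 4) (nat_lit 4)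 (nat_lit 4) (nat_lit 347) (nat_lit 241) (nat_lit 192)) (XT.lf (nat_lit 0) (nat_lit 43041828062) (nat_lit 152) (nat_lit 16150470587) (nat_lit 0) (nat_lit 34242240742) (nat_lit 4) (nat_lit 5) (nat_lit 6) (nat_lit 4) (nat_lit 4) (nat_lit 4) (nat_lit 348) (nat_lit 241) (nat_lit 191))))) (XT.nd (nat_lit 156) (nat_lit 76) (nat_lit 0) (XT.nd (nat_lit 78) (nat_lit 0) (nat_lit 0) (XT.lf (nat_lit 0) (nat_lit 47769279377) (nat_lit 152) (nat_lit 11252598415) (nat_lit 0) (nat_lit 38929660342) (nat_lit 4) (nat_lit 5) (nat_lit 6) (nat_lit 4) (nat_lit 4) (nat_lit 4) (nat_lit 349) (nat_lit 241) (nat_lit 190)) (XT.lf (nat_lit 0) (nat_lit 52711922173) (nat_lit 152) (nat_lit 6149358885) (nat_lit 0) (nat_lit 43834177695) (nat_lit 4) (nat_lit 5) (nat_lit 6) (nat_lit 4) (nat_lit 4) (nat_lit 4) (nat_lit 350) (nat_lit 241) (nat_lit 189))) (XT.nd (nat_lit 78) (nat_lit 76) (nat_lit 0) (XT.lf (nat_lit 0) (nat_lit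 57881524646) (nat_lit 152) (nat_lit 828601426) (nat_lit 0) (nat_lit 48967470223) (nat_lit 4) (nat_lit 5) (nat_lit 6) (nat_lit 4) (nat_lit 4) (nat_lit 4) (nat_lit 351) (nat_lit 241) (nat_lit 188)) (XT.nd (nat_lit 78) (nat_lit 0) (nat_lit 0) (XT.lf (nat_lit 0) (nat_lit 4878484397) (nat_lit 76) (nat_lit 58488077790) (nat_lit 76) (nat_lit 49539442465) (nat_lit 3) (nat_lit 4) (nat_lit 4) (nat_lit 5) (nat_lit 4) (nat_lit 4) (nat_lit 352) (nat_lit 241) (nat_lit 187)) (XT.lf (nat_lit 0) (nat_lit 10864418459) (nat_lit 76) (nat_lit 58256618181) (nat_lit 76) (nat_lit 49275048665) (nat_lit 3) (nat_lit 4) (nat_lit 4) (nat_lit 5) (nat_lit 4) (nat_lit 4) (nat_lit 353) (nat_lit 241) (nat_lit 186)))))) (XT.nd (nat_lit 390) (nat_lit 0) (nat_lit 0) (XT.nd (nat_lit 156) (nat_lit 0) (nat_lit 0) (XT.nd (nat_lit 78) (nat_lit 0) (nat_lit 0) (XT.lf (nat_lit 0) (nat_lit 17116055677) (nat_lit 76) (nat_lit 58029228917)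 (nat_lit 76) (nat_lit 49016293505) (nat_lit 3) (nat_lit 4) (nat_lit 4) (nat_lit 5) (nat_lit 4) (nat_lit 4) (nat_lit 354) (nat_lit 241) (nat_lit 185)) (XT.lf (nat_lit 0) (nat_lit 23648280901) (nat_lit 76) (nat_lit 57805368597) (nat_lit 76) (nat_lit 48762560903) (nat_lit 3) (nat_lit 4) (nat_lit 4) (nat_lit 5) (nat_lit 4) (nat_lit 4) (nat_lit 355) (nat_lit 241) (nat_lit 184))) (XT.nd (nat_lit 78) (nat_lit 0) (nat_lit 0) (XT.lf (nat_lit 0) (nat_lit 30476647048) (nat_lit 76) (nat_lit 57584504219) (nat_lit 76) (nat_lit 48513246732) (nat_lit 3) (nat_lit 4) (nat_lit 4) (nat_lit 5) (nat_lit 4) (nat_lit 4) (nat_lit 356) (nat_lit 241) (nat_lit 183)) (XT.nd (nat_lit 78) (nat_lit 0) (nat_lit 0) (XT.lf (nat_lit 0) (nat_lit 37617412133) (nat_lit 76) (nat_lit 57366109916) (nat_lit 76) (nat_lit 48267757388) (nat_lit 3) (nat_lit 4) (nat_lit 4) (nat_lit 5) (nat_lit 4) (nat_lit 4) (nat_lit 357) (nat_lit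 241) (nat_lit 182)) (XT.lf (nat_lit 0) (nat_lit 45087577979) (nat_lit 76) (nat_lit 57149665701) (nat_lit 76) (nat_lit 48025508373) (nat_lit 3) (nat_lit 4) (nat_lit 4) (nat_lit 5) (nat_lit 4) (nat_lit 4) (nat_lit 358) (nat_lit 241) (nat_lit 181))))) (XT.nd (nat_lit 156) (nat_lit 0) (nat_lit 0) (XT.nd (nat_lit 78) (nat_lit 0) (nat_lit 0) (XT.lf (nat_lit 0) (nat_lit 52904930693) (nat_lit 76) (nat_lit 56934656230) (nat_lit 76) (nat_lit 47785922902) (nat_lit 3) (nat_lit 4) (nat_lit 4) (nat_lit 5) (nat_lit 4) (nat_lit 4) (nat_lit 359) (nat_lit 241) (nat_lit 180)) (XT.lf (nat_lit 0) (nat_lit 61088083020) (nat_lit 76) (nat_lit 56720569578) (nat_lit 76) (nat_lit 47548430534) (nat_lit 3) (nat_lit 4) (nat_lit 4) (nat_lit 5) (nat_lit 4) (nat_lit 4) (nat_lit 360) (nat_lit 241) (nat_lit 179))) (XT.nd (nat_lit 78) (nat_lit 0) (nat_lit 0) (XT.lf (nat_lit 0) (nat_lit 69656518657) (nat_lit 76) (nat_lit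 56506896013) (nat_lit 76) (nat_lit 47312465812) (nat_lit 3) (nat_lit 4) (nat_lit 4) (nat_lit 5) (nat_lit 4) (nat_lit 4) (nat_lit 361) (nat_lit 241) (nat_lit 178)) (XT.nd (nat_lit 78) (nat_lit 0) (nat_lit 0) (XT.lf (nat_lit 0) (nat_lit 78630638641) (nat_lit 76) (nat_lit 56293126788) (nat_lit 76) (nat_lit 47077466914) (nat_lit 3) (nat_lit 4) (nat_lit 4) (nat_lit 5) (nat_lit 4) (nat_lit 4) (nat_lit 362) (nat_lit 241) (nat_lit 177)) (XT.lf (nat_lit 0) (nat_lit 88031809924) (nat_lit 76) (nat_lit 56078752930) (nat_lit 76) (nat_lit 46842874320) (nat_lit 3) (nat_lit 4) (nat_lit 4) (nat_lit 5) (nat_lit 4) (nat_lit 4) (nat_lit 363) (nat_lit 241) (nat_lit 176))))))))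
noncomputable def xc55 : XT := (XT.nd (nat_lit 1560) (nat_lit 0) (nat_lit 0) (XT.nd (nat_lit 780) (nat_lit 0) (nat_lit 0) (XT.nd (nat_lit 390) (nat_lit 0) (nat_lit 0) (XT.nd (nat_lit 156) (nat_lit 0) (nat_lit 0) (XT.nd (nat_lit 78) (nat_lit 0) (nat_lit 0) (XT.lf (nat_lit 0) (nat_lit 97882416246) (nat_lit 76) (nat_lit 55863264025) (nat_lit 76) (nat_lit 46608129475) (nat_lit 3) (nat_lit 4) (nat_lit 4) (nat_lit 5) (nat_lit 4) (nat_lit 4) (nat_lit 364) (nat_lit 241) (nat_lit 175)) (XT.lf (nat_lit 0) (nat_lit 108205911434) (nat_lit 76) (nat_lit 55646147003) (nat_lit 76) (nat_lit 46372673464) (nat_lit 3) (nat_lit 4) (nat_lit 4) (nat_lit 5) (nat_lit 4) (nat_lit 4) (nat_lit 365) (nat_lit 241) (nat_lit 174))) (XT.nd (nat_lit 78) (nat_lit 0) (nat_lit 0) (XT.lf (nat_lit 0) (nat_lit 119026875237) (nat_lit 76) (nat_lit 55426884920) (nat_lit 76) (nat_lit 46135945676) (nat_lit 3) (nat_lit 4) (nat_lit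 4) (nat_lit 5) (nat_lit 4) (nat_lit 4) (nat_lit 366) (nat_lit 241) (nat_lit 173)) (XT.nd (nat_lit 78) (nat_lit 0) (nat_lit 0) (XT.lf (nat_lit 0) (nat_lit 130371071855) (nat_lit 76) (nat_lit 55204955723) (nat_lit 76) (nat_lit 45897382474) (nat_lit 3) (nat_lit 4) (nat_lit 4) (nat_lit 5) (nat_lit 4) (nat_lit 4) (nat_lit 367) (nat_lit 241) (nat_lit 172)) (XT.lf (nat_lit 0) (nat_lit 142265511279) (nat_lit 76) (nat_lit 54979831008) (nat_lit 76) (nat_lit 45656415850) (nat_lit 3) (nat_lit 4) (nat_lit 4) (nat_lit 5) (nat_lit 4) (nat_lit 4) (nat_lit 368) (nat_lit 241) (nat_lit 171))))) (XT.nd (nat_lit 156) (nat_lit 0) (nat_lit 0) (XT.nd (nat_lit 78) (nat_lit 0) (nat_lit 0) (XT.lf (nat_lit 0) (nat_lit 154738513604) (nat_lit 76) (nat_lit 54750974766) (nat_lit 76) (nat_lit 45412472075) (nat_lit 3) (nat_lit 4) (nat_lit 4) (nat_lit 5) (nat_lit 4) (nat_lit 4) (nat_lit 369) (nat_lit 241) (nat_lit 170))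 (XT.lf (nat_lit 0) (nat_lit 167819776454) (nat_lit 76) (nat_lit 54517842099) (nat_lit 76) (nat_lit 45164970330) (nat_lit 3) (nat_lit 4) (nat_lit 4) (nat_lit 5) (nat_lit 4) (nat_lit 4) (nat_lit 370) (nat_lit 241) (nat_lit 169))) (XT.nd (nat_lit 78) (nat_lit 0) (nat_lit 0) (XT.lf (nat_lit 0) (nat_lit 181540445693) (nat_lit 76) (nat_lit 54279877931) (nat_lit 76) (nat_lit 44913321325) (nat_lit 3) (nat_lit 4) (nat_lit 4) (nat_lit 5) (nat_lit 4) (nat_lit 4) (nat_lit 371) (nat_lit 241) (nat_lit 168)) (XT.nd (nat_lit 78) (nat_lit 0) (nat_lit 0) (XT.lf (nat_lit 0) (nat_lit 195933189581) (nat_lit 76) (nat_lit 54036515679) (nat_lit 76) (nat_lit 44656925896) (nat_lit 3) (nat_lit 4) (nat_lit 4) (nat_lit 5) (nat_lit 4) (nat_lit 4) (nat_lit 372) (nat_lit 241) (nat_lit 167)) (XT.lf (nat_lit 0) (nat_lit 211032276556) (nat_lit 76) (nat_lit 53787175910) (nat_lit 76) (nat_lit 44395173577) (nat_lit 3) (nat_lit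 4) (nat_lit 4) (nat_lit 5) (nat_lit 4) (nat_lit 4) (nat_lit 373) (nat_lit 241) (nat_lit 166)))))) (XT.nd (nat_lit 390) (nat_lit 0) (nat_lit 0) (XT.nd (nat_lit 156) (nat_lit 0) (nat_lit 0) (XT.nd (nat_lit 78) (nat_lit 0) (nat_lit 0) (XT.lf (nat_lit 0) (nat_lit 226873656825) (nat_lit 76) (nat_lit 53531264959) (nat_lit 76) (nat_lit 44127441148) (nat_lit 3) (nat_lit 4) (nat_lit 4) (nat_lit 5) (nat_lit 4) (nat_lit 4) (nat_lit 374) (nat_lit 241) (nat_lit 165)) (XT.lf (nat_lit 0) (nat_lit 243495047961) (nat_lit 76) (nat_lit 53268173512) (nat_lit 76) (nat_lit 43853091152) (nat_lit 3) (nat_lit 4) (nat_lit 4) (nat_lit 5) (nat_lit 4) (nat_lit 4) (nat_lit 375) (nat_lit 241) (nat_lit 164))) (XT.nd (nat_lit 78) (nat_lit 0) (nat_lit 0) (XT.lf (nat_lit 0) (nat_lit 260936024703) (nat_lit 76) (nat_lit 52997275162) (nat_lit 76) (nat_lit 43571470375) (nat_lit 3) (nat_lit 4) (nat_lit 4) (nat_lit 5) (nat_lit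 4) (nat_lit 4) (nat_lit 376) (nat_lit 241) (nat_lit 163)) (XT.nd (nat_lit 78) (nat_lit 0) (nat_lit 0) (XT.lf (nat_lit 0) (nat_lit 279238113188) (nat_lit 76) (nat_lit 52717924912) (nat_lit 76) (nat_lit 43281908289) (nat_lit 3) (nat_lit 4) (nat_lit 4) (nat_lit 5) (nat_lit 4) (nat_lit 4) (nat_lit 377) (nat_lit 241) (nat_lit 162)) (XT.lf (nat_lit 0) (nat_lit 298444889815) (nat_lit 76) (nat_lit 52429457644) (nat_lit 76) (nat_lit 42983715463) (nat_lit 3) (nat_lit 4) (nat_lit 4) (nat_lit 5) (nat_lit 4) (nat_lit 4) (nat_lit 378) (nat_lit 241) (nat_lit 161))))) (XT.nd (nat_lit 156) (nat_lit 0) (nat_lit 0) (XT.nd (nat_lit 78) (nat_lit 0) (nat_lit 0) (XT.lf (nat_lit 0) (nat_lit 318602085006) (nat_lit 76) (nat_lit 52131186530) (nat_lit 76) (nat_lit 42676181913) (nat_lit 3) (nat_lit 4) (nat_lit 4) (nat_lit 5) (nat_lit 4) (nat_lit 4) (nat_lit 379) (nat_lit 241) (nat_lit 160)) (XT.lf (nat_lit 0) (nat_lit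 339757692083) (nat_lit 76) (nat_lit 51822401401) (nat_lit 76) (nat_lit 42358575416) (nat_lit 3) (nat_lit 4) (nat_lit 4) (nat_lit 5) (nat_lit 4) (nat_lit 4) (nat_lit 380) (nat_lit 241) (nat_lit 159))) (XT.nd (nat_lit 78) (nat_lit 0) (nat_lit 0) (XT.lf (nat_lit 0) (nat_lit 361962081539) (nat_lit 76) (nat_lit 51502367054) (nat_lit 76) (nat_lit 42030139767) (nat_lit 3) (nat_lit 4) (nat_lit 4) (nat_lit 5) (nat_lit 4) (nat_lit 4) (nat_lit 381) (nat_lit 241) (nat_lit 158)) (XT.nd (nat_lit 78) (nat_lit 0) (nat_lit 0) (XT.lf (nat_lit 0) (nat_lit 385268120967) (nat_lit 76) (nat_lit 51170321503) (nat_lit 76) (nat_lit 41690092975) (nat_lit 3) (nat_lit 4) (nat_lit 4) (nat_lit 5) (nat_lit 4) (nat_lit 4) (nat_lit 382) (nat_lit 241) (nat_lit 157)) (XT.lf (nat_lit 0) (nat_lit 409731300938) (nat_lit 76) (nat_lit 50825474163) (nat_lit 76) (nat_lit 41337625406) (nat_lit 3) (nat_lit 4) (nat_lit 4) (nat_lit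 5) (nat_lit 4) (nat_lit 4) (nat_lit 383) (nat_lit 241) (nat_lit 156))))))) (XT.nd (nat_lit 34164) (nat_lit 0) (nat_lit 836) (XT.nd (nat_lit 33774) (nat_lit 0) (nat_lit 1520) (XT.nd (nat_lit 156) (nat_lit 0) (nat_lit 0) (XT.nd (nat_lit 78) (nat_lit 0) (nat_lit 0) (XT.lf (nat_lit 0) (nat_lit 435409867118) (nat_lit 76) (nat_lit 50467003968) (nat_lit 76) (nat_lit 40971897850) (nat_lit 3) (nat_lit 4) (nat_lit 4) (nat_lit 5) (nat_lit 4) (nat_lit 4) (nat_lit 384) (nat_lit 241) (nat_lit 155)) (XT.lf (nat_lit 0) (nat_lit 462364958951) (nat_lit 76) (nat_lit 50094057420) (nat_lit 76) (nat_lit 40592039529) (nat_lit 3) (nat_lit 4) (nat_lit 4) (nat_lit 5) (nat_lit 4) (nat_lit 4) (nat_lit 385) (nat_lit 241) (nat_lit 154))) (XT.nd (nat_lit 78) (nat_lit 0) (nat_lit 0) (XT.lf (nat_lit 0) (nat_lit 490660755226) (nat_lit 76) (nat_lit 49705746549) (nat_lit 76) (nat_lit 40197146018) (nat_lit 3) (nat_lit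 4) (nat_lit 4) (nat_lit 5) (nat_lit 4) (nat_lit 4) (nat_lit 386) (nat_lit 241) (nat_lit 153)) (XT.nd (nat_lit 78) (nat_lit 0) (nat_lit 0) (XT.lf (nat_lit 0) (nat_lit 520364626888) (nat_lit 76) (nat_lit 49301146805) (nat_lit 76) (nat_lit 39786277093) (nat_lit 3) (nat_lit 4) (nat_lit 4) (nat_lit 5) (nat_lit 4) (nat_lit 4) (nat_lit 387) (nat_lit 241) (nat_lit 152)) (XT.lf (nat_lit 0) (nat_lit 551547297439) (nat_lit 76) (nat_lit 48879294857) (nat_lit 76) (nat_lit 39358454496) (nat_lit 3) (nat_lit 4) (nat_lit 4) (nat_lit 5) (nat_lit 4) (nat_lit 4) (nat_lit 388) (nat_lit 241) (nat_lit 151))))) (XT.nd (nat_lit 156) (nat_lit 380) (nat_lit 0) (XT.nd (nat_lit 78) (nat_lit 152) (nat_lit 0) (XT.lf (nat_lit 0) (nat_lit 1778334777) (nat_lit 228) (nat_lit 2047928122) (nat_lit 0) (nat_lit 1778334777) (nat_lit 30) (nat_lit 5) (nat_lit 33) (nat_lit 4) (nat_lit 30) (nat_lit 4) (nat_lit 296) (nat_lit 242)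 (nat_lit 242)) (XT.lf (nat_lit 0) (nat_lit 2926192302) (nat_lit 152) (nat_lit 4643697320) (nat_lit 152) (nat_lit 3965457093) (nat_lit 28) (nat_lit 4) (nat_lit 30) (nat_lit 5) (nat_lit 30) (nat_lit 4) (nat_lit 297) (nat_lit 242) (nat_lit 241))) (XT.nd (nat_lit 78) (nat_lit 380) (nat_lit 0) (XT.lf (nat_lit 0) (nat_lit 10209490966) (nat_lit 152) (nat_lit 1498258651) (nat_lit 152) (nat_lit 174075350) (nat_lit 28) (nat_lit 4) (nat_lit 30) (nat_lit 5) (nat_lit 30) (nat_lit 4) (nat_lit 298) (nat_lit 242) (nat_lit 240)) (XT.nd (nat_lit 78) (nat_lit 152) (nat_lit 0) (XT.lf (nat_lit 0) (nat_lit 3659230360) (nat_lit 228) (nat_lit 6772699023) (nat_lit 0) (nat_lit 1812213997) (nat_lit 25) (nat_lit 5) (nat_lit 28) (nat_lit 4) (nat_lit 25) (nat_lit 4) (nat_lit 299) (nat_lit 242) (nat_lit 239)) (XT.lf (nat_lit 0) (nat_lit 156468351) (nat_lit 152) (nat_lit 7438661294) (nat_lit 152) (nat_lit 5033655018)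 (nat_lit 23) (nat_lit 4) (nat_lit 25) (nat_lit 5) (nat_lit 25) (nat_lit 4) (nat_lit 300) (nat_lit 242) (nat_lit 238)))))) (XT.nd (nat_lit 390) (nat_lit 380) (nat_lit 0) (XT.nd (nat_lit 156) (nat_lit 152) (nat_lit 0) (XT.nd (nat_lit 78) (nat_lit 152) (nat_lit 0) (XT.lf (nat_lit 0) (nat_lit 7442934159) (nat_lit 152) (nat_lit 4263694220) (nat_lit 152) (nat_lit 1327268978) (nat_lit 23) (nat_lit 4) (nat_lit 25) (nat_lit 5) (nat_lit 25) (nat_lit 4) (nat_lit 301) (nat_lit 242) (nat_lit 237)) (XT.lf (nat_lit 0) (nat_lit 1421795913) (nat_lit 76) (nat_lit 951050162) (nat_lit 152) (nat_lit 11090056203) (nat_lit 21) (nat_lit 5) (nat_lit 22) (nat_lit 5) (nat_lit 23) (nat_lit 4) (nat_lit 302) (nat_lit 242) (nat_lit 236))) (XT.nd (nat_lit 78) (nat_lit 152) (nat_lit 0) (XT.lf (nat_lit 0) (nat_lit 6218927698) (nat_lit 152) (nat_lit 5211958776) (nat_lit 0) (nat_lit 2481259880) (nat_lit 21) (nat_lit 5)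 (nat_lit 23) (nat_lit 4) (nat_lit 21) (nat_lit 4) (nat_lit 303) (nat_lit 242) (nat_lit 235)) (XT.nd (nat_lit 78) (nat_lit 0) (nat_lit 0) (XT.lf (nat_lit 0) (nat_lit 1790981218) (nat_lit 152) (nat_lit 8385952817) (nat_lit 152) (nat_lit 4211085301) (nat_lit 19) (nat_lit 4) (nat_lit 21) (nat_lit 5) (nat_lit 21) (nat_lit 4) (nat_lit 304) (nat_lit 242) (nat_lit 234)) (XT.lf (nat_lit 0) (nat_lit 9118996447) (nat_lit 152) (nat_lit 5180863714) (nat_lit 152) (nat_lit 589615533) (nat_lit 19) (nat_lit 4) (nat_lit 21) (nat_lit 5) (nat_lit 21) (nat_lit 4) (nat_lit 305) (nat_lit 242) (nat_lit 233))))) (XT.nd (nat_lit 156) (nat_lit 228) (nat_lit 0) (XT.nd (nat_lit 78) (nat_lit 0) (nat_lit 0) (XT.lf (nat_lit 0) (nat_lit 1184949177) (nat_lit 76) (nat_lit 1826148565) (nat_lit 152) (nat_lit 12407476418) (nat_lit 17) (nat_lit 5) (nat_lit 18) (nat_lit 5) (nat_lit 19) (nat_lit 4) (nat_lit 306) (nat_lit 242)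 (nat_lit 232)) (XT.lf (nat_lit 0) (nat_lit 6781586082) (nat_lit 152) (nat_lit 7520088044) (nat_lit 0) (nat_lit 1671613956) (nat_lit 17) (nat_lit 5) (nat_lit 19) (nat_lit 4) (nat_lit 17) (nat_lit 4) (nat_lit 307) (nat_lit 242) (nat_lit 231))) (XT.nd (nat_lit 78) (nat_lit 228) (nat_lit 0) (XT.lf (nat_lit 0) (nat_lit 10659814170) (nat_lit 152) (nat_lit 692793878) (nat_lit 0) (nat_lit 5207284641) (nat_lit 17) (nat_lit 5) (nat_lit 19) (nat_lit 4) (nat_lit 17) (nat_lit 4) (nat_lit 308) (nat_lit 242) (nat_lit 230)) (XT.nd (nat_lit 78) (nat_lit 76) (nat_lit 0) (XT.lf (nat_lit 0) (nat_lit 6501100077) (nat_lit 152) (nat_lit 8226904900) (nat_lit 152) (nat_lit 2448130225) (nat_lit 15) (nat_lit 4) (nat_lit 17) (nat_lit 5) (nat_lit 17) (nat_lit 4) (nat_lit 309) (nat_lit 242) (nat_lit 229)) (XT.lf (nat_lit 0) (nat_lit 1045657645) (nat_lit 228) (nat_lit 3945886164) (nat_lit 76) (nat_lit 12835482928)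 (nat_lit 14) (nat_lit 5) (nat_lit 17) (nat_lit 5) (nat_lit 15) (nat_lit 4) (nat_lit 310) (nat_lit 242) (nat_lit 228))))))))
noncomputable def xc56 : XT := (XT.nd (nat_lit 1482) (nat_lit 228) (nat_lit 0) (XT.nd (nat_lit 702) (nat_lit 228) (nat_lit 0) (XT.nd (nat_lit 312) (nat_lit 152) (nat_lit 0) (XT.nd (nat_lit 156) (nat_lit 76) (nat_lit 0) (XT.nd (nat_lit 78) (nat_lit 0) (nat_lit 0) (XT.lf (nat_lit 0) (nat_lit 3000906672) (nat_lit 76) (nat_lit 1577778681) (nat_lit 152) (nat_lit 13932524879) (nat_lit 13) (nat_lit 5) (nat_lit 14) (nat_lit 5) (nat_lit 15) (nat_lit 4) (nat_lit 311) (nat_lit 242) (nat_lit 227)) (XT.lf (nat_lit 0) (nat_lit 8288510922) (nat_lit 152) (nat_lit 9002398836) (nat_lit 0) (nat_lit 1938776516) (nat_lit 13) (nat_lit 5) (nat_lit 15) (nat_lit 4) (nat_lit 13) (nat_lit 4) (nat_lit 312) (nat_lit 242) (nat_lit 226))) (XT.nd (nat_lit 78) (nat_lit 76) (nat_lit 0) (XT.lf (nat_lit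 0) (nat_lit 12115307915) (nat_lit 152) (nat_lit 2362338672) (nat_lit 0) (nat_lit 5509951901) (nat_lit 13) (nat_lit 5) (nat_lit 15) (nat_lit 4) (nat_lit 13) (nat_lit 4) (nat_lit 313) (nat_lit 242) (nat_lit 225)) (XT.lf (nat_lit 0) (nat_lit 4597467825) (nat_lit 76) (nat_lit 11517865739) (nat_lit 76) (nat_lit 4669060574) (nat_lit 12) (nat_lit 4) (nat_lit 13) (nat_lit 5) (nat_lit 13) (nat_lit 4) (nat_lit 314) (nat_lit 242) (nat_lit 224)))) (XT.nd (nat_lit 156) (nat_lit 76) (nat_lit 0) (XT.nd (nat_lit 78) (nat_lit 76) (nat_lit 0) (XT.lf (nat_lit 0) (nat_lit 11830446397) (nat_lit 76) (nat_lit 8436862793) (nat_lit 76) (nat_lit 1356201293) (nat_lit 12) (nat_lit 4) (nat_lit 13) (nat_lit 5) (nat_lit 13) (nat_lit 4) (nat_lit 315) (nat_lit 242) (nat_lit 223)) (XT.lf (nat_lit 0) (nat_lit 1969061609) (nat_lit 152) (nat_lit 3264900757) (nat_lit 76) (nat_lit 17273300212) (nat_lit 11) (nat_lit 5) (nat_lit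 13) (nat_lit 5) (nat_lit 12) (nat_lit 4) (nat_lit 316) (nat_lit 242) (nat_lit 222))) (XT.nd (nat_lit 78) (nat_lit 0) (nat_lit 0) (XT.lf (nat_lit 0) (nat_lit 3535592355) (nat_lit 76) (nat_lit 1853368591) (nat_lit 152) (nat_lit 18046499842) (nat_lit 10) (nat_lit 5) (nat_lit 11) (nat_lit 5) (nat_lit 12) (nat_lit 4) (nat_lit 317) (nat_lit 242) (nat_lit 221)) (XT.nd (nat_lit 78) (nat_lit 0) (nat_lit 0) (XT.lf (nat_lit 0) (nat_lit 8981944764) (nat_lit 152) (nat_lit 13790962034) (nat_lit 0) (nat_lit 1637122092) (nat_lit 10) (nat_lit 5) (nat_lit 12) (nat_lit 4) (nat_lit 10) (nat_lit 4) (nat_lit 318) (nat_lit 242) (nat_lit 220)) (XT.lf (nat_lit 0) (nat_lit 12708205728) (nat_lit 152) (nat_lit 7545782107) (nat_lit 0) (nat_lit 5181717551) (nat_lit 10) (nat_lit 5) (nat_lit 12) (nat_lit 4) (nat_lit 10) (nat_lit 4) (nat_lit 319) (nat_lit 242) (nat_lit 219)))))) (XT.nd (nat_lit 390) (nat_lit 76) (nat_lit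 0) (XT.nd (nat_lit 156) (nat_lit 76) (nat_lit 0) (XT.nd (nat_lit 78) (nat_lit 76) (nat_lit 0) (XT.lf (nat_lit 0) (nat_lit 16547679611) (nat_lit 152) (nat_lit 1120522897) (nat_lit 0) (nat_lit 8848176668) (nat_lit 10) (nat_lit 5) (nat_lit 12) (nat_lit 4) (nat_lit 10) (nat_lit 4) (nat_lit 320) (nat_lit 242) (nat_lit 218)) (XT.lf (nat_lit 0) (nat_lit 5681972432) (nat_lit 76) (nat_lit 14916247099) (nat_lit 76) (nat_lit 7051968188) (nat_lit 9) (nat_lit 4) (nat_lit 10) (nat_lit 5) (nat_lit 10) (nat_lit 4) (nat_lit 321) (nat_lit 242) (nat_lit 217))) (XT.nd (nat_lit 78) (nat_lit 76) (nat_lit 0) (XT.lf (nat_lit 0) (nat_lit 12739639523) (nat_lit 76) (nat_lit 12062385828) (nat_lit 76) (nat_lit 4041177423) (nat_lit 9) (nat_lit 4) (nat_lit 10) (nat_lit 5) (nat_lit 10) (nat_lit 4) (nat_lit 322) (nat_lit 242) (nat_lit 216)) (XT.nd (nat_lit 78) (nat_lit 76) (nat_lit 0) (XT.lf (nat_lit 0) (nat_lit 20032232794)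 (nat_lit 76) (nat_lit 9118800384) (nat_lit 76) (nat_lit 948135319) (nat_lit 9) (nat_lit 4) (nat_lit 10) (nat_lit 5) (nat_lit 10) (nat_lit 4) (nat_lit 323) (nat_lit 242) (nat_lit 215)) (XT.lf (nat_lit 0) (nat_lit 2163003834) (nat_lit 152) (nat_lit 3878846879) (nat_lit 76) (nat_lit 25377480214) (nat_lit 8) (nat_lit 5) (nat_lit 10) (nat_lit 5) (nat_lit 9) (nat_lit 4) (nat_lit 324) (nat_lit 242) (nat_lit 214))))) (XT.nd (nat_lit 156) (nat_lit 0) (nat_lit 0) (XT.nd (nat_lit 78) (nat_lit 0) (nat_lit 0) (XT.lf (nat_lit 0) (nat_lit 2576552238) (nat_lit 76) (nat_lit 2801554384) (nat_lit 152) (nat_lit 27427647812) (nat_lit 7) (nat_lit 5) (nat_lit 8) (nat_lit 5) (nat_lit 9) (nat_lit 4) (nat_lit 325) (nat_lit 242) (nat_lit 213)) (XT.lf (nat_lit 0) (nat_lit 8770577672) (nat_lit 152) (nat_lit 24888766684) (nat_lit 0) (nat_lit 601365652) (nat_lit 7) (nat_lit 5) (nat_lit 9) (nat_lit 4) (nat_lit 7)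 (nat_lit 4) (nat_lit 326) (nat_lit 242) (nat_lit 212))) (XT.nd (nat_lit 78) (nat_lit 0) (nat_lit 0) (XT.lf (nat_lit 0) (nat_lit 12321900909) (nat_lit 152) (nat_lit 19431504906) (nat_lit 0) (nat_lit 4035585686) (nat_lit 7) (nat_lit 5) (nat_lit 9) (nat_lit 4) (nat_lit 7) (nat_lit 4) (nat_lit 327) (nat_lit 242) (nat_lit 211)) (XT.nd (nat_lit 78) (nat_lit 0) (nat_lit 0) (XT.lf (nat_lit 0) (nat_lit 15996791750) (nat_lit 152) (nat_lit 13800683265) (nat_lit 0) (nat_lit 7598949666) (nat_lit 7) (nat_lit 5) (nat_lit 9) (nat_lit 4) (nat_lit 7) (nat_lit 4) (nat_lit 328) (nat_lit 242) (nat_lit 210)) (XT.lf (nat_lit 0) (nat_lit 19803999935) (nat_lit 152) (nat_lit 7982895045) (nat_lit 0) (nat_lit 11299941792) (nat_lit 7) (nat_lit 5) (nat_lit 9) (nat_lit 4) (nat_lit 7) (nat_lit 4) (nat_lit 329) (nat_lit 242) (nat_lit 209))))))) (XT.nd (nat_lit 780) (nat_lit 0) (nat_lit 0) (XT.nd (nat_lit 390) (nat_lit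 152) (nat_lit 0) (XT.nd (nat_lit 156) (nat_lit 0) (nat_lit 0) (XT.nd (nat_lit 78) (nat_lit 76) (nat_lit 0) (XT.lf (nat_lit 0) (nat_lit 23752590246) (nat_lit 152) (nat_lit 1964288368) (nat_lit 0) (nat_lit 15147373952) (nat_lit 7) (nat_lit 5) (nat_lit 9) (nat_lit 4) (nat_lit 7) (nat_lit 4) (nat_lit 330) (nat_lit 242) (nat_lit 208)) (XT.lf (nat_lit 0) (nat_lit 4410634633) (nat_lit 76) (nat_lit 23510191820) (nat_lit 76) (nat_lit 14808634430) (nat_lit 6) (nat_lit 4) (nat_lit 7) (nat_lit 5) (nat_lit 7) (nat_lit 4) (nat_lit 331) (nat_lit 242) (nat_lit 207))) (XT.nd (nat_lit 78) (nat_lit 0) (nat_lit 0) (XT.lf (nat_lit 0) (nat_lit 11088101160) (nat_lit 76) (nat_lit 21196897045) (nat_lit 76) (nat_lit 12403586231) (nat_lit 6) (nat_lit 4) (nat_lit 7) (nat_lit 5) (nat_lit 7) (nat_lit 4) (nat_lit 332) (nat_lit 242) (nat_lit 206)) (XT.nd (nat_lit 78) (nat_lit 0) (nat_lit 0) (XT.lf (nat_lit 0) (nat_lit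 18019061696) (nat_lit 76) (nat_lit 18804752619) (nat_lit 76) (nat_lit 9924057591) (nat_lit 6) (nat_lit 4) (nat_lit 7) (nat_lit 5) (nat_lit 7) (nat_lit 4) (nat_lit 333) (nat_lit 242) (nat_lit 205)) (XT.lf (nat_lit 0) (nat_lit 25220018528) (nat_lit 76) (nat_lit 16328062959) (nat_lit 76) (nat_lit 7364144870) (nat_lit 6) (nat_lit 4) (nat_lit 7) (nat_lit 5) (nat_lit 7) (nat_lit 4) (nat_lit 334) (nat_lit 242) (nat_lit 204))))) (XT.nd (nat_lit 156) (nat_lit 152) (nat_lit 0) (XT.nd (nat_lit 78) (nat_lit 0) (nat_lit 0) (XT.lf (nat_lit 0) (nat_lit 32708116792) (nat_lit 76) (nat_lit 13760931186) (nat_lit 76) (nat_lit 4717753039) (nat_lit 6) (nat_lit 4) (nat_lit 7) (nat_lit 5) (nat_lit 7) (nat_lit 4) (nat_lit 335) (nat_lit 242) (nat_lit 203)) (XT.lf (nat_lit 0) (nat_lit 40501185293) (nat_lit 76) (nat_lit 11097245081) (nat_lit 76) (nat_lit 1978581164) (nat_lit 6) (nat_lit 4) (nat_lit 7) (nat_lit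 5) (nat_lit 7) (nat_lit 4) (nat_lit 336) (nat_lit 242) (nat_lit 202))) (XT.nd (nat_lit 78) (nat_lit 76) (nat_lit 0) (XT.lf (nat_lit 0) (nat_lit 832370658) (nat_lit 152) (nat_lit 7484195276) (nat_lit 76) (nat_lit 47771311698) (nat_lit 5) (nat_lit 5) (nat_lit 7) (nat_lit 5) (nat_lit 6) (nat_lit 4) (nat_lit 337) (nat_lit 242) (nat_lit 201)) (XT.nd (nat_lit 78) (nat_lit 76) (nat_lit 0) (XT.lf (nat_lit 0) (nat_lit 3682661092) (nat_lit 152) (nat_lit 1709567704) (nat_lit 76) (nat_lit 53332194264) (nat_lit 5) (nat_lit 5) (nat_lit 7) (nat_lit 5) (nat_lit 6) (nat_lit 4) (nat_lit 338) (nat_lit 242) (nat_lit 200)) (XT.lf (nat_lit 0) (nat_lit 4434632721) (nat_lit 76) (nat_lit 2277007820) (nat_lit 152) (nat_lit 54779367479) (nat_lit 4) (nat_lit 5) (nat_lit 5) (nat_lit 5) (nat_lit 6) (nat_lit 4) (nat_lit 339) (nat_lit 242) (nat_lit 199)))))) (XT.nd (nat_lit 390) (nat_lit 0) (nat_lit 0) (XT.nd (nat_lit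 156) (nat_lit 0) (nat_lit 0) (XT.nd (nat_lit 78) (nat_lit 0) (nat_lit 0) (XT.lf (nat_lit 0) (nat_lit 9904155856) (nat_lit 152) (nat_lit 53526390652) (nat_lit 0) (nat_lit 964791362) (nat_lit 4) (nat_lit 5) (nat_lit 6) (nat_lit 4) (nat_lit 4) (nat_lit 4) (nat_lit 340) (nat_lit 242) (nat_lit 198)) (XT.lf (nat_lit 0) (nat_lit 13262330823) (nat_lit 152) (nat_lit 49915633043) (nat_lit 0) (nat_lit 4266637685) (nat_lit 4) (nat_lit 5) (nat_lit 6) (nat_lit 4) (nat_lit 4) (nat_lit 4) (nat_lit 341) (nat_lit 242) (nat_lit 197))) (XT.nd (nat_lit 78) (nat_lit 0) (nat_lit 0) (XT.lf (nat_lit 0) (nat_lit 16758610624) (nat_lit 152) (nat_lit 46179954957) (nat_lit 0) (nat_lit 7709271159) (nat_lit 4) (nat_lit 5) (nat_lit 6) (nat_lit 4) (nat_lit 4) (nat_lit 4) (nat_lit 342) (nat_lit 242) (nat_lit 196)) (XT.nd (nat_lit 78) (nat_lit 0) (nat_lit 0) (XT.lf (nat_lit 0) (nat_lit 20401319735) (nat_lit 152) (nat_lit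 42310461923) (nat_lit 0) (nat_lit 11300888530) (nat_lit 4) (nat_lit 5) (nat_lit 6) (nat_lit 4) (nat_lit 4) (nat_lit 4) (nat_lit 343) (nat_lit 242) (nat_lit 195)) (XT.lf (nat_lit 0) (nat_lit 24199131273) (nat_lit 152) (nat_lit 38297940861) (nat_lit 0) (nat_lit 15050041268) (nat_lit 4) (nat_lit 5) (nat_lit 6) (nat_lit 4) (nat_lit 4) (nat_lit 4) (nat_lit 344) (nat_lit 242) (nat_lit 194))))) (XT.nd (nat_lit 156) (nat_lit 0) (nat_lit 0) (XT.nd (nat_lit 78) (nat_lit 0) (nat_lit 0) (XT.lf (nat_lit 0) (nat_lit 28161087646) (nat_lit 152) (nat_lit 34132838151) (nat_lit 0) (nat_lit 18965655926) (nat_lit 4) (nat_lit 5) (nat_lit 6) (nat_lit 4) (nat_lit 4) (nat_lit 4) (nat_lit 345) (nat_lit 242) (nat_lit 193)) (XT.lf (nat_lit 0) (nat_lit 32296622083) (nat_lit 152) (nat_lit 29805236881) (nat_lit 0) (nat_lit 23057055397) (nat_lit 4) (nat_lit 5) (nat_lit 6) (nat_lit 4) (nat_lit 4) (nat_lit 4) (nat_lit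 346) (nat_lit 242) (nat_lit 192))) (XT.nd (nat_lit 78) (nat_lit 0) (nat_lit 0) (XT.lf (nat_lit 0) (nat_lit 36615581095) (nat_lit 152) (nat_lit 25304833239) (nat_lit 0) (nat_lit 27333981109) (nat_lit 4) (nat_lit 5) (nat_lit 6) (nat_lit 4) (nat_lit 4) (nat_lit 4) (nat_lit 347) (nat_lit 242) (nat_lit 191)) (XT.nd (nat_lit 78) (nat_lit 0) (nat_lit 0) (XT.lf (nat_lit 0) (nat_lit 41128247918) (nat_lit 152) (nat_lit 20620911977) (nat_lit 0) (nat_lit 31806616216) (nat_lit 4) (nat_lit 5) (nat_lit 6) (nat_lit 4) (nat_lit 4) (nat_lit 4) (nat_lit 348) (nat_lit 242) (nat_lit 190)) (XT.lf (nat_lit 0) (nat_lit 45845366997) (nat_lit 152) (nat_lit 15742320903) (nat_lit 0) (nat_lit 36485609852) (nat_lit 4) (nat_lit 5) (nat_lit 6) (nat_lit 4) (nat_lit 4) (nat_lit 4) (nat_lit 349) (nat_lit 242) (nat_lit 189))))))))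
noncomputable def xc57 : XT := (XT.nd (nat_lit 1482) (nat_lit 0) (nat_lit 0) (XT.nd (nat_lit 702) (nat_lit 0) (nat_lit 0) (XT.nd (nat_lit 312) (nat_lit 0) (nat_lit 0) (XT.nd (nat_lit 156) (nat_lit 76) (nat_lit 0) (XT.nd (nat_lit 78) (nat_lit 0) (nat_lit 0) (XT.lf (nat_lit 0) (nat_lit 50778169567) (nat_lit 152) (nat_lit 10657444323) (nat_lit 0) (nat_lit 41382102477) (nat_lit 4) (nat_lit 5) (nat_lit 6) (nat_lit 4) (nat_lit 4) (nat_lit 4) (nat_lit 350) (nat_lit 242) (nat_lit 188)) (XT.lf (nat_lit 0) (nat_lit 55938400397) (nat_lit 152) (nat_lit 5354175388) (nat_lit 0) (nat_lit 46507752406) (nat_lit 4) (nat_lit 5) (nat_lit 6) (nat_lit 4) (nat_lit 4) (nat_lit 4) (nat_lit 351) (nat_lit 242) (nat_lit 187))) (XT.nd (nat_lit 78) (nat_lit 0) (nat_lit 0) (XT.lf (nat_lit 0) (nat_lit 186068071) (nat_lit 76) (nat_lit 61155182723) (nat_lit 76) (nat_lit 51691600540) (nat_lit 3) (nat_lit 4) (nat_lit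 4) (nat_lit 5) (nat_lit 4) (nat_lit 4) (nat_lit 352) (nat_lit 242) (nat_lit 186)) (XT.lf (nat_lit 0) (nat_lit 6155615037) (nat_lit 76) (nat_lit 60931354004) (nat_lit 76) (nat_lit 51436405925) (nat_lit 3) (nat_lit 4) (nat_lit 4) (nat_lit 5) (nat_lit 4) (nat_lit 4) (nat_lit 353) (nat_lit 242) (nat_lit 185)))) (XT.nd (nat_lit 156) (nat_lit 0) (nat_lit 0) (XT.nd (nat_lit 78) (nat_lit 0) (nat_lit 0) (XT.lf (nat_lit 0) (nat_lit 12391645496) (nat_lit 76) (nat_lit 60711232256) (nat_lit 76) (nat_lit 51186411895) (nat_lit 3) (nat_lit 4) (nat_lit 4) (nat_lit 5) (nat_lit 4) (nat_lit 4) (nat_lit 354) (nat_lit 242) (nat_lit 184)) (XT.lf (nat_lit 0) (nat_lit 18909007141) (nat_lit 76) (nat_lit 60494293379) (nat_lit 76) (nat_lit 50941023225) (nat_lit 3) (nat_lit 4) (nat_lit 4) (nat_lit 5) (nat_lit 4) (nat_lit 4) (nat_lit 355) (nat_lit 242) (nat_lit 183))) (XT.nd (nat_lit 78) (nat_lit 0) (nat_lit 0)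 (XT.lf (nat_lit 0) (nat_lit 25723217498) (nat_lit 76) (nat_lit 60280020852) (nat_lit 76) (nat_lit 50699655657) (nat_lit 3) (nat_lit 4) (nat_lit 4) (nat_lit 5) (nat_lit 4) (nat_lit 4) (nat_lit 356) (nat_lit 242) (nat_lit 182)) (XT.nd (nat_lit 78) (nat_lit 0) (nat_lit 0) (XT.lf (nat_lit 0) (nat_lit 32850500879) (nat_lit 76) (nat_lit 60067904501) (nat_lit 76) (nat_lit 50461734506) (nat_lit 3) (nat_lit 4) (nat_lit 4) (nat_lit 5) (nat_lit 4) (nat_lit 4) (nat_lit 357) (nat_lit 242) (nat_lit 181)) (XT.lf (nat_lit 0) (nat_lit 40307827005) (nat_lit 76) (nat_lit 59857439289) (nat_lit 76) (nat_lit 50226693293) (nat_lit 3) (nat_lit 4) (nat_lit 4) (nat_lit 5) (nat_lit 4) (nat_lit 4) (nat_lit 358) (nat_lit 242) (nat_lit 180)))))) (XT.nd (nat_lit 390) (nat_lit 0) (nat_lit 0) (XT.nd (nat_lit 156) (nat_lit 0) (nat_lit 0) (XT.nd (nat_lit 78) (nat_lit 0) (nat_lit 0) (XT.lf (nat_lit 0) (nat_lit 48112951416)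 (nat_lit 76) (nat_lit 59648124107) (nat_lit 76) (nat_lit 49993972397) (nat_lit 3) (nat_lit 4) (nat_lit 4) (nat_lit 5) (nat_lit 4) (nat_lit 4) (nat_lit 359) (nat_lit 242) (nat_lit 179)) (XT.lf (nat_lit 0) (nat_lit 56284457740) (nat_lit 76) (nat_lit 59439460586) (nat_lit 76) (nat_lit 49763017719) (nat_lit 3) (nat_lit 4) (nat_lit 4) (nat_lit 5) (nat_lit 4) (nat_lit 4) (nat_lit 360) (nat_lit 242) (nat_lit 178))) (XT.nd (nat_lit 78) (nat_lit 0) (nat_lit 0) (XT.lf (nat_lit 0) (nat_lit 64841801945) (nat_lit 76) (nat_lit 59230951908) (nat_lit 76) (nat_lit 49533279368) (nat_lit 3) (nat_lit 4) (nat_lit 4) (nat_lit 5) (nat_lit 4) (nat_lit 4) (nat_lit 361) (nat_lit 242) (nat_lit 177)) (XT.nd (nat_lit 78) (nat_lit 0) (nat_lit 0) (XT.lf (nat_lit 0) (nat_lit 73805358660) (nat_lit 76) (nat_lit 59022101624) (nat_lit 76) (nat_lit 49304210347) (nat_lit 3) (nat_lit 4) (nat_lit 4) (nat_lit 5) (nat_lit 4)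 (nat_lit 4) (nat_lit 362) (nat_lit 242) (nat_lit 176)) (XT.lf (nat_lit 0) (nat_lit 83196469688) (nat_lit 76) (nat_lit 58812412471) (nat_lit 76) (nat_lit 49075265255) (nat_lit 3) (nat_lit 4) (nat_lit 4) (nat_lit 5) (nat_lit 4) (nat_lit 4) (nat_lit 363) (nat_lit 242) (nat_lit 175))))) (XT.nd (nat_lit 156) (nat_lit 0) (nat_lit 0) (XT.nd (nat_lit 78) (nat_lit 0) (nat_lit 0) (XT.lf (nat_lit 0) (nat_lit 93037494815) (nat_lit 76) (nat_lit 58601385190) (nat_lit 76) (nat_lit 48845898983) (nat_lit 3) (nat_lit 4) (nat_lit 4) (nat_lit 5) (nat_lit 4) (nat_lit 4) (nat_lit 364) (nat_lit 242) (nat_lit 174)) (XT.lf (nat_lit 0) (nat_lit 103351865054) (nat_lit 76) (nat_lit 58388517334) (nat_lit 76) (nat_lit 48615565422) (nat_lit 3) (nat_lit 4) (nat_lit 4) (nat_lit 5) (nat_lit 4) (nat_lit 4) (nat_lit 365) (nat_lit 242) (nat_lit 173))) (XT.nd (nat_lit 78) (nat_lit 0) (nat_lit 0) (XT.lf (nat_lit 0) (nat_lit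 114164138430) (nat_lit 76) (nat_lit 58173302075) (nat_lit 76) (nat_lit 48383716159) (nat_lit 3) (nat_lit 4) (nat_lit 4) (nat_lit 5) (nat_lit 4) (nat_lit 4) (nat_lit 366) (nat_lit 242) (nat_lit 172)) (XT.nd (nat_lit 78) (nat_lit 0) (nat_lit 0) (XT.lf (nat_lit 0) (nat_lit 125500058450) (nat_lit 76) (nat_lit 57955226996) (nat_lit 76) (nat_lit 48149799171) (nat_lit 3) (nat_lit 4) (nat_lit 4) (nat_lit 5) (nat_lit 4) (nat_lit 4) (nat_lit 367) (nat_lit 242) (nat_lit 171)) (XT.lf (nat_lit 0) (nat_lit 137386615401) (nat_lit 76) (nat_lit 57733772871) (nat_lit 76) (nat_lit 47913257513) (nat_lit 3) (nat_lit 4) (nat_lit 4) (nat_lit 5) (nat_lit 4) (nat_lit 4) (nat_lit 368) (nat_lit 242) (nat_lit 170))))))) (XT.nd (nat_lit 780) (nat_lit 0) (nat_lit 0) (XT.nd (nat_lit 390) (nat_lit 0) (nat_lit 0) (XT.nd (nat_lit 156) (nat_lit 0) (nat_lit 0) (XT.nd (nat_lit 78) (nat_lit 0) (nat_lit 0) (XT.lf (nat_lit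 0) (nat_lit 149852110608) (nat_lit 76) (nat_lit 57508412427) (nat_lit 76) (nat_lit 47673527991) (nat_lit 3) (nat_lit 4) (nat_lit 4) (nat_lit 5) (nat_lit 4) (nat_lit 4) (nat_lit 369) (nat_lit 242) (nat_lit 169)) (XT.lf (nat_lit 0) (nat_lit 162926223822) (nat_lit 76) (nat_lit 57278609093) (nat_lit 76) (nat_lit 47430039820) (nat_lit 3) (nat_lit 4) (nat_lit 4) (nat_lit 5) (nat_lit 4) (nat_lit 4) (nat_lit 370) (nat_lit 242) (nat_lit 168))) (XT.nd (nat_lit 78) (nat_lit 0) (nat_lit 0) (XT.lf (nat_lit 0) (nat_lit 176640083884) (nat_lit 76) (nat_lit 57043815718) (nat_lit 76) (nat_lit 47182213267) (nat_lit 3) (nat_lit 4) (nat_lit 4) (nat_lit 5) (nat_lit 4) (nat_lit 4) (nat_lit 371) (nat_lit 242) (nat_lit 167)) (XT.nd (nat_lit 78) (nat_lit 0) (nat_lit 0) (XT.lf (nat_lit 0) (nat_lit 191026342842) (nat_lit 76) (nat_lit 56803473269) (nat_lit 76) (nat_lit 46929458268) (nat_lit 3) (nat_lit 4) (nat_lit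 4) (nat_lit 5) (nat_lit 4) (nat_lit 4) (nat_lit 372) (nat_lit 242) (nat_lit 166)) (XT.lf (nat_lit 0) (nat_lit 206119253693) (nat_lit 76) (nat_lit 56557009503) (nat_lit 76) (nat_lit 46671173025) (nat_lit 3) (nat_lit 4) (nat_lit 4) (nat_lit 5) (nat_lit 4) (nat_lit 4) (nat_lit 373) (nat_lit 242) (nat_lit 165))))) (XT.nd (nat_lit 156) (nat_lit 0) (nat_lit 0) (XT.nd (nat_lit 78) (nat_lit 0) (nat_lit 0) (XT.lf (nat_lit 0) (nat_lit 221954751939) (nat_lit 76) (nat_lit 56303837601) (nat_lit 76) (nat_lit 46406742574) (nat_lit 3) (nat_lit 4) (nat_lit 4) (nat_lit 5) (nat_lit 4) (nat_lit 4) (nat_lit 374) (nat_lit 242) (nat_lit 164)) (XT.lf (nat_lit 0) (nat_lit 238570541148) (nat_lit 76) (nat_lit 56043354773) (nat_lit 76) (nat_lit 46135537319) (nat_lit 3) (nat_lit 4) (nat_lit 4) (nat_lit 5) (nat_lit 4) (nat_lit 4) (nat_lit 375) (nat_lit 242) (nat_lit 163))) (XT.nd (nat_lit 78) (nat_lit 0) (nat_lit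 0) (XT.lf (nat_lit 0) (nat_lit 256006182722) (nat_lit 76) (nat_lit 55774940822) (nat_lit 76) (nat_lit 45856911532) (nat_lit 3) (nat_lit 4) (nat_lit 4) (nat_lit 5) (nat_lit 4) (nat_lit 4) (nat_lit 376) (nat_lit 242) (nat_lit 162)) (XT.nd (nat_lit 78) (nat_lit 0) (nat_lit 0) (XT.lf (nat_lit 0) (nat_lit 274303190094) (nat_lit 76) (nat_lit 55497956667) (nat_lit 76) (nat_lit 45570201819) (nat_lit 3) (nat_lit 4) (nat_lit 4) (nat_lit 5) (nat_lit 4) (nat_lit 4) (nat_lit 377) (nat_lit 242) (nat_lit 161)) (XT.lf (nat_lit 0) (nat_lit 293505127566) (nat_lit 76) (nat_lit 55211742822) (nat_lit 76) (nat_lit 45274725538) (nat_lit 3) (nat_lit 4) (nat_lit 4) (nat_lit 5) (nat_lit 4) (nat_lit 4) (nat_lit 378) (nat_lit 242) (nat_lit 160)))))) (XT.nd (nat_lit 390) (nat_lit 0) (nat_lit 0) (XT.nd (nat_lit 156) (nat_lit 0) (nat_lit 0) (XT.nd (nat_lit 78) (nat_lit 0) (nat_lit 0) (XT.lf (nat_lit 0) (nat_lit 313657714039)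 (nat_lit 76) (nat_lit 54915617825) (nat_lit 76) (nat_lit 44969779174) (nat_lit 3) (nat_lit 4) (nat_lit 4) (nat_lit 5) (nat_lit 4) (nat_lit 4) (nat_lit 379) (nat_lit 242) (nat_lit 159)) (XT.lf (nat_lit 0) (nat_lit 334808931859) (nat_lit 76) (nat_lit 54608876617) (nat_lit 76) (nat_lit 44654636663) (nat_lit 3) (nat_lit 4) (nat_lit 4) (nat_lit 5) (nat_lit 4) (nat_lit 4) (nat_lit 380) (nat_lit 242) (nat_lit 158))) (XT.nd (nat_lit 78) (nat_lit 0) (nat_lit 0) (XT.lf (nat_lit 0) (nat_lit 357009141071) (nat_lit 76) (nat_lit 54290788862) (nat_lit 76) (nat_lit 44328547667) (nat_lit 3) (nat_lit 4) (nat_lit 4) (nat_lit 5) (nat_lit 4) (nat_lit 4) (nat_lit 381) (nat_lit 242) (nat_lit 157)) (XT.nd (nat_lit 78) (nat_lit 0) (nat_lit 0) (XT.lf (nat_lit 0) (nat_lit 380311199315) (nat_lit 76) (nat_lit 53960597208) (nat_lit 76) (nat_lit 43990735784) (nat_lit 3) (nat_lit 4) (nat_lit 4) (nat_lit 5) (nat_lit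 4) (nat_lit 4) (nat_lit 382) (nat_lit 242) (nat_lit 156)) (XT.lf (nat_lit 0) (nat_lit 404770587681) (nat_lit 76) (nat_lit 53617515484) (nat_lit 76) (nat_lit 43640396699) (nat_lit 3) (nat_lit 4) (nat_lit 4) (nat_lit 5) (nat_lit 4) (nat_lit 4) (nat_lit 383) (nat_lit 242) (nat_lit 155))))) (XT.nd (nat_lit 156) (nat_lit 0) (nat_lit 0) (XT.nd (nat_lit 78) (nat_lit 0) (nat_lit 0) (XT.lf (nat_lit 0) (nat_lit 430445542809) (nat_lit 76) (nat_lit 53260726829) (nat_lit 76) (nat_lit 43276696271) (nat_lit 3) (nat_lit 4) (nat_lit 4) (nat_lit 5) (nat_lit 4) (nat_lit 4) (nat_lit 384) (nat_lit 242) (nat_lit 154)) (XT.lf (nat_lit 0) (nat_lit 457397195545) (nat_lit 76) (nat_lit 52889381746) (nat_lit 76) (nat_lit 42898768548) (nat_lit 3) (nat_lit 4) (nat_lit 4) (nat_lit 5) (nat_lit 4) (nat_lit 4) (nat_lit 385) (nat_lit 242) (nat_lit 153))) (XT.nd (nat_lit 78) (nat_lit 0) (nat_lit 0) (XT.lf (nat_lit 0)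 (nat_lit 485689716490) (nat_lit 76) (nat_lit 52502596081) (nat_lit 76) (nat_lit 42505713701) (nat_lit 3) (nat_lit 4) (nat_lit 4) (nat_lit 5) (nat_lit 4) (nat_lit 4) (nat_lit 386) (nat_lit 242) (nat_lit 152)) (XT.nd (nat_lit 78) (nat_lit 0) (nat_lit 0) (XT.lf (nat_lit 0) (nat_lit 515390468789) (nat_lit 76) (nat_lit 52099448914) (nat_lit 76) (nat_lit 42096595886) (nat_lit 3) (nat_lit 4) (nat_lit 4) (nat_lit 5) (nat_lit 4) (nat_lit 4) (nat_lit 387) (nat_lit 242) (nat_lit 151)) (XT.lf (nat_lit 0) (nat_lit 546570168519) (nat_lit 76) (nat_lit 51678980372) (nat_lit 76) (nat_lit 41670441012) (nat_lit 3) (nat_lit 4) (nat_lit 4) (nat_lit 5) (nat_lit 4) (nat_lit 4) (nat_lit 388) (nat_lit 242) (nat_lit 150))))))))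
noncomputable def xc58 : XT := (XT.nd (nat_lit 1482) (nat_lit 532) (nat_lit 0) (XT.nd (nat_lit 702) (nat_lit 608) (nat_lit 0) (XT.nd (nat_lit 312) (nat_lit 532) (nat_lit 0) (XT.nd (nat_lit 156) (nat_lit 304) (nat_lit 0) (XT.nd (nat_lit 78) (nat_lit 76) (nat_lit 0) (XT.lf (nat_lit 0) (nat_lit 1900741161) (nat_lit 228) (nat_lit 1701033719) (nat_lit 228) (nat_lit 1701033719) (nat_lit 33) (nat_lit 4) (nat_lit 36) (nat_lit 5) (nat_lit 36) (nat_lit 4) (nat_lit 294) (nat_lit 243) (nat_lit 243)) (XT.lf (nat_lit 0) (nat_lit 354654810) (nat_lit 304) (nat_lit 20717488) (nat_lit 76) (nat_lit 10528023616) (nat_lit 32) (nat_lit 5) (nat_lit 36) (nat_lit 5) (nat_lit 33) (nat_lit 4) (nat_lit 295) (nat_lit 243) (nat_lit 242))) (XT.nd (nat_lit 78) (nat_lit 152) (nat_lit 0) (XT.lf (nat_lit 0) (nat_lit 4196211265) (nat_lit 228) (nat_lit 4210907615) (nat_lit 0) (nat_lit 2805818798) (nat_lit 30) (nat_lit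 5) (nat_lit 33) (nat_lit 4) (nat_lit 30) (nat_lit 4) (nat_lit 296) (nat_lit 243) (nat_lit 241)) (XT.lf (nat_lit 0) (nat_lit 2694141111) (nat_lit 152) (nat_lit 5442514367) (nat_lit 152) (nat_lit 3406178827) (nat_lit 28) (nat_lit 4) (nat_lit 30) (nat_lit 5) (nat_lit 30) (nat_lit 4) (nat_lit 297) (nat_lit 243) (nat_lit 240)))) (XT.nd (nat_lit 156) (nat_lit 304) (nat_lit 0) (XT.nd (nat_lit 78) (nat_lit 152) (nat_lit 0) (XT.lf (nat_lit 0) (nat_lit 304125559) (nat_lit 228) (nat_lit 2028062021) (nat_lit 76) (nat_lit 9560358272) (nat_lit 27) (nat_lit 5) (nat_lit 30) (nat_lit 5) (nat_lit 28) (nat_lit 4) (nat_lit 298) (nat_lit 243) (nat_lit 239)) (XT.lf (nat_lit 0) (nat_lit 4045197348) (nat_lit 228) (nat_lit 7252005280) (nat_lit 0) (nat_lit 961950844) (nat_lit 25) (nat_lit 5) (nat_lit 28) (nat_lit 4) (nat_lit 25) (nat_lit 4) (nat_lit 299) (nat_lit 243) (nat_lit 238))) (XT.nd (nat_lit 78) (nat_lit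 304) (nat_lit 0) (XT.lf (nat_lit 0) (nat_lit 7914071962) (nat_lit 228) (nat_lit 433755130) (nat_lit 0) (nat_lit 4299406493) (nat_lit 25) (nat_lit 5) (nat_lit 28) (nat_lit 4) (nat_lit 25) (nat_lit 4) (nat_lit 300) (nat_lit 243) (nat_lit 237)) (XT.nd (nat_lit 78) (nat_lit 152) (nat_lit 0) (XT.lf (nat_lit 0) (nat_lit 6734167728) (nat_lit 152) (nat_lit 5221273607) (nat_lit 152) (nat_lit 1100494837) (nat_lit 23) (nat_lit 4) (nat_lit 25) (nat_lit 5) (nat_lit 25) (nat_lit 4) (nat_lit 301) (nat_lit 243) (nat_lit 236)) (XT.lf (nat_lit 0) (nat_lit 558480643) (nat_lit 76) (nat_lit 1959213053) (nat_lit 152) (nat_lit 10970879453) (nat_lit 21) (nat_lit 5) (nat_lit 22) (nat_lit 5) (nat_lit 23) (nat_lit 4) (nat_lit 302) (nat_lit 243) (nat_lit 235)))))) (XT.nd (nat_lit 390) (nat_lit 304) (nat_lit 0) (XT.nd (nat_lit 156) (nat_lit 152) (nat_lit 0) (XT.nd (nat_lit 78) (nat_lit 152) (nat_lit 0) (XT.lf (nat_lit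 0) (nat_lit 6287580151) (nat_lit 152) (nat_lit 6187349338) (nat_lit 0) (nat_lit 1466769561) (nat_lit 21) (nat_lit 5) (nat_lit 23) (nat_lit 4) (nat_lit 21) (nat_lit 4) (nat_lit 303) (nat_lit 243) (nat_lit 234)) (XT.lf (nat_lit 0) (nat_lit 682842665) (nat_lit 152) (nat_lit 9487866559) (nat_lit 152) (nat_lit 4250675305) (nat_lit 19) (nat_lit 4) (nat_lit 21) (nat_lit 5) (nat_lit 21) (nat_lit 4) (nat_lit 304) (nat_lit 243) (nat_lit 233))) (XT.nd (nat_lit 78) (nat_lit 152) (nat_lit 0) (XT.lf (nat_lit 0) (nat_lit 7915146299) (nat_lit 152) (nat_lit 6322160329) (nat_lit 152) (nat_lit 688416061) (nat_lit 19) (nat_lit 4) (nat_lit 21) (nat_lit 5) (nat_lit 21) (nat_lit 4) (nat_lit 305) (nat_lit 243) (nat_lit 232)) (XT.nd (nat_lit 78) (nat_lit 76) (nat_lit 0) (XT.lf (nat_lit 0) (nat_lit 2842372960) (nat_lit 228) (nat_lit 184549237) (nat_lit 76) (nat_lit 12431689700) (nat_lit 18) (nat_lit 5) (nat_lit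 21) (nat_lit 5) (nat_lit 19) (nat_lit 4) (nat_lit 306) (nat_lit 243) (nat_lit 231)) (XT.lf (nat_lit 0) (nat_lit 6537077958) (nat_lit 152) (nat_lit 9010728944) (nat_lit 0) (nat_lit 469364549) (nat_lit 17) (nat_lit 5) (nat_lit 19) (nat_lit 4) (nat_lit 17) (nat_lit 4) (nat_lit 307) (nat_lit 243) (nat_lit 230))))) (XT.nd (nat_lit 156) (nat_lit 152) (nat_lit 0) (XT.nd (nat_lit 78) (nat_lit 152) (nat_lit 0) (XT.lf (nat_lit 0) (nat_lit 10363867472) (nat_lit 152) (nat_lit 2272625373) (nat_lit 0) (nat_lit 3969908918) (nat_lit 17) (nat_lit 5) (nat_lit 19) (nat_lit 4) (nat_lit 17) (nat_lit 4) (nat_lit 308) (nat_lit 243) (nat_lit 229)) (XT.lf (nat_lit 0) (nat_lit 4781280179) (nat_lit 152) (nat_lit 9574937773) (nat_lit 152) (nat_lit 2870269556) (nat_lit 15) (nat_lit 4) (nat_lit 17) (nat_lit 5) (nat_lit 17) (nat_lit 4) (nat_lit 309) (nat_lit 243) (nat_lit 228))) (XT.nd (nat_lit 78) (nat_lit 76) (nat_lit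 0) (XT.lf (nat_lit 0) (nat_lit 588234828) (nat_lit 228) (nat_lit 5794700783) (nat_lit 76) (nat_lit 11497259155) (nat_lit 14) (nat_lit 5) (nat_lit 17) (nat_lit 5) (nat_lit 15) (nat_lit 4) (nat_lit 310) (nat_lit 243) (nat_lit 227)) (XT.nd (nat_lit 78) (nat_lit 0) (nat_lit 0) (XT.lf (nat_lit 0) (nat_lit 1007103429) (nat_lit 76) (nat_lit 3036559222) (nat_lit 152) (nat_lit 14524639847) (nat_lit 13) (nat_lit 5) (nat_lit 14) (nat_lit 5) (nat_lit 15) (nat_lit 4) (nat_lit 311) (nat_lit 243) (nat_lit 226)) (XT.lf (nat_lit 0) (nat_lit 7684671065) (nat_lit 152) (nat_lit 11112164825) (nat_lit 0) (nat_lit 493425642) (nat_lit 13) (nat_lit 5) (nat_lit 15) (nat_lit 4) (nat_lit 13) (nat_lit 4) (nat_lit 312) (nat_lit 243) (nat_lit 225))))))) (XT.nd (nat_lit 780) (nat_lit 228) (nat_lit 0) (XT.nd (nat_lit 390) (nat_lit 76) (nat_lit 0) (XT.nd (nat_lit 156) (nat_lit 152) (nat_lit 0) (XT.nd (nat_lit 78) (nat_lit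 76) (nat_lit 0) (XT.lf (nat_lit 0) (nat_lit 11467619010) (nat_lit 152) (nat_lit 4549862884) (nat_lit 0) (nat_lit 4032924435) (nat_lit 13) (nat_lit 5) (nat_lit 15) (nat_lit 4) (nat_lit 13) (nat_lit 4) (nat_lit 313) (nat_lit 243) (nat_lit 224)) (XT.lf (nat_lit 0) (nat_lit 2261110127) (nat_lit 76) (nat_lit 13128296441) (nat_lit 76) (nat_lit 5461745532) (nat_lit 12) (nat_lit 4) (nat_lit 13) (nat_lit 5) (nat_lit 13) (nat_lit 4) (nat_lit 314) (nat_lit 243) (nat_lit 223))) (XT.nd (nat_lit 78) (nat_lit 152) (nat_lit 0) (XT.lf (nat_lit 0) (nat_lit 9421227692) (nat_lit 76) (nat_lit 10079244557) (nat_lit 76) (nat_lit 2191878092) (nat_lit 12) (nat_lit 4) (nat_lit 13) (nat_lit 5) (nat_lit 13) (nat_lit 4) (nat_lit 315) (nat_lit 243) (nat_lit 222)) (XT.nd (nat_lit 78) (nat_lit 76) (nat_lit 0) (XT.lf (nat_lit 0) (nat_lit 1120497561) (nat_lit 152) (nat_lit 5800646995) (nat_lit 76) (nat_lit 15657624963)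 (nat_lit 11) (nat_lit 5) (nat_lit 13) (nat_lit 5) (nat_lit 12) (nat_lit 4) (nat_lit 316) (nat_lit 243) (nat_lit 221)) (XT.lf (nat_lit 0) (nat_lit 846408849) (nat_lit 76) (nat_lit 3614255572) (nat_lit 152) (nat_lit 19050321375) (nat_lit 10) (nat_lit 5) (nat_lit 11) (nat_lit 5) (nat_lit 12) (nat_lit 4) (nat_lit 317) (nat_lit 243) (nat_lit 220))))) (XT.nd (nat_lit 156) (nat_lit 76) (nat_lit 0) (XT.nd (nat_lit 78) (nat_lit 0) (nat_lit 0) (XT.lf (nat_lit 0) (nat_lit 7891328760) (nat_lit 76) (nat_lit 98930144) (nat_lit 152) (nat_lit 16498494405) (nat_lit 10) (nat_lit 5) (nat_lit 11) (nat_lit 5) (nat_lit 12) (nat_lit 4) (nat_lit 318) (nat_lit 243) (nat_lit 219)) (XT.lf (nat_lit 0) (nat_lit 11679316692) (nat_lit 152) (nat_lit 10415177954) (nat_lit 0) (nat_lit 3421823836) (nat_lit 10) (nat_lit 5) (nat_lit 12) (nat_lit 4) (nat_lit 10) (nat_lit 4) (nat_lit 319) (nat_lit 243) (nat_lit 218))) (XT.nd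 (nat_lit 78) (nat_lit 76) (nat_lit 0) (XT.lf (nat_lit 0) (nat_lit 15484830005) (nat_lit 152) (nat_lit 4051326277) (nat_lit 0) (nat_lit 7062561180) (nat_lit 10) (nat_lit 5) (nat_lit 12) (nat_lit 4) (nat_lit 10) (nat_lit 4) (nat_lit 320) (nat_lit 243) (nat_lit 217)) (XT.nd (nat_lit 78) (nat_lit 0) (nat_lit 0) (XT.lf (nat_lit 0) (nat_lit 2593846368) (nat_lit 76) (nat_lit 16860965854) (nat_lit 76) (nat_lit 8281767536) (nat_lit 9) (nat_lit 4) (nat_lit 10) (nat_lit 5) (nat_lit 10) (nat_lit 4) (nat_lit 321) (nat_lit 243) (nat_lit 216)) (XT.lf (nat_lit 0) (nat_lit 9593973374) (nat_lit 76) (nat_lit 14032943066) (nat_lit 76) (nat_lit 5304288088) (nat_lit 9) (nat_lit 4) (nat_lit 10) (nat_lit 5) (nat_lit 10) (nat_lit 4) (nat_lit 322) (nat_lit 243) (nat_lit 215)))))) (XT.nd (nat_lit 390) (nat_lit 76) (nat_lit 0) (XT.nd (nat_lit 156) (nat_lit 76) (nat_lit 0) (XT.nd (nat_lit 78) (nat_lit 76) (nat_lit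 0) (XT.lf (nat_lit 0) (nat_lit 16831766565) (nat_lit 76) (nat_lit 11113965702) (nat_lit 76) (nat_lit 2242971047) (nat_lit 9) (nat_lit 4) (nat_lit 10) (nat_lit 5) (nat_lit 10) (nat_lit 4) (nat_lit 323) (nat_lit 243) (nat_lit 214)) (XT.lf (nat_lit 0) (nat_lit 880363638) (nat_lit 152) (nat_lit 7201810792) (nat_lit 76) (nat_lit 23429185761) (nat_lit 8) (nat_lit 5) (nat_lit 10) (nat_lit 5) (nat_lit 9) (nat_lit 4) (nat_lit 324) (nat_lit 243) (nat_lit 213))) (XT.nd (nat_lit 78) (nat_lit 76) (nat_lit 0) (XT.lf (nat_lit 0) (nat_lit 4027384655) (nat_lit 152) (nat_lit 879523991) (nat_lit 76) (nat_lit 27994299408) (nat_lit 8) (nat_lit 5) (nat_lit 10) (nat_lit 5) (nat_lit 9) (nat_lit 4) (nat_lit 325) (nat_lit 243) (nat_lit 212)) (XT.nd (nat_lit 78) (nat_lit 0) (nat_lit 0) (XT.lf (nat_lit 0) (nat_lit 5847140804) (nat_lit 76) (nat_lit 1521523440) (nat_lit 152) (nat_lit 26990078260) (nat_lit 7) (nat_lit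 5) (nat_lit 8) (nat_lit 5) (nat_lit 9) (nat_lit 4) (nat_lit 326) (nat_lit 243) (nat_lit 211)) (XT.lf (nat_lit 0) (nat_lit 10869891477) (nat_lit 152) (nat_lit 23079025276) (nat_lit 0) (nat_lit 1940630427) (nat_lit 7) (nat_lit 5) (nat_lit 9) (nat_lit 4) (nat_lit 7) (nat_lit 4) (nat_lit 327) (nat_lit 243) (nat_lit 210))))) (XT.nd (nat_lit 156) (nat_lit 76) (nat_lit 0) (XT.nd (nat_lit 78) (nat_lit 0) (nat_lit 0) (XT.lf (nat_lit 0) (nat_lit 14519695880) (nat_lit 152) (nat_lit 17494337539) (nat_lit 0) (nat_lit 5484218772) (nat_lit 7) (nat_lit 5) (nat_lit 9) (nat_lit 4) (nat_lit 7) (nat_lit 4) (nat_lit 328) (nat_lit 243) (nat_lit 209)) (XT.lf (nat_lit 0) (nat_lit 18303012219) (nat_lit 152) (nat_lit 11720486369) (nat_lit 0) (nat_lit 9166376960) (nat_lit 7) (nat_lit 5) (nat_lit 9) (nat_lit 4) (nat_lit 7) (nat_lit 4) (nat_lit 329) (nat_lit 243) (nat_lit 208))) (XT.nd (nat_lit 78) (nat_lit 76)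 (nat_lit 0) (XT.lf (nat_lit 0) (nat_lit 22228848391) (nat_lit 152) (nat_lit 5743724503) (nat_lit 0) (nat_lit 12995872036) (nat_lit 7) (nat_lit 5) (nat_lit 9) (nat_lit 4) (nat_lit 7) (nat_lit 4) (nat_lit 330) (nat_lit 243) (nat_lit 207)) (XT.nd (nat_lit 78) (nat_lit 0) (nat_lit 0) (XT.lf (nat_lit 0) (nat_lit 465063378) (nat_lit 76) (nat_lit 25848749188) (nat_lit 76) (nat_lit 16524019408) (nat_lit 6) (nat_lit 4) (nat_lit 7) (nat_lit 5) (nat_lit 7) (nat_lit 4) (nat_lit 331) (nat_lit 243) (nat_lit 206)) (XT.lf (nat_lit 0) (nat_lit 7103320481) (nat_lit 76) (nat_lit 23553412992) (nat_lit 76) (nat_lit 14141298998) (nat_lit 6) (nat_lit 4) (nat_lit 7) (nat_lit 5) (nat_lit 7) (nat_lit 4) (nat_lit 332) (nat_lit 243) (nat_lit 205))))))))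
noncomputable def xc59 : XT := (XT.nd (nat_lit 1560) (nat_lit 76) (nat_lit 0) (XT.nd (nat_lit 780) (nat_lit 0) (nat_lit 0) (XT.nd (nat_lit 390) (nat_lit 152) (nat_lit 0) (XT.nd (nat_lit 156) (nat_lit 0) (nat_lit 0) (XT.nd (nat_lit 78) (nat_lit 0) (nat_lit 0) (XT.lf (nat_lit 0) (nat_lit 13996938710) (nat_lit 76) (nat_lit 21178371974) (nat_lit 76) (nat_lit 11683034920) (nat_lit 6) (nat_lit 4) (nat_lit 7) (nat_lit 5) (nat_lit 7) (nat_lit 4) (nat_lit 333) (nat_lit 243) (nat_lit 204)) (XT.lf (nat_lit 0) (nat_lit 21162331439) (nat_lit 76) (nat_lit 18717971275) (nat_lit 76) (nat_lit 9143374163) (nat_lit 6) (nat_lit 4) (nat_lit 7) (nat_lit 5) (nat_lit 7) (nat_lit 4) (nat_lit 334) (nat_lit 243) (nat_lit 203))) (XT.nd (nat_lit 78) (nat_lit 0) (nat_lit 0) (XT.lf (nat_lit 0) (nat_lit 28616559130) (nat_lit 76) (nat_lit 16166352798) (nat_lit 76) (nat_lit 6516269916) (nat_lit 6) (nat_lit 4) (nat_lit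 7) (nat_lit 5) (nat_lit 7) (nat_lit 4) (nat_lit 335) (nat_lit 243) (nat_lit 202)) (XT.nd (nat_lit 78) (nat_lit 0) (nat_lit 0) (XT.lf (nat_lit 0) (nat_lit 36377369941) (nat_lit 76) (nat_lit 13517441261) (nat_lit 76) (nat_lit 3795467170) (nat_lit 6) (nat_lit 4) (nat_lit 7) (nat_lit 5) (nat_lit 7) (nat_lit 4) (nat_lit 336) (nat_lit 243) (nat_lit 201)) (XT.lf (nat_lit 0) (nat_lit 44463241995) (nat_lit 76) (nat_lit 10764929731) (nat_lit 76) (nat_lit 974487821) (nat_lit 6) (nat_lit 4) (nat_lit 7) (nat_lit 5) (nat_lit 7) (nat_lit 4) (nat_lit 337) (nat_lit 243) (nat_lit 200))))) (XT.nd (nat_lit 156) (nat_lit 76) (nat_lit 0) (XT.nd (nat_lit 78) (nat_lit 0) (nat_lit 0) (XT.lf (nat_lit 0) (nat_lit 1890864234) (nat_lit 152) (nat_lit 5979377674) (nat_lit 76) (nat_lit 50970540432) (nat_lit 5) (nat_lit 5) (nat_lit 7) (nat_lit 5) (nat_lit 6) (nat_lit 4) (nat_lit 338) (nat_lit 243) (nat_lit 199)) (XT.lf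 (nat_lit 0) (nat_lit 4835246569) (nat_lit 152) (nat_lit 5496217) (nat_lit 76) (nat_lit 56770864120) (nat_lit 5) (nat_lit 5) (nat_lit 7) (nat_lit 5) (nat_lit 6) (nat_lit 4) (nat_lit 339) (nat_lit 243) (nat_lit 198))) (XT.nd (nat_lit 78) (nat_lit 0) (nat_lit 0) (XT.lf (nat_lit 0) (nat_lit 6417050522) (nat_lit 76) (nat_lit 1579996932) (nat_lit 152) (nat_lit 56520434308) (nat_lit 4) (nat_lit 5) (nat_lit 5) (nat_lit 5) (nat_lit 6) (nat_lit 4) (nat_lit 340) (nat_lit 243) (nat_lit 197)) (XT.nd (nat_lit 78) (nat_lit 0) (nat_lit 0) (XT.lf (nat_lit 0) (nat_lit 11316015747) (nat_lit 152) (nat_lit 54492135892) (nat_lit 0) (nat_lit 1760562981) (nat_lit 4) (nat_lit 5) (nat_lit 6) (nat_lit 4) (nat_lit 4) (nat_lit 4) (nat_lit 341) (nat_lit 243) (nat_lit 196)) (XT.lf (nat_lit 0) (nat_lit 14798449362) (nat_lit 152) (nat_lit 50782296321) (nat_lit 0) (nat_lit 5191904857) (nat_lit 4) (nat_lit 5) (nat_lit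 6) (nat_lit 4) (nat_lit 4) (nat_lit 4) (nat_lit 342) (nat_lit 243) (nat_lit 195)))))) (XT.nd (nat_lit 390) (nat_lit 0) (nat_lit 0) (XT.nd (nat_lit 156) (nat_lit 0) (nat_lit 0) (XT.nd (nat_lit 78) (nat_lit 0) (nat_lit 0) (XT.lf (nat_lit 0) (nat_lit 18427971630) (nat_lit 152) (nat_lit 46937411396) (nat_lit 0) (nat_lit 8772768324) (nat_lit 4) (nat_lit 5) (nat_lit 6) (nat_lit 4) (nat_lit 4) (nat_lit 4) (nat_lit 343) (nat_lit 243) (nat_lit 194)) (XT.lf (nat_lit 0) (nat_lit 22213224269) (nat_lit 152) (nat_lit 42948326629) (nat_lit 0) (nat_lit 12511679249) (nat_lit 4) (nat_lit 5) (nat_lit 6) (nat_lit 4) (nat_lit 4) (nat_lit 4) (nat_lit 344) (nat_lit 243) (nat_lit 193))) (XT.nd (nat_lit 78) (nat_lit 0) (nat_lit 0) (XT.lf (nat_lit 0) (nat_lit 26163219786) (nat_lit 152) (nat_lit 38805544200) (nat_lit 0) (nat_lit 16417539800) (nat_lit 4) (nat_lit 5) (nat_lit 6) (nat_lit 4) (nat_lit 4) (nat_lit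 4) (nat_lit 345) (nat_lit 243) (nat_lit 192)) (XT.nd (nat_lit 78) (nat_lit 0) (nat_lit 0) (XT.lf (nat_lit 0) (nat_lit 30287362932) (nat_lit 152) (nat_lit 34499200340) (nat_lit 0) (nat_lit 20499649645) (nat_lit 4) (nat_lit 5) (nat_lit 6) (nat_lit 4) (nat_lit 4) (nat_lit 4) (nat_lit 346) (nat_lit 243) (nat_lit 191)) (XT.lf (nat_lit 0) (nat_lit 34595473096) (nat_lit 152) (nat_lit 30019041851) (nat_lit 0) (nat_lit 24767728094) (nat_lit 4) (nat_lit 5) (nat_lit 6) (nat_lit 4) (nat_lit 4) (nat_lit 4) (nat_lit 347) (nat_lit 243) (nat_lit 190))))) (XT.nd (nat_lit 156) (nat_lit 0) (nat_lit 0) (XT.nd (nat_lit 78) (nat_lit 0) (nat_lit 0) (XT.lf (nat_lit 0) (nat_lit 39097807682) (nat_lit 152) (nat_lit 25354401687) (nat_lit 0) (nat_lit 29231937237) (nat_lit 4) (nat_lit 5) (nat_lit 6) (nat_lit 4) (nat_lit 4) (nat_lit 4) (nat_lit 348) (nat_lit 243) (nat_lit 189)) (XT.lf (nat_lit 0) (nat_lit 43805086535)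 (nat_lit 152) (nat_lit 20494173563) (nat_lit 0) (nat_lit 33902906144) (nat_lit 4) (nat_lit 5) (nat_lit 6) (nat_lit 4) (nat_lit 4) (nat_lit 4) (nat_lit 349) (nat_lit 243) (nat_lit 188))) (XT.nd (nat_lit 78) (nat_lit 0) (nat_lit 0) (XT.lf (nat_lit 0) (nat_lit 48728517462) (nat_lit 152) (nat_lit 15426785507) (nat_lit 0) (nat_lit 38791756170) (nat_lit 4) (nat_lit 5) (nat_lit 6) (nat_lit 4) (nat_lit 4) (nat_lit 4) (nat_lit 350) (nat_lit 243) (nat_lit 187)) (XT.nd (nat_lit 78) (nat_lit 0) (nat_lit 0) (XT.lf (nat_lit 0) (nat_lit 53879822917) (nat_lit 152) (nat_lit 10140172309) (nat_lit 0) (nat_lit 43910127434) (nat_lit 4) (nat_lit 5) (nat_lit 6) (nat_lit 4) (nat_lit 4) (nat_lit 4) (nat_lit 351) (nat_lit 243) (nat_lit 186)) (XT.lf (nat_lit 0) (nat_lit 59271267914) (nat_lit 152) (nat_lit 4621746796) (nat_lit 0) (nat_lit 49270206535) (nat_lit 4) (nat_lit 5) (nat_lit 6) (nat_lit 4) (nat_lit 4)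 (nat_lit 4) (nat_lit 352) (nat_lit 243) (nat_lit 185))))))) (XT.nd (nat_lit 780) (nat_lit 0) (nat_lit 0) (XT.nd (nat_lit 390) (nat_lit 0) (nat_lit 0) (XT.nd (nat_lit 156) (nat_lit 0) (nat_lit 0) (XT.nd (nat_lit 78) (nat_lit 0) (nat_lit 0) (XT.lf (nat_lit 0) (nat_lit 1179377589) (nat_lit 76) (nat_lit 63754725026) (nat_lit 76) (nat_lit 53723791364) (nat_lit 3) (nat_lit 4) (nat_lit 4) (nat_lit 5) (nat_lit 4) (nat_lit 4) (nat_lit 353) (nat_lit 243) (nat_lit 184)) (XT.lf (nat_lit 0) (nat_lit 7400544469) (nat_lit 76) (nat_lit 63541524721) (nat_lit 76) (nat_lit 53482141266) (nat_lit 3) (nat_lit 4) (nat_lit 4) (nat_lit 5) (nat_lit 4) (nat_lit 4) (nat_lit 354) (nat_lit 243) (nat_lit 183))) (XT.nd (nat_lit 78) (nat_lit 0) (nat_lit 0) (XT.lf (nat_lit 0) (nat_lit 13903750323) (nat_lit 76) (nat_lit 63331177694) (nat_lit 76) (nat_lit 53244699199) (nat_lit 3) (nat_lit 4) (nat_lit 4) (nat_lit 5) (nat_lit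 4) (nat_lit 4) (nat_lit 355) (nat_lit 243) (nat_lit 182)) (XT.nd (nat_lit 78) (nat_lit 0) (nat_lit 0) (XT.lf (nat_lit 0) (nat_lit 20704478976) (nat_lit 76) (nat_lit 63123183119) (nat_lit 76) (nat_lit 53010899824) (nat_lit 3) (nat_lit 4) (nat_lit 4) (nat_lit 5) (nat_lit 4) (nat_lit 4) (nat_lit 356) (nat_lit 243) (nat_lit 181)) (XT.lf (nat_lit 0) (nat_lit 27818922638) (nat_lit 76) (nat_lit 62917045772) (nat_lit 76) (nat_lit 52780186476) (nat_lit 3) (nat_lit 4) (nat_lit 4) (nat_lit 5) (nat_lit 4) (nat_lit 4) (nat_lit 357) (nat_lit 243) (nat_lit 180))))) (XT.nd (nat_lit 156) (nat_lit 0) (nat_lit 0) (XT.nd (nat_lit 78) (nat_lit 0) (nat_lit 0) (XT.lf (nat_lit 0) (nat_lit 35264020461) (nat_lit 76) (nat_lit 62712274848) (nat_lit 76) (nat_lit 52552009837) (nat_lit 3) (nat_lit 4) (nat_lit 4) (nat_lit 5) (nat_lit 4) (nat_lit 4) (nat_lit 358) (nat_lit 243) (nat_lit 179)) (XT.lf (nat_lit 0) (nat_lit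 43057498868) (nat_lit 76) (nat_lit 62508382797) (nat_lit 76) (nat_lit 52325826630) (nat_lit 3) (nat_lit 4) (nat_lit 4) (nat_lit 5) (nat_lit 4) (nat_lit 4) (nat_lit 359) (nat_lit 243) (nat_lit 178))) (XT.nd (nat_lit 78) (nat_lit 0) (nat_lit 0) (XT.lf (nat_lit 0) (nat_lit 51217913761) (nat_lit 76) (nat_lit 62304884164) (nat_lit 76) (nat_lit 52101098323) (nat_lit 3) (nat_lit 4) (nat_lit 4) (nat_lit 5) (nat_lit 4) (nat_lit 4) (nat_lit 360) (nat_lit 243) (nat_lit 177)) (XT.nd (nat_lit 78) (nat_lit 0) (nat_lit 0) (XT.lf (nat_lit 0) (nat_lit 59764694697) (nat_lit 76) (nat_lit 62101294426) (nat_lit 76) (nat_lit 51877289849) (nat_lit 3) (nat_lit 4) (nat_lit 4) (nat_lit 5) (nat_lit 4) (nat_lit 4) (nat_lit 361) (nat_lit 243) (nat_lit 176)) (XT.lf (nat_lit 0) (nat_lit 68718191157) (nat_lit 76) (nat_lit 61897128847) (nat_lit 76) (nat_lit 51653868330) (nat_lit 3) (nat_lit 4) (nat_lit 4) (nat_lit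 5) (nat_lit 4) (nat_lit 4) (nat_lit 362) (nat_lit 243) (nat_lit 175)))))) (XT.nd (nat_lit 390) (nat_lit 0) (nat_lit 0) (XT.nd (nat_lit 156) (nat_lit 0) (nat_lit 0) (XT.nd (nat_lit 78) (nat_lit 0) (nat_lit 0) (XT.lf (nat_lit 0) (nat_lit 78099720988) (nat_lit 76) (nat_lit 61691901318) (nat_lit 76) (nat_lit 51430301811) (nat_lit 3) (nat_lit 4) (nat_lit 4) (nat_lit 5) (nat_lit 4) (nat_lit 4) (nat_lit 363) (nat_lit 243) (nat_lit 174)) (XT.lf (nat_lit 0) (nat_lit 87931621167) (nat_lit 76) (nat_lit 61485123203) (nat_lit 76) (nat_lit 51206057991) (nat_lit 3) (nat_lit 4) (nat_lit 4) (nat_lit 5) (nat_lit 4) (nat_lit 4) (nat_lit 364) (nat_lit 243) (nat_lit 173))) (XT.nd (nat_lit 78) (nat_lit 0) (nat_lit 0) (XT.lf (nat_lit 0) (nat_lit 98237300979) (nat_lit 76) (nat_lit 61276302171) (nat_lit 76) (nat_lit 50980602955) (nat_lit 3) (nat_lit 4) (nat_lit 4) (nat_lit 5) (nat_lit 4) (nat_lit 4) (nat_lit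 365) (nat_lit 243) (nat_lit 172)) (XT.nd (nat_lit 78) (nat_lit 0) (nat_lit 0) (XT.lf (nat_lit 0) (nat_lit 109041297758) (nat_lit 76) (nat_lit 61064941031) (nat_lit 76) (nat_lit 50753399905) (nat_lit 3) (nat_lit 4) (nat_lit 4) (nat_lit 5) (nat_lit 4) (nat_lit 4) (nat_lit 366) (nat_lit 243) (nat_lit 171)) (XT.lf (nat_lit 0) (nat_lit 120369335305) (nat_lit 76) (nat_lit 60850536541) (nat_lit 76) (nat_lit 50523907883) (nat_lit 3) (nat_lit 4) (nat_lit 4) (nat_lit 5) (nat_lit 4) (nat_lit 4) (nat_lit 367) (nat_lit 243) (nat_lit 170))))) (XT.nd (nat_lit 156) (nat_lit 0) (nat_lit 0) (XT.nd (nat_lit 78) (nat_lit 0) (nat_lit 0) (XT.lf (nat_lit 0) (nat_lit 132248385138) (nat_lit 76) (nat_lit 60632578215) (nat_lit 76) (nat_lit 50291580478) (nat_lit 3) (nat_lit 4) (nat_lit 4) (nat_lit 5) (nat_lit 4) (nat_lit 4) (nat_lit 368) (nat_lit 243) (nat_lit 169)) (XT.lf (nat_lit 0) (nat_lit 144706730710) (nat_lit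 76) (nat_lit 60410547103) (nat_lit 76) (nat_lit 50055864530) (nat_lit 3) (nat_lit 4) (nat_lit 4) (nat_lit 5) (nat_lit 4) (nat_lit 4) (nat_lit 369) (nat_lit 243) (nat_lit 168))) (XT.nd (nat_lit 78) (nat_lit 0) (nat_lit 0) (XT.lf (nat_lit 0) (nat_lit 157774034747) (nat_lit 76) (nat_lit 60183914562) (nat_lit 76) (nat_lit 49816198811) (nat_lit 3) (nat_lit 4) (nat_lit 4) (nat_lit 5) (nat_lit 4) (nat_lit 4) (nat_lit 370) (nat_lit 243) (nat_lit 167)) (XT.nd (nat_lit 78) (nat_lit 0) (nat_lit 0) (XT.lf (nat_lit 0) (nat_lit 171481409878) (nat_lit 76) (nat_lit 59952140989) (nat_lit 76) (nat_lit 49572012688) (nat_lit 3) (nat_lit 4) (nat_lit 4) (nat_lit 5) (nat_lit 4) (nat_lit 4) (nat_lit 371) (nat_lit 243) (nat_lit 166)) (XT.lf (nat_lit 0) (nat_lit 185861492712) (nat_lit 76) (nat_lit 59714674543) (nat_lit 76) (nat_lit 49322724765) (nat_lit 3) (nat_lit 4) (nat_lit 4) (nat_lit 5) (nat_lit 4) (nat_lit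 4) (nat_lit 372) (nat_lit 243) (nat_lit 165))))))))
noncomputable def xc60 : XT := (XT.nd (nat_lit 34554) (nat_lit 0) (nat_lit 760) (XT.nd (nat_lit 702) (nat_lit 0) (nat_lit 0) (XT.nd (nat_lit 312) (nat_lit 0) (nat_lit 0) (XT.nd (nat_lit 156) (nat_lit 0) (nat_lit 0) (XT.nd (nat_lit 78) (nat_lit 0) (nat_lit 0) (XT.lf (nat_lit 0) (nat_lit 200948521540) (nat_lit 76) (nat_lit 59470949827) (nat_lit 76) (nat_lit 49067741500) (nat_lit 3) (nat_lit 4) (nat_lit 4) (nat_lit 5) (nat_lit 4) (nat_lit 4) (nat_lit 373) (nat_lit 243) (nat_lit 164)) (XT.lf (nat_lit 0) (nat_lit 216778417859) (nat_lit 76) (nat_lit 59220386544) (nat_lit 76) (nat_lit 48806455790) (nat_lit 3) (nat_lit 4) (nat_lit 4) (nat_lit 5) (nat_lit 4) (nat_lit 4) (nat_lit 374) (nat_lit 243) (nat_lit 163))) (XT.nd (nat_lit 78) (nat_lit 0) (nat_lit 0) (XT.lf (nat_lit 0) (nat_lit 233388871900) (nat_lit 76) (nat_lit 58962388115) (nat_lit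 76) (nat_lit 48538245525) (nat_lit 3) (nat_lit 4) (nat_lit 4) (nat_lit 5) (nat_lit 4) (nat_lit 4) (nat_lit 375) (nat_lit 243) (nat_lit 162)) (XT.lf (nat_lit 0) (nat_lit 250819432361) (nat_lit 76) (nat_lit 58696340259) (nat_lit 76) (nat_lit 48262472111) (nat_lit 3) (nat_lit 4) (nat_lit 4) (nat_lit 5) (nat_lit 4) (nat_lit 4) (nat_lit 376) (nat_lit 243) (nat_lit 161)))) (XT.nd (nat_lit 156) (nat_lit 0) (nat_lit 0) (XT.nd (nat_lit 78) (nat_lit 0) (nat_lit 0) (XT.lf (nat_lit 0) (nat_lit 269111600578) (nat_lit 76) (nat_lit 58421609527) (nat_lit 76) (nat_lit 47978478943) (nat_lit 3) (nat_lit 4) (nat_lit 4) (nat_lit 5) (nat_lit 4) (nat_lit 4) (nat_lit 377) (nat_lit 243) (nat_lit 160)) (XT.lf (nat_lit 0) (nat_lit 288308929331) (nat_lit 76) (nat_lit 58137541799) (nat_lit 76) (nat_lit 47685589848) (nat_lit 3) (nat_lit 4) (nat_lit 4) (nat_lit 5) (nat_lit 4) (nat_lit 4) (nat_lit 378) (nat_lit 243)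 (nat_lit 159))) (XT.nd (nat_lit 78) (nat_lit 0) (nat_lit 0) (XT.lf (nat_lit 0) (nat_lit 308457126547) (nat_lit 76) (nat_lit 57843460724) (nat_lit 76) (nat_lit 47383107470) (nat_lit 3) (nat_lit 4) (nat_lit 4) (nat_lit 5) (nat_lit 4) (nat_lit 4) (nat_lit 379) (nat_lit 243) (nat_lit 158)) (XT.nd (nat_lit 78) (nat_lit 0) (nat_lit 0) (XT.lf (nat_lit 0) (nat_lit 329604164124) (nat_lit 76) (nat_lit 57538666108) (nat_lit 76) (nat_lit 47070311613) (nat_lit 3) (nat_lit 4) (nat_lit 4) (nat_lit 5) (nat_lit 4) (nat_lit 4) (nat_lit 380) (nat_lit 243) (nat_lit 157)) (XT.lf (nat_lit 0) (nat_lit 351800392151) (nat_lit 76) (nat_lit 57222432250) (nat_lit 76) (nat_lit 46746457525) (nat_lit 3) (nat_lit 4) (nat_lit 4) (nat_lit 5) (nat_lit 4) (nat_lit 4) (nat_lit 381) (nat_lit 243) (nat_lit 156)))))) (XT.nd (nat_lit 390) (nat_lit 0) (nat_lit 0) (XT.nd (nat_lit 156) (nat_lit 0) (nat_lit 0) (XT.nd (nat_lit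 78) (nat_lit 0) (nat_lit 0) (XT.lf (nat_lit 0) (nat_lit 375098658790) (nat_lit 76) (nat_lit 56894006212) (nat_lit 76) (nat_lit 46410774126) (nat_lit 3) (nat_lit 4) (nat_lit 4) (nat_lit 5) (nat_lit 4) (nat_lit 4) (nat_lit 382) (nat_lit 243) (nat_lit 155)) (XT.lf (nat_lit 0) (nat_lit 399554436104) (nat_lit 76) (nat_lit 56552606027) (nat_lit 76) (nat_lit 46062462169) (nat_lit 3) (nat_lit 4) (nat_lit 4) (nat_lit 5) (nat_lit 4) (nat_lit 4) (nat_lit 383) (nat_lit 243) (nat_lit 154))) (XT.nd (nat_lit 78) (nat_lit 0) (nat_lit 0) (XT.lf (nat_lit 0) (nat_lit 425225952136) (nat_lit 76) (nat_lit 56197418837) (nat_lit 76) (nat_lit 45700692339) (nat_lit 3) (nat_lit 4) (nat_lit 4) (nat_lit 5) (nat_lit 4) (nat_lit 4) (nat_lit 384) (nat_lit 243) (nat_lit 153)) (XT.nd (nat_lit 78) (nat_lit 0) (nat_lit 0) (XT.lf (nat_lit 0) (nat_lit 452174329541) (nat_lit 76) (nat_lit 55827598960) (nat_lit 76) (nat_lit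 45324603281) (nat_lit 3) (nat_lit 4) (nat_lit 4) (nat_lit 5) (nat_lit 4) (nat_lit 4) (nat_lit 385) (nat_lit 243) (nat_lit 152)) (XT.lf (nat_lit 0) (nat_lit 480463731123) (nat_lit 76) (nat_lit 55442265871) (nat_lit 76) (nat_lit 44933299543) (nat_lit 3) (nat_lit 4) (nat_lit 4) (nat_lit 5) (nat_lit 4) (nat_lit 4) (nat_lit 386) (nat_lit 243) (nat_lit 151))))) (XT.nd (nat_lit 33228) (nat_lit 0) (nat_lit 2280) (XT.nd (nat_lit 78) (nat_lit 0) (nat_lit 0) (XT.lf (nat_lit 0) (nat_lit 510161512601) (nat_lit 76) (nat_lit 55040502111) (nat_lit 76) (nat_lit 44525849450) (nat_lit 3) (nat_lit 4) (nat_lit 4) (nat_lit 5) (nat_lit 4) (nat_lit 4) (nat_lit 387) (nat_lit 243) (nat_lit 150)) (XT.lf (nat_lit 0) (nat_lit 541338382977) (nat_lit 76) (nat_lit 54621351099) (nat_lit 76) (nat_lit 44101282884) (nat_lit 3) (nat_lit 4) (nat_lit 4) (nat_lit 5) (nat_lit 4) (nat_lit 4) (nat_lit 388) (nat_lit 243) (nat_lit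 149))) (XT.nd (nat_lit 78) (nat_lit 228) (nat_lit 0) (XT.lf (nat_lit 0) (nat_lit 116774664) (nat_lit 228) (nat_lit 4797289251) (nat_lit 0) (nat_lit 116774664) (nat_lit 36) (nat_lit 5) (nat_lit 39) (nat_lit 4) (nat_lit 36) (nat_lit 4) (nat_lit 292) (nat_lit 244) (nat_lit 244)) (XT.nd (nat_lit 78) (nat_lit 228) (nat_lit 0) (XT.lf (nat_lit 0) (nat_lit 4023811896) (nat_lit 228) (nat_lit 3064111514) (nat_lit 0) (nat_lit 3238664052) (nat_lit 36) (nat_lit 5) (nat_lit 39) (nat_lit 4) (nat_lit 36) (nat_lit 4) (nat_lit 293) (nat_lit 244) (nat_lit 243)) (XT.lf (nat_lit 0) (nat_lit 3690238319) (nat_lit 228) (nat_lit 4226015997) (nat_lit 228) (nat_lit 2693108303) (nat_lit 33) (nat_lit 4) (nat_lit 36) (nat_lit 5) (nat_lit 36) (nat_lit 4) (nat_lit 294) (nat_lit 244) (nat_lit 242))))))) (XT.nd (nat_lit 780) (nat_lit 608) (nat_lit 0) (XT.nd (nat_lit 390) (nat_lit 304) (nat_lit 0) (XT.nd (nat_lit 156)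 (nat_lit 380) (nat_lit 0) (XT.nd (nat_lit 78) (nat_lit 152) (nat_lit 0) (XT.lf (nat_lit 0) (nat_lit 970684545) (nat_lit 304) (nat_lit 255156615) (nat_lit 76) (nat_lit 9684370446) (nat_lit 32) (nat_lit 5) (nat_lit 36) (nat_lit 5) (nat_lit 33) (nat_lit 4) (nat_lit 295) (nat_lit 244) (nat_lit 241)) (XT.lf (nat_lit 0) (nat_lit 4725966648) (nat_lit 228) (nat_lit 4556335656) (nat_lit 0) (nat_lit 1941871257) (nat_lit 30) (nat_lit 5) (nat_lit 33) (nat_lit 4) (nat_lit 30) (nat_lit 4) (nat_lit 296) (nat_lit 244) (nat_lit 240))) (XT.nd (nat_lit 78) (nat_lit 228) (nat_lit 0) (XT.lf (nat_lit 0) (nat_lit 2229486228) (nat_lit 152) (nat_lit 6363810179) (nat_lit 152) (nat_lit 2964530908) (nat_lit 28) (nat_lit 4) (nat_lit 30) (nat_lit 5) (nat_lit 30) (nat_lit 4) (nat_lit 297) (nat_lit 244) (nat_lit 239)) (XT.nd (nat_lit 78) (nat_lit 152) (nat_lit 0) (XT.lf (nat_lit 0) (nat_lit 666163267) (nat_lit 228)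 (nat_lit 2619533982) (nat_lit 76) (nat_lit 8624862558) (nat_lit 27) (nat_lit 5) (nat_lit 30) (nat_lit 5) (nat_lit 28) (nat_lit 4) (nat_lit 298) (nat_lit 244) (nat_lit 238)) (XT.lf (nat_lit 0) (nat_lit 4309174294) (nat_lit 152) (nat_lit 9036870) (nat_lit 228) (nat_lit 7963495053) (nat_lit 25) (nat_lit 5) (nat_lit 27) (nat_lit 5) (nat_lit 28) (nat_lit 4) (nat_lit 299) (nat_lit 244) (nat_lit 237))))) (XT.nd (nat_lit 156) (nat_lit 152) (nat_lit 0) (XT.nd (nat_lit 78) (nat_lit 152) (nat_lit 0) (XT.lf (nat_lit 0) (nat_lit 8125438248) (nat_lit 228) (nat_lit 1255006644) (nat_lit 0) (nat_lit 3292507239) (nat_lit 25) (nat_lit 5) (nat_lit 28) (nat_lit 4) (nat_lit 25) (nat_lit 4) (nat_lit 300) (nat_lit 244) (nat_lit 236)) (XT.lf (nat_lit 0) (nat_lit 5786522838) (nat_lit 152) (nat_lit 6306911828) (nat_lit 152) (nat_lit 991968153) (nat_lit 23) (nat_lit 4) (nat_lit 25) (nat_lit 5) (nat_lit 25) (nat_lit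 4) (nat_lit 301) (nat_lit 244) (nat_lit 235))) (XT.nd (nat_lit 78) (nat_lit 76) (nat_lit 0) (XT.lf (nat_lit 0) (nat_lit 2555751631) (nat_lit 228) (nat_lit 534712514) (nat_lit 76) (nat_lit 10430912759) (nat_lit 22) (nat_lit 5) (nat_lit 25) (nat_lit 5) (nat_lit 23) (nat_lit 4) (nat_lit 302) (nat_lit 244) (nat_lit 234)) (XT.nd (nat_lit 78) (nat_lit 0) (nat_lit 0) (XT.lf (nat_lit 0) (nat_lit 6241634190) (nat_lit 152) (nat_lit 7410934734) (nat_lit 0) (nat_lit 326202708) (nat_lit 21) (nat_lit 5) (nat_lit 23) (nat_lit 4) (nat_lit 21) (nat_lit 4) (nat_lit 303) (nat_lit 244) (nat_lit 233)) (XT.lf (nat_lit 0) (nat_lit 10059267782) (nat_lit 152) (nat_lit 655246185) (nat_lit 0) (nat_lit 3747283286) (nat_lit 21) (nat_lit 5) (nat_lit 23) (nat_lit 4) (nat_lit 21) (nat_lit 4) (nat_lit 304) (nat_lit 244) (nat_lit 232)))))) (XT.nd (nat_lit 390) (nat_lit 152) (nat_lit 0) (XT.nd (nat_lit 156) (nat_lit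 228) (nat_lit 0) (XT.nd (nat_lit 78) (nat_lit 76) (nat_lit 0) (XT.lf (nat_lit 0) (nat_lit 6464238151) (nat_lit 152) (nat_lit 7597412146) (nat_lit 152) (nat_lit 907758113) (nat_lit 19) (nat_lit 4) (nat_lit 21) (nat_lit 5) (nat_lit 21) (nat_lit 4) (nat_lit 305) (nat_lit 244) (nat_lit 231)) (XT.lf (nat_lit 0) (nat_lit 2578064450) (nat_lit 228) (nat_lit 1764307182) (nat_lit 76) (nat_lit 11162753016) (nat_lit 18) (nat_lit 5) (nat_lit 21) (nat_lit 5) (nat_lit 19) (nat_lit 4) (nat_lit 306) (nat_lit 244) (nat_lit 230))) (XT.nd (nat_lit 78) (nat_lit 152) (nat_lit 0) (XT.lf (nat_lit 0) (nat_lit 5295239775) (nat_lit 76) (nat_lit 893607290) (nat_lit 152) (nat_lit 9879087034) (nat_lit 17) (nat_lit 5) (nat_lit 18) (nat_lit 5) (nat_lit 19) (nat_lit 4) (nat_lit 307) (nat_lit 244) (nat_lit 229)) (XT.nd (nat_lit 78) (nat_lit 152) (nat_lit 0) (XT.lf (nat_lit 0) (nat_lit 9952695748) (nat_lit 152) (nat_lit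 4105582465) (nat_lit 0) (nat_lit 2602084456) (nat_lit 17) (nat_lit 5) (nat_lit 19) (nat_lit 4) (nat_lit 17) (nat_lit 4) (nat_lit 308) (nat_lit 244) (nat_lit 228)) (XT.lf (nat_lit 0) (nat_lit 2804143880) (nat_lit 152) (nat_lit 11063377407) (nat_lit 152) (nat_lit 3416852151) (nat_lit 15) (nat_lit 4) (nat_lit 17) (nat_lit 5) (nat_lit 17) (nat_lit 4) (nat_lit 309) (nat_lit 244) (nat_lit 227))))) (XT.nd (nat_lit 156) (nat_lit 76) (nat_lit 0) (XT.nd (nat_lit 78) (nat_lit 0) (nat_lit 0) (XT.lf (nat_lit 0) (nat_lit 12675260) (nat_lit 228) (nat_lit 7902363795) (nat_lit 76) (nat_lit 10025836118) (nat_lit 14) (nat_lit 5) (nat_lit 17) (nat_lit 5) (nat_lit 15) (nat_lit 4) (nat_lit 310) (nat_lit 244) (nat_lit 226)) (XT.lf (nat_lit 0) (nat_lit 3408121252) (nat_lit 228) (nat_lit 1210102201) (nat_lit 76) (nat_lit 14013800679) (nat_lit 14) (nat_lit 5) (nat_lit 17) (nat_lit 5) (nat_lit 15) (nat_lit 4)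 (nat_lit 311) (nat_lit 244) (nat_lit 225))) (XT.nd (nat_lit 78) (nat_lit 0) (nat_lit 0) (XT.lf (nat_lit 0) (nat_lit 5853173937) (nat_lit 76) (nat_lit 1125141337) (nat_lit 152) (nat_lit 12379248741) (nat_lit 13) (nat_lit 5) (nat_lit 14) (nat_lit 5) (nat_lit 15) (nat_lit 4) (nat_lit 312) (nat_lit 244) (nat_lit 224)) (XT.nd (nat_lit 78) (nat_lit 0) (nat_lit 0) (XT.lf (nat_lit 0) (nat_lit 10701935611) (nat_lit 152) (nat_lit 6998576977) (nat_lit 0) (nat_lit 2420200822) (nat_lit 13) (nat_lit 5) (nat_lit 15) (nat_lit 4) (nat_lit 13) (nat_lit 4) (nat_lit 313) (nat_lit 244) (nat_lit 223)) (XT.lf (nat_lit 0) (nat_lit 14548648524) (nat_lit 152) (nat_lit 330502609) (nat_lit 0) (nat_lit 6046098179) (nat_lit 13) (nat_lit 5) (nat_lit 15) (nat_lit 4) (nat_lit 13) (nat_lit 4) (nat_lit 314) (nat_lit 244) (nat_lit 222))))))))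
noncomputable def xc61 : XT := (XT.nd (nat_lit 1482) (nat_lit 152) (nat_lit 0) (XT.nd (nat_lit 702) (nat_lit 228) (nat_lit 0) (XT.nd (nat_lit 312) (nat_lit 76) (nat_lit 0) (XT.nd (nat_lit 156) (nat_lit 76) (nat_lit 0) (XT.nd (nat_lit 78) (nat_lit 76) (nat_lit 0) (XT.lf (nat_lit 0) (nat_lit 6749295610) (nat_lit 76) (nat_lit 11866126055) (nat_lit 76) (nat_lit 3153275179) (nat_lit 12) (nat_lit 4) (nat_lit 13) (nat_lit 5) (nat_lit 13) (nat_lit 4) (nat_lit 315) (nat_lit 244) (nat_lit 221)) (XT.lf (nat_lit 0) (nat_lit 152124397) (nat_lit 152) (nat_lit 8601282079) (nat_lit 76) (nat_lit 13904378832) (nat_lit 11) (nat_lit 5) (nat_lit 13) (nat_lit 5) (nat_lit 12) (nat_lit 4) (nat_lit 316) (nat_lit 244) (nat_lit 220))) (XT.nd (nat_lit 78) (nat_lit 76) (nat_lit 0) (XT.lf (nat_lit 0) (nat_lit 3443127122) (nat_lit 152) (nat_lit 2045475273) (nat_lit 76) (nat_lit 18103887342) (nat_lit 11) (nat_lit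 5) (nat_lit 13) (nat_lit 5) (nat_lit 12) (nat_lit 4) (nat_lit 317) (nat_lit 244) (nat_lit 219)) (XT.lf (nat_lit 0) (nat_lit 4868688135) (nat_lit 76) (nat_lit 2035818944) (nat_lit 152) (nat_lit 17669189416) (nat_lit 10) (nat_lit 5) (nat_lit 11) (nat_lit 5) (nat_lit 12) (nat_lit 4) (nat_lit 318) (nat_lit 244) (nat_lit 218)))) (XT.nd (nat_lit 156) (nat_lit 76) (nat_lit 0) (XT.nd (nat_lit 78) (nat_lit 0) (nat_lit 0) (XT.lf (nat_lit 0) (nat_lit 10529364035) (nat_lit 152) (nat_lit 13553929036) (nat_lit 0) (nat_lit 1521205801) (nat_lit 10) (nat_lit 5) (nat_lit 12) (nat_lit 4) (nat_lit 10) (nat_lit 4) (nat_lit 319) (nat_lit 244) (nat_lit 217)) (XT.lf (nat_lit 0) (nat_lit 14302533947) (nat_lit 152) (nat_lit 7248560723) (nat_lit 0) (nat_lit 5137446219) (nat_lit 10) (nat_lit 5) (nat_lit 12) (nat_lit 4) (nat_lit 10) (nat_lit 4) (nat_lit 320) (nat_lit 244) (nat_lit 216))) (XT.nd (nat_lit 78) (nat_lit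 76) (nat_lit 0) (XT.lf (nat_lit 0) (nat_lit 18201215714) (nat_lit 152) (nat_lit 742105802) (nat_lit 0) (nat_lit 8886671327) (nat_lit 10) (nat_lit 5) (nat_lit 12) (nat_lit 4) (nat_lit 10) (nat_lit 4) (nat_lit 321) (nat_lit 244) (nat_lit 215)) (XT.nd (nat_lit 78) (nat_lit 0) (nat_lit 0) (XT.lf (nat_lit 0) (nat_lit 6178683753) (nat_lit 76) (nat_lit 16152474729) (nat_lit 76) (nat_lit 6695590665) (nat_lit 9) (nat_lit 4) (nat_lit 10) (nat_lit 5) (nat_lit 10) (nat_lit 4) (nat_lit 322) (nat_lit 244) (nat_lit 214)) (XT.lf (nat_lit 0) (nat_lit 13364286392) (nat_lit 76) (nat_lit 13256933631) (nat_lit 76) (nat_lit 3664487970) (nat_lit 9) (nat_lit 4) (nat_lit 10) (nat_lit 5) (nat_lit 10) (nat_lit 4) (nat_lit 323) (nat_lit 244) (nat_lit 213)))))) (XT.nd (nat_lit 390) (nat_lit 76) (nat_lit 0) (XT.nd (nat_lit 156) (nat_lit 76) (nat_lit 0) (XT.nd (nat_lit 78) (nat_lit 76) (nat_lit 0) (XT.lf (nat_lit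 0) (nat_lit 20807273322) (nat_lit 76) (nat_lit 10262371998) (nat_lit 76) (nat_lit 540820055) (nat_lit 9) (nat_lit 4) (nat_lit 10) (nat_lit 5) (nat_lit 10) (nat_lit 4) (nat_lit 324) (nat_lit 244) (nat_lit 212)) (XT.lf (nat_lit 0) (nat_lit 2596982418) (nat_lit 152) (nat_lit 4520696349) (nat_lit 76) (nat_lit 25884402367) (nat_lit 8) (nat_lit 5) (nat_lit 10) (nat_lit 5) (nat_lit 9) (nat_lit 4) (nat_lit 325) (nat_lit 244) (nat_lit 211))) (XT.nd (nat_lit 78) (nat_lit 0) (nat_lit 0) (XT.lf (nat_lit 0) (nat_lit 2038118012) (nat_lit 76) (nat_lit 3815409560) (nat_lit 152) (nat_lit 28610343118) (nat_lit 7) (nat_lit 5) (nat_lit 8) (nat_lit 5) (nat_lit 9) (nat_lit 4) (nat_lit 326) (nat_lit 244) (nat_lit 210)) (XT.nd (nat_lit 78) (nat_lit 0) (nat_lit 0) (XT.lf (nat_lit 0) (nat_lit 8989167644) (nat_lit 76) (nat_lit 309519193) (nat_lit 152) (nat_lit 26698809435) (nat_lit 7) (nat_lit 5) (nat_lit 8)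 (nat_lit 5) (nat_lit 9) (nat_lit 4) (nat_lit 327) (nat_lit 244) (nat_lit 209)) (XT.lf (nat_lit 0) (nat_lit 12919766933) (nat_lit 152) (nat_lit 21462745480) (nat_lit 0) (nat_lit 3225141760) (nat_lit 7) (nat_lit 5) (nat_lit 9) (nat_lit 4) (nat_lit 7) (nat_lit 4) (nat_lit 328) (nat_lit 244) (nat_lit 208))))) (XT.nd (nat_lit 156) (nat_lit 76) (nat_lit 0) (XT.nd (nat_lit 78) (nat_lit 0) (nat_lit 0) (XT.lf (nat_lit 0) (nat_lit 16680329133) (nat_lit 152) (nat_lit 15730739121) (nat_lit 0) (nat_lit 6889362864) (nat_lit 7) (nat_lit 5) (nat_lit 9) (nat_lit 4) (nat_lit 7) (nat_lit 4) (nat_lit 329) (nat_lit 244) (nat_lit 207)) (XT.lf (nat_lit 0) (nat_lit 20584494696) (nat_lit 152) (nat_lit 9793829455) (nat_lit 0) (nat_lit 10701775002) (nat_lit 7) (nat_lit 5) (nat_lit 9) (nat_lit 4) (nat_lit 7) (nat_lit 4) (nat_lit 330) (nat_lit 244) (nat_lit 206))) (XT.nd (nat_lit 78) (nat_lit 76) (nat_lit 0) (XT.lf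 (nat_lit 0) (nat_lit 24641559253) (nat_lit 152) (nat_lit 3637880982) (nat_lit 0) (nat_lit 14671455346) (nat_lit 7) (nat_lit 5) (nat_lit 9) (nat_lit 4) (nat_lit 7) (nat_lit 4) (nat_lit 331) (nat_lit 244) (nat_lit 205)) (XT.nd (nat_lit 78) (nat_lit 0) (nat_lit 0) (XT.lf (nat_lit 0) (nat_lit 2842749038) (nat_lit 76) (nat_lit 26062816724) (nat_lit 76) (nat_lit 16009489756) (nat_lit 6) (nat_lit 4) (nat_lit 7) (nat_lit 5) (nat_lit 7) (nat_lit 4) (nat_lit 332) (nat_lit 244) (nat_lit 204)) (XT.lf (nat_lit 0) (nat_lit 9700803164) (nat_lit 76) (nat_lit 23704064667) (nat_lit 76) (nat_lit 13571477641) (nat_lit 6) (nat_lit 4) (nat_lit 7) (nat_lit 5) (nat_lit 7) (nat_lit 4) (nat_lit 333) (nat_lit 244) (nat_lit 203))))))) (XT.nd (nat_lit 780) (nat_lit 0) (nat_lit 0) (XT.nd (nat_lit 390) (nat_lit 152) (nat_lit 0) (XT.nd (nat_lit 156) (nat_lit 0) (nat_lit 0) (XT.nd (nat_lit 78) (nat_lit 0) (nat_lit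 0) (XT.lf (nat_lit 0) (nat_lit 16832325320) (nat_lit 76) (nat_lit 21259177264) (nat_lit 76) (nat_lit 11051104469) (nat_lit 6) (nat_lit 4) (nat_lit 7) (nat_lit 5) (nat_lit 7) (nat_lit 4) (nat_lit 334) (nat_lit 244) (nat_lit 202)) (XT.lf (nat_lit 0) (nat_lit 24254295321) (nat_lit 76) (nat_lit 18722333355) (nat_lit 76) (nat_lit 8442369350) (nat_lit 6) (nat_lit 4) (nat_lit 7) (nat_lit 5) (nat_lit 7) (nat_lit 4) (nat_lit 335) (nat_lit 244) (nat_lit 201))) (XT.nd (nat_lit 78) (nat_lit 0) (nat_lit 0) (XT.lf (nat_lit 0) (nat_lit 31984384524) (nat_lit 76) (nat_lit 16087492834) (nat_lit 76) (nat_lit 5739061011) (nat_lit 6) (nat_lit 4) (nat_lit 7) (nat_lit 5) (nat_lit 7) (nat_lit 4) (nat_lit 336) (nat_lit 244) (nat_lit 200)) (XT.nd (nat_lit 78) (nat_lit 0) (nat_lit 0) (XT.lf (nat_lit 0) (nat_lit 40040997903) (nat_lit 76) (nat_lit 13348382272) (nat_lit 76) (nat_lit 2934743003) (nat_lit 6) (nat_lit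 4) (nat_lit 7) (nat_lit 5) (nat_lit 7) (nat_lit 4) (nat_lit 337) (nat_lit 244) (nat_lit 199)) (XT.lf (nat_lit 0) (nat_lit 48443317870) (nat_lit 76) (nat_lit 10498479977) (nat_lit 76) (nat_lit 22738379) (nat_lit 6) (nat_lit 4) (nat_lit 7) (nat_lit 5) (nat_lit 7) (nat_lit 4) (nat_lit 338) (nat_lit 244) (nat_lit 198))))) (XT.nd (nat_lit 156) (nat_lit 0) (nat_lit 0) (XT.nd (nat_lit 78) (nat_lit 76) (nat_lit 0) (XT.lf (nat_lit 0) (nat_lit 2907743086) (nat_lit 152) (nat_lit 4574013345) (nat_lit 76) (nat_lit 54254362828) (nat_lit 5) (nat_lit 5) (nat_lit 7) (nat_lit 5) (nat_lit 6) (nat_lit 4) (nat_lit 339) (nat_lit 244) (nat_lit 197)) (XT.lf (nat_lit 0) (nat_lit 1670882122) (nat_lit 76) (nat_lit 4310628823) (nat_lit 152) (nat_lit 58664893665) (nat_lit 4) (nat_lit 5) (nat_lit 5) (nat_lit 5) (nat_lit 6) (nat_lit 4) (nat_lit 340) (nat_lit 244) (nat_lit 196))) (XT.nd (nat_lit 78) (nat_lit 0) (nat_lit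 0) (XT.lf (nat_lit 0) (nat_lit 8334897302) (nat_lit 76) (nat_lit 923521696) (nat_lit 152) (nat_lit 58441329905) (nat_lit 4) (nat_lit 5) (nat_lit 5) (nat_lit 5) (nat_lit 6) (nat_lit 4) (nat_lit 341) (nat_lit 244) (nat_lit 195)) (XT.nd (nat_lit 78) (nat_lit 0) (nat_lit 0) (XT.lf (nat_lit 0) (nat_lit 12713247008) (nat_lit 152) (nat_lit 55665201377) (nat_lit 0) (nat_lit 2526624738) (nat_lit 4) (nat_lit 5) (nat_lit 6) (nat_lit 4) (nat_lit 4) (nat_lit 4) (nat_lit 342) (nat_lit 244) (nat_lit 194)) (XT.lf (nat_lit 0) (nat_lit 16330210377) (nat_lit 152) (nat_lit 51843752747) (nat_lit 0) (nat_lit 6097246392) (nat_lit 4) (nat_lit 5) (nat_lit 6) (nat_lit 4) (nat_lit 4) (nat_lit 4) (nat_lit 343) (nat_lit 244) (nat_lit 193)))))) (XT.nd (nat_lit 390) (nat_lit 0) (nat_lit 0) (XT.nd (nat_lit 156) (nat_lit 0) (nat_lit 0) (XT.nd (nat_lit 78) (nat_lit 0) (nat_lit 0) (XT.lf (nat_lit 0) (nat_lit 20103502161)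 (nat_lit 152) (nat_lit 47876988262) (nat_lit 0) (nat_lit 9826403210) (nat_lit 4) (nat_lit 5) (nat_lit 6) (nat_lit 4) (nat_lit 4) (nat_lit 4) (nat_lit 344) (nat_lit 244) (nat_lit 192)) (XT.lf (nat_lit 0) (nat_lit 24042106387) (nat_lit 152) (nat_lit 43755463243) (nat_lit 0) (nat_lit 13722974135) (nat_lit 4) (nat_lit 5) (nat_lit 6) (nat_lit 4) (nat_lit 4) (nat_lit 4) (nat_lit 345) (nat_lit 244) (nat_lit 191))) (XT.nd (nat_lit 78) (nat_lit 0) (nat_lit 0) (XT.lf (nat_lit 0) (nat_lit 28155400684) (nat_lit 152) (nat_lit 39469364535) (nat_lit 0) (nat_lit 17796236717) (nat_lit 4) (nat_lit 5) (nat_lit 6) (nat_lit 4) (nat_lit 4) (nat_lit 4) (nat_lit 346) (nat_lit 244) (nat_lit 190)) (XT.nd (nat_lit 78) (nat_lit 0) (nat_lit 0) (XT.lf (nat_lit 0) (nat_lit 32453178611) (nat_lit 152) (nat_lit 35008487143) (nat_lit 0) (nat_lit 22055889200) (nat_lit 4) (nat_lit 5) (nat_lit 6) (nat_lit 4) (nat_lit 4)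 (nat_lit 4) (nat_lit 347) (nat_lit 244) (nat_lit 189)) (XT.lf (nat_lit 0) (nat_lit 36945672972) (nat_lit 152) (nat_lit 30362209930) (nat_lit 0) (nat_lit 26512073615) (nat_lit 4) (nat_lit 5) (nat_lit 6) (nat_lit 4) (nat_lit 4) (nat_lit 4) (nat_lit 348) (nat_lit 244) (nat_lit 188))))) (XT.nd (nat_lit 156) (nat_lit 0) (nat_lit 0) (XT.nd (nat_lit 78) (nat_lit 0) (nat_lit 0) (XT.lf (nat_lit 0) (nat_lit 41643580181) (nat_lit 152) (nat_lit 25519470330) (nat_lit 0) (nat_lit 31175399924) (nat_lit 4) (nat_lit 5) (nat_lit 6) (nat_lit 4) (nat_lit 4) (nat_lit 4) (nat_lit 349) (nat_lit 244) (nat_lit 187)) (XT.lf (nat_lit 0) (nat_lit 46558085734) (nat_lit 152) (nat_lit 20468738011) (nat_lit 0) (nat_lit 36056971285) (nat_lit 4) (nat_lit 5) (nat_lit 6) (nat_lit 4) (nat_lit 4) (nat_lit 4) (nat_lit 350) (nat_lit 244) (nat_lit 186))) (XT.nd (nat_lit 78) (nat_lit 0) (nat_lit 0) (XT.lf (nat_lit 0) (nat_lit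 51700890832) (nat_lit 152) (nat_lit 15197987421) (nat_lit 0) (nat_lit 41168410488) (nat_lit 4) (nat_lit 5) (nat_lit 6) (nat_lit 4) (nat_lit 4) (nat_lit 4) (nat_lit 351) (nat_lit 244) (nat_lit 185)) (XT.nd (nat_lit 78) (nat_lit 0) (nat_lit 0) (XT.lf (nat_lit 0) (nat_lit 57084240251) (nat_lit 152) (nat_lit 9694669152) (nat_lit 0) (nat_lit 46521887624) (nat_lit 4) (nat_lit 5) (nat_lit 6) (nat_lit 4) (nat_lit 4) (nat_lit 4) (nat_lit 352) (nat_lit 244) (nat_lit 184)) (XT.lf (nat_lit 0) (nat_lit 62720951488) (nat_lit 152) (nat_lit 3945680066) (nat_lit 0) (nat_lit 52130149069) (nat_lit 4) (nat_lit 5) (nat_lit 6) (nat_lit 4) (nat_lit 4) (nat_lit 4) (nat_lit 353) (nat_lit 244) (nat_lit 183))))))))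
noncomputable def xc62 : XT := (XT.nd (nat_lit 1482) (nat_lit 0) (nat_lit 0) (XT.nd (nat_lit 702) (nat_lit 0) (nat_lit 0) (XT.nd (nat_lit 312) (nat_lit 0) (nat_lit 0) (XT.nd (nat_lit 156) (nat_lit 0) (nat_lit 0) (XT.nd (nat_lit 78) (nat_lit 0) (nat_lit 0) (XT.lf (nat_lit 0) (nat_lit 2130869021) (nat_lit 76) (nat_lit 66526845102) (nat_lit 76) (nat_lit 55908947642) (nat_lit 3) (nat_lit 4) (nat_lit 4) (nat_lit 5) (nat_lit 4) (nat_lit 4) (nat_lit 354) (nat_lit 244) (nat_lit 182)) (XT.lf (nat_lit 0) (nat_lit 8620593170) (nat_lit 76) (nat_lit 66322776028) (nat_lit 76) (nat_lit 55679073767) (nat_lit 3) (nat_lit 4) (nat_lit 4) (nat_lit 5) (nat_lit 4) (nat_lit 4) (nat_lit 355) (nat_lit 244) (nat_lit 181))) (XT.nd (nat_lit 78) (nat_lit 0) (nat_lit 0) (XT.lf (nat_lit 0) (nat_lit 15408482105) (nat_lit 76) (nat_lit 66120760456) (nat_lit 76) (nat_lit 55452482195) (nat_lit 3) (nat_lit 4) (nat_lit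 4) (nat_lit 5) (nat_lit 4) (nat_lit 4) (nat_lit 356) (nat_lit 244) (nat_lit 180)) (XT.lf (nat_lit 0) (nat_lit 22510697463) (nat_lit 76) (nat_lit 65920317397) (nat_lit 76) (nat_lit 55228633421) (nat_lit 3) (nat_lit 4) (nat_lit 4) (nat_lit 5) (nat_lit 4) (nat_lit 4) (nat_lit 357) (nat_lit 244) (nat_lit 179)))) (XT.nd (nat_lit 156) (nat_lit 0) (nat_lit 0) (XT.nd (nat_lit 78) (nat_lit 0) (nat_lit 0) (XT.lf (nat_lit 0) (nat_lit 29944149283) (nat_lit 76) (nat_lit 65720969604) (nat_lit 76) (nat_lit 55006994471) (nat_lit 3) (nat_lit 4) (nat_lit 4) (nat_lit 5) (nat_lit 4) (nat_lit 4) (nat_lit 358) (nat_lit 244) (nat_lit 178)) (XT.lf (nat_lit 0) (nat_lit 37726536258) (nat_lit 76) (nat_lit 65522242442) (nat_lit 76) (nat_lit 54787037635) (nat_lit 3) (nat_lit 4) (nat_lit 4) (nat_lit 5) (nat_lit 4) (nat_lit 4) (nat_lit 359) (nat_lit 244) (nat_lit 177))) (XT.nd (nat_lit 78) (nat_lit 0) (nat_lit 0)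 (XT.lf (nat_lit 0) (nat_lit 45876387882) (nat_lit 76) (nat_lit 65323662748) (nat_lit 76) (nat_lit 54568239205) (nat_lit 3) (nat_lit 4) (nat_lit 4) (nat_lit 5) (nat_lit 4) (nat_lit 4) (nat_lit 360) (nat_lit 244) (nat_lit 176)) (XT.nd (nat_lit 78) (nat_lit 0) (nat_lit 0) (XT.lf (nat_lit 0) (nat_lit 54413108563) (nat_lit 76) (nat_lit 65124757716) (nat_lit 76) (nat_lit 54350078234) (nat_lit 3) (nat_lit 4) (nat_lit 4) (nat_lit 5) (nat_lit 4) (nat_lit 4) (nat_lit 361) (nat_lit 244) (nat_lit 175)) (XT.lf (nat_lit 0) (nat_lit 63357023827) (nat_lit 76) (nat_lit 64925053761) (nat_lit 76) (nat_lit 54132035288) (nat_lit 3) (nat_lit 4) (nat_lit 4) (nat_lit 5) (nat_lit 4) (nat_lit 4) (nat_lit 362) (nat_lit 244) (nat_lit 174)))))) (XT.nd (nat_lit 390) (nat_lit 0) (nat_lit 0) (XT.nd (nat_lit 156) (nat_lit 0) (nat_lit 0) (XT.nd (nat_lit 78) (nat_lit 0) (nat_lit 0) (XT.lf (nat_lit 0) (nat_lit 72729428710)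 (nat_lit 76) (nat_lit 64724075397) (nat_lit 76) (nat_lit 53913591220) (nat_lit 3) (nat_lit 4) (nat_lit 4) (nat_lit 5) (nat_lit 4) (nat_lit 4) (nat_lit 363) (nat_lit 244) (nat_lit 173)) (XT.lf (nat_lit 0) (nat_lit 82552638462) (nat_lit 76) (nat_lit 64521344106) (nat_lit 76) (nat_lit 53694225924) (nat_lit 3) (nat_lit 4) (nat_lit 4) (nat_lit 5) (nat_lit 4) (nat_lit 4) (nat_lit 364) (nat_lit 244) (nat_lit 172))) (XT.nd (nat_lit 78) (nat_lit 0) (nat_lit 0) (XT.lf (nat_lit 0) (nat_lit 92850041677) (nat_lit 76) (nat_lit 64316377193) (nat_lit 76) (nat_lit 53473417102) (nat_lit 3) (nat_lit 4) (nat_lit 4) (nat_lit 5) (nat_lit 4) (nat_lit 4) (nat_lit 365) (nat_lit 244) (nat_lit 171)) (XT.nd (nat_lit 78) (nat_lit 0) (nat_lit 0) (XT.lf (nat_lit 0) (nat_lit 103646155982) (nat_lit 76) (nat_lit 64108686642) (nat_lit 76) (nat_lit 53250639018) (nat_lit 3) (nat_lit 4) (nat_lit 4) (nat_lit 5) (nat_lit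 4) (nat_lit 4) (nat_lit 366) (nat_lit 244) (nat_lit 170)) (XT.lf (nat_lit 0) (nat_lit 114966686411) (nat_lit 76) (nat_lit 63897777951) (nat_lit 76) (nat_lit 53025361249) (nat_lit 3) (nat_lit 4) (nat_lit 4) (nat_lit 5) (nat_lit 4) (nat_lit 4) (nat_lit 367) (nat_lit 244) (nat_lit 169))))) (XT.nd (nat_lit 156) (nat_lit 0) (nat_lit 0) (XT.nd (nat_lit 78) (nat_lit 0) (nat_lit 0) (XT.lf (nat_lit 0) (nat_lit 126838586609) (nat_lit 76) (nat_lit 63683148957) (nat_lit 76) (nat_lit 52797047419) (nat_lit 3) (nat_lit 4) (nat_lit 4) (nat_lit 5) (nat_lit 4) (nat_lit 4) (nat_lit 368) (nat_lit 244) (nat_lit 168)) (XT.lf (nat_lit 0) (nat_lit 139290123003) (nat_lit 76) (nat_lit 63464288639) (nat_lit 76) (nat_lit 52565153923) (nat_lit 3) (nat_lit 4) (nat_lit 4) (nat_lit 5) (nat_lit 4) (nat_lit 4) (nat_lit 369) (nat_lit 244) (nat_lit 167))) (XT.nd (nat_lit 78) (nat_lit 0) (nat_lit 0) (XT.lf (nat_lit 0)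 (nat_lit 152350942110) (nat_lit 76) (nat_lit 63240675900) (nat_lit 76) (nat_lit 52329128634) (nat_lit 3) (nat_lit 4) (nat_lit 4) (nat_lit 5) (nat_lit 4) (nat_lit 4) (nat_lit 370) (nat_lit 244) (nat_lit 166)) (XT.nd (nat_lit 78) (nat_lit 0) (nat_lit 0) (XT.lf (nat_lit 0) (nat_lit 166052141117) (nat_lit 76) (nat_lit 63011778330) (nat_lit 76) (nat_lit 52088409587) (nat_lit 3) (nat_lit 4) (nat_lit 4) (nat_lit 5) (nat_lit 4) (nat_lit 4) (nat_lit 371) (nat_lit 244) (nat_lit 165)) (XT.lf (nat_lit 0) (nat_lit 180426341928) (nat_lit 76) (nat_lit 62777050933) (nat_lit 76) (nat_lit 51842423641) (nat_lit 3) (nat_lit 4) (nat_lit 4) (nat_lit 5) (nat_lit 4) (nat_lit 4) (nat_lit 372) (nat_lit 244) (nat_lit 164))))))) (XT.nd (nat_lit 780) (nat_lit 0) (nat_lit 0) (XT.nd (nat_lit 390) (nat_lit 0) (nat_lit 0) (XT.nd (nat_lit 156) (nat_lit 0) (nat_lit 0) (XT.nd (nat_lit 78) (nat_lit 0) (nat_lit 0) (XT.lf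 (nat_lit 0) (nat_lit 195507768829) (nat_lit 76) (nat_lit 62535934836) (nat_lit 76) (nat_lit 51590585117) (nat_lit 3) (nat_lit 4) (nat_lit 4) (nat_lit 5) (nat_lit 4) (nat_lit 4) (nat_lit 373) (nat_lit 244) (nat_lit 163)) (XT.lf (nat_lit 0) (nat_lit 211332329980) (nat_lit 76) (nat_lit 62287855953) (nat_lit 76) (nat_lit 51332294397) (nat_lit 3) (nat_lit 4) (nat_lit 4) (nat_lit 5) (nat_lit 4) (nat_lit 4) (nat_lit 374) (nat_lit 244) (nat_lit 162))) (XT.nd (nat_lit 78) (nat_lit 0) (nat_lit 0) (XT.lf (nat_lit 0) (nat_lit 227937702908) (nat_lit 76) (nat_lit 62032223619) (nat_lit 76) (nat_lit 51066936505) (nat_lit 3) (nat_lit 4) (nat_lit 4) (nat_lit 5) (nat_lit 4) (nat_lit 4) (nat_lit 375) (nat_lit 244) (nat_lit 161)) (XT.nd (nat_lit 78) (nat_lit 0) (nat_lit 0) (XT.lf (nat_lit 0) (nat_lit 245363424214) (nat_lit 76) (nat_lit 61768429185) (nat_lit 76) (nat_lit 50793879636) (nat_lit 3) (nat_lit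 4) (nat_lit 4) (nat_lit 5) (nat_lit 4) (nat_lit 4) (nat_lit 376) (nat_lit 244) (nat_lit 160)) (XT.lf (nat_lit 0) (nat_lit 263650983712) (nat_lit 76) (nat_lit 61495844571) (nat_lit 76) (nat_lit 50512473654) (nat_lit 3) (nat_lit 4) (nat_lit 4) (nat_lit 5) (nat_lit 4) (nat_lit 4) (nat_lit 377) (nat_lit 244) (nat_lit 159))))) (XT.nd (nat_lit 156) (nat_lit 0) (nat_lit 0) (XT.nd (nat_lit 78) (nat_lit 0) (nat_lit 0) (XT.lf (nat_lit 0) (nat_lit 282843923209) (nat_lit 76) (nat_lit 61213820765) (nat_lit 76) (nat_lit 50222048545) (nat_lit 3) (nat_lit 4) (nat_lit 4) (nat_lit 5) (nat_lit 4) (nat_lit 4) (nat_lit 378) (nat_lit 244) (nat_lit 158)) (XT.lf (nat_lit 0) (nat_lit 302987940181) (nat_lit 76) (nat_lit 60921686281) (nat_lit 76) (nat_lit 49921912820) (nat_lit 3) (nat_lit 4) (nat_lit 4) (nat_lit 5) (nat_lit 4) (nat_lit 4) (nat_lit 379) (nat_lit 244) (nat_lit 157))) (XT.nd (nat_lit 78) (nat_lit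 0) (nat_lit 0) (XT.lf (nat_lit 0) (nat_lit 324130996573) (nat_lit 76) (nat_lit 60618745562) (nat_lit 76) (nat_lit 49611351872) (nat_lit 3) (nat_lit 4) (nat_lit 4) (nat_lit 5) (nat_lit 4) (nat_lit 4) (nat_lit 380) (nat_lit 244) (nat_lit 156)) (XT.nd (nat_lit 78) (nat_lit 0) (nat_lit 0) (XT.lf (nat_lit 0) (nat_lit 346323432996) (nat_lit 76) (nat_lit 60304277320) (nat_lit 76) (nat_lit 49289626269) (nat_lit 3) (nat_lit 4) (nat_lit 4) (nat_lit 5) (nat_lit 4) (nat_lit 4) (nat_lit 381) (nat_lit 244) (nat_lit 155)) (XT.lf (nat_lit 0) (nat_lit 369618088583) (nat_lit 76) (nat_lit 59977532820) (nat_lit 76) (nat_lit 48955969997) (nat_lit 3) (nat_lit 4) (nat_lit 4) (nat_lit 5) (nat_lit 4) (nat_lit 4) (nat_lit 382) (nat_lit 244) (nat_lit 154)))))) (XT.nd (nat_lit 390) (nat_lit 0) (nat_lit 0) (XT.nd (nat_lit 156) (nat_lit 0) (nat_lit 0) (XT.nd (nat_lit 78) (nat_lit 0) (nat_lit 0) (XT.lf (nat_lit 0)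 (nat_lit 394070426800) (nat_lit 76) (nat_lit 59637734101) (nat_lit 76) (nat_lit 48609588638) (nat_lit 3) (nat_lit 4) (nat_lit 4) (nat_lit 5) (nat_lit 4) (nat_lit 4) (nat_lit 383) (nat_lit 244) (nat_lit 153)) (XT.lf (nat_lit 0) (nat_lit 419738667501) (nat_lit 76) (nat_lit 59284072118) (nat_lit 76) (nat_lit 48249657473) (nat_lit 3) (nat_lit 4) (nat_lit 4) (nat_lit 5) (nat_lit 4) (nat_lit 4) (nat_lit 384) (nat_lit 244) (nat_lit 152))) (XT.nd (nat_lit 78) (nat_lit 0) (nat_lit 0) (XT.lf (nat_lit 0) (nat_lit 446683925543) (nat_lit 76) (nat_lit 58915704817) (nat_lit 76) (nat_lit 47875319523) (nat_lit 3) (nat_lit 4) (nat_lit 4) (nat_lit 5) (nat_lit 4) (nat_lit 4) (nat_lit 385) (nat_lit 244) (nat_lit 151)) (XT.nd (nat_lit 78) (nat_lit 0) (nat_lit 0) (XT.lf (nat_lit 0) (nat_lit 474970356304) (nat_lit 76) (nat_lit 58531755135) (nat_lit 76) (nat_lit 47485683509) (nat_lit 3) (nat_lit 4) (nat_lit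 4) (nat_lit 5) (nat_lit 4) (nat_lit 4) (nat_lit 386) (nat_lit 244) (nat_lit 150)) (XT.lf (nat_lit 0) (nat_lit 504665308428) (nat_lit 76) (nat_lit 58131308904) (nat_lit 76) (nat_lit 47079821724) (nat_lit 3) (nat_lit 4) (nat_lit 4) (nat_lit 5) (nat_lit 4) (nat_lit 4) (nat_lit 387) (nat_lit 244) (nat_lit 149))))) (XT.nd (nat_lit 33072) (nat_lit 0) (nat_lit 2508) (XT.nd (nat_lit 32994) (nat_lit 0) (nat_lit 2964) (XT.lf (nat_lit 0) (nat_lit 535839484182) (nat_lit 76) (nat_lit 57713412683) (nat_lit 76) (nat_lit 46656767831) (nat_lit 3) (nat_lit 4) (nat_lit 4) (nat_lit 5) (nat_lit 4) (nat_lit 4) (nat_lit 388) (nat_lit 244) (nat_lit 148)) (XT.lf (nat_lit 0) (nat_lit 1684323146) (nat_lit 228) (nat_lit 1414012480) (nat_lit 0) (nat_lit 1684323146) (nat_lit 42) (nat_lit 5) (nat_lit 45) (nat_lit 4) (nat_lit 42) (nat_lit 4) (nat_lit 290) (nat_lit 245) (nat_lit 245))) (XT.nd (nat_lit 78) (nat_lit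 228) (nat_lit 0) (XT.lf (nat_lit 0) (nat_lit 3689440602) (nat_lit 228) (nat_lit 3491638233) (nat_lit 228) (nat_lit 2626012735) (nat_lit 39) (nat_lit 4) (nat_lit 42) (nat_lit 5) (nat_lit 42) (nat_lit 4) (nat_lit 291) (nat_lit 245) (nat_lit 244)) (XT.nd (nat_lit 78) (nat_lit 0) (nat_lit 0) (XT.lf (nat_lit 0) (nat_lit 347273581) (nat_lit 152) (nat_lit 646533401) (nat_lit 228) (nat_lit 9071206976) (nat_lit 36) (nat_lit 5) (nat_lit 38) (nat_lit 5) (nat_lit 39) (nat_lit 4) (nat_lit 292) (nat_lit 245) (nat_lit 243)) (XT.lf (nat_lit 0) (nat_lit 4703268895) (nat_lit 228) (nat_lit 3284862691) (nat_lit 0) (nat_lit 2345955965) (nat_lit 36) (nat_lit 5) (nat_lit 39) (nat_lit 4) (nat_lit 36) (nat_lit 4) (nat_lit 293) (nat_lit 245) (nat_lit 242))))))))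
noncomputable def xc63 : XT := (XT.nd (nat_lit 1560) (nat_lit 532) (nat_lit 0) (XT.nd (nat_lit 780) (nat_lit 608) (nat_lit 0) (XT.nd (nat_lit 390) (nat_lit 456) (nat_lit 0) (XT.nd (nat_lit 156) (nat_lit 380) (nat_lit 0) (XT.nd (nat_lit 78) (nat_lit 76) (nat_lit 0) (XT.lf (nat_lit 0) (nat_lit 3356241441) (nat_lit 228) (nat_lit 5166915765) (nat_lit 228) (nat_lit 2097450596) (nat_lit 33) (nat_lit 4) (nat_lit 36) (nat_lit 5) (nat_lit 36) (nat_lit 4) (nat_lit 294) (nat_lit 245) (nat_lit 241)) (XT.lf (nat_lit 0) (nat_lit 1480383885) (nat_lit 304) (nat_lit 712918431) (nat_lit 76) (nat_lit 8731140632) (nat_lit 32) (nat_lit 5) (nat_lit 36) (nat_lit 5) (nat_lit 33) (nat_lit 4) (nat_lit 295) (nat_lit 245) (nat_lit 240))) (XT.nd (nat_lit 78) (nat_lit 228) (nat_lit 0) (XT.lf (nat_lit 0) (nat_lit 5147197026) (nat_lit 228) (nat_lit 5132962817) (nat_lit 0) (nat_lit 962769912) (nat_lit 30) (nat_lit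 5) (nat_lit 33) (nat_lit 4) (nat_lit 30) (nat_lit 4) (nat_lit 296) (nat_lit 245) (nat_lit 239)) (XT.nd (nat_lit 78) (nat_lit 76) (nat_lit 0) (XT.lf (nat_lit 0) (nat_lit 1531121330) (nat_lit 152) (nat_lit 7409778317) (nat_lit 152) (nat_lit 2639461794) (nat_lit 28) (nat_lit 4) (nat_lit 30) (nat_lit 5) (nat_lit 30) (nat_lit 4) (nat_lit 297) (nat_lit 245) (nat_lit 238)) (XT.lf (nat_lit 0) (nat_lit 918471263) (nat_lit 228) (nat_lit 3445440346) (nat_lit 76) (nat_lit 7572134002) (nat_lit 27) (nat_lit 5) (nat_lit 30) (nat_lit 5) (nat_lit 28) (nat_lit 4) (nat_lit 298) (nat_lit 245) (nat_lit 237))))) (XT.nd (nat_lit 156) (nat_lit 304) (nat_lit 0) (XT.nd (nat_lit 78) (nat_lit 0) (nat_lit 0) (XT.lf (nat_lit 0) (nat_lit 3357639443) (nat_lit 152) (nat_lit 1138636090) (nat_lit 228) (nat_lit 7814712095) (nat_lit 25) (nat_lit 5) (nat_lit 27) (nat_lit 5) (nat_lit 28) (nat_lit 4) (nat_lit 299) (nat_lit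 245) (nat_lit 236)) (XT.lf (nat_lit 0) (nat_lit 8227288846) (nat_lit 228) (nat_lit 2314249517) (nat_lit 0) (nat_lit 2164585320) (nat_lit 25) (nat_lit 5) (nat_lit 28) (nat_lit 4) (nat_lit 25) (nat_lit 4) (nat_lit 300) (nat_lit 245) (nat_lit 235))) (XT.nd (nat_lit 78) (nat_lit 152) (nat_lit 0) (XT.lf (nat_lit 0) (nat_lit 4597743191) (nat_lit 152) (nat_lit 7523193737) (nat_lit 152) (nat_lit 1001430529) (nat_lit 23) (nat_lit 4) (nat_lit 25) (nat_lit 5) (nat_lit 25) (nat_lit 4) (nat_lit 301) (nat_lit 245) (nat_lit 234)) (XT.nd (nat_lit 78) (nat_lit 76) (nat_lit 0) (XT.lf (nat_lit 0) (nat_lit 2491091376) (nat_lit 228) (nat_lit 1852225585) (nat_lit 76) (nat_lit 9217875638) (nat_lit 22) (nat_lit 5) (nat_lit 25) (nat_lit 5) (nat_lit 23) (nat_lit 4) (nat_lit 302) (nat_lit 245) (nat_lit 233)) (XT.lf (nat_lit 0) (nat_lit 5121851300) (nat_lit 76) (nat_lit 974341320) (nat_lit 152) (nat_lit 7926499140)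 (nat_lit 21) (nat_lit 5) (nat_lit 22) (nat_lit 5) (nat_lit 23) (nat_lit 4) (nat_lit 303) (nat_lit 245) (nat_lit 232)))))) (XT.nd (nat_lit 390) (nat_lit 304) (nat_lit 0) (XT.nd (nat_lit 156) (nat_lit 152) (nat_lit 0) (XT.nd (nat_lit 78) (nat_lit 152) (nat_lit 0) (XT.lf (nat_lit 0) (nat_lit 9846390779) (nat_lit 152) (nat_lit 2218176118) (nat_lit 0) (nat_lit 2444584507) (nat_lit 21) (nat_lit 5) (nat_lit 23) (nat_lit 4) (nat_lit 21) (nat_lit 4) (nat_lit 304) (nat_lit 245) (nat_lit 231)) (XT.lf (nat_lit 0) (nat_lit 4762817458) (nat_lit 152) (nat_lit 9009655478) (nat_lit 152) (nat_lit 1248163932) (nat_lit 19) (nat_lit 4) (nat_lit 21) (nat_lit 5) (nat_lit 21) (nat_lit 4) (nat_lit 305) (nat_lit 245) (nat_lit 230))) (XT.nd (nat_lit 78) (nat_lit 76) (nat_lit 0) (XT.lf (nat_lit 0) (nat_lit 2199042531) (nat_lit 228) (nat_lit 3596011759) (nat_lit 76) (nat_lit 9764093889) (nat_lit 18) (nat_lit 5)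 (nat_lit 21) (nat_lit 5) (nat_lit 19) (nat_lit 4) (nat_lit 306) (nat_lit 245) (nat_lit 229)) (XT.nd (nat_lit 78) (nat_lit 0) (nat_lit 0) (XT.lf (nat_lit 0) (nat_lit 3319961466) (nat_lit 76) (nat_lit 2411870514) (nat_lit 152) (nat_lit 10394076524) (nat_lit 17) (nat_lit 5) (nat_lit 18) (nat_lit 5) (nat_lit 19) (nat_lit 4) (nat_lit 307) (nat_lit 245) (nat_lit 228)) (XT.lf (nat_lit 0) (nat_lit 9425320016) (nat_lit 152) (nat_lit 6196029335) (nat_lit 0) (nat_lit 1100554532) (nat_lit 17) (nat_lit 5) (nat_lit 19) (nat_lit 4) (nat_lit 17) (nat_lit 4) (nat_lit 308) (nat_lit 245) (nat_lit 227))))) (XT.nd (nat_lit 156) (nat_lit 152) (nat_lit 0) (XT.nd (nat_lit 78) (nat_lit 0) (nat_lit 0) (XT.lf (nat_lit 0) (nat_lit 564983710) (nat_lit 152) (nat_lit 12695767705) (nat_lit 152) (nat_lit 4089179398) (nat_lit 15) (nat_lit 4) (nat_lit 17) (nat_lit 5) (nat_lit 17) (nat_lit 4) (nat_lit 309) (nat_lit 245)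 (nat_lit 226)) (XT.lf (nat_lit 0) (nat_lit 7723762361) (nat_lit 152) (nat_lit 9579945377) (nat_lit 152) (nat_lit 704954382) (nat_lit 15) (nat_lit 4) (nat_lit 17) (nat_lit 5) (nat_lit 17) (nat_lit 4) (nat_lit 310) (nat_lit 245) (nat_lit 225))) (XT.nd (nat_lit 78) (nat_lit 76) (nat_lit 0) (XT.lf (nat_lit 0) (nat_lit 2670903958) (nat_lit 228) (nat_lit 3655259488) (nat_lit 76) (nat_lit 12376345606) (nat_lit 14) (nat_lit 5) (nat_lit 17) (nat_lit 5) (nat_lit 15) (nat_lit 4) (nat_lit 311) (nat_lit 245) (nat_lit 224)) (XT.nd (nat_lit 78) (nat_lit 0) (nat_lit 0) (XT.lf (nat_lit 0) (nat_lit 3254728612) (nat_lit 76) (nat_lit 2905656932) (nat_lit 152) (nat_lit 13271737232) (nat_lit 13) (nat_lit 5) (nat_lit 14) (nat_lit 5) (nat_lit 15) (nat_lit 4) (nat_lit 312) (nat_lit 245) (nat_lit 223)) (XT.lf (nat_lit 0) (nat_lit 9816434662) (nat_lit 152) (nat_lit 9714311224) (nat_lit 0) (nat_lit 667941244)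 (nat_lit 13) (nat_lit 5) (nat_lit 15) (nat_lit 4) (nat_lit 13) (nat_lit 4) (nat_lit 313) (nat_lit 245) (nat_lit 222))))))) (XT.nd (nat_lit 780) (nat_lit 228) (nat_lit 0) (XT.nd (nat_lit 390) (nat_lit 76) (nat_lit 0) (XT.nd (nat_lit 156) (nat_lit 152) (nat_lit 0) (XT.nd (nat_lit 78) (nat_lit 76) (nat_lit 0) (XT.lf (nat_lit 0) (nat_lit 13625269119) (nat_lit 152) (nat_lit 3113407332) (nat_lit 0) (nat_lit 4266475170) (nat_lit 13) (nat_lit 5) (nat_lit 15) (nat_lit 4) (nat_lit 13) (nat_lit 4) (nat_lit 314) (nat_lit 245) (nat_lit 221)) (XT.lf (nat_lit 0) (nat_lit 3808288408) (nat_lit 76) (nat_lit 13801761765) (nat_lit 76) (nat_lit 4242681597) (nat_lit 12) (nat_lit 4) (nat_lit 13) (nat_lit 5) (nat_lit 13) (nat_lit 4) (nat_lit 315) (nat_lit 245) (nat_lit 220))) (XT.nd (nat_lit 78) (nat_lit 152) (nat_lit 0) (XT.lf (nat_lit 0) (nat_lit 11055132251) (nat_lit 76) (nat_lit 10719219016) (nat_lit 76)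 (nat_lit 969390068) (nat_lit 12) (nat_lit 4) (nat_lit 13) (nat_lit 5) (nat_lit 13) (nat_lit 4) (nat_lit 316) (nat_lit 245) (nat_lit 219)) (XT.nd (nat_lit 78) (nat_lit 76) (nat_lit 0) (XT.lf (nat_lit 0) (nat_lit 2318401743) (nat_lit 152) (nat_lit 5178770877) (nat_lit 76) (nat_lit 16183770279) (nat_lit 11) (nat_lit 5) (nat_lit 13) (nat_lit 5) (nat_lit 12) (nat_lit 4) (nat_lit 317) (nat_lit 245) (nat_lit 218)) (XT.lf (nat_lit 0) (nat_lit 1571673674) (nat_lit 76) (nat_lit 4124025298) (nat_lit 152) (nat_lit 18970681984) (nat_lit 10) (nat_lit 5) (nat_lit 11) (nat_lit 5) (nat_lit 12) (nat_lit 4) (nat_lit 318) (nat_lit 245) (nat_lit 217))))) (XT.nd (nat_lit 156) (nat_lit 76) (nat_lit 0) (XT.nd (nat_lit 78) (nat_lit 0) (nat_lit 0) (XT.lf (nat_lit 0) (nat_lit 8722062537) (nat_lit 76) (nat_lit 542009523) (nat_lit 152) (nat_lit 16435961333) (nat_lit 10) (nat_lit 5) (nat_lit 11) (nat_lit 5) (nat_lit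 12) (nat_lit 4) (nat_lit 319) (nat_lit 245) (nat_lit 216)) (XT.lf (nat_lit 0) (nat_lit 12997976446) (nat_lit 152) (nat_lit 10719838699) (nat_lit 0) (nat_lit 3068248178) (nat_lit 10) (nat_lit 5) (nat_lit 12) (nat_lit 4) (nat_lit 10) (nat_lit 4) (nat_lit 320) (nat_lit 245) (nat_lit 215))) (XT.nd (nat_lit 78) (nat_lit 76) (nat_lit 0) (XT.lf (nat_lit 0) (nat_lit 16867321796) (nat_lit 152) (nat_lit 4266429913) (nat_lit 0) (nat_lit 6795253852) (nat_lit 10) (nat_lit 5) (nat_lit 12) (nat_lit 4) (nat_lit 10) (nat_lit 4) (nat_lit 321) (nat_lit 245) (nat_lit 214)) (XT.nd (nat_lit 78) (nat_lit 0) (nat_lit 0) (XT.lf (nat_lit 0) (nat_lit 2485639018) (nat_lit 76) (nat_lit 18426027322) (nat_lit 76) (nat_lit 8218397781) (nat_lit 9) (nat_lit 4) (nat_lit 10) (nat_lit 5) (nat_lit 10) (nat_lit 4) (nat_lit 322) (nat_lit 245) (nat_lit 213)) (XT.lf (nat_lit 0) (nat_lit 9621536369) (nat_lit 76) (nat_lit 15552806477)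 (nat_lit 76) (nat_lit 5216070654) (nat_lit 9) (nat_lit 4) (nat_lit 10) (nat_lit 5) (nat_lit 10) (nat_lit 4) (nat_lit 323) (nat_lit 245) (nat_lit 212)))))) (XT.nd (nat_lit 390) (nat_lit 76) (nat_lit 0) (XT.nd (nat_lit 156) (nat_lit 76) (nat_lit 0) (XT.nd (nat_lit 78) (nat_lit 76) (nat_lit 0) (XT.lf (nat_lit 0) (nat_lit 17017184929) (nat_lit 76) (nat_lit 12579502229) (nat_lit 76) (nat_lit 2119808041) (nat_lit 9) (nat_lit 4) (nat_lit 10) (nat_lit 5) (nat_lit 10) (nat_lit 4) (nat_lit 324) (nat_lit 245) (nat_lit 211)) (XT.lf (nat_lit 0) (nat_lit 1043266993) (nat_lit 152) (nat_lit 8438100055) (nat_lit 76) (nat_lit 23629258160) (nat_lit 8) (nat_lit 5) (nat_lit 10) (nat_lit 5) (nat_lit 9) (nat_lit 4) (nat_lit 325) (nat_lit 245) (nat_lit 210))) (XT.nd (nat_lit 78) (nat_lit 76) (nat_lit 0) (XT.lf (nat_lit 0) (nat_lit 4243929588) (nat_lit 152) (nat_lit 1988268596) (nat_lit 76) (nat_lit 28343028216)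 (nat_lit 8) (nat_lit 5) (nat_lit 10) (nat_lit 5) (nat_lit 9) (nat_lit 4) (nat_lit 326) (nat_lit 245) (nat_lit 209)) (XT.nd (nat_lit 78) (nat_lit 0) (nat_lit 0) (XT.lf (nat_lit 0) (nat_lit 4853995150) (nat_lit 76) (nat_lit 2779436781) (nat_lit 152) (nat_lit 28478219571) (nat_lit 7) (nat_lit 5) (nat_lit 8) (nat_lit 5) (nat_lit 9) (nat_lit 4) (nat_lit 327) (nat_lit 245) (nat_lit 208)) (XT.lf (nat_lit 0) (nat_lit 11193195553) (nat_lit 152) (nat_lit 25715355680) (nat_lit 0) (nat_lit 816339875) (nat_lit 7) (nat_lit 5) (nat_lit 9) (nat_lit 4) (nat_lit 7) (nat_lit 4) (nat_lit 328) (nat_lit 245) (nat_lit 207))))) (XT.nd (nat_lit 156) (nat_lit 76) (nat_lit 0) (XT.nd (nat_lit 78) (nat_lit 0) (nat_lit 0) (XT.lf (nat_lit 0) (nat_lit 14932087145) (nat_lit 152) (nat_lit 20023201521) (nat_lit 0) (nat_lit 4463478042) (nat_lit 7) (nat_lit 5) (nat_lit 9) (nat_lit 4) (nat_lit 7) (nat_lit 4) (nat_lit 329)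 (nat_lit 245) (nat_lit 206)) (XT.lf (nat_lit 0) (nat_lit 18815614033) (nat_lit 152) (nat_lit 14124246332) (nat_lit 0) (nat_lit 8259620716) (nat_lit 7) (nat_lit 5) (nat_lit 9) (nat_lit 4) (nat_lit 7) (nat_lit 4) (nat_lit 330) (nat_lit 245) (nat_lit 205))) (XT.nd (nat_lit 78) (nat_lit 76) (nat_lit 0) (XT.lf (nat_lit 0) (nat_lit 22853022710) (nat_lit 152) (nat_lit 8004444980) (nat_lit 0) (nat_lit 12213806332) (nat_lit 7) (nat_lit 5) (nat_lit 9) (nat_lit 4) (nat_lit 7) (nat_lit 4) (nat_lit 331) (nat_lit 245) (nat_lit 204)) (XT.nd (nat_lit 78) (nat_lit 76) (nat_lit 0) (XT.lf (nat_lit 0) (nat_lit 27053926053) (nat_lit 152) (nat_lit 1649226510) (nat_lit 0) (nat_lit 16335449618) (nat_lit 7) (nat_lit 5) (nat_lit 9) (nat_lit 4) (nat_lit 7) (nat_lit 4) (nat_lit 332) (nat_lit 245) (nat_lit 203)) (XT.lf (nat_lit 0) (nat_lit 5120426165) (nat_lit 76) (nat_lit 26387844251) (nat_lit 76) (nat_lit 15593882047)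 (nat_lit 6) (nat_lit 4) (nat_lit 7) (nat_lit 5) (nat_lit 7) (nat_lit 4) (nat_lit 333) (nat_lit 245) (nat_lit 202))))))))
noncomputable def xc64 : XT := (XT.nd (nat_lit 1482) (nat_lit 76) (nat_lit 0) (XT.nd (nat_lit 702) (nat_lit 0) (nat_lit 0) (XT.nd (nat_lit 312) (nat_lit 152) (nat_lit 0) (XT.nd (nat_lit 156) (nat_lit 0) (nat_lit 0) (XT.nd (nat_lit 78) (nat_lit 0) (nat_lit 0) (XT.lf (nat_lit 0) (nat_lit 12219690632) (nat_lit 76) (nat_lit 23957731416) (nat_lit 76) (nat_lit 13091878002) (nat_lit 6) (nat_lit 4) (nat_lit 7) (nat_lit 5) (nat_lit 7) (nat_lit 4) (nat_lit 334) (nat_lit 245) (nat_lit 201)) (XT.lf (nat_lit 0) (nat_lit 19610939024) (nat_lit 76) (nat_lit 21434958523) (nat_lit 76) (nat_lit 10500637291) (nat_lit 6) (nat_lit 4) (nat_lit 7) (nat_lit 5) (nat_lit 7) (nat_lit 4) (nat_lit 335) (nat_lit 245) (nat_lit 200))) (XT.nd (nat_lit 78) (nat_lit 0) (nat_lit 0) (XT.lf (nat_lit 0)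 (nat_lit 27311769551) (nat_lit 76) (nat_lit 18813518971) (nat_lit 76) (nat_lit 7813990293) (nat_lit 6) (nat_lit 4) (nat_lit 7) (nat_lit 5) (nat_lit 7) (nat_lit 4) (nat_lit 336) (nat_lit 245) (nat_lit 199)) (XT.lf (nat_lit 0) (nat_lit 35340517525) (nat_lit 76) (nat_lit 16087171236) (nat_lit 76) (nat_lit 5025540228) (nat_lit 6) (nat_lit 4) (nat_lit 7) (nat_lit 5) (nat_lit 7) (nat_lit 4) (nat_lit 337) (nat_lit 245) (nat_lit 198)))) (XT.nd (nat_lit 156) (nat_lit 76) (nat_lit 0) (XT.nd (nat_lit 78) (nat_lit 76) (nat_lit 0) (XT.lf (nat_lit 0) (nat_lit 43716299013) (nat_lit 76) (nat_lit 13249424014) (nat_lit 76) (nat_lit 2128647931) (nat_lit 6) (nat_lit 4) (nat_lit 7) (nat_lit 5) (nat_lit 7) (nat_lit 4) (nat_lit 338) (nat_lit 245) (nat_lit 197)) (XT.lf (nat_lit 0) (nat_lit 855303755) (nat_lit 152) (nat_lit 9423732027) (nat_lit 76) (nat_lit 51589267611) (nat_lit 5) (nat_lit 5) (nat_lit 7) (nat_lit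 5) (nat_lit 6) (nat_lit 4) (nat_lit 339) (nat_lit 245) (nat_lit 196))) (XT.nd (nat_lit 78) (nat_lit 76) (nat_lit 0) (XT.lf (nat_lit 0) (nat_lit 3889715856) (nat_lit 152) (nat_lit 3256833548) (nat_lit 76) (nat_lit 57634015549) (nat_lit 5) (nat_lit 5) (nat_lit 7) (nat_lit 5) (nat_lit 6) (nat_lit 4) (nat_lit 340) (nat_lit 245) (nat_lit 195)) (XT.nd (nat_lit 78) (nat_lit 0) (nat_lit 0) (XT.lf (nat_lit 0) (nat_lit 3275373136) (nat_lit 76) (nat_lit 3825707804) (nat_lit 152) (nat_lit 60736113473) (nat_lit 4) (nat_lit 5) (nat_lit 5) (nat_lit 5) (nat_lit 6) (nat_lit 4) (nat_lit 341) (nat_lit 245) (nat_lit 194)) (XT.lf (nat_lit 0) (nat_lit 10200163032) (nat_lit 76) (nat_lit 302600199) (nat_lit 152) (nat_lit 60542420329) (nat_lit 4) (nat_lit 5) (nat_lit 5) (nat_lit 5) (nat_lit 6) (nat_lit 4) (nat_lit 342) (nat_lit 245) (nat_lit 193)))))) (XT.nd (nat_lit 390) (nat_lit 0) (nat_lit 0) (XT.nd (nat_lit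 156) (nat_lit 0) (nat_lit 0) (XT.nd (nat_lit 78) (nat_lit 0) (nat_lit 0) (XT.lf (nat_lit 0) (nat_lit 14103041308) (nat_lit 152) (nat_lit 57041167742) (nat_lit 0) (nat_lit 3267952443) (nat_lit 4) (nat_lit 5) (nat_lit 6) (nat_lit 4) (nat_lit 4) (nat_lit 4) (nat_lit 343) (nat_lit 245) (nat_lit 192)) (XT.lf (nat_lit 0) (nat_lit 17864941801) (nat_lit 152) (nat_lit 53095660666) (nat_lit 0) (nat_lit 6987819635) (nat_lit 4) (nat_lit 5) (nat_lit 6) (nat_lit 4) (nat_lit 4) (nat_lit 4) (nat_lit 344) (nat_lit 245) (nat_lit 191))) (XT.nd (nat_lit 78) (nat_lit 0) (nat_lit 0) (XT.lf (nat_lit 0) (nat_lit 21792697178) (nat_lit 152) (nat_lit 48994380800) (nat_lit 0) (nat_lit 10875543297) (nat_lit 4) (nat_lit 5) (nat_lit 6) (nat_lit 4) (nat_lit 4) (nat_lit 4) (nat_lit 345) (nat_lit 245) (nat_lit 190)) (XT.nd (nat_lit 78) (nat_lit 0) (nat_lit 0) (XT.lf (nat_lit 0) (nat_lit 25895659238) (nat_lit 152) (nat_lit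 44727563191) (nat_lit 0) (nat_lit 14940379914) (nat_lit 4) (nat_lit 5) (nat_lit 6) (nat_lit 4) (nat_lit 4) (nat_lit 4) (nat_lit 346) (nat_lit 245) (nat_lit 189)) (XT.lf (nat_lit 0) (nat_lit 30183596940) (nat_lit 152) (nat_lit 40285048749) (nat_lit 0) (nat_lit 19192007670) (nat_lit 4) (nat_lit 5) (nat_lit 6) (nat_lit 4) (nat_lit 4) (nat_lit 4) (nat_lit 347) (nat_lit 245) (nat_lit 188))))) (XT.nd (nat_lit 156) (nat_lit 0) (nat_lit 0) (XT.nd (nat_lit 78) (nat_lit 0) (nat_lit 0) (XT.lf (nat_lit 0) (nat_lit 34666719657) (nat_lit 152) (nat_lit 35656260059) (nat_lit 0) (nat_lit 23640549486) (nat_lit 4) (nat_lit 5) (nat_lit 6) (nat_lit 4) (nat_lit 4) (nat_lit 4) (nat_lit 348) (nat_lit 245) (nat_lit 187)) (XT.lf (nat_lit 0) (nat_lit 39355701492) (nat_lit 152) (nat_lit 30830176197) (nat_lit 0) (nat_lit 28296597130) (nat_lit 4) (nat_lit 5) (nat_lit 6) (nat_lit 4) (nat_lit 4) (nat_lit 4) (nat_lit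 349) (nat_lit 245) (nat_lit 186))) (XT.nd (nat_lit 78) (nat_lit 0) (nat_lit 0) (XT.lf (nat_lit 0) (nat_lit 44261706688) (nat_lit 152) (nat_lit 25795306485) (nat_lit 0) (nat_lit 33171236429) (nat_lit 4) (nat_lit 5) (nat_lit 6) (nat_lit 4) (nat_lit 4) (nat_lit 4) (nat_lit 350) (nat_lit 245) (nat_lit 185)) (XT.nd (nat_lit 78) (nat_lit 0) (nat_lit 0) (XT.lf (nat_lit 0) (nat_lit 49396416208) (nat_lit 152) (nat_lit 20539663139) (nat_lit 0) (nat_lit 38276073668) (nat_lit 4) (nat_lit 5) (nat_lit 6) (nat_lit 4) (nat_lit 4) (nat_lit 4) (nat_lit 351) (nat_lit 245) (nat_lit 184)) (XT.lf (nat_lit 0) (nat_lit 54772055552) (nat_lit 152) (nat_lit 15050732722) (nat_lit 0) (nat_lit 43623263219) (nat_lit 4) (nat_lit 5) (nat_lit 6) (nat_lit 4) (nat_lit 4) (nat_lit 4) (nat_lit 352) (nat_lit 245) (nat_lit 183))))))) (XT.nd (nat_lit 780) (nat_lit 0) (nat_lit 0) (XT.nd (nat_lit 390) (nat_lit 0) (nat_lit 0)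 (XT.nd (nat_lit 156) (nat_lit 76) (nat_lit 0) (XT.nd (nat_lit 78) (nat_lit 0) (nat_lit 0) (XT.lf (nat_lit 0) (nat_lit 60401423862) (nat_lit 152) (nat_lit 9315446353) (nat_lit 0) (nat_lit 49225536488) (nat_lit 4) (nat_lit 5) (nat_lit 6) (nat_lit 4) (nat_lit 4) (nat_lit 4) (nat_lit 353) (nat_lit 245) (nat_lit 182)) (XT.lf (nat_lit 0) (nat_lit 66297924395) (nat_lit 152) (nat_lit 3320148587) (nat_lit 0) (nat_lit 55096232220) (nat_lit 4) (nat_lit 5) (nat_lit 6) (nat_lit 4) (nat_lit 4) (nat_lit 4) (nat_lit 354) (nat_lit 245) (nat_lit 181))) (XT.nd (nat_lit 78) (nat_lit 0) (nat_lit 0) (XT.lf (nat_lit 0) (nat_lit 3046956737) (nat_lit 76) (nat_lit 69476211234) (nat_lit 76) (nat_lit 58249943059) (nat_lit 3) (nat_lit 4) (nat_lit 4) (nat_lit 5) (nat_lit 4) (nat_lit 4) (nat_lit 355) (nat_lit 245) (nat_lit 180)) (XT.nd (nat_lit 78) (nat_lit 0) (nat_lit 0) (XT.lf (nat_lit 0) (nat_lit 9822617367) (nat_lit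 76) (nat_lit 69279889951) (nat_lit 76) (nat_lit 58030216061) (nat_lit 3) (nat_lit 4) (nat_lit 4) (nat_lit 5) (nat_lit 4) (nat_lit 4) (nat_lit 356) (nat_lit 245) (nat_lit 179)) (XT.lf (nat_lit 0) (nat_lit 16913186722) (nat_lit 76) (nat_lit 69084870023) (nat_lit 76) (nat_lit 57812904976) (nat_lit 3) (nat_lit 4) (nat_lit 4) (nat_lit 5) (nat_lit 4) (nat_lit 4) (nat_lit 357) (nat_lit 245) (nat_lit 178))))) (XT.nd (nat_lit 156) (nat_lit 0) (nat_lit 0) (XT.nd (nat_lit 78) (nat_lit 0) (nat_lit 0) (XT.lf (nat_lit 0) (nat_lit 24335547110) (nat_lit 76) (nat_lit 68890687118) (nat_lit 76) (nat_lit 57597492398) (nat_lit 3) (nat_lit 4) (nat_lit 4) (nat_lit 5) (nat_lit 4) (nat_lit 4) (nat_lit 358) (nat_lit 245) (nat_lit 177)) (XT.lf (nat_lit 0) (nat_lit 32107370817) (nat_lit 76) (nat_lit 68696878896) (nat_lit 76) (nat_lit 57383465439) (nat_lit 3) (nat_lit 4) (nat_lit 4) (nat_lit 5) (nat_lit 4) (nat_lit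 4) (nat_lit 359) (nat_lit 245) (nat_lit 176))) (XT.nd (nat_lit 78) (nat_lit 0) (nat_lit 0) (XT.lf (nat_lit 0) (nat_lit 40247162186) (nat_lit 76) (nat_lit 68502983907) (nat_lit 76) (nat_lit 57170314511) (nat_lit 3) (nat_lit 4) (nat_lit 4) (nat_lit 5) (nat_lit 4) (nat_lit 4) (nat_lit 360) (nat_lit 245) (nat_lit 175)) (XT.nd (nat_lit 78) (nat_lit 0) (nat_lit 0) (XT.lf (nat_lit 0) (nat_lit 48774301671) (nat_lit 76) (nat_lit 68308540499) (nat_lit 76) (nat_lit 56957532113) (nat_lit 3) (nat_lit 4) (nat_lit 4) (nat_lit 5) (nat_lit 4) (nat_lit 4) (nat_lit 361) (nat_lit 245) (nat_lit 174)) (XT.lf (nat_lit 0) (nat_lit 57709091987) (nat_lit 76) (nat_lit 68113085709) (nat_lit 76) (nat_lit 56744611619) (nat_lit 3) (nat_lit 4) (nat_lit 4) (nat_lit 5) (nat_lit 4) (nat_lit 4) (nat_lit 362) (nat_lit 245) (nat_lit 173)))))) (XT.nd (nat_lit 390) (nat_lit 0) (nat_lit 0) (XT.nd (nat_lit 156) (nat_lit 0)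 (nat_lit 0) (XT.nd (nat_lit 78) (nat_lit 0) (nat_lit 0) (XT.lf (nat_lit 0) (nat_lit 67072806442) (nat_lit 76) (nat_lit 67916154170) (nat_lit 76) (nat_lit 56531046075) (nat_lit 3) (nat_lit 4) (nat_lit 4) (nat_lit 5) (nat_lit 4) (nat_lit 4) (nat_lit 363) (nat_lit 245) (nat_lit 172)) (XT.lf (nat_lit 0) (nat_lit 76887739597) (nat_lit 76) (nat_lit 67717276997) (nat_lit 76) (nat_lit 56316326993) (nat_lit 3) (nat_lit 4) (nat_lit 4) (nat_lit 5) (nat_lit 4) (nat_lit 4) (nat_lit 364) (nat_lit 245) (nat_lit 171))) (XT.nd (nat_lit 78) (nat_lit 0) (nat_lit 0) (XT.lf (nat_lit 0) (nat_lit 87177260339) (nat_lit 76) (nat_lit 67515980673) (nat_lit 76) (nat_lit 56099943137) (nat_lit 3) (nat_lit 4) (nat_lit 4) (nat_lit 5) (nat_lit 4) (nat_lit 4) (nat_lit 365) (nat_lit 245) (nat_lit 170)) (XT.nd (nat_lit 78) (nat_lit 0) (nat_lit 0) (XT.lf (nat_lit 0) (nat_lit 97965867526) (nat_lit 76) (nat_lit 67311785921)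 (nat_lit 76) (nat_lit 55881379306) (nat_lit 3) (nat_lit 4) (nat_lit 4) (nat_lit 5) (nat_lit 4) (nat_lit 4) (nat_lit 366) (nat_lit 245) (nat_lit 169)) (XT.lf (nat_lit 0) (nat_lit 109279248320) (nat_lit 76) (nat_lit 67104206563) (nat_lit 76) (nat_lit 55660115111) (nat_lit 3) (nat_lit 4) (nat_lit 4) (nat_lit 5) (nat_lit 4) (nat_lit 4) (nat_lit 367) (nat_lit 245) (nat_lit 168))))) (XT.nd (nat_lit 156) (nat_lit 0) (nat_lit 0) (XT.nd (nat_lit 78) (nat_lit 0) (nat_lit 0) (XT.lf (nat_lit 0) (nat_lit 121144339340) (nat_lit 76) (nat_lit 66892748362) (nat_lit 76) (nat_lit 55435623732) (nat_lit 3) (nat_lit 4) (nat_lit 4) (nat_lit 5) (nat_lit 4) (nat_lit 4) (nat_lit 368) (nat_lit 245) (nat_lit 167)) (XT.lf (nat_lit 0) (nat_lit 133589390804) (nat_lit 76) (nat_lit 66676907846) (nat_lit 76) (nat_lit 55207370666) (nat_lit 3) (nat_lit 4) (nat_lit 4) (nat_lit 5) (nat_lit 4) (nat_lit 4) (nat_lit 369) (nat_lit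 245) (nat_lit 166))) (XT.nd (nat_lit 78) (nat_lit 0) (nat_lit 0) (XT.lf (nat_lit 0) (nat_lit 146644033787) (nat_lit 76) (nat_lit 66456171110) (nat_lit 76) (nat_lit 54974812454) (nat_lit 3) (nat_lit 4) (nat_lit 4) (nat_lit 5) (nat_lit 4) (nat_lit 4) (nat_lit 370) (nat_lit 245) (nat_lit 165)) (XT.nd (nat_lit 78) (nat_lit 0) (nat_lit 0) (XT.lf (nat_lit 0) (nat_lit 160339350771) (nat_lit 76) (nat_lit 66230012590) (nat_lit 76) (nat_lit 54737395384) (nat_lit 3) (nat_lit 4) (nat_lit 4) (nat_lit 5) (nat_lit 4) (nat_lit 4) (nat_lit 371) (nat_lit 245) (nat_lit 164)) (XT.lf (nat_lit 0) (nat_lit 174707949655) (nat_lit 76) (nat_lit 65997893813) (nat_lit 76) (nat_lit 54494554179) (nat_lit 3) (nat_lit 4) (nat_lit 4) (nat_lit 5) (nat_lit 4) (nat_lit 4) (nat_lit 372) (nat_lit 245) (nat_lit 163))))))))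
noncomputable def xc65 : XT := (XT.nd (nat_lit 34242) (nat_lit 0) (nat_lit 912) (XT.nd (nat_lit 702) (nat_lit 0) (nat_lit 0) (XT.nd (nat_lit 312) (nat_lit 0) (nat_lit 0) (XT.nd (nat_lit 156) (nat_lit 0) (nat_lit 0) (XT.nd (nat_lit 78) (nat_lit 0) (nat_lit 0) (XT.lf (nat_lit 0) (nat_lit 189784041387) (nat_lit 76) (nat_lit 65759262115) (nat_lit 76) (nat_lit 54245710646) (nat_lit 3) (nat_lit 4) (nat_lit 4) (nat_lit 5) (nat_lit 4) (nat_lit 4) (nat_lit 373) (nat_lit 245) (nat_lit 162)) (XT.lf (nat_lit 0) (nat_lit 205603521426) (nat_lit 76) (nat_lit 65513549325) (nat_lit 76) (nat_lit 53990272298) (nat_lit 3) (nat_lit 4) (nat_lit 4) (nat_lit 5) (nat_lit 4) (nat_lit 4) (nat_lit 374) (nat_lit 245) (nat_lit 161))) (XT.nd (nat_lit 78) (nat_lit 0) (nat_lit 0) (XT.lf (nat_lit 0) (nat_lit 222204055198) (nat_lit 76) (nat_lit 65260170415) (nat_lit 76) (nat_lit 53727630951) (nat_lit 3) (nat_lit 4) (nat_lit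 4) (nat_lit 5) (nat_lit 4) (nat_lit 4) (nat_lit 375) (nat_lit 245) (nat_lit 160)) (XT.lf (nat_lit 0) (nat_lit 239625167786) (nat_lit 76) (nat_lit 64998522099) (nat_lit 76) (nat_lit 53457161268) (nat_lit 3) (nat_lit 4) (nat_lit 4) (nat_lit 5) (nat_lit 4) (nat_lit 4) (nat_lit 376) (nat_lit 245) (nat_lit 159)))) (XT.nd (nat_lit 156) (nat_lit 0) (nat_lit 0) (XT.nd (nat_lit 78) (nat_lit 0) (nat_lit 0) (XT.lf (nat_lit 0) (nat_lit 257908338027) (nat_lit 76) (nat_lit 64727981406) (nat_lit 76) (nat_lit 53178219272) (nat_lit 3) (nat_lit 4) (nat_lit 4) (nat_lit 5) (nat_lit 4) (nat_lit 4) (nat_lit 377) (nat_lit 245) (nat_lit 158)) (XT.lf (nat_lit 0) (nat_lit 277097097281) (nat_lit 76) (nat_lit 64447904191) (nat_lit 76) (nat_lit 52890140817) (nat_lit 3) (nat_lit 4) (nat_lit 4) (nat_lit 5) (nat_lit 4) (nat_lit 4) (nat_lit 378) (nat_lit 245) (nat_lit 157))) (XT.nd (nat_lit 78) (nat_lit 0) (nat_lit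 0) (XT.lf (nat_lit 0) (nat_lit 297237133068) (nat_lit 76) (nat_lit 64157623604) (nat_lit 76) (nat_lit 52592240001) (nat_lit 3) (nat_lit 4) (nat_lit 4) (nat_lit 5) (nat_lit 4) (nat_lit 4) (nat_lit 379) (nat_lit 245) (nat_lit 156)) (XT.nd (nat_lit 78) (nat_lit 0) (nat_lit 0) (XT.lf (nat_lit 0) (nat_lit 318376397856) (nat_lit 76) (nat_lit 63856448501) (nat_lit 76) (nat_lit 52283807537) (nat_lit 3) (nat_lit 4) (nat_lit 4) (nat_lit 5) (nat_lit 4) (nat_lit 4) (nat_lit 380) (nat_lit 245) (nat_lit 155)) (XT.lf (nat_lit 0) (nat_lit 340565223226) (nat_lit 76) (nat_lit 63543661798) (nat_lit 76) (nat_lit 51964109061) (nat_lit 3) (nat_lit 4) (nat_lit 4) (nat_lit 5) (nat_lit 4) (nat_lit 4) (nat_lit 381) (nat_lit 245) (nat_lit 154)))))) (XT.nd (nat_lit 390) (nat_lit 0) (nat_lit 0) (XT.nd (nat_lit 156) (nat_lit 0) (nat_lit 0) (XT.nd (nat_lit 78) (nat_lit 0) (nat_lit 0) (XT.lf (nat_lit 0) (nat_lit 363856439716)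 (nat_lit 76) (nat_lit 63218518765) (nat_lit 76) (nat_lit 51632383388) (nat_lit 3) (nat_lit 4) (nat_lit 4) (nat_lit 5) (nat_lit 4) (nat_lit 4) (nat_lit 382) (nat_lit 245) (nat_lit 153)) (XT.lf (nat_lit 0) (nat_lit 388305502603) (nat_lit 76) (nat_lit 62880245251) (nat_lit 76) (nat_lit 51287840693) (nat_lit 3) (nat_lit 4) (nat_lit 4) (nat_lit 5) (nat_lit 4) (nat_lit 4) (nat_lit 383) (nat_lit 245) (nat_lit 152))) (XT.nd (nat_lit 78) (nat_lit 0) (nat_lit 0) (XT.lf (nat_lit 0) (nat_lit 413970623941) (nat_lit 76) (nat_lit 62528035844) (nat_lit 76) (nat_lit 50929660637) (nat_lit 3) (nat_lit 4) (nat_lit 4) (nat_lit 5) (nat_lit 4) (nat_lit 4) (nat_lit 384) (nat_lit 245) (nat_lit 151)) (XT.nd (nat_lit 78) (nat_lit 0) (nat_lit 0) (XT.lf (nat_lit 0) (nat_lit 440912911162) (nat_lit 76) (nat_lit 62161051950) (nat_lit 76) (nat_lit 50556990410) (nat_lit 3) (nat_lit 4) (nat_lit 4) (nat_lit 5) (nat_lit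 4) (nat_lit 4) (nat_lit 385) (nat_lit 245) (nat_lit 150)) (XT.lf (nat_lit 0) (nat_lit 469196512570) (nat_lit 76) (nat_lit 61778419798) (nat_lit 76) (nat_lit 50168942703) (nat_lit 3) (nat_lit 4) (nat_lit 4) (nat_lit 5) (nat_lit 4) (nat_lit 4) (nat_lit 386) (nat_lit 245) (nat_lit 149))))) (XT.nd (nat_lit 32916) (nat_lit 0) (nat_lit 2964) (XT.nd (nat_lit 78) (nat_lit 0) (nat_lit 0) (XT.lf (nat_lit 0) (nat_lit 498888770071) (nat_lit 76) (nat_lit 61379228358) (nat_lit 76) (nat_lit 49764593592) (nat_lit 3) (nat_lit 4) (nat_lit 4) (nat_lit 5) (nat_lit 4) (nat_lit 4) (nat_lit 387) (nat_lit 245) (nat_lit 148)) (XT.lf (nat_lit 0) (nat_lit 530060379518) (nat_lit 76) (nat_lit 60962527175) (nat_lit 76) (nat_lit 49342980342) (nat_lit 3) (nat_lit 4) (nat_lit 4) (nat_lit 5) (nat_lit 4) (nat_lit 4) (nat_lit 388) (nat_lit 245) (nat_lit 147))) (XT.nd (nat_lit 78) (nat_lit 228) (nat_lit 0) (XT.lf (nat_lit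 0) (nat_lit 1555608583) (nat_lit 228) (nat_lit 1501926048) (nat_lit 228) (nat_lit 1501926048) (nat_lit 45) (nat_lit 4) (nat_lit 48) (nat_lit 5) (nat_lit 48) (nat_lit 4) (nat_lit 288) (nat_lit 246) (nat_lit 246)) (XT.nd (nat_lit 78) (nat_lit 0) (nat_lit 0) (XT.lf (nat_lit 0) (nat_lit 205118274) (nat_lit 152) (nat_lit 360477035) (nat_lit 228) (nat_lit 8773793317) (nat_lit 42) (nat_lit 5) (nat_lit 44) (nat_lit 5) (nat_lit 45) (nat_lit 4) (nat_lit 289) (nat_lit 246) (nat_lit 245)) (XT.lf (nat_lit 0) (nat_lit 4205048153) (nat_lit 228) (nat_lit 2933521438) (nat_lit 0) (nat_lit 2430515884) (nat_lit 42) (nat_lit 5) (nat_lit 45) (nat_lit 4) (nat_lit 42) (nat_lit 4) (nat_lit 290) (nat_lit 246) (nat_lit 244))))))) (XT.nd (nat_lit 780) (nat_lit 760) (nat_lit 0) (XT.nd (nat_lit 390) (nat_lit 532) (nat_lit 0) (XT.nd (nat_lit 156) (nat_lit 304) (nat_lit 0) (XT.nd (nat_lit 78) (nat_lit 228) (nat_lit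 0) (XT.lf (nat_lit 0) (nat_lit 3476661011) (nat_lit 228) (nat_lit 4468445302) (nat_lit 228) (nat_lit 1869507798) (nat_lit 39) (nat_lit 4) (nat_lit 42) (nat_lit 5) (nat_lit 42) (nat_lit 4) (nat_lit 291) (nat_lit 246) (nat_lit 243)) (XT.lf (nat_lit 0) (nat_lit 2896387) (nat_lit 152) (nat_lit 1649289824) (nat_lit 228) (nat_lit 8423578628) (nat_lit 36) (nat_lit 5) (nat_lit 38) (nat_lit 5) (nat_lit 39) (nat_lit 4) (nat_lit 292) (nat_lit 246) (nat_lit 242))) (XT.nd (nat_lit 78) (nat_lit 304) (nat_lit 0) (XT.lf (nat_lit 0) (nat_lit 5278652804) (nat_lit 228) (nat_lit 3726890643) (nat_lit 0) (nat_lit 1343562139) (nat_lit 36) (nat_lit 5) (nat_lit 39) (nat_lit 4) (nat_lit 36) (nat_lit 4) (nat_lit 293) (nat_lit 246) (nat_lit 241)) (XT.nd (nat_lit 78) (nat_lit 76) (nat_lit 0) (XT.lf (nat_lit 0) (nat_lit 2798696458) (nat_lit 228) (nat_lit 6227006977) (nat_lit 228) (nat_lit 1613676084) (nat_lit 33)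 (nat_lit 4) (nat_lit 36) (nat_lit 5) (nat_lit 36) (nat_lit 4) (nat_lit 294) (nat_lit 246) (nat_lit 240)) (XT.lf (nat_lit 0) (nat_lit 1884966400) (nat_lit 304) (nat_lit 1395092845) (nat_lit 76) (nat_lit 7666064580) (nat_lit 32) (nat_lit 5) (nat_lit 36) (nat_lit 5) (nat_lit 33) (nat_lit 4) (nat_lit 295) (nat_lit 246) (nat_lit 239))))) (XT.nd (nat_lit 156) (nat_lit 228) (nat_lit 0) (XT.nd (nat_lit 78) (nat_lit 152) (nat_lit 0) (XT.lf (nat_lit 0) (nat_lit 5324822653) (nat_lit 152) (nat_lit 138241004) (nat_lit 228) (nat_lit 5806079344) (nat_lit 30) (nat_lit 5) (nat_lit 32) (nat_lit 5) (nat_lit 33) (nat_lit 4) (nat_lit 296) (nat_lit 246) (nat_lit 238)) (XT.lf (nat_lit 0) (nat_lit 597383644) (nat_lit 152) (nat_lit 8582909182) (nat_lit 152) (nat_lit 2430197510) (nat_lit 28) (nat_lit 4) (nat_lit 30) (nat_lit 5) (nat_lit 30) (nat_lit 4) (nat_lit 297) (nat_lit 246) (nat_lit 237))) (XT.nd (nat_lit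 78) (nat_lit 152) (nat_lit 0) (XT.lf (nat_lit 0) (nat_lit 1061650282) (nat_lit 228) (nat_lit 4507747558) (nat_lit 76) (nat_lit 6399666106) (nat_lit 27) (nat_lit 5) (nat_lit 30) (nat_lit 5) (nat_lit 28) (nat_lit 4) (nat_lit 298) (nat_lit 246) (nat_lit 236)) (XT.nd (nat_lit 78) (nat_lit 0) (nat_lit 0) (XT.lf (nat_lit 0) (nat_lit 2166569184) (nat_lit 152) (nat_lit 2397729899) (nat_lit 228) (nat_lit 7783544107) (nat_lit 25) (nat_lit 5) (nat_lit 27) (nat_lit 5) (nat_lit 28) (nat_lit 4) (nat_lit 299) (nat_lit 246) (nat_lit 235)) (XT.lf (nat_lit 0) (nat_lit 8219866258) (nat_lit 228) (nat_lit 3614005756) (nat_lit 0) (nat_lit 912955206) (nat_lit 25) (nat_lit 5) (nat_lit 28) (nat_lit 4) (nat_lit 25) (nat_lit 4) (nat_lit 300) (nat_lit 246) (nat_lit 234)))))) (XT.nd (nat_lit 390) (nat_lit 304) (nat_lit 0) (XT.nd (nat_lit 156) (nat_lit 228) (nat_lit 0) (XT.nd (nat_lit 78) (nat_lit 76) (nat_lit 0)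 (XT.lf (nat_lit 0) (nat_lit 3164998360) (nat_lit 152) (nat_lit 8873015244) (nat_lit 152) (nat_lit 1128904494) (nat_lit 23) (nat_lit 4) (nat_lit 25) (nat_lit 5) (nat_lit 25) (nat_lit 4) (nat_lit 301) (nat_lit 246) (nat_lit 233)) (XT.lf (nat_lit 0) (nat_lit 2314839531) (nat_lit 228) (nat_lit 3415070374) (nat_lit 76) (nat_lit 7878641103) (nat_lit 22) (nat_lit 5) (nat_lit 25) (nat_lit 5) (nat_lit 23) (nat_lit 4) (nat_lit 302) (nat_lit 246) (nat_lit 232))) (XT.nd (nat_lit 78) (nat_lit 152) (nat_lit 0) (XT.lf (nat_lit 0) (nat_lit 3421204189) (nat_lit 76) (nat_lit 2421843917) (nat_lit 152) (nat_lit 8230908950) (nat_lit 21) (nat_lit 5) (nat_lit 22) (nat_lit 5) (nat_lit 23) (nat_lit 4) (nat_lit 303) (nat_lit 246) (nat_lit 231)) (XT.nd (nat_lit 78) (nat_lit 152) (nat_lit 0) (XT.lf (nat_lit 0) (nat_lit 9520910280) (nat_lit 152) (nat_lit 4031523624) (nat_lit 0) (nat_lit 1011658884) (nat_lit 21)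 (nat_lit 5) (nat_lit 23) (nat_lit 4) (nat_lit 21) (nat_lit 4) (nat_lit 304) (nat_lit 246) (nat_lit 230)) (XT.lf (nat_lit 0) (nat_lit 2806833220) (nat_lit 152) (nat_lit 10562252809) (nat_lit 152) (nat_lit 1710444009) (nat_lit 19) (nat_lit 4) (nat_lit 21) (nat_lit 5) (nat_lit 21) (nat_lit 4) (nat_lit 305) (nat_lit 246) (nat_lit 229))))) (XT.nd (nat_lit 156) (nat_lit 152) (nat_lit 0) (XT.nd (nat_lit 78) (nat_lit 76) (nat_lit 0) (XT.lf (nat_lit 0) (nat_lit 1704404768) (nat_lit 228) (nat_lit 5684024170) (nat_lit 76) (nat_lit 8232382178) (nat_lit 18) (nat_lit 5) (nat_lit 21) (nat_lit 5) (nat_lit 19) (nat_lit 4) (nat_lit 306) (nat_lit 246) (nat_lit 228)) (XT.lf (nat_lit 0) (nat_lit 1083853452) (nat_lit 76) (nat_lit 4073520723) (nat_lit 152) (nat_lit 11034237045) (nat_lit 17) (nat_lit 5) (nat_lit 18) (nat_lit 5) (nat_lit 19) (nat_lit 4) (nat_lit 307) (nat_lit 246) (nat_lit 227))) (XT.nd (nat_lit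 78) (nat_lit 152) (nat_lit 0) (XT.lf (nat_lit 0) (nat_lit 8233113071) (nat_lit 76) (nat_lit 556053096) (nat_lit 152) (nat_lit 8001571688) (nat_lit 17) (nat_lit 5) (nat_lit 18) (nat_lit 5) (nat_lit 19) (nat_lit 4) (nat_lit 308) (nat_lit 246) (nat_lit 226)) (XT.nd (nat_lit 78) (nat_lit 152) (nat_lit 0) (XT.lf (nat_lit 0) (nat_lit 12564776399) (nat_lit 152) (nat_lit 1879390523) (nat_lit 0) (nat_lit 2977633164) (nat_lit 17) (nat_lit 5) (nat_lit 19) (nat_lit 4) (nat_lit 17) (nat_lit 4) (nat_lit 309) (nat_lit 246) (nat_lit 225)) (XT.lf (nat_lit 0) (nat_lit 5145053169) (nat_lit 152) (nat_lit 11390936186) (nat_lit 152) (nat_lit 1548171342) (nat_lit 15) (nat_lit 4) (nat_lit 17) (nat_lit 5) (nat_lit 17) (nat_lit 4) (nat_lit 310) (nat_lit 246) (nat_lit 224))))))))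
noncomputable def xc66 : XT := (XT.nd (nat_lit 1482) (nat_lit 228) (nat_lit 0) (XT.nd (nat_lit 702) (nat_lit 228) (nat_lit 0) (XT.nd (nat_lit 312) (nat_lit 228) (nat_lit 0) (XT.nd (nat_lit 156) (nat_lit 0) (nat_lit 0) (XT.nd (nat_lit 78) (nat_lit 76) (nat_lit 0) (XT.lf (nat_lit 0) (nat_lit 1814531784) (nat_lit 228) (nat_lit 6366423836) (nat_lit 76) (nat_lit 10599755648) (nat_lit 14) (nat_lit 5) (nat_lit 17) (nat_lit 5) (nat_lit 15) (nat_lit 4) (nat_lit 311) (nat_lit 246) (nat_lit 223)) (XT.lf (nat_lit 0) (nat_lit 384930361) (nat_lit 76) (nat_lit 4836045584) (nat_lit 152) (nat_lit 14293537315) (nat_lit 13) (nat_lit 5) (nat_lit 14) (nat_lit 5) (nat_lit 15) (nat_lit 4) (nat_lit 312) (nat_lit 246) (nat_lit 222))) (XT.nd (nat_lit 78) (nat_lit 0) (nat_lit 0) (XT.lf (nat_lit 0) (nat_lit 7560184263) (nat_lit 76) (nat_lit 1268630443) (nat_lit 152) (nat_lit 11454708092) (nat_lit 13) (nat_lit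 5) (nat_lit 14) (nat_lit 5) (nat_lit 15) (nat_lit 4) (nat_lit 313) (nat_lit 246) (nat_lit 221)) (XT.lf (nat_lit 0) (nat_lit 12581767565) (nat_lit 152) (nat_lit 6166599648) (nat_lit 0) (nat_lit 2344447169) (nat_lit 13) (nat_lit 5) (nat_lit 15) (nat_lit 4) (nat_lit 13) (nat_lit 4) (nat_lit 314) (nat_lit 246) (nat_lit 220)))) (XT.nd (nat_lit 156) (nat_lit 152) (nat_lit 0) (XT.nd (nat_lit 78) (nat_lit 0) (nat_lit 0) (XT.lf (nat_lit 0) (nat_lit 591203688) (nat_lit 76) (nat_lit 15890760345) (nat_lit 76) (nat_lit 5462691170) (nat_lit 12) (nat_lit 4) (nat_lit 13) (nat_lit 5) (nat_lit 13) (nat_lit 4) (nat_lit 315) (nat_lit 246) (nat_lit 219)) (XT.lf (nat_lit 0) (nat_lit 7778104601) (nat_lit 76) (nat_lit 12834503814) (nat_lit 76) (nat_lit 2224769134) (nat_lit 12) (nat_lit 4) (nat_lit 13) (nat_lit 5) (nat_lit 13) (nat_lit 4) (nat_lit 316) (nat_lit 246) (nat_lit 218))) (XT.nd (nat_lit 78) (nat_lit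 76) (nat_lit 0) (XT.lf (nat_lit 0) (nat_lit 1070595554) (nat_lit 152) (nat_lit 8588028560) (nat_lit 76) (nat_lit 14118592515) (nat_lit 11) (nat_lit 5) (nat_lit 13) (nat_lit 5) (nat_lit 12) (nat_lit 4) (nat_lit 317) (nat_lit 246) (nat_lit 217)) (XT.nd (nat_lit 78) (nat_lit 76) (nat_lit 0) (XT.lf (nat_lit 0) (nat_lit 4392300177) (nat_lit 152) (nat_lit 1943310051) (nat_lit 76) (nat_lit 18429849954) (nat_lit 11) (nat_lit 5) (nat_lit 13) (nat_lit 5) (nat_lit 12) (nat_lit 4) (nat_lit 318) (nat_lit 246) (nat_lit 216)) (XT.lf (nat_lit 0) (nat_lit 5088295448) (nat_lit 76) (nat_lit 2810607164) (nat_lit 152) (nat_lit 17903323175) (nat_lit 10) (nat_lit 5) (nat_lit 11) (nat_lit 5) (nat_lit 12) (nat_lit 4) (nat_lit 319) (nat_lit 246) (nat_lit 215)))))) (XT.nd (nat_lit 390) (nat_lit 152) (nat_lit 0) (XT.nd (nat_lit 156) (nat_lit 76) (nat_lit 0) (XT.nd (nat_lit 78) (nat_lit 0) (nat_lit 0) (XT.lf (nat_lit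 0) (nat_lit 11568051413) (nat_lit 152) (nat_lit 14473425150) (nat_lit 0) (nat_lit 850040395) (nat_lit 10) (nat_lit 5) (nat_lit 12) (nat_lit 4) (nat_lit 10) (nat_lit 4) (nat_lit 320) (nat_lit 246) (nat_lit 214)) (XT.lf (nat_lit 0) (nat_lit 15409457317) (nat_lit 152) (nat_lit 8070536494) (nat_lit 0) (nat_lit 4555884703) (nat_lit 10) (nat_lit 5) (nat_lit 12) (nat_lit 4) (nat_lit 10) (nat_lit 4) (nat_lit 321) (nat_lit 246) (nat_lit 213))) (XT.nd (nat_lit 78) (nat_lit 76) (nat_lit 0) (XT.lf (nat_lit 0) (nat_lit 19388385075) (nat_lit 152) (nat_lit 1446137942) (nat_lit 0) (nat_lit 8405706178) (nat_lit 10) (nat_lit 5) (nat_lit 12) (nat_lit 4) (nat_lit 10) (nat_lit 4) (nat_lit 322) (nat_lit 246) (nat_lit 212)) (XT.nd (nat_lit 78) (nat_lit 0) (nat_lit 0) (XT.lf (nat_lit 0) (nat_lit 5594605186) (nat_lit 76) (nat_lit 18007050604) (nat_lit 76) (nat_lit 6901413342) (nat_lit 9) (nat_lit 4) (nat_lit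 10) (nat_lit 5) (nat_lit 10) (nat_lit 4) (nat_lit 323) (nat_lit 246) (nat_lit 211)) (XT.lf (nat_lit 0) (nat_lit 12945169584) (nat_lit 76) (nat_lit 15053991483) (nat_lit 76) (nat_lit 3831251017) (nat_lit 9) (nat_lit 4) (nat_lit 10) (nat_lit 5) (nat_lit 10) (nat_lit 4) (nat_lit 324) (nat_lit 246) (nat_lit 210))))) (XT.nd (nat_lit 156) (nat_lit 76) (nat_lit 0) (XT.nd (nat_lit 78) (nat_lit 76) (nat_lit 0) (XT.lf (nat_lit 0) (nat_lit 20575240744) (nat_lit 76) (nat_lit 11992805608) (nat_lit 76) (nat_lit 658538282) (nat_lit 9) (nat_lit 4) (nat_lit 10) (nat_lit 5) (nat_lit 10) (nat_lit 4) (nat_lit 325) (nat_lit 246) (nat_lit 209)) (XT.lf (nat_lit 0) (nat_lit 2540285627) (nat_lit 152) (nat_lit 6232897849) (nat_lit 76) (nat_lit 25919678907) (nat_lit 8) (nat_lit 5) (nat_lit 10) (nat_lit 5) (nat_lit 9) (nat_lit 4) (nat_lit 326) (nat_lit 246) (nat_lit 208))) (XT.nd (nat_lit 78) (nat_lit 0) (nat_lit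 0) (XT.lf (nat_lit 0) (nat_lit 428024289) (nat_lit 76) (nat_lit 5410837088) (nat_lit 152) (nat_lit 30394988318) (nat_lit 7) (nat_lit 5) (nat_lit 8) (nat_lit 5) (nat_lit 9) (nat_lit 4) (nat_lit 327) (nat_lit 246) (nat_lit 207)) (XT.nd (nat_lit 78) (nat_lit 0) (nat_lit 0) (XT.lf (nat_lit 0) (nat_lit 7558346825) (nat_lit 76) (nat_lit 1805716324) (nat_lit 152) (nat_lit 28484769368) (nat_lit 7) (nat_lit 5) (nat_lit 8) (nat_lit 5) (nat_lit 9) (nat_lit 4) (nat_lit 328) (nat_lit 246) (nat_lit 206)) (XT.lf (nat_lit 0) (nat_lit 13054123774) (nat_lit 152) (nat_lit 24608093718) (nat_lit 0) (nat_lit 1882946577) (nat_lit 7) (nat_lit 5) (nat_lit 9) (nat_lit 4) (nat_lit 7) (nat_lit 4) (nat_lit 329) (nat_lit 246) (nat_lit 205))))))) (XT.nd (nat_lit 780) (nat_lit 152) (nat_lit 0) (XT.nd (nat_lit 390) (nat_lit 0) (nat_lit 0) (XT.nd (nat_lit 156) (nat_lit 76) (nat_lit 0) (XT.nd (nat_lit 78) (nat_lit 0)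 (nat_lit 0) (XT.lf (nat_lit 0) (nat_lit 16917994781) (nat_lit 152) (nat_lit 18745285649) (nat_lit 0) (nat_lit 5663594524) (nat_lit 7) (nat_lit 5) (nat_lit 9) (nat_lit 4) (nat_lit 7) (nat_lit 4) (nat_lit 330) (nat_lit 246) (nat_lit 204)) (XT.lf (nat_lit 0) (nat_lit 20936683572) (nat_lit 152) (nat_lit 12659910126) (nat_lit 0) (nat_lit 9603023256) (nat_lit 7) (nat_lit 5) (nat_lit 9) (nat_lit 4) (nat_lit 7) (nat_lit 4) (nat_lit 331) (nat_lit 246) (nat_lit 203))) (XT.nd (nat_lit 78) (nat_lit 76) (nat_lit 0) (XT.lf (nat_lit 0) (nat_lit 25119758452) (nat_lit 152) (nat_lit 6337478160) (nat_lit 0) (nat_lit 13710612367) (nat_lit 7) (nat_lit 5) (nat_lit 9) (nat_lit 4) (nat_lit 7) (nat_lit 4) (nat_lit 332) (nat_lit 246) (nat_lit 202)) (XT.nd (nat_lit 78) (nat_lit 0) (nat_lit 0) (XT.lf (nat_lit 0) (nat_lit 244902053) (nat_lit 76) (nat_lit 29236100678) (nat_lit 76) (nat_lit 17755063385) (nat_lit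 6) (nat_lit 4) (nat_lit 7) (nat_lit 5) (nat_lit 7) (nat_lit 4) (nat_lit 333) (nat_lit 246) (nat_lit 201)) (XT.lf (nat_lit 0) (nat_lit 7313444911) (nat_lit 76) (nat_lit 26820058860) (nat_lit 76) (nat_lit 15270553748) (nat_lit 6) (nat_lit 4) (nat_lit 7) (nat_lit 5) (nat_lit 7) (nat_lit 4) (nat_lit 334) (nat_lit 246) (nat_lit 200))))) (XT.nd (nat_lit 156) (nat_lit 0) (nat_lit 0) (XT.nd (nat_lit 78) (nat_lit 0) (nat_lit 0) (XT.lf (nat_lit 0) (nat_lit 14675434628) (nat_lit 76) (nat_lit 24310686935) (nat_lit 76) (nat_lit 12695974377) (nat_lit 6) (nat_lit 4) (nat_lit 7) (nat_lit 5) (nat_lit 7) (nat_lit 4) (nat_lit 335) (nat_lit 246) (nat_lit 199)) (XT.lf (nat_lit 0) (nat_lit 22348399751) (nat_lit 76) (nat_lit 21702010210) (nat_lit 76) (nat_lit 10025195322) (nat_lit 6) (nat_lit 4) (nat_lit 7) (nat_lit 5) (nat_lit 7) (nat_lit 4) (nat_lit 336) (nat_lit 246) (nat_lit 198))) (XT.nd (nat_lit 78)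 (nat_lit 0) (nat_lit 0) (XT.lf (nat_lit 0) (nat_lit 30350609244) (nat_lit 76) (nat_lit 18987817548) (nat_lit 76) (nat_lit 7251857585) (nat_lit 6) (nat_lit 4) (nat_lit 7) (nat_lit 5) (nat_lit 7) (nat_lit 4) (nat_lit 337) (nat_lit 246) (nat_lit 197)) (XT.nd (nat_lit 78) (nat_lit 0) (nat_lit 0) (XT.lf (nat_lit 0) (nat_lit 38701115987) (nat_lit 76) (nat_lit 16161646587) (nat_lit 76) (nat_lit 4369357981) (nat_lit 6) (nat_lit 4) (nat_lit 7) (nat_lit 5) (nat_lit 7) (nat_lit 4) (nat_lit 338) (nat_lit 246) (nat_lit 196)) (XT.lf (nat_lit 0) (nat_lit 47419802140) (nat_lit 76) (nat_lit 13216768348) (nat_lit 76) (nat_lit 1370833415) (nat_lit 6) (nat_lit 4) (nat_lit 7) (nat_lit 5) (nat_lit 7) (nat_lit 4) (nat_lit 339) (nat_lit 246) (nat_lit 195)))))) (XT.nd (nat_lit 390) (nat_lit 0) (nat_lit 0) (XT.nd (nat_lit 156) (nat_lit 76) (nat_lit 0) (XT.nd (nat_lit 78) (nat_lit 0) (nat_lit 0) (XT.lf (nat_lit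 0) (nat_lit 1694817148) (nat_lit 152) (nat_lit 8422651519) (nat_lit 76) (nat_lit 54803906782) (nat_lit 5) (nat_lit 5) (nat_lit 7) (nat_lit 5) (nat_lit 6) (nat_lit 4) (nat_lit 340) (nat_lit 246) (nat_lit 194)) (XT.lf (nat_lit 0) (nat_lit 4843009462) (nat_lit 152) (nat_lit 2017516074) (nat_lit 76) (nat_lit 61120645651) (nat_lit 5) (nat_lit 5) (nat_lit 7) (nat_lit 5) (nat_lit 6) (nat_lit 4) (nat_lit 341) (nat_lit 246) (nat_lit 193))) (XT.nd (nat_lit 78) (nat_lit 0) (nat_lit 0) (XT.lf (nat_lit 0) (nat_lit 4818685474) (nat_lit 76) (nat_lit 3381662165) (nat_lit 152) (nat_lit 62991037174) (nat_lit 4) (nat_lit 5) (nat_lit 5) (nat_lit 5) (nat_lit 6) (nat_lit 4) (nat_lit 342) (nat_lit 246) (nat_lit 192)) (XT.nd (nat_lit 78) (nat_lit 0) (nat_lit 0) (XT.lf (nat_lit 0) (nat_lit 11741161639) (nat_lit 152) (nat_lit 62542031177) (nat_lit 0) (nat_lit 278150064) (nat_lit 4) (nat_lit 5) (nat_lit 6) (nat_lit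 4) (nat_lit 4) (nat_lit 4) (nat_lit 343) (nat_lit 246) (nat_lit 191)) (XT.lf (nat_lit 0) (nat_lit 15492213282) (nat_lit 152) (nat_lit 58616769254) (nat_lit 0) (nat_lit 3989169992) (nat_lit 4) (nat_lit 5) (nat_lit 6) (nat_lit 4) (nat_lit 4) (nat_lit 4) (nat_lit 344) (nat_lit 246) (nat_lit 190))))) (XT.nd (nat_lit 156) (nat_lit 0) (nat_lit 0) (XT.nd (nat_lit 78) (nat_lit 0) (nat_lit 0) (XT.lf (nat_lit 0) (nat_lit 19409636423) (nat_lit 152) (nat_lit 54534770486) (nat_lit 0) (nat_lit 7868467689) (nat_lit 4) (nat_lit 5) (nat_lit 6) (nat_lit 4) (nat_lit 4) (nat_lit 4) (nat_lit 345) (nat_lit 246) (nat_lit 189)) (XT.lf (nat_lit 0) (nat_lit 23502758258) (nat_lit 152) (nat_lit 50286315827) (nat_lit 0) (nat_lit 11925279579) (nat_lit 4) (nat_lit 5) (nat_lit 6) (nat_lit 4) (nat_lit 4) (nat_lit 4) (nat_lit 346) (nat_lit 246) (nat_lit 188))) (XT.nd (nat_lit 78) (nat_lit 0) (nat_lit 0) (XT.lf (nat_lit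 0) (nat_lit 27781324316) (nat_lit 152) (nat_lit 45861289909) (nat_lit 0) (nat_lit 16169264736) (nat_lit 4) (nat_lit 5) (nat_lit 6) (nat_lit 4) (nat_lit 4) (nat_lit 4) (nat_lit 347) (nat_lit 246) (nat_lit 187)) (XT.nd (nat_lit 78) (nat_lit 0) (nat_lit 0) (XT.lf (nat_lit 0) (nat_lit 32255521658) (nat_lit 152) (nat_lit 41249156957) (nat_lit 0) (nat_lit 20610527887) (nat_lit 4) (nat_lit 5) (nat_lit 6) (nat_lit 4) (nat_lit 4) (nat_lit 4) (nat_lit 348) (nat_lit 246) (nat_lit 186)) (XT.lf (nat_lit 0) (nat_lit 36936003137) (nat_lit 152) (nat_lit 36438935701) (nat_lit 0) (nat_lit 25259643469) (nat_lit 4) (nat_lit 5) (nat_lit 6) (nat_lit 4) (nat_lit 4) (nat_lit 4) (nat_lit 349) (nat_lit 246) (nat_lit 185))))))))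
noncomputable def xc67 : XT := (XT.nd (nat_lit 1482) (nat_lit 0) (nat_lit 0) (XT.nd (nat_lit 702) (nat_lit 0) (nat_lit 0) (XT.nd (nat_lit 312) (nat_lit 76) (nat_lit 0) (XT.nd (nat_lit 156) (nat_lit 0) (nat_lit 0) (XT.nd (nat_lit 78) (nat_lit 0) (nat_lit 0) (XT.lf (nat_lit 0) (nat_lit 41833912754) (nat_lit 152) (nat_lit 31419173233) (nat_lit 0) (nat_lit 30127680804) (nat_lit 4) (nat_lit 5) (nat_lit 6) (nat_lit 4) (nat_lit 4) (nat_lit 4) (nat_lit 350) (nat_lit 246) (nat_lit 184)) (XT.lf (nat_lit 0) (nat_lit 46960912201) (nat_lit 152) (nat_lit 26177917739) (nat_lit 0) (nat_lit 35226230458) (nat_lit 4) (nat_lit 5) (nat_lit 6) (nat_lit 4) (nat_lit 4) (nat_lit 4) (nat_lit 351) (nat_lit 246) (nat_lit 183))) (XT.nd (nat_lit 78) (nat_lit 0) (nat_lit 0) (XT.lf (nat_lit 0) (nat_lit 52329208617) (nat_lit 152) (nat_lit 20702690039) (nat_lit 0) (nat_lit 40567431834) (nat_lit 4) (nat_lit 5) (nat_lit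 6) (nat_lit 4) (nat_lit 4) (nat_lit 4) (nat_lit 352) (nat_lit 246) (nat_lit 182)) (XT.lf (nat_lit 0) (nat_lit 57951583662) (nat_lit 152) (nat_lit 14980453876) (nat_lit 0) (nat_lit 46164002079) (nat_lit 4) (nat_lit 5) (nat_lit 6) (nat_lit 4) (nat_lit 4) (nat_lit 4) (nat_lit 353) (nat_lit 246) (nat_lit 181)))) (XT.nd (nat_lit 156) (nat_lit 76) (nat_lit 0) (XT.nd (nat_lit 78) (nat_lit 0) (nat_lit 0) (XT.lf (nat_lit 0) (nat_lit 63841423943) (nat_lit 152) (nat_lit 8997584877) (nat_lit 0) (nat_lit 52029266359) (nat_lit 4) (nat_lit 5) (nat_lit 6) (nat_lit 4) (nat_lit 4) (nat_lit 4) (nat_lit 354) (nat_lit 246) (nat_lit 180)) (XT.lf (nat_lit 0) (nat_lit 70012752889) (nat_lit 152) (nat_lit 2739838118) (nat_lit 0) (nat_lit 58177189590) (nat_lit 4) (nat_lit 5) (nat_lit 6) (nat_lit 4) (nat_lit 4) (nat_lit 4) (nat_lit 355) (nat_lit 246) (nat_lit 179))) (XT.nd (nat_lit 78) (nat_lit 0) (nat_lit 0)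 (XT.lf (nat_lit 0) (nat_lit 3933585086) (nat_lit 76) (nat_lit 72608093340) (nat_lit 76) (nat_lit 60750238884) (nat_lit 3) (nat_lit 4) (nat_lit 4) (nat_lit 5) (nat_lit 4) (nat_lit 4) (nat_lit 356) (nat_lit 246) (nat_lit 178)) (XT.nd (nat_lit 78) (nat_lit 0) (nat_lit 0) (XT.lf (nat_lit 0) (nat_lit 11013063010) (nat_lit 76) (nat_lit 72418238300) (nat_lit 76) (nat_lit 60539154170) (nat_lit 3) (nat_lit 4) (nat_lit 4) (nat_lit 5) (nat_lit 4) (nat_lit 4) (nat_lit 357) (nat_lit 246) (nat_lit 177)) (XT.lf (nat_lit 0) (nat_lit 18424860129) (nat_lit 76) (nat_lit 72228974335) (nat_lit 76) (nat_lit 60329671469) (nat_lit 3) (nat_lit 4) (nat_lit 4) (nat_lit 5) (nat_lit 4) (nat_lit 4) (nat_lit 358) (nat_lit 246) (nat_lit 176)))))) (XT.nd (nat_lit 390) (nat_lit 0) (nat_lit 0) (XT.nd (nat_lit 156) (nat_lit 0) (nat_lit 0) (XT.nd (nat_lit 78) (nat_lit 0) (nat_lit 0) (XT.lf (nat_lit 0) (nat_lit 26186623580)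 (nat_lit 76) (nat_lit 72039850818) (nat_lit 76) (nat_lit 60121292012) (nat_lit 3) (nat_lit 4) (nat_lit 4) (nat_lit 5) (nat_lit 4) (nat_lit 4) (nat_lit 359) (nat_lit 246) (nat_lit 175)) (XT.lf (nat_lit 0) (nat_lit 34316833753) (nat_lit 76) (nat_lit 71850417453) (nat_lit 76) (nat_lit 59913519658) (nat_lit 3) (nat_lit 4) (nat_lit 4) (nat_lit 5) (nat_lit 4) (nat_lit 4) (nat_lit 360) (nat_lit 246) (nat_lit 174))) (XT.nd (nat_lit 78) (nat_lit 0) (nat_lit 0) (XT.lf (nat_lit 0) (nat_lit 42834848290) (nat_lit 76) (nat_lit 71660223210) (nat_lit 76) (nat_lit 59705859710) (nat_lit 3) (nat_lit 4) (nat_lit 4) (nat_lit 5) (nat_lit 4) (nat_lit 4) (nat_lit 361) (nat_lit 246) (nat_lit 173)) (XT.nd (nat_lit 78) (nat_lit 0) (nat_lit 0) (XT.lf (nat_lit 0) (nat_lit 51760948179) (nat_lit 76) (nat_lit 71468815245) (nat_lit 76) (nat_lit 59497817741) (nat_lit 3) (nat_lit 4) (nat_lit 4) (nat_lit 5) (nat_lit 4)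 (nat_lit 4) (nat_lit 362) (nat_lit 246) (nat_lit 172)) (XT.lf (nat_lit 0) (nat_lit 61116386037) (nat_lit 76) (nat_lit 71275737825) (nat_lit 76) (nat_lit 59288898411) (nat_lit 3) (nat_lit 4) (nat_lit 4) (nat_lit 5) (nat_lit 4) (nat_lit 4) (nat_lit 363) (nat_lit 246) (nat_lit 171))))) (XT.nd (nat_lit 156) (nat_lit 0) (nat_lit 0) (XT.nd (nat_lit 78) (nat_lit 0) (nat_lit 0) (XT.lf (nat_lit 0) (nat_lit 70923436718) (nat_lit 76) (nat_lit 71080531241) (nat_lit 76) (nat_lit 59078604295) (nat_lit 3) (nat_lit 4) (nat_lit 4) (nat_lit 5) (nat_lit 4) (nat_lit 4) (nat_lit 364) (nat_lit 246) (nat_lit 170)) (XT.lf (nat_lit 0) (nat_lit 81205450342) (nat_lit 76) (nat_lit 70882730716) (nat_lit 76) (nat_lit 58866434691) (nat_lit 3) (nat_lit 4) (nat_lit 4) (nat_lit 5) (nat_lit 4) (nat_lit 4) (nat_lit 365) (nat_lit 246) (nat_lit 169))) (XT.nd (nat_lit 78) (nat_lit 0) (nat_lit 0) (XT.lf (nat_lit 0) (nat_lit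 91986907894) (nat_lit 76) (nat_lit 70681865296) (nat_lit 76) (nat_lit 58651884435) (nat_lit 3) (nat_lit 4) (nat_lit 4) (nat_lit 5) (nat_lit 4) (nat_lit 4) (nat_lit 366) (nat_lit 246) (nat_lit 168)) (XT.nd (nat_lit 78) (nat_lit 0) (nat_lit 0) (XT.lf (nat_lit 0) (nat_lit 103293479511) (nat_lit 76) (nat_lit 70477456731) (nat_lit 76) (nat_lit 58434442692) (nat_lit 3) (nat_lit 4) (nat_lit 4) (nat_lit 5) (nat_lit 4) (nat_lit 4) (nat_lit 367) (nat_lit 246) (nat_lit 167)) (XT.lf (nat_lit 0) (nat_lit 115152085600) (nat_lit 76) (nat_lit 70269018332) (nat_lit 76) (nat_lit 58213591743) (nat_lit 3) (nat_lit 4) (nat_lit 4) (nat_lit 5) (nat_lit 4) (nat_lit 4) (nat_lit 368) (nat_lit 246) (nat_lit 166))))))) (XT.nd (nat_lit 780) (nat_lit 0) (nat_lit 0) (XT.nd (nat_lit 390) (nat_lit 0) (nat_lit 0) (XT.nd (nat_lit 156) (nat_lit 0) (nat_lit 0) (XT.nd (nat_lit 78) (nat_lit 0) (nat_lit 0) (XT.lf (nat_lit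 0) (nat_lit 127590960940) (nat_lit 76) (nat_lit 70056053819) (nat_lit 76) (nat_lit 57988805753) (nat_lit 3) (nat_lit 4) (nat_lit 4) (nat_lit 5) (nat_lit 4) (nat_lit 4) (nat_lit 369) (nat_lit 246) (nat_lit 165)) (XT.lf (nat_lit 0) (nat_lit 140639721900) (nat_lit 76) (nat_lit 69838056133) (nat_lit 76) (nat_lit 57759549518) (nat_lit 3) (nat_lit 4) (nat_lit 4) (nat_lit 5) (nat_lit 4) (nat_lit 4) (nat_lit 370) (nat_lit 246) (nat_lit 164))) (XT.nd (nat_lit 78) (nat_lit 0) (nat_lit 0) (XT.lf (nat_lit 0) (nat_lit 154329436957) (nat_lit 76) (nat_lit 69614506232) (nat_lit 76) (nat_lit 57525277189) (nat_lit 3) (nat_lit 4) (nat_lit 4) (nat_lit 5) (nat_lit 4) (nat_lit 4) (nat_lit 371) (nat_lit 246) (nat_lit 163)) (XT.nd (nat_lit 78) (nat_lit 0) (nat_lit 0) (XT.lf (nat_lit 0) (nat_lit 168692700673) (nat_lit 76) (nat_lit 69384871854) (nat_lit 76) (nat_lit 57285430976) (nat_lit 3) (nat_lit 4) (nat_lit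 4) (nat_lit 5) (nat_lit 4) (nat_lit 4) (nat_lit 372) (nat_lit 246) (nat_lit 162)) (XT.lf (nat_lit 0) (nat_lit 183763711293) (nat_lit 76) (nat_lit 69148606250) (nat_lit 76) (nat_lit 57039439814) (nat_lit 3) (nat_lit 4) (nat_lit 4) (nat_lit 5) (nat_lit 4) (nat_lit 4) (nat_lit 373) (nat_lit 246) (nat_lit 161))))) (XT.nd (nat_lit 156) (nat_lit 0) (nat_lit 0) (XT.nd (nat_lit 78) (nat_lit 0) (nat_lit 0) (XT.lf (nat_lit 0) (nat_lit 199578352176) (nat_lit 76) (nat_lit 68905146885) (nat_lit 76) (nat_lit 56786718012) (nat_lit 3) (nat_lit 4) (nat_lit 4) (nat_lit 5) (nat_lit 4) (nat_lit 4) (nat_lit 374) (nat_lit 246) (nat_lit 160)) (XT.lf (nat_lit 0) (nat_lit 216174277230) (nat_lit 76) (nat_lit 68653914091) (nat_lit 76) (nat_lit 56526663851) (nat_lit 3) (nat_lit 4) (nat_lit 4) (nat_lit 5) (nat_lit 4) (nat_lit 4) (nat_lit 375) (nat_lit 246) (nat_lit 159))) (XT.nd (nat_lit 78) (nat_lit 0) (nat_lit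 0) (XT.lf (nat_lit 0) (nat_lit 233591000561) (nat_lit 76) (nat_lit 68394309696) (nat_lit 76) (nat_lit 56258658153) (nat_lit 3) (nat_lit 4) (nat_lit 4) (nat_lit 5) (nat_lit 4) (nat_lit 4) (nat_lit 376) (nat_lit 246) (nat_lit 158)) (XT.nd (nat_lit 78) (nat_lit 0) (nat_lit 0) (XT.lf (nat_lit 0) (nat_lit 251869990559) (nat_lit 76) (nat_lit 68125715595) (nat_lit 76) (nat_lit 55982062812) (nat_lit 3) (nat_lit 4) (nat_lit 4) (nat_lit 5) (nat_lit 4) (nat_lit 4) (nat_lit 377) (nat_lit 246) (nat_lit 157)) (XT.lf (nat_lit 0) (nat_lit 271054768627) (nat_lit 76) (nat_lit 67847492277) (nat_lit 76) (nat_lit 55696219265) (nat_lit 3) (nat_lit 4) (nat_lit 4) (nat_lit 5) (nat_lit 4) (nat_lit 4) (nat_lit 378) (nat_lit 246) (nat_lit 156)))))) (XT.nd (nat_lit 390) (nat_lit 0) (nat_lit 0) (XT.nd (nat_lit 156) (nat_lit 0) (nat_lit 0) (XT.nd (nat_lit 78) (nat_lit 0) (nat_lit 0) (XT.lf (nat_lit 0) (nat_lit 291191012810)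 (nat_lit 76) (nat_lit 67558977307) (nat_lit 76) (nat_lit 55400446933) (nat_lit 3) (nat_lit 4) (nat_lit 4) (nat_lit 5) (nat_lit 4) (nat_lit 4) (nat_lit 379) (nat_lit 246) (nat_lit 155)) (XT.lf (nat_lit 0) (nat_lit 312326666546) (nat_lit 76) (nat_lit 67259483743) (nat_lit 76) (nat_lit 55094041597) (nat_lit 3) (nat_lit 4) (nat_lit 4) (nat_lit 5) (nat_lit 4) (nat_lit 4) (nat_lit 380) (nat_lit 246) (nat_lit 154))) (XT.nd (nat_lit 78) (nat_lit 0) (nat_lit 0) (XT.lf (nat_lit 0) (nat_lit 334512052819) (nat_lit 76) (nat_lit 66948298505) (nat_lit 76) (nat_lit 54776273719) (nat_lit 3) (nat_lit 4) (nat_lit 4) (nat_lit 5) (nat_lit 4) (nat_lit 4) (nat_lit 381) (nat_lit 246) (nat_lit 153)) (XT.nd (nat_lit 78) (nat_lit 0) (nat_lit 0) (XT.lf (nat_lit 0) (nat_lit 357799993978) (nat_lit 76) (nat_lit 66624680678) (nat_lit 76) (nat_lit 54446386710) (nat_lit 3) (nat_lit 4) (nat_lit 4) (nat_lit 5) (nat_lit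 4) (nat_lit 4) (nat_lit 382) (nat_lit 246) (nat_lit 152)) (XT.lf (nat_lit 0) (nat_lit 382245937503) (nat_lit 76) (nat_lit 66287859741) (nat_lit 76) (nat_lit 54103595124) (nat_lit 3) (nat_lit 4) (nat_lit 4) (nat_lit 5) (nat_lit 4) (nat_lit 4) (nat_lit 383) (nat_lit 246) (nat_lit 151))))) (XT.nd (nat_lit 156) (nat_lit 0) (nat_lit 0) (XT.nd (nat_lit 78) (nat_lit 0) (nat_lit 0) (XT.lf (nat_lit 0) (nat_lit 407908088020) (nat_lit 76) (nat_lit 65937033740) (nat_lit 76) (nat_lit 53747082791) (nat_lit 3) (nat_lit 4) (nat_lit 4) (nat_lit 5) (nat_lit 4) (nat_lit 4) (nat_lit 384) (nat_lit 246) (nat_lit 150)) (XT.lf (nat_lit 0) (nat_lit 434847545887) (nat_lit 76) (nat_lit 65571367376) (nat_lit 76) (nat_lit 53376000872) (nat_lit 3) (nat_lit 4) (nat_lit 4) (nat_lit 5) (nat_lit 4) (nat_lit 4) (nat_lit 385) (nat_lit 246) (nat_lit 149))) (XT.nd (nat_lit 78) (nat_lit 0) (nat_lit 0) (XT.lf (nat_lit 0)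 (nat_lit 463128452672) (nat_lit 76) (nat_lit 65189990014) (nat_lit 76) (nat_lit 52989465839) (nat_lit 3) (nat_lit 4) (nat_lit 4) (nat_lit 5) (nat_lit 4) (nat_lit 4) (nat_lit 386) (nat_lit 246) (nat_lit 148)) (XT.nd (nat_lit 78) (nat_lit 0) (nat_lit 0) (XT.lf (nat_lit 0) (nat_lit 492818143866) (nat_lit 76) (nat_lit 64791993613) (nat_lit 76) (nat_lit 52586557370) (nat_lit 3) (nat_lit 4) (nat_lit 4) (nat_lit 5) (nat_lit 4) (nat_lit 4) (nat_lit 387) (nat_lit 246) (nat_lit 147)) (XT.lf (nat_lit 0) (nat_lit 523987309211) (nat_lit 76) (nat_lit 64376430561) (nat_lit 76) (nat_lit 52166316159) (nat_lit 3) (nat_lit 4) (nat_lit 4) (nat_lit 5) (nat_lit 4) (nat_lit 4) (nat_lit 388) (nat_lit 246) (nat_lit 146))))))))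
noncomputable def xc68 : XT := (XT.nd (nat_lit 1482) (nat_lit 912) (nat_lit 0) (XT.nd (nat_lit 702) (nat_lit 912) (nat_lit 0) (XT.nd (nat_lit 312) (nat_lit 836) (nat_lit 0) (XT.nd (nat_lit 156) (nat_lit 304) (nat_lit 0) (XT.nd (nat_lit 78) (nat_lit 304) (nat_lit 0) (XT.lf (nat_lit 0) (nat_lit 4198603523) (nat_lit 304) (nat_lit 80263421) (nat_lit 304) (nat_lit 80263421) (nat_lit 52) (nat_lit 4) (nat_lit 56) (nat_lit 5) (nat_lit 56) (nat_lit 4) (nat_lit 286) (nat_lit 247) (nat_lit 247)) (XT.lf (nat_lit 0) (nat_lit 3400894954) (nat_lit 304) (nat_lit 3113532895) (nat_lit 0) (nat_lit 2398825238) (nat_lit 48) (nat_lit 5) (nat_lit 52) (nat_lit 4) (nat_lit 48) (nat_lit 4) (nat_lit 287) (nat_lit 247) (nat_lit 246))) (XT.nd (nat_lit 78) (nat_lit 76) (nat_lit 0) (XT.lf (nat_lit 0) (nat_lit 3009913161) (nat_lit 228) (nat_lit 4034609087) (nat_lit 228) (nat_lit 2078187260) (nat_lit 45) (nat_lit 4)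 (nat_lit 48) (nat_lit 5) (nat_lit 48) (nat_lit 4) (nat_lit 288) (nat_lit 247) (nat_lit 245)) (XT.lf (nat_lit 0) (nat_lit 1387993052) (nat_lit 304) (nat_lit 19942841) (nat_lit 76) (nat_lit 7938342957) (nat_lit 44) (nat_lit 5) (nat_lit 48) (nat_lit 5) (nat_lit 45) (nat_lit 4) (nat_lit 289) (nat_lit 247) (nat_lit 244)))) (XT.nd (nat_lit 156) (nat_lit 456) (nat_lit 0) (XT.nd (nat_lit 78) (nat_lit 228) (nat_lit 0) (XT.lf (nat_lit 0) (nat_lit 4941712900) (nat_lit 228) (nat_lit 3250262056) (nat_lit 0) (nat_lit 1388423284) (nat_lit 42) (nat_lit 5) (nat_lit 45) (nat_lit 4) (nat_lit 42) (nat_lit 4) (nat_lit 290) (nat_lit 247) (nat_lit 243)) (XT.lf (nat_lit 0) (nat_lit 3050595210) (nat_lit 228) (nat_lit 5558759676) (nat_lit 228) (nat_lit 1220322217) (nat_lit 39) (nat_lit 4) (nat_lit 42) (nat_lit 5) (nat_lit 42) (nat_lit 4) (nat_lit 291) (nat_lit 247) (nat_lit 242))) (XT.nd (nat_lit 78) (nat_lit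 380) (nat_lit 0) (XT.lf (nat_lit 0) (nat_lit 2215276072) (nat_lit 304) (nat_lit 544881360) (nat_lit 76) (nat_lit 7333546894) (nat_lit 38) (nat_lit 5) (nat_lit 42) (nat_lit 5) (nat_lit 39) (nat_lit 4) (nat_lit 292) (nat_lit 247) (nat_lit 241)) (XT.nd (nat_lit 78) (nat_lit 228) (nat_lit 0) (XT.lf (nat_lit 0) (nat_lit 5751333586) (nat_lit 228) (nat_lit 4391247818) (nat_lit 0) (nat_lit 229095921) (nat_lit 36) (nat_lit 5) (nat_lit 39) (nat_lit 4) (nat_lit 36) (nat_lit 4) (nat_lit 293) (nat_lit 247) (nat_lit 240)) (XT.lf (nat_lit 0) (nat_lit 2016275882) (nat_lit 228) (nat_lit 7408813662) (nat_lit 228) (nat_lit 1240632923) (nat_lit 33) (nat_lit 4) (nat_lit 36) (nat_lit 5) (nat_lit 36) (nat_lit 4) (nat_lit 294) (nat_lit 247) (nat_lit 239)))))) (XT.nd (nat_lit 390) (nat_lit 304) (nat_lit 0) (XT.nd (nat_lit 156) (nat_lit 380) (nat_lit 0) (XT.nd (nat_lit 78) (nat_lit 152) (nat_lit 0) (XT.lf (nat_lit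 0) (nat_lit 2185395383) (nat_lit 304) (nat_lit 2303304081) (nat_lit 76) (nat_lit 6486606393) (nat_lit 32) (nat_lit 5) (nat_lit 36) (nat_lit 5) (nat_lit 33) (nat_lit 4) (nat_lit 295) (nat_lit 247) (nat_lit 238)) (XT.lf (nat_lit 0) (nat_lit 4294468443) (nat_lit 152) (nat_lit 1395152274) (nat_lit 228) (nat_lit 5612489890) (nat_lit 30) (nat_lit 5) (nat_lit 32) (nat_lit 5) (nat_lit 33) (nat_lit 4) (nat_lit 296) (nat_lit 247) (nat_lit 237))) (XT.nd (nat_lit 78) (nat_lit 380) (nat_lit 0) (XT.lf (nat_lit 0) (nat_lit 9321006897) (nat_lit 228) (nat_lit 555580029) (nat_lit 0) (nat_lit 1771250762) (nat_lit 30) (nat_lit 5) (nat_lit 33) (nat_lit 4) (nat_lit 30) (nat_lit 4) (nat_lit 297) (nat_lit 247) (nat_lit 236)) (XT.nd (nat_lit 78) (nat_lit 152) (nat_lit 0) (XT.lf (nat_lit 0) (nat_lit 1096041226) (nat_lit 228) (nat_lit 5808984920) (nat_lit 76) (nat_lit 5104667281) (nat_lit 27) (nat_lit 5) (nat_lit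 30) (nat_lit 5) (nat_lit 28) (nat_lit 4) (nat_lit 298) (nat_lit 247) (nat_lit 235)) (XT.lf (nat_lit 0) (nat_lit 733127635) (nat_lit 152) (nat_lit 3789316139) (nat_lit 228) (nat_lit 7869916880) (nat_lit 25) (nat_lit 5) (nat_lit 27) (nat_lit 5) (nat_lit 28) (nat_lit 4) (nat_lit 299) (nat_lit 247) (nat_lit 234))))) (XT.nd (nat_lit 156) (nat_lit 152) (nat_lit 0) (XT.nd (nat_lit 78) (nat_lit 152) (nat_lit 0) (XT.lf (nat_lit 0) (nat_lit 7629908489) (nat_lit 152) (nat_lit 480750181) (nat_lit 228) (nat_lit 4684125694) (nat_lit 25) (nat_lit 5) (nat_lit 27) (nat_lit 5) (nat_lit 28) (nat_lit 4) (nat_lit 300) (nat_lit 247) (nat_lit 233)) (XT.lf (nat_lit 0) (nat_lit 1484877047) (nat_lit 152) (nat_lit 10359590208) (nat_lit 152) (nat_lit 1374693558) (nat_lit 23) (nat_lit 4) (nat_lit 25) (nat_lit 5) (nat_lit 25) (nat_lit 4) (nat_lit 301) (nat_lit 247) (nat_lit 232))) (XT.nd (nat_lit 78) (nat_lit 76)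 (nat_lit 0) (XT.lf (nat_lit 0) (nat_lit 2026576450) (nat_lit 228) (nat_lit 5226967940) (nat_lit 76) (nat_lit 6410020500) (nat_lit 22) (nat_lit 5) (nat_lit 25) (nat_lit 5) (nat_lit 23) (nat_lit 4) (nat_lit 302) (nat_lit 247) (nat_lit 231)) (XT.nd (nat_lit 78) (nat_lit 0) (nat_lit 0) (XT.lf (nat_lit 0) (nat_lit 1467370807) (nat_lit 76) (nat_lit 4008965782) (nat_lit 152) (nat_lit 8656616059) (nat_lit 21) (nat_lit 5) (nat_lit 22) (nat_lit 5) (nat_lit 23) (nat_lit 4) (nat_lit 303) (nat_lit 247) (nat_lit 230)) (XT.lf (nat_lit 0) (nat_lit 8517748429) (nat_lit 76) (nat_lit 573252987) (nat_lit 152) (nat_lit 5535303297) (nat_lit 21) (nat_lit 5) (nat_lit 22) (nat_lit 5) (nat_lit 23) (nat_lit 4) (nat_lit 304) (nat_lit 247) (nat_lit 229))))))) (XT.nd (nat_lit 780) (nat_lit 304) (nat_lit 0) (XT.nd (nat_lit 390) (nat_lit 304) (nat_lit 0) (XT.nd (nat_lit 156) (nat_lit 76) (nat_lit 0) (XT.nd (nat_lit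 78) (nat_lit 76) (nat_lit 0) (XT.lf (nat_lit 0) (nat_lit 591628330) (nat_lit 152) (nat_lit 12258900800) (nat_lit 152) (nat_lit 2295699011) (nat_lit 19) (nat_lit 4) (nat_lit 21) (nat_lit 5) (nat_lit 21) (nat_lit 4) (nat_lit 305) (nat_lit 247) (nat_lit 228)) (XT.lf (nat_lit 0) (nat_lit 1092973452) (nat_lit 228) (nat_lit 8033315873) (nat_lit 76) (nat_lit 6563970950) (nat_lit 18) (nat_lit 5) (nat_lit 21) (nat_lit 5) (nat_lit 19) (nat_lit 4) (nat_lit 306) (nat_lit 247) (nat_lit 227))) (XT.nd (nat_lit 78) (nat_lit 76) (nat_lit 0) (XT.lf (nat_lit 0) (nat_lit 4486251224) (nat_lit 228) (nat_lit 1373010407) (nat_lit 76) (nat_lit 10404829786) (nat_lit 18) (nat_lit 5) (nat_lit 21) (nat_lit 5) (nat_lit 19) (nat_lit 4) (nat_lit 307) (nat_lit 247) (nat_lit 226)) (XT.nd (nat_lit 78) (nat_lit 0) (nat_lit 0) (XT.lf (nat_lit 0) (nat_lit 5659144726) (nat_lit 76) (nat_lit 2394900622) (nat_lit 152) (nat_lit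 8812416839) (nat_lit 17) (nat_lit 5) (nat_lit 18) (nat_lit 5) (nat_lit 19) (nat_lit 4) (nat_lit 308) (nat_lit 247) (nat_lit 225)) (XT.lf (nat_lit 0) (nat_lit 11760642549) (nat_lit 152) (nat_lit 4570256802) (nat_lit 0) (nat_lit 1170117855) (nat_lit 17) (nat_lit 5) (nat_lit 19) (nat_lit 4) (nat_lit 17) (nat_lit 4) (nat_lit 309) (nat_lit 247) (nat_lit 224))))) (XT.nd (nat_lit 156) (nat_lit 76) (nat_lit 0) (XT.nd (nat_lit 78) (nat_lit 76) (nat_lit 0) (XT.lf (nat_lit 0) (nat_lit 2296458681) (nat_lit 152) (nat_lit 13352538024) (nat_lit 152) (nat_lit 2518564179) (nat_lit 15) (nat_lit 4) (nat_lit 17) (nat_lit 5) (nat_lit 17) (nat_lit 4) (nat_lit 310) (nat_lit 247) (nat_lit 223)) (XT.lf (nat_lit 0) (nat_lit 836965747) (nat_lit 228) (nat_lit 9350050397) (nat_lit 76) (nat_lit 8679800829) (nat_lit 14) (nat_lit 5) (nat_lit 17) (nat_lit 5) (nat_lit 15) (nat_lit 4) (nat_lit 311) (nat_lit 247) (nat_lit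 222))) (XT.nd (nat_lit 78) (nat_lit 76) (nat_lit 0) (XT.lf (nat_lit 0) (nat_lit 4200988800) (nat_lit 228) (nat_lit 2674618695) (nat_lit 76) (nat_lit 12727167192) (nat_lit 14) (nat_lit 5) (nat_lit 17) (nat_lit 5) (nat_lit 15) (nat_lit 4) (nat_lit 312) (nat_lit 247) (nat_lit 221)) (XT.nd (nat_lit 78) (nat_lit 0) (nat_lit 0) (XT.lf (nat_lit 0) (nat_lit 4349623756) (nat_lit 76) (nat_lit 3380410400) (nat_lit 152) (nat_lit 12645722751) (nat_lit 13) (nat_lit 5) (nat_lit 14) (nat_lit 5) (nat_lit 15) (nat_lit 4) (nat_lit 313) (nat_lit 247) (nat_lit 220)) (XT.lf (nat_lit 0) (nat_lit 11415659334) (nat_lit 152) (nat_lit 9497349064) (nat_lit 0) (nat_lit 275437920) (nat_lit 13) (nat_lit 5) (nat_lit 15) (nat_lit 4) (nat_lit 13) (nat_lit 4) (nat_lit 314) (nat_lit 247) (nat_lit 219)))))) (XT.nd (nat_lit 390) (nat_lit 76) (nat_lit 0) (XT.nd (nat_lit 156) (nat_lit 152) (nat_lit 0) (XT.nd (nat_lit 78)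 (nat_lit 76) (nat_lit 0) (XT.lf (nat_lit 0) (nat_lit 15273904622) (nat_lit 152) (nat_lit 2816492319) (nat_lit 0) (nat_lit 3952017703) (nat_lit 13) (nat_lit 5) (nat_lit 15) (nat_lit 4) (nat_lit 13) (nat_lit 4) (nat_lit 315) (nat_lit 247) (nat_lit 218)) (XT.lf (nat_lit 0) (nat_lit 4220194132) (nat_lit 76) (nat_lit 15106873564) (nat_lit 76) (nat_lit 3611971878) (nat_lit 12) (nat_lit 4) (nat_lit 13) (nat_lit 5) (nat_lit 13) (nat_lit 4) (nat_lit 316) (nat_lit 247) (nat_lit 217))) (XT.nd (nat_lit 78) (nat_lit 152) (nat_lit 0) (XT.lf (nat_lit 0) (nat_lit 11595038649) (nat_lit 76) (nat_lit 11972967292) (nat_lit 76) (nat_lit 313289638) (nat_lit 12) (nat_lit 4) (nat_lit 13) (nat_lit 5) (nat_lit 13) (nat_lit 4) (nat_lit 317) (nat_lit 247) (nat_lit 216)) (XT.nd (nat_lit 78) (nat_lit 76) (nat_lit 0) (XT.lf (nat_lit 0) (nat_lit 2988866614) (nat_lit 152) (nat_lit 5689430587) (nat_lit 76) (nat_lit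 16192989913) (nat_lit 11) (nat_lit 5) (nat_lit 13) (nat_lit 5) (nat_lit 12) (nat_lit 4) (nat_lit 318) (nat_lit 247) (nat_lit 215)) (XT.lf (nat_lit 0) (nat_lit 1166379100) (nat_lit 76) (nat_lit 5239690610) (nat_lit 152) (nat_lit 19506476439) (nat_lit 10) (nat_lit 5) (nat_lit 11) (nat_lit 5) (nat_lit 12) (nat_lit 4) (nat_lit 319) (nat_lit 247) (nat_lit 214))))) (XT.nd (nat_lit 156) (nat_lit 76) (nat_lit 0) (XT.nd (nat_lit 78) (nat_lit 0) (nat_lit 0) (XT.lf (nat_lit 0) (nat_lit 8461112117) (nat_lit 76) (nat_lit 1572797932) (nat_lit 152) (nat_lit 16970015041) (nat_lit 10) (nat_lit 5) (nat_lit 11) (nat_lit 5) (nat_lit 12) (nat_lit 4) (nat_lit 320) (nat_lit 247) (nat_lit 213)) (XT.lf (nat_lit 0) (nat_lit 13824151174) (nat_lit 152) (nat_lit 12163482942) (nat_lit 0) (nat_lit 2163232049) (nat_lit 10) (nat_lit 5) (nat_lit 12) (nat_lit 4) (nat_lit 10) (nat_lit 4) (nat_lit 321) (nat_lit 247) (nat_lit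 212))) (XT.nd (nat_lit 78) (nat_lit 76) (nat_lit 0) (XT.lf (nat_lit 0) (nat_lit 17777737031) (nat_lit 152) (nat_lit 5584907636) (nat_lit 0) (nat_lit 5993859542) (nat_lit 10) (nat_lit 5) (nat_lit 12) (nat_lit 4) (nat_lit 10) (nat_lit 4) (nat_lit 322) (nat_lit 247) (nat_lit 211)) (XT.nd (nat_lit 78) (nat_lit 0) (nat_lit 0) (XT.lf (nat_lit 0) (nat_lit 1273904913) (nat_lit 76) (nat_lit 20625509449) (nat_lit 76) (nat_lit 8724528756) (nat_lit 9) (nat_lit 4) (nat_lit 10) (nat_lit 5) (nat_lit 10) (nat_lit 4) (nat_lit 323) (nat_lit 247) (nat_lit 210)) (XT.lf (nat_lit 0) (nat_lit 8581532014) (nat_lit 76) (nat_lit 17691731402) (nat_lit 76) (nat_lit 5679223848) (nat_lit 9) (nat_lit 4) (nat_lit 10) (nat_lit 5) (nat_lit 10) (nat_lit 4) (nat_lit 324) (nat_lit 247) (nat_lit 209))))))))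
noncomputable def xc69 : XT := (XT.nd (nat_lit 1482) (nat_lit 76) (nat_lit 0) (XT.nd (nat_lit 702) (nat_lit 228) (nat_lit 0) (XT.nd (nat_lit 312) (nat_lit 0) (nat_lit 0) (XT.nd (nat_lit 156) (nat_lit 76) (nat_lit 0) (XT.nd (nat_lit 78) (nat_lit 76) (nat_lit 0) (XT.lf (nat_lit 0) (nat_lit 16170710510) (nat_lit 76) (nat_lit 14648908455) (nat_lit 76) (nat_lit 2530184843) (nat_lit 9) (nat_lit 4) (nat_lit 10) (nat_lit 5) (nat_lit 10) (nat_lit 4) (nat_lit 325) (nat_lit 247) (nat_lit 208)) (XT.lf (nat_lit 0) (nat_lit 706718660) (nat_lit 152) (nat_lit 10771108509) (nat_lit 76) (nat_lit 23340822590) (nat_lit 8) (nat_lit 5) (nat_lit 10) (nat_lit 5) (nat_lit 9) (nat_lit 4) (nat_lit 326) (nat_lit 247) (nat_lit 207))) (XT.nd (nat_lit 78) (nat_lit 76) (nat_lit 0) (XT.lf (nat_lit 0) (nat_lit 3977826243) (nat_lit 152) (nat_lit 4161679059) (nat_lit 76) (nat_lit 28221520302) (nat_lit 8) (nat_lit 5) (nat_lit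 10) (nat_lit 5) (nat_lit 9) (nat_lit 4) (nat_lit 327) (nat_lit 247) (nat_lit 206)) (XT.lf (nat_lit 0) (nat_lit 2793855901) (nat_lit 76) (nat_lit 4621671993) (nat_lit 152) (nat_lit 30564869942) (nat_lit 7) (nat_lit 5) (nat_lit 8) (nat_lit 5) (nat_lit 9) (nat_lit 4) (nat_lit 328) (nat_lit 247) (nat_lit 205)))) (XT.nd (nat_lit 156) (nat_lit 0) (nat_lit 0) (XT.nd (nat_lit 78) (nat_lit 0) (nat_lit 0) (XT.lf (nat_lit 0) (nat_lit 10169055020) (nat_lit 76) (nat_lit 886757427) (nat_lit 152) (nat_lit 28623419464) (nat_lit 7) (nat_lit 5) (nat_lit 8) (nat_lit 5) (nat_lit 9) (nat_lit 4) (nat_lit 329) (nat_lit 247) (nat_lit 204)) (XT.lf (nat_lit 0) (nat_lit 14887118800) (nat_lit 152) (nat_lit 23667949882) (nat_lit 0) (nat_lit 2907515411) (nat_lit 7) (nat_lit 5) (nat_lit 9) (nat_lit 4) (nat_lit 7) (nat_lit 4) (nat_lit 330) (nat_lit 247) (nat_lit 203))) (XT.nd (nat_lit 78) (nat_lit 0) (nat_lit 0) (XT.lf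 (nat_lit 0) (nat_lit 18887979127) (nat_lit 152) (nat_lit 17615360863) (nat_lit 0) (nat_lit 6832889969) (nat_lit 7) (nat_lit 5) (nat_lit 9) (nat_lit 4) (nat_lit 7) (nat_lit 4) (nat_lit 331) (nat_lit 247) (nat_lit 202)) (XT.nd (nat_lit 78) (nat_lit 0) (nat_lit 0) (XT.lf (nat_lit 0) (nat_lit 23054074519) (nat_lit 152) (nat_lit 11324154139) (nat_lit 0) (nat_lit 10927094151) (nat_lit 7) (nat_lit 5) (nat_lit 9) (nat_lit 4) (nat_lit 7) (nat_lit 4) (nat_lit 332) (nat_lit 247) (nat_lit 201)) (XT.lf (nat_lit 0) (nat_lit 27395324249) (nat_lit 152) (nat_lit 4779350645) (nat_lit 0) (nat_lit 15199876064) (nat_lit 7) (nat_lit 5) (nat_lit 9) (nat_lit 4) (nat_lit 7) (nat_lit 4) (nat_lit 333) (nat_lit 247) (nat_lit 200)))))) (XT.nd (nat_lit 390) (nat_lit 152) (nat_lit 0) (XT.nd (nat_lit 156) (nat_lit 0) (nat_lit 0) (XT.nd (nat_lit 78) (nat_lit 0) (nat_lit 0) (XT.lf (nat_lit 0) (nat_lit 2101906620) (nat_lit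 76) (nat_lit 29852974661) (nat_lit 76) (nat_lit 17592319029) (nat_lit 6) (nat_lit 4) (nat_lit 7) (nat_lit 5) (nat_lit 7) (nat_lit 4) (nat_lit 334) (nat_lit 247) (nat_lit 199)) (XT.lf (nat_lit 0) (nat_lit 9436030932) (nat_lit 76) (nat_lit 27356365563) (nat_lit 76) (nat_lit 15033607602) (nat_lit 6) (nat_lit 4) (nat_lit 7) (nat_lit 5) (nat_lit 7) (nat_lit 4) (nat_lit 335) (nat_lit 247) (nat_lit 198))) (XT.nd (nat_lit 78) (nat_lit 0) (nat_lit 0) (XT.lf (nat_lit 0) (nat_lit 17082457574) (nat_lit 76) (nat_lit 24759843911) (nat_lit 76) (nat_lit 12377940874) (nat_lit 6) (nat_lit 4) (nat_lit 7) (nat_lit 5) (nat_lit 7) (nat_lit 4) (nat_lit 336) (nat_lit 247) (nat_lit 197)) (XT.nd (nat_lit 78) (nat_lit 0) (nat_lit 0) (XT.lf (nat_lit 0) (nat_lit 25059392324) (nat_lit 76) (nat_lit 22057227509) (nat_lit 76) (nat_lit 9618995829) (nat_lit 6) (nat_lit 4) (nat_lit 7) (nat_lit 5) (nat_lit 7) (nat_lit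 4) (nat_lit 337) (nat_lit 247) (nat_lit 196)) (XT.lf (nat_lit 0) (nat_lit 33385827883) (nat_lit 76) (nat_lit 19242081558) (nat_lit 76) (nat_lit 6750203551) (nat_lit 6) (nat_lit 4) (nat_lit 7) (nat_lit 5) (nat_lit 7) (nat_lit 4) (nat_lit 338) (nat_lit 247) (nat_lit 195))))) (XT.nd (nat_lit 156) (nat_lit 152) (nat_lit 0) (XT.nd (nat_lit 78) (nat_lit 0) (nat_lit 0) (XT.lf (nat_lit 0) (nat_lit 42081589098) (nat_lit 76) (nat_lit 16307703328) (nat_lit 76) (nat_lit 3764733581) (nat_lit 6) (nat_lit 4) (nat_lit 7) (nat_lit 5) (nat_lit 7) (nat_lit 4) (nat_lit 339) (nat_lit 247) (nat_lit 194)) (XT.lf (nat_lit 0) (nat_lit 51167380162) (nat_lit 76) (nat_lit 13247106205) (nat_lit 76) (nat_lit 655477658) (nat_lit 6) (nat_lit 4) (nat_lit 7) (nat_lit 5) (nat_lit 7) (nat_lit 4) (nat_lit 340) (nat_lit 247) (nat_lit 193))) (XT.nd (nat_lit 78) (nat_lit 76) (nat_lit 0) (XT.lf (nat_lit 0) (nat_lit 2502232114)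 (nat_lit 152) (nat_lit 7508394427) (nat_lit 76) (nat_lit 58120225286) (nat_lit 5) (nat_lit 5) (nat_lit 7) (nat_lit 5) (nat_lit 6) (nat_lit 4) (nat_lit 341) (nat_lit 247) (nat_lit 192)) (XT.nd (nat_lit 78) (nat_lit 76) (nat_lit 0) (XT.lf (nat_lit 0) (nat_lit 5773420991) (nat_lit 152) (nat_lit 846592194) (nat_lit 76) (nat_lit 64725366662) (nat_lit 5) (nat_lit 5) (nat_lit 7) (nat_lit 5) (nat_lit 6) (nat_lit 4) (nat_lit 342) (nat_lit 247) (nat_lit 191)) (XT.lf (nat_lit 0) (nat_lit 6310906534) (nat_lit 76) (nat_lit 2974481301) (nat_lit 152) (nat_lit 65431399035) (nat_lit 4) (nat_lit 5) (nat_lit 5) (nat_lit 5) (nat_lit 6) (nat_lit 4) (nat_lit 343) (nat_lit 247) (nat_lit 190))))))) (XT.nd (nat_lit 780) (nat_lit 76) (nat_lit 0) (XT.nd (nat_lit 390) (nat_lit 0) (nat_lit 0) (XT.nd (nat_lit 156) (nat_lit 0) (nat_lit 0) (XT.nd (nat_lit 78) (nat_lit 0) (nat_lit 0) (XT.lf (nat_lit 0) (nat_lit 12979667253)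 (nat_lit 152) (nat_lit 64453459522) (nat_lit 0) (nat_lit 823314640) (nat_lit 4) (nat_lit 5) (nat_lit 6) (nat_lit 4) (nat_lit 4) (nat_lit 4) (nat_lit 344) (nat_lit 247) (nat_lit 189)) (XT.lf (nat_lit 0) (nat_lit 16887250168) (nat_lit 152) (nat_lit 60389823704) (nat_lit 0) (nat_lit 4694587609) (nat_lit 4) (nat_lit 5) (nat_lit 6) (nat_lit 4) (nat_lit 4) (nat_lit 4) (nat_lit 345) (nat_lit 247) (nat_lit 188))) (XT.nd (nat_lit 78) (nat_lit 0) (nat_lit 0) (XT.lf (nat_lit 0) (nat_lit 20971000359) (nat_lit 152) (nat_lit 56158857569) (nat_lit 0) (nat_lit 8743756900) (nat_lit 4) (nat_lit 5) (nat_lit 6) (nat_lit 4) (nat_lit 4) (nat_lit 4) (nat_lit 346) (nat_lit 247) (nat_lit 187)) (XT.nd (nat_lit 78) (nat_lit 0) (nat_lit 0) (XT.lf (nat_lit 0) (nat_lit 25240641043) (nat_lit 152) (nat_lit 51750487388) (nat_lit 0) (nat_lit 12980463392) (nat_lit 4) (nat_lit 5) (nat_lit 6) (nat_lit 4) (nat_lit 4) (nat_lit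 4) (nat_lit 347) (nat_lit 247) (nat_lit 186)) (XT.lf (nat_lit 0) (nat_lit 29706338028) (nat_lit 152) (nat_lit 47154217043) (nat_lit 0) (nat_lit 17414794481) (nat_lit 4) (nat_lit 5) (nat_lit 6) (nat_lit 4) (nat_lit 4) (nat_lit 4) (nat_lit 348) (nat_lit 247) (nat_lit 185))))) (XT.nd (nat_lit 156) (nat_lit 0) (nat_lit 0) (XT.nd (nat_lit 78) (nat_lit 0) (nat_lit 0) (XT.lf (nat_lit 0) (nat_lit 34378723929) (nat_lit 152) (nat_lit 42359103032) (nat_lit 0) (nat_lit 22057308099) (nat_lit 4) (nat_lit 5) (nat_lit 6) (nat_lit 4) (nat_lit 4) (nat_lit 4) (nat_lit 349) (nat_lit 247) (nat_lit 184)) (XT.lf (nat_lit 0) (nat_lit 39268923472) (nat_lit 152) (nat_lit 37353728416) (nat_lit 0) (nat_lit 26919057850) (nat_lit 4) (nat_lit 5) (nat_lit 6) (nat_lit 4) (nat_lit 4) (nat_lit 4) (nat_lit 350) (nat_lit 247) (nat_lit 183))) (XT.nd (nat_lit 78) (nat_lit 0) (nat_lit 0) (XT.lf (nat_lit 0) (nat_lit 44388579991)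 (nat_lit 152) (nat_lit 32126175638) (nat_lit 0) (nat_lit 32011619328) (nat_lit 4) (nat_lit 5) (nat_lit 6) (nat_lit 4) (nat_lit 4) (nat_lit 4) (nat_lit 351) (nat_lit 247) (nat_lit 182)) (XT.nd (nat_lit 78) (nat_lit 0) (nat_lit 0) (XT.lf (nat_lit 0) (nat_lit 49749883143) (nat_lit 152) (nat_lit 26663998144) (nat_lit 0) (nat_lit 37347117679) (nat_lit 4) (nat_lit 5) (nat_lit 6) (nat_lit 4) (nat_lit 4) (nat_lit 4) (nat_lit 352) (nat_lit 247) (nat_lit 181)) (XT.lf (nat_lit 0) (nat_lit 55365597936) (nat_lit 152) (nat_lit 20954190748) (nat_lit 0) (nat_lit 42938256472) (nat_lit 4) (nat_lit 5) (nat_lit 6) (nat_lit 4) (nat_lit 4) (nat_lit 4) (nat_lit 353) (nat_lit 247) (nat_lit 180)))))) (XT.nd (nat_lit 390) (nat_lit 0) (nat_lit 0) (XT.nd (nat_lit 156) (nat_lit 76) (nat_lit 0) (XT.nd (nat_lit 78) (nat_lit 0) (nat_lit 0) (XT.lf (nat_lit 0) (nat_lit 61249095119) (nat_lit 152) (nat_lit 14983158671)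 (nat_lit 0) (nat_lit 48798347941) (nat_lit 4) (nat_lit 5) (nat_lit 6) (nat_lit 4) (nat_lit 4) (nat_lit 4) (nat_lit 354) (nat_lit 247) (nat_lit 179)) (XT.lf (nat_lit 0) (nat_lit 67414383020) (nat_lit 152) (nat_lit 8736685171) (nat_lit 0) (nat_lit 54941344684) (nat_lit 4) (nat_lit 5) (nat_lit 6) (nat_lit 4) (nat_lit 4) (nat_lit 4) (nat_lit 355) (nat_lit 247) (nat_lit 178))) (XT.nd (nat_lit 78) (nat_lit 76) (nat_lit 0) (XT.lf (nat_lit 0) (nat_lit 73876140895) (nat_lit 152) (nat_lit 2199897690) (nat_lit 0) (nat_lit 61381872886) (nat_lit 4) (nat_lit 5) (nat_lit 6) (nat_lit 4) (nat_lit 4) (nat_lit 4) (nat_lit 356) (nat_lit 247) (nat_lit 177)) (XT.nd (nat_lit 78) (nat_lit 0) (nat_lit 0) (XT.lf (nat_lit 0) (nat_lit 4796278411) (nat_lit 76) (nat_lit 75928358818) (nat_lit 76) (nat_lit 63413872072) (nat_lit 3) (nat_lit 4) (nat_lit 4) (nat_lit 5) (nat_lit 4) (nat_lit 4) (nat_lit 357) (nat_lit 247)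 (nat_lit 176)) (XT.lf (nat_lit 0) (nat_lit 12198015275) (nat_lit 76) (nat_lit 75743779558) (nat_lit 76) (nat_lit 63210036873) (nat_lit 3) (nat_lit 4) (nat_lit 4) (nat_lit 5) (nat_lit 4) (nat_lit 4) (nat_lit 358) (nat_lit 247) (nat_lit 175))))) (XT.nd (nat_lit 156) (nat_lit 0) (nat_lit 0) (XT.nd (nat_lit 78) (nat_lit 0) (nat_lit 0) (XT.lf (nat_lit 0) (nat_lit 19950197530) (nat_lit 76) (nat_lit 75559117665) (nat_lit 76) (nat_lit 63007035990) (nat_lit 3) (nat_lit 4) (nat_lit 4) (nat_lit 5) (nat_lit 4) (nat_lit 4) (nat_lit 359) (nat_lit 247) (nat_lit 174)) (XT.lf (nat_lit 0) (nat_lit 28071282754) (nat_lit 76) (nat_lit 75373933466) (nat_lit 76) (nat_lit 62804386087) (nat_lit 3) (nat_lit 4) (nat_lit 4) (nat_lit 5) (nat_lit 4) (nat_lit 4) (nat_lit 360) (nat_lit 247) (nat_lit 173))) (XT.nd (nat_lit 78) (nat_lit 0) (nat_lit 0) (XT.lf (nat_lit 0) (nat_lit 36580606865) (nat_lit 76) (nat_lit 75187786048)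 (nat_lit 76) (nat_lit 62601604663) (nat_lit 3) (nat_lit 4) (nat_lit 4) (nat_lit 5) (nat_lit 4) (nat_lit 4) (nat_lit 361) (nat_lit 247) (nat_lit 172)) (XT.nd (nat_lit 78) (nat_lit 0) (nat_lit 0) (XT.lf (nat_lit 0) (nat_lit 45498430156) (nat_lit 76) (nat_lit 75000232201) (nat_lit 76) (nat_lit 62398208908) (nat_lit 3) (nat_lit 4) (nat_lit 4) (nat_lit 5) (nat_lit 4) (nat_lit 4) (nat_lit 362) (nat_lit 247) (nat_lit 171)) (XT.lf (nat_lit 0) (nat_lit 54845985541) (nat_lit 76) (nat_lit 74810825370) (nat_lit 76) (nat_lit 62193714544) (nat_lit 3) (nat_lit 4) (nat_lit 4) (nat_lit 5) (nat_lit 4) (nat_lit 4) (nat_lit 363) (nat_lit 247) (nat_lit 170))))))))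
noncomputable def xc70 : XT := (XT.nd (nat_lit 1482) (nat_lit 0) (nat_lit 0) (XT.nd (nat_lit 702) (nat_lit 0) (nat_lit 0) (XT.nd (nat_lit 312) (nat_lit 0) (nat_lit 0) (XT.nd (nat_lit 156) (nat_lit 0) (nat_lit 0) (XT.nd (nat_lit 78) (nat_lit 0) (nat_lit 0) (XT.lf (nat_lit 0) (nat_lit 64645529105) (nat_lit 76) (nat_lit 74619114585) (nat_lit 76) (nat_lit 61987634680) (nat_lit 3) (nat_lit 4) (nat_lit 4) (nat_lit 5) (nat_lit 4) (nat_lit 4) (nat_lit 364) (nat_lit 247) (nat_lit 169)) (XT.lf (nat_lit 0) (nat_lit 74920393093) (nat_lit 76) (nat_lit 74424643392) (nat_lit 76) (nat_lit 61779478651) (nat_lit 3) (nat_lit 4) (nat_lit 4) (nat_lit 5) (nat_lit 4) (nat_lit 4) (nat_lit 365) (nat_lit 247) (nat_lit 168))) (XT.nd (nat_lit 78) (nat_lit 0) (nat_lit 0) (XT.lf (nat_lit 0) (nat_lit 85695041467) (nat_lit 76) (nat_lit 74226948765) (nat_lit 76) (nat_lit 61568750846) (nat_lit 3) (nat_lit 4) (nat_lit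 4) (nat_lit 5) (nat_lit 4) (nat_lit 4) (nat_lit 366) (nat_lit 247) (nat_lit 167)) (XT.lf (nat_lit 0) (nat_lit 96995128154) (nat_lit 76) (nat_lit 74025560002) (nat_lit 76) (nat_lit 61354949533) (nat_lit 3) (nat_lit 4) (nat_lit 4) (nat_lit 5) (nat_lit 4) (nat_lit 4) (nat_lit 367) (nat_lit 247) (nat_lit 166)))) (XT.nd (nat_lit 156) (nat_lit 0) (nat_lit 0) (XT.nd (nat_lit 78) (nat_lit 0) (nat_lit 0) (XT.lf (nat_lit 0) (nat_lit 108847558119) (nat_lit 76) (nat_lit 73819997607) (nat_lit 76) (nat_lit 61137565661) (nat_lit 3) (nat_lit 4) (nat_lit 4) (nat_lit 5) (nat_lit 4) (nat_lit 4) (nat_lit 368) (nat_lit 247) (nat_lit 165)) (XT.lf (nat_lit 0) (nat_lit 121280551436) (nat_lit 76) (nat_lit 73609772144) (nat_lit 76) (nat_lit 60916081649) (nat_lit 3) (nat_lit 4) (nat_lit 4) (nat_lit 5) (nat_lit 4) (nat_lit 4) (nat_lit 369) (nat_lit 247) (nat_lit 164))) (XT.nd (nat_lit 78) (nat_lit 0) (nat_lit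 0) (XT.lf (nat_lit 0) (nat_lit 134323710469) (nat_lit 76) (nat_lit 73394383077) (nat_lit 76) (nat_lit 60689970154) (nat_lit 3) (nat_lit 4) (nat_lit 4) (nat_lit 5) (nat_lit 4) (nat_lit 4) (nat_lit 370) (nat_lit 247) (nat_lit 163)) (XT.nd (nat_lit 78) (nat_lit 0) (nat_lit 0) (XT.lf (nat_lit 0) (nat_lit 148008090358) (nat_lit 76) (nat_lit 73173317575) (nat_lit 76) (nat_lit 60458692816) (nat_lit 3) (nat_lit 4) (nat_lit 4) (nat_lit 5) (nat_lit 4) (nat_lit 4) (nat_lit 371) (nat_lit 247) (nat_lit 162)) (XT.lf (nat_lit 0) (nat_lit 162366272961) (nat_lit 76) (nat_lit 72946049291) (nat_lit 76) (nat_lit 60221698975) (nat_lit 3) (nat_lit 4) (nat_lit 4) (nat_lit 5) (nat_lit 4) (nat_lit 4) (nat_lit 372) (nat_lit 247) (nat_lit 161)))))) (XT.nd (nat_lit 390) (nat_lit 0) (nat_lit 0) (XT.nd (nat_lit 156) (nat_lit 0) (nat_lit 0) (XT.nd (nat_lit 78) (nat_lit 0) (nat_lit 0) (XT.lf (nat_lit 0) (nat_lit 177432444426)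 (nat_lit 76) (nat_lit 72712037111) (nat_lit 76) (nat_lit 59978424358) (nat_lit 3) (nat_lit 4) (nat_lit 4) (nat_lit 5) (nat_lit 4) (nat_lit 4) (nat_lit 373) (nat_lit 247) (nat_lit 160)) (XT.lf (nat_lit 0) (nat_lit 193242476590) (nat_lit 76) (nat_lit 72470723862) (nat_lit 76) (nat_lit 59728289742) (nat_lit 3) (nat_lit 4) (nat_lit 4) (nat_lit 5) (nat_lit 4) (nat_lit 4) (nat_lit 374) (nat_lit 247) (nat_lit 159))) (XT.nd (nat_lit 78) (nat_lit 0) (nat_lit 0) (XT.lf (nat_lit 0) (nat_lit 209834012388) (nat_lit 76) (nat_lit 72221534990) (nat_lit 76) (nat_lit 59470699567) (nat_lit 3) (nat_lit 4) (nat_lit 4) (nat_lit 5) (nat_lit 4) (nat_lit 4) (nat_lit 375) (nat_lit 247) (nat_lit 158)) (XT.nd (nat_lit 78) (nat_lit 0) (nat_lit 0) (XT.lf (nat_lit 0) (nat_lit 227246555475) (nat_lit 76) (nat_lit 71963877187) (nat_lit 76) (nat_lit 59205040524) (nat_lit 3) (nat_lit 4) (nat_lit 4) (nat_lit 5) (nat_lit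 4) (nat_lit 4) (nat_lit 376) (nat_lit 247) (nat_lit 157)) (XT.lf (nat_lit 0) (nat_lit 245521564288) (nat_lit 76) (nat_lit 71697136983) (nat_lit 76) (nat_lit 58930680090) (nat_lit 3) (nat_lit 4) (nat_lit 4) (nat_lit 5) (nat_lit 4) (nat_lit 4) (nat_lit 377) (nat_lit 247) (nat_lit 156))))) (XT.nd (nat_lit 156) (nat_lit 0) (nat_lit 0) (XT.nd (nat_lit 78) (nat_lit 0) (nat_lit 0) (XT.lf (nat_lit 0) (nat_lit 264702550752) (nat_lit 76) (nat_lit 71420679281) (nat_lit 76) (nat_lit 58646965028) (nat_lit 3) (nat_lit 4) (nat_lit 4) (nat_lit 5) (nat_lit 4) (nat_lit 4) (nat_lit 378) (nat_lit 247) (nat_lit 155)) (XT.lf (nat_lit 0) (nat_lit 284835183883) (nat_lit 76) (nat_lit 71133845849) (nat_lit 76) (nat_lit 58353219824) (nat_lit 3) (nat_lit 4) (nat_lit 4) (nat_lit 5) (nat_lit 4) (nat_lit 4) (nat_lit 379) (nat_lit 247) (nat_lit 154))) (XT.nd (nat_lit 78) (nat_lit 0) (nat_lit 0) (XT.lf (nat_lit 0)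 (nat_lit 305967398521) (nat_lit 76) (nat_lit 70835953751) (nat_lit 76) (nat_lit 58048745085) (nat_lit 3) (nat_lit 4) (nat_lit 4) (nat_lit 5) (nat_lit 4) (nat_lit 4) (nat_lit 380) (nat_lit 247) (nat_lit 153)) (XT.nd (nat_lit 78) (nat_lit 0) (nat_lit 0) (XT.lf (nat_lit 0) (nat_lit 328149509464) (nat_lit 76) (nat_lit 70526293720) (nat_lit 76) (nat_lit 57732815872) (nat_lit 3) (nat_lit 4) (nat_lit 4) (nat_lit 5) (nat_lit 4) (nat_lit 4) (nat_lit 381) (nat_lit 247) (nat_lit 152)) (XT.lf (nat_lit 0) (nat_lit 351434331261) (nat_lit 76) (nat_lit 70204128469) (nat_lit 76) (nat_lit 57404679972) (nat_lit 3) (nat_lit 4) (nat_lit 4) (nat_lit 5) (nat_lit 4) (nat_lit 4) (nat_lit 382) (nat_lit 247) (nat_lit 151))))))) (XT.nd (nat_lit 33306) (nat_lit 0) (nat_lit 1824) (XT.nd (nat_lit 32916) (nat_lit 0) (nat_lit 3192) (XT.nd (nat_lit 156) (nat_lit 0) (nat_lit 0) (XT.nd (nat_lit 78) (nat_lit 0) (nat_lit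 0) (XT.lf (nat_lit 0) (nat_lit 375877303964) (nat_lit 76) (nat_lit 69868690938) (nat_lit 76) (nat_lit 57063556109) (nat_lit 3) (nat_lit 4) (nat_lit 4) (nat_lit 5) (nat_lit 4) (nat_lit 4) (nat_lit 383) (nat_lit 247) (nat_lit 150)) (XT.lf (nat_lit 0) (nat_lit 401536625127) (nat_lit 76) (nat_lit 69519182468) (nat_lit 76) (nat_lit 56708632084) (nat_lit 3) (nat_lit 4) (nat_lit 4) (nat_lit 5) (nat_lit 4) (nat_lit 4) (nat_lit 384) (nat_lit 247) (nat_lit 149))) (XT.nd (nat_lit 78) (nat_lit 0) (nat_lit 0) (XT.lf (nat_lit 0) (nat_lit 428473388372) (nat_lit 76) (nat_lit 69154770894) (nat_lit 76) (nat_lit 56339062839) (nat_lit 3) (nat_lit 4) (nat_lit 4) (nat_lit 5) (nat_lit 4) (nat_lit 4) (nat_lit 385) (nat_lit 247) (nat_lit 148)) (XT.nd (nat_lit 78) (nat_lit 0) (nat_lit 0) (XT.lf (nat_lit 0) (nat_lit 456751728850) (nat_lit 76) (nat_lit 68774588570) (nat_lit 76) (nat_lit 55953968448) (nat_lit 3)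 (nat_lit 4) (nat_lit 4) (nat_lit 5) (nat_lit 4) (nat_lit 4) (nat_lit 386) (nat_lit 247) (nat_lit 147)) (XT.lf (nat_lit 0) (nat_lit 486438975942) (nat_lit 76) (nat_lit 68377730300) (nat_lit 76) (nat_lit 55552432019) (nat_lit 3) (nat_lit 4) (nat_lit 4) (nat_lit 5) (nat_lit 4) (nat_lit 4) (nat_lit 387) (nat_lit 247) (nat_lit 146))))) (XT.nd (nat_lit 156) (nat_lit 532) (nat_lit 0) (XT.nd (nat_lit 78) (nat_lit 304) (nat_lit 0) (XT.lf (nat_lit 0) (nat_lit 1207477550) (nat_lit 304) (nat_lit 1761973674) (nat_lit 0) (nat_lit 1207477550) (nat_lit 56) (nat_lit 5) (nat_lit 60) (nat_lit 4) (nat_lit 56) (nat_lit 4) (nat_lit 284) (nat_lit 248) (nat_lit 248)) (XT.lf (nat_lit 0) (nat_lit 2279580143) (nat_lit 304) (nat_lit 3678178832) (nat_lit 304) (nat_lit 2573396970) (nat_lit 52) (nat_lit 4) (nat_lit 56) (nat_lit 5) (nat_lit 56) (nat_lit 4) (nat_lit 285) (nat_lit 248) (nat_lit 247))) (XT.nd (nat_lit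 78) (nat_lit 456) (nat_lit 0) (XT.lf (nat_lit 0) (nat_lit 841394244) (nat_lit 380) (nat_lit 432096862) (nat_lit 76) (nat_lit 7447829615) (nat_lit 51) (nat_lit 5) (nat_lit 56) (nat_lit 5) (nat_lit 52) (nat_lit 4) (nat_lit 286) (nat_lit 248) (nat_lit 246)) (XT.nd (nat_lit 78) (nat_lit 228) (nat_lit 0) (XT.lf (nat_lit 0) (nat_lit 4307446217) (nat_lit 304) (nat_lit 3314559266) (nat_lit 0) (nat_lit 1298851188) (nat_lit 48) (nat_lit 5) (nat_lit 52) (nat_lit 4) (nat_lit 48) (nat_lit 4) (nat_lit 287) (nat_lit 248) (nat_lit 245)) (XT.lf (nat_lit 0) (nat_lit 2705759946) (nat_lit 228) (nat_lit 5172912413) (nat_lit 228) (nat_lit 1255410612) (nat_lit 45) (nat_lit 4) (nat_lit 48) (nat_lit 5) (nat_lit 48) (nat_lit 4) (nat_lit 288) (nat_lit 248) (nat_lit 244)))))) (XT.nd (nat_lit 390) (nat_lit 684) (nat_lit 0) (XT.nd (nat_lit 156) (nat_lit 456) (nat_lit 0) (XT.nd (nat_lit 78) (nat_lit 152) (nat_lit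 0) (XT.lf (nat_lit 0) (nat_lit 2117352312) (nat_lit 304) (nat_lit 442555058) (nat_lit 76) (nat_lit 6800592710) (nat_lit 44) (nat_lit 5) (nat_lit 48) (nat_lit 5) (nat_lit 45) (nat_lit 4) (nat_lit 289) (nat_lit 248) (nat_lit 243)) (XT.lf (nat_lit 0) (nat_lit 5580394495) (nat_lit 228) (nat_lit 3779000957) (nat_lit 0) (nat_lit 239887320) (nat_lit 42) (nat_lit 5) (nat_lit 45) (nat_lit 4) (nat_lit 42) (nat_lit 4) (nat_lit 290) (nat_lit 248) (nat_lit 242))) (XT.nd (nat_lit 78) (nat_lit 228) (nat_lit 0) (XT.lf (nat_lit 0) (nat_lit 2410228759) (nat_lit 228) (nat_lit 6765177340) (nat_lit 228) (nat_lit 676910314) (nat_lit 39) (nat_lit 4) (nat_lit 42) (nat_lit 5) (nat_lit 42) (nat_lit 4) (nat_lit 291) (nat_lit 248) (nat_lit 241)) (XT.nd (nat_lit 78) (nat_lit 152) (nat_lit 0) (XT.lf (nat_lit 0) (nat_lit 2679131109) (nat_lit 304) (nat_lit 1308200490) (nat_lit 76) (nat_lit 6131807840) (nat_lit 38)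 (nat_lit 5) (nat_lit 42) (nat_lit 5) (nat_lit 39) (nat_lit 4) (nat_lit 292) (nat_lit 248) (nat_lit 240)) (XT.lf (nat_lit 0) (nat_lit 5105403379) (nat_lit 152) (nat_lit 1033163874) (nat_lit 228) (nat_lit 4262482726) (nat_lit 36) (nat_lit 5) (nat_lit 38) (nat_lit 5) (nat_lit 39) (nat_lit 4) (nat_lit 293) (nat_lit 248) (nat_lit 239))))) (XT.nd (nat_lit 156) (nat_lit 380) (nat_lit 0) (XT.nd (nat_lit 78) (nat_lit 76) (nat_lit 0) (XT.lf (nat_lit 0) (nat_lit 1007116806) (nat_lit 228) (nat_lit 8715149643) (nat_lit 228) (nat_lit 977432914) (nat_lit 33) (nat_lit 4) (nat_lit 36) (nat_lit 5) (nat_lit 36) (nat_lit 4) (nat_lit 294) (nat_lit 248) (nat_lit 238)) (XT.lf (nat_lit 0) (nat_lit 2382386141) (nat_lit 304) (nat_lit 3439714548) (nat_lit 76) (nat_lit 5189957838) (nat_lit 32) (nat_lit 5) (nat_lit 36) (nat_lit 5) (nat_lit 33) (nat_lit 4) (nat_lit 295) (nat_lit 248) (nat_lit 237))) (XT.nd (nat_lit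 78) (nat_lit 228) (nat_lit 0) (XT.lf (nat_lit 0) (nat_lit 3032756059) (nat_lit 152) (nat_lit 2779123019) (nat_lit 228) (nat_lit 5530808415) (nat_lit 30) (nat_lit 5) (nat_lit 32) (nat_lit 5) (nat_lit 33) (nat_lit 4) (nat_lit 296) (nat_lit 248) (nat_lit 236)) (XT.nd (nat_lit 78) (nat_lit 228) (nat_lit 0) (XT.lf (nat_lit 0) (nat_lit 9367474501) (nat_lit 228) (nat_lit 1922114741) (nat_lit 0) (nat_lit 402698294) (nat_lit 30) (nat_lit 5) (nat_lit 33) (nat_lit 4) (nat_lit 30) (nat_lit 4) (nat_lit 297) (nat_lit 248) (nat_lit 235)) (XT.lf (nat_lit 0) (nat_lit 1021725979) (nat_lit 228) (nat_lit 7352250617) (nat_lit 76) (nat_lit 3684054196) (nat_lit 27) (nat_lit 5) (nat_lit 30) (nat_lit 5) (nat_lit 28) (nat_lit 4) (nat_lit 298) (nat_lit 248) (nat_lit 234))))))))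
noncomputable def xc71 : XT := (XT.nd (nat_lit 1560) (nat_lit 380) (nat_lit 0) (XT.nd (nat_lit 780) (nat_lit 456) (nat_lit 0) (XT.nd (nat_lit 390) (nat_lit 380) (nat_lit 0) (XT.nd (nat_lit 156) (nat_lit 228) (nat_lit 0) (XT.nd (nat_lit 78) (nat_lit 152) (nat_lit 0) (XT.lf (nat_lit 0) (nat_lit 4385381193) (nat_lit 228) (nat_lit 915817110) (nat_lit 76) (nat_lit 7142709147) (nat_lit 27) (nat_lit 5) (nat_lit 30) (nat_lit 5) (nat_lit 28) (nat_lit 4) (nat_lit 299) (nat_lit 248) (nat_lit 233)) (XT.lf (nat_lit 0) (nat_lit 5869794346) (nat_lit 152) (nat_lit 2038909361) (nat_lit 228) (nat_lit 4940940707) (nat_lit 25) (nat_lit 5) (nat_lit 27) (nat_lit 5) (nat_lit 28) (nat_lit 4) (nat_lit 300) (nat_lit 248) (nat_lit 232))) (XT.nd (nat_lit 78) (nat_lit 228) (nat_lit 0) (XT.lf (nat_lit 0) (nat_lit 11546810065) (nat_lit 228) (nat_lit 432326372) (nat_lit 0) (nat_lit 1299734903) (nat_lit 25) (nat_lit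 5) (nat_lit 28) (nat_lit 4) (nat_lit 25) (nat_lit 4) (nat_lit 301) (nat_lit 248) (nat_lit 231)) (XT.nd (nat_lit 78) (nat_lit 0) (nat_lit 0) (XT.lf (nat_lit 0) (nat_lit 1625615792) (nat_lit 228) (nat_lit 7292232324) (nat_lit 76) (nat_lit 4808517113) (nat_lit 22) (nat_lit 5) (nat_lit 25) (nat_lit 5) (nat_lit 23) (nat_lit 4) (nat_lit 302) (nat_lit 248) (nat_lit 230)) (XT.lf (nat_lit 0) (nat_lit 5006805569) (nat_lit 228) (nat_lit 720478555) (nat_lit 76) (nat_lit 8471953846) (nat_lit 22) (nat_lit 5) (nat_lit 25) (nat_lit 5) (nat_lit 23) (nat_lit 4) (nat_lit 303) (nat_lit 248) (nat_lit 229))))) (XT.nd (nat_lit 156) (nat_lit 304) (nat_lit 0) (XT.nd (nat_lit 78) (nat_lit 0) (nat_lit 0) (XT.lf (nat_lit 0) (nat_lit 6231676519) (nat_lit 76) (nat_lit 2333525380) (nat_lit 152) (nat_lit 6130255338) (nat_lit 21) (nat_lit 5) (nat_lit 22) (nat_lit 5) (nat_lit 23) (nat_lit 4) (nat_lit 304) (nat_lit 248)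 (nat_lit 228)) (XT.lf (nat_lit 0) (nat_lit 12245045669) (nat_lit 152) (nat_lit 1827641427) (nat_lit 0) (nat_lit 1146728982) (nat_lit 21) (nat_lit 5) (nat_lit 23) (nat_lit 4) (nat_lit 21) (nat_lit 4) (nat_lit 305) (nat_lit 248) (nat_lit 227))) (XT.nd (nat_lit 78) (nat_lit 76) (nat_lit 0) (XT.lf (nat_lit 0) (nat_lit 363292795) (nat_lit 228) (nat_lit 10649480420) (nat_lit 76) (nat_lit 4754887799) (nat_lit 18) (nat_lit 5) (nat_lit 21) (nat_lit 5) (nat_lit 19) (nat_lit 4) (nat_lit 306) (nat_lit 248) (nat_lit 226)) (XT.nd (nat_lit 78) (nat_lit 76) (nat_lit 0) (XT.lf (nat_lit 0) (nat_lit 3715837570) (nat_lit 228) (nat_lit 4058586455) (nat_lit 76) (nat_lit 8569149021) (nat_lit 18) (nat_lit 5) (nat_lit 21) (nat_lit 5) (nat_lit 19) (nat_lit 4) (nat_lit 307) (nat_lit 248) (nat_lit 225)) (XT.lf (nat_lit 0) (nat_lit 2816479443) (nat_lit 76) (nat_lit 4383976950) (nat_lit 152) (nat_lit 9749688325)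 (nat_lit 17) (nat_lit 5) (nat_lit 18) (nat_lit 5) (nat_lit 19) (nat_lit 4) (nat_lit 308) (nat_lit 248) (nat_lit 224)))))) (XT.nd (nat_lit 390) (nat_lit 152) (nat_lit 0) (XT.nd (nat_lit 156) (nat_lit 304) (nat_lit 0) (XT.nd (nat_lit 78) (nat_lit 0) (nat_lit 0) (XT.lf (nat_lit 0) (nat_lit 10042871669) (nat_lit 76) (nat_lit 807347570) (nat_lit 152) (nat_lit 6737362344) (nat_lit 17) (nat_lit 5) (nat_lit 18) (nat_lit 5) (nat_lit 19) (nat_lit 4) (nat_lit 309) (nat_lit 248) (nat_lit 223)) (XT.lf (nat_lit 0) (nat_lit 14653557849) (nat_lit 152) (nat_lit 802276583) (nat_lit 0) (nat_lit 2802579826) (nat_lit 17) (nat_lit 5) (nat_lit 19) (nat_lit 4) (nat_lit 17) (nat_lit 4) (nat_lit 310) (nat_lit 248) (nat_lit 222))) (XT.nd (nat_lit 78) (nat_lit 152) (nat_lit 0) (XT.lf (nat_lit 0) (nat_lit 6343315109) (nat_lit 152) (nat_lit 12344648325) (nat_lit 152) (nat_lit 272854746) (nat_lit 15) (nat_lit 4)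 (nat_lit 17) (nat_lit 5) (nat_lit 17) (nat_lit 4) (nat_lit 311) (nat_lit 248) (nat_lit 221)) (XT.nd (nat_lit 78) (nat_lit 76) (nat_lit 0) (XT.lf (nat_lit 0) (nat_lit 3065223964) (nat_lit 228) (nat_lit 5998384981) (nat_lit 76) (nat_lit 10635146834) (nat_lit 14) (nat_lit 5) (nat_lit 17) (nat_lit 5) (nat_lit 15) (nat_lit 4) (nat_lit 312) (nat_lit 248) (nat_lit 220)) (XT.lf (nat_lit 0) (nat_lit 856362101) (nat_lit 76) (nat_lit 5650341522) (nat_lit 152) (nat_lit 13969444104) (nat_lit 13) (nat_lit 5) (nat_lit 14) (nat_lit 5) (nat_lit 15) (nat_lit 4) (nat_lit 313) (nat_lit 248) (nat_lit 219))))) (XT.nd (nat_lit 156) (nat_lit 152) (nat_lit 0) (XT.nd (nat_lit 78) (nat_lit 0) (nat_lit 0) (XT.lf (nat_lit 0) (nat_lit 8145741566) (nat_lit 76) (nat_lit 2009805104) (nat_lit 152) (nat_lit 11135159520) (nat_lit 13) (nat_lit 5) (nat_lit 14) (nat_lit 5) (nat_lit 15) (nat_lit 4) (nat_lit 314) (nat_lit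 248) (nat_lit 218)) (XT.lf (nat_lit 0) (nat_lit 13951250567) (nat_lit 152) (nat_lit 6487990505) (nat_lit 0) (nat_lit 1708589031) (nat_lit 13) (nat_lit 5) (nat_lit 15) (nat_lit 4) (nat_lit 13) (nat_lit 4) (nat_lit 315) (nat_lit 248) (nat_lit 217))) (XT.nd (nat_lit 78) (nat_lit 76) (nat_lit 0) (XT.lf (nat_lit 0) (nat_lit 372929629) (nat_lit 76) (nat_lit 17541738668) (nat_lit 76) (nat_lit 5134301164) (nat_lit 12) (nat_lit 4) (nat_lit 13) (nat_lit 5) (nat_lit 13) (nat_lit 4) (nat_lit 316) (nat_lit 248) (nat_lit 216)) (XT.nd (nat_lit 78) (nat_lit 76) (nat_lit 0) (XT.lf (nat_lit 0) (nat_lit 7695993189) (nat_lit 76) (nat_lit 14430539419) (nat_lit 76) (nat_lit 1866172422) (nat_lit 12) (nat_lit 4) (nat_lit 13) (nat_lit 5) (nat_lit 13) (nat_lit 4) (nat_lit 317) (nat_lit 248) (nat_lit 215)) (XT.lf (nat_lit 0) (nat_lit 1457518543) (nat_lit 152) (nat_lit 9725910642) (nat_lit 76) (nat_lit 13801911446)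 (nat_lit 11) (nat_lit 5) (nat_lit 13) (nat_lit 5) (nat_lit 12) (nat_lit 4) (nat_lit 318) (nat_lit 248) (nat_lit 214))))))) (XT.nd (nat_lit 780) (nat_lit 152) (nat_lit 0) (XT.nd (nat_lit 390) (nat_lit 152) (nat_lit 0) (XT.nd (nat_lit 156) (nat_lit 0) (nat_lit 0) (XT.nd (nat_lit 78) (nat_lit 76) (nat_lit 0) (XT.lf (nat_lit 0) (nat_lit 4829685257) (nat_lit 152) (nat_lit 2955308556) (nat_lit 76) (nat_lit 18243880019) (nat_lit 11) (nat_lit 5) (nat_lit 13) (nat_lit 5) (nat_lit 12) (nat_lit 4) (nat_lit 319) (nat_lit 248) (nat_lit 213)) (XT.lf (nat_lit 0) (nat_lit 4194604622) (nat_lit 76) (nat_lit 4188970769) (nat_lit 152) (nat_lit 18740396172) (nat_lit 10) (nat_lit 5) (nat_lit 11) (nat_lit 5) (nat_lit 12) (nat_lit 4) (nat_lit 320) (nat_lit 248) (nat_lit 212))) (XT.nd (nat_lit 78) (nat_lit 0) (nat_lit 0) (XT.lf (nat_lit 0) (nat_lit 11712650168) (nat_lit 76) (nat_lit 401243188) (nat_lit 152)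 (nat_lit 16160035709) (nat_lit 10) (nat_lit 5) (nat_lit 11) (nat_lit 5) (nat_lit 12) (nat_lit 4) (nat_lit 321) (nat_lit 248) (nat_lit 211)) (XT.nd (nat_lit 78) (nat_lit 0) (nat_lit 0) (XT.lf (nat_lit 0) (nat_lit 16037079539) (nat_lit 152) (nat_lit 10020080248) (nat_lit 0) (nat_lit 3423946608) (nat_lit 10) (nat_lit 5) (nat_lit 12) (nat_lit 4) (nat_lit 10) (nat_lit 4) (nat_lit 322) (nat_lit 248) (nat_lit 210)) (XT.lf (nat_lit 0) (nat_lit 20115881794) (nat_lit 152) (nat_lit 3243603646) (nat_lit 0) (nat_lit 7391222001) (nat_lit 10) (nat_lit 5) (nat_lit 12) (nat_lit 4) (nat_lit 10) (nat_lit 4) (nat_lit 323) (nat_lit 248) (nat_lit 209))))) (XT.nd (nat_lit 156) (nat_lit 76) (nat_lit 0) (XT.nd (nat_lit 78) (nat_lit 0) (nat_lit 0) (XT.lf (nat_lit 0) (nat_lit 3915882605) (nat_lit 76) (nat_lit 20499002319) (nat_lit 76) (nat_lit 7668126468) (nat_lit 9) (nat_lit 4) (nat_lit 10) (nat_lit 5) (nat_lit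 10) (nat_lit 4) (nat_lit 324) (nat_lit 248) (nat_lit 208)) (XT.lf (nat_lit 0) (nat_lit 11466115707) (nat_lit 76) (nat_lit 17473667875) (nat_lit 76) (nat_lit 4541633874) (nat_lit 9) (nat_lit 4) (nat_lit 10) (nat_lit 5) (nat_lit 10) (nat_lit 4) (nat_lit 325) (nat_lit 248) (nat_lit 207))) (XT.nd (nat_lit 78) (nat_lit 76) (nat_lit 0) (XT.lf (nat_lit 0) (nat_lit 19317824218) (nat_lit 76) (nat_lit 14331210929) (nat_lit 76) (nat_lit 1302835831) (nat_lit 9) (nat_lit 4) (nat_lit 10) (nat_lit 5) (nat_lit 10) (nat_lit 4) (nat_lit 326) (nat_lit 248) (nat_lit 206)) (XT.nd (nat_lit 78) (nat_lit 0) (nat_lit 0) (XT.lf (nat_lit 0) (nat_lit 1990174912) (nat_lit 152) (nat_lit 9040269952) (nat_lit 76) (nat_lit 25465823196) (nat_lit 8) (nat_lit 5) (nat_lit 10) (nat_lit 5) (nat_lit 9) (nat_lit 4) (nat_lit 327) (nat_lit 248) (nat_lit 205)) (XT.lf (nat_lit 0) (nat_lit 5365403573) (nat_lit 152) (nat_lit 2208435409)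 (nat_lit 76) (nat_lit 30544938676) (nat_lit 8) (nat_lit 5) (nat_lit 10) (nat_lit 5) (nat_lit 9) (nat_lit 4) (nat_lit 328) (nat_lit 248) (nat_lit 204)))))) (XT.nd (nat_lit 390) (nat_lit 76) (nat_lit 0) (XT.nd (nat_lit 156) (nat_lit 0) (nat_lit 0) (XT.nd (nat_lit 78) (nat_lit 0) (nat_lit 0) (XT.lf (nat_lit 0) (nat_lit 5060016176) (nat_lit 76) (nat_lit 3891570152) (nat_lit 152) (nat_lit 30868743560) (nat_lit 7) (nat_lit 5) (nat_lit 8) (nat_lit 5) (nat_lit 9) (nat_lit 4) (nat_lit 329) (nat_lit 248) (nat_lit 203)) (XT.lf (nat_lit 0) (nat_lit 12702714895) (nat_lit 76) (nat_lit 15680592) (nat_lit 152) (nat_lit 28888523885) (nat_lit 7) (nat_lit 5) (nat_lit 8) (nat_lit 5) (nat_lit 9) (nat_lit 4) (nat_lit 330) (nat_lit 248) (nat_lit 202))) (XT.nd (nat_lit 78) (nat_lit 0) (nat_lit 0) (XT.lf (nat_lit 0) (nat_lit 16702031508) (nat_lit 152) (nat_lit 22882595882) (nat_lit 0) (nat_lit 3896810913) (nat_lit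 7) (nat_lit 5) (nat_lit 9) (nat_lit 4) (nat_lit 7) (nat_lit 4) (nat_lit 331) (nat_lit 248) (nat_lit 201)) (XT.nd (nat_lit 78) (nat_lit 0) (nat_lit 0) (XT.lf (nat_lit 0) (nat_lit 20851955958) (nat_lit 152) (nat_lit 16621127483) (nat_lit 0) (nat_lit 7978267545) (nat_lit 7) (nat_lit 5) (nat_lit 9) (nat_lit 4) (nat_lit 7) (nat_lit 4) (nat_lit 332) (nat_lit 248) (nat_lit 200)) (XT.lf (nat_lit 0) (nat_lit 25177804792) (nat_lit 152) (nat_lit 10104646205) (nat_lit 0) (nat_lit 12238908933) (nat_lit 7) (nat_lit 5) (nat_lit 9) (nat_lit 4) (nat_lit 7) (nat_lit 4) (nat_lit 333) (nat_lit 248) (nat_lit 199))))) (XT.nd (nat_lit 156) (nat_lit 0) (nat_lit 0) (XT.nd (nat_lit 78) (nat_lit 76) (nat_lit 0) (XT.lf (nat_lit 0) (nat_lit 29689877650) (nat_lit 152) (nat_lit 3317636615) (nat_lit 0) (nat_lit 16688879462) (nat_lit 7) (nat_lit 5) (nat_lit 9) (nat_lit 4) (nat_lit 7) (nat_lit 4) (nat_lit 334) (nat_lit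 248) (nat_lit 198)) (XT.lf (nat_lit 0) (nat_lit 3880253166) (nat_lit 76) (nat_lit 30579246022) (nat_lit 76) (nat_lit 17519102759) (nat_lit 6) (nat_lit 4) (nat_lit 7) (nat_lit 5) (nat_lit 7) (nat_lit 4) (nat_lit 335) (nat_lit 248) (nat_lit 197))) (XT.nd (nat_lit 78) (nat_lit 0) (nat_lit 0) (XT.lf (nat_lit 0) (nat_lit 11501405064) (nat_lit 76) (nat_lit 27994300630) (nat_lit 76) (nat_lit 14877828723) (nat_lit 6) (nat_lit 4) (nat_lit 7) (nat_lit 5) (nat_lit 7) (nat_lit 4) (nat_lit 336) (nat_lit 248) (nat_lit 196)) (XT.nd (nat_lit 78) (nat_lit 0) (nat_lit 0) (XT.lf (nat_lit 0) (nat_lit 19454268629) (nat_lit 76) (nat_lit 25302709239) (nat_lit 76) (nat_lit 12132591004) (nat_lit 6) (nat_lit 4) (nat_lit 7) (nat_lit 5) (nat_lit 7) (nat_lit 4) (nat_lit 337) (nat_lit 248) (nat_lit 195)) (XT.lf (nat_lit 0) (nat_lit 27757779251) (nat_lit 76) (nat_lit 22498063297) (nat_lit 76) (nat_lit 9276853322)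 (nat_lit 6) (nat_lit 4) (nat_lit 7) (nat_lit 5) (nat_lit 7) (nat_lit 4) (nat_lit 338) (nat_lit 248) (nat_lit 194))))))))
noncomputable def xc72 : XT := (XT.nd (nat_lit 1482) (nat_lit 76) (nat_lit 0) (XT.nd (nat_lit 702) (nat_lit 0) (nat_lit 0) (XT.nd (nat_lit 312) (nat_lit 76) (nat_lit 0) (XT.nd (nat_lit 156) (nat_lit 76) (nat_lit 0) (XT.nd (nat_lit 78) (nat_lit 0) (nat_lit 0) (XT.lf (nat_lit 0) (nat_lit 36431707192) (nat_lit 76) (nat_lit 19573685076) (nat_lit 76) (nat_lit 6303816301) (nat_lit 6) (nat_lit 4) (nat_lit 7) (nat_lit 5) (nat_lit 7) (nat_lit 4) (nat_lit 339) (nat_lit 248) (nat_lit 193)) (XT.lf (nat_lit 0) (nat_lit 45496704663) (nat_lit 76) (nat_lit 16522611771) (nat_lit 76) (nat_lit 3206401282) (nat_lit 6) (nat_lit 4) (nat_lit 7) (nat_lit 5) (nat_lit 7) (nat_lit 4) (nat_lit 340) (nat_lit 248) (nat_lit 192))) (XT.nd (nat_lit 78) (nat_lit 0) (nat_lit 0) (XT.lf (nat_lit 0) (nat_lit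 22037861) (nat_lit 152) (nat_lit 13315167838) (nat_lit 76) (nat_lit 54951943906) (nat_lit 5) (nat_lit 5) (nat_lit 7) (nat_lit 5) (nat_lit 6) (nat_lit 4) (nat_lit 341) (nat_lit 248) (nat_lit 191)) (XT.lf (nat_lit 0) (nat_lit 3282830439) (nat_lit 152) (nat_lit 6672576355) (nat_lit 76) (nat_lit 61548797245) (nat_lit 5) (nat_lit 5) (nat_lit 7) (nat_lit 5) (nat_lit 6) (nat_lit 4) (nat_lit 342) (nat_lit 248) (nat_lit 190)))) (XT.nd (nat_lit 156) (nat_lit 0) (nat_lit 0) (XT.nd (nat_lit 78) (nat_lit 0) (nat_lit 0) (XT.lf (nat_lit 0) (nat_lit 273388127) (nat_lit 76) (nat_lit 6417245335) (nat_lit 152) (nat_lit 68190192075) (nat_lit 4) (nat_lit 5) (nat_lit 5) (nat_lit 5) (nat_lit 6) (nat_lit 4) (nat_lit 343) (nat_lit 248) (nat_lit 189)) (XT.lf (nat_lit 0) (nat_lit 7761405861) (nat_lit 76) (nat_lit 2600516955) (nat_lit 152) (nat_lit 68059712753) (nat_lit 4) (nat_lit 5) (nat_lit 5) (nat_lit 5) (nat_lit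 6) (nat_lit 4) (nat_lit 344) (nat_lit 248) (nat_lit 188))) (XT.nd (nat_lit 78) (nat_lit 0) (nat_lit 0) (XT.lf (nat_lit 0) (nat_lit 14219532731) (nat_lit 152) (nat_lit 66573481057) (nat_lit 0) (nat_lit 1346346197) (nat_lit 4) (nat_lit 5) (nat_lit 6) (nat_lit 4) (nat_lit 4) (nat_lit 4) (nat_lit 345) (nat_lit 248) (nat_lit 187)) (XT.nd (nat_lit 78) (nat_lit 0) (nat_lit 0) (XT.lf (nat_lit 0) (nat_lit 18294357548) (nat_lit 152) (nat_lit 62359170659) (nat_lit 0) (nat_lit 5388236823) (nat_lit 4) (nat_lit 5) (nat_lit 6) (nat_lit 4) (nat_lit 4) (nat_lit 4) (nat_lit 346) (nat_lit 248) (nat_lit 186)) (XT.lf (nat_lit 0) (nat_lit 22555497874) (nat_lit 152) (nat_lit 57966663086) (nat_lit 0) (nat_lit 9618011253) (nat_lit 4) (nat_lit 5) (nat_lit 6) (nat_lit 4) (nat_lit 4) (nat_lit 4) (nat_lit 347) (nat_lit 248) (nat_lit 185)))))) (XT.nd (nat_lit 390) (nat_lit 0) (nat_lit 0) (XT.nd (nat_lit 156) (nat_lit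 0) (nat_lit 0) (XT.nd (nat_lit 78) (nat_lit 0) (nat_lit 0) (XT.lf (nat_lit 0) (nat_lit 27013099282) (nat_lit 152) (nat_lit 53385499985) (nat_lit 0) (nat_lit 14045740379) (nat_lit 4) (nat_lit 5) (nat_lit 6) (nat_lit 4) (nat_lit 4) (nat_lit 4) (nat_lit 348) (nat_lit 248) (nat_lit 184)) (XT.lf (nat_lit 0) (nat_lit 31677775108) (nat_lit 152) (nat_lit 48604773825) (nat_lit 0) (nat_lit 18681966413) (nat_lit 4) (nat_lit 5) (nat_lit 6) (nat_lit 4) (nat_lit 4) (nat_lit 4) (nat_lit 349) (nat_lit 248) (nat_lit 183))) (XT.nd (nat_lit 78) (nat_lit 0) (nat_lit 0) (XT.lf (nat_lit 0) (nat_lit 36560631724) (nat_lit 152) (nat_lit 43613101926) (nat_lit 0) (nat_lit 23537727987) (nat_lit 4) (nat_lit 5) (nat_lit 6) (nat_lit 4) (nat_lit 4) (nat_lit 4) (nat_lit 350) (nat_lit 248) (nat_lit 182)) (XT.nd (nat_lit 78) (nat_lit 0) (nat_lit 0) (XT.lf (nat_lit 0) (nat_lit 41673294978) (nat_lit 152) (nat_lit 38398599355)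 (nat_lit 0) (nat_lit 28624586441) (nat_lit 4) (nat_lit 5) (nat_lit 6) (nat_lit 4) (nat_lit 4) (nat_lit 4) (nat_lit 351) (nat_lit 248) (nat_lit 181)) (XT.lf (nat_lit 0) (nat_lit 47027937878) (nat_lit 152) (nat_lit 32948850627) (nat_lit 0) (nat_lit 33954653340) (nat_lit 4) (nat_lit 5) (nat_lit 6) (nat_lit 4) (nat_lit 4) (nat_lit 4) (nat_lit 352) (nat_lit 248) (nat_lit 180))))) (XT.nd (nat_lit 156) (nat_lit 0) (nat_lit 0) (XT.nd (nat_lit 78) (nat_lit 0) (nat_lit 0) (XT.lf (nat_lit 0) (nat_lit 52637309574) (nat_lit 152) (nat_lit 27250880153) (nat_lit 0) (nat_lit 39540619321) (nat_lit 4) (nat_lit 5) (nat_lit 6) (nat_lit 4) (nat_lit 4) (nat_lit 4) (nat_lit 353) (nat_lit 248) (nat_lit 179)) (XT.lf (nat_lit 0) (nat_lit 58514765713) (nat_lit 152) (nat_lit 21291121335) (nat_lit 0) (nat_lit 45395784303) (nat_lit 4) (nat_lit 5) (nat_lit 6) (nat_lit 4) (nat_lit 4) (nat_lit 4) (nat_lit 354) (nat_lit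 248) (nat_lit 178))) (XT.nd (nat_lit 78) (nat_lit 0) (nat_lit 0) (XT.lf (nat_lit 0) (nat_lit 64674300237) (nat_lit 152) (nat_lit 15055384271) (nat_lit 0) (nat_lit 51534089154) (nat_lit 4) (nat_lit 5) (nat_lit 6) (nat_lit 4) (nat_lit 4) (nat_lit 4) (nat_lit 355) (nat_lit 248) (nat_lit 177)) (XT.nd (nat_lit 78) (nat_lit 0) (nat_lit 0) (XT.lf (nat_lit 0) (nat_lit 71130578706) (nat_lit 152) (nat_lit 8528821969) (nat_lit 0) (nat_lit 57970148887) (nat_lit 4) (nat_lit 5) (nat_lit 6) (nat_lit 4) (nat_lit 4) (nat_lit 4) (nat_lit 356) (nat_lit 248) (nat_lit 176)) (XT.lf (nat_lit 0) (nat_lit 77898973211) (nat_lit 152) (nat_lit 1695894993) (nat_lit 0) (nat_lit 64719287453) (nat_lit 4) (nat_lit 5) (nat_lit 6) (nat_lit 4) (nat_lit 4) (nat_lit 4) (nat_lit 357) (nat_lit 248) (nat_lit 175))))))) (XT.nd (nat_lit 780) (nat_lit 0) (nat_lit 0) (XT.nd (nat_lit 390) (nat_lit 0) (nat_lit 0) (XT.nd (nat_lit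 156) (nat_lit 0) (nat_lit 0) (XT.nd (nat_lit 78) (nat_lit 0) (nat_lit 0) (XT.lf (nat_lit 0) (nat_lit 5640186726) (nat_lit 76) (nat_lit 79443471372) (nat_lit 76) (nat_lit 66245446623) (nat_lit 3) (nat_lit 4) (nat_lit 4) (nat_lit 5) (nat_lit 4) (nat_lit 4) (nat_lit 358) (nat_lit 248) (nat_lit 174)) (XT.lf (nat_lit 0) (nat_lit 13383244034) (nat_lit 76) (nat_lit 79263058644) (nat_lit 76) (nat_lit 66047568190) (nat_lit 3) (nat_lit 4) (nat_lit 4) (nat_lit 5) (nat_lit 4) (nat_lit 4) (nat_lit 359) (nat_lit 248) (nat_lit 173))) (XT.nd (nat_lit 78) (nat_lit 0) (nat_lit 0) (XT.lf (nat_lit 0) (nat_lit 21495638831) (nat_lit 76) (nat_lit 79081921270) (nat_lit 76) (nat_lit 65849796812) (nat_lit 3) (nat_lit 4) (nat_lit 4) (nat_lit 5) (nat_lit 4) (nat_lit 4) (nat_lit 360) (nat_lit 248) (nat_lit 172)) (XT.nd (nat_lit 78) (nat_lit 0) (nat_lit 0) (XT.lf (nat_lit 0) (nat_lit 29996686344) (nat_lit 76) (nat_lit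 78899627970) (nat_lit 76) (nat_lit 65651661603) (nat_lit 3) (nat_lit 4) (nat_lit 4) (nat_lit 5) (nat_lit 4) (nat_lit 4) (nat_lit 361) (nat_lit 248) (nat_lit 171)) (XT.lf (nat_lit 0) (nat_lit 38906627161) (nat_lit 76) (nat_lit 78715744712) (nat_lit 76) (nat_lit 65452690813) (nat_lit 3) (nat_lit 4) (nat_lit 4) (nat_lit 5) (nat_lit 4) (nat_lit 4) (nat_lit 362) (nat_lit 248) (nat_lit 170))))) (XT.nd (nat_lit 156) (nat_lit 0) (nat_lit 0) (XT.nd (nat_lit 78) (nat_lit 0) (nat_lit 0) (XT.lf (nat_lit 0) (nat_lit 48246675429) (nat_lit 76) (nat_lit 78529833680) (nat_lit 76) (nat_lit 65252410702) (nat_lit 3) (nat_lit 4) (nat_lit 4) (nat_lit 5) (nat_lit 4) (nat_lit 4) (nat_lit 363) (nat_lit 248) (nat_lit 169)) (XT.lf (nat_lit 0) (nat_lit 58039069357) (nat_lit 76) (nat_lit 78341452227) (nat_lit 76) (nat_lit 65050344413) (nat_lit 3) (nat_lit 4) (nat_lit 4) (nat_lit 5) (nat_lit 4) (nat_lit 4) (nat_lit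 364) (nat_lit 248) (nat_lit 168))) (XT.nd (nat_lit 78) (nat_lit 0) (nat_lit 0) (XT.lf (nat_lit 0) (nat_lit 68307124168) (nat_lit 76) (nat_lit 78150151828) (nat_lit 76) (nat_lit 64846010835) (nat_lit 3) (nat_lit 4) (nat_lit 4) (nat_lit 5) (nat_lit 4) (nat_lit 4) (nat_lit 365) (nat_lit 248) (nat_lit 167)) (XT.nd (nat_lit 78) (nat_lit 0) (nat_lit 0) (XT.lf (nat_lit 0) (nat_lit 79075287612) (nat_lit 76) (nat_lit 77955477003) (nat_lit 76) (nat_lit 64638923460) (nat_lit 3) (nat_lit 4) (nat_lit 4) (nat_lit 5) (nat_lit 4) (nat_lit 4) (nat_lit 366) (nat_lit 248) (nat_lit 166)) (XT.lf (nat_lit 0) (nat_lit 90369198174) (nat_lit 76) (nat_lit 77756964243) (nat_lit 76) (nat_lit 64428589224) (nat_lit 3) (nat_lit 4) (nat_lit 4) (nat_lit 5) (nat_lit 4) (nat_lit 4) (nat_lit 367) (nat_lit 248) (nat_lit 165)))))) (XT.nd (nat_lit 390) (nat_lit 0) (nat_lit 0) (XT.nd (nat_lit 156) (nat_lit 0) (nat_lit 0)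 (XT.nd (nat_lit 78) (nat_lit 0) (nat_lit 0) (XT.lf (nat_lit 0) (nat_lit 102215746117) (nat_lit 76) (nat_lit 77554140897) (nat_lit 76) (nat_lit 64214507329) (nat_lit 3) (nat_lit 4) (nat_lit 4) (nat_lit 5) (nat_lit 4) (nat_lit 4) (nat_lit 368) (nat_lit 248) (nat_lit 164)) (XT.lf (nat_lit 0) (nat_lit 114643137507) (nat_lit 76) (nat_lit 77346524053) (nat_lit 76) (nat_lit 63996168057) (nat_lit 3) (nat_lit 4) (nat_lit 4) (nat_lit 5) (nat_lit 4) (nat_lit 4) (nat_lit 369) (nat_lit 248) (nat_lit 163))) (XT.nd (nat_lit 78) (nat_lit 0) (nat_lit 0) (XT.lf (nat_lit 0) (nat_lit 127680961371) (nat_lit 76) (nat_lit 77133619385) (nat_lit 76) (nat_lit 63773051554) (nat_lit 3) (nat_lit 4) (nat_lit 4) (nat_lit 5) (nat_lit 4) (nat_lit 4) (nat_lit 370) (nat_lit 248) (nat_lit 162)) (XT.nd (nat_lit 78) (nat_lit 0) (nat_lit 0) (XT.lf (nat_lit 0) (nat_lit 141360260147) (nat_lit 76) (nat_lit 76914919978) (nat_lit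 76) (nat_lit 63544626588) (nat_lit 3) (nat_lit 4) (nat_lit 4) (nat_lit 5) (nat_lit 4) (nat_lit 4) (nat_lit 371) (nat_lit 248) (nat_lit 161)) (XT.lf (nat_lit 0) (nat_lit 155713603595) (nat_lit 76) (nat_lit 76689905117) (nat_lit 76) (nat_lit 63310349291) (nat_lit 3) (nat_lit 4) (nat_lit 4) (nat_lit 5) (nat_lit 4) (nat_lit 4) (nat_lit 372) (nat_lit 248) (nat_lit 160))))) (XT.nd (nat_lit 156) (nat_lit 0) (nat_lit 0) (XT.nd (nat_lit 78) (nat_lit 0) (nat_lit 0) (XT.lf (nat_lit 0) (nat_lit 170775166341) (nat_lit 76) (nat_lit 76458039055) (nat_lit 76) (nat_lit 63069661861) (nat_lit 3) (nat_lit 4) (nat_lit 4) (nat_lit 5) (nat_lit 4) (nat_lit 4) (nat_lit 373) (nat_lit 248) (nat_lit 159)) (XT.lf (nat_lit 0) (nat_lit 186580809250) (nat_lit 76) (nat_lit 76218769727) (nat_lit 76) (nat_lit 62821991231) (nat_lit 3) (nat_lit 4) (nat_lit 4) (nat_lit 5) (nat_lit 4) (nat_lit 4) (nat_lit 374) (nat_lit 248)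 (nat_lit 158))) (XT.nd (nat_lit 78) (nat_lit 0) (nat_lit 0) (XT.lf (nat_lit 0) (nat_lit 203168164803) (nat_lit 76) (nat_lit 75971527447) (nat_lit 76) (nat_lit 62566747710) (nat_lit 3) (nat_lit 4) (nat_lit 4) (nat_lit 5) (nat_lit 4) (nat_lit 4) (nat_lit 375) (nat_lit 248) (nat_lit 157)) (XT.nd (nat_lit 78) (nat_lit 0) (nat_lit 0) (XT.lf (nat_lit 0) (nat_lit 220576726706) (nat_lit 76) (nat_lit 75715723541) (nat_lit 76) (nat_lit 62303323575) (nat_lit 3) (nat_lit 4) (nat_lit 4) (nat_lit 5) (nat_lit 4) (nat_lit 4) (nat_lit 376) (nat_lit 248) (nat_lit 156)) (XT.lf (nat_lit 0) (nat_lit 238847943914) (nat_lit 76) (nat_lit 75450748952) (nat_lit 76) (nat_lit 62031091625) (nat_lit 3) (nat_lit 4) (nat_lit 4) (nat_lit 5) (nat_lit 4) (nat_lit 4) (nat_lit 377) (nat_lit 248) (nat_lit 155))))))))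
noncomputable def xc73 : XT := (XT.nd (nat_lit 33852) (nat_lit 0) (nat_lit 1064) (XT.nd (nat_lit 702) (nat_lit 0) (nat_lit 0) (XT.nd (nat_lit 312) (nat_lit 0) (nat_lit 0) (XT.nd (nat_lit 156) (nat_lit 0) (nat_lit 0) (XT.nd (nat_lit 78) (nat_lit 0) (nat_lit 0) (XT.lf (nat_lit 0) (nat_lit 258025319326) (nat_lit 76) (nat_lit 75175972790) (nat_lit 76) (nat_lit 61749403690) (nat_lit 3) (nat_lit 4) (nat_lit 4) (nat_lit 5) (nat_lit 4) (nat_lit 4) (nat_lit 378) (nat_lit 248) (nat_lit 154)) (XT.lf (nat_lit 0) (nat_lit 278154513360) (nat_lit 76) (nat_lit 74890740824) (nat_lit 76) (nat_lit 61457589084) (nat_lit 3) (nat_lit 4) (nat_lit 4) (nat_lit 5) (nat_lit 4) (nat_lit 4) (nat_lit 379) (nat_lit 248) (nat_lit 153))) (XT.nd (nat_lit 78) (nat_lit 0) (nat_lit 0) (XT.lf (nat_lit 0) (nat_lit 299283452668) (nat_lit 76) (nat_lit 74594373932) (nat_lit 76) (nat_lit 61154953010) (nat_lit 3) (nat_lit 4)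 (nat_lit 4) (nat_lit 5) (nat_lit 4) (nat_lit 4) (nat_lit 380) (nat_lit 248) (nat_lit 152)) (XT.lf (nat_lit 0) (nat_lit 321462444248) (nat_lit 76) (nat_lit 74286166477) (nat_lit 76) (nat_lit 60840774906) (nat_lit 3) (nat_lit 4) (nat_lit 4) (nat_lit 5) (nat_lit 4) (nat_lit 4) (nat_lit 381) (nat_lit 248) (nat_lit 151)))) (XT.nd (nat_lit 156) (nat_lit 0) (nat_lit 0) (XT.nd (nat_lit 78) (nat_lit 0) (nat_lit 0) (XT.lf (nat_lit 0) (nat_lit 344744295224) (nat_lit 76) (nat_lit 73965384632) (nat_lit 76) (nat_lit 60514306729) (nat_lit 3) (nat_lit 4) (nat_lit 4) (nat_lit 5) (nat_lit 4) (nat_lit 4) (nat_lit 382) (nat_lit 248) (nat_lit 150)) (XT.lf (nat_lit 0) (nat_lit 369184438573) (nat_lit 76) (nat_lit 73631264632) (nat_lit 76) (nat_lit 60174771174) (nat_lit 3) (nat_lit 4) (nat_lit 4) (nat_lit 5) (nat_lit 4) (nat_lit 4) (nat_lit 383) (nat_lit 248) (nat_lit 149))) (XT.nd (nat_lit 78) (nat_lit 0)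 (nat_lit 0) (XT.lf (nat_lit 0) (nat_lit 394841065114) (nat_lit 76) (nat_lit 73283010951) (nat_lit 76) (nat_lit 59821359823) (nat_lit 3) (nat_lit 4) (nat_lit 4) (nat_lit 5) (nat_lit 4) (nat_lit 4) (nat_lit 384) (nat_lit 248) (nat_lit 148)) (XT.nd (nat_lit 78) (nat_lit 0) (nat_lit 0) (XT.lf (nat_lit 0) (nat_lit 421775262052) (nat_lit 76) (nat_lit 72919794416) (nat_lit 76) (nat_lit 59453231220) (nat_lit 3) (nat_lit 4) (nat_lit 4) (nat_lit 5) (nat_lit 4) (nat_lit 4) (nat_lit 385) (nat_lit 248) (nat_lit 147)) (XT.lf (nat_lit 0) (nat_lit 450051158427) (nat_lit 76) (nat_lit 72540750224) (nat_lit 76) (nat_lit 59069508869) (nat_lit 3) (nat_lit 4) (nat_lit 4) (nat_lit 5) (nat_lit 4) (nat_lit 4) (nat_lit 386) (nat_lit 248) (nat_lit 146)))))) (XT.nd (nat_lit 32760) (nat_lit 0) (nat_lit 2964) (XT.nd (nat_lit 32526) (nat_lit 0) (nat_lit 3724) (XT.nd (nat_lit 32448) (nat_lit 0) (nat_lit 4332) (XT.lf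 (nat_lit 0) (nat_lit 479736077803) (nat_lit 76) (nat_lit 72144975890) (nat_lit 76) (nat_lit 58669279144) (nat_lit 3) (nat_lit 4) (nat_lit 4) (nat_lit 5) (nat_lit 4) (nat_lit 4) (nat_lit 387) (nat_lit 248) (nat_lit 145)) (XT.lf (nat_lit 0) (nat_lit 768493601) (nat_lit 304) (nat_lit 1623005129) (nat_lit 304) (nat_lit 1623005129) (nat_lit 60) (nat_lit 4) (nat_lit 64) (nat_lit 5) (nat_lit 64) (nat_lit 4) (nat_lit 282) (nat_lit 249) (nat_lit 249))) (XT.nd (nat_lit 78) (nat_lit 532) (nat_lit 0) (XT.lf (nat_lit 0) (nat_lit 124369859) (nat_lit 380) (nat_lit 963063791) (nat_lit 76) (nat_lit 7101749190) (nat_lit 59) (nat_lit 5) (nat_lit 64) (nat_lit 5) (nat_lit 60) (nat_lit 4) (nat_lit 283) (nat_lit 249) (nat_lit 248)) (XT.nd (nat_lit 78) (nat_lit 304) (nat_lit 0) (XT.lf (nat_lit 0) (nat_lit 3501645629) (nat_lit 304) (nat_lit 3619217737) (nat_lit 0) (nat_lit 1236842811) (nat_lit 56) (nat_lit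 5) (nat_lit 60) (nat_lit 4) (nat_lit 56) (nat_lit 4) (nat_lit 284) (nat_lit 249) (nat_lit 247)) (XT.lf (nat_lit 0) (nat_lit 2087425916) (nat_lit 304) (nat_lit 4884185020) (nat_lit 304) (nat_lit 1567209000) (nat_lit 52) (nat_lit 4) (nat_lit 56) (nat_lit 5) (nat_lit 56) (nat_lit 4) (nat_lit 285) (nat_lit 249) (nat_lit 246))))) (XT.nd (nat_lit 156) (nat_lit 456) (nat_lit 0) (XT.nd (nat_lit 78) (nat_lit 228) (nat_lit 0) (XT.lf (nat_lit 0) (nat_lit 1746198185) (nat_lit 380) (nat_lit 739339455) (nat_lit 76) (nat_lit 6246277899) (nat_lit 51) (nat_lit 5) (nat_lit 56) (nat_lit 5) (nat_lit 52) (nat_lit 4) (nat_lit 286) (nat_lit 249) (nat_lit 245)) (XT.lf (nat_lit 0) (nat_lit 5120637482) (nat_lit 304) (nat_lit 3717090643) (nat_lit 0) (nat_lit 98353818) (nat_lit 48) (nat_lit 5) (nat_lit 52) (nat_lit 4) (nat_lit 48) (nat_lit 4) (nat_lit 287) (nat_lit 249) (nat_lit 244))) (XT.nd (nat_lit 78) (nat_lit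 228) (nat_lit 0) (XT.lf (nat_lit 0) (nat_lit 2198033345) (nat_lit 228) (nat_lit 6421472320) (nat_lit 228) (nat_lit 533563160) (nat_lit 45) (nat_lit 4) (nat_lit 48) (nat_lit 5) (nat_lit 48) (nat_lit 4) (nat_lit 288) (nat_lit 249) (nat_lit 243)) (XT.nd (nat_lit 78) (nat_lit 152) (nat_lit 0) (XT.lf (nat_lit 0) (nat_lit 2752207187) (nat_lit 304) (nat_lit 1070289661) (nat_lit 76) (nat_lit 5559749451) (nat_lit 44) (nat_lit 5) (nat_lit 48) (nat_lit 5) (nat_lit 45) (nat_lit 4) (nat_lit 289) (nat_lit 249) (nat_lit 242)) (XT.lf (nat_lit 0) (nat_lit 5087549608) (nat_lit 152) (nat_lit 1051480561) (nat_lit 228) (nat_lit 3485933041) (nat_lit 42) (nat_lit 5) (nat_lit 44) (nat_lit 5) (nat_lit 45) (nat_lit 4) (nat_lit 290) (nat_lit 249) (nat_lit 241))))))) (XT.nd (nat_lit 780) (nat_lit 608) (nat_lit 0) (XT.nd (nat_lit 390) (nat_lit 532) (nat_lit 0) (XT.nd (nat_lit 156) (nat_lit 456) (nat_lit 0) (XT.nd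 (nat_lit 78) (nat_lit 76) (nat_lit 0) (XT.lf (nat_lit 0) (nat_lit 1554036974) (nat_lit 228) (nat_lit 8090570717) (nat_lit 228) (nat_lit 237978251) (nat_lit 39) (nat_lit 4) (nat_lit 42) (nat_lit 5) (nat_lit 42) (nat_lit 4) (nat_lit 291) (nat_lit 249) (nat_lit 240)) (XT.lf (nat_lit 0) (nat_lit 3044810518) (nat_lit 304) (nat_lit 2288971131) (nat_lit 76) (nat_lit 4818351349) (nat_lit 38) (nat_lit 5) (nat_lit 42) (nat_lit 5) (nat_lit 39) (nat_lit 4) (nat_lit 292) (nat_lit 249) (nat_lit 239))) (XT.nd (nat_lit 78) (nat_lit 304) (nat_lit 0) (XT.lf (nat_lit 0) (nat_lit 4006158249) (nat_lit 152) (nat_lit 2424541271) (nat_lit 228) (nat_lit 4007122780) (nat_lit 36) (nat_lit 5) (nat_lit 38) (nat_lit 5) (nat_lit 39) (nat_lit 4) (nat_lit 293) (nat_lit 249) (nat_lit 238)) (XT.nd (nat_lit 78) (nat_lit 304) (nat_lit 0) (XT.lf (nat_lit 0) (nat_lit 9921551141) (nat_lit 228) (nat_lit 223784211) (nat_lit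 0) (nat_lit 595875286) (nat_lit 36) (nat_lit 5) (nat_lit 39) (nat_lit 4) (nat_lit 36) (nat_lit 4) (nat_lit 294) (nat_lit 249) (nat_lit 237)) (XT.lf (nat_lit 0) (nat_lit 2476407699) (nat_lit 304) (nat_lit 4807029984) (nat_lit 76) (nat_lit 3773031656) (nat_lit 32) (nat_lit 5) (nat_lit 36) (nat_lit 5) (nat_lit 33) (nat_lit 4) (nat_lit 295) (nat_lit 249) (nat_lit 236))))) (XT.nd (nat_lit 156) (nat_lit 380) (nat_lit 0) (XT.nd (nat_lit 78) (nat_lit 0) (nat_lit 0) (XT.lf (nat_lit 0) (nat_lit 1536681422) (nat_lit 152) (nat_lit 4293448409) (nat_lit 228) (nat_lit 5560840439) (nat_lit 30) (nat_lit 5) (nat_lit 32) (nat_lit 5) (nat_lit 33) (nat_lit 4) (nat_lit 296) (nat_lit 249) (nat_lit 235)) (XT.lf (nat_lit 0) (nat_lit 8201347024) (nat_lit 152) (nat_lit 1126723735) (nat_lit 228) (nat_lit 2415461732) (nat_lit 30) (nat_lit 5) (nat_lit 32) (nat_lit 5) (nat_lit 33) (nat_lit 4) (nat_lit 297) (nat_lit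 249) (nat_lit 234))) (XT.nd (nat_lit 78) (nat_lit 152) (nat_lit 0) (XT.lf (nat_lit 0) (nat_lit 838527598) (nat_lit 228) (nat_lit 9141219090) (nat_lit 76) (nat_lit 2134444439) (nat_lit 27) (nat_lit 5) (nat_lit 30) (nat_lit 5) (nat_lit 28) (nat_lit 4) (nat_lit 298) (nat_lit 249) (nat_lit 233)) (XT.nd (nat_lit 78) (nat_lit 152) (nat_lit 0) (XT.lf (nat_lit 0) (nat_lit 4153324568) (nat_lit 228) (nat_lit 2783084999) (nat_lit 76) (nat_lit 5566169764) (nat_lit 27) (nat_lit 5) (nat_lit 30) (nat_lit 5) (nat_lit 28) (nat_lit 4) (nat_lit 299) (nat_lit 249) (nat_lit 232)) (XT.lf (nat_lit 0) (nat_lit 3863749626) (nat_lit 152) (nat_lit 3735045816) (nat_lit 228) (nat_lit 5313478803) (nat_lit 25) (nat_lit 5) (nat_lit 27) (nat_lit 5) (nat_lit 28) (nat_lit 4) (nat_lit 300) (nat_lit 249) (nat_lit 231)))))) (XT.nd (nat_lit 390) (nat_lit 304) (nat_lit 0) (XT.nd (nat_lit 156) (nat_lit 76) (nat_lit 0) (XT.nd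 (nat_lit 78) (nat_lit 228) (nat_lit 0) (XT.lf (nat_lit 0) (nat_lit 10789143772) (nat_lit 152) (nat_lit 381333211) (nat_lit 228) (nat_lit 2174407682) (nat_lit 25) (nat_lit 5) (nat_lit 27) (nat_lit 5) (nat_lit 28) (nat_lit 4) (nat_lit 301) (nat_lit 249) (nat_lit 230)) (XT.lf (nat_lit 0) (nat_lit 1111002888) (nat_lit 228) (nat_lit 9615780822) (nat_lit 76) (nat_lit 3070317839) (nat_lit 22) (nat_lit 5) (nat_lit 25) (nat_lit 5) (nat_lit 23) (nat_lit 4) (nat_lit 302) (nat_lit 249) (nat_lit 229))) (XT.nd (nat_lit 78) (nat_lit 76) (nat_lit 0) (XT.lf (nat_lit 0) (nat_lit 4448706387) (nat_lit 228) (nat_lit 3116046053) (nat_lit 76) (nat_lit 6707449941) (nat_lit 22) (nat_lit 5) (nat_lit 25) (nat_lit 5) (nat_lit 23) (nat_lit 4) (nat_lit 303) (nat_lit 249) (nat_lit 228)) (XT.nd (nat_lit 78) (nat_lit 0) (nat_lit 0) (XT.lf (nat_lit 0) (nat_lit 3686043339) (nat_lit 76) (nat_lit 4239899408) (nat_lit 152)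 (nat_lit 6846588115) (nat_lit 21) (nat_lit 5) (nat_lit 22) (nat_lit 5) (nat_lit 23) (nat_lit 4) (nat_lit 304) (nat_lit 249) (nat_lit 227)) (XT.lf (nat_lit 0) (nat_lit 10798078642) (nat_lit 76) (nat_lit 748715308) (nat_lit 152) (nat_lit 3752694160) (nat_lit 21) (nat_lit 5) (nat_lit 22) (nat_lit 5) (nat_lit 23) (nat_lit 4) (nat_lit 305) (nat_lit 249) (nat_lit 226))))) (XT.nd (nat_lit 156) (nat_lit 76) (nat_lit 0) (XT.nd (nat_lit 78) (nat_lit 76) (nat_lit 0) (XT.lf (nat_lit 0) (nat_lit 2306213857) (nat_lit 152) (nat_lit 13044135248) (nat_lit 152) (nat_lit 502456276) (nat_lit 19) (nat_lit 4) (nat_lit 21) (nat_lit 5) (nat_lit 21) (nat_lit 4) (nat_lit 306) (nat_lit 249) (nat_lit 225)) (XT.lf (nat_lit 0) (nat_lit 2827376907) (nat_lit 228) (nat_lit 7013959001) (nat_lit 76) (nat_lit 6589755544) (nat_lit 18) (nat_lit 5) (nat_lit 21) (nat_lit 5) (nat_lit 19) (nat_lit 4) (nat_lit 307) (nat_lit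 249) (nat_lit 224))) (XT.nd (nat_lit 78) (nat_lit 76) (nat_lit 0) (XT.lf (nat_lit 0) (nat_lit 6231076564) (nat_lit 228) (nat_lit 291996312) (nat_lit 76) (nat_lit 10518676335) (nat_lit 18) (nat_lit 5) (nat_lit 21) (nat_lit 5) (nat_lit 19) (nat_lit 4) (nat_lit 308) (nat_lit 249) (nat_lit 223)) (XT.nd (nat_lit 78) (nat_lit 0) (nat_lit 0) (XT.lf (nat_lit 0) (nat_lit 6862798374) (nat_lit 76) (nat_lit 2977177623) (nat_lit 152) (nat_lit 7841291468) (nat_lit 17) (nat_lit 5) (nat_lit 18) (nat_lit 5) (nat_lit 19) (nat_lit 4) (nat_lit 309) (nat_lit 249) (nat_lit 222)) (XT.lf (nat_lit 0) (nat_lit 13574621827) (nat_lit 152) (nat_lit 4102526338) (nat_lit 0) (nat_lit 678423012) (nat_lit 17) (nat_lit 5) (nat_lit 19) (nat_lit 4) (nat_lit 17) (nat_lit 4) (nat_lit 310) (nat_lit 249) (nat_lit 221))))))))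
noncomputable def xc74 : XT := (XT.nd (nat_lit 1482) (nat_lit 304) (nat_lit 0) (XT.nd (nat_lit 702) (nat_lit 228) (nat_lit 0) (XT.nd (nat_lit 312) (nat_lit 152) (nat_lit 0) (XT.nd (nat_lit 156) (nat_lit 76) (nat_lit 0) (XT.nd (nat_lit 78) (nat_lit 76) (nat_lit 0) (XT.lf (nat_lit 0) (nat_lit 2874550160) (nat_lit 152) (nat_lit 14647162347) (nat_lit 152) (nat_lit 1540663002) (nat_lit 15) (nat_lit 4) (nat_lit 17) (nat_lit 5) (nat_lit 17) (nat_lit 4) (nat_lit 311) (nat_lit 249) (nat_lit 220)) (XT.lf (nat_lit 0) (nat_lit 1804967396) (nat_lit 228) (nat_lit 9606602399) (nat_lit 76) (nat_lit 8391415761) (nat_lit 14) (nat_lit 5) (nat_lit 17) (nat_lit 5) (nat_lit 15) (nat_lit 4) (nat_lit 312) (nat_lit 249) (nat_lit 219))) (XT.nd (nat_lit 78) (nat_lit 76) (nat_lit 0) (XT.lf (nat_lit 0) (nat_lit 5201623421) (nat_lit 228) (nat_lit 2834206328) (nat_lit 76) (nat_lit 12546818882) (nat_lit 14) (nat_lit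 5) (nat_lit 17) (nat_lit 5) (nat_lit 15) (nat_lit 4) (nat_lit 313) (nat_lit 249) (nat_lit 218)) (XT.lf (nat_lit 0) (nat_lit 4307405561) (nat_lit 76) (nat_lit 4466548297) (nat_lit 152) (nat_lit 12627107385) (nat_lit 13) (nat_lit 5) (nat_lit 14) (nat_lit 5) (nat_lit 15) (nat_lit 4) (nat_lit 314) (nat_lit 249) (nat_lit 217)))) (XT.nd (nat_lit 156) (nat_lit 152) (nat_lit 0) (XT.nd (nat_lit 78) (nat_lit 0) (nat_lit 0) (XT.lf (nat_lit 0) (nat_lit 11798957553) (nat_lit 76) (nat_lit 713809357) (nat_lit 152) (nat_lit 9748289950) (nat_lit 13) (nat_lit 5) (nat_lit 14) (nat_lit 5) (nat_lit 15) (nat_lit 4) (nat_lit 315) (nat_lit 249) (nat_lit 216)) (XT.lf (nat_lit 0) (nat_lit 16430952112) (nat_lit 152) (nat_lit 3652094328) (nat_lit 0) (nat_lit 3081437271) (nat_lit 13) (nat_lit 5) (nat_lit 15) (nat_lit 4) (nat_lit 13) (nat_lit 4) (nat_lit 316) (nat_lit 249) (nat_lit 215))) (XT.nd (nat_lit 78) (nat_lit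 76) (nat_lit 0) (XT.lf (nat_lit 0) (nat_lit 3500899302) (nat_lit 76) (nat_lit 17055322913) (nat_lit 76) (nat_lit 3556351412) (nat_lit 12) (nat_lit 4) (nat_lit 13) (nat_lit 5) (nat_lit 13) (nat_lit 4) (nat_lit 317) (nat_lit 249) (nat_lit 214)) (XT.nd (nat_lit 78) (nat_lit 76) (nat_lit 0) (XT.lf (nat_lit 0) (nat_lit 11042053030) (nat_lit 76) (nat_lit 13853492402) (nat_lit 76) (nat_lit 212181224) (nat_lit 12) (nat_lit 4) (nat_lit 13) (nat_lit 5) (nat_lit 13) (nat_lit 4) (nat_lit 318) (nat_lit 249) (nat_lit 213)) (XT.lf (nat_lit 0) (nat_lit 3141228102) (nat_lit 152) (nat_lit 7337355165) (nat_lit 76) (nat_lit 15674140933) (nat_lit 11) (nat_lit 5) (nat_lit 13) (nat_lit 5) (nat_lit 12) (nat_lit 4) (nat_lit 319) (nat_lit 249) (nat_lit 212)))))) (XT.nd (nat_lit 390) (nat_lit 152) (nat_lit 0) (XT.nd (nat_lit 156) (nat_lit 0) (nat_lit 0) (XT.nd (nat_lit 78) (nat_lit 76) (nat_lit 0) (XT.lf (nat_lit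 0) (nat_lit 6605296788) (nat_lit 152) (nat_lit 365120641) (nat_lit 76) (nat_lit 20281915843) (nat_lit 11) (nat_lit 5) (nat_lit 13) (nat_lit 5) (nat_lit 12) (nat_lit 4) (nat_lit 320) (nat_lit 249) (nat_lit 211)) (XT.lf (nat_lit 0) (nat_lit 7098127658) (nat_lit 76) (nat_lit 3207757746) (nat_lit 152) (nat_lit 18097911139) (nat_lit 10) (nat_lit 5) (nat_lit 11) (nat_lit 5) (nat_lit 12) (nat_lit 4) (nat_lit 321) (nat_lit 249) (nat_lit 210))) (XT.nd (nat_lit 78) (nat_lit 0) (nat_lit 0) (XT.lf (nat_lit 0) (nat_lit 14162268179) (nat_lit 152) (nat_lit 14762215713) (nat_lit 0) (nat_lit 689848535) (nat_lit 10) (nat_lit 5) (nat_lit 12) (nat_lit 4) (nat_lit 10) (nat_lit 4) (nat_lit 322) (nat_lit 249) (nat_lit 209)) (XT.nd (nat_lit 78) (nat_lit 0) (nat_lit 0) (XT.lf (nat_lit 0) (nat_lit 18219179147) (nat_lit 152) (nat_lit 8025322954) (nat_lit 0) (nat_lit 4640543445) (nat_lit 10) (nat_lit 5) (nat_lit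 12) (nat_lit 4) (nat_lit 10) (nat_lit 4) (nat_lit 323) (nat_lit 249) (nat_lit 208)) (XT.lf (nat_lit 0) (nat_lit 22436195531) (nat_lit 152) (nat_lit 1028868299) (nat_lit 0) (nat_lit 8756401679) (nat_lit 10) (nat_lit 5) (nat_lit 12) (nat_lit 4) (nat_lit 10) (nat_lit 4) (nat_lit 324) (nat_lit 249) (nat_lit 207))))) (XT.nd (nat_lit 156) (nat_lit 76) (nat_lit 0) (XT.nd (nat_lit 78) (nat_lit 0) (nat_lit 0) (XT.lf (nat_lit 0) (nat_lit 6450254918) (nat_lit 76) (nat_lit 20473809486) (nat_lit 76) (nat_lit 6697674537) (nat_lit 9) (nat_lit 4) (nat_lit 10) (nat_lit 5) (nat_lit 10) (nat_lit 4) (nat_lit 325) (nat_lit 249) (nat_lit 206)) (XT.lf (nat_lit 0) (nat_lit 14266638809) (nat_lit 76) (nat_lit 17347215127) (nat_lit 76) (nat_lit 3479326754) (nat_lit 9) (nat_lit 4) (nat_lit 10) (nat_lit 5) (nat_lit 10) (nat_lit 4) (nat_lit 326) (nat_lit 249) (nat_lit 205))) (XT.nd (nat_lit 78) (nat_lit 76) (nat_lit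 0) (XT.lf (nat_lit 0) (nat_lit 22404874778) (nat_lit 76) (nat_lit 14095260863) (nat_lit 76) (nat_lit 139988276) (nat_lit 9) (nat_lit 4) (nat_lit 10) (nat_lit 5) (nat_lit 10) (nat_lit 4) (nat_lit 327) (nat_lit 249) (nat_lit 204)) (XT.nd (nat_lit 78) (nat_lit 0) (nat_lit 0) (XT.lf (nat_lit 0) (nat_lit 3221765579) (nat_lit 152) (nat_lit 7433876209) (nat_lit 76) (nat_lit 27608011840) (nat_lit 8) (nat_lit 5) (nat_lit 10) (nat_lit 5) (nat_lit 9) (nat_lit 4) (nat_lit 328) (nat_lit 249) (nat_lit 203)) (XT.lf (nat_lit 0) (nat_lit 6711847011) (nat_lit 152) (nat_lit 358469331) (nat_lit 76) (nat_lit 32899707023) (nat_lit 8) (nat_lit 5) (nat_lit 10) (nat_lit 5) (nat_lit 9) (nat_lit 4) (nat_lit 329) (nat_lit 249) (nat_lit 202))))))) (XT.nd (nat_lit 780) (nat_lit 152) (nat_lit 0) (XT.nd (nat_lit 390) (nat_lit 76) (nat_lit 0) (XT.nd (nat_lit 156) (nat_lit 0) (nat_lit 0) (XT.nd (nat_lit 78) (nat_lit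 0) (nat_lit 0) (XT.lf (nat_lit 0) (nat_lit 7241785674) (nat_lit 76) (nat_lit 3214325130) (nat_lit 152) (nat_lit 31301641165) (nat_lit 7) (nat_lit 5) (nat_lit 8) (nat_lit 5) (nat_lit 9) (nat_lit 4) (nat_lit 330) (nat_lit 249) (nat_lit 201)) (XT.lf (nat_lit 0) (nat_lit 14373636078) (nat_lit 152) (nat_lit 28474156220) (nat_lit 0) (nat_lit 787795426) (nat_lit 7) (nat_lit 5) (nat_lit 9) (nat_lit 4) (nat_lit 7) (nat_lit 4) (nat_lit 331) (nat_lit 249) (nat_lit 200))) (XT.nd (nat_lit 78) (nat_lit 0) (nat_lit 0) (XT.lf (nat_lit 0) (nat_lit 18508159631) (nat_lit 152) (nat_lit 22241010036) (nat_lit 0) (nat_lit 4857111533) (nat_lit 7) (nat_lit 5) (nat_lit 9) (nat_lit 4) (nat_lit 7) (nat_lit 4) (nat_lit 332) (nat_lit 249) (nat_lit 199)) (XT.nd (nat_lit 78) (nat_lit 0) (nat_lit 0) (XT.lf (nat_lit 0) (nat_lit 22819340944) (nat_lit 152) (nat_lit 15751502295) (nat_lit 0) (nat_lit 9106190517) (nat_lit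 7) (nat_lit 5) (nat_lit 9) (nat_lit 4) (nat_lit 7) (nat_lit 4) (nat_lit 333) (nat_lit 249) (nat_lit 198)) (XT.lf (nat_lit 0) (nat_lit 27317444735) (nat_lit 152) (nat_lit 8990181789) (nat_lit 0) (nat_lit 13545149232) (nat_lit 7) (nat_lit 5) (nat_lit 9) (nat_lit 4) (nat_lit 7) (nat_lit 4) (nat_lit 334) (nat_lit 249) (nat_lit 197))))) (XT.nd (nat_lit 156) (nat_lit 0) (nat_lit 0) (XT.nd (nat_lit 78) (nat_lit 76) (nat_lit 0) (XT.lf (nat_lit 0) (nat_lit 32013180773) (nat_lit 152) (nat_lit 1940950135) (nat_lit 0) (nat_lit 18184556627) (nat_lit 7) (nat_lit 5) (nat_lit 9) (nat_lit 4) (nat_lit 7) (nat_lit 4) (nat_lit 335) (nat_lit 249) (nat_lit 196)) (XT.lf (nat_lit 0) (nat_lit 5591954001) (nat_lit 76) (nat_lit 31413081456) (nat_lit 76) (nat_lit 17530810983) (nat_lit 6) (nat_lit 4) (nat_lit 7) (nat_lit 5) (nat_lit 7) (nat_lit 4) (nat_lit 336) (nat_lit 249) (nat_lit 195))) (XT.nd (nat_lit 78)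 (nat_lit 0) (nat_lit 0) (XT.lf (nat_lit 0) (nat_lit 13521892629) (nat_lit 76) (nat_lit 28731990074) (nat_lit 76) (nat_lit 14798627861) (nat_lit 6) (nat_lit 4) (nat_lit 7) (nat_lit 5) (nat_lit 7) (nat_lit 4) (nat_lit 337) (nat_lit 249) (nat_lit 194)) (XT.nd (nat_lit 78) (nat_lit 0) (nat_lit 0) (XT.lf (nat_lit 0) (nat_lit 21803569976) (nat_lit 76) (nat_lit 25937344141) (nat_lit 76) (nat_lit 11955323128) (nat_lit 6) (nat_lit 4) (nat_lit 7) (nat_lit 5) (nat_lit 7) (nat_lit 4) (nat_lit 338) (nat_lit 249) (nat_lit 193)) (XT.lf (nat_lit 0) (nat_lit 30456704324) (nat_lit 76) (nat_lit 23022489738) (nat_lit 76) (nat_lit 8994127010) (nat_lit 6) (nat_lit 4) (nat_lit 7) (nat_lit 5) (nat_lit 7) (nat_lit 4) (nat_lit 339) (nat_lit 249) (nat_lit 192)))))) (XT.nd (nat_lit 390) (nat_lit 0) (nat_lit 0) (XT.nd (nat_lit 156) (nat_lit 152) (nat_lit 0) (XT.nd (nat_lit 78) (nat_lit 0) (nat_lit 0) (XT.lf (nat_lit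 0) (nat_lit 39501898371) (nat_lit 76) (nat_lit 19980486736) (nat_lit 76) (nat_lit 5907989042) (nat_lit 6) (nat_lit 4) (nat_lit 7) (nat_lit 5) (nat_lit 7) (nat_lit 4) (nat_lit 340) (nat_lit 249) (nat_lit 191)) (XT.lf (nat_lit 0) (nat_lit 48960688295) (nat_lit 76) (nat_lit 16804092270) (nat_lit 76) (nat_lit 2689561275) (nat_lit 6) (nat_lit 4) (nat_lit 7) (nat_lit 5) (nat_lit 7) (nat_lit 4) (nat_lit 341) (nat_lit 249) (nat_lit 190))) (XT.nd (nat_lit 78) (nat_lit 76) (nat_lit 0) (XT.lf (nat_lit 0) (nat_lit 647412821) (nat_lit 152) (nat_lit 12827366426) (nat_lit 76) (nat_lit 58197217953) (nat_lit 5) (nat_lit 5) (nat_lit 7) (nat_lit 5) (nat_lit 6) (nat_lit 4) (nat_lit 342) (nat_lit 249) (nat_lit 189)) (XT.nd (nat_lit 78) (nat_lit 76) (nat_lit 0) (XT.lf (nat_lit 0) (nat_lit 4041517739) (nat_lit 152) (nat_lit 5907576788) (nat_lit 76) (nat_lit 65100215062) (nat_lit 5) (nat_lit 5) (nat_lit 7)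 (nat_lit 5) (nat_lit 6) (nat_lit 4) (nat_lit 343) (nat_lit 249) (nat_lit 188)) (XT.lf (nat_lit 0) (nat_lit 1367966105) (nat_lit 76) (nat_lit 6240309116) (nat_lit 152) (nat_lit 70987076694) (nat_lit 4) (nat_lit 5) (nat_lit 5) (nat_lit 5) (nat_lit 6) (nat_lit 4) (nat_lit 344) (nat_lit 249) (nat_lit 187))))) (XT.nd (nat_lit 156) (nat_lit 0) (nat_lit 0) (XT.nd (nat_lit 78) (nat_lit 0) (nat_lit 0) (XT.lf (nat_lit 0) (nat_lit 9178912890) (nat_lit 76) (nat_lit 2256449007) (nat_lit 152) (nat_lit 70879246025) (nat_lit 4) (nat_lit 5) (nat_lit 5) (nat_lit 5) (nat_lit 6) (nat_lit 4) (nat_lit 345) (nat_lit 249) (nat_lit 186)) (XT.lf (nat_lit 0) (nat_lit 15466456864) (nat_lit 152) (nat_lit 68902017748) (nat_lit 0) (nat_lit 1850730016) (nat_lit 4) (nat_lit 5) (nat_lit 6) (nat_lit 4) (nat_lit 4) (nat_lit 4) (nat_lit 346) (nat_lit 249) (nat_lit 185))) (XT.nd (nat_lit 78) (nat_lit 0) (nat_lit 0) (XT.lf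 (nat_lit 0) (nat_lit 19719501613) (nat_lit 152) (nat_lit 64524617419) (nat_lit 0) (nat_lit 6073902482) (nat_lit 4) (nat_lit 5) (nat_lit 6) (nat_lit 4) (nat_lit 4) (nat_lit 4) (nat_lit 347) (nat_lit 249) (nat_lit 184)) (XT.nd (nat_lit 78) (nat_lit 0) (nat_lit 0) (XT.lf (nat_lit 0) (nat_lit 24169392947) (nat_lit 152) (nat_lit 59957842170) (nat_lit 0) (nat_lit 10495344023) (nat_lit 4) (nat_lit 5) (nat_lit 6) (nat_lit 4) (nat_lit 4) (nat_lit 4) (nat_lit 348) (nat_lit 249) (nat_lit 183)) (XT.lf (nat_lit 0) (nat_lit 28826725845) (nat_lit 152) (nat_lit 55190818727) (nat_lit 0) (nat_lit 15125581881) (nat_lit 4) (nat_lit 5) (nat_lit 6) (nat_lit 4) (nat_lit 4) (nat_lit 4) (nat_lit 349) (nat_lit 249) (nat_lit 182))))))))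
noncomputable def xc75 : XT := (XT.nd (nat_lit 1560) (nat_lit 0) (nat_lit 0) (XT.nd (nat_lit 780) (nat_lit 0) (nat_lit 0) (XT.nd (nat_lit 390) (nat_lit 76) (nat_lit 0) (XT.nd (nat_lit 156) (nat_lit 0) (nat_lit 0) (XT.nd (nat_lit 78) (nat_lit 0) (nat_lit 0) (XT.lf (nat_lit 0) (nat_lit 33702589196) (nat_lit 152) (nat_lit 50212197034) (nat_lit 0) (nat_lit 19975640431) (nat_lit 4) (nat_lit 5) (nat_lit 6) (nat_lit 4) (nat_lit 4) (nat_lit 4) (nat_lit 350) (nat_lit 249) (nat_lit 181)) (XT.lf (nat_lit 0) (nat_lit 38808592198) (nat_lit 152) (nat_lit 45010123230) (nat_lit 0) (nat_lit 25057067433) (nat_lit 4) (nat_lit 5) (nat_lit 6) (nat_lit 4) (nat_lit 4) (nat_lit 4) (nat_lit 351) (nat_lit 249) (nat_lit 180))) (XT.nd (nat_lit 78) (nat_lit 0) (nat_lit 0) (XT.lf (nat_lit 0) (nat_lit 44156892001) (nat_lit 152) (nat_lit 39572211424) (nat_lit 0) (nat_lit 30381961521) (nat_lit 4) (nat_lit 5) (nat_lit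 6) (nat_lit 4) (nat_lit 4) (nat_lit 4) (nat_lit 352) (nat_lit 249) (nat_lit 179)) (XT.nd (nat_lit 78) (nat_lit 0) (nat_lit 0) (XT.lf (nat_lit 0) (nat_lit 49760222652) (nat_lit 152) (nat_lit 33885514208) (nat_lit 0) (nat_lit 35963001015) (nat_lit 4) (nat_lit 5) (nat_lit 6) (nat_lit 4) (nat_lit 4) (nat_lit 4) (nat_lit 353) (nat_lit 249) (nat_lit 178)) (XT.lf (nat_lit 0) (nat_lit 55631925415) (nat_lit 152) (nat_lit 27936491827) (nat_lit 0) (nat_lit 41813474104) (nat_lit 4) (nat_lit 5) (nat_lit 6) (nat_lit 4) (nat_lit 4) (nat_lit 4) (nat_lit 354) (nat_lit 249) (nat_lit 177))))) (XT.nd (nat_lit 156) (nat_lit 76) (nat_lit 0) (XT.nd (nat_lit 78) (nat_lit 0) (nat_lit 0) (XT.lf (nat_lit 0) (nat_lit 61785980533) (nat_lit 152) (nat_lit 21710979941) (nat_lit 0) (nat_lit 47947310487) (nat_lit 4) (nat_lit 5) (nat_lit 6) (nat_lit 4) (nat_lit 4) (nat_lit 4) (nat_lit 355) (nat_lit 249) (nat_lit 176))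 (XT.lf (nat_lit 0) (nat_lit 68237040521) (nat_lit 152) (nat_lit 15194155903) (nat_lit 0) (nat_lit 54379114535) (nat_lit 4) (nat_lit 5) (nat_lit 6) (nat_lit 4) (nat_lit 4) (nat_lit 4) (nat_lit 356) (nat_lit 249) (nat_lit 175))) (XT.nd (nat_lit 78) (nat_lit 76) (nat_lit 0) (XT.lf (nat_lit 0) (nat_lit 75000465043) (nat_lit 152) (nat_lit 8370503465) (nat_lit 0) (nat_lit 61124200067) (nat_lit 4) (nat_lit 5) (nat_lit 6) (nat_lit 4) (nat_lit 4) (nat_lit 4) (nat_lit 357) (nat_lit 249) (nat_lit 174)) (XT.nd (nat_lit 78) (nat_lit 76) (nat_lit 0) (XT.lf (nat_lit 0) (nat_lit 82092357492) (nat_lit 152) (nat_lit 1223775837) (nat_lit 0) (nat_lit 68198626811) (nat_lit 4) (nat_lit 5) (nat_lit 6) (nat_lit 4) (nat_lit 4) (nat_lit 4) (nat_lit 358) (nat_lit 249) (nat_lit 173)) (XT.lf (nat_lit 0) (nat_lit 6470127487) (nat_lit 76) (nat_lit 83160492662) (nat_lit 76) (nat_lit 69250127977) (nat_lit 3) (nat_lit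 4) (nat_lit 4) (nat_lit 5) (nat_lit 4) (nat_lit 4) (nat_lit 359) (nat_lit 249) (nat_lit 172)))))) (XT.nd (nat_lit 390) (nat_lit 0) (nat_lit 0) (XT.nd (nat_lit 156) (nat_lit 0) (nat_lit 0) (XT.nd (nat_lit 78) (nat_lit 0) (nat_lit 0) (XT.lf (nat_lit 0) (nat_lit 14574245687) (nat_lit 76) (nat_lit 82983209406) (nat_lit 76) (nat_lit 69057002812) (nat_lit 3) (nat_lit 4) (nat_lit 4) (nat_lit 5) (nat_lit 4) (nat_lit 4) (nat_lit 360) (nat_lit 249) (nat_lit 171)) (XT.lf (nat_lit 0) (nat_lit 23067410726) (nat_lit 76) (nat_lit 82804586695) (nat_lit 76) (nat_lit 68863292568) (nat_lit 3) (nat_lit 4) (nat_lit 4) (nat_lit 5) (nat_lit 4) (nat_lit 4) (nat_lit 361) (nat_lit 249) (nat_lit 170))) (XT.nd (nat_lit 78) (nat_lit 0) (nat_lit 0) (XT.lf (nat_lit 0) (nat_lit 31969844426) (nat_lit 76) (nat_lit 82624199237) (nat_lit 76) (nat_lit 68668536031) (nat_lit 3) (nat_lit 4) (nat_lit 4) (nat_lit 5) (nat_lit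 4) (nat_lit 4) (nat_lit 362) (nat_lit 249) (nat_lit 169)) (XT.nd (nat_lit 78) (nat_lit 0) (nat_lit 0) (XT.lf (nat_lit 0) (nat_lit 41302743058) (nat_lit 76) (nat_lit 82441617537) (nat_lit 76) (nat_lit 68472269495) (nat_lit 3) (nat_lit 4) (nat_lit 4) (nat_lit 5) (nat_lit 4) (nat_lit 4) (nat_lit 363) (nat_lit 249) (nat_lit 168)) (XT.lf (nat_lit 0) (nat_lit 51088327809) (nat_lit 76) (nat_lit 82256406877) (nat_lit 76) (nat_lit 68274025657) (nat_lit 3) (nat_lit 4) (nat_lit 4) (nat_lit 5) (nat_lit 4) (nat_lit 4) (nat_lit 364) (nat_lit 249) (nat_lit 167))))) (XT.nd (nat_lit 156) (nat_lit 0) (nat_lit 0) (XT.nd (nat_lit 78) (nat_lit 0) (nat_lit 0) (XT.lf (nat_lit 0) (nat_lit 61349897689) (nat_lit 76) (nat_lit 82068126280) (nat_lit 76) (nat_lit 68073332510) (nat_lit 3) (nat_lit 4) (nat_lit 4) (nat_lit 5) (nat_lit 4) (nat_lit 4) (nat_lit 365) (nat_lit 249) (nat_lit 166)) (XT.lf (nat_lit 0) (nat_lit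 72111885010) (nat_lit 76) (nat_lit 81876327458) (nat_lit 76) (nat_lit 67869712212) (nat_lit 3) (nat_lit 4) (nat_lit 4) (nat_lit 5) (nat_lit 4) (nat_lit 4) (nat_lit 366) (nat_lit 249) (nat_lit 165))) (XT.nd (nat_lit 78) (nat_lit 0) (nat_lit 0) (XT.lf (nat_lit 0) (nat_lit 83399913548) (nat_lit 76) (nat_lit 81680553748) (nat_lit 76) (nat_lit 67662679952) (nat_lit 3) (nat_lit 4) (nat_lit 4) (nat_lit 5) (nat_lit 4) (nat_lit 4) (nat_lit 367) (nat_lit 249) (nat_lit 164)) (XT.nd (nat_lit 78) (nat_lit 0) (nat_lit 0) (XT.lf (nat_lit 0) (nat_lit 95240859564) (nat_lit 76) (nat_lit 81480339021) (nat_lit 76) (nat_lit 67451742798) (nat_lit 3) (nat_lit 4) (nat_lit 4) (nat_lit 5) (nat_lit 4) (nat_lit 4) (nat_lit 368) (nat_lit 249) (nat_lit 163)) (XT.lf (nat_lit 0) (nat_lit 107662915786) (nat_lit 76) (nat_lit 81275206577) (nat_lit 76) (nat_lit 67236398517) (nat_lit 3) (nat_lit 4) (nat_lit 4) (nat_lit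 5) (nat_lit 4) (nat_lit 4) (nat_lit 369) (nat_lit 249) (nat_lit 162))))))) (XT.nd (nat_lit 780) (nat_lit 0) (nat_lit 0) (XT.nd (nat_lit 390) (nat_lit 0) (nat_lit 0) (XT.nd (nat_lit 156) (nat_lit 0) (nat_lit 0) (XT.nd (nat_lit 78) (nat_lit 0) (nat_lit 0) (XT.lf (nat_lit 0) (nat_lit 120695658537) (nat_lit 76) (nat_lit 81064668003) (nat_lit 76) (nat_lit 67016134386) (nat_lit 3) (nat_lit 4) (nat_lit 4) (nat_lit 5) (nat_lit 4) (nat_lit 4) (nat_lit 370) (nat_lit 249) (nat_lit 161)) (XT.lf (nat_lit 0) (nat_lit 134370118159) (nat_lit 76) (nat_lit 80848222019) (nat_lit 76) (nat_lit 66790425965) (nat_lit 3) (nat_lit 4) (nat_lit 4) (nat_lit 5) (nat_lit 4) (nat_lit 4) (nat_lit 371) (nat_lit 249) (nat_lit 160))) (XT.nd (nat_lit 78) (nat_lit 0) (nat_lit 0) (XT.lf (nat_lit 0) (nat_lit 148718852888) (nat_lit 76) (nat_lit 80625353276) (nat_lit 76) (nat_lit 66558735855) (nat_lit 3) (nat_lit 4) (nat_lit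 4) (nat_lit 5) (nat_lit 4) (nat_lit 4) (nat_lit 372) (nat_lit 249) (nat_lit 159)) (XT.nd (nat_lit 78) (nat_lit 0) (nat_lit 0) (XT.lf (nat_lit 0) (nat_lit 163776026378) (nat_lit 76) (nat_lit 80395531134) (nat_lit 76) (nat_lit 66320512411) (nat_lit 3) (nat_lit 4) (nat_lit 4) (nat_lit 5) (nat_lit 4) (nat_lit 4) (nat_lit 373) (nat_lit 249) (nat_lit 158)) (XT.lf (nat_lit 0) (nat_lit 179577489042) (nat_lit 76) (nat_lit 80158208399) (nat_lit 76) (nat_lit 66075188434) (nat_lit 3) (nat_lit 4) (nat_lit 4) (nat_lit 5) (nat_lit 4) (nat_lit 4) (nat_lit 374) (nat_lit 249) (nat_lit 157))))) (XT.nd (nat_lit 156) (nat_lit 0) (nat_lit 0) (XT.nd (nat_lit 78) (nat_lit 0) (nat_lit 0) (XT.lf (nat_lit 0) (nat_lit 196160863411) (nat_lit 76) (nat_lit 79912820015) (nat_lit 76) (nat_lit 65822179822) (nat_lit 3) (nat_lit 4) (nat_lit 4) (nat_lit 5) (nat_lit 4) (nat_lit 4) (nat_lit 375) (nat_lit 249) (nat_lit 156))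 (XT.lf (nat_lit 0) (nat_lit 213565633709) (nat_lit 76) (nat_lit 79658781725) (nat_lit 76) (nat_lit 65560884171) (nat_lit 3) (nat_lit 4) (nat_lit 4) (nat_lit 5) (nat_lit 4) (nat_lit 4) (nat_lit 376) (nat_lit 249) (nat_lit 155))) (XT.nd (nat_lit 78) (nat_lit 0) (nat_lit 0) (XT.lf (nat_lit 0) (nat_lit 231833239865) (nat_lit 76) (nat_lit 79395488676) (nat_lit 76) (nat_lit 65290679349) (nat_lit 3) (nat_lit 4) (nat_lit 4) (nat_lit 5) (nat_lit 4) (nat_lit 4) (nat_lit 377) (nat_lit 249) (nat_lit 154)) (XT.nd (nat_lit 78) (nat_lit 0) (nat_lit 0) (XT.lf (nat_lit 0) (nat_lit 251007176180) (nat_lit 76) (nat_lit 79122313979) (nat_lit 76) (nat_lit 65010922012) (nat_lit 3) (nat_lit 4) (nat_lit 4) (nat_lit 5) (nat_lit 4) (nat_lit 4) (nat_lit 378) (nat_lit 249) (nat_lit 153)) (XT.lf (nat_lit 0) (nat_lit 271133094884) (nat_lit 76) (nat_lit 78838607219) (nat_lit 76) (nat_lit 64720946070) (nat_lit 3) (nat_lit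 4) (nat_lit 4) (nat_lit 5) (nat_lit 4) (nat_lit 4) (nat_lit 379) (nat_lit 249) (nat_lit 152)))))) (XT.nd (nat_lit 390) (nat_lit 0) (nat_lit 0) (XT.nd (nat_lit 156) (nat_lit 0) (nat_lit 0) (XT.nd (nat_lit 78) (nat_lit 0) (nat_lit 0) (XT.lf (nat_lit 0) (nat_lit 292258914829) (nat_lit 76) (nat_lit 78543692903) (nat_lit 76) (nat_lit 64420061106) (nat_lit 3) (nat_lit 4) (nat_lit 4) (nat_lit 5) (nat_lit 4) (nat_lit 4) (nat_lit 380) (nat_lit 249) (nat_lit 151)) (XT.lf (nat_lit 0) (nat_lit 314434935588) (nat_lit 76) (nat_lit 78236868855) (nat_lit 76) (nat_lit 64107550725) (nat_lit 3) (nat_lit 4) (nat_lit 4) (nat_lit 5) (nat_lit 4) (nat_lit 4) (nat_lit 381) (nat_lit 249) (nat_lit 150))) (XT.nd (nat_lit 78) (nat_lit 0) (nat_lit 0) (XT.lf (nat_lit 0) (nat_lit 337713957210) (nat_lit 76) (nat_lit 77917404540) (nat_lit 76) (nat_lit 63782670855) (nat_lit 3) (nat_lit 4) (nat_lit 4) (nat_lit 5) (nat_lit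 4) (nat_lit 4) (nat_lit 382) (nat_lit 249) (nat_lit 149)) (XT.nd (nat_lit 78) (nat_lit 0) (nat_lit 0) (XT.lf (nat_lit 0) (nat_lit 362151405937) (nat_lit 76) (nat_lit 77584539330) (nat_lit 76) (nat_lit 63444647974) (nat_lit 3) (nat_lit 4) (nat_lit 4) (nat_lit 5) (nat_lit 4) (nat_lit 4) (nat_lit 383) (nat_lit 249) (nat_lit 148)) (XT.lf (nat_lit 0) (nat_lit 387805466170) (nat_lit 76) (nat_lit 77237480688) (nat_lit 76) (nat_lit 63092677265) (nat_lit 3) (nat_lit 4) (nat_lit 4) (nat_lit 5) (nat_lit 4) (nat_lit 4) (nat_lit 384) (nat_lit 249) (nat_lit 147))))) (XT.nd (nat_lit 156) (nat_lit 0) (nat_lit 0) (XT.nd (nat_lit 78) (nat_lit 0) (nat_lit 0) (XT.lf (nat_lit 0) (nat_lit 414737219006) (nat_lit 76) (nat_lit 76875402285) (nat_lit 76) (nat_lit 62725920702) (nat_lit 3) (nat_lit 4) (nat_lit 4) (nat_lit 5) (nat_lit 4) (nat_lit 4) (nat_lit 385) (nat_lit 249) (nat_lit 146)) (XT.lf (nat_lit 0) (nat_lit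 443010787665) (nat_lit 76) (nat_lit 76497442028) (nat_lit 76) (nat_lit 62343505055) (nat_lit 3) (nat_lit 4) (nat_lit 4) (nat_lit 5) (nat_lit 4) (nat_lit 4) (nat_lit 386) (nat_lit 249) (nat_lit 145))) (XT.nd (nat_lit 32292) (nat_lit 0) (nat_lit 4636) (XT.lf (nat_lit 0) (nat_lit 472693490169) (nat_lit 76) (nat_lit 76102700013) (nat_lit 76) (nat_lit 61944519811) (nat_lit 3) (nat_lit 4) (nat_lit 4) (nat_lit 5) (nat_lit 4) (nat_lit 4) (nat_lit 387) (nat_lit 249) (nat_lit 144)) (XT.nd (nat_lit 78) (nat_lit 380) (nat_lit 0) (XT.lf (nat_lit 0) (nat_lit 3163933212) (nat_lit 380) (nat_lit 353044934) (nat_lit 380) (nat_lit 353044934) (nat_lit 69) (nat_lit 4) (nat_lit 74) (nat_lit 5) (nat_lit 74) (nat_lit 4) (nat_lit 280) (nat_lit 250) (nat_lit 250)) (XT.lf (nat_lit 0) (nat_lit 2614811259) (nat_lit 380) (nat_lit 3930090224) (nat_lit 0) (nat_lit 1335888156) (nat_lit 64) (nat_lit 5) (nat_lit 69)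 (nat_lit 4) (nat_lit 64) (nat_lit 4) (nat_lit 281) (nat_lit 250) (nat_lit 249))))))))
noncomputable def xc76 : XT := (XT.nd (nat_lit 1482) (nat_lit 1064) (nat_lit 0) (XT.nd (nat_lit 702) (nat_lit 1292) (nat_lit 0) (XT.nd (nat_lit 312) (nat_lit 760) (nat_lit 0) (XT.nd (nat_lit 156) (nat_lit 532) (nat_lit 0) (XT.nd (nat_lit 78) (nat_lit 76) (nat_lit 0) (XT.lf (nat_lit 0) (nat_lit 1446432546) (nat_lit 304) (nat_lit 4541705099) (nat_lit 304) (nat_lit 2044759993) (nat_lit 60) (nat_lit 4) (nat_lit 64) (nat_lit 5) (nat_lit 64) (nat_lit 4) (nat_lit 282) (nat_lit 250) (nat_lit 248)) (XT.lf (nat_lit 0) (nat_lit 1215566116) (nat_lit 380) (nat_lit 1165055522) (nat_lit 76) (nat_lit 5815275808) (nat_lit 59) (nat_lit 5) (nat_lit 64) (nat_lit 5) (nat_lit 60) (nat_lit 4) (nat_lit 283) (nat_lit 250) (nat_lit 247))) (XT.nd (nat_lit 78) (nat_lit 304) (nat_lit 0) (XT.lf (nat_lit 0) (nat_lit 4463404344)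 (nat_lit 228) (nat_lit 36669932) (nat_lit 304) (nat_lit 3869158323) (nat_lit 56) (nat_lit 5) (nat_lit 59) (nat_lit 5) (nat_lit 60) (nat_lit 4) (nat_lit 284) (nat_lit 250) (nat_lit 246)) (XT.lf (nat_lit 0) (nat_lit 1702659954) (nat_lit 304) (nat_lit 6194286976) (nat_lit 304) (nat_lit 657219238) (nat_lit 52) (nat_lit 4) (nat_lit 56) (nat_lit 5) (nat_lit 56) (nat_lit 4) (nat_lit 285) (nat_lit 250) (nat_lit 245)))) (XT.nd (nat_lit 156) (nat_lit 456) (nat_lit 0) (XT.nd (nat_lit 78) (nat_lit 228) (nat_lit 0) (XT.lf (nat_lit 0) (nat_lit 2561177135) (nat_lit 380) (nat_lit 1241006721) (nat_lit 76) (nat_lit 4947711632) (nat_lit 51) (nat_lit 5) (nat_lit 56) (nat_lit 5) (nat_lit 52) (nat_lit 4) (nat_lit 286) (nat_lit 250) (nat_lit 244)) (XT.lf (nat_lit 0) (nat_lit 4616463568) (nat_lit 228) (nat_lit 1245385304) (nat_lit 304) (nat_lit 3096144083) (nat_lit 48) (nat_lit 5) (nat_lit 51) (nat_lit 5)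 (nat_lit 52) (nat_lit 4) (nat_lit 287) (nat_lit 250) (nat_lit 243))) (XT.nd (nat_lit 78) (nat_lit 152) (nat_lit 0) (XT.lf (nat_lit 0) (nat_lit 86222861) (nat_lit 304) (nat_lit 7695578484) (nat_lit 76) (nat_lit 1397841399) (nat_lit 44) (nat_lit 5) (nat_lit 48) (nat_lit 5) (nat_lit 45) (nat_lit 4) (nat_lit 288) (nat_lit 250) (nat_lit 242)) (XT.nd (nat_lit 78) (nat_lit 152) (nat_lit 0) (XT.lf (nat_lit 0) (nat_lit 3294069236) (nat_lit 304) (nat_lit 1904641258) (nat_lit 76) (nat_lit 4212858791) (nat_lit 44) (nat_lit 5) (nat_lit 48) (nat_lit 5) (nat_lit 45) (nat_lit 4) (nat_lit 289) (nat_lit 250) (nat_lit 241)) (XT.lf (nat_lit 0) (nat_lit 4141511083) (nat_lit 152) (nat_lit 2466661662) (nat_lit 228) (nat_lit 3049866813) (nat_lit 42) (nat_lit 5) (nat_lit 44) (nat_lit 5) (nat_lit 45) (nat_lit 4) (nat_lit 290) (nat_lit 250) (nat_lit 240)))))) (XT.nd (nat_lit 390) (nat_lit 532) (nat_lit 0) (XT.nd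 (nat_lit 156) (nat_lit 456) (nat_lit 0) (XT.nd (nat_lit 78) (nat_lit 0) (nat_lit 0) (XT.lf (nat_lit 0) (nat_lit 94397830) (nat_lit 304) (nat_lit 9442099003) (nat_lit 76) (nat_lit 383984800) (nat_lit 38) (nat_lit 5) (nat_lit 42) (nat_lit 5) (nat_lit 39) (nat_lit 4) (nat_lit 291) (nat_lit 250) (nat_lit 239)) (XT.lf (nat_lit 0) (nat_lit 3313184964) (nat_lit 304) (nat_lit 3489528453) (nat_lit 76) (nat_lit 3390050144) (nat_lit 38) (nat_lit 5) (nat_lit 42) (nat_lit 5) (nat_lit 39) (nat_lit 4) (nat_lit 292) (nat_lit 250) (nat_lit 238))) (XT.nd (nat_lit 78) (nat_lit 304) (nat_lit 0) (XT.lf (nat_lit 0) (nat_lit 2683956717) (nat_lit 152) (nat_lit 3940774124) (nat_lit 228) (nat_lit 3857535751) (nat_lit 36) (nat_lit 5) (nat_lit 38) (nat_lit 5) (nat_lit 39) (nat_lit 4) (nat_lit 293) (nat_lit 250) (nat_lit 237)) (XT.nd (nat_lit 78) (nat_lit 304) (nat_lit 0) (XT.lf (nat_lit 0) (nat_lit 9127270271)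 (nat_lit 152) (nat_lit 926340065) (nat_lit 228) (nat_lit 735235177) (nat_lit 36) (nat_lit 5) (nat_lit 38) (nat_lit 5) (nat_lit 39) (nat_lit 4) (nat_lit 294) (nat_lit 250) (nat_lit 236)) (XT.lf (nat_lit 0) (nat_lit 2467683918) (nat_lit 304) (nat_lit 6408505903) (nat_lit 76) (nat_lit 2232454215) (nat_lit 32) (nat_lit 5) (nat_lit 36) (nat_lit 5) (nat_lit 33) (nat_lit 4) (nat_lit 295) (nat_lit 250) (nat_lit 235))))) (XT.nd (nat_lit 156) (nat_lit 380) (nat_lit 0) (XT.nd (nat_lit 78) (nat_lit 152) (nat_lit 0) (XT.lf (nat_lit 0) (nat_lit 5747497113) (nat_lit 304) (nat_lit 191002153) (nat_lit 76) (nat_lit 5508420600) (nat_lit 32) (nat_lit 5) (nat_lit 36) (nat_lit 5) (nat_lit 33) (nat_lit 4) (nat_lit 296) (nat_lit 250) (nat_lit 234)) (XT.lf (nat_lit 0) (nat_lit 6391566124) (nat_lit 152) (nat_lit 2802068035) (nat_lit 228) (nat_lit 2608513792) (nat_lit 30) (nat_lit 5) (nat_lit 32) (nat_lit 5)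 (nat_lit 33) (nat_lit 4) (nat_lit 297) (nat_lit 250) (nat_lit 233))) (XT.nd (nat_lit 78) (nat_lit 152) (nat_lit 0) (XT.lf (nat_lit 0) (nat_lit 546009898) (nat_lit 228) (nat_lit 11180149789) (nat_lit 76) (nat_lit 452148463) (nat_lit 27) (nat_lit 5) (nat_lit 30) (nat_lit 5) (nat_lit 28) (nat_lit 4) (nat_lit 298) (nat_lit 250) (nat_lit 232)) (XT.nd (nat_lit 78) (nat_lit 152) (nat_lit 0) (XT.lf (nat_lit 0) (nat_lit 3814275207) (nat_lit 228) (nat_lit 4896586570) (nat_lit 76) (nat_lit 3858226526) (nat_lit 27) (nat_lit 5) (nat_lit 30) (nat_lit 5) (nat_lit 28) (nat_lit 4) (nat_lit 299) (nat_lit 250) (nat_lit 231)) (XT.lf (nat_lit 0) (nat_lit 1606998032) (nat_lit 152) (nat_lit 5573197964) (nat_lit 228) (nat_lit 5802626977) (nat_lit 25) (nat_lit 5) (nat_lit 27) (nat_lit 5) (nat_lit 28) (nat_lit 4) (nat_lit 300) (nat_lit 250) (nat_lit 230))))))) (XT.nd (nat_lit 780) (nat_lit 456) (nat_lit 0) (XT.nd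 (nat_lit 390) (nat_lit 304) (nat_lit 0) (XT.nd (nat_lit 156) (nat_lit 76) (nat_lit 0) (XT.nd (nat_lit 78) (nat_lit 228) (nat_lit 0) (XT.lf (nat_lit 0) (nat_lit 8462517782) (nat_lit 152) (nat_lit 2246063232) (nat_lit 228) (nat_lit 2709076495) (nat_lit 25) (nat_lit 5) (nat_lit 27) (nat_lit 5) (nat_lit 28) (nat_lit 4) (nat_lit 301) (nat_lit 250) (nat_lit 229)) (XT.lf (nat_lit 0) (nat_lit 481512470) (nat_lit 228) (nat_lit 12203145694) (nat_lit 76) (nat_lit 1191284107) (nat_lit 22) (nat_lit 5) (nat_lit 25) (nat_lit 5) (nat_lit 23) (nat_lit 4) (nat_lit 302) (nat_lit 250) (nat_lit 228))) (XT.nd (nat_lit 78) (nat_lit 76) (nat_lit 0) (XT.lf (nat_lit 0) (nat_lit 3777800466) (nat_lit 228) (nat_lit 5772000447) (nat_lit 76) (nat_lit 4803364180) (nat_lit 22) (nat_lit 5) (nat_lit 25) (nat_lit 5) (nat_lit 23) (nat_lit 4) (nat_lit 303) (nat_lit 250) (nat_lit 227)) (XT.nd (nat_lit 78) (nat_lit 0) (nat_lit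 0) (XT.lf (nat_lit 0) (nat_lit 874787858) (nat_lit 76) (nat_lit 6296914056) (nat_lit 152) (nat_lit 7686007184) (nat_lit 21) (nat_lit 5) (nat_lit 22) (nat_lit 5) (nat_lit 23) (nat_lit 4) (nat_lit 304) (nat_lit 250) (nat_lit 226)) (XT.lf (nat_lit 0) (nat_lit 7922553408) (nat_lit 76) (nat_lit 2831431196) (nat_lit 152) (nat_lit 4632656621) (nat_lit 21) (nat_lit 5) (nat_lit 22) (nat_lit 5) (nat_lit 23) (nat_lit 4) (nat_lit 305) (nat_lit 250) (nat_lit 225))))) (XT.nd (nat_lit 156) (nat_lit 76) (nat_lit 0) (XT.nd (nat_lit 78) (nat_lit 228) (nat_lit 0) (XT.lf (nat_lit 0) (nat_lit 14451902189) (nat_lit 152) (nat_lit 760468672) (nat_lit 0) (nat_lit 732913756) (nat_lit 21) (nat_lit 5) (nat_lit 23) (nat_lit 4) (nat_lit 21) (nat_lit 4) (nat_lit 306) (nat_lit 250) (nat_lit 224)) (XT.lf (nat_lit 0) (nat_lit 1818753851) (nat_lit 228) (nat_lit 10246164646) (nat_lit 76) (nat_lit 4461936514) (nat_lit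 18) (nat_lit 5) (nat_lit 21) (nat_lit 5) (nat_lit 19) (nat_lit 4) (nat_lit 307) (nat_lit 250) (nat_lit 223))) (XT.nd (nat_lit 78) (nat_lit 76) (nat_lit 0) (XT.lf (nat_lit 0) (nat_lit 5187266815) (nat_lit 228) (nat_lit 3584162222) (nat_lit 76) (nat_lit 8367881286) (nat_lit 18) (nat_lit 5) (nat_lit 21) (nat_lit 5) (nat_lit 19) (nat_lit 4) (nat_lit 308) (nat_lit 250) (nat_lit 222)) (XT.nd (nat_lit 78) (nat_lit 0) (nat_lit 0) (XT.lf (nat_lit 0) (nat_lit 3402785427) (nat_lit 76) (nat_lit 5305849184) (nat_lit 152) (nat_lit 9074606945) (nat_lit 17) (nat_lit 5) (nat_lit 18) (nat_lit 5) (nat_lit 19) (nat_lit 4) (nat_lit 309) (nat_lit 250) (nat_lit 221)) (XT.lf (nat_lit 0) (nat_lit 10748337349) (nat_lit 76) (nat_lit 1651208228) (nat_lit 152) (nat_lit 6060221100) (nat_lit 17) (nat_lit 5) (nat_lit 18) (nat_lit 5) (nat_lit 19) (nat_lit 4) (nat_lit 310) (nat_lit 250) (nat_lit 220)))))) (XT.nd (nat_lit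 390) (nat_lit 152) (nat_lit 0) (XT.nd (nat_lit 156) (nat_lit 76) (nat_lit 0) (XT.nd (nat_lit 78) (nat_lit 228) (nat_lit 0) (XT.lf (nat_lit 0) (nat_lit 16244397663) (nat_lit 152) (nat_lit 855331688) (nat_lit 0) (nat_lit 2071986602) (nat_lit 17) (nat_lit 5) (nat_lit 19) (nat_lit 4) (nat_lit 17) (nat_lit 4) (nat_lit 311) (nat_lit 250) (nat_lit 219)) (XT.lf (nat_lit 0) (nat_lit 417218485) (nat_lit 228) (nat_lit 13507861945) (nat_lit 76) (nat_lit 5990631756) (nat_lit 14) (nat_lit 5) (nat_lit 17) (nat_lit 5) (nat_lit 15) (nat_lit 4) (nat_lit 312) (nat_lit 250) (nat_lit 218))) (XT.nd (nat_lit 78) (nat_lit 76) (nat_lit 0) (XT.lf (nat_lit 0) (nat_lit 3783918870) (nat_lit 228) (nat_lit 6787791661) (nat_lit 76) (nat_lit 10125191031) (nat_lit 14) (nat_lit 5) (nat_lit 17) (nat_lit 5) (nat_lit 15) (nat_lit 4) (nat_lit 313) (nat_lit 250) (nat_lit 217)) (XT.nd (nat_lit 78) (nat_lit 0) (nat_lit 0) (XT.lf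 (nat_lit 0) (nat_lit 171615019) (nat_lit 76) (nat_lit 7091533824) (nat_lit 152) (nat_lit 14256847513) (nat_lit 13) (nat_lit 5) (nat_lit 14) (nat_lit 5) (nat_lit 15) (nat_lit 4) (nat_lit 314) (nat_lit 250) (nat_lit 216)) (XT.lf (nat_lit 0) (nat_lit 7614136705) (nat_lit 76) (nat_lit 3359889043) (nat_lit 152) (nat_lit 11407388901) (nat_lit 13) (nat_lit 5) (nat_lit 14) (nat_lit 5) (nat_lit 15) (nat_lit 4) (nat_lit 315) (nat_lit 250) (nat_lit 215))))) (XT.nd (nat_lit 156) (nat_lit 152) (nat_lit 0) (XT.nd (nat_lit 78) (nat_lit 0) (nat_lit 0) (XT.lf (nat_lit 0) (nat_lit 14823978718) (nat_lit 152) (nat_lit 7963697049) (nat_lit 0) (nat_lit 500601981) (nat_lit 13) (nat_lit 5) (nat_lit 15) (nat_lit 4) (nat_lit 13) (nat_lit 4) (nat_lit 316) (nat_lit 250) (nat_lit 214)) (XT.lf (nat_lit 0) (nat_lit 18868952341) (nat_lit 152) (nat_lit 968217682) (nat_lit 0) (nat_lit 4403235928) (nat_lit 13) (nat_lit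 5) (nat_lit 15) (nat_lit 4) (nat_lit 13) (nat_lit 4) (nat_lit 317) (nat_lit 250) (nat_lit 213))) (XT.nd (nat_lit 78) (nat_lit 76) (nat_lit 0) (XT.lf (nat_lit 0) (nat_lit 6496192059) (nat_lit 76) (nat_lit 16671351927) (nat_lit 76) (nat_lit 2070073917) (nat_lit 12) (nat_lit 4) (nat_lit 13) (nat_lit 5) (nat_lit 13) (nat_lit 4) (nat_lit 318) (nat_lit 250) (nat_lit 212)) (XT.nd (nat_lit 78) (nat_lit 0) (nat_lit 0) (XT.lf (nat_lit 0) (nat_lit 1318467662) (nat_lit 152) (nat_lit 12027525584) (nat_lit 76) (nat_lit 12939309410) (nat_lit 11) (nat_lit 5) (nat_lit 13) (nat_lit 5) (nat_lit 12) (nat_lit 4) (nat_lit 319) (nat_lit 250) (nat_lit 211)) (XT.lf (nat_lit 0) (nat_lit 4759363095) (nat_lit 152) (nat_lit 5096648311) (nat_lit 76) (nat_lit 17530078287) (nat_lit 11) (nat_lit 5) (nat_lit 13) (nat_lit 5) (nat_lit 12) (nat_lit 4) (nat_lit 320) (nat_lit 250) (nat_lit 210))))))))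
noncomputable def xc77 : XT := (XT.nd (nat_lit 1482) (nat_lit 152) (nat_lit 0) (XT.nd (nat_lit 702) (nat_lit 152) (nat_lit 0) (XT.nd (nat_lit 312) (nat_lit 152) (nat_lit 0) (XT.nd (nat_lit 156) (nat_lit 0) (nat_lit 0) (XT.nd (nat_lit 78) (nat_lit 0) (nat_lit 0) (XT.lf (nat_lit 0) (nat_lit 2169464119) (nat_lit 76) (nat_lit 6191467578) (nat_lit 152) (nat_lit 20181590652) (nat_lit 10) (nat_lit 5) (nat_lit 11) (nat_lit 5) (nat_lit 12) (nat_lit 4) (nat_lit 321) (nat_lit 250) (nat_lit 209)) (XT.lf (nat_lit 0) (nat_lit 9896383524) (nat_lit 76) (nat_lit 2288180498) (nat_lit 152) (nat_lit 17570149242) (nat_lit 10) (nat_lit 5) (nat_lit 11) (nat_lit 5) (nat_lit 12) (nat_lit 4) (nat_lit 322) (nat_lit 250) (nat_lit 208))) (XT.nd (nat_lit 78) (nat_lit 0) (nat_lit 0) (XT.lf (nat_lit 0) (nat_lit 16184901235) (nat_lit 152) (nat_lit 13123410969) (nat_lit 0) (nat_lit 1719959540) (nat_lit 10) (nat_lit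 5) (nat_lit 12) (nat_lit 4) (nat_lit 10) (nat_lit 4) (nat_lit 323) (nat_lit 250) (nat_lit 207)) (XT.lf (nat_lit 0) (nat_lit 20382061578) (nat_lit 152) (nat_lit 6162860026) (nat_lit 0) (nat_lit 5820778786) (nat_lit 10) (nat_lit 5) (nat_lit 12) (nat_lit 4) (nat_lit 10) (nat_lit 4) (nat_lit 324) (nat_lit 250) (nat_lit 206)))) (XT.nd (nat_lit 156) (nat_lit 76) (nat_lit 0) (XT.nd (nat_lit 78) (nat_lit 0) (nat_lit 0) (XT.lf (nat_lit 0) (nat_lit 1111185618) (nat_lit 76) (nat_lit 23656476481) (nat_lit 76) (nat_lit 9003440265) (nat_lit 9) (nat_lit 4) (nat_lit 10) (nat_lit 5) (nat_lit 10) (nat_lit 4) (nat_lit 325) (nat_lit 250) (nat_lit 205)) (XT.lf (nat_lit 0) (nat_lit 8893927013) (nat_lit 76) (nat_lit 20544989348) (nat_lit 76) (nat_lit 5804568918) (nat_lit 9) (nat_lit 4) (nat_lit 10) (nat_lit 5) (nat_lit 10) (nat_lit 4) (nat_lit 326) (nat_lit 250) (nat_lit 204))) (XT.nd (nat_lit 78) (nat_lit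 76) (nat_lit 0) (XT.lf (nat_lit 0) (nat_lit 17000122511) (nat_lit 76) (nat_lit 17307422920) (nat_lit 76) (nat_lit 2483779428) (nat_lit 9) (nat_lit 4) (nat_lit 10) (nat_lit 5) (nat_lit 10) (nat_lit 4) (nat_lit 327) (nat_lit 250) (nat_lit 203)) (XT.nd (nat_lit 78) (nat_lit 0) (nat_lit 0) (XT.lf (nat_lit 0) (nat_lit 935890092) (nat_lit 152) (nat_lit 12984328859) (nat_lit 76) (nat_lit 24497332732) (nat_lit 8) (nat_lit 5) (nat_lit 10) (nat_lit 5) (nat_lit 9) (nat_lit 4) (nat_lit 328) (nat_lit 250) (nat_lit 202)) (XT.lf (nat_lit 0) (nat_lit 4409685534) (nat_lit 152) (nat_lit 5938533973) (nat_lit 76) (nat_lit 29776528064) (nat_lit 8) (nat_lit 5) (nat_lit 10) (nat_lit 5) (nat_lit 9) (nat_lit 4) (nat_lit 329) (nat_lit 250) (nat_lit 201)))))) (XT.nd (nat_lit 390) (nat_lit 76) (nat_lit 0) (XT.nd (nat_lit 156) (nat_lit 0) (nat_lit 0) (XT.nd (nat_lit 78) (nat_lit 0) (nat_lit 0) (XT.lf (nat_lit 0)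 (nat_lit 1448084517) (nat_lit 76) (nat_lit 6599898431) (nat_lit 152) (nat_lit 33869802831) (nat_lit 7) (nat_lit 5) (nat_lit 8) (nat_lit 5) (nat_lit 9) (nat_lit 4) (nat_lit 330) (nat_lit 250) (nat_lit 200)) (XT.lf (nat_lit 0) (nat_lit 9353325016) (nat_lit 76) (nat_lit 2584271745) (nat_lit 152) (nat_lit 31859431094) (nat_lit 7) (nat_lit 5) (nat_lit 8) (nat_lit 5) (nat_lit 9) (nat_lit 4) (nat_lit 331) (nat_lit 250) (nat_lit 199))) (XT.nd (nat_lit 78) (nat_lit 0) (nat_lit 0) (XT.lf (nat_lit 0) (nat_lit 16017105070) (nat_lit 152) (nat_lit 28197182468) (nat_lit 0) (nat_lit 1556194792) (nat_lit 7) (nat_lit 5) (nat_lit 9) (nat_lit 4) (nat_lit 7) (nat_lit 4) (nat_lit 332) (nat_lit 250) (nat_lit 198)) (XT.nd (nat_lit 78) (nat_lit 0) (nat_lit 0) (XT.lf (nat_lit 0) (nat_lit 20314317315) (nat_lit 152) (nat_lit 21733363811) (nat_lit 0) (nat_lit 5794261962) (nat_lit 7) (nat_lit 5) (nat_lit 9) (nat_lit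 4) (nat_lit 7) (nat_lit 4) (nat_lit 333) (nat_lit 250) (nat_lit 197)) (XT.lf (nat_lit 0) (nat_lit 24799117232) (nat_lit 152) (nat_lit 14996509099) (nat_lit 0) (nat_lit 10222733235) (nat_lit 7) (nat_lit 5) (nat_lit 9) (nat_lit 4) (nat_lit 7) (nat_lit 4) (nat_lit 334) (nat_lit 250) (nat_lit 196))))) (XT.nd (nat_lit 156) (nat_lit 76) (nat_lit 0) (XT.nd (nat_lit 78) (nat_lit 0) (nat_lit 0) (XT.lf (nat_lit 0) (nat_lit 29482182915) (nat_lit 152) (nat_lit 7970578201) (nat_lit 0) (nat_lit 14852152591) (nat_lit 7) (nat_lit 5) (nat_lit 9) (nat_lit 4) (nat_lit 7) (nat_lit 4) (nat_lit 335) (nat_lit 250) (nat_lit 195)) (XT.lf (nat_lit 0) (nat_lit 34374664520) (nat_lit 152) (nat_lit 638842711) (nat_lit 0) (nat_lit 19693542456) (nat_lit 7) (nat_lit 5) (nat_lit 9) (nat_lit 4) (nat_lit 7) (nat_lit 4) (nat_lit 336) (nat_lit 250) (nat_lit 194))) (XT.nd (nat_lit 78) (nat_lit 0) (nat_lit 0) (XT.lf (nat_lit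 0) (nat_lit 7248139616) (nat_lit 76) (nat_lit 32353234969) (nat_lit 76) (nat_lit 17623454105) (nat_lit 6) (nat_lit 4) (nat_lit 7) (nat_lit 5) (nat_lit 7) (nat_lit 4) (nat_lit 337) (nat_lit 250) (nat_lit 193)) (XT.nd (nat_lit 78) (nat_lit 0) (nat_lit 0) (XT.lf (nat_lit 0) (nat_lit 15509023370) (nat_lit 76) (nat_lit 29568112854) (nat_lit 76) (nat_lit 14791990275) (nat_lit 6) (nat_lit 4) (nat_lit 7) (nat_lit 5) (nat_lit 7) (nat_lit 4) (nat_lit 338) (nat_lit 250) (nat_lit 192)) (XT.lf (nat_lit 0) (nat_lit 24142354294) (nat_lit 76) (nat_lit 26662328754) (nat_lit 76) (nat_lit 11842071209) (nat_lit 6) (nat_lit 4) (nat_lit 7) (nat_lit 5) (nat_lit 7) (nat_lit 4) (nat_lit 339) (nat_lit 250) (nat_lit 191))))))) (XT.nd (nat_lit 780) (nat_lit 0) (nat_lit 0) (XT.nd (nat_lit 390) (nat_lit 76) (nat_lit 0) (XT.nd (nat_lit 156) (nat_lit 76) (nat_lit 0) (XT.nd (nat_lit 78) (nat_lit 0) (nat_lit 0) (XT.lf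 (nat_lit 0) (nat_lit 33168687939) (nat_lit 76) (nat_lit 23628964135) (nat_lit 76) (nat_lit 8766673290) (nat_lit 6) (nat_lit 4) (nat_lit 7) (nat_lit 5) (nat_lit 7) (nat_lit 4) (nat_lit 340) (nat_lit 250) (nat_lit 190)) (XT.lf (nat_lit 0) (nat_lit 42609515574) (nat_lit 76) (nat_lit 20460796702) (nat_lit 76) (nat_lit 5558474141) (nat_lit 6) (nat_lit 4) (nat_lit 7) (nat_lit 5) (nat_lit 7) (nat_lit 4) (nat_lit 341) (nat_lit 250) (nat_lit 189))) (XT.nd (nat_lit 78) (nat_lit 76) (nat_lit 0) (XT.lf (nat_lit 0) (nat_lit 52487315362) (nat_lit 76) (nat_lit 17150283197) (nat_lit 76) (nat_lit 2209835193) (nat_lit 6) (nat_lit 4) (nat_lit 7) (nat_lit 5) (nat_lit 7) (nat_lit 4) (nat_lit 342) (nat_lit 250) (nat_lit 188)) (XT.nd (nat_lit 78) (nat_lit 0) (nat_lit 0) (XT.lf (nat_lit 0) (nat_lit 1246017536) (nat_lit 152) (nat_lit 12422422000) (nat_lit 76) (nat_lit 61558486426) (nat_lit 5) (nat_lit 5) (nat_lit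 7) (nat_lit 5) (nat_lit 6) (nat_lit 4) (nat_lit 343) (nat_lit 250) (nat_lit 187)) (XT.lf (nat_lit 0) (nat_lit 4782864172) (nat_lit 152) (nat_lit 5206467296) (nat_lit 76) (nat_lit 68785137791) (nat_lit 5) (nat_lit 5) (nat_lit 7) (nat_lit 5) (nat_lit 6) (nat_lit 4) (nat_lit 344) (nat_lit 250) (nat_lit 186))))) (XT.nd (nat_lit 156) (nat_lit 0) (nat_lit 0) (XT.nd (nat_lit 78) (nat_lit 0) (nat_lit 0) (XT.lf (nat_lit 0) (nat_lit 2416780349) (nat_lit 76) (nat_lit 6100806670) (nat_lit 152) (nat_lit 73980761609) (nat_lit 4) (nat_lit 5) (nat_lit 5) (nat_lit 5) (nat_lit 6) (nat_lit 4) (nat_lit 345) (nat_lit 250) (nat_lit 185)) (XT.lf (nat_lit 0) (nat_lit 10571587999) (nat_lit 76) (nat_lit 1939254408) (nat_lit 152) (nat_lit 73893999830) (nat_lit 4) (nat_lit 5) (nat_lit 5) (nat_lit 5) (nat_lit 6) (nat_lit 4) (nat_lit 346) (nat_lit 250) (nat_lit 184))) (XT.nd (nat_lit 78) (nat_lit 0) (nat_lit 0)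 (XT.lf (nat_lit 0) (nat_lit 16725899886) (nat_lit 152) (nat_lit 71439964566) (nat_lit 0) (nat_lit 2339698724) (nat_lit 4) (nat_lit 5) (nat_lit 6) (nat_lit 4) (nat_lit 4) (nat_lit 4) (nat_lit 347) (nat_lit 250) (nat_lit 183)) (XT.nd (nat_lit 78) (nat_lit 0) (nat_lit 0) (XT.lf (nat_lit 0) (nat_lit 21168448292) (nat_lit 152) (nat_lit 66886892034) (nat_lit 0) (nat_lit 6755152089) (nat_lit 4) (nat_lit 5) (nat_lit 6) (nat_lit 4) (nat_lit 4) (nat_lit 4) (nat_lit 348) (nat_lit 250) (nat_lit 182)) (XT.lf (nat_lit 0) (nat_lit 25818787926) (nat_lit 152) (nat_lit 62132918796) (nat_lit 0) (nat_lit 11379686923) (nat_lit 4) (nat_lit 5) (nat_lit 6) (nat_lit 4) (nat_lit 4) (nat_lit 4) (nat_lit 349) (nat_lit 250) (nat_lit 181)))))) (XT.nd (nat_lit 390) (nat_lit 0) (nat_lit 0) (XT.nd (nat_lit 156) (nat_lit 0) (nat_lit 0) (XT.nd (nat_lit 78) (nat_lit 0) (nat_lit 0) (XT.lf (nat_lit 0) (nat_lit 30687991025)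 (nat_lit 152) (nat_lit 57166725871) (nat_lit 0) (nat_lit 16224314021) (nat_lit 4) (nat_lit 5) (nat_lit 6) (nat_lit 4) (nat_lit 4) (nat_lit 4) (nat_lit 350) (nat_lit 250) (nat_lit 180)) (XT.lf (nat_lit 0) (nat_lit 35787650930) (nat_lit 152) (nat_lit 51976488988) (nat_lit 0) (nat_lit 21300568211) (nat_lit 4) (nat_lit 5) (nat_lit 6) (nat_lit 4) (nat_lit 4) (nat_lit 4) (nat_lit 351) (nat_lit 250) (nat_lit 179))) (XT.nd (nat_lit 78) (nat_lit 0) (nat_lit 0) (XT.lf (nat_lit 0) (nat_lit 41129909688) (nat_lit 152) (nat_lit 46549850441) (nat_lit 0) (nat_lit 26620535812) (nat_lit 4) (nat_lit 5) (nat_lit 6) (nat_lit 4) (nat_lit 4) (nat_lit 4) (nat_lit 352) (nat_lit 250) (nat_lit 178)) (XT.nd (nat_lit 78) (nat_lit 0) (nat_lit 0) (XT.lf (nat_lit 0) (nat_lit 46727486963) (nat_lit 152) (nat_lit 40873889662) (nat_lit 0) (nat_lit 32196883414) (nat_lit 4) (nat_lit 5) (nat_lit 6) (nat_lit 4) (nat_lit 4)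 (nat_lit 4) (nat_lit 353) (nat_lit 250) (nat_lit 177)) (XT.lf (nat_lit 0) (nat_lit 52593710320) (nat_lit 152) (nat_lit 34935092458) (nat_lit 0) (nat_lit 38042888034) (nat_lit 4) (nat_lit 5) (nat_lit 6) (nat_lit 4) (nat_lit 4) (nat_lit 4) (nat_lit 354) (nat_lit 250) (nat_lit 176))))) (XT.nd (nat_lit 156) (nat_lit 0) (nat_lit 0) (XT.nd (nat_lit 78) (nat_lit 0) (nat_lit 0) (XT.lf (nat_lit 0) (nat_lit 58742546957) (nat_lit 152) (nat_lit 28719318837) (nat_lit 0) (nat_lit 44172468732) (nat_lit 4) (nat_lit 5) (nat_lit 6) (nat_lit 4) (nat_lit 4) (nat_lit 4) (nat_lit 355) (nat_lit 250) (nat_lit 175)) (XT.lf (nat_lit 0) (nat_lit 65188636962) (nat_lit 152) (nat_lit 22211769336) (nat_lit 0) (nat_lit 50600219747) (nat_lit 4) (nat_lit 5) (nat_lit 6) (nat_lit 4) (nat_lit 4) (nat_lit 4) (nat_lit 356) (nat_lit 250) (nat_lit 174))) (XT.nd (nat_lit 78) (nat_lit 0) (nat_lit 0) (XT.lf (nat_lit 0) (nat_lit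 71947328167) (nat_lit 152) (nat_lit 15396949792) (nat_lit 0) (nat_lit 57341445248) (nat_lit 4) (nat_lit 5) (nat_lit 6) (nat_lit 4) (nat_lit 4) (nat_lit 4) (nat_lit 357) (nat_lit 250) (nat_lit 173)) (XT.nd (nat_lit 78) (nat_lit 0) (nat_lit 0) (XT.lf (nat_lit 0) (nat_lit 79034712696) (nat_lit 152) (nat_lit 8258634442) (nat_lit 0) (nat_lit 64412195771) (nat_lit 4) (nat_lit 5) (nat_lit 6) (nat_lit 4) (nat_lit 4) (nat_lit 4) (nat_lit 358) (nat_lit 250) (nat_lit 172)) (XT.lf (nat_lit 0) (nat_lit 86467665272) (nat_lit 152) (nat_lit 779827299) (nat_lit 0) (nat_lit 71829306439) (nat_lit 4) (nat_lit 5) (nat_lit 6) (nat_lit 4) (nat_lit 4) (nat_lit 4) (nat_lit 359) (nat_lit 250) (nat_lit 171))))))))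
noncomputable def xc78 : XT := (XT.nd (nat_lit 1482) (nat_lit 0) (nat_lit 0) (XT.nd (nat_lit 702) (nat_lit 0) (nat_lit 0) (XT.nd (nat_lit 312) (nat_lit 0) (nat_lit 0) (XT.nd (nat_lit 156) (nat_lit 0) (nat_lit 0) (XT.nd (nat_lit 78) (nat_lit 0) (nat_lit 0) (XT.lf (nat_lit 0) (nat_lit 7290623815) (nat_lit 76) (nat_lit 87087086657) (nat_lit 76) (nat_lit 72433640291) (nat_lit 3) (nat_lit 4) (nat_lit 4) (nat_lit 5) (nat_lit 4) (nat_lit 4) (nat_lit 360) (nat_lit 250) (nat_lit 170)) (XT.lf (nat_lit 0) (nat_lit 15776281736) (nat_lit 76) (nat_lit 86911959745) (nat_lit 76) (nat_lit 72244144301) (nat_lit 3) (nat_lit 4) (nat_lit 4) (nat_lit 5) (nat_lit 4) (nat_lit 4) (nat_lit 361) (nat_lit 250) (nat_lit 169))) (XT.nd (nat_lit 78) (nat_lit 0) (nat_lit 0) (XT.lf (nat_lit 0) (nat_lit 24671565801) (nat_lit 76) (nat_lit 86734901619) (nat_lit 76) (nat_lit 72053401338) (nat_lit 3) (nat_lit 4) (nat_lit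 4) (nat_lit 5) (nat_lit 4) (nat_lit 4) (nat_lit 362) (nat_lit 250) (nat_lit 168)) (XT.lf (nat_lit 0) (nat_lit 33997655256) (nat_lit 76) (nat_lit 86555490712) (nat_lit 76) (nat_lit 71860957253) (nat_lit 3) (nat_lit 4) (nat_lit 4) (nat_lit 5) (nat_lit 4) (nat_lit 4) (nat_lit 363) (nat_lit 250) (nat_lit 167)))) (XT.nd (nat_lit 156) (nat_lit 0) (nat_lit 0) (XT.nd (nat_lit 78) (nat_lit 0) (nat_lit 0) (XT.lf (nat_lit 0) (nat_lit 43776755076) (nat_lit 76) (nat_lit 86373299855) (nat_lit 76) (nat_lit 71666353846) (nat_lit 3) (nat_lit 4) (nat_lit 4) (nat_lit 5) (nat_lit 4) (nat_lit 4) (nat_lit 364) (nat_lit 250) (nat_lit 166)) (XT.lf (nat_lit 0) (nat_lit 54032148832) (nat_lit 76) (nat_lit 86187895261) (nat_lit 76) (nat_lit 71469127775) (nat_lit 3) (nat_lit 4) (nat_lit 4) (nat_lit 5) (nat_lit 4) (nat_lit 4) (nat_lit 365) (nat_lit 250) (nat_lit 165))) (XT.nd (nat_lit 78) (nat_lit 0) (nat_lit 0)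 (XT.lf (nat_lit 0) (nat_lit 64788254129) (nat_lit 76) (nat_lit 85998835489) (nat_lit 76) (nat_lit 71268809454) (nat_lit 3) (nat_lit 4) (nat_lit 4) (nat_lit 5) (nat_lit 4) (nat_lit 4) (nat_lit 366) (nat_lit 250) (nat_lit 164)) (XT.nd (nat_lit 78) (nat_lit 0) (nat_lit 0) (XT.lf (nat_lit 0) (nat_lit 76070680741) (nat_lit 76) (nat_lit 85805670398) (nat_lit 76) (nat_lit 71064921935) (nat_lit 3) (nat_lit 4) (nat_lit 4) (nat_lit 5) (nat_lit 4) (nat_lit 4) (nat_lit 367) (nat_lit 250) (nat_lit 163)) (XT.lf (nat_lit 0) (nat_lit 87906291589) (nat_lit 76) (nat_lit 85607940070) (nat_lit 76) (nat_lit 70856979772) (nat_lit 3) (nat_lit 4) (nat_lit 4) (nat_lit 5) (nat_lit 4) (nat_lit 4) (nat_lit 368) (nat_lit 250) (nat_lit 162)))))) (XT.nd (nat_lit 390) (nat_lit 0) (nat_lit 0) (XT.nd (nat_lit 156) (nat_lit 0) (nat_lit 0) (XT.nd (nat_lit 78) (nat_lit 0) (nat_lit 0) (XT.lf (nat_lit 0) (nat_lit 100323266698)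 (nat_lit 76) (nat_lit 85405173720) (nat_lit 76) (nat_lit 70644487864) (nat_lit 3) (nat_lit 4) (nat_lit 4) (nat_lit 5) (nat_lit 4) (nat_lit 4) (nat_lit 369) (nat_lit 250) (nat_lit 161)) (XT.lf (nat_lit 0) (nat_lit 113351170294) (nat_lit 76) (nat_lit 85196888570) (nat_lit 76) (nat_lit 70426940277) (nat_lit 3) (nat_lit 4) (nat_lit 4) (nat_lit 5) (nat_lit 4) (nat_lit 4) (nat_lit 370) (nat_lit 250) (nat_lit 160))) (XT.nd (nat_lit 78) (nat_lit 0) (nat_lit 0) (XT.lf (nat_lit 0) (nat_lit 127021021197) (nat_lit 76) (nat_lit 84982588703) (nat_lit 76) (nat_lit 70203819043) (nat_lit 3) (nat_lit 4) (nat_lit 4) (nat_lit 5) (nat_lit 4) (nat_lit 4) (nat_lit 371) (nat_lit 250) (nat_lit 159)) (XT.nd (nat_lit 78) (nat_lit 0) (nat_lit 0) (XT.lf (nat_lit 0) (nat_lit 141365366670) (nat_lit 76) (nat_lit 84761763881) (nat_lit 76) (nat_lit 69974592918) (nat_lit 3) (nat_lit 4) (nat_lit 4) (nat_lit 5) (nat_lit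 4) (nat_lit 4) (nat_lit 372) (nat_lit 250) (nat_lit 158)) (XT.lf (nat_lit 0) (nat_lit 156418359916) (nat_lit 76) (nat_lit 84533888331) (nat_lit 76) (nat_lit 69738716128) (nat_lit 3) (nat_lit 4) (nat_lit 4) (nat_lit 5) (nat_lit 4) (nat_lit 4) (nat_lit 373) (nat_lit 250) (nat_lit 157))))) (XT.nd (nat_lit 156) (nat_lit 0) (nat_lit 0) (XT.nd (nat_lit 78) (nat_lit 0) (nat_lit 0) (XT.lf (nat_lit 0) (nat_lit 172215841395) (nat_lit 76) (nat_lit 84298419492) (nat_lit 76) (nat_lit 69495627060) (nat_lit 3) (nat_lit 4) (nat_lit 4) (nat_lit 5) (nat_lit 4) (nat_lit 4) (nat_lit 374) (nat_lit 250) (nat_lit 156)) (XT.lf (nat_lit 0) (nat_lit 188795424159) (nat_lit 76) (nat_lit 84054796725) (nat_lit 76) (nat_lit 69244746932) (nat_lit 3) (nat_lit 4) (nat_lit 4) (nat_lit 5) (nat_lit 4) (nat_lit 4) (nat_lit 375) (nat_lit 250) (nat_lit 155))) (XT.nd (nat_lit 78) (nat_lit 0) (nat_lit 0) (XT.lf (nat_lit 0)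 (nat_lit 206196583405) (nat_lit 76) (nat_lit 83802439974) (nat_lit 76) (nat_lit 68985478408) (nat_lit 3) (nat_lit 4) (nat_lit 4) (nat_lit 5) (nat_lit 4) (nat_lit 4) (nat_lit 376) (nat_lit 250) (nat_lit 154)) (XT.nd (nat_lit 78) (nat_lit 0) (nat_lit 0) (XT.lf (nat_lit 0) (nat_lit 224460750465) (nat_lit 76) (nat_lit 83540748391) (nat_lit 76) (nat_lit 68717204184) (nat_lit 3) (nat_lit 4) (nat_lit 4) (nat_lit 5) (nat_lit 4) (nat_lit 4) (nat_lit 377) (nat_lit 250) (nat_lit 153)) (XT.lf (nat_lit 0) (nat_lit 243631411449) (nat_lit 76) (nat_lit 83269098900) (nat_lit 76) (nat_lit 68439285512) (nat_lit 3) (nat_lit 4) (nat_lit 4) (nat_lit 5) (nat_lit 4) (nat_lit 4) (nat_lit 378) (nat_lit 250) (nat_lit 152))))))) (XT.nd (nat_lit 32838) (nat_lit 0) (nat_lit 3116) (XT.nd (nat_lit 390) (nat_lit 0) (nat_lit 0) (XT.nd (nat_lit 156) (nat_lit 0) (nat_lit 0) (XT.nd (nat_lit 78) (nat_lit 0) (nat_lit 0)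 (XT.lf (nat_lit 0) (nat_lit 263754210790) (nat_lit 76) (nat_lit 82986844716) (nat_lit 76) (nat_lit 68151060680) (nat_lit 3) (nat_lit 4) (nat_lit 4) (nat_lit 5) (nat_lit 4) (nat_lit 4) (nat_lit 379) (nat_lit 250) (nat_lit 151)) (XT.lf (nat_lit 0) (nat_lit 284877059914) (nat_lit 76) (nat_lit 82693313807) (nat_lit 76) (nat_lit 67851843438) (nat_lit 3) (nat_lit 4) (nat_lit 4) (nat_lit 5) (nat_lit 4) (nat_lit 4) (nat_lit 380) (nat_lit 250) (nat_lit 150))) (XT.nd (nat_lit 78) (nat_lit 0) (nat_lit 0) (XT.lf (nat_lit 0) (nat_lit 307050251320) (nat_lit 76) (nat_lit 82387807288) (nat_lit 76) (nat_lit 67540921365) (nat_lit 3) (nat_lit 4) (nat_lit 4) (nat_lit 5) (nat_lit 4) (nat_lit 4) (nat_lit 381) (nat_lit 250) (nat_lit 149)) (XT.nd (nat_lit 78) (nat_lit 0) (nat_lit 0) (XT.lf (nat_lit 0) (nat_lit 330326578319) (nat_lit 76) (nat_lit 82069597764) (nat_lit 76) (nat_lit 67217554169) (nat_lit 3) (nat_lit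 4) (nat_lit 4) (nat_lit 5) (nat_lit 4) (nat_lit 4) (nat_lit 382) (nat_lit 250) (nat_lit 148)) (XT.lf (nat_lit 0) (nat_lit 354761460739) (nat_lit 76) (nat_lit 81737927592) (nat_lit 76) (nat_lit 66880971930) (nat_lit 3) (nat_lit 4) (nat_lit 4) (nat_lit 5) (nat_lit 4) (nat_lit 4) (nat_lit 383) (nat_lit 250) (nat_lit 147))))) (XT.nd (nat_lit 156) (nat_lit 0) (nat_lit 0) (XT.nd (nat_lit 78) (nat_lit 0) (nat_lit 0) (XT.lf (nat_lit 0) (nat_lit 380413076870) (nat_lit 76) (nat_lit 81392007082) (nat_lit 76) (nat_lit 66530373260) (nat_lit 3) (nat_lit 4) (nat_lit 4) (nat_lit 5) (nat_lit 4) (nat_lit 4) (nat_lit 384) (nat_lit 250) (nat_lit 146)) (XT.lf (nat_lit 0) (nat_lit 407342501990) (nat_lit 76) (nat_lit 81031012614) (nat_lit 76) (nat_lit 66164923402) (nat_lit 3) (nat_lit 4) (nat_lit 4) (nat_lit 5) (nat_lit 4) (nat_lit 4) (nat_lit 385) (nat_lit 250) (nat_lit 145))) (XT.nd (nat_lit 78) (nat_lit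 0) (nat_lit 0) (XT.lf (nat_lit 0) (nat_lit 435613853776) (nat_lit 76) (nat_lit 80654084676) (nat_lit 76) (nat_lit 65783752236) (nat_lit 3) (nat_lit 4) (nat_lit 4) (nat_lit 5) (nat_lit 4) (nat_lit 4) (nat_lit 386) (nat_lit 250) (nat_lit 144)) (XT.nd (nat_lit 32136) (nat_lit 0) (nat_lit 5396) (XT.lf (nat_lit 0) (nat_lit 465294444972) (nat_lit 76) (nat_lit 80260325822) (nat_lit 76) (nat_lit 65385952211) (nat_lit 3) (nat_lit 4) (nat_lit 4) (nat_lit 5) (nat_lit 4) (nat_lit 4) (nat_lit 387) (nat_lit 250) (nat_lit 143)) (XT.lf (nat_lit 0) (nat_lit 854908032) (nat_lit 456) (nat_lit 2031250486) (nat_lit 0) (nat_lit 854908032) (nat_lit 74) (nat_lit 5) (nat_lit 80) (nat_lit 4) (nat_lit 74) (nat_lit 4) (nat_lit 278) (nat_lit 251) (nat_lit 251)))))) (XT.nd (nat_lit 390) (nat_lit 1140) (nat_lit 0) (XT.nd (nat_lit 156) (nat_lit 684) (nat_lit 0) (XT.nd (nat_lit 78) (nat_lit 76) (nat_lit 0) (XT.lf (nat_lit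 0) (nat_lit 979548284) (nat_lit 380) (nat_lit 4019051919) (nat_lit 380) (nat_lit 2609039198) (nat_lit 69) (nat_lit 4) (nat_lit 74) (nat_lit 5) (nat_lit 74) (nat_lit 4) (nat_lit 279) (nat_lit 251) (nat_lit 250)) (XT.lf (nat_lit 0) (nat_lit 606977141) (nat_lit 456) (nat_lit 1508578839) (nat_lit 76) (nat_lit 5627872272) (nat_lit 68) (nat_lit 5) (nat_lit 74) (nat_lit 5) (nat_lit 69) (nat_lit 4) (nat_lit 280) (nat_lit 251) (nat_lit 249))) (XT.nd (nat_lit 78) (nat_lit 380) (nat_lit 0) (XT.lf (nat_lit 0) (nat_lit 3778316959) (nat_lit 304) (nat_lit 31498671) (nat_lit 380) (nat_lit 4078778838) (nat_lit 64) (nat_lit 5) (nat_lit 68) (nat_lit 5) (nat_lit 69) (nat_lit 4) (nat_lit 281) (nat_lit 251) (nat_lit 248)) (XT.nd (nat_lit 78) (nat_lit 76) (nat_lit 0) (XT.lf (nat_lit 0) (nat_lit 1174552968) (nat_lit 304) (nat_lit 5934929504) (nat_lit 304) (nat_lit 935094184) (nat_lit 60) (nat_lit 4) (nat_lit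 64) (nat_lit 5) (nat_lit 64) (nat_lit 4) (nat_lit 282) (nat_lit 251) (nat_lit 247)) (XT.lf (nat_lit 0) (nat_lit 2221519025) (nat_lit 380) (nat_lit 1550503179) (nat_lit 76) (nat_lit 4438271278) (nat_lit 59) (nat_lit 5) (nat_lit 64) (nat_lit 5) (nat_lit 60) (nat_lit 4) (nat_lit 283) (nat_lit 251) (nat_lit 246))))) (XT.nd (nat_lit 156) (nat_lit 532) (nat_lit 0) (XT.nd (nat_lit 78) (nat_lit 380) (nat_lit 0) (XT.lf (nat_lit 0) (nat_lit 3982011914) (nat_lit 228) (nat_lit 1451550182) (nat_lit 304) (nat_lit 2953854971) (nat_lit 56) (nat_lit 5) (nat_lit 59) (nat_lit 5) (nat_lit 60) (nat_lit 4) (nat_lit 284) (nat_lit 251) (nat_lit 245)) (XT.lf (nat_lit 0) (nat_lit 153658322) (nat_lit 380) (nat_lit 7455343392) (nat_lit 76) (nat_lit 968105545) (nat_lit 51) (nat_lit 5) (nat_lit 56) (nat_lit 5) (nat_lit 52) (nat_lit 4) (nat_lit 285) (nat_lit 251) (nat_lit 244))) (XT.nd (nat_lit 78) (nat_lit 532)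 (nat_lit 0) (XT.lf (nat_lit 0) (nat_lit 3288271520) (nat_lit 380) (nat_lit 1938293106) (nat_lit 76) (nat_lit 3549038989) (nat_lit 51) (nat_lit 5) (nat_lit 56) (nat_lit 5) (nat_lit 52) (nat_lit 4) (nat_lit 286) (nat_lit 251) (nat_lit 243)) (XT.nd (nat_lit 78) (nat_lit 304) (nat_lit 0) (XT.lf (nat_lit 0) (nat_lit 3814275318) (nat_lit 228) (nat_lit 2702383481) (nat_lit 304) (nat_lit 2470792398) (nat_lit 48) (nat_lit 5) (nat_lit 51) (nat_lit 5) (nat_lit 52) (nat_lit 4) (nat_lit 287) (nat_lit 251) (nat_lit 242)) (XT.lf (nat_lit 0) (nat_lit 555830457) (nat_lit 228) (nat_lit 39111578) (nat_lit 304) (nat_lit 8618624901) (nat_lit 44) (nat_lit 5) (nat_lit 47) (nat_lit 5) (nat_lit 48) (nat_lit 5) (nat_lit 288) (nat_lit 251) (nat_lit 241))))))))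
noncomputable def xc79 : XT := (XT.nd (nat_lit 1560) (nat_lit 684) (nat_lit 0) (XT.nd (nat_lit 780) (nat_lit 836) (nat_lit 0) (XT.nd (nat_lit 390) (nat_lit 532) (nat_lit 0) (XT.nd (nat_lit 156) (nat_lit 456) (nat_lit 0) (XT.nd (nat_lit 78) (nat_lit 152) (nat_lit 0) (XT.lf (nat_lit 0) (nat_lit 3744228608) (nat_lit 304) (nat_lit 2947596399) (nat_lit 76) (nat_lit 2756713847) (nat_lit 44) (nat_lit 5) (nat_lit 48) (nat_lit 5) (nat_lit 45) (nat_lit 4) (nat_lit 289) (nat_lit 251) (nat_lit 240)) (XT.lf (nat_lit 0) (nat_lit 2983976376) (nat_lit 152) (nat_lit 4001093703) (nat_lit 228) (nat_lit 2713713948) (nat_lit 42) (nat_lit 5) (nat_lit 44) (nat_lit 5) (nat_lit 45) (nat_lit 4) (nat_lit 290) (nat_lit 251) (nat_lit 239))) (XT.nd (nat_lit 78) (nat_lit 380) (nat_lit 0) (XT.lf (nat_lit 0) (nat_lit 351291169) (nat_lit 228) (nat_lit 812353205) (nat_lit 76) (nat_lit 8800845745) (nat_lit 41) (nat_lit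 5) (nat_lit 44) (nat_lit 5) (nat_lit 42) (nat_lit 5) (nat_lit 291) (nat_lit 251) (nat_lit 238)) (XT.nd (nat_lit 78) (nat_lit 152) (nat_lit 0) (XT.lf (nat_lit 0) (nat_lit 3484893434) (nat_lit 304) (nat_lit 4912730923) (nat_lit 76) (nat_lit 1843503507) (nat_lit 38) (nat_lit 5) (nat_lit 42) (nat_lit 5) (nat_lit 39) (nat_lit 4) (nat_lit 292) (nat_lit 251) (nat_lit 237)) (XT.lf (nat_lit 0) (nat_lit 1135650685) (nat_lit 152) (nat_lit 5585472514) (nat_lit 228) (nat_lit 3813365480) (nat_lit 36) (nat_lit 5) (nat_lit 38) (nat_lit 5) (nat_lit 39) (nat_lit 4) (nat_lit 293) (nat_lit 251) (nat_lit 236))))) (XT.nd (nat_lit 156) (nat_lit 228) (nat_lit 0) (XT.nd (nat_lit 78) (nat_lit 304) (nat_lit 0) (XT.lf (nat_lit 0) (nat_lit 7504634658) (nat_lit 152) (nat_lit 2595500193) (nat_lit 228) (nat_lit 743513737) (nat_lit 36) (nat_lit 5) (nat_lit 38) (nat_lit 5) (nat_lit 39) (nat_lit 4) (nat_lit 294) (nat_lit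 251) (nat_lit 235)) (XT.lf (nat_lit 0) (nat_lit 2356194027) (nat_lit 304) (nat_lit 8247955342) (nat_lit 76) (nat_lit 564557471) (nat_lit 32) (nat_lit 5) (nat_lit 36) (nat_lit 5) (nat_lit 33) (nat_lit 4) (nat_lit 295) (nat_lit 251) (nat_lit 234))) (XT.nd (nat_lit 78) (nat_lit 228) (nat_lit 0) (XT.lf (nat_lit 0) (nat_lit 5588467189) (nat_lit 304) (nat_lit 2103808027) (nat_lit 76) (nat_lit 3817160126) (nat_lit 32) (nat_lit 5) (nat_lit 36) (nat_lit 5) (nat_lit 33) (nat_lit 4) (nat_lit 296) (nat_lit 251) (nat_lit 233)) (XT.nd (nat_lit 78) (nat_lit 76) (nat_lit 0) (XT.lf (nat_lit 0) (nat_lit 4343340985) (nat_lit 152) (nat_lit 4614008494) (nat_lit 228) (nat_lit 2911248751) (nat_lit 30) (nat_lit 5) (nat_lit 32) (nat_lit 5) (nat_lit 33) (nat_lit 4) (nat_lit 297) (nat_lit 251) (nat_lit 232)) (XT.lf (nat_lit 0) (nat_lit 184983730) (nat_lit 228) (nat_lit 1206614740) (nat_lit 76) (nat_lit 10856860683)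 (nat_lit 29) (nat_lit 5) (nat_lit 32) (nat_lit 5) (nat_lit 30) (nat_lit 5) (nat_lit 298) (nat_lit 251) (nat_lit 231)))))) (XT.nd (nat_lit 390) (nat_lit 304) (nat_lit 0) (XT.nd (nat_lit 156) (nat_lit 380) (nat_lit 0) (XT.nd (nat_lit 78) (nat_lit 0) (nat_lit 0) (XT.lf (nat_lit 0) (nat_lit 3367425850) (nat_lit 228) (nat_lit 7261353969) (nat_lit 76) (nat_lit 2014812900) (nat_lit 27) (nat_lit 5) (nat_lit 30) (nat_lit 5) (nat_lit 28) (nat_lit 4) (nat_lit 299) (nat_lit 251) (nat_lit 230)) (XT.lf (nat_lit 0) (nat_lit 6666051307) (nat_lit 228) (nat_lit 876841318) (nat_lit 76) (nat_lit 5517858819) (nat_lit 27) (nat_lit 5) (nat_lit 30) (nat_lit 5) (nat_lit 28) (nat_lit 4) (nat_lit 300) (nat_lit 251) (nat_lit 229))) (XT.nd (nat_lit 78) (nat_lit 228) (nat_lit 0) (XT.lf (nat_lit 0) (nat_lit 5883139053) (nat_lit 152) (nat_lit 4255919886) (nat_lit 228) (nat_lit 3359352376) (nat_lit 25) (nat_lit 5)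 (nat_lit 27) (nat_lit 5) (nat_lit 28) (nat_lit 4) (nat_lit 301) (nat_lit 251) (nat_lit 228)) (XT.nd (nat_lit 78) (nat_lit 228) (nat_lit 0) (XT.lf (nat_lit 0) (nat_lit 12881635213) (nat_lit 152) (nat_lit 838425464) (nat_lit 228) (nat_lit 241286557) (nat_lit 25) (nat_lit 5) (nat_lit 27) (nat_lit 5) (nat_lit 28) (nat_lit 4) (nat_lit 302) (nat_lit 251) (nat_lit 227)) (XT.lf (nat_lit 0) (nat_lit 2992490411) (nat_lit 228) (nat_lit 8694665439) (nat_lit 76) (nat_lit 2755163027) (nat_lit 22) (nat_lit 5) (nat_lit 25) (nat_lit 5) (nat_lit 23) (nat_lit 4) (nat_lit 303) (nat_lit 251) (nat_lit 226))))) (XT.nd (nat_lit 156) (nat_lit 228) (nat_lit 0) (XT.nd (nat_lit 78) (nat_lit 76) (nat_lit 0) (XT.lf (nat_lit 0) (nat_lit 6335168888) (nat_lit 228) (nat_lit 2138088527) (nat_lit 76) (nat_lit 6476213069) (nat_lit 22) (nat_lit 5) (nat_lit 25) (nat_lit 5) (nat_lit 23) (nat_lit 4) (nat_lit 304) (nat_lit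 251) (nat_lit 225)) (XT.lf (nat_lit 0) (nat_lit 4777772871) (nat_lit 76) (nat_lit 5068461490) (nat_lit 152) (nat_lit 5635773353) (nat_lit 21) (nat_lit 5) (nat_lit 22) (nat_lit 5) (nat_lit 23) (nat_lit 4) (nat_lit 305) (nat_lit 251) (nat_lit 224))) (XT.nd (nat_lit 78) (nat_lit 228) (nat_lit 0) (XT.lf (nat_lit 0) (nat_lit 11994153098) (nat_lit 76) (nat_lit 1503194881) (nat_lit 152) (nat_lit 2545685461) (nat_lit 21) (nat_lit 5) (nat_lit 22) (nat_lit 5) (nat_lit 23) (nat_lit 4) (nat_lit 306) (nat_lit 251) (nat_lit 223)) (XT.nd (nat_lit 78) (nat_lit 0) (nat_lit 0) (XT.lf (nat_lit 0) (nat_lit 687566920) (nat_lit 228) (nat_lit 13762899116) (nat_lit 76) (nat_lit 2180625694) (nat_lit 18) (nat_lit 5) (nat_lit 21) (nat_lit 5) (nat_lit 19) (nat_lit 4) (nat_lit 307) (nat_lit 251) (nat_lit 222)) (XT.lf (nat_lit 0) (nat_lit 4022568746) (nat_lit 228) (nat_lit 7158001707) (nat_lit 76) (nat_lit 6064688544)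 (nat_lit 18) (nat_lit 5) (nat_lit 21) (nat_lit 5) (nat_lit 19) (nat_lit 4) (nat_lit 308) (nat_lit 251) (nat_lit 221))))))) (XT.nd (nat_lit 780) (nat_lit 228) (nat_lit 0) (XT.nd (nat_lit 390) (nat_lit 152) (nat_lit 0) (XT.nd (nat_lit 156) (nat_lit 228) (nat_lit 0) (XT.nd (nat_lit 78) (nat_lit 76) (nat_lit 0) (XT.lf (nat_lit 0) (nat_lit 7458894158) (nat_lit 228) (nat_lit 334350170) (nat_lit 76) (nat_lit 10100232688) (nat_lit 18) (nat_lit 5) (nat_lit 21) (nat_lit 5) (nat_lit 19) (nat_lit 4) (nat_lit 309) (nat_lit 251) (nat_lit 220)) (XT.lf (nat_lit 0) (nat_lit 6946638085) (nat_lit 76) (nat_lit 4166543285) (nat_lit 152) (nat_lit 7458684967) (nat_lit 17) (nat_lit 5) (nat_lit 18) (nat_lit 5) (nat_lit 19) (nat_lit 4) (nat_lit 310) (nat_lit 251) (nat_lit 219))) (XT.nd (nat_lit 78) (nat_lit 228) (nat_lit 0) (XT.lf (nat_lit 0) (nat_lit 14498814584) (nat_lit 76) (nat_lit 396055917) (nat_lit 152)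 (nat_lit 4392134702) (nat_lit 17) (nat_lit 5) (nat_lit 18) (nat_lit 5) (nat_lit 19) (nat_lit 4) (nat_lit 311) (nat_lit 251) (nat_lit 218)) (XT.nd (nat_lit 78) (nat_lit 76) (nat_lit 0) (XT.lf (nat_lit 0) (nat_lit 2307100229) (nat_lit 152) (nat_lit 16591473893) (nat_lit 152) (nat_lit 1137741775) (nat_lit 15) (nat_lit 4) (nat_lit 17) (nat_lit 5) (nat_lit 17) (nat_lit 4) (nat_lit 312) (nat_lit 251) (nat_lit 217)) (XT.lf (nat_lit 0) (nat_lit 2236844270) (nat_lit 228) (nat_lit 11041216130) (nat_lit 76) (nat_lit 7541786660) (nat_lit 14) (nat_lit 5) (nat_lit 17) (nat_lit 5) (nat_lit 15) (nat_lit 4) (nat_lit 313) (nat_lit 251) (nat_lit 216))))) (XT.nd (nat_lit 156) (nat_lit 76) (nat_lit 0) (XT.nd (nat_lit 78) (nat_lit 76) (nat_lit 0) (XT.lf (nat_lit 0) (nat_lit 5686224204) (nat_lit 228) (nat_lit 4134763232) (nat_lit 76) (nat_lit 11823472788) (nat_lit 14) (nat_lit 5) (nat_lit 17) (nat_lit 5)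 (nat_lit 15) (nat_lit 4) (nat_lit 314) (nat_lit 251) (nat_lit 215)) (XT.lf (nat_lit 0) (nat_lit 3124348976) (nat_lit 76) (nat_lit 6179456546) (nat_lit 152) (nat_lit 13206762410) (nat_lit 13) (nat_lit 5) (nat_lit 14) (nat_lit 5) (nat_lit 15) (nat_lit 4) (nat_lit 315) (nat_lit 251) (nat_lit 214))) (XT.nd (nat_lit 78) (nat_lit 76) (nat_lit 0) (XT.lf (nat_lit 0) (nat_lit 10798798974) (nat_lit 76) (nat_lit 2321546382) (nat_lit 152) (nat_lit 10298779795) (nat_lit 13) (nat_lit 5) (nat_lit 14) (nat_lit 5) (nat_lit 15) (nat_lit 4) (nat_lit 316) (nat_lit 251) (nat_lit 213)) (XT.nd (nat_lit 78) (nat_lit 76) (nat_lit 0) (XT.lf (nat_lit 0) (nat_lit 17104656342) (nat_lit 152) (nat_lit 5631899652) (nat_lit 0) (nat_lit 1637752835) (nat_lit 13) (nat_lit 5) (nat_lit 15) (nat_lit 4) (nat_lit 13) (nat_lit 4) (nat_lit 317) (nat_lit 251) (nat_lit 212)) (XT.lf (nat_lit 0) (nat_lit 1635707380) (nat_lit 76)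 (nat_lit 19668400734) (nat_lit 76) (nat_lit 4072390944) (nat_lit 12) (nat_lit 4) (nat_lit 13) (nat_lit 5) (nat_lit 13) (nat_lit 4) (nat_lit 318) (nat_lit 251) (nat_lit 211)))))) (XT.nd (nat_lit 390) (nat_lit 76) (nat_lit 0) (XT.nd (nat_lit 156) (nat_lit 76) (nat_lit 0) (XT.nd (nat_lit 78) (nat_lit 76) (nat_lit 0) (XT.lf (nat_lit 0) (nat_lit 9379049546) (nat_lit 76) (nat_lit 16383162488) (nat_lit 76) (nat_lit 664194333) (nat_lit 12) (nat_lit 4) (nat_lit 13) (nat_lit 5) (nat_lit 13) (nat_lit 4) (nat_lit 319) (nat_lit 251) (nat_lit 210)) (XT.lf (nat_lit 0) (nat_lit 2775889701) (nat_lit 152) (nat_lit 10145497470) (nat_lit 76) (nat_lit 14607446602) (nat_lit 11) (nat_lit 5) (nat_lit 13) (nat_lit 5) (nat_lit 12) (nat_lit 4) (nat_lit 320) (nat_lit 251) (nat_lit 209))) (XT.nd (nat_lit 78) (nat_lit 76) (nat_lit 0) (XT.lf (nat_lit 0) (nat_lit 6322568065) (nat_lit 152) (nat_lit 2986333686) (nat_lit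 76) (nat_lit 19379126699) (nat_lit 11) (nat_lit 5) (nat_lit 13) (nat_lit 5) (nat_lit 12) (nat_lit 4) (nat_lit 321) (nat_lit 251) (nat_lit 208)) (XT.nd (nat_lit 78) (nat_lit 0) (nat_lit 0) (XT.lf (nat_lit 0) (nat_lit 4604936832) (nat_lit 76) (nat_lit 5472502733) (nat_lit 152) (nat_lit 19826234515) (nat_lit 10) (nat_lit 5) (nat_lit 11) (nat_lit 5) (nat_lit 12) (nat_lit 4) (nat_lit 322) (nat_lit 251) (nat_lit 207)) (XT.lf (nat_lit 0) (nat_lit 12607392708) (nat_lit 76) (nat_lit 1423029309) (nat_lit 152) (nat_lit 17149194162) (nat_lit 10) (nat_lit 5) (nat_lit 11) (nat_lit 5) (nat_lit 12) (nat_lit 4) (nat_lit 323) (nat_lit 251) (nat_lit 206))))) (XT.nd (nat_lit 156) (nat_lit 76) (nat_lit 0) (XT.nd (nat_lit 78) (nat_lit 0) (nat_lit 0) (XT.lf (nat_lit 0) (nat_lit 18186454368) (nat_lit 152) (nat_lit 11623649064) (nat_lit 0) (nat_lit 2709012916) (nat_lit 10) (nat_lit 5) (nat_lit 12) (nat_lit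 4) (nat_lit 10) (nat_lit 4) (nat_lit 324) (nat_lit 251) (nat_lit 205)) (XT.lf (nat_lit 0) (nat_lit 22536696152) (nat_lit 152) (nat_lit 4417734024) (nat_lit 0) (nat_lit 6971870487) (nat_lit 10) (nat_lit 5) (nat_lit 12) (nat_lit 4) (nat_lit 10) (nat_lit 4) (nat_lit 325) (nat_lit 251) (nat_lit 204))) (XT.nd (nat_lit 78) (nat_lit 0) (nat_lit 0) (XT.lf (nat_lit 0) (nat_lit 3186896660) (nat_lit 76) (nat_lit 23932147342) (nat_lit 76) (nat_lit 8284098615) (nat_lit 9) (nat_lit 4) (nat_lit 10) (nat_lit 5) (nat_lit 10) (nat_lit 4) (nat_lit 326) (nat_lit 251) (nat_lit 203)) (XT.nd (nat_lit 78) (nat_lit 0) (nat_lit 0) (XT.lf (nat_lit 0) (nat_lit 11262577422) (nat_lit 76) (nat_lit 20708283613) (nat_lit 76) (nat_lit 4980974828) (nat_lit 9) (nat_lit 4) (nat_lit 10) (nat_lit 5) (nat_lit 10) (nat_lit 4) (nat_lit 327) (nat_lit 251) (nat_lit 202)) (XT.lf (nat_lit 0) (nat_lit 19682465835) (nat_lit 76) (nat_lit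 17349979586) (nat_lit 76) (nat_lit 1547185032) (nat_lit 9) (nat_lit 4) (nat_lit 10) (nat_lit 5) (nat_lit 10) (nat_lit 4) (nat_lit 328) (nat_lit 251) (nat_lit 201))))))))
noncomputable def xc80 : XT := (XT.nd (nat_lit 1482) (nat_lit 76) (nat_lit 0) (XT.nd (nat_lit 702) (nat_lit 152) (nat_lit 0) (XT.nd (nat_lit 312) (nat_lit 76) (nat_lit 0) (XT.nd (nat_lit 156) (nat_lit 76) (nat_lit 0) (XT.nd (nat_lit 78) (nat_lit 0) (nat_lit 0) (XT.lf (nat_lit 0) (nat_lit 1960619525) (nat_lit 152) (nat_lit 11855415735) (nat_lit 76) (nat_lit 26472785684) (nat_lit 8) (nat_lit 5) (nat_lit 10) (nat_lit 5) (nat_lit 9) (nat_lit 4) (nat_lit 329) (nat_lit 251) (nat_lit 200)) (XT.lf (nat_lit 0) (nat_lit 5561536409) (nat_lit 152) (nat_lit 4542003941) (nat_lit 76) (nat_lit 31980198577) (nat_lit 8) (nat_lit 5) (nat_lit 10) (nat_lit 5) (nat_lit 9) (nat_lit 4) (nat_lit 330) (nat_lit 251) (nat_lit 199))) (XT.nd (nat_lit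 78) (nat_lit 0) (nat_lit 0) (XT.lf (nat_lit 0) (nat_lit 3186631655) (nat_lit 76) (nat_lit 6176779409) (nat_lit 152) (nat_lit 34603967135) (nat_lit 7) (nat_lit 5) (nat_lit 8) (nat_lit 5) (nat_lit 9) (nat_lit 4) (nat_lit 331) (nat_lit 251) (nat_lit 198)) (XT.lf (nat_lit 0) (nat_lit 11407794041) (nat_lit 76) (nat_lit 1996233957) (nat_lit 152) (nat_lit 32538758993) (nat_lit 7) (nat_lit 5) (nat_lit 8) (nat_lit 5) (nat_lit 9) (nat_lit 4) (nat_lit 332) (nat_lit 251) (nat_lit 197)))) (XT.nd (nat_lit 156) (nat_lit 76) (nat_lit 0) (XT.nd (nat_lit 78) (nat_lit 0) (nat_lit 0) (XT.lf (nat_lit 0) (nat_lit 17656769564) (nat_lit 152) (nat_lit 28064473281) (nat_lit 0) (nat_lit 2295237724) (nat_lit 7) (nat_lit 5) (nat_lit 9) (nat_lit 4) (nat_lit 7) (nat_lit 4) (nat_lit 333) (nat_lit 251) (nat_lit 196)) (XT.lf (nat_lit 0) (nat_lit 22128899125) (nat_lit 152) (nat_lit 21350919325) (nat_lit 0) (nat_lit 6713720958)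 (nat_lit 7) (nat_lit 5) (nat_lit 9) (nat_lit 4) (nat_lit 7) (nat_lit 4) (nat_lit 334) (nat_lit 251) (nat_lit 195))) (XT.nd (nat_lit 78) (nat_lit 76) (nat_lit 0) (XT.lf (nat_lit 0) (nat_lit 26799897802) (nat_lit 152) (nat_lit 14347179624) (nat_lit 0) (nat_lit 11333627895) (nat_lit 7) (nat_lit 5) (nat_lit 9) (nat_lit 4) (nat_lit 7) (nat_lit 4) (nat_lit 335) (nat_lit 251) (nat_lit 194)) (XT.nd (nat_lit 78) (nat_lit 76) (nat_lit 0) (XT.lf (nat_lit 0) (nat_lit 31680887021) (nat_lit 152) (nat_lit 7036578606) (nat_lit 0) (nat_lit 16165958313) (nat_lit 7) (nat_lit 5) (nat_lit 9) (nat_lit 4) (nat_lit 7) (nat_lit 4) (nat_lit 336) (nat_lit 251) (nat_lit 193)) (XT.lf (nat_lit 0) (nat_lit 618072086) (nat_lit 76) (nat_lit 36175065936) (nat_lit 76) (nat_lit 20613795514) (nat_lit 6) (nat_lit 4) (nat_lit 7) (nat_lit 5) (nat_lit 7) (nat_lit 4) (nat_lit 337) (nat_lit 251) (nat_lit 192)))))) (XT.nd (nat_lit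 390) (nat_lit 152) (nat_lit 0) (XT.nd (nat_lit 156) (nat_lit 0) (nat_lit 0) (XT.nd (nat_lit 78) (nat_lit 0) (nat_lit 0) (XT.lf (nat_lit 0) (nat_lit 8859152416) (nat_lit 76) (nat_lit 33399014124) (nat_lit 76) (nat_lit 17793608736) (nat_lit 6) (nat_lit 4) (nat_lit 7) (nat_lit 5) (nat_lit 7) (nat_lit 4) (nat_lit 338) (nat_lit 251) (nat_lit 191)) (XT.lf (nat_lit 0) (nat_lit 17473622938) (nat_lit 76) (nat_lit 30501868407) (nat_lit 76) (nat_lit 14854429718) (nat_lit 6) (nat_lit 4) (nat_lit 7) (nat_lit 5) (nat_lit 7) (nat_lit 4) (nat_lit 339) (nat_lit 251) (nat_lit 190))) (XT.nd (nat_lit 78) (nat_lit 0) (nat_lit 0) (XT.lf (nat_lit 0) (nat_lit 26481994294) (nat_lit 76) (nat_lit 27476730821) (nat_lit 76) (nat_lit 11789260417) (nat_lit 6) (nat_lit 4) (nat_lit 7) (nat_lit 5) (nat_lit 7) (nat_lit 4) (nat_lit 340) (nat_lit 251) (nat_lit 189)) (XT.nd (nat_lit 78) (nat_lit 0) (nat_lit 0) (XT.lf (nat_lit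 0) (nat_lit 35905714988) (nat_lit 76) (nat_lit 24316398655) (nat_lit 76) (nat_lit 8590802808) (nat_lit 6) (nat_lit 4) (nat_lit 7) (nat_lit 5) (nat_lit 7) (nat_lit 4) (nat_lit 341) (nat_lit 251) (nat_lit 188)) (XT.lf (nat_lit 0) (nat_lit 45767222450) (nat_lit 76) (nat_lit 21013347311) (nat_lit 76) (nat_lit 5251441518) (nat_lit 6) (nat_lit 4) (nat_lit 7) (nat_lit 5) (nat_lit 7) (nat_lit 4) (nat_lit 342) (nat_lit 251) (nat_lit 187))))) (XT.nd (nat_lit 156) (nat_lit 76) (nat_lit 0) (XT.nd (nat_lit 78) (nat_lit 76) (nat_lit 0) (XT.lf (nat_lit 0) (nat_lit 56089996461) (nat_lit 76) (nat_lit 17559712380) (nat_lit 76) (nat_lit 1763225686) (nat_lit 6) (nat_lit 4) (nat_lit 7) (nat_lit 5) (nat_lit 7) (nat_lit 4) (nat_lit 343) (nat_lit 251) (nat_lit 186)) (XT.lf (nat_lit 0) (nat_lit 1821909409) (nat_lit 152) (nat_lit 12094506594) (nat_lit 76) (nat_lit 65045850725) (nat_lit 5) (nat_lit 5) (nat_lit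 7) (nat_lit 5) (nat_lit 6) (nat_lit 4) (nat_lit 344) (nat_lit 251) (nat_lit 185))) (XT.nd (nat_lit 78) (nat_lit 76) (nat_lit 0) (XT.lf (nat_lit 0) (nat_lit 5511141663) (nat_lit 152) (nat_lit 4562946370) (nat_lit 76) (nat_lit 72614337517) (nat_lit 5) (nat_lit 5) (nat_lit 7) (nat_lit 5) (nat_lit 6) (nat_lit 4) (nat_lit 345) (nat_lit 251) (nat_lit 184)) (XT.nd (nat_lit 78) (nat_lit 0) (nat_lit 0) (XT.lf (nat_lit 0) (nat_lit 3426885523) (nat_lit 76) (nat_lit 5996306957) (nat_lit 152) (nat_lit 77175791598) (nat_lit 4) (nat_lit 5) (nat_lit 5) (nat_lit 5) (nat_lit 6) (nat_lit 4) (nat_lit 346) (nat_lit 251) (nat_lit 183)) (XT.lf (nat_lit 0) (nat_lit 11947087549) (nat_lit 76) (nat_lit 1646178989) (nat_lit 152) (nat_lit 77108692116) (nat_lit 4) (nat_lit 5) (nat_lit 5) (nat_lit 5) (nat_lit 6) (nat_lit 4) (nat_lit 347) (nat_lit 251) (nat_lit 182))))))) (XT.nd (nat_lit 780) (nat_lit 76) (nat_lit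 0) (XT.nd (nat_lit 390) (nat_lit 0) (nat_lit 0) (XT.nd (nat_lit 156) (nat_lit 0) (nat_lit 0) (XT.nd (nat_lit 78) (nat_lit 0) (nat_lit 0) (XT.lf (nat_lit 0) (nat_lit 18003120213) (nat_lit 152) (nat_lit 74189147312) (nat_lit 0) (nat_lit 2816259359) (nat_lit 4) (nat_lit 5) (nat_lit 6) (nat_lit 4) (nat_lit 4) (nat_lit 4) (nat_lit 348) (nat_lit 251) (nat_lit 181)) (XT.lf (nat_lit 0) (nat_lit 22646799595) (nat_lit 152) (nat_lit 69447602842) (nat_lit 0) (nat_lit 7435362740) (nat_lit 4) (nat_lit 5) (nat_lit 6) (nat_lit 4) (nat_lit 4) (nat_lit 4) (nat_lit 349) (nat_lit 251) (nat_lit 180))) (XT.nd (nat_lit 78) (nat_lit 0) (nat_lit 0) (XT.lf (nat_lit 0) (nat_lit 27509659596) (nat_lit 152) (nat_lit 64493246838) (nat_lit 0) (nat_lit 12274817027) (nat_lit 4) (nat_lit 5) (nat_lit 6) (nat_lit 4) (nat_lit 4) (nat_lit 4) (nat_lit 350) (nat_lit 251) (nat_lit 179)) (XT.nd (nat_lit 78) (nat_lit 0) (nat_lit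 0) (XT.lf (nat_lit 0) (nat_lit 32603278456) (nat_lit 152) (nat_lit 59314283214) (nat_lit 0) (nat_lit 17346144730) (nat_lit 4) (nat_lit 5) (nat_lit 6) (nat_lit 4) (nat_lit 4) (nat_lit 4) (nat_lit 351) (nat_lit 251) (nat_lit 178)) (XT.lf (nat_lit 0) (nat_lit 37939783838) (nat_lit 152) (nat_lit 53898381104) (nat_lit 0) (nat_lit 22661420439) (nat_lit 4) (nat_lit 5) (nat_lit 6) (nat_lit 4) (nat_lit 4) (nat_lit 4) (nat_lit 352) (nat_lit 251) (nat_lit 177))))) (XT.nd (nat_lit 156) (nat_lit 0) (nat_lit 0) (XT.nd (nat_lit 78) (nat_lit 0) (nat_lit 0) (XT.lf (nat_lit 0) (nat_lit 43531881707) (nat_lit 152) (nat_lit 48232645502) (nat_lit 0) (nat_lit 28233299571) (nat_lit 4) (nat_lit 5) (nat_lit 6) (nat_lit 4) (nat_lit 4) (nat_lit 4) (nat_lit 353) (nat_lit 251) (nat_lit 176)) (XT.lf (nat_lit 0) (nat_lit 49392886583) (nat_lit 152) (nat_lit 42303586563) (nat_lit 0) (nat_lit 34075048507) (nat_lit 4)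 (nat_lit 5) (nat_lit 6) (nat_lit 4) (nat_lit 4) (nat_lit 4) (nat_lit 354) (nat_lit 251) (nat_lit 175))) (XT.nd (nat_lit 78) (nat_lit 0) (nat_lit 0) (XT.lf (nat_lit 0) (nat_lit 55536753237) (nat_lit 152) (nat_lit 36097087479) (nat_lit 0) (nat_lit 40200576171) (nat_lit 4) (nat_lit 5) (nat_lit 6) (nat_lit 4) (nat_lit 4) (nat_lit 4) (nat_lit 355) (nat_lit 251) (nat_lit 174)) (XT.nd (nat_lit 78) (nat_lit 0) (nat_lit 0) (XT.lf (nat_lit 0) (nat_lit 61978109925) (nat_lit 152) (nat_lit 29598370872) (nat_lit 0) (nat_lit 46624467155) (nat_lit 4) (nat_lit 5) (nat_lit 6) (nat_lit 4) (nat_lit 4) (nat_lit 4) (nat_lit 356) (nat_lit 251) (nat_lit 173)) (XT.lf (nat_lit 0) (nat_lit 68732293210) (nat_lit 152) (nat_lit 22791963607) (nat_lit 0) (nat_lit 53362016435) (nat_lit 4) (nat_lit 5) (nat_lit 6) (nat_lit 4) (nat_lit 4) (nat_lit 4) (nat_lit 357) (nat_lit 251) (nat_lit 172)))))) (XT.nd (nat_lit 390)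 (nat_lit 0) (nat_lit 0) (XT.nd (nat_lit 156) (nat_lit 76) (nat_lit 0) (XT.nd (nat_lit 78) (nat_lit 0) (nat_lit 0) (XT.lf (nat_lit 0) (nat_lit 75815384481) (nat_lit 152) (nat_lit 15661659951) (nat_lit 0) (nat_lit 60429265797) (nat_lit 4) (nat_lit 5) (nat_lit 6) (nat_lit 4) (nat_lit 4) (nat_lit 4) (nat_lit 358) (nat_lit 251) (nat_lit 171)) (XT.lf (nat_lit 0) (nat_lit 83244248240) (nat_lit 152) (nat_lit 8190482993) (nat_lit 0) (nat_lit 67843042024) (nat_lit 4) (nat_lit 5) (nat_lit 6) (nat_lit 4) (nat_lit 4) (nat_lit 4) (nat_lit 359) (nat_lit 251) (nat_lit 170))) (XT.nd (nat_lit 78) (nat_lit 76) (nat_lit 0) (XT.lf (nat_lit 0) (nat_lit 91036572259) (nat_lit 152) (nat_lit 360644215) (nat_lit 0) (nat_lit 75620996964) (nat_lit 4) (nat_lit 5) (nat_lit 6) (nat_lit 4) (nat_lit 4) (nat_lit 4) (nat_lit 360) (nat_lit 251) (nat_lit 169)) (XT.nd (nat_lit 78) (nat_lit 0) (nat_lit 0) (XT.lf (nat_lit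 0) (nat_lit 8105939544) (nat_lit 76) (nat_lit 91231526579) (nat_lit 76) (nat_lit 75802266447) (nat_lit 3) (nat_lit 4) (nat_lit 4) (nat_lit 5) (nat_lit 4) (nat_lit 4) (nat_lit 361) (nat_lit 251) (nat_lit 168)) (XT.lf (nat_lit 0) (nat_lit 16994414431) (nat_lit 76) (nat_lit 91057639246) (nat_lit 76) (nat_lit 75615345936) (nat_lit 3) (nat_lit 4) (nat_lit 4) (nat_lit 5) (nat_lit 4) (nat_lit 4) (nat_lit 362) (nat_lit 251) (nat_lit 167))))) (XT.nd (nat_lit 156) (nat_lit 0) (nat_lit 0) (XT.nd (nat_lit 78) (nat_lit 0) (nat_lit 0) (XT.lf (nat_lit 0) (nat_lit 26314018956) (nat_lit 76) (nat_lit 90881248142) (nat_lit 76) (nat_lit 75426542282) (nat_lit 3) (nat_lit 4) (nat_lit 4) (nat_lit 5) (nat_lit 4) (nat_lit 4) (nat_lit 363) (nat_lit 251) (nat_lit 166)) (XT.lf (nat_lit 0) (nat_lit 36086942652) (nat_lit 76) (nat_lit 90701933287) (nat_lit 76) (nat_lit 75235405951) (nat_lit 3) (nat_lit 4) (nat_lit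 4) (nat_lit 5) (nat_lit 4) (nat_lit 4) (nat_lit 364) (nat_lit 251) (nat_lit 165))) (XT.nd (nat_lit 78) (nat_lit 0) (nat_lit 0) (XT.lf (nat_lit 0) (nat_lit 46336454385) (nat_lit 76) (nat_lit 90519267743) (nat_lit 76) (nat_lit 75041481857) (nat_lit 3) (nat_lit 4) (nat_lit 4) (nat_lit 5) (nat_lit 4) (nat_lit 4) (nat_lit 365) (nat_lit 251) (nat_lit 164)) (XT.nd (nat_lit 78) (nat_lit 0) (nat_lit 0) (XT.lf (nat_lit 0) (nat_lit 57086957755) (nat_lit 76) (nat_lit 90332816590) (nat_lit 76) (nat_lit 74844308277) (nat_lit 3) (nat_lit 4) (nat_lit 4) (nat_lit 5) (nat_lit 4) (nat_lit 4) (nat_lit 366) (nat_lit 251) (nat_lit 163)) (XT.lf (nat_lit 0) (nat_lit 68364049199) (nat_lit 76) (nat_lit 90142135898) (nat_lit 76) (nat_lit 74643415749) (nat_lit 3) (nat_lit 4) (nat_lit 4) (nat_lit 5) (nat_lit 4) (nat_lit 4) (nat_lit 367) (nat_lit 251) (nat_lit 162))))))))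
noncomputable def xc81 : XT := (XT.nd (nat_lit 1482) (nat_lit 0) (nat_lit 0) (XT.nd (nat_lit 702) (nat_lit 0) (nat_lit 0) (XT.nd (nat_lit 312) (nat_lit 0) (nat_lit 0) (XT.nd (nat_lit 156) (nat_lit 0) (nat_lit 0) (XT.nd (nat_lit 78) (nat_lit 0) (nat_lit 0) (XT.lf (nat_lit 0) (nat_lit 80194578934) (nat_lit 76) (nat_lit 89946771665) (nat_lit 76) (nat_lit 74438325958) (nat_lit 3) (nat_lit 4) (nat_lit 4) (nat_lit 5) (nat_lit 4) (nat_lit 4) (nat_lit 368) (nat_lit 251) (nat_lit 161)) (XT.lf (nat_lit 0) (nat_lit 92606714888) (nat_lit 76) (nat_lit 89746258738) (nat_lit 76) (nat_lit 74228550595) (nat_lit 3) (nat_lit 4) (nat_lit 4) (nat_lit 5) (nat_lit 4) (nat_lit 4) (nat_lit 369) (nat_lit 251) (nat_lit 160))) (XT.nd (nat_lit 78) (nat_lit 0) (nat_lit 0) (XT.lf (nat_lit 0) (nat_lit 105630009766) (nat_lit 76) (nat_lit 89540119705) (nat_lit 76) (nat_lit 74013590194) (nat_lit 3) (nat_lit 4) (nat_lit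 4) (nat_lit 5) (nat_lit 4) (nat_lit 4) (nat_lit 370) (nat_lit 251) (nat_lit 159)) (XT.lf (nat_lit 0) (nat_lit 119295471412) (nat_lit 76) (nat_lit 89327863759) (nat_lit 76) (nat_lit 73792932946) (nat_lit 3) (nat_lit 4) (nat_lit 4) (nat_lit 5) (nat_lit 4) (nat_lit 4) (nat_lit 371) (nat_lit 251) (nat_lit 158)))) (XT.nd (nat_lit 156) (nat_lit 0) (nat_lit 0) (XT.nd (nat_lit 78) (nat_lit 0) (nat_lit 0) (XT.lf (nat_lit 0) (nat_lit 133635636640) (nat_lit 76) (nat_lit 89108985529) (nat_lit 76) (nat_lit 73566053475) (nat_lit 3) (nat_lit 4) (nat_lit 4) (nat_lit 5) (nat_lit 4) (nat_lit 4) (nat_lit 372) (nat_lit 251) (nat_lit 157)) (XT.lf (nat_lit 0) (nat_lit 148684648702) (nat_lit 76) (nat_lit 88882963876) (nat_lit 76) (nat_lit 73332411593) (nat_lit 3) (nat_lit 4) (nat_lit 4) (nat_lit 5) (nat_lit 4) (nat_lit 4) (nat_lit 373) (nat_lit 251) (nat_lit 156))) (XT.nd (nat_lit 78) (nat_lit 0) (nat_lit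 0) (XT.lf (nat_lit 0) (nat_lit 164478338577) (nat_lit 76) (nat_lit 88649260654) (nat_lit 76) (nat_lit 73091451010) (nat_lit 3) (nat_lit 4) (nat_lit 4) (nat_lit 5) (nat_lit 4) (nat_lit 4) (nat_lit 374) (nat_lit 251) (nat_lit 155)) (XT.nd (nat_lit 78) (nat_lit 0) (nat_lit 0) (XT.lf (nat_lit 0) (nat_lit 181054310289) (nat_lit 76) (nat_lit 88407319425) (nat_lit 76) (nat_lit 72842598009) (nat_lit 3) (nat_lit 4) (nat_lit 4) (nat_lit 5) (nat_lit 4) (nat_lit 4) (nat_lit 375) (nat_lit 251) (nat_lit 154)) (XT.lf (nat_lit 0) (nat_lit 198452030438) (nat_lit 76) (nat_lit 88156564140) (nat_lit 76) (nat_lit 72585260083) (nat_lit 3) (nat_lit 4) (nat_lit 4) (nat_lit 5) (nat_lit 4) (nat_lit 4) (nat_lit 376) (nat_lit 251) (nat_lit 153)))))) (XT.nd (nat_lit 390) (nat_lit 0) (nat_lit 0) (XT.nd (nat_lit 156) (nat_lit 0) (nat_lit 0) (XT.nd (nat_lit 78) (nat_lit 0) (nat_lit 0) (XT.lf (nat_lit 0) (nat_lit 216712922167)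 (nat_lit 76) (nat_lit 87896397763) (nat_lit 76) (nat_lit 72318824524) (nat_lit 3) (nat_lit 4) (nat_lit 4) (nat_lit 5) (nat_lit 4) (nat_lit 4) (nat_lit 377) (nat_lit 251) (nat_lit 152)) (XT.lf (nat_lit 0) (nat_lit 235880463789) (nat_lit 76) (nat_lit 87626200848) (nat_lit 76) (nat_lit 72042656961) (nat_lit 3) (nat_lit 4) (nat_lit 4) (nat_lit 5) (nat_lit 4) (nat_lit 4) (nat_lit 378) (nat_lit 251) (nat_lit 151))) (XT.nd (nat_lit 78) (nat_lit 0) (nat_lit 0) (XT.lf (nat_lit 0) (nat_lit 256000292308) (nat_lit 76) (nat_lit 87345330071) (nat_lit 76) (nat_lit 71756099852) (nat_lit 3) (nat_lit 4) (nat_lit 4) (nat_lit 5) (nat_lit 4) (nat_lit 4) (nat_lit 379) (nat_lit 251) (nat_lit 150)) (XT.nd (nat_lit 78) (nat_lit 0) (nat_lit 0) (XT.lf (nat_lit 0) (nat_lit 277120312079) (nat_lit 76) (nat_lit 87053116692) (nat_lit 76) (nat_lit 71458470917) (nat_lit 3) (nat_lit 4) (nat_lit 4) (nat_lit 5) (nat_lit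 4) (nat_lit 4) (nat_lit 380) (nat_lit 251) (nat_lit 149)) (XT.lf (nat_lit 0) (nat_lit 299290808862) (nat_lit 76) (nat_lit 86748864963) (nat_lit 76) (nat_lit 71149061518) (nat_lit 3) (nat_lit 4) (nat_lit 4) (nat_lit 5) (nat_lit 4) (nat_lit 4) (nat_lit 381) (nat_lit 251) (nat_lit 148))))) (XT.nd (nat_lit 156) (nat_lit 0) (nat_lit 0) (XT.nd (nat_lit 78) (nat_lit 0) (nat_lit 0) (XT.lf (nat_lit 0) (nat_lit 322564569554) (nat_lit 76) (nat_lit 86431850477) (nat_lit 76) (nat_lit 70827134965) (nat_lit 3) (nat_lit 4) (nat_lit 4) (nat_lit 5) (nat_lit 4) (nat_lit 4) (nat_lit 382) (nat_lit 251) (nat_lit 147)) (XT.lf (nat_lit 0) (nat_lit 346997007871) (nat_lit 76) (nat_lit 86101318438) (nat_lit 76) (nat_lit 70491924765) (nat_lit 3) (nat_lit 4) (nat_lit 4) (nat_lit 5) (nat_lit 4) (nat_lit 4) (nat_lit 383) (nat_lit 251) (nat_lit 146))) (XT.nd (nat_lit 78) (nat_lit 0) (nat_lit 0) (XT.lf (nat_lit 0)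 (nat_lit 372646296286) (nat_lit 76) (nat_lit 85756481863) (nat_lit 76) (nat_lit 70142632800) (nat_lit 3) (nat_lit 4) (nat_lit 4) (nat_lit 5) (nat_lit 4) (nat_lit 4) (nat_lit 384) (nat_lit 251) (nat_lit 145)) (XT.nd (nat_lit 78) (nat_lit 0) (nat_lit 0) (XT.lf (nat_lit 0) (nat_lit 399573504533) (nat_lit 76) (nat_lit 85396519714) (nat_lit 76) (nat_lit 69778427422) (nat_lit 3) (nat_lit 4) (nat_lit 4) (nat_lit 5) (nat_lit 4) (nat_lit 4) (nat_lit 385) (nat_lit 251) (nat_lit 144)) (XT.lf (nat_lit 0) (nat_lit 427842745013) (nat_lit 76) (nat_lit 85020574937) (nat_lit 76) (nat_lit 69398441476) (nat_lit 3) (nat_lit 4) (nat_lit 4) (nat_lit 5) (nat_lit 4) (nat_lit 4) (nat_lit 386) (nat_lit 251) (nat_lit 143))))))) (XT.nd (nat_lit 32682) (nat_lit 0) (nat_lit 2508) (XT.nd (nat_lit 32292) (nat_lit 0) (nat_lit 4028) (XT.nd (nat_lit 32058) (nat_lit 0) (nat_lit 5016) (XT.nd (nat_lit 31980) (nat_lit 0)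 (nat_lit 5852) (XT.lf (nat_lit 0) (nat_lit 457521325440) (nat_lit 76) (nat_lit 84627752427) (nat_lit 76) (nat_lit 69001770232) (nat_lit 3) (nat_lit 4) (nat_lit 4) (nat_lit 5) (nat_lit 4) (nat_lit 4) (nat_lit 387) (nat_lit 251) (nat_lit 142)) (XT.lf (nat_lit 0) (nat_lit 421964233) (nat_lit 684) (nat_lit 1603096914) (nat_lit 684) (nat_lit 1603096914) (nat_lit 80) (nat_lit 4) (nat_lit 89) (nat_lit 5) (nat_lit 89) (nat_lit 4) (nat_lit 276) (nat_lit 252) (nat_lit 252))) (XT.nd (nat_lit 78) (nat_lit 836) (nat_lit 0) (XT.lf (nat_lit 0) (nat_lit 5764292242) (nat_lit 684) (nat_lit 1578680573) (nat_lit 684) (nat_lit 24141548) (nat_lit 80) (nat_lit 4) (nat_lit 89) (nat_lit 5) (nat_lit 89) (nat_lit 4) (nat_lit 277) (nat_lit 252) (nat_lit 251)) (XT.nd (nat_lit 78) (nat_lit 380) (nat_lit 0) (XT.lf (nat_lit 0) (nat_lit 3115030822) (nat_lit 456) (nat_lit 4146594885) (nat_lit 0) (nat_lit 224504743)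 (nat_lit 74) (nat_lit 5) (nat_lit 80) (nat_lit 4) (nat_lit 74) (nat_lit 4) (nat_lit 278) (nat_lit 252) (nat_lit 250)) (XT.lf (nat_lit 0) (nat_lit 809936286) (nat_lit 380) (nat_lit 5519517604) (nat_lit 380) (nat_lit 1286122267) (nat_lit 69) (nat_lit 4) (nat_lit 74) (nat_lit 5) (nat_lit 74) (nat_lit 4) (nat_lit 279) (nat_lit 252) (nat_lit 249))))) (XT.nd (nat_lit 156) (nat_lit 608) (nat_lit 0) (XT.nd (nat_lit 78) (nat_lit 304) (nat_lit 0) (XT.lf (nat_lit 0) (nat_lit 1816680293) (nat_lit 456) (nat_lit 1788123837) (nat_lit 76) (nat_lit 4149272537) (nat_lit 68) (nat_lit 5) (nat_lit 74) (nat_lit 5) (nat_lit 69) (nat_lit 4) (nat_lit 280) (nat_lit 252) (nat_lit 248)) (XT.lf (nat_lit 0) (nat_lit 3409499102) (nat_lit 304) (nat_lit 1536764090) (nat_lit 380) (nat_lit 2956833681) (nat_lit 64) (nat_lit 5) (nat_lit 68) (nat_lit 5) (nat_lit 69) (nat_lit 4) (nat_lit 281) (nat_lit 252) (nat_lit 247)))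 (XT.nd (nat_lit 78) (nat_lit 228) (nat_lit 0) (XT.lf (nat_lit 0) (nat_lit 82888559) (nat_lit 380) (nat_lit 7344708356) (nat_lit 76) (nat_lit 636408820) (nat_lit 59) (nat_lit 5) (nat_lit 64) (nat_lit 5) (nat_lit 60) (nat_lit 4) (nat_lit 282) (nat_lit 252) (nat_lit 246)) (XT.nd (nat_lit 78) (nat_lit 228) (nat_lit 0) (XT.lf (nat_lit 0) (nat_lit 3144623711) (nat_lit 380) (nat_lit 2120324496) (nat_lit 76) (nat_lit 2967457019) (nat_lit 59) (nat_lit 5) (nat_lit 64) (nat_lit 5) (nat_lit 60) (nat_lit 4) (nat_lit 283) (nat_lit 252) (nat_lit 245)) (XT.lf (nat_lit 0) (nat_lit 3314111510) (nat_lit 228) (nat_lit 2970271090) (nat_lit 304) (nat_lit 2128917730) (nat_lit 56) (nat_lit 5) (nat_lit 59) (nat_lit 5) (nat_lit 60) (nat_lit 4) (nat_lit 284) (nat_lit 252) (nat_lit 244)))))) (XT.nd (nat_lit 390) (nat_lit 608) (nat_lit 0) (XT.nd (nat_lit 156) (nat_lit 532) (nat_lit 0) (XT.nd (nat_lit 78) (nat_lit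 0) (nat_lit 0) (XT.lf (nat_lit 0) (nat_lit 327931777) (nat_lit 304) (nat_lit 534776962) (nat_lit 380) (nat_lit 7744254674) (nat_lit 51) (nat_lit 5) (nat_lit 55) (nat_lit 5) (nat_lit 56) (nat_lit 5) (nat_lit 285) (nat_lit 252) (nat_lit 243)) (XT.lf (nat_lit 0) (nat_lit 3929212519) (nat_lit 380) (nat_lit 2832858816) (nat_lit 76) (nat_lit 2046929798) (nat_lit 51) (nat_lit 5) (nat_lit 56) (nat_lit 5) (nat_lit 52) (nat_lit 4) (nat_lit 286) (nat_lit 252) (nat_lit 242))) (XT.nd (nat_lit 78) (nat_lit 304) (nat_lit 0) (XT.lf (nat_lit 0) (nat_lit 2812182247) (nat_lit 228) (nat_lit 4272857734) (nat_lit 304) (nat_lit 1939566143) (nat_lit 48) (nat_lit 5) (nat_lit 51) (nat_lit 5) (nat_lit 52) (nat_lit 4) (nat_lit 287) (nat_lit 252) (nat_lit 241)) (XT.nd (nat_lit 78) (nat_lit 228) (nat_lit 0) (XT.lf (nat_lit 0) (nat_lit 1044097578) (nat_lit 304) (nat_lit 585720538) (nat_lit 76) (nat_lit 7623859845)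 (nat_lit 47) (nat_lit 5) (nat_lit 51) (nat_lit 5) (nat_lit 48) (nat_lit 5) (nat_lit 288) (nat_lit 252) (nat_lit 240)) (XT.lf (nat_lit 0) (nat_lit 4103757111) (nat_lit 304) (nat_lit 4201638311) (nat_lit 76) (nat_lit 1187847608) (nat_lit 44) (nat_lit 5) (nat_lit 48) (nat_lit 5) (nat_lit 45) (nat_lit 4) (nat_lit 289) (nat_lit 252) (nat_lit 239))))) (XT.nd (nat_lit 156) (nat_lit 380) (nat_lit 0) (XT.nd (nat_lit 78) (nat_lit 76) (nat_lit 0) (XT.lf (nat_lit 0) (nat_lit 1612189452) (nat_lit 152) (nat_lit 5658430093) (nat_lit 228) (nat_lit 2476674083) (nat_lit 42) (nat_lit 5) (nat_lit 44) (nat_lit 5) (nat_lit 45) (nat_lit 4) (nat_lit 290) (nat_lit 252) (nat_lit 238)) (XT.lf (nat_lit 0) (nat_lit 528613984) (nat_lit 228) (nat_lit 2310819132) (nat_lit 76) (nat_lit 7176084651) (nat_lit 41) (nat_lit 5) (nat_lit 44) (nat_lit 5) (nat_lit 42) (nat_lit 5) (nat_lit 291) (nat_lit 252) (nat_lit 237)))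 (XT.nd (nat_lit 78) (nat_lit 152) (nat_lit 0) (XT.lf (nat_lit 0) (nat_lit 3560344759) (nat_lit 304) (nat_lit 6561967120) (nat_lit 76) (nat_lit 175029184) (nat_lit 38) (nat_lit 5) (nat_lit 42) (nat_lit 5) (nat_lit 39) (nat_lit 4) (nat_lit 292) (nat_lit 252) (nat_lit 236)) (XT.nd (nat_lit 78) (nat_lit 152) (nat_lit 0) (XT.lf (nat_lit 0) (nat_lit 6730136485) (nat_lit 304) (nat_lit 621883995) (nat_lit 76) (nat_lit 3242090897) (nat_lit 38) (nat_lit 5) (nat_lit 42) (nat_lit 5) (nat_lit 39) (nat_lit 4) (nat_lit 293) (nat_lit 252) (nat_lit 235)) (XT.lf (nat_lit 0) (nat_lit 5655747605) (nat_lit 152) (nat_lit 4395876960) (nat_lit 228) (nat_lit 854606324) (nat_lit 36) (nat_lit 5) (nat_lit 38) (nat_lit 5) (nat_lit 39) (nat_lit 4) (nat_lit 294) (nat_lit 252) (nat_lit 234))))))))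
noncomputable def xc82 : XT := (XT.nd (nat_lit 1482) (nat_lit 532) (nat_lit 0) (XT.nd (nat_lit 702) (nat_lit 608) (nat_lit 0) (XT.nd (nat_lit 312) (nat_lit 608) (nat_lit 0) (XT.nd (nat_lit 156) (nat_lit 152) (nat_lit 0) (XT.nd (nat_lit 78) (nat_lit 0) (nat_lit 0) (XT.lf (nat_lit 0) (nat_lit 886133766) (nat_lit 228) (nat_lit 1275452191) (nat_lit 304) (nat_lit 9074219135) (nat_lit 32) (nat_lit 5) (nat_lit 35) (nat_lit 5) (nat_lit 36) (nat_lit 5) (nat_lit 295) (nat_lit 252) (nat_lit 233)) (XT.lf (nat_lit 0) (nat_lit 5328669514) (nat_lit 304) (nat_lit 4255473898) (nat_lit 76) (nat_lit 1995721727) (nat_lit 32) (nat_lit 5) (nat_lit 36) (nat_lit 5) (nat_lit 33) (nat_lit 4) (nat_lit 296) (nat_lit 252) (nat_lit 232))) (XT.nd (nat_lit 78) (nat_lit 0) (nat_lit 0) (XT.lf (nat_lit 0) (nat_lit 2051794879) (nat_lit 152) (nat_lit 6566859257) (nat_lit 228) (nat_lit 3324387409) (nat_lit 30) (nat_lit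 5) (nat_lit 32) (nat_lit 5) (nat_lit 33) (nat_lit 4) (nat_lit 297) (nat_lit 252) (nat_lit 231)) (XT.lf (nat_lit 0) (nat_lit 8687967817) (nat_lit 152) (nat_lit 3370956369) (nat_lit 228) (nat_lit 266297275) (nat_lit 30) (nat_lit 5) (nat_lit 32) (nat_lit 5) (nat_lit 33) (nat_lit 4) (nat_lit 298) (nat_lit 252) (nat_lit 230)))) (XT.nd (nat_lit 156) (nat_lit 380) (nat_lit 0) (XT.nd (nat_lit 78) (nat_lit 0) (nat_lit 0) (XT.lf (nat_lit 0) (nat_lit 2811712568) (nat_lit 228) (nat_lit 9883017596) (nat_lit 76) (nat_lit 31539807) (nat_lit 27) (nat_lit 5) (nat_lit 30) (nat_lit 5) (nat_lit 28) (nat_lit 4) (nat_lit 299) (nat_lit 252) (nat_lit 229)) (XT.lf (nat_lit 0) (nat_lit 6070142227) (nat_lit 228) (nat_lit 3562922068) (nat_lit 76) (nat_lit 3512430656) (nat_lit 27) (nat_lit 5) (nat_lit 30) (nat_lit 5) (nat_lit 28) (nat_lit 4) (nat_lit 300) (nat_lit 252) (nat_lit 228))) (XT.nd (nat_lit 78) (nat_lit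 228) (nat_lit 0) (XT.lf (nat_lit 0) (nat_lit 3044866206) (nat_lit 152) (nat_lit 6415688547) (nat_lit 228) (nat_lit 4126783600) (nat_lit 25) (nat_lit 5) (nat_lit 27) (nat_lit 5) (nat_lit 28) (nat_lit 4) (nat_lit 301) (nat_lit 252) (nat_lit 227)) (XT.nd (nat_lit 78) (nat_lit 228) (nat_lit 0) (XT.lf (nat_lit 0) (nat_lit 9983002236) (nat_lit 152) (nat_lit 3021153090) (nat_lit 228) (nat_lit 1048040221) (nat_lit 25) (nat_lit 5) (nat_lit 27) (nat_lit 5) (nat_lit 28) (nat_lit 4) (nat_lit 302) (nat_lit 252) (nat_lit 226)) (XT.lf (nat_lit 0) (nat_lit 2090906436) (nat_lit 228) (nat_lit 11890999755) (nat_lit 76) (nat_lit 557969811) (nat_lit 22) (nat_lit 5) (nat_lit 25) (nat_lit 5) (nat_lit 23) (nat_lit 4) (nat_lit 303) (nat_lit 252) (nat_lit 225)))))) (XT.nd (nat_lit 390) (nat_lit 304) (nat_lit 0) (XT.nd (nat_lit 156) (nat_lit 228) (nat_lit 0) (XT.nd (nat_lit 78) (nat_lit 76) (nat_lit 0) (XT.lf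 (nat_lit 0) (nat_lit 5397808644) (nat_lit 228) (nat_lit 5393673051) (nat_lit 76) (nat_lit 4257378969) (nat_lit 22) (nat_lit 5) (nat_lit 25) (nat_lit 5) (nat_lit 23) (nat_lit 4) (nat_lit 304) (nat_lit 252) (nat_lit 224)) (XT.lf (nat_lit 0) (nat_lit 1356249460) (nat_lit 76) (nat_lit 7465132453) (nat_lit 152) (nat_lit 6764432728) (nat_lit 21) (nat_lit 5) (nat_lit 22) (nat_lit 5) (nat_lit 23) (nat_lit 4) (nat_lit 305) (nat_lit 252) (nat_lit 223))) (XT.nd (nat_lit 78) (nat_lit 228) (nat_lit 0) (XT.lf (nat_lit 0) (nat_lit 8517111057) (nat_lit 76) (nat_lit 3922067541) (nat_lit 152) (nat_lit 3709367743) (nat_lit 21) (nat_lit 5) (nat_lit 22) (nat_lit 5) (nat_lit 23) (nat_lit 4) (nat_lit 306) (nat_lit 252) (nat_lit 222)) (XT.nd (nat_lit 78) (nat_lit 228) (nat_lit 0) (XT.lf (nat_lit 0) (nat_lit 15927622222) (nat_lit 76) (nat_lit 245195555) (nat_lit 152) (nat_lit 569927565) (nat_lit 21) (nat_lit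 5) (nat_lit 22) (nat_lit 5) (nat_lit 23) (nat_lit 4) (nat_lit 307) (nat_lit 252) (nat_lit 221)) (XT.lf (nat_lit 0) (nat_lit 2734209268) (nat_lit 228) (nat_lit 11022023909) (nat_lit 76) (nat_lit 3603614316) (nat_lit 18) (nat_lit 5) (nat_lit 21) (nat_lit 5) (nat_lit 19) (nat_lit 4) (nat_lit 308) (nat_lit 252) (nat_lit 220))))) (XT.nd (nat_lit 156) (nat_lit 228) (nat_lit 0) (XT.nd (nat_lit 78) (nat_lit 76) (nat_lit 0) (XT.lf (nat_lit 0) (nat_lit 6140139091) (nat_lit 228) (nat_lit 4250168303) (nat_lit 76) (nat_lit 7619310911) (nat_lit 18) (nat_lit 5) (nat_lit 21) (nat_lit 5) (nat_lit 19) (nat_lit 4) (nat_lit 309) (nat_lit 252) (nat_lit 219)) (XT.lf (nat_lit 0) (nat_lit 2850384806) (nat_lit 76) (nat_lit 6851139323) (nat_lit 152) (nat_lit 8991160049) (nat_lit 17) (nat_lit 5) (nat_lit 18) (nat_lit 5) (nat_lit 19) (nat_lit 4) (nat_lit 310) (nat_lit 252) (nat_lit 218))) (XT.nd (nat_lit 78) (nat_lit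 228) (nat_lit 0) (XT.lf (nat_lit 0) (nat_lit 10354027483) (nat_lit 76) (nat_lit 3100858333) (nat_lit 152) (nat_lit 5954383546) (nat_lit 17) (nat_lit 5) (nat_lit 18) (nat_lit 5) (nat_lit 19) (nat_lit 4) (nat_lit 311) (nat_lit 252) (nat_lit 217)) (XT.nd (nat_lit 78) (nat_lit 228) (nat_lit 0) (XT.lf (nat_lit 0) (nat_lit 17353060617) (nat_lit 152) (nat_lit 2038862777) (nat_lit 0) (nat_lit 771961622) (nat_lit 17) (nat_lit 5) (nat_lit 19) (nat_lit 4) (nat_lit 17) (nat_lit 4) (nat_lit 312) (nat_lit 252) (nat_lit 216)) (XT.lf (nat_lit 0) (nat_lit 556716110) (nat_lit 228) (nat_lit 15604606936) (nat_lit 76) (nat_lit 4790454806) (nat_lit 14) (nat_lit 5) (nat_lit 17) (nat_lit 5) (nat_lit 15) (nat_lit 4) (nat_lit 313) (nat_lit 252) (nat_lit 215))))))) (XT.nd (nat_lit 780) (nat_lit 228) (nat_lit 0) (XT.nd (nat_lit 390) (nat_lit 228) (nat_lit 0) (XT.nd (nat_lit 156) (nat_lit 76) (nat_lit 0) (XT.nd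 (nat_lit 78) (nat_lit 0) (nat_lit 0) (XT.lf (nat_lit 0) (nat_lit 3980219237) (nat_lit 228) (nat_lit 8743355020) (nat_lit 76) (nat_lit 9054135237) (nat_lit 14) (nat_lit 5) (nat_lit 17) (nat_lit 5) (nat_lit 15) (nat_lit 4) (nat_lit 314) (nat_lit 252) (nat_lit 214)) (XT.lf (nat_lit 0) (nat_lit 7524376132) (nat_lit 228) (nat_lit 1627290045) (nat_lit 76) (nat_lit 13495845708) (nat_lit 14) (nat_lit 5) (nat_lit 17) (nat_lit 5) (nat_lit 15) (nat_lit 4) (nat_lit 315) (nat_lit 252) (nat_lit 213))) (XT.nd (nat_lit 78) (nat_lit 0) (nat_lit 0) (XT.lf (nat_lit 0) (nat_lit 5951000171) (nat_lit 76) (nat_lit 5339536884) (nat_lit 152) (nat_lit 12268073338) (nat_lit 13) (nat_lit 5) (nat_lit 14) (nat_lit 5) (nat_lit 15) (nat_lit 4) (nat_lit 316) (nat_lit 252) (nat_lit 212)) (XT.nd (nat_lit 78) (nat_lit 0) (nat_lit 0) (XT.lf (nat_lit 0) (nat_lit 13882009157) (nat_lit 76) (nat_lit 1343440377) (nat_lit 152)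 (nat_lit 9290835744) (nat_lit 13) (nat_lit 5) (nat_lit 14) (nat_lit 5) (nat_lit 15) (nat_lit 4) (nat_lit 317) (nat_lit 252) (nat_lit 211)) (XT.lf (nat_lit 0) (nat_lit 19356241711) (nat_lit 152) (nat_lit 3437320258) (nat_lit 0) (nat_lit 2728366785) (nat_lit 13) (nat_lit 5) (nat_lit 15) (nat_lit 4) (nat_lit 13) (nat_lit 4) (nat_lit 318) (nat_lit 252) (nat_lit 210))))) (XT.nd (nat_lit 156) (nat_lit 76) (nat_lit 0) (XT.nd (nat_lit 78) (nat_lit 76) (nat_lit 0) (XT.lf (nat_lit 0) (nat_lit 4153728829) (nat_lit 76) (nat_lit 19583480736) (nat_lit 76) (nat_lit 2838502606) (nat_lit 12) (nat_lit 4) (nat_lit 13) (nat_lit 5) (nat_lit 13) (nat_lit 4) (nat_lit 319) (nat_lit 252) (nat_lit 209)) (XT.lf (nat_lit 0) (nat_lit 650154049) (nat_lit 152) (nat_lit 15523689190) (nat_lit 76) (nat_lit 11507062139) (nat_lit 11) (nat_lit 5) (nat_lit 13) (nat_lit 5) (nat_lit 12) (nat_lit 4) (nat_lit 320) (nat_lit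 252) (nat_lit 208))) (XT.nd (nat_lit 78) (nat_lit 76) (nat_lit 0) (XT.lf (nat_lit 0) (nat_lit 4176814486) (nat_lit 152) (nat_lit 8400251353) (nat_lit 76) (nat_lit 16264051786) (nat_lit 11) (nat_lit 5) (nat_lit 13) (nat_lit 5) (nat_lit 12) (nat_lit 4) (nat_lit 321) (nat_lit 252) (nat_lit 207)) (XT.nd (nat_lit 78) (nat_lit 76) (nat_lit 0) (XT.lf (nat_lit 0) (nat_lit 7840725325) (nat_lit 152) (nat_lit 990392283) (nat_lit 76) (nat_lit 21230209561) (nat_lit 11) (nat_lit 5) (nat_lit 13) (nat_lit 5) (nat_lit 12) (nat_lit 4) (nat_lit 322) (nat_lit 252) (nat_lit 206)) (XT.lf (nat_lit 0) (nat_lit 6945840824) (nat_lit 76) (nat_lit 4813213380) (nat_lit 152) (nat_lit 19579962866) (nat_lit 10) (nat_lit 5) (nat_lit 11) (nat_lit 5) (nat_lit 12) (nat_lit 4) (nat_lit 323) (nat_lit 252) (nat_lit 205)))))) (XT.nd (nat_lit 390) (nat_lit 152) (nat_lit 0) (XT.nd (nat_lit 156) (nat_lit 76) (nat_lit 0) (XT.nd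 (nat_lit 78) (nat_lit 0) (nat_lit 0) (XT.lf (nat_lit 0) (nat_lit 15247912010) (nat_lit 76) (nat_lit 605690785) (nat_lit 152) (nat_lit 16828003037) (nat_lit 10) (nat_lit 5) (nat_lit 11) (nat_lit 5) (nat_lit 12) (nat_lit 4) (nat_lit 324) (nat_lit 252) (nat_lit 204)) (XT.lf (nat_lit 0) (nat_lit 20177235653) (nat_lit 152) (nat_lit 10249337229) (nat_lit 0) (nat_lit 3663561430) (nat_lit 10) (nat_lit 5) (nat_lit 12) (nat_lit 4) (nat_lit 10) (nat_lit 4) (nat_lit 325) (nat_lit 252) (nat_lit 203))) (XT.nd (nat_lit 78) (nat_lit 76) (nat_lit 0) (XT.lf (nat_lit 0) (nat_lit 24693491500) (nat_lit 152) (nat_lit 2776245212) (nat_lit 0) (nat_lit 8100557219) (nat_lit 10) (nat_lit 5) (nat_lit 12) (nat_lit 4) (nat_lit 10) (nat_lit 4) (nat_lit 326) (nat_lit 252) (nat_lit 202)) (XT.nd (nat_lit 78) (nat_lit 0) (nat_lit 0) (XT.lf (nat_lit 0) (nat_lit 5178578692) (nat_lit 76) (nat_lit 24305940230) (nat_lit 76)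 (nat_lit 7637520178) (nat_lit 9) (nat_lit 4) (nat_lit 10) (nat_lit 5) (nat_lit 10) (nat_lit 4) (nat_lit 327) (nat_lit 252) (nat_lit 201)) (XT.lf (nat_lit 0) (nat_lit 13570789340) (nat_lit 76) (nat_lit 20960064956) (nat_lit 76) (nat_lit 4219753695) (nat_lit 9) (nat_lit 4) (nat_lit 10) (nat_lit 5) (nat_lit 10) (nat_lit 4) (nat_lit 328) (nat_lit 252) (nat_lit 200))))) (XT.nd (nat_lit 156) (nat_lit 76) (nat_lit 0) (XT.nd (nat_lit 78) (nat_lit 76) (nat_lit 0) (XT.lf (nat_lit 0) (nat_lit 22328572980) (nat_lit 76) (nat_lit 17471161577) (nat_lit 76) (nat_lit 662382499) (nat_lit 9) (nat_lit 4) (nat_lit 10) (nat_lit 5) (nat_lit 10) (nat_lit 4) (nat_lit 329) (nat_lit 252) (nat_lit 199)) (XT.lf (nat_lit 0) (nat_lit 2945666310) (nat_lit 152) (nat_lit 10835370587) (nat_lit 76) (nat_lit 28477228883) (nat_lit 8) (nat_lit 5) (nat_lit 10) (nat_lit 5) (nat_lit 9) (nat_lit 4) (nat_lit 330) (nat_lit 252)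 (nat_lit 198))) (XT.nd (nat_lit 78) (nat_lit 76) (nat_lit 0) (XT.lf (nat_lit 0) (nat_lit 6684390190) (nat_lit 152) (nat_lit 3233088962) (nat_lit 76) (nat_lit 34227593187) (nat_lit 8) (nat_lit 5) (nat_lit 10) (nat_lit 5) (nat_lit 9) (nat_lit 4) (nat_lit 331) (nat_lit 252) (nat_lit 197)) (XT.nd (nat_lit 78) (nat_lit 0) (nat_lit 0) (XT.lf (nat_lit 0) (nat_lit 4857203975) (nat_lit 76) (nat_lit 5802521831) (nat_lit 152) (nat_lit 35464028677) (nat_lit 7) (nat_lit 5) (nat_lit 8) (nat_lit 5) (nat_lit 9) (nat_lit 4) (nat_lit 332) (nat_lit 252) (nat_lit 196)) (XT.lf (nat_lit 0) (nat_lit 13417460636) (nat_lit 76) (nat_lit 1445477514) (nat_lit 152) (nat_lit 33336995215) (nat_lit 7) (nat_lit 5) (nat_lit 8) (nat_lit 5) (nat_lit 9) (nat_lit 4) (nat_lit 333) (nat_lit 252) (nat_lit 195))))))))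
noncomputable def xc83 : XT := (XT.nd (nat_lit 1482) (nat_lit 76) (nat_lit 0) (XT.nd (nat_lit 702) (nat_lit 152) (nat_lit 0) (XT.nd (nat_lit 312) (nat_lit 76) (nat_lit 0) (XT.nd (nat_lit 156) (nat_lit 0) (nat_lit 0) (XT.nd (nat_lit 78) (nat_lit 0) (nat_lit 0) (XT.lf (nat_lit 0) (nat_lit 19300432751) (nat_lit 152) (nat_lit 28068542015) (nat_lit 0) (nat_lit 3009757608) (nat_lit 7) (nat_lit 5) (nat_lit 9) (nat_lit 4) (nat_lit 7) (nat_lit 4) (nat_lit 334) (nat_lit 252) (nat_lit 194)) (XT.lf (nat_lit 0) (nat_lit 23959939041) (nat_lit 152) (nat_lit 21085936786) (nat_lit 0) (nat_lit 7620605098) (nat_lit 7) (nat_lit 5) (nat_lit 9) (nat_lit 4) (nat_lit 7) (nat_lit 4) (nat_lit 335) (nat_lit 252) (nat_lit 193))) (XT.nd (nat_lit 78) (nat_lit 0) (nat_lit 0) (XT.lf (nat_lit 0) (nat_lit 28829983130) (nat_lit 152) (nat_lit 13795463838) (nat_lit 0) (nat_lit 12444307473) (nat_lit 7) (nat_lit 5) (nat_lit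 9) (nat_lit 4) (nat_lit 7) (nat_lit 4) (nat_lit 336) (nat_lit 252) (nat_lit 192)) (XT.lf (nat_lit 0) (nat_lit 33922160361) (nat_lit 152) (nat_lit 6179764902) (nat_lit 0) (nat_lit 17492349738) (nat_lit 7) (nat_lit 5) (nat_lit 9) (nat_lit 4) (nat_lit 7) (nat_lit 4) (nat_lit 337) (nat_lit 252) (nat_lit 191)))) (XT.nd (nat_lit 156) (nat_lit 0) (nat_lit 0) (XT.nd (nat_lit 78) (nat_lit 0) (nat_lit 0) (XT.lf (nat_lit 0) (nat_lit 1838124089) (nat_lit 76) (nat_lit 37439169143) (nat_lit 76) (nat_lit 20967325219) (nat_lit 6) (nat_lit 4) (nat_lit 7) (nat_lit 5) (nat_lit 7) (nat_lit 4) (nat_lit 338) (nat_lit 252) (nat_lit 190)) (XT.lf (nat_lit 0) (nat_lit 10434632322) (nat_lit 76) (nat_lit 34550250459) (nat_lit 76) (nat_lit 18038374819) (nat_lit 6) (nat_lit 4) (nat_lit 7) (nat_lit 5) (nat_lit 7) (nat_lit 4) (nat_lit 339) (nat_lit 252) (nat_lit 189))) (XT.nd (nat_lit 78) (nat_lit 0) (nat_lit 0) (XT.lf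 (nat_lit 0) (nat_lit 19425896737) (nat_lit 76) (nat_lit 31532948141) (nat_lit 76) (nat_lit 14982947058) (nat_lit 6) (nat_lit 4) (nat_lit 7) (nat_lit 5) (nat_lit 7) (nat_lit 4) (nat_lit 340) (nat_lit 252) (nat_lit 188)) (XT.nd (nat_lit 78) (nat_lit 0) (nat_lit 0) (XT.lf (nat_lit 0) (nat_lit 28833325106) (nat_lit 76) (nat_lit 28380078136) (nat_lit 76) (nat_lit 11793767108) (nat_lit 6) (nat_lit 4) (nat_lit 7) (nat_lit 5) (nat_lit 7) (nat_lit 4) (nat_lit 341) (nat_lit 252) (nat_lit 187)) (XT.lf (nat_lit 0) (nat_lit 38679316068) (nat_lit 76) (nat_lit 25084133612) (nat_lit 76) (nat_lit 8463241682) (nat_lit 6) (nat_lit 4) (nat_lit 7) (nat_lit 5) (nat_lit 7) (nat_lit 4) (nat_lit 342) (nat_lit 252) (nat_lit 186)))))) (XT.nd (nat_lit 390) (nat_lit 0) (nat_lit 0) (XT.nd (nat_lit 156) (nat_lit 152) (nat_lit 0) (XT.nd (nat_lit 78) (nat_lit 0) (nat_lit 0) (XT.lf (nat_lit 0) (nat_lit 48987312459)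 (nat_lit 76) (nat_lit 21637267080) (nat_lit 76) (nat_lit 4983440960) (nat_lit 6) (nat_lit 4) (nat_lit 7) (nat_lit 5) (nat_lit 7) (nat_lit 4) (nat_lit 343) (nat_lit 252) (nat_lit 185)) (XT.lf (nat_lit 0) (nat_lit 59781857128) (nat_lit 76) (nat_lit 18031271716) (nat_lit 76) (nat_lit 1346079700) (nat_lit 6) (nat_lit 4) (nat_lit 7) (nat_lit 5) (nat_lit 7) (nat_lit 4) (nat_lit 344) (nat_lit 252) (nat_lit 184))) (XT.nd (nat_lit 78) (nat_lit 76) (nat_lit 0) (XT.lf (nat_lit 0) (nat_lit 2378847054) (nat_lit 152) (nat_lit 11838427837) (nat_lit 76) (nat_lit 68669517391) (nat_lit 5) (nat_lit 5) (nat_lit 7) (nat_lit 5) (nat_lit 6) (nat_lit 4) (nat_lit 345) (nat_lit 252) (nat_lit 183)) (XT.nd (nat_lit 78) (nat_lit 76) (nat_lit 0) (XT.lf (nat_lit 0) (nat_lit 6230357960) (nat_lit 152) (nat_lit 3971280273) (nat_lit 76) (nat_lit 76598744040) (nat_lit 5) (nat_lit 5) (nat_lit 7) (nat_lit 5) (nat_lit 6)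 (nat_lit 4) (nat_lit 346) (nat_lit 252) (nat_lit 182)) (XT.lf (nat_lit 0) (nat_lit 4404820418) (nat_lit 76) (nat_lit 5924657410) (nat_lit 152) (nat_lit 80577430982) (nat_lit 4) (nat_lit 5) (nat_lit 5) (nat_lit 5) (nat_lit 6) (nat_lit 4) (nat_lit 347) (nat_lit 252) (nat_lit 181))))) (XT.nd (nat_lit 156) (nat_lit 0) (nat_lit 0) (XT.nd (nat_lit 78) (nat_lit 0) (nat_lit 0) (XT.lf (nat_lit 0) (nat_lit 13312623468) (nat_lit 76) (nat_lit 1374711849) (nat_lit 152) (nat_lit 80528745583) (nat_lit 4) (nat_lit 5) (nat_lit 5) (nat_lit 5) (nat_lit 6) (nat_lit 4) (nat_lit 348) (nat_lit 252) (nat_lit 180)) (XT.lf (nat_lit 0) (nat_lit 19303208497) (nat_lit 152) (nat_lit 77152286780) (nat_lit 0) (nat_lit 3283218085) (nat_lit 4) (nat_lit 5) (nat_lit 6) (nat_lit 4) (nat_lit 4) (nat_lit 4) (nat_lit 349) (nat_lit 252) (nat_lit 179))) (XT.nd (nat_lit 78) (nat_lit 0) (nat_lit 0) (XT.lf (nat_lit 0) (nat_lit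 24160027454) (nat_lit 152) (nat_lit 72209204034) (nat_lit 0) (nat_lit 8117745885) (nat_lit 4) (nat_lit 5) (nat_lit 6) (nat_lit 4) (nat_lit 4) (nat_lit 4) (nat_lit 350) (nat_lit 252) (nat_lit 178)) (XT.nd (nat_lit 78) (nat_lit 0) (nat_lit 0) (XT.lf (nat_lit 0) (nat_lit 29247892938) (nat_lit 152) (nat_lit 67040976846) (nat_lit 0) (nat_lit 13184381695) (nat_lit 4) (nat_lit 5) (nat_lit 6) (nat_lit 4) (nat_lit 4) (nat_lit 4) (nat_lit 351) (nat_lit 252) (nat_lit 177)) (XT.lf (nat_lit 0) (nat_lit 34578918914) (nat_lit 152) (nat_lit 61635299914) (nat_lit 0) (nat_lit 18495188935) (nat_lit 4) (nat_lit 5) (nat_lit 6) (nat_lit 4) (nat_lit 4) (nat_lit 4) (nat_lit 352) (nat_lit 252) (nat_lit 176))))))) (XT.nd (nat_lit 780) (nat_lit 0) (nat_lit 0) (XT.nd (nat_lit 390) (nat_lit 76) (nat_lit 0) (XT.nd (nat_lit 156) (nat_lit 0) (nat_lit 0) (XT.nd (nat_lit 78) (nat_lit 0) (nat_lit 0) (XT.lf (nat_lit 0)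 (nat_lit 40165798302) (nat_lit 152) (nat_lit 55979302577) (nat_lit 0) (nat_lit 24062812383) (nat_lit 4) (nat_lit 5) (nat_lit 6) (nat_lit 4) (nat_lit 4) (nat_lit 4) (nat_lit 353) (nat_lit 252) (nat_lit 175)) (XT.lf (nat_lit 0) (nat_lit 46021833194) (nat_lit 152) (nat_lit 50059518176) (nat_lit 0) (nat_lit 29900508285) (nat_lit 4) (nat_lit 5) (nat_lit 6) (nat_lit 4) (nat_lit 4) (nat_lit 4) (nat_lit 354) (nat_lit 252) (nat_lit 174))) (XT.nd (nat_lit 78) (nat_lit 0) (nat_lit 0) (XT.lf (nat_lit 0) (nat_lit 52160966532) (nat_lit 152) (nat_lit 43861851985) (nat_lit 0) (nat_lit 36022175918) (nat_lit 4) (nat_lit 5) (nat_lit 6) (nat_lit 4) (nat_lit 4) (nat_lit 4) (nat_lit 355) (nat_lit 252) (nat_lit 173)) (XT.nd (nat_lit 78) (nat_lit 0) (nat_lit 0) (XT.lf (nat_lit 0) (nat_lit 58597815300) (nat_lit 152) (nat_lit 37371547657) (nat_lit 0) (nat_lit 42442390681) (nat_lit 4) (nat_lit 5) (nat_lit 6)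 (nat_lit 4) (nat_lit 4) (nat_lit 4) (nat_lit 356) (nat_lit 252) (nat_lit 172)) (XT.lf (nat_lit 0) (nat_lit 65347705327) (nat_lit 152) (nat_lit 30573152086) (nat_lit 0) (nat_lit 49176438799) (nat_lit 4) (nat_lit 5) (nat_lit 6) (nat_lit 4) (nat_lit 4) (nat_lit 4) (nat_lit 357) (nat_lit 252) (nat_lit 171))))) (XT.nd (nat_lit 156) (nat_lit 76) (nat_lit 0) (XT.nd (nat_lit 78) (nat_lit 0) (nat_lit 0) (XT.lf (nat_lit 0) (nat_lit 72426707780) (nat_lit 152) (nat_lit 23450478616) (nat_lit 0) (nat_lit 56240353721) (nat_lit 4) (nat_lit 5) (nat_lit 6) (nat_lit 4) (nat_lit 4) (nat_lit 4) (nat_lit 358) (nat_lit 252) (nat_lit 170)) (XT.lf (nat_lit 0) (nat_lit 79851677428) (nat_lit 152) (nat_lit 15986568500) (nat_lit 0) (nat_lit 63650954290) (nat_lit 4) (nat_lit 5) (nat_lit 6) (nat_lit 4) (nat_lit 4) (nat_lit 4) (nat_lit 359) (nat_lit 252) (nat_lit 169))) (XT.nd (nat_lit 78) (nat_lit 76) (nat_lit 0)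 (XT.lf (nat_lit 0) (nat_lit 87640292770) (nat_lit 152) (nat_lit 8163650525) (nat_lit 0) (nat_lit 71425884795) (nat_lit 4) (nat_lit 5) (nat_lit 6) (nat_lit 4) (nat_lit 4) (nat_lit 4) (nat_lit 360) (nat_lit 252) (nat_lit 168)) (XT.nd (nat_lit 78) (nat_lit 0) (nat_lit 0) (XT.lf (nat_lit 0) (nat_lit 38121429) (nat_lit 76) (nat_lit 95773571880) (nat_lit 76) (nat_lit 79546130727) (nat_lit 3) (nat_lit 4) (nat_lit 4) (nat_lit 5) (nat_lit 4) (nat_lit 4) (nat_lit 361) (nat_lit 252) (nat_lit 167)) (XT.lf (nat_lit 0) (nat_lit 8920111386) (nat_lit 76) (nat_lit 95602704350) (nat_lit 76) (nat_lit 79362850646) (nat_lit 3) (nat_lit 4) (nat_lit 4) (nat_lit 5) (nat_lit 4) (nat_lit 4) (nat_lit 362) (nat_lit 252) (nat_lit 166)))))) (XT.nd (nat_lit 390) (nat_lit 0) (nat_lit 0) (XT.nd (nat_lit 156) (nat_lit 0) (nat_lit 0) (XT.nd (nat_lit 78) (nat_lit 0) (nat_lit 0) (XT.lf (nat_lit 0) (nat_lit 18233539786)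 (nat_lit 76) (nat_lit 95429189248) (nat_lit 76) (nat_lit 79177514068) (nat_lit 3) (nat_lit 4) (nat_lit 4) (nat_lit 5) (nat_lit 4) (nat_lit 4) (nat_lit 363) (nat_lit 252) (nat_lit 165)) (XT.lf (nat_lit 0) (nat_lit 28000581459) (nat_lit 76) (nat_lit 95252613443) (nat_lit 76) (nat_lit 78989679715) (nat_lit 3) (nat_lit 4) (nat_lit 4) (nat_lit 5) (nat_lit 4) (nat_lit 4) (nat_lit 364) (nat_lit 252) (nat_lit 164))) (XT.nd (nat_lit 78) (nat_lit 0) (nat_lit 0) (XT.lf (nat_lit 0) (nat_lit 38244491266) (nat_lit 76) (nat_lit 95072556518) (nat_lit 76) (nat_lit 78798900362) (nat_lit 3) (nat_lit 4) (nat_lit 4) (nat_lit 5) (nat_lit 4) (nat_lit 4) (nat_lit 365) (nat_lit 252) (nat_lit 163)) (XT.nd (nat_lit 78) (nat_lit 0) (nat_lit 0) (XT.lf (nat_lit 0) (nat_lit 48989659468) (nat_lit 76) (nat_lit 94888589764) (nat_lit 76) (nat_lit 78604721772) (nat_lit 3) (nat_lit 4) (nat_lit 4) (nat_lit 5) (nat_lit 4)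 (nat_lit 4) (nat_lit 366) (nat_lit 252) (nat_lit 162)) (XT.lf (nat_lit 0) (nat_lit 60261669799) (nat_lit 76) (nat_lit 94700275167) (nat_lit 76) (nat_lit 78406681617) (nat_lit 3) (nat_lit 4) (nat_lit 4) (nat_lit 5) (nat_lit 4) (nat_lit 4) (nat_lit 367) (nat_lit 252) (nat_lit 161))))) (XT.nd (nat_lit 156) (nat_lit 0) (nat_lit 0) (XT.nd (nat_lit 78) (nat_lit 0) (nat_lit 0) (XT.lf (nat_lit 0) (nat_lit 72087360378) (nat_lit 76) (nat_lit 94507164357) (nat_lit 76) (nat_lit 78204308371) (nat_lit 3) (nat_lit 4) (nat_lit 4) (nat_lit 5) (nat_lit 4) (nat_lit 4) (nat_lit 368) (nat_lit 252) (nat_lit 160)) (XT.lf (nat_lit 0) (nat_lit 84494887613) (nat_lit 76) (nat_lit 94308797547) (nat_lit 76) (nat_lit 77997120193) (nat_lit 3) (nat_lit 4) (nat_lit 4) (nat_lit 5) (nat_lit 4) (nat_lit 4) (nat_lit 369) (nat_lit 252) (nat_lit 159))) (XT.nd (nat_lit 78) (nat_lit 0) (nat_lit 0) (XT.lf (nat_lit 0) (nat_lit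 97513793235) (nat_lit 76) (nat_lit 94104702436) (nat_lit 76) (nat_lit 77784623779) (nat_lit 3) (nat_lit 4) (nat_lit 4) (nat_lit 5) (nat_lit 4) (nat_lit 4) (nat_lit 370) (nat_lit 252) (nat_lit 158)) (XT.nd (nat_lit 78) (nat_lit 0) (nat_lit 0) (XT.lf (nat_lit 0) (nat_lit 111175074637) (nat_lit 76) (nat_lit 93894393082) (nat_lit 76) (nat_lit 77566313185) (nat_lit 3) (nat_lit 4) (nat_lit 4) (nat_lit 5) (nat_lit 4) (nat_lit 4) (nat_lit 371) (nat_lit 252) (nat_lit 157)) (XT.lf (nat_lit 0) (nat_lit 125511258681) (nat_lit 76) (nat_lit 93677368749) (nat_lit 76) (nat_lit 77341668622) (nat_lit 3) (nat_lit 4) (nat_lit 4) (nat_lit 5) (nat_lit 4) (nat_lit 4) (nat_lit 372) (nat_lit 252) (nat_lit 156))))))))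
noncomputable def xc84 : XT := (XT.nd (nat_lit 33228) (nat_lit 0) (nat_lit 2204) (XT.nd (nat_lit 702) (nat_lit 0) (nat_lit 0) (XT.nd (nat_lit 312) (nat_lit 0) (nat_lit 0) (XT.nd (nat_lit 156) (nat_lit 0) (nat_lit 0) (XT.nd (nat_lit 78) (nat_lit 0) (nat_lit 0) (XT.lf (nat_lit 0) (nat_lit 140556479138) (nat_lit 76) (nat_lit 93453112712) (nat_lit 76) (nat_lit 77110155224) (nat_lit 3) (nat_lit 4) (nat_lit 4) (nat_lit 5) (nat_lit 4) (nat_lit 4) (nat_lit 373) (nat_lit 252) (nat_lit 155)) (XT.lf (nat_lit 0) (nat_lit 156346557961) (nat_lit 76) (nat_lit 93221091028) (nat_lit 76) (nat_lit 76871221769) (nat_lit 3) (nat_lit 4) (nat_lit 4) (nat_lit 5) (nat_lit 4) (nat_lit 4) (nat_lit 374) (nat_lit 252) (nat_lit 154))) (XT.nd (nat_lit 78) (nat_lit 0) (nat_lit 0) (XT.lf (nat_lit 0) (nat_lit 172919090576) (nat_lit 76) (nat_lit 92980751266) (nat_lit 76) (nat_lit 76624299365) (nat_lit 3) (nat_lit 4)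 (nat_lit 4) (nat_lit 5) (nat_lit 4) (nat_lit 4) (nat_lit 375) (nat_lit 252) (nat_lit 153)) (XT.lf (nat_lit 0) (nat_lit 190313535395) (nat_lit 76) (nat_lit 92731521186) (nat_lit 76) (nat_lit 76368800105) (nat_lit 3) (nat_lit 4) (nat_lit 4) (nat_lit 5) (nat_lit 4) (nat_lit 4) (nat_lit 376) (nat_lit 252) (nat_lit 152)))) (XT.nd (nat_lit 156) (nat_lit 0) (nat_lit 0) (XT.nd (nat_lit 78) (nat_lit 0) (nat_lit 0) (XT.lf (nat_lit 0) (nat_lit 208571307761) (nat_lit 76) (nat_lit 92472807385) (nat_lit 76) (nat_lit 76104115655) (nat_lit 3) (nat_lit 4) (nat_lit 4) (nat_lit 5) (nat_lit 4) (nat_lit 4) (nat_lit 377) (nat_lit 252) (nat_lit 151)) (XT.lf (nat_lit 0) (nat_lit 227735878562) (nat_lit 76) (nat_lit 92203993877) (nat_lit 76) (nat_lit 75829615814) (nat_lit 3) (nat_lit 4) (nat_lit 4) (nat_lit 5) (nat_lit 4) (nat_lit 4) (nat_lit 378) (nat_lit 252) (nat_lit 150))) (XT.nd (nat_lit 78) (nat_lit 0)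 (nat_lit 0) (XT.lf (nat_lit 0) (nat_lit 247852877728) (nat_lit 76) (nat_lit 91924440630) (nat_lit 76) (nat_lit 75544647013) (nat_lit 3) (nat_lit 4) (nat_lit 4) (nat_lit 5) (nat_lit 4) (nat_lit 4) (nat_lit 379) (nat_lit 252) (nat_lit 149)) (XT.nd (nat_lit 78) (nat_lit 0) (nat_lit 0) (XT.lf (nat_lit 0) (nat_lit 268970202875) (nat_lit 76) (nat_lit 91633482041) (nat_lit 76) (nat_lit 75248530752) (nat_lit 3) (nat_lit 4) (nat_lit 4) (nat_lit 5) (nat_lit 4) (nat_lit 4) (nat_lit 380) (nat_lit 252) (nat_lit 148)) (XT.lf (nat_lit 0) (nat_lit 291138133351) (nat_lit 76) (nat_lit 91330425351) (nat_lit 76) (nat_lit 74940561995) (nat_lit 3) (nat_lit 4) (nat_lit 4) (nat_lit 5) (nat_lit 4) (nat_lit 4) (nat_lit 381) (nat_lit 252) (nat_lit 147)))))) (XT.nd (nat_lit 390) (nat_lit 0) (nat_lit 0) (XT.nd (nat_lit 156) (nat_lit 0) (nat_lit 0) (XT.nd (nat_lit 78) (nat_lit 0) (nat_lit 0) (XT.lf (nat_lit 0) (nat_lit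 314409449941) (nat_lit 76) (nat_lit 91014548997) (nat_lit 76) (nat_lit 74620007481) (nat_lit 3) (nat_lit 4) (nat_lit 4) (nat_lit 5) (nat_lit 4) (nat_lit 4) (nat_lit 382) (nat_lit 252) (nat_lit 146)) (XT.lf (nat_lit 0) (nat_lit 338839560542) (nat_lit 76) (nat_lit 90685100893) (nat_lit 76) (nat_lit 74286103987) (nat_lit 3) (nat_lit 4) (nat_lit 4) (nat_lit 5) (nat_lit 4) (nat_lit 4) (nat_lit 383) (nat_lit 252) (nat_lit 145))) (XT.nd (nat_lit 78) (nat_lit 0) (nat_lit 0) (XT.lf (nat_lit 0) (nat_lit 364486632085) (nat_lit 76) (nat_lit 90341296637) (nat_lit 76) (nat_lit 73938056502) (nat_lit 3) (nat_lit 4) (nat_lit 4) (nat_lit 5) (nat_lit 4) (nat_lit 4) (nat_lit 384) (nat_lit 252) (nat_lit 144)) (XT.nd (nat_lit 78) (nat_lit 0) (nat_lit 0) (XT.lf (nat_lit 0) (nat_lit 391411729024) (nat_lit 76) (nat_lit 89982317649) (nat_lit 76) (nat_lit 73575036344) (nat_lit 3) (nat_lit 4) (nat_lit 4) (nat_lit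 5) (nat_lit 4) (nat_lit 4) (nat_lit 385) (nat_lit 252) (nat_lit 143)) (XT.lf (nat_lit 0) (nat_lit 419678958735) (nat_lit 76) (nat_lit 89607309216) (nat_lit 76) (nat_lit 73196179178) (nat_lit 3) (nat_lit 4) (nat_lit 4) (nat_lit 5) (nat_lit 4) (nat_lit 4) (nat_lit 386) (nat_lit 252) (nat_lit 142))))) (XT.nd (nat_lit 31902) (nat_lit 0) (nat_lit 5776) (XT.nd (nat_lit 31824) (nat_lit 0) (nat_lit 7220) (XT.lf (nat_lit 0) (nat_lit 449355624144) (nat_lit 76) (nat_lit 89215378462) (nat_lit 76) (nat_lit 72800582963) (nat_lit 3) (nat_lit 4) (nat_lit 4) (nat_lit 5) (nat_lit 4) (nat_lit 4) (nat_lit 387) (nat_lit 252) (nat_lit 141)) (XT.lf (nat_lit 0) (nat_lit 2869993139) (nat_lit 532) (nat_lit 330244158) (nat_lit 532) (nat_lit 330244158) (nat_lit 98) (nat_lit 4) (nat_lit 105) (nat_lit 5) (nat_lit 105) (nat_lit 4) (nat_lit 274) (nat_lit 253) (nat_lit 253))) (XT.nd (nat_lit 78) (nat_lit 760) (nat_lit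 0) (XT.lf (nat_lit 0) (nat_lit 2460009874) (nat_lit 684) (nat_lit 3867857015) (nat_lit 0) (nat_lit 827743897) (nat_lit 89) (nat_lit 5) (nat_lit 98) (nat_lit 4) (nat_lit 89) (nat_lit 4) (nat_lit 275) (nat_lit 253) (nat_lit 252)) (XT.nd (nat_lit 78) (nat_lit 76) (nat_lit 0) (XT.lf (nat_lit 0) (nat_lit 765248348) (nat_lit 684) (nat_lit 4840968788) (nat_lit 684) (nat_lit 1654163786) (nat_lit 80) (nat_lit 4) (nat_lit 89) (nat_lit 5) (nat_lit 89) (nat_lit 4) (nat_lit 276) (nat_lit 253) (nat_lit 251)) (XT.lf (nat_lit 0) (nat_lit 1405017106) (nat_lit 760) (nat_lit 1787033289) (nat_lit 76) (nat_lit 4181866925) (nat_lit 79) (nat_lit 5) (nat_lit 89) (nat_lit 5) (nat_lit 80) (nat_lit 4) (nat_lit 277) (nat_lit 253) (nat_lit 250))))))) (XT.nd (nat_lit 780) (nat_lit 1216) (nat_lit 0) (XT.nd (nat_lit 390) (nat_lit 836) (nat_lit 0) (XT.nd (nat_lit 156) (nat_lit 760) (nat_lit 0) (XT.nd (nat_lit 78) (nat_lit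 380) (nat_lit 0) (XT.lf (nat_lit 0) (nat_lit 3076286432) (nat_lit 380) (nat_lit 1388892841) (nat_lit 456) (nat_lit 3031868517) (nat_lit 74) (nat_lit 5) (nat_lit 79) (nat_lit 5) (nat_lit 80) (nat_lit 4) (nat_lit 278) (nat_lit 253) (nat_lit 249)) (XT.lf (nat_lit 0) (nat_lit 470308451) (nat_lit 380) (nat_lit 7114008789) (nat_lit 380) (nat_lit 47151324) (nat_lit 69) (nat_lit 4) (nat_lit 74) (nat_lit 5) (nat_lit 74) (nat_lit 4) (nat_lit 279) (nat_lit 253) (nat_lit 248))) (XT.nd (nat_lit 78) (nat_lit 684) (nat_lit 0) (XT.lf (nat_lit 0) (nat_lit 2948499119) (nat_lit 456) (nat_lit 2240456272) (nat_lit 76) (nat_lit 2583612571) (nat_lit 68) (nat_lit 5) (nat_lit 74) (nat_lit 5) (nat_lit 69) (nat_lit 4) (nat_lit 280) (nat_lit 253) (nat_lit 247)) (XT.nd (nat_lit 78) (nat_lit 380) (nat_lit 0) (XT.lf (nat_lit 0) (nat_lit 2865991620) (nat_lit 304) (nat_lit 3139321571) (nat_lit 380) (nat_lit 1920095526)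 (nat_lit 64) (nat_lit 5) (nat_lit 68) (nat_lit 5) (nat_lit 69) (nat_lit 4) (nat_lit 281) (nat_lit 253) (nat_lit 246)) (XT.lf (nat_lit 0) (nat_lit 51495052) (nat_lit 304) (nat_lit 950544892) (nat_lit 380) (nat_lit 7087853724) (nat_lit 59) (nat_lit 5) (nat_lit 63) (nat_lit 5) (nat_lit 64) (nat_lit 5) (nat_lit 282) (nat_lit 253) (nat_lit 245))))) (XT.nd (nat_lit 156) (nat_lit 608) (nat_lit 0) (XT.nd (nat_lit 78) (nat_lit 228) (nat_lit 0) (XT.lf (nat_lit 0) (nat_lit 3987078042) (nat_lit 380) (nat_lit 2875876190) (nat_lit 76) (nat_lit 1399331091) (nat_lit 59) (nat_lit 5) (nat_lit 64) (nat_lit 5) (nat_lit 60) (nat_lit 4) (nat_lit 283) (nat_lit 253) (nat_lit 244)) (XT.lf (nat_lit 0) (nat_lit 2458112893) (nat_lit 228) (nat_lit 4596448658) (nat_lit 304) (nat_lit 1392382465) (nat_lit 56) (nat_lit 5) (nat_lit 59) (nat_lit 5) (nat_lit 60) (nat_lit 4) (nat_lit 284) (nat_lit 253) (nat_lit 243)))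 (XT.nd (nat_lit 78) (nat_lit 532) (nat_lit 0) (XT.lf (nat_lit 0) (nat_lit 1512246386) (nat_lit 304) (nat_lit 657640855) (nat_lit 76) (nat_lit 6473451974) (nat_lit 55) (nat_lit 5) (nat_lit 59) (nat_lit 5) (nat_lit 56) (nat_lit 5) (nat_lit 285) (nat_lit 253) (nat_lit 242)) (XT.nd (nat_lit 78) (nat_lit 228) (nat_lit 0) (XT.lf (nat_lit 0) (nat_lit 4485526179) (nat_lit 380) (nat_lit 3926833768) (nat_lit 76) (nat_lit 437807607) (nat_lit 51) (nat_lit 5) (nat_lit 56) (nat_lit 5) (nat_lit 52) (nat_lit 4) (nat_lit 286) (nat_lit 253) (nat_lit 241)) (XT.lf (nat_lit 0) (nat_lit 1607798419) (nat_lit 228) (nat_lit 5960547287) (nat_lit 304) (nat_lit 1501200493) (nat_lit 48) (nat_lit 5) (nat_lit 51) (nat_lit 5) (nat_lit 52) (nat_lit 4) (nat_lit 287) (nat_lit 253) (nat_lit 240)))))) (XT.nd (nat_lit 390) (nat_lit 456) (nat_lit 0) (XT.nd (nat_lit 156) (nat_lit 456) (nat_lit 0) (XT.nd (nat_lit 78) (nat_lit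 228) (nat_lit 0) (XT.lf (nat_lit 0) (nat_lit 1414727947) (nat_lit 304) (nat_lit 1914478103) (nat_lit 76) (nat_lit 5971866820) (nat_lit 47) (nat_lit 5) (nat_lit 51) (nat_lit 5) (nat_lit 48) (nat_lit 5) (nat_lit 288) (nat_lit 253) (nat_lit 239)) (XT.lf (nat_lit 0) (nat_lit 3867610457) (nat_lit 228) (nat_lit 513924102) (nat_lit 304) (nat_lit 5163852501) (nat_lit 44) (nat_lit 5) (nat_lit 47) (nat_lit 5) (nat_lit 48) (nat_lit 5) (nat_lit 289) (nat_lit 253) (nat_lit 238))) (XT.nd (nat_lit 78) (nat_lit 304) (nat_lit 0) (XT.lf (nat_lit 0) (nat_lit 22884152) (nat_lit 152) (nat_lit 7442616873) (nat_lit 228) (nat_lit 2338182836) (nat_lit 42) (nat_lit 5) (nat_lit 44) (nat_lit 5) (nat_lit 45) (nat_lit 4) (nat_lit 290) (nat_lit 253) (nat_lit 237)) (XT.nd (nat_lit 78) (nat_lit 228) (nat_lit 0) (XT.lf (nat_lit 0) (nat_lit 613024747) (nat_lit 228) (nat_lit 4029599325) (nat_lit 76) (nat_lit 5431750187)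 (nat_lit 41) (nat_lit 5) (nat_lit 44) (nat_lit 5) (nat_lit 42) (nat_lit 5) (nat_lit 291) (nat_lit 253) (nat_lit 236)) (XT.lf (nat_lit 0) (nat_lit 1892948805) (nat_lit 228) (nat_lit 1672888252) (nat_lit 304) (nat_lit 6794394018) (nat_lit 38) (nat_lit 5) (nat_lit 41) (nat_lit 5) (nat_lit 42) (nat_lit 5) (nat_lit 292) (nat_lit 253) (nat_lit 235))))) (XT.nd (nat_lit 156) (nat_lit 304) (nat_lit 0) (XT.nd (nat_lit 78) (nat_lit 152) (nat_lit 0) (XT.lf (nat_lit 0) (nat_lit 6663122357) (nat_lit 304) (nat_lit 2569605025) (nat_lit 76) (nat_lit 1427982753) (nat_lit 38) (nat_lit 5) (nat_lit 42) (nat_lit 5) (nat_lit 39) (nat_lit 4) (nat_lit 293) (nat_lit 253) (nat_lit 234)) (XT.lf (nat_lit 0) (nat_lit 3576207001) (nat_lit 152) (nat_lit 6331756979) (nat_lit 228) (nat_lit 1068777443) (nat_lit 36) (nat_lit 5) (nat_lit 38) (nat_lit 5) (nat_lit 39) (nat_lit 4) (nat_lit 294) (nat_lit 253) (nat_lit 233)))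 (XT.nd (nat_lit 78) (nat_lit 228) (nat_lit 0) (XT.lf (nat_lit 0) (nat_lit 1896577462) (nat_lit 228) (nat_lit 1354666243) (nat_lit 76) (nat_lit 8058195785) (nat_lit 35) (nat_lit 5) (nat_lit 38) (nat_lit 5) (nat_lit 36) (nat_lit 5) (nat_lit 295) (nat_lit 253) (nat_lit 232)) (XT.nd (nat_lit 78) (nat_lit 0) (nat_lit 0) (XT.lf (nat_lit 0) (nat_lit 4967485522) (nat_lit 304) (nat_lit 6651122782) (nat_lit 76) (nat_lit 39768643) (nat_lit 32) (nat_lit 5) (nat_lit 36) (nat_lit 5) (nat_lit 33) (nat_lit 4) (nat_lit 296) (nat_lit 253) (nat_lit 231)) (XT.lf (nat_lit 0) (nat_lit 8184369008) (nat_lit 304) (nat_lit 472892300) (nat_lit 76) (nat_lit 3368012468) (nat_lit 32) (nat_lit 5) (nat_lit 36) (nat_lit 5) (nat_lit 33) (nat_lit 4) (nat_lit 297) (nat_lit 253) (nat_lit 230))))))))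
noncomputable def xc85 : XT := (XT.nd (nat_lit 1482) (nat_lit 456) (nat_lit 0) (XT.nd (nat_lit 702) (nat_lit 608) (nat_lit 0) (XT.nd (nat_lit 312) (nat_lit 456) (nat_lit 0) (XT.nd (nat_lit 156) (nat_lit 0) (nat_lit 0) (XT.nd (nat_lit 78) (nat_lit 228) (nat_lit 0) (XT.lf (nat_lit 0) (nat_lit 6085298701) (nat_lit 152) (nat_lit 5491628363) (nat_lit 228) (nat_lit 832974481) (nat_lit 30) (nat_lit 5) (nat_lit 32) (nat_lit 5) (nat_lit 33) (nat_lit 4) (nat_lit 298) (nat_lit 253) (nat_lit 229)) (XT.lf (nat_lit 0) (nat_lit 13995297) (nat_lit 152) (nat_lit 2165628468) (nat_lit 228) (nat_lit 10636002567) (nat_lit 27) (nat_lit 5) (nat_lit 29) (nat_lit 5) (nat_lit 30) (nat_lit 5) (nat_lit 299) (nat_lit 253) (nat_lit 228))) (XT.nd (nat_lit 78) (nat_lit 0) (nat_lit 0) (XT.lf (nat_lit 0) (nat_lit 5365960182) (nat_lit 228) (nat_lit 6509073618) (nat_lit 76) (nat_lit 1363475950) (nat_lit 27) (nat_lit 5)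 (nat_lit 30) (nat_lit 5) (nat_lit 28) (nat_lit 4) (nat_lit 300) (nat_lit 253) (nat_lit 227)) (XT.lf (nat_lit 0) (nat_lit 8672375040) (nat_lit 228) (nat_lit 57168307) (nat_lit 76) (nat_lit 4955060906) (nat_lit 27) (nat_lit 5) (nat_lit 30) (nat_lit 5) (nat_lit 28) (nat_lit 4) (nat_lit 301) (nat_lit 253) (nat_lit 226)))) (XT.nd (nat_lit 156) (nat_lit 228) (nat_lit 0) (XT.nd (nat_lit 78) (nat_lit 76) (nat_lit 0) (XT.lf (nat_lit 0) (nat_lit 6821591641) (nat_lit 152) (nat_lit 5357841746) (nat_lit 228) (nat_lit 1971903948) (nat_lit 25) (nat_lit 5) (nat_lit 27) (nat_lit 5) (nat_lit 28) (nat_lit 4) (nat_lit 302) (nat_lit 253) (nat_lit 225)) (XT.lf (nat_lit 0) (nat_lit 1111583633) (nat_lit 228) (nat_lit 728819783) (nat_lit 76) (nat_lit 12803631245) (nat_lit 24) (nat_lit 5) (nat_lit 27) (nat_lit 5) (nat_lit 25) (nat_lit 5) (nat_lit 303) (nat_lit 253) (nat_lit 224))) (XT.nd (nat_lit 78) (nat_lit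 76) (nat_lit 0) (XT.lf (nat_lit 0) (nat_lit 4343731484) (nat_lit 228) (nat_lit 8927715781) (nat_lit 76) (nat_lit 1885351912) (nat_lit 22) (nat_lit 5) (nat_lit 25) (nat_lit 5) (nat_lit 23) (nat_lit 4) (nat_lit 304) (nat_lit 253) (nat_lit 223)) (XT.nd (nat_lit 78) (nat_lit 76) (nat_lit 0) (XT.lf (nat_lit 0) (nat_lit 7713679768) (nat_lit 228) (nat_lit 2274943408) (nat_lit 76) (nat_lit 5707851355) (nat_lit 22) (nat_lit 5) (nat_lit 25) (nat_lit 5) (nat_lit 23) (nat_lit 4) (nat_lit 305) (nat_lit 253) (nat_lit 222)) (XT.lf (nat_lit 0) (nat_lit 4757823402) (nat_lit 76) (nat_lit 6505230005) (nat_lit 152) (nat_lit 4999612196) (nat_lit 21) (nat_lit 5) (nat_lit 22) (nat_lit 5) (nat_lit 23) (nat_lit 4) (nat_lit 306) (nat_lit 253) (nat_lit 221)))))) (XT.nd (nat_lit 390) (nat_lit 304) (nat_lit 0) (XT.nd (nat_lit 156) (nat_lit 76) (nat_lit 0) (XT.nd (nat_lit 78) (nat_lit 228) (nat_lit 0) (XT.lf (nat_lit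 0) (nat_lit 12117977533) (nat_lit 76) (nat_lit 2848495613) (nat_lit 152) (nat_lit 1891938827) (nat_lit 21) (nat_lit 5) (nat_lit 22) (nat_lit 5) (nat_lit 23) (nat_lit 4) (nat_lit 307) (nat_lit 253) (nat_lit 220)) (XT.lf (nat_lit 0) (nat_lit 1319120859) (nat_lit 228) (nat_lit 15185428881) (nat_lit 76) (nat_lit 978798902) (nat_lit 18) (nat_lit 5) (nat_lit 21) (nat_lit 5) (nat_lit 19) (nat_lit 4) (nat_lit 308) (nat_lit 253) (nat_lit 219))) (XT.nd (nat_lit 78) (nat_lit 76) (nat_lit 0) (XT.lf (nat_lit 0) (nat_lit 4696102501) (nat_lit 228) (nat_lit 8462902734) (nat_lit 76) (nat_lit 4975593070) (nat_lit 18) (nat_lit 5) (nat_lit 21) (nat_lit 5) (nat_lit 19) (nat_lit 4) (nat_lit 309) (nat_lit 253) (nat_lit 218)) (XT.nd (nat_lit 78) (nat_lit 76) (nat_lit 0) (XT.lf (nat_lit 0) (nat_lit 8185415349) (nat_lit 228) (nat_lit 1500560176) (nat_lit 76) (nat_lit 9135322208) (nat_lit 18) (nat_lit 5) (nat_lit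 21) (nat_lit 5) (nat_lit 19) (nat_lit 4) (nat_lit 310) (nat_lit 253) (nat_lit 217)) (XT.lf (nat_lit 0) (nat_lit 5907244516) (nat_lit 76) (nat_lit 5980351416) (nat_lit 152) (nat_lit 7652874557) (nat_lit 17) (nat_lit 5) (nat_lit 18) (nat_lit 5) (nat_lit 19) (nat_lit 4) (nat_lit 311) (nat_lit 253) (nat_lit 216))))) (XT.nd (nat_lit 156) (nat_lit 152) (nat_lit 0) (XT.nd (nat_lit 78) (nat_lit 152) (nat_lit 0) (XT.lf (nat_lit 0) (nat_lit 13647291209) (nat_lit 76) (nat_lit 2100334704) (nat_lit 152) (nat_lit 4549394633) (nat_lit 17) (nat_lit 5) (nat_lit 18) (nat_lit 5) (nat_lit 19) (nat_lit 4) (nat_lit 312) (nat_lit 253) (nat_lit 215)) (XT.lf (nat_lit 0) (nat_lit 582832165) (nat_lit 152) (nat_lit 19207016782) (nat_lit 152) (nat_lit 1302142609) (nat_lit 15) (nat_lit 4) (nat_lit 17) (nat_lit 5) (nat_lit 17) (nat_lit 4) (nat_lit 313) (nat_lit 253) (nat_lit 214))) (XT.nd (nat_lit 78) (nat_lit 76)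 (nat_lit 0) (XT.lf (nat_lit 0) (nat_lit 2138392633) (nat_lit 228) (nat_lit 13670625934) (nat_lit 76) (nat_lit 6111176826) (nat_lit 14) (nat_lit 5) (nat_lit 17) (nat_lit 5) (nat_lit 15) (nat_lit 4) (nat_lit 314) (nat_lit 253) (nat_lit 213)) (XT.nd (nat_lit 78) (nat_lit 76) (nat_lit 0) (XT.lf (nat_lit 0) (nat_lit 5659078501) (nat_lit 228) (nat_lit 6595559582) (nat_lit 76) (nat_lit 10536555598) (nat_lit 14) (nat_lit 5) (nat_lit 17) (nat_lit 5) (nat_lit 15) (nat_lit 4) (nat_lit 315) (nat_lit 253) (nat_lit 212)) (XT.lf (nat_lit 0) (nat_lit 778119851) (nat_lit 76) (nat_lit 8544003054) (nat_lit 152) (nat_lit 14385346392) (nat_lit 13) (nat_lit 5) (nat_lit 14) (nat_lit 5) (nat_lit 15) (nat_lit 4) (nat_lit 316) (nat_lit 253) (nat_lit 211))))))) (XT.nd (nat_lit 780) (nat_lit 228) (nat_lit 0) (XT.nd (nat_lit 390) (nat_lit 76) (nat_lit 0) (XT.nd (nat_lit 156) (nat_lit 152) (nat_lit 0) (XT.nd (nat_lit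 78) (nat_lit 0) (nat_lit 0) (XT.lf (nat_lit 0) (nat_lit 8670712308) (nat_lit 76) (nat_lit 4564434372) (nat_lit 152) (nat_lit 11431112205) (nat_lit 13) (nat_lit 5) (nat_lit 14) (nat_lit 5) (nat_lit 15) (nat_lit 4) (nat_lit 317) (nat_lit 253) (nat_lit 210)) (XT.lf (nat_lit 0) (nat_lit 16882930690) (nat_lit 76) (nat_lit 418155867) (nat_lit 152) (nat_lit 8374077722) (nat_lit 13) (nat_lit 5) (nat_lit 14) (nat_lit 5) (nat_lit 15) (nat_lit 4) (nat_lit 318) (nat_lit 253) (nat_lit 209))) (XT.nd (nat_lit 78) (nat_lit 152) (nat_lit 0) (XT.lf (nat_lit 0) (nat_lit 21590586724) (nat_lit 152) (nat_lit 1363223117) (nat_lit 0) (nat_lit 3779729622) (nat_lit 13) (nat_lit 5) (nat_lit 15) (nat_lit 4) (nat_lit 13) (nat_lit 4) (nat_lit 319) (nat_lit 253) (nat_lit 208)) (XT.nd (nat_lit 78) (nat_lit 76) (nat_lit 0) (XT.lf (nat_lit 0) (nat_lit 6571153212) (nat_lit 76) (nat_lit 19593638869) (nat_lit 76) (nat_lit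 1676565708) (nat_lit 12) (nat_lit 4) (nat_lit 13) (nat_lit 5) (nat_lit 13) (nat_lit 4) (nat_lit 320) (nat_lit 253) (nat_lit 207)) (XT.lf (nat_lit 0) (nat_lit 1884690608) (nat_lit 152) (nat_lit 14154615563) (nat_lit 76) (nat_lit 12964541774) (nat_lit 11) (nat_lit 5) (nat_lit 13) (nat_lit 5) (nat_lit 12) (nat_lit 4) (nat_lit 321) (nat_lit 253) (nat_lit 206))))) (XT.nd (nat_lit 156) (nat_lit 0) (nat_lit 0) (XT.nd (nat_lit 78) (nat_lit 76) (nat_lit 0) (XT.lf (nat_lit 0) (nat_lit 5530444597) (nat_lit 152) (nat_lit 6777160981) (nat_lit 76) (nat_lit 17917374878) (nat_lit 11) (nat_lit 5) (nat_lit 13) (nat_lit 5) (nat_lit 12) (nat_lit 4) (nat_lit 322) (nat_lit 253) (nat_lit 205)) (XT.lf (nat_lit 0) (nat_lit 935853585) (nat_lit 76) (nat_lit 8401794910) (nat_lit 152) (nat_lit 22170592516) (nat_lit 10) (nat_lit 5) (nat_lit 11) (nat_lit 5) (nat_lit 12) (nat_lit 4) (nat_lit 323) (nat_lit 253) (nat_lit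 204))) (XT.nd (nat_lit 78) (nat_lit 0) (nat_lit 0) (XT.lf (nat_lit 0) (nat_lit 9207561119) (nat_lit 76) (nat_lit 4207693107) (nat_lit 152) (nat_lit 19436436408) (nat_lit 10) (nat_lit 5) (nat_lit 11) (nat_lit 5) (nat_lit 12) (nat_lit 4) (nat_lit 324) (nat_lit 253) (nat_lit 203)) (XT.nd (nat_lit 78) (nat_lit 0) (nat_lit 0) (XT.lf (nat_lit 0) (nat_lit 17666314118) (nat_lit 152) (nat_lit 16433073643) (nat_lit 0) (nat_lit 164473064) (nat_lit 10) (nat_lit 5) (nat_lit 12) (nat_lit 4) (nat_lit 10) (nat_lit 4) (nat_lit 325) (nat_lit 253) (nat_lit 202)) (XT.lf (nat_lit 0) (nat_lit 22167012236) (nat_lit 152) (nat_lit 8988113125) (nat_lit 0) (nat_lit 4589685413) (nat_lit 10) (nat_lit 5) (nat_lit 12) (nat_lit 4) (nat_lit 10) (nat_lit 4) (nat_lit 326) (nat_lit 253) (nat_lit 201)))))) (XT.nd (nat_lit 390) (nat_lit 76) (nat_lit 0) (XT.nd (nat_lit 156) (nat_lit 76) (nat_lit 0) (XT.nd (nat_lit 78) (nat_lit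 76) (nat_lit 0) (XT.lf (nat_lit 0) (nat_lit 26862370647) (nat_lit 152) (nat_lit 1225827982) (nat_lit 0) (nat_lit 9213152615) (nat_lit 10) (nat_lit 5) (nat_lit 12) (nat_lit 4) (nat_lit 10) (nat_lit 4) (nat_lit 327) (nat_lit 253) (nat_lit 200)) (XT.lf (nat_lit 0) (nat_lit 7099491480) (nat_lit 76) (nat_lit 24774920253) (nat_lit 76) (nat_lit 7057234402) (nat_lit 9) (nat_lit 4) (nat_lit 10) (nat_lit 5) (nat_lit 10) (nat_lit 4) (nat_lit 328) (nat_lit 253) (nat_lit 199))) (XT.nd (nat_lit 78) (nat_lit 76) (nat_lit 0) (XT.lf (nat_lit 0) (nat_lit 15832170572) (nat_lit 76) (nat_lit 21297290120) (nat_lit 76) (nat_lit 3514396823) (nat_lit 9) (nat_lit 4) (nat_lit 10) (nat_lit 5) (nat_lit 10) (nat_lit 4) (nat_lit 329) (nat_lit 253) (nat_lit 198)) (XT.nd (nat_lit 78) (nat_lit 0) (nat_lit 0) (XT.lf (nat_lit 0) (nat_lit 171535731) (nat_lit 152) (nat_lit 17493347376) (nat_lit 76) (nat_lit 24778029205)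 (nat_lit 8) (nat_lit 5) (nat_lit 10) (nat_lit 5) (nat_lit 9) (nat_lit 4) (nat_lit 330) (nat_lit 253) (nat_lit 197)) (XT.lf (nat_lit 0) (nat_lit 3897499112) (nat_lit 152) (nat_lit 9914267521) (nat_lit 76) (nat_lit 30518599547) (nat_lit 8) (nat_lit 5) (nat_lit 10) (nat_lit 5) (nat_lit 9) (nat_lit 4) (nat_lit 331) (nat_lit 253) (nat_lit 196))))) (XT.nd (nat_lit 156) (nat_lit 0) (nat_lit 0) (XT.nd (nat_lit 78) (nat_lit 76) (nat_lit 0) (XT.lf (nat_lit 0) (nat_lit 7784847306) (nat_lit 152) (nat_lit 2001532367) (nat_lit 76) (nat_lit 36527076865) (nat_lit 8) (nat_lit 5) (nat_lit 10) (nat_lit 5) (nat_lit 9) (nat_lit 4) (nat_lit 332) (nat_lit 253) (nat_lit 195)) (XT.lf (nat_lit 0) (nat_lit 6470804072) (nat_lit 76) (nat_lit 5473059217) (nat_lit 152) (nat_lit 36447990370) (nat_lit 7) (nat_lit 5) (nat_lit 8) (nat_lit 5) (nat_lit 9) (nat_lit 4) (nat_lit 333) (nat_lit 253) (nat_lit 194))) (XT.nd (nat_lit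 78) (nat_lit 0) (nat_lit 0) (XT.lf (nat_lit 0) (nat_lit 15393800237) (nat_lit 76) (nat_lit 927666908) (nat_lit 152) (nat_lit 34252188080) (nat_lit 7) (nat_lit 5) (nat_lit 8) (nat_lit 5) (nat_lit 9) (nat_lit 4) (nat_lit 334) (nat_lit 253) (nat_lit 193)) (XT.nd (nat_lit 78) (nat_lit 0) (nat_lit 0) (XT.lf (nat_lit 0) (nat_lit 20955544826) (nat_lit 152) (nat_lit 28202894349) (nat_lit 0) (nat_lit 3704243672) (nat_lit 7) (nat_lit 5) (nat_lit 9) (nat_lit 4) (nat_lit 7) (nat_lit 4) (nat_lit 335) (nat_lit 253) (nat_lit 192)) (XT.lf (nat_lit 0) (nat_lit 25815164982) (nat_lit 152) (nat_lit 20931590990) (nat_lit 0) (nat_lit 8519728862) (nat_lit 7) (nat_lit 5) (nat_lit 9) (nat_lit 4) (nat_lit 7) (nat_lit 4) (nat_lit 336) (nat_lit 253) (nat_lit 191))))))))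
noncomputable def xc86 : XT := (XT.nd (nat_lit 1482) (nat_lit 76) (nat_lit 0) (XT.nd (nat_lit 702) (nat_lit 152) (nat_lit 0) (XT.nd (nat_lit 312) (nat_lit 0) (nat_lit 0) (XT.nd (nat_lit 156) (nat_lit 76) (nat_lit 0) (XT.nd (nat_lit 78) (nat_lit 0) (nat_lit 0) (XT.lf (nat_lit 0) (nat_lit 30897414657) (nat_lit 152) (nat_lit 13334148806) (nat_lit 0) (nat_lit 13559945236) (nat_lit 7) (nat_lit 5) (nat_lit 9) (nat_lit 4) (nat_lit 7) (nat_lit 4) (nat_lit 337) (nat_lit 253) (nat_lit 190)) (XT.lf (nat_lit 0) (nat_lit 36214394446) (nat_lit 152) (nat_lit 5392478648) (nat_lit 0) (nat_lit 18836893309) (nat_lit 7) (nat_lit 5) (nat_lit 9) (nat_lit 4) (nat_lit 7) (nat_lit 4) (nat_lit 338) (nat_lit 253) (nat_lit 189))) (XT.nd (nat_lit 78) (nat_lit 0) (nat_lit 0) (XT.lf (nat_lit 0) (nat_lit 3008622946) (nat_lit 76) (nat_lit 38817113914) (nat_lit 76) (nat_lit 21401487334) (nat_lit 6) (nat_lit 4) (nat_lit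 7) (nat_lit 5) (nat_lit 7) (nat_lit 4) (nat_lit 339) (nat_lit 253) (nat_lit 188)) (XT.lf (nat_lit 0) (nat_lit 11983595035) (nat_lit 76) (nat_lit 35807273756) (nat_lit 76) (nat_lit 18355337231) (nat_lit 6) (nat_lit 4) (nat_lit 7) (nat_lit 5) (nat_lit 7) (nat_lit 4) (nat_lit 340) (nat_lit 253) (nat_lit 187)))) (XT.nd (nat_lit 156) (nat_lit 0) (nat_lit 0) (XT.nd (nat_lit 78) (nat_lit 0) (nat_lit 0) (XT.lf (nat_lit 0) (nat_lit 21375506904) (nat_lit 76) (nat_lit 32661510571) (nat_lit 76) (nat_lit 15174993145) (nat_lit 6) (nat_lit 4) (nat_lit 7) (nat_lit 5) (nat_lit 7) (nat_lit 4) (nat_lit 341) (nat_lit 253) (nat_lit 186)) (XT.lf (nat_lit 0) (nat_lit 31206720247) (nat_lit 76) (nat_lit 29372334446) (nat_lit 76) (nat_lit 11852882829) (nat_lit 6) (nat_lit 4) (nat_lit 7) (nat_lit 5) (nat_lit 7) (nat_lit 4) (nat_lit 342) (nat_lit 253) (nat_lit 185))) (XT.nd (nat_lit 78) (nat_lit 0) (nat_lit 0)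 (XT.lf (nat_lit 0) (nat_lit 41500642716) (nat_lit 76) (nat_lit 25931914010) (nat_lit 76) (nat_lit 8381096496) (nat_lit 6) (nat_lit 4) (nat_lit 7) (nat_lit 5) (nat_lit 7) (nat_lit 4) (nat_lit 343) (nat_lit 253) (nat_lit 184)) (XT.nd (nat_lit 78) (nat_lit 0) (nat_lit 0) (XT.lf (nat_lit 0) (nat_lit 52281783648) (nat_lit 76) (nat_lit 22332057784) (nat_lit 76) (nat_lit 4751367988) (nat_lit 6) (nat_lit 4) (nat_lit 7) (nat_lit 5) (nat_lit 7) (nat_lit 4) (nat_lit 344) (nat_lit 253) (nat_lit 183)) (XT.lf (nat_lit 0) (nat_lit 63575812428) (nat_lit 76) (nat_lit 18564194683) (nat_lit 76) (nat_lit 955055094) (nat_lit 6) (nat_lit 4) (nat_lit 7) (nat_lit 5) (nat_lit 7) (nat_lit 4) (nat_lit 345) (nat_lit 253) (nat_lit 182)))))) (XT.nd (nat_lit 390) (nat_lit 0) (nat_lit 0) (XT.nd (nat_lit 156) (nat_lit 76) (nat_lit 0) (XT.nd (nat_lit 78) (nat_lit 0) (nat_lit 0) (XT.lf (nat_lit 0) (nat_lit 2920321990)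 (nat_lit 152) (nat_lit 11649574548) (nat_lit 76) (nat_lit 72439840543) (nat_lit 5) (nat_lit 5) (nat_lit 7) (nat_lit 5) (nat_lit 6) (nat_lit 4) (nat_lit 346) (nat_lit 253) (nat_lit 181)) (XT.lf (nat_lit 0) (nat_lit 6944287842) (nat_lit 152) (nat_lit 3426249351) (nat_lit 76) (nat_lit 80749488178) (nat_lit 5) (nat_lit 5) (nat_lit 7) (nat_lit 5) (nat_lit 6) (nat_lit 4) (nat_lit 347) (nat_lit 253) (nat_lit 180))) (XT.nd (nat_lit 78) (nat_lit 0) (nat_lit 0) (XT.lf (nat_lit 0) (nat_lit 5356662908) (nat_lit 76) (nat_lit 5883960671) (nat_lit 152) (nat_lit 84191653828) (nat_lit 4) (nat_lit 5) (nat_lit 5) (nat_lit 5) (nat_lit 6) (nat_lit 4) (nat_lit 348) (nat_lit 253) (nat_lit 179)) (XT.nd (nat_lit 78) (nat_lit 0) (nat_lit 0) (XT.lf (nat_lit 0) (nat_lit 14675017945) (nat_lit 76) (nat_lit 1122562099) (nat_lit 152) (nat_lit 84160279335) (nat_lit 4) (nat_lit 5) (nat_lit 5) (nat_lit 5) (nat_lit 6)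 (nat_lit 4) (nat_lit 349) (nat_lit 253) (nat_lit 178)) (XT.lf (nat_lit 0) (nat_lit 20631119284) (nat_lit 152) (nat_lit 80332968785) (nat_lit 0) (nat_lit 3743202806) (nat_lit 4) (nat_lit 5) (nat_lit 6) (nat_lit 4) (nat_lit 4) (nat_lit 4) (nat_lit 350) (nat_lit 253) (nat_lit 177))))) (XT.nd (nat_lit 156) (nat_lit 0) (nat_lit 0) (XT.nd (nat_lit 78) (nat_lit 0) (nat_lit 0) (XT.lf (nat_lit 0) (nat_lit 25713505362) (nat_lit 152) (nat_lit 75174966775) (nat_lit 0) (nat_lit 8805370147) (nat_lit 4) (nat_lit 5) (nat_lit 6) (nat_lit 4) (nat_lit 4) (nat_lit 4) (nat_lit 351) (nat_lit 253) (nat_lit 176)) (XT.lf (nat_lit 0) (nat_lit 31039312857) (nat_lit 152) (nat_lit 69779028107) (nat_lit 0) (nat_lit 14111921702) (nat_lit 4) (nat_lit 5) (nat_lit 6) (nat_lit 4) (nat_lit 4) (nat_lit 4) (nat_lit 352) (nat_lit 253) (nat_lit 175))) (XT.nd (nat_lit 78) (nat_lit 0) (nat_lit 0) (XT.lf (nat_lit 0) (nat_lit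 36621222262) (nat_lit 152) (nat_lit 64132305308) (nat_lit 0) (nat_lit 19675492117) (nat_lit 4) (nat_lit 5) (nat_lit 6) (nat_lit 4) (nat_lit 4) (nat_lit 4) (nat_lit 353) (nat_lit 253) (nat_lit 174)) (XT.nd (nat_lit 78) (nat_lit 0) (nat_lit 0) (XT.lf (nat_lit 0) (nat_lit 42472523837) (nat_lit 152) (nat_lit 58221353800) (nat_lit 0) (nat_lit 25509327988) (nat_lit 4) (nat_lit 5) (nat_lit 6) (nat_lit 4) (nat_lit 4) (nat_lit 4) (nat_lit 354) (nat_lit 253) (nat_lit 173)) (XT.lf (nat_lit 0) (nat_lit 48607149255) (nat_lit 152) (nat_lit 52032099888) (nat_lit 0) (nat_lit 31627319401) (nat_lit 4) (nat_lit 5) (nat_lit 6) (nat_lit 4) (nat_lit 4) (nat_lit 4) (nat_lit 355) (nat_lit 253) (nat_lit 172))))))) (XT.nd (nat_lit 780) (nat_lit 0) (nat_lit 0) (XT.nd (nat_lit 390) (nat_lit 76) (nat_lit 0) (XT.nd (nat_lit 156) (nat_lit 0) (nat_lit 0) (XT.nd (nat_lit 78) (nat_lit 0) (nat_lit 0) (XT.lf (nat_lit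 0) (nat_lit 55039704764) (nat_lit 152) (nat_lit 45549807254) (nat_lit 0) (nat_lit 38044033001) (nat_lit 4) (nat_lit 5) (nat_lit 6) (nat_lit 4) (nat_lit 4) (nat_lit 4) (nat_lit 356) (nat_lit 253) (nat_lit 171)) (XT.lf (nat_lit 0) (nat_lit 61785505974) (nat_lit 152) (nat_lit 38759041868) (nat_lit 0) (nat_lit 44774746679) (nat_lit 4) (nat_lit 5) (nat_lit 6) (nat_lit 4) (nat_lit 4) (nat_lit 4) (nat_lit 357) (nat_lit 253) (nat_lit 170))) (XT.nd (nat_lit 78) (nat_lit 0) (nat_lit 0) (XT.lf (nat_lit 0) (nat_lit 68860614317) (nat_lit 152) (nat_lit 31643635241) (nat_lit 0) (nat_lit 51835485943) (nat_lit 4) (nat_lit 5) (nat_lit 6) (nat_lit 4) (nat_lit 4) (nat_lit 4) (nat_lit 358) (nat_lit 253) (nat_lit 169)) (XT.nd (nat_lit 78) (nat_lit 0) (nat_lit 0) (XT.lf (nat_lit 0) (nat_lit 76281875287) (nat_lit 152) (nat_lit 24186645928) (nat_lit 0) (nat_lit 59243062077) (nat_lit 4) (nat_lit 5) (nat_lit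 6) (nat_lit 4) (nat_lit 4) (nat_lit 4) (nat_lit 359) (nat_lit 253) (nat_lit 168)) (XT.lf (nat_lit 0) (nat_lit 84066958555) (nat_lit 152) (nat_lit 16370319194) (nat_lit 0) (nat_lit 67015112166) (nat_lit 4) (nat_lit 5) (nat_lit 6) (nat_lit 4) (nat_lit 4) (nat_lit 4) (nat_lit 360) (nat_lit 253) (nat_lit 167))))) (XT.nd (nat_lit 156) (nat_lit 0) (nat_lit 0) (XT.nd (nat_lit 78) (nat_lit 76) (nat_lit 0) (XT.lf (nat_lit 0) (nat_lit 92234400032) (nat_lit 152) (nat_lit 8176044735) (nat_lit 0) (nat_lit 75170141094) (nat_lit 4) (nat_lit 5) (nat_lit 6) (nat_lit 4) (nat_lit 4) (nat_lit 4) (nat_lit 361) (nat_lit 253) (nat_lit 166)) (XT.lf (nat_lit 0) (nat_lit 429432134) (nat_lit 76) (nat_lit 100380918514) (nat_lit 76) (nat_lit 83304838099) (nat_lit 3) (nat_lit 4) (nat_lit 4) (nat_lit 5) (nat_lit 4) (nat_lit 4) (nat_lit 362) (nat_lit 253) (nat_lit 165))) (XT.nd (nat_lit 78) (nat_lit 0) (nat_lit 0)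 (XT.lf (nat_lit 0) (nat_lit 9736978511) (nat_lit 76) (nat_lit 100210142462) (nat_lit 76) (nat_lit 83122803498) (nat_lit 3) (nat_lit 4) (nat_lit 4) (nat_lit 5) (nat_lit 4) (nat_lit 4) (nat_lit 363) (nat_lit 253) (nat_lit 164)) (XT.nd (nat_lit 78) (nat_lit 0) (nat_lit 0) (XT.lf (nat_lit 0) (nat_lit 19498418257) (nat_lit 76) (nat_lit 100036175277) (nat_lit 76) (nat_lit 82938113885) (nat_lit 3) (nat_lit 4) (nat_lit 4) (nat_lit 5) (nat_lit 4) (nat_lit 4) (nat_lit 364) (nat_lit 253) (nat_lit 163)) (XT.lf (nat_lit 0) (nat_lit 29736992895) (nat_lit 76) (nat_lit 99858602750) (nat_lit 76) (nat_lit 82750329523) (nat_lit 3) (nat_lit 4) (nat_lit 4) (nat_lit 5) (nat_lit 4) (nat_lit 4) (nat_lit 365) (nat_lit 253) (nat_lit 162)))))) (XT.nd (nat_lit 390) (nat_lit 0) (nat_lit 0) (XT.nd (nat_lit 156) (nat_lit 0) (nat_lit 0) (XT.nd (nat_lit 78) (nat_lit 0) (nat_lit 0) (XT.lf (nat_lit 0) (nat_lit 40477079984)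 (nat_lit 76) (nat_lit 99677002091) (nat_lit 76) (nat_lit 82559003306) (nat_lit 3) (nat_lit 4) (nat_lit 4) (nat_lit 5) (nat_lit 4) (nat_lit 4) (nat_lit 366) (nat_lit 253) (nat_lit 161)) (XT.lf (nat_lit 0) (nat_lit 51744251160) (nat_lit 76) (nat_lit 99490940917) (nat_lit 76) (nat_lit 82363679695) (nat_lit 3) (nat_lit 4) (nat_lit 4) (nat_lit 5) (nat_lit 4) (nat_lit 4) (nat_lit 367) (nat_lit 253) (nat_lit 160))) (XT.nd (nat_lit 78) (nat_lit 0) (nat_lit 0) (XT.lf (nat_lit 0) (nat_lit 63565333021) (nat_lit 76) (nat_lit 99299976224) (nat_lit 76) (nat_lit 82163893635) (nat_lit 3) (nat_lit 4) (nat_lit 4) (nat_lit 5) (nat_lit 4) (nat_lit 4) (nat_lit 368) (nat_lit 253) (nat_lit 159)) (XT.nd (nat_lit 78) (nat_lit 0) (nat_lit 0) (XT.lf (nat_lit 0) (nat_lit 75968471000) (nat_lit 76) (nat_lit 99103653336) (nat_lit 76) (nat_lit 81959169444) (nat_lit 3) (nat_lit 4) (nat_lit 4) (nat_lit 5) (nat_lit 4)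 (nat_lit 4) (nat_lit 369) (nat_lit 253) (nat_lit 158)) (XT.lf (nat_lit 0) (nat_lit 88983196378) (nat_lit 76) (nat_lit 98901504816) (nat_lit 76) (nat_lit 81749019683) (nat_lit 3) (nat_lit 4) (nat_lit 4) (nat_lit 5) (nat_lit 4) (nat_lit 4) (nat_lit 370) (nat_lit 253) (nat_lit 157))))) (XT.nd (nat_lit 156) (nat_lit 0) (nat_lit 0) (XT.nd (nat_lit 78) (nat_lit 0) (nat_lit 0) (XT.lf (nat_lit 0) (nat_lit 102640496595) (nat_lit 76) (nat_lit 98693049359) (nat_lit 76) (nat_lit 81532943997) (nat_lit 3) (nat_lit 4) (nat_lit 4) (nat_lit 5) (nat_lit 4) (nat_lit 4) (nat_lit 371) (nat_lit 253) (nat_lit 156)) (XT.lf (nat_lit 0) (nat_lit 116972889035) (nat_lit 76) (nat_lit 98477790642) (nat_lit 76) (nat_lit 81310427919) (nat_lit 3) (nat_lit 4) (nat_lit 4) (nat_lit 5) (nat_lit 4) (nat_lit 4) (nat_lit 372) (nat_lit 253) (nat_lit 155))) (XT.nd (nat_lit 78) (nat_lit 0) (nat_lit 0) (XT.lf (nat_lit 0) (nat_lit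 132014498439) (nat_lit 76) (nat_lit 98255216144) (nat_lit 76) (nat_lit 81080941649) (nat_lit 3) (nat_lit 4) (nat_lit 4) (nat_lit 5) (nat_lit 4) (nat_lit 4) (nat_lit 373) (nat_lit 253) (nat_lit 154)) (XT.nd (nat_lit 78) (nat_lit 0) (nat_lit 0) (XT.lf (nat_lit 0) (nat_lit 147801138165) (nat_lit 76) (nat_lit 98024795927) (nat_lit 76) (nat_lit 80843938791) (nat_lit 3) (nat_lit 4) (nat_lit 4) (nat_lit 5) (nat_lit 4) (nat_lit 4) (nat_lit 374) (nat_lit 253) (nat_lit 153)) (XT.lf (nat_lit 0) (nat_lit 164370395450) (nat_lit 76) (nat_lit 97785981370) (nat_lit 76) (nat_lit 80598855052) (nat_lit 3) (nat_lit 4) (nat_lit 4) (nat_lit 5) (nat_lit 4) (nat_lit 4) (nat_lit 375) (nat_lit 253) (nat_lit 152))))))))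
noncomputable def xc87 : XT := (XT.nd (nat_lit 33150) (nat_lit 0) (nat_lit 1976) (XT.nd (nat_lit 780) (nat_lit 0) (nat_lit 0) (XT.nd (nat_lit 390) (nat_lit 0) (nat_lit 0) (XT.nd (nat_lit 156) (nat_lit 0) (nat_lit 0) (XT.nd (nat_lit 78) (nat_lit 0) (nat_lit 0) (XT.lf (nat_lit 0) (nat_lit 181761720906) (nat_lit 76) (nat_lit 97538203867) (nat_lit 76) (nat_lit 80345106901) (nat_lit 3) (nat_lit 4) (nat_lit 4) (nat_lit 5) (nat_lit 4) (nat_lit 4) (nat_lit 376) (nat_lit 253) (nat_lit 151)) (XT.lf (nat_lit 0) (nat_lit 200016522451) (nat_lit 76) (nat_lit 97280873472) (nat_lit 76) (nat_lit 80082090174) (nat_lit 3) (nat_lit 4) (nat_lit 4) (nat_lit 5) (nat_lit 4) (nat_lit 4) (nat_lit 377) (nat_lit 253) (nat_lit 150))) (XT.nd (nat_lit 78) (nat_lit 0) (nat_lit 0) (XT.lf (nat_lit 0) (nat_lit 219178263898) (nat_lit 76) (nat_lit 97013377494) (nat_lit 76) (nat_lit 79809178641) (nat_lit 3) (nat_lit 4)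 (nat_lit 4) (nat_lit 5) (nat_lit 4) (nat_lit 4) (nat_lit 378) (nat_lit 253) (nat_lit 149)) (XT.nd (nat_lit 78) (nat_lit 0) (nat_lit 0) (XT.lf (nat_lit 0) (nat_lit 239292568441) (nat_lit 76) (nat_lit 96735079037) (nat_lit 76) (nat_lit 79525722513) (nat_lit 3) (nat_lit 4) (nat_lit 4) (nat_lit 5) (nat_lit 4) (nat_lit 4) (nat_lit 379) (nat_lit 253) (nat_lit 148)) (XT.lf (nat_lit 0) (nat_lit 260407327282) (nat_lit 76) (nat_lit 96445315487) (nat_lit 76) (nat_lit 79231046895) (nat_lit 3) (nat_lit 4) (nat_lit 4) (nat_lit 5) (nat_lit 4) (nat_lit 4) (nat_lit 380) (nat_lit 253) (nat_lit 147))))) (XT.nd (nat_lit 156) (nat_lit 0) (nat_lit 0) (XT.nd (nat_lit 78) (nat_lit 0) (nat_lit 0) (XT.lf (nat_lit 0) (nat_lit 282572813656) (nat_lit 76) (nat_lit 96143396929) (nat_lit 76) (nat_lit 78924450177) (nat_lit 3) (nat_lit 4) (nat_lit 4) (nat_lit 5) (nat_lit 4) (nat_lit 4) (nat_lit 381) (nat_lit 253) (nat_lit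 146)) (XT.lf (nat_lit 0) (nat_lit 305841802530) (nat_lit 76) (nat_lit 95828604510) (nat_lit 76) (nat_lit 78605202368) (nat_lit 3) (nat_lit 4) (nat_lit 4) (nat_lit 5) (nat_lit 4) (nat_lit 4) (nat_lit 382) (nat_lit 253) (nat_lit 145))) (XT.nd (nat_lit 78) (nat_lit 0) (nat_lit 0) (XT.lf (nat_lit 0) (nat_lit 330269696258) (nat_lit 76) (nat_lit 95500188724) (nat_lit 76) (nat_lit 78272543354) (nat_lit 3) (nat_lit 4) (nat_lit 4) (nat_lit 5) (nat_lit 4) (nat_lit 4) (nat_lit 383) (nat_lit 253) (nat_lit 144)) (XT.nd (nat_lit 78) (nat_lit 0) (nat_lit 0) (XT.lf (nat_lit 0) (nat_lit 355914656493) (nat_lit 76) (nat_lit 95157367630) (nat_lit 76) (nat_lit 77925681089) (nat_lit 3) (nat_lit 4) (nat_lit 4) (nat_lit 5) (nat_lit 4) (nat_lit 4) (nat_lit 384) (nat_lit 253) (nat_lit 143)) (XT.lf (nat_lit 0) (nat_lit 382837742664) (nat_lit 76) (nat_lit 94799324986) (nat_lit 76) (nat_lit 77563789712) (nat_lit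 3) (nat_lit 4) (nat_lit 4) (nat_lit 5) (nat_lit 4) (nat_lit 4) (nat_lit 385) (nat_lit 253) (nat_lit 142)))))) (XT.nd (nat_lit 31980) (nat_lit 0) (nat_lit 5320) (XT.nd (nat_lit 31746) (nat_lit 0) (nat_lit 7144) (XT.nd (nat_lit 78) (nat_lit 0) (nat_lit 0) (XT.lf (nat_lit 0) (nat_lit 411103057357) (nat_lit 76) (nat_lit 94425208309) (nat_lit 76) (nat_lit 77186007575) (nat_lit 3) (nat_lit 4) (nat_lit 4) (nat_lit 5) (nat_lit 4) (nat_lit 4) (nat_lit 386) (nat_lit 253) (nat_lit 141)) (XT.lf (nat_lit 0) (nat_lit 440777898939) (nat_lit 76) (nat_lit 94034126846) (nat_lit 76) (nat_lit 76791435197) (nat_lit 3) (nat_lit 4) (nat_lit 4) (nat_lit 5) (nat_lit 4) (nat_lit 4) (nat_lit 387) (nat_lit 253) (nat_lit 140))) (XT.nd (nat_lit 78) (nat_lit 608) (nat_lit 0) (XT.lf (nat_lit 0) (nat_lit 935267703) (nat_lit 532) (nat_lit 1575694309) (nat_lit 0) (nat_lit 935267703) (nat_lit 105) (nat_lit 5) (nat_lit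 112) (nat_lit 4) (nat_lit 105) (nat_lit 4) (nat_lit 272) (nat_lit 254) (nat_lit 254)) (XT.nd (nat_lit 78) (nat_lit 76) (nat_lit 0) (XT.lf (nat_lit 0) (nat_lit 1168586465) (nat_lit 532) (nat_lit 3802426404) (nat_lit 532) (nat_lit 2002853165) (nat_lit 98) (nat_lit 4) (nat_lit 105) (nat_lit 5) (nat_lit 105) (nat_lit 4) (nat_lit 273) (nat_lit 254) (nat_lit 253)) (XT.lf (nat_lit 0) (nat_lit 1025072236) (nat_lit 608) (nat_lit 1412054429) (nat_lit 76) (nat_lit 4627093831) (nat_lit 97) (nat_lit 5) (nat_lit 105) (nat_lit 5) (nat_lit 98) (nat_lit 4) (nat_lit 274) (nat_lit 254) (nat_lit 252))))) (XT.nd (nat_lit 156) (nat_lit 532) (nat_lit 0) (XT.nd (nat_lit 78) (nat_lit 684) (nat_lit 0) (XT.lf (nat_lit 0) (nat_lit 3124918409) (nat_lit 608) (nat_lit 909538615) (nat_lit 684) (nat_lit 3128650667) (nat_lit 89) (nat_lit 5) (nat_lit 97) (nat_lit 5) (nat_lit 98) (nat_lit 4) (nat_lit 275) (nat_lit 254)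 (nat_lit 251)) (XT.lf (nat_lit 0) (nat_lit 529020658) (nat_lit 684) (nat_lit 6562380987) (nat_lit 684) (nat_lit 181183353) (nat_lit 80) (nat_lit 4) (nat_lit 89) (nat_lit 5) (nat_lit 89) (nat_lit 4) (nat_lit 276) (nat_lit 254) (nat_lit 250))) (XT.nd (nat_lit 78) (nat_lit 456) (nat_lit 0) (XT.lf (nat_lit 0) (nat_lit 2760405907) (nat_lit 760) (nat_lit 2132378245) (nat_lit 76) (nat_lit 2495931083) (nat_lit 79) (nat_lit 5) (nat_lit 89) (nat_lit 5) (nat_lit 80) (nat_lit 4) (nat_lit 277) (nat_lit 254) (nat_lit 249)) (XT.nd (nat_lit 78) (nat_lit 76) (nat_lit 0) (XT.lf (nat_lit 0) (nat_lit 2646799167) (nat_lit 380) (nat_lit 3099970969) (nat_lit 456) (nat_lit 1768976277) (nat_lit 74) (nat_lit 5) (nat_lit 79) (nat_lit 5) (nat_lit 80) (nat_lit 4) (nat_lit 278) (nat_lit 254) (nat_lit 248)) (XT.lf (nat_lit 0) (nat_lit 1094765346) (nat_lit 456) (nat_lit 75070390) (nat_lit 76) (nat_lit 6483676819)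 (nat_lit 73) (nat_lit 5) (nat_lit 79) (nat_lit 5) (nat_lit 74) (nat_lit 5) (nat_lit 279) (nat_lit 254) (nat_lit 247))))))) (XT.nd (nat_lit 780) (nat_lit 1140) (nat_lit 0) (XT.nd (nat_lit 390) (nat_lit 912) (nat_lit 0) (XT.nd (nat_lit 156) (nat_lit 608) (nat_lit 0) (XT.nd (nat_lit 78) (nat_lit 304) (nat_lit 0) (XT.lf (nat_lit 0) (nat_lit 4005128425) (nat_lit 456) (nat_lit 2866653127) (nat_lit 76) (nat_lit 927164612) (nat_lit 68) (nat_lit 5) (nat_lit 74) (nat_lit 5) (nat_lit 69) (nat_lit 4) (nat_lit 280) (nat_lit 254) (nat_lit 246)) (XT.lf (nat_lit 0) (nat_lit 2146500446) (nat_lit 304) (nat_lit 4842986728) (nat_lit 380) (nat_lit 966095946) (nat_lit 64) (nat_lit 5) (nat_lit 68) (nat_lit 5) (nat_lit 69) (nat_lit 4) (nat_lit 281) (nat_lit 254) (nat_lit 245))) (XT.nd (nat_lit 78) (nat_lit 532) (nat_lit 0) (XT.lf (nat_lit 0) (nat_lit 1864182096) (nat_lit 380) (nat_lit 786004437) (nat_lit 76)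 (nat_lit 5472360294) (nat_lit 63) (nat_lit 5) (nat_lit 68) (nat_lit 5) (nat_lit 64) (nat_lit 5) (nat_lit 282) (nat_lit 254) (nat_lit 244)) (XT.nd (nat_lit 78) (nat_lit 228) (nat_lit 0) (XT.lf (nat_lit 0) (nat_lit 4476477852) (nat_lit 304) (nat_lit 278762271) (nat_lit 380) (nat_lit 3544547181) (nat_lit 59) (nat_lit 5) (nat_lit 63) (nat_lit 5) (nat_lit 64) (nat_lit 5) (nat_lit 283) (nat_lit 254) (nat_lit 243)) (XT.lf (nat_lit 0) (nat_lit 1411977971) (nat_lit 228) (nat_lit 6333954739) (nat_lit 304) (nat_lit 742495519) (nat_lit 56) (nat_lit 5) (nat_lit 59) (nat_lit 5) (nat_lit 60) (nat_lit 4) (nat_lit 284) (nat_lit 254) (nat_lit 242))))) (XT.nd (nat_lit 156) (nat_lit 532) (nat_lit 0) (XT.nd (nat_lit 78) (nat_lit 304) (nat_lit 0) (XT.lf (nat_lit 0) (nat_lit 2085805315) (nat_lit 304) (nat_lit 1825820913) (nat_lit 76) (nat_lit 4775595671) (nat_lit 55) (nat_lit 5) (nat_lit 59) (nat_lit 5) (nat_lit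 56) (nat_lit 5) (nat_lit 285) (nat_lit 254) (nat_lit 241)) (XT.lf (nat_lit 0) (nat_lit 3654664253) (nat_lit 304) (nat_lit 1324552787) (nat_lit 380) (nat_lit 3918949858) (nat_lit 51) (nat_lit 5) (nat_lit 55) (nat_lit 5) (nat_lit 56) (nat_lit 5) (nat_lit 286) (nat_lit 254) (nat_lit 240))) (XT.nd (nat_lit 78) (nat_lit 304) (nat_lit 0) (XT.lf (nat_lit 0) (nat_lit 198256253) (nat_lit 228) (nat_lit 7769470449) (nat_lit 304) (nat_lit 1154651722) (nat_lit 48) (nat_lit 5) (nat_lit 51) (nat_lit 5) (nat_lit 52) (nat_lit 4) (nat_lit 287) (nat_lit 254) (nat_lit 239)) (XT.nd (nat_lit 78) (nat_lit 228) (nat_lit 0) (XT.lf (nat_lit 0) (nat_lit 1699037526) (nat_lit 304) (nat_lit 3451395991) (nat_lit 76) (nat_lit 4205864897) (nat_lit 47) (nat_lit 5) (nat_lit 51) (nat_lit 5) (nat_lit 48) (nat_lit 5) (nat_lit 288) (nat_lit 254) (nat_lit 238)) (XT.lf (nat_lit 0) (nat_lit 2211857269) (nat_lit 228) (nat_lit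 2379424046) (nat_lit 304) (nat_lit 5013160833) (nat_lit 44) (nat_lit 5) (nat_lit 47) (nat_lit 5) (nat_lit 48) (nat_lit 5) (nat_lit 289) (nat_lit 254) (nat_lit 237)))))) (XT.nd (nat_lit 390) (nat_lit 532) (nat_lit 0) (XT.nd (nat_lit 156) (nat_lit 380) (nat_lit 0) (XT.nd (nat_lit 78) (nat_lit 228) (nat_lit 0) (XT.lf (nat_lit 0) (nat_lit 7598089895) (nat_lit 304) (nat_lit 1730505264) (nat_lit 76) (nat_lit 538098259) (nat_lit 44) (nat_lit 5) (nat_lit 48) (nat_lit 5) (nat_lit 45) (nat_lit 4) (nat_lit 290) (nat_lit 254) (nat_lit 236)) (XT.lf (nat_lit 0) (nat_lit 604724435) (nat_lit 228) (nat_lit 5972786118) (nat_lit 76) (nat_lit 3563689176) (nat_lit 41) (nat_lit 5) (nat_lit 44) (nat_lit 5) (nat_lit 42) (nat_lit 5) (nat_lit 291) (nat_lit 254) (nat_lit 235))) (XT.nd (nat_lit 78) (nat_lit 380) (nat_lit 0) (XT.lf (nat_lit 0) (nat_lit 3482950401) (nat_lit 228) (nat_lit 175152900) (nat_lit 76)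 (nat_lit 6772765986) (nat_lit 41) (nat_lit 5) (nat_lit 44) (nat_lit 5) (nat_lit 42) (nat_lit 5) (nat_lit 292) (nat_lit 254) (nat_lit 234)) (XT.nd (nat_lit 78) (nat_lit 152) (nat_lit 0) (XT.lf (nat_lit 0) (nat_lit 5978104469) (nat_lit 228) (nat_lit 532398331) (nat_lit 304) (nat_lit 4224411646) (nat_lit 38) (nat_lit 5) (nat_lit 41) (nat_lit 5) (nat_lit 42) (nat_lit 5) (nat_lit 293) (nat_lit 254) (nat_lit 233)) (XT.lf (nat_lit 0) (nat_lit 1261061558) (nat_lit 152) (nat_lit 8407749487) (nat_lit 228) (nat_lit 1386537027) (nat_lit 36) (nat_lit 5) (nat_lit 38) (nat_lit 5) (nat_lit 39) (nat_lit 4) (nat_lit 294) (nat_lit 254) (nat_lit 232))))) (XT.nd (nat_lit 156) (nat_lit 228) (nat_lit 0) (XT.nd (nat_lit 78) (nat_lit 228) (nat_lit 0) (XT.lf (nat_lit 0) (nat_lit 1547219449) (nat_lit 228) (nat_lit 3806058044) (nat_lit 76) (nat_lit 6037173772) (nat_lit 35) (nat_lit 5) (nat_lit 38) (nat_lit 5)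 (nat_lit 36) (nat_lit 5) (nat_lit 295) (nat_lit 254) (nat_lit 231)) (XT.lf (nat_lit 0) (nat_lit 2413890646) (nat_lit 228) (nat_lit 2123315511) (nat_lit 304) (nat_lit 7206293999) (nat_lit 32) (nat_lit 5) (nat_lit 35) (nat_lit 5) (nat_lit 36) (nat_lit 5) (nat_lit 296) (nat_lit 254) (nat_lit 230))) (XT.nd (nat_lit 78) (nat_lit 228) (nat_lit 0) (XT.lf (nat_lit 0) (nat_lit 7681827435) (nat_lit 304) (nat_lit 3178578642) (nat_lit 76) (nat_lit 1253666270) (nat_lit 32) (nat_lit 5) (nat_lit 36) (nat_lit 5) (nat_lit 33) (nat_lit 4) (nat_lit 297) (nat_lit 254) (nat_lit 229)) (XT.nd (nat_lit 78) (nat_lit 76) (nat_lit 0) (XT.lf (nat_lit 0) (nat_lit 3230773025) (nat_lit 152) (nat_lit 7761796461) (nat_lit 228) (nat_lit 1510280720) (nat_lit 30) (nat_lit 5) (nat_lit 32) (nat_lit 5) (nat_lit 33) (nat_lit 4) (nat_lit 298) (nat_lit 254) (nat_lit 228)) (XT.lf (nat_lit 0) (nat_lit 1486768356) (nat_lit 228)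 (nat_lit 2981179421) (nat_lit 76) (nat_lit 8443071085) (nat_lit 29) (nat_lit 5) (nat_lit 32) (nat_lit 5) (nat_lit 30) (nat_lit 5) (nat_lit 299) (nat_lit 254) (nat_lit 227))))))))
noncomputable def xc88 : XT := (XT.nd (nat_lit 1482) (nat_lit 456) (nat_lit 0) (XT.nd (nat_lit 702) (nat_lit 608) (nat_lit 0) (XT.nd (nat_lit 312) (nat_lit 228) (nat_lit 0) (XT.nd (nat_lit 156) (nat_lit 228) (nat_lit 0) (XT.nd (nat_lit 78) (nat_lit 0) (nat_lit 0) (XT.lf (nat_lit 0) (nat_lit 3601886886) (nat_lit 152) (nat_lit 965008144) (nat_lit 228) (nat_lit 8772368954) (nat_lit 27) (nat_lit 5) (nat_lit 29) (nat_lit 5) (nat_lit 30) (nat_lit 5) (nat_lit 300) (nat_lit 254) (nat_lit 226)) (XT.lf (nat_lit 0) (nat_lit 7823520764) (nat_lit 228) (nat_lit 3326051238) (nat_lit 76) (nat_lit 2638324716) (nat_lit 27) (nat_lit 5) (nat_lit 30) (nat_lit 5) (nat_lit 28) (nat_lit 4) (nat_lit 301) (nat_lit 254) (nat_lit 225)))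 (XT.nd (nat_lit 78) (nat_lit 76) (nat_lit 0) (XT.lf (nat_lit 0) (nat_lit 3389876259) (nat_lit 152) (nat_lit 7854054974) (nat_lit 228) (nat_lit 3015077415) (nat_lit 25) (nat_lit 5) (nat_lit 27) (nat_lit 5) (nat_lit 28) (nat_lit 4) (nat_lit 302) (nat_lit 254) (nat_lit 224)) (XT.lf (nat_lit 0) (nat_lit 68917224) (nat_lit 228) (nat_lit 4305190297) (nat_lit 76) (nat_lit 10380098982) (nat_lit 24) (nat_lit 5) (nat_lit 27) (nat_lit 5) (nat_lit 25) (nat_lit 5) (nat_lit 303) (nat_lit 254) (nat_lit 223)))) (XT.nd (nat_lit 156) (nat_lit 76) (nat_lit 0) (XT.nd (nat_lit 78) (nat_lit 0) (nat_lit 0) (XT.lf (nat_lit 0) (nat_lit 2513979792) (nat_lit 152) (nat_lit 666859451) (nat_lit 228) (nat_lit 12092183197) (nat_lit 22) (nat_lit 5) (nat_lit 24) (nat_lit 5) (nat_lit 25) (nat_lit 5) (nat_lit 304) (nat_lit 254) (nat_lit 222)) (XT.lf (nat_lit 0) (nat_lit 6509471098) (nat_lit 228) (nat_lit 6147041288) (nat_lit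 76) (nat_lit 3158289448) (nat_lit 22) (nat_lit 5) (nat_lit 25) (nat_lit 5) (nat_lit 23) (nat_lit 4) (nat_lit 305) (nat_lit 254) (nat_lit 221))) (XT.nd (nat_lit 78) (nat_lit 0) (nat_lit 0) (XT.lf (nat_lit 0) (nat_lit 707339446) (nat_lit 76) (nat_lit 9258832661) (nat_lit 152) (nat_lit 6419490829) (nat_lit 21) (nat_lit 5) (nat_lit 22) (nat_lit 5) (nat_lit 23) (nat_lit 4) (nat_lit 306) (nat_lit 254) (nat_lit 220)) (XT.nd (nat_lit 78) (nat_lit 0) (nat_lit 0) (XT.lf (nat_lit 0) (nat_lit 8019534498) (nat_lit 76) (nat_lit 5621276929) (nat_lit 152) (nat_lit 3342071564) (nat_lit 21) (nat_lit 5) (nat_lit 22) (nat_lit 5) (nat_lit 23) (nat_lit 4) (nat_lit 307) (nat_lit 254) (nat_lit 219)) (XT.lf (nat_lit 0) (nat_lit 15603704911) (nat_lit 76) (nat_lit 1839287464) (nat_lit 152) (nat_lit 169848872) (nat_lit 21) (nat_lit 5) (nat_lit 22) (nat_lit 5) (nat_lit 23) (nat_lit 4) (nat_lit 308) (nat_lit 254)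 (nat_lit 218)))))) (XT.nd (nat_lit 390) (nat_lit 304) (nat_lit 0) (XT.nd (nat_lit 156) (nat_lit 76) (nat_lit 0) (XT.nd (nat_lit 78) (nat_lit 0) (nat_lit 0) (XT.lf (nat_lit 0) (nat_lit 3123346205) (nat_lit 228) (nat_lit 12982583782) (nat_lit 76) (nat_lit 2162784598) (nat_lit 18) (nat_lit 5) (nat_lit 21) (nat_lit 5) (nat_lit 19) (nat_lit 4) (nat_lit 309) (nat_lit 254) (nat_lit 217)) (XT.lf (nat_lit 0) (nat_lit 6586402200) (nat_lit 228) (nat_lit 6064984497) (nat_lit 76) (nat_lit 6305368677) (nat_lit 18) (nat_lit 5) (nat_lit 21) (nat_lit 5) (nat_lit 19) (nat_lit 4) (nat_lit 310) (nat_lit 254) (nat_lit 216))) (XT.nd (nat_lit 78) (nat_lit 0) (nat_lit 0) (XT.lf (nat_lit 0) (nat_lit 1147878106) (nat_lit 76) (nat_lit 9041391104) (nat_lit 152) (nat_lit 9491651761) (nat_lit 17) (nat_lit 5) (nat_lit 18) (nat_lit 5) (nat_lit 19) (nat_lit 4) (nat_lit 311) (nat_lit 254) (nat_lit 215)) (XT.nd (nat_lit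 78) (nat_lit 0) (nat_lit 0) (XT.lf (nat_lit 0) (nat_lit 8845999458) (nat_lit 76) (nat_lit 5178829420) (nat_lit 152) (nat_lit 6413891532) (nat_lit 17) (nat_lit 5) (nat_lit 18) (nat_lit 5) (nat_lit 19) (nat_lit 4) (nat_lit 312) (nat_lit 254) (nat_lit 214)) (XT.lf (nat_lit 0) (nat_lit 16847172642) (nat_lit 76) (nat_lit 1157218518) (nat_lit 152) (nat_lit 3232457934) (nat_lit 17) (nat_lit 5) (nat_lit 18) (nat_lit 5) (nat_lit 19) (nat_lit 4) (nat_lit 313) (nat_lit 254) (nat_lit 213))))) (XT.nd (nat_lit 156) (nat_lit 76) (nat_lit 0) (XT.nd (nat_lit 78) (nat_lit 0) (nat_lit 0) (XT.lf (nat_lit 0) (nat_lit 156359092) (nat_lit 228) (nat_lit 18928307571) (nat_lit 76) (nat_lit 2987590513) (nat_lit 14) (nat_lit 5) (nat_lit 17) (nat_lit 5) (nat_lit 15) (nat_lit 4) (nat_lit 314) (nat_lit 254) (nat_lit 212)) (XT.lf (nat_lit 0) (nat_lit 3654691600) (nat_lit 228) (nat_lit 11892287526) (nat_lit 76) (nat_lit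 7397415286) (nat_lit 14) (nat_lit 5) (nat_lit 17) (nat_lit 5) (nat_lit 15) (nat_lit 4) (nat_lit 315) (nat_lit 254) (nat_lit 211))) (XT.nd (nat_lit 78) (nat_lit 76) (nat_lit 0) (XT.lf (nat_lit 0) (nat_lit 7284298460) (nat_lit 228) (nat_lit 4580699747) (nat_lit 76) (nat_lit 11997363968) (nat_lit 14) (nat_lit 5) (nat_lit 17) (nat_lit 5) (nat_lit 15) (nat_lit 4) (nat_lit 316) (nat_lit 254) (nat_lit 210)) (XT.nd (nat_lit 78) (nat_lit 0) (nat_lit 0) (XT.lf (nat_lit 0) (nat_lit 3123846918) (nat_lit 76) (nat_lit 7978746678) (nat_lit 152) (nat_lit 13723313902) (nat_lit 13) (nat_lit 5) (nat_lit 14) (nat_lit 5) (nat_lit 15) (nat_lit 4) (nat_lit 317) (nat_lit 254) (nat_lit 209)) (XT.lf (nat_lit 0) (nat_lit 11301220376) (nat_lit 76) (nat_lit 3847459397) (nat_lit 152) (nat_lit 10687144187) (nat_lit 13) (nat_lit 5) (nat_lit 14) (nat_lit 5) (nat_lit 15) (nat_lit 4) (nat_lit 318) (nat_lit 254) (nat_lit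 208))))))) (XT.nd (nat_lit 780) (nat_lit 152) (nat_lit 0) (XT.nd (nat_lit 390) (nat_lit 152) (nat_lit 0) (XT.nd (nat_lit 156) (nat_lit 76) (nat_lit 0) (XT.nd (nat_lit 78) (nat_lit 76) (nat_lit 0) (XT.lf (nat_lit 0) (nat_lit 19365507706) (nat_lit 152) (nat_lit 7085977728) (nat_lit 0) (nat_lit 446364829) (nat_lit 13) (nat_lit 5) (nat_lit 15) (nat_lit 4) (nat_lit 13) (nat_lit 4) (nat_lit 319) (nat_lit 254) (nat_lit 207)) (XT.lf (nat_lit 0) (nat_lit 625800022) (nat_lit 76) (nat_lit 23202869230) (nat_lit 76) (nat_lit 4182568202) (nat_lit 12) (nat_lit 4) (nat_lit 13) (nat_lit 5) (nat_lit 13) (nat_lit 4) (nat_lit 320) (nat_lit 254) (nat_lit 206))) (XT.nd (nat_lit 78) (nat_lit 76) (nat_lit 0) (XT.lf (nat_lit 0) (nat_lit 8904008325) (nat_lit 76) (nat_lit 19694394823) (nat_lit 76) (nat_lit 577752699) (nat_lit 12) (nat_lit 4) (nat_lit 13) (nat_lit 5) (nat_lit 13) (nat_lit 4) (nat_lit 321) (nat_lit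 254) (nat_lit 205)) (XT.nd (nat_lit 78) (nat_lit 0) (nat_lit 0) (XT.lf (nat_lit 0) (nat_lit 3069200746) (nat_lit 152) (nat_lit 12916534018) (nat_lit 76) (nat_lit 14412883627) (nat_lit 11) (nat_lit 5) (nat_lit 13) (nat_lit 5) (nat_lit 12) (nat_lit 4) (nat_lit 322) (nat_lit 254) (nat_lit 204)) (XT.lf (nat_lit 0) (nat_lit 6845324548) (nat_lit 152) (nat_lit 5262864436) (nat_lit 76) (nat_lit 19575257683) (nat_lit 11) (nat_lit 5) (nat_lit 13) (nat_lit 5) (nat_lit 12) (nat_lit 4) (nat_lit 323) (nat_lit 254) (nat_lit 203))))) (XT.nd (nat_lit 156) (nat_lit 76) (nat_lit 0) (XT.nd (nat_lit 78) (nat_lit 0) (nat_lit 0) (XT.lf (nat_lit 0) (nat_lit 2805911267) (nat_lit 76) (nat_lit 8015998044) (nat_lit 152) (nat_lit 22210051092) (nat_lit 10) (nat_lit 5) (nat_lit 11) (nat_lit 5) (nat_lit 12) (nat_lit 4) (nat_lit 324) (nat_lit 254) (nat_lit 202)) (XT.lf (nat_lit 0) (nat_lit 11404382035) (nat_lit 76)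 (nat_lit 3650566703) (nat_lit 152) (nat_lit 19390095323) (nat_lit 10) (nat_lit 5) (nat_lit 11) (nat_lit 5) (nat_lit 12) (nat_lit 4) (nat_lit 325) (nat_lit 254) (nat_lit 201))) (XT.nd (nat_lit 78) (nat_lit 76) (nat_lit 0) (XT.lf (nat_lit 0) (nat_lit 19483834396) (nat_lit 152) (nat_lit 15565497835) (nat_lit 0) (nat_lit 880264253) (nat_lit 10) (nat_lit 5) (nat_lit 12) (nat_lit 4) (nat_lit 10) (nat_lit 4) (nat_lit 326) (nat_lit 254) (nat_lit 200)) (XT.nd (nat_lit 78) (nat_lit 76) (nat_lit 0) (XT.lf (nat_lit 0) (nat_lit 24165081488) (nat_lit 152) (nat_lit 7828728791) (nat_lit 0) (nat_lit 5493043527) (nat_lit 10) (nat_lit 5) (nat_lit 12) (nat_lit 4) (nat_lit 10) (nat_lit 4) (nat_lit 327) (nat_lit 254) (nat_lit 199)) (XT.lf (nat_lit 0) (nat_lit 253164403) (nat_lit 76) (nat_lit 28803628467) (nat_lit 76) (nat_lit 10066383060) (nat_lit 9) (nat_lit 4) (nat_lit 10) (nat_lit 5) (nat_lit 10) (nat_lit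 4) (nat_lit 328) (nat_lit 254) (nat_lit 198)))))) (XT.nd (nat_lit 390) (nat_lit 76) (nat_lit 0) (XT.nd (nat_lit 156) (nat_lit 76) (nat_lit 0) (XT.nd (nat_lit 78) (nat_lit 0) (nat_lit 0) (XT.lf (nat_lit 0) (nat_lit 8961934402) (nat_lit 76) (nat_lit 25336734757) (nat_lit 76) (nat_lit 6537387021) (nat_lit 9) (nat_lit 4) (nat_lit 10) (nat_lit 5) (nat_lit 10) (nat_lit 4) (nat_lit 329) (nat_lit 254) (nat_lit 197)) (XT.lf (nat_lit 0) (nat_lit 18059463241) (nat_lit 76) (nat_lit 21717457951) (nat_lit 76) (nat_lit 2858965139) (nat_lit 9) (nat_lit 4) (nat_lit 10) (nat_lit 5) (nat_lit 10) (nat_lit 4) (nat_lit 330) (nat_lit 254) (nat_lit 196))) (XT.nd (nat_lit 78) (nat_lit 0) (nat_lit 0) (XT.lf (nat_lit 0) (nat_lit 946350124) (nat_lit 152) (nat_lit 16974803701) (nat_lit 76) (nat_lit 26605034684) (nat_lit 8) (nat_lit 5) (nat_lit 10) (nat_lit 5) (nat_lit 9) (nat_lit 4) (nat_lit 331) (nat_lit 254)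 (nat_lit 195)) (XT.nd (nat_lit 78) (nat_lit 0) (nat_lit 0) (XT.lf (nat_lit 0) (nat_lit 4822124168) (nat_lit 152) (nat_lit 9083113236) (nat_lit 76) (nat_lit 32604628590) (nat_lit 8) (nat_lit 5) (nat_lit 10) (nat_lit 5) (nat_lit 9) (nat_lit 4) (nat_lit 332) (nat_lit 254) (nat_lit 194)) (XT.lf (nat_lit 0) (nat_lit 8869089767) (nat_lit 152) (nat_lit 837925499) (nat_lit 76) (nat_lit 38886858390) (nat_lit 8) (nat_lit 5) (nat_lit 10) (nat_lit 5) (nat_lit 9) (nat_lit 4) (nat_lit 333) (nat_lit 254) (nat_lit 193))))) (XT.nd (nat_lit 156) (nat_lit 0) (nat_lit 0) (XT.nd (nat_lit 78) (nat_lit 0) (nat_lit 0) (XT.lf (nat_lit 0) (nat_lit 8037645770) (nat_lit 76) (nat_lit 5184726957) (nat_lit 152) (nat_lit 37554526178) (nat_lit 7) (nat_lit 5) (nat_lit 8) (nat_lit 5) (nat_lit 9) (nat_lit 4) (nat_lit 334) (nat_lit 254) (nat_lit 192)) (XT.lf (nat_lit 0) (nat_lit 17347586911) (nat_lit 76) (nat_lit 438826234)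 (nat_lit 152) (nat_lit 35283022521) (nat_lit 7) (nat_lit 5) (nat_lit 8) (nat_lit 5) (nat_lit 9) (nat_lit 4) (nat_lit 335) (nat_lit 254) (nat_lit 191))) (XT.nd (nat_lit 78) (nat_lit 0) (nat_lit 0) (XT.lf (nat_lit 0) (nat_lit 22629254438) (nat_lit 152) (nat_lit 28461950842) (nat_lit 0) (nat_lit 4382878244) (nat_lit 7) (nat_lit 5) (nat_lit 9) (nat_lit 4) (nat_lit 7) (nat_lit 4) (nat_lit 336) (nat_lit 254) (nat_lit 190)) (XT.nd (nat_lit 78) (nat_lit 0) (nat_lit 0) (XT.lf (nat_lit 0) (nat_lit 27702049298) (nat_lit 152) (nat_lit 20881896041) (nat_lit 0) (nat_lit 9415641390) (nat_lit 7) (nat_lit 5) (nat_lit 9) (nat_lit 4) (nat_lit 7) (nat_lit 4) (nat_lit 337) (nat_lit 254) (nat_lit 189)) (XT.lf (nat_lit 0) (nat_lit 33010024502) (nat_lit 152) (nat_lit 12956785295) (nat_lit 0) (nat_lit 14685491150) (nat_lit 7) (nat_lit 5) (nat_lit 9) (nat_lit 4) (nat_lit 7) (nat_lit 4) (nat_lit 338) (nat_lit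 254) (nat_lit 188))))))))
noncomputable def xc89 : XT := (XT.nd (nat_lit 1482) (nat_lit 76) (nat_lit 0) (XT.nd (nat_lit 702) (nat_lit 76) (nat_lit 0) (XT.nd (nat_lit 312) (nat_lit 76) (nat_lit 0) (XT.nd (nat_lit 156) (nat_lit 0) (nat_lit 0) (XT.nd (nat_lit 78) (nat_lit 76) (nat_lit 0) (XT.lf (nat_lit 0) (nat_lit 38565818084) (nat_lit 152) (nat_lit 4667749293) (nat_lit 0) (nat_lit 20204974786) (nat_lit 7) (nat_lit 5) (nat_lit 9) (nat_lit 4) (nat_lit 7) (nat_lit 4) (nat_lit 339) (nat_lit 254) (nat_lit 187)) (XT.lf (nat_lit 0) (nat_lit 4137369424) (nat_lit 76) (nat_lit 40309884633) (nat_lit 76) (nat_lit 21914460434) (nat_lit 6) (nat_lit 4) (nat_lit 7) (nat_lit 5) (nat_lit 7) (nat_lit 4) (nat_lit 340) (nat_lit 254) (nat_lit 186))) (XT.nd (nat_lit 78) (nat_lit 0) (nat_lit 0) (XT.lf (nat_lit 0) (nat_lit 13514503674) (nat_lit 76) (nat_lit 37170889847) (nat_lit 76) (nat_lit 18742531458) (nat_lit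 6) (nat_lit 4) (nat_lit 7) (nat_lit 5) (nat_lit 7) (nat_lit 4) (nat_lit 341) (nat_lit 254) (nat_lit 185)) (XT.lf (nat_lit 0) (nat_lit 23331643094) (nat_lit 76) (nat_lit 33888159817) (nat_lit 76) (nat_lit 15428435531) (nat_lit 6) (nat_lit 4) (nat_lit 7) (nat_lit 5) (nat_lit 7) (nat_lit 4) (nat_lit 342) (nat_lit 254) (nat_lit 184)))) (XT.nd (nat_lit 156) (nat_lit 76) (nat_lit 0) (XT.nd (nat_lit 78) (nat_lit 0) (nat_lit 0) (XT.lf (nat_lit 0) (nat_lit 33612161826) (nat_lit 76) (nat_lit 30453878519) (nat_lit 76) (nat_lit 11964281950) (nat_lit 6) (nat_lit 4) (nat_lit 7) (nat_lit 5) (nat_lit 7) (nat_lit 4) (nat_lit 343) (nat_lit 254) (nat_lit 183)) (XT.lf (nat_lit 0) (nat_lit 44380537295) (nat_lit 76) (nat_lit 26859869091) (nat_lit 76) (nat_lit 8341822730) (nat_lit 6) (nat_lit 4) (nat_lit 7) (nat_lit 5) (nat_lit 7) (nat_lit 4) (nat_lit 344) (nat_lit 254) (nat_lit 182))) (XT.nd (nat_lit 78)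 (nat_lit 76) (nat_lit 0) (XT.lf (nat_lit 0) (nat_lit 55662408491) (nat_lit 76) (nat_lit 23097574369) (nat_lit 76) (nat_lit 4552432968) (nat_lit 6) (nat_lit 4) (nat_lit 7) (nat_lit 5) (nat_lit 7) (nat_lit 4) (nat_lit 345) (nat_lit 254) (nat_lit 181)) (XT.nd (nat_lit 78) (nat_lit 76) (nat_lit 0) (XT.lf (nat_lit 0) (nat_lit 67484637012) (nat_lit 76) (nat_lit 19158036509) (nat_lit 76) (nat_lit 587090307) (nat_lit 6) (nat_lit 4) (nat_lit 7) (nat_lit 5) (nat_lit 7) (nat_lit 4) (nat_lit 346) (nat_lit 254) (nat_lit 180)) (XT.lf (nat_lit 0) (nat_lit 3449587599) (nat_lit 152) (nat_lit 11523867623) (nat_lit 76) (nat_lit 76367362986) (nat_lit 5) (nat_lit 5) (nat_lit 7) (nat_lit 5) (nat_lit 6) (nat_lit 4) (nat_lit 347) (nat_lit 254) (nat_lit 179)))))) (XT.nd (nat_lit 390) (nat_lit 0) (nat_lit 0) (XT.nd (nat_lit 156) (nat_lit 0) (nat_lit 0) (XT.nd (nat_lit 78) (nat_lit 76) (nat_lit 0) (XT.lf (nat_lit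 0) (nat_lit 7656501767) (nat_lit 152) (nat_lit 2923099293) (nat_lit 76) (nat_lit 85077943935) (nat_lit 5) (nat_lit 5) (nat_lit 7) (nat_lit 5) (nat_lit 6) (nat_lit 4) (nat_lit 348) (nat_lit 254) (nat_lit 178)) (XT.lf (nat_lit 0) (nat_lit 6288080151) (nat_lit 76) (nat_lit 5872553617) (nat_lit 152) (nat_lit 88025137922) (nat_lit 4) (nat_lit 5) (nat_lit 5) (nat_lit 5) (nat_lit 6) (nat_lit 4) (nat_lit 349) (nat_lit 254) (nat_lit 177))) (XT.nd (nat_lit 78) (nat_lit 0) (nat_lit 0) (XT.lf (nat_lit 0) (nat_lit 16040753697) (nat_lit 76) (nat_lit 887637739) (nat_lit 152) (nat_lit 88010104161) (nat_lit 4) (nat_lit 5) (nat_lit 5) (nat_lit 5) (nat_lit 6) (nat_lit 4) (nat_lit 350) (nat_lit 254) (nat_lit 176)) (XT.nd (nat_lit 78) (nat_lit 0) (nat_lit 0) (XT.lf (nat_lit 0) (nat_lit 21991700520) (nat_lit 152) (nat_lit 83735619642) (nat_lit 0) (nat_lit 4198683868) (nat_lit 4) (nat_lit 5) (nat_lit 6) (nat_lit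 4) (nat_lit 4) (nat_lit 4) (nat_lit 351) (nat_lit 254) (nat_lit 175)) (XT.lf (nat_lit 0) (nat_lit 27312538032) (nat_lit 152) (nat_lit 78348955512) (nat_lit 0) (nat_lit 9501182390) (nat_lit 4) (nat_lit 5) (nat_lit 6) (nat_lit 4) (nat_lit 4) (nat_lit 4) (nat_lit 352) (nat_lit 254) (nat_lit 174))))) (XT.nd (nat_lit 156) (nat_lit 0) (nat_lit 0) (XT.nd (nat_lit 78) (nat_lit 0) (nat_lit 0) (XT.lf (nat_lit 0) (nat_lit 32889714120) (nat_lit 152) (nat_lit 72711065606) (nat_lit 0) (nat_lit 15060892774) (nat_lit 4) (nat_lit 5) (nat_lit 6) (nat_lit 4) (nat_lit 4) (nat_lit 4) (nat_lit 353) (nat_lit 254) (nat_lit 173)) (XT.lf (nat_lit 0) (nat_lit 38736507775) (nat_lit 152) (nat_lit 66808526377) (nat_lit 0) (nat_lit 20891052424) (nat_lit 4) (nat_lit 5) (nat_lit 6) (nat_lit 4) (nat_lit 4) (nat_lit 4) (nat_lit 354) (nat_lit 254) (nat_lit 172))) (XT.nd (nat_lit 78) (nat_lit 0) (nat_lit 0) (XT.lf (nat_lit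 0) (nat_lit 44866839935) (nat_lit 152) (nat_lit 60627284160) (nat_lit 0) (nat_lit 27005542674) (nat_lit 4) (nat_lit 5) (nat_lit 6) (nat_lit 4) (nat_lit 4) (nat_lit 4) (nat_lit 355) (nat_lit 254) (nat_lit 171)) (XT.nd (nat_lit 78) (nat_lit 0) (nat_lit 0) (XT.lf (nat_lit 0) (nat_lit 51295306627) (nat_lit 152) (nat_lit 54152621711) (nat_lit 0) (nat_lit 33418921834) (nat_lit 4) (nat_lit 5) (nat_lit 6) (nat_lit 4) (nat_lit 4) (nat_lit 4) (nat_lit 356) (nat_lit 254) (nat_lit 170)) (XT.lf (nat_lit 0) (nat_lit 58037213726) (nat_lit 152) (nat_lit 47369123168) (nat_lit 0) (nat_lit 40146459855) (nat_lit 4) (nat_lit 5) (nat_lit 6) (nat_lit 4) (nat_lit 4) (nat_lit 4) (nat_lit 357) (nat_lit 254) (nat_lit 169))))))) (XT.nd (nat_lit 780) (nat_lit 0) (nat_lit 0) (XT.nd (nat_lit 390) (nat_lit 76) (nat_lit 0) (XT.nd (nat_lit 156) (nat_lit 0) (nat_lit 0) (XT.nd (nat_lit 78) (nat_lit 0) (nat_lit 0) (XT.lf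 (nat_lit 0) (nat_lit 65108613391) (nat_lit 152) (nat_lit 40260637344) (nat_lit 0) (nat_lit 47204174683) (nat_lit 4) (nat_lit 5) (nat_lit 6) (nat_lit 4) (nat_lit 4) (nat_lit 4) (nat_lit 358) (nat_lit 254) (nat_lit 168)) (XT.lf (nat_lit 0) (nat_lit 72526342287) (nat_lit 152) (nat_lit 32810239272) (nat_lit 0) (nat_lit 54608870402) (nat_lit 4) (nat_lit 5) (nat_lit 6) (nat_lit 4) (nat_lit 4) (nat_lit 4) (nat_lit 359) (nat_lit 254) (nat_lit 167))) (XT.nd (nat_lit 78) (nat_lit 0) (nat_lit 0) (XT.lf (nat_lit 0) (nat_lit 80308061675) (nat_lit 152) (nat_lit 25000189909) (nat_lit 0) (nat_lit 62378177239) (nat_lit 4) (nat_lit 5) (nat_lit 6) (nat_lit 4) (nat_lit 4) (nat_lit 4) (nat_lit 360) (nat_lit 254) (nat_lit 166)) (XT.nd (nat_lit 78) (nat_lit 0) (nat_lit 0) (XT.lf (nat_lit 0) (nat_lit 88472299458) (nat_lit 152) (nat_lit 16811893900) (nat_lit 0) (nat_lit 70530593545) (nat_lit 4) (nat_lit 5)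 (nat_lit 6) (nat_lit 4) (nat_lit 4) (nat_lit 4) (nat_lit 361) (nat_lit 254) (nat_lit 165)) (XT.lf (nat_lit 0) (nat_lit 97038494296) (nat_lit 152) (nat_lit 8225855302) (nat_lit 0) (nat_lit 79085529834) (nat_lit 4) (nat_lit 5) (nat_lit 6) (nat_lit 4) (nat_lit 4) (nat_lit 4) (nat_lit 362) (nat_lit 254) (nat_lit 164))))) (XT.nd (nat_lit 156) (nat_lit 0) (nat_lit 0) (XT.nd (nat_lit 78) (nat_lit 0) (nat_lit 0) (XT.lf (nat_lit 0) (nat_lit 804105222) (nat_lit 76) (nat_lit 105235491006) (nat_lit 76) (nat_lit 87271804117) (nat_lit 3) (nat_lit 4) (nat_lit 4) (nat_lit 5) (nat_lit 4) (nat_lit 4) (nat_lit 363) (nat_lit 254) (nat_lit 163)) (XT.lf (nat_lit 0) (nat_lit 10560209799) (nat_lit 76) (nat_lit 105064008220) (nat_lit 76) (nat_lit 87090109495) (nat_lit 3) (nat_lit 4) (nat_lit 4) (nat_lit 5) (nat_lit 4) (nat_lit 4) (nat_lit 364) (nat_lit 254) (nat_lit 162))) (XT.nd (nat_lit 78) (nat_lit 0) (nat_lit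 0) (XT.lf (nat_lit 0) (nat_lit 20793703325) (nat_lit 76) (nat_lit 104888801788) (nat_lit 76) (nat_lit 86905177505) (nat_lit 3) (nat_lit 4) (nat_lit 4) (nat_lit 5) (nat_lit 4) (nat_lit 4) (nat_lit 365) (nat_lit 254) (nat_lit 161)) (XT.nd (nat_lit 78) (nat_lit 0) (nat_lit 0) (XT.lf (nat_lit 0) (nat_lit 31528951259) (nat_lit 76) (nat_lit 104709454552) (nat_lit 76) (nat_lit 86716567833) (nat_lit 3) (nat_lit 4) (nat_lit 4) (nat_lit 5) (nat_lit 4) (nat_lit 4) (nat_lit 366) (nat_lit 254) (nat_lit 160)) (XT.lf (nat_lit 0) (nat_lit 42791513716) (nat_lit 76) (nat_lit 104525539495) (nat_lit 76) (nat_lit 86523831408) (nat_lit 3) (nat_lit 4) (nat_lit 4) (nat_lit 5) (nat_lit 4) (nat_lit 4) (nat_lit 367) (nat_lit 254) (nat_lit 159)))))) (XT.nd (nat_lit 390) (nat_lit 0) (nat_lit 0) (XT.nd (nat_lit 156) (nat_lit 0) (nat_lit 0) (XT.nd (nat_lit 78) (nat_lit 0) (nat_lit 0) (XT.lf (nat_lit 0) (nat_lit 54608206321)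 (nat_lit 76) (nat_lit 104336618724) (nat_lit 76) (nat_lit 86326509334) (nat_lit 3) (nat_lit 4) (nat_lit 4) (nat_lit 5) (nat_lit 4) (nat_lit 4) (nat_lit 368) (nat_lit 254) (nat_lit 158)) (XT.lf (nat_lit 0) (nat_lit 67007164056) (nat_lit 76) (nat_lit 104142242427) (nat_lit 76) (nat_lit 86124131797) (nat_lit 3) (nat_lit 4) (nat_lit 4) (nat_lit 5) (nat_lit 4) (nat_lit 4) (nat_lit 369) (nat_lit 254) (nat_lit 157))) (XT.nd (nat_lit 78) (nat_lit 0) (nat_lit 0) (XT.lf (nat_lit 0) (nat_lit 80017908249) (nat_lit 76) (nat_lit 103941947804) (nat_lit 76) (nat_lit 85916216945) (nat_lit 3) (nat_lit 4) (nat_lit 4) (nat_lit 5) (nat_lit 4) (nat_lit 4) (nat_lit 370) (nat_lit 254) (nat_lit 156)) (XT.nd (nat_lit 78) (nat_lit 0) (nat_lit 0) (XT.lf (nat_lit 0) (nat_lit 93671416862) (nat_lit 76) (nat_lit 103735257963) (nat_lit 76) (nat_lit 85702269743) (nat_lit 3) (nat_lit 4) (nat_lit 4) (nat_lit 5) (nat_lit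 4) (nat_lit 4) (nat_lit 371) (nat_lit 254) (nat_lit 155)) (XT.lf (nat_lit 0) (nat_lit 108000198249) (nat_lit 76) (nat_lit 103521680785) (nat_lit 76) (nat_lit 85481780793) (nat_lit 3) (nat_lit 4) (nat_lit 4) (nat_lit 5) (nat_lit 4) (nat_lit 4) (nat_lit 372) (nat_lit 254) (nat_lit 154))))) (XT.nd (nat_lit 156) (nat_lit 0) (nat_lit 0) (XT.nd (nat_lit 78) (nat_lit 0) (nat_lit 0) (XT.lf (nat_lit 0) (nat_lit 123038368557) (nat_lit 76) (nat_lit 103300707753) (nat_lit 76) (nat_lit 85254225120) (nat_lit 3) (nat_lit 4) (nat_lit 4) (nat_lit 5) (nat_lit 4) (nat_lit 4) (nat_lit 373) (nat_lit 254) (nat_lit 153)) (XT.lf (nat_lit 0) (nat_lit 138821732952) (nat_lit 76) (nat_lit 103071812741) (nat_lit 76) (nat_lit 85019060927) (nat_lit 3) (nat_lit 4) (nat_lit 4) (nat_lit 5) (nat_lit 4) (nat_lit 4) (nat_lit 374) (nat_lit 254) (nat_lit 152))) (XT.nd (nat_lit 78) (nat_lit 0) (nat_lit 0) (XT.lf (nat_lit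 0) (nat_lit 155387870875) (nat_lit 76) (nat_lit 102834450761) (nat_lit 76) (nat_lit 84775728298) (nat_lit 3) (nat_lit 4) (nat_lit 4) (nat_lit 5) (nat_lit 4) (nat_lit 4) (nat_lit 375) (nat_lit 254) (nat_lit 151)) (XT.nd (nat_lit 78) (nat_lit 0) (nat_lit 0) (XT.lf (nat_lit 0) (nat_lit 172776225509) (nat_lit 76) (nat_lit 102588056665) (nat_lit 76) (nat_lit 84523647869) (nat_lit 3) (nat_lit 4) (nat_lit 4) (nat_lit 5) (nat_lit 4) (nat_lit 4) (nat_lit 376) (nat_lit 254) (nat_lit 150)) (XT.lf (nat_lit 0) (nat_lit 191028197700) (nat_lit 76) (nat_lit 102332043800) (nat_lit 76) (nat_lit 84262219450) (nat_lit 3) (nat_lit 4) (nat_lit 4) (nat_lit 5) (nat_lit 4) (nat_lit 4) (nat_lit 377) (nat_lit 254) (nat_lit 149))))))))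
noncomputable def xc90 : XT := (XT.nd (nat_lit 32994) (nat_lit 0) (nat_lit 1976) (XT.nd (nat_lit 32214) (nat_lit 0) (nat_lit 5320) (XT.nd (nat_lit 312) (nat_lit 0) (nat_lit 0) (XT.nd (nat_lit 156) (nat_lit 0) (nat_lit 0) (XT.nd (nat_lit 78) (nat_lit 0) (nat_lit 0) (XT.lf (nat_lit 0) (nat_lit 210187244525) (nat_lit 76) (nat_lit 102065802612) (nat_lit 76) (nat_lit 83990820591) (nat_lit 3) (nat_lit 4) (nat_lit 4) (nat_lit 5) (nat_lit 4) (nat_lit 4) (nat_lit 378) (nat_lit 254) (nat_lit 148)) (XT.lf (nat_lit 0) (nat_lit 230298982761) (nat_lit 76) (nat_lit 101788699194) (nat_lit 76) (nat_lit 83708805105) (nat_lit 3) (nat_lit 4) (nat_lit 4) (nat_lit 5) (nat_lit 4) (nat_lit 4) (nat_lit 379) (nat_lit 254) (nat_lit 147))) (XT.nd (nat_lit 78) (nat_lit 0) (nat_lit 0) (XT.lf (nat_lit 0) (nat_lit 251411297500) (nat_lit 76) (nat_lit 101500073775) (nat_lit 76) (nat_lit 83415501527) (nat_lit 3) (nat_lit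 4) (nat_lit 4) (nat_lit 5) (nat_lit 4) (nat_lit 4) (nat_lit 380) (nat_lit 254) (nat_lit 146)) (XT.lf (nat_lit 0) (nat_lit 273574456157) (nat_lit 76) (nat_lit 101199239152) (nat_lit 76) (nat_lit 83110211514) (nat_lit 3) (nat_lit 4) (nat_lit 4) (nat_lit 5) (nat_lit 4) (nat_lit 4) (nat_lit 381) (nat_lit 254) (nat_lit 145)))) (XT.nd (nat_lit 156) (nat_lit 0) (nat_lit 0) (XT.nd (nat_lit 78) (nat_lit 0) (nat_lit 0) (XT.lf (nat_lit 0) (nat_lit 296841228158) (nat_lit 76) (nat_lit 100885479052) (nat_lit 76) (nat_lit 82792208185) (nat_lit 3) (nat_lit 4) (nat_lit 4) (nat_lit 5) (nat_lit 4) (nat_lit 4) (nat_lit 382) (nat_lit 254) (nat_lit 144)) (XT.lf (nat_lit 0) (nat_lit 321267010580) (nat_lit 76) (nat_lit 100558046428) (nat_lit 76) (nat_lit 82460734390) (nat_lit 3) (nat_lit 4) (nat_lit 4) (nat_lit 5) (nat_lit 4) (nat_lit 4) (nat_lit 383) (nat_lit 254) (nat_lit 143))) (XT.nd (nat_lit 78) (nat_lit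 0) (nat_lit 0) (XT.lf (nat_lit 0) (nat_lit 346909960046) (nat_lit 76) (nat_lit 100216161677) (nat_lit 76) (nat_lit 82115000906) (nat_lit 3) (nat_lit 4) (nat_lit 4) (nat_lit 5) (nat_lit 4) (nat_lit 4) (nat_lit 384) (nat_lit 254) (nat_lit 142)) (XT.nd (nat_lit 78) (nat_lit 0) (nat_lit 0) (XT.lf (nat_lit 0) (nat_lit 373831131199) (nat_lit 76) (nat_lit 99859010789) (nat_lit 76) (nat_lit 81754184558) (nat_lit 3) (nat_lit 4) (nat_lit 4) (nat_lit 5) (nat_lit 4) (nat_lit 4) (nat_lit 385) (nat_lit 254) (nat_lit 141)) (XT.lf (nat_lit 0) (nat_lit 402094622065) (nat_lit 76) (nat_lit 99485743404) (nat_lit 76) (nat_lit 81377426258) (nat_lit 3) (nat_lit 4) (nat_lit 4) (nat_lit 5) (nat_lit 4) (nat_lit 4) (nat_lit 386) (nat_lit 254) (nat_lit 140)))))) (XT.nd (nat_lit 390) (nat_lit 1824) (nat_lit 0) (XT.nd (nat_lit 156) (nat_lit 1064) (nat_lit 0) (XT.nd (nat_lit 78) (nat_lit 76) (nat_lit 0) (XT.lf (nat_lit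 0) (nat_lit 1064426750) (nat_lit 380) (nat_lit 1155874918) (nat_lit 380) (nat_lit 1155874918) (nat_lit 112) (nat_lit 4) (nat_lit 117) (nat_lit 5) (nat_lit 117) (nat_lit 4) (nat_lit 270) (nat_lit 255) (nat_lit 255)) (XT.lf (nat_lit 0) (nat_lit 699535866) (nat_lit 456) (nat_lit 549980968) (nat_lit 76) (nat_lit 5571377434) (nat_lit 111) (nat_lit 5) (nat_lit 117) (nat_lit 5) (nat_lit 112) (nat_lit 4) (nat_lit 271) (nat_lit 255) (nat_lit 254))) (XT.nd (nat_lit 78) (nat_lit 608) (nat_lit 0) (XT.lf (nat_lit 0) (nat_lit 3673555594) (nat_lit 456) (nat_lit 7974645) (nat_lit 532) (nat_lit 3215153682) (nat_lit 105) (nat_lit 5) (nat_lit 111) (nat_lit 5) (nat_lit 112) (nat_lit 4) (nat_lit 272) (nat_lit 255) (nat_lit 253)) (XT.nd (nat_lit 78) (nat_lit 76) (nat_lit 0) (XT.lf (nat_lit 0) (nat_lit 1024143225) (nat_lit 532) (nat_lit 5680549971) (nat_lit 532) (nat_lit 277545556) (nat_lit 98) (nat_lit 4)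 (nat_lit 105) (nat_lit 5) (nat_lit 105) (nat_lit 4) (nat_lit 273) (nat_lit 255) (nat_lit 252)) (XT.lf (nat_lit 0) (nat_lit 2621297462) (nat_lit 608) (nat_lit 1661610594) (nat_lit 76) (nat_lit 2792287646) (nat_lit 97) (nat_lit 5) (nat_lit 105) (nat_lit 5) (nat_lit 98) (nat_lit 4) (nat_lit 274) (nat_lit 255) (nat_lit 251))))) (XT.nd (nat_lit 156) (nat_lit 456) (nat_lit 0) (XT.nd (nat_lit 78) (nat_lit 760) (nat_lit 0) (XT.lf (nat_lit 0) (nat_lit 2798433330) (nat_lit 608) (nat_lit 2756807034) (nat_lit 684) (nat_lit 1622858668) (nat_lit 89) (nat_lit 5) (nat_lit 97) (nat_lit 5) (nat_lit 98) (nat_lit 4) (nat_lit 275) (nat_lit 255) (nat_lit 250)) (XT.lf (nat_lit 0) (nat_lit 96749003) (nat_lit 684) (nat_lit 1097716249) (nat_lit 760) (nat_lit 6096685779) (nat_lit 79) (nat_lit 5) (nat_lit 88) (nat_lit 5) (nat_lit 89) (nat_lit 5) (nat_lit 276) (nat_lit 255) (nat_lit 249))) (XT.nd (nat_lit 78) (nat_lit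 456) (nat_lit 0) (XT.lf (nat_lit 0) (nat_lit 4046024649) (nat_lit 760) (nat_lit 2639302320) (nat_lit 76) (nat_lit 726235214) (nat_lit 79) (nat_lit 5) (nat_lit 89) (nat_lit 5) (nat_lit 80) (nat_lit 4) (nat_lit 277) (nat_lit 255) (nat_lit 248)) (XT.nd (nat_lit 78) (nat_lit 76) (nat_lit 0) (XT.lf (nat_lit 0) (nat_lit 2053853277) (nat_lit 380) (nat_lit 4905380494) (nat_lit 456) (nat_lit 583218118) (nat_lit 74) (nat_lit 5) (nat_lit 79) (nat_lit 5) (nat_lit 80) (nat_lit 4) (nat_lit 278) (nat_lit 255) (nat_lit 247)) (XT.lf (nat_lit 0) (nat_lit 2179487565) (nat_lit 456) (nat_lit 781465213) (nat_lit 76) (nat_lit 4721675924) (nat_lit 73) (nat_lit 5) (nat_lit 79) (nat_lit 5) (nat_lit 74) (nat_lit 5) (nat_lit 279) (nat_lit 255) (nat_lit 246))))))) (XT.nd (nat_lit 780) (nat_lit 1140) (nat_lit 0) (XT.nd (nat_lit 390) (nat_lit 912) (nat_lit 0) (XT.nd (nat_lit 156) (nat_lit 608) (nat_lit 0) (XT.nd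 (nat_lit 78) (nat_lit 304) (nat_lit 0) (XT.lf (nat_lit 0) (nat_lit 4151113636) (nat_lit 380) (nat_lit 851260927) (nat_lit 456) (nat_lit 2830234986) (nat_lit 68) (nat_lit 5) (nat_lit 73) (nat_lit 5) (nat_lit 74) (nat_lit 5) (nat_lit 280) (nat_lit 255) (nat_lit 245)) (XT.lf (nat_lit 0) (nat_lit 1249312508) (nat_lit 304) (nat_lit 6651815905) (nat_lit 380) (nat_lit 92563514) (nat_lit 64) (nat_lit 5) (nat_lit 68) (nat_lit 5) (nat_lit 69) (nat_lit 4) (nat_lit 281) (nat_lit 255) (nat_lit 244))) (XT.nd (nat_lit 78) (nat_lit 532) (nat_lit 0) (XT.lf (nat_lit 0) (nat_lit 2652118413) (nat_lit 380) (nat_lit 1802835798) (nat_lit 76) (nat_lit 3708051208) (nat_lit 63) (nat_lit 5) (nat_lit 68) (nat_lit 5) (nat_lit 64) (nat_lit 5) (nat_lit 282) (nat_lit 255) (nat_lit 243)) (XT.nd (nat_lit 78) (nat_lit 228) (nat_lit 0) (XT.lf (nat_lit 0) (nat_lit 3359224229) (nat_lit 304) (nat_lit 2111615779) (nat_lit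 380) (nat_lit 2873165397) (nat_lit 59) (nat_lit 5) (nat_lit 63) (nat_lit 5) (nat_lit 64) (nat_lit 5) (nat_lit 283) (nat_lit 255) (nat_lit 242)) (XT.lf (nat_lit 0) (nat_lit 173215947) (nat_lit 228) (nat_lit 8186926251) (nat_lit 304) (nat_lit 177709543) (nat_lit 56) (nat_lit 5) (nat_lit 59) (nat_lit 5) (nat_lit 60) (nat_lit 4) (nat_lit 284) (nat_lit 255) (nat_lit 241))))) (XT.nd (nat_lit 156) (nat_lit 532) (nat_lit 0) (XT.nd (nat_lit 78) (nat_lit 304) (nat_lit 0) (XT.lf (nat_lit 0) (nat_lit 2579631206) (nat_lit 304) (nat_lit 3189885642) (nat_lit 76) (nat_lit 2969455095) (nat_lit 55) (nat_lit 5) (nat_lit 59) (nat_lit 5) (nat_lit 56) (nat_lit 5) (nat_lit 285) (nat_lit 255) (nat_lit 240)) (XT.lf (nat_lit 0) (nat_lit 2179517715) (nat_lit 304) (nat_lit 3220128895) (nat_lit 380) (nat_lit 3554057536) (nat_lit 51) (nat_lit 5) (nat_lit 55) (nat_lit 5) (nat_lit 56) (nat_lit 5) (nat_lit 286) (nat_lit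 255) (nat_lit 239))) (XT.nd (nat_lit 78) (nat_lit 532) (nat_lit 0) (XT.lf (nat_lit 0) (nat_lit 7799319421) (nat_lit 304) (nat_lit 515022462) (nat_lit 380) (nat_lit 867376307) (nat_lit 51) (nat_lit 5) (nat_lit 55) (nat_lit 5) (nat_lit 56) (nat_lit 5) (nat_lit 287) (nat_lit 255) (nat_lit 238)) (XT.nd (nat_lit 78) (nat_lit 228) (nat_lit 0) (XT.lf (nat_lit 0) (nat_lit 1897703240) (nat_lit 304) (nat_lit 5200133531) (nat_lit 76) (nat_lit 2321649308) (nat_lit 47) (nat_lit 5) (nat_lit 51) (nat_lit 5) (nat_lit 48) (nat_lit 5) (nat_lit 288) (nat_lit 255) (nat_lit 237)) (XT.lf (nat_lit 0) (nat_lit 340519662) (nat_lit 228) (nat_lit 4373818282) (nat_lit 304) (nat_lit 4957168899) (nat_lit 44) (nat_lit 5) (nat_lit 47) (nat_lit 5) (nat_lit 48) (nat_lit 5) (nat_lit 289) (nat_lit 255) (nat_lit 236)))))) (XT.nd (nat_lit 390) (nat_lit 684) (nat_lit 0) (XT.nd (nat_lit 156) (nat_lit 228) (nat_lit 0) (XT.nd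 (nat_lit 78) (nat_lit 228) (nat_lit 0) (XT.lf (nat_lit 0) (nat_lit 6212269303) (nat_lit 228) (nat_lit 1455051890) (nat_lit 304) (nat_lit 2269220162) (nat_lit 44) (nat_lit 5) (nat_lit 47) (nat_lit 5) (nat_lit 48) (nat_lit 5) (nat_lit 290) (nat_lit 255) (nat_lit 235)) (XT.lf (nat_lit 0) (nat_lit 503693285) (nat_lit 228) (nat_lit 8145006146) (nat_lit 76) (nat_lit 1567453854) (nat_lit 41) (nat_lit 5) (nat_lit 44) (nat_lit 5) (nat_lit 42) (nat_lit 5) (nat_lit 291) (nat_lit 255) (nat_lit 234))) (XT.nd (nat_lit 78) (nat_lit 228) (nat_lit 0) (XT.lf (nat_lit 0) (nat_lit 3339031530) (nat_lit 228) (nat_lit 2408638385) (nat_lit 76) (nat_lit 4760376768) (nat_lit 41) (nat_lit 5) (nat_lit 44) (nat_lit 5) (nat_lit 42) (nat_lit 5) (nat_lit 292) (nat_lit 255) (nat_lit 233)) (XT.nd (nat_lit 78) (nat_lit 0) (nat_lit 0) (XT.lf (nat_lit 0) (nat_lit 3610492563) (nat_lit 228) (nat_lit 2678280859) (nat_lit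 304) (nat_lit 4527284613) (nat_lit 38) (nat_lit 5) (nat_lit 41) (nat_lit 5) (nat_lit 42) (nat_lit 5) (nat_lit 293) (nat_lit 255) (nat_lit 232)) (XT.lf (nat_lit 0) (nat_lit 9353818065) (nat_lit 304) (nat_lit 1253746454) (nat_lit 76) (nat_lit 533662388) (nat_lit 38) (nat_lit 5) (nat_lit 42) (nat_lit 5) (nat_lit 39) (nat_lit 4) (nat_lit 294) (nat_lit 255) (nat_lit 231))))) (XT.nd (nat_lit 156) (nat_lit 456) (nat_lit 0) (XT.nd (nat_lit 78) (nat_lit 0) (nat_lit 0) (XT.lf (nat_lit 0) (nat_lit 1098845080) (nat_lit 228) (nat_lit 6502240098) (nat_lit 76) (nat_lit 3878639872) (nat_lit 35) (nat_lit 5) (nat_lit 38) (nat_lit 5) (nat_lit 36) (nat_lit 5) (nat_lit 295) (nat_lit 255) (nat_lit 230)) (XT.lf (nat_lit 0) (nat_lit 4013258730) (nat_lit 228) (nat_lit 416331778) (nat_lit 76) (nat_lit 7407024339) (nat_lit 35) (nat_lit 5) (nat_lit 38) (nat_lit 5) (nat_lit 36) (nat_lit 5) (nat_lit 296) (nat_lit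 255) (nat_lit 229))) (XT.nd (nat_lit 78) (nat_lit 228) (nat_lit 0) (XT.lf (nat_lit 0) (nat_lit 6056871940) (nat_lit 228) (nat_lit 1037119014) (nat_lit 304) (nat_lit 5116449826) (nat_lit 32) (nat_lit 5) (nat_lit 35) (nat_lit 5) (nat_lit 36) (nat_lit 5) (nat_lit 297) (nat_lit 255) (nat_lit 228)) (XT.nd (nat_lit 78) (nat_lit 76) (nat_lit 0) (XT.lf (nat_lit 0) (nat_lit 117594298) (nat_lit 152) (nat_lit 10186865825) (nat_lit 228) (nat_lit 2299828626) (nat_lit 30) (nat_lit 5) (nat_lit 32) (nat_lit 5) (nat_lit 33) (nat_lit 4) (nat_lit 298) (nat_lit 255) (nat_lit 227)) (XT.lf (nat_lit 0) (nat_lit 687244538) (nat_lit 228) (nat_lit 6238543057) (nat_lit 76) (nat_lit 6089099697) (nat_lit 29) (nat_lit 5) (nat_lit 32) (nat_lit 5) (nat_lit 30) (nat_lit 5) (nat_lit 299) (nat_lit 255) (nat_lit 226))))))))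
noncomputable def xc91 : XT := (XT.nd (nat_lit 1560) (nat_lit 456) (nat_lit 0) (XT.nd (nat_lit 780) (nat_lit 380) (nat_lit 0) (XT.nd (nat_lit 390) (nat_lit 456) (nat_lit 0) (XT.nd (nat_lit 156) (nat_lit 228) (nat_lit 0) (XT.nd (nat_lit 78) (nat_lit 0) (nat_lit 0) (XT.lf (nat_lit 0) (nat_lit 182634955) (nat_lit 152) (nat_lit 3497784175) (nat_lit 228) (nat_lit 9767109665) (nat_lit 27) (nat_lit 5) (nat_lit 29) (nat_lit 5) (nat_lit 30) (nat_lit 5) (nat_lit 300) (nat_lit 255) (nat_lit 225)) (XT.lf (nat_lit 0) (nat_lit 6864431950) (nat_lit 228) (nat_lit 6867020375) (nat_lit 76) (nat_lit 168386305) (nat_lit 27) (nat_lit 5) (nat_lit 30) (nat_lit 5) (nat_lit 28) (nat_lit 4) (nat_lit 301) (nat_lit 255) (nat_lit 224))) (XT.nd (nat_lit 78) (nat_lit 228) (nat_lit 0) (XT.lf (nat_lit 0) (nat_lit 10200422491) (nat_lit 228) (nat_lit 310062589) (nat_lit 76) (nat_lit 3864730719) (nat_lit 27) (nat_lit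 5) (nat_lit 30) (nat_lit 5) (nat_lit 28) (nat_lit 4) (nat_lit 302) (nat_lit 255) (nat_lit 223)) (XT.nd (nat_lit 78) (nat_lit 76) (nat_lit 0) (XT.lf (nat_lit 0) (nat_lit 6690334007) (nat_lit 152) (nat_lit 7055844233) (nat_lit 228) (nat_lit 1126121681) (nat_lit 25) (nat_lit 5) (nat_lit 27) (nat_lit 5) (nat_lit 28) (nat_lit 4) (nat_lit 303) (nat_lit 255) (nat_lit 222)) (XT.lf (nat_lit 0) (nat_lit 1952768952) (nat_lit 228) (nat_lit 1473995039) (nat_lit 76) (nat_lit 11968722895) (nat_lit 24) (nat_lit 5) (nat_lit 27) (nat_lit 5) (nat_lit 25) (nat_lit 5) (nat_lit 304) (nat_lit 255) (nat_lit 221))))) (XT.nd (nat_lit 156) (nat_lit 304) (nat_lit 0) (XT.nd (nat_lit 78) (nat_lit 0) (nat_lit 0) (XT.lf (nat_lit 0) (nat_lit 5184713884) (nat_lit 228) (nat_lit 10312671914) (nat_lit 76) (nat_lit 444751227) (nat_lit 22) (nat_lit 5) (nat_lit 25) (nat_lit 5) (nat_lit 23) (nat_lit 4) (nat_lit 305) (nat_lit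 255) (nat_lit 220)) (XT.lf (nat_lit 0) (nat_lit 8602339700) (nat_lit 228) (nat_lit 3527354547) (nat_lit 76) (nat_lit 4385292303) (nat_lit 22) (nat_lit 5) (nat_lit 25) (nat_lit 5) (nat_lit 23) (nat_lit 4) (nat_lit 306) (nat_lit 255) (nat_lit 219))) (XT.nd (nat_lit 78) (nat_lit 228) (nat_lit 0) (XT.lf (nat_lit 0) (nat_lit 3622534920) (nat_lit 76) (nat_lit 8570141364) (nat_lit 152) (nat_lit 4923778474) (nat_lit 21) (nat_lit 5) (nat_lit 22) (nat_lit 5) (nat_lit 23) (nat_lit 4) (nat_lit 307) (nat_lit 255) (nat_lit 218)) (XT.nd (nat_lit 78) (nat_lit 228) (nat_lit 0) (XT.lf (nat_lit 0) (nat_lit 11163205034) (nat_lit 76) (nat_lit 4805547510) (nat_lit 152) (nat_lit 1778997146) (nat_lit 21) (nat_lit 5) (nat_lit 22) (nat_lit 5) (nat_lit 23) (nat_lit 4) (nat_lit 308) (nat_lit 255) (nat_lit 217)) (XT.lf (nat_lit 0) (nat_lit 578328359) (nat_lit 152) (nat_lit 853116730) (nat_lit 228) (nat_lit 16980175405)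 (nat_lit 18) (nat_lit 5) (nat_lit 20) (nat_lit 5) (nat_lit 21) (nat_lit 5) (nat_lit 309) (nat_lit 255) (nat_lit 216)))))) (XT.nd (nat_lit 390) (nat_lit 304) (nat_lit 0) (XT.nd (nat_lit 156) (nat_lit 76) (nat_lit 0) (XT.nd (nat_lit 78) (nat_lit 0) (nat_lit 0) (XT.lf (nat_lit 0) (nat_lit 4856175015) (nat_lit 228) (nat_lit 10944985948) (nat_lit 76) (nat_lit 3300443784) (nat_lit 18) (nat_lit 5) (nat_lit 21) (nat_lit 5) (nat_lit 19) (nat_lit 4) (nat_lit 310) (nat_lit 255) (nat_lit 215)) (XT.lf (nat_lit 0) (nat_lit 8417304691) (nat_lit 228) (nat_lit 3809446080) (nat_lit 76) (nat_lit 7601132306) (nat_lit 18) (nat_lit 5) (nat_lit 21) (nat_lit 5) (nat_lit 19) (nat_lit 4) (nat_lit 311) (nat_lit 255) (nat_lit 214))) (XT.nd (nat_lit 78) (nat_lit 0) (nat_lit 0) (XT.lf (nat_lit 0) (nat_lit 3722788884) (nat_lit 76) (nat_lit 8445327738) (nat_lit 152) (nat_lit 8421827918) (nat_lit 17) (nat_lit 5) (nat_lit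 18) (nat_lit 5) (nat_lit 19) (nat_lit 4) (nat_lit 312) (nat_lit 255) (nat_lit 213)) (XT.nd (nat_lit 78) (nat_lit 0) (nat_lit 0) (XT.lf (nat_lit 0) (nat_lit 11685934548) (nat_lit 76) (nat_lit 4439549061) (nat_lit 152) (nat_lit 5263722841) (nat_lit 17) (nat_lit 5) (nat_lit 18) (nat_lit 5) (nat_lit 19) (nat_lit 4) (nat_lit 313) (nat_lit 255) (nat_lit 212)) (XT.lf (nat_lit 0) (nat_lit 19972993290) (nat_lit 76) (nat_lit 264391987) (nat_lit 152) (nat_lit 1993258671) (nat_lit 17) (nat_lit 5) (nat_lit 18) (nat_lit 5) (nat_lit 19) (nat_lit 4) (nat_lit 314) (nat_lit 255) (nat_lit 211))))) (XT.nd (nat_lit 156) (nat_lit 76) (nat_lit 0) (XT.nd (nat_lit 78) (nat_lit 0) (nat_lit 0) (XT.lf (nat_lit 0) (nat_lit 1506443081) (nat_lit 228) (nat_lit 17530085136) (nat_lit 76) (nat_lit 4070950628) (nat_lit 14) (nat_lit 5) (nat_lit 17) (nat_lit 5) (nat_lit 15) (nat_lit 4) (nat_lit 315) (nat_lit 255) (nat_lit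 210)) (XT.lf (nat_lit 0) (nat_lit 5115774784) (nat_lit 228) (nat_lit 10253913509) (nat_lit 76) (nat_lit 8656791374) (nat_lit 14) (nat_lit 5) (nat_lit 17) (nat_lit 5) (nat_lit 15) (nat_lit 4) (nat_lit 316) (nat_lit 255) (nat_lit 209))) (XT.nd (nat_lit 78) (nat_lit 76) (nat_lit 0) (XT.lf (nat_lit 0) (nat_lit 8865988243) (nat_lit 228) (nat_lit 2683079121) (nat_lit 76) (nat_lit 13444380093) (nat_lit 14) (nat_lit 5) (nat_lit 17) (nat_lit 5) (nat_lit 15) (nat_lit 4) (nat_lit 317) (nat_lit 255) (nat_lit 208)) (XT.nd (nat_lit 78) (nat_lit 0) (nat_lit 0) (XT.lf (nat_lit 0) (nat_lit 5372393980) (nat_lit 76) (nat_lit 7477496684) (nat_lit 152) (nat_lit 13156599951) (nat_lit 13) (nat_lit 5) (nat_lit 14) (nat_lit 5) (nat_lit 15) (nat_lit 4) (nat_lit 318) (nat_lit 255) (nat_lit 207)) (XT.lf (nat_lit 0) (nat_lit 13859000172) (nat_lit 76) (nat_lit 3182511102) (nat_lit 152) (nat_lit 10028282686) (nat_lit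 13) (nat_lit 5) (nat_lit 14) (nat_lit 5) (nat_lit 15) (nat_lit 4) (nat_lit 319) (nat_lit 255) (nat_lit 206))))))) (XT.nd (nat_lit 780) (nat_lit 152) (nat_lit 0) (XT.nd (nat_lit 390) (nat_lit 152) (nat_lit 0) (XT.nd (nat_lit 156) (nat_lit 76) (nat_lit 0) (XT.nd (nat_lit 78) (nat_lit 76) (nat_lit 0) (XT.lf (nat_lit 0) (nat_lit 21427861854) (nat_lit 152) (nat_lit 5500129198) (nat_lit 0) (nat_lit 1259046528) (nat_lit 13) (nat_lit 5) (nat_lit 15) (nat_lit 4) (nat_lit 13) (nat_lit 4) (nat_lit 320) (nat_lit 255) (nat_lit 205)) (XT.lf (nat_lit 0) (nat_lit 2565944740) (nat_lit 76) (nat_lit 23525940320) (nat_lit 76) (nat_lit 3265371570) (nat_lit 12) (nat_lit 4) (nat_lit 13) (nat_lit 5) (nat_lit 13) (nat_lit 4) (nat_lit 321) (nat_lit 255) (nat_lit 204))) (XT.nd (nat_lit 78) (nat_lit 0) (nat_lit 0) (XT.lf (nat_lit 0) (nat_lit 451133665) (nat_lit 152) (nat_lit 19423128949) (nat_lit 76) (nat_lit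 10708391781) (nat_lit 11) (nat_lit 5) (nat_lit 13) (nat_lit 5) (nat_lit 12) (nat_lit 4) (nat_lit 322) (nat_lit 255) (nat_lit 203)) (XT.nd (nat_lit 78) (nat_lit 0) (nat_lit 0) (XT.lf (nat_lit 0) (nat_lit 4211572898) (nat_lit 152) (nat_lit 11797451582) (nat_lit 76) (nat_lit 15859255486) (nat_lit 11) (nat_lit 5) (nat_lit 13) (nat_lit 5) (nat_lit 12) (nat_lit 4) (nat_lit 323) (nat_lit 255) (nat_lit 202)) (XT.lf (nat_lit 0) (nat_lit 8129411838) (nat_lit 152) (nat_lit 3845141813) (nat_lit 76) (nat_lit 21245189784) (nat_lit 11) (nat_lit 5) (nat_lit 13) (nat_lit 5) (nat_lit 12) (nat_lit 4) (nat_lit 324) (nat_lit 255) (nat_lit 201))))) (XT.nd (nat_lit 156) (nat_lit 76) (nat_lit 0) (XT.nd (nat_lit 78) (nat_lit 0) (nat_lit 0) (XT.lf (nat_lit 0) (nat_lit 4599961936) (nat_lit 76) (nat_lit 7685835033) (nat_lit 152) (nat_lit 22350874690) (nat_lit 10) (nat_lit 5) (nat_lit 11) (nat_lit 5) (nat_lit 12)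 (nat_lit 4) (nat_lit 325) (nat_lit 255) (nat_lit 200)) (XT.lf (nat_lit 0) (nat_lit 13549605999) (nat_lit 76) (nat_lit 3136939883) (nat_lit 152) (nat_lit 19436096321) (nat_lit 10) (nat_lit 5) (nat_lit 11) (nat_lit 5) (nat_lit 12) (nat_lit 4) (nat_lit 326) (nat_lit 255) (nat_lit 199))) (XT.nd (nat_lit 78) (nat_lit 76) (nat_lit 0) (XT.lf (nat_lit 0) (nat_lit 21305377201) (nat_lit 152) (nat_lit 14811591783) (nat_lit 0) (nat_lit 1566062078) (nat_lit 10) (nat_lit 5) (nat_lit 12) (nat_lit 4) (nat_lit 10) (nat_lit 4) (nat_lit 327) (nat_lit 255) (nat_lit 198)) (XT.nd (nat_lit 78) (nat_lit 76) (nat_lit 0) (XT.lf (nat_lit 0) (nat_lit 26180336596) (nat_lit 152) (nat_lit 6760945284) (nat_lit 0) (nat_lit 6378919143) (nat_lit 10) (nat_lit 5) (nat_lit 12) (nat_lit 4) (nat_lit 10) (nat_lit 4) (nat_lit 328) (nat_lit 255) (nat_lit 197)) (XT.lf (nat_lit 0) (nat_lit 1701506764) (nat_lit 76) (nat_lit 29599113216)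 (nat_lit 76) (nat_lit 9738550687) (nat_lit 9) (nat_lit 4) (nat_lit 10) (nat_lit 5) (nat_lit 10) (nat_lit 4) (nat_lit 329) (nat_lit 255) (nat_lit 196)))))) (XT.nd (nat_lit 390) (nat_lit 0) (nat_lit 0) (XT.nd (nat_lit 156) (nat_lit 152) (nat_lit 0) (XT.nd (nat_lit 78) (nat_lit 0) (nat_lit 0) (XT.lf (nat_lit 0) (nat_lit 10777349351) (nat_lit 76) (nat_lit 25989574662) (nat_lit 76) (nat_lit 6072683490) (nat_lit 9) (nat_lit 4) (nat_lit 10) (nat_lit 5) (nat_lit 10) (nat_lit 4) (nat_lit 330) (nat_lit 255) (nat_lit 195)) (XT.lf (nat_lit 0) (nat_lit 20264644241) (nat_lit 76) (nat_lit 22218571960) (nat_lit 76) (nat_lit 2248034461) (nat_lit 9) (nat_lit 4) (nat_lit 10) (nat_lit 5) (nat_lit 10) (nat_lit 4) (nat_lit 331) (nat_lit 255) (nat_lit 194))) (XT.nd (nat_lit 78) (nat_lit 76) (nat_lit 0) (XT.lf (nat_lit 0) (nat_lit 1688667726) (nat_lit 152) (nat_lit 16559860400) (nat_lit 76) (nat_lit 28468714099)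 (nat_lit 8) (nat_lit 5) (nat_lit 10) (nat_lit 5) (nat_lit 9) (nat_lit 4) (nat_lit 332) (nat_lit 255) (nat_lit 193)) (XT.nd (nat_lit 78) (nat_lit 76) (nat_lit 0) (XT.lf (nat_lit 0) (nat_lit 5725135230) (nat_lit 152) (nat_lit 8333760816) (nat_lit 76) (nat_lit 34742886383) (nat_lit 8) (nat_lit 5) (nat_lit 10) (nat_lit 5) (nat_lit 9) (nat_lit 4) (nat_lit 333) (nat_lit 255) (nat_lit 192)) (XT.lf (nat_lit 0) (nat_lit 275184005) (nat_lit 76) (nat_lit 9672042218) (nat_lit 152) (nat_lit 41044148329) (nat_lit 7) (nat_lit 5) (nat_lit 8) (nat_lit 5) (nat_lit 9) (nat_lit 4) (nat_lit 334) (nat_lit 255) (nat_lit 191))))) (XT.nd (nat_lit 156) (nat_lit 0) (nat_lit 0) (XT.nd (nat_lit 78) (nat_lit 0) (nat_lit 0) (XT.lf (nat_lit 0) (nat_lit 9567239165) (nat_lit 76) (nat_lit 4934226144) (nat_lit 152) (nat_lit 38782942999) (nat_lit 7) (nat_lit 5) (nat_lit 8) (nat_lit 5) (nat_lit 9) (nat_lit 4) (nat_lit 335)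 (nat_lit 255) (nat_lit 190)) (XT.lf (nat_lit 0) (nat_lit 19264665997) (nat_lit 152) (nat_lit 36404472822) (nat_lit 0) (nat_lit 23905977) (nat_lit 7) (nat_lit 5) (nat_lit 9) (nat_lit 4) (nat_lit 7) (nat_lit 4) (nat_lit 336) (nat_lit 255) (nat_lit 189))) (XT.nd (nat_lit 78) (nat_lit 0) (nat_lit 0) (XT.lf (nat_lit 0) (nat_lit 24328456271) (nat_lit 152) (nat_lit 28840977433) (nat_lit 0) (nat_lit 5049570809) (nat_lit 7) (nat_lit 5) (nat_lit 9) (nat_lit 4) (nat_lit 7) (nat_lit 4) (nat_lit 337) (nat_lit 255) (nat_lit 188)) (XT.nd (nat_lit 78) (nat_lit 0) (nat_lit 0) (XT.lf (nat_lit 0) (nat_lit 29627855679) (nat_lit 152) (nat_lit 20931637556) (nat_lit 0) (nat_lit 10312660271) (nat_lit 7) (nat_lit 5) (nat_lit 9) (nat_lit 4) (nat_lit 7) (nat_lit 4) (nat_lit 338) (nat_lit 255) (nat_lit 187)) (XT.lf (nat_lit 0) (nat_lit 35175481837) (nat_lit 152) (nat_lit 12657621429) (nat_lit 0) (nat_lit 15825705528)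 (nat_lit 7) (nat_lit 5) (nat_lit 9) (nat_lit 4) (nat_lit 7) (nat_lit 4) (nat_lit 339) (nat_lit 255) (nat_lit 186))))))))
noncomputable def xc92 : XT := (XT.nd (nat_lit 1482) (nat_lit 76) (nat_lit 0) (XT.nd (nat_lit 702) (nat_lit 76) (nat_lit 0) (XT.nd (nat_lit 312) (nat_lit 76) (nat_lit 0) (XT.nd (nat_lit 156) (nat_lit 0) (nat_lit 0) (XT.nd (nat_lit 78) (nat_lit 76) (nat_lit 0) (XT.lf (nat_lit 0) (nat_lit 40984543379) (nat_lit 152) (nat_lit 3999229014) (nat_lit 0) (nat_lit 21601832878) (nat_lit 7) (nat_lit 5) (nat_lit 9) (nat_lit 4) (nat_lit 7) (nat_lit 4) (nat_lit 340) (nat_lit 255) (nat_lit 185)) (XT.lf (nat_lit 0) (nat_lit 5231598739) (nat_lit 76) (nat_lit 41918952582) (nat_lit 76) (nat_lit 22504876185) (nat_lit 6) (nat_lit 4) (nat_lit 7) (nat_lit 5) (nat_lit 7) (nat_lit 4) (nat_lit 341) (nat_lit 255) (nat_lit 184))) (XT.nd (nat_lit 78) (nat_lit 0) (nat_lit 0) (XT.lf (nat_lit 0)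 (nat_lit 15035334423) (nat_lit 76) (nat_lit 38642361690) (nat_lit 76) (nat_lit 19198413011) (nat_lit 6) (nat_lit 4) (nat_lit 7) (nat_lit 5) (nat_lit 7) (nat_lit 4) (nat_lit 342) (nat_lit 255) (nat_lit 183)) (XT.lf (nat_lit 0) (nat_lit 25303087692) (nat_lit 76) (nat_lit 35213927189) (nat_lit 76) (nat_lit 15741528717) (nat_lit 6) (nat_lit 4) (nat_lit 7) (nat_lit 5) (nat_lit 7) (nat_lit 4) (nat_lit 343) (nat_lit 255) (nat_lit 182)))) (XT.nd (nat_lit 156) (nat_lit 76) (nat_lit 0) (XT.nd (nat_lit 78) (nat_lit 0) (nat_lit 0) (XT.lf (nat_lit 0) (nat_lit 36059305578) (nat_lit 76) (nat_lit 31625486141) (nat_lit 76) (nat_lit 12125992628) (nat_lit 6) (nat_lit 4) (nat_lit 7) (nat_lit 5) (nat_lit 7) (nat_lit 4) (nat_lit 344) (nat_lit 255) (nat_lit 181)) (XT.lf (nat_lit 0) (nat_lit 47329598123) (nat_lit 76) (nat_lit 27868494637) (nat_lit 76) (nat_lit 8343196324) (nat_lit 6) (nat_lit 4) (nat_lit 7)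 (nat_lit 5) (nat_lit 7) (nat_lit 4) (nat_lit 345) (nat_lit 255) (nat_lit 180))) (XT.nd (nat_lit 78) (nat_lit 76) (nat_lit 0) (XT.lf (nat_lit 0) (nat_lit 59140799356) (nat_lit 76) (nat_lit 23934007461) (nat_lit 76) (nat_lit 4384133147) (nat_lit 6) (nat_lit 4) (nat_lit 7) (nat_lit 5) (nat_lit 7) (nat_lit 4) (nat_lit 346) (nat_lit 255) (nat_lit 179)) (XT.nd (nat_lit 78) (nat_lit 76) (nat_lit 0) (XT.lf (nat_lit 0) (nat_lit 71521031187) (nat_lit 76) (nat_lit 19812656785) (nat_lit 76) (nat_lit 239376756) (nat_lit 6) (nat_lit 4) (nat_lit 7) (nat_lit 5) (nat_lit 7) (nat_lit 4) (nat_lit 347) (nat_lit 255) (nat_lit 178)) (XT.lf (nat_lit 0) (nat_lit 3969685582) (nat_lit 152) (nat_lit 11457715741) (nat_lit 76) (nat_lit 80462856228) (nat_lit 5) (nat_lit 5) (nat_lit 7) (nat_lit 5) (nat_lit 6) (nat_lit 4) (nat_lit 348) (nat_lit 255) (nat_lit 177)))))) (XT.nd (nat_lit 390) (nat_lit 0) (nat_lit 0) (XT.nd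 (nat_lit 156) (nat_lit 0) (nat_lit 0) (XT.nd (nat_lit 78) (nat_lit 76) (nat_lit 0) (XT.lf (nat_lit 0) (nat_lit 8370392192) (nat_lit 152) (nat_lit 2457496864) (nat_lit 76) (nat_lit 89595769792) (nat_lit 5) (nat_lit 5) (nat_lit 7) (nat_lit 5) (nat_lit 6) (nat_lit 4) (nat_lit 349) (nat_lit 255) (nat_lit 176)) (XT.lf (nat_lit 0) (nat_lit 7204374497) (nat_lit 76) (nat_lit 5888988474) (nat_lit 152) (nat_lit 92085262303) (nat_lit 4) (nat_lit 5) (nat_lit 5) (nat_lit 5) (nat_lit 6) (nat_lit 4) (nat_lit 350) (nat_lit 255) (nat_lit 175))) (XT.nd (nat_lit 78) (nat_lit 0) (nat_lit 0) (XT.lf (nat_lit 0) (nat_lit 17416020276) (nat_lit 76) (nat_lit 668026460) (nat_lit 152) (nat_lit 92085721260) (nat_lit 4) (nat_lit 5) (nat_lit 5) (nat_lit 5) (nat_lit 6) (nat_lit 4) (nat_lit 351) (nat_lit 255) (nat_lit 174)) (XT.nd (nat_lit 78) (nat_lit 0) (nat_lit 0) (XT.lf (nat_lit 0) (nat_lit 23389721167) (nat_lit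 152) (nat_lit 87365486718) (nat_lit 0) (nat_lit 4651993048) (nat_lit 4) (nat_lit 5) (nat_lit 6) (nat_lit 4) (nat_lit 4) (nat_lit 4) (nat_lit 352) (nat_lit 255) (nat_lit 173)) (XT.lf (nat_lit 0) (nat_lit 28962389334) (nat_lit 152) (nat_lit 81736009091) (nat_lit 0) (nat_lit 10208027211) (nat_lit 4) (nat_lit 5) (nat_lit 6) (nat_lit 4) (nat_lit 4) (nat_lit 4) (nat_lit 353) (nat_lit 255) (nat_lit 172))))) (XT.nd (nat_lit 156) (nat_lit 0) (nat_lit 0) (XT.nd (nat_lit 78) (nat_lit 0) (nat_lit 0) (XT.lf (nat_lit 0) (nat_lit 34804889731) (nat_lit 152) (nat_lit 75841481556) (nat_lit 0) (nat_lit 16034685699) (nat_lit 4) (nat_lit 5) (nat_lit 6) (nat_lit 4) (nat_lit 4) (nat_lit 4) (nat_lit 354) (nat_lit 255) (nat_lit 171)) (XT.lf (nat_lit 0) (nat_lit 40931133074) (nat_lit 152) (nat_lit 69667869524) (nat_lit 0) (nat_lit 22145841509) (nat_lit 4) (nat_lit 5) (nat_lit 6) (nat_lit 4) (nat_lit 4) (nat_lit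 4) (nat_lit 355) (nat_lit 255) (nat_lit 170))) (XT.nd (nat_lit 78) (nat_lit 0) (nat_lit 0) (XT.lf (nat_lit 0) (nat_lit 47355705655) (nat_lit 152) (nat_lit 63200473919) (nat_lit 0) (nat_lit 28556045012) (nat_lit 4) (nat_lit 5) (nat_lit 6) (nat_lit 4) (nat_lit 4) (nat_lit 4) (nat_lit 356) (nat_lit 255) (nat_lit 169)) (XT.nd (nat_lit 78) (nat_lit 0) (nat_lit 0) (XT.lf (nat_lit 0) (nat_lit 54093904076) (nat_lit 152) (nat_lit 56423896179) (nat_lit 0) (nat_lit 35280558596) (nat_lit 4) (nat_lit 5) (nat_lit 6) (nat_lit 4) (nat_lit 4) (nat_lit 4) (nat_lit 357) (nat_lit 255) (nat_lit 168)) (XT.lf (nat_lit 0) (nat_lit 61161771667) (nat_lit 152) (nat_lit 49322001595) (nat_lit 0) (nat_lit 42335393009) (nat_lit 4) (nat_lit 5) (nat_lit 6) (nat_lit 4) (nat_lit 4) (nat_lit 4) (nat_lit 358) (nat_lit 255) (nat_lit 167))))))) (XT.nd (nat_lit 780) (nat_lit 0) (nat_lit 0) (XT.nd (nat_lit 390) (nat_lit 76)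 (nat_lit 0) (XT.nd (nat_lit 156) (nat_lit 0) (nat_lit 0) (XT.nd (nat_lit 78) (nat_lit 0) (nat_lit 0) (XT.lf (nat_lit 0) (nat_lit 68576136684) (nat_lit 152) (nat_lit 41877880895) (nat_lit 0) (nat_lit 49737345476) (nat_lit 4) (nat_lit 5) (nat_lit 6) (nat_lit 4) (nat_lit 4) (nat_lit 4) (nat_lit 359) (nat_lit 255) (nat_lit 166)) (XT.lf (nat_lit 0) (nat_lit 76354652377) (nat_lit 152) (nat_lit 34073809982) (nat_lit 0) (nat_lit 57504039692) (nat_lit 4) (nat_lit 5) (nat_lit 6) (nat_lit 4) (nat_lit 4) (nat_lit 4) (nat_lit 360) (nat_lit 255) (nat_lit 165))) (XT.nd (nat_lit 78) (nat_lit 0) (nat_lit 0) (XT.lf (nat_lit 0) (nat_lit 84515839021) (nat_lit 152) (nat_lit 25891207735) (nat_lit 0) (nat_lit 65653967787) (nat_lit 4) (nat_lit 5) (nat_lit 6) (nat_lit 4) (nat_lit 4) (nat_lit 4) (nat_lit 361) (nat_lit 255) (nat_lit 164)) (XT.nd (nat_lit 78) (nat_lit 0) (nat_lit 0) (XT.lf (nat_lit 0) (nat_lit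 93079128013) (nat_lit 152) (nat_lit 17310591767) (nat_lit 0) (nat_lit 74206534352) (nat_lit 4) (nat_lit 5) (nat_lit 6) (nat_lit 4) (nat_lit 4) (nat_lit 4) (nat_lit 362) (nat_lit 255) (nat_lit 163)) (XT.lf (nat_lit 0) (nat_lit 102064908137) (nat_lit 152) (nat_lit 8311532041) (nat_lit 0) (nat_lit 83182102640) (nat_lit 4) (nat_lit 5) (nat_lit 6) (nat_lit 4) (nat_lit 4) (nat_lit 4) (nat_lit 363) (nat_lit 255) (nat_lit 162))))) (XT.nd (nat_lit 156) (nat_lit 0) (nat_lit 0) (XT.nd (nat_lit 78) (nat_lit 0) (nat_lit 0) (XT.lf (nat_lit 0) (nat_lit 1164674638) (nat_lit 76) (nat_lit 110348083303) (nat_lit 76) (nat_lit 91455552248) (nat_lit 3) (nat_lit 4) (nat_lit 4) (nat_lit 5) (nat_lit 4) (nat_lit 4) (nat_lit 364) (nat_lit 255) (nat_lit 161)) (XT.lf (nat_lit 0) (nat_lit 11393329009) (nat_lit 76) (nat_lit 110175130295) (nat_lit 76) (nat_lit 91273336804) (nat_lit 3) (nat_lit 4) (nat_lit 4) (nat_lit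 5) (nat_lit 4) (nat_lit 4) (nat_lit 365) (nat_lit 255) (nat_lit 160))) (XT.nd (nat_lit 78) (nat_lit 0) (nat_lit 0) (XT.lf (nat_lit 0) (nat_lit 22123968224) (nat_lit 76) (nat_lit 109997929176) (nat_lit 76) (nat_lit 91087314317) (nat_lit 3) (nat_lit 4) (nat_lit 4) (nat_lit 5) (nat_lit 4) (nat_lit 4) (nat_lit 366) (nat_lit 255) (nat_lit 159)) (XT.nd (nat_lit 78) (nat_lit 0) (nat_lit 0) (XT.lf (nat_lit 0) (nat_lit 33382141425) (nat_lit 76) (nat_lit 109816058040) (nat_lit 76) (nat_lit 90897041879) (nat_lit 3) (nat_lit 4) (nat_lit 4) (nat_lit 5) (nat_lit 4) (nat_lit 4) (nat_lit 367) (nat_lit 255) (nat_lit 158)) (XT.lf (nat_lit 0) (nat_lit 45194653786) (nat_lit 76) (nat_lit 109629083861) (nat_lit 76) (nat_lit 90702066459) (nat_lit 3) (nat_lit 4) (nat_lit 4) (nat_lit 5) (nat_lit 4) (nat_lit 4) (nat_lit 368) (nat_lit 255) (nat_lit 157)))))) (XT.nd (nat_lit 390) (nat_lit 0) (nat_lit 0) (XT.nd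 (nat_lit 156) (nat_lit 0) (nat_lit 0) (XT.nd (nat_lit 78) (nat_lit 0) (nat_lit 0) (XT.lf (nat_lit 0) (nat_lit 57589630336) (nat_lit 76) (nat_lit 109436561461) (nat_lit 76) (nat_lit 90501923830) (nat_lit 3) (nat_lit 4) (nat_lit 4) (nat_lit 5) (nat_lit 4) (nat_lit 4) (nat_lit 369) (nat_lit 255) (nat_lit 156)) (XT.lf (nat_lit 0) (nat_lit 70596582924) (nat_lit 76) (nat_lit 109238032454) (nat_lit 76) (nat_lit 90296137462) (nat_lit 3) (nat_lit 4) (nat_lit 4) (nat_lit 5) (nat_lit 4) (nat_lit 4) (nat_lit 370) (nat_lit 255) (nat_lit 155))) (XT.nd (nat_lit 78) (nat_lit 0) (nat_lit 0) (XT.lf (nat_lit 0) (nat_lit 84246480485) (nat_lit 76) (nat_lit 109033024153) (nat_lit 76) (nat_lit 90084217388) (nat_lit 3) (nat_lit 4) (nat_lit 4) (nat_lit 5) (nat_lit 4) (nat_lit 4) (nat_lit 371) (nat_lit 255) (nat_lit 154)) (XT.nd (nat_lit 78) (nat_lit 0) (nat_lit 0) (XT.lf (nat_lit 0) (nat_lit 98571822775) (nat_lit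 76) (nat_lit 108821048440) (nat_lit 76) (nat_lit 89865659035) (nat_lit 3) (nat_lit 4) (nat_lit 4) (nat_lit 5) (nat_lit 4) (nat_lit 4) (nat_lit 372) (nat_lit 255) (nat_lit 153)) (XT.lf (nat_lit 0) (nat_lit 113606717753) (nat_lit 76) (nat_lit 108601600614) (nat_lit 76) (nat_lit 89639942028) (nat_lit 3) (nat_lit 4) (nat_lit 4) (nat_lit 5) (nat_lit 4) (nat_lit 4) (nat_lit 373) (nat_lit 255) (nat_lit 152))))) (XT.nd (nat_lit 156) (nat_lit 0) (nat_lit 0) (XT.nd (nat_lit 78) (nat_lit 0) (nat_lit 0) (XT.lf (nat_lit 0) (nat_lit 129386962786) (nat_lit 76) (nat_lit 108374158179) (nat_lit 76) (nat_lit 89406528944) (nat_lit 3) (nat_lit 4) (nat_lit 4) (nat_lit 5) (nat_lit 4) (nat_lit 4) (nat_lit 374) (nat_lit 255) (nat_lit 151)) (XT.lf (nat_lit 0) (nat_lit 145950129887) (nat_lit 76) (nat_lit 108138179605) (nat_lit 76) (nat_lit 89164864037) (nat_lit 3) (nat_lit 4) (nat_lit 4) (nat_lit 5) (nat_lit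 4) (nat_lit 4) (nat_lit 375) (nat_lit 255) (nat_lit 150))) (XT.nd (nat_lit 78) (nat_lit 0) (nat_lit 0) (XT.lf (nat_lit 0) (nat_lit 163335655167) (nat_lit 76) (nat_lit 107893103039) (nat_lit 76) (nat_lit 88914371916) (nat_lit 3) (nat_lit 4) (nat_lit 4) (nat_lit 5) (nat_lit 4) (nat_lit 4) (nat_lit 376) (nat_lit 255) (nat_lit 149)) (XT.nd (nat_lit 78) (nat_lit 0) (nat_lit 0) (XT.lf (nat_lit 0) (nat_lit 181584932736) (nat_lit 76) (nat_lit 107638344964) (nat_lit 76) (nat_lit 88654456171) (nat_lit 3) (nat_lit 4) (nat_lit 4) (nat_lit 5) (nat_lit 4) (nat_lit 4) (nat_lit 377) (nat_lit 255) (nat_lit 148)) (XT.lf (nat_lit 0) (nat_lit 200741413254) (nat_lit 76) (nat_lit 107373298815) (nat_lit 76) (nat_lit 88384497954) (nat_lit 3) (nat_lit 4) (nat_lit 4) (nat_lit 5) (nat_lit 4) (nat_lit 4) (nat_lit 378) (nat_lit 255) (nat_lit 147))))))))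
noncomputable def xc93 : XT := (XT.nd (nat_lit 32838) (nat_lit 0) (nat_lit 2204) (XT.nd (nat_lit 32058) (nat_lit 0) (nat_lit 5320) (XT.nd (nat_lit 312) (nat_lit 0) (nat_lit 0) (XT.nd (nat_lit 156) (nat_lit 0) (nat_lit 0) (XT.nd (nat_lit 78) (nat_lit 0) (nat_lit 0) (XT.lf (nat_lit 0) (nat_lit 220850707388) (nat_lit 76) (nat_lit 107097333528) (nat_lit 76) (nat_lit 88103854508) (nat_lit 3) (nat_lit 4) (nat_lit 4) (nat_lit 5) (nat_lit 4) (nat_lit 4) (nat_lit 379) (nat_lit 255) (nat_lit 146)) (XT.lf (nat_lit 0) (nat_lit 241960694410) (nat_lit 76) (nat_lit 106809792045) (nat_lit 76) (nat_lit 87811857634) (nat_lit 3) (nat_lit 4) (nat_lit 4) (nat_lit 5) (nat_lit 4) (nat_lit 4) (nat_lit 380) (nat_lit 255) (nat_lit 145))) (XT.nd (nat_lit 78) (nat_lit 0) (nat_lit 0) (XT.lf (nat_lit 0) (nat_lit 264121636195) (nat_lit 76) (nat_lit 106509989741) (nat_lit 76) (nat_lit 87507812102) (nat_lit 3) (nat_lit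 4) (nat_lit 4) (nat_lit 5) (nat_lit 4) (nat_lit 4) (nat_lit 381) (nat_lit 255) (nat_lit 144)) (XT.lf (nat_lit 0) (nat_lit 287386296889) (nat_lit 76) (nat_lit 106197212802) (nat_lit 76) (nat_lit 87190993993) (nat_lit 3) (nat_lit 4) (nat_lit 4) (nat_lit 5) (nat_lit 4) (nat_lit 4) (nat_lit 382) (nat_lit 255) (nat_lit 143)))) (XT.nd (nat_lit 156) (nat_lit 0) (nat_lit 0) (XT.nd (nat_lit 78) (nat_lit 0) (nat_lit 0) (XT.lf (nat_lit 0) (nat_lit 311810068541) (nat_lit 76) (nat_lit 105870716522) (nat_lit 76) (nat_lit 86860648979) (nat_lit 3) (nat_lit 4) (nat_lit 4) (nat_lit 5) (nat_lit 4) (nat_lit 4) (nat_lit 383) (nat_lit 255) (nat_lit 142)) (XT.lf (nat_lit 0) (nat_lit 337451102990) (nat_lit 76) (nat_lit 105529723527) (nat_lit 76) (nat_lit 86515990524) (nat_lit 3) (nat_lit 4) (nat_lit 4) (nat_lit 5) (nat_lit 4) (nat_lit 4) (nat_lit 384) (nat_lit 255) (nat_lit 141))) (XT.nd (nat_lit 78) (nat_lit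 0) (nat_lit 0) (XT.lf (nat_lit 0) (nat_lit 364370450316) (nat_lit 76) (nat_lit 105173421931) (nat_lit 76) (nat_lit 86156198012) (nat_lit 3) (nat_lit 4) (nat_lit 4) (nat_lit 5) (nat_lit 4) (nat_lit 4) (nat_lit 385) (nat_lit 255) (nat_lit 140)) (XT.nd (nat_lit 31434) (nat_lit 0) (nat_lit 8664) (XT.lf (nat_lit 0) (nat_lit 392632204204) (nat_lit 76) (nat_lit 104800963395) (nat_lit 76) (nat_lit 85780414796) (nat_lit 3) (nat_lit 4) (nat_lit 4) (nat_lit 5) (nat_lit 4) (nat_lit 4) (nat_lit 386) (nat_lit 255) (nat_lit 139)) (XT.lf (nat_lit 0) (nat_lit 230031543) (nat_lit 380) (nat_lit 2859979130) (nat_lit 0) (nat_lit 230031543) (nat_lit 117) (nat_lit 5) (nat_lit 122) (nat_lit 4) (nat_lit 117) (nat_lit 4) (nat_lit 268) (nat_lit 256) (nat_lit 256)))))) (XT.nd (nat_lit 390) (nat_lit 1824) (nat_lit 0) (XT.nd (nat_lit 156) (nat_lit 1140) (nat_lit 0) (XT.nd (nat_lit 78) (nat_lit 380) (nat_lit 0) (XT.lf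 (nat_lit 0) (nat_lit 3442279488) (nat_lit 380) (nat_lit 1892140200) (nat_lit 0) (nat_lit 1359048518) (nat_lit 117) (nat_lit 5) (nat_lit 122) (nat_lit 4) (nat_lit 117) (nat_lit 4) (nat_lit 269) (nat_lit 256) (nat_lit 255)) (XT.lf (nat_lit 0) (nat_lit 2063571821) (nat_lit 380) (nat_lit 4380186333) (nat_lit 380) (nat_lit 312925866) (nat_lit 112) (nat_lit 4) (nat_lit 117) (nat_lit 5) (nat_lit 117) (nat_lit 4) (nat_lit 270) (nat_lit 256) (nat_lit 254))) (XT.nd (nat_lit 78) (nat_lit 1064) (nat_lit 0) (XT.lf (nat_lit 0) (nat_lit 2556570275) (nat_lit 456) (nat_lit 715843303) (nat_lit 76) (nat_lit 3555438542) (nat_lit 111) (nat_lit 5) (nat_lit 117) (nat_lit 5) (nat_lit 112) (nat_lit 4) (nat_lit 271) (nat_lit 256) (nat_lit 253)) (XT.nd (nat_lit 78) (nat_lit 608) (nat_lit 0) (XT.lf (nat_lit 0) (nat_lit 3438215608) (nat_lit 456) (nat_lit 2022565471) (nat_lit 532) (nat_lit 1447032378) (nat_lit 105)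 (nat_lit 5) (nat_lit 111) (nat_lit 5) (nat_lit 112) (nat_lit 4) (nat_lit 272) (nat_lit 256) (nat_lit 252)) (XT.lf (nat_lit 0) (nat_lit 701809118) (nat_lit 532) (nat_lit 641722321) (nat_lit 608) (nat_lit 5653896319) (nat_lit 97) (nat_lit 5) (nat_lit 104) (nat_lit 5) (nat_lit 105) (nat_lit 5) (nat_lit 273) (nat_lit 256) (nat_lit 251))))) (XT.nd (nat_lit 156) (nat_lit 1216) (nat_lit 0) (XT.nd (nat_lit 78) (nat_lit 608) (nat_lit 0) (XT.lf (nat_lit 0) (nat_lit 4153127645) (nat_lit 608) (nat_lit 2059927239) (nat_lit 76) (nat_lit 881375382) (nat_lit 97) (nat_lit 5) (nat_lit 105) (nat_lit 5) (nat_lit 98) (nat_lit 4) (nat_lit 274) (nat_lit 256) (nat_lit 250)) (XT.lf (nat_lit 0) (nat_lit 2321539433) (nat_lit 608) (nat_lit 4691090665) (nat_lit 684) (nat_lit 188657939) (nat_lit 89) (nat_lit 5) (nat_lit 97) (nat_lit 5) (nat_lit 98) (nat_lit 4) (nat_lit 275) (nat_lit 256) (nat_lit 249))) (XT.nd (nat_lit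 78) (nat_lit 1140) (nat_lit 0) (XT.lf (nat_lit 0) (nat_lit 2515198760) (nat_lit 684) (nat_lit 493509677) (nat_lit 76) (nat_lit 4308101009) (nat_lit 88) (nat_lit 5) (nat_lit 97) (nat_lit 5) (nat_lit 89) (nat_lit 5) (nat_lit 276) (nat_lit 256) (nat_lit 248)) (XT.nd (nat_lit 78) (nat_lit 456) (nat_lit 0) (XT.lf (nat_lit 0) (nat_lit 4114338700) (nat_lit 684) (nat_lit 1168844570) (nat_lit 760) (nat_lit 2158416846) (nat_lit 79) (nat_lit 5) (nat_lit 88) (nat_lit 5) (nat_lit 89) (nat_lit 5) (nat_lit 277) (nat_lit 256) (nat_lit 247)) (XT.lf (nat_lit 0) (nat_lit 511322559) (nat_lit 456) (nat_lit 6289437956) (nat_lit 76) (nat_lit 776054932) (nat_lit 73) (nat_lit 5) (nat_lit 79) (nat_lit 5) (nat_lit 74) (nat_lit 5) (nat_lit 278) (nat_lit 256) (nat_lit 246))))))) (XT.nd (nat_lit 780) (nat_lit 1140) (nat_lit 0) (XT.nd (nat_lit 390) (nat_lit 912) (nat_lit 0) (XT.nd (nat_lit 156) (nat_lit 684) (nat_lit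 0) (XT.nd (nat_lit 78) (nat_lit 380) (nat_lit 0) (XT.lf (nat_lit 0) (nat_lit 3195281361) (nat_lit 456) (nat_lit 1656391605) (nat_lit 76) (nat_lit 2868041459) (nat_lit 73) (nat_lit 5) (nat_lit 79) (nat_lit 5) (nat_lit 74) (nat_lit 5) (nat_lit 279) (nat_lit 256) (nat_lit 245)) (XT.lf (nat_lit 0) (nat_lit 3183324933) (nat_lit 380) (nat_lit 2762514236) (nat_lit 456) (nat_lit 1927637739) (nat_lit 68) (nat_lit 5) (nat_lit 73) (nat_lit 5) (nat_lit 74) (nat_lit 5) (nat_lit 280) (nat_lit 256) (nat_lit 244))) (XT.nd (nat_lit 78) (nat_lit 304) (nat_lit 0) (XT.lf (nat_lit 0) (nat_lit 151978963) (nat_lit 304) (nat_lit 536491784) (nat_lit 380) (nat_lit 7350387855) (nat_lit 63) (nat_lit 5) (nat_lit 67) (nat_lit 5) (nat_lit 68) (nat_lit 5) (nat_lit 281) (nat_lit 256) (nat_lit 243)) (XT.nd (nat_lit 78) (nat_lit 304) (nat_lit 0) (XT.lf (nat_lit 0) (nat_lit 3366920953) (nat_lit 380) (nat_lit 3003068221)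 (nat_lit 76) (nat_lit 1841416803) (nat_lit 63) (nat_lit 5) (nat_lit 68) (nat_lit 5) (nat_lit 64) (nat_lit 5) (nat_lit 282) (nat_lit 256) (nat_lit 242)) (XT.lf (nat_lit 0) (nat_lit 2055686488) (nat_lit 304) (nat_lit 4057325162) (nat_lit 380) (nat_lit 2283161749) (nat_lit 59) (nat_lit 5) (nat_lit 63) (nat_lit 5) (nat_lit 64) (nat_lit 5) (nat_lit 283) (nat_lit 256) (nat_lit 241))))) (XT.nd (nat_lit 156) (nat_lit 608) (nat_lit 0) (XT.nd (nat_lit 78) (nat_lit 228) (nat_lit 0) (XT.lf (nat_lit 0) (nat_lit 338948312) (nat_lit 380) (nat_lit 1251141095) (nat_lit 76) (nat_lit 7002739222) (nat_lit 58) (nat_lit 5) (nat_lit 63) (nat_lit 5) (nat_lit 59) (nat_lit 5) (nat_lit 284) (nat_lit 256) (nat_lit 240)) (XT.lf (nat_lit 0) (nat_lit 2994899836) (nat_lit 304) (nat_lit 4753082816) (nat_lit 76) (nat_lit 1050729910) (nat_lit 55) (nat_lit 5) (nat_lit 59) (nat_lit 5) (nat_lit 56) (nat_lit 5) (nat_lit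 285) (nat_lit 256) (nat_lit 239))) (XT.nd (nat_lit 78) (nat_lit 304) (nat_lit 0) (XT.lf (nat_lit 0) (nat_lit 501796404) (nat_lit 304) (nat_lit 5238958096) (nat_lit 380) (nat_lit 3276510100) (nat_lit 51) (nat_lit 5) (nat_lit 55) (nat_lit 5) (nat_lit 56) (nat_lit 5) (nat_lit 286) (nat_lit 256) (nat_lit 238)) (XT.nd (nat_lit 78) (nat_lit 304) (nat_lit 0) (XT.lf (nat_lit 0) (nat_lit 6061752607) (nat_lit 304) (nat_lit 2547080135) (nat_lit 380) (nat_lit 638883227) (nat_lit 51) (nat_lit 5) (nat_lit 55) (nat_lit 5) (nat_lit 56) (nat_lit 5) (nat_lit 287) (nat_lit 256) (nat_lit 237)) (XT.lf (nat_lit 0) (nat_lit 2011198105) (nat_lit 304) (nat_lit 7164854382) (nat_lit 76) (nat_lit 314733827) (nat_lit 47) (nat_lit 5) (nat_lit 51) (nat_lit 5) (nat_lit 48) (nat_lit 5) (nat_lit 288) (nat_lit 256) (nat_lit 236)))))) (XT.nd (nat_lit 390) (nat_lit 456) (nat_lit 0) (XT.nd (nat_lit 156) (nat_lit 456) (nat_lit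 0) (XT.nd (nat_lit 78) (nat_lit 228) (nat_lit 0) (XT.lf (nat_lit 0) (nat_lit 4778333237) (nat_lit 304) (nat_lit 1694819542) (nat_lit 76) (nat_lit 3272221253) (nat_lit 47) (nat_lit 5) (nat_lit 51) (nat_lit 5) (nat_lit 48) (nat_lit 5) (nat_lit 289) (nat_lit 256) (nat_lit 235)) (XT.lf (nat_lit 0) (nat_lit 4062135331) (nat_lit 228) (nat_lit 3598848855) (nat_lit 304) (nat_lit 2353028569) (nat_lit 44) (nat_lit 5) (nat_lit 47) (nat_lit 5) (nat_lit 48) (nat_lit 5) (nat_lit 290) (nat_lit 256) (nat_lit 234))) (XT.nd (nat_lit 78) (nat_lit 380) (nat_lit 0) (XT.lf (nat_lit 0) (nat_lit 322833795) (nat_lit 304) (nat_lit 253160161) (nat_lit 76) (nat_lit 9722762280) (nat_lit 43) (nat_lit 5) (nat_lit 47) (nat_lit 5) (nat_lit 44) (nat_lit 5) (nat_lit 291) (nat_lit 256) (nat_lit 233)) (XT.nd (nat_lit 78) (nat_lit 228) (nat_lit 0) (XT.lf (nat_lit 0) (nat_lit 3104183543) (nat_lit 228) (nat_lit 4873411654)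 (nat_lit 76) (nat_lit 2615829531) (nat_lit 41) (nat_lit 5) (nat_lit 44) (nat_lit 5) (nat_lit 42) (nat_lit 5) (nat_lit 292) (nat_lit 256) (nat_lit 232)) (XT.lf (nat_lit 0) (nat_lit 1006815802) (nat_lit 228) (nat_lit 4967558514) (nat_lit 304) (nat_lit 4931111386) (nat_lit 38) (nat_lit 5) (nat_lit 41) (nat_lit 5) (nat_lit 42) (nat_lit 5) (nat_lit 293) (nat_lit 256) (nat_lit 231))))) (XT.nd (nat_lit 156) (nat_lit 228) (nat_lit 0) (XT.nd (nat_lit 78) (nat_lit 228) (nat_lit 0) (XT.lf (nat_lit 0) (nat_lit 7238168232) (nat_lit 228) (nat_lit 1754741639) (nat_lit 304) (nat_lit 2240138792) (nat_lit 38) (nat_lit 5) (nat_lit 41) (nat_lit 5) (nat_lit 42) (nat_lit 5) (nat_lit 294) (nat_lit 256) (nat_lit 230)) (XT.lf (nat_lit 0) (nat_lit 550386799) (nat_lit 228) (nat_lit 9449631886) (nat_lit 76) (nat_lit 1577454721) (nat_lit 35) (nat_lit 5) (nat_lit 38) (nat_lit 5) (nat_lit 36) (nat_lit 5) (nat_lit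 295) (nat_lit 256) (nat_lit 229))) (XT.nd (nat_lit 78) (nat_lit 228) (nat_lit 0) (XT.lf (nat_lit 0) (nat_lit 3428719057) (nat_lit 228) (nat_lit 3417800514) (nat_lit 76) (nat_lit 5089706989) (nat_lit 35) (nat_lit 5) (nat_lit 38) (nat_lit 5) (nat_lit 36) (nat_lit 5) (nat_lit 296) (nat_lit 256) (nat_lit 228)) (XT.nd (nat_lit 78) (nat_lit 0) (nat_lit 0) (XT.lf (nat_lit 0) (nat_lit 2902956354) (nat_lit 228) (nat_lit 3522890237) (nat_lit 304) (nat_lit 5888442603) (nat_lit 32) (nat_lit 5) (nat_lit 35) (nat_lit 5) (nat_lit 36) (nat_lit 5) (nat_lit 297) (nat_lit 256) (nat_lit 227)) (XT.lf (nat_lit 0) (nat_lit 9554533462) (nat_lit 228) (nat_lit 7467235) (nat_lit 304) (nat_lit 3149905994) (nat_lit 32) (nat_lit 5) (nat_lit 35) (nat_lit 5) (nat_lit 36) (nat_lit 5) (nat_lit 298) (nat_lit 256) (nat_lit 226))))))))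
noncomputable def xc94 : XT := (XT.nd (nat_lit 1482) (nat_lit 532) (nat_lit 0) (XT.nd (nat_lit 702) (nat_lit 608) (nat_lit 0) (XT.nd (nat_lit 312) (nat_lit 380) (nat_lit 0) (XT.nd (nat_lit 156) (nat_lit 152) (nat_lit 0) (XT.nd (nat_lit 78) (nat_lit 76) (nat_lit 0) (XT.lf (nat_lit 0) (nat_lit 3357446754) (nat_lit 152) (nat_lit 9541485430) (nat_lit 228) (nat_lit 228379388) (nat_lit 30) (nat_lit 5) (nat_lit 32) (nat_lit 5) (nat_lit 33) (nat_lit 4) (nat_lit 299) (nat_lit 256) (nat_lit 225)) (XT.lf (nat_lit 0) (nat_lit 2737283825) (nat_lit 228) (nat_lit 3400919840) (nat_lit 76) (nat_lit 7423715194) (nat_lit 29) (nat_lit 5) (nat_lit 32) (nat_lit 5) (nat_lit 30) (nat_lit 5) (nat_lit 300) (nat_lit 256) (nat_lit 224))) (XT.nd (nat_lit 78) (nat_lit 0) (nat_lit 0) (XT.lf (nat_lit 0) (nat_lit 3290517873) (nat_lit 152) (nat_lit 2541994842) (nat_lit 228) (nat_lit 8186199418) (nat_lit 27) (nat_lit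 5) (nat_lit 29) (nat_lit 5) (nat_lit 30) (nat_lit 5) (nat_lit 301) (nat_lit 256) (nat_lit 223)) (XT.lf (nat_lit 0) (nat_lit 9098820870) (nat_lit 228) (nat_lit 4179617859) (nat_lit 76) (nat_lit 1219176827) (nat_lit 27) (nat_lit 5) (nat_lit 30) (nat_lit 5) (nat_lit 28) (nat_lit 4) (nat_lit 302) (nat_lit 256) (nat_lit 222)))) (XT.nd (nat_lit 156) (nat_lit 152) (nat_lit 0) (XT.nd (nat_lit 78) (nat_lit 76) (nat_lit 0) (XT.lf (nat_lit 0) (nat_lit 2645540022) (nat_lit 152) (nat_lit 9907319624) (nat_lit 228) (nat_lit 2446466010) (nat_lit 25) (nat_lit 5) (nat_lit 27) (nat_lit 5) (nat_lit 28) (nat_lit 4) (nat_lit 303) (nat_lit 256) (nat_lit 221)) (XT.lf (nat_lit 0) (nat_lit 646280037) (nat_lit 228) (nat_lit 5671217700) (nat_lit 76) (nat_lit 9207502188) (nat_lit 24) (nat_lit 5) (nat_lit 27) (nat_lit 5) (nat_lit 25) (nat_lit 5) (nat_lit 304) (nat_lit 256) (nat_lit 220))) (XT.nd (nat_lit 78) (nat_lit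 0) (nat_lit 0) (XT.lf (nat_lit 0) (nat_lit 1255720387) (nat_lit 152) (nat_lit 2519875879) (nat_lit 228) (nat_lit 12301219897) (nat_lit 22) (nat_lit 5) (nat_lit 24) (nat_lit 5) (nat_lit 25) (nat_lit 5) (nat_lit 305) (nat_lit 256) (nat_lit 219)) (XT.nd (nat_lit 78) (nat_lit 0) (nat_lit 0) (XT.lf (nat_lit 0) (nat_lit 7127182956) (nat_lit 228) (nat_lit 8040649505) (nat_lit 76) (nat_lit 1485168199) (nat_lit 22) (nat_lit 5) (nat_lit 25) (nat_lit 5) (nat_lit 23) (nat_lit 4) (nat_lit 306) (nat_lit 256) (nat_lit 218)) (XT.lf (nat_lit 0) (nat_lit 10635536093) (nat_lit 228) (nat_lit 1048811794) (nat_lit 76) (nat_lit 5574251596) (nat_lit 22) (nat_lit 5) (nat_lit 25) (nat_lit 5) (nat_lit 23) (nat_lit 4) (nat_lit 307) (nat_lit 256) (nat_lit 217)))))) (XT.nd (nat_lit 390) (nat_lit 304) (nat_lit 0) (XT.nd (nat_lit 156) (nat_lit 228) (nat_lit 0) (XT.nd (nat_lit 78) (nat_lit 0) (nat_lit 0) (XT.lf (nat_lit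 0) (nat_lit 6415751009) (nat_lit 76) (nat_lit 7954083417) (nat_lit 152) (nat_lit 3522178830) (nat_lit 21) (nat_lit 5) (nat_lit 22) (nat_lit 5) (nat_lit 23) (nat_lit 4) (nat_lit 308) (nat_lit 256) (nat_lit 216)) (XT.lf (nat_lit 0) (nat_lit 14209069423) (nat_lit 76) (nat_lit 4051001061) (nat_lit 152) (nat_lit 298624557) (nat_lit 21) (nat_lit 5) (nat_lit 22) (nat_lit 5) (nat_lit 23) (nat_lit 4) (nat_lit 309) (nat_lit 256) (nat_lit 215))) (XT.nd (nat_lit 78) (nat_lit 0) (nat_lit 0) (XT.lf (nat_lit 0) (nat_lit 2990614204) (nat_lit 228) (nat_lit 16152183581) (nat_lit 76) (nat_lit 113392944) (nat_lit 18) (nat_lit 5) (nat_lit 21) (nat_lit 5) (nat_lit 19) (nat_lit 4) (nat_lit 310) (nat_lit 256) (nat_lit 214)) (XT.nd (nat_lit 78) (nat_lit 0) (nat_lit 0) (XT.lf (nat_lit 0) (nat_lit 6529062224) (nat_lit 228) (nat_lit 9055294635) (nat_lit 76) (nat_lit 4399270921) (nat_lit 18) (nat_lit 5) (nat_lit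 21) (nat_lit 5) (nat_lit 19) (nat_lit 4) (nat_lit 311) (nat_lit 256) (nat_lit 213)) (XT.lf (nat_lit 0) (nat_lit 10200149409) (nat_lit 228) (nat_lit 1679022565) (nat_lit 76) (nat_lit 8870526968) (nat_lit 18) (nat_lit 5) (nat_lit 21) (nat_lit 5) (nat_lit 19) (nat_lit 4) (nat_lit 312) (nat_lit 256) (nat_lit 212))))) (XT.nd (nat_lit 156) (nat_lit 228) (nat_lit 0) (XT.nd (nat_lit 78) (nat_lit 0) (nat_lit 0) (XT.lf (nat_lit 0) (nat_lit 6192390344) (nat_lit 76) (nat_lit 7916906668) (nat_lit 152) (nat_lit 7442097155) (nat_lit 17) (nat_lit 5) (nat_lit 18) (nat_lit 5) (nat_lit 19) (nat_lit 4) (nat_lit 313) (nat_lit 256) (nat_lit 211)) (XT.lf (nat_lit 0) (nat_lit 14444957005) (nat_lit 76) (nat_lit 3756109889) (nat_lit 152) (nat_lit 4192792641) (nat_lit 17) (nat_lit 5) (nat_lit 18) (nat_lit 5) (nat_lit 19) (nat_lit 4) (nat_lit 314) (nat_lit 256) (nat_lit 210))) (XT.nd (nat_lit 78) (nat_lit 228)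 (nat_lit 0) (XT.lf (nat_lit 0) (nat_lit 22467249004) (nat_lit 152) (nat_lit 246773299) (nat_lit 0) (nat_lit 565976231) (nat_lit 17) (nat_lit 5) (nat_lit 19) (nat_lit 4) (nat_lit 17) (nat_lit 4) (nat_lit 315) (nat_lit 256) (nat_lit 209)) (XT.nd (nat_lit 78) (nat_lit 0) (nat_lit 0) (XT.lf (nat_lit 0) (nat_lit 2799240095) (nat_lit 228) (nat_lit 16279933780) (nat_lit 76) (nat_lit 5121646086) (nat_lit 14) (nat_lit 5) (nat_lit 17) (nat_lit 5) (nat_lit 15) (nat_lit 4) (nat_lit 316) (nat_lit 256) (nat_lit 208)) (XT.lf (nat_lit 0) (nat_lit 6531063390) (nat_lit 228) (nat_lit 8741222886) (nat_lit 76) (nat_lit 9896438492) (nat_lit 14) (nat_lit 5) (nat_lit 17) (nat_lit 5) (nat_lit 15) (nat_lit 4) (nat_lit 317) (nat_lit 256) (nat_lit 207))))))) (XT.nd (nat_lit 780) (nat_lit 228) (nat_lit 0) (XT.nd (nat_lit 390) (nat_lit 152) (nat_lit 0) (XT.nd (nat_lit 156) (nat_lit 76) (nat_lit 0) (XT.nd (nat_lit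 78) (nat_lit 76) (nat_lit 0) (XT.lf (nat_lit 0) (nat_lit 10413573243) (nat_lit 228) (nat_lit 888293746) (nat_lit 76) (nat_lit 14884987240) (nat_lit 14) (nat_lit 5) (nat_lit 17) (nat_lit 5) (nat_lit 15) (nat_lit 4) (nat_lit 318) (nat_lit 256) (nat_lit 206)) (XT.lf (nat_lit 0) (nat_lit 7538841086) (nat_lit 76) (nat_lit 7034875075) (nat_lit 152) (nat_lit 12678031176) (nat_lit 13) (nat_lit 5) (nat_lit 14) (nat_lit 5) (nat_lit 15) (nat_lit 4) (nat_lit 319) (nat_lit 256) (nat_lit 205))) (XT.nd (nat_lit 78) (nat_lit 76) (nat_lit 0) (XT.lf (nat_lit 0) (nat_lit 16359404854) (nat_lit 76) (nat_lit 2564020997) (nat_lit 152) (nat_lit 9447412275) (nat_lit 13) (nat_lit 5) (nat_lit 14) (nat_lit 5) (nat_lit 15) (nat_lit 4) (nat_lit 320) (nat_lit 256) (nat_lit 204)) (XT.nd (nat_lit 78) (nat_lit 76) (nat_lit 0) (XT.lf (nat_lit 0) (nat_lit 23491616635) (nat_lit 152) (nat_lit 4015364758) (nat_lit 0) (nat_lit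 2038881809) (nat_lit 13) (nat_lit 5) (nat_lit 15) (nat_lit 4) (nat_lit 13) (nat_lit 4) (nat_lit 321) (nat_lit 256) (nat_lit 203)) (XT.lf (nat_lit 0) (nat_lit 4425629475) (nat_lit 76) (nat_lit 23942988019) (nat_lit 76) (nat_lit 2407030133) (nat_lit 12) (nat_lit 4) (nat_lit 13) (nat_lit 5) (nat_lit 13) (nat_lit 4) (nat_lit 322) (nat_lit 256) (nat_lit 202))))) (XT.nd (nat_lit 156) (nat_lit 76) (nat_lit 0) (XT.nd (nat_lit 78) (nat_lit 0) (nat_lit 0) (XT.lf (nat_lit 0) (nat_lit 1415511411) (nat_lit 152) (nat_lit 18713419551) (nat_lit 76) (nat_lit 11934980587) (nat_lit 11) (nat_lit 5) (nat_lit 13) (nat_lit 5) (nat_lit 12) (nat_lit 4) (nat_lit 323) (nat_lit 256) (nat_lit 201)) (XT.lf (nat_lit 0) (nat_lit 5319123983) (nat_lit 152) (nat_lit 10786499547) (nat_lit 76) (nat_lit 17310474657) (nat_lit 11) (nat_lit 5) (nat_lit 13) (nat_lit 5) (nat_lit 12) (nat_lit 4) (nat_lit 324) (nat_lit 256) (nat_lit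 200))) (XT.nd (nat_lit 78) (nat_lit 76) (nat_lit 0) (XT.lf (nat_lit 0) (nat_lit 9390141897) (nat_lit 152) (nat_lit 2512804033) (nat_lit 76) (nat_lit 22934360127) (nat_lit 11) (nat_lit 5) (nat_lit 13) (nat_lit 5) (nat_lit 12) (nat_lit 4) (nat_lit 325) (nat_lit 256) (nat_lit 199)) (XT.nd (nat_lit 78) (nat_lit 0) (nat_lit 0) (XT.lf (nat_lit 0) (nat_lit 6329964664) (nat_lit 76) (nat_lit 7407121875) (nat_lit 152) (nat_lit 22588891026) (nat_lit 10) (nat_lit 5) (nat_lit 11) (nat_lit 5) (nat_lit 12) (nat_lit 4) (nat_lit 326) (nat_lit 256) (nat_lit 198)) (XT.lf (nat_lit 0) (nat_lit 15655662138) (nat_lit 76) (nat_lit 2662353630) (nat_lit 152) (nat_lit 19570255996) (nat_lit 10) (nat_lit 5) (nat_lit 11) (nat_lit 5) (nat_lit 12) (nat_lit 4) (nat_lit 327) (nat_lit 256) (nat_lit 197)))))) (XT.nd (nat_lit 390) (nat_lit 152) (nat_lit 0) (XT.nd (nat_lit 156) (nat_lit 76) (nat_lit 0) (XT.nd (nat_lit 78)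 (nat_lit 0) (nat_lit 0) (XT.lf (nat_lit 0) (nat_lit 23139218474) (nat_lit 152) (nat_lit 14162438090) (nat_lit 0) (nat_lit 2226482744) (nat_lit 10) (nat_lit 5) (nat_lit 12) (nat_lit 4) (nat_lit 10) (nat_lit 4) (nat_lit 328) (nat_lit 256) (nat_lit 196)) (XT.lf (nat_lit 0) (nat_lit 28221327153) (nat_lit 152) (nat_lit 5775437041) (nat_lit 0) (nat_lit 7252262779) (nat_lit 10) (nat_lit 5) (nat_lit 12) (nat_lit 4) (nat_lit 10) (nat_lit 4) (nat_lit 329) (nat_lit 256) (nat_lit 195))) (XT.nd (nat_lit 78) (nat_lit 0) (nat_lit 0) (XT.lf (nat_lit 0) (nat_lit 3088789940) (nat_lit 76) (nat_lit 30494309988) (nat_lit 76) (nat_lit 9471599287) (nat_lit 9) (nat_lit 4) (nat_lit 10) (nat_lit 5) (nat_lit 10) (nat_lit 4) (nat_lit 330) (nat_lit 256) (nat_lit 194)) (XT.nd (nat_lit 78) (nat_lit 0) (nat_lit 0) (XT.lf (nat_lit 0) (nat_lit 12556414759) (nat_lit 76) (nat_lit 26732140168) (nat_lit 76) (nat_lit 5658337727)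 (nat_lit 9) (nat_lit 4) (nat_lit 10) (nat_lit 5) (nat_lit 10) (nat_lit 4) (nat_lit 331) (nat_lit 256) (nat_lit 193)) (XT.lf (nat_lit 0) (nat_lit 22459017348) (nat_lit 76) (nat_lit 22799107008) (nat_lit 76) (nat_lit 1676645767) (nat_lit 9) (nat_lit 4) (nat_lit 10) (nat_lit 5) (nat_lit 10) (nat_lit 4) (nat_lit 332) (nat_lit 256) (nat_lit 192))))) (XT.nd (nat_lit 156) (nat_lit 76) (nat_lit 0) (XT.nd (nat_lit 78) (nat_lit 0) (nat_lit 0) (XT.lf (nat_lit 0) (nat_lit 2403486687) (nat_lit 152) (nat_lit 16241655246) (nat_lit 76) (nat_lit 30375984436) (nat_lit 8) (nat_lit 5) (nat_lit 10) (nat_lit 5) (nat_lit 9) (nat_lit 4) (nat_lit 333) (nat_lit 256) (nat_lit 191)) (XT.lf (nat_lit 0) (nat_lit 6611759206) (nat_lit 152) (nat_lit 7658831549) (nat_lit 76) (nat_lit 36940825590) (nat_lit 8) (nat_lit 5) (nat_lit 10) (nat_lit 5) (nat_lit 9) (nat_lit 4) (nat_lit 334) (nat_lit 256) (nat_lit 190))) (XT.nd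 (nat_lit 78) (nat_lit 0) (nat_lit 0) (XT.lf (nat_lit 0) (nat_lit 1362953783) (nat_lit 76) (nat_lit 9670180365) (nat_lit 152) (nat_lit 42477965757) (nat_lit 7) (nat_lit 5) (nat_lit 8) (nat_lit 5) (nat_lit 9) (nat_lit 4) (nat_lit 335) (nat_lit 256) (nat_lit 189)) (XT.nd (nat_lit 78) (nat_lit 0) (nat_lit 0) (XT.lf (nat_lit 0) (nat_lit 11068468339) (nat_lit 76) (nat_lit 4718590819) (nat_lit 152) (nat_lit 40133147302) (nat_lit 7) (nat_lit 5) (nat_lit 8) (nat_lit 5) (nat_lit 9) (nat_lit 4) (nat_lit 336) (nat_lit 256) (nat_lit 188)) (XT.lf (nat_lit 0) (nat_lit 20768603212) (nat_lit 152) (nat_lit 37230343176) (nat_lit 0) (nat_lit 451338087) (nat_lit 7) (nat_lit 5) (nat_lit 9) (nat_lit 4) (nat_lit 7) (nat_lit 4) (nat_lit 337) (nat_lit 256) (nat_lit 187))))))))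
noncomputable def xc95 : XT := (XT.nd (nat_lit 1560) (nat_lit 76) (nat_lit 0) (XT.nd (nat_lit 780) (nat_lit 152) (nat_lit 0) (XT.nd (nat_lit 390) (nat_lit 0) (nat_lit 0) (XT.nd (nat_lit 156) (nat_lit 76) (nat_lit 0) (XT.nd (nat_lit 78) (nat_lit 0) (nat_lit 0) (XT.lf (nat_lit 0) (nat_lit 26059835195) (nat_lit 152) (nat_lit 29336023174) (nat_lit 0) (nat_lit 5707989170) (nat_lit 7) (nat_lit 5) (nat_lit 9) (nat_lit 4) (nat_lit 7) (nat_lit 4) (nat_lit 338) (nat_lit 256) (nat_lit 186)) (XT.lf (nat_lit 0) (nat_lit 31599682854) (nat_lit 152) (nat_lit 21076311690) (nat_lit 0) (nat_lit 11214902637) (nat_lit 7) (nat_lit 5) (nat_lit 9) (nat_lit 4) (nat_lit 7) (nat_lit 4) (nat_lit 339) (nat_lit 256) (nat_lit 185))) (XT.nd (nat_lit 78) (nat_lit 76) (nat_lit 0) (XT.lf (nat_lit 0) (nat_lit 37401336301) (nat_lit 152) (nat_lit 12431542745) (nat_lit 0) (nat_lit 16985190188) (nat_lit 7) (nat_lit 5) (nat_lit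 9) (nat_lit 4) (nat_lit 7) (nat_lit 4) (nat_lit 340) (nat_lit 256) (nat_lit 184)) (XT.nd (nat_lit 78) (nat_lit 76) (nat_lit 0) (XT.lf (nat_lit 0) (nat_lit 43478608997) (nat_lit 152) (nat_lit 3381133555) (nat_lit 0) (nat_lit 23032590602) (nat_lit 7) (nat_lit 5) (nat_lit 9) (nat_lit 4) (nat_lit 7) (nat_lit 4) (nat_lit 341) (nat_lit 256) (nat_lit 183)) (XT.lf (nat_lit 0) (nat_lit 6298041120) (nat_lit 76) (nat_lit 43646259592) (nat_lit 76) (nat_lit 23171791404) (nat_lit 6) (nat_lit 4) (nat_lit 7) (nat_lit 5) (nat_lit 7) (nat_lit 4) (nat_lit 342) (nat_lit 256) (nat_lit 182))))) (XT.nd (nat_lit 156) (nat_lit 0) (nat_lit 0) (XT.nd (nat_lit 78) (nat_lit 0) (nat_lit 0) (XT.lf (nat_lit 0) (nat_lit 16553636805) (nat_lit 76) (nat_lit 40223393470) (nat_lit 76) (nat_lit 19721830242) (nat_lit 6) (nat_lit 4) (nat_lit 7) (nat_lit 5) (nat_lit 7) (nat_lit 4) (nat_lit 343) (nat_lit 256) (nat_lit 181))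 (XT.lf (nat_lit 0) (nat_lit 27298276039) (nat_lit 76) (nat_lit 36640255640) (nat_lit 76) (nat_lit 16112887611) (nat_lit 6) (nat_lit 4) (nat_lit 7) (nat_lit 5) (nat_lit 7) (nat_lit 4) (nat_lit 344) (nat_lit 256) (nat_lit 180))) (XT.nd (nat_lit 78) (nat_lit 0) (nat_lit 0) (XT.lf (nat_lit 0) (nat_lit 38557541297) (nat_lit 76) (nat_lit 32888314820) (nat_lit 76) (nat_lit 12336370791) (nat_lit 6) (nat_lit 4) (nat_lit 7) (nat_lit 5) (nat_lit 7) (nat_lit 4) (nat_lit 345) (nat_lit 256) (nat_lit 179)) (XT.nd (nat_lit 78) (nat_lit 0) (nat_lit 0) (XT.lf (nat_lit 0) (nat_lit 50358240353) (nat_lit 76) (nat_lit 28958637819) (nat_lit 76) (nat_lit 8383288075) (nat_lit 6) (nat_lit 4) (nat_lit 7) (nat_lit 5) (nat_lit 7) (nat_lit 4) (nat_lit 346) (nat_lit 256) (nat_lit 178)) (XT.lf (nat_lit 0) (nat_lit 62728470109) (nat_lit 76) (nat_lit 24841868263) (nat_lit 76) (nat_lit 4244227361) (nat_lit 6) (nat_lit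 4) (nat_lit 7) (nat_lit 5) (nat_lit 7) (nat_lit 4) (nat_lit 347) (nat_lit 256) (nat_lit 177)))))) (XT.nd (nat_lit 390) (nat_lit 0) (nat_lit 0) (XT.nd (nat_lit 156) (nat_lit 76) (nat_lit 0) (XT.nd (nat_lit 78) (nat_lit 0) (nat_lit 0) (XT.lf (nat_lit 0) (nat_lit 87764369) (nat_lit 152) (nat_lit 20438953616) (nat_lit 76) (nat_lit 75608432792) (nat_lit 5) (nat_lit 5) (nat_lit 7) (nat_lit 5) (nat_lit 6) (nat_lit 4) (nat_lit 348) (nat_lit 256) (nat_lit 176)) (XT.lf (nat_lit 0) (nat_lit 4483470181) (nat_lit 152) (nat_lit 11447975439) (nat_lit 76) (nat_lit 84737359669) (nat_lit 5) (nat_lit 5) (nat_lit 7) (nat_lit 5) (nat_lit 6) (nat_lit 4) (nat_lit 349) (nat_lit 256) (nat_lit 175))) (XT.nd (nat_lit 78) (nat_lit 76) (nat_lit 0) (XT.lf (nat_lit 0) (nat_lit 9089197820) (nat_lit 152) (nat_lit 2025489718) (nat_lit 76) (nat_lit 94314949356) (nat_lit 5) (nat_lit 5) (nat_lit 7) (nat_lit 5) (nat_lit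 6) (nat_lit 4) (nat_lit 350) (nat_lit 256) (nat_lit 174)) (XT.nd (nat_lit 78) (nat_lit 0) (nat_lit 0) (XT.lf (nat_lit 0) (nat_lit 8110525502) (nat_lit 76) (nat_lit 5932015835) (nat_lit 152) (nat_lit 96380108171) (nat_lit 4) (nat_lit 5) (nat_lit 5) (nat_lit 5) (nat_lit 6) (nat_lit 4) (nat_lit 351) (nat_lit 256) (nat_lit 173)) (XT.lf (nat_lit 0) (nat_lit 18806756795) (nat_lit 76) (nat_lit 461978200) (nat_lit 152) (nat_lit 96395324231) (nat_lit 4) (nat_lit 5) (nat_lit 5) (nat_lit 5) (nat_lit 6) (nat_lit 4) (nat_lit 352) (nat_lit 256) (nat_lit 172))))) (XT.nd (nat_lit 156) (nat_lit 0) (nat_lit 0) (XT.nd (nat_lit 78) (nat_lit 0) (nat_lit 0) (XT.lf (nat_lit 0) (nat_lit 24829897130) (nat_lit 152) (nat_lit 91228623724) (nat_lit 0) (nat_lit 5105340987) (nat_lit 4) (nat_lit 5) (nat_lit 6) (nat_lit 4) (nat_lit 4) (nat_lit 4) (nat_lit 353) (nat_lit 256) (nat_lit 171)) (XT.lf (nat_lit 0) (nat_lit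 30668308710) (nat_lit 152) (nat_lit 85341726374) (nat_lit 0) (nat_lit 10928665035) (nat_lit 4) (nat_lit 5) (nat_lit 6) (nat_lit 4) (nat_lit 4) (nat_lit 4) (nat_lit 354) (nat_lit 256) (nat_lit 170))) (XT.nd (nat_lit 78) (nat_lit 0) (nat_lit 0) (XT.lf (nat_lit 0) (nat_lit 36790657941) (nat_lit 152) (nat_lit 79175381185) (nat_lit 0) (nat_lit 17036645188) (nat_lit 4) (nat_lit 5) (nat_lit 6) (nat_lit 4) (nat_lit 4) (nat_lit 4) (nat_lit 355) (nat_lit 256) (nat_lit 169)) (XT.nd (nat_lit 78) (nat_lit 0) (nat_lit 0) (XT.lf (nat_lit 0) (nat_lit 43211521845) (nat_lit 152) (nat_lit 72714906383) (nat_lit 0) (nat_lit 23443824254) (nat_lit 4) (nat_lit 5) (nat_lit 6) (nat_lit 4) (nat_lit 4) (nat_lit 4) (nat_lit 356) (nat_lit 256) (nat_lit 168)) (XT.lf (nat_lit 0) (nat_lit 49946188192) (nat_lit 152) (nat_lit 65944919883) (nat_lit 0) (nat_lit 30165457424) (nat_lit 4) (nat_lit 5) (nat_lit 6) (nat_lit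 4) (nat_lit 4) (nat_lit 4) (nat_lit 357) (nat_lit 256) (nat_lit 167))))))) (XT.nd (nat_lit 780) (nat_lit 0) (nat_lit 0) (XT.nd (nat_lit 390) (nat_lit 76) (nat_lit 0) (XT.nd (nat_lit 156) (nat_lit 0) (nat_lit 0) (XT.nd (nat_lit 78) (nat_lit 0) (nat_lit 0) (XT.lf (nat_lit 0) (nat_lit 57010691904) (nat_lit 152) (nat_lit 58849302672) (nat_lit 0) (nat_lit 37217548585) (nat_lit 4) (nat_lit 5) (nat_lit 6) (nat_lit 4) (nat_lit 4) (nat_lit 4) (nat_lit 358) (nat_lit 256) (nat_lit 166)) (XT.lf (nat_lit 0) (nat_lit 64421853225) (nat_lit 152) (nat_lit 51411160422) (nat_lit 0) (nat_lit 44616888430) (nat_lit 4) (nat_lit 5) (nat_lit 6) (nat_lit 4) (nat_lit 4) (nat_lit 4) (nat_lit 359) (nat_lit 256) (nat_lit 165))) (XT.nd (nat_lit 78) (nat_lit 0) (nat_lit 0) (XT.lf (nat_lit 0) (nat_lit 72197317780) (nat_lit 152) (nat_lit 43612783270) (nat_lit 0) (nat_lit 52381094436) (nat_lit 4) (nat_lit 5) (nat_lit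 6) (nat_lit 4) (nat_lit 4) (nat_lit 4) (nat_lit 360) (nat_lit 256) (nat_lit 164)) (XT.nd (nat_lit 78) (nat_lit 0) (nat_lit 0) (XT.lf (nat_lit 0) (nat_lit 80355598578) (nat_lit 152) (nat_lit 35435603653) (nat_lit 0) (nat_lit 60528652807) (nat_lit 4) (nat_lit 5) (nat_lit 6) (nat_lit 4) (nat_lit 4) (nat_lit 4) (nat_lit 361) (nat_lit 256) (nat_lit 163)) (XT.lf (nat_lit 0) (nat_lit 88916120098) (nat_lit 152) (nat_lit 26860152095) (nat_lit 0) (nat_lit 69078962491) (nat_lit 4) (nat_lit 5) (nat_lit 6) (nat_lit 4) (nat_lit 4) (nat_lit 4) (nat_lit 362) (nat_lit 256) (nat_lit 162))))) (XT.nd (nat_lit 156) (nat_lit 76) (nat_lit 0) (XT.nd (nat_lit 78) (nat_lit 0) (nat_lit 0) (XT.lf (nat_lit 0) (nat_lit 97899264534) (nat_lit 152) (nat_lit 17866010854) (nat_lit 0) (nat_lit 78052381369) (nat_lit 4) (nat_lit 5) (nat_lit 6) (nat_lit 4) (nat_lit 4) (nat_lit 4) (nat_lit 363) (nat_lit 256) (nat_lit 161))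 (XT.lf (nat_lit 0) (nat_lit 107326420325) (nat_lit 152) (nat_lit 8431765308) (nat_lit 0) (nat_lit 87470274723) (nat_lit 4) (nat_lit 5) (nat_lit 6) (nat_lit 4) (nat_lit 4) (nat_lit 4) (nat_lit 364) (nat_lit 256) (nat_lit 160))) (XT.nd (nat_lit 78) (nat_lit 0) (nat_lit 0) (XT.lf (nat_lit 0) (nat_lit 1513488103) (nat_lit 76) (nat_lit 115730174768) (nat_lit 76) (nat_lit 95865207798) (nat_lit 3) (nat_lit 4) (nat_lit 4) (nat_lit 5) (nat_lit 4) (nat_lit 4) (nat_lit 365) (nat_lit 256) (nat_lit 159)) (XT.nd (nat_lit 78) (nat_lit 0) (nat_lit 0) (XT.lf (nat_lit 0) (nat_lit 12239738062) (nat_lit 76) (nat_lit 115555017570) (nat_lit 76) (nat_lit 95681649298) (nat_lit 3) (nat_lit 4) (nat_lit 4) (nat_lit 5) (nat_lit 4) (nat_lit 4) (nat_lit 366) (nat_lit 256) (nat_lit 158)) (XT.lf (nat_lit 0) (nat_lit 23493731019) (nat_lit 76) (nat_lit 115375093026) (nat_lit 76) (nat_lit 95493723514) (nat_lit 3) (nat_lit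 4) (nat_lit 4) (nat_lit 5) (nat_lit 4) (nat_lit 4) (nat_lit 367) (nat_lit 256) (nat_lit 157)))))) (XT.nd (nat_lit 390) (nat_lit 0) (nat_lit 0) (XT.nd (nat_lit 156) (nat_lit 0) (nat_lit 0) (XT.nd (nat_lit 78) (nat_lit 0) (nat_lit 0) (XT.lf (nat_lit 0) (nat_lit 35302262195) (nat_lit 76) (nat_lit 115189972744) (nat_lit 76) (nat_lit 95300983002) (nat_lit 3) (nat_lit 4) (nat_lit 4) (nat_lit 5) (nat_lit 4) (nat_lit 4) (nat_lit 368) (nat_lit 256) (nat_lit 156)) (XT.lf (nat_lit 0) (nat_lit 47693447140) (nat_lit 76) (nat_lit 114999215960) (nat_lit 76) (nat_lit 95102968857) (nat_lit 3) (nat_lit 4) (nat_lit 4) (nat_lit 5) (nat_lit 4) (nat_lit 4) (nat_lit 369) (nat_lit 256) (nat_lit 155))) (XT.nd (nat_lit 78) (nat_lit 0) (nat_lit 0) (XT.lf (nat_lit 0) (nat_lit 60696788677) (nat_lit 76) (nat_lit 114802368493) (nat_lit 76) (nat_lit 94899209617) (nat_lit 3) (nat_lit 4) (nat_lit 4) (nat_lit 5) (nat_lit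 4) (nat_lit 4) (nat_lit 370) (nat_lit 256) (nat_lit 154)) (XT.nd (nat_lit 78) (nat_lit 0) (nat_lit 0) (XT.lf (nat_lit 0) (nat_lit 74343247141) (nat_lit 76) (nat_lit 114598961656) (nat_lit 76) (nat_lit 94689220141) (nat_lit 3) (nat_lit 4) (nat_lit 4) (nat_lit 5) (nat_lit 4) (nat_lit 4) (nat_lit 371) (nat_lit 256) (nat_lit 153)) (XT.lf (nat_lit 0) (nat_lit 88665314100) (nat_lit 76) (nat_lit 114388511150) (nat_lit 76) (nat_lit 94472500453) (nat_lit 3) (nat_lit 4) (nat_lit 4) (nat_lit 5) (nat_lit 4) (nat_lit 4) (nat_lit 372) (nat_lit 256) (nat_lit 152))))) (XT.nd (nat_lit 156) (nat_lit 0) (nat_lit 0) (XT.nd (nat_lit 78) (nat_lit 0) (nat_lit 0) (XT.lf (nat_lit 0) (nat_lit 103697089715) (nat_lit 76) (nat_lit 114170515900) (nat_lit 76) (nat_lit 94248534554) (nat_lit 3) (nat_lit 4) (nat_lit 4) (nat_lit 5) (nat_lit 4) (nat_lit 4) (nat_lit 373) (nat_lit 256) (nat_lit 151)) (XT.lf (nat_lit 0)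 (nat_lit 119474363927) (nat_lit 76) (nat_lit 113944456871) (nat_lit 76) (nat_lit 94016789193) (nat_lit 3) (nat_lit 4) (nat_lit 4) (nat_lit 5) (nat_lit 4) (nat_lit 4) (nat_lit 374) (nat_lit 256) (nat_lit 150))) (XT.nd (nat_lit 78) (nat_lit 0) (nat_lit 0) (XT.lf (nat_lit 0) (nat_lit 136034701674) (nat_lit 76) (nat_lit 113709795827) (nat_lit 76) (nat_lit 93776712594) (nat_lit 3) (nat_lit 4) (nat_lit 4) (nat_lit 5) (nat_lit 4) (nat_lit 4) (nat_lit 375) (nat_lit 256) (nat_lit 149)) (XT.nd (nat_lit 78) (nat_lit 0) (nat_lit 0) (XT.lf (nat_lit 0) (nat_lit 153417532333) (nat_lit 76) (nat_lit 113465974051) (nat_lit 76) (nat_lit 93527733147) (nat_lit 3) (nat_lit 4) (nat_lit 4) (nat_lit 5) (nat_lit 4) (nat_lit 4) (nat_lit 376) (nat_lit 256) (nat_lit 148)) (XT.lf (nat_lit 0) (nat_lit 171664243594) (nat_lit 76) (nat_lit 113212411015) (nat_lit 76) (nat_lit 93269258044) (nat_lit 3) (nat_lit 4) (nat_lit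 4) (nat_lit 5) (nat_lit 4) (nat_lit 4) (nat_lit 377) (nat_lit 256) (nat_lit 147))))))))
noncomputable def xc96 : XT := (XT.nd (nat_lit 32682) (nat_lit 0) (nat_lit 2660) (XT.nd (nat_lit 31902) (nat_lit 0) (nat_lit 6460) (XT.nd (nat_lit 312) (nat_lit 0) (nat_lit 0) (XT.nd (nat_lit 156) (nat_lit 0) (nat_lit 0) (XT.nd (nat_lit 78) (nat_lit 0) (nat_lit 0) (XT.lf (nat_lit 0) (nat_lit 190818280009) (nat_lit 76) (nat_lit 112948502998) (nat_lit 76) (nat_lit 93000671867) (nat_lit 3) (nat_lit 4) (nat_lit 4) (nat_lit 5) (nat_lit 4) (nat_lit 4) (nat_lit 378) (nat_lit 256) (nat_lit 146)) (XT.lf (nat_lit 0) (nat_lit 210925246427) (nat_lit 76) (nat_lit 112673621647) (nat_lit 76) (nat_lit 92721335125) (nat_lit 3) (nat_lit 4) (nat_lit 4) (nat_lit 5) (nat_lit 4) (nat_lit 4) (nat_lit 379) (nat_lit 256) (nat_lit 145))) (XT.nd (nat_lit 78) (nat_lit 0) (nat_lit 0) (XT.lf (nat_lit 0) (nat_lit 232033016577)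 (nat_lit 76) (nat_lit 112387112482) (nat_lit 76) (nat_lit 92430582732) (nat_lit 3) (nat_lit 4) (nat_lit 4) (nat_lit 5) (nat_lit 4) (nat_lit 4) (nat_lit 380) (nat_lit 256) (nat_lit 144)) (XT.lf (nat_lit 0) (nat_lit 254191847054) (nat_lit 76) (nat_lit 112088293340) (nat_lit 76) (nat_lit 92127722419) (nat_lit 3) (nat_lit 4) (nat_lit 4) (nat_lit 5) (nat_lit 4) (nat_lit 4) (nat_lit 381) (nat_lit 256) (nat_lit 143)))) (XT.nd (nat_lit 156) (nat_lit 0) (nat_lit 0) (XT.nd (nat_lit 78) (nat_lit 0) (nat_lit 0) (XT.lf (nat_lit 0) (nat_lit 277454496979) (nat_lit 76) (nat_lit 111776452745) (nat_lit 76) (nat_lit 91812033091) (nat_lit 3) (nat_lit 4) (nat_lit 4) (nat_lit 5) (nat_lit 4) (nat_lit 4) (nat_lit 382) (nat_lit 256) (nat_lit 142)) (XT.lf (nat_lit 0) (nat_lit 301876353614) (nat_lit 76) (nat_lit 111450848221) (nat_lit 76) (nat_lit 91482763106) (nat_lit 3) (nat_lit 4) (nat_lit 4) (nat_lit 5) (nat_lit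 4) (nat_lit 4) (nat_lit 383) (nat_lit 256) (nat_lit 141))) (XT.nd (nat_lit 78) (nat_lit 0) (nat_lit 0) (XT.lf (nat_lit 0) (nat_lit 327515564236) (nat_lit 76) (nat_lit 111110704518) (nat_lit 76) (nat_lit 91139128488) (nat_lit 3) (nat_lit 4) (nat_lit 4) (nat_lit 5) (nat_lit 4) (nat_lit 4) (nat_lit 384) (nat_lit 256) (nat_lit 140)) (XT.nd (nat_lit 78) (nat_lit 0) (nat_lit 0) (XT.lf (nat_lit 0) (nat_lit 354433174584) (nat_lit 76) (nat_lit 110755211770) (nat_lit 76) (nat_lit 90780311060) (nat_lit 3) (nat_lit 4) (nat_lit 4) (nat_lit 5) (nat_lit 4) (nat_lit 4) (nat_lit 385) (nat_lit 256) (nat_lit 139)) (XT.lf (nat_lit 0) (nat_lit 382693274208) (nat_lit 76) (nat_lit 110383523566) (nat_lit 76) (nat_lit 90405456494) (nat_lit 3) (nat_lit 4) (nat_lit 4) (nat_lit 5) (nat_lit 4) (nat_lit 4) (nat_lit 386) (nat_lit 256) (nat_lit 138)))))) (XT.nd (nat_lit 390) (nat_lit 1748) (nat_lit 0) (XT.nd (nat_lit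 156) (nat_lit 836) (nat_lit 0) (XT.nd (nat_lit 78) (nat_lit 0) (nat_lit 0) (XT.lf (nat_lit 0) (nat_lit 32076721) (nat_lit 228) (nat_lit 1621977394) (nat_lit 228) (nat_lit 1621977394) (nat_lit 122) (nat_lit 4) (nat_lit 125) (nat_lit 5) (nat_lit 125) (nat_lit 4) (nat_lit 266) (nat_lit 257) (nat_lit 257)) (XT.lf (nat_lit 0) (nat_lit 3743154492) (nat_lit 228) (nat_lit 2573531396) (nat_lit 228) (nat_lit 276769251) (nat_lit 122) (nat_lit 4) (nat_lit 125) (nat_lit 5) (nat_lit 125) (nat_lit 4) (nat_lit 267) (nat_lit 257) (nat_lit 256))) (XT.nd (nat_lit 78) (nat_lit 456) (nat_lit 0) (XT.lf (nat_lit 0) (nat_lit 829373238) (nat_lit 304) (nat_lit 1762591592) (nat_lit 380) (nat_lit 4051237534) (nat_lit 117) (nat_lit 5) (nat_lit 121) (nat_lit 5) (nat_lit 122) (nat_lit 4) (nat_lit 268) (nat_lit 257) (nat_lit 255)) (XT.nd (nat_lit 78) (nat_lit 456) (nat_lit 0) (XT.lf (nat_lit 0) (nat_lit 4667228607)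 (nat_lit 304) (nat_lit 813071023) (nat_lit 380) (nat_lit 1221307622) (nat_lit 117) (nat_lit 5) (nat_lit 121) (nat_lit 5) (nat_lit 122) (nat_lit 4) (nat_lit 269) (nat_lit 257) (nat_lit 254)) (XT.lf (nat_lit 0) (nat_lit 1569161130) (nat_lit 456) (nat_lit 4927424568) (nat_lit 76) (nat_lit 271835717) (nat_lit 111) (nat_lit 5) (nat_lit 117) (nat_lit 5) (nat_lit 112) (nat_lit 4) (nat_lit 270) (nat_lit 257) (nat_lit 253))))) (XT.nd (nat_lit 156) (nat_lit 1216) (nat_lit 0) (XT.nd (nat_lit 78) (nat_lit 532) (nat_lit 0) (XT.lf (nat_lit 0) (nat_lit 4354532440) (nat_lit 456) (nat_lit 1016986623) (nat_lit 76) (nat_lit 1471814141) (nat_lit 111) (nat_lit 5) (nat_lit 117) (nat_lit 5) (nat_lit 112) (nat_lit 4) (nat_lit 271) (nat_lit 257) (nat_lit 252)) (XT.lf (nat_lit 0) (nat_lit 246810599) (nat_lit 532) (nat_lit 3865194912) (nat_lit 76) (nat_lit 2815178491) (nat_lit 104) (nat_lit 5) (nat_lit 111) (nat_lit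 5) (nat_lit 105) (nat_lit 5) (nat_lit 272) (nat_lit 257) (nat_lit 251))) (XT.nd (nat_lit 78) (nat_lit 684) (nat_lit 0) (XT.lf (nat_lit 0) (nat_lit 207203672) (nat_lit 532) (nat_lit 2706644138) (nat_lit 608) (nat_lit 4105925548) (nat_lit 97) (nat_lit 5) (nat_lit 104) (nat_lit 5) (nat_lit 105) (nat_lit 5) (nat_lit 273) (nat_lit 257) (nat_lit 250)) (XT.nd (nat_lit 78) (nat_lit 684) (nat_lit 0) (XT.lf (nat_lit 0) (nat_lit 4495215599) (nat_lit 532) (nat_lit 1146900737) (nat_lit 608) (nat_lit 1478958334) (nat_lit 97) (nat_lit 5) (nat_lit 104) (nat_lit 5) (nat_lit 105) (nat_lit 5) (nat_lit 274) (nat_lit 257) (nat_lit 249)) (XT.lf (nat_lit 0) (nat_lit 1139683207) (nat_lit 684) (nat_lit 5558010653) (nat_lit 76) (nat_lit 534116964) (nat_lit 88) (nat_lit 5) (nat_lit 97) (nat_lit 5) (nat_lit 89) (nat_lit 5) (nat_lit 275) (nat_lit 257) (nat_lit 248))))))) (XT.nd (nat_lit 780) (nat_lit 1292) (nat_lit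 0) (XT.nd (nat_lit 390) (nat_lit 988) (nat_lit 0) (XT.nd (nat_lit 156) (nat_lit 836) (nat_lit 0) (XT.nd (nat_lit 78) (nat_lit 684) (nat_lit 0) (XT.lf (nat_lit 0) (nat_lit 3774593753) (nat_lit 684) (nat_lit 1236324168) (nat_lit 76) (nat_lit 2339613205) (nat_lit 88) (nat_lit 5) (nat_lit 97) (nat_lit 5) (nat_lit 89) (nat_lit 5) (nat_lit 276) (nat_lit 257) (nat_lit 247)) (XT.lf (nat_lit 0) (nat_lit 3286350103) (nat_lit 684) (nat_lit 3183388632) (nat_lit 760) (nat_lit 1009416250) (nat_lit 79) (nat_lit 5) (nat_lit 88) (nat_lit 5) (nat_lit 89) (nat_lit 5) (nat_lit 277) (nat_lit 257) (nat_lit 246))) (XT.nd (nat_lit 78) (nat_lit 380) (nat_lit 0) (XT.lf (nat_lit 0) (nat_lit 325992726) (nat_lit 380) (nat_lit 1210736041) (nat_lit 456) (nat_lit 6081258989) (nat_lit 73) (nat_lit 5) (nat_lit 78) (nat_lit 5) (nat_lit 79) (nat_lit 5) (nat_lit 278) (nat_lit 257) (nat_lit 245)) (XT.nd (nat_lit 78) (nat_lit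 380) (nat_lit 0) (XT.lf (nat_lit 0) (nat_lit 4144565290) (nat_lit 456) (nat_lit 2701932724) (nat_lit 76) (nat_lit 918360008) (nat_lit 73) (nat_lit 5) (nat_lit 79) (nat_lit 5) (nat_lit 74) (nat_lit 5) (nat_lit 279) (nat_lit 257) (nat_lit 244)) (XT.lf (nat_lit 0) (nat_lit 2042324652) (nat_lit 380) (nat_lit 4780489667) (nat_lit 456) (nat_lit 1099578937) (nat_lit 68) (nat_lit 5) (nat_lit 73) (nat_lit 5) (nat_lit 74) (nat_lit 5) (nat_lit 280) (nat_lit 257) (nat_lit 243))))) (XT.nd (nat_lit 156) (nat_lit 608) (nat_lit 0) (XT.nd (nat_lit 78) (nat_lit 304) (nat_lit 0) (XT.lf (nat_lit 0) (nat_lit 1433838034) (nat_lit 456) (nat_lit 1115641714) (nat_lit 76) (nat_lit 5540600894) (nat_lit 67) (nat_lit 5) (nat_lit 73) (nat_lit 5) (nat_lit 68) (nat_lit 5) (nat_lit 281) (nat_lit 257) (nat_lit 242)) (XT.lf (nat_lit 0) (nat_lit 3876069068) (nat_lit 304) (nat_lit 136351385) (nat_lit 380) (nat_lit 4255336845)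 (nat_lit 63) (nat_lit 5) (nat_lit 67) (nat_lit 5) (nat_lit 68) (nat_lit 5) (nat_lit 282) (nat_lit 257) (nat_lit 241))) (XT.nd (nat_lit 78) (nat_lit 304) (nat_lit 0) (XT.lf (nat_lit 0) (nat_lit 562760966) (nat_lit 304) (nat_lit 6120523061) (nat_lit 380) (nat_lit 1773131468) (nat_lit 59) (nat_lit 5) (nat_lit 63) (nat_lit 5) (nat_lit 64) (nat_lit 5) (nat_lit 283) (nat_lit 257) (nat_lit 240)) (XT.nd (nat_lit 78) (nat_lit 228) (nat_lit 0) (XT.lf (nat_lit 0) (nat_lit 783423447) (nat_lit 380) (nat_lit 2871722311) (nat_lit 76) (nat_lit 5000105755) (nat_lit 58) (nat_lit 5) (nat_lit 63) (nat_lit 5) (nat_lit 59) (nat_lit 5) (nat_lit 284) (nat_lit 257) (nat_lit 239)) (XT.lf (nat_lit 0) (nat_lit 2330767700) (nat_lit 228) (nat_lit 1017721727) (nat_lit 304) (nat_lit 5517302094) (nat_lit 55) (nat_lit 5) (nat_lit 58) (nat_lit 5) (nat_lit 59) (nat_lit 5) (nat_lit 285) (nat_lit 257) (nat_lit 238))))))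 (XT.nd (nat_lit 390) (nat_lit 456) (nat_lit 0) (XT.nd (nat_lit 156) (nat_lit 532) (nat_lit 0) (XT.nd (nat_lit 78) (nat_lit 304) (nat_lit 0) (XT.lf (nat_lit 0) (nat_lit 6024937481) (nat_lit 304) (nat_lit 1338245804) (nat_lit 76) (nat_lit 1724737079) (nat_lit 55) (nat_lit 5) (nat_lit 59) (nat_lit 5) (nat_lit 56) (nat_lit 5) (nat_lit 286) (nat_lit 257) (nat_lit 237)) (XT.lf (nat_lit 0) (nat_lit 4120466230) (nat_lit 304) (nat_lit 4706567711) (nat_lit 380) (nat_lit 494738286) (nat_lit 51) (nat_lit 5) (nat_lit 55) (nat_lit 5) (nat_lit 56) (nat_lit 5) (nat_lit 287) (nat_lit 257) (nat_lit 236))) (XT.nd (nat_lit 78) (nat_lit 228) (nat_lit 0) (XT.lf (nat_lit 0) (nat_lit 189315607) (nat_lit 228) (nat_lit 1879826091) (nat_lit 304) (nat_lit 7499759713) (nat_lit 47) (nat_lit 5) (nat_lit 50) (nat_lit 5) (nat_lit 51) (nat_lit 5) (nat_lit 288) (nat_lit 257) (nat_lit 235)) (XT.nd (nat_lit 78) (nat_lit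 228) (nat_lit 0) (XT.lf (nat_lit 0) (nat_lit 4764848329) (nat_lit 304) (nat_lit 3937077420) (nat_lit 76) (nat_lit 1125222403) (nat_lit 47) (nat_lit 5) (nat_lit 51) (nat_lit 5) (nat_lit 48) (nat_lit 5) (nat_lit 289) (nat_lit 257) (nat_lit 234)) (XT.lf (nat_lit 0) (nat_lit 1689779826) (nat_lit 228) (nat_lit 5880604955) (nat_lit 304) (nat_lit 2529341245) (nat_lit 44) (nat_lit 5) (nat_lit 47) (nat_lit 5) (nat_lit 48) (nat_lit 5) (nat_lit 290) (nat_lit 257) (nat_lit 233))))) (XT.nd (nat_lit 156) (nat_lit 228) (nat_lit 0) (XT.nd (nat_lit 78) (nat_lit 152) (nat_lit 0) (XT.lf (nat_lit 0) (nat_lit 112448894) (nat_lit 304) (nat_lit 2763158807) (nat_lit 76) (nat_lit 7511060879) (nat_lit 43) (nat_lit 5) (nat_lit 47) (nat_lit 5) (nat_lit 44) (nat_lit 5) (nat_lit 291) (nat_lit 257) (nat_lit 232)) (XT.lf (nat_lit 0) (nat_lit 2777847280) (nat_lit 228) (nat_lit 7575341216) (nat_lit 76) (nat_lit 334018209)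 (nat_lit 41) (nat_lit 5) (nat_lit 44) (nat_lit 5) (nat_lit 42) (nat_lit 5) (nat_lit 292) (nat_lit 257) (nat_lit 231))) (XT.nd (nat_lit 78) (nat_lit 228) (nat_lit 0) (XT.lf (nat_lit 0) (nat_lit 5595270810) (nat_lit 228) (nat_lit 1780261557) (nat_lit 76) (nat_lit 3626442308) (nat_lit 41) (nat_lit 5) (nat_lit 44) (nat_lit 5) (nat_lit 42) (nat_lit 5) (nat_lit 293) (nat_lit 257) (nat_lit 230)) (XT.nd (nat_lit 78) (nat_lit 0) (nat_lit 0) (XT.lf (nat_lit 0) (nat_lit 4340157583) (nat_lit 228) (nat_lit 4208838094) (nat_lit 304) (nat_lit 2783847859) (nat_lit 38) (nat_lit 5) (nat_lit 41) (nat_lit 5) (nat_lit 42) (nat_lit 5) (nat_lit 294) (nat_lit 257) (nat_lit 229)) (XT.lf (nat_lit 0) (nat_lit 10726744254) (nat_lit 228) (nat_lit 883337439) (nat_lit 304) (nat_lit 72318021) (nat_lit 38) (nat_lit 5) (nat_lit 41) (nat_lit 5) (nat_lit 42) (nat_lit 5) (nat_lit 295) (nat_lit 257) (nat_lit 228))))))))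
noncomputable def xc97 : XT := (XT.nd (nat_lit 1482) (nat_lit 684) (nat_lit 0) (XT.nd (nat_lit 702) (nat_lit 608) (nat_lit 0) (XT.nd (nat_lit 312) (nat_lit 532) (nat_lit 0) (XT.nd (nat_lit 156) (nat_lit 228) (nat_lit 0) (XT.nd (nat_lit 78) (nat_lit 0) (nat_lit 0) (XT.lf (nat_lit 0) (nat_lit 2744507779) (nat_lit 228) (nat_lit 6674921491) (nat_lit 76) (nat_lit 2625027574) (nat_lit 35) (nat_lit 5) (nat_lit 38) (nat_lit 5) (nat_lit 36) (nat_lit 5) (nat_lit 296) (nat_lit 257) (nat_lit 227)) (XT.lf (nat_lit 0) (nat_lit 5663585144) (nat_lit 228) (nat_lit 496126741) (nat_lit 76) (nat_lit 6266763878) (nat_lit 35) (nat_lit 5) (nat_lit 38) (nat_lit 5) (nat_lit 36) (nat_lit 5) (nat_lit 297) (nat_lit 257) (nat_lit 226))) (XT.nd (nat_lit 78) (nat_lit 0) (nat_lit 0) (XT.lf (nat_lit 0) (nat_lit 6090787909) (nat_lit 228) (nat_lit 2669027387) (nat_lit 304) (nat_lit 4066325377) (nat_lit 32) (nat_lit 5)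 (nat_lit 35) (nat_lit 5) (nat_lit 36) (nat_lit 5) (nat_lit 298) (nat_lit 257) (nat_lit 225)) (XT.lf (nat_lit 0) (nat_lit 11972128489) (nat_lit 304) (nat_lit 333723842) (nat_lit 76) (nat_lit 941972916) (nat_lit 32) (nat_lit 5) (nat_lit 36) (nat_lit 5) (nat_lit 33) (nat_lit 4) (nat_lit 299) (nat_lit 257) (nat_lit 224)))) (XT.nd (nat_lit 156) (nat_lit 304) (nat_lit 0) (XT.nd (nat_lit 78) (nat_lit 0) (nat_lit 0) (XT.lf (nat_lit 0) (nat_lit 1687569125) (nat_lit 228) (nat_lit 7255042355) (nat_lit 76) (nat_lit 4742478775) (nat_lit 29) (nat_lit 5) (nat_lit 32) (nat_lit 5) (nat_lit 30) (nat_lit 5) (nat_lit 300) (nat_lit 257) (nat_lit 223)) (XT.lf (nat_lit 0) (nat_lit 4702426529) (nat_lit 228) (nat_lit 714230803) (nat_lit 76) (nat_lit 8729286906) (nat_lit 29) (nat_lit 5) (nat_lit 32) (nat_lit 5) (nat_lit 30) (nat_lit 5) (nat_lit 301) (nat_lit 257) (nat_lit 222))) (XT.nd (nat_lit 78) (nat_lit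 152) (nat_lit 0) (XT.lf (nat_lit 0) (nat_lit 6265702425) (nat_lit 152) (nat_lit 1643535816) (nat_lit 228) (nat_lit 6718624372) (nat_lit 27) (nat_lit 5) (nat_lit 29) (nat_lit 5) (nat_lit 30) (nat_lit 5) (nat_lit 302) (nat_lit 257) (nat_lit 221)) (XT.nd (nat_lit 78) (nat_lit 152) (nat_lit 0) (XT.lf (nat_lit 0) (nat_lit 11269106424) (nat_lit 228) (nat_lit 1639615954) (nat_lit 76) (nat_lit 2225597081) (nat_lit 27) (nat_lit 5) (nat_lit 30) (nat_lit 5) (nat_lit 28) (nat_lit 4) (nat_lit 303) (nat_lit 257) (nat_lit 220)) (XT.lf (nat_lit 0) (nat_lit 5482461389) (nat_lit 152) (nat_lit 9373929756) (nat_lit 228) (nat_lit 806811463) (nat_lit 25) (nat_lit 5) (nat_lit 27) (nat_lit 5) (nat_lit 28) (nat_lit 4) (nat_lit 304) (nat_lit 257) (nat_lit 219)))))) (XT.nd (nat_lit 390) (nat_lit 304) (nat_lit 0) (XT.nd (nat_lit 156) (nat_lit 76) (nat_lit 0) (XT.nd (nat_lit 78) (nat_lit 152) (nat_lit 0) (XT.lf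 (nat_lit 0) (nat_lit 2302959327) (nat_lit 228) (nat_lit 3323136410) (nat_lit 76) (nat_lit 10591854374) (nat_lit 24) (nat_lit 5) (nat_lit 27) (nat_lit 5) (nat_lit 25) (nat_lit 5) (nat_lit 305) (nat_lit 257) (nat_lit 218)) (XT.lf (nat_lit 0) (nat_lit 3907702740) (nat_lit 152) (nat_lit 1644112511) (nat_lit 228) (nat_lit 11247487338) (nat_lit 22) (nat_lit 5) (nat_lit 24) (nat_lit 5) (nat_lit 25) (nat_lit 5) (nat_lit 306) (nat_lit 257) (nat_lit 217))) (XT.nd (nat_lit 78) (nat_lit 76) (nat_lit 0) (XT.lf (nat_lit 0) (nat_lit 9010284397) (nat_lit 228) (nat_lit 5914195808) (nat_lit 76) (nat_lit 2482945350) (nat_lit 22) (nat_lit 5) (nat_lit 25) (nat_lit 5) (nat_lit 23) (nat_lit 4) (nat_lit 307) (nat_lit 257) (nat_lit 216)) (XT.nd (nat_lit 78) (nat_lit 0) (nat_lit 0) (XT.lf (nat_lit 0) (nat_lit 1350039375) (nat_lit 76) (nat_lit 11292391699) (nat_lit 152) (nat_lit 5403544356) (nat_lit 21) (nat_lit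 5) (nat_lit 22) (nat_lit 5) (nat_lit 23) (nat_lit 4) (nat_lit 308) (nat_lit 257) (nat_lit 215)) (XT.lf (nat_lit 0) (nat_lit 9105780595) (nat_lit 76) (nat_lit 7404336326) (nat_lit 152) (nat_lit 2203694965) (nat_lit 21) (nat_lit 5) (nat_lit 22) (nat_lit 5) (nat_lit 23) (nat_lit 4) (nat_lit 309) (nat_lit 257) (nat_lit 214))))) (XT.nd (nat_lit 156) (nat_lit 76) (nat_lit 0) (XT.nd (nat_lit 78) (nat_lit 152) (nat_lit 0) (XT.lf (nat_lit 0) (nat_lit 1074343293) (nat_lit 152) (nat_lit 2258678763) (nat_lit 76) (nat_lit 16083406063) (nat_lit 20) (nat_lit 5) (nat_lit 22) (nat_lit 5) (nat_lit 21) (nat_lit 5) (nat_lit 310) (nat_lit 257) (nat_lit 213)) (XT.lf (nat_lit 0) (nat_lit 4502124398) (nat_lit 228) (nat_lit 14638896941) (nat_lit 76) (nat_lit 1008400638) (nat_lit 18) (nat_lit 5) (nat_lit 21) (nat_lit 5) (nat_lit 19) (nat_lit 4) (nat_lit 311) (nat_lit 257) (nat_lit 212))) (XT.nd (nat_lit 78)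 (nat_lit 76) (nat_lit 0) (XT.lf (nat_lit 0) (nat_lit 8152638653) (nat_lit 228) (nat_lit 7297682396) (nat_lit 76) (nat_lit 5466223082) (nat_lit 18) (nat_lit 5) (nat_lit 21) (nat_lit 5) (nat_lit 19) (nat_lit 4) (nat_lit 312) (nat_lit 257) (nat_lit 211)) (XT.nd (nat_lit 78) (nat_lit 0) (nat_lit 0) (XT.lf (nat_lit 0) (nat_lit 353460163) (nat_lit 76) (nat_lit 11597570760) (nat_lit 152) (nat_lit 9772767480) (nat_lit 17) (nat_lit 5) (nat_lit 18) (nat_lit 5) (nat_lit 19) (nat_lit 4) (nat_lit 313) (nat_lit 257) (nat_lit 210)) (XT.lf (nat_lit 0) (nat_lit 8573177223) (nat_lit 76) (nat_lit 7450450453) (nat_lit 152) (nat_lit 6543615020) (nat_lit 17) (nat_lit 5) (nat_lit 18) (nat_lit 5) (nat_lit 19) (nat_lit 4) (nat_lit 314) (nat_lit 257) (nat_lit 209))))))) (XT.nd (nat_lit 780) (nat_lit 228) (nat_lit 0) (XT.nd (nat_lit 390) (nat_lit 152) (nat_lit 0) (XT.nd (nat_lit 156) (nat_lit 76) (nat_lit 0)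 (XT.nd (nat_lit 78) (nat_lit 228) (nat_lit 0) (XT.lf (nat_lit 0) (nat_lit 17139745200) (nat_lit 76) (nat_lit 3122675814) (nat_lit 152) (nat_lit 3192349423) (nat_lit 17) (nat_lit 5) (nat_lit 18) (nat_lit 5) (nat_lit 19) (nat_lit 4) (nat_lit 315) (nat_lit 257) (nat_lit 208)) (XT.lf (nat_lit 0) (nat_lit 329178836) (nat_lit 228) (nat_lit 22673108227) (nat_lit 76) (nat_lit 1383511092) (nat_lit 14) (nat_lit 5) (nat_lit 17) (nat_lit 5) (nat_lit 15) (nat_lit 4) (nat_lit 316) (nat_lit 257) (nat_lit 207))) (XT.nd (nat_lit 78) (nat_lit 76) (nat_lit 0) (XT.lf (nat_lit 0) (nat_lit 4043487688) (nat_lit 228) (nat_lit 15164991137) (nat_lit 76) (nat_lit 6146116533) (nat_lit 14) (nat_lit 5) (nat_lit 17) (nat_lit 5) (nat_lit 15) (nat_lit 4) (nat_lit 317) (nat_lit 257) (nat_lit 206)) (XT.nd (nat_lit 78) (nat_lit 76) (nat_lit 0) (XT.lf (nat_lit 0) (nat_lit 7909317120) (nat_lit 228) (nat_lit 7341198953)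 (nat_lit 76) (nat_lit 11123058647) (nat_lit 14) (nat_lit 5) (nat_lit 17) (nat_lit 5) (nat_lit 15) (nat_lit 4) (nat_lit 318) (nat_lit 257) (nat_lit 205)) (XT.lf (nat_lit 0) (nat_lit 843906686) (nat_lit 76) (nat_lit 11105140548) (nat_lit 152) (nat_lit 15495456359) (nat_lit 13) (nat_lit 5) (nat_lit 14) (nat_lit 5) (nat_lit 15) (nat_lit 4) (nat_lit 319) (nat_lit 257) (nat_lit 204))))) (XT.nd (nat_lit 156) (nat_lit 152) (nat_lit 0) (XT.nd (nat_lit 78) (nat_lit 0) (nat_lit 0) (XT.lf (nat_lit 0) (nat_lit 9637168544) (nat_lit 76) (nat_lit 6646032487) (nat_lit 152) (nat_lit 12281185550) (nat_lit 13) (nat_lit 5) (nat_lit 14) (nat_lit 5) (nat_lit 15) (nat_lit 4) (nat_lit 320) (nat_lit 257) (nat_lit 203)) (XT.lf (nat_lit 0) (nat_lit 18816789766) (nat_lit 76) (nat_lit 1986901721) (nat_lit 152) (nat_lit 8938118903) (nat_lit 13) (nat_lit 5) (nat_lit 14) (nat_lit 5) (nat_lit 15) (nat_lit 4) (nat_lit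 321) (nat_lit 257) (nat_lit 202))) (XT.nd (nat_lit 78) (nat_lit 152) (nat_lit 0) (XT.lf (nat_lit 0) (nat_lit 25566298772) (nat_lit 152) (nat_lit 2619968915) (nat_lit 0) (nat_lit 2791059872) (nat_lit 13) (nat_lit 5) (nat_lit 15) (nat_lit 4) (nat_lit 13) (nat_lit 4) (nat_lit 322) (nat_lit 257) (nat_lit 201)) (XT.nd (nat_lit 78) (nat_lit 76) (nat_lit 0) (XT.lf (nat_lit 0) (nat_lit 6217330448) (nat_lit 76) (nat_lit 24451475909) (nat_lit 76) (nat_lit 1600751239) (nat_lit 12) (nat_lit 4) (nat_lit 13) (nat_lit 5) (nat_lit 13) (nat_lit 4) (nat_lit 323) (nat_lit 257) (nat_lit 200)) (XT.lf (nat_lit 0) (nat_lit 2340546448) (nat_lit 152) (nat_lit 18124495659) (nat_lit 76) (nat_lit 13158640470) (nat_lit 11) (nat_lit 5) (nat_lit 13) (nat_lit 5) (nat_lit 12) (nat_lit 4) (nat_lit 324) (nat_lit 257) (nat_lit 199)))))) (XT.nd (nat_lit 390) (nat_lit 152) (nat_lit 0) (XT.nd (nat_lit 156) (nat_lit 76) (nat_lit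 0) (XT.nd (nat_lit 78) (nat_lit 0) (nat_lit 0) (XT.lf (nat_lit 0) (nat_lit 6398660627) (nat_lit 152) (nat_lit 9873829409) (nat_lit 76) (nat_lit 18773056346) (nat_lit 11) (nat_lit 5) (nat_lit 13) (nat_lit 5) (nat_lit 12) (nat_lit 4) (nat_lit 325) (nat_lit 257) (nat_lit 198)) (XT.lf (nat_lit 0) (nat_lit 10634487511) (nat_lit 152) (nat_lit 1255591745) (nat_lit 76) (nat_lit 24649704759) (nat_lit 11) (nat_lit 5) (nat_lit 13) (nat_lit 5) (nat_lit 12) (nat_lit 4) (nat_lit 326) (nat_lit 257) (nat_lit 197))) (XT.nd (nat_lit 78) (nat_lit 0) (nat_lit 0) (XT.lf (nat_lit 0) (nat_lit 8007011315) (nat_lit 76) (nat_lit 7176112971) (nat_lit 152) (nat_lit 22920578300) (nat_lit 10) (nat_lit 5) (nat_lit 11) (nat_lit 5) (nat_lit 12) (nat_lit 4) (nat_lit 327) (nat_lit 257) (nat_lit 196)) (XT.nd (nat_lit 78) (nat_lit 0) (nat_lit 0) (XT.lf (nat_lit 0) (nat_lit 17734205643) (nat_lit 76) (nat_lit 2222742742)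 (nat_lit 152) (nat_lit 19788999960) (nat_lit 10) (nat_lit 5) (nat_lit 11) (nat_lit 5) (nat_lit 12) (nat_lit 4) (nat_lit 328) (nat_lit 257) (nat_lit 195)) (XT.lf (nat_lit 0) (nat_lit 24993297233) (nat_lit 152) (nat_lit 13610030941) (nat_lit 0) (nat_lit 2865804670) (nat_lit 10) (nat_lit 5) (nat_lit 12) (nat_lit 4) (nat_lit 10) (nat_lit 4) (nat_lit 329) (nat_lit 257) (nat_lit 194))))) (XT.nd (nat_lit 156) (nat_lit 76) (nat_lit 0) (XT.nd (nat_lit 78) (nat_lit 76) (nat_lit 0) (XT.lf (nat_lit 0) (nat_lit 30296315258) (nat_lit 152) (nat_lit 4863705032) (nat_lit 0) (nat_lit 8117730955) (nat_lit 10) (nat_lit 5) (nat_lit 12) (nat_lit 4) (nat_lit 10) (nat_lit 4) (nat_lit 330) (nat_lit 257) (nat_lit 193)) (XT.lf (nat_lit 0) (nat_lit 4424370332) (nat_lit 76) (nat_lit 31488631937) (nat_lit 76) (nat_lit 9261388834) (nat_lit 9) (nat_lit 4) (nat_lit 10) (nat_lit 5) (nat_lit 10) (nat_lit 4) (nat_lit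 331) (nat_lit 257) (nat_lit 192))) (XT.nd (nat_lit 78) (nat_lit 76) (nat_lit 0) (XT.lf (nat_lit 0) (nat_lit 14309131588) (nat_lit 76) (nat_lit 27563610462) (nat_lit 76) (nat_lit 5290025644) (nat_lit 9) (nat_lit 4) (nat_lit 10) (nat_lit 5) (nat_lit 10) (nat_lit 4) (nat_lit 332) (nat_lit 257) (nat_lit 191)) (XT.nd (nat_lit 78) (nat_lit 76) (nat_lit 0) (XT.lf (nat_lit 0) (nat_lit 24653297826) (nat_lit 76) (nat_lit 23457979773) (nat_lit 76) (nat_lit 1140259990) (nat_lit 9) (nat_lit 4) (nat_lit 10) (nat_lit 5) (nat_lit 10) (nat_lit 4) (nat_lit 333) (nat_lit 257) (nat_lit 190)) (XT.lf (nat_lit 0) (nat_lit 3095439320) (nat_lit 152) (nat_lit 16014102477) (nat_lit 76) (nat_lit 32333635931) (nat_lit 8) (nat_lit 5) (nat_lit 10) (nat_lit 5) (nat_lit 9) (nat_lit 4) (nat_lit 334) (nat_lit 257) (nat_lit 189))))))))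
noncomputable def xc98 : XT := (XT.nd (nat_lit 1482) (nat_lit 76) (nat_lit 0) (XT.nd (nat_lit 702) (nat_lit 152) (nat_lit 0) (XT.nd (nat_lit 312) (nat_lit 76) (nat_lit 0) (XT.nd (nat_lit 156) (nat_lit 0) (nat_lit 0) (XT.nd (nat_lit 78) (nat_lit 76) (nat_lit 0) (XT.lf (nat_lit 0) (nat_lit 7486897927) (nat_lit 152) (nat_lit 7051644048) (nat_lit 76) (nat_lit 39205821416) (nat_lit 8) (nat_lit 5) (nat_lit 10) (nat_lit 5) (nat_lit 9) (nat_lit 4) (nat_lit 335) (nat_lit 257) (nat_lit 188)) (XT.lf (nat_lit 0) (nat_lit 2405260726) (nat_lit 76) (nat_lit 9713359258) (nat_lit 152) (nat_lit 44040966096) (nat_lit 7) (nat_lit 5) (nat_lit 8) (nat_lit 5) (nat_lit 9) (nat_lit 4) (nat_lit 336) (nat_lit 257) (nat_lit 187))) (XT.nd (nat_lit 78) (nat_lit 0) (nat_lit 0) (XT.lf (nat_lit 0) (nat_lit 12549662474) (nat_lit 76) (nat_lit 4535158336) (nat_lit 152) (nat_lit 41605616145) (nat_lit 7) (nat_lit 5) (nat_lit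 8) (nat_lit 5) (nat_lit 9) (nat_lit 4) (nat_lit 337) (nat_lit 257) (nat_lit 186)) (XT.lf (nat_lit 0) (nat_lit 22297467763) (nat_lit 152) (nat_lit 38189952591) (nat_lit 0) (nat_lit 860514345) (nat_lit 7) (nat_lit 5) (nat_lit 9) (nat_lit 4) (nat_lit 7) (nat_lit 4) (nat_lit 338) (nat_lit 257) (nat_lit 185)))) (XT.nd (nat_lit 156) (nat_lit 76) (nat_lit 0) (XT.nd (nat_lit 78) (nat_lit 0) (nat_lit 0) (XT.lf (nat_lit 0) (nat_lit 27829907327) (nat_lit 152) (nat_lit 29943864577) (nat_lit 0) (nat_lit 6361588012) (nat_lit 7) (nat_lit 5) (nat_lit 9) (nat_lit 4) (nat_lit 7) (nat_lit 4) (nat_lit 339) (nat_lit 257) (nat_lit 184)) (XT.lf (nat_lit 0) (nat_lit 33624505446) (nat_lit 152) (nat_lit 21312070365) (nat_lit 0) (nat_lit 12126313848) (nat_lit 7) (nat_lit 5) (nat_lit 9) (nat_lit 4) (nat_lit 7) (nat_lit 4) (nat_lit 340) (nat_lit 257) (nat_lit 183))) (XT.nd (nat_lit 78) (nat_lit 76) (nat_lit 0)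 (XT.lf (nat_lit 0) (nat_lit 39695058782) (nat_lit 152) (nat_lit 12274018063) (nat_lit 0) (nat_lit 18168417392) (nat_lit 7) (nat_lit 5) (nat_lit 9) (nat_lit 4) (nat_lit 7) (nat_lit 4) (nat_lit 341) (nat_lit 257) (nat_lit 182)) (XT.nd (nat_lit 78) (nat_lit 76) (nat_lit 0) (XT.lf (nat_lit 0) (nat_lit 46056021034) (nat_lit 152) (nat_lit 2808188501) (nat_lit 0) (nat_lit 24502284603) (nat_lit 7) (nat_lit 5) (nat_lit 9) (nat_lit 4) (nat_lit 7) (nat_lit 4) (nat_lit 342) (nat_lit 257) (nat_lit 181)) (XT.lf (nat_lit 0) (nat_lit 7342977138) (nat_lit 76) (nat_lit 45494204663) (nat_lit 76) (nat_lit 23914663432) (nat_lit 6) (nat_lit 4) (nat_lit 7) (nat_lit 5) (nat_lit 7) (nat_lit 4) (nat_lit 343) (nat_lit 257) (nat_lit 180)))))) (XT.nd (nat_lit 390) (nat_lit 152) (nat_lit 0) (XT.nd (nat_lit 156) (nat_lit 0) (nat_lit 0) (XT.nd (nat_lit 78) (nat_lit 0) (nat_lit 0) (XT.lf (nat_lit 0) (nat_lit 18076589086)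 (nat_lit 76) (nat_lit 41916117517) (nat_lit 76) (nat_lit 20312000285) (nat_lit 6) (nat_lit 4) (nat_lit 7) (nat_lit 5) (nat_lit 7) (nat_lit 4) (nat_lit 344) (nat_lit 257) (nat_lit 179)) (XT.lf (nat_lit 0) (nat_lit 29325352166) (nat_lit 76) (nat_lit 38168986872) (nat_lit 76) (nat_lit 16541463926) (nat_lit 6) (nat_lit 4) (nat_lit 7) (nat_lit 5) (nat_lit 7) (nat_lit 4) (nat_lit 345) (nat_lit 257) (nat_lit 178))) (XT.nd (nat_lit 78) (nat_lit 0) (nat_lit 0) (XT.lf (nat_lit 0) (nat_lit 41116049147) (nat_lit 76) (nat_lit 34243890990) (nat_lit 76) (nat_lit 12594076887) (nat_lit 6) (nat_lit 4) (nat_lit 7) (nat_lit 5) (nat_lit 7) (nat_lit 4) (nat_lit 346) (nat_lit 257) (nat_lit 177)) (XT.nd (nat_lit 78) (nat_lit 0) (nat_lit 0) (XT.lf (nat_lit 0) (nat_lit 53476753118) (nat_lit 76) (nat_lit 30131484404) (nat_lit 76) (nat_lit 8460440628) (nat_lit 6) (nat_lit 4) (nat_lit 7) (nat_lit 5) (nat_lit 7)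 (nat_lit 4) (nat_lit 347) (nat_lit 257) (nat_lit 176)) (XT.lf (nat_lit 0) (nat_lit 66436894327) (nat_lit 76) (nat_lit 25821975670) (nat_lit 76) (nat_lit 4130713157) (nat_lit 6) (nat_lit 4) (nat_lit 7) (nat_lit 5) (nat_lit 7) (nat_lit 4) (nat_lit 348) (nat_lit 257) (nat_lit 175))))) (XT.nd (nat_lit 156) (nat_lit 76) (nat_lit 0) (XT.nd (nat_lit 78) (nat_lit 0) (nat_lit 0) (XT.lf (nat_lit 0) (nat_lit 392438607) (nat_lit 152) (nat_lit 20906019308) (nat_lit 76) (nat_lit 79628245507) (nat_lit 5) (nat_lit 5) (nat_lit 7) (nat_lit 5) (nat_lit 6) (nat_lit 4) (nat_lit 349) (nat_lit 257) (nat_lit 174)) (XT.lf (nat_lit 0) (nat_lit 4993630374) (nat_lit 152) (nat_lit 11491915174) (nat_lit 76) (nat_lit 89202219152) (nat_lit 5) (nat_lit 5) (nat_lit 7) (nat_lit 5) (nat_lit 6) (nat_lit 4) (nat_lit 350) (nat_lit 257) (nat_lit 173))) (XT.nd (nat_lit 78) (nat_lit 76) (nat_lit 0) (XT.lf (nat_lit 0) (nat_lit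 9816025982) (nat_lit 152) (nat_lit 1623469883) (nat_lit 76) (nat_lit 99247831586) (nat_lit 5) (nat_lit 5) (nat_lit 7) (nat_lit 5) (nat_lit 6) (nat_lit 4) (nat_lit 351) (nat_lit 257) (nat_lit 172)) (XT.nd (nat_lit 78) (nat_lit 0) (nat_lit 0) (XT.lf (nat_lit 0) (nat_lit 9011228448) (nat_lit 76) (nat_lit 6000569405) (nat_lit 152) (nat_lit 100918463016) (nat_lit 4) (nat_lit 5) (nat_lit 5) (nat_lit 5) (nat_lit 6) (nat_lit 4) (nat_lit 352) (nat_lit 257) (nat_lit 171)) (XT.lf (nat_lit 0) (nat_lit 20218691464) (nat_lit 76) (nat_lit 267889279) (nat_lit 152) (nat_lit 100947804191) (nat_lit 4) (nat_lit 5) (nat_lit 5) (nat_lit 5) (nat_lit 6) (nat_lit 4) (nat_lit 353) (nat_lit 257) (nat_lit 170))))))) (XT.nd (nat_lit 780) (nat_lit 76) (nat_lit 0) (XT.nd (nat_lit 390) (nat_lit 0) (nat_lit 0) (XT.nd (nat_lit 156) (nat_lit 0) (nat_lit 0) (XT.nd (nat_lit 78) (nat_lit 0) (nat_lit 0) (XT.lf (nat_lit 0)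 (nat_lit 26316915710) (nat_lit 152) (nat_lit 95331880462) (nat_lit 0) (nat_lit 5560833240) (nat_lit 4) (nat_lit 5) (nat_lit 6) (nat_lit 4) (nat_lit 4) (nat_lit 4) (nat_lit 354) (nat_lit 257) (nat_lit 169)) (XT.lf (nat_lit 0) (nat_lit 32435556264) (nat_lit 152) (nat_lit 89172456075) (nat_lit 0) (nat_lit 11665788957) (nat_lit 4) (nat_lit 5) (nat_lit 6) (nat_lit 4) (nat_lit 4) (nat_lit 4) (nat_lit 355) (nat_lit 257) (nat_lit 168))) (XT.nd (nat_lit 78) (nat_lit 0) (nat_lit 0) (XT.lf (nat_lit 0) (nat_lit 38852888093) (nat_lit 152) (nat_lit 82718572513) (nat_lit 0) (nat_lit 18070087609) (nat_lit 4) (nat_lit 5) (nat_lit 6) (nat_lit 4) (nat_lit 4) (nat_lit 4) (nat_lit 356) (nat_lit 257) (nat_lit 167)) (XT.nd (nat_lit 78) (nat_lit 0) (nat_lit 0) (XT.lf (nat_lit 0) (nat_lit 45584190561) (nat_lit 152) (nat_lit 75954863386) (nat_lit 0) (nat_lit 24788977526) (nat_lit 4) (nat_lit 5) (nat_lit 6) (nat_lit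 4) (nat_lit 4) (nat_lit 4) (nat_lit 357) (nat_lit 257) (nat_lit 166)) (XT.lf (nat_lit 0) (nat_lit 52645490577) (nat_lit 152) (nat_lit 68865224624) (nat_lit 0) (nat_lit 31838456066) (nat_lit 4) (nat_lit 5) (nat_lit 6) (nat_lit 4) (nat_lit 4) (nat_lit 4) (nat_lit 358) (nat_lit 257) (nat_lit 165))))) (XT.nd (nat_lit 156) (nat_lit 0) (nat_lit 0) (XT.nd (nat_lit 78) (nat_lit 0) (nat_lit 0) (XT.lf (nat_lit 0) (nat_lit 60053600761) (nat_lit 152) (nat_lit 61432776136) (nat_lit 0) (nat_lit 39235307700) (nat_lit 4) (nat_lit 5) (nat_lit 6) (nat_lit 4) (nat_lit 4) (nat_lit 4) (nat_lit 359) (nat_lit 257) (nat_lit 164)) (XT.lf (nat_lit 0) (nat_lit 67826159469) (nat_lit 152) (nat_lit 53639821615) (nat_lit 0) (nat_lit 46997143981) (nat_lit 4) (nat_lit 5) (nat_lit 6) (nat_lit 4) (nat_lit 4) (nat_lit 4) (nat_lit 360) (nat_lit 257) (nat_lit 163))) (XT.nd (nat_lit 78) (nat_lit 0) (nat_lit 0) (XT.lf (nat_lit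 0) (nat_lit 75981672795) (nat_lit 152) (nat_lit 45467806407) (nat_lit 0) (nat_lit 55142445472) (nat_lit 4) (nat_lit 5) (nat_lit 6) (nat_lit 4) (nat_lit 4) (nat_lit 4) (nat_lit 361) (nat_lit 257) (nat_lit 162)) (XT.nd (nat_lit 78) (nat_lit 0) (nat_lit 0) (XT.lf (nat_lit 0) (nat_lit 84539558628) (nat_lit 152) (nat_lit 36897273334) (nat_lit 0) (nat_lit 63690605746) (nat_lit 4) (nat_lit 5) (nat_lit 6) (nat_lit 4) (nat_lit 4) (nat_lit 4) (nat_lit 362) (nat_lit 257) (nat_lit 161)) (XT.lf (nat_lit 0) (nat_lit 93520192885) (nat_lit 152) (nat_lit 27907816365) (nat_lit 0) (nat_lit 72661977567) (nat_lit 4) (nat_lit 5) (nat_lit 6) (nat_lit 4) (nat_lit 4) (nat_lit 4) (nat_lit 363) (nat_lit 257) (nat_lit 160)))))) (XT.nd (nat_lit 390) (nat_lit 0) (nat_lit 0) (XT.nd (nat_lit 156) (nat_lit 76) (nat_lit 0) (XT.nd (nat_lit 78) (nat_lit 0) (nat_lit 0) (XT.lf (nat_lit 0) (nat_lit 102944958029) (nat_lit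 152) (nat_lit 18478032030) (nat_lit 0) (nat_lit 82077921343) (nat_lit 4) (nat_lit 5) (nat_lit 6) (nat_lit 4) (nat_lit 4) (nat_lit 4) (nat_lit 364) (nat_lit 257) (nat_lit 159)) (XT.lf (nat_lit 0) (nat_lit 112836293978) (nat_lit 152) (nat_lit 8585468462) (nat_lit 0) (nat_lit 91960855989) (nat_lit 4) (nat_lit 5) (nat_lit 6) (nat_lit 4) (nat_lit 4) (nat_lit 4) (nat_lit 365) (nat_lit 257) (nat_lit 158))) (XT.nd (nat_lit 78) (nat_lit 0) (nat_lit 0) (XT.lf (nat_lit 0) (nat_lit 1852726892) (nat_lit 76) (nat_lit 121393950897) (nat_lit 76) (nat_lit 100510511669) (nat_lit 3) (nat_lit 4) (nat_lit 4) (nat_lit 5) (nat_lit 4) (nat_lit 4) (nat_lit 366) (nat_lit 257) (nat_lit 157)) (XT.nd (nat_lit 78) (nat_lit 0) (nat_lit 0) (XT.lf (nat_lit 0) (nat_lit 13102738664) (nat_lit 76) (nat_lit 121215880250) (nat_lit 76) (nat_lit 100324820792) (nat_lit 3) (nat_lit 4) (nat_lit 4) (nat_lit 5) (nat_lit 4) (nat_lit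 4) (nat_lit 367) (nat_lit 257) (nat_lit 156)) (XT.lf (nat_lit 0) (nat_lit 24907478235) (nat_lit 76) (nat_lit 121032525584) (nat_lit 76) (nat_lit 100134208765) (nat_lit 3) (nat_lit 4) (nat_lit 4) (nat_lit 5) (nat_lit 4) (nat_lit 4) (nat_lit 368) (nat_lit 257) (nat_lit 155))))) (XT.nd (nat_lit 156) (nat_lit 0) (nat_lit 0) (XT.nd (nat_lit 78) (nat_lit 0) (nat_lit 0) (XT.lf (nat_lit 0) (nat_lit 37295052129) (nat_lit 76) (nat_lit 120843450339) (nat_lit 76) (nat_lit 99938221748) (nat_lit 3) (nat_lit 4) (nat_lit 4) (nat_lit 5) (nat_lit 4) (nat_lit 4) (nat_lit 369) (nat_lit 257) (nat_lit 154)) (XT.lf (nat_lit 0) (nat_lit 50294954568) (nat_lit 76) (nat_lit 120648204338) (nat_lit 76) (nat_lit 99736393106) (nat_lit 3) (nat_lit 4) (nat_lit 4) (nat_lit 5) (nat_lit 4) (nat_lit 4) (nat_lit 370) (nat_lit 257) (nat_lit 153))) (XT.nd (nat_lit 78) (nat_lit 0) (nat_lit 0) (XT.lf (nat_lit 0) (nat_lit 63938137702)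 (nat_lit 76) (nat_lit 120446322707) (nat_lit 76) (nat_lit 99528242294) (nat_lit 3) (nat_lit 4) (nat_lit 4) (nat_lit 5) (nat_lit 4) (nat_lit 4) (nat_lit 371) (nat_lit 257) (nat_lit 152)) (XT.nd (nat_lit 78) (nat_lit 0) (nat_lit 0) (XT.lf (nat_lit 0) (nat_lit 78257085299) (nat_lit 76) (nat_lit 120237324777) (nat_lit 76) (nat_lit 99313273715) (nat_lit 3) (nat_lit 4) (nat_lit 4) (nat_lit 5) (nat_lit 4) (nat_lit 4) (nat_lit 372) (nat_lit 257) (nat_lit 151)) (XT.lf (nat_lit 0) (nat_lit 93285890092) (nat_lit 76) (nat_lit 120020712934) (nat_lit 76) (nat_lit 99090975539) (nat_lit 3) (nat_lit 4) (nat_lit 4) (nat_lit 5) (nat_lit 4) (nat_lit 4) (nat_lit 373) (nat_lit 257) (nat_lit 150))))))))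
noncomputable def xc99 : XT := (XT.nd (nat_lit 32526) (nat_lit 0) (nat_lit 3344) (XT.nd (nat_lit 702) (nat_lit 0) (nat_lit 0) (XT.nd (nat_lit 312) (nat_lit 0) (nat_lit 0) (XT.nd (nat_lit 156) (nat_lit 0) (nat_lit 0) (XT.nd (nat_lit 78) (nat_lit 0) (nat_lit 0) (XT.lf (nat_lit 0) (nat_lit 109060334950) (nat_lit 76) (nat_lit 119795971435) (nat_lit 76) (nat_lit 98860818486) (nat_lit 3) (nat_lit 4) (nat_lit 4) (nat_lit 5) (nat_lit 4) (nat_lit 4) (nat_lit 374) (nat_lit 257) (nat_lit 149)) (XT.lf (nat_lit 0) (nat_lit 125617978075) (nat_lit 76) (nat_lit 119562565181) (nat_lit 76) (nat_lit 98622254561) (nat_lit 3) (nat_lit 4) (nat_lit 4) (nat_lit 5) (nat_lit 4) (nat_lit 4) (nat_lit 375) (nat_lit 257) (nat_lit 148))) (XT.nd (nat_lit 78) (nat_lit 0) (nat_lit 0) (XT.lf (nat_lit 0) (nat_lit 142998242426) (nat_lit 76) (nat_lit 119319938444) (nat_lit 76) (nat_lit 98374715756) (nat_lit 3) (nat_lit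 4) (nat_lit 4) (nat_lit 5) (nat_lit 4) (nat_lit 4) (nat_lit 376) (nat_lit 257) (nat_lit 147)) (XT.lf (nat_lit 0) (nat_lit 161242509586) (nat_lit 76) (nat_lit 119067513540) (nat_lit 76) (nat_lit 98117612692) (nat_lit 3) (nat_lit 4) (nat_lit 4) (nat_lit 5) (nat_lit 4) (nat_lit 4) (nat_lit 377) (nat_lit 257) (nat_lit 146)))) (XT.nd (nat_lit 156) (nat_lit 0) (nat_lit 0) (XT.nd (nat_lit 78) (nat_lit 0) (nat_lit 0) (XT.lf (nat_lit 0) (nat_lit 180394218285) (nat_lit 76) (nat_lit 118804689457) (nat_lit 76) (nat_lit 97850333220) (nat_lit 3) (nat_lit 4) (nat_lit 4) (nat_lit 5) (nat_lit 4) (nat_lit 4) (nat_lit 378) (nat_lit 257) (nat_lit 145)) (XT.lf (nat_lit 0) (nat_lit 200498967830) (nat_lit 76) (nat_lit 118530840425) (nat_lit 76) (nat_lit 97572240959) (nat_lit 3) (nat_lit 4) (nat_lit 4) (nat_lit 5) (nat_lit 4) (nat_lit 4) (nat_lit 379) (nat_lit 257) (nat_lit 144))) (XT.nd (nat_lit 78) (nat_lit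 0) (nat_lit 0) (XT.lf (nat_lit 0) (nat_lit 221604626672) (nat_lit 76) (nat_lit 118245314422) (nat_lit 76) (nat_lit 97282673785) (nat_lit 3) (nat_lit 4) (nat_lit 4) (nat_lit 5) (nat_lit 4) (nat_lit 4) (nat_lit 380) (nat_lit 257) (nat_lit 143)) (XT.nd (nat_lit 78) (nat_lit 0) (nat_lit 0) (XT.lf (nat_lit 0) (nat_lit 243761446381) (nat_lit 76) (nat_lit 117947431623) (nat_lit 76) (nat_lit 96980942253) (nat_lit 3) (nat_lit 4) (nat_lit 4) (nat_lit 5) (nat_lit 4) (nat_lit 4) (nat_lit 381) (nat_lit 257) (nat_lit 142)) (XT.lf (nat_lit 0) (nat_lit 267022181288) (nat_lit 76) (nat_lit 117636482785) (nat_lit 76) (nat_lit 96666327954) (nat_lit 3) (nat_lit 4) (nat_lit 4) (nat_lit 5) (nat_lit 4) (nat_lit 4) (nat_lit 382) (nat_lit 257) (nat_lit 141)))))) (XT.nd (nat_lit 31434) (nat_lit 0) (nat_lit 8588) (XT.nd (nat_lit 156) (nat_lit 0) (nat_lit 0) (XT.nd (nat_lit 78) (nat_lit 0) (nat_lit 0) (XT.lf (nat_lit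 0) (nat_lit 291442214096) (nat_lit 76) (nat_lit 117311727552) (nat_lit 76) (nat_lit 96338081806) (nat_lit 3) (nat_lit 4) (nat_lit 4) (nat_lit 5) (nat_lit 4) (nat_lit 4) (nat_lit 383) (nat_lit 257) (nat_lit 140)) (XT.lf (nat_lit 0) (nat_lit 317079687740) (nat_lit 76) (nat_lit 116972392698) (nat_lit 76) (nat_lit 95995422272) (nat_lit 3) (nat_lit 4) (nat_lit 4) (nat_lit 5) (nat_lit 4) (nat_lit 4) (nat_lit 384) (nat_lit 257) (nat_lit 139))) (XT.nd (nat_lit 78) (nat_lit 0) (nat_lit 0) (XT.lf (nat_lit 0) (nat_lit 343995643824) (nat_lit 76) (nat_lit 116617670283) (nat_lit 76) (nat_lit 95637533494) (nat_lit 3) (nat_lit 4) (nat_lit 4) (nat_lit 5) (nat_lit 4) (nat_lit 4) (nat_lit 385) (nat_lit 257) (nat_lit 138)) (XT.nd (nat_lit 31122) (nat_lit 0) (nat_lit 9500) (XT.lf (nat_lit 0) (nat_lit 372254167958) (nat_lit 76) (nat_lit 116246715729) (nat_lit 76) (nat_lit 95263563357) (nat_lit 3) (nat_lit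 4) (nat_lit 4) (nat_lit 5) (nat_lit 4) (nat_lit 4) (nat_lit 386) (nat_lit 257) (nat_lit 137)) (XT.lf (nat_lit 0) (nat_lit 3076366228) (nat_lit 76) (nat_lit 84630945) (nat_lit 76) (nat_lit 84630945) (nat_lit 128) (nat_lit 4) (nat_lit 129) (nat_lit 5) (nat_lit 129) (nat_lit 4) (nat_lit 264) (nat_lit 258) (nat_lit 258))))) (XT.nd (nat_lit 156) (nat_lit 456) (nat_lit 0) (XT.nd (nat_lit 78) (nat_lit 228) (nat_lit 0) (XT.lf (nat_lit 0) (nat_lit 2744433441) (nat_lit 228) (nat_lit 3441612616) (nat_lit 0) (nat_lit 332833189) (nat_lit 125) (nat_lit 5) (nat_lit 128) (nat_lit 4) (nat_lit 125) (nat_lit 4) (nat_lit 265) (nat_lit 258) (nat_lit 257)) (XT.lf (nat_lit 0) (nat_lit 4866452) (nat_lit 228) (nat_lit 5630087635) (nat_lit 228) (nat_lit 921725238) (nat_lit 122) (nat_lit 4) (nat_lit 125) (nat_lit 5) (nat_lit 125) (nat_lit 4) (nat_lit 266) (nat_lit 258) (nat_lit 256))) (XT.nd (nat_lit 78) (nat_lit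 380) (nat_lit 0) (XT.lf (nat_lit 0) (nat_lit 1897602050) (nat_lit 304) (nat_lit 3005670712) (nat_lit 76) (nat_lit 1697664842) (nat_lit 121) (nat_lit 5) (nat_lit 125) (nat_lit 5) (nat_lit 122) (nat_lit 4) (nat_lit 267) (nat_lit 258) (nat_lit 255)) (XT.nd (nat_lit 78) (nat_lit 76) (nat_lit 0) (XT.lf (nat_lit 0) (nat_lit 605830701) (nat_lit 304) (nat_lit 4069689585) (nat_lit 380) (nat_lit 1979373398) (nat_lit 117) (nat_lit 5) (nat_lit 121) (nat_lit 5) (nat_lit 122) (nat_lit 4) (nat_lit 268) (nat_lit 258) (nat_lit 254)) (XT.lf (nat_lit 0) (nat_lit 746190775) (nat_lit 380) (nat_lit 2341521500) (nat_lit 76) (nat_lit 3629076083) (nat_lit 116) (nat_lit 5) (nat_lit 121) (nat_lit 5) (nat_lit 117) (nat_lit 5) (nat_lit 269) (nat_lit 258) (nat_lit 253))))))) (XT.nd (nat_lit 780) (nat_lit 1976) (nat_lit 0) (XT.nd (nat_lit 390) (nat_lit 1824) (nat_lit 0) (XT.nd (nat_lit 156) (nat_lit 1064) (nat_lit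 0) (XT.nd (nat_lit 78) (nat_lit 0) (nat_lit 0) (XT.lf (nat_lit 0) (nat_lit 1450919832) (nat_lit 380) (nat_lit 1962634547) (nat_lit 456) (nat_lit 3373578034) (nat_lit 111) (nat_lit 5) (nat_lit 116) (nat_lit 5) (nat_lit 117) (nat_lit 5) (nat_lit 270) (nat_lit 258) (nat_lit 252)) (XT.lf (nat_lit 0) (nat_lit 5401654836) (nat_lit 380) (nat_lit 707088013) (nat_lit 456) (nat_lit 758079547) (nat_lit 111) (nat_lit 5) (nat_lit 116) (nat_lit 5) (nat_lit 117) (nat_lit 5) (nat_lit 271) (nat_lit 258) (nat_lit 251))) (XT.nd (nat_lit 78) (nat_lit 532) (nat_lit 0) (XT.lf (nat_lit 0) (nat_lit 1834260717) (nat_lit 532) (nat_lit 4428494335) (nat_lit 76) (nat_lit 691204974) (nat_lit 104) (nat_lit 5) (nat_lit 111) (nat_lit 5) (nat_lit 105) (nat_lit 5) (nat_lit 272) (nat_lit 258) (nat_lit 250)) (XT.nd (nat_lit 78) (nat_lit 532) (nat_lit 0) (XT.lf (nat_lit 0) (nat_lit 4431881607) (nat_lit 532) (nat_lit 420428218)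 (nat_lit 76) (nat_lit 2197942793) (nat_lit 104) (nat_lit 5) (nat_lit 111) (nat_lit 5) (nat_lit 105) (nat_lit 5) (nat_lit 273) (nat_lit 258) (nat_lit 249)) (XT.lf (nat_lit 0) (nat_lit 3796912450) (nat_lit 532) (nat_lit 3292540440) (nat_lit 608) (nat_lit 65857253) (nat_lit 97) (nat_lit 5) (nat_lit 104) (nat_lit 5) (nat_lit 105) (nat_lit 5) (nat_lit 274) (nat_lit 258) (nat_lit 248))))) (XT.nd (nat_lit 156) (nat_lit 1140) (nat_lit 0) (XT.nd (nat_lit 78) (nat_lit 0) (nat_lit 0) (XT.lf (nat_lit 0) (nat_lit 845111996) (nat_lit 608) (nat_lit 1578675582) (nat_lit 684) (nat_lit 4845544801) (nat_lit 88) (nat_lit 5) (nat_lit 96) (nat_lit 5) (nat_lit 97) (nat_lit 5) (nat_lit 275) (nat_lit 258) (nat_lit 247)) (XT.lf (nat_lit 0) (nat_lit 4974138269) (nat_lit 684) (nat_lit 2136559648) (nat_lit 76) (nat_lit 281773970) (nat_lit 88) (nat_lit 5) (nat_lit 97) (nat_lit 5) (nat_lit 89) (nat_lit 5) (nat_lit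 276) (nat_lit 258) (nat_lit 246))) (XT.nd (nat_lit 78) (nat_lit 380) (nat_lit 0) (XT.lf (nat_lit 0) (nat_lit 69599548) (nat_lit 760) (nat_lit 5227402637) (nat_lit 76) (nat_lit 2227843565) (nat_lit 78) (nat_lit 5) (nat_lit 88) (nat_lit 5) (nat_lit 79) (nat_lit 5) (nat_lit 277) (nat_lit 258) (nat_lit 245)) (XT.nd (nat_lit 78) (nat_lit 380) (nat_lit 0) (XT.lf (nat_lit 0) (nat_lit 2522073881) (nat_lit 760) (nat_lit 791802530) (nat_lit 76) (nat_lit 4352247449) (nat_lit 78) (nat_lit 5) (nat_lit 88) (nat_lit 5) (nat_lit 79) (nat_lit 5) (nat_lit 278) (nat_lit 258) (nat_lit 244)) (XT.lf (nat_lit 0) (nat_lit 3878417880) (nat_lit 380) (nat_lit 1169439906) (nat_lit 456) (nat_lit 2769396283) (nat_lit 73) (nat_lit 5) (nat_lit 78) (nat_lit 5) (nat_lit 79) (nat_lit 5) (nat_lit 279) (nat_lit 258) (nat_lit 243)))))) (XT.nd (nat_lit 390) (nat_lit 836) (nat_lit 0) (XT.nd (nat_lit 156) (nat_lit 684) (nat_lit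 0) (XT.nd (nat_lit 78) (nat_lit 76) (nat_lit 0) (XT.lf (nat_lit 0) (nat_lit 725396125) (nat_lit 380) (nat_lit 6909991923) (nat_lit 456) (nat_lit 344087013) (nat_lit 68) (nat_lit 5) (nat_lit 73) (nat_lit 5) (nat_lit 74) (nat_lit 5) (nat_lit 280) (nat_lit 258) (nat_lit 242)) (XT.lf (nat_lit 0) (nat_lit 2113896504) (nat_lit 456) (nat_lit 2558505920) (nat_lit 76) (nat_lit 3476868796) (nat_lit 67) (nat_lit 5) (nat_lit 73) (nat_lit 5) (nat_lit 68) (nat_lit 5) (nat_lit 281) (nat_lit 258) (nat_lit 241))) (XT.nd (nat_lit 78) (nat_lit 380) (nat_lit 0) (XT.lf (nat_lit 0) (nat_lit 2329359025) (nat_lit 304) (nat_lit 2290159044) (nat_lit 380) (nat_lit 3711207270) (nat_lit 63) (nat_lit 5) (nat_lit 67) (nat_lit 5) (nat_lit 68) (nat_lit 5) (nat_lit 282) (nat_lit 258) (nat_lit 240)) (XT.nd (nat_lit 78) (nat_lit 380) (nat_lit 0) (XT.lf (nat_lit 0) (nat_lit 7200549781) (nat_lit 380) (nat_lit 1087160484)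 (nat_lit 76) (nat_lit 236288122) (nat_lit 63) (nat_lit 5) (nat_lit 68) (nat_lit 5) (nat_lit 64) (nat_lit 5) (nat_lit 283) (nat_lit 258) (nat_lit 239)) (XT.lf (nat_lit 0) (nat_lit 1154004686) (nat_lit 380) (nat_lit 4689402799) (nat_lit 76) (nat_lit 2882423124) (nat_lit 58) (nat_lit 5) (nat_lit 63) (nat_lit 5) (nat_lit 59) (nat_lit 5) (nat_lit 284) (nat_lit 258) (nat_lit 238))))) (XT.nd (nat_lit 156) (nat_lit 608) (nat_lit 0) (XT.nd (nat_lit 78) (nat_lit 0) (nat_lit 0) (XT.lf (nat_lit 0) (nat_lit 397280091) (nat_lit 228) (nat_lit 3246949453) (nat_lit 304) (nat_lit 5295989603) (nat_lit 55) (nat_lit 5) (nat_lit 58) (nat_lit 5) (nat_lit 59) (nat_lit 5) (nat_lit 285) (nat_lit 258) (nat_lit 237)) (XT.lf (nat_lit 0) (nat_lit 5792342498) (nat_lit 228) (nat_lit 457160861) (nat_lit 304) (nat_lit 2916504748) (nat_lit 55) (nat_lit 5) (nat_lit 58) (nat_lit 5) (nat_lit 59) (nat_lit 5) (nat_lit 286)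 (nat_lit 258) (nat_lit 236))) (XT.nd (nat_lit 78) (nat_lit 304) (nat_lit 0) (XT.lf (nat_lit 0) (nat_lit 1970838180) (nat_lit 304) (nat_lit 6998626825) (nat_lit 380) (nat_lit 434598279) (nat_lit 51) (nat_lit 5) (nat_lit 55) (nat_lit 5) (nat_lit 56) (nat_lit 5) (nat_lit 287) (nat_lit 258) (nat_lit 235)) (XT.nd (nat_lit 78) (nat_lit 228) (nat_lit 0) (XT.lf (nat_lit 0) (nat_lit 2083382369) (nat_lit 380) (nat_lit 2102742393) (nat_lit 76) (nat_lit 5467307081) (nat_lit 50) (nat_lit 5) (nat_lit 55) (nat_lit 5) (nat_lit 51) (nat_lit 5) (nat_lit 288) (nat_lit 258) (nat_lit 234)) (XT.lf (nat_lit 0) (nat_lit 3495259208) (nat_lit 228) (nat_lit 1191884090) (nat_lit 304) (nat_lit 5229215996) (nat_lit 47) (nat_lit 5) (nat_lit 50) (nat_lit 5) (nat_lit 51) (nat_lit 5) (nat_lit 289) (nat_lit 258) (nat_lit 233))))))))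
noncomputable def xc100 : XT := (XT.nd (nat_lit 1482) (nat_lit 912) (nat_lit 0) (XT.nd (nat_lit 702) (nat_lit 760) (nat_lit 0) (XT.nd (nat_lit 312) (nat_lit 684) (nat_lit 0) (XT.nd (nat_lit 156) (nat_lit 228) (nat_lit 0) (XT.nd (nat_lit 78) (nat_lit 228) (nat_lit 0) (XT.lf (nat_lit 0) (nat_lit 7409521873) (nat_lit 304) (nat_lit 881305730) (nat_lit 76) (nat_lit 1902346911) (nat_lit 47) (nat_lit 5) (nat_lit 51) (nat_lit 5) (nat_lit 48) (nat_lit 5) (nat_lit 290) (nat_lit 258) (nat_lit 232)) (XT.lf (nat_lit 0) (nat_lit 4974432675) (nat_lit 228) (nat_lit 5316274041) (nat_lit 304) (nat_lit 192144535) (nat_lit 44) (nat_lit 5) (nat_lit 47) (nat_lit 5) (nat_lit 48) (nat_lit 5) (nat_lit 291) (nat_lit 258) (nat_lit 231))) (XT.nd (nat_lit 78) (nat_lit 0) (nat_lit 0) (XT.lf (nat_lit 0) (nat_lit 233352207) (nat_lit 152) (nat_lit 2159611123) (nat_lit 228) (nat_lit 8394966694) (nat_lit 41) (nat_lit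 5) (nat_lit 43) (nat_lit 5) (nat_lit 44) (nat_lit 5) (nat_lit 292) (nat_lit 258) (nat_lit 230)) (XT.lf (nat_lit 0) (nat_lit 5141385444) (nat_lit 228) (nat_lit 4776183820) (nat_lit 76) (nat_lit 1188644168) (nat_lit 41) (nat_lit 5) (nat_lit 44) (nat_lit 5) (nat_lit 42) (nat_lit 5) (nat_lit 293) (nat_lit 258) (nat_lit 229)))) (XT.nd (nat_lit 156) (nat_lit 456) (nat_lit 0) (XT.nd (nat_lit 78) (nat_lit 0) (nat_lit 0) (XT.lf (nat_lit 0) (nat_lit 1195586313) (nat_lit 228) (nat_lit 6816824775) (nat_lit 304) (nat_lit 3428868418) (nat_lit 38) (nat_lit 5) (nat_lit 41) (nat_lit 5) (nat_lit 42) (nat_lit 5) (nat_lit 294) (nat_lit 258) (nat_lit 228)) (XT.lf (nat_lit 0) (nat_lit 7534944139) (nat_lit 228) (nat_lit 3505812112) (nat_lit 304) (nat_lit 751775765) (nat_lit 38) (nat_lit 5) (nat_lit 41) (nat_lit 5) (nat_lit 42) (nat_lit 5) (nat_lit 295) (nat_lit 258) (nat_lit 227))) (XT.nd (nat_lit 78) (nat_lit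 228) (nat_lit 0) (XT.lf (nat_lit 0) (nat_lit 1958995822) (nat_lit 228) (nat_lit 10195449758) (nat_lit 76) (nat_lit 7117809) (nat_lit 35) (nat_lit 5) (nat_lit 38) (nat_lit 5) (nat_lit 36) (nat_lit 5) (nat_lit 296) (nat_lit 258) (nat_lit 226)) (XT.nd (nat_lit 78) (nat_lit 228) (nat_lit 0) (XT.lf (nat_lit 0) (nat_lit 4846904724) (nat_lit 228) (nat_lit 4063368709) (nat_lit 76) (nat_lit 3634918514) (nat_lit 35) (nat_lit 5) (nat_lit 38) (nat_lit 5) (nat_lit 36) (nat_lit 5) (nat_lit 297) (nat_lit 258) (nat_lit 225)) (XT.lf (nat_lit 0) (nat_lit 2359636557) (nat_lit 228) (nat_lit 5495560341) (nat_lit 304) (nat_lit 5094105636) (nat_lit 32) (nat_lit 5) (nat_lit 35) (nat_lit 5) (nat_lit 36) (nat_lit 5) (nat_lit 298) (nat_lit 258) (nat_lit 224)))))) (XT.nd (nat_lit 390) (nat_lit 380) (nat_lit 0) (XT.nd (nat_lit 156) (nat_lit 152) (nat_lit 0) (XT.nd (nat_lit 78) (nat_lit 228) (nat_lit 0) (XT.lf (nat_lit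 0) (nat_lit 9155131149) (nat_lit 228) (nat_lit 1868231716) (nat_lit 304) (nat_lit 2349878057) (nat_lit 32) (nat_lit 5) (nat_lit 35) (nat_lit 5) (nat_lit 36) (nat_lit 5) (nat_lit 299) (nat_lit 258) (nat_lit 223)) (XT.lf (nat_lit 0) (nat_lit 525924265) (nat_lit 228) (nat_lit 11394754529) (nat_lit 76) (nat_lit 1896800025) (nat_lit 29) (nat_lit 5) (nat_lit 32) (nat_lit 5) (nat_lit 30) (nat_lit 5) (nat_lit 300) (nat_lit 258) (nat_lit 222))) (XT.nd (nat_lit 78) (nat_lit 152) (nat_lit 0) (XT.lf (nat_lit 0) (nat_lit 3513165212) (nat_lit 228) (nat_lit 4897094445) (nat_lit 76) (nat_lit 5869494097) (nat_lit 29) (nat_lit 5) (nat_lit 32) (nat_lit 5) (nat_lit 30) (nat_lit 5) (nat_lit 301) (nat_lit 258) (nat_lit 221)) (XT.nd (nat_lit 78) (nat_lit 0) (nat_lit 0) (XT.lf (nat_lit 0) (nat_lit 1902078944) (nat_lit 152) (nat_lit 4723468200) (nat_lit 228) (nat_lit 8140884692) (nat_lit 27) (nat_lit 5) (nat_lit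 29) (nat_lit 5) (nat_lit 30) (nat_lit 5) (nat_lit 302) (nat_lit 258) (nat_lit 220)) (XT.lf (nat_lit 0) (nat_lit 9128337802) (nat_lit 152) (nat_lit 795500572) (nat_lit 228) (nat_lit 5352165553) (nat_lit 27) (nat_lit 5) (nat_lit 29) (nat_lit 5) (nat_lit 30) (nat_lit 5) (nat_lit 303) (nat_lit 258) (nat_lit 219))))) (XT.nd (nat_lit 156) (nat_lit 152) (nat_lit 0) (XT.nd (nat_lit 78) (nat_lit 76) (nat_lit 0) (XT.lf (nat_lit 0) (nat_lit 797331261) (nat_lit 152) (nat_lit 12603547096) (nat_lit 228) (nat_lit 2409555621) (nat_lit 25) (nat_lit 5) (nat_lit 27) (nat_lit 5) (nat_lit 28) (nat_lit 4) (nat_lit 304) (nat_lit 258) (nat_lit 218)) (XT.lf (nat_lit 0) (nat_lit 726976679) (nat_lit 228) (nat_lit 8170225982) (nat_lit 76) (nat_lit 7470488246) (nat_lit 24) (nat_lit 5) (nat_lit 27) (nat_lit 5) (nat_lit 25) (nat_lit 5) (nat_lit 305) (nat_lit 258) (nat_lit 217))) (XT.nd (nat_lit 78) (nat_lit 152)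 (nat_lit 0) (XT.lf (nat_lit 0) (nat_lit 3891454494) (nat_lit 228) (nat_lit 1102316200) (nat_lit 76) (nat_lit 11959521539) (nat_lit 24) (nat_lit 5) (nat_lit 27) (nat_lit 5) (nat_lit 25) (nat_lit 5) (nat_lit 306) (nat_lit 258) (nat_lit 216)) (XT.nd (nat_lit 78) (nat_lit 0) (nat_lit 0) (XT.lf (nat_lit 0) (nat_lit 6451565278) (nat_lit 152) (nat_lit 817694859) (nat_lit 228) (nat_lit 10296216757) (nat_lit 22) (nat_lit 5) (nat_lit 24) (nat_lit 5) (nat_lit 25) (nat_lit 5) (nat_lit 307) (nat_lit 258) (nat_lit 215)) (XT.lf (nat_lit 0) (nat_lit 10845598883) (nat_lit 228) (nat_lit 3916494104) (nat_lit 76) (nat_lit 3444751339) (nat_lit 22) (nat_lit 5) (nat_lit 25) (nat_lit 5) (nat_lit 23) (nat_lit 4) (nat_lit 308) (nat_lit 258) (nat_lit 214))))))) (XT.nd (nat_lit 780) (nat_lit 304) (nat_lit 0) (XT.nd (nat_lit 390) (nat_lit 304) (nat_lit 0) (XT.nd (nat_lit 156) (nat_lit 228) (nat_lit 0) (XT.nd (nat_lit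 78) (nat_lit 0) (nat_lit 0) (XT.lf (nat_lit 0) (nat_lit 3673962329) (nat_lit 76) (nat_lit 10954676750) (nat_lit 152) (nat_lit 4250299854) (nat_lit 21) (nat_lit 5) (nat_lit 22) (nat_lit 5) (nat_lit 23) (nat_lit 4) (nat_lit 309) (nat_lit 258) (nat_lit 213)) (XT.lf (nat_lit 0) (nat_lit 11710041992) (nat_lit 76) (nat_lit 6915186919) (nat_lit 152) (nat_lit 958239981) (nat_lit 21) (nat_lit 5) (nat_lit 22) (nat_lit 5) (nat_lit 23) (nat_lit 4) (nat_lit 310) (nat_lit 258) (nat_lit 212))) (XT.nd (nat_lit 78) (nat_lit 152) (nat_lit 0) (XT.lf (nat_lit 0) (nat_lit 2377823120) (nat_lit 152) (nat_lit 282240681) (nat_lit 76) (nat_lit 17663288719) (nat_lit 20) (nat_lit 5) (nat_lit 22) (nat_lit 5) (nat_lit 21) (nat_lit 5) (nat_lit 311) (nat_lit 258) (nat_lit 211)) (XT.nd (nat_lit 78) (nat_lit 0) (nat_lit 0) (XT.lf (nat_lit 0) (nat_lit 5962586159) (nat_lit 228) (nat_lit 13265720863) (nat_lit 76) (nat_lit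 1865476493) (nat_lit 18) (nat_lit 5) (nat_lit 21) (nat_lit 5) (nat_lit 19) (nat_lit 4) (nat_lit 312) (nat_lit 258) (nat_lit 210)) (XT.lf (nat_lit 0) (nat_lit 9736799672) (nat_lit 228) (nat_lit 5657689444) (nat_lit 76) (nat_lit 6507777878) (nat_lit 18) (nat_lit 5) (nat_lit 21) (nat_lit 5) (nat_lit 19) (nat_lit 4) (nat_lit 313) (nat_lit 258) (nat_lit 209))))) (XT.nd (nat_lit 156) (nat_lit 228) (nat_lit 0) (XT.nd (nat_lit 78) (nat_lit 0) (nat_lit 0) (XT.lf (nat_lit 0) (nat_lit 2343673516) (nat_lit 76) (nat_lit 11356209729) (nat_lit 152) (nat_lit 9051323004) (nat_lit 17) (nat_lit 5) (nat_lit 18) (nat_lit 5) (nat_lit 19) (nat_lit 4) (nat_lit 314) (nat_lit 258) (nat_lit 208)) (XT.lf (nat_lit 0) (nat_lit 10880445936) (nat_lit 76) (nat_lit 7040840052) (nat_lit 152) (nat_lit 5718335914) (nat_lit 17) (nat_lit 5) (nat_lit 18) (nat_lit 5) (nat_lit 19) (nat_lit 4) (nat_lit 315) (nat_lit 258) (nat_lit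 207))) (XT.nd (nat_lit 78) (nat_lit 228) (nat_lit 0) (XT.lf (nat_lit 0) (nat_lit 19785884699) (nat_lit 76) (nat_lit 2533921106) (nat_lit 152) (nat_lit 2254386078) (nat_lit 17) (nat_lit 5) (nat_lit 18) (nat_lit 5) (nat_lit 19) (nat_lit 4) (nat_lit 316) (nat_lit 258) (nat_lit 206)) (XT.nd (nat_lit 78) (nat_lit 0) (nat_lit 0) (XT.lf (nat_lit 0) (nat_lit 1397338337) (nat_lit 228) (nat_lit 21969678560) (nat_lit 76) (nat_lit 2184484877) (nat_lit 14) (nat_lit 5) (nat_lit 17) (nat_lit 5) (nat_lit 15) (nat_lit 4) (nat_lit 317) (nat_lit 258) (nat_lit 205)) (XT.lf (nat_lit 0) (nat_lit 5247281653) (nat_lit 228) (nat_lit 14173635858) (nat_lit 76) (nat_lit 7150373055) (nat_lit 14) (nat_lit 5) (nat_lit 17) (nat_lit 5) (nat_lit 15) (nat_lit 4) (nat_lit 318) (nat_lit 258) (nat_lit 204)))))) (XT.nd (nat_lit 390) (nat_lit 228) (nat_lit 0) (XT.nd (nat_lit 156) (nat_lit 0) (nat_lit 0) (XT.nd (nat_lit 78)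 (nat_lit 76) (nat_lit 0) (XT.lf (nat_lit 0) (nat_lit 9258706386) (nat_lit 228) (nat_lit 6041968580) (nat_lit 76) (nat_lit 12342974147) (nat_lit 14) (nat_lit 5) (nat_lit 17) (nat_lit 5) (nat_lit 15) (nat_lit 4) (nat_lit 319) (nat_lit 258) (nat_lit 203)) (XT.lf (nat_lit 0) (nat_lit 2525516690) (nat_lit 76) (nat_lit 10955077249) (nat_lit 152) (nat_lit 15288565191) (nat_lit 13) (nat_lit 5) (nat_lit 14) (nat_lit 5) (nat_lit 15) (nat_lit 4) (nat_lit 320) (nat_lit 258) (nat_lit 202))) (XT.nd (nat_lit 78) (nat_lit 0) (nat_lit 0) (XT.lf (nat_lit 0) (nat_lit 11680374276) (nat_lit 76) (nat_lit 6306600467) (nat_lit 152) (nat_lit 11960326746) (nat_lit 13) (nat_lit 5) (nat_lit 14) (nat_lit 5) (nat_lit 15) (nat_lit 4) (nat_lit 321) (nat_lit 258) (nat_lit 201)) (XT.nd (nat_lit 78) (nat_lit 0) (nat_lit 0) (XT.lf (nat_lit 0) (nat_lit 21244626688) (nat_lit 76) (nat_lit 1446500479) (nat_lit 152) (nat_lit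 8494626675) (nat_lit 13) (nat_lit 5) (nat_lit 14) (nat_lit 5) (nat_lit 15) (nat_lit 4) (nat_lit 322) (nat_lit 258) (nat_lit 200)) (XT.lf (nat_lit 0) (nat_lit 27661032128) (nat_lit 152) (nat_lit 1303199486) (nat_lit 0) (nat_lit 3520394246) (nat_lit 13) (nat_lit 5) (nat_lit 15) (nat_lit 4) (nat_lit 13) (nat_lit 4) (nat_lit 323) (nat_lit 258) (nat_lit 199))))) (XT.nd (nat_lit 156) (nat_lit 76) (nat_lit 0) (XT.nd (nat_lit 78) (nat_lit 76) (nat_lit 0) (XT.lf (nat_lit 0) (nat_lit 7952613750) (nat_lit 76) (nat_lit 25049413413) (nat_lit 76) (nat_lit 840307713) (nat_lit 12) (nat_lit 4) (nat_lit 13) (nat_lit 5) (nat_lit 13) (nat_lit 4) (nat_lit 324) (nat_lit 258) (nat_lit 198)) (XT.lf (nat_lit 0) (nat_lit 3232412289) (nat_lit 152) (nat_lit 17647867951) (nat_lit 76) (nat_lit 14385199119) (nat_lit 11) (nat_lit 5) (nat_lit 13) (nat_lit 5) (nat_lit 12) (nat_lit 4) (nat_lit 325) (nat_lit 258) (nat_lit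 197))) (XT.nd (nat_lit 78) (nat_lit 76) (nat_lit 0) (XT.lf (nat_lit 0) (nat_lit 7456535105) (nat_lit 152) (nat_lit 9050518508) (nat_lit 76) (nat_lit 20253258330) (nat_lit 11) (nat_lit 5) (nat_lit 13) (nat_lit 5) (nat_lit 12) (nat_lit 4) (nat_lit 326) (nat_lit 258) (nat_lit 196)) (XT.nd (nat_lit 78) (nat_lit 76) (nat_lit 0) (XT.lf (nat_lit 0) (nat_lit 11869013264) (nat_lit 152) (nat_lit 64083359) (nat_lit 76) (nat_lit 26397951108) (nat_lit 11) (nat_lit 5) (nat_lit 13) (nat_lit 5) (nat_lit 12) (nat_lit 4) (nat_lit 327) (nat_lit 258) (nat_lit 195)) (XT.lf (nat_lit 0) (nat_lit 9641419402) (nat_lit 76) (nat_lit 6989462839) (nat_lit 152) (nat_lit 23343017847) (nat_lit 10) (nat_lit 5) (nat_lit 11) (nat_lit 5) (nat_lit 12) (nat_lit 4) (nat_lit 328) (nat_lit 258) (nat_lit 194))))))))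
noncomputable def xc101 : XT := (XT.nd (nat_lit 1482) (nat_lit 228) (nat_lit 0) (XT.nd (nat_lit 702) (nat_lit 76) (nat_lit 0) (XT.nd (nat_lit 312) (nat_lit 152) (nat_lit 0) (XT.nd (nat_lit 156) (nat_lit 76) (nat_lit 0) (XT.nd (nat_lit 78) (nat_lit 0) (nat_lit 0) (XT.lf (nat_lit 0) (nat_lit 19796208803) (nat_lit 76) (nat_lit 1814398184) (nat_lit 152) (nat_lit 20089317227) (nat_lit 10) (nat_lit 5) (nat_lit 11) (nat_lit 5) (nat_lit 12) (nat_lit 4) (nat_lit 329) (nat_lit 258) (nat_lit 193)) (XT.lf (nat_lit 0) (nat_lit 26875268521) (nat_lit 152) (nat_lit 13147195477) (nat_lit 0) (nat_lit 3488004462) (nat_lit 10) (nat_lit 5) (nat_lit 12) (nat_lit 4) (nat_lit 10) (nat_lit 4) (nat_lit 330) (nat_lit 258) (nat_lit 192))) (XT.nd (nat_lit 78) (nat_lit 76) (nat_lit 0) (XT.lf (nat_lit 0) (nat_lit 32413327617) (nat_lit 152) (nat_lit 4017997893) (nat_lit 0) (nat_lit 8979721844) (nat_lit 10) (nat_lit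 5) (nat_lit 12) (nat_lit 4) (nat_lit 10) (nat_lit 4) (nat_lit 331) (nat_lit 258) (nat_lit 191)) (XT.lf (nat_lit 0) (nat_lit 5716918460) (nat_lit 76) (nat_lit 32581980949) (nat_lit 76) (nat_lit 9104240210) (nat_lit 9) (nat_lit 4) (nat_lit 10) (nat_lit 5) (nat_lit 10) (nat_lit 4) (nat_lit 332) (nat_lit 258) (nat_lit 190)))) (XT.nd (nat_lit 156) (nat_lit 152) (nat_lit 0) (XT.nd (nat_lit 78) (nat_lit 0) (nat_lit 0) (XT.lf (nat_lit 0) (nat_lit 16044902082) (nat_lit 76) (nat_lit 28483617095) (nat_lit 76) (nat_lit 4963843055) (nat_lit 9) (nat_lit 4) (nat_lit 10) (nat_lit 5) (nat_lit 10) (nat_lit 4) (nat_lit 333) (nat_lit 258) (nat_lit 189)) (XT.lf (nat_lit 0) (nat_lit 26857690256) (nat_lit 76) (nat_lit 24194522676) (nat_lit 76) (nat_lit 634716921) (nat_lit 9) (nat_lit 4) (nat_lit 10) (nat_lit 5) (nat_lit 10) (nat_lit 4) (nat_lit 334) (nat_lit 258) (nat_lit 188))) (XT.nd (nat_lit 78) (nat_lit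 76) (nat_lit 0) (XT.lf (nat_lit 0) (nat_lit 3768831058) (nat_lit 152) (nat_lit 15871827527) (nat_lit 76) (nat_lit 34348369677) (nat_lit 8) (nat_lit 5) (nat_lit 10) (nat_lit 5) (nat_lit 9) (nat_lit 4) (nat_lit 335) (nat_lit 258) (nat_lit 187)) (XT.nd (nat_lit 78) (nat_lit 76) (nat_lit 0) (XT.lf (nat_lit 0) (nat_lit 8355166416) (nat_lit 152) (nat_lit 6506149990) (nat_lit 76) (nat_lit 41545209581) (nat_lit 8) (nat_lit 5) (nat_lit 10) (nat_lit 5) (nat_lit 9) (nat_lit 4) (nat_lit 336) (nat_lit 258) (nat_lit 186)) (XT.lf (nat_lit 0) (nat_lit 3409114922) (nat_lit 76) (nat_lit 9799634817) (nat_lit 152) (nat_lit 45734263427) (nat_lit 7) (nat_lit 5) (nat_lit 8) (nat_lit 5) (nat_lit 9) (nat_lit 4) (nat_lit 337) (nat_lit 258) (nat_lit 185)))))) (XT.nd (nat_lit 390) (nat_lit 76) (nat_lit 0) (XT.nd (nat_lit 156) (nat_lit 0) (nat_lit 0) (XT.nd (nat_lit 78) (nat_lit 0) (nat_lit 0) (XT.lf (nat_lit 0)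 (nat_lit 14018660988) (nat_lit 76) (nat_lit 4381542535) (nat_lit 152) (nat_lit 43201372215) (nat_lit 7) (nat_lit 5) (nat_lit 8) (nat_lit 5) (nat_lit 9) (nat_lit 4) (nat_lit 338) (nat_lit 258) (nat_lit 184)) (XT.lf (nat_lit 0) (nat_lit 23857179601) (nat_lit 152) (nat_lit 39281393311) (nat_lit 0) (nat_lit 1254206142) (nat_lit 7) (nat_lit 5) (nat_lit 9) (nat_lit 4) (nat_lit 7) (nat_lit 4) (nat_lit 339) (nat_lit 258) (nat_lit 183))) (XT.nd (nat_lit 78) (nat_lit 0) (nat_lit 0) (XT.lf (nat_lit 0) (nat_lit 29645058360) (nat_lit 152) (nat_lit 30661955987) (nat_lit 0) (nat_lit 7013635107) (nat_lit 7) (nat_lit 5) (nat_lit 9) (nat_lit 4) (nat_lit 7) (nat_lit 4) (nat_lit 340) (nat_lit 258) (nat_lit 182)) (XT.nd (nat_lit 78) (nat_lit 0) (nat_lit 0) (XT.lf (nat_lit 0) (nat_lit 35709212305) (nat_lit 152) (nat_lit 21635672151) (nat_lit 0) (nat_lit 13050694012) (nat_lit 7) (nat_lit 5) (nat_lit 9) (nat_lit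 4) (nat_lit 7) (nat_lit 4) (nat_lit 341) (nat_lit 258) (nat_lit 181)) (XT.lf (nat_lit 0) (nat_lit 42064079899) (nat_lit 152) (nat_lit 12181050650) (nat_lit 0) (nat_lit 19379756806) (nat_lit 7) (nat_lit 5) (nat_lit 9) (nat_lit 4) (nat_lit 7) (nat_lit 4) (nat_lit 342) (nat_lit 258) (nat_lit 180))))) (XT.nd (nat_lit 156) (nat_lit 0) (nat_lit 0) (XT.nd (nat_lit 78) (nat_lit 76) (nat_lit 0) (XT.lf (nat_lit 0) (nat_lit 48724791779) (nat_lit 152) (nat_lit 2275580481) (nat_lit 0) (nat_lit 26015892685) (nat_lit 7) (nat_lit 5) (nat_lit 9) (nat_lit 4) (nat_lit 7) (nat_lit 4) (nat_lit 343) (nat_lit 258) (nat_lit 179)) (XT.lf (nat_lit 0) (nat_lit 8372288320) (nat_lit 76) (nat_lit 47465633346) (nat_lit 76) (nat_lit 24733328538) (nat_lit 6) (nat_lit 4) (nat_lit 7) (nat_lit 5) (nat_lit 7) (nat_lit 4) (nat_lit 344) (nat_lit 258) (nat_lit 178))) (XT.nd (nat_lit 78) (nat_lit 0) (nat_lit 0) (XT.lf (nat_lit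 0) (nat_lit 19611049325) (nat_lit 76) (nat_lit 43723083821) (nat_lit 76) (nat_lit 20968487856) (nat_lit 6) (nat_lit 4) (nat_lit 7) (nat_lit 5) (nat_lit 7) (nat_lit 4) (nat_lit 345) (nat_lit 258) (nat_lit 177)) (XT.nd (nat_lit 78) (nat_lit 0) (nat_lit 0) (XT.lf (nat_lit 0) (nat_lit 31392220522) (nat_lit 76) (nat_lit 39802350910) (nat_lit 76) (nat_lit 17026525271) (nat_lit 6) (nat_lit 4) (nat_lit 7) (nat_lit 5) (nat_lit 7) (nat_lit 4) (nat_lit 346) (nat_lit 258) (nat_lit 176)) (XT.lf (nat_lit 0) (nat_lit 43743852317) (nat_lit 76) (nat_lit 35694099534) (nat_lit 76) (nat_lit 12898055159) (nat_lit 6) (nat_lit 4) (nat_lit 7) (nat_lit 5) (nat_lit 7) (nat_lit 4) (nat_lit 347) (nat_lit 258) (nat_lit 175))))))) (XT.nd (nat_lit 780) (nat_lit 76) (nat_lit 0) (XT.nd (nat_lit 390) (nat_lit 76) (nat_lit 0) (XT.nd (nat_lit 156) (nat_lit 76) (nat_lit 0) (XT.nd (nat_lit 78) (nat_lit 0) (nat_lit 0) (XT.lf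 (nat_lit 0) (nat_lit 56695353357) (nat_lit 76) (nat_lit 31388548143) (nat_lit 76) (nat_lit 8573247828) (nat_lit 6) (nat_lit 4) (nat_lit 7) (nat_lit 5) (nat_lit 7) (nat_lit 4) (nat_lit 348) (nat_lit 258) (nat_lit 174)) (XT.lf (nat_lit 0) (nat_lit 70277560551) (nat_lit 76) (nat_lit 26875445424) (nat_lit 76) (nat_lit 4041806119) (nat_lit 6) (nat_lit 4) (nat_lit 7) (nat_lit 5) (nat_lit 7) (nat_lit 4) (nat_lit 349) (nat_lit 258) (nat_lit 173))) (XT.nd (nat_lit 78) (nat_lit 0) (nat_lit 0) (XT.lf (nat_lit 0) (nat_lit 684428808) (nat_lit 152) (nat_lit 21448025952) (nat_lit 76) (nat_lit 83826792544) (nat_lit 5) (nat_lit 5) (nat_lit 7) (nat_lit 5) (nat_lit 6) (nat_lit 4) (nat_lit 350) (nat_lit 258) (nat_lit 172)) (XT.nd (nat_lit 78) (nat_lit 0) (nat_lit 0) (XT.lf (nat_lit 0) (nat_lit 5502710247) (nat_lit 152) (nat_lit 11587183007) (nat_lit 76) (nat_lit 93869125121) (nat_lit 5) (nat_lit 5) (nat_lit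 7) (nat_lit 5) (nat_lit 6) (nat_lit 4) (nat_lit 351) (nat_lit 258) (nat_lit 171)) (XT.lf (nat_lit 0) (nat_lit 10553873332) (nat_lit 152) (nat_lit 1248140591) (nat_lit 76) (nat_lit 104407170796) (nat_lit 5) (nat_lit 5) (nat_lit 7) (nat_lit 5) (nat_lit 6) (nat_lit 4) (nat_lit 352) (nat_lit 258) (nat_lit 170))))) (XT.nd (nat_lit 156) (nat_lit 0) (nat_lit 0) (XT.nd (nat_lit 78) (nat_lit 0) (nat_lit 0) (XT.lf (nat_lit 0) (nat_lit 9910929709) (nat_lit 76) (nat_lit 6093752322) (nat_lit 152) (nat_lit 105709827832) (nat_lit 4) (nat_lit 5) (nat_lit 5) (nat_lit 5) (nat_lit 6) (nat_lit 4) (nat_lit 353) (nat_lit 258) (nat_lit 169)) (XT.lf (nat_lit 0) (nat_lit 21657378264) (nat_lit 76) (nat_lit 84287978) (nat_lit 152) (nat_lit 105752757891) (nat_lit 4) (nat_lit 5) (nat_lit 5) (nat_lit 5) (nat_lit 6) (nat_lit 4) (nat_lit 354) (nat_lit 258) (nat_lit 168))) (XT.nd (nat_lit 78) (nat_lit 0) (nat_lit 0)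 (XT.lf (nat_lit 0) (nat_lit 27855458751) (nat_lit 152) (nat_lit 99682896753) (nat_lit 0) (nat_lit 6020485064) (nat_lit 4) (nat_lit 5) (nat_lit 6) (nat_lit 4) (nat_lit 4) (nat_lit 4) (nat_lit 355) (nat_lit 258) (nat_lit 167)) (XT.nd (nat_lit 78) (nat_lit 0) (nat_lit 0) (XT.lf (nat_lit 0) (nat_lit 34269426701) (nat_lit 152) (nat_lit 93235290563) (nat_lit 0) (nat_lit 12422040464) (nat_lit 4) (nat_lit 5) (nat_lit 6) (nat_lit 4) (nat_lit 4) (nat_lit 4) (nat_lit 356) (nat_lit 258) (nat_lit 166)) (XT.lf (nat_lit 0) (nat_lit 40997525473) (nat_lit 152) (nat_lit 86477559886) (nat_lit 0) (nat_lit 19138317760) (nat_lit 4) (nat_lit 5) (nat_lit 6) (nat_lit 4) (nat_lit 4) (nat_lit 4) (nat_lit 357) (nat_lit 258) (nat_lit 165)))))) (XT.nd (nat_lit 390) (nat_lit 76) (nat_lit 0) (XT.nd (nat_lit 156) (nat_lit 0) (nat_lit 0) (XT.nd (nat_lit 78) (nat_lit 0) (nat_lit 0) (XT.lf (nat_lit 0) (nat_lit 48055774351)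 (nat_lit 152) (nat_lit 79393614886) (nat_lit 0) (nat_lit 26185308089) (nat_lit 4) (nat_lit 5) (nat_lit 6) (nat_lit 4) (nat_lit 4) (nat_lit 4) (nat_lit 358) (nat_lit 258) (nat_lit 164)) (XT.lf (nat_lit 0) (nat_lit 55460978689) (nat_lit 152) (nat_lit 71966589027) (nat_lit 0) (nat_lit 33579789999) (nat_lit 4) (nat_lit 5) (nat_lit 6) (nat_lit 4) (nat_lit 4) (nat_lit 4) (nat_lit 359) (nat_lit 258) (nat_lit 163))) (XT.nd (nat_lit 78) (nat_lit 0) (nat_lit 0) (XT.lf (nat_lit 0) (nat_lit 63230769925) (nat_lit 152) (nat_lit 64178798916) (nat_lit 0) (nat_lit 41339369399) (nat_lit 4) (nat_lit 5) (nat_lit 6) (nat_lit 4) (nat_lit 4) (nat_lit 4) (nat_lit 360) (nat_lit 258) (nat_lit 162)) (XT.nd (nat_lit 78) (nat_lit 0) (nat_lit 0) (XT.lf (nat_lit 0) (nat_lit 71383647563) (nat_lit 152) (nat_lit 56011702194) (nat_lit 0) (nat_lit 49482521480) (nat_lit 4) (nat_lit 5) (nat_lit 6) (nat_lit 4) (nat_lit 4)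 (nat_lit 4) (nat_lit 361) (nat_lit 258) (nat_lit 161)) (XT.lf (nat_lit 0) (nat_lit 79939023217) (nat_lit 152) (nat_lit 47445853393) (nat_lit 0) (nat_lit 58028634697) (nat_lit 4) (nat_lit 5) (nat_lit 6) (nat_lit 4) (nat_lit 4) (nat_lit 4) (nat_lit 362) (nat_lit 258) (nat_lit 160))))) (XT.nd (nat_lit 156) (nat_lit 76) (nat_lit 0) (XT.nd (nat_lit 78) (nat_lit 0) (nat_lit 0) (XT.lf (nat_lit 0) (nat_lit 88917266827) (nat_lit 152) (nat_lit 38460857634) (nat_lit 0) (nat_lit 66998056939) (nat_lit 4) (nat_lit 5) (nat_lit 6) (nat_lit 4) (nat_lit 4) (nat_lit 4) (nat_lit 363) (nat_lit 258) (nat_lit 159)) (XT.lf (nat_lit 0) (nat_lit 98339755165) (nat_lit 152) (nat_lit 29035322072) (nat_lit 0) (nat_lit 76412143975) (nat_lit 4) (nat_lit 5) (nat_lit 6) (nat_lit 4) (nat_lit 4) (nat_lit 4) (nat_lit 364) (nat_lit 258) (nat_lit 158))) (XT.nd (nat_lit 78) (nat_lit 76) (nat_lit 0) (XT.lf (nat_lit 0) (nat_lit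 108228922727) (nat_lit 152) (nat_lit 19146804954) (nat_lit 0) (nat_lit 86293310296) (nat_lit 4) (nat_lit 5) (nat_lit 6) (nat_lit 4) (nat_lit 4) (nat_lit 4) (nat_lit 365) (nat_lit 258) (nat_lit 157)) (XT.nd (nat_lit 78) (nat_lit 76) (nat_lit 0) (XT.lf (nat_lit 0) (nat_lit 118608315149) (nat_lit 152) (nat_lit 8771762193) (nat_lit 0) (nat_lit 96665082489) (nat_lit 4) (nat_lit 5) (nat_lit 6) (nat_lit 4) (nat_lit 4) (nat_lit 4) (nat_lit 366) (nat_lit 258) (nat_lit 156)) (XT.lf (nat_lit 0) (nat_lit 2184423901) (nat_lit 76) (nat_lit 127352326348) (nat_lit 76) (nat_lit 105401836327) (nat_lit 3) (nat_lit 4) (nat_lit 4) (nat_lit 5) (nat_lit 4) (nat_lit 4) (nat_lit 367) (nat_lit 258) (nat_lit 155))))))))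
noncomputable def xc102 : XT := (XT.nd (nat_lit 32370) (nat_lit 0) (nat_lit 4864) (XT.nd (nat_lit 702) (nat_lit 0) (nat_lit 0) (XT.nd (nat_lit 312) (nat_lit 0) (nat_lit 0) (XT.nd (nat_lit 156) (nat_lit 0) (nat_lit 0) (XT.nd (nat_lit 78) (nat_lit 0) (nat_lit 0) (XT.lf (nat_lit 0) (nat_lit 13985552421) (nat_lit 76) (nat_lit 127170653221) (nat_lit 76) (nat_lit 105213251428) (nat_lit 3) (nat_lit 4) (nat_lit 4) (nat_lit 5) (nat_lit 4) (nat_lit 4) (nat_lit 368) (nat_lit 258) (nat_lit 154)) (XT.lf (nat_lit 0) (nat_lit 26369687217) (nat_lit 76) (nat_lit 126983179442) (nat_lit 76) (nat_lit 105019195008) (nat_lit 3) (nat_lit 4) (nat_lit 4) (nat_lit 5) (nat_lit 4) (nat_lit 4) (nat_lit 369) (nat_lit 258) (nat_lit 153))) (XT.nd (nat_lit 78) (nat_lit 0) (nat_lit 0) (XT.lf (nat_lit 0) (nat_lit 39366314326) (nat_lit 76) (nat_lit 126789458646) (nat_lit 76) (nat_lit 104819205031) (nat_lit 3) (nat_lit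 4) (nat_lit 4) (nat_lit 5) (nat_lit 4) (nat_lit 4) (nat_lit 370) (nat_lit 258) (nat_lit 152)) (XT.lf (nat_lit 0) (nat_lit 53006378097) (nat_lit 76) (nat_lit 126589029592) (nat_lit 76) (nat_lit 104612805328) (nat_lit 3) (nat_lit 4) (nat_lit 4) (nat_lit 5) (nat_lit 4) (nat_lit 4) (nat_lit 371) (nat_lit 258) (nat_lit 151)))) (XT.nd (nat_lit 156) (nat_lit 0) (nat_lit 0) (XT.nd (nat_lit 78) (nat_lit 0) (nat_lit 0) (XT.lf (nat_lit 0) (nat_lit 67322354873) (nat_lit 76) (nat_lit 126381415069) (nat_lit 76) (nat_lit 104399504472) (nat_lit 3) (nat_lit 4) (nat_lit 4) (nat_lit 5) (nat_lit 4) (nat_lit 4) (nat_lit 372) (nat_lit 258) (nat_lit 150)) (XT.lf (nat_lit 0) (nat_lit 82348330313) (nat_lit 76) (nat_lit 126166120756) (nat_lit 76) (nat_lit 104178794604) (nat_lit 3) (nat_lit 4) (nat_lit 4) (nat_lit 5) (nat_lit 4) (nat_lit 4) (nat_lit 373) (nat_lit 258) (nat_lit 149))) (XT.nd (nat_lit 78) (nat_lit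 0) (nat_lit 0) (XT.lf (nat_lit 0) (nat_lit 98120080548) (nat_lit 76) (nat_lit 125942634047) (nat_lit 76) (nat_lit 103950150225) (nat_lit 3) (nat_lit 4) (nat_lit 4) (nat_lit 5) (nat_lit 4) (nat_lit 4) (nat_lit 374) (nat_lit 258) (nat_lit 148)) (XT.nd (nat_lit 78) (nat_lit 0) (nat_lit 0) (XT.lf (nat_lit 0) (nat_lit 114675157366) (nat_lit 76) (nat_lit 125710422832) (nat_lit 76) (nat_lit 103713026942) (nat_lit 3) (nat_lit 4) (nat_lit 4) (nat_lit 5) (nat_lit 4) (nat_lit 4) (nat_lit 375) (nat_lit 258) (nat_lit 147)) (XT.lf (nat_lit 0) (nat_lit 132052977615) (nat_lit 76) (nat_lit 125468934226) (nat_lit 76) (nat_lit 103466860177) (nat_lit 3) (nat_lit 4) (nat_lit 4) (nat_lit 5) (nat_lit 4) (nat_lit 4) (nat_lit 376) (nat_lit 258) (nat_lit 146)))))) (XT.nd (nat_lit 390) (nat_lit 0) (nat_lit 0) (XT.nd (nat_lit 156) (nat_lit 0) (nat_lit 0) (XT.nd (nat_lit 78) (nat_lit 0) (nat_lit 0) (XT.lf (nat_lit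 0) (nat_lit 150294917058) (nat_lit 76) (nat_lit 125217593257) (nat_lit 76) (nat_lit 103211063817) (nat_lit 3) (nat_lit 4) (nat_lit 4) (nat_lit 5) (nat_lit 4) (nat_lit 4) (nat_lit 377) (nat_lit 258) (nat_lit 145)) (XT.lf (nat_lit 0) (nat_lit 169444408885) (nat_lit 76) (nat_lit 124955801494) (nat_lit 76) (nat_lit 102945028826) (nat_lit 3) (nat_lit 4) (nat_lit 4) (nat_lit 5) (nat_lit 4) (nat_lit 4) (nat_lit 378) (nat_lit 258) (nat_lit 144))) (XT.nd (nat_lit 78) (nat_lit 0) (nat_lit 0) (XT.lf (nat_lit 0) (nat_lit 189547047123) (nat_lit 76) (nat_lit 124682935623) (nat_lit 76) (nat_lit 102668121784) (nat_lit 3) (nat_lit 4) (nat_lit 4) (nat_lit 5) (nat_lit 4) (nat_lit 4) (nat_lit 379) (nat_lit 258) (nat_lit 143)) (XT.nd (nat_lit 78) (nat_lit 0) (nat_lit 0) (XT.lf (nat_lit 0) (nat_lit 210650695196) (nat_lit 76) (nat_lit 124398345963) (nat_lit 76) (nat_lit 102379683391) (nat_lit 3) (nat_lit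 4) (nat_lit 4) (nat_lit 5) (nat_lit 4) (nat_lit 4) (nat_lit 380) (nat_lit 258) (nat_lit 142)) (XT.lf (nat_lit 0) (nat_lit 232805599887) (nat_lit 76) (nat_lit 124101354921) (nat_lit 76) (nat_lit 102079026888) (nat_lit 3) (nat_lit 4) (nat_lit 4) (nat_lit 5) (nat_lit 4) (nat_lit 4) (nat_lit 381) (nat_lit 258) (nat_lit 141))))) (XT.nd (nat_lit 156) (nat_lit 0) (nat_lit 0) (XT.nd (nat_lit 78) (nat_lit 0) (nat_lit 0) (XT.lf (nat_lit 0) (nat_lit 256064510967) (nat_lit 76) (nat_lit 123791255374) (nat_lit 76) (nat_lit 101765436426) (nat_lit 3) (nat_lit 4) (nat_lit 4) (nat_lit 5) (nat_lit 4) (nat_lit 4) (nat_lit 382) (nat_lit 258) (nat_lit 140)) (XT.lf (nat_lit 0) (nat_lit 280482806798) (nat_lit 76) (nat_lit 123467308990) (nat_lit 76) (nat_lit 101438165362) (nat_lit 3) (nat_lit 4) (nat_lit 4) (nat_lit 5) (nat_lit 4) (nat_lit 4) (nat_lit 383) (nat_lit 258) (nat_lit 139))) (XT.nd (nat_lit 78) (nat_lit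 0) (nat_lit 0) (XT.lf (nat_lit 0) (nat_lit 306118626177) (nat_lit 76) (nat_lit 123128744468) (nat_lit 76) (nat_lit 101096434478) (nat_lit 3) (nat_lit 4) (nat_lit 4) (nat_lit 5) (nat_lit 4) (nat_lit 4) (nat_lit 384) (nat_lit 258) (nat_lit 138)) (XT.nd (nat_lit 78) (nat_lit 0) (nat_lit 0) (XT.lf (nat_lit 0) (nat_lit 333033006771) (nat_lit 76) (nat_lit 122774755703) (nat_lit 76) (nat_lit 100739430129) (nat_lit 3) (nat_lit 4) (nat_lit 4) (nat_lit 5) (nat_lit 4) (nat_lit 4) (nat_lit 385) (nat_lit 258) (nat_lit 137)) (XT.lf (nat_lit 0) (nat_lit 361290030438) (nat_lit 76) (nat_lit 122404499864) (nat_lit 76) (nat_lit 100366302306) (nat_lit 3) (nat_lit 4) (nat_lit 4) (nat_lit 5) (nat_lit 4) (nat_lit 4) (nat_lit 386) (nat_lit 258) (nat_lit 136))))))) (XT.nd (nat_lit 780) (nat_lit 3268) (nat_lit 0) (XT.nd (nat_lit 390) (nat_lit 1064) (nat_lit 0) (XT.nd (nat_lit 156) (nat_lit 304) (nat_lit 0) (XT.nd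 (nat_lit 78) (nat_lit 76) (nat_lit 0) (XT.lf (nat_lit 0) (nat_lit 1514913295) (nat_lit 76) (nat_lit 196791667) (nat_lit 0) (nat_lit 1514913295) (nat_lit 129) (nat_lit 5) (nat_lit 130) (nat_lit 0) (nat_lit 129) (nat_lit 4) (nat_lit 262) (nat_lit 259) (nat_lit 259)) (XT.lf (nat_lit 0) (nat_lit 2818611228) (nat_lit 76) (nat_lit 3154855145) (nat_lit 76) (nat_lit 496065866) (nat_lit 128) (nat_lit 4) (nat_lit 129) (nat_lit 5) (nat_lit 129) (nat_lit 4) (nat_lit 263) (nat_lit 259) (nat_lit 258))) (XT.nd (nat_lit 78) (nat_lit 228) (nat_lit 0) (XT.lf (nat_lit 0) (nat_lit 2322158890) (nat_lit 152) (nat_lit 430543817) (nat_lit 76) (nat_lit 3741392026) (nat_lit 127) (nat_lit 5) (nat_lit 129) (nat_lit 5) (nat_lit 128) (nat_lit 4) (nat_lit 264) (nat_lit 259) (nat_lit 257)) (XT.nd (nat_lit 78) (nat_lit 76) (nat_lit 0) (XT.lf (nat_lit 0) (nat_lit 2932816405) (nat_lit 152) (nat_lit 2206396375) (nat_lit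 228) (nat_lit 1387312615) (nat_lit 125) (nat_lit 5) (nat_lit 127) (nat_lit 5) (nat_lit 128) (nat_lit 4) (nat_lit 265) (nat_lit 259) (nat_lit 256)) (XT.lf (nat_lit 0) (nat_lit 1326717143) (nat_lit 228) (nat_lit 213389090) (nat_lit 76) (nat_lit 5028008105) (nat_lit 124) (nat_lit 5) (nat_lit 127) (nat_lit 5) (nat_lit 125) (nat_lit 5) (nat_lit 266) (nat_lit 259) (nat_lit 255))))) (XT.nd (nat_lit 156) (nat_lit 456) (nat_lit 0) (XT.nd (nat_lit 78) (nat_lit 380) (nat_lit 0) (XT.lf (nat_lit 0) (nat_lit 3316142222) (nat_lit 228) (nat_lit 705403642) (nat_lit 304) (nat_lit 2595184137) (nat_lit 121) (nat_lit 5) (nat_lit 124) (nat_lit 5) (nat_lit 125) (nat_lit 5) (nat_lit 267) (nat_lit 259) (nat_lit 254)) (XT.lf (nat_lit 0) (nat_lit 31665667) (nat_lit 380) (nat_lit 6419310279) (nat_lit 76) (nat_lit 224555771) (nat_lit 116) (nat_lit 5) (nat_lit 121) (nat_lit 5) (nat_lit 117) (nat_lit 5) (nat_lit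 268) (nat_lit 259) (nat_lit 253))) (XT.nd (nat_lit 78) (nat_lit 456) (nat_lit 0) (XT.lf (nat_lit 0) (nat_lit 2620408371) (nat_lit 380) (nat_lit 2798509911) (nat_lit 76) (nat_lit 1320918896) (nat_lit 116) (nat_lit 5) (nat_lit 121) (nat_lit 5) (nat_lit 117) (nat_lit 5) (nat_lit 269) (nat_lit 259) (nat_lit 252)) (XT.nd (nat_lit 78) (nat_lit 76) (nat_lit 0) (XT.lf (nat_lit 0) (nat_lit 923884377) (nat_lit 380) (nat_lit 4285688469) (nat_lit 456) (nat_lit 1604787397) (nat_lit 111) (nat_lit 5) (nat_lit 116) (nat_lit 5) (nat_lit 117) (nat_lit 5) (nat_lit 270) (nat_lit 259) (nat_lit 251)) (XT.lf (nat_lit 0) (nat_lit 909552582) (nat_lit 456) (nat_lit 2090050968) (nat_lit 76) (nat_lit 3897342188) (nat_lit 110) (nat_lit 5) (nat_lit 116) (nat_lit 5) (nat_lit 111) (nat_lit 5) (nat_lit 271) (nat_lit 259) (nat_lit 250)))))) (XT.nd (nat_lit 390) (nat_lit 1596) (nat_lit 0) (XT.nd (nat_lit 156) (nat_lit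 1216) (nat_lit 0) (XT.nd (nat_lit 78) (nat_lit 0) (nat_lit 0) (XT.lf (nat_lit 0) (nat_lit 1825444045) (nat_lit 456) (nat_lit 1564392194) (nat_lit 532) (nat_lit 3598277428) (nat_lit 104) (nat_lit 5) (nat_lit 110) (nat_lit 5) (nat_lit 111) (nat_lit 5) (nat_lit 272) (nat_lit 259) (nat_lit 249)) (XT.lf (nat_lit 0) (nat_lit 5900002780) (nat_lit 532) (nat_lit 1185131966) (nat_lit 76) (nat_lit 3865582) (nat_lit 104) (nat_lit 5) (nat_lit 111) (nat_lit 5) (nat_lit 105) (nat_lit 5) (nat_lit 273) (nat_lit 259) (nat_lit 248))) (XT.nd (nat_lit 78) (nat_lit 608) (nat_lit 0) (XT.lf (nat_lit 0) (nat_lit 1245264559) (nat_lit 608) (nat_lit 4265156424) (nat_lit 76) (nat_lit 1686503758) (nat_lit 96) (nat_lit 5) (nat_lit 104) (nat_lit 5) (nat_lit 97) (nat_lit 5) (nat_lit 274) (nat_lit 259) (nat_lit 247)) (XT.nd (nat_lit 78) (nat_lit 608) (nat_lit 0) (XT.lf (nat_lit 0) (nat_lit 3660488420) (nat_lit 608)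 (nat_lit 143361816) (nat_lit 76) (nat_lit 3510852199) (nat_lit 96) (nat_lit 5) (nat_lit 104) (nat_lit 5) (nat_lit 97) (nat_lit 5) (nat_lit 275) (nat_lit 259) (nat_lit 246)) (XT.lf (nat_lit 0) (nat_lit 4214697341) (nat_lit 608) (nat_lit 1932157415) (nat_lit 684) (nat_lit 1294368511) (nat_lit 88) (nat_lit 5) (nat_lit 96) (nat_lit 5) (nat_lit 97) (nat_lit 5) (nat_lit 276) (nat_lit 259) (nat_lit 245))))) (XT.nd (nat_lit 156) (nat_lit 836) (nat_lit 0) (XT.nd (nat_lit 78) (nat_lit 0) (nat_lit 0) (XT.lf (nat_lit 0) (nat_lit 1053282660) (nat_lit 760) (nat_lit 6447136046) (nat_lit 76) (nat_lit 77681594) (nat_lit 78) (nat_lit 5) (nat_lit 88) (nat_lit 5) (nat_lit 79) (nat_lit 5) (nat_lit 277) (nat_lit 259) (nat_lit 244)) (XT.lf (nat_lit 0) (nat_lit 3452163278) (nat_lit 760) (nat_lit 2065825351) (nat_lit 76) (nat_lit 2204226777) (nat_lit 78) (nat_lit 5) (nat_lit 88) (nat_lit 5) (nat_lit 79) (nat_lit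 5) (nat_lit 278) (nat_lit 259) (nat_lit 243))) (XT.nd (nat_lit 78) (nat_lit 456) (nat_lit 0) (XT.lf (nat_lit 0) (nat_lit 2508856335) (nat_lit 380) (nat_lit 3396666520) (nat_lit 456) (nat_lit 1971593796) (nat_lit 73) (nat_lit 5) (nat_lit 78) (nat_lit 5) (nat_lit 79) (nat_lit 5) (nat_lit 279) (nat_lit 259) (nat_lit 242)) (XT.nd (nat_lit 78) (nat_lit 380) (nat_lit 0) (XT.lf (nat_lit 0) (nat_lit 359982419) (nat_lit 456) (nat_lit 769467530) (nat_lit 76) (nat_lit 6913629963) (nat_lit 72) (nat_lit 5) (nat_lit 78) (nat_lit 5) (nat_lit 73) (nat_lit 5) (nat_lit 280) (nat_lit 259) (nat_lit 241)) (XT.lf (nat_lit 0) (nat_lit 2727892527) (nat_lit 456) (nat_lit 4184913321) (nat_lit 76) (nat_lit 1303884059) (nat_lit 67) (nat_lit 5) (nat_lit 73) (nat_lit 5) (nat_lit 68) (nat_lit 5) (nat_lit 281) (nat_lit 259) (nat_lit 240))))))))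
noncomputable def xc103 : XT := (XT.nd (nat_lit 1560) (nat_lit 1216) (nat_lit 0) (XT.nd (nat_lit 780) (nat_lit 1140) (nat_lit 0) (XT.nd (nat_lit 390) (nat_lit 836) (nat_lit 0) (XT.nd (nat_lit 156) (nat_lit 608) (nat_lit 0) (XT.nd (nat_lit 78) (nat_lit 0) (nat_lit 0) (XT.lf (nat_lit 0) (nat_lit 595710270) (nat_lit 304) (nat_lit 4564248729) (nat_lit 380) (nat_lit 3241986039) (nat_lit 63) (nat_lit 5) (nat_lit 67) (nat_lit 5) (nat_lit 68) (nat_lit 5) (nat_lit 282) (nat_lit 259) (nat_lit 239)) (XT.lf (nat_lit 0) (nat_lit 5656271772) (nat_lit 304) (nat_lit 2035838586) (nat_lit 380) (nat_lit 905669132) (nat_lit 63) (nat_lit 5) (nat_lit 67) (nat_lit 5) (nat_lit 68) (nat_lit 5) (nat_lit 283) (nat_lit 259) (nat_lit 238))) (XT.nd (nat_lit 78) (nat_lit 228) (nat_lit 0) (XT.lf (nat_lit 0) (nat_lit 1451574366) (nat_lit 380) (nat_lit 6708510369) (nat_lit 76) (nat_lit 644649228) (nat_lit 58) (nat_lit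 5) (nat_lit 63) (nat_lit 5) (nat_lit 59) (nat_lit 5) (nat_lit 284) (nat_lit 259) (nat_lit 237)) (XT.nd (nat_lit 78) (nat_lit 228) (nat_lit 0) (XT.lf (nat_lit 0) (nat_lit 3893068987) (nat_lit 380) (nat_lit 1685898582) (nat_lit 76) (nat_lit 3442692849) (nat_lit 58) (nat_lit 5) (nat_lit 63) (nat_lit 5) (nat_lit 59) (nat_lit 5) (nat_lit 285) (nat_lit 259) (nat_lit 236)) (XT.lf (nat_lit 0) (nat_lit 3602893060) (nat_lit 228) (nat_lit 2826966495) (nat_lit 304) (nat_lit 2821110559) (nat_lit 55) (nat_lit 5) (nat_lit 58) (nat_lit 5) (nat_lit 59) (nat_lit 5) (nat_lit 286) (nat_lit 259) (nat_lit 235))))) (XT.nd (nat_lit 156) (nat_lit 456) (nat_lit 0) (XT.nd (nat_lit 78) (nat_lit 380) (nat_lit 0) (XT.lf (nat_lit 0) (nat_lit 9042589176) (nat_lit 304) (nat_lit 379695263) (nat_lit 76) (nat_lit 72194431) (nat_lit 55) (nat_lit 5) (nat_lit 59) (nat_lit 5) (nat_lit 56) (nat_lit 5) (nat_lit 287) (nat_lit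 259) (nat_lit 234)) (XT.lf (nat_lit 0) (nat_lit 2021354415) (nat_lit 380) (nat_lit 4606791855) (nat_lit 76) (nat_lit 3118062581) (nat_lit 50) (nat_lit 5) (nat_lit 55) (nat_lit 5) (nat_lit 51) (nat_lit 5) (nat_lit 288) (nat_lit 259) (nat_lit 233))) (XT.nd (nat_lit 78) (nat_lit 228) (nat_lit 0) (XT.lf (nat_lit 0) (nat_lit 858620705) (nat_lit 228) (nat_lit 3688124122) (nat_lit 304) (nat_lit 5466389453) (nat_lit 47) (nat_lit 5) (nat_lit 50) (nat_lit 5) (nat_lit 51) (nat_lit 5) (nat_lit 289) (nat_lit 259) (nat_lit 232)) (XT.nd (nat_lit 78) (nat_lit 228) (nat_lit 0) (XT.lf (nat_lit 0) (nat_lit 6660024726) (nat_lit 228) (nat_lit 542241735) (nat_lit 304) (nat_lit 3091101555) (nat_lit 47) (nat_lit 5) (nat_lit 50) (nat_lit 5) (nat_lit 51) (nat_lit 5) (nat_lit 290) (nat_lit 259) (nat_lit 231)) (XT.lf (nat_lit 0) (nat_lit 2091807140) (nat_lit 228) (nat_lit 7903553769) (nat_lit 304) (nat_lit 592160430)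 (nat_lit 44) (nat_lit 5) (nat_lit 47) (nat_lit 5) (nat_lit 48) (nat_lit 5) (nat_lit 291) (nat_lit 259) (nat_lit 230)))))) (XT.nd (nat_lit 390) (nat_lit 608) (nat_lit 0) (XT.nd (nat_lit 156) (nat_lit 304) (nat_lit 0) (XT.nd (nat_lit 78) (nat_lit 152) (nat_lit 0) (XT.lf (nat_lit 0) (nat_lit 1967799563) (nat_lit 304) (nat_lit 2802403664) (nat_lit 76) (nat_lit 6124672063) (nat_lit 43) (nat_lit 5) (nat_lit 47) (nat_lit 5) (nat_lit 44) (nat_lit 5) (nat_lit 292) (nat_lit 259) (nat_lit 229)) (XT.lf (nat_lit 0) (nat_lit 3175268878) (nat_lit 152) (nat_lit 1443181551) (nat_lit 228) (nat_lit 6599659084) (nat_lit 41) (nat_lit 5) (nat_lit 43) (nat_lit 5) (nat_lit 44) (nat_lit 5) (nat_lit 293) (nat_lit 259) (nat_lit 228))) (XT.nd (nat_lit 78) (nat_lit 304) (nat_lit 0) (XT.lf (nat_lit 0) (nat_lit 7416274035) (nat_lit 228) (nat_lit 2132521848) (nat_lit 76) (nat_lit 2008099096) (nat_lit 41) (nat_lit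 5) (nat_lit 44) (nat_lit 5) (nat_lit 42) (nat_lit 5) (nat_lit 294) (nat_lit 259) (nat_lit 227)) (XT.nd (nat_lit 78) (nat_lit 76) (nat_lit 0) (XT.lf (nat_lit 0) (nat_lit 4091345321) (nat_lit 228) (nat_lit 6287696598) (nat_lit 304) (nat_lit 1532440899) (nat_lit 38) (nat_lit 5) (nat_lit 41) (nat_lit 5) (nat_lit 42) (nat_lit 5) (nat_lit 295) (nat_lit 259) (nat_lit 226)) (XT.lf (nat_lit 0) (nat_lit 1142267809) (nat_lit 304) (nat_lit 1690947749) (nat_lit 76) (nat_lit 9451011719) (nat_lit 37) (nat_lit 5) (nat_lit 41) (nat_lit 5) (nat_lit 38) (nat_lit 5) (nat_lit 296) (nat_lit 259) (nat_lit 225))))) (XT.nd (nat_lit 156) (nat_lit 456) (nat_lit 0) (XT.nd (nat_lit 78) (nat_lit 0) (nat_lit 0) (XT.lf (nat_lit 0) (nat_lit 3928537571) (nat_lit 228) (nat_lit 7900175716) (nat_lit 76) (nat_lit 844273282) (nat_lit 35) (nat_lit 5) (nat_lit 38) (nat_lit 5) (nat_lit 36) (nat_lit 5) (nat_lit 297) (nat_lit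 259) (nat_lit 224)) (XT.lf (nat_lit 0) (nat_lit 6871718492) (nat_lit 228) (nat_lit 1595064259) (nat_lit 76) (nat_lit 4613616423) (nat_lit 35) (nat_lit 5) (nat_lit 38) (nat_lit 5) (nat_lit 36) (nat_lit 5) (nat_lit 298) (nat_lit 259) (nat_lit 223))) (XT.nd (nat_lit 78) (nat_lit 228) (nat_lit 0) (XT.lf (nat_lit 0) (nat_lit 5106002999) (nat_lit 228) (nat_lit 4880579272) (nat_lit 304) (nat_lit 3520464643) (nat_lit 32) (nat_lit 5) (nat_lit 35) (nat_lit 5) (nat_lit 36) (nat_lit 5) (nat_lit 299) (nat_lit 259) (nat_lit 222)) (XT.nd (nat_lit 78) (nat_lit 228) (nat_lit 0) (XT.lf (nat_lit 0) (nat_lit 12116111148) (nat_lit 228) (nat_lit 1114253696) (nat_lit 304) (nat_lit 726089794) (nat_lit 32) (nat_lit 5) (nat_lit 35) (nat_lit 5) (nat_lit 36) (nat_lit 5) (nat_lit 300) (nat_lit 259) (nat_lit 221)) (XT.lf (nat_lit 0) (nat_lit 2210522984) (nat_lit 228) (nat_lit 9373349372) (nat_lit 76) (nat_lit 2839155629)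 (nat_lit 29) (nat_lit 5) (nat_lit 32) (nat_lit 5) (nat_lit 30) (nat_lit 5) (nat_lit 301) (nat_lit 259) (nat_lit 220))))))) (XT.nd (nat_lit 780) (nat_lit 532) (nat_lit 0) (XT.nd (nat_lit 390) (nat_lit 304) (nat_lit 0) (XT.nd (nat_lit 156) (nat_lit 228) (nat_lit 0) (XT.nd (nat_lit 78) (nat_lit 152) (nat_lit 0) (XT.lf (nat_lit 0) (nat_lit 5268159193) (nat_lit 228) (nat_lit 2674194040) (nat_lit 76) (nat_lit 6970126519) (nat_lit 29) (nat_lit 5) (nat_lit 32) (nat_lit 5) (nat_lit 30) (nat_lit 5) (nat_lit 302) (nat_lit 259) (nat_lit 219)) (XT.lf (nat_lit 0) (nat_lit 4425135517) (nat_lit 152) (nat_lit 4073725386) (nat_lit 228) (nat_lit 6926605081) (nat_lit 27) (nat_lit 5) (nat_lit 29) (nat_lit 5) (nat_lit 30) (nat_lit 5) (nat_lit 303) (nat_lit 259) (nat_lit 218))) (XT.nd (nat_lit 78) (nat_lit 228) (nat_lit 0) (XT.lf (nat_lit 0) (nat_lit 11888768384) (nat_lit 228) (nat_lit 4067333741) (nat_lit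 76) (nat_lit 8183550) (nat_lit 27) (nat_lit 5) (nat_lit 30) (nat_lit 5) (nat_lit 28) (nat_lit 4) (nat_lit 304) (nat_lit 259) (nat_lit 217)) (XT.nd (nat_lit 78) (nat_lit 76) (nat_lit 0) (XT.lf (nat_lit 0) (nat_lit 3173571318) (nat_lit 152) (nat_lit 12345046469) (nat_lit 228) (nat_lit 1007970690) (nat_lit 25) (nat_lit 5) (nat_lit 27) (nat_lit 5) (nat_lit 28) (nat_lit 4) (nat_lit 305) (nat_lit 259) (nat_lit 216)) (XT.lf (nat_lit 0) (nat_lit 2166513322) (nat_lit 228) (nat_lit 6305425824) (nat_lit 76) (nat_lit 8642178797) (nat_lit 24) (nat_lit 5) (nat_lit 27) (nat_lit 5) (nat_lit 25) (nat_lit 5) (nat_lit 306) (nat_lit 259) (nat_lit 215))))) (XT.nd (nat_lit 156) (nat_lit 152) (nat_lit 0) (XT.nd (nat_lit 78) (nat_lit 0) (nat_lit 0) (XT.lf (nat_lit 0) (nat_lit 1040943203) (nat_lit 152) (nat_lit 4397705399) (nat_lit 228) (nat_lit 12292964682) (nat_lit 22) (nat_lit 5) (nat_lit 24) (nat_lit 5)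 (nat_lit 25) (nat_lit 5) (nat_lit 307) (nat_lit 259) (nat_lit 214)) (XT.lf (nat_lit 0) (nat_lit 8904281773) (nat_lit 152) (nat_lit 34431505) (nat_lit 228) (nat_lit 9438107008) (nat_lit 22) (nat_lit 5) (nat_lit 24) (nat_lit 5) (nat_lit 25) (nat_lit 5) (nat_lit 308) (nat_lit 259) (nat_lit 213))) (XT.nd (nat_lit 78) (nat_lit 152) (nat_lit 0) (XT.lf (nat_lit 0) (nat_lit 12643933490) (nat_lit 228) (nat_lit 2032126979) (nat_lit 76) (nat_lit 4376770059) (nat_lit 22) (nat_lit 5) (nat_lit 25) (nat_lit 5) (nat_lit 23) (nat_lit 4) (nat_lit 309) (nat_lit 259) (nat_lit 212)) (XT.nd (nat_lit 78) (nat_lit 76) (nat_lit 0) (XT.lf (nat_lit 0) (nat_lit 5904300796) (nat_lit 76) (nat_lit 10683966565) (nat_lit 152) (nat_lit 3171729387) (nat_lit 21) (nat_lit 5) (nat_lit 22) (nat_lit 5) (nat_lit 23) (nat_lit 4) (nat_lit 310) (nat_lit 259) (nat_lit 211)) (XT.lf (nat_lit 0) (nat_lit 216301321) (nat_lit 152)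 (nat_lit 6261511279) (nat_lit 76) (nat_lit 14024760889) (nat_lit 20) (nat_lit 5) (nat_lit 22) (nat_lit 5) (nat_lit 21) (nat_lit 5) (nat_lit 311) (nat_lit 259) (nat_lit 210)))))) (XT.nd (nat_lit 390) (nat_lit 304) (nat_lit 0) (XT.nd (nat_lit 156) (nat_lit 76) (nat_lit 0) (XT.nd (nat_lit 78) (nat_lit 0) (nat_lit 0) (XT.lf (nat_lit 0) (nat_lit 1651631831) (nat_lit 152) (nat_lit 2004440621) (nat_lit 228) (nat_lit 17624201895) (nat_lit 18) (nat_lit 5) (nat_lit 20) (nat_lit 5) (nat_lit 21) (nat_lit 5) (nat_lit 312) (nat_lit 259) (nat_lit 209)) (XT.lf (nat_lit 0) (nat_lit 7381219359) (nat_lit 228) (nat_lit 12019600172) (nat_lit 76) (nat_lit 2690410929) (nat_lit 18) (nat_lit 5) (nat_lit 21) (nat_lit 5) (nat_lit 19) (nat_lit 4) (nat_lit 313) (nat_lit 259) (nat_lit 208))) (XT.nd (nat_lit 78) (nat_lit 76) (nat_lit 0) (XT.lf (nat_lit 0) (nat_lit 11290786219) (nat_lit 228) (nat_lit 4122091312) (nat_lit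 76) (nat_lit 7529986402) (nat_lit 18) (nat_lit 5) (nat_lit 21) (nat_lit 5) (nat_lit 19) (nat_lit 4) (nat_lit 314) (nat_lit 259) (nat_lit 207)) (XT.nd (nat_lit 78) (nat_lit 0) (nat_lit 0) (XT.lf (nat_lit 0) (nat_lit 4250009431) (nat_lit 76) (nat_lit 11179131717) (nat_lit 152) (nat_lit 8406308337) (nat_lit 17) (nat_lit 5) (nat_lit 18) (nat_lit 5) (nat_lit 19) (nat_lit 4) (nat_lit 315) (nat_lit 259) (nat_lit 206)) (XT.lf (nat_lit 0) (nat_lit 13128422747) (nat_lit 76) (nat_lit 6683464437) (nat_lit 152) (nat_lit 4958937646) (nat_lit 17) (nat_lit 5) (nat_lit 18) (nat_lit 5) (nat_lit 19) (nat_lit 4) (nat_lit 316) (nat_lit 259) (nat_lit 205))))) (XT.nd (nat_lit 156) (nat_lit 76) (nat_lit 0) (XT.nd (nat_lit 78) (nat_lit 228) (nat_lit 0) (XT.lf (nat_lit 0) (nat_lit 22397992757) (nat_lit 76) (nat_lit 1984981335) (nat_lit 152) (nat_lit 1371567226) (nat_lit 17) (nat_lit 5) (nat_lit 18) (nat_lit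 5) (nat_lit 19) (nat_lit 4) (nat_lit 317) (nat_lit 259) (nat_lit 204)) (XT.lf (nat_lit 0) (nat_lit 2421128664) (nat_lit 228) (nat_lit 21401872168) (nat_lit 76) (nat_lit 2957471689) (nat_lit 14) (nat_lit 5) (nat_lit 17) (nat_lit 5) (nat_lit 15) (nat_lit 4) (nat_lit 318) (nat_lit 259) (nat_lit 203))) (XT.nd (nat_lit 78) (nat_lit 76) (nat_lit 0) (XT.lf (nat_lit 0) (nat_lit 6418144222) (nat_lit 228) (nat_lit 13295374489) (nat_lit 76) (nat_lit 8140046534) (nat_lit 14) (nat_lit 5) (nat_lit 17) (nat_lit 5) (nat_lit 15) (nat_lit 4) (nat_lit 319) (nat_lit 259) (nat_lit 202)) (XT.nd (nat_lit 78) (nat_lit 76) (nat_lit 0) (XT.lf (nat_lit 0) (nat_lit 10586878359) (nat_lit 228) (nat_lit 4832692569) (nat_lit 76) (nat_lit 13562175070) (nat_lit 14) (nat_lit 5) (nat_lit 17) (nat_lit 5) (nat_lit 15) (nat_lit 4) (nat_lit 320) (nat_lit 259) (nat_lit 201)) (XT.lf (nat_lit 0) (nat_lit 4138789958) (nat_lit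 76) (nat_lit 10863084784) (nat_lit 152) (nat_lit 15162595277) (nat_lit 13) (nat_lit 5) (nat_lit 14) (nat_lit 5) (nat_lit 15) (nat_lit 4) (nat_lit 321) (nat_lit 259) (nat_lit 200))))))))
noncomputable def xc104 : XT := (XT.nd (nat_lit 1482) (nat_lit 228) (nat_lit 0) (XT.nd (nat_lit 702) (nat_lit 228) (nat_lit 0) (XT.nd (nat_lit 312) (nat_lit 152) (nat_lit 0) (XT.nd (nat_lit 156) (nat_lit 76) (nat_lit 0) (XT.nd (nat_lit 78) (nat_lit 0) (nat_lit 0) (XT.lf (nat_lit 0) (nat_lit 13680581021) (nat_lit 76) (nat_lit 6012648274) (nat_lit 152) (nat_lit 11710344823) (nat_lit 13) (nat_lit 5) (nat_lit 14) (nat_lit 5) (nat_lit 15) (nat_lit 4) (nat_lit 322) (nat_lit 259) (nat_lit 199)) (XT.lf (nat_lit 0) (nat_lit 23655608528) (nat_lit 76) (nat_lit 938556726) (nat_lit 152) (nat_lit 8111740618) (nat_lit 13) (nat_lit 5) (nat_lit 14) (nat_lit 5) (nat_lit 15) (nat_lit 4) (nat_lit 323) (nat_lit 259) (nat_lit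 198))) (XT.nd (nat_lit 78) (nat_lit 76) (nat_lit 0) (XT.lf (nat_lit 0) (nat_lit 29784599306) (nat_lit 152) (nat_lit 55191321) (nat_lit 0) (nat_lit 4231363057) (nat_lit 13) (nat_lit 5) (nat_lit 15) (nat_lit 4) (nat_lit 13) (nat_lit 4) (nat_lit 324) (nat_lit 259) (nat_lit 197)) (XT.lf (nat_lit 0) (nat_lit 9642232446) (nat_lit 76) (nat_lit 25735320554) (nat_lit 76) (nat_lit 119981975) (nat_lit 12) (nat_lit 4) (nat_lit 13) (nat_lit 5) (nat_lit 13) (nat_lit 4) (nat_lit 325) (nat_lit 259) (nat_lit 196)))) (XT.nd (nat_lit 156) (nat_lit 76) (nat_lit 0) (XT.nd (nat_lit 78) (nat_lit 0) (nat_lit 0) (XT.lf (nat_lit 0) (nat_lit 4096834281) (nat_lit 152) (nat_lit 17275973376) (nat_lit 76) (nat_lit 15620220186) (nat_lit 11) (nat_lit 5) (nat_lit 13) (nat_lit 5) (nat_lit 12) (nat_lit 4) (nat_lit 326) (nat_lit 259) (nat_lit 195)) (XT.lf (nat_lit 0) (nat_lit 8498696506) (nat_lit 152) (nat_lit 8308484459)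 (nat_lit 76) (nat_lit 21757122305) (nat_lit 11) (nat_lit 5) (nat_lit 13) (nat_lit 5) (nat_lit 12) (nat_lit 4) (nat_lit 327) (nat_lit 259) (nat_lit 194))) (XT.nd (nat_lit 78) (nat_lit 0) (nat_lit 0) (XT.lf (nat_lit 0) (nat_lit 1105780521) (nat_lit 76) (nat_lit 12011409306) (nat_lit 152) (nat_lit 27097143007) (nat_lit 10) (nat_lit 5) (nat_lit 11) (nat_lit 5) (nat_lit 12) (nat_lit 4) (nat_lit 328) (nat_lit 259) (nat_lit 193)) (XT.nd (nat_lit 78) (nat_lit 0) (nat_lit 0) (XT.lf (nat_lit 0) (nat_lit 11242816923) (nat_lit 76) (nat_lit 6844191509) (nat_lit 152) (nat_lit 23853851853) (nat_lit 10) (nat_lit 5) (nat_lit 11) (nat_lit 5) (nat_lit 12) (nat_lit 4) (nat_lit 329) (nat_lit 259) (nat_lit 192)) (XT.lf (nat_lit 0) (nat_lit 21852044529) (nat_lit 76) (nat_lit 1433932882) (nat_lit 152) (nat_lit 20468719387) (nat_lit 10) (nat_lit 5) (nat_lit 11) (nat_lit 5) (nat_lit 12) (nat_lit 4) (nat_lit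 330) (nat_lit 259) (nat_lit 191)))))) (XT.nd (nat_lit 390) (nat_lit 152) (nat_lit 0) (XT.nd (nat_lit 156) (nat_lit 76) (nat_lit 0) (XT.nd (nat_lit 78) (nat_lit 0) (nat_lit 0) (XT.lf (nat_lit 0) (nat_lit 28792552515) (nat_lit 152) (nat_lit 12767514879) (nat_lit 0) (nat_lit 4096789773) (nat_lit 10) (nat_lit 5) (nat_lit 12) (nat_lit 4) (nat_lit 10) (nat_lit 4) (nat_lit 331) (nat_lit 259) (nat_lit 190)) (XT.lf (nat_lit 0) (nat_lit 34580204063) (nat_lit 152) (nat_lit 3231240290) (nat_lit 0) (nat_lit 9842408020) (nat_lit 10) (nat_lit 5) (nat_lit 12) (nat_lit 4) (nat_lit 10) (nat_lit 4) (nat_lit 332) (nat_lit 259) (nat_lit 189))) (XT.nd (nat_lit 78) (nat_lit 0) (nat_lit 0) (XT.lf (nat_lit 0) (nat_lit 6974491920) (nat_lit 76) (nat_lit 33774723911) (nat_lit 76) (nat_lit 8996896153) (nat_lit 9) (nat_lit 4) (nat_lit 10) (nat_lit 5) (nat_lit 10) (nat_lit 4) (nat_lit 333) (nat_lit 259) (nat_lit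 188)) (XT.nd (nat_lit 78) (nat_lit 0) (nat_lit 0) (XT.lf (nat_lit 0) (nat_lit 17772601984) (nat_lit 76) (nat_lit 29492220725) (nat_lit 76) (nat_lit 4676267524) (nat_lit 9) (nat_lit 4) (nat_lit 10) (nat_lit 5) (nat_lit 10) (nat_lit 4) (nat_lit 334) (nat_lit 259) (nat_lit 187)) (XT.lf (nat_lit 0) (nat_lit 29081960290) (nat_lit 76) (nat_lit 25008460977) (nat_lit 76) (nat_lit 156197830) (nat_lit 9) (nat_lit 4) (nat_lit 10) (nat_lit 5) (nat_lit 10) (nat_lit 4) (nat_lit 335) (nat_lit 259) (nat_lit 186))))) (XT.nd (nat_lit 156) (nat_lit 76) (nat_lit 0) (XT.nd (nat_lit 78) (nat_lit 0) (nat_lit 0) (XT.lf (nat_lit 0) (nat_lit 4427676033) (nat_lit 152) (nat_lit 15810108179) (nat_lit 76) (nat_lit 36426833012) (nat_lit 8) (nat_lit 5) (nat_lit 10) (nat_lit 5) (nat_lit 9) (nat_lit 4) (nat_lit 336) (nat_lit 259) (nat_lit 185)) (XT.lf (nat_lit 0) (nat_lit 9220927995) (nat_lit 152) (nat_lit 6016875847)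 (nat_lit 76) (nat_lit 43966322299) (nat_lit 8) (nat_lit 5) (nat_lit 10) (nat_lit 5) (nat_lit 9) (nat_lit 4) (nat_lit 337) (nat_lit 259) (nat_lit 184))) (XT.nd (nat_lit 78) (nat_lit 0) (nat_lit 0) (XT.lf (nat_lit 0) (nat_lit 4381013897) (nat_lit 76) (nat_lit 9927355874) (nat_lit 152) (nat_lit 47559524467) (nat_lit 7) (nat_lit 5) (nat_lit 8) (nat_lit 5) (nat_lit 9) (nat_lit 4) (nat_lit 338) (nat_lit 259) (nat_lit 183)) (XT.nd (nat_lit 78) (nat_lit 0) (nat_lit 0) (XT.lf (nat_lit 0) (nat_lit 15482873304) (nat_lit 76) (nat_lit 4255609487) (nat_lit 152) (nat_lit 44921962606) (nat_lit 7) (nat_lit 5) (nat_lit 8) (nat_lit 5) (nat_lit 9) (nat_lit 4) (nat_lit 339) (nat_lit 259) (nat_lit 182)) (XT.lf (nat_lit 0) (nat_lit 25453520168) (nat_lit 152) (nat_lit 40503461244) (nat_lit 0) (nat_lit 1634980920) (nat_lit 7) (nat_lit 5) (nat_lit 9) (nat_lit 4) (nat_lit 7) (nat_lit 4) (nat_lit 340) (nat_lit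 259) (nat_lit 181))))))) (XT.nd (nat_lit 780) (nat_lit 152) (nat_lit 0) (XT.nd (nat_lit 390) (nat_lit 0) (nat_lit 0) (XT.nd (nat_lit 156) (nat_lit 76) (nat_lit 0) (XT.nd (nat_lit 78) (nat_lit 0) (nat_lit 0) (XT.lf (nat_lit 0) (nat_lit 31511579456) (nat_lit 152) (nat_lit 31488385470) (nat_lit 0) (nat_lit 7667235407) (nat_lit 7) (nat_lit 5) (nat_lit 9) (nat_lit 4) (nat_lit 7) (nat_lit 4) (nat_lit 341) (nat_lit 259) (nat_lit 180)) (XT.lf (nat_lit 0) (nat_lit 37860642614) (nat_lit 152) (nat_lit 22044438314) (nat_lit 0) (nat_lit 13991722564) (nat_lit 7) (nat_lit 5) (nat_lit 9) (nat_lit 4) (nat_lit 7) (nat_lit 4) (nat_lit 342) (nat_lit 259) (nat_lit 179))) (XT.nd (nat_lit 78) (nat_lit 76) (nat_lit 0) (XT.lf (nat_lit 0) (nat_lit 44515826459) (nat_lit 152) (nat_lit 12149134188) (nat_lit 0) (nat_lit 20623500695) (nat_lit 7) (nat_lit 5) (nat_lit 9) (nat_lit 4) (nat_lit 7) (nat_lit 4) (nat_lit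 343) (nat_lit 259) (nat_lit 178)) (XT.nd (nat_lit 78) (nat_lit 76) (nat_lit 0) (XT.lf (nat_lit 0) (nat_lit 51492976668) (nat_lit 152) (nat_lit 1778912844) (nat_lit 0) (nat_lit 27578359747) (nat_lit 7) (nat_lit 5) (nat_lit 9) (nat_lit 4) (nat_lit 7) (nat_lit 4) (nat_lit 344) (nat_lit 259) (nat_lit 177)) (XT.lf (nat_lit 0) (nat_lit 9391503483) (nat_lit 76) (nat_lit 49563829708) (nat_lit 76) (nat_lit 25627983114) (nat_lit 6) (nat_lit 4) (nat_lit 7) (nat_lit 5) (nat_lit 7) (nat_lit 4) (nat_lit 345) (nat_lit 259) (nat_lit 176))))) (XT.nd (nat_lit 156) (nat_lit 0) (nat_lit 0) (XT.nd (nat_lit 78) (nat_lit 0) (nat_lit 0) (XT.lf (nat_lit 0) (nat_lit 21163602504) (nat_lit 76) (nat_lit 45647252007) (nat_lit 76) (nat_lit 21691186676) (nat_lit 6) (nat_lit 4) (nat_lit 7) (nat_lit 5) (nat_lit 7) (nat_lit 4) (nat_lit 346) (nat_lit 259) (nat_lit 175)) (XT.lf (nat_lit 0) (nat_lit 33506594131) (nat_lit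 76) (nat_lit 41542957974) (nat_lit 76) (nat_lit 17567636704) (nat_lit 6) (nat_lit 4) (nat_lit 7) (nat_lit 5) (nat_lit 7) (nat_lit 4) (nat_lit 347) (nat_lit 259) (nat_lit 174))) (XT.nd (nat_lit 78) (nat_lit 0) (nat_lit 0) (XT.lf (nat_lit 0) (nat_lit 46449866440) (nat_lit 76) (nat_lit 37241175481) (nat_lit 76) (nat_lit 13247515221) (nat_lit 6) (nat_lit 4) (nat_lit 7) (nat_lit 5) (nat_lit 7) (nat_lit 4) (nat_lit 348) (nat_lit 259) (nat_lit 173)) (XT.nd (nat_lit 78) (nat_lit 0) (nat_lit 0) (XT.lf (nat_lit 0) (nat_lit 60024236747) (nat_lit 76) (nat_lit 32731662188) (nat_lit 76) (nat_lit 8720536224) (nat_lit 6) (nat_lit 4) (nat_lit 7) (nat_lit 5) (nat_lit 7) (nat_lit 4) (nat_lit 349) (nat_lit 259) (nat_lit 172)) (XT.lf (nat_lit 0) (nat_lit 74262024980) (nat_lit 76) (nat_lit 28003681160) (nat_lit 76) (nat_lit 3975921190) (nat_lit 6) (nat_lit 4) (nat_lit 7) (nat_lit 5) (nat_lit 7) (nat_lit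 4) (nat_lit 350) (nat_lit 259) (nat_lit 171)))))) (XT.nd (nat_lit 390) (nat_lit 0) (nat_lit 0) (XT.nd (nat_lit 156) (nat_lit 76) (nat_lit 0) (XT.nd (nat_lit 78) (nat_lit 0) (nat_lit 0) (XT.lf (nat_lit 0) (nat_lit 965696299) (nat_lit 152) (nat_lit 22063924463) (nat_lit 76) (nat_lit 88215079801) (nat_lit 5) (nat_lit 5) (nat_lit 7) (nat_lit 5) (nat_lit 6) (nat_lit 4) (nat_lit 351) (nat_lit 259) (nat_lit 170)) (XT.lf (nat_lit 0) (nat_lit 6013127712) (nat_lit 152) (nat_lit 11731777599) (nat_lit 76) (nat_lit 98750150549) (nat_lit 5) (nat_lit 5) (nat_lit 7) (nat_lit 5) (nat_lit 6) (nat_lit 4) (nat_lit 352) (nat_lit 259) (nat_lit 169))) (XT.nd (nat_lit 78) (nat_lit 76) (nat_lit 0) (XT.lf (nat_lit 0) (nat_lit 11305645049) (nat_lit 152) (nat_lit 896486137) (nat_lit 76) (nat_lit 109806166641) (nat_lit 5) (nat_lit 5) (nat_lit 7) (nat_lit 5) (nat_lit 6) (nat_lit 4) (nat_lit 353) (nat_lit 259) (nat_lit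 168)) (XT.nd (nat_lit 78) (nat_lit 0) (nat_lit 0) (XT.lf (nat_lit 0) (nat_lit 10813859267) (nat_lit 76) (nat_lit 6210824924) (nat_lit 152) (nat_lit 110764427310) (nat_lit 4) (nat_lit 5) (nat_lit 5) (nat_lit 5) (nat_lit 6) (nat_lit 4) (nat_lit 354) (nat_lit 259) (nat_lit 167)) (XT.lf (nat_lit 0) (nat_lit 23039460408) (nat_lit 152) (nat_lit 110731728078) (nat_lit 0) (nat_lit 87292309) (nat_lit 4) (nat_lit 5) (nat_lit 6) (nat_lit 4) (nat_lit 4) (nat_lit 4) (nat_lit 355) (nat_lit 259) (nat_lit 166))))) (XT.nd (nat_lit 156) (nat_lit 0) (nat_lit 0) (XT.nd (nat_lit 78) (nat_lit 0) (nat_lit 0) (XT.lf (nat_lit 0) (nat_lit 29450224663) (nat_lit 152) (nat_lit 104290100338) (nat_lit 0) (nat_lit 6486235088) (nat_lit 4) (nat_lit 5) (nat_lit 6) (nat_lit 4) (nat_lit 4) (nat_lit 4) (nat_lit 356) (nat_lit 259) (nat_lit 165)) (XT.lf (nat_lit 0) (nat_lit 36175272298) (nat_lit 152) (nat_lit 97538063422)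 (nat_lit 0) (nat_lit 13200024173) (nat_lit 4) (nat_lit 5) (nat_lit 6) (nat_lit 4) (nat_lit 4) (nat_lit 4) (nat_lit 357) (nat_lit 259) (nat_lit 164))) (XT.nd (nat_lit 78) (nat_lit 0) (nat_lit 0) (XT.lf (nat_lit 0) (nat_lit 43230615330) (nat_lit 152) (nat_lit 90459541052) (nat_lit 0) (nat_lit 20244644777) (nat_lit 4) (nat_lit 5) (nat_lit 6) (nat_lit 4) (nat_lit 4) (nat_lit 4) (nat_lit 358) (nat_lit 259) (nat_lit 163)) (XT.nd (nat_lit 78) (nat_lit 0) (nat_lit 0) (XT.lf (nat_lit 0) (nat_lit 50633052195) (nat_lit 152) (nat_lit 83037679603) (nat_lit 0) (nat_lit 27636869807) (nat_lit 4) (nat_lit 5) (nat_lit 6) (nat_lit 4) (nat_lit 4) (nat_lit 4) (nat_lit 359) (nat_lit 259) (nat_lit 162)) (XT.lf (nat_lit 0) (nat_lit 58400207744) (nat_lit 152) (nat_lit 75254807977) (nat_lit 0) (nat_lit 35394299798) (nat_lit 4) (nat_lit 5) (nat_lit 6) (nat_lit 4) (nat_lit 4) (nat_lit 4) (nat_lit 360) (nat_lit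 259) (nat_lit 161))))))))
noncomputable def xc105 : XT := (XT.nd (nat_lit 1482) (nat_lit 0) (nat_lit 0) (XT.nd (nat_lit 702) (nat_lit 0) (nat_lit 0) (XT.nd (nat_lit 312) (nat_lit 76) (nat_lit 0) (XT.nd (nat_lit 156) (nat_lit 0) (nat_lit 0) (XT.nd (nat_lit 78) (nat_lit 0) (nat_lit 0) (XT.lf (nat_lit 0) (nat_lit 66550575203) (nat_lit 152) (nat_lit 67092395527) (nat_lit 0) (nat_lit 43535404821) (nat_lit 4) (nat_lit 5) (nat_lit 6) (nat_lit 4) (nat_lit 4) (nat_lit 4) (nat_lit 361) (nat_lit 259) (nat_lit 160)) (XT.lf (nat_lit 0) (nat_lit 75103560209) (nat_lit 152) (nat_lit 58531007937) (nat_lit 0) (nat_lit 52079568460) (nat_lit 4) (nat_lit 5) (nat_lit 6) (nat_lit 4) (nat_lit 4) (nat_lit 4) (nat_lit 362) (nat_lit 259) (nat_lit 159))) (XT.nd (nat_lit 78) (nat_lit 0) (nat_lit 0) (XT.lf (nat_lit 0) (nat_lit 84079527014) (nat_lit 152) (nat_lit 49550260951) (nat_lit 0) (nat_lit 61047133961) (nat_lit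 4) (nat_lit 5) (nat_lit 6) (nat_lit 4) (nat_lit 4) (nat_lit 4) (nat_lit 363) (nat_lit 259) (nat_lit 158)) (XT.lf (nat_lit 0) (nat_lit 93499846965) (nat_lit 152) (nat_lit 40128771839) (nat_lit 0) (nat_lit 70459452672) (nat_lit 4) (nat_lit 5) (nat_lit 6) (nat_lit 4) (nat_lit 4) (nat_lit 4) (nat_lit 364) (nat_lit 259) (nat_lit 157)))) (XT.nd (nat_lit 156) (nat_lit 76) (nat_lit 0) (XT.nd (nat_lit 78) (nat_lit 0) (nat_lit 0) (XT.lf (nat_lit 0) (nat_lit 103386949396) (nat_lit 152) (nat_lit 30244108483) (nat_lit 0) (nat_lit 80338934874) (nat_lit 4) (nat_lit 5) (nat_lit 6) (nat_lit 4) (nat_lit 4) (nat_lit 4) (nat_lit 365) (nat_lit 259) (nat_lit 156)) (XT.lf (nat_lit 0) (nat_lit 113764375028) (nat_lit 152) (nat_lit 19872735971) (nat_lit 0) (nat_lit 90709103144) (nat_lit 4) (nat_lit 5) (nat_lit 6) (nat_lit 4) (nat_lit 4) (nat_lit 4) (nat_lit 366) (nat_lit 259) (nat_lit 155))) (XT.nd (nat_lit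 78) (nat_lit 76) (nat_lit 0) (XT.lf (nat_lit 0) (nat_lit 124656832016) (nat_lit 152) (nat_lit 8989960558) (nat_lit 0) (nat_lit 101594648360) (nat_lit 4) (nat_lit 5) (nat_lit 6) (nat_lit 4) (nat_lit 4) (nat_lit 4) (nat_lit 367) (nat_lit 259) (nat_lit 154)) (XT.nd (nat_lit 78) (nat_lit 0) (nat_lit 0) (XT.lf (nat_lit 0) (nat_lit 2510480167) (nat_lit 76) (nat_lit 133618970245) (nat_lit 76) (nat_lit 110550203949) (nat_lit 3) (nat_lit 4) (nat_lit 4) (nat_lit 5) (nat_lit 4) (nat_lit 4) (nat_lit 368) (nat_lit 259) (nat_lit 153)) (XT.lf (nat_lit 0) (nat_lit 14891339633) (nat_lit 76) (nat_lit 133433021672) (nat_lit 76) (nat_lit 110357986194) (nat_lit 3) (nat_lit 4) (nat_lit 4) (nat_lit 5) (nat_lit 4) (nat_lit 4) (nat_lit 369) (nat_lit 259) (nat_lit 152)))))) (XT.nd (nat_lit 390) (nat_lit 0) (nat_lit 0) (XT.nd (nat_lit 156) (nat_lit 0) (nat_lit 0) (XT.nd (nat_lit 78) (nat_lit 0) (nat_lit 0) (XT.lf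 (nat_lit 0) (nat_lit 27884847379) (nat_lit 76) (nat_lit 133240753452) (nat_lit 76) (nat_lit 110159747326) (nat_lit 3) (nat_lit 4) (nat_lit 4) (nat_lit 5) (nat_lit 4) (nat_lit 4) (nat_lit 370) (nat_lit 259) (nat_lit 151)) (XT.lf (nat_lit 0) (nat_lit 41521940329) (nat_lit 76) (nat_lit 133041707805) (nat_lit 76) (nat_lit 109955015346) (nat_lit 3) (nat_lit 4) (nat_lit 4) (nat_lit 5) (nat_lit 4) (nat_lit 4) (nat_lit 371) (nat_lit 259) (nat_lit 150))) (XT.nd (nat_lit 78) (nat_lit 0) (nat_lit 0) (XT.lf (nat_lit 0) (nat_lit 55835087751) (nat_lit 76) (nat_lit 132835410811) (nat_lit 76) (nat_lit 109743302798) (nat_lit 3) (nat_lit 4) (nat_lit 4) (nat_lit 5) (nat_lit 4) (nat_lit 4) (nat_lit 372) (nat_lit 259) (nat_lit 149)) (XT.nd (nat_lit 78) (nat_lit 0) (nat_lit 0) (XT.lf (nat_lit 0) (nat_lit 70858368569) (nat_lit 76) (nat_lit 132621371289) (nat_lit 76) (nat_lit 109524105604) (nat_lit 3) (nat_lit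 4) (nat_lit 4) (nat_lit 5) (nat_lit 4) (nat_lit 4) (nat_lit 373) (nat_lit 259) (nat_lit 148)) (XT.lf (nat_lit 0) (nat_lit 86627552497) (nat_lit 76) (nat_lit 132399079618) (nat_lit 76) (nat_lit 109296901866) (nat_lit 3) (nat_lit 4) (nat_lit 4) (nat_lit 5) (nat_lit 4) (nat_lit 4) (nat_lit 374) (nat_lit 259) (nat_lit 147))))) (XT.nd (nat_lit 156) (nat_lit 0) (nat_lit 0) (XT.nd (nat_lit 78) (nat_lit 0) (nat_lit 0) (XT.lf (nat_lit 0) (nat_lit 103180185212) (nat_lit 76) (nat_lit 132168006535) (nat_lit 76) (nat_lit 109061150623) (nat_lit 3) (nat_lit 4) (nat_lit 4) (nat_lit 5) (nat_lit 4) (nat_lit 4) (nat_lit 375) (nat_lit 259) (nat_lit 146)) (XT.lf (nat_lit 0) (nat_lit 120555677745) (nat_lit 76) (nat_lit 131927601865) (nat_lit 76) (nat_lit 108816290563) (nat_lit 3) (nat_lit 4) (nat_lit 4) (nat_lit 5) (nat_lit 4) (nat_lit 4) (nat_lit 376) (nat_lit 259) (nat_lit 145))) (XT.nd (nat_lit 78) (nat_lit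 0) (nat_lit 0) (XT.lf (nat_lit 0) (nat_lit 138795400316) (nat_lit 76) (nat_lit 131677293215) (nat_lit 76) (nat_lit 108561738684) (nat_lit 3) (nat_lit 4) (nat_lit 4) (nat_lit 5) (nat_lit 4) (nat_lit 4) (nat_lit 377) (nat_lit 259) (nat_lit 144)) (XT.nd (nat_lit 78) (nat_lit 0) (nat_lit 0) (XT.lf (nat_lit 0) (nat_lit 157942780835) (nat_lit 76) (nat_lit 131416484613) (nat_lit 76) (nat_lit 108296888912) (nat_lit 3) (nat_lit 4) (nat_lit 4) (nat_lit 5) (nat_lit 4) (nat_lit 4) (nat_lit 378) (nat_lit 259) (nat_lit 143)) (XT.lf (nat_lit 0) (nat_lit 178043408304) (nat_lit 76) (nat_lit 131144555086) (nat_lit 76) (nat_lit 108021110651) (nat_lit 3) (nat_lit 4) (nat_lit 4) (nat_lit 5) (nat_lit 4) (nat_lit 4) (nat_lit 379) (nat_lit 259) (nat_lit 142))))))) (XT.nd (nat_lit 31512) (nat_lit 0) (nat_lit 7676) (XT.nd (nat_lit 390) (nat_lit 0) (nat_lit 0) (XT.nd (nat_lit 156) (nat_lit 0) (nat_lit 0) (XT.nd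 (nat_lit 78) (nat_lit 0) (nat_lit 0) (XT.lf (nat_lit 0) (nat_lit 199145141360) (nat_lit 76) (nat_lit 130860857182) (nat_lit 76) (nat_lit 107733747287) (nat_lit 3) (nat_lit 4) (nat_lit 4) (nat_lit 5) (nat_lit 4) (nat_lit 4) (nat_lit 380) (nat_lit 259) (nat_lit 141)) (XT.lf (nat_lit 0) (nat_lit 221298222224) (nat_lit 76) (nat_lit 130564715431) (nat_lit 76) (nat_lit 107434114622) (nat_lit 3) (nat_lit 4) (nat_lit 4) (nat_lit 5) (nat_lit 4) (nat_lit 4) (nat_lit 381) (nat_lit 259) (nat_lit 140))) (XT.nd (nat_lit 78) (nat_lit 0) (nat_lit 0) (XT.lf (nat_lit 0) (nat_lit 244555396326) (nat_lit 76) (nat_lit 130255424733) (nat_lit 76) (nat_lit 107121499243) (nat_lit 3) (nat_lit 4) (nat_lit 4) (nat_lit 5) (nat_lit 4) (nat_lit 4) (nat_lit 382) (nat_lit 259) (nat_lit 139)) (XT.nd (nat_lit 78) (nat_lit 0) (nat_lit 0) (XT.lf (nat_lit 0) (nat_lit 268972037892) (nat_lit 76) (nat_lit 129932248682) (nat_lit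 76) (nat_lit 106795156829) (nat_lit 3) (nat_lit 4) (nat_lit 4) (nat_lit 5) (nat_lit 4) (nat_lit 4) (nat_lit 383) (nat_lit 259) (nat_lit 138)) (XT.lf (nat_lit 0) (nat_lit 294606281782) (nat_lit 76) (nat_lit 129594417810) (nat_lit 76) (nat_lit 106454310374) (nat_lit 3) (nat_lit 4) (nat_lit 4) (nat_lit 5) (nat_lit 4) (nat_lit 4) (nat_lit 384) (nat_lit 259) (nat_lit 137))))) (XT.nd (nat_lit 30888) (nat_lit 0) (nat_lit 9576) (XT.nd (nat_lit 78) (nat_lit 0) (nat_lit 0) (XT.lf (nat_lit 0) (nat_lit 321519161909) (nat_lit 76) (nat_lit 129241127759) (nat_lit 76) (nat_lit 106098148339) (nat_lit 3) (nat_lit 4) (nat_lit 4) (nat_lit 5) (nat_lit 4) (nat_lit 4) (nat_lit 385) (nat_lit 259) (nat_lit 136)) (XT.lf (nat_lit 0) (nat_lit 349774756560) (nat_lit 76) (nat_lit 128871537362) (nat_lit 76) (nat_lit 105725822718) (nat_lit 3) (nat_lit 4) (nat_lit 4) (nat_lit 5) (nat_lit 4) (nat_lit 4) (nat_lit 386)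 (nat_lit 259) (nat_lit 135))) (XT.nd (nat_lit 78) (nat_lit 76) (nat_lit 0) (XT.lf (nat_lit 0) (nat_lit 1073741823) (nat_lit 0) (nat_lit 0) (nat_lit 0) (nat_lit 0) (nat_lit 130) (nat_lit 0) (nat_lit 1) (nat_lit 0) (nat_lit 1) (nat_lit 0) (nat_lit 260) (nat_lit 260) (nat_lit 260)) (XT.nd (nat_lit 78) (nat_lit 0) (nat_lit 0) (XT.lf (nat_lit 0) (nat_lit 2885549134) (nat_lit 76) (nat_lit 3465829894) (nat_lit 0) (nat_lit 93820392) (nat_lit 129) (nat_lit 5) (nat_lit 130) (nat_lit 0) (nat_lit 129) (nat_lit 4) (nat_lit 261) (nat_lit 260) (nat_lit 259)) (XT.lf (nat_lit 0) (nat_lit 5732202579) (nat_lit 76) (nat_lit 444255279) (nat_lit 0) (nat_lit 281684558) (nat_lit 129) (nat_lit 5) (nat_lit 130) (nat_lit 0) (nat_lit 129) (nat_lit 4) (nat_lit 262) (nat_lit 260) (nat_lit 258)))))) (XT.nd (nat_lit 390) (nat_lit 1292) (nat_lit 0) (XT.nd (nat_lit 156) (nat_lit 456) (nat_lit 0) (XT.nd (nat_lit 78)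 (nat_lit 0) (nat_lit 0) (XT.lf (nat_lit 0) (nat_lit 2042426778) (nat_lit 152) (nat_lit 3795723391) (nat_lit 76) (nat_lit 639392921) (nat_lit 127) (nat_lit 5) (nat_lit 129) (nat_lit 5) (nat_lit 128) (nat_lit 4) (nat_lit 263) (nat_lit 260) (nat_lit 257)) (XT.lf (nat_lit 0) (nat_lit 4761261880) (nat_lit 152) (nat_lit 633711684) (nat_lit 76) (nat_lit 1111298980) (nat_lit 127) (nat_lit 5) (nat_lit 129) (nat_lit 5) (nat_lit 128) (nat_lit 4) (nat_lit 264) (nat_lit 260) (nat_lit 256))) (XT.nd (nat_lit 78) (nat_lit 228) (nat_lit 0) (XT.lf (nat_lit 0) (nat_lit 921028970) (nat_lit 228) (nat_lit 3884971738) (nat_lit 76) (nat_lit 1736499799) (nat_lit 124) (nat_lit 5) (nat_lit 127) (nat_lit 5) (nat_lit 125) (nat_lit 5) (nat_lit 265) (nat_lit 260) (nat_lit 255)) (XT.nd (nat_lit 78) (nat_lit 228) (nat_lit 0) (XT.lf (nat_lit 0) (nat_lit 3512580941) (nat_lit 228) (nat_lit 576652658) (nat_lit 76) (nat_lit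 2498003654) (nat_lit 124) (nat_lit 5) (nat_lit 127) (nat_lit 5) (nat_lit 125) (nat_lit 5) (nat_lit 266) (nat_lit 260) (nat_lit 254)) (XT.lf (nat_lit 0) (nat_lit 2891338489) (nat_lit 228) (nat_lit 3235081538) (nat_lit 304) (nat_lit 513793835) (nat_lit 121) (nat_lit 5) (nat_lit 124) (nat_lit 5) (nat_lit 125) (nat_lit 5) (nat_lit 267) (nat_lit 260) (nat_lit 253))))) (XT.nd (nat_lit 156) (nat_lit 912) (nat_lit 0) (XT.nd (nat_lit 78) (nat_lit 304) (nat_lit 0) (XT.lf (nat_lit 0) (nat_lit 1965743867) (nat_lit 304) (nat_lit 278949088) (nat_lit 76) (nat_lit 4457015043) (nat_lit 120) (nat_lit 5) (nat_lit 124) (nat_lit 5) (nat_lit 121) (nat_lit 5) (nat_lit 268) (nat_lit 260) (nat_lit 252)) (XT.lf (nat_lit 0) (nat_lit 3366438018) (nat_lit 304) (nat_lit 1095563862) (nat_lit 380) (nat_lit 2308904868) (nat_lit 116) (nat_lit 5) (nat_lit 120) (nat_lit 5) (nat_lit 121) (nat_lit 5) (nat_lit 269) (nat_lit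 260) (nat_lit 251))) (XT.nd (nat_lit 78) (nat_lit 456) (nat_lit 0) (XT.lf (nat_lit 0) (nat_lit 103303674) (nat_lit 456) (nat_lit 6588815839) (nat_lit 76) (nat_lit 158186136) (nat_lit 110) (nat_lit 5) (nat_lit 116) (nat_lit 5) (nat_lit 111) (nat_lit 5) (nat_lit 270) (nat_lit 260) (nat_lit 250)) (XT.nd (nat_lit 78) (nat_lit 456) (nat_lit 0) (XT.lf (nat_lit 0) (nat_lit 2500747635) (nat_lit 456) (nat_lit 2865674828) (nat_lit 76) (nat_lit 1568724979) (nat_lit 110) (nat_lit 5) (nat_lit 116) (nat_lit 5) (nat_lit 111) (nat_lit 5) (nat_lit 271) (nat_lit 260) (nat_lit 249)) (XT.lf (nat_lit 0) (nat_lit 972788298) (nat_lit 456) (nat_lit 3932518457) (nat_lit 532) (nat_lit 2125016194) (nat_lit 104) (nat_lit 5) (nat_lit 110) (nat_lit 5) (nat_lit 111) (nat_lit 5) (nat_lit 272) (nat_lit 260) (nat_lit 248))))))))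
noncomputable def xc106 : XT := (XT.nd (nat_lit 1482) (nat_lit 1976) (nat_lit 0) (XT.nd (nat_lit 702) (nat_lit 1520) (nat_lit 0) (XT.nd (nat_lit 312) (nat_lit 1596) (nat_lit 0) (XT.nd (nat_lit 156) (nat_lit 608) (nat_lit 0) (XT.nd (nat_lit 78) (nat_lit 532) (nat_lit 0) (XT.lf (nat_lit 0) (nat_lit 213706822) (nat_lit 532) (nat_lit 2135541851) (nat_lit 76) (nat_lit 4785012736) (nat_lit 103) (nat_lit 5) (nat_lit 110) (nat_lit 5) (nat_lit 104) (nat_lit 5) (nat_lit 273) (nat_lit 260) (nat_lit 247)) (XT.lf (nat_lit 0) (nat_lit 1908907752) (nat_lit 532) (nat_lit 598980183) (nat_lit 608) (nat_lit 4738662203) (nat_lit 96) (nat_lit 5) (nat_lit 103) (nat_lit 5) (nat_lit 104) (nat_lit 5) (nat_lit 274) (nat_lit 260) (nat_lit 246))) (XT.nd (nat_lit 78) (nat_lit 608) (nat_lit 0) (XT.lf (nat_lit 0) (nat_lit 4857456645) (nat_lit 608) (nat_lit 1257579831) (nat_lit 76) (nat_lit 1252756219) (nat_lit 96)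 (nat_lit 5) (nat_lit 104) (nat_lit 5) (nat_lit 97) (nat_lit 5) (nat_lit 275) (nat_lit 260) (nat_lit 245)) (XT.lf (nat_lit 0) (nat_lit 3013378366) (nat_lit 608) (nat_lit 4258066382) (nat_lit 684) (nat_lit 226661128) (nat_lit 88) (nat_lit 5) (nat_lit 96) (nat_lit 5) (nat_lit 97) (nat_lit 5) (nat_lit 276) (nat_lit 260) (nat_lit 244)))) (XT.nd (nat_lit 156) (nat_lit 836) (nat_lit 0) (XT.nd (nat_lit 78) (nat_lit 684) (nat_lit 0) (XT.lf (nat_lit 0) (nat_lit 2015060247) (nat_lit 684) (nat_lit 228602196) (nat_lit 76) (nat_lit 5394232105) (nat_lit 87) (nat_lit 5) (nat_lit 96) (nat_lit 5) (nat_lit 88) (nat_lit 5) (nat_lit 277) (nat_lit 260) (nat_lit 243)) (XT.lf (nat_lit 0) (nat_lit 4276311291) (nat_lit 684) (nat_lit 48568799) (nat_lit 760) (nat_lit 3461732423) (nat_lit 78) (nat_lit 5) (nat_lit 87) (nat_lit 5) (nat_lit 88) (nat_lit 5) (nat_lit 278) (nat_lit 260) (nat_lit 242))) (XT.nd (nat_lit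 78) (nat_lit 456) (nat_lit 0) (XT.lf (nat_lit 0) (nat_lit 966532673) (nat_lit 380) (nat_lit 5738257625) (nat_lit 456) (nat_lit 1240538613) (nat_lit 73) (nat_lit 5) (nat_lit 78) (nat_lit 5) (nat_lit 79) (nat_lit 5) (nat_lit 279) (nat_lit 260) (nat_lit 241)) (XT.nd (nat_lit 78) (nat_lit 380) (nat_lit 0) (XT.lf (nat_lit 0) (nat_lit 1019683700) (nat_lit 456) (nat_lit 2441580189) (nat_lit 76) (nat_lit 4651984790) (nat_lit 72) (nat_lit 5) (nat_lit 78) (nat_lit 5) (nat_lit 73) (nat_lit 5) (nat_lit 280) (nat_lit 260) (nat_lit 240)) (XT.lf (nat_lit 0) (nat_lit 2277104400) (nat_lit 380) (nat_lit 1016046936) (nat_lit 456) (nat_lit 4998552719) (nat_lit 67) (nat_lit 5) (nat_lit 72) (nat_lit 5) (nat_lit 73) (nat_lit 5) (nat_lit 281) (nat_lit 260) (nat_lit 239)))))) (XT.nd (nat_lit 390) (nat_lit 608) (nat_lit 0) (XT.nd (nat_lit 156) (nat_lit 608) (nat_lit 0) (XT.nd (nat_lit 78) (nat_lit 304) (nat_lit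 0) (XT.lf (nat_lit 0) (nat_lit 5655779498) (nat_lit 456) (nat_lit 1286468475) (nat_lit 76) (nat_lit 1538300516) (nat_lit 67) (nat_lit 5) (nat_lit 73) (nat_lit 5) (nat_lit 68) (nat_lit 5) (nat_lit 282) (nat_lit 260) (nat_lit 238)) (XT.lf (nat_lit 0) (nat_lit 3683062255) (nat_lit 304) (nat_lit 4441196013) (nat_lit 380) (nat_lit 555420101) (nat_lit 63) (nat_lit 5) (nat_lit 67) (nat_lit 5) (nat_lit 68) (nat_lit 5) (nat_lit 283) (nat_lit 260) (nat_lit 237))) (XT.nd (nat_lit 78) (nat_lit 532) (nat_lit 0) (XT.lf (nat_lit 0) (nat_lit 1705664939) (nat_lit 380) (nat_lit 68541075) (nat_lit 76) (nat_lit 7116502230) (nat_lit 62) (nat_lit 5) (nat_lit 67) (nat_lit 5) (nat_lit 63) (nat_lit 5) (nat_lit 284) (nat_lit 260) (nat_lit 236)) (XT.nd (nat_lit 78) (nat_lit 228) (nat_lit 0) (XT.lf (nat_lit 0) (nat_lit 4077833148) (nat_lit 380) (nat_lit 3960150786) (nat_lit 76) (nat_lit 1073213659) (nat_lit 58)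 (nat_lit 5) (nat_lit 63) (nat_lit 5) (nat_lit 59) (nat_lit 5) (nat_lit 285) (nat_lit 260) (nat_lit 235)) (XT.lf (nat_lit 0) (nat_lit 1205322528) (nat_lit 228) (nat_lit 5333294622) (nat_lit 304) (nat_lit 2805782444) (nat_lit 55) (nat_lit 5) (nat_lit 58) (nat_lit 5) (nat_lit 59) (nat_lit 5) (nat_lit 286) (nat_lit 260) (nat_lit 234))))) (XT.nd (nat_lit 156) (nat_lit 228) (nat_lit 0) (XT.nd (nat_lit 78) (nat_lit 380) (nat_lit 0) (XT.lf (nat_lit 0) (nat_lit 6672605934) (nat_lit 228) (nat_lit 2440123953) (nat_lit 304) (nat_lit 477196903) (nat_lit 55) (nat_lit 5) (nat_lit 58) (nat_lit 5) (nat_lit 59) (nat_lit 5) (nat_lit 287) (nat_lit 260) (nat_lit 233)) (XT.lf (nat_lit 0) (nat_lit 1879954402) (nat_lit 380) (nat_lit 7334854083) (nat_lit 76) (nat_lit 632792635) (nat_lit 50) (nat_lit 5) (nat_lit 55) (nat_lit 5) (nat_lit 51) (nat_lit 5) (nat_lit 288) (nat_lit 260) (nat_lit 232))) (XT.nd (nat_lit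 78) (nat_lit 228) (nat_lit 0) (XT.lf (nat_lit 0) (nat_lit 4356505815) (nat_lit 380) (nat_lit 1942827644) (nat_lit 76) (nat_lit 3817710708) (nat_lit 50) (nat_lit 5) (nat_lit 55) (nat_lit 5) (nat_lit 51) (nat_lit 5) (nat_lit 289) (nat_lit 260) (nat_lit 231)) (XT.nd (nat_lit 78) (nat_lit 0) (nat_lit 0) (XT.lf (nat_lit 0) (nat_lit 3749173224) (nat_lit 228) (nat_lit 3197066939) (nat_lit 304) (nat_lit 3454399173) (nat_lit 47) (nat_lit 5) (nat_lit 50) (nat_lit 5) (nat_lit 51) (nat_lit 5) (nat_lit 290) (nat_lit 260) (nat_lit 230)) (XT.lf (nat_lit 0) (nat_lit 9632256263) (nat_lit 304) (nat_lit 996380993) (nat_lit 76) (nat_lit 71577952) (nat_lit 47) (nat_lit 5) (nat_lit 51) (nat_lit 5) (nat_lit 48) (nat_lit 5) (nat_lit 291) (nat_lit 260) (nat_lit 229))))))) (XT.nd (nat_lit 780) (nat_lit 608) (nat_lit 0) (XT.nd (nat_lit 390) (nat_lit 608) (nat_lit 0) (XT.nd (nat_lit 156) (nat_lit 456) (nat_lit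 0) (XT.nd (nat_lit 78) (nat_lit 0) (nat_lit 0) (XT.lf (nat_lit 0) (nat_lit 1458221554) (nat_lit 304) (nat_lit 6074329570) (nat_lit 76) (nat_lit 3477902118) (nat_lit 43) (nat_lit 5) (nat_lit 47) (nat_lit 5) (nat_lit 44) (nat_lit 5) (nat_lit 292) (nat_lit 260) (nat_lit 228)) (XT.lf (nat_lit 0) (nat_lit 4028179573) (nat_lit 304) (nat_lit 241130713) (nat_lit 76) (nat_lit 7068471110) (nat_lit 43) (nat_lit 5) (nat_lit 47) (nat_lit 5) (nat_lit 44) (nat_lit 5) (nat_lit 293) (nat_lit 260) (nat_lit 227))) (XT.nd (nat_lit 78) (nat_lit 304) (nat_lit 0) (XT.lf (nat_lit 0) (nat_lit 5991854600) (nat_lit 152) (nat_lit 767576340) (nat_lit 228) (nat_lit 4920520999) (nat_lit 41) (nat_lit 5) (nat_lit 43) (nat_lit 5) (nat_lit 44) (nat_lit 5) (nat_lit 294) (nat_lit 260) (nat_lit 226)) (XT.nd (nat_lit 78) (nat_lit 76) (nat_lit 0) (XT.lf (nat_lit 0) (nat_lit 387748755) (nat_lit 228) (nat_lit 9235614431) (nat_lit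 304) (nat_lit 2416172150) (nat_lit 38) (nat_lit 5) (nat_lit 41) (nat_lit 5) (nat_lit 42) (nat_lit 5) (nat_lit 295) (nat_lit 260) (nat_lit 225)) (XT.lf (nat_lit 0) (nat_lit 258025468) (nat_lit 304) (nat_lit 5550598267) (nat_lit 76) (nat_lit 6605834514) (nat_lit 37) (nat_lit 5) (nat_lit 41) (nat_lit 5) (nat_lit 38) (nat_lit 5) (nat_lit 296) (nat_lit 260) (nat_lit 224))))) (XT.nd (nat_lit 156) (nat_lit 456) (nat_lit 0) (XT.nd (nat_lit 78) (nat_lit 0) (nat_lit 0) (XT.lf (nat_lit 0) (nat_lit 758716257) (nat_lit 152) (nat_lit 2181642391) (nat_lit 228) (nat_lit 9868102177) (nat_lit 35) (nat_lit 5) (nat_lit 37) (nat_lit 5) (nat_lit 38) (nat_lit 5) (nat_lit 297) (nat_lit 260) (nat_lit 223)) (XT.lf (nat_lit 0) (nat_lit 5822553527) (nat_lit 228) (nat_lit 5750924610) (nat_lit 76) (nat_lit 1645488835) (nat_lit 35) (nat_lit 5) (nat_lit 38) (nat_lit 5) (nat_lit 36) (nat_lit 5) (nat_lit 298) (nat_lit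 260) (nat_lit 222))) (XT.nd (nat_lit 78) (nat_lit 228) (nat_lit 0) (XT.lf (nat_lit 0) (nat_lit 773028939) (nat_lit 228) (nat_lit 8071096127) (nat_lit 304) (nat_lit 4806196394) (nat_lit 32) (nat_lit 5) (nat_lit 35) (nat_lit 5) (nat_lit 36) (nat_lit 5) (nat_lit 299) (nat_lit 260) (nat_lit 221)) (XT.nd (nat_lit 78) (nat_lit 228) (nat_lit 0) (XT.lf (nat_lit 0) (nat_lit 7745325474) (nat_lit 228) (nat_lit 4317570516) (nat_lit 304) (nat_lit 2038123908) (nat_lit 32) (nat_lit 5) (nat_lit 35) (nat_lit 5) (nat_lit 36) (nat_lit 5) (nat_lit 300) (nat_lit 260) (nat_lit 220)) (XT.lf (nat_lit 0) (nat_lit 416206488) (nat_lit 152) (nat_lit 381142530) (nat_lit 228) (nat_lit 13778461507) (nat_lit 29) (nat_lit 5) (nat_lit 31) (nat_lit 5) (nat_lit 32) (nat_lit 5) (nat_lit 301) (nat_lit 260) (nat_lit 219)))))) (XT.nd (nat_lit 390) (nat_lit 228) (nat_lit 0) (XT.nd (nat_lit 156) (nat_lit 380) (nat_lit 0) (XT.nd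 (nat_lit 78) (nat_lit 0) (nat_lit 0) (XT.lf (nat_lit 0) (nat_lit 3825178390) (nat_lit 228) (nat_lit 7491773862) (nat_lit 76) (nat_lit 3749835046) (nat_lit 29) (nat_lit 5) (nat_lit 32) (nat_lit 5) (nat_lit 30) (nat_lit 5) (nat_lit 302) (nat_lit 260) (nat_lit 218)) (XT.lf (nat_lit 0) (nat_lit 6964071207) (nat_lit 228) (nat_lit 569577096) (nat_lit 76) (nat_lit 8050748688) (nat_lit 29) (nat_lit 5) (nat_lit 32) (nat_lit 5) (nat_lit 30) (nat_lit 5) (nat_lit 303) (nat_lit 260) (nat_lit 217))) (XT.nd (nat_lit 78) (nat_lit 228) (nat_lit 0) (XT.lf (nat_lit 0) (nat_lit 6848616896) (nat_lit 152) (nat_lit 3473859525) (nat_lit 228) (nat_lit 5802346814) (nat_lit 27) (nat_lit 5) (nat_lit 29) (nat_lit 5) (nat_lit 30) (nat_lit 5) (nat_lit 304) (nat_lit 260) (nat_lit 216)) (XT.nd (nat_lit 78) (nat_lit 228) (nat_lit 0) (XT.lf (nat_lit 0) (nat_lit 13827224111) (nat_lit 228) (nat_lit 2116800474) (nat_lit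 76) (nat_lit 749386483) (nat_lit 27) (nat_lit 5) (nat_lit 30) (nat_lit 5) (nat_lit 28) (nat_lit 4) (nat_lit 305) (nat_lit 260) (nat_lit 215)) (XT.lf (nat_lit 0) (nat_lit 311874542) (nat_lit 228) (nat_lit 11839085377) (nat_lit 76) (nat_lit 5134253227) (nat_lit 24) (nat_lit 5) (nat_lit 27) (nat_lit 5) (nat_lit 25) (nat_lit 5) (nat_lit 306) (nat_lit 260) (nat_lit 214))))) (XT.nd (nat_lit 156) (nat_lit 76) (nat_lit 0) (XT.nd (nat_lit 78) (nat_lit 152) (nat_lit 0) (XT.lf (nat_lit 0) (nat_lit 3547571695) (nat_lit 228) (nat_lit 4558736610) (nat_lit 76) (nat_lit 9798247954) (nat_lit 24) (nat_lit 5) (nat_lit 27) (nat_lit 5) (nat_lit 25) (nat_lit 5) (nat_lit 307) (nat_lit 260) (nat_lit 213)) (XT.lf (nat_lit 0) (nat_lit 3121693440) (nat_lit 152) (nat_lit 3832687719) (nat_lit 228) (nat_lit 11600069499) (nat_lit 22) (nat_lit 5) (nat_lit 24) (nat_lit 5) (nat_lit 25) (nat_lit 5) (nat_lit 308) (nat_lit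 260) (nat_lit 212))) (XT.nd (nat_lit 78) (nat_lit 76) (nat_lit 0) (XT.lf (nat_lit 0) (nat_lit 10581327028) (nat_lit 228) (nat_lit 7964465911) (nat_lit 76) (nat_lit 688605141) (nat_lit 22) (nat_lit 5) (nat_lit 25) (nat_lit 5) (nat_lit 23) (nat_lit 4) (nat_lit 309) (nat_lit 260) (nat_lit 211)) (XT.nd (nat_lit 78) (nat_lit 76) (nat_lit 0) (XT.lf (nat_lit 0) (nat_lit 14415408771) (nat_lit 228) (nat_lit 246938016) (nat_lit 76) (nat_lit 5284752465) (nat_lit 22) (nat_lit 5) (nat_lit 25) (nat_lit 5) (nat_lit 23) (nat_lit 4) (nat_lit 310) (nat_lit 260) (nat_lit 210)) (XT.lf (nat_lit 0) (nat_lit 8055878965) (nat_lit 76) (nat_lit 10475812039) (nat_lit 152) (nat_lit 2159263285) (nat_lit 21) (nat_lit 5) (nat_lit 22) (nat_lit 5) (nat_lit 23) (nat_lit 4) (nat_lit 311) (nat_lit 260) (nat_lit 209))))))))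
noncomputable def xc107 : XT := (XT.nd (nat_lit 1560) (nat_lit 304) (nat_lit 0) (XT.nd (nat_lit 780) (nat_lit 304) (nat_lit 0) (XT.nd (nat_lit 390) (nat_lit 228) (nat_lit 0) (XT.nd (nat_lit 156) (nat_lit 76) (nat_lit 0) (XT.nd (nat_lit 78) (nat_lit 152) (nat_lit 0) (XT.lf (nat_lit 0) (nat_lit 1306708364) (nat_lit 152) (nat_lit 4769708735) (nat_lit 76) (nat_lit 15396088429) (nat_lit 20) (nat_lit 5) (nat_lit 22) (nat_lit 5) (nat_lit 21) (nat_lit 5) (nat_lit 312) (nat_lit 260) (nat_lit 208)) (XT.lf (nat_lit 0) (nat_lit 3509980594) (nat_lit 152) (nat_lit 1384803019) (nat_lit 228) (nat_lit 17395549993) (nat_lit 18) (nat_lit 5) (nat_lit 20) (nat_lit 5) (nat_lit 21) (nat_lit 5) (nat_lit 313) (nat_lit 260) (nat_lit 207))) (XT.nd (nat_lit 78) (nat_lit 76) (nat_lit 0) (XT.lf (nat_lit 0) (nat_lit 8766610387) (nat_lit 228) (nat_lit 10888691986) (nat_lit 76) (nat_lit 3488569219) (nat_lit 18) (nat_lit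 5) (nat_lit 21) (nat_lit 5) (nat_lit 19) (nat_lit 4) (nat_lit 314) (nat_lit 260) (nat_lit 206)) (XT.nd (nat_lit 78) (nat_lit 76) (nat_lit 0) (XT.lf (nat_lit 0) (nat_lit 12823258921) (nat_lit 228) (nat_lit 2678778550) (nat_lit 76) (nat_lit 8538521667) (nat_lit 18) (nat_lit 5) (nat_lit 21) (nat_lit 5) (nat_lit 19) (nat_lit 4) (nat_lit 315) (nat_lit 260) (nat_lit 205)) (XT.lf (nat_lit 0) (nat_lit 6085323726) (nat_lit 76) (nat_lit 11062452476) (nat_lit 152) (nat_lit 7831085599) (nat_lit 17) (nat_lit 5) (nat_lit 18) (nat_lit 5) (nat_lit 19) (nat_lit 4) (nat_lit 316) (nat_lit 260) (nat_lit 204))))) (XT.nd (nat_lit 156) (nat_lit 228) (nat_lit 0) (XT.nd (nat_lit 78) (nat_lit 0) (nat_lit 0) (XT.lf (nat_lit 0) (nat_lit 15330380858) (nat_lit 76) (nat_lit 6374174967) (nat_lit 152) (nat_lit 4258752951) (nat_lit 17) (nat_lit 5) (nat_lit 18) (nat_lit 5) (nat_lit 19) (nat_lit 4) (nat_lit 317) (nat_lit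 260) (nat_lit 203)) (XT.lf (nat_lit 0) (nat_lit 24989832371) (nat_lit 76) (nat_lit 1471408790) (nat_lit 152) (nat_lit 537163133) (nat_lit 17) (nat_lit 5) (nat_lit 18) (nat_lit 5) (nat_lit 19) (nat_lit 4) (nat_lit 318) (nat_lit 260) (nat_lit 202))) (XT.nd (nat_lit 78) (nat_lit 0) (nat_lit 0) (XT.lf (nat_lit 0) (nat_lit 3407421751) (nat_lit 228) (nat_lit 20960591337) (nat_lit 76) (nat_lit 3707397488) (nat_lit 14) (nat_lit 5) (nat_lit 17) (nat_lit 5) (nat_lit 15) (nat_lit 4) (nat_lit 319) (nat_lit 260) (nat_lit 201)) (XT.nd (nat_lit 78) (nat_lit 0) (nat_lit 0) (XT.lf (nat_lit 0) (nat_lit 7563086341) (nat_lit 228) (nat_lit 12520738985) (nat_lit 76) (nat_lit 9120431923) (nat_lit 14) (nat_lit 5) (nat_lit 17) (nat_lit 5) (nat_lit 15) (nat_lit 4) (nat_lit 320) (nat_lit 260) (nat_lit 200)) (XT.lf (nat_lit 0) (nat_lit 11901017427) (nat_lit 228) (nat_lit 3703466028) (nat_lit 76) (nat_lit 14786362930)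 (nat_lit 14) (nat_lit 5) (nat_lit 17) (nat_lit 5) (nat_lit 15) (nat_lit 4) (nat_lit 321) (nat_lit 260) (nat_lit 199)))))) (XT.nd (nat_lit 390) (nat_lit 76) (nat_lit 0) (XT.nd (nat_lit 156) (nat_lit 152) (nat_lit 0) (XT.nd (nat_lit 78) (nat_lit 0) (nat_lit 0) (XT.lf (nat_lit 0) (nat_lit 5694479961) (nat_lit 76) (nat_lit 10825970246) (nat_lit 152) (nat_lit 15113107651) (nat_lit 13) (nat_lit 5) (nat_lit 14) (nat_lit 5) (nat_lit 15) (nat_lit 4) (nat_lit 322) (nat_lit 260) (nat_lit 198)) (XT.lf (nat_lit 0) (nat_lit 15649134363) (nat_lit 76) (nat_lit 5760643756) (nat_lit 152) (nat_lit 11526702644) (nat_lit 13) (nat_lit 5) (nat_lit 14) (nat_lit 5) (nat_lit 15) (nat_lit 4) (nat_lit 323) (nat_lit 260) (nat_lit 197))) (XT.nd (nat_lit 78) (nat_lit 152) (nat_lit 0) (XT.lf (nat_lit 0) (nat_lit 26061745422) (nat_lit 76) (nat_lit 459163675) (nat_lit 152) (nat_lit 7784794868) (nat_lit 13) (nat_lit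 5) (nat_lit 14) (nat_lit 5) (nat_lit 15) (nat_lit 4) (nat_lit 324) (nat_lit 260) (nat_lit 196)) (XT.nd (nat_lit 78) (nat_lit 76) (nat_lit 0) (XT.lf (nat_lit 0) (nat_lit 1170597764) (nat_lit 76) (nat_lit 30793177271) (nat_lit 76) (nat_lit 3775824358) (nat_lit 12) (nat_lit 4) (nat_lit 13) (nat_lit 5) (nat_lit 13) (nat_lit 4) (nat_lit 325) (nat_lit 260) (nat_lit 195)) (XT.lf (nat_lit 0) (nat_lit 547385751) (nat_lit 152) (nat_lit 25951540764) (nat_lit 76) (nat_lit 10739559283) (nat_lit 11) (nat_lit 5) (nat_lit 13) (nat_lit 5) (nat_lit 12) (nat_lit 4) (nat_lit 326) (nat_lit 260) (nat_lit 194))))) (XT.nd (nat_lit 156) (nat_lit 76) (nat_lit 0) (XT.nd (nat_lit 78) (nat_lit 0) (nat_lit 0) (XT.lf (nat_lit 0) (nat_lit 4939137562) (nat_lit 152) (nat_lit 17002095879) (nat_lit 76) (nat_lit 16869041727) (nat_lit 11) (nat_lit 5) (nat_lit 13) (nat_lit 5) (nat_lit 12) (nat_lit 4) (nat_lit 327) (nat_lit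 260) (nat_lit 193)) (XT.lf (nat_lit 0) (nat_lit 9530737585) (nat_lit 152) (nat_lit 7640407572) (nat_lit 76) (nat_lit 23290512259) (nat_lit 11) (nat_lit 5) (nat_lit 13) (nat_lit 5) (nat_lit 12) (nat_lit 4) (nat_lit 328) (nat_lit 260) (nat_lit 192))) (XT.nd (nat_lit 78) (nat_lit 0) (nat_lit 0) (XT.lf (nat_lit 0) (nat_lit 2227094833) (nat_lit 76) (nat_lit 12140794560) (nat_lit 152) (nat_lit 27826936456) (nat_lit 10) (nat_lit 5) (nat_lit 11) (nat_lit 5) (nat_lit 12) (nat_lit 4) (nat_lit 329) (nat_lit 260) (nat_lit 191)) (XT.nd (nat_lit 78) (nat_lit 0) (nat_lit 0) (XT.lf (nat_lit 0) (nat_lit 12820219946) (nat_lit 76) (nat_lit 6737653264) (nat_lit 152) (nat_lit 24451245683) (nat_lit 10) (nat_lit 5) (nat_lit 11) (nat_lit 5) (nat_lit 12) (nat_lit 4) (nat_lit 330) (nat_lit 260) (nat_lit 190)) (XT.lf (nat_lit 0) (nat_lit 23911563115) (nat_lit 76) (nat_lit 1078250649) (nat_lit 152) (nat_lit 20925204154)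 (nat_lit 10) (nat_lit 5) (nat_lit 11) (nat_lit 5) (nat_lit 12) (nat_lit 4) (nat_lit 331) (nat_lit 260) (nat_lit 189))))))) (XT.nd (nat_lit 780) (nat_lit 76) (nat_lit 0) (XT.nd (nat_lit 390) (nat_lit 76) (nat_lit 0) (XT.nd (nat_lit 156) (nat_lit 152) (nat_lit 0) (XT.nd (nat_lit 78) (nat_lit 0) (nat_lit 0) (XT.lf (nat_lit 0) (nat_lit 30752380203) (nat_lit 152) (nat_lit 12465264434) (nat_lit 0) (nat_lit 4695629341) (nat_lit 10) (nat_lit 5) (nat_lit 12) (nat_lit 4) (nat_lit 10) (nat_lit 4) (nat_lit 332) (nat_lit 260) (nat_lit 188)) (XT.lf (nat_lit 0) (nat_lit 36804642896) (nat_lit 152) (nat_lit 2496967839) (nat_lit 0) (nat_lit 10709766592) (nat_lit 10) (nat_lit 5) (nat_lit 12) (nat_lit 4) (nat_lit 10) (nat_lit 4) (nat_lit 333) (nat_lit 260) (nat_lit 187))) (XT.nd (nat_lit 78) (nat_lit 76) (nat_lit 0) (XT.lf (nat_lit 0) (nat_lit 8204602038) (nat_lit 76) (nat_lit 35067672273) (nat_lit 76)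 (nat_lit 8936486023) (nat_lit 9) (nat_lit 4) (nat_lit 10) (nat_lit 5) (nat_lit 10) (nat_lit 4) (nat_lit 334) (nat_lit 260) (nat_lit 186)) (XT.nd (nat_lit 78) (nat_lit 76) (nat_lit 0) (XT.lf (nat_lit 0) (nat_lit 19500646867) (nat_lit 76) (nat_lit 30589890968) (nat_lit 76) (nat_lit 4424123817) (nat_lit 9) (nat_lit 4) (nat_lit 10) (nat_lit 5) (nat_lit 10) (nat_lit 4) (nat_lit 335) (nat_lit 260) (nat_lit 185)) (XT.lf (nat_lit 0) (nat_lit 289244808) (nat_lit 152) (nat_lit 25605749485) (nat_lit 76) (nat_lit 31041357646) (nat_lit 8) (nat_lit 5) (nat_lit 10) (nat_lit 5) (nat_lit 9) (nat_lit 4) (nat_lit 336) (nat_lit 260) (nat_lit 184))))) (XT.nd (nat_lit 156) (nat_lit 76) (nat_lit 0) (XT.nd (nat_lit 78) (nat_lit 0) (nat_lit 0) (XT.lf (nat_lit 0) (nat_lit 5075729605) (nat_lit 152) (nat_lit 15824821547) (nat_lit 76) (nat_lit 38575652987) (nat_lit 8) (nat_lit 5) (nat_lit 10) (nat_lit 5) (nat_lit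 9) (nat_lit 4) (nat_lit 337) (nat_lit 260) (nat_lit 183)) (XT.lf (nat_lit 0) (nat_lit 10088326557) (nat_lit 152) (nat_lit 5578870077) (nat_lit 76) (nat_lit 46476522532) (nat_lit 8) (nat_lit 5) (nat_lit 10) (nat_lit 5) (nat_lit 9) (nat_lit 4) (nat_lit 338) (nat_lit 260) (nat_lit 182))) (XT.nd (nat_lit 78) (nat_lit 0) (nat_lit 0) (XT.lf (nat_lit 0) (nat_lit 5326997226) (nat_lit 76) (nat_lit 10095142549) (nat_lit 152) (nat_lit 49518950005) (nat_lit 7) (nat_lit 5) (nat_lit 8) (nat_lit 5) (nat_lit 9) (nat_lit 4) (nat_lit 339) (nat_lit 260) (nat_lit 181)) (XT.nd (nat_lit 78) (nat_lit 0) (nat_lit 0) (XT.lf (nat_lit 0) (nat_lit 16949333763) (nat_lit 76) (nat_lit 4155455562) (nat_lit 152) (nat_lit 46769441036) (nat_lit 7) (nat_lit 5) (nat_lit 8) (nat_lit 5) (nat_lit 9) (nat_lit 4) (nat_lit 340) (nat_lit 260) (nat_lit 180)) (XT.lf (nat_lit 0) (nat_lit 27092165870) (nat_lit 152) (nat_lit 41855616862)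 (nat_lit 0) (nat_lit 2005223818) (nat_lit 7) (nat_lit 5) (nat_lit 9) (nat_lit 4) (nat_lit 7) (nat_lit 4) (nat_lit 341) (nat_lit 260) (nat_lit 179)))))) (XT.nd (nat_lit 390) (nat_lit 0) (nat_lit 0) (XT.nd (nat_lit 156) (nat_lit 76) (nat_lit 0) (XT.nd (nat_lit 78) (nat_lit 0) (nat_lit 0) (XT.lf (nat_lit 0) (nat_lit 33435700993) (nat_lit 152) (nat_lit 32421835749) (nat_lit 0) (nat_lit 8325353226) (nat_lit 7) (nat_lit 5) (nat_lit 9) (nat_lit 4) (nat_lit 7) (nat_lit 4) (nat_lit 342) (nat_lit 260) (nat_lit 178)) (XT.lf (nat_lit 0) (nat_lit 40085620044) (nat_lit 152) (nat_lit 22536213568) (nat_lit 0) (nat_lit 14952981120) (nat_lit 7) (nat_lit 5) (nat_lit 9) (nat_lit 4) (nat_lit 7) (nat_lit 4) (nat_lit 343) (nat_lit 260) (nat_lit 177))) (XT.nd (nat_lit 78) (nat_lit 76) (nat_lit 0) (XT.lf (nat_lit 0) (nat_lit 47057756163) (nat_lit 152) (nat_lit 12175213124) (nat_lit 0) (nat_lit 21903887566)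 (nat_lit 7) (nat_lit 5) (nat_lit 9) (nat_lit 4) (nat_lit 7) (nat_lit 4) (nat_lit 344) (nat_lit 260) (nat_lit 176)) (XT.nd (nat_lit 78) (nat_lit 76) (nat_lit 0) (XT.lf (nat_lit 0) (nat_lit 54368709674) (nat_lit 152) (nat_lit 1314165369) (nat_lit 0) (nat_lit 29194622340) (nat_lit 7) (nat_lit 5) (nat_lit 9) (nat_lit 4) (nat_lit 7) (nat_lit 4) (nat_lit 345) (nat_lit 260) (nat_lit 175)) (XT.lf (nat_lit 0) (nat_lit 10405841241) (nat_lit 76) (nat_lit 51792510712) (nat_lit 76) (nat_lit 26599167438) (nat_lit 6) (nat_lit 4) (nat_lit 7) (nat_lit 5) (nat_lit 7) (nat_lit 4) (nat_lit 346) (nat_lit 260) (nat_lit 174))))) (XT.nd (nat_lit 156) (nat_lit 0) (nat_lit 0) (XT.nd (nat_lit 78) (nat_lit 0) (nat_lit 0) (XT.lf (nat_lit 0) (nat_lit 22740604136) (nat_lit 76) (nat_lit 47691985577) (nat_lit 76) (nat_lit 22480303314) (nat_lit 6) (nat_lit 4) (nat_lit 7) (nat_lit 5) (nat_lit 7) (nat_lit 4) (nat_lit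 347) (nat_lit 260) (nat_lit 173)) (XT.lf (nat_lit 0) (nat_lit 35676039559) (nat_lit 76) (nat_lit 43393792511) (nat_lit 76) (nat_lit 18164644543) (nat_lit 6) (nat_lit 4) (nat_lit 7) (nat_lit 5) (nat_lit 7) (nat_lit 4) (nat_lit 348) (nat_lit 260) (nat_lit 172))) (XT.nd (nat_lit 78) (nat_lit 0) (nat_lit 0) (XT.lf (nat_lit 0) (nat_lit 49242946164) (nat_lit 76) (nat_lit 38887697720) (nat_lit 76) (nat_lit 13641915748) (nat_lit 6) (nat_lit 4) (nat_lit 7) (nat_lit 5) (nat_lit 7) (nat_lit 4) (nat_lit 349) (nat_lit 260) (nat_lit 171)) (XT.nd (nat_lit 78) (nat_lit 0) (nat_lit 0) (XT.lf (nat_lit 0) (nat_lit 63473626109) (nat_lit 76) (nat_lit 34162972407) (nat_lit 76) (nat_lit 8901348526) (nat_lit 6) (nat_lit 4) (nat_lit 7) (nat_lit 5) (nat_lit 7) (nat_lit 4) (nat_lit 350) (nat_lit 260) (nat_lit 170)) (XT.lf (nat_lit 0) (nat_lit 78401961967) (nat_lit 76) (nat_lit 29208367227) (nat_lit 76) (nat_lit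 3931655813) (nat_lit 6) (nat_lit 4) (nat_lit 7) (nat_lit 5) (nat_lit 7) (nat_lit 4) (nat_lit 351) (nat_lit 260) (nat_lit 169))))))))
noncomputable def xc108 : XT := (XT.nd (nat_lit 1482) (nat_lit 0) (nat_lit 0) (XT.nd (nat_lit 702) (nat_lit 76) (nat_lit 0) (XT.nd (nat_lit 312) (nat_lit 0) (nat_lit 0) (XT.nd (nat_lit 156) (nat_lit 76) (nat_lit 0) (XT.nd (nat_lit 78) (nat_lit 0) (nat_lit 0) (XT.lf (nat_lit 0) (nat_lit 1238059165) (nat_lit 152) (nat_lit 22753059203) (nat_lit 76) (nat_lit 92804471098) (nat_lit 5) (nat_lit 5) (nat_lit 7) (nat_lit 5) (nat_lit 6) (nat_lit 4) (nat_lit 352) (nat_lit 260) (nat_lit 168)) (XT.lf (nat_lit 0) (nat_lit 6527191765) (nat_lit 152) (nat_lit 11924022209) (nat_lit 76) (nat_lit 103857788844) (nat_lit 5) (nat_lit 5) (nat_lit 7) (nat_lit 5) (nat_lit 6) (nat_lit 4) (nat_lit 353) (nat_lit 260) (nat_lit 167))) (XT.nd (nat_lit 78) (nat_lit 76) (nat_lit 0) (XT.lf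 (nat_lit 0) (nat_lit 12074172699) (nat_lit 152) (nat_lit 565744472) (nat_lit 76) (nat_lit 115458504276) (nat_lit 5) (nat_lit 5) (nat_lit 7) (nat_lit 5) (nat_lit 6) (nat_lit 4) (nat_lit 354) (nat_lit 260) (nat_lit 166)) (XT.lf (nat_lit 0) (nat_lit 11724060686) (nat_lit 76) (nat_lit 6351193822) (nat_lit 152) (nat_lit 116093222903) (nat_lit 4) (nat_lit 5) (nat_lit 5) (nat_lit 5) (nat_lit 6) (nat_lit 4) (nat_lit 355) (nat_lit 260) (nat_lit 165)))) (XT.nd (nat_lit 156) (nat_lit 0) (nat_lit 0) (XT.nd (nat_lit 78) (nat_lit 0) (nat_lit 0) (XT.lf (nat_lit 0) (nat_lit 24383807691) (nat_lit 152) (nat_lit 115909322812) (nat_lit 0) (nat_lit 248538611) (nat_lit 4) (nat_lit 5) (nat_lit 6) (nat_lit 4) (nat_lit 4) (nat_lit 4) (nat_lit 356) (nat_lit 260) (nat_lit 164)) (XT.lf (nat_lit 0) (nat_lit 31105949479) (nat_lit 152) (nat_lit 109162708527) (nat_lit 0) (nat_lit 6959957972) (nat_lit 4) (nat_lit 5)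 (nat_lit 6) (nat_lit 4) (nat_lit 4) (nat_lit 4) (nat_lit 357) (nat_lit 260) (nat_lit 163))) (XT.nd (nat_lit 78) (nat_lit 0) (nat_lit 0) (XT.lf (nat_lit 0) (nat_lit 38158525039) (nat_lit 152) (nat_lit 102089350566) (nat_lit 0) (nat_lit 14002321696) (nat_lit 4) (nat_lit 5) (nat_lit 6) (nat_lit 4) (nat_lit 4) (nat_lit 4) (nat_lit 358) (nat_lit 260) (nat_lit 162)) (XT.nd (nat_lit 78) (nat_lit 0) (nat_lit 0) (XT.lf (nat_lit 0) (nat_lit 45558326216) (nat_lit 152) (nat_lit 94672407603) (nat_lit 0) (nat_lit 21392397315) (nat_lit 4) (nat_lit 5) (nat_lit 6) (nat_lit 4) (nat_lit 4) (nat_lit 4) (nat_lit 359) (nat_lit 260) (nat_lit 161)) (XT.lf (nat_lit 0) (nat_lit 53322971586) (nat_lit 152) (nat_lit 86894220248) (nat_lit 0) (nat_lit 29147780249) (nat_lit 4) (nat_lit 5) (nat_lit 6) (nat_lit 4) (nat_lit 4) (nat_lit 4) (nat_lit 360) (nat_lit 260) (nat_lit 160)))))) (XT.nd (nat_lit 390) (nat_lit 76)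 (nat_lit 0) (XT.nd (nat_lit 156) (nat_lit 0) (nat_lit 0) (XT.nd (nat_lit 78) (nat_lit 0) (nat_lit 0) (XT.lf (nat_lit 0) (nat_lit 61470948399) (nat_lit 152) (nat_lit 78736269009) (nat_lit 0) (nat_lit 37286935694) (nat_lit 4) (nat_lit 5) (nat_lit 6) (nat_lit 4) (nat_lit 4) (nat_lit 4) (nat_lit 361) (nat_lit 260) (nat_lit 159)) (XT.lf (nat_lit 0) (nat_lit 70021656599) (nat_lit 152) (nat_lit 70179130192) (nat_lit 0) (nat_lit 45829242591) (nat_lit 4) (nat_lit 5) (nat_lit 6) (nat_lit 4) (nat_lit 4) (nat_lit 4) (nat_lit 362) (nat_lit 260) (nat_lit 158))) (XT.nd (nat_lit 78) (nat_lit 0) (nat_lit 0) (XT.lf (nat_lit 0) (nat_lit 78995455016) (nat_lit 152) (nat_lit 61202429656) (nat_lit 0) (nat_lit 54795039768) (nat_lit 4) (nat_lit 5) (nat_lit 6) (nat_lit 4) (nat_lit 4) (nat_lit 4) (nat_lit 363) (nat_lit 260) (nat_lit 157)) (XT.nd (nat_lit 78) (nat_lit 0) (nat_lit 0) (XT.lf (nat_lit 0) (nat_lit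 88413709837) (nat_lit 152) (nat_lit 51784794306) (nat_lit 0) (nat_lit 64205674360) (nat_lit 4) (nat_lit 5) (nat_lit 6) (nat_lit 4) (nat_lit 4) (nat_lit 4) (nat_lit 364) (nat_lit 260) (nat_lit 156)) (XT.lf (nat_lit 0) (nat_lit 98298845477) (nat_lit 152) (nat_lit 41903801200) (nat_lit 0) (nat_lit 74083552639) (nat_lit 4) (nat_lit 5) (nat_lit 6) (nat_lit 4) (nat_lit 4) (nat_lit 4) (nat_lit 365) (nat_lit 260) (nat_lit 155))))) (XT.nd (nat_lit 156) (nat_lit 76) (nat_lit 0) (XT.nd (nat_lit 78) (nat_lit 0) (nat_lit 0) (XT.lf (nat_lit 0) (nat_lit 108674397975) (nat_lit 152) (nat_lit 31535924163) (nat_lit 0) (nat_lit 84452193364) (nat_lit 4) (nat_lit 5) (nat_lit 6) (nat_lit 4) (nat_lit 4) (nat_lit 4) (nat_lit 366) (nat_lit 260) (nat_lit 154)) (XT.lf (nat_lit 0) (nat_lit 119565071026) (nat_lit 152) (nat_lit 20656477775) (nat_lit 0) (nat_lit 95336283774) (nat_lit 4) (nat_lit 5) (nat_lit 6) (nat_lit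 4) (nat_lit 4) (nat_lit 4) (nat_lit 367) (nat_lit 260) (nat_lit 153))) (XT.nd (nat_lit 78) (nat_lit 76) (nat_lit 0) (XT.lf (nat_lit 0) (nat_lit 130996794804) (nat_lit 152) (nat_lit 9239558592) (nat_lit 0) (nat_lit 106761738371) (nat_lit 4) (nat_lit 5) (nat_lit 6) (nat_lit 4) (nat_lit 4) (nat_lit 4) (nat_lit 368) (nat_lit 260) (nat_lit 152)) (XT.nd (nat_lit 78) (nat_lit 0) (nat_lit 0) (XT.lf (nat_lit 0) (nat_lit 2832679976) (nat_lit 76) (nat_lit 140208333795) (nat_lit 76) (nat_lit 115967306714) (nat_lit 3) (nat_lit 4) (nat_lit 4) (nat_lit 5) (nat_lit 4) (nat_lit 4) (nat_lit 369) (nat_lit 260) (nat_lit 151)) (XT.lf (nat_lit 0) (nat_lit 15823216901) (nat_lit 76) (nat_lit 140017448982) (nat_lit 76) (nat_lit 115770735568) (nat_lit 3) (nat_lit 4) (nat_lit 4) (nat_lit 5) (nat_lit 4) (nat_lit 4) (nat_lit 370) (nat_lit 260) (nat_lit 150))))))) (XT.nd (nat_lit 780) (nat_lit 0) (nat_lit 0) (XT.nd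 (nat_lit 390) (nat_lit 0) (nat_lit 0) (XT.nd (nat_lit 156) (nat_lit 0) (nat_lit 0) (XT.nd (nat_lit 78) (nat_lit 0) (nat_lit 0) (XT.lf (nat_lit 0) (nat_lit 29457480498) (nat_lit 76) (nat_lit 139819720865) (nat_lit 76) (nat_lit 115567591896) (nat_lit 3) (nat_lit 4) (nat_lit 4) (nat_lit 5) (nat_lit 4) (nat_lit 4) (nat_lit 371) (nat_lit 260) (nat_lit 149)) (XT.lf (nat_lit 0) (nat_lit 43767933297) (nat_lit 76) (nat_lit 139614678661) (nat_lit 76) (nat_lit 115357392022) (nat_lit 3) (nat_lit 4) (nat_lit 4) (nat_lit 5) (nat_lit 4) (nat_lit 4) (nat_lit 372) (nat_lit 260) (nat_lit 148))) (XT.nd (nat_lit 78) (nat_lit 0) (nat_lit 0) (XT.lf (nat_lit 0) (nat_lit 58788647807) (nat_lit 76) (nat_lit 139401834177) (nat_lit 76) (nat_lit 115139635470) (nat_lit 3) (nat_lit 4) (nat_lit 4) (nat_lit 5) (nat_lit 4) (nat_lit 4) (nat_lit 373) (nat_lit 260) (nat_lit 147)) (XT.nd (nat_lit 78) (nat_lit 0) (nat_lit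 0) (XT.lf (nat_lit 0) (nat_lit 74555387633) (nat_lit 76) (nat_lit 139180680639) (nat_lit 76) (nat_lit 114913803772) (nat_lit 3) (nat_lit 4) (nat_lit 4) (nat_lit 5) (nat_lit 4) (nat_lit 4) (nat_lit 374) (nat_lit 260) (nat_lit 146)) (XT.lf (nat_lit 0) (nat_lit 91105692633) (nat_lit 76) (nat_lit 138950691491) (nat_lit 76) (nat_lit 114679359233) (nat_lit 3) (nat_lit 4) (nat_lit 4) (nat_lit 5) (nat_lit 4) (nat_lit 4) (nat_lit 375) (nat_lit 260) (nat_lit 145))))) (XT.nd (nat_lit 156) (nat_lit 0) (nat_lit 0) (XT.nd (nat_lit 78) (nat_lit 0) (nat_lit 0) (XT.lf (nat_lit 0) (nat_lit 108478968293) (nat_lit 76) (nat_lit 138711319139) (nat_lit 76) (nat_lit 114435743653) (nat_lit 3) (nat_lit 4) (nat_lit 4) (nat_lit 5) (nat_lit 4) (nat_lit 4) (nat_lit 376) (nat_lit 260) (nat_lit 144)) (XT.lf (nat_lit 0) (nat_lit 126716579556) (nat_lit 76) (nat_lit 138461993650) (nat_lit 76) (nat_lit 114182376994) (nat_lit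 3) (nat_lit 4) (nat_lit 4) (nat_lit 5) (nat_lit 4) (nat_lit 4) (nat_lit 377) (nat_lit 260) (nat_lit 143))) (XT.nd (nat_lit 78) (nat_lit 0) (nat_lit 0) (XT.lf (nat_lit 0) (nat_lit 145861949306) (nat_lit 76) (nat_lit 138202121392) (nat_lit 76) (nat_lit 113918656003) (nat_lit 3) (nat_lit 4) (nat_lit 4) (nat_lit 5) (nat_lit 4) (nat_lit 4) (nat_lit 378) (nat_lit 260) (nat_lit 142)) (XT.nd (nat_lit 78) (nat_lit 0) (nat_lit 0) (XT.lf (nat_lit 0) (nat_lit 165960661757) (nat_lit 76) (nat_lit 137931083621) (nat_lit 76) (nat_lit 113643952771) (nat_lit 3) (nat_lit 4) (nat_lit 4) (nat_lit 5) (nat_lit 4) (nat_lit 4) (nat_lit 379) (nat_lit 260) (nat_lit 141)) (XT.lf (nat_lit 0) (nat_lit 187060570987) (nat_lit 76) (nat_lit 137648235009) (nat_lit 76) (nat_lit 113357613245) (nat_lit 3) (nat_lit 4) (nat_lit 4) (nat_lit 5) (nat_lit 4) (nat_lit 4) (nat_lit 380) (nat_lit 260) (nat_lit 140)))))) (XT.nd (nat_lit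 390) (nat_lit 0) (nat_lit 0) (XT.nd (nat_lit 156) (nat_lit 0) (nat_lit 0) (XT.nd (nat_lit 78) (nat_lit 0) (nat_lit 0) (XT.lf (nat_lit 0) (nat_lit 209211914873) (nat_lit 76) (nat_lit 137352902107) (nat_lit 76) (nat_lit 113058955662) (nat_lit 3) (nat_lit 4) (nat_lit 4) (nat_lit 5) (nat_lit 4) (nat_lit 4) (nat_lit 381) (nat_lit 260) (nat_lit 139)) (XT.lf (nat_lit 0) (nat_lit 232467434711) (nat_lit 76) (nat_lit 137044381742) (nat_lit 76) (nat_lit 112747268934) (nat_lit 3) (nat_lit 4) (nat_lit 4) (nat_lit 5) (nat_lit 4) (nat_lit 4) (nat_lit 382) (nat_lit 260) (nat_lit 138))) (XT.nd (nat_lit 78) (nat_lit 0) (nat_lit 0) (XT.lf (nat_lit 0) (nat_lit 256882500787) (nat_lit 76) (nat_lit 136721939340) (nat_lit 76) (nat_lit 112421810949) (nat_lit 3) (nat_lit 4) (nat_lit 4) (nat_lit 5) (nat_lit 4) (nat_lit 4) (nat_lit 383) (nat_lit 260) (nat_lit 137)) (XT.nd (nat_lit 78) (nat_lit 0) (nat_lit 0) (XT.lf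 (nat_lit 0) (nat_lit 282515244210) (nat_lit 76) (nat_lit 136384807183) (nat_lit 76) (nat_lit 112081806807) (nat_lit 3) (nat_lit 4) (nat_lit 4) (nat_lit 5) (nat_lit 4) (nat_lit 4) (nat_lit 384) (nat_lit 260) (nat_lit 136)) (XT.lf (nat_lit 0) (nat_lit 309426695321) (nat_lit 76) (nat_lit 136032182574) (nat_lit 76) (nat_lit 111726446975) (nat_lit 3) (nat_lit 4) (nat_lit 4) (nat_lit 5) (nat_lit 4) (nat_lit 4) (nat_lit 385) (nat_lit 260) (nat_lit 135))))) (XT.nd (nat_lit 30966) (nat_lit 0) (nat_lit 9120) (XT.nd (nat_lit 30888) (nat_lit 0) (nat_lit 9576) (XT.lf (nat_lit 0) (nat_lit 337680929005) (nat_lit 76) (nat_lit 135663225932) (nat_lit 76) (nat_lit 111354885358) (nat_lit 3) (nat_lit 4) (nat_lit 4) (nat_lit 5) (nat_lit 4) (nat_lit 4) (nat_lit 386) (nat_lit 260) (nat_lit 134)) (XT.lf (nat_lit 0) (nat_lit 1419504009) (nat_lit 0) (nat_lit 1419504009) (nat_lit 76) (nat_lit 387512116) (nat_lit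 129) (nat_lit 5) (nat_lit 129) (nat_lit 3) (nat_lit 130) (nat_lit 0) (nat_lit 261) (nat_lit 261) (nat_lit 258))) (XT.nd (nat_lit 78) (nat_lit 228) (nat_lit 0) (XT.lf (nat_lit 0) (nat_lit 1902138207) (nat_lit 228) (nat_lit 667696678) (nat_lit 228) (nat_lit 3899471664) (nat_lit 126) (nat_lit 3) (nat_lit 129) (nat_lit 3) (nat_lit 129) (nat_lit 5) (nat_lit 262) (nat_lit 261) (nat_lit 257)) (XT.nd (nat_lit 78) (nat_lit 228) (nat_lit 0) (XT.lf (nat_lit 76) (nat_lit 2399907444) (nat_lit 0) (nat_lit 2153690161) (nat_lit 228) (nat_lit 1939605138) (nat_lit 127) (nat_lit 5) (nat_lit 126) (nat_lit 3) (nat_lit 129) (nat_lit 5) (nat_lit 263) (nat_lit 261) (nat_lit 256)) (XT.lf (nat_lit 0) (nat_lit 636970452) (nat_lit 228) (nat_lit 981580722) (nat_lit 304) (nat_lit 4907614010) (nat_lit 123) (nat_lit 5) (nat_lit 126) (nat_lit 3) (nat_lit 127) (nat_lit 5) (nat_lit 264) (nat_lit 261) (nat_lit 255))))))))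
noncomputable def xc109 : XT := (XT.nd (nat_lit 1482) (nat_lit 2584) (nat_lit 0) (XT.nd (nat_lit 702) (nat_lit 3040) (nat_lit 0) (XT.nd (nat_lit 312) (nat_lit 1292) (nat_lit 0) (XT.nd (nat_lit 156) (nat_lit 228) (nat_lit 0) (XT.nd (nat_lit 78) (nat_lit 0) (nat_lit 0) (XT.lf (nat_lit 76) (nat_lit 2235031508) (nat_lit 0) (nat_lit 917402553) (nat_lit 304) (nat_lit 3413660138) (nat_lit 124) (nat_lit 5) (nat_lit 123) (nat_lit 5) (nat_lit 127) (nat_lit 5) (nat_lit 265) (nat_lit 261) (nat_lit 254)) (XT.lf (nat_lit 76) (nat_lit 5557584868) (nat_lit 0) (nat_lit 99270572) (nat_lit 304) (nat_lit 958643498) (nat_lit 124) (nat_lit 5) (nat_lit 123) (nat_lit 5) (nat_lit 127) (nat_lit 5) (nat_lit 266) (nat_lit 261) (nat_lit 253))) (XT.nd (nat_lit 78) (nat_lit 0) (nat_lit 0) (XT.lf (nat_lit 0) (nat_lit 1468485504) (nat_lit 304) (nat_lit 4347904403) (nat_lit 76) (nat_lit 855240014) (nat_lit 120) (nat_lit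 5) (nat_lit 124) (nat_lit 5) (nat_lit 121) (nat_lit 5) (nat_lit 267) (nat_lit 261) (nat_lit 252)) (XT.lf (nat_lit 0) (nat_lit 3862042369) (nat_lit 304) (nat_lit 933492408) (nat_lit 76) (nat_lit 1940934060) (nat_lit 120) (nat_lit 5) (nat_lit 124) (nat_lit 5) (nat_lit 121) (nat_lit 5) (nat_lit 268) (nat_lit 261) (nat_lit 251)))) (XT.nd (nat_lit 156) (nat_lit 912) (nat_lit 0) (XT.nd (nat_lit 78) (nat_lit 76) (nat_lit 0) (XT.lf (nat_lit 0) (nat_lit 2643526021) (nat_lit 304) (nat_lit 3637262702) (nat_lit 380) (nat_lit 529010690) (nat_lit 116) (nat_lit 5) (nat_lit 120) (nat_lit 5) (nat_lit 121) (nat_lit 5) (nat_lit 269) (nat_lit 261) (nat_lit 250)) (XT.lf (nat_lit 0) (nat_lit 1754506542) (nat_lit 380) (nat_lit 580764718) (nat_lit 76) (nat_lit 4556356194) (nat_lit 115) (nat_lit 5) (nat_lit 120) (nat_lit 5) (nat_lit 116) (nat_lit 5) (nat_lit 270) (nat_lit 261) (nat_lit 249))) (XT.nd (nat_lit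 78) (nat_lit 532) (nat_lit 0) (XT.lf (nat_lit 0) (nat_lit 3185775103) (nat_lit 380) (nat_lit 871387143) (nat_lit 456) (nat_lit 2924267767) (nat_lit 110) (nat_lit 5) (nat_lit 115) (nat_lit 5) (nat_lit 116) (nat_lit 5) (nat_lit 271) (nat_lit 261) (nat_lit 248)) (XT.nd (nat_lit 78) (nat_lit 532) (nat_lit 0) (XT.lf (nat_lit 0) (nat_lit 6373488440) (nat_lit 456) (nat_lit 22095221) (nat_lit 76) (nat_lit 685644318) (nat_lit 110) (nat_lit 5) (nat_lit 116) (nat_lit 5) (nat_lit 111) (nat_lit 5) (nat_lit 272) (nat_lit 261) (nat_lit 247)) (XT.lf (nat_lit 0) (nat_lit 1526787860) (nat_lit 532) (nat_lit 3252934008) (nat_lit 76) (nat_lit 2407471094) (nat_lit 103) (nat_lit 5) (nat_lit 110) (nat_lit 5) (nat_lit 104) (nat_lit 5) (nat_lit 273) (nat_lit 261) (nat_lit 246)))))) (XT.nd (nat_lit 390) (nat_lit 1140) (nat_lit 0) (XT.nd (nat_lit 156) (nat_lit 1368) (nat_lit 0) (XT.nd (nat_lit 78) (nat_lit 0)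 (nat_lit 0) (XT.lf (nat_lit 0) (nat_lit 706622184) (nat_lit 532) (nat_lit 3039888413) (nat_lit 608) (nat_lit 3556876120) (nat_lit 96) (nat_lit 5) (nat_lit 103) (nat_lit 5) (nat_lit 104) (nat_lit 5) (nat_lit 274) (nat_lit 261) (nat_lit 245)) (XT.lf (nat_lit 0) (nat_lit 4883479158) (nat_lit 532) (nat_lit 1138645906) (nat_lit 608) (nat_lit 1406375358) (nat_lit 96) (nat_lit 5) (nat_lit 103) (nat_lit 5) (nat_lit 104) (nat_lit 5) (nat_lit 275) (nat_lit 261) (nat_lit 244))) (XT.nd (nat_lit 78) (nat_lit 684) (nat_lit 0) (XT.lf (nat_lit 0) (nat_lit 757511946) (nat_lit 684) (nat_lit 5921833309) (nat_lit 76) (nat_lit 883526229) (nat_lit 87) (nat_lit 5) (nat_lit 96) (nat_lit 5) (nat_lit 88) (nat_lit 5) (nat_lit 276) (nat_lit 261) (nat_lit 243)) (XT.nd (nat_lit 78) (nat_lit 684) (nat_lit 0) (XT.lf (nat_lit 0) (nat_lit 2941668748) (nat_lit 684) (nat_lit 1716647300) (nat_lit 76) (nat_lit 3046832489)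 (nat_lit 87) (nat_lit 5) (nat_lit 96) (nat_lit 5) (nat_lit 88) (nat_lit 5) (nat_lit 277) (nat_lit 261) (nat_lit 242)) (XT.lf (nat_lit 0) (nat_lit 2692428731) (nat_lit 684) (nat_lit 2486416727) (nat_lit 760) (nat_lit 2678795886) (nat_lit 78) (nat_lit 5) (nat_lit 87) (nat_lit 5) (nat_lit 88) (nat_lit 5) (nat_lit 278) (nat_lit 261) (nat_lit 241))))) (XT.nd (nat_lit 156) (nat_lit 684) (nat_lit 0) (XT.nd (nat_lit 78) (nat_lit 456) (nat_lit 0) (XT.lf (nat_lit 0) (nat_lit 7290505513) (nat_lit 684) (nat_lit 171479237) (nat_lit 760) (nat_lit 559347430) (nat_lit 78) (nat_lit 5) (nat_lit 87) (nat_lit 5) (nat_lit 88) (nat_lit 5) (nat_lit 279) (nat_lit 261) (nat_lit 240)) (XT.lf (nat_lit 0) (nat_lit 1618742503) (nat_lit 456) (nat_lit 4295235606) (nat_lit 76) (nat_lit 2277881831) (nat_lit 72) (nat_lit 5) (nat_lit 78) (nat_lit 5) (nat_lit 73) (nat_lit 5) (nat_lit 280) (nat_lit 261) (nat_lit 239)))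 (XT.nd (nat_lit 78) (nat_lit 304) (nat_lit 0) (XT.lf (nat_lit 0) (nat_lit 315155109) (nat_lit 380) (nat_lit 3502926388) (nat_lit 456) (nat_lit 4556057639) (nat_lit 67) (nat_lit 5) (nat_lit 72) (nat_lit 5) (nat_lit 73) (nat_lit 5) (nat_lit 281) (nat_lit 261) (nat_lit 238)) (XT.nd (nat_lit 78) (nat_lit 304) (nat_lit 0) (XT.lf (nat_lit 0) (nat_lit 5213417201) (nat_lit 380) (nat_lit 900356421) (nat_lit 456) (nat_lit 2452668547) (nat_lit 67) (nat_lit 5) (nat_lit 72) (nat_lit 5) (nat_lit 73) (nat_lit 5) (nat_lit 282) (nat_lit 261) (nat_lit 237)) (XT.lf (nat_lit 0) (nat_lit 1516512889) (nat_lit 304) (nat_lit 6977698447) (nat_lit 380) (nat_lit 275869241) (nat_lit 63) (nat_lit 5) (nat_lit 67) (nat_lit 5) (nat_lit 68) (nat_lit 5) (nat_lit 283) (nat_lit 261) (nat_lit 236))))))) (XT.nd (nat_lit 780) (nat_lit 1064) (nat_lit 0) (XT.nd (nat_lit 390) (nat_lit 836) (nat_lit 0) (XT.nd (nat_lit 156) (nat_lit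 304) (nat_lit 0) (XT.nd (nat_lit 78) (nat_lit 304) (nat_lit 0) (XT.lf (nat_lit 0) (nat_lit 1936599514) (nat_lit 380) (nat_lit 2375251202) (nat_lit 76) (nat_lit 4671121527) (nat_lit 62) (nat_lit 5) (nat_lit 67) (nat_lit 5) (nat_lit 63) (nat_lit 5) (nat_lit 284) (nat_lit 261) (nat_lit 235)) (XT.lf (nat_lit 0) (nat_lit 2741580000) (nat_lit 304) (nat_lit 1474195611) (nat_lit 380) (nat_lit 4992427563) (nat_lit 58) (nat_lit 5) (nat_lit 62) (nat_lit 5) (nat_lit 63) (nat_lit 5) (nat_lit 285) (nat_lit 261) (nat_lit 234))) (XT.nd (nat_lit 78) (nat_lit 304) (nat_lit 0) (XT.lf (nat_lit 0) (nat_lit 6597987902) (nat_lit 380) (nat_lit 1361074333) (nat_lit 76) (nat_lit 1486359122) (nat_lit 58) (nat_lit 5) (nat_lit 63) (nat_lit 5) (nat_lit 59) (nat_lit 5) (nat_lit 286) (nat_lit 261) (nat_lit 233)) (XT.nd (nat_lit 78) (nat_lit 76) (nat_lit 0) (XT.lf (nat_lit 0) (nat_lit 4017558390) (nat_lit 228) (nat_lit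 5096920432) (nat_lit 304) (nat_lit 579434248) (nat_lit 55) (nat_lit 5) (nat_lit 58) (nat_lit 5) (nat_lit 59) (nat_lit 5) (nat_lit 287) (nat_lit 261) (nat_lit 232)) (XT.lf (nat_lit 0) (nat_lit 1696780333) (nat_lit 304) (nat_lit 357529335) (nat_lit 76) (nat_lit 7901643659) (nat_lit 54) (nat_lit 5) (nat_lit 58) (nat_lit 5) (nat_lit 55) (nat_lit 5) (nat_lit 288) (nat_lit 261) (nat_lit 231))))) (XT.nd (nat_lit 156) (nat_lit 304) (nat_lit 0) (XT.nd (nat_lit 78) (nat_lit 228) (nat_lit 0) (XT.lf (nat_lit 0) (nat_lit 4101650865) (nat_lit 380) (nat_lit 4945116974) (nat_lit 76) (nat_lit 1182284645) (nat_lit 50) (nat_lit 5) (nat_lit 55) (nat_lit 5) (nat_lit 51) (nat_lit 5) (nat_lit 289) (nat_lit 261) (nat_lit 230)) (XT.lf (nat_lit 0) (nat_lit 604600844) (nat_lit 228) (nat_lit 6005549530) (nat_lit 304) (nat_lit 3906627654) (nat_lit 47) (nat_lit 5) (nat_lit 50) (nat_lit 5) (nat_lit 51) (nat_lit 5)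 (nat_lit 290) (nat_lit 261) (nat_lit 229))) (XT.nd (nat_lit 78) (nat_lit 304) (nat_lit 0) (XT.lf (nat_lit 0) (nat_lit 6519508514) (nat_lit 228) (nat_lit 2744255080) (nat_lit 304) (nat_lit 1554275818) (nat_lit 47) (nat_lit 5) (nat_lit 50) (nat_lit 5) (nat_lit 51) (nat_lit 5) (nat_lit 291) (nat_lit 261) (nat_lit 228)) (XT.nd (nat_lit 78) (nat_lit 0) (nat_lit 0) (XT.lf (nat_lit 0) (nat_lit 859372740) (nat_lit 304) (nat_lit 9597684538) (nat_lit 76) (nat_lit 678063950) (nat_lit 43) (nat_lit 5) (nat_lit 47) (nat_lit 5) (nat_lit 44) (nat_lit 5) (nat_lit 292) (nat_lit 261) (nat_lit 227)) (XT.lf (nat_lit 0) (nat_lit 3399694566) (nat_lit 304) (nat_lit 3805290682) (nat_lit 76) (nat_lit 4259002408) (nat_lit 43) (nat_lit 5) (nat_lit 47) (nat_lit 5) (nat_lit 44) (nat_lit 5) (nat_lit 293) (nat_lit 261) (nat_lit 226)))))) (XT.nd (nat_lit 390) (nat_lit 456) (nat_lit 0) (XT.nd (nat_lit 156) (nat_lit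 456) (nat_lit 0) (XT.nd (nat_lit 78) (nat_lit 0) (nat_lit 0) (XT.lf (nat_lit 0) (nat_lit 2269700549) (nat_lit 152) (nat_lit 3774907183) (nat_lit 228) (nat_lit 5765921155) (nat_lit 41) (nat_lit 5) (nat_lit 43) (nat_lit 5) (nat_lit 44) (nat_lit 5) (nat_lit 294) (nat_lit 261) (nat_lit 225)) (XT.lf (nat_lit 0) (nat_lit 8702170484) (nat_lit 152) (nat_lit 127710904) (nat_lit 228) (nat_lit 3344215042) (nat_lit 41) (nat_lit 5) (nat_lit 43) (nat_lit 5) (nat_lit 44) (nat_lit 5) (nat_lit 295) (nat_lit 261) (nat_lit 224))) (XT.nd (nat_lit 78) (nat_lit 228) (nat_lit 0) (XT.lf (nat_lit 0) (nat_lit 2856962080) (nat_lit 228) (nat_lit 8945882861) (nat_lit 304) (nat_lit 750676091) (nat_lit 38) (nat_lit 5) (nat_lit 41) (nat_lit 5) (nat_lit 42) (nat_lit 5) (nat_lit 296) (nat_lit 261) (nat_lit 223)) (XT.nd (nat_lit 78) (nat_lit 152) (nat_lit 0) (XT.lf (nat_lit 0) (nat_lit 1917718895) (nat_lit 304) (nat_lit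 3437720813) (nat_lit 76) (nat_lit 7594612375) (nat_lit 37) (nat_lit 5) (nat_lit 41) (nat_lit 5) (nat_lit 38) (nat_lit 5) (nat_lit 297) (nat_lit 261) (nat_lit 222)) (XT.lf (nat_lit 0) (nat_lit 3148504480) (nat_lit 152) (nat_lit 1543964587) (nat_lit 228) (nat_lit 8673503535) (nat_lit 35) (nat_lit 5) (nat_lit 37) (nat_lit 5) (nat_lit 38) (nat_lit 5) (nat_lit 298) (nat_lit 261) (nat_lit 221))))) (XT.nd (nat_lit 156) (nat_lit 228) (nat_lit 0) (XT.nd (nat_lit 78) (nat_lit 228) (nat_lit 0) (XT.lf (nat_lit 0) (nat_lit 7653444539) (nat_lit 228) (nat_lit 3730752119) (nat_lit 76) (nat_lit 2416200365) (nat_lit 35) (nat_lit 5) (nat_lit 38) (nat_lit 5) (nat_lit 36) (nat_lit 5) (nat_lit 299) (nat_lit 261) (nat_lit 220)) (XT.lf (nat_lit 0) (nat_lit 3082177839) (nat_lit 228) (nat_lit 7706043581) (nat_lit 304) (nat_lit 3467111959) (nat_lit 32) (nat_lit 5) (nat_lit 35) (nat_lit 5) (nat_lit 36) (nat_lit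 5) (nat_lit 300) (nat_lit 261) (nat_lit 219))) (XT.nd (nat_lit 78) (nat_lit 228) (nat_lit 0) (XT.lf (nat_lit 0) (nat_lit 10294970273) (nat_lit 228) (nat_lit 3801442039) (nat_lit 304) (nat_lit 635845098) (nat_lit 32) (nat_lit 5) (nat_lit 35) (nat_lit 5) (nat_lit 36) (nat_lit 5) (nat_lit 301) (nat_lit 261) (nat_lit 218)) (XT.nd (nat_lit 78) (nat_lit 0) (nat_lit 0) (XT.lf (nat_lit 0) (nat_lit 2263472286) (nat_lit 228) (nat_lit 12623009355) (nat_lit 76) (nat_lit 344725074) (nat_lit 29) (nat_lit 5) (nat_lit 32) (nat_lit 5) (nat_lit 30) (nat_lit 5) (nat_lit 302) (nat_lit 261) (nat_lit 217)) (XT.lf (nat_lit 0) (nat_lit 5380726885) (nat_lit 228) (nat_lit 5734622892) (nat_lit 76) (nat_lit 4634579982) (nat_lit 29) (nat_lit 5) (nat_lit 32) (nat_lit 5) (nat_lit 30) (nat_lit 5) (nat_lit 303) (nat_lit 261) (nat_lit 216))))))))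
noncomputable def xc110 : XT := (XT.nd (nat_lit 1482) (nat_lit 532) (nat_lit 0) (XT.nd (nat_lit 702) (nat_lit 532) (nat_lit 0) (XT.nd (nat_lit 312) (nat_lit 228) (nat_lit 0) (XT.nd (nat_lit 156) (nat_lit 228) (nat_lit 0) (XT.nd (nat_lit 78) (nat_lit 0) (nat_lit 0) (XT.lf (nat_lit 0) (nat_lit 1479526383) (nat_lit 152) (nat_lit 7155171342) (nat_lit 228) (nat_lit 7660909943) (nat_lit 27) (nat_lit 5) (nat_lit 29) (nat_lit 5) (nat_lit 30) (nat_lit 5) (nat_lit 304) (nat_lit 261) (nat_lit 215)) (XT.lf (nat_lit 0) (nat_lit 9188530375) (nat_lit 152) (nat_lit 2918707032) (nat_lit 228) (nat_lit 4758597014) (nat_lit 27) (nat_lit 5) (nat_lit 29) (nat_lit 5) (nat_lit 30) (nat_lit 5) (nat_lit 305) (nat_lit 261) (nat_lit 214))) (XT.nd (nat_lit 78) (nat_lit 228) (nat_lit 0) (XT.lf (nat_lit 0) (nat_lit 15737648635) (nat_lit 228) (nat_lit 268989746) (nat_lit 76) (nat_lit 1458777581) (nat_lit 27) (nat_lit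 5) (nat_lit 30) (nat_lit 5) (nat_lit 28) (nat_lit 4) (nat_lit 306) (nat_lit 261) (nat_lit 213)) (XT.lf (nat_lit 0) (nat_lit 1539594657) (nat_lit 228) (nat_lit 10467267736) (nat_lit 76) (nat_lit 6080451809) (nat_lit 24) (nat_lit 5) (nat_lit 27) (nat_lit 5) (nat_lit 25) (nat_lit 5) (nat_lit 307) (nat_lit 261) (nat_lit 212)))) (XT.nd (nat_lit 156) (nat_lit 76) (nat_lit 0) (XT.nd (nat_lit 78) (nat_lit 152) (nat_lit 0) (XT.lf (nat_lit 0) (nat_lit 4879356364) (nat_lit 228) (nat_lit 2916414479) (nat_lit 76) (nat_lit 10944813610) (nat_lit 24) (nat_lit 5) (nat_lit 27) (nat_lit 5) (nat_lit 25) (nat_lit 5) (nat_lit 308) (nat_lit 261) (nat_lit 211)) (XT.lf (nat_lit 0) (nat_lit 5117871607) (nat_lit 152) (nat_lit 3312391992) (nat_lit 228) (nat_lit 10994092551) (nat_lit 22) (nat_lit 5) (nat_lit 24) (nat_lit 5) (nat_lit 25) (nat_lit 5) (nat_lit 309) (nat_lit 261) (nat_lit 210))) (XT.nd (nat_lit 78)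 (nat_lit 76) (nat_lit 0) (XT.lf (nat_lit 0) (nat_lit 12195420624) (nat_lit 228) (nat_lit 6565741291) (nat_lit 76) (nat_lit 1379362925) (nat_lit 22) (nat_lit 5) (nat_lit 25) (nat_lit 5) (nat_lit 23) (nat_lit 4) (nat_lit 310) (nat_lit 261) (nat_lit 209)) (XT.nd (nat_lit 78) (nat_lit 0) (nat_lit 0) (XT.lf (nat_lit 0) (nat_lit 1500106837) (nat_lit 76) (nat_lit 14692852523) (nat_lit 152) (nat_lit 4697377958) (nat_lit 21) (nat_lit 5) (nat_lit 22) (nat_lit 5) (nat_lit 23) (nat_lit 4) (nat_lit 311) (nat_lit 261) (nat_lit 208)) (XT.lf (nat_lit 0) (nat_lit 10142448994) (nat_lit 76) (nat_lit 10326266718) (nat_lit 152) (nat_lit 1205047246) (nat_lit 21) (nat_lit 5) (nat_lit 22) (nat_lit 5) (nat_lit 23) (nat_lit 4) (nat_lit 312) (nat_lit 261) (nat_lit 207)))))) (XT.nd (nat_lit 390) (nat_lit 228) (nat_lit 0) (XT.nd (nat_lit 156) (nat_lit 76) (nat_lit 0) (XT.nd (nat_lit 78) (nat_lit 152) (nat_lit 0)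 (XT.lf (nat_lit 0) (nat_lit 2351265530) (nat_lit 152) (nat_lit 3371116522) (nat_lit 76) (nat_lit 16773683776) (nat_lit 20) (nat_lit 5) (nat_lit 22) (nat_lit 5) (nat_lit 21) (nat_lit 5) (nat_lit 313) (nat_lit 261) (nat_lit 206)) (XT.lf (nat_lit 0) (nat_lit 5296152794) (nat_lit 152) (nat_lit 801109262) (nat_lit 228) (nat_lit 17258649944) (nat_lit 18) (nat_lit 5) (nat_lit 20) (nat_lit 5) (nat_lit 21) (nat_lit 5) (nat_lit 314) (nat_lit 261) (nat_lit 205))) (XT.nd (nat_lit 78) (nat_lit 76) (nat_lit 0) (XT.lf (nat_lit 0) (nat_lit 10126782231) (nat_lit 228) (nat_lit 9862252939) (nat_lit 76) (nat_lit 4264936675) (nat_lit 18) (nat_lit 5) (nat_lit 21) (nat_lit 5) (nat_lit 19) (nat_lit 4) (nat_lit 315) (nat_lit 261) (nat_lit 204)) (XT.nd (nat_lit 78) (nat_lit 76) (nat_lit 0) (XT.lf (nat_lit 0) (nat_lit 14342365986) (nat_lit 228) (nat_lit 1316647338) (nat_lit 76) (nat_lit 9538722984) (nat_lit 18)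 (nat_lit 5) (nat_lit 21) (nat_lit 5) (nat_lit 19) (nat_lit 4) (nat_lit 316) (nat_lit 261) (nat_lit 203)) (XT.lf (nat_lit 0) (nat_lit 7861529888) (nat_lit 76) (nat_lit 11002753489) (nat_lit 152) (nat_lit 7319657424) (nat_lit 17) (nat_lit 5) (nat_lit 18) (nat_lit 5) (nat_lit 19) (nat_lit 4) (nat_lit 317) (nat_lit 261) (nat_lit 202))))) (XT.nd (nat_lit 156) (nat_lit 152) (nat_lit 0) (XT.nd (nat_lit 78) (nat_lit 76) (nat_lit 0) (XT.lf (nat_lit 0) (nat_lit 17498747497) (nat_lit 76) (nat_lit 6109244086) (nat_lit 152) (nat_lit 3611707310) (nat_lit 17) (nat_lit 5) (nat_lit 18) (nat_lit 5) (nat_lit 19) (nat_lit 4) (nat_lit 318) (nat_lit 261) (nat_lit 201)) (XT.lf (nat_lit 0) (nat_lit 246848488) (nat_lit 152) (nat_lit 738102977) (nat_lit 76) (nat_lit 27323387951) (nat_lit 16) (nat_lit 5) (nat_lit 18) (nat_lit 5) (nat_lit 17) (nat_lit 5) (nat_lit 319) (nat_lit 261) (nat_lit 200))) (XT.nd (nat_lit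 78) (nat_lit 0) (nat_lit 0) (XT.lf (nat_lit 0) (nat_lit 4362587989) (nat_lit 228) (nat_lit 20637759734) (nat_lit 76) (nat_lit 4438846470) (nat_lit 14) (nat_lit 5) (nat_lit 17) (nat_lit 5) (nat_lit 15) (nat_lit 4) (nat_lit 320) (nat_lit 261) (nat_lit 199)) (XT.nd (nat_lit 78) (nat_lit 0) (nat_lit 0) (XT.lf (nat_lit 0) (nat_lit 8688664611) (nat_lit 228) (nat_lit 11841193867) (nat_lit 76) (nat_lit 10096528859) (nat_lit 14) (nat_lit 5) (nat_lit 17) (nat_lit 5) (nat_lit 15) (nat_lit 4) (nat_lit 321) (nat_lit 261) (nat_lit 198)) (XT.lf (nat_lit 0) (nat_lit 13207900635) (nat_lit 228) (nat_lit 2645227837) (nat_lit 76) (nat_lit 16020990924) (nat_lit 14) (nat_lit 5) (nat_lit 17) (nat_lit 5) (nat_lit 15) (nat_lit 4) (nat_lit 322) (nat_lit 261) (nat_lit 197))))))) (XT.nd (nat_lit 780) (nat_lit 228) (nat_lit 0) (XT.nd (nat_lit 390) (nat_lit 76) (nat_lit 0) (XT.nd (nat_lit 156) (nat_lit 152) (nat_lit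 0) (XT.nd (nat_lit 78) (nat_lit 0) (nat_lit 0) (XT.lf (nat_lit 0) (nat_lit 7202560428) (nat_lit 76) (nat_lit 10840947871) (nat_lit 152) (nat_lit 15136230252) (nat_lit 13) (nat_lit 5) (nat_lit 14) (nat_lit 5) (nat_lit 15) (nat_lit 4) (nat_lit 323) (nat_lit 261) (nat_lit 196)) (XT.lf (nat_lit 0) (nat_lit 17596692480) (nat_lit 76) (nat_lit 5547417956) (nat_lit 152) (nat_lit 11405387509) (nat_lit 13) (nat_lit 5) (nat_lit 14) (nat_lit 5) (nat_lit 15) (nat_lit 4) (nat_lit 324) (nat_lit 261) (nat_lit 195))) (XT.nd (nat_lit 78) (nat_lit 152) (nat_lit 0) (XT.lf (nat_lit 0) (nat_lit 28474453073) (nat_lit 76) (nat_lit 4733299) (nat_lit 152) (nat_lit 7509605786) (nat_lit 13) (nat_lit 5) (nat_lit 14) (nat_lit 5) (nat_lit 15) (nat_lit 4) (nat_lit 325) (nat_lit 261) (nat_lit 194)) (XT.nd (nat_lit 78) (nat_lit 76) (nat_lit 0) (XT.lf (nat_lit 0) (nat_lit 2345195471) (nat_lit 76) (nat_lit 31843417255)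 (nat_lit 76) (nat_lit 3306076651) (nat_lit 12) (nat_lit 4) (nat_lit 13) (nat_lit 5) (nat_lit 13) (nat_lit 4) (nat_lit 326) (nat_lit 261) (nat_lit 193)) (XT.lf (nat_lit 0) (nat_lit 1181861293) (nat_lit 152) (nat_lit 26165616692) (nat_lit 76) (nat_lit 11722071087) (nat_lit 11) (nat_lit 5) (nat_lit 13) (nat_lit 5) (nat_lit 12) (nat_lit 4) (nat_lit 327) (nat_lit 261) (nat_lit 192))))) (XT.nd (nat_lit 156) (nat_lit 76) (nat_lit 0) (XT.nd (nat_lit 78) (nat_lit 0) (nat_lit 0) (XT.lf (nat_lit 0) (nat_lit 5764290873) (nat_lit 152) (nat_lit 16820294853) (nat_lit 76) (nat_lit 18136811755) (nat_lit 11) (nat_lit 5) (nat_lit 13) (nat_lit 5) (nat_lit 12) (nat_lit 4) (nat_lit 328) (nat_lit 261) (nat_lit 191)) (XT.lf (nat_lit 0) (nat_lit 10557937734) (nat_lit 152) (nat_lit 7039660503) (nat_lit 76) (nat_lit 24859150199) (nat_lit 11) (nat_lit 5) (nat_lit 13) (nat_lit 5) (nat_lit 12) (nat_lit 4) (nat_lit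 329) (nat_lit 261) (nat_lit 190))) (XT.nd (nat_lit 78) (nat_lit 0) (nat_lit 0) (XT.lf (nat_lit 0) (nat_lit 3305365934) (nat_lit 76) (nat_lit 12320455411) (nat_lit 152) (nat_lit 28651332075) (nat_lit 10) (nat_lit 5) (nat_lit 11) (nat_lit 5) (nat_lit 12) (nat_lit 4) (nat_lit 330) (nat_lit 261) (nat_lit 189)) (XT.nd (nat_lit 78) (nat_lit 0) (nat_lit 0) (XT.lf (nat_lit 0) (nat_lit 14382103667) (nat_lit 76) (nat_lit 6667508426) (nat_lit 152) (nat_lit 25133854440) (nat_lit 10) (nat_lit 5) (nat_lit 11) (nat_lit 5) (nat_lit 12) (nat_lit 4) (nat_lit 331) (nat_lit 261) (nat_lit 188)) (XT.lf (nat_lit 0) (nat_lit 25984162912) (nat_lit 76) (nat_lit 744517942) (nat_lit 152) (nat_lit 21457222907) (nat_lit 10) (nat_lit 5) (nat_lit 11) (nat_lit 5) (nat_lit 12) (nat_lit 4) (nat_lit 332) (nat_lit 261) (nat_lit 187)))))) (XT.nd (nat_lit 390) (nat_lit 76) (nat_lit 0) (XT.nd (nat_lit 156) (nat_lit 152) (nat_lit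 0) (XT.nd (nat_lit 78) (nat_lit 0) (nat_lit 0) (XT.lf (nat_lit 0) (nat_lit 32761836003) (nat_lit 152) (nat_lit 12235351975) (nat_lit 0) (nat_lit 5287780495) (nat_lit 10) (nat_lit 5) (nat_lit 12) (nat_lit 4) (nat_lit 10) (nat_lit 4) (nat_lit 333) (nat_lit 261) (nat_lit 186)) (XT.lf (nat_lit 0) (nat_lit 39094243413) (nat_lit 152) (nat_lit 1809267964) (nat_lit 0) (nat_lit 11585607004) (nat_lit 10) (nat_lit 5) (nat_lit 12) (nat_lit 4) (nat_lit 10) (nat_lit 4) (nat_lit 334) (nat_lit 261) (nat_lit 185))) (XT.nd (nat_lit 78) (nat_lit 76) (nat_lit 0) (XT.lf (nat_lit 0) (nat_lit 9414274791) (nat_lit 76) (nat_lit 36462064655) (nat_lit 76) (nat_lit 8920494055) (nat_lit 9) (nat_lit 4) (nat_lit 10) (nat_lit 5) (nat_lit 10) (nat_lit 4) (nat_lit 335) (nat_lit 261) (nat_lit 184)) (XT.nd (nat_lit 78) (nat_lit 76) (nat_lit 0) (XT.lf (nat_lit 0) (nat_lit 21237053162) (nat_lit 76) (nat_lit 31777489105)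 (nat_lit 76) (nat_lit 4204552608) (nat_lit 9) (nat_lit 4) (nat_lit 10) (nat_lit 5) (nat_lit 10) (nat_lit 4) (nat_lit 336) (nat_lit 261) (nat_lit 183)) (XT.lf (nat_lit 0) (nat_lit 710059210) (nat_lit 152) (nat_lit 26147187396) (nat_lit 76) (nat_lit 32905309646) (nat_lit 8) (nat_lit 5) (nat_lit 10) (nat_lit 5) (nat_lit 9) (nat_lit 4) (nat_lit 337) (nat_lit 261) (nat_lit 182))))) (XT.nd (nat_lit 156) (nat_lit 76) (nat_lit 0) (XT.nd (nat_lit 78) (nat_lit 0) (nat_lit 0) (XT.lf (nat_lit 0) (nat_lit 5716518144) (nat_lit 152) (nat_lit 15912396375) (nat_lit 76) (nat_lit 40801468129) (nat_lit 8) (nat_lit 5) (nat_lit 10) (nat_lit 5) (nat_lit 9) (nat_lit 4) (nat_lit 338) (nat_lit 261) (nat_lit 181)) (XT.lf (nat_lit 0) (nat_lit 10961316275) (nat_lit 152) (nat_lit 5187655248) (nat_lit 76) (nat_lit 49083236747) (nat_lit 8) (nat_lit 5) (nat_lit 10) (nat_lit 5) (nat_lit 9) (nat_lit 4) (nat_lit 339)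 (nat_lit 261) (nat_lit 180))) (XT.nd (nat_lit 78) (nat_lit 0) (nat_lit 0) (XT.lf (nat_lit 0) (nat_lit 6252696415) (nat_lit 76) (nat_lit 10301866915) (nat_lit 152) (nat_lit 51615259696) (nat_lit 7) (nat_lit 5) (nat_lit 8) (nat_lit 5) (nat_lit 9) (nat_lit 4) (nat_lit 340) (nat_lit 261) (nat_lit 179)) (XT.nd (nat_lit 78) (nat_lit 0) (nat_lit 0) (XT.lf (nat_lit 0) (nat_lit 18424752192) (nat_lit 76) (nat_lit 4079387615) (nat_lit 152) (nat_lit 48746353269) (nat_lit 7) (nat_lit 5) (nat_lit 8) (nat_lit 5) (nat_lit 9) (nat_lit 4) (nat_lit 341) (nat_lit 261) (nat_lit 178)) (XT.lf (nat_lit 0) (nat_lit 28778719463) (nat_lit 152) (nat_lit 43337951043) (nat_lit 0) (nat_lit 2367157436) (nat_lit 7) (nat_lit 5) (nat_lit 9) (nat_lit 4) (nat_lit 7) (nat_lit 4) (nat_lit 342) (nat_lit 261) (nat_lit 177))))))))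
noncomputable def xc111 : XT := (XT.nd (nat_lit 1560) (nat_lit 76) (nat_lit 0) (XT.nd (nat_lit 780) (nat_lit 152) (nat_lit 0) (XT.nd (nat_lit 390) (nat_lit 0) (nat_lit 0) (XT.nd (nat_lit 156) (nat_lit 76) (nat_lit 0) (XT.nd (nat_lit 78) (nat_lit 0) (nat_lit 0) (XT.lf (nat_lit 0) (nat_lit 35423624424) (nat_lit 152) (nat_lit 33461549763) (nat_lit 0) (nat_lit 8990832724) (nat_lit 7) (nat_lit 5) (nat_lit 9) (nat_lit 4) (nat_lit 7) (nat_lit 4) (nat_lit 343) (nat_lit 261) (nat_lit 176)) (XT.lf (nat_lit 0) (nat_lit 42390985219) (nat_lit 152) (nat_lit 23109331129) (nat_lit 0) (nat_lit 15937974782) (nat_lit 7) (nat_lit 5) (nat_lit 9) (nat_lit 4) (nat_lit 7) (nat_lit 4) (nat_lit 344) (nat_lit 261) (nat_lit 175))) (XT.nd (nat_lit 78) (nat_lit 76) (nat_lit 0) (XT.lf (nat_lit 0) (nat_lit 49697390802) (nat_lit 152) (nat_lit 12256647002) (nat_lit 0) (nat_lit 23225124426) (nat_lit 7) (nat_lit 5) (nat_lit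 9) (nat_lit 4) (nat_lit 7) (nat_lit 4) (nat_lit 345) (nat_lit 261) (nat_lit 174)) (XT.nd (nat_lit 78) (nat_lit 76) (nat_lit 0) (XT.lf (nat_lit 0) (nat_lit 57360237377) (nat_lit 152) (nat_lit 877657658) (nat_lit 0) (nat_lit 30869632011) (nat_lit 7) (nat_lit 5) (nat_lit 9) (nat_lit 4) (nat_lit 7) (nat_lit 4) (nat_lit 346) (nat_lit 261) (nat_lit 173)) (XT.lf (nat_lit 0) (nat_lit 11420249024) (nat_lit 76) (nat_lit 54155822885) (nat_lit 76) (nat_lit 27647751814) (nat_lit 6) (nat_lit 4) (nat_lit 7) (nat_lit 5) (nat_lit 7) (nat_lit 4) (nat_lit 347) (nat_lit 261) (nat_lit 172))))) (XT.nd (nat_lit 156) (nat_lit 0) (nat_lit 0) (XT.nd (nat_lit 78) (nat_lit 0) (nat_lit 0) (XT.lf (nat_lit 0) (nat_lit 24348220745) (nat_lit 76) (nat_lit 49861048321) (nat_lit 76) (nat_lit 23336343245) (nat_lit 6) (nat_lit 4) (nat_lit 7) (nat_lit 5) (nat_lit 7) (nat_lit 4) (nat_lit 348) (nat_lit 261) (nat_lit 171))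 (XT.lf (nat_lit 0) (nat_lit 37908019062) (nat_lit 76) (nat_lit 45358209246) (nat_lit 76) (nat_lit 18817662261) (nat_lit 6) (nat_lit 4) (nat_lit 7) (nat_lit 5) (nat_lit 7) (nat_lit 4) (nat_lit 349) (nat_lit 261) (nat_lit 170))) (XT.nd (nat_lit 78) (nat_lit 0) (nat_lit 0) (XT.lf (nat_lit 0) (nat_lit 52131929210) (nat_lit 76) (nat_lit 40636584615) (nat_lit 76) (nat_lit 14080950098) (nat_lit 6) (nat_lit 4) (nat_lit 7) (nat_lit 5) (nat_lit 7) (nat_lit 4) (nat_lit 350) (nat_lit 261) (nat_lit 169)) (XT.nd (nat_lit 78) (nat_lit 0) (nat_lit 0) (XT.lf (nat_lit 0) (nat_lit 67053817642) (nat_lit 76) (nat_lit 35684932465) (nat_lit 76) (nat_lit 9114928869) (nat_lit 6) (nat_lit 4) (nat_lit 7) (nat_lit 5) (nat_lit 7) (nat_lit 4) (nat_lit 351) (nat_lit 261) (nat_lit 168)) (XT.lf (nat_lit 0) (nat_lit 82709212663) (nat_lit 76) (nat_lit 30491463147) (nat_lit 76) (nat_lit 3907774715) (nat_lit 6) (nat_lit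 4) (nat_lit 7) (nat_lit 5) (nat_lit 7) (nat_lit 4) (nat_lit 352) (nat_lit 261) (nat_lit 167)))))) (XT.nd (nat_lit 390) (nat_lit 0) (nat_lit 0) (XT.nd (nat_lit 156) (nat_lit 76) (nat_lit 0) (XT.nd (nat_lit 78) (nat_lit 0) (nat_lit 0) (XT.lf (nat_lit 0) (nat_lit 1503207521) (nat_lit 152) (nat_lit 23515146191) (nat_lit 76) (nat_lit 97606723955) (nat_lit 5) (nat_lit 5) (nat_lit 7) (nat_lit 5) (nat_lit 6) (nat_lit 4) (nat_lit 353) (nat_lit 261) (nat_lit 166)) (XT.lf (nat_lit 0) (nat_lit 7047118399) (nat_lit 152) (nat_lit 12162541442) (nat_lit 76) (nat_lit 109204991907) (nat_lit 5) (nat_lit 5) (nat_lit 7) (nat_lit 5) (nat_lit 6) (nat_lit 4) (nat_lit 354) (nat_lit 261) (nat_lit 165))) (XT.nd (nat_lit 78) (nat_lit 76) (nat_lit 0) (XT.lf (nat_lit 0) (nat_lit 12862230901) (nat_lit 152) (nat_lit 253382288) (nat_lit 76) (nat_lit 121378394844) (nat_lit 5) (nat_lit 5) (nat_lit 7) (nat_lit 5) (nat_lit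 6) (nat_lit 4) (nat_lit 355) (nat_lit 261) (nat_lit 164)) (XT.nd (nat_lit 78) (nat_lit 0) (nat_lit 0) (XT.lf (nat_lit 0) (nat_lit 12645418783) (nat_lit 76) (nat_lit 6514402177) (nat_lit 152) (nat_lit 121707928699) (nat_lit 4) (nat_lit 5) (nat_lit 5) (nat_lit 5) (nat_lit 6) (nat_lit 4) (nat_lit 356) (nat_lit 261) (nat_lit 163)) (XT.lf (nat_lit 0) (nat_lit 25777487202) (nat_lit 152) (nat_lit 121379172926) (nat_lit 0) (nat_lit 403261855) (nat_lit 4) (nat_lit 5) (nat_lit 6) (nat_lit 4) (nat_lit 4) (nat_lit 4) (nat_lit 357) (nat_lit 261) (nat_lit 162))))) (XT.nd (nat_lit 156) (nat_lit 0) (nat_lit 0) (XT.nd (nat_lit 78) (nat_lit 0) (nat_lit 0) (XT.lf (nat_lit 0) (nat_lit 32827427073) (nat_lit 152) (nat_lit 114310733451) (nat_lit 0) (nat_lit 7443476169) (nat_lit 4) (nat_lit 5) (nat_lit 6) (nat_lit 4) (nat_lit 4) (nat_lit 4) (nat_lit 358) (nat_lit 261) (nat_lit 161)) (XT.lf (nat_lit 0) (nat_lit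 40224718072) (nat_lit 152) (nat_lit 106898474760) (nat_lit 0) (nat_lit 14831504732) (nat_lit 4) (nat_lit 5) (nat_lit 6) (nat_lit 4) (nat_lit 4) (nat_lit 4) (nat_lit 359) (nat_lit 261) (nat_lit 160))) (XT.nd (nat_lit 78) (nat_lit 0) (nat_lit 0) (XT.lf (nat_lit 0) (nat_lit 47986972795) (nat_lit 152) (nat_lit 99124748616) (nat_lit 0) (nat_lit 22584938087) (nat_lit 4) (nat_lit 5) (nat_lit 6) (nat_lit 4) (nat_lit 4) (nat_lit 4) (nat_lit 360) (nat_lit 261) (nat_lit 159)) (XT.nd (nat_lit 78) (nat_lit 0) (nat_lit 0) (XT.lf (nat_lit 0) (nat_lit 56132672802) (nat_lit 152) (nat_lit 90971046150) (nat_lit 0) (nat_lit 30722236791) (nat_lit 4) (nat_lit 5) (nat_lit 6) (nat_lit 4) (nat_lit 4) (nat_lit 4) (nat_lit 361) (nat_lit 261) (nat_lit 158)) (XT.lf (nat_lit 0) (nat_lit 64681212615) (nat_lit 152) (nat_lit 82417953783) (nat_lit 0) (nat_lit 39262775364) (nat_lit 4) (nat_lit 5) (nat_lit 6) (nat_lit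 4) (nat_lit 4) (nat_lit 4) (nat_lit 362) (nat_lit 261) (nat_lit 157))))))) (XT.nd (nat_lit 780) (nat_lit 0) (nat_lit 0) (XT.nd (nat_lit 390) (nat_lit 76) (nat_lit 0) (XT.nd (nat_lit 156) (nat_lit 0) (nat_lit 0) (XT.nd (nat_lit 78) (nat_lit 0) (nat_lit 0) (XT.lf (nat_lit 0) (nat_lit 73652945902) (nat_lit 152) (nat_lit 73445107009) (nat_lit 0) (nat_lit 48226888421) (nat_lit 4) (nat_lit 5) (nat_lit 6) (nat_lit 4) (nat_lit 4) (nat_lit 4) (nat_lit 363) (nat_lit 261) (nat_lit 156)) (XT.lf (nat_lit 0) (nat_lit 83069233932) (nat_lit 152) (nat_lit 64031141908) (nat_lit 0) (nat_lit 57635919090) (nat_lit 4) (nat_lit 5) (nat_lit 6) (nat_lit 4) (nat_lit 4) (nat_lit 4) (nat_lit 364) (nat_lit 261) (nat_lit 155))) (XT.nd (nat_lit 78) (nat_lit 0) (nat_lit 0) (XT.lf (nat_lit 0) (nat_lit 92952496438) (nat_lit 152) (nat_lit 54153644278) (nat_lit 0) (nat_lit 67512269824) (nat_lit 4) (nat_lit 5) (nat_lit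 6) (nat_lit 4) (nat_lit 4) (nat_lit 4) (nat_lit 365) (nat_lit 261) (nat_lit 154)) (XT.nd (nat_lit 78) (nat_lit 0) (nat_lit 0) (XT.lf (nat_lit 0) (nat_lit 103326264998) (nat_lit 152) (nat_lit 43789096266) (nat_lit 0) (nat_lit 77879455744) (nat_lit 4) (nat_lit 5) (nat_lit 6) (nat_lit 4) (nat_lit 4) (nat_lit 4) (nat_lit 366) (nat_lit 261) (nat_lit 153)) (XT.lf (nat_lit 0) (nat_lit 114215239061) (nat_lit 152) (nat_lit 32912820377) (nat_lit 0) (nat_lit 88762160625) (nat_lit 4) (nat_lit 5) (nat_lit 6) (nat_lit 4) (nat_lit 4) (nat_lit 4) (nat_lit 367) (nat_lit 261) (nat_lit 152))))) (XT.nd (nat_lit 156) (nat_lit 76) (nat_lit 0) (XT.nd (nat_lit 78) (nat_lit 0) (nat_lit 0) (XT.lf (nat_lit 0) (nat_lit 125645344755) (nat_lit 152) (nat_lit 21498920717) (nat_lit 0) (nat_lit 100186295671) (nat_lit 4) (nat_lit 5) (nat_lit 6) (nat_lit 4) (nat_lit 4) (nat_lit 4) (nat_lit 368) (nat_lit 261) (nat_lit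 151)) (XT.lf (nat_lit 0) (nat_lit 137643796619) (nat_lit 152) (nat_lit 9520221334) (nat_lit 0) (nat_lit 112179061202) (nat_lit 4) (nat_lit 5) (nat_lit 6) (nat_lit 4) (nat_lit 4) (nat_lit 4) (nat_lit 369) (nat_lit 261) (nat_lit 150))) (XT.nd (nat_lit 78) (nat_lit 0) (nat_lit 0) (XT.lf (nat_lit 0) (nat_lit 3152704724) (nat_lit 76) (nat_lit 147135680225) (nat_lit 76) (nat_lit 121665529253) (nat_lit 3) (nat_lit 4) (nat_lit 4) (nat_lit 5) (nat_lit 4) (nat_lit 4) (nat_lit 370) (nat_lit 261) (nat_lit 149)) (XT.nd (nat_lit 78) (nat_lit 0) (nat_lit 0) (XT.lf (nat_lit 0) (nat_lit 16784273698) (nat_lit 76) (nat_lit 146939206897) (nat_lit 76) (nat_lit 121463898255) (nat_lit 3) (nat_lit 4) (nat_lit 4) (nat_lit 5) (nat_lit 4) (nat_lit 4) (nat_lit 371) (nat_lit 261) (nat_lit 148)) (XT.lf (nat_lit 0) (nat_lit 31092160191) (nat_lit 76) (nat_lit 146735359733) (nat_lit 76) (nat_lit 121255139023) (nat_lit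 3) (nat_lit 4) (nat_lit 4) (nat_lit 5) (nat_lit 4) (nat_lit 4) (nat_lit 372) (nat_lit 261) (nat_lit 147)))))) (XT.nd (nat_lit 390) (nat_lit 0) (nat_lit 0) (XT.nd (nat_lit 156) (nat_lit 0) (nat_lit 0) (XT.nd (nat_lit 78) (nat_lit 0) (nat_lit 0) (XT.lf (nat_lit 0) (nat_lit 46110430598) (nat_lit 76) (nat_lit 146523653380) (nat_lit 76) (nat_lit 121038754510) (nat_lit 3) (nat_lit 4) (nat_lit 4) (nat_lit 5) (nat_lit 4) (nat_lit 4) (nat_lit 373) (nat_lit 261) (nat_lit 146)) (XT.lf (nat_lit 0) (nat_lit 61874842708) (nat_lit 76) (nat_lit 146303583777) (nat_lit 76) (nat_lit 120814229517) (nat_lit 3) (nat_lit 4) (nat_lit 4) (nat_lit 5) (nat_lit 4) (nat_lit 4) (nat_lit 374) (nat_lit 261) (nat_lit 145))) (XT.nd (nat_lit 78) (nat_lit 0) (nat_lit 0) (XT.lf (nat_lit 0) (nat_lit 78422930835) (nat_lit 76) (nat_lit 146074626948) (nat_lit 76) (nat_lit 120581029459) (nat_lit 3) (nat_lit 4) (nat_lit 4) (nat_lit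 5) (nat_lit 4) (nat_lit 4) (nat_lit 375) (nat_lit 261) (nat_lit 144)) (XT.nd (nat_lit 78) (nat_lit 0) (nat_lit 0) (XT.lf (nat_lit 0) (nat_lit 95794095188) (nat_lit 76) (nat_lit 145836237758) (nat_lit 76) (nat_lit 120338599099) (nat_lit 3) (nat_lit 4) (nat_lit 4) (nat_lit 5) (nat_lit 4) (nat_lit 4) (nat_lit 376) (nat_lit 261) (nat_lit 143)) (XT.lf (nat_lit 0) (nat_lit 114029695682) (nat_lit 76) (nat_lit 145587848613) (nat_lit 76) (nat_lit 120086361220) (nat_lit 3) (nat_lit 4) (nat_lit 4) (nat_lit 5) (nat_lit 4) (nat_lit 4) (nat_lit 377) (nat_lit 261) (nat_lit 142))))) (XT.nd (nat_lit 156) (nat_lit 0) (nat_lit 0) (XT.nd (nat_lit 78) (nat_lit 0) (nat_lit 0) (XT.lf (nat_lit 0) (nat_lit 133173150415) (nat_lit 76) (nat_lit 145328868111) (nat_lit 76) (nat_lit 119823715258) (nat_lit 3) (nat_lit 4) (nat_lit 4) (nat_lit 5) (nat_lit 4) (nat_lit 4) (nat_lit 378) (nat_lit 261) (nat_lit 141)) (XT.lf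 (nat_lit 0) (nat_lit 153270039039) (nat_lit 76) (nat_lit 145058679631) (nat_lit 76) (nat_lit 119550035864) (nat_lit 3) (nat_lit 4) (nat_lit 4) (nat_lit 5) (nat_lit 4) (nat_lit 4) (nat_lit 379) (nat_lit 261) (nat_lit 140))) (XT.nd (nat_lit 78) (nat_lit 0) (nat_lit 0) (XT.lf (nat_lit 0) (nat_lit 174368211291) (nat_lit 76) (nat_lit 144776639868) (nat_lit 76) (nat_lit 119264671420) (nat_lit 3) (nat_lit 4) (nat_lit 4) (nat_lit 5) (nat_lit 4) (nat_lit 4) (nat_lit 380) (nat_lit 261) (nat_lit 139)) (XT.nd (nat_lit 78) (nat_lit 0) (nat_lit 0) (XT.lf (nat_lit 0) (nat_lit 196517900912) (nat_lit 76) (nat_lit 144482077299) (nat_lit 76) (nat_lit 118966942488) (nat_lit 3) (nat_lit 4) (nat_lit 4) (nat_lit 5) (nat_lit 4) (nat_lit 4) (nat_lit 381) (nat_lit 261) (nat_lit 138)) (XT.lf (nat_lit 0) (nat_lit 219771845261) (nat_lit 76) (nat_lit 144174290583) (nat_lit 76) (nat_lit 118656140189) (nat_lit 3)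 (nat_lit 4) (nat_lit 4) (nat_lit 5) (nat_lit 4) (nat_lit 4) (nat_lit 382) (nat_lit 261) (nat_lit 137))))))))
noncomputable def xc112 : XT := (XT.nd (nat_lit 32370) (nat_lit 0) (nat_lit 2888) (XT.nd (nat_lit 31590) (nat_lit 0) (nat_lit 6384) (XT.nd (nat_lit 31200) (nat_lit 0) (nat_lit 8816) (XT.nd (nat_lit 156) (nat_lit 0) (nat_lit 0) (XT.nd (nat_lit 78) (nat_lit 0) (nat_lit 0) (XT.lf (nat_lit 0) (nat_lit 244185410870) (nat_lit 76) (nat_lit 143852546896) (nat_lit 76) (nat_lit 118331524517) (nat_lit 3) (nat_lit 4) (nat_lit 4) (nat_lit 5) (nat_lit 4) (nat_lit 4) (nat_lit 383) (nat_lit 261) (nat_lit 136)) (XT.lf (nat_lit 0) (nat_lit 269816725277) (nat_lit 76) (nat_lit 143516080181) (nat_lit 76) (nat_lit 117992322579) (nat_lit 3) (nat_lit 4) (nat_lit 4) (nat_lit 5) (nat_lit 4) (nat_lit 4) (nat_lit 384) (nat_lit 261) (nat_lit 135))) (XT.nd (nat_lit 78) (nat_lit 0) (nat_lit 0) (XT.lf (nat_lit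 0) (nat_lit 296726815421) (nat_lit 76) (nat_lit 143164089327) (nat_lit 76) (nat_lit 117637726750) (nat_lit 3) (nat_lit 4) (nat_lit 4) (nat_lit 5) (nat_lit 4) (nat_lit 4) (nat_lit 385) (nat_lit 261) (nat_lit 134)) (XT.lf (nat_lit 0) (nat_lit 324979752945) (nat_lit 76) (nat_lit 142795736260) (nat_lit 76) (nat_lit 117266892755) (nat_lit 3) (nat_lit 4) (nat_lit 4) (nat_lit 5) (nat_lit 4) (nat_lit 4) (nat_lit 386) (nat_lit 261) (nat_lit 133)))) (XT.nd (nat_lit 156) (nat_lit 304) (nat_lit 0) (XT.nd (nat_lit 78) (nat_lit 228) (nat_lit 0) (XT.lf (nat_lit 0) (nat_lit 2235543967) (nat_lit 228) (nat_lit 504607205) (nat_lit 228) (nat_lit 504607205) (nat_lit 126) (nat_lit 3) (nat_lit 129) (nat_lit 3) (nat_lit 129) (nat_lit 5) (nat_lit 262) (nat_lit 262) (nat_lit 256)) (XT.lf (nat_lit 0) (nat_lit 502266439) (nat_lit 228) (nat_lit 4522326645) (nat_lit 304) (nat_lit 1493056332) (nat_lit 123) (nat_lit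 5) (nat_lit 126) (nat_lit 3) (nat_lit 127) (nat_lit 5) (nat_lit 263) (nat_lit 262) (nat_lit 255))) (XT.nd (nat_lit 78) (nat_lit 304) (nat_lit 0) (XT.lf (nat_lit 0) (nat_lit 2938883326) (nat_lit 228) (nat_lit 1485005098) (nat_lit 304) (nat_lit 2129430298) (nat_lit 123) (nat_lit 5) (nat_lit 126) (nat_lit 3) (nat_lit 127) (nat_lit 5) (nat_lit 264) (nat_lit 262) (nat_lit 254)) (XT.nd (nat_lit 78) (nat_lit 304) (nat_lit 0) (XT.lf (nat_lit 76) (nat_lit 1671562747) (nat_lit 0) (nat_lit 3699816169) (nat_lit 304) (nat_lit 1226328687) (nat_lit 124) (nat_lit 5) (nat_lit 123) (nat_lit 5) (nat_lit 127) (nat_lit 5) (nat_lit 265) (nat_lit 262) (nat_lit 253)) (XT.lf (nat_lit 0) (nat_lit 1116622466) (nat_lit 304) (nat_lit 1716199400) (nat_lit 380) (nat_lit 3817250810) (nat_lit 119) (nat_lit 5) (nat_lit 123) (nat_lit 5) (nat_lit 124) (nat_lit 5) (nat_lit 266) (nat_lit 262) (nat_lit 252)))))) (XT.nd (nat_lit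 390) (nat_lit 1748) (nat_lit 0) (XT.nd (nat_lit 156) (nat_lit 684) (nat_lit 0) (XT.nd (nat_lit 78) (nat_lit 0) (nat_lit 0) (XT.lf (nat_lit 76) (nat_lit 1599386313) (nat_lit 0) (nat_lit 1819077286) (nat_lit 380) (nat_lit 3291991024) (nat_lit 120) (nat_lit 5) (nat_lit 119) (nat_lit 5) (nat_lit 124) (nat_lit 5) (nat_lit 267) (nat_lit 262) (nat_lit 251)) (XT.lf (nat_lit 76) (nat_lit 5055776450) (nat_lit 0) (nat_lit 672111689) (nat_lit 380) (nat_lit 1051868258) (nat_lit 120) (nat_lit 5) (nat_lit 119) (nat_lit 5) (nat_lit 124) (nat_lit 5) (nat_lit 268) (nat_lit 262) (nat_lit 250))) (XT.nd (nat_lit 78) (nat_lit 380) (nat_lit 0) (XT.lf (nat_lit 0) (nat_lit 1163645785) (nat_lit 380) (nat_lit 5083201053) (nat_lit 76) (nat_lit 609887768) (nat_lit 115) (nat_lit 5) (nat_lit 120) (nat_lit 5) (nat_lit 116) (nat_lit 5) (nat_lit 269) (nat_lit 262) (nat_lit 249)) (XT.nd (nat_lit 78) (nat_lit 380) (nat_lit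 0) (XT.lf (nat_lit 0) (nat_lit 3368281109) (nat_lit 380) (nat_lit 1550603756) (nat_lit 76) (nat_lit 2022583681) (nat_lit 115) (nat_lit 5) (nat_lit 120) (nat_lit 5) (nat_lit 116) (nat_lit 5) (nat_lit 270) (nat_lit 262) (nat_lit 248)) (XT.lf (nat_lit 0) (nat_lit 2139936963) (nat_lit 380) (nat_lit 3455671135) (nat_lit 456) (nat_lit 1439640254) (nat_lit 110) (nat_lit 5) (nat_lit 115) (nat_lit 5) (nat_lit 116) (nat_lit 5) (nat_lit 271) (nat_lit 262) (nat_lit 247))))) (XT.nd (nat_lit 156) (nat_lit 1216) (nat_lit 0) (XT.nd (nat_lit 78) (nat_lit 456) (nat_lit 0) (XT.lf (nat_lit 0) (nat_lit 682812468) (nat_lit 456) (nat_lit 1166588846) (nat_lit 76) (nat_lit 5288690257) (nat_lit 109) (nat_lit 5) (nat_lit 115) (nat_lit 5) (nat_lit 110) (nat_lit 5) (nat_lit 272) (nat_lit 262) (nat_lit 246)) (XT.lf (nat_lit 0) (nat_lit 2726429035) (nat_lit 456) (nat_lit 65964786) (nat_lit 532) (nat_lit 4456407048)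 (nat_lit 103) (nat_lit 5) (nat_lit 109) (nat_lit 5) (nat_lit 110) (nat_lit 5) (nat_lit 273) (nat_lit 262) (nat_lit 245))) (XT.nd (nat_lit 78) (nat_lit 1216) (nat_lit 0) (XT.lf (nat_lit 0) (nat_lit 4947018760) (nat_lit 532) (nat_lit 628604703) (nat_lit 76) (nat_lit 1792799486) (nat_lit 103) (nat_lit 5) (nat_lit 110) (nat_lit 5) (nat_lit 104) (nat_lit 5) (nat_lit 274) (nat_lit 262) (nat_lit 244)) (XT.nd (nat_lit 78) (nat_lit 684) (nat_lit 0) (XT.lf (nat_lit 0) (nat_lit 3483978072) (nat_lit 532) (nat_lit 3677327324) (nat_lit 608) (nat_lit 335462826) (nat_lit 96) (nat_lit 5) (nat_lit 103) (nat_lit 5) (nat_lit 104) (nat_lit 5) (nat_lit 275) (nat_lit 262) (nat_lit 243)) (XT.lf (nat_lit 0) (nat_lit 77787628) (nat_lit 608) (nat_lit 1627767251) (nat_lit 684) (nat_lit 5929327914) (nat_lit 87) (nat_lit 5) (nat_lit 95) (nat_lit 5) (nat_lit 96) (nat_lit 5) (nat_lit 276) (nat_lit 262) (nat_lit 242)))))))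 (XT.nd (nat_lit 780) (nat_lit 1292) (nat_lit 0) (XT.nd (nat_lit 390) (nat_lit 1064) (nat_lit 0) (XT.nd (nat_lit 156) (nat_lit 456) (nat_lit 0) (XT.nd (nat_lit 78) (nat_lit 684) (nat_lit 0) (XT.lf (nat_lit 0) (nat_lit 3816383385) (nat_lit 684) (nat_lit 3371638471) (nat_lit 76) (nat_lit 592947090) (nat_lit 87) (nat_lit 5) (nat_lit 96) (nat_lit 5) (nat_lit 88) (nat_lit 5) (nat_lit 277) (nat_lit 262) (nat_lit 241)) (XT.lf (nat_lit 0) (nat_lit 938300873) (nat_lit 684) (nat_lit 5042239715) (nat_lit 760) (nat_lit 1956708030) (nat_lit 78) (nat_lit 5) (nat_lit 87) (nat_lit 5) (nat_lit 88) (nat_lit 5) (nat_lit 278) (nat_lit 262) (nat_lit 240))) (XT.nd (nat_lit 78) (nat_lit 380) (nat_lit 0) (XT.lf (nat_lit 0) (nat_lit 112563060) (nat_lit 760) (nat_lit 2611012952) (nat_lit 76) (nat_lit 5379608089) (nat_lit 77) (nat_lit 5) (nat_lit 87) (nat_lit 5) (nat_lit 78) (nat_lit 5) (nat_lit 279) (nat_lit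 262) (nat_lit 239)) (XT.nd (nat_lit 78) (nat_lit 0) (nat_lit 0) (XT.lf (nat_lit 0) (nat_lit 1940623810) (nat_lit 380) (nat_lit 221418309) (nat_lit 456) (nat_lit 6116885896) (nat_lit 72) (nat_lit 5) (nat_lit 77) (nat_lit 5) (nat_lit 78) (nat_lit 5) (nat_lit 280) (nat_lit 262) (nat_lit 238)) (XT.lf (nat_lit 0) (nat_lit 4311577874) (nat_lit 456) (nat_lit 1777876075) (nat_lit 76) (nat_lit 2374355222) (nat_lit 72) (nat_lit 5) (nat_lit 78) (nat_lit 5) (nat_lit 73) (nat_lit 5) (nat_lit 281) (nat_lit 262) (nat_lit 237))))) (XT.nd (nat_lit 156) (nat_lit 684) (nat_lit 0) (XT.nd (nat_lit 78) (nat_lit 0) (nat_lit 0) (XT.lf (nat_lit 0) (nat_lit 3018967703) (nat_lit 380) (nat_lit 3519508076) (nat_lit 456) (nat_lit 2121182609) (nat_lit 67) (nat_lit 5) (nat_lit 72) (nat_lit 5) (nat_lit 73) (nat_lit 5) (nat_lit 282) (nat_lit 262) (nat_lit 236)) (XT.lf (nat_lit 0) (nat_lit 8034140288) (nat_lit 380) (nat_lit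 794360308) (nat_lit 456) (nat_lit 39418248) (nat_lit 67) (nat_lit 5) (nat_lit 72) (nat_lit 5) (nat_lit 73) (nat_lit 5) (nat_lit 283) (nat_lit 262) (nat_lit 235))) (XT.nd (nat_lit 78) (nat_lit 304) (nat_lit 0) (XT.lf (nat_lit 0) (nat_lit 2101631991) (nat_lit 380) (nat_lit 4885923178) (nat_lit 76) (nat_lit 2096355266) (nat_lit 62) (nat_lit 5) (nat_lit 67) (nat_lit 5) (nat_lit 63) (nat_lit 5) (nat_lit 284) (nat_lit 262) (nat_lit 234)) (XT.nd (nat_lit 78) (nat_lit 0) (nat_lit 0) (XT.lf (nat_lit 0) (nat_lit 105358804) (nat_lit 304) (nat_lit 4198309611) (nat_lit 380) (nat_lit 5009417531) (nat_lit 58) (nat_lit 5) (nat_lit 62) (nat_lit 5) (nat_lit 63) (nat_lit 5) (nat_lit 285) (nat_lit 262) (nat_lit 233)) (XT.lf (nat_lit 0) (nat_lit 5432788453) (nat_lit 304) (nat_lit 1194218753) (nat_lit 380) (nat_lit 2926324023) (nat_lit 58) (nat_lit 5) (nat_lit 62) (nat_lit 5) (nat_lit 63) (nat_lit 5) (nat_lit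 286) (nat_lit 262) (nat_lit 232)))))) (XT.nd (nat_lit 390) (nat_lit 456) (nat_lit 0) (XT.nd (nat_lit 156) (nat_lit 532) (nat_lit 0) (XT.nd (nat_lit 78) (nat_lit 76) (nat_lit 0) (XT.lf (nat_lit 0) (nat_lit 1144542079) (nat_lit 228) (nat_lit 7902133636) (nat_lit 304) (nat_lit 760067800) (nat_lit 55) (nat_lit 5) (nat_lit 58) (nat_lit 5) (nat_lit 59) (nat_lit 5) (nat_lit 287) (nat_lit 262) (nat_lit 231)) (XT.lf (nat_lit 0) (nat_lit 1488971721) (nat_lit 304) (nat_lit 3381307146) (nat_lit 76) (nat_lit 5200365804) (nat_lit 54) (nat_lit 5) (nat_lit 58) (nat_lit 5) (nat_lit 55) (nat_lit 5) (nat_lit 288) (nat_lit 262) (nat_lit 230))) (XT.nd (nat_lit 78) (nat_lit 228) (nat_lit 0) (XT.lf (nat_lit 0) (nat_lit 2140106540) (nat_lit 304) (nat_lit 1653882910) (nat_lit 380) (nat_lit 6554815653) (nat_lit 50) (nat_lit 5) (nat_lit 54) (nat_lit 5) (nat_lit 55) (nat_lit 5) (nat_lit 289) (nat_lit 262) (nat_lit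 229)) (XT.nd (nat_lit 78) (nat_lit 228) (nat_lit 0) (XT.lf (nat_lit 0) (nat_lit 6236618889) (nat_lit 380) (nat_lit 2692164376) (nat_lit 76) (nat_lit 1711106251) (nat_lit 50) (nat_lit 5) (nat_lit 55) (nat_lit 5) (nat_lit 51) (nat_lit 5) (nat_lit 290) (nat_lit 262) (nat_lit 228)) (XT.lf (nat_lit 0) (nat_lit 3094713391) (nat_lit 228) (nat_lit 5722336334) (nat_lit 304) (nat_lit 2127822548) (nat_lit 47) (nat_lit 5) (nat_lit 50) (nat_lit 5) (nat_lit 51) (nat_lit 5) (nat_lit 291) (nat_lit 262) (nat_lit 227))))) (XT.nd (nat_lit 156) (nat_lit 152) (nat_lit 0) (XT.nd (nat_lit 78) (nat_lit 228) (nat_lit 0) (XT.lf (nat_lit 0) (nat_lit 240198338) (nat_lit 304) (nat_lit 2081496218) (nat_lit 76) (nat_lit 8943962968) (nat_lit 46) (nat_lit 5) (nat_lit 50) (nat_lit 5) (nat_lit 47) (nat_lit 5) (nat_lit 292) (nat_lit 262) (nat_lit 226)) (XT.lf (nat_lit 0) (nat_lit 2681924172) (nat_lit 304) (nat_lit 7627325559)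 (nat_lit 76) (nat_lit 1290257800) (nat_lit 43) (nat_lit 5) (nat_lit 47) (nat_lit 5) (nat_lit 44) (nat_lit 5) (nat_lit 293) (nat_lit 262) (nat_lit 225))) (XT.nd (nat_lit 78) (nat_lit 152) (nat_lit 0) (XT.lf (nat_lit 0) (nat_lit 5264520052) (nat_lit 304) (nat_lit 1661990258) (nat_lit 76) (nat_lit 5022705531) (nat_lit 43) (nat_lit 5) (nat_lit 47) (nat_lit 5) (nat_lit 44) (nat_lit 5) (nat_lit 294) (nat_lit 262) (nat_lit 224)) (XT.nd (nat_lit 78) (nat_lit 0) (nat_lit 0) (XT.lf (nat_lit 0) (nat_lit 4679112390) (nat_lit 152) (nat_lit 3317705635) (nat_lit 228) (nat_lit 4318662920) (nat_lit 41) (nat_lit 5) (nat_lit 43) (nat_lit 5) (nat_lit 44) (nat_lit 5) (nat_lit 295) (nat_lit 262) (nat_lit 223)) (XT.lf (nat_lit 0) (nat_lit 10850296073) (nat_lit 228) (nat_lit 1384937042) (nat_lit 76) (nat_lit 465693161) (nat_lit 41) (nat_lit 5) (nat_lit 44) (nat_lit 5) (nat_lit 42) (nat_lit 5) (nat_lit 296)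 (nat_lit 262) (nat_lit 222))))))))
noncomputable def xc113 : XT := (XT.nd (nat_lit 1482) (nat_lit 608) (nat_lit 0) (XT.nd (nat_lit 702) (nat_lit 684) (nat_lit 0) (XT.nd (nat_lit 312) (nat_lit 608) (nat_lit 0) (XT.nd (nat_lit 156) (nat_lit 152) (nat_lit 0) (XT.nd (nat_lit 78) (nat_lit 0) (nat_lit 0) (XT.lf (nat_lit 0) (nat_lit 805391222) (nat_lit 304) (nat_lit 7892502289) (nat_lit 76) (nat_lit 4402843567) (nat_lit 37) (nat_lit 5) (nat_lit 41) (nat_lit 5) (nat_lit 38) (nat_lit 5) (nat_lit 297) (nat_lit 262) (nat_lit 221)) (XT.lf (nat_lit 0) (nat_lit 3507293869) (nat_lit 304) (nat_lit 1441436905) (nat_lit 76) (nat_lit 8571609330) (nat_lit 37) (nat_lit 5) (nat_lit 41) (nat_lit 5) (nat_lit 38) (nat_lit 5) (nat_lit 298) (nat_lit 262) (nat_lit 220))) (XT.nd (nat_lit 78) (nat_lit 0) (nat_lit 0) (XT.lf (nat_lit 0) (nat_lit 5439129169) (nat_lit 152) (nat_lit 943829553) (nat_lit 228) (nat_lit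 7576109551) (nat_lit 35) (nat_lit 5) (nat_lit 37) (nat_lit 5) (nat_lit 38) (nat_lit 5) (nat_lit 299) (nat_lit 262) (nat_lit 219)) (XT.lf (nat_lit 0) (nat_lit 9432727502) (nat_lit 228) (nat_lit 1824120816) (nat_lit 76) (nat_lit 3161443115) (nat_lit 35) (nat_lit 5) (nat_lit 38) (nat_lit 5) (nat_lit 36) (nat_lit 5) (nat_lit 300) (nat_lit 262) (nat_lit 218)))) (XT.nd (nat_lit 156) (nat_lit 304) (nat_lit 0) (XT.nd (nat_lit 78) (nat_lit 76) (nat_lit 0) (XT.lf (nat_lit 0) (nat_lit 5295694851) (nat_lit 228) (nat_lit 7394196235) (nat_lit 304) (nat_lit 2207910409) (nat_lit 32) (nat_lit 5) (nat_lit 35) (nat_lit 5) (nat_lit 36) (nat_lit 5) (nat_lit 301) (nat_lit 262) (nat_lit 217)) (XT.lf (nat_lit 0) (nat_lit 674403946) (nat_lit 304) (nat_lit 2641736908) (nat_lit 76) (nat_lit 12085234550) (nat_lit 31) (nat_lit 5) (nat_lit 35) (nat_lit 5) (nat_lit 32) (nat_lit 5) (nat_lit 302) (nat_lit 262) (nat_lit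 216))) (XT.nd (nat_lit 78) (nat_lit 152) (nat_lit 0) (XT.lf (nat_lit 0) (nat_lit 3675969305) (nat_lit 228) (nat_lit 11223931572) (nat_lit 76) (nat_lit 1026011979) (nat_lit 29) (nat_lit 5) (nat_lit 32) (nat_lit 5) (nat_lit 30) (nat_lit 5) (nat_lit 303) (nat_lit 262) (nat_lit 215)) (XT.nd (nat_lit 78) (nat_lit 152) (nat_lit 0) (XT.lf (nat_lit 0) (nat_lit 6887214092) (nat_lit 228) (nat_lit 4087803322) (nat_lit 76) (nat_lit 5498738173) (nat_lit 29) (nat_lit 5) (nat_lit 32) (nat_lit 5) (nat_lit 30) (nat_lit 5) (nat_lit 304) (nat_lit 262) (nat_lit 214)) (XT.lf (nat_lit 0) (nat_lit 3455867115) (nat_lit 152) (nat_lit 6818791366) (nat_lit 228) (nat_lit 6773605783) (nat_lit 27) (nat_lit 5) (nat_lit 29) (nat_lit 5) (nat_lit 30) (nat_lit 5) (nat_lit 305) (nat_lit 262) (nat_lit 213)))))) (XT.nd (nat_lit 390) (nat_lit 304) (nat_lit 0) (XT.nd (nat_lit 156) (nat_lit 228) (nat_lit 0) (XT.nd (nat_lit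 78) (nat_lit 152) (nat_lit 0) (XT.lf (nat_lit 0) (nat_lit 11459732525) (nat_lit 152) (nat_lit 2403558058) (nat_lit 228) (nat_lit 3786670049) (nat_lit 27) (nat_lit 5) (nat_lit 29) (nat_lit 5) (nat_lit 30) (nat_lit 5) (nat_lit 306) (nat_lit 262) (nat_lit 212)) (XT.lf (nat_lit 0) (nat_lit 1538831816) (nat_lit 152) (nat_lit 16115451094) (nat_lit 228) (nat_lit 626362978) (nat_lit 25) (nat_lit 5) (nat_lit 27) (nat_lit 5) (nat_lit 28) (nat_lit 4) (nat_lit 307) (nat_lit 262) (nat_lit 211))) (XT.nd (nat_lit 78) (nat_lit 152) (nat_lit 0) (XT.lf (nat_lit 0) (nat_lit 2716008755) (nat_lit 228) (nat_lit 9209432112) (nat_lit 76) (nat_lit 7009858455) (nat_lit 24) (nat_lit 5) (nat_lit 27) (nat_lit 5) (nat_lit 25) (nat_lit 5) (nat_lit 308) (nat_lit 262) (nat_lit 210)) (XT.nd (nat_lit 78) (nat_lit 152) (nat_lit 0) (XT.lf (nat_lit 0) (nat_lit 6170404530) (nat_lit 228) (nat_lit 1365855192) (nat_lit 76)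 (nat_lit 12087658153) (nat_lit 24) (nat_lit 5) (nat_lit 27) (nat_lit 5) (nat_lit 25) (nat_lit 5) (nat_lit 309) (nat_lit 262) (nat_lit 209)) (XT.lf (nat_lit 0) (nat_lit 7042784230) (nat_lit 152) (nat_lit 2832269993) (nat_lit 228) (nat_lit 10468077974) (nat_lit 22) (nat_lit 5) (nat_lit 24) (nat_lit 5) (nat_lit 25) (nat_lit 5) (nat_lit 310) (nat_lit 262) (nat_lit 208))))) (XT.nd (nat_lit 156) (nat_lit 228) (nat_lit 0) (XT.nd (nat_lit 78) (nat_lit 76) (nat_lit 0) (XT.lf (nat_lit 0) (nat_lit 13789343350) (nat_lit 228) (nat_lit 5264143624) (nat_lit 76) (nat_lit 2043639486) (nat_lit 22) (nat_lit 5) (nat_lit 25) (nat_lit 5) (nat_lit 23) (nat_lit 4) (nat_lit 311) (nat_lit 262) (nat_lit 207)) (XT.lf (nat_lit 0) (nat_lit 3178708447) (nat_lit 76) (nat_lit 14786222842) (nat_lit 152) (nat_lit 3920647615) (nat_lit 21) (nat_lit 5) (nat_lit 22) (nat_lit 5) (nat_lit 23) (nat_lit 4) (nat_lit 312) (nat_lit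 262) (nat_lit 206))) (XT.nd (nat_lit 78) (nat_lit 228) (nat_lit 0) (XT.lf (nat_lit 0) (nat_lit 12176805984) (nat_lit 76) (nat_lit 10231844523) (nat_lit 152) (nat_lit 301871759) (nat_lit 21) (nat_lit 5) (nat_lit 22) (nat_lit 5) (nat_lit 23) (nat_lit 4) (nat_lit 313) (nat_lit 262) (nat_lit 205)) (XT.nd (nat_lit 78) (nat_lit 152) (nat_lit 0) (XT.lf (nat_lit 0) (nat_lit 3357011798) (nat_lit 152) (nat_lit 2054794662) (nat_lit 76) (nat_lit 18163652251) (nat_lit 20) (nat_lit 5) (nat_lit 22) (nat_lit 5) (nat_lit 21) (nat_lit 5) (nat_lit 314) (nat_lit 262) (nat_lit 204)) (XT.lf (nat_lit 0) (nat_lit 7021888480) (nat_lit 152) (nat_lit 248934423) (nat_lit 228) (nat_lit 17208496230) (nat_lit 18) (nat_lit 5) (nat_lit 20) (nat_lit 5) (nat_lit 21) (nat_lit 5) (nat_lit 315) (nat_lit 262) (nat_lit 203))))))) (XT.nd (nat_lit 780) (nat_lit 228) (nat_lit 0) (XT.nd (nat_lit 390) (nat_lit 76) (nat_lit 0)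 (XT.nd (nat_lit 156) (nat_lit 304) (nat_lit 0) (XT.nd (nat_lit 78) (nat_lit 0) (nat_lit 0) (XT.lf (nat_lit 0) (nat_lit 11469258599) (nat_lit 228) (nat_lit 8930536882) (nat_lit 76) (nat_lit 5024159922) (nat_lit 18) (nat_lit 5) (nat_lit 21) (nat_lit 5) (nat_lit 19) (nat_lit 4) (nat_lit 316) (nat_lit 262) (nat_lit 202)) (XT.lf (nat_lit 0) (nat_lit 15855805481) (nat_lit 228) (nat_lit 25499987) (nat_lit 76) (nat_lit 10535636670) (nat_lit 18) (nat_lit 5) (nat_lit 21) (nat_lit 5) (nat_lit 19) (nat_lit 4) (nat_lit 317) (nat_lit 262) (nat_lit 201))) (XT.nd (nat_lit 78) (nat_lit 228) (nat_lit 0) (XT.lf (nat_lit 0) (nat_lit 9589699330) (nat_lit 76) (nat_lit 10997043897) (nat_lit 152) (nat_lit 6866608591) (nat_lit 17) (nat_lit 5) (nat_lit 18) (nat_lit 5) (nat_lit 19) (nat_lit 4) (nat_lit 318) (nat_lit 262) (nat_lit 200)) (XT.nd (nat_lit 78) (nat_lit 228) (nat_lit 0) (XT.lf (nat_lit 0) (nat_lit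 19645201965) (nat_lit 76) (nat_lit 5885327941) (nat_lit 152) (nat_lit 3012262480) (nat_lit 17) (nat_lit 5) (nat_lit 18) (nat_lit 5) (nat_lit 19) (nat_lit 4) (nat_lit 319) (nat_lit 262) (nat_lit 199)) (XT.lf (nat_lit 0) (nat_lit 475673625) (nat_lit 152) (nat_lit 510052796) (nat_lit 228) (nat_lit 28700991613) (nat_lit 14) (nat_lit 5) (nat_lit 16) (nat_lit 5) (nat_lit 17) (nat_lit 5) (nat_lit 320) (nat_lit 262) (nat_lit 198))))) (XT.nd (nat_lit 156) (nat_lit 76) (nat_lit 0) (XT.nd (nat_lit 78) (nat_lit 0) (nat_lit 0) (XT.lf (nat_lit 0) (nat_lit 5292549725) (nat_lit 228) (nat_lit 20426236228) (nat_lit 76) (nat_lit 5156098641) (nat_lit 14) (nat_lit 5) (nat_lit 17) (nat_lit 5) (nat_lit 15) (nat_lit 4) (nat_lit 321) (nat_lit 262) (nat_lit 197)) (XT.lf (nat_lit 0) (nat_lit 9801033400) (nat_lit 228) (nat_lit 11249052140) (nat_lit 76) (nat_lit 11073078967) (nat_lit 14) (nat_lit 5) (nat_lit 17)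 (nat_lit 5) (nat_lit 15) (nat_lit 4) (nat_lit 322) (nat_lit 262) (nat_lit 196))) (XT.nd (nat_lit 78) (nat_lit 76) (nat_lit 0) (XT.lf (nat_lit 0) (nat_lit 14513948579) (nat_lit 228) (nat_lit 1649678352) (nat_lit 76) (nat_lit 17271301103) (nat_lit 14) (nat_lit 5) (nat_lit 17) (nat_lit 5) (nat_lit 15) (nat_lit 4) (nat_lit 323) (nat_lit 262) (nat_lit 195)) (XT.nd (nat_lit 78) (nat_lit 0) (nat_lit 0) (XT.lf (nat_lit 0) (nat_lit 8672308828) (nat_lit 76) (nat_lit 10905606705) (nat_lit 152) (nat_lit 15228612939) (nat_lit 13) (nat_lit 5) (nat_lit 14) (nat_lit 5) (nat_lit 15) (nat_lit 4) (nat_lit 324) (nat_lit 262) (nat_lit 194)) (XT.lf (nat_lit 0) (nat_lit 19533308417) (nat_lit 76) (nat_lit 5370133083) (nat_lit 152) (nat_lit 11342867526) (nat_lit 13) (nat_lit 5) (nat_lit 14) (nat_lit 5) (nat_lit 15) (nat_lit 4) (nat_lit 325) (nat_lit 262) (nat_lit 193)))))) (XT.nd (nat_lit 390) (nat_lit 76)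 (nat_lit 0) (XT.nd (nat_lit 156) (nat_lit 76) (nat_lit 0) (XT.nd (nat_lit 78) (nat_lit 76) (nat_lit 0) (XT.lf (nat_lit 0) (nat_lit 30483281422) (nat_lit 152) (nat_lit 6861076846) (nat_lit 0) (nat_lit 414335721) (nat_lit 13) (nat_lit 5) (nat_lit 15) (nat_lit 4) (nat_lit 13) (nat_lit 4) (nat_lit 326) (nat_lit 262) (nat_lit 192)) (XT.lf (nat_lit 0) (nat_lit 3474761656) (nat_lit 76) (nat_lit 32991670767) (nat_lit 76) (nat_lit 2874066266) (nat_lit 12) (nat_lit 4) (nat_lit 13) (nat_lit 5) (nat_lit 13) (nat_lit 4) (nat_lit 327) (nat_lit 262) (nat_lit 191))) (XT.nd (nat_lit 78) (nat_lit 0) (nat_lit 0) (XT.lf (nat_lit 0) (nat_lit 1791617627) (nat_lit 152) (nat_lit 26491130079) (nat_lit 76) (nat_lit 12712286968) (nat_lit 11) (nat_lit 5) (nat_lit 13) (nat_lit 5) (nat_lit 12) (nat_lit 4) (nat_lit 328) (nat_lit 262) (nat_lit 190)) (XT.nd (nat_lit 78) (nat_lit 0) (nat_lit 0) (XT.lf (nat_lit 0) (nat_lit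 6576946625) (nat_lit 152) (nat_lit 16725340598) (nat_lit 76) (nat_lit 19428521225) (nat_lit 11) (nat_lit 5) (nat_lit 13) (nat_lit 5) (nat_lit 12) (nat_lit 4) (nat_lit 329) (nat_lit 262) (nat_lit 189)) (XT.lf (nat_lit 0) (nat_lit 11585302438) (nat_lit 152) (nat_lit 6500244483) (nat_lit 76) (nat_lit 26468649501) (nat_lit 11) (nat_lit 5) (nat_lit 13) (nat_lit 5) (nat_lit 12) (nat_lit 4) (nat_lit 330) (nat_lit 262) (nat_lit 188))))) (XT.nd (nat_lit 156) (nat_lit 0) (nat_lit 0) (XT.nd (nat_lit 78) (nat_lit 0) (nat_lit 0) (XT.lf (nat_lit 0) (nat_lit 4347655871) (nat_lit 76) (nat_lit 12548832942) (nat_lit 152) (nat_lit 29569657225) (nat_lit 10) (nat_lit 5) (nat_lit 11) (nat_lit 5) (nat_lit 12) (nat_lit 4) (nat_lit 331) (nat_lit 262) (nat_lit 187)) (XT.lf (nat_lit 0) (nat_lit 15936467556) (nat_lit 76) (nat_lit 6631697905) (nat_lit 152) (nat_lit 25900793397) (nat_lit 10) (nat_lit 5) (nat_lit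 11) (nat_lit 5) (nat_lit 12) (nat_lit 4) (nat_lit 332) (nat_lit 262) (nat_lit 186))) (XT.nd (nat_lit 78) (nat_lit 0) (nat_lit 0) (XT.lf (nat_lit 0) (nat_lit 28078855540) (nat_lit 76) (nat_lit 430138180) (nat_lit 152) (nat_lit 22063651895) (nat_lit 10) (nat_lit 5) (nat_lit 11) (nat_lit 5) (nat_lit 12) (nat_lit 4) (nat_lit 333) (nat_lit 262) (nat_lit 185)) (XT.nd (nat_lit 78) (nat_lit 0) (nat_lit 0) (XT.lf (nat_lit 0) (nat_lit 34827897682) (nat_lit 152) (nat_lit 12073264081) (nat_lit 0) (nat_lit 5876314360) (nat_lit 10) (nat_lit 5) (nat_lit 12) (nat_lit 4) (nat_lit 10) (nat_lit 4) (nat_lit 334) (nat_lit 262) (nat_lit 184)) (XT.lf (nat_lit 0) (nat_lit 41456545944) (nat_lit 152) (nat_lit 1162726131) (nat_lit 0) (nat_lit 12473596726) (nat_lit 10) (nat_lit 5) (nat_lit 12) (nat_lit 4) (nat_lit 10) (nat_lit 4) (nat_lit 335) (nat_lit 262) (nat_lit 183))))))))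
noncomputable def xc114 : XT := (XT.nd (nat_lit 1482) (nat_lit 152) (nat_lit 0) (XT.nd (nat_lit 702) (nat_lit 152) (nat_lit 0) (XT.nd (nat_lit 312) (nat_lit 76) (nat_lit 0) (XT.nd (nat_lit 156) (nat_lit 76) (nat_lit 0) (XT.nd (nat_lit 78) (nat_lit 0) (nat_lit 0) (XT.lf (nat_lit 0) (nat_lit 10610106580) (nat_lit 76) (nat_lit 37959552258) (nat_lit 76) (nat_lit 8946730758) (nat_lit 9) (nat_lit 4) (nat_lit 10) (nat_lit 5) (nat_lit 10) (nat_lit 4) (nat_lit 336) (nat_lit 262) (nat_lit 182)) (XT.lf (nat_lit 0) (nat_lit 22989494440) (nat_lit 76) (nat_lit 33056253436) (nat_lit 76) (nat_lit 4014982143) (nat_lit 9) (nat_lit 4) (nat_lit 10) (nat_lit 5) (nat_lit 10) (nat_lit 4) (nat_lit 337) (nat_lit 262) (nat_lit 181))) (XT.nd (nat_lit 78) (nat_lit 0) (nat_lit 0) (XT.lf (nat_lit 0) (nat_lit 1114135561) (nat_lit 152) (nat_lit 26784388433) (nat_lit 76) (nat_lit 34833463217) (nat_lit 8) (nat_lit 5)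 (nat_lit 10) (nat_lit 5) (nat_lit 9) (nat_lit 4) (nat_lit 338) (nat_lit 262) (nat_lit 180)) (XT.lf (nat_lit 0) (nat_lit 6353366327) (nat_lit 152) (nat_lit 16069770162) (nat_lit 76) (nat_lit 43110958762) (nat_lit 8) (nat_lit 5) (nat_lit 10) (nat_lit 5) (nat_lit 9) (nat_lit 4) (nat_lit 339) (nat_lit 262) (nat_lit 179)))) (XT.nd (nat_lit 156) (nat_lit 0) (nat_lit 0) (XT.nd (nat_lit 78) (nat_lit 76) (nat_lit 0) (XT.lf (nat_lit 0) (nat_lit 11843689018) (nat_lit 152) (nat_lit 4839184647) (nat_lit 76) (nat_lit 51793986420) (nat_lit 8) (nat_lit 5) (nat_lit 10) (nat_lit 5) (nat_lit 9) (nat_lit 4) (nat_lit 340) (nat_lit 262) (nat_lit 178)) (XT.lf (nat_lit 0) (nat_lit 7163380513) (nat_lit 76) (nat_lit 10546635761) (nat_lit 152) (nat_lit 53851679996) (nat_lit 7) (nat_lit 5) (nat_lit 8) (nat_lit 5) (nat_lit 9) (nat_lit 4) (nat_lit 341) (nat_lit 262) (nat_lit 177))) (XT.nd (nat_lit 78) (nat_lit 0)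 (nat_lit 0) (XT.lf (nat_lit 0) (nat_lit 19915560542) (nat_lit 76) (nat_lit 4025905091) (nat_lit 152) (nat_lit 50855725518) (nat_lit 7) (nat_lit 5) (nat_lit 8) (nat_lit 5) (nat_lit 9) (nat_lit 4) (nat_lit 342) (nat_lit 262) (nat_lit 176)) (XT.nd (nat_lit 78) (nat_lit 0) (nat_lit 0) (XT.lf (nat_lit 0) (nat_lit 30518739609) (nat_lit 152) (nat_lit 44951155479) (nat_lit 0) (nat_lit 2722859914) (nat_lit 7) (nat_lit 5) (nat_lit 9) (nat_lit 4) (nat_lit 7) (nat_lit 4) (nat_lit 343) (nat_lit 262) (nat_lit 175)) (XT.lf (nat_lit 0) (nat_lit 37481552476) (nat_lit 152) (nat_lit 34607300473) (nat_lit 0) (nat_lit 9666416842) (nat_lit 7) (nat_lit 5) (nat_lit 9) (nat_lit 4) (nat_lit 7) (nat_lit 4) (nat_lit 344) (nat_lit 262) (nat_lit 174)))))) (XT.nd (nat_lit 390) (nat_lit 76) (nat_lit 0) (XT.nd (nat_lit 156) (nat_lit 76) (nat_lit 0) (XT.nd (nat_lit 78) (nat_lit 0) (nat_lit 0) (XT.lf (nat_lit 0) (nat_lit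 44783626700) (nat_lit 152) (nat_lit 23762581707) (nat_lit 0) (nat_lit 16950152075) (nat_lit 7) (nat_lit 5) (nat_lit 9) (nat_lit 4) (nat_lit 7) (nat_lit 4) (nat_lit 345) (nat_lit 262) (nat_lit 173)) (XT.lf (nat_lit 0) (nat_lit 52442348171) (nat_lit 152) (nat_lit 12391178420) (nat_lit 0) (nat_lit 24591407841) (nat_lit 7) (nat_lit 5) (nat_lit 9) (nat_lit 4) (nat_lit 7) (nat_lit 4) (nat_lit 346) (nat_lit 262) (nat_lit 172))) (XT.nd (nat_lit 78) (nat_lit 76) (nat_lit 0) (XT.lf (nat_lit 0) (nat_lit 60475951940) (nat_lit 152) (nat_lit 466015843) (nat_lit 0) (nat_lit 32608377606) (nat_lit 7) (nat_lit 5) (nat_lit 9) (nat_lit 4) (nat_lit 7) (nat_lit 4) (nat_lit 347) (nat_lit 262) (nat_lit 171)) (XT.nd (nat_lit 78) (nat_lit 0) (nat_lit 0) (XT.lf (nat_lit 0) (nat_lit 12439439000) (nat_lit 76) (nat_lit 56658341139) (nat_lit 76) (nat_lit 28774924896) (nat_lit 6) (nat_lit 4) (nat_lit 7) (nat_lit 5)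 (nat_lit 7) (nat_lit 4) (nat_lit 348) (nat_lit 262) (nat_lit 170)) (XT.lf (nat_lit 0) (nat_lit 25992467520) (nat_lit 76) (nat_lit 52158602746) (nat_lit 76) (nat_lit 24260098970) (nat_lit 6) (nat_lit 4) (nat_lit 7) (nat_lit 5) (nat_lit 7) (nat_lit 4) (nat_lit 349) (nat_lit 262) (nat_lit 169))))) (XT.nd (nat_lit 156) (nat_lit 76) (nat_lit 0) (XT.nd (nat_lit 78) (nat_lit 0) (nat_lit 0) (XT.lf (nat_lit 0) (nat_lit 40209930242) (nat_lit 76) (nat_lit 47439931145) (nat_lit 76) (nat_lit 19527058291) (nat_lit 6) (nat_lit 4) (nat_lit 7) (nat_lit 5) (nat_lit 7) (nat_lit 4) (nat_lit 350) (nat_lit 262) (nat_lit 168)) (XT.lf (nat_lit 0) (nat_lit 55125678268) (nat_lit 76) (nat_lit 42491091405) (nat_lit 76) (nat_lit 14564533714) (nat_lit 6) (nat_lit 4) (nat_lit 7) (nat_lit 5) (nat_lit 7) (nat_lit 4) (nat_lit 351) (nat_lit 262) (nat_lit 167))) (XT.nd (nat_lit 78) (nat_lit 76) (nat_lit 0) (XT.lf (nat_lit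 0) (nat_lit 70775225283) (nat_lit 76) (nat_lit 37300300573) (nat_lit 76) (nat_lit 9360709704) (nat_lit 6) (nat_lit 4) (nat_lit 7) (nat_lit 5) (nat_lit 7) (nat_lit 4) (nat_lit 352) (nat_lit 262) (nat_lit 166)) (XT.nd (nat_lit 78) (nat_lit 76) (nat_lit 0) (XT.lf (nat_lit 0) (nat_lit 87195832114) (nat_lit 76) (nat_lit 31855199624) (nat_lit 76) (nat_lit 3903196205) (nat_lit 6) (nat_lit 4) (nat_lit 7) (nat_lit 5) (nat_lit 7) (nat_lit 4) (nat_lit 353) (nat_lit 262) (nat_lit 165)) (XT.lf (nat_lit 0) (nat_lit 1762717464) (nat_lit 152) (nat_lit 24350254093) (nat_lit 76) (nat_lit 102634025507) (nat_lit 5) (nat_lit 5) (nat_lit 7) (nat_lit 5) (nat_lit 6) (nat_lit 4) (nat_lit 354) (nat_lit 262) (nat_lit 164))))))) (XT.nd (nat_lit 780) (nat_lit 76) (nat_lit 0) (XT.nd (nat_lit 390) (nat_lit 0) (nat_lit 0) (XT.nd (nat_lit 156) (nat_lit 0) (nat_lit 0) (XT.nd (nat_lit 78) (nat_lit 76) (nat_lit 0) (XT.lf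 (nat_lit 0) (nat_lit 7575045335) (nat_lit 152) (nat_lit 12446240507) (nat_lit 76) (nat_lit 114805208506) (nat_lit 5) (nat_lit 5) (nat_lit 7) (nat_lit 5) (nat_lit 6) (nat_lit 4) (nat_lit 355) (nat_lit 262) (nat_lit 163)) (XT.lf (nat_lit 0) (nat_lit 44347033) (nat_lit 76) (nat_lit 13628898286) (nat_lit 152) (nat_lit 127536961842) (nat_lit 4) (nat_lit 5) (nat_lit 5) (nat_lit 5) (nat_lit 6) (nat_lit 4) (nat_lit 356) (nat_lit 262) (nat_lit 162))) (XT.nd (nat_lit 78) (nat_lit 0) (nat_lit 0) (XT.lf (nat_lit 0) (nat_lit 13581685243) (nat_lit 76) (nat_lit 6700121074) (nat_lit 152) (nat_lit 127621030034) (nat_lit 4) (nat_lit 5) (nat_lit 5) (nat_lit 5) (nat_lit 6) (nat_lit 4) (nat_lit 357) (nat_lit 262) (nat_lit 161)) (XT.nd (nat_lit 78) (nat_lit 0) (nat_lit 0) (XT.lf (nat_lit 0) (nat_lit 27224628343) (nat_lit 152) (nat_lit 127152788237) (nat_lit 0) (nat_lit 552491900) (nat_lit 4) (nat_lit 5)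 (nat_lit 6) (nat_lit 4) (nat_lit 4) (nat_lit 4) (nat_lit 358) (nat_lit 262) (nat_lit 160)) (XT.lf (nat_lit 0) (nat_lit 34619528695) (nat_lit 152) (nat_lit 119744990757) (nat_lit 0) (nat_lit 7938570884) (nat_lit 4) (nat_lit 5) (nat_lit 6) (nat_lit 4) (nat_lit 4) (nat_lit 4) (nat_lit 359) (nat_lit 262) (nat_lit 159))))) (XT.nd (nat_lit 156) (nat_lit 0) (nat_lit 0) (XT.nd (nat_lit 78) (nat_lit 0) (nat_lit 0) (XT.lf (nat_lit 0) (nat_lit 42379506612) (nat_lit 152) (nat_lit 111975513386) (nat_lit 0) (nat_lit 15690147498) (nat_lit 4) (nat_lit 5) (nat_lit 6) (nat_lit 4) (nat_lit 4) (nat_lit 4) (nat_lit 360) (nat_lit 262) (nat_lit 158)) (XT.lf (nat_lit 0) (nat_lit 50523038231) (nat_lit 152) (nat_lit 103825857370) (nat_lit 0) (nat_lit 23825677877) (nat_lit 4) (nat_lit 5) (nat_lit 6) (nat_lit 4) (nat_lit 4) (nat_lit 4) (nat_lit 361) (nat_lit 262) (nat_lit 157))) (XT.nd (nat_lit 78) (nat_lit 0)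 (nat_lit 0) (XT.lf (nat_lit 0) (nat_lit 59069512914) (nat_lit 152) (nat_lit 95276618765) (nat_lit 0) (nat_lit 32364532331) (nat_lit 4) (nat_lit 5) (nat_lit 6) (nat_lit 4) (nat_lit 4) (nat_lit 4) (nat_lit 362) (nat_lit 262) (nat_lit 156)) (XT.nd (nat_lit 78) (nat_lit 0) (nat_lit 0) (XT.lf (nat_lit 0) (nat_lit 68039279410) (nat_lit 152) (nat_lit 86307442241) (nat_lit 0) (nat_lit 41327041466) (nat_lit 4) (nat_lit 5) (nat_lit 6) (nat_lit 4) (nat_lit 4) (nat_lit 4) (nat_lit 363) (nat_lit 262) (nat_lit 155)) (XT.lf (nat_lit 0) (nat_lit 77453694306) (nat_lit 152) (nat_lit 76896972616) (nat_lit 0) (nat_lit 50734544589) (nat_lit 4) (nat_lit 5) (nat_lit 6) (nat_lit 4) (nat_lit 4) (nat_lit 4) (nat_lit 364) (nat_lit 262) (nat_lit 154)))))) (XT.nd (nat_lit 390) (nat_lit 76) (nat_lit 0) (XT.nd (nat_lit 156) (nat_lit 0) (nat_lit 0) (XT.nd (nat_lit 78) (nat_lit 0) (nat_lit 0) (XT.lf (nat_lit 0) (nat_lit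 87335172875) (nat_lit 152) (nat_lit 67022804009) (nat_lit 0) (nat_lit 60609440517) (nat_lit 4) (nat_lit 5) (nat_lit 6) (nat_lit 4) (nat_lit 4) (nat_lit 4) (nat_lit 365) (nat_lit 262) (nat_lit 153)) (XT.lf (nat_lit 0) (nat_lit 97707242447) (nat_lit 152) (nat_lit 56661426497) (nat_lit 0) (nat_lit 70975240908) (nat_lit 4) (nat_lit 5) (nat_lit 6) (nat_lit 4) (nat_lit 4) (nat_lit 4) (nat_lit 366) (nat_lit 262) (nat_lit 152))) (XT.nd (nat_lit 78) (nat_lit 0) (nat_lit 0) (XT.lf (nat_lit 0) (nat_lit 108594598426) (nat_lit 152) (nat_lit 45788170132) (nat_lit 0) (nat_lit 81856626238) (nat_lit 4) (nat_lit 5) (nat_lit 6) (nat_lit 4) (nat_lit 4) (nat_lit 4) (nat_lit 367) (nat_lit 262) (nat_lit 151)) (XT.nd (nat_lit 78) (nat_lit 0) (nat_lit 0) (XT.lf (nat_lit 0) (nat_lit 120023163089) (nat_lit 152) (nat_lit 34377146208) (nat_lit 0) (nat_lit 93279504568) (nat_lit 4) (nat_lit 5) (nat_lit 6) (nat_lit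 4) (nat_lit 4) (nat_lit 4) (nat_lit 368) (nat_lit 262) (nat_lit 150)) (XT.lf (nat_lit 0) (nat_lit 132020147302) (nat_lit 152) (nat_lit 22401185622) (nat_lit 0) (nat_lit 105271073228) (nat_lit 4) (nat_lit 5) (nat_lit 6) (nat_lit 4) (nat_lit 4) (nat_lit 4) (nat_lit 369) (nat_lit 262) (nat_lit 149))))) (XT.nd (nat_lit 156) (nat_lit 0) (nat_lit 0) (XT.nd (nat_lit 78) (nat_lit 76) (nat_lit 0) (XT.lf (nat_lit 0) (nat_lit 144614115316) (nat_lit 152) (nat_lit 9831774180) (nat_lit 0) (nat_lit 117859883570) (nat_lit 4) (nat_lit 5) (nat_lit 6) (nat_lit 4) (nat_lit 4) (nat_lit 4) (nat_lit 370) (nat_lit 262) (nat_lit 148)) (XT.lf (nat_lit 0) (nat_lit 3472145629) (nat_lit 76) (nat_lit 154417117061) (nat_lit 76) (nat_lit 127657973247) (nat_lit 3) (nat_lit 4) (nat_lit 4) (nat_lit 5) (nat_lit 4) (nat_lit 4) (nat_lit 371) (nat_lit 262) (nat_lit 147))) (XT.nd (nat_lit 78) (nat_lit 0) (nat_lit 0) (XT.lf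 (nat_lit 0) (nat_lit 17777588019) (nat_lit 76) (nat_lit 154214408028) (nat_lit 76) (nat_lit 127450586055) (nat_lit 3) (nat_lit 4) (nat_lit 4) (nat_lit 5) (nat_lit 4) (nat_lit 4) (nat_lit 372) (nat_lit 262) (nat_lit 146)) (XT.nd (nat_lit 78) (nat_lit 0) (nat_lit 0) (XT.lf (nat_lit 0) (nat_lit 32793530711) (nat_lit 76) (nat_lit 154003785611) (nat_lit 76) (nat_lit 127235508247) (nat_lit 3) (nat_lit 4) (nat_lit 4) (nat_lit 5) (nat_lit 4) (nat_lit 4) (nat_lit 373) (nat_lit 262) (nat_lit 145)) (XT.lf (nat_lit 0) (nat_lit 48555725948) (nat_lit 76) (nat_lit 153784748327) (nat_lit 76) (nat_lit 127012227735) (nat_lit 3) (nat_lit 4) (nat_lit 4) (nat_lit 5) (nat_lit 4) (nat_lit 4) (nat_lit 374) (nat_lit 262) (nat_lit 144))))))))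
noncomputable def xc115 : XT := (XT.nd (nat_lit 32526) (nat_lit 0) (nat_lit 3572) (XT.nd (nat_lit 702) (nat_lit 0) (nat_lit 0) (XT.nd (nat_lit 312) (nat_lit 0) (nat_lit 0) (XT.nd (nat_lit 156) (nat_lit 0) (nat_lit 0) (XT.nd (nat_lit 78) (nat_lit 0) (nat_lit 0) (XT.lf (nat_lit 0) (nat_lit 65101702767) (nat_lit 76) (nat_lit 153556774659) (nat_lit 76) (nat_lit 126780212896) (nat_lit 3) (nat_lit 4) (nat_lit 4) (nat_lit 5) (nat_lit 4) (nat_lit 4) (nat_lit 375) (nat_lit 262) (nat_lit 143)) (XT.lf (nat_lit 0) (nat_lit 82470856352) (nat_lit 76) (nat_lit 153319321812) (nat_lit 76) (nat_lit 126538911317) (nat_lit 3) (nat_lit 4) (nat_lit 4) (nat_lit 5) (nat_lit 4) (nat_lit 4) (nat_lit 376) (nat_lit 262) (nat_lit 142))) (XT.nd (nat_lit 78) (nat_lit 0) (nat_lit 0) (XT.lf (nat_lit 0) (nat_lit 100704541828) (nat_lit 76) (nat_lit 153071824424) (nat_lit 76) (nat_lit 126287748467) (nat_lit 3) (nat_lit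 4) (nat_lit 4) (nat_lit 5) (nat_lit 4) (nat_lit 4) (nat_lit 377) (nat_lit 262) (nat_lit 141)) (XT.lf (nat_lit 0) (nat_lit 119846172734) (nat_lit 76) (nat_lit 152813693213) (nat_lit 76) (nat_lit 126026126342) (nat_lit 3) (nat_lit 4) (nat_lit 4) (nat_lit 5) (nat_lit 4) (nat_lit 4) (nat_lit 378) (nat_lit 262) (nat_lit 140)))) (XT.nd (nat_lit 156) (nat_lit 0) (nat_lit 0) (XT.nd (nat_lit 78) (nat_lit 0) (nat_lit 0) (XT.lf (nat_lit 0) (nat_lit 139941324381) (nat_lit 76) (nat_lit 152544313583) (nat_lit 76) (nat_lit 125753422031) (nat_lit 3) (nat_lit 4) (nat_lit 4) (nat_lit 5) (nat_lit 4) (nat_lit 4) (nat_lit 379) (nat_lit 262) (nat_lit 139)) (XT.lf (nat_lit 0) (nat_lit 161037842368) (nat_lit 76) (nat_lit 152263044152) (nat_lit 76) (nat_lit 125468986238) (nat_lit 3) (nat_lit 4) (nat_lit 4) (nat_lit 5) (nat_lit 4) (nat_lit 4) (nat_lit 380) (nat_lit 262) (nat_lit 138))) (XT.nd (nat_lit 78) (nat_lit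 0) (nat_lit 0) (XT.lf (nat_lit 0) (nat_lit 183185956499) (nat_lit 76) (nat_lit 151969215233) (nat_lit 76) (nat_lit 125172141735) (nat_lit 3) (nat_lit 4) (nat_lit 4) (nat_lit 5) (nat_lit 4) (nat_lit 4) (nat_lit 381) (nat_lit 262) (nat_lit 137)) (XT.nd (nat_lit 78) (nat_lit 0) (nat_lit 0) (XT.lf (nat_lit 0) (nat_lit 206438400381) (nat_lit 76) (nat_lit 151662127231) (nat_lit 76) (nat_lit 124862181749) (nat_lit 3) (nat_lit 4) (nat_lit 4) (nat_lit 5) (nat_lit 4) (nat_lit 4) (nat_lit 382) (nat_lit 262) (nat_lit 136)) (XT.lf (nat_lit 0) (nat_lit 230850536974) (nat_lit 76) (nat_lit 151341048986) (nat_lit 76) (nat_lit 124538368281) (nat_lit 3) (nat_lit 4) (nat_lit 4) (nat_lit 5) (nat_lit 4) (nat_lit 4) (nat_lit 383) (nat_lit 262) (nat_lit 135)))))) (XT.nd (nat_lit 31434) (nat_lit 0) (nat_lit 8436) (XT.nd (nat_lit 31200) (nat_lit 0) (nat_lit 8816) (XT.nd (nat_lit 78) (nat_lit 0) (nat_lit 0) (XT.lf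 (nat_lit 0) (nat_lit 256480490414) (nat_lit 76) (nat_lit 151005216025) (nat_lit 76) (nat_lit 124199930346) (nat_lit 3) (nat_lit 4) (nat_lit 4) (nat_lit 5) (nat_lit 4) (nat_lit 4) (nat_lit 384) (nat_lit 262) (nat_lit 134)) (XT.lf (nat_lit 0) (nat_lit 283389284398) (nat_lit 76) (nat_lit 150653828747) (nat_lit 76) (nat_lit 123846062139) (nat_lit 3) (nat_lit 4) (nat_lit 4) (nat_lit 5) (nat_lit 4) (nat_lit 4) (nat_lit 385) (nat_lit 262) (nat_lit 133))) (XT.nd (nat_lit 78) (nat_lit 304) (nat_lit 0) (XT.lf (nat_lit 0) (nat_lit 715937830) (nat_lit 0) (nat_lit 715937830) (nat_lit 228) (nat_lit 1842756265) (nat_lit 123) (nat_lit 5) (nat_lit 123) (nat_lit 3) (nat_lit 126) (nat_lit 3) (nat_lit 263) (nat_lit 263) (nat_lit 254)) (XT.nd (nat_lit 78) (nat_lit 304) (nat_lit 0) (XT.lf (nat_lit 0) (nat_lit 4478266687) (nat_lit 0) (nat_lit 737083170) (nat_lit 228) (nat_lit 1374145682) (nat_lit 123) (nat_lit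 5) (nat_lit 123) (nat_lit 3) (nat_lit 126) (nat_lit 3) (nat_lit 264) (nat_lit 263) (nat_lit 253)) (XT.lf (nat_lit 0) (nat_lit 886994246) (nat_lit 304) (nat_lit 5657933393) (nat_lit 380) (nat_lit 93173434) (nat_lit 119) (nat_lit 5) (nat_lit 123) (nat_lit 5) (nat_lit 124) (nat_lit 5) (nat_lit 265) (nat_lit 263) (nat_lit 252))))) (XT.nd (nat_lit 156) (nat_lit 380) (nat_lit 0) (XT.nd (nat_lit 78) (nat_lit 0) (nat_lit 0) (XT.lf (nat_lit 0) (nat_lit 3121419226) (nat_lit 304) (nat_lit 2509058080) (nat_lit 380) (nat_lit 1062764374) (nat_lit 119) (nat_lit 5) (nat_lit 123) (nat_lit 5) (nat_lit 124) (nat_lit 5) (nat_lit 266) (nat_lit 263) (nat_lit 251)) (XT.lf (nat_lit 76) (nat_lit 739064618) (nat_lit 0) (nat_lit 4604786568) (nat_lit 380) (nat_lit 1413999143) (nat_lit 120) (nat_lit 5) (nat_lit 119) (nat_lit 5) (nat_lit 124) (nat_lit 5) (nat_lit 267) (nat_lit 263) (nat_lit 250))) (XT.nd (nat_lit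 78) (nat_lit 0) (nat_lit 0) (XT.lf (nat_lit 0) (nat_lit 734957439) (nat_lit 380) (nat_lit 2686251334) (nat_lit 456) (nat_lit 3408767097) (nat_lit 114) (nat_lit 5) (nat_lit 119) (nat_lit 5) (nat_lit 120) (nat_lit 5) (nat_lit 268) (nat_lit 263) (nat_lit 249)) (XT.nd (nat_lit 78) (nat_lit 0) (nat_lit 0) (XT.lf (nat_lit 76) (nat_lit 731824243) (nat_lit 0) (nat_lit 2097075802) (nat_lit 456) (nat_lit 4081849508) (nat_lit 115) (nat_lit 5) (nat_lit 114) (nat_lit 5) (nat_lit 120) (nat_lit 5) (nat_lit 269) (nat_lit 263) (nat_lit 248)) (XT.lf (nat_lit 76) (nat_lit 4334047776) (nat_lit 0) (nat_lit 617385226) (nat_lit 456) (nat_lit 2048366422) (nat_lit 115) (nat_lit 5) (nat_lit 114) (nat_lit 5) (nat_lit 120) (nat_lit 5) (nat_lit 270) (nat_lit 263) (nat_lit 247))))))) (XT.nd (nat_lit 780) (nat_lit 2052) (nat_lit 0) (XT.nd (nat_lit 390) (nat_lit 1368) (nat_lit 0) (XT.nd (nat_lit 156) (nat_lit 1064)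 (nat_lit 0) (XT.nd (nat_lit 78) (nat_lit 76) (nat_lit 0) (XT.lf (nat_lit 0) (nat_lit 956035220) (nat_lit 380) (nat_lit 6138410918) (nat_lit 456) (nat_lit 3549557) (nat_lit 110) (nat_lit 5) (nat_lit 115) (nat_lit 5) (nat_lit 116) (nat_lit 5) (nat_lit 271) (nat_lit 263) (nat_lit 246)) (XT.lf (nat_lit 0) (nat_lit 2017729611) (nat_lit 456) (nat_lit 2477514398) (nat_lit 76) (nat_lit 2707416426) (nat_lit 109) (nat_lit 5) (nat_lit 115) (nat_lit 5) (nat_lit 110) (nat_lit 5) (nat_lit 272) (nat_lit 263) (nat_lit 245))) (XT.nd (nat_lit 78) (nat_lit 608) (nat_lit 0) (XT.lf (nat_lit 0) (nat_lit 1330978379) (nat_lit 456) (nat_lit 2721965039) (nat_lit 532) (nat_lit 3264318129) (nat_lit 103) (nat_lit 5) (nat_lit 109) (nat_lit 5) (nat_lit 110) (nat_lit 5) (nat_lit 273) (nat_lit 263) (nat_lit 244)) (XT.nd (nat_lit 78) (nat_lit 608) (nat_lit 0) (XT.lf (nat_lit 0) (nat_lit 5335510485) (nat_lit 456) (nat_lit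 792452621) (nat_lit 532) (nat_lit 1313065959) (nat_lit 103) (nat_lit 5) (nat_lit 109) (nat_lit 5) (nat_lit 110) (nat_lit 5) (nat_lit 274) (nat_lit 263) (nat_lit 243)) (XT.lf (nat_lit 0) (nat_lit 661851503) (nat_lit 608) (nat_lit 5654850454) (nat_lit 76) (nat_lit 1256533216) (nat_lit 95) (nat_lit 5) (nat_lit 103) (nat_lit 5) (nat_lit 96) (nat_lit 5) (nat_lit 275) (nat_lit 263) (nat_lit 242))))) (XT.nd (nat_lit 156) (nat_lit 760) (nat_lit 0) (XT.nd (nat_lit 78) (nat_lit 608) (nat_lit 0) (XT.lf (nat_lit 0) (nat_lit 2643581677) (nat_lit 608) (nat_lit 1613154140) (nat_lit 76) (nat_lit 3456922269) (nat_lit 95) (nat_lit 5) (nat_lit 103) (nat_lit 5) (nat_lit 96) (nat_lit 5) (nat_lit 276) (nat_lit 263) (nat_lit 241)) (XT.lf (nat_lit 0) (nat_lit 2634601909) (nat_lit 608) (nat_lit 2038511783) (nat_lit 684) (nat_lit 3190831262) (nat_lit 87) (nat_lit 5) (nat_lit 95) (nat_lit 5) (nat_lit 96) (nat_lit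 5) (nat_lit 277) (nat_lit 263) (nat_lit 240))) (XT.nd (nat_lit 78) (nat_lit 760) (nat_lit 0) (XT.lf (nat_lit 0) (nat_lit 6747334836) (nat_lit 684) (nat_lit 958554631) (nat_lit 76) (nat_lit 318961382) (nat_lit 87) (nat_lit 5) (nat_lit 96) (nat_lit 5) (nat_lit 88) (nat_lit 5) (nat_lit 278) (nat_lit 263) (nat_lit 239)) (XT.nd (nat_lit 78) (nat_lit 0) (nat_lit 0) (XT.lf (nat_lit 0) (nat_lit 711475391) (nat_lit 760) (nat_lit 4680107852) (nat_lit 76) (nat_lit 2801717338) (nat_lit 77) (nat_lit 5) (nat_lit 87) (nat_lit 5) (nat_lit 78) (nat_lit 5) (nat_lit 279) (nat_lit 263) (nat_lit 238)) (XT.lf (nat_lit 0) (nat_lit 2689867979) (nat_lit 760) (nat_lit 230411124) (nat_lit 76) (nat_lit 5452431512) (nat_lit 77) (nat_lit 5) (nat_lit 87) (nat_lit 5) (nat_lit 78) (nat_lit 5) (nat_lit 280) (nat_lit 263) (nat_lit 237)))))) (XT.nd (nat_lit 390) (nat_lit 912) (nat_lit 0) (XT.nd (nat_lit 156) (nat_lit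 380) (nat_lit 0) (XT.nd (nat_lit 78) (nat_lit 380) (nat_lit 0) (XT.lf (nat_lit 0) (nat_lit 4508305017) (nat_lit 380) (nat_lit 249628945) (nat_lit 456) (nat_lit 3803837772) (nat_lit 72) (nat_lit 5) (nat_lit 77) (nat_lit 5) (nat_lit 78) (nat_lit 5) (nat_lit 281) (nat_lit 263) (nat_lit 236)) (XT.lf (nat_lit 0) (nat_lit 631558505) (nat_lit 380) (nat_lit 6274527363) (nat_lit 456) (nat_lit 1855573787) (nat_lit 67) (nat_lit 5) (nat_lit 72) (nat_lit 5) (nat_lit 73) (nat_lit 5) (nat_lit 282) (nat_lit 263) (nat_lit 235))) (XT.nd (nat_lit 78) (nat_lit 304) (nat_lit 0) (XT.lf (nat_lit 0) (nat_lit 181872105) (nat_lit 456) (nat_lit 3366708488) (nat_lit 76) (nat_lit 5423108870) (nat_lit 66) (nat_lit 5) (nat_lit 72) (nat_lit 5) (nat_lit 67) (nat_lit 5) (nat_lit 283) (nat_lit 263) (nat_lit 234)) (XT.nd (nat_lit 78) (nat_lit 0) (nat_lit 0) (XT.lf (nat_lit 0) (nat_lit 1576831205) (nat_lit 304) (nat_lit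 634226146) (nat_lit 380) (nat_lit 6982210694) (nat_lit 62) (nat_lit 5) (nat_lit 66) (nat_lit 5) (nat_lit 67) (nat_lit 5) (nat_lit 284) (nat_lit 263) (nat_lit 233)) (XT.lf (nat_lit 0) (nat_lit 4367279286) (nat_lit 380) (nat_lit 2657837977) (nat_lit 76) (nat_lit 2399700445) (nat_lit 62) (nat_lit 5) (nat_lit 67) (nat_lit 5) (nat_lit 63) (nat_lit 5) (nat_lit 285) (nat_lit 263) (nat_lit 232))))) (XT.nd (nat_lit 156) (nat_lit 608) (nat_lit 0) (XT.nd (nat_lit 78) (nat_lit 0) (nat_lit 0) (XT.lf (nat_lit 0) (nat_lit 2543130985) (nat_lit 304) (nat_lit 4071380675) (nat_lit 380) (nat_lit 3054436105) (nat_lit 58) (nat_lit 5) (nat_lit 62) (nat_lit 5) (nat_lit 63) (nat_lit 5) (nat_lit 286) (nat_lit 263) (nat_lit 231)) (XT.lf (nat_lit 0) (nat_lit 8021098581) (nat_lit 304) (nat_lit 933125484) (nat_lit 380) (nat_lit 972209459) (nat_lit 58) (nat_lit 5) (nat_lit 62) (nat_lit 5) (nat_lit 63) (nat_lit 5)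 (nat_lit 287) (nat_lit 263) (nat_lit 230))) (XT.nd (nat_lit 78) (nat_lit 304) (nat_lit 0) (XT.lf (nat_lit 0) (nat_lit 1206429111) (nat_lit 304) (nat_lit 6635835812) (nat_lit 76) (nat_lit 2352163538) (nat_lit 54) (nat_lit 5) (nat_lit 58) (nat_lit 5) (nat_lit 55) (nat_lit 5) (nat_lit 288) (nat_lit 263) (nat_lit 229)) (XT.nd (nat_lit 78) (nat_lit 304) (nat_lit 0) (XT.lf (nat_lit 0) (nat_lit 3448141298) (nat_lit 304) (nat_lit 1219881485) (nat_lit 76) (nat_lit 5807796753) (nat_lit 54) (nat_lit 5) (nat_lit 58) (nat_lit 5) (nat_lit 55) (nat_lit 5) (nat_lit 289) (nat_lit 263) (nat_lit 228)) (XT.lf (nat_lit 0) (nat_lit 4540014320) (nat_lit 304) (nat_lit 1274445608) (nat_lit 380) (nat_lit 4956321815) (nat_lit 50) (nat_lit 5) (nat_lit 54) (nat_lit 5) (nat_lit 55) (nat_lit 5) (nat_lit 290) (nat_lit 263) (nat_lit 227))))))))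
noncomputable def xc116 : XT := (XT.nd (nat_lit 1482) (nat_lit 988) (nat_lit 0) (XT.nd (nat_lit 702) (nat_lit 836) (nat_lit 0) (XT.nd (nat_lit 312) (nat_lit 608) (nat_lit 0) (XT.nd (nat_lit 156) (nat_lit 304) (nat_lit 0) (XT.nd (nat_lit 78) (nat_lit 228) (nat_lit 0) (XT.lf (nat_lit 0) (nat_lit 8298912855) (nat_lit 380) (nat_lit 559009831) (nat_lit 76) (nat_lit 2222699997) (nat_lit 50) (nat_lit 5) (nat_lit 55) (nat_lit 5) (nat_lit 51) (nat_lit 5) (nat_lit 291) (nat_lit 263) (nat_lit 226)) (XT.lf (nat_lit 0) (nat_lit 5480635005) (nat_lit 228) (nat_lit 5479209911) (nat_lit 304) (nat_lit 443613685) (nat_lit 47) (nat_lit 5) (nat_lit 50) (nat_lit 5) (nat_lit 51) (nat_lit 5) (nat_lit 292) (nat_lit 263) (nat_lit 225))) (XT.nd (nat_lit 78) (nat_lit 228) (nat_lit 0) (XT.lf (nat_lit 0) (nat_lit 1902960263) (nat_lit 304) (nat_lit 2821556) (nat_lit 76) (nat_lit 9837391820) (nat_lit 46) (nat_lit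 5) (nat_lit 50) (nat_lit 5) (nat_lit 47) (nat_lit 5) (nat_lit 293) (nat_lit 263) (nat_lit 224)) (XT.lf (nat_lit 0) (nat_lit 4430154435) (nat_lit 304) (nat_lit 5786249019) (nat_lit 76) (nat_lit 1879297358) (nat_lit 43) (nat_lit 5) (nat_lit 47) (nat_lit 5) (nat_lit 44) (nat_lit 5) (nat_lit 294) (nat_lit 263) (nat_lit 223)))) (XT.nd (nat_lit 156) (nat_lit 456) (nat_lit 0) (XT.nd (nat_lit 78) (nat_lit 0) (nat_lit 0) (XT.lf (nat_lit 0) (nat_lit 383806644) (nat_lit 152) (nat_lit 6687202235) (nat_lit 228) (nat_lit 5395575668) (nat_lit 41) (nat_lit 5) (nat_lit 43) (nat_lit 5) (nat_lit 44) (nat_lit 5) (nat_lit 295) (nat_lit 263) (nat_lit 222)) (XT.lf (nat_lit 0) (nat_lit 6995541310) (nat_lit 152) (nat_lit 2897698031) (nat_lit 228) (nat_lit 2960397160) (nat_lit 41) (nat_lit 5) (nat_lit 43) (nat_lit 5) (nat_lit 44) (nat_lit 5) (nat_lit 296) (nat_lit 263) (nat_lit 221))) (XT.nd (nat_lit 78) (nat_lit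 228) (nat_lit 0) (XT.lf (nat_lit 0) (nat_lit 613985928) (nat_lit 228) (nat_lit 12222437507) (nat_lit 304) (nat_lit 424711888) (nat_lit 38) (nat_lit 5) (nat_lit 41) (nat_lit 5) (nat_lit 42) (nat_lit 5) (nat_lit 297) (nat_lit 263) (nat_lit 220)) (XT.nd (nat_lit 78) (nat_lit 152) (nat_lit 0) (XT.lf (nat_lit 0) (nat_lit 2268221763) (nat_lit 304) (nat_lit 6222203644) (nat_lit 76) (nat_lit 5191810827) (nat_lit 37) (nat_lit 5) (nat_lit 41) (nat_lit 5) (nat_lit 38) (nat_lit 5) (nat_lit 298) (nat_lit 263) (nat_lit 219)) (XT.lf (nat_lit 0) (nat_lit 468066352) (nat_lit 152) (nat_lit 4576720018) (nat_lit 228) (nat_lit 9081169444) (nat_lit 35) (nat_lit 5) (nat_lit 37) (nat_lit 5) (nat_lit 38) (nat_lit 5) (nat_lit 299) (nat_lit 263) (nat_lit 218)))))) (XT.nd (nat_lit 390) (nat_lit 380) (nat_lit 0) (XT.nd (nat_lit 156) (nat_lit 456) (nat_lit 0) (XT.nd (nat_lit 78) (nat_lit 0) (nat_lit 0) (XT.lf (nat_lit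 0) (nat_lit 7645960426) (nat_lit 152) (nat_lit 376659794) (nat_lit 228) (nat_lit 6566190165) (nat_lit 35) (nat_lit 5) (nat_lit 37) (nat_lit 5) (nat_lit 38) (nat_lit 5) (nat_lit 300) (nat_lit 263) (nat_lit 217)) (XT.lf (nat_lit 0) (nat_lit 11171130984) (nat_lit 228) (nat_lit 16760953) (nat_lit 76) (nat_lit 3885894167) (nat_lit 35) (nat_lit 5) (nat_lit 38) (nat_lit 5) (nat_lit 36) (nat_lit 5) (nat_lit 301) (nat_lit 263) (nat_lit 216))) (XT.nd (nat_lit 78) (nat_lit 228) (nat_lit 0) (XT.lf (nat_lit 0) (nat_lit 7428423467) (nat_lit 228) (nat_lit 7131570876) (nat_lit 304) (nat_lit 1018934367) (nat_lit 32) (nat_lit 5) (nat_lit 35) (nat_lit 5) (nat_lit 36) (nat_lit 5) (nat_lit 302) (nat_lit 263) (nat_lit 215)) (XT.nd (nat_lit 78) (nat_lit 152) (nat_lit 0) (XT.lf (nat_lit 0) (nat_lit 1906013246) (nat_lit 304) (nat_lit 953423848) (nat_lit 76) (nat_lit 13250314508) (nat_lit 31) (nat_lit 5) (nat_lit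 35) (nat_lit 5) (nat_lit 32) (nat_lit 5) (nat_lit 303) (nat_lit 263) (nat_lit 214)) (XT.lf (nat_lit 0) (nat_lit 5038292401) (nat_lit 228) (nat_lit 9943651279) (nat_lit 76) (nat_lit 1679626094) (nat_lit 29) (nat_lit 5) (nat_lit 32) (nat_lit 5) (nat_lit 30) (nat_lit 5) (nat_lit 304) (nat_lit 263) (nat_lit 213))))) (XT.nd (nat_lit 156) (nat_lit 228) (nat_lit 0) (XT.nd (nat_lit 78) (nat_lit 152) (nat_lit 0) (XT.lf (nat_lit 0) (nat_lit 8353979206) (nat_lit 228) (nat_lit 2538405992) (nat_lit 76) (nat_lit 6347307001) (nat_lit 29) (nat_lit 5) (nat_lit 32) (nat_lit 5) (nat_lit 30) (nat_lit 5) (nat_lit 305) (nat_lit 263) (nat_lit 212)) (XT.lf (nat_lit 0) (nat_lit 5354161072) (nat_lit 152) (nat_lit 6530126815) (nat_lit 228) (nat_lit 5960041485) (nat_lit 27) (nat_lit 5) (nat_lit 29) (nat_lit 5) (nat_lit 30) (nat_lit 5) (nat_lit 306) (nat_lit 263) (nat_lit 211))) (XT.nd (nat_lit 78) (nat_lit 228)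 (nat_lit 0) (XT.lf (nat_lit 0) (nat_lit 13676053057) (nat_lit 152) (nat_lit 1924112989) (nat_lit 228) (nat_lit 2878627754) (nat_lit 27) (nat_lit 5) (nat_lit 29) (nat_lit 5) (nat_lit 30) (nat_lit 5) (nat_lit 307) (nat_lit 263) (nat_lit 210)) (XT.nd (nat_lit 78) (nat_lit 0) (nat_lit 0) (XT.lf (nat_lit 0) (nat_lit 410449124) (nat_lit 228) (nat_lit 15872256519) (nat_lit 76) (nat_lit 2858790150) (nat_lit 24) (nat_lit 5) (nat_lit 27) (nat_lit 5) (nat_lit 25) (nat_lit 5) (nat_lit 308) (nat_lit 263) (nat_lit 209)) (XT.lf (nat_lit 0) (nat_lit 3849028572) (nat_lit 228) (nat_lit 8054303707) (nat_lit 76) (nat_lit 7927593151) (nat_lit 24) (nat_lit 5) (nat_lit 27) (nat_lit 5) (nat_lit 25) (nat_lit 5) (nat_lit 309) (nat_lit 263) (nat_lit 208))))))) (XT.nd (nat_lit 780) (nat_lit 456) (nat_lit 0) (XT.nd (nat_lit 390) (nat_lit 228) (nat_lit 0) (XT.nd (nat_lit 156) (nat_lit 152) (nat_lit 0) (XT.nd (nat_lit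 78) (nat_lit 0) (nat_lit 0) (XT.lf (nat_lit 0) (nat_lit 107974585) (nat_lit 152) (nat_lit 7322368699) (nat_lit 228) (nat_lit 13125982521) (nat_lit 22) (nat_lit 5) (nat_lit 24) (nat_lit 5) (nat_lit 25) (nat_lit 5) (nat_lit 310) (nat_lit 263) (nat_lit 207)) (XT.lf (nat_lit 0) (nat_lit 8908772913) (nat_lit 152) (nat_lit 2388176827) (nat_lit 228) (nat_lit 10015772844) (nat_lit 22) (nat_lit 5) (nat_lit 24) (nat_lit 5) (nat_lit 25) (nat_lit 5) (nat_lit 311) (nat_lit 263) (nat_lit 206))) (XT.nd (nat_lit 78) (nat_lit 152) (nat_lit 0) (XT.lf (nat_lit 0) (nat_lit 15371465116) (nat_lit 228) (nat_lit 4048997308) (nat_lit 76) (nat_lit 2685783741) (nat_lit 22) (nat_lit 5) (nat_lit 25) (nat_lit 5) (nat_lit 23) (nat_lit 4) (nat_lit 312) (nat_lit 263) (nat_lit 205)) (XT.nd (nat_lit 78) (nat_lit 76) (nat_lit 0) (XT.lf (nat_lit 0) (nat_lit 4792152955) (nat_lit 76) (nat_lit 14943881098) (nat_lit 152) (nat_lit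 3199129664) (nat_lit 21) (nat_lit 5) (nat_lit 22) (nat_lit 5) (nat_lit 23) (nat_lit 4) (nat_lit 313) (nat_lit 263) (nat_lit 204)) (XT.lf (nat_lit 0) (nat_lit 539068085) (nat_lit 152) (nat_lit 9641284155) (nat_lit 76) (nat_lit 13622695568) (nat_lit 20) (nat_lit 5) (nat_lit 22) (nat_lit 5) (nat_lit 21) (nat_lit 5) (nat_lit 314) (nat_lit 263) (nat_lit 203))))) (XT.nd (nat_lit 156) (nat_lit 76) (nat_lit 0) (XT.nd (nat_lit 78) (nat_lit 152) (nat_lit 0) (XT.lf (nat_lit 0) (nat_lit 4330470543) (nat_lit 152) (nat_lit 810706562) (nat_lit 76) (nat_lit 19571865962) (nat_lit 20) (nat_lit 5) (nat_lit 22) (nat_lit 5) (nat_lit 21) (nat_lit 5) (nat_lit 315) (nat_lit 263) (nat_lit 202)) (XT.lf (nat_lit 0) (nat_lit 8426604353) (nat_lit 228) (nat_lit 16969241576) (nat_lit 76) (nat_lit 266962220) (nat_lit 18) (nat_lit 5) (nat_lit 21) (nat_lit 5) (nat_lit 19) (nat_lit 4) (nat_lit 316) (nat_lit 263) (nat_lit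 201))) (XT.nd (nat_lit 78) (nat_lit 76) (nat_lit 0) (XT.lf (nat_lit 0) (nat_lit 12801122668) (nat_lit 228) (nat_lit 8084702090) (nat_lit 76) (nat_lit 5770584620) (nat_lit 18) (nat_lit 5) (nat_lit 21) (nat_lit 5) (nat_lit 19) (nat_lit 4) (nat_lit 317) (nat_lit 263) (nat_lit 200)) (XT.nd (nat_lit 78) (nat_lit 0) (nat_lit 0) (XT.lf (nat_lit 0) (nat_lit 1243856804) (nat_lit 76) (nat_lit 16146445841) (nat_lit 152) (nat_lit 10309616744) (nat_lit 17) (nat_lit 5) (nat_lit 18) (nat_lit 5) (nat_lit 19) (nat_lit 4) (nat_lit 318) (nat_lit 263) (nat_lit 199)) (XT.lf (nat_lit 0) (nat_lit 11280152957) (nat_lit 76) (nat_lit 11042726236) (nat_lit 152) (nat_lit 6467053121) (nat_lit 17) (nat_lit 5) (nat_lit 18) (nat_lit 5) (nat_lit 19) (nat_lit 4) (nat_lit 319) (nat_lit 263) (nat_lit 198)))))) (XT.nd (nat_lit 390) (nat_lit 228) (nat_lit 0) (XT.nd (nat_lit 156) (nat_lit 0) (nat_lit 0) (XT.nd (nat_lit 78)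 (nat_lit 228) (nat_lit 0) (XT.lf (nat_lit 0) (nat_lit 21780765550) (nat_lit 76) (nat_lit 5699432571) (nat_lit 152) (nat_lit 2455365224) (nat_lit 17) (nat_lit 5) (nat_lit 18) (nat_lit 5) (nat_lit 19) (nat_lit 4) (nat_lit 320) (nat_lit 263) (nat_lit 197)) (XT.lf (nat_lit 0) (nat_lit 1657105397) (nat_lit 152) (nat_lit 48234457) (nat_lit 228) (nat_lit 29431552305) (nat_lit 14) (nat_lit 5) (nat_lit 16) (nat_lit 5) (nat_lit 17) (nat_lit 5) (nat_lit 321) (nat_lit 263) (nat_lit 196))) (XT.nd (nat_lit 78) (nat_lit 0) (nat_lit 0) (XT.lf (nat_lit 0) (nat_lit 6202830123) (nat_lit 228) (nat_lit 20319737162) (nat_lit 76) (nat_lit 5863164206) (nat_lit 14) (nat_lit 5) (nat_lit 17) (nat_lit 5) (nat_lit 15) (nat_lit 4) (nat_lit 322) (nat_lit 263) (nat_lit 195)) (XT.nd (nat_lit 78) (nat_lit 0) (nat_lit 0) (XT.lf (nat_lit 0) (nat_lit 10905992606) (nat_lit 228) (nat_lit 10737399149) (nat_lit 76) (nat_lit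 12054600184) (nat_lit 14) (nat_lit 5) (nat_lit 17) (nat_lit 5) (nat_lit 15) (nat_lit 4) (nat_lit 323) (nat_lit 263) (nat_lit 194)) (XT.lf (nat_lit 0) (nat_lit 15825272232) (nat_lit 228) (nat_lit 709204558) (nat_lit 76) (nat_lit 18542358796) (nat_lit 14) (nat_lit 5) (nat_lit 17) (nat_lit 5) (nat_lit 15) (nat_lit 4) (nat_lit 324) (nat_lit 263) (nat_lit 193))))) (XT.nd (nat_lit 156) (nat_lit 152) (nat_lit 0) (XT.nd (nat_lit 78) (nat_lit 0) (nat_lit 0) (XT.lf (nat_lit 0) (nat_lit 10112382663) (nat_lit 76) (nat_lit 11017881544) (nat_lit 152) (nat_lit 15387387055) (nat_lit 13) (nat_lit 5) (nat_lit 14) (nat_lit 5) (nat_lit 15) (nat_lit 4) (nat_lit 325) (nat_lit 263) (nat_lit 192)) (XT.lf (nat_lit 0) (nat_lit 21468505641) (nat_lit 76) (nat_lit 5226253550) (nat_lit 152) (nat_lit 11336052301) (nat_lit 13) (nat_lit 5) (nat_lit 14) (nat_lit 5) (nat_lit 15) (nat_lit 4) (nat_lit 326) (nat_lit 263)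 (nat_lit 191))) (XT.nd (nat_lit 78) (nat_lit 152) (nat_lit 0) (XT.lf (nat_lit 0) (nat_lit 32533716085) (nat_lit 152) (nat_lit 6270886608) (nat_lit 0) (nat_lit 815230844) (nat_lit 13) (nat_lit 5) (nat_lit 15) (nat_lit 4) (nat_lit 13) (nat_lit 4) (nat_lit 327) (nat_lit 263) (nat_lit 190)) (XT.nd (nat_lit 78) (nat_lit 76) (nat_lit 0) (XT.lf (nat_lit 0) (nat_lit 4566691495) (nat_lit 76) (nat_lit 34238608183) (nat_lit 76) (nat_lit 2475987976) (nat_lit 12) (nat_lit 4) (nat_lit 13) (nat_lit 5) (nat_lit 13) (nat_lit 4) (nat_lit 328) (nat_lit 263) (nat_lit 189)) (XT.lf (nat_lit 0) (nat_lit 2380666326) (nat_lit 152) (nat_lit 26924287538) (nat_lit 76) (nat_lit 13714443108) (nat_lit 11) (nat_lit 5) (nat_lit 13) (nat_lit 5) (nat_lit 12) (nat_lit 4) (nat_lit 329) (nat_lit 263) (nat_lit 188))))))))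
noncomputable def xc117 : XT := (XT.nd (nat_lit 1482) (nat_lit 228) (nat_lit 0) (XT.nd (nat_lit 702) (nat_lit 152) (nat_lit 0) (XT.nd (nat_lit 312) (nat_lit 76) (nat_lit 0) (XT.nd (nat_lit 156) (nat_lit 76) (nat_lit 0) (XT.nd (nat_lit 78) (nat_lit 0) (nat_lit 0) (XT.lf (nat_lit 0) (nat_lit 7381477593) (nat_lit 152) (nat_lit 16712656157) (nat_lit 76) (nat_lit 20749034708) (nat_lit 11) (nat_lit 5) (nat_lit 13) (nat_lit 5) (nat_lit 12) (nat_lit 4) (nat_lit 330) (nat_lit 263) (nat_lit 187)) (XT.lf (nat_lit 0) (nat_lit 12617599594) (nat_lit 152) (nat_lit 6016731497) (nat_lit 76) (nat_lit 28124546187) (nat_lit 11) (nat_lit 5) (nat_lit 13) (nat_lit 5) (nat_lit 12) (nat_lit 4) (nat_lit 331) (nat_lit 263) (nat_lit 186))) (XT.nd (nat_lit 78) (nat_lit 0) (nat_lit 0) (XT.lf (nat_lit 0) (nat_lit 5360523147) (nat_lit 76) (nat_lit 12824668930) (nat_lit 152) (nat_lit 30581707929) (nat_lit 10) (nat_lit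 5) (nat_lit 11) (nat_lit 5) (nat_lit 12) (nat_lit 4) (nat_lit 332) (nat_lit 263) (nat_lit 185)) (XT.lf (nat_lit 0) (nat_lit 17490895202) (nat_lit 76) (nat_lit 6628420268) (nat_lit 152) (nat_lit 26751611964) (nat_lit 10) (nat_lit 5) (nat_lit 11) (nat_lit 5) (nat_lit 12) (nat_lit 4) (nat_lit 333) (nat_lit 263) (nat_lit 184)))) (XT.nd (nat_lit 156) (nat_lit 76) (nat_lit 0) (XT.nd (nat_lit 78) (nat_lit 0) (nat_lit 0) (XT.lf (nat_lit 0) (nat_lit 30204326191) (nat_lit 76) (nat_lit 132728391) (nat_lit 152) (nat_lit 22743766773) (nat_lit 10) (nat_lit 5) (nat_lit 11) (nat_lit 5) (nat_lit 12) (nat_lit 4) (nat_lit 334) (nat_lit 263) (nat_lit 183)) (XT.lf (nat_lit 0) (nat_lit 36957473861) (nat_lit 152) (nat_lit 11975017541) (nat_lit 0) (nat_lit 6464139004) (nat_lit 10) (nat_lit 5) (nat_lit 12) (nat_lit 4) (nat_lit 10) (nat_lit 4) (nat_lit 335) (nat_lit 263) (nat_lit 182))) (XT.nd (nat_lit 78) (nat_lit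 76) (nat_lit 0) (XT.lf (nat_lit 0) (nat_lit 43899069713) (nat_lit 152) (nat_lit 552376967) (nat_lit 0) (nat_lit 13377285063) (nat_lit 10) (nat_lit 5) (nat_lit 12) (nat_lit 4) (nat_lit 10) (nat_lit 4) (nat_lit 336) (nat_lit 263) (nat_lit 181)) (XT.nd (nat_lit 78) (nat_lit 0) (nat_lit 0) (XT.lf (nat_lit 0) (nat_lit 11798315356) (nat_lit 76) (nat_lit 39562186896) (nat_lit 76) (nat_lit 9013307205) (nat_lit 9) (nat_lit 4) (nat_lit 10) (nat_lit 5) (nat_lit 10) (nat_lit 4) (nat_lit 337) (nat_lit 263) (nat_lit 180)) (XT.lf (nat_lit 0) (nat_lit 24765353397) (nat_lit 76) (nat_lit 34427787084) (nat_lit 76) (nat_lit 3853102593) (nat_lit 9) (nat_lit 4) (nat_lit 10) (nat_lit 5) (nat_lit 10) (nat_lit 4) (nat_lit 338) (nat_lit 263) (nat_lit 179)))))) (XT.nd (nat_lit 390) (nat_lit 0) (nat_lit 0) (XT.nd (nat_lit 156) (nat_lit 76) (nat_lit 0) (XT.nd (nat_lit 78) (nat_lit 0) (nat_lit 0) (XT.lf (nat_lit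 0) (nat_lit 1504149268) (nat_lit 152) (nat_lit 27515754491) (nat_lit 76) (nat_lit 36831724213) (nat_lit 8) (nat_lit 5) (nat_lit 10) (nat_lit 5) (nat_lit 9) (nat_lit 4) (nat_lit 339) (nat_lit 263) (nat_lit 178)) (XT.lf (nat_lit 0) (nat_lit 6989422196) (nat_lit 152) (nat_lit 16294350705) (nat_lit 76) (nat_lit 45510876068) (nat_lit 8) (nat_lit 5) (nat_lit 10) (nat_lit 5) (nat_lit 9) (nat_lit 4) (nat_lit 340) (nat_lit 263) (nat_lit 177))) (XT.nd (nat_lit 78) (nat_lit 76) (nat_lit 0) (XT.lf (nat_lit 0) (nat_lit 12739099709) (nat_lit 152) (nat_lit 4529802960) (nat_lit 76) (nat_lit 54616418471) (nat_lit 8) (nat_lit 5) (nat_lit 10) (nat_lit 5) (nat_lit 9) (nat_lit 4) (nat_lit 341) (nat_lit 263) (nat_lit 176)) (XT.nd (nat_lit 78) (nat_lit 0) (nat_lit 0) (XT.lf (nat_lit 0) (nat_lit 8063997862) (nat_lit 76) (nat_lit 10828775259) (nat_lit 152) (nat_lit 56231935030) (nat_lit 7) (nat_lit 5) (nat_lit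 8) (nat_lit 5) (nat_lit 9) (nat_lit 4) (nat_lit 342) (nat_lit 263) (nat_lit 175)) (XT.lf (nat_lit 0) (nat_lit 21427956020) (nat_lit 76) (nat_lit 3993683879) (nat_lit 152) (nat_lit 53101055637) (nat_lit 7) (nat_lit 5) (nat_lit 8) (nat_lit 5) (nat_lit 9) (nat_lit 4) (nat_lit 343) (nat_lit 263) (nat_lit 174))))) (XT.nd (nat_lit 156) (nat_lit 0) (nat_lit 0) (XT.nd (nat_lit 78) (nat_lit 0) (nat_lit 0) (XT.lf (nat_lit 0) (nat_lit 32317768809) (nat_lit 152) (nat_lit 46696497273) (nat_lit 0) (nat_lit 3074281463) (nat_lit 7) (nat_lit 5) (nat_lit 9) (nat_lit 4) (nat_lit 7) (nat_lit 4) (nat_lit 344) (nat_lit 263) (nat_lit 173)) (XT.lf (nat_lit 0) (nat_lit 39615717928) (nat_lit 152) (nat_lit 35859364564) (nat_lit 0) (nat_lit 10354764878) (nat_lit 7) (nat_lit 5) (nat_lit 9) (nat_lit 4) (nat_lit 7) (nat_lit 4) (nat_lit 345) (nat_lit 263) (nat_lit 172))) (XT.nd (nat_lit 78) (nat_lit 0) (nat_lit 0)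 (XT.lf (nat_lit 0) (nat_lit 47270510728) (nat_lit 152) (nat_lit 24495186094) (nat_lit 0) (nat_lit 17992923673) (nat_lit 7) (nat_lit 5) (nat_lit 9) (nat_lit 4) (nat_lit 7) (nat_lit 4) (nat_lit 346) (nat_lit 263) (nat_lit 171)) (XT.nd (nat_lit 78) (nat_lit 0) (nat_lit 0) (XT.lf (nat_lit 0) (nat_lit 55300372907) (nat_lit 152) (nat_lit 12576904296) (nat_lit 0) (nat_lit 26006943942) (nat_lit 7) (nat_lit 5) (nat_lit 9) (nat_lit 4) (nat_lit 7) (nat_lit 4) (nat_lit 347) (nat_lit 263) (nat_lit 170)) (XT.lf (nat_lit 0) (nat_lit 63724423182) (nat_lit 152) (nat_lit 76142306) (nat_lit 0) (nat_lit 34415906685) (nat_lit 7) (nat_lit 5) (nat_lit 9) (nat_lit 4) (nat_lit 7) (nat_lit 4) (nat_lit 348) (nat_lit 263) (nat_lit 169))))))) (XT.nd (nat_lit 780) (nat_lit 0) (nat_lit 0) (XT.nd (nat_lit 390) (nat_lit 152) (nat_lit 0) (XT.nd (nat_lit 156) (nat_lit 0) (nat_lit 0) (XT.nd (nat_lit 78) (nat_lit 0) (nat_lit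 0) (XT.lf (nat_lit 0) (nat_lit 13467921177) (nat_lit 76) (nat_lit 59305069633) (nat_lit 76) (nat_lit 29982184058) (nat_lit 6) (nat_lit 4) (nat_lit 7) (nat_lit 5) (nat_lit 7) (nat_lit 4) (nat_lit 349) (nat_lit 263) (nat_lit 168)) (XT.lf (nat_lit 0) (nat_lit 27679243493) (nat_lit 76) (nat_lit 54589210442) (nat_lit 76) (nat_lit 25252640030) (nat_lit 6) (nat_lit 4) (nat_lit 7) (nat_lit 5) (nat_lit 7) (nat_lit 4) (nat_lit 350) (nat_lit 263) (nat_lit 167))) (XT.nd (nat_lit 78) (nat_lit 0) (nat_lit 0) (XT.lf (nat_lit 0) (nat_lit 42589143513) (nat_lit 76) (nat_lit 49643049188) (nat_lit 76) (nat_lit 20293445598) (nat_lit 6) (nat_lit 4) (nat_lit 7) (nat_lit 5) (nat_lit 7) (nat_lit 4) (nat_lit 351) (nat_lit 263) (nat_lit 166)) (XT.nd (nat_lit 78) (nat_lit 0) (nat_lit 0) (XT.lf (nat_lit 0) (nat_lit 58233120999) (nat_lit 76) (nat_lit 44454809294) (nat_lit 76) (nat_lit 15092793154) (nat_lit 6) (nat_lit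 4) (nat_lit 7) (nat_lit 5) (nat_lit 7) (nat_lit 4) (nat_lit 352) (nat_lit 263) (nat_lit 165)) (XT.lf (nat_lit 0) (nat_lit 74648423517) (nat_lit 76) (nat_lit 39012137810) (nat_lit 76) (nat_lit 9638300194) (nat_lit 6) (nat_lit 4) (nat_lit 7) (nat_lit 5) (nat_lit 7) (nat_lit 4) (nat_lit 353) (nat_lit 263) (nat_lit 164))))) (XT.nd (nat_lit 156) (nat_lit 76) (nat_lit 0) (XT.nd (nat_lit 78) (nat_lit 76) (nat_lit 0) (XT.lf (nat_lit 0) (nat_lit 91874135119) (nat_lit 76) (nat_lit 33302075994) (nat_lit 76) (nat_lit 3916979828) (nat_lit 6) (nat_lit 4) (nat_lit 7) (nat_lit 5) (nat_lit 7) (nat_lit 4) (nat_lit 354) (nat_lit 263) (nat_lit 163)) (XT.lf (nat_lit 0) (nat_lit 2018063828) (nat_lit 152) (nat_lit 25258787744) (nat_lit 76) (nat_lit 107899028690) (nat_lit 5) (nat_lit 5) (nat_lit 7) (nat_lit 5) (nat_lit 6) (nat_lit 4) (nat_lit 355) (nat_lit 263) (nat_lit 162))) (XT.nd (nat_lit 78) (nat_lit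 76) (nat_lit 0) (XT.lf (nat_lit 0) (nat_lit 8113045688) (nat_lit 152) (nat_lit 12774286766) (nat_lit 76) (nat_lit 120672423130) (nat_lit 5) (nat_lit 5) (nat_lit 7) (nat_lit 5) (nat_lit 6) (nat_lit 4) (nat_lit 356) (nat_lit 263) (nat_lit 161)) (XT.nd (nat_lit 78) (nat_lit 0) (nat_lit 0) (XT.lf (nat_lit 0) (nat_lit 336083928) (nat_lit 76) (nat_lit 14177008713) (nat_lit 152) (nat_lit 133749719362) (nat_lit 4) (nat_lit 5) (nat_lit 5) (nat_lit 5) (nat_lit 6) (nat_lit 4) (nat_lit 357) (nat_lit 263) (nat_lit 160)) (XT.lf (nat_lit 0) (nat_lit 14536502404) (nat_lit 76) (nat_lit 6908141901) (nat_lit 152) (nat_lit 133845804800) (nat_lit 4) (nat_lit 5) (nat_lit 5) (nat_lit 5) (nat_lit 6) (nat_lit 4) (nat_lit 358) (nat_lit 263) (nat_lit 159)))))) (XT.nd (nat_lit 390) (nat_lit 0) (nat_lit 0) (XT.nd (nat_lit 156) (nat_lit 0) (nat_lit 0) (XT.nd (nat_lit 78) (nat_lit 0) (nat_lit 0) (XT.lf (nat_lit 0)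 (nat_lit 28729412396) (nat_lit 152) (nat_lit 133242542538) (nat_lit 0) (nat_lit 697184024) (nat_lit 4) (nat_lit 5) (nat_lit 6) (nat_lit 4) (nat_lit 4) (nat_lit 4) (nat_lit 359) (nat_lit 263) (nat_lit 158)) (XT.lf (nat_lit 0) (nat_lit 36487221926) (nat_lit 152) (nat_lit 125477111618) (nat_lit 0) (nat_lit 8446992313) (nat_lit 4) (nat_lit 5) (nat_lit 6) (nat_lit 4) (nat_lit 4) (nat_lit 4) (nat_lit 360) (nat_lit 263) (nat_lit 157))) (XT.nd (nat_lit 78) (nat_lit 0) (nat_lit 0) (XT.lf (nat_lit 0) (nat_lit 44628688415) (nat_lit 152) (nat_lit 117331309363) (nat_lit 0) (nat_lit 16580838573) (nat_lit 4) (nat_lit 5) (nat_lit 6) (nat_lit 4) (nat_lit 4) (nat_lit 4) (nat_lit 361) (nat_lit 263) (nat_lit 156)) (XT.nd (nat_lit 78) (nat_lit 0) (nat_lit 0) (XT.lf (nat_lit 0) (nat_lit 53173196307) (nat_lit 152) (nat_lit 108785741007) (nat_lit 0) (nat_lit 25118089104) (nat_lit 4) (nat_lit 5) (nat_lit 6)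 (nat_lit 4) (nat_lit 4) (nat_lit 4) (nat_lit 362) (nat_lit 263) (nat_lit 155)) (XT.lf (nat_lit 0) (nat_lit 62141089669) (nat_lit 152) (nat_lit 99820059959) (nat_lit 0) (nat_lit 34079070694) (nat_lit 4) (nat_lit 5) (nat_lit 6) (nat_lit 4) (nat_lit 4) (nat_lit 4) (nat_lit 363) (nat_lit 263) (nat_lit 154))))) (XT.nd (nat_lit 156) (nat_lit 0) (nat_lit 0) (XT.nd (nat_lit 78) (nat_lit 0) (nat_lit 0) (XT.lf (nat_lit 0) (nat_lit 71553720627) (nat_lit 152) (nat_lit 90412919359) (nat_lit 0) (nat_lit 43485119012) (nat_lit 4) (nat_lit 5) (nat_lit 6) (nat_lit 4) (nat_lit 4) (nat_lit 4) (nat_lit 364) (nat_lit 263) (nat_lit 153)) (XT.lf (nat_lit 0) (nat_lit 81433500208) (nat_lit 152) (nat_lit 80541921252) (nat_lit 0) (nat_lit 53358629411) (nat_lit 4) (nat_lit 5) (nat_lit 6) (nat_lit 4) (nat_lit 4) (nat_lit 4) (nat_lit 365) (nat_lit 263) (nat_lit 152))) (XT.nd (nat_lit 78) (nat_lit 0) (nat_lit 0) (XT.lf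 (nat_lit 0) (nat_lit 91803951697) (nat_lit 152) (nat_lit 70183563263) (nat_lit 0) (nat_lit 63723110251) (nat_lit 4) (nat_lit 5) (nat_lit 6) (nat_lit 4) (nat_lit 4) (nat_lit 4) (nat_lit 366) (nat_lit 263) (nat_lit 151)) (XT.nd (nat_lit 78) (nat_lit 0) (nat_lit 0) (XT.lf (nat_lit 0) (nat_lit 102689766644) (nat_lit 152) (nat_lit 59313182634) (nat_lit 0) (nat_lit 74603238866) (nat_lit 4) (nat_lit 5) (nat_lit 6) (nat_lit 4) (nat_lit 4) (nat_lit 4) (nat_lit 367) (nat_lit 263) (nat_lit 150)) (XT.lf (nat_lit 0) (nat_lit 114116863657) (nat_lit 152) (nat_lit 47904897507) (nat_lit 0) (nat_lit 86024920324) (nat_lit 4) (nat_lit 5) (nat_lit 6) (nat_lit 4) (nat_lit 4) (nat_lit 4) (nat_lit 368) (nat_lit 263) (nat_lit 149))))))))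
noncomputable def xc118 : XT := (XT.nd (nat_lit 32604) (nat_lit 0) (nat_lit 4484) (XT.nd (nat_lit 702) (nat_lit 0) (nat_lit 0) (XT.nd (nat_lit 312) (nat_lit 0) (nat_lit 0) (XT.nd (nat_lit 156) (nat_lit 76) (nat_lit 0) (XT.nd (nat_lit 78) (nat_lit 0) (nat_lit 0) (XT.lf (nat_lit 0) (nat_lit 126112450109) (nat_lit 152) (nat_lit 35931545299) (nat_lit 0) (nat_lit 98015349105) (nat_lit 4) (nat_lit 5) (nat_lit 6) (nat_lit 4) (nat_lit 4) (nat_lit 4) (nat_lit 369) (nat_lit 263) (nat_lit 148)) (XT.lf (nat_lit 0) (nat_lit 138705086921) (nat_lit 152) (nat_lit 23364618027) (nat_lit 0) (nat_lit 110603073849) (nat_lit 4) (nat_lit 5) (nat_lit 6) (nat_lit 4) (nat_lit 4) (nat_lit 4) (nat_lit 370) (nat_lit 263) (nat_lit 147))) (XT.nd (nat_lit 78) (nat_lit 76) (nat_lit 0) (XT.lf (nat_lit 0) (nat_lit 151924756561) (nat_lit 152) (nat_lit 10174194436) (nat_lit 0) (nat_lit 123818065329) (nat_lit 4) (nat_lit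 5) (nat_lit 6) (nat_lit 4) (nat_lit 4) (nat_lit 4) (nat_lit 371) (nat_lit 263) (nat_lit 146)) (XT.lf (nat_lit 0) (nat_lit 3792515421) (nat_lit 76) (nat_lit 162069630805) (nat_lit 76) (nat_lit 133958484184) (nat_lit 3) (nat_lit 4) (nat_lit 4) (nat_lit 5) (nat_lit 4) (nat_lit 4) (nat_lit 372) (nat_lit 263) (nat_lit 145)))) (XT.nd (nat_lit 156) (nat_lit 0) (nat_lit 0) (XT.nd (nat_lit 78) (nat_lit 0) (nat_lit 0) (XT.lf (nat_lit 0) (nat_lit 18806241240) (nat_lit 76) (nat_lit 161860040707) (nat_lit 76) (nat_lit 133744650857) (nat_lit 3) (nat_lit 4) (nat_lit 4) (nat_lit 5) (nat_lit 4) (nat_lit 4) (nat_lit 373) (nat_lit 263) (nat_lit 144)) (XT.lf (nat_lit 0) (nat_lit 34566325170) (nat_lit 76) (nat_lit 161641986584) (nat_lit 76) (nat_lit 133522555563) (nat_lit 3) (nat_lit 4) (nat_lit 4) (nat_lit 5) (nat_lit 4) (nat_lit 4) (nat_lit 374) (nat_lit 263) (nat_lit 143))) (XT.nd (nat_lit 78) (nat_lit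 0) (nat_lit 0) (XT.lf (nat_lit 0) (nat_lit 51110291221) (nat_lit 76) (nat_lit 161414949260) (nat_lit 76) (nat_lit 133291669506) (nat_lit 3) (nat_lit 4) (nat_lit 4) (nat_lit 5) (nat_lit 4) (nat_lit 4) (nat_lit 375) (nat_lit 263) (nat_lit 142)) (XT.nd (nat_lit 78) (nat_lit 0) (nat_lit 0) (XT.lf (nat_lit 0) (nat_lit 68477529787) (nat_lit 76) (nat_lit 161178388169) (nat_lit 76) (nat_lit 133051442955) (nat_lit 3) (nat_lit 4) (nat_lit 4) (nat_lit 5) (nat_lit 4) (nat_lit 4) (nat_lit 376) (nat_lit 263) (nat_lit 141)) (XT.lf (nat_lit 0) (nat_lit 86709391437) (nat_lit 76) (nat_lit 160931740072) (nat_lit 76) (nat_lit 132801303943) (nat_lit 3) (nat_lit 4) (nat_lit 4) (nat_lit 5) (nat_lit 4) (nat_lit 4) (nat_lit 377) (nat_lit 263) (nat_lit 140)))))) (XT.nd (nat_lit 390) (nat_lit 0) (nat_lit 0) (XT.nd (nat_lit 156) (nat_lit 0) (nat_lit 0) (XT.nd (nat_lit 78) (nat_lit 0) (nat_lit 0) (XT.lf (nat_lit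 0) (nat_lit 105849285365) (nat_lit 76) (nat_lit 160674417711) (nat_lit 76) (nat_lit 132540656901) (nat_lit 3) (nat_lit 4) (nat_lit 4) (nat_lit 5) (nat_lit 4) (nat_lit 4) (nat_lit 378) (nat_lit 263) (nat_lit 139)) (XT.lf (nat_lit 0) (nat_lit 125942782747) (nat_lit 76) (nat_lit 160405808413) (nat_lit 76) (nat_lit 132268881240) (nat_lit 3) (nat_lit 4) (nat_lit 4) (nat_lit 5) (nat_lit 4) (nat_lit 4) (nat_lit 379) (nat_lit 263) (nat_lit 138))) (XT.nd (nat_lit 78) (nat_lit 0) (nat_lit 0) (XT.lf (nat_lit 0) (nat_lit 147037725244) (nat_lit 76) (nat_lit 160125272632) (nat_lit 76) (nat_lit 131985329876) (nat_lit 3) (nat_lit 4) (nat_lit 4) (nat_lit 5) (nat_lit 4) (nat_lit 4) (nat_lit 380) (nat_lit 263) (nat_lit 137)) (XT.nd (nat_lit 78) (nat_lit 0) (nat_lit 0) (XT.lf (nat_lit 0) (nat_lit 169184338909) (nat_lit 76) (nat_lit 159832142427) (nat_lit 76) (nat_lit 131689327687) (nat_lit 3) (nat_lit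 4) (nat_lit 4) (nat_lit 5) (nat_lit 4) (nat_lit 4) (nat_lit 381) (nat_lit 263) (nat_lit 136)) (XT.lf (nat_lit 0) (nat_lit 192435353775) (nat_lit 76) (nat_lit 159525719868) (nat_lit 76) (nat_lit 131380169905) (nat_lit 3) (nat_lit 4) (nat_lit 4) (nat_lit 5) (nat_lit 4) (nat_lit 4) (nat_lit 382) (nat_lit 263) (nat_lit 135))))) (XT.nd (nat_lit 156) (nat_lit 0) (nat_lit 0) (XT.nd (nat_lit 78) (nat_lit 0) (nat_lit 0) (XT.lf (nat_lit 0) (nat_lit 216846129401) (nat_lit 76) (nat_lit 159205275377) (nat_lit 76) (nat_lit 131057120440) (nat_lit 3) (nat_lit 4) (nat_lit 4) (nat_lit 5) (nat_lit 4) (nat_lit 4) (nat_lit 383) (nat_lit 263) (nat_lit 134)) (XT.lf (nat_lit 0) (nat_lit 242474786681) (nat_lit 76) (nat_lit 158870045992) (nat_lit 76) (nat_lit 130719410126) (nat_lit 3) (nat_lit 4) (nat_lit 4) (nat_lit 5) (nat_lit 4) (nat_lit 4) (nat_lit 384) (nat_lit 263) (nat_lit 133))) (XT.nd (nat_lit 31200)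 (nat_lit 0) (nat_lit 8740) (XT.lf (nat_lit 0) (nat_lit 269382346227) (nat_lit 76) (nat_lit 158519233547) (nat_lit 76) (nat_lit 130366234893) (nat_lit 3) (nat_lit 4) (nat_lit 4) (nat_lit 5) (nat_lit 4) (nat_lit 4) (nat_lit 385) (nat_lit 263) (nat_lit 132)) (XT.nd (nat_lit 78) (nat_lit 0) (nat_lit 0) (XT.lf (nat_lit 0) (nat_lit 417287722) (nat_lit 380) (nat_lit 1449583774) (nat_lit 380) (nat_lit 1449583774) (nat_lit 118) (nat_lit 3) (nat_lit 123) (nat_lit 3) (nat_lit 123) (nat_lit 5) (nat_lit 264) (nat_lit 264) (nat_lit 252)) (XT.lf (nat_lit 76) (nat_lit 107926051) (nat_lit 0) (nat_lit 2859473186) (nat_lit 380) (nat_lit 3717529926) (nat_lit 119) (nat_lit 5) (nat_lit 118) (nat_lit 3) (nat_lit 123) (nat_lit 5) (nat_lit 265) (nat_lit 264) (nat_lit 251))))))) (XT.nd (nat_lit 780) (nat_lit 2508) (nat_lit 0) (XT.nd (nat_lit 390) (nat_lit 1368) (nat_lit 0) (XT.nd (nat_lit 156) (nat_lit 0) (nat_lit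 76) (XT.nd (nat_lit 78) (nat_lit 380) (nat_lit 0) (XT.lf (nat_lit 76) (nat_lit 3292491587) (nat_lit 0) (nat_lit 1827239426) (nat_lit 380) (nat_lit 1624699659) (nat_lit 119) (nat_lit 5) (nat_lit 118) (nat_lit 3) (nat_lit 123) (nat_lit 5) (nat_lit 266) (nat_lit 264) (nat_lit 250)) (XT.lf (nat_lit 0) (nat_lit 422083830) (nat_lit 380) (nat_lit 254450797) (nat_lit 456) (nat_lit 6137019763) (nat_lit 113) (nat_lit 5) (nat_lit 118) (nat_lit 3) (nat_lit 119) (nat_lit 5) (nat_lit 267) (nat_lit 264) (nat_lit 249))) (XT.nd (nat_lit 78) (nat_lit 0) (nat_lit 0) (XT.lf (nat_lit 0) (nat_lit 2449406762) (nat_lit 380) (nat_lit 3795208182) (nat_lit 456) (nat_lit 644001358) (nat_lit 114) (nat_lit 5) (nat_lit 119) (nat_lit 5) (nat_lit 120) (nat_lit 5) (nat_lit 268) (nat_lit 264) (nat_lit 248)) (XT.nd (nat_lit 78) (nat_lit 0) (nat_lit 0) (XT.lf (nat_lit 0) (nat_lit 4473215997) (nat_lit 380) (nat_lit 438338662)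 (nat_lit 456) (nat_lit 2061552806) (nat_lit 114) (nat_lit 5) (nat_lit 119) (nat_lit 5) (nat_lit 120) (nat_lit 5) (nat_lit 269) (nat_lit 264) (nat_lit 247)) (XT.lf (nat_lit 76) (nat_lit 3112217707) (nat_lit 0) (nat_lit 3419968934) (nat_lit 456) (nat_lit 533349582) (nat_lit 115) (nat_lit 5) (nat_lit 114) (nat_lit 5) (nat_lit 120) (nat_lit 5) (nat_lit 270) (nat_lit 264) (nat_lit 246))))) (XT.nd (nat_lit 156) (nat_lit 988) (nat_lit 0) (XT.nd (nat_lit 78) (nat_lit 0) (nat_lit 76) (XT.lf (nat_lit 0) (nat_lit 1377564285) (nat_lit 456) (nat_lit 407397952) (nat_lit 532) (nat_lit 5382048783) (nat_lit 108) (nat_lit 5) (nat_lit 114) (nat_lit 5) (nat_lit 115) (nat_lit 5) (nat_lit 271) (nat_lit 264) (nat_lit 245)) (XT.lf (nat_lit 0) (nat_lit 3311602277) (nat_lit 456) (nat_lit 3935703262) (nat_lit 76) (nat_lit 28897263) (nat_lit 109) (nat_lit 5) (nat_lit 115) (nat_lit 5) (nat_lit 110) (nat_lit 5)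 (nat_lit 272) (nat_lit 264) (nat_lit 244))) (XT.nd (nat_lit 78) (nat_lit 1064) (nat_lit 0) (XT.lf (nat_lit 0) (nat_lit 5275958972) (nat_lit 456) (nat_lit 207773883) (nat_lit 76) (nat_lit 1910779091) (nat_lit 109) (nat_lit 5) (nat_lit 115) (nat_lit 5) (nat_lit 110) (nat_lit 5) (nat_lit 273) (nat_lit 264) (nat_lit 243)) (XT.nd (nat_lit 78) (nat_lit 608) (nat_lit 0) (XT.lf (nat_lit 0) (nat_lit 3752536820) (nat_lit 456) (nat_lit 3546815287) (nat_lit 532) (nat_lit 221665996) (nat_lit 103) (nat_lit 5) (nat_lit 109) (nat_lit 5) (nat_lit 110) (nat_lit 5) (nat_lit 274) (nat_lit 264) (nat_lit 242)) (XT.lf (nat_lit 0) (nat_lit 165616158) (nat_lit 532) (nat_lit 1457863886) (nat_lit 608) (nat_lit 6033776853) (nat_lit 95) (nat_lit 5) (nat_lit 102) (nat_lit 5) (nat_lit 103) (nat_lit 5) (nat_lit 275) (nat_lit 264) (nat_lit 241)))))) (XT.nd (nat_lit 390) (nat_lit 1140) (nat_lit 0) (XT.nd (nat_lit 156)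 (nat_lit 760) (nat_lit 0) (XT.nd (nat_lit 78) (nat_lit 608) (nat_lit 0) (XT.lf (nat_lit 0) (nat_lit 3537366835) (nat_lit 608) (nat_lit 3466377618) (nat_lit 76) (nat_lit 797463416) (nat_lit 95) (nat_lit 5) (nat_lit 103) (nat_lit 5) (nat_lit 96) (nat_lit 5) (nat_lit 276) (nat_lit 264) (nat_lit 240)) (XT.lf (nat_lit 0) (nat_lit 681540130) (nat_lit 608) (nat_lit 4811930675) (nat_lit 684) (nat_lit 2461824755) (nat_lit 87) (nat_lit 5) (nat_lit 95) (nat_lit 5) (nat_lit 96) (nat_lit 5) (nat_lit 277) (nat_lit 264) (nat_lit 239))) (XT.nd (nat_lit 78) (nat_lit 760) (nat_lit 0) (XT.lf (nat_lit 0) (nat_lit 5081910144) (nat_lit 608) (nat_lit 2439173128) (nat_lit 684) (nat_lit 597571874) (nat_lit 87) (nat_lit 5) (nat_lit 95) (nat_lit 5) (nat_lit 96) (nat_lit 5) (nat_lit 278) (nat_lit 264) (nat_lit 238)) (XT.nd (nat_lit 78) (nat_lit 0) (nat_lit 0) (XT.lf (nat_lit 0) (nat_lit 1256718154) (nat_lit 760)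 (nat_lit 6934304802) (nat_lit 76) (nat_lit 101309873) (nat_lit 77) (nat_lit 5) (nat_lit 87) (nat_lit 5) (nat_lit 78) (nat_lit 5) (nat_lit 279) (nat_lit 264) (nat_lit 237)) (XT.lf (nat_lit 0) (nat_lit 3196265128) (nat_lit 760) (nat_lit 2522539458) (nat_lit 76) (nat_lit 2754987032) (nat_lit 77) (nat_lit 5) (nat_lit 87) (nat_lit 5) (nat_lit 78) (nat_lit 5) (nat_lit 280) (nat_lit 264) (nat_lit 236))))) (XT.nd (nat_lit 156) (nat_lit 760) (nat_lit 0) (XT.nd (nat_lit 78) (nat_lit 0) (nat_lit 0) (XT.lf (nat_lit 0) (nat_lit 2103068980) (nat_lit 380) (nat_lit 3086713833) (nat_lit 456) (nat_lit 3476898743) (nat_lit 72) (nat_lit 5) (nat_lit 77) (nat_lit 5) (nat_lit 78) (nat_lit 5) (nat_lit 281) (nat_lit 264) (nat_lit 235)) (XT.lf (nat_lit 0) (nat_lit 6974672663) (nat_lit 380) (nat_lit 277656625) (nat_lit 456) (nat_lit 1618617036) (nat_lit 72) (nat_lit 5) (nat_lit 77) (nat_lit 5) (nat_lit 78) (nat_lit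 5) (nat_lit 282) (nat_lit 264) (nat_lit 234))) (XT.nd (nat_lit 78) (nat_lit 304) (nat_lit 0) (XT.lf (nat_lit 0) (nat_lit 340510017) (nat_lit 456) (nat_lit 6105002922) (nat_lit 76) (nat_lit 2638902548) (nat_lit 66) (nat_lit 5) (nat_lit 72) (nat_lit 5) (nat_lit 67) (nat_lit 5) (nat_lit 283) (nat_lit 264) (nat_lit 233)) (XT.nd (nat_lit 78) (nat_lit 304) (nat_lit 0) (XT.lf (nat_lit 0) (nat_lit 2311444803) (nat_lit 456) (nat_lit 1248201966) (nat_lit 76) (nat_lit 5749343249) (nat_lit 66) (nat_lit 5) (nat_lit 72) (nat_lit 5) (nat_lit 67) (nat_lit 5) (nat_lit 284) (nat_lit 264) (nat_lit 232)) (XT.lf (nat_lit 0) (nat_lit 3905630165) (nat_lit 304) (nat_lit 470612092) (nat_lit 380) (nat_lit 5168948100) (nat_lit 62) (nat_lit 5) (nat_lit 66) (nat_lit 5) (nat_lit 67) (nat_lit 5) (nat_lit 285) (nat_lit 264) (nat_lit 231))))))))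
noncomputable def xc119 : XT := (XT.nd (nat_lit 1560) (nat_lit 1216) (nat_lit 0) (XT.nd (nat_lit 780) (nat_lit 1064) (nat_lit 0) (XT.nd (nat_lit 390) (nat_lit 532) (nat_lit 0) (XT.nd (nat_lit 156) (nat_lit 608) (nat_lit 0) (XT.nd (nat_lit 78) (nat_lit 304) (nat_lit 0) (XT.lf (nat_lit 0) (nat_lit 6545340026) (nat_lit 380) (nat_lit 548207101) (nat_lit 76) (nat_lit 2699755685) (nat_lit 62) (nat_lit 5) (nat_lit 67) (nat_lit 5) (nat_lit 63) (nat_lit 5) (nat_lit 286) (nat_lit 264) (nat_lit 230)) (XT.lf (nat_lit 0) (nat_lit 4876640587) (nat_lit 304) (nat_lit 3969421892) (nat_lit 380) (nat_lit 1206747658) (nat_lit 58) (nat_lit 5) (nat_lit 62) (nat_lit 5) (nat_lit 63) (nat_lit 5) (nat_lit 287) (nat_lit 264) (nat_lit 229))) (XT.nd (nat_lit 78) (nat_lit 304) (nat_lit 0) (XT.lf (nat_lit 0) (nat_lit 187731469) (nat_lit 228) (nat_lit 671228064) (nat_lit 304) (nat_lit 9468115899) (nat_lit 54) (nat_lit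 5) (nat_lit 57) (nat_lit 5) (nat_lit 58) (nat_lit 5) (nat_lit 288) (nat_lit 264) (nat_lit 228)) (XT.nd (nat_lit 78) (nat_lit 304) (nat_lit 0) (XT.lf (nat_lit 0) (nat_lit 3061722938) (nat_lit 304) (nat_lit 4748112348) (nat_lit 76) (nat_lit 2800640914) (nat_lit 54) (nat_lit 5) (nat_lit 58) (nat_lit 5) (nat_lit 55) (nat_lit 5) (nat_lit 289) (nat_lit 264) (nat_lit 227)) (XT.lf (nat_lit 0) (nat_lit 860489531) (nat_lit 304) (nat_lit 4482990982) (nat_lit 380) (nat_lit 5566245235) (nat_lit 50) (nat_lit 5) (nat_lit 54) (nat_lit 5) (nat_lit 55) (nat_lit 5) (nat_lit 290) (nat_lit 264) (nat_lit 226))))) (XT.nd (nat_lit 156) (nat_lit 304) (nat_lit 0) (XT.nd (nat_lit 78) (nat_lit 228) (nat_lit 0) (XT.lf (nat_lit 0) (nat_lit 6846745152) (nat_lit 304) (nat_lit 919001042) (nat_lit 380) (nat_lit 3456986322) (nat_lit 50) (nat_lit 5) (nat_lit 54) (nat_lit 5) (nat_lit 55) (nat_lit 5) (nat_lit 291) (nat_lit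 264) (nat_lit 225)) (XT.lf (nat_lit 0) (nat_lit 1518571112) (nat_lit 228) (nat_lit 8806718097) (nat_lit 304) (nat_lit 1225402454) (nat_lit 47) (nat_lit 5) (nat_lit 50) (nat_lit 5) (nat_lit 51) (nat_lit 5) (nat_lit 292) (nat_lit 264) (nat_lit 224))) (XT.nd (nat_lit 78) (nat_lit 228) (nat_lit 0) (XT.lf (nat_lit 0) (nat_lit 1121258728) (nat_lit 304) (nat_lit 4132883399) (nat_lit 76) (nat_lit 6638170392) (nat_lit 46) (nat_lit 5) (nat_lit 50) (nat_lit 5) (nat_lit 47) (nat_lit 5) (nat_lit 293) (nat_lit 264) (nat_lit 223)) (XT.nd (nat_lit 78) (nat_lit 0) (nat_lit 0) (XT.lf (nat_lit 0) (nat_lit 2042219250) (nat_lit 228) (nat_lit 1485054523) (nat_lit 304) (nat_lit 8723671328) (nat_lit 43) (nat_lit 5) (nat_lit 46) (nat_lit 5) (nat_lit 47) (nat_lit 5) (nat_lit 294) (nat_lit 264) (nat_lit 222)) (XT.lf (nat_lit 0) (nat_lit 6115729326) (nat_lit 304) (nat_lit 4059740321) (nat_lit 76) (nat_lit 2449023377)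 (nat_lit 43) (nat_lit 5) (nat_lit 47) (nat_lit 5) (nat_lit 44) (nat_lit 5) (nat_lit 295) (nat_lit 264) (nat_lit 221)))))) (XT.nd (nat_lit 390) (nat_lit 456) (nat_lit 0) (XT.nd (nat_lit 156) (nat_lit 456) (nat_lit 0) (XT.nd (nat_lit 78) (nat_lit 0) (nat_lit 0) (XT.lf (nat_lit 0) (nat_lit 2386304882) (nat_lit 152) (nat_lit 6463569121) (nat_lit 228) (nat_lit 4166117399) (nat_lit 41) (nat_lit 5) (nat_lit 43) (nat_lit 5) (nat_lit 44) (nat_lit 5) (nat_lit 296) (nat_lit 264) (nat_lit 220)) (XT.lf (nat_lit 0) (nat_lit 9234183047) (nat_lit 152) (nat_lit 2511160813) (nat_lit 228) (nat_lit 1680572206) (nat_lit 41) (nat_lit 5) (nat_lit 43) (nat_lit 5) (nat_lit 44) (nat_lit 5) (nat_lit 297) (nat_lit 264) (nat_lit 219))) (XT.nd (nat_lit 78) (nat_lit 152) (nat_lit 0) (XT.lf (nat_lit 0) (nat_lit 923145601) (nat_lit 304) (nat_lit 11305950318) (nat_lit 76) (nat_lit 1625408391) (nat_lit 37) (nat_lit 5)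 (nat_lit 41) (nat_lit 5) (nat_lit 38) (nat_lit 5) (nat_lit 298) (nat_lit 264) (nat_lit 218)) (XT.nd (nat_lit 78) (nat_lit 152) (nat_lit 0) (XT.lf (nat_lit 0) (nat_lit 3671937595) (nat_lit 304) (nat_lit 4660367105) (nat_lit 76) (nat_lit 5967342486) (nat_lit 37) (nat_lit 5) (nat_lit 41) (nat_lit 5) (nat_lit 38) (nat_lit 5) (nat_lit 299) (nat_lit 264) (nat_lit 217)) (XT.lf (nat_lit 0) (nat_lit 2334207573) (nat_lit 152) (nat_lit 4220450079) (nat_lit 228) (nat_lit 8212632809) (nat_lit 35) (nat_lit 5) (nat_lit 37) (nat_lit 5) (nat_lit 38) (nat_lit 5) (nat_lit 300) (nat_lit 264) (nat_lit 216))))) (XT.nd (nat_lit 156) (nat_lit 228) (nat_lit 0) (XT.nd (nat_lit 78) (nat_lit 228) (nat_lit 0) (XT.lf (nat_lit 0) (nat_lit 9624021345) (nat_lit 228) (nat_lit 5475659703) (nat_lit 76) (nat_lit 156573926) (nat_lit 35) (nat_lit 5) (nat_lit 38) (nat_lit 5) (nat_lit 36) (nat_lit 5) (nat_lit 301) (nat_lit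 264) (nat_lit 215)) (XT.lf (nat_lit 0) (nat_lit 1760813261) (nat_lit 228) (nat_lit 11145360609) (nat_lit 304) (nat_lit 2860589197) (nat_lit 32) (nat_lit 5) (nat_lit 35) (nat_lit 5) (nat_lit 36) (nat_lit 5) (nat_lit 302) (nat_lit 264) (nat_lit 214))) (XT.nd (nat_lit 78) (nat_lit 152) (nat_lit 0) (XT.lf (nat_lit 0) (nat_lit 105208554) (nat_lit 304) (nat_lit 6807612467) (nat_lit 76) (nat_lit 9387134485) (nat_lit 31) (nat_lit 5) (nat_lit 35) (nat_lit 5) (nat_lit 32) (nat_lit 5) (nat_lit 303) (nat_lit 264) (nat_lit 213)) (XT.nd (nat_lit 78) (nat_lit 0) (nat_lit 0) (XT.lf (nat_lit 0) (nat_lit 671555300) (nat_lit 152) (nat_lit 2426764196) (nat_lit 228) (nat_lit 13760438461) (nat_lit 29) (nat_lit 5) (nat_lit 31) (nat_lit 5) (nat_lit 32) (nat_lit 5) (nat_lit 304) (nat_lit 264) (nat_lit 212)) (XT.lf (nat_lit 0) (nat_lit 6359163603) (nat_lit 228) (nat_lit 8770560037) (nat_lit 76) (nat_lit 2309923513)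 (nat_lit 29) (nat_lit 5) (nat_lit 32) (nat_lit 5) (nat_lit 30) (nat_lit 5) (nat_lit 305) (nat_lit 264) (nat_lit 211))))))) (XT.nd (nat_lit 780) (nat_lit 532) (nat_lit 0) (XT.nd (nat_lit 390) (nat_lit 304) (nat_lit 0) (XT.nd (nat_lit 156) (nat_lit 228) (nat_lit 0) (XT.nd (nat_lit 78) (nat_lit 152) (nat_lit 0) (XT.lf (nat_lit 0) (nat_lit 9789732054) (nat_lit 228) (nat_lit 1074589333) (nat_lit 76) (nat_lit 7184973413) (nat_lit 29) (nat_lit 5) (nat_lit 32) (nat_lit 5) (nat_lit 30) (nat_lit 5) (nat_lit 306) (nat_lit 264) (nat_lit 210)) (XT.lf (nat_lit 0) (nat_lit 7186949036) (nat_lit 152) (nat_lit 6285563659) (nat_lit 228) (nat_lit 5212923753) (nat_lit 27) (nat_lit 5) (nat_lit 29) (nat_lit 5) (nat_lit 30) (nat_lit 5) (nat_lit 307) (nat_lit 264) (nat_lit 209))) (XT.nd (nat_lit 78) (nat_lit 228) (nat_lit 0) (XT.lf (nat_lit 0) (nat_lit 15850408006) (nat_lit 152) (nat_lit 1476442927) (nat_lit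 228) (nat_lit 2027206945) (nat_lit 27) (nat_lit 5) (nat_lit 29) (nat_lit 5) (nat_lit 30) (nat_lit 5) (nat_lit 308) (nat_lit 264) (nat_lit 208)) (XT.nd (nat_lit 78) (nat_lit 0) (nat_lit 0) (XT.lf (nat_lit 0) (nat_lit 1380704322) (nat_lit 228) (nat_lit 15127202669) (nat_lit 76) (nat_lit 3541959918) (nat_lit 24) (nat_lit 5) (nat_lit 27) (nat_lit 5) (nat_lit 25) (nat_lit 5) (nat_lit 309) (nat_lit 264) (nat_lit 207)) (XT.lf (nat_lit 0) (nat_lit 4945987374) (nat_lit 228) (nat_lit 6991622058) (nat_lit 76) (nat_lit 8838477818) (nat_lit 24) (nat_lit 5) (nat_lit 27) (nat_lit 5) (nat_lit 25) (nat_lit 5) (nat_lit 310) (nat_lit 264) (nat_lit 206))))) (XT.nd (nat_lit 156) (nat_lit 152) (nat_lit 0) (XT.nd (nat_lit 78) (nat_lit 0) (nat_lit 0) (XT.lf (nat_lit 0) (nat_lit 1555134716) (nat_lit 152) (nat_lit 7130671262) (nat_lit 228) (nat_lit 12853034953) (nat_lit 22) (nat_lit 5) (nat_lit 24) (nat_lit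 5) (nat_lit 25) (nat_lit 5) (nat_lit 311) (nat_lit 264) (nat_lit 205)) (XT.lf (nat_lit 0) (nat_lit 10727317656) (nat_lit 152) (nat_lit 1976332457) (nat_lit 228) (nat_lit 9631564635) (nat_lit 22) (nat_lit 5) (nat_lit 24) (nat_lit 5) (nat_lit 25) (nat_lit 5) (nat_lit 312) (nat_lit 264) (nat_lit 204))) (XT.nd (nat_lit 78) (nat_lit 152) (nat_lit 0) (XT.lf (nat_lit 0) (nat_lit 16949702407) (nat_lit 228) (nat_lit 2910536972) (nat_lit 76) (nat_lit 3309834634) (nat_lit 22) (nat_lit 5) (nat_lit 25) (nat_lit 5) (nat_lit 23) (nat_lit 4) (nat_lit 313) (nat_lit 264) (nat_lit 203)) (XT.nd (nat_lit 78) (nat_lit 76) (nat_lit 0) (XT.lf (nat_lit 0) (nat_lit 6351043221) (nat_lit 76) (nat_lit 15163498839) (nat_lit 152) (nat_lit 2526840948) (nat_lit 21) (nat_lit 5) (nat_lit 22) (nat_lit 5) (nat_lit 23) (nat_lit 4) (nat_lit 314) (nat_lit 264) (nat_lit 202)) (XT.lf (nat_lit 0) (nat_lit 1333267352) (nat_lit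 152) (nat_lit 8840655188) (nat_lit 76) (nat_lit 14780050440) (nat_lit 20) (nat_lit 5) (nat_lit 22) (nat_lit 5) (nat_lit 21) (nat_lit 5) (nat_lit 315) (nat_lit 264) (nat_lit 201)))))) (XT.nd (nat_lit 390) (nat_lit 304) (nat_lit 0) (XT.nd (nat_lit 156) (nat_lit 76) (nat_lit 0) (XT.nd (nat_lit 78) (nat_lit 0) (nat_lit 0) (XT.lf (nat_lit 0) (nat_lit 382616783) (nat_lit 152) (nat_lit 4901061352) (nat_lit 228) (nat_lit 20627359144) (nat_lit 18) (nat_lit 5) (nat_lit 20) (nat_lit 5) (nat_lit 21) (nat_lit 5) (nat_lit 316) (nat_lit 264) (nat_lit 200)) (XT.lf (nat_lit 0) (nat_lit 9570221370) (nat_lit 228) (nat_lit 16586883049) (nat_lit 76) (nat_lit 751945285) (nat_lit 18) (nat_lit 5) (nat_lit 21) (nat_lit 5) (nat_lit 19) (nat_lit 4) (nat_lit 317) (nat_lit 264) (nat_lit 199))) (XT.nd (nat_lit 78) (nat_lit 76) (nat_lit 0) (XT.lf (nat_lit 0) (nat_lit 14129070992) (nat_lit 228) (nat_lit 7316727094)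 (nat_lit 76) (nat_lit 6508289997) (nat_lit 18) (nat_lit 5) (nat_lit 21) (nat_lit 5) (nat_lit 19) (nat_lit 4) (nat_lit 318) (nat_lit 264) (nat_lit 198)) (XT.nd (nat_lit 78) (nat_lit 0) (nat_lit 0) (XT.lf (nat_lit 0) (nat_lit 2459353130) (nat_lit 76) (nat_lit 16473606366) (nat_lit 152) (nat_lit 10117587200) (nat_lit 17) (nat_lit 5) (nat_lit 18) (nat_lit 5) (nat_lit 19) (nat_lit 4) (nat_lit 319) (nat_lit 264) (nat_lit 197)) (XT.lf (nat_lit 0) (nat_lit 12942544878) (nat_lit 76) (nat_lit 11137565626) (nat_lit 152) (nat_lit 6116586367) (nat_lit 17) (nat_lit 5) (nat_lit 18) (nat_lit 5) (nat_lit 19) (nat_lit 4) (nat_lit 320) (nat_lit 264) (nat_lit 196))))) (XT.nd (nat_lit 156) (nat_lit 76) (nat_lit 0) (XT.nd (nat_lit 78) (nat_lit 228) (nat_lit 0) (XT.lf (nat_lit 0) (nat_lit 23915884087) (nat_lit 76) (nat_lit 5548883321) (nat_lit 152) (nat_lit 1936400714) (nat_lit 17) (nat_lit 5) (nat_lit 18)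 (nat_lit 5) (nat_lit 19) (nat_lit 4) (nat_lit 321) (nat_lit 264) (nat_lit 195)) (XT.lf (nat_lit 0) (nat_lit 2404723654) (nat_lit 228) (nat_lit 29878879775) (nat_lit 76) (nat_lit 378842083) (nat_lit 14) (nat_lit 5) (nat_lit 17) (nat_lit 5) (nat_lit 15) (nat_lit 4) (nat_lit 322) (nat_lit 264) (nat_lit 194))) (XT.nd (nat_lit 78) (nat_lit 76) (nat_lit 0) (XT.lf (nat_lit 0) (nat_lit 7098597854) (nat_lit 228) (nat_lit 20312766309) (nat_lit 76) (nat_lit 6563815053) (nat_lit 14) (nat_lit 5) (nat_lit 17) (nat_lit 5) (nat_lit 15) (nat_lit 4) (nat_lit 323) (nat_lit 264) (nat_lit 193)) (XT.nd (nat_lit 78) (nat_lit 76) (nat_lit 0) (XT.lf (nat_lit 0) (nat_lit 12009031497) (nat_lit 228) (nat_lit 10300023667) (nat_lit 76) (nat_lit 13045418420) (nat_lit 14) (nat_lit 5) (nat_lit 17) (nat_lit 5) (nat_lit 15) (nat_lit 4) (nat_lit 324) (nat_lit 264) (nat_lit 192)) (XT.lf (nat_lit 0) (nat_lit 189245036)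 (nat_lit 76) (nat_lit 16961425702) (nat_lit 152) (nat_lit 19652794179) (nat_lit 13) (nat_lit 5) (nat_lit 14) (nat_lit 5) (nat_lit 15) (nat_lit 4) (nat_lit 325) (nat_lit 264) (nat_lit 191))))))))
noncomputable def xc120 : XT := (XT.nd (nat_lit 1482) (nat_lit 228) (nat_lit 0) (XT.nd (nat_lit 702) (nat_lit 228) (nat_lit 0) (XT.nd (nat_lit 312) (nat_lit 152) (nat_lit 0) (XT.nd (nat_lit 156) (nat_lit 76) (nat_lit 0) (XT.nd (nat_lit 78) (nat_lit 0) (nat_lit 0) (XT.lf (nat_lit 0) (nat_lit 11530889228) (nat_lit 76) (nat_lit 11176026872) (nat_lit 152) (nat_lit 15610129168) (nat_lit 13) (nat_lit 5) (nat_lit 14) (nat_lit 5) (nat_lit 15) (nat_lit 4) (nat_lit 326) (nat_lit 264) (nat_lit 190)) (XT.lf (nat_lit 0) (nat_lit 23411347525) (nat_lit 76) (nat_lit 5113519800) (nat_lit 152) (nat_lit 11382257545) (nat_lit 13) (nat_lit 5) (nat_lit 14) (nat_lit 5) (nat_lit 15) (nat_lit 4) (nat_lit 327) (nat_lit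 264) (nat_lit 189))) (XT.nd (nat_lit 78) (nat_lit 76) (nat_lit 0) (XT.lf (nat_lit 0) (nat_lit 34637744829) (nat_lit 152) (nat_lit 5737951047) (nat_lit 0) (nat_lit 1200825345) (nat_lit 13) (nat_lit 5) (nat_lit 15) (nat_lit 4) (nat_lit 13) (nat_lit 4) (nat_lit 328) (nat_lit 264) (nat_lit 188)) (XT.lf (nat_lit 0) (nat_lit 5627853060) (nat_lit 76) (nat_lit 35585326689) (nat_lit 76) (nat_lit 2108375489) (nat_lit 12) (nat_lit 4) (nat_lit 13) (nat_lit 5) (nat_lit 13) (nat_lit 4) (nat_lit 329) (nat_lit 264) (nat_lit 187)))) (XT.nd (nat_lit 156) (nat_lit 76) (nat_lit 0) (XT.nd (nat_lit 78) (nat_lit 0) (nat_lit 0) (XT.lf (nat_lit 0) (nat_lit 2952731677) (nat_lit 152) (nat_lit 27461976704) (nat_lit 76) (nat_lit 14732629475) (nat_lit 11) (nat_lit 5) (nat_lit 13) (nat_lit 5) (nat_lit 12) (nat_lit 4) (nat_lit 330) (nat_lit 264) (nat_lit 186)) (XT.lf (nat_lit 0) (nat_lit 8182010553) (nat_lit 152)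 (nat_lit 16778264954) (nat_lit 76) (nat_lit 22103119025) (nat_lit 11) (nat_lit 5) (nat_lit 13) (nat_lit 5) (nat_lit 12) (nat_lit 4) (nat_lit 331) (nat_lit 264) (nat_lit 185))) (XT.nd (nat_lit 78) (nat_lit 76) (nat_lit 0) (XT.lf (nat_lit 0) (nat_lit 13659392984) (nat_lit 152) (nat_lit 5584211871) (nat_lit 76) (nat_lit 29832328336) (nat_lit 11) (nat_lit 5) (nat_lit 13) (nat_lit 5) (nat_lit 12) (nat_lit 4) (nat_lit 332) (nat_lit 264) (nat_lit 184)) (XT.nd (nat_lit 78) (nat_lit 0) (nat_lit 0) (XT.lf (nat_lit 0) (nat_lit 6350077179) (nat_lit 76) (nat_lit 13146985679) (nat_lit 152) (nat_lit 31687725608) (nat_lit 10) (nat_lit 5) (nat_lit 11) (nat_lit 5) (nat_lit 12) (nat_lit 4) (nat_lit 333) (nat_lit 264) (nat_lit 183)) (XT.lf (nat_lit 0) (nat_lit 19052609367) (nat_lit 76) (nat_lit 6656111093) (nat_lit 152) (nat_lit 27686270927) (nat_lit 10) (nat_lit 5) (nat_lit 11) (nat_lit 5) (nat_lit 12)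 (nat_lit 4) (nat_lit 334) (nat_lit 264) (nat_lit 182)))))) (XT.nd (nat_lit 390) (nat_lit 152) (nat_lit 0) (XT.nd (nat_lit 156) (nat_lit 76) (nat_lit 0) (XT.nd (nat_lit 78) (nat_lit 0) (nat_lit 0) (XT.lf (nat_lit 0) (nat_lit 32221427909) (nat_lit 152) (nat_lit 23349658577) (nat_lit 0) (nat_lit 145104233) (nat_lit 10) (nat_lit 5) (nat_lit 12) (nat_lit 4) (nat_lit 10) (nat_lit 4) (nat_lit 335) (nat_lit 264) (nat_lit 181)) (XT.lf (nat_lit 0) (nat_lit 39157439432) (nat_lit 152) (nat_lit 11937115589) (nat_lit 0) (nat_lit 7054020716) (nat_lit 10) (nat_lit 5) (nat_lit 12) (nat_lit 4) (nat_lit 10) (nat_lit 4) (nat_lit 336) (nat_lit 264) (nat_lit 180))) (XT.nd (nat_lit 78) (nat_lit 0) (nat_lit 0) (XT.lf (nat_lit 0) (nat_lit 27211138) (nat_lit 76) (nat_lit 46402562501) (nat_lit 76) (nat_lit 14273338984) (nat_lit 9) (nat_lit 4) (nat_lit 10) (nat_lit 5) (nat_lit 10) (nat_lit 4) (nat_lit 337) (nat_lit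 264) (nat_lit 179)) (XT.nd (nat_lit 78) (nat_lit 0) (nat_lit 0) (XT.lf (nat_lit 0) (nat_lit 12984787538) (nat_lit 76) (nat_lit 41272411456) (nat_lit 76) (nat_lit 9118611939) (nat_lit 9) (nat_lit 4) (nat_lit 10) (nat_lit 5) (nat_lit 10) (nat_lit 4) (nat_lit 338) (nat_lit 264) (nat_lit 178)) (XT.lf (nat_lit 0) (nat_lit 26571770033) (nat_lit 76) (nat_lit 35894048072) (nat_lit 76) (nat_lit 3716842840) (nat_lit 9) (nat_lit 4) (nat_lit 10) (nat_lit 5) (nat_lit 10) (nat_lit 4) (nat_lit 339) (nat_lit 264) (nat_lit 177))))) (XT.nd (nat_lit 156) (nat_lit 76) (nat_lit 0) (XT.nd (nat_lit 78) (nat_lit 0) (nat_lit 0) (XT.lf (nat_lit 0) (nat_lit 1882582971) (nat_lit 152) (nat_lit 28340201297) (nat_lit 76) (nat_lit 38906043154) (nat_lit 8) (nat_lit 5) (nat_lit 10) (nat_lit 5) (nat_lit 9) (nat_lit 4) (nat_lit 340) (nat_lit 264) (nat_lit 176)) (XT.lf (nat_lit 0) (nat_lit 7627680200) (nat_lit 152) (nat_lit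 16583981650) (nat_lit 76) (nat_lit 48008070091) (nat_lit 8) (nat_lit 5) (nat_lit 10) (nat_lit 5) (nat_lit 9) (nat_lit 4) (nat_lit 341) (nat_lit 264) (nat_lit 175))) (XT.nd (nat_lit 78) (nat_lit 76) (nat_lit 0) (XT.lf (nat_lit 0) (nat_lit 13651089832) (nat_lit 152) (nat_lit 4256210641) (nat_lit 76) (nat_lit 57558334842) (nat_lit 8) (nat_lit 5) (nat_lit 10) (nat_lit 5) (nat_lit 9) (nat_lit 4) (nat_lit 342) (nat_lit 264) (nat_lit 174)) (XT.nd (nat_lit 78) (nat_lit 0) (nat_lit 0) (XT.lf (nat_lit 0) (nat_lit 8959214376) (nat_lit 76) (nat_lit 11147817387) (nat_lit 152) (nat_lit 58760240203) (nat_lit 7) (nat_lit 5) (nat_lit 8) (nat_lit 5) (nat_lit 9) (nat_lit 4) (nat_lit 343) (nat_lit 264) (nat_lit 173)) (XT.lf (nat_lit 0) (nat_lit 22967941078) (nat_lit 76) (nat_lit 3981561753) (nat_lit 152) (nat_lit 55486306915) (nat_lit 7) (nat_lit 5) (nat_lit 8) (nat_lit 5) (nat_lit 9) (nat_lit 4) (nat_lit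 344) (nat_lit 264) (nat_lit 172))))))) (XT.nd (nat_lit 780) (nat_lit 152) (nat_lit 0) (XT.nd (nat_lit 390) (nat_lit 0) (nat_lit 0) (XT.nd (nat_lit 156) (nat_lit 76) (nat_lit 0) (XT.nd (nat_lit 78) (nat_lit 0) (nat_lit 0) (XT.lf (nat_lit 0) (nat_lit 34181359943) (nat_lit 152) (nat_lit 48575797439) (nat_lit 0) (nat_lit 3423259531) (nat_lit 7) (nat_lit 5) (nat_lit 9) (nat_lit 4) (nat_lit 7) (nat_lit 4) (nat_lit 345) (nat_lit 264) (nat_lit 171)) (XT.lf (nat_lit 0) (nat_lit 41832411152) (nat_lit 152) (nat_lit 37218499747) (nat_lit 0) (nat_lit 11058468831) (nat_lit 7) (nat_lit 5) (nat_lit 9) (nat_lit 4) (nat_lit 7) (nat_lit 4) (nat_lit 346) (nat_lit 264) (nat_lit 170))) (XT.nd (nat_lit 78) (nat_lit 76) (nat_lit 0) (XT.lf (nat_lit 0) (nat_lit 49858709910) (nat_lit 152) (nat_lit 25306771070) (nat_lit 0) (nat_lit 19069680056) (nat_lit 7) (nat_lit 5) (nat_lit 9) (nat_lit 4) (nat_lit 7) (nat_lit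 4) (nat_lit 347) (nat_lit 264) (nat_lit 169)) (XT.nd (nat_lit 78) (nat_lit 76) (nat_lit 0) (XT.lf (nat_lit 0) (nat_lit 58279366452) (nat_lit 152) (nat_lit 12812250149) (nat_lit 0) (nat_lit 27475967520) (nat_lit 7) (nat_lit 5) (nat_lit 9) (nat_lit 4) (nat_lit 7) (nat_lit 4) (nat_lit 348) (nat_lit 264) (nat_lit 168)) (XT.lf (nat_lit 0) (nat_lit 304559685) (nat_lit 76) (nat_lit 66814625305) (nat_lit 76) (nat_lit 35997541536) (nat_lit 6) (nat_lit 4) (nat_lit 7) (nat_lit 5) (nat_lit 7) (nat_lit 4) (nat_lit 349) (nat_lit 264) (nat_lit 167))))) (XT.nd (nat_lit 156) (nat_lit 0) (nat_lit 0) (XT.nd (nat_lit 78) (nat_lit 0) (nat_lit 0) (XT.lf (nat_lit 0) (nat_lit 14510033995) (nat_lit 76) (nat_lit 62101444600) (nat_lit 76) (nat_lit 31271327653) (nat_lit 6) (nat_lit 4) (nat_lit 7) (nat_lit 5) (nat_lit 7) (nat_lit 4) (nat_lit 350) (nat_lit 264) (nat_lit 166)) (XT.lf (nat_lit 0) (nat_lit 29414364486)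 (nat_lit 76) (nat_lit 57157834283) (nat_lit 76) (nat_lit 26315304786) (nat_lit 6) (nat_lit 4) (nat_lit 7) (nat_lit 5) (nat_lit 7) (nat_lit 4) (nat_lit 351) (nat_lit 264) (nat_lit 165))) (XT.nd (nat_lit 78) (nat_lit 0) (nat_lit 0) (XT.lf (nat_lit 0) (nat_lit 45053037659) (nat_lit 76) (nat_lit 51972023855) (nat_lit 76) (nat_lit 21117672882) (nat_lit 6) (nat_lit 4) (nat_lit 7) (nat_lit 5) (nat_lit 7) (nat_lit 4) (nat_lit 352) (nat_lit 264) (nat_lit 164)) (XT.nd (nat_lit 78) (nat_lit 0) (nat_lit 0) (XT.lf (nat_lit 0) (nat_lit 61463288449) (nat_lit 76) (nat_lit 46531666148) (nat_lit 76) (nat_lit 15666056625) (nat_lit 6) (nat_lit 4) (nat_lit 7) (nat_lit 5) (nat_lit 7) (nat_lit 4) (nat_lit 353) (nat_lit 264) (nat_lit 163)) (XT.lf (nat_lit 0) (nat_lit 78684188883) (nat_lit 76) (nat_lit 40823807928) (nat_lit 76) (nat_lit 9947475978) (nat_lit 6) (nat_lit 4) (nat_lit 7) (nat_lit 5) (nat_lit 7)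 (nat_lit 4) (nat_lit 354) (nat_lit 264) (nat_lit 162)))))) (XT.nd (nat_lit 390) (nat_lit 0) (nat_lit 0) (XT.nd (nat_lit 156) (nat_lit 76) (nat_lit 0) (XT.nd (nat_lit 78) (nat_lit 76) (nat_lit 0) (XT.lf (nat_lit 0) (nat_lit 96756741104) (nat_lit 76) (nat_lit 34834859058) (nat_lit 76) (nat_lit 3948315272) (nat_lit 6) (nat_lit 4) (nat_lit 7) (nat_lit 5) (nat_lit 7) (nat_lit 4) (nat_lit 355) (nat_lit 264) (nat_lit 161)) (XT.lf (nat_lit 0) (nat_lit 2270631864) (nat_lit 152) (nat_lit 26241474021) (nat_lit 76) (nat_lit 113414888885) (nat_lit 5) (nat_lit 5) (nat_lit 7) (nat_lit 5) (nat_lit 6) (nat_lit 4) (nat_lit 356) (nat_lit 264) (nat_lit 160))) (XT.nd (nat_lit 78) (nat_lit 76) (nat_lit 0) (XT.lf (nat_lit 0) (nat_lit 8663140682) (nat_lit 152) (nat_lit 13146093380) (nat_lit 76) (nat_lit 126821195487) (nat_lit 5) (nat_lit 5) (nat_lit 7) (nat_lit 5) (nat_lit 6) (nat_lit 4) (nat_lit 357) (nat_lit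 264) (nat_lit 159)) (XT.nd (nat_lit 78) (nat_lit 0) (nat_lit 0) (XT.lf (nat_lit 0) (nat_lit 615490886) (nat_lit 76) (nat_lit 14764920837) (nat_lit 152) (nat_lit 140288370344) (nat_lit 4) (nat_lit 5) (nat_lit 5) (nat_lit 5) (nat_lit 6) (nat_lit 4) (nat_lit 358) (nat_lit 264) (nat_lit 158)) (XT.lf (nat_lit 0) (nat_lit 15513425392) (nat_lit 76) (nat_lit 7138369652) (nat_lit 152) (nat_lit 140396347434) (nat_lit 4) (nat_lit 5) (nat_lit 5) (nat_lit 5) (nat_lit 6) (nat_lit 4) (nat_lit 359) (nat_lit 264) (nat_lit 157))))) (XT.nd (nat_lit 156) (nat_lit 0) (nat_lit 0) (XT.nd (nat_lit 78) (nat_lit 0) (nat_lit 0) (XT.lf (nat_lit 0) (nat_lit 30296089489) (nat_lit 152) (nat_lit 139661689973) (nat_lit 0) (nat_lit 838226926) (nat_lit 4) (nat_lit 5) (nat_lit 6) (nat_lit 4) (nat_lit 4) (nat_lit 4) (nat_lit 360) (nat_lit 264) (nat_lit 156)) (XT.lf (nat_lit 0) (nat_lit 38435589187) (nat_lit 152) (nat_lit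 131519557968) (nat_lit 0) (nat_lit 8970469263) (nat_lit 4) (nat_lit 5) (nat_lit 6) (nat_lit 4) (nat_lit 4) (nat_lit 4) (nat_lit 361) (nat_lit 264) (nat_lit 155))) (XT.nd (nat_lit 78) (nat_lit 0) (nat_lit 0) (XT.lf (nat_lit 0) (nat_lit 46978223945) (nat_lit 152) (nat_lit 122977485088) (nat_lit 0) (nat_lit 17506192248) (nat_lit 4) (nat_lit 5) (nat_lit 6) (nat_lit 4) (nat_lit 4) (nat_lit 4) (nat_lit 362) (nat_lit 264) (nat_lit 154)) (XT.nd (nat_lit 78) (nat_lit 0) (nat_lit 0) (XT.lf (nat_lit 0) (nat_lit 55944333369) (nat_lit 152) (nat_lit 114015133064) (nat_lit 0) (nat_lit 26465719032) (nat_lit 4) (nat_lit 5) (nat_lit 6) (nat_lit 4) (nat_lit 4) (nat_lit 4) (nat_lit 363) (nat_lit 264) (nat_lit 153)) (XT.lf (nat_lit 0) (nat_lit 65355265340) (nat_lit 152) (nat_lit 104611162963) (nat_lit 0) (nat_lit 35870381821) (nat_lit 4) (nat_lit 5) (nat_lit 6) (nat_lit 4) (nat_lit 4) (nat_lit 4) (nat_lit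 364) (nat_lit 264) (nat_lit 152))))))))
noncomputable def xc121 : XT := (XT.nd (nat_lit 1482) (nat_lit 0) (nat_lit 0) (XT.nd (nat_lit 702) (nat_lit 0) (nat_lit 0) (XT.nd (nat_lit 312) (nat_lit 76) (nat_lit 0) (XT.nd (nat_lit 156) (nat_lit 0) (nat_lit 0) (XT.nd (nat_lit 78) (nat_lit 0) (nat_lit 0) (XT.lf (nat_lit 0) (nat_lit 75233426837) (nat_lit 152) (nat_lit 94743184379) (nat_lit 0) (nat_lit 45742572670) (nat_lit 4) (nat_lit 5) (nat_lit 6) (nat_lit 4) (nat_lit 4) (nat_lit 4) (nat_lit 365) (nat_lit 264) (nat_lit 151)) (XT.lf (nat_lit 0) (nat_lit 85602337294) (nat_lit 152) (nat_lit 84387702127) (nat_lit 0) (nat_lit 56105796794) (nat_lit 4) (nat_lit 5) (nat_lit 6) (nat_lit 4) (nat_lit 4) (nat_lit 4) (nat_lit 366) (nat_lit 264) (nat_lit 150))) (XT.nd (nat_lit 78) (nat_lit 0) (nat_lit 0) (XT.lf (nat_lit 0) (nat_lit 96486684591) (nat_lit 152) (nat_lit 73520060295) (nat_lit 0) (nat_lit 66984728537)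 (nat_lit 4) (nat_lit 5) (nat_lit 6) (nat_lit 4) (nat_lit 4) (nat_lit 4) (nat_lit 367) (nat_lit 264) (nat_lit 149)) (XT.lf (nat_lit 0) (nat_lit 107912383842) (nat_lit 152) (nat_lit 62114383546) (nat_lit 0) (nat_lit 78405270117) (nat_lit 4) (nat_lit 5) (nat_lit 6) (nat_lit 4) (nat_lit 4) (nat_lit 4) (nat_lit 368) (nat_lit 264) (nat_lit 148)))) (XT.nd (nat_lit 156) (nat_lit 76) (nat_lit 0) (XT.nd (nat_lit 78) (nat_lit 0) (nat_lit 0) (XT.lf (nat_lit 0) (nat_lit 119906639093) (nat_lit 152) (nat_lit 50143515506) (nat_lit 0) (nat_lit 90394613300) (nat_lit 4) (nat_lit 5) (nat_lit 6) (nat_lit 4) (nat_lit 4) (nat_lit 4) (nat_lit 369) (nat_lit 264) (nat_lit 147)) (XT.lf (nat_lit 0) (nat_lit 132498008094) (nat_lit 152) (nat_lit 37578954110) (nat_lit 0) (nat_lit 102981304141) (nat_lit 4) (nat_lit 5) (nat_lit 6) (nat_lit 4) (nat_lit 4) (nat_lit 4) (nat_lit 370) (nat_lit 264) (nat_lit 146))) (XT.nd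 (nat_lit 78) (nat_lit 76) (nat_lit 0) (XT.lf (nat_lit 0) (nat_lit 145716470295) (nat_lit 152) (nat_lit 24390783734) (nat_lit 0) (nat_lit 116195310952) (nat_lit 4) (nat_lit 5) (nat_lit 6) (nat_lit 4) (nat_lit 4) (nat_lit 4) (nat_lit 371) (nat_lit 264) (nat_lit 145)) (XT.nd (nat_lit 78) (nat_lit 76) (nat_lit 0) (XT.lf (nat_lit 0) (nat_lit 159593498225) (nat_lit 152) (nat_lit 10547603973) (nat_lit 0) (nat_lit 130068095653) (nat_lit 4) (nat_lit 5) (nat_lit 6) (nat_lit 4) (nat_lit 4) (nat_lit 4) (nat_lit 372) (nat_lit 264) (nat_lit 144)) (XT.lf (nat_lit 0) (nat_lit 4115259116) (nat_lit 76) (nat_lit 170111124038) (nat_lit 76) (nat_lit 140581680296) (nat_lit 3) (nat_lit 4) (nat_lit 4) (nat_lit 5) (nat_lit 4) (nat_lit 4) (nat_lit 373) (nat_lit 264) (nat_lit 143)))))) (XT.nd (nat_lit 390) (nat_lit 0) (nat_lit 0) (XT.nd (nat_lit 156) (nat_lit 0) (nat_lit 0) (XT.nd (nat_lit 78) (nat_lit 0) (nat_lit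 0) (XT.lf (nat_lit 0) (nat_lit 19873332277) (nat_lit 76) (nat_lit 169894006259) (nat_lit 76) (nat_lit 140360713784) (nat_lit 3) (nat_lit 4) (nat_lit 4) (nat_lit 5) (nat_lit 4) (nat_lit 4) (nat_lit 374) (nat_lit 264) (nat_lit 142)) (XT.lf (nat_lit 0) (nat_lit 36415383310) (nat_lit 76) (nat_lit 169667860691) (nat_lit 76) (nat_lit 140130902755) (nat_lit 3) (nat_lit 4) (nat_lit 4) (nat_lit 5) (nat_lit 4) (nat_lit 4) (nat_lit 375) (nat_lit 264) (nat_lit 141))) (XT.nd (nat_lit 78) (nat_lit 0) (nat_lit 0) (XT.lf (nat_lit 0) (nat_lit 53780798049) (nat_lit 76) (nat_lit 169432148892) (nat_lit 76) (nat_lit 139891700042) (nat_lit 3) (nat_lit 4) (nat_lit 4) (nat_lit 5) (nat_lit 4) (nat_lit 4) (nat_lit 376) (nat_lit 264) (nat_lit 140)) (XT.nd (nat_lit 78) (nat_lit 0) (nat_lit 0) (XT.lf (nat_lit 0) (nat_lit 72010922721) (nat_lit 76) (nat_lit 169186309644) (nat_lit 76) (nat_lit 139642536113) (nat_lit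 3) (nat_lit 4) (nat_lit 4) (nat_lit 5) (nat_lit 4) (nat_lit 4) (nat_lit 377) (nat_lit 264) (nat_lit 139)) (XT.lf (nat_lit 0) (nat_lit 91149162385) (nat_lit 76) (nat_lit 168929757615) (nat_lit 76) (nat_lit 139382817721) (nat_lit 3) (nat_lit 4) (nat_lit 4) (nat_lit 5) (nat_lit 4) (nat_lit 4) (nat_lit 378) (nat_lit 264) (nat_lit 138))))) (XT.nd (nat_lit 156) (nat_lit 0) (nat_lit 0) (XT.nd (nat_lit 78) (nat_lit 0) (nat_lit 0) (XT.lf (nat_lit 0) (nat_lit 111241084277) (nat_lit 76) (nat_lit 168661881967) (nat_lit 76) (nat_lit 139111926490) (nat_lit 3) (nat_lit 4) (nat_lit 4) (nat_lit 5) (nat_lit 4) (nat_lit 4) (nat_lit 379) (nat_lit 264) (nat_lit 137)) (XT.lf (nat_lit 0) (nat_lit 132334526307) (nat_lit 76) (nat_lit 168382044901) (nat_lit 76) (nat_lit 138829217439) (nat_lit 3) (nat_lit 4) (nat_lit 4) (nat_lit 5) (nat_lit 4) (nat_lit 4) (nat_lit 380) (nat_lit 264) (nat_lit 136))) (XT.nd (nat_lit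 78) (nat_lit 0) (nat_lit 0) (XT.lf (nat_lit 0) (nat_lit 154479710957) (nat_lit 76) (nat_lit 168089580138) (nat_lit 76) (nat_lit 138534017453) (nat_lit 3) (nat_lit 4) (nat_lit 4) (nat_lit 5) (nat_lit 4) (nat_lit 4) (nat_lit 381) (nat_lit 264) (nat_lit 135)) (XT.nd (nat_lit 78) (nat_lit 0) (nat_lit 0) (XT.lf (nat_lit 0) (nat_lit 177729364855) (nat_lit 76) (nat_lit 167783791333) (nat_lit 76) (nat_lit 138225623674) (nat_lit 3) (nat_lit 4) (nat_lit 4) (nat_lit 5) (nat_lit 4) (nat_lit 4) (nat_lit 382) (nat_lit 264) (nat_lit 134)) (XT.lf (nat_lit 0) (nat_lit 202138844321) (nat_lit 76) (nat_lit 167463950418) (nat_lit 76) (nat_lit 137903301831) (nat_lit 3) (nat_lit 4) (nat_lit 4) (nat_lit 5) (nat_lit 4) (nat_lit 4) (nat_lit 383) (nat_lit 264) (nat_lit 133))))))) (XT.nd (nat_lit 31980) (nat_lit 0) (nat_lit 5244) (XT.nd (nat_lit 31590) (nat_lit 0) (nat_lit 7980) (XT.nd (nat_lit 31356) (nat_lit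 0) (nat_lit 8360) (XT.nd (nat_lit 78) (nat_lit 0) (nat_lit 0) (XT.lf (nat_lit 0) (nat_lit 227766267164) (nat_lit 76) (nat_lit 167129295867) (nat_lit 76) (nat_lit 137566284491) (nat_lit 3) (nat_lit 4) (nat_lit 4) (nat_lit 5) (nat_lit 4) (nat_lit 4) (nat_lit 384) (nat_lit 264) (nat_lit 132)) (XT.lf (nat_lit 0) (nat_lit 254672651056) (nat_lit 76) (nat_lit 166779030883) (nat_lit 76) (nat_lit 137213769233) (nat_lit 3) (nat_lit 4) (nat_lit 4) (nat_lit 5) (nat_lit 4) (nat_lit 4) (nat_lit 385) (nat_lit 264) (nat_lit 131))) (XT.nd (nat_lit 78) (nat_lit 380) (nat_lit 0) (XT.lf (nat_lit 0) (nat_lit 2515479189) (nat_lit 380) (nat_lit 427427220) (nat_lit 380) (nat_lit 427427220) (nat_lit 118) (nat_lit 3) (nat_lit 123) (nat_lit 3) (nat_lit 123) (nat_lit 5) (nat_lit 265) (nat_lit 265) (nat_lit 250)) (XT.nd (nat_lit 78) (nat_lit 0) (nat_lit 0) (XT.lf (nat_lit 0) (nat_lit 292281196) (nat_lit 380) (nat_lit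 4541697919) (nat_lit 456) (nat_lit 1970051889) (nat_lit 113) (nat_lit 5) (nat_lit 118) (nat_lit 3) (nat_lit 119) (nat_lit 5) (nat_lit 266) (nat_lit 265) (nat_lit 249)) (XT.lf (nat_lit 0) (nat_lit 2225574717) (nat_lit 380) (nat_lit 1404366157) (nat_lit 456) (nat_lit 3245241365) (nat_lit 113) (nat_lit 5) (nat_lit 118) (nat_lit 3) (nat_lit 119) (nat_lit 5) (nat_lit 267) (nat_lit 265) (nat_lit 248))))) (XT.nd (nat_lit 156) (nat_lit 380) (nat_lit 0) (XT.nd (nat_lit 78) (nat_lit 0) (nat_lit 0) (XT.lf (nat_lit 76) (nat_lit 1882148564) (nat_lit 0) (nat_lit 2282719164) (nat_lit 456) (nat_lit 2789988731) (nat_lit 114) (nat_lit 5) (nat_lit 113) (nat_lit 5) (nat_lit 119) (nat_lit 5) (nat_lit 268) (nat_lit 265) (nat_lit 247)) (XT.lf (nat_lit 76) (nat_lit 5314916856) (nat_lit 0) (nat_lit 794614677) (nat_lit 456) (nat_lit 933974133) (nat_lit 114) (nat_lit 5) (nat_lit 113) (nat_lit 5) (nat_lit 119)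 (nat_lit 5) (nat_lit 269) (nat_lit 265) (nat_lit 246))) (XT.nd (nat_lit 78) (nat_lit 0) (nat_lit 0) (XT.lf (nat_lit 0) (nat_lit 911092015) (nat_lit 456) (nat_lit 5398442712) (nat_lit 532) (nat_lit 830197097) (nat_lit 108) (nat_lit 5) (nat_lit 114) (nat_lit 5) (nat_lit 115) (nat_lit 5) (nat_lit 270) (nat_lit 265) (nat_lit 245)) (XT.nd (nat_lit 78) (nat_lit 0) (nat_lit 0) (XT.lf (nat_lit 0) (nat_lit 2752678872) (nat_lit 456) (nat_lit 1896468148) (nat_lit 532) (nat_lit 2594429506) (nat_lit 108) (nat_lit 5) (nat_lit 114) (nat_lit 5) (nat_lit 115) (nat_lit 5) (nat_lit 271) (nat_lit 265) (nat_lit 244)) (XT.lf (nat_lit 76) (nat_lit 1767638928) (nat_lit 0) (nat_lit 2844279360) (nat_lit 532) (nat_lit 2744755127) (nat_lit 109) (nat_lit 5) (nat_lit 108) (nat_lit 5) (nat_lit 115) (nat_lit 5) (nat_lit 272) (nat_lit 265) (nat_lit 243)))))) (XT.nd (nat_lit 390) (nat_lit 1748) (nat_lit 0) (XT.nd (nat_lit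 156) (nat_lit 532) (nat_lit 0) (XT.nd (nat_lit 78) (nat_lit 456) (nat_lit 0) (XT.lf (nat_lit 76) (nat_lit 5612372391) (nat_lit 0) (nat_lit 885630391) (nat_lit 532) (nat_lit 981050695) (nat_lit 109) (nat_lit 5) (nat_lit 108) (nat_lit 5) (nat_lit 115) (nat_lit 5) (nat_lit 273) (nat_lit 265) (nat_lit 242)) (XT.lf (nat_lit 0) (nat_lit 798626156) (nat_lit 532) (nat_lit 5605417191) (nat_lit 76) (nat_lit 1205338917) (nat_lit 102) (nat_lit 5) (nat_lit 109) (nat_lit 5) (nat_lit 103) (nat_lit 5) (nat_lit 274) (nat_lit 265) (nat_lit 241))) (XT.nd (nat_lit 78) (nat_lit 532) (nat_lit 0) (XT.lf (nat_lit 0) (nat_lit 2589448652) (nat_lit 532) (nat_lit 1715572196) (nat_lit 76) (nat_lit 3442924502) (nat_lit 102) (nat_lit 5) (nat_lit 109) (nat_lit 5) (nat_lit 103) (nat_lit 5) (nat_lit 275) (nat_lit 265) (nat_lit 240)) (XT.nd (nat_lit 78) (nat_lit 0) (nat_lit 0) (XT.lf (nat_lit 0) (nat_lit 2375504325)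 (nat_lit 532) (nat_lit 2044235856) (nat_lit 608) (nat_lit 3476465324) (nat_lit 95) (nat_lit 5) (nat_lit 102) (nat_lit 5) (nat_lit 103) (nat_lit 5) (nat_lit 276) (nat_lit 265) (nat_lit 239)) (XT.lf (nat_lit 0) (nat_lit 6292396408) (nat_lit 608) (nat_lit 1398231320) (nat_lit 76) (nat_lit 363961112) (nat_lit 95) (nat_lit 5) (nat_lit 103) (nat_lit 5) (nat_lit 96) (nat_lit 5) (nat_lit 277) (nat_lit 265) (nat_lit 238))))) (XT.nd (nat_lit 156) (nat_lit 1064) (nat_lit 0) (XT.nd (nat_lit 78) (nat_lit 0) (nat_lit 0) (XT.lf (nat_lit 0) (nat_lit 35621394) (nat_lit 684) (nat_lit 5300812791) (nat_lit 76) (nat_lit 2884704991) (nat_lit 86) (nat_lit 5) (nat_lit 95) (nat_lit 5) (nat_lit 87) (nat_lit 5) (nat_lit 278) (nat_lit 265) (nat_lit 237)) (XT.lf (nat_lit 0) (nat_lit 1809587991) (nat_lit 684) (nat_lit 991859680) (nat_lit 76) (nat_lit 5596069044) (nat_lit 86) (nat_lit 5) (nat_lit 95) (nat_lit 5)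 (nat_lit 87) (nat_lit 5) (nat_lit 279) (nat_lit 265) (nat_lit 236))) (XT.nd (nat_lit 78) (nat_lit 380) (nat_lit 0) (XT.lf (nat_lit 0) (nat_lit 3579384254) (nat_lit 684) (nat_lit 73910391) (nat_lit 760) (nat_lit 4930574278) (nat_lit 77) (nat_lit 5) (nat_lit 86) (nat_lit 5) (nat_lit 87) (nat_lit 5) (nat_lit 280) (nat_lit 265) (nat_lit 235)) (XT.nd (nat_lit 78) (nat_lit 380) (nat_lit 0) (XT.lf (nat_lit 0) (nat_lit 5577589465) (nat_lit 760) (nat_lit 479438507) (nat_lit 76) (nat_lit 2723288608) (nat_lit 77) (nat_lit 5) (nat_lit 87) (nat_lit 5) (nat_lit 78) (nat_lit 5) (nat_lit 281) (nat_lit 265) (nat_lit 234)) (XT.lf (nat_lit 0) (nat_lit 4342462807) (nat_lit 380) (nat_lit 3255855460) (nat_lit 456) (nat_lit 1388445942) (nat_lit 72) (nat_lit 5) (nat_lit 77) (nat_lit 5) (nat_lit 78) (nat_lit 5) (nat_lit 282) (nat_lit 265) (nat_lit 233))))))))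
noncomputable def xc122 : XT := (XT.nd (nat_lit 1482) (nat_lit 1368) (nat_lit 0) (XT.nd (nat_lit 702) (nat_lit 1140) (nat_lit 0) (XT.nd (nat_lit 312) (nat_lit 912) (nat_lit 0) (XT.nd (nat_lit 156) (nat_lit 304) (nat_lit 0) (XT.nd (nat_lit 78) (nat_lit 0) (nat_lit 0) (XT.lf (nat_lit 0) (nat_lit 146981195) (nat_lit 380) (nat_lit 295771453) (nat_lit 456) (nat_lit 8763412546) (nat_lit 66) (nat_lit 5) (nat_lit 71) (nat_lit 5) (nat_lit 72) (nat_lit 5) (nat_lit 283) (nat_lit 265) (nat_lit 232)) (XT.lf (nat_lit 0) (nat_lit 2377039416) (nat_lit 456) (nat_lit 4232308358) (nat_lit 76) (nat_lit 2823303804) (nat_lit 66) (nat_lit 5) (nat_lit 72) (nat_lit 5) (nat_lit 67) (nat_lit 5) (nat_lit 284) (nat_lit 265) (nat_lit 231))) (XT.nd (nat_lit 78) (nat_lit 0) (nat_lit 0) (XT.lf (nat_lit 0) (nat_lit 788869751) (nat_lit 304) (nat_lit 3573800805) (nat_lit 380) (nat_lit 5310215346) (nat_lit 62) (nat_lit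 5) (nat_lit 66) (nat_lit 5) (nat_lit 67) (nat_lit 5) (nat_lit 285) (nat_lit 265) (nat_lit 230)) (XT.lf (nat_lit 0) (nat_lit 6141689359) (nat_lit 304) (nat_lit 316976837) (nat_lit 380) (nat_lit 3466059333) (nat_lit 62) (nat_lit 5) (nat_lit 66) (nat_lit 5) (nat_lit 67) (nat_lit 5) (nat_lit 286) (nat_lit 265) (nat_lit 229)))) (XT.nd (nat_lit 156) (nat_lit 532) (nat_lit 0) (XT.nd (nat_lit 78) (nat_lit 76) (nat_lit 0) (XT.lf (nat_lit 0) (nat_lit 1506638651) (nat_lit 304) (nat_lit 7166993972) (nat_lit 380) (nat_lit 1514956665) (nat_lit 58) (nat_lit 5) (nat_lit 62) (nat_lit 5) (nat_lit 63) (nat_lit 5) (nat_lit 287) (nat_lit 265) (nat_lit 228)) (XT.lf (nat_lit 0) (nat_lit 529827535) (nat_lit 380) (nat_lit 3351969830) (nat_lit 76) (nat_lit 6582899453) (nat_lit 57) (nat_lit 5) (nat_lit 62) (nat_lit 5) (nat_lit 58) (nat_lit 5) (nat_lit 288) (nat_lit 265) (nat_lit 227))) (XT.nd (nat_lit 78) (nat_lit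 304) (nat_lit 0) (XT.lf (nat_lit 0) (nat_lit 2227065663) (nat_lit 228) (nat_lit 379256868) (nat_lit 304) (nat_lit 8148147765) (nat_lit 54) (nat_lit 5) (nat_lit 57) (nat_lit 5) (nat_lit 58) (nat_lit 5) (nat_lit 289) (nat_lit 265) (nat_lit 226)) (XT.nd (nat_lit 78) (nat_lit 304) (nat_lit 0) (XT.lf (nat_lit 0) (nat_lit 4842901940) (nat_lit 304) (nat_lit 2972352201) (nat_lit 76) (nat_lit 3240781076) (nat_lit 54) (nat_lit 5) (nat_lit 58) (nat_lit 5) (nat_lit 55) (nat_lit 5) (nat_lit 290) (nat_lit 265) (nat_lit 225)) (XT.lf (nat_lit 0) (nat_lit 2884209356) (nat_lit 304) (nat_lit 4307934011) (nat_lit 380) (nat_lit 4180603608) (nat_lit 50) (nat_lit 5) (nat_lit 54) (nat_lit 5) (nat_lit 55) (nat_lit 5) (nat_lit 291) (nat_lit 265) (nat_lit 224)))))) (XT.nd (nat_lit 390) (nat_lit 608) (nat_lit 0) (XT.nd (nat_lit 156) (nat_lit 228) (nat_lit 0) (XT.nd (nat_lit 78) (nat_lit 304) (nat_lit 0) (XT.lf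 (nat_lit 0) (nat_lit 9075458932) (nat_lit 304) (nat_lit 584754408) (nat_lit 380) (nat_lit 2045117648) (nat_lit 50) (nat_lit 5) (nat_lit 54) (nat_lit 5) (nat_lit 55) (nat_lit 5) (nat_lit 292) (nat_lit 265) (nat_lit 223)) (XT.lf (nat_lit 0) (nat_lit 251789713) (nat_lit 304) (nat_lit 8533819898) (nat_lit 76) (nat_lit 3265828082) (nat_lit 46) (nat_lit 5) (nat_lit 50) (nat_lit 5) (nat_lit 47) (nat_lit 5) (nat_lit 293) (nat_lit 265) (nat_lit 222))) (XT.nd (nat_lit 78) (nat_lit 228) (nat_lit 0) (XT.lf (nat_lit 0) (nat_lit 2603303314) (nat_lit 304) (nat_lit 2453986506) (nat_lit 76) (nat_lit 7355549771) (nat_lit 46) (nat_lit 5) (nat_lit 50) (nat_lit 5) (nat_lit 47) (nat_lit 5) (nat_lit 294) (nat_lit 265) (nat_lit 221)) (XT.nd (nat_lit 78) (nat_lit 0) (nat_lit 0) (XT.lf (nat_lit 0) (nat_lit 3999459323) (nat_lit 228) (nat_lit 1091219666) (nat_lit 304) (nat_lit 7700804653) (nat_lit 43) (nat_lit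 5) (nat_lit 46) (nat_lit 5) (nat_lit 47) (nat_lit 5) (nat_lit 295) (nat_lit 265) (nat_lit 220)) (XT.lf (nat_lit 0) (nat_lit 7749467874) (nat_lit 304) (nat_lit 2434318131) (nat_lit 76) (nat_lit 3003003934) (nat_lit 43) (nat_lit 5) (nat_lit 47) (nat_lit 5) (nat_lit 44) (nat_lit 5) (nat_lit 296) (nat_lit 265) (nat_lit 219))))) (XT.nd (nat_lit 156) (nat_lit 456) (nat_lit 0) (XT.nd (nat_lit 78) (nat_lit 0) (nat_lit 0) (XT.lf (nat_lit 0) (nat_lit 4304538860) (nat_lit 152) (nat_lit 6280631274) (nat_lit 228) (nat_lit 3014571067) (nat_lit 41) (nat_lit 5) (nat_lit 43) (nat_lit 5) (nat_lit 44) (nat_lit 5) (nat_lit 297) (nat_lit 265) (nat_lit 218)) (XT.lf (nat_lit 0) (nat_lit 11409148137) (nat_lit 152) (nat_lit 2154703326) (nat_lit 228) (nat_lit 469503481) (nat_lit 41) (nat_lit 5) (nat_lit 43) (nat_lit 5) (nat_lit 44) (nat_lit 5) (nat_lit 298) (nat_lit 265) (nat_lit 217))) (XT.nd (nat_lit 78) (nat_lit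 152) (nat_lit 0) (XT.lf (nat_lit 0) (nat_lit 2198164542) (nat_lit 304) (nat_lit 10087489052) (nat_lit 76) (nat_lit 2198051304) (nat_lit 37) (nat_lit 5) (nat_lit 41) (nat_lit 5) (nat_lit 38) (nat_lit 5) (nat_lit 299) (nat_lit 265) (nat_lit 216)) (XT.nd (nat_lit 78) (nat_lit 152) (nat_lit 0) (XT.lf (nat_lit 0) (nat_lit 5025878913) (nat_lit 304) (nat_lit 3194567572) (nat_lit 76) (nat_lit 6733683413) (nat_lit 37) (nat_lit 5) (nat_lit 41) (nat_lit 5) (nat_lit 38) (nat_lit 5) (nat_lit 300) (nat_lit 265) (nat_lit 215)) (XT.lf (nat_lit 0) (nat_lit 4122335550) (nat_lit 152) (nat_lit 3900764248) (nat_lit 228) (nat_lit 7423631699) (nat_lit 35) (nat_lit 5) (nat_lit 37) (nat_lit 5) (nat_lit 38) (nat_lit 5) (nat_lit 301) (nat_lit 265) (nat_lit 214))))))) (XT.nd (nat_lit 780) (nat_lit 532) (nat_lit 0) (XT.nd (nat_lit 390) (nat_lit 380) (nat_lit 0) (XT.nd (nat_lit 156) (nat_lit 228) (nat_lit 0) (XT.nd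 (nat_lit 78) (nat_lit 228) (nat_lit 0) (XT.lf (nat_lit 0) (nat_lit 11199503467) (nat_lit 228) (nat_lit 4109390078) (nat_lit 76) (nat_lit 653662008) (nat_lit 35) (nat_lit 5) (nat_lit 38) (nat_lit 5) (nat_lit 36) (nat_lit 5) (nat_lit 302) (nat_lit 265) (nat_lit 213)) (XT.lf (nat_lit 0) (nat_lit 3462454074) (nat_lit 228) (nat_lit 11156393744) (nat_lit 304) (nat_lit 1881172647) (nat_lit 32) (nat_lit 5) (nat_lit 35) (nat_lit 5) (nat_lit 36) (nat_lit 5) (nat_lit 303) (nat_lit 265) (nat_lit 212))) (XT.nd (nat_lit 78) (nat_lit 152) (nat_lit 0) (XT.lf (nat_lit 0) (nat_lit 1145250627) (nat_lit 304) (nat_lit 5575463207) (nat_lit 76) (nat_lit 10340947083) (nat_lit 31) (nat_lit 5) (nat_lit 35) (nat_lit 5) (nat_lit 32) (nat_lit 5) (nat_lit 304) (nat_lit 265) (nat_lit 211)) (XT.nd (nat_lit 78) (nat_lit 0) (nat_lit 0) (XT.lf (nat_lit 0) (nat_lit 2252299563) (nat_lit 152) (nat_lit 2010597842) (nat_lit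 228) (nat_lit 13386836037) (nat_lit 29) (nat_lit 5) (nat_lit 31) (nat_lit 5) (nat_lit 32) (nat_lit 5) (nat_lit 305) (nat_lit 265) (nat_lit 210)) (XT.lf (nat_lit 0) (nat_lit 7646696913) (nat_lit 228) (nat_lit 7694100460) (nat_lit 76) (nat_lit 2920944509) (nat_lit 29) (nat_lit 5) (nat_lit 32) (nat_lit 5) (nat_lit 30) (nat_lit 5) (nat_lit 306) (nat_lit 265) (nat_lit 209))))) (XT.nd (nat_lit 156) (nat_lit 228) (nat_lit 0) (XT.nd (nat_lit 78) (nat_lit 0) (nat_lit 0) (XT.lf (nat_lit 0) (nat_lit 324926180) (nat_lit 152) (nat_lit 10882770370) (nat_lit 228) (nat_lit 7696297312) (nat_lit 27) (nat_lit 5) (nat_lit 29) (nat_lit 5) (nat_lit 30) (nat_lit 5) (nat_lit 307) (nat_lit 265) (nat_lit 208)) (XT.lf (nat_lit 0) (nat_lit 8965870103) (nat_lit 152) (nat_lit 6081864974) (nat_lit 228) (nat_lit 4525615467) (nat_lit 27) (nat_lit 5) (nat_lit 29) (nat_lit 5) (nat_lit 30) (nat_lit 5) (nat_lit 308) (nat_lit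 265) (nat_lit 207))) (XT.nd (nat_lit 78) (nat_lit 228) (nat_lit 0) (XT.lf (nat_lit 0) (nat_lit 17994903277) (nat_lit 152) (nat_lit 1056953771) (nat_lit 228) (nat_lit 1225753508) (nat_lit 27) (nat_lit 5) (nat_lit 29) (nat_lit 5) (nat_lit 30) (nat_lit 5) (nat_lit 309) (nat_lit 265) (nat_lit 206)) (XT.nd (nat_lit 78) (nat_lit 0) (nat_lit 0) (XT.lf (nat_lit 0) (nat_lit 2311175132) (nat_lit 228) (nat_lit 14487946770) (nat_lit 76) (nat_lit 4209062686) (nat_lit 24) (nat_lit 5) (nat_lit 27) (nat_lit 5) (nat_lit 25) (nat_lit 5) (nat_lit 310) (nat_lit 265) (nat_lit 205)) (XT.lf (nat_lit 0) (nat_lit 6013701594) (nat_lit 228) (nat_lit 6012045035) (nat_lit 76) (nat_lit 9747072920) (nat_lit 24) (nat_lit 5) (nat_lit 27) (nat_lit 5) (nat_lit 25) (nat_lit 5) (nat_lit 311) (nat_lit 265) (nat_lit 204)))))) (XT.nd (nat_lit 390) (nat_lit 228) (nat_lit 0) (XT.nd (nat_lit 156) (nat_lit 152) (nat_lit 0) (XT.nd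 (nat_lit 78) (nat_lit 0) (nat_lit 0) (XT.lf (nat_lit 0) (nat_lit 2940611544) (nat_lit 152) (nat_lit 6981249385) (nat_lit 228) (nat_lit 12652832556) (nat_lit 22) (nat_lit 5) (nat_lit 24) (nat_lit 5) (nat_lit 25) (nat_lit 5) (nat_lit 312) (nat_lit 265) (nat_lit 203)) (XT.lf (nat_lit 0) (nat_lit 12509131246) (nat_lit 152) (nat_lit 1593286756) (nat_lit 228) (nat_lit 9310424633) (nat_lit 22) (nat_lit 5) (nat_lit 24) (nat_lit 5) (nat_lit 25) (nat_lit 5) (nat_lit 313) (nat_lit 265) (nat_lit 202))) (XT.nd (nat_lit 78) (nat_lit 152) (nat_lit 0) (XT.lf (nat_lit 0) (nat_lit 18531576674) (nat_lit 228) (nat_lit 1839818739) (nat_lit 76) (nat_lit 3919554670) (nat_lit 22) (nat_lit 5) (nat_lit 25) (nat_lit 5) (nat_lit 23) (nat_lit 4) (nat_lit 314) (nat_lit 265) (nat_lit 201)) (XT.nd (nat_lit 78) (nat_lit 76) (nat_lit 0) (XT.lf (nat_lit 0) (nat_lit 7865223607) (nat_lit 76) (nat_lit 15443146511) (nat_lit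 152) (nat_lit 1898312066) (nat_lit 21) (nat_lit 5) (nat_lit 22) (nat_lit 5) (nat_lit 23) (nat_lit 4) (nat_lit 315) (nat_lit 265) (nat_lit 200)) (XT.lf (nat_lit 0) (nat_lit 2095845334) (nat_lit 152) (nat_lit 8119247426) (nat_lit 76) (nat_lit 15950998626) (nat_lit 20) (nat_lit 5) (nat_lit 22) (nat_lit 5) (nat_lit 21) (nat_lit 5) (nat_lit 316) (nat_lit 265) (nat_lit 199))))) (XT.nd (nat_lit 156) (nat_lit 76) (nat_lit 0) (XT.nd (nat_lit 78) (nat_lit 0) (nat_lit 0) (XT.lf (nat_lit 0) (nat_lit 1546422974) (nat_lit 152) (nat_lit 4682086481) (nat_lit 228) (nat_lit 20943300162) (nat_lit 18) (nat_lit 5) (nat_lit 20) (nat_lit 5) (nat_lit 21) (nat_lit 5) (nat_lit 317) (nat_lit 265) (nat_lit 198)) (XT.lf (nat_lit 0) (nat_lit 10703867857) (nat_lit 228) (nat_lit 16299836629) (nat_lit 76) (nat_lit 1217329355) (nat_lit 18) (nat_lit 5) (nat_lit 21) (nat_lit 5) (nat_lit 19) (nat_lit 4) (nat_lit 318) (nat_lit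 265) (nat_lit 197))) (XT.nd (nat_lit 78) (nat_lit 76) (nat_lit 0) (XT.lf (nat_lit 0) (nat_lit 15459463035) (nat_lit 228) (nat_lit 6619334333) (nat_lit 76) (nat_lit 7241120502) (nat_lit 18) (nat_lit 5) (nat_lit 21) (nat_lit 5) (nat_lit 19) (nat_lit 4) (nat_lit 319) (nat_lit 265) (nat_lit 196)) (XT.nd (nat_lit 78) (nat_lit 0) (nat_lit 0) (XT.lf (nat_lit 0) (nat_lit 3628401046) (nat_lit 76) (nat_lit 16861765806) (nat_lit 152) (nat_lit 9981733789) (nat_lit 17) (nat_lit 5) (nat_lit 18) (nat_lit 5) (nat_lit 19) (nat_lit 4) (nat_lit 320) (nat_lit 265) (nat_lit 195)) (XT.lf (nat_lit 0) (nat_lit 14585939035) (nat_lit 76) (nat_lit 11279662119) (nat_lit 152) (nat_lit 5811241618) (nat_lit 17) (nat_lit 5) (nat_lit 18) (nat_lit 5) (nat_lit 19) (nat_lit 4) (nat_lit 321) (nat_lit 265) (nat_lit 194))))))))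
noncomputable def xc123 : XT := (XT.nd (nat_lit 1560) (nat_lit 304) (nat_lit 0) (XT.nd (nat_lit 780) (nat_lit 228) (nat_lit 0) (XT.nd (nat_lit 390) (nat_lit 152) (nat_lit 0) (XT.nd (nat_lit 156) (nat_lit 76) (nat_lit 0) (XT.nd (nat_lit 78) (nat_lit 228) (nat_lit 0) (XT.lf (nat_lit 0) (nat_lit 26060503923) (nat_lit 76) (nat_lit 5431297213) (nat_lit 152) (nat_lit 1451150208) (nat_lit 17) (nat_lit 5) (nat_lit 18) (nat_lit 5) (nat_lit 19) (nat_lit 4) (nat_lit 322) (nat_lit 265) (nat_lit 193)) (XT.lf (nat_lit 0) (nat_lit 3082699099) (nat_lit 228) (nat_lit 30398578324) (nat_lit 76) (nat_lit 785872413) (nat_lit 14) (nat_lit 5) (nat_lit 17) (nat_lit 5) (nat_lit 15) (nat_lit 4) (nat_lit 323) (nat_lit 265) (nat_lit 192))) (XT.nd (nat_lit 78) (nat_lit 76) (nat_lit 0) (XT.lf (nat_lit 0) (nat_lit 7984707996) (nat_lit 228) (nat_lit 20400551825) (nat_lit 76) (nat_lit 7261613641) (nat_lit 14) (nat_lit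 5) (nat_lit 17) (nat_lit 5) (nat_lit 15) (nat_lit 4) (nat_lit 324) (nat_lit 265) (nat_lit 191)) (XT.nd (nat_lit 78) (nat_lit 76) (nat_lit 0) (XT.lf (nat_lit 0) (nat_lit 13115369024) (nat_lit 228) (nat_lit 9931355518) (nat_lit 76) (nat_lit 14049696802) (nat_lit 14) (nat_lit 5) (nat_lit 17) (nat_lit 5) (nat_lit 15) (nat_lit 4) (nat_lit 325) (nat_lit 265) (nat_lit 190)) (XT.lf (nat_lit 0) (nat_lit 1068123890) (nat_lit 76) (nat_lit 17435450559) (nat_lit 152) (nat_lit 20114836517) (nat_lit 13) (nat_lit 5) (nat_lit 14) (nat_lit 5) (nat_lit 15) (nat_lit 4) (nat_lit 326) (nat_lit 265) (nat_lit 189))))) (XT.nd (nat_lit 156) (nat_lit 152) (nat_lit 0) (XT.nd (nat_lit 78) (nat_lit 0) (nat_lit 0) (XT.lf (nat_lit 0) (nat_lit 12935449501) (nat_lit 76) (nat_lit 11378593522) (nat_lit 152) (nat_lit 15894828606) (nat_lit 13) (nat_lit 5) (nat_lit 14) (nat_lit 5) (nat_lit 15) (nat_lit 4) (nat_lit 327) (nat_lit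 265) (nat_lit 188)) (XT.lf (nat_lit 0) (nat_lit 25370501389) (nat_lit 76) (nat_lit 5029924653) (nat_lit 152) (nat_lit 11479173261) (nat_lit 13) (nat_lit 5) (nat_lit 14) (nat_lit 5) (nat_lit 15) (nat_lit 4) (nat_lit 328) (nat_lit 265) (nat_lit 187))) (XT.nd (nat_lit 78) (nat_lit 152) (nat_lit 0) (XT.lf (nat_lit 0) (nat_lit 36802596188) (nat_lit 152) (nat_lit 5257066385) (nat_lit 0) (nat_lit 1573640270) (nat_lit 13) (nat_lit 5) (nat_lit 15) (nat_lit 4) (nat_lit 13) (nat_lit 4) (nat_lit 329) (nat_lit 265) (nat_lit 186)) (XT.nd (nat_lit 78) (nat_lit 76) (nat_lit 0) (XT.lf (nat_lit 0) (nat_lit 6664644343) (nat_lit 76) (nat_lit 37033335062) (nat_lit 76) (nat_lit 1768069198) (nat_lit 12) (nat_lit 4) (nat_lit 13) (nat_lit 5) (nat_lit 13) (nat_lit 4) (nat_lit 330) (nat_lit 265) (nat_lit 185)) (XT.lf (nat_lit 0) (nat_lit 3511281670) (nat_lit 152) (nat_lit 28101719339) (nat_lit 76) (nat_lit 15770815788)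 (nat_lit 11) (nat_lit 5) (nat_lit 13) (nat_lit 5) (nat_lit 12) (nat_lit 4) (nat_lit 331) (nat_lit 265) (nat_lit 184)))))) (XT.nd (nat_lit 390) (nat_lit 152) (nat_lit 0) (XT.nd (nat_lit 156) (nat_lit 76) (nat_lit 0) (XT.nd (nat_lit 78) (nat_lit 0) (nat_lit 0) (XT.lf (nat_lit 0) (nat_lit 8982457185) (nat_lit 152) (nat_lit 16918743725) (nat_lit 76) (nat_lit 23495470062) (nat_lit 11) (nat_lit 5) (nat_lit 13) (nat_lit 5) (nat_lit 12) (nat_lit 4) (nat_lit 332) (nat_lit 265) (nat_lit 183)) (XT.lf (nat_lit 0) (nat_lit 14715073209) (nat_lit 152) (nat_lit 5198246773) (nat_lit 76) (nat_lit 31597463882) (nat_lit 11) (nat_lit 5) (nat_lit 13) (nat_lit 5) (nat_lit 12) (nat_lit 4) (nat_lit 333) (nat_lit 265) (nat_lit 182))) (XT.nd (nat_lit 78) (nat_lit 0) (nat_lit 0) (XT.lf (nat_lit 0) (nat_lit 7322028089) (nat_lit 76) (nat_lit 13515068117) (nat_lit 152) (nat_lit 32888376998) (nat_lit 10) (nat_lit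 5) (nat_lit 11) (nat_lit 5) (nat_lit 12) (nat_lit 4) (nat_lit 334) (nat_lit 265) (nat_lit 181)) (XT.nd (nat_lit 78) (nat_lit 0) (nat_lit 0) (XT.lf (nat_lit 0) (nat_lit 20628522741) (nat_lit 76) (nat_lit 6713424413) (nat_lit 152) (nat_lit 28705122673) (nat_lit 10) (nat_lit 5) (nat_lit 11) (nat_lit 5) (nat_lit 12) (nat_lit 4) (nat_lit 335) (nat_lit 265) (nat_lit 180)) (XT.lf (nat_lit 0) (nat_lit 34167824902) (nat_lit 152) (nat_lit 23910805478) (nat_lit 0) (nat_lit 406335409) (nat_lit 10) (nat_lit 5) (nat_lit 12) (nat_lit 4) (nat_lit 10) (nat_lit 4) (nat_lit 336) (nat_lit 265) (nat_lit 179))))) (XT.nd (nat_lit 156) (nat_lit 76) (nat_lit 0) (XT.nd (nat_lit 78) (nat_lit 76) (nat_lit 0) (XT.lf (nat_lit 0) (nat_lit 41434669116) (nat_lit 152) (nat_lit 11956508485) (nat_lit 0) (nat_lit 7648603623) (nat_lit 10) (nat_lit 5) (nat_lit 12) (nat_lit 4) (nat_lit 10) (nat_lit 4) (nat_lit 337) (nat_lit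 265) (nat_lit 178)) (XT.lf (nat_lit 0) (nat_lit 596720661) (nat_lit 76) (nat_lit 48467562260) (nat_lit 76) (nat_lit 14658091051) (nat_lit 9) (nat_lit 4) (nat_lit 10) (nat_lit 5) (nat_lit 10) (nat_lit 4) (nat_lit 338) (nat_lit 265) (nat_lit 177))) (XT.nd (nat_lit 78) (nat_lit 76) (nat_lit 0) (XT.lf (nat_lit 0) (nat_lit 14175121169) (nat_lit 76) (nat_lit 43093052633) (nat_lit 76) (nat_lit 9261290267) (nat_lit 9) (nat_lit 4) (nat_lit 10) (nat_lit 5) (nat_lit 10) (nat_lit 4) (nat_lit 339) (nat_lit 265) (nat_lit 176)) (XT.nd (nat_lit 78) (nat_lit 76) (nat_lit 0) (XT.lf (nat_lit 0) (nat_lit 28415686395) (nat_lit 76) (nat_lit 37457341527) (nat_lit 76) (nat_lit 3604349489) (nat_lit 9) (nat_lit 4) (nat_lit 10) (nat_lit 5) (nat_lit 10) (nat_lit 4) (nat_lit 340) (nat_lit 265) (nat_lit 175)) (XT.lf (nat_lit 0) (nat_lit 2251747258) (nat_lit 152) (nat_lit 29257128895) (nat_lit 76) (nat_lit 41062440759)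 (nat_lit 8) (nat_lit 5) (nat_lit 10) (nat_lit 5) (nat_lit 9) (nat_lit 4) (nat_lit 341) (nat_lit 265) (nat_lit 174))))))) (XT.nd (nat_lit 780) (nat_lit 152) (nat_lit 0) (XT.nd (nat_lit 390) (nat_lit 76) (nat_lit 0) (XT.nd (nat_lit 156) (nat_lit 76) (nat_lit 0) (XT.nd (nat_lit 78) (nat_lit 0) (nat_lit 0) (XT.lf (nat_lit 0) (nat_lit 8271002437) (nat_lit 152) (nat_lit 16936911717) (nat_lit 76) (nat_lit 50609516878) (nat_lit 8) (nat_lit 5) (nat_lit 10) (nat_lit 5) (nat_lit 9) (nat_lit 4) (nat_lit 342) (nat_lit 265) (nat_lit 173)) (XT.lf (nat_lit 0) (nat_lit 14583109302) (nat_lit 152) (nat_lit 4015431635) (nat_lit 76) (nat_lit 60627721377) (nat_lit 8) (nat_lit 5) (nat_lit 10) (nat_lit 5) (nat_lit 9) (nat_lit 4) (nat_lit 343) (nat_lit 265) (nat_lit 172))) (XT.nd (nat_lit 78) (nat_lit 0) (nat_lit 0) (XT.lf (nat_lit 0) (nat_lit 9853448673) (nat_lit 76) (nat_lit 11503487952) (nat_lit 152) (nat_lit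 61441298400) (nat_lit 7) (nat_lit 5) (nat_lit 8) (nat_lit 5) (nat_lit 9) (nat_lit 4) (nat_lit 344) (nat_lit 265) (nat_lit 171)) (XT.nd (nat_lit 78) (nat_lit 0) (nat_lit 0) (XT.lf (nat_lit 0) (nat_lit 24541360588) (nat_lit 76) (nat_lit 3988525266) (nat_lit 152) (nat_lit 58015904343) (nat_lit 7) (nat_lit 5) (nat_lit 8) (nat_lit 5) (nat_lit 9) (nat_lit 4) (nat_lit 345) (nat_lit 265) (nat_lit 170)) (XT.lf (nat_lit 0) (nat_lit 36115101586) (nat_lit 152) (nat_lit 50591412982) (nat_lit 0) (nat_lit 3771532707) (nat_lit 7) (nat_lit 5) (nat_lit 9) (nat_lit 4) (nat_lit 7) (nat_lit 4) (nat_lit 346) (nat_lit 265) (nat_lit 169))))) (XT.nd (nat_lit 156) (nat_lit 76) (nat_lit 0) (XT.nd (nat_lit 78) (nat_lit 0) (nat_lit 0) (XT.lf (nat_lit 0) (nat_lit 44138006610) (nat_lit 152) (nat_lit 38685925374) (nat_lit 0) (nat_lit 11780068652) (nat_lit 7) (nat_lit 5) (nat_lit 9) (nat_lit 4) (nat_lit 7) (nat_lit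 4) (nat_lit 347) (nat_lit 265) (nat_lit 168)) (XT.lf (nat_lit 0) (nat_lit 52555431025) (nat_lit 152) (nat_lit 26197348328) (nat_lit 0) (nat_lit 20183808230) (nat_lit 7) (nat_lit 5) (nat_lit 9) (nat_lit 4) (nat_lit 7) (nat_lit 4) (nat_lit 348) (nat_lit 265) (nat_lit 167))) (XT.nd (nat_lit 78) (nat_lit 76) (nat_lit 0) (XT.lf (nat_lit 0) (nat_lit 61387416317) (nat_lit 152) (nat_lit 13095947137) (nat_lit 0) (nat_lit 29002760345) (nat_lit 7) (nat_lit 5) (nat_lit 9) (nat_lit 4) (nat_lit 7) (nat_lit 4) (nat_lit 349) (nat_lit 265) (nat_lit 166)) (XT.nd (nat_lit 78) (nat_lit 0) (nat_lit 0) (XT.lf (nat_lit 0) (nat_lit 670946488) (nat_lit 76) (nat_lit 69994519889) (nat_lit 76) (nat_lit 37597451367) (nat_lit 6) (nat_lit 4) (nat_lit 7) (nat_lit 5) (nat_lit 7) (nat_lit 4) (nat_lit 350) (nat_lit 265) (nat_lit 165)) (XT.lf (nat_lit 0) (nat_lit 15569972665) (nat_lit 76) (nat_lit 65053339038) (nat_lit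 76) (nat_lit 32644449039) (nat_lit 6) (nat_lit 4) (nat_lit 7) (nat_lit 5) (nat_lit 7) (nat_lit 4) (nat_lit 351) (nat_lit 265) (nat_lit 164)))))) (XT.nd (nat_lit 390) (nat_lit 152) (nat_lit 0) (XT.nd (nat_lit 156) (nat_lit 0) (nat_lit 0) (XT.nd (nat_lit 78) (nat_lit 0) (nat_lit 0) (XT.lf (nat_lit 0) (nat_lit 31203594110) (nat_lit 76) (nat_lit 59869842387) (nat_lit 76) (nat_lit 27449693839) (nat_lit 6) (nat_lit 4) (nat_lit 7) (nat_lit 5) (nat_lit 7) (nat_lit 4) (nat_lit 352) (nat_lit 265) (nat_lit 163)) (XT.lf (nat_lit 0) (nat_lit 47609033732) (nat_lit 76) (nat_lit 54431688276) (nat_lit 76) (nat_lit 22000817300) (nat_lit 6) (nat_lit 4) (nat_lit 7) (nat_lit 5) (nat_lit 7) (nat_lit 4) (nat_lit 353) (nat_lit 265) (nat_lit 162))) (XT.nd (nat_lit 78) (nat_lit 0) (nat_lit 0) (XT.lf (nat_lit 0) (nat_lit 64825352100) (nat_lit 76) (nat_lit 48725928720) (nat_lit 76) (nat_lit 16284845908) (nat_lit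 6) (nat_lit 4) (nat_lit 7) (nat_lit 5) (nat_lit 7) (nat_lit 4) (nat_lit 354) (nat_lit 265) (nat_lit 161)) (XT.nd (nat_lit 78) (nat_lit 0) (nat_lit 0) (XT.lf (nat_lit 0) (nat_lit 82893540450) (nat_lit 76) (nat_lit 42738978577) (nat_lit 76) (nat_lit 10288170207) (nat_lit 6) (nat_lit 4) (nat_lit 7) (nat_lit 5) (nat_lit 7) (nat_lit 4) (nat_lit 355) (nat_lit 265) (nat_lit 160)) (XT.lf (nat_lit 0) (nat_lit 101856618276) (nat_lit 76) (nat_lit 36456583203) (nat_lit 76) (nat_lit 3996512398) (nat_lit 6) (nat_lit 4) (nat_lit 7) (nat_lit 5) (nat_lit 7) (nat_lit 4) (nat_lit 356) (nat_lit 265) (nat_lit 159))))) (XT.nd (nat_lit 156) (nat_lit 76) (nat_lit 0) (XT.nd (nat_lit 78) (nat_lit 0) (nat_lit 0) (XT.lf (nat_lit 0) (nat_lit 2521727943) (nat_lit 152) (nat_lit 27299349889) (nat_lit 76) (nat_lit 119195301139) (nat_lit 5) (nat_lit 5) (nat_lit 7) (nat_lit 5) (nat_lit 6) (nat_lit 4) (nat_lit 357) (nat_lit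 265) (nat_lit 158)) (XT.lf (nat_lit 0) (nat_lit 9227311512) (nat_lit 152) (nat_lit 13561304875) (nat_lit 76) (nat_lit 133266700794) (nat_lit 5) (nat_lit 5) (nat_lit 7) (nat_lit 5) (nat_lit 6) (nat_lit 4) (nat_lit 358) (nat_lit 265) (nat_lit 157))) (XT.nd (nat_lit 78) (nat_lit 0) (nat_lit 0) (XT.lf (nat_lit 0) (nat_lit 884453875) (nat_lit 76) (nat_lit 15393472266) (nat_lit 152) (nat_lit 147167791141) (nat_lit 4) (nat_lit 5) (nat_lit 5) (nat_lit 5) (nat_lit 6) (nat_lit 4) (nat_lit 359) (nat_lit 265) (nat_lit 156)) (XT.nd (nat_lit 78) (nat_lit 0) (nat_lit 0) (XT.lf (nat_lit 0) (nat_lit 16515942800) (nat_lit 76) (nat_lit 7390817075) (nat_lit 152) (nat_lit 147287595549) (nat_lit 4) (nat_lit 5) (nat_lit 5) (nat_lit 5) (nat_lit 6) (nat_lit 4) (nat_lit 360) (nat_lit 265) (nat_lit 155)) (XT.lf (nat_lit 0) (nat_lit 31928995072) (nat_lit 152) (nat_lit 146424384727) (nat_lit 0) (nat_lit 976450018)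 (nat_lit 4) (nat_lit 5) (nat_lit 6) (nat_lit 4) (nat_lit 4) (nat_lit 4) (nat_lit 361) (nat_lit 265) (nat_lit 154))))))))
noncomputable def xc124 : XT := (XT.nd (nat_lit 1482) (nat_lit 0) (nat_lit 0) (XT.nd (nat_lit 702) (nat_lit 76) (nat_lit 0) (XT.nd (nat_lit 312) (nat_lit 0) (nat_lit 0) (XT.nd (nat_lit 156) (nat_lit 0) (nat_lit 0) (XT.nd (nat_lit 78) (nat_lit 0) (nat_lit 0) (XT.lf (nat_lit 0) (nat_lit 40469845893) (nat_lit 152) (nat_lit 137885640872) (nat_lit 0) (nat_lit 9510718199) (nat_lit 4) (nat_lit 5) (nat_lit 6) (nat_lit 4) (nat_lit 4) (nat_lit 4) (nat_lit 362) (nat_lit 265) (nat_lit 153)) (XT.lf (nat_lit 0) (nat_lit 49434256330) (nat_lit 152) (nat_lit 128926459348) (nat_lit 0) (nat_lit 18468859454) (nat_lit 4) (nat_lit 5) (nat_lit 6) (nat_lit 4) (nat_lit 4) (nat_lit 4) (nat_lit 363) (nat_lit 265) (nat_lit 152))) (XT.nd (nat_lit 78) (nat_lit 0) (nat_lit 0) (XT.lf (nat_lit 0)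 (nat_lit 58843570216) (nat_lit 152) (nat_lit 119525508770) (nat_lit 0) (nat_lit 27872202692) (nat_lit 4) (nat_lit 5) (nat_lit 6) (nat_lit 4) (nat_lit 4) (nat_lit 4) (nat_lit 364) (nat_lit 265) (nat_lit 151)) (XT.lf (nat_lit 0) (nat_lit 68720190682) (nat_lit 152) (nat_lit 109660405923) (nat_lit 0) (nat_lit 37743136825) (nat_lit 4) (nat_lit 5) (nat_lit 6) (nat_lit 4) (nat_lit 4) (nat_lit 4) (nat_lit 365) (nat_lit 265) (nat_lit 150)))) (XT.nd (nat_lit 156) (nat_lit 0) (nat_lit 0) (XT.nd (nat_lit 78) (nat_lit 0) (nat_lit 0) (XT.lf (nat_lit 0) (nat_lit 79087633488) (nat_lit 152) (nat_lit 99307662467) (nat_lit 0) (nat_lit 48105164077) (nat_lit 4) (nat_lit 5) (nat_lit 6) (nat_lit 4) (nat_lit 4) (nat_lit 4) (nat_lit 366) (nat_lit 265) (nat_lit 149)) (XT.lf (nat_lit 0) (nat_lit 89970583024) (nat_lit 152) (nat_lit 88442629013) (nat_lit 0) (nat_lit 58982955942) (nat_lit 4) (nat_lit 5) (nat_lit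 6) (nat_lit 4) (nat_lit 4) (nat_lit 4) (nat_lit 367) (nat_lit 265) (nat_lit 148))) (XT.nd (nat_lit 78) (nat_lit 0) (nat_lit 0) (XT.lf (nat_lit 0) (nat_lit 101394951074) (nat_lit 152) (nat_lit 77039436433) (nat_lit 0) (nat_lit 70402411924) (nat_lit 4) (nat_lit 5) (nat_lit 6) (nat_lit 4) (nat_lit 4) (nat_lit 4) (nat_lit 368) (nat_lit 265) (nat_lit 147)) (XT.nd (nat_lit 78) (nat_lit 0) (nat_lit 0) (XT.lf (nat_lit 0) (nat_lit 113387938514) (nat_lit 152) (nat_lit 65070934270) (nat_lit 0) (nat_lit 82390721204) (nat_lit 4) (nat_lit 5) (nat_lit 6) (nat_lit 4) (nat_lit 4) (nat_lit 4) (nat_lit 369) (nat_lit 265) (nat_lit 146)) (XT.lf (nat_lit 0) (nat_lit 125978100075) (nat_lit 152) (nat_lit 52508626088) (nat_lit 0) (nat_lit 94976427375) (nat_lit 4) (nat_lit 5) (nat_lit 6) (nat_lit 4) (nat_lit 4) (nat_lit 4) (nat_lit 370) (nat_lit 265) (nat_lit 145)))))) (XT.nd (nat_lit 390) (nat_lit 0) (nat_lit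 0) (XT.nd (nat_lit 156) (nat_lit 76) (nat_lit 0) (XT.nd (nat_lit 78) (nat_lit 0) (nat_lit 0) (XT.lf (nat_lit 0) (nat_lit 139195412334) (nat_lit 152) (nat_lit 39322601631) (nat_lit 0) (nat_lit 108189496406) (nat_lit 4) (nat_lit 5) (nat_lit 6) (nat_lit 4) (nat_lit 4) (nat_lit 4) (nat_lit 371) (nat_lit 265) (nat_lit 144)) (XT.lf (nat_lit 0) (nat_lit 153071345082) (nat_lit 152) (nat_lit 25481465602) (nat_lit 0) (nat_lit 122061387983) (nat_lit 4) (nat_lit 5) (nat_lit 6) (nat_lit 4) (nat_lit 4) (nat_lit 4) (nat_lit 372) (nat_lit 265) (nat_lit 143))) (XT.nd (nat_lit 78) (nat_lit 76) (nat_lit 0) (XT.lf (nat_lit 0) (nat_lit 167638936253) (nat_lit 152) (nat_lit 10952262916) (nat_lit 0) (nat_lit 136625130420) (nat_lit 4) (nat_lit 5) (nat_lit 6) (nat_lit 4) (nat_lit 4) (nat_lit 4) (nat_lit 373) (nat_lit 265) (nat_lit 142)) (XT.nd (nat_lit 78) (nat_lit 0) (nat_lit 0) (XT.lf (nat_lit 0) (nat_lit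 4441763953) (nat_lit 76) (nat_lit 178560455018) (nat_lit 76) (nat_lit 147542983725) (nat_lit 3) (nat_lit 4) (nat_lit 4) (nat_lit 5) (nat_lit 4) (nat_lit 4) (nat_lit 374) (nat_lit 265) (nat_lit 141)) (XT.lf (nat_lit 0) (nat_lit 20981991159) (nat_lit 76) (nat_lit 178335158741) (nat_lit 76) (nat_lit 147314196534) (nat_lit 3) (nat_lit 4) (nat_lit 4) (nat_lit 5) (nat_lit 4) (nat_lit 4) (nat_lit 375) (nat_lit 265) (nat_lit 140))))) (XT.nd (nat_lit 156) (nat_lit 0) (nat_lit 0) (XT.nd (nat_lit 78) (nat_lit 0) (nat_lit 0) (XT.lf (nat_lit 0) (nat_lit 38345668920) (nat_lit 76) (nat_lit 178100255792) (nat_lit 76) (nat_lit 147075968903) (nat_lit 3) (nat_lit 4) (nat_lit 4) (nat_lit 5) (nat_lit 4) (nat_lit 4) (nat_lit 376) (nat_lit 265) (nat_lit 139)) (XT.lf (nat_lit 0) (nat_lit 56574139328) (nat_lit 76) (nat_lit 177855186876) (nat_lit 76) (nat_lit 146827733625) (nat_lit 3) (nat_lit 4) (nat_lit 4)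 (nat_lit 5) (nat_lit 4) (nat_lit 4) (nat_lit 377) (nat_lit 265) (nat_lit 138))) (XT.nd (nat_lit 78) (nat_lit 0) (nat_lit 0) (XT.lf (nat_lit 0) (nat_lit 75710803502) (nat_lit 76) (nat_lit 177599368497) (nat_lit 76) (nat_lit 146568899662) (nat_lit 3) (nat_lit 4) (nat_lit 4) (nat_lit 5) (nat_lit 4) (nat_lit 4) (nat_lit 378) (nat_lit 265) (nat_lit 137)) (XT.nd (nat_lit 78) (nat_lit 0) (nat_lit 0) (XT.lf (nat_lit 0) (nat_lit 95801224927) (nat_lit 76) (nat_lit 177332191563) (nat_lit 76) (nat_lit 146298850744) (nat_lit 3) (nat_lit 4) (nat_lit 4) (nat_lit 5) (nat_lit 4) (nat_lit 4) (nat_lit 379) (nat_lit 265) (nat_lit 136)) (XT.lf (nat_lit 0) (nat_lit 116893237942) (nat_lit 76) (nat_lit 177053019939) (nat_lit 76) (nat_lit 146016943897) (nat_lit 3) (nat_lit 4) (nat_lit 4) (nat_lit 5) (nat_lit 4) (nat_lit 4) (nat_lit 380) (nat_lit 265) (nat_lit 135))))))) (XT.nd (nat_lit 32058) (nat_lit 0) (nat_lit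 5624) (XT.nd (nat_lit 31668) (nat_lit 0) (nat_lit 7904) (XT.nd (nat_lit 156) (nat_lit 0) (nat_lit 0) (XT.nd (nat_lit 78) (nat_lit 0) (nat_lit 0) (XT.lf (nat_lit 0) (nat_lit 139037061623) (nat_lit 76) (nat_lit 176761188930) (nat_lit 76) (nat_lit 145722507914) (nat_lit 3) (nat_lit 4) (nat_lit 4) (nat_lit 5) (nat_lit 4) (nat_lit 4) (nat_lit 381) (nat_lit 265) (nat_lit 134)) (XT.lf (nat_lit 0) (nat_lit 162285419362) (nat_lit 76) (nat_lit 176456003701) (nat_lit 76) (nat_lit 145414841757) (nat_lit 3) (nat_lit 4) (nat_lit 4) (nat_lit 5) (nat_lit 4) (nat_lit 4) (nat_lit 382) (nat_lit 265) (nat_lit 133))) (XT.nd (nat_lit 78) (nat_lit 0) (nat_lit 0) (XT.lf (nat_lit 0) (nat_lit 186693664391) (nat_lit 76) (nat_lit 176136737620) (nat_lit 76) (nat_lit 145093212887) (nat_lit 3) (nat_lit 4) (nat_lit 4) (nat_lit 5) (nat_lit 4) (nat_lit 4) (nat_lit 383) (nat_lit 265) (nat_lit 132)) (XT.nd (nat_lit 78)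 (nat_lit 0) (nat_lit 0) (XT.lf (nat_lit 0) (nat_lit 212319911578) (nat_lit 76) (nat_lit 175802630530) (nat_lit 76) (nat_lit 144756855522) (nat_lit 3) (nat_lit 4) (nat_lit 4) (nat_lit 5) (nat_lit 4) (nat_lit 4) (nat_lit 384) (nat_lit 265) (nat_lit 131)) (XT.lf (nat_lit 0) (nat_lit 239225175799) (nat_lit 76) (nat_lit 175452886937) (nat_lit 76) (nat_lit 144404968811) (nat_lit 3) (nat_lit 4) (nat_lit 4) (nat_lit 5) (nat_lit 4) (nat_lit 4) (nat_lit 385) (nat_lit 265) (nat_lit 130))))) (XT.nd (nat_lit 156) (nat_lit 456) (nat_lit 0) (XT.nd (nat_lit 78) (nat_lit 0) (nat_lit 0) (XT.lf (nat_lit 0) (nat_lit 535293010) (nat_lit 0) (nat_lit 535293010) (nat_lit 380) (nat_lit 2365014143) (nat_lit 113) (nat_lit 5) (nat_lit 113) (nat_lit 3) (nat_lit 118) (nat_lit 3) (nat_lit 266) (nat_lit 266) (nat_lit 248)) (XT.lf (nat_lit 0) (nat_lit 3999189349) (nat_lit 380) (nat_lit 2679701422) (nat_lit 456) (nat_lit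 267435413) (nat_lit 113) (nat_lit 5) (nat_lit 118) (nat_lit 3) (nat_lit 119) (nat_lit 5) (nat_lit 267) (nat_lit 266) (nat_lit 247))) (XT.nd (nat_lit 78) (nat_lit 456) (nat_lit 0) (XT.lf (nat_lit 76) (nat_lit 532045644) (nat_lit 0) (nat_lit 5329585096) (nat_lit 456) (nat_lit 1168413018) (nat_lit 114) (nat_lit 5) (nat_lit 113) (nat_lit 5) (nat_lit 119) (nat_lit 5) (nat_lit 268) (nat_lit 266) (nat_lit 246)) (XT.nd (nat_lit 78) (nat_lit 0) (nat_lit 0) (XT.lf (nat_lit 0) (nat_lit 610928613) (nat_lit 456) (nat_lit 3197650972) (nat_lit 532) (nat_lit 3312491989) (nat_lit 107) (nat_lit 5) (nat_lit 113) (nat_lit 5) (nat_lit 114) (nat_lit 5) (nat_lit 269) (nat_lit 266) (nat_lit 245)) (XT.lf (nat_lit 76) (nat_lit 190145105) (nat_lit 0) (nat_lit 2146066851) (nat_lit 532) (nat_lit 4885024604) (nat_lit 108) (nat_lit 5) (nat_lit 107) (nat_lit 5) (nat_lit 114) (nat_lit 5) (nat_lit 270) (nat_lit 266)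 (nat_lit 244)))))) (XT.nd (nat_lit 390) (nat_lit 1824) (nat_lit 0) (XT.nd (nat_lit 156) (nat_lit 456) (nat_lit 0) (XT.nd (nat_lit 78) (nat_lit 0) (nat_lit 76) (XT.lf (nat_lit 76) (nat_lit 3794886588) (nat_lit 0) (nat_lit 304390406) (nat_lit 532) (nat_lit 3229895535) (nat_lit 108) (nat_lit 5) (nat_lit 107) (nat_lit 5) (nat_lit 114) (nat_lit 5) (nat_lit 271) (nat_lit 266) (nat_lit 243)) (XT.lf (nat_lit 76) (nat_lit 47201366) (nat_lit 0) (nat_lit 5832303625) (nat_lit 532) (nat_lit 1566872308) (nat_lit 109) (nat_lit 5) (nat_lit 108) (nat_lit 5) (nat_lit 115) (nat_lit 5) (nat_lit 272) (nat_lit 266) (nat_lit 242))) (XT.nd (nat_lit 78) (nat_lit 0) (nat_lit 0) (XT.lf (nat_lit 0) (nat_lit 144001689) (nat_lit 532) (nat_lit 3713363154) (nat_lit 608) (nat_lit 3713708079) (nat_lit 101) (nat_lit 5) (nat_lit 108) (nat_lit 5) (nat_lit 109) (nat_lit 5) (nat_lit 273) (nat_lit 266) (nat_lit 241)) (XT.nd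 (nat_lit 78) (nat_lit 0) (nat_lit 76) (XT.lf (nat_lit 76) (nat_lit 67885238) (nat_lit 0) (nat_lit 1730091434) (nat_lit 608) (nat_lit 5907510186) (nat_lit 102) (nat_lit 5) (nat_lit 101) (nat_lit 5) (nat_lit 109) (nat_lit 5) (nat_lit 274) (nat_lit 266) (nat_lit 240)) (XT.lf (nat_lit 0) (nat_lit 3519270338) (nat_lit 532) (nat_lit 3754545877) (nat_lit 76) (nat_lit 573839589) (nat_lit 102) (nat_lit 5) (nat_lit 109) (nat_lit 5) (nat_lit 103) (nat_lit 5) (nat_lit 275) (nat_lit 266) (nat_lit 239))))) (XT.nd (nat_lit 156) (nat_lit 1368) (nat_lit 0) (XT.nd (nat_lit 78) (nat_lit 0) (nat_lit 0) (XT.lf (nat_lit 0) (nat_lit 235857313) (nat_lit 532) (nat_lit 5039806045) (nat_lit 608) (nat_lit 2724070785) (nat_lit 95) (nat_lit 5) (nat_lit 102) (nat_lit 5) (nat_lit 103) (nat_lit 5) (nat_lit 276) (nat_lit 266) (nat_lit 238)) (XT.lf (nat_lit 0) (nat_lit 4491202315) (nat_lit 532) (nat_lit 2612188036) (nat_lit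 608) (nat_lit 1057090975) (nat_lit 95) (nat_lit 5) (nat_lit 102) (nat_lit 5) (nat_lit 103) (nat_lit 5) (nat_lit 277) (nat_lit 266) (nat_lit 237))) (XT.nd (nat_lit 78) (nat_lit 684) (nat_lit 0) (XT.lf (nat_lit 0) (nat_lit 572938648) (nat_lit 608) (nat_lit 29326598) (nat_lit 684) (nat_lit 7730116958) (nat_lit 86) (nat_lit 5) (nat_lit 94) (nat_lit 5) (nat_lit 95) (nat_lit 5) (nat_lit 278) (nat_lit 266) (nat_lit 236)) (XT.nd (nat_lit 78) (nat_lit 684) (nat_lit 0) (XT.lf (nat_lit 0) (nat_lit 2339265441) (nat_lit 684) (nat_lit 3483066468) (nat_lit 76) (nat_lit 2688377559) (nat_lit 86) (nat_lit 5) (nat_lit 95) (nat_lit 5) (nat_lit 87) (nat_lit 5) (nat_lit 279) (nat_lit 266) (nat_lit 235)) (XT.lf (nat_lit 0) (nat_lit 973305832) (nat_lit 684) (nat_lit 3134208045) (nat_lit 760) (nat_lit 4593417286) (nat_lit 77) (nat_lit 5) (nat_lit 86) (nat_lit 5) (nat_lit 87) (nat_lit 5) (nat_lit 280) (nat_lit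 266) (nat_lit 234))))))))
noncomputable def xc125 : XT := (XT.nd (nat_lit 1482) (nat_lit 1672) (nat_lit 0) (XT.nd (nat_lit 702) (nat_lit 1292) (nat_lit 0) (XT.nd (nat_lit 312) (nat_lit 684) (nat_lit 0) (XT.nd (nat_lit 156) (nat_lit 456) (nat_lit 0) (XT.nd (nat_lit 78) (nat_lit 380) (nat_lit 0) (XT.lf (nat_lit 0) (nat_lit 5709966444) (nat_lit 684) (nat_lit 244320658) (nat_lit 760) (nat_lit 2947059773) (nat_lit 77) (nat_lit 5) (nat_lit 86) (nat_lit 5) (nat_lit 87) (nat_lit 5) (nat_lit 281) (nat_lit 266) (nat_lit 233)) (XT.lf (nat_lit 0) (nat_lit 1512554427) (nat_lit 380) (nat_lit 6382505762) (nat_lit 456) (nat_lit 1216819696) (nat_lit 72) (nat_lit 5) (nat_lit 77) (nat_lit 5) (nat_lit 78) (nat_lit 5) (nat_lit 282) (nat_lit 266) (nat_lit 232))) (XT.nd (nat_lit 78) (nat_lit 380) (nat_lit 0) (XT.lf (nat_lit 0) (nat_lit 575087507) (nat_lit 456) (nat_lit 2847250760) (nat_lit 76) (nat_lit 5910577991)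 (nat_lit 71) (nat_lit 5) (nat_lit 77) (nat_lit 5) (nat_lit 72) (nat_lit 5) (nat_lit 283) (nat_lit 266) (nat_lit 231)) (XT.lf (nat_lit 0) (nat_lit 2128471585) (nat_lit 380) (nat_lit 258949963) (nat_lit 456) (nat_lit 7178154400) (nat_lit 66) (nat_lit 5) (nat_lit 71) (nat_lit 5) (nat_lit 72) (nat_lit 5) (nat_lit 284) (nat_lit 266) (nat_lit 230)))) (XT.nd (nat_lit 156) (nat_lit 380) (nat_lit 0) (XT.nd (nat_lit 78) (nat_lit 304) (nat_lit 0) (XT.lf (nat_lit 0) (nat_lit 4327640954) (nat_lit 456) (nat_lit 2468463720) (nat_lit 76) (nat_lit 3012048250) (nat_lit 66) (nat_lit 5) (nat_lit 72) (nat_lit 5) (nat_lit 67) (nat_lit 5) (nat_lit 285) (nat_lit 266) (nat_lit 229)) (XT.lf (nat_lit 0) (nat_lit 2771911035) (nat_lit 304) (nat_lit 3583761455) (nat_lit 380) (nat_lit 3707786902) (nat_lit 62) (nat_lit 5) (nat_lit 66) (nat_lit 5) (nat_lit 67) (nat_lit 5) (nat_lit 286) (nat_lit 266) (nat_lit 228)))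 (XT.nd (nat_lit 78) (nat_lit 380) (nat_lit 0) (XT.lf (nat_lit 0) (nat_lit 8299819348) (nat_lit 304) (nat_lit 172131022) (nat_lit 380) (nat_lit 1860372575) (nat_lit 62) (nat_lit 5) (nat_lit 66) (nat_lit 5) (nat_lit 67) (nat_lit 5) (nat_lit 287) (nat_lit 266) (nat_lit 227)) (XT.nd (nat_lit 78) (nat_lit 0) (nat_lit 0) (XT.lf (nat_lit 0) (nat_lit 132929828) (nat_lit 380) (nat_lit 7126236196) (nat_lit 76) (nat_lit 3352720247) (nat_lit 57) (nat_lit 5) (nat_lit 62) (nat_lit 5) (nat_lit 58) (nat_lit 5) (nat_lit 288) (nat_lit 266) (nat_lit 226)) (XT.lf (nat_lit 0) (nat_lit 2149387340) (nat_lit 380) (nat_lit 1648162018) (nat_lit 76) (nat_lit 7107168730) (nat_lit 57) (nat_lit 5) (nat_lit 62) (nat_lit 5) (nat_lit 58) (nat_lit 5) (nat_lit 289) (nat_lit 266) (nat_lit 225)))))) (XT.nd (nat_lit 390) (nat_lit 456) (nat_lit 0) (XT.nd (nat_lit 156) (nat_lit 608) (nat_lit 0) (XT.nd (nat_lit 78) (nat_lit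 0) (nat_lit 0) (XT.lf (nat_lit 0) (nat_lit 4179641277) (nat_lit 228) (nat_lit 102952048) (nat_lit 304) (nat_lit 6928912133) (nat_lit 54) (nat_lit 5) (nat_lit 57) (nat_lit 5) (nat_lit 58) (nat_lit 5) (nat_lit 290) (nat_lit 266) (nat_lit 224)) (XT.lf (nat_lit 0) (nat_lit 6561775250) (nat_lit 304) (nat_lit 1294969118) (nat_lit 76) (nat_lit 3675027039) (nat_lit 54) (nat_lit 5) (nat_lit 58) (nat_lit 5) (nat_lit 55) (nat_lit 5) (nat_lit 291) (nat_lit 266) (nat_lit 223))) (XT.nd (nat_lit 78) (nat_lit 304) (nat_lit 0) (XT.lf (nat_lit 0) (nat_lit 4824968893) (nat_lit 304) (nat_lit 4161238630) (nat_lit 380) (nat_lit 2880378560) (nat_lit 50) (nat_lit 5) (nat_lit 54) (nat_lit 5) (nat_lit 55) (nat_lit 5) (nat_lit 292) (nat_lit 266) (nat_lit 222)) (XT.nd (nat_lit 78) (nat_lit 304) (nat_lit 0) (XT.lf (nat_lit 0) (nat_lit 11240230992) (nat_lit 304) (nat_lit 269142527) (nat_lit 380) (nat_lit 709987599)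 (nat_lit 50) (nat_lit 5) (nat_lit 54) (nat_lit 5) (nat_lit 55) (nat_lit 5) (nat_lit 293) (nat_lit 266) (nat_lit 221)) (XT.lf (nat_lit 0) (nat_lit 1622456961) (nat_lit 304) (nat_lit 7164757500) (nat_lit 76) (nat_lit 3796234590) (nat_lit 46) (nat_lit 5) (nat_lit 50) (nat_lit 5) (nat_lit 47) (nat_lit 5) (nat_lit 294) (nat_lit 266) (nat_lit 220))))) (XT.nd (nat_lit 156) (nat_lit 228) (nat_lit 0) (XT.nd (nat_lit 78) (nat_lit 228) (nat_lit 0) (XT.lf (nat_lit 0) (nat_lit 4026875872) (nat_lit 304) (nat_lit 866444505) (nat_lit 76) (nat_lit 8072960692) (nat_lit 46) (nat_lit 5) (nat_lit 50) (nat_lit 5) (nat_lit 47) (nat_lit 5) (nat_lit 295) (nat_lit 266) (nat_lit 219)) (XT.lf (nat_lit 0) (nat_lit 5882089078) (nat_lit 228) (nat_lit 721211412) (nat_lit 304) (nat_lit 6762443307) (nat_lit 43) (nat_lit 5) (nat_lit 46) (nat_lit 5) (nat_lit 47) (nat_lit 5) (nat_lit 296) (nat_lit 266) (nat_lit 218)))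 (XT.nd (nat_lit 78) (nat_lit 228) (nat_lit 0) (XT.lf (nat_lit 0) (nat_lit 9341432951) (nat_lit 304) (nat_lit 897612989) (nat_lit 76) (nat_lit 3544564007) (nat_lit 43) (nat_lit 5) (nat_lit 47) (nat_lit 5) (nat_lit 44) (nat_lit 5) (nat_lit 297) (nat_lit 266) (nat_lit 217)) (XT.nd (nat_lit 78) (nat_lit 76) (nat_lit 0) (XT.lf (nat_lit 0) (nat_lit 6151438125) (nat_lit 152) (nat_lit 6135600430) (nat_lit 228) (nat_lit 1931873586) (nat_lit 41) (nat_lit 5) (nat_lit 43) (nat_lit 5) (nat_lit 44) (nat_lit 5) (nat_lit 298) (nat_lit 266) (nat_lit 216)) (XT.lf (nat_lit 0) (nat_lit 659893737) (nat_lit 228) (nat_lit 1154166842) (nat_lit 76) (nat_lit 12862509826) (nat_lit 40) (nat_lit 5) (nat_lit 43) (nat_lit 5) (nat_lit 41) (nat_lit 5) (nat_lit 299) (nat_lit 266) (nat_lit 215))))))) (XT.nd (nat_lit 780) (nat_lit 684) (nat_lit 0) (XT.nd (nat_lit 390) (nat_lit 380) (nat_lit 0) (XT.nd (nat_lit 156) (nat_lit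 380) (nat_lit 0) (XT.nd (nat_lit 78) (nat_lit 0) (nat_lit 0) (XT.lf (nat_lit 0) (nat_lit 3422686520) (nat_lit 304) (nat_lit 8973941707) (nat_lit 76) (nat_lit 2753643204) (nat_lit 37) (nat_lit 5) (nat_lit 41) (nat_lit 5) (nat_lit 38) (nat_lit 5) (nat_lit 300) (nat_lit 266) (nat_lit 214)) (XT.lf (nat_lit 0) (nat_lit 6338709765) (nat_lit 304) (nat_lit 1813418048) (nat_lit 76) (nat_lit 7494833617) (nat_lit 37) (nat_lit 5) (nat_lit 41) (nat_lit 5) (nat_lit 38) (nat_lit 5) (nat_lit 301) (nat_lit 266) (nat_lit 213))) (XT.nd (nat_lit 78) (nat_lit 228) (nat_lit 0) (XT.lf (nat_lit 0) (nat_lit 5844477361) (nat_lit 152) (nat_lit 3614434356) (nat_lit 228) (nat_lit 6706711016) (nat_lit 35) (nat_lit 5) (nat_lit 37) (nat_lit 5) (nat_lit 38) (nat_lit 5) (nat_lit 302) (nat_lit 266) (nat_lit 212)) (XT.nd (nat_lit 78) (nat_lit 228) (nat_lit 0) (XT.lf (nat_lit 0) (nat_lit 12752023816) (nat_lit 228) (nat_lit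 2827283517) (nat_lit 76) (nat_lit 1130117793) (nat_lit 35) (nat_lit 5) (nat_lit 38) (nat_lit 5) (nat_lit 36) (nat_lit 5) (nat_lit 303) (nat_lit 266) (nat_lit 211)) (XT.lf (nat_lit 0) (nat_lit 5099159679) (nat_lit 228) (nat_lit 11218762279) (nat_lit 304) (nat_lit 957139660) (nat_lit 32) (nat_lit 5) (nat_lit 35) (nat_lit 5) (nat_lit 36) (nat_lit 5) (nat_lit 304) (nat_lit 266) (nat_lit 210))))) (XT.nd (nat_lit 156) (nat_lit 152) (nat_lit 0) (XT.nd (nat_lit 78) (nat_lit 152) (nat_lit 0) (XT.lf (nat_lit 0) (nat_lit 2141090615) (nat_lit 304) (nat_lit 4427905408) (nat_lit 76) (nat_lit 11297410196) (nat_lit 31) (nat_lit 5) (nat_lit 35) (nat_lit 5) (nat_lit 32) (nat_lit 5) (nat_lit 305) (nat_lit 266) (nat_lit 209)) (XT.lf (nat_lit 0) (nat_lit 3768240163) (nat_lit 152) (nat_lit 1623595250) (nat_lit 228) (nat_lit 13093253261) (nat_lit 29) (nat_lit 5) (nat_lit 31) (nat_lit 5) (nat_lit 32) (nat_lit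 5) (nat_lit 306) (nat_lit 266) (nat_lit 208))) (XT.nd (nat_lit 78) (nat_lit 152) (nat_lit 0) (XT.lf (nat_lit 0) (nat_lit 8908464983) (nat_lit 228) (nat_lit 6704667089) (nat_lit 76) (nat_lit 3516447353) (nat_lit 29) (nat_lit 5) (nat_lit 32) (nat_lit 5) (nat_lit 30) (nat_lit 5) (nat_lit 307) (nat_lit 266) (nat_lit 207)) (XT.nd (nat_lit 78) (nat_lit 0) (nat_lit 0) (XT.lf (nat_lit 0) (nat_lit 1693147360) (nat_lit 152) (nat_lit 10933597586) (nat_lit 228) (nat_lit 7178298393) (nat_lit 27) (nat_lit 5) (nat_lit 29) (nat_lit 5) (nat_lit 30) (nat_lit 5) (nat_lit 308) (nat_lit 266) (nat_lit 206)) (XT.lf (nat_lit 0) (nat_lit 10701758724) (nat_lit 152) (nat_lit 5916137934) (nat_lit 228) (nat_lit 3892073589) (nat_lit 27) (nat_lit 5) (nat_lit 29) (nat_lit 5) (nat_lit 30) (nat_lit 5) (nat_lit 309) (nat_lit 266) (nat_lit 205)))))) (XT.nd (nat_lit 390) (nat_lit 304) (nat_lit 0) (XT.nd (nat_lit 156) (nat_lit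 152) (nat_lit 0) (XT.nd (nat_lit 78) (nat_lit 228) (nat_lit 0) (XT.lf (nat_lit 0) (nat_lit 20120929504) (nat_lit 152) (nat_lit 662353566) (nat_lit 228) (nat_lit 468162468) (nat_lit 27) (nat_lit 5) (nat_lit 29) (nat_lit 5) (nat_lit 30) (nat_lit 5) (nat_lit 310) (nat_lit 266) (nat_lit 204)) (XT.lf (nat_lit 0) (nat_lit 3208081365) (nat_lit 228) (nat_lit 13946479226) (nat_lit 76) (nat_lit 4863964592) (nat_lit 24) (nat_lit 5) (nat_lit 27) (nat_lit 5) (nat_lit 25) (nat_lit 5) (nat_lit 311) (nat_lit 266) (nat_lit 203))) (XT.nd (nat_lit 78) (nat_lit 152) (nat_lit 0) (XT.lf (nat_lit 0) (nat_lit 7058527128) (nat_lit 228) (nat_lit 5107061684) (nat_lit 76) (nat_lit 10657711111) (nat_lit 24) (nat_lit 5) (nat_lit 27) (nat_lit 5) (nat_lit 25) (nat_lit 5) (nat_lit 312) (nat_lit 266) (nat_lit 202)) (XT.nd (nat_lit 78) (nat_lit 0) (nat_lit 0) (XT.lf (nat_lit 0) (nat_lit 4273782794) (nat_lit 152) (nat_lit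 6871395356) (nat_lit 228) (nat_lit 12520980629) (nat_lit 22) (nat_lit 5) (nat_lit 24) (nat_lit 5) (nat_lit 25) (nat_lit 5) (nat_lit 313) (nat_lit 266) (nat_lit 201)) (XT.lf (nat_lit 0) (nat_lit 14264245592) (nat_lit 152) (nat_lit 1235887762) (nat_lit 228) (nat_lit 9047856765) (nat_lit 22) (nat_lit 5) (nat_lit 24) (nat_lit 5) (nat_lit 25) (nat_lit 5) (nat_lit 314) (nat_lit 266) (nat_lit 200))))) (XT.nd (nat_lit 156) (nat_lit 228) (nat_lit 0) (XT.nd (nat_lit 78) (nat_lit 76) (nat_lit 0) (XT.lf (nat_lit 0) (nat_lit 20124268113) (nat_lit 228) (nat_lit 828639535) (nat_lit 76) (nat_lit 4518460571) (nat_lit 22) (nat_lit 5) (nat_lit 25) (nat_lit 5) (nat_lit 23) (nat_lit 4) (nat_lit 315) (nat_lit 266) (nat_lit 199)) (XT.lf (nat_lit 0) (nat_lit 9343861862) (nat_lit 76) (nat_lit 15781265498) (nat_lit 152) (nat_lit 1308537484) (nat_lit 21) (nat_lit 5) (nat_lit 22) (nat_lit 5) (nat_lit 23) (nat_lit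 4) (nat_lit 316) (nat_lit 266) (nat_lit 198))) (XT.nd (nat_lit 78) (nat_lit 152) (nat_lit 0) (XT.lf (nat_lit 0) (nat_lit 2831852670) (nat_lit 152) (nat_lit 7469934948) (nat_lit 76) (nat_lit 17140336007) (nat_lit 20) (nat_lit 5) (nat_lit 22) (nat_lit 5) (nat_lit 21) (nat_lit 5) (nat_lit 317) (nat_lit 266) (nat_lit 197)) (XT.nd (nat_lit 78) (nat_lit 0) (nat_lit 0) (XT.lf (nat_lit 0) (nat_lit 2661998410) (nat_lit 152) (nat_lit 4495303786) (nat_lit 228) (nat_lit 21341551847) (nat_lit 18) (nat_lit 5) (nat_lit 20) (nat_lit 5) (nat_lit 21) (nat_lit 5) (nat_lit 318) (nat_lit 266) (nat_lit 196)) (XT.lf (nat_lit 0) (nat_lit 11833288387) (nat_lit 228) (nat_lit 16102229303) (nat_lit 76) (nat_lit 1666211067) (nat_lit 18) (nat_lit 5) (nat_lit 21) (nat_lit 5) (nat_lit 19) (nat_lit 4) (nat_lit 319) (nat_lit 266) (nat_lit 195))))))))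
noncomputable def xc126 : XT := (XT.nd (nat_lit 1482) (nat_lit 380) (nat_lit 0) (XT.nd (nat_lit 702) (nat_lit 228) (nat_lit 0) (XT.nd (nat_lit 312) (nat_lit 304) (nat_lit 0) (XT.nd (nat_lit 156) (nat_lit 0) (nat_lit 0) (XT.nd (nat_lit 78) (nat_lit 76) (nat_lit 0) (XT.lf (nat_lit 0) (nat_lit 16798366794) (nat_lit 228) (nat_lit 5985920898) (nat_lit 76) (nat_lit 7972714855) (nat_lit 18) (nat_lit 5) (nat_lit 21) (nat_lit 5) (nat_lit 19) (nat_lit 4) (nat_lit 320) (nat_lit 266) (nat_lit 194)) (XT.lf (nat_lit 0) (nat_lit 4758646731) (nat_lit 76) (nat_lit 17309823822) (nat_lit 152) (nat_lit 9898749937) (nat_lit 17) (nat_lit 5) (nat_lit 18) (nat_lit 5) (nat_lit 19) (nat_lit 4) (nat_lit 321) (nat_lit 266) (nat_lit 193))) (XT.nd (nat_lit 78) (nat_lit 0) (nat_lit 0) (XT.lf (nat_lit 0) (nat_lit 16218879447) (nat_lit 76) (nat_lit 11467425915) (nat_lit 152) (nat_lit 5547450802) (nat_lit 17) (nat_lit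 5) (nat_lit 18) (nat_lit 5) (nat_lit 19) (nat_lit 4) (nat_lit 322) (nat_lit 266) (nat_lit 192)) (XT.lf (nat_lit 0) (nat_lit 28224141938) (nat_lit 76) (nat_lit 5344557970) (nat_lit 152) (nat_lit 995752579) (nat_lit 17) (nat_lit 5) (nat_lit 18) (nat_lit 5) (nat_lit 19) (nat_lit 4) (nat_lit 323) (nat_lit 266) (nat_lit 191)))) (XT.nd (nat_lit 156) (nat_lit 76) (nat_lit 0) (XT.nd (nat_lit 78) (nat_lit 0) (nat_lit 0) (XT.lf (nat_lit 0) (nat_lit 3742720005) (nat_lit 228) (nat_lit 31034837907) (nat_lit 76) (nat_lit 1177173495) (nat_lit 14) (nat_lit 5) (nat_lit 17) (nat_lit 5) (nat_lit 15) (nat_lit 4) (nat_lit 324) (nat_lit 266) (nat_lit 190)) (XT.lf (nat_lit 0) (nat_lit 8865739540) (nat_lit 228) (nat_lit 20578989575) (nat_lit 76) (nat_lit 7959939524) (nat_lit 14) (nat_lit 5) (nat_lit 17) (nat_lit 5) (nat_lit 15) (nat_lit 4) (nat_lit 325) (nat_lit 266) (nat_lit 189))) (XT.nd (nat_lit 78) (nat_lit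 76) (nat_lit 0) (XT.lf (nat_lit 0) (nat_lit 14229990945) (nat_lit 228) (nat_lit 9626409159) (nat_lit 76) (nat_lit 15071462786) (nat_lit 14) (nat_lit 5) (nat_lit 17) (nat_lit 5) (nat_lit 15) (nat_lit 4) (nat_lit 326) (nat_lit 266) (nat_lit 188)) (XT.nd (nat_lit 78) (nat_lit 0) (nat_lit 0) (XT.lf (nat_lit 0) (nat_lit 1910116571) (nat_lit 76) (nat_lit 17967951950) (nat_lit 152) (nat_lit 20648381181) (nat_lit 13) (nat_lit 5) (nat_lit 14) (nat_lit 5) (nat_lit 15) (nat_lit 4) (nat_lit 327) (nat_lit 266) (nat_lit 187)) (XT.lf (nat_lit 0) (nat_lit 14333256726) (nat_lit 76) (nat_lit 11624407830) (nat_lit 152) (nat_lit 16239858454) (nat_lit 13) (nat_lit 5) (nat_lit 14) (nat_lit 5) (nat_lit 15) (nat_lit 4) (nat_lit 328) (nat_lit 266) (nat_lit 186)))))) (XT.nd (nat_lit 390) (nat_lit 76) (nat_lit 0) (XT.nd (nat_lit 156) (nat_lit 152) (nat_lit 0) (XT.nd (nat_lit 78) (nat_lit 0) (nat_lit 0) (XT.lf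 (nat_lit 0) (nat_lit 27354297648) (nat_lit 76) (nat_lit 4973691964) (nat_lit 152) (nat_lit 11624835178) (nat_lit 13) (nat_lit 5) (nat_lit 14) (nat_lit 5) (nat_lit 15) (nat_lit 4) (nat_lit 329) (nat_lit 266) (nat_lit 185)) (XT.lf (nat_lit 0) (nat_lit 39035437216) (nat_lit 152) (nat_lit 4823518603) (nat_lit 0) (nat_lit 1936017212) (nat_lit 13) (nat_lit 5) (nat_lit 15) (nat_lit 4) (nat_lit 13) (nat_lit 4) (nat_lit 330) (nat_lit 266) (nat_lit 184))) (XT.nd (nat_lit 78) (nat_lit 76) (nat_lit 0) (XT.lf (nat_lit 0) (nat_lit 7683045386) (nat_lit 76) (nat_lit 38584541079) (nat_lit 76) (nat_lit 1452186884) (nat_lit 12) (nat_lit 4) (nat_lit 13) (nat_lit 5) (nat_lit 13) (nat_lit 4) (nat_lit 331) (nat_lit 266) (nat_lit 183)) (XT.nd (nat_lit 78) (nat_lit 0) (nat_lit 0) (XT.lf (nat_lit 0) (nat_lit 4059556330) (nat_lit 152) (nat_lit 28841629614) (nat_lit 76) (nat_lit 16832875707) (nat_lit 11) (nat_lit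 5) (nat_lit 13) (nat_lit 5) (nat_lit 12) (nat_lit 4) (nat_lit 332) (nat_lit 266) (nat_lit 182)) (XT.lf (nat_lit 0) (nat_lit 9786542497) (nat_lit 152) (nat_lit 17131180253) (nat_lit 76) (nat_lit 24930737974) (nat_lit 11) (nat_lit 5) (nat_lit 13) (nat_lit 5) (nat_lit 12) (nat_lit 4) (nat_lit 333) (nat_lit 266) (nat_lit 181))))) (XT.nd (nat_lit 156) (nat_lit 0) (nat_lit 0) (XT.nd (nat_lit 78) (nat_lit 76) (nat_lit 0) (XT.lf (nat_lit 0) (nat_lit 15788886348) (nat_lit 152) (nat_lit 4854825150) (nat_lit 76) (nat_lit 33425426989) (nat_lit 11) (nat_lit 5) (nat_lit 13) (nat_lit 5) (nat_lit 12) (nat_lit 4) (nat_lit 334) (nat_lit 266) (nat_lit 180)) (XT.lf (nat_lit 0) (nat_lit 8281732262) (nat_lit 76) (nat_lit 13928447966) (nat_lit 152) (nat_lit 34184736990) (nat_lit 10) (nat_lit 5) (nat_lit 11) (nat_lit 5) (nat_lit 12) (nat_lit 4) (nat_lit 335) (nat_lit 266) (nat_lit 179))) (XT.nd (nat_lit 78)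 (nat_lit 0) (nat_lit 0) (XT.lf (nat_lit 0) (nat_lit 22225284848) (nat_lit 76) (nat_lit 6799216056) (nat_lit 152) (nat_lit 29808894180) (nat_lit 10) (nat_lit 5) (nat_lit 11) (nat_lit 5) (nat_lit 12) (nat_lit 4) (nat_lit 336) (nat_lit 266) (nat_lit 178)) (XT.nd (nat_lit 78) (nat_lit 0) (nat_lit 0) (XT.lf (nat_lit 0) (nat_lit 36180366349) (nat_lit 152) (nat_lit 24556381101) (nat_lit 0) (nat_lit 657015866) (nat_lit 10) (nat_lit 5) (nat_lit 12) (nat_lit 4) (nat_lit 10) (nat_lit 4) (nat_lit 337) (nat_lit 266) (nat_lit 177)) (XT.lf (nat_lit 0) (nat_lit 43796069432) (nat_lit 152) (nat_lit 12030558051) (nat_lit 0) (nat_lit 8250427791) (nat_lit 10) (nat_lit 5) (nat_lit 12) (nat_lit 4) (nat_lit 10) (nat_lit 4) (nat_lit 338) (nat_lit 266) (nat_lit 176))))))) (XT.nd (nat_lit 780) (nat_lit 152) (nat_lit 0) (XT.nd (nat_lit 390) (nat_lit 76) (nat_lit 0) (XT.nd (nat_lit 156) (nat_lit 76) (nat_lit 0)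 (XT.nd (nat_lit 78) (nat_lit 0) (nat_lit 0) (XT.lf (nat_lit 0) (nat_lit 1141884554) (nat_lit 76) (nat_lit 50659531424) (nat_lit 76) (nat_lit 15092660110) (nat_lit 9) (nat_lit 4) (nat_lit 10) (nat_lit 5) (nat_lit 10) (nat_lit 4) (nat_lit 339) (nat_lit 266) (nat_lit 175)) (XT.lf (nat_lit 0) (nat_lit 15374665666) (nat_lit 76) (nat_lit 45027315789) (nat_lit 76) (nat_lit 9440225739) (nat_lit 9) (nat_lit 4) (nat_lit 10) (nat_lit 5) (nat_lit 10) (nat_lit 4) (nat_lit 340) (nat_lit 266) (nat_lit 174))) (XT.nd (nat_lit 78) (nat_lit 76) (nat_lit 0) (XT.lf (nat_lit 0) (nat_lit 30303888275) (nat_lit 76) (nat_lit 39120313865) (nat_lit 76) (nat_lit 3513967875) (nat_lit 9) (nat_lit 4) (nat_lit 10) (nat_lit 5) (nat_lit 10) (nat_lit 4) (nat_lit 341) (nat_lit 266) (nat_lit 173)) (XT.nd (nat_lit 78) (nat_lit 0) (nat_lit 0) (XT.lf (nat_lit 0) (nat_lit 2613799599) (nat_lit 152) (nat_lit 30266395801) (nat_lit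 76) (nat_lit 43307032591) (nat_lit 8) (nat_lit 5) (nat_lit 10) (nat_lit 5) (nat_lit 9) (nat_lit 4) (nat_lit 342) (nat_lit 266) (nat_lit 172)) (XT.lf (nat_lit 0) (nat_lit 8922138252) (nat_lit 152) (nat_lit 17351767266) (nat_lit 76) (nat_lit 53322344906) (nat_lit 8) (nat_lit 5) (nat_lit 10) (nat_lit 5) (nat_lit 9) (nat_lit 4) (nat_lit 343) (nat_lit 266) (nat_lit 171))))) (XT.nd (nat_lit 156) (nat_lit 0) (nat_lit 0) (XT.nd (nat_lit 78) (nat_lit 76) (nat_lit 0) (XT.lf (nat_lit 0) (nat_lit 15538536856) (nat_lit 152) (nat_lit 3804784134) (nat_lit 76) (nat_lit 63832776193) (nat_lit 8) (nat_lit 5) (nat_lit 10) (nat_lit 5) (nat_lit 9) (nat_lit 4) (nat_lit 344) (nat_lit 266) (nat_lit 170)) (XT.lf (nat_lit 0) (nat_lit 10750904398) (nat_lit 76) (nat_lit 11895696087) (nat_lit 152) (nat_lit 64280298637) (nat_lit 7) (nat_lit 5) (nat_lit 8) (nat_lit 5) (nat_lit 9) (nat_lit 4) (nat_lit 345) (nat_lit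 266) (nat_lit 169))) (XT.nd (nat_lit 78) (nat_lit 0) (nat_lit 0) (XT.lf (nat_lit 0) (nat_lit 26153936513) (nat_lit 76) (nat_lit 4013697946) (nat_lit 152) (nat_lit 60694733196) (nat_lit 7) (nat_lit 5) (nat_lit 8) (nat_lit 5) (nat_lit 9) (nat_lit 4) (nat_lit 346) (nat_lit 266) (nat_lit 168)) (XT.nd (nat_lit 78) (nat_lit 0) (nat_lit 0) (XT.lf (nat_lit 0) (nat_lit 38124642284) (nat_lit 152) (nat_lit 52746222335) (nat_lit 0) (nat_lit 4120753513) (nat_lit 7) (nat_lit 5) (nat_lit 9) (nat_lit 4) (nat_lit 7) (nat_lit 4) (nat_lit 347) (nat_lit 266) (nat_lit 167)) (XT.lf (nat_lit 0) (nat_lit 46538988483) (nat_lit 152) (nat_lit 40263306122) (nat_lit 0) (nat_lit 12522066534) (nat_lit 7) (nat_lit 5) (nat_lit 9) (nat_lit 4) (nat_lit 7) (nat_lit 4) (nat_lit 348) (nat_lit 266) (nat_lit 166)))))) (XT.nd (nat_lit 390) (nat_lit 76) (nat_lit 0) (XT.nd (nat_lit 156) (nat_lit 76) (nat_lit 0) (XT.nd (nat_lit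 78) (nat_lit 0) (nat_lit 0) (XT.lf (nat_lit 0) (nat_lit 55368042140) (nat_lit 152) (nat_lit 27167296201) (nat_lit 0) (nat_lit 21338707641) (nat_lit 7) (nat_lit 5) (nat_lit 9) (nat_lit 4) (nat_lit 7) (nat_lit 4) (nat_lit 349) (nat_lit 266) (nat_lit 165)) (XT.lf (nat_lit 0) (nat_lit 64632824812) (nat_lit 152) (nat_lit 13427011596) (nat_lit 0) (nat_lit 30591668837) (nat_lit 7) (nat_lit 5) (nat_lit 9) (nat_lit 4) (nat_lit 7) (nat_lit 4) (nat_lit 350) (nat_lit 266) (nat_lit 164))) (XT.nd (nat_lit 78) (nat_lit 0) (nat_lit 0) (XT.lf (nat_lit 0) (nat_lit 1023005212) (nat_lit 76) (nat_lit 73348362273) (nat_lit 76) (nat_lit 39295947748) (nat_lit 6) (nat_lit 4) (nat_lit 7) (nat_lit 5) (nat_lit 7) (nat_lit 4) (nat_lit 351) (nat_lit 266) (nat_lit 163)) (XT.nd (nat_lit 78) (nat_lit 0) (nat_lit 0) (XT.lf (nat_lit 0) (nat_lit 16651815488) (nat_lit 76) (nat_lit 68167069218) (nat_lit 76) (nat_lit 34103932266)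 (nat_lit 6) (nat_lit 4) (nat_lit 7) (nat_lit 5) (nat_lit 7) (nat_lit 4) (nat_lit 352) (nat_lit 266) (nat_lit 162)) (XT.lf (nat_lit 0) (nat_lit 33052673044) (nat_lit 76) (nat_lit 62731013771) (nat_lit 76) (nat_lit 28657664983) (nat_lit 6) (nat_lit 4) (nat_lit 7) (nat_lit 5) (nat_lit 7) (nat_lit 4) (nat_lit 353) (nat_lit 266) (nat_lit 161))))) (XT.nd (nat_lit 156) (nat_lit 76) (nat_lit 0) (XT.nd (nat_lit 78) (nat_lit 0) (nat_lit 0) (XT.lf (nat_lit 0) (nat_lit 50264627541) (nat_lit 76) (nat_lit 57027252942) (nat_lit 76) (nat_lit 22944178596) (nat_lit 6) (nat_lit 4) (nat_lit 7) (nat_lit 5) (nat_lit 7) (nat_lit 4) (nat_lit 354) (nat_lit 266) (nat_lit 160)) (XT.lf (nat_lit 0) (nat_lit 68328659822) (nat_lit 76) (nat_lit 51042206348) (nat_lit 76) (nat_lit 16949869566) (nat_lit 6) (nat_lit 4) (nat_lit 7) (nat_lit 5) (nat_lit 7) (nat_lit 4) (nat_lit 355) (nat_lit 266) (nat_lit 159))) (XT.nd (nat_lit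 78) (nat_lit 76) (nat_lit 0) (XT.lf (nat_lit 0) (nat_lit 87287779488) (nat_lit 76) (nat_lit 44761623879) (nat_lit 76) (nat_lit 10660465729) (nat_lit 6) (nat_lit 4) (nat_lit 7) (nat_lit 5) (nat_lit 7) (nat_lit 4) (nat_lit 356) (nat_lit 266) (nat_lit 158)) (XT.nd (nat_lit 78) (nat_lit 76) (nat_lit 0) (XT.lf (nat_lit 0) (nat_lit 107187127300) (nat_lit 76) (nat_lit 38170551767) (nat_lit 76) (nat_lit 4060992314) (nat_lit 6) (nat_lit 4) (nat_lit 7) (nat_lit 5) (nat_lit 7) (nat_lit 4) (nat_lit 357) (nat_lit 266) (nat_lit 157)) (XT.lf (nat_lit 0) (nat_lit 2772589383) (nat_lit 152) (nat_lit 28433752456) (nat_lit 76) (nat_lit 125254538132) (nat_lit 5) (nat_lit 5) (nat_lit 7) (nat_lit 5) (nat_lit 6) (nat_lit 4) (nat_lit 358) (nat_lit 266) (nat_lit 156))))))))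
noncomputable def xc127 : XT := (XT.nd (nat_lit 1560) (nat_lit 0) (nat_lit 0) (XT.nd (nat_lit 780) (nat_lit 76) (nat_lit 0) (XT.nd (nat_lit 390) (nat_lit 0) (nat_lit 0) (XT.nd (nat_lit 156) (nat_lit 0) (nat_lit 0) (XT.nd (nat_lit 78) (nat_lit 76) (nat_lit 0) (XT.lf (nat_lit 0) (nat_lit 9807510462) (nat_lit 152) (nat_lit 14019784474) (nat_lit 76) (nat_lit 140024771011) (nat_lit 5) (nat_lit 5) (nat_lit 7) (nat_lit 5) (nat_lit 6) (nat_lit 4) (nat_lit 359) (nat_lit 266) (nat_lit 155)) (XT.lf (nat_lit 0) (nat_lit 1144720511) (nat_lit 76) (nat_lit 16063649632) (nat_lit 152) (nat_lit 154403733787) (nat_lit 4) (nat_lit 5) (nat_lit 5) (nat_lit 5) (nat_lit 6) (nat_lit 4) (nat_lit 360) (nat_lit 266) (nat_lit 154))) (XT.nd (nat_lit 78) (nat_lit 0) (nat_lit 0) (XT.lf (nat_lit 0) (nat_lit 17547496075) (nat_lit 76) (nat_lit 7665599598) (nat_lit 152) (nat_lit 154535359220) (nat_lit 4) (nat_lit 5) (nat_lit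 5) (nat_lit 5) (nat_lit 6) (nat_lit 4) (nat_lit 361) (nat_lit 266) (nat_lit 153)) (XT.nd (nat_lit 78) (nat_lit 0) (nat_lit 0) (XT.lf (nat_lit 0) (nat_lit 33632566013) (nat_lit 152) (nat_lit 153545703969) (nat_lit 0) (nat_lit 1112630112) (nat_lit 4) (nat_lit 5) (nat_lit 6) (nat_lit 4) (nat_lit 4) (nat_lit 4) (nat_lit 362) (nat_lit 266) (nat_lit 152)) (XT.lf (nat_lit 0) (nat_lit 42595358366) (nat_lit 152) (nat_lit 144589541968) (nat_lit 0) (nat_lit 10069451816) (nat_lit 4) (nat_lit 5) (nat_lit 6) (nat_lit 4) (nat_lit 4) (nat_lit 4) (nat_lit 363) (nat_lit 266) (nat_lit 151))))) (XT.nd (nat_lit 156) (nat_lit 0) (nat_lit 0) (XT.nd (nat_lit 78) (nat_lit 0) (nat_lit 0) (XT.lf (nat_lit 0) (nat_lit 52003131221) (nat_lit 152) (nat_lit 135191467127) (nat_lit 0) (nat_lit 19471538339) (nat_lit 4) (nat_lit 5) (nat_lit 6) (nat_lit 4) (nat_lit 4) (nat_lit 4) (nat_lit 364) (nat_lit 266) (nat_lit 150))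 (XT.lf (nat_lit 0) (nat_lit 61878284036) (nat_lit 152) (nat_lit 125329103077) (nat_lit 0) (nat_lit 29341275600) (nat_lit 4) (nat_lit 5) (nat_lit 6) (nat_lit 4) (nat_lit 4) (nat_lit 4) (nat_lit 365) (nat_lit 266) (nat_lit 149))) (XT.nd (nat_lit 78) (nat_lit 0) (nat_lit 0) (XT.lf (nat_lit 0) (nat_lit 72244329082) (nat_lit 152) (nat_lit 114978967999) (nat_lit 0) (nat_lit 39702162974) (nat_lit 4) (nat_lit 5) (nat_lit 6) (nat_lit 4) (nat_lit 4) (nat_lit 4) (nat_lit 366) (nat_lit 266) (nat_lit 148)) (XT.nd (nat_lit 78) (nat_lit 0) (nat_lit 0) (XT.lf (nat_lit 0) (nat_lit 83125947416) (nat_lit 152) (nat_lit 104116418714) (nat_lit 0) (nat_lit 50578869241) (nat_lit 4) (nat_lit 5) (nat_lit 6) (nat_lit 4) (nat_lit 4) (nat_lit 4) (nat_lit 367) (nat_lit 266) (nat_lit 147)) (XT.lf (nat_lit 0) (nat_lit 94549047655) (nat_lit 152) (nat_lit 92715592010) (nat_lit 0) (nat_lit 61997291320) (nat_lit 4) (nat_lit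 5) (nat_lit 6) (nat_lit 4) (nat_lit 4) (nat_lit 4) (nat_lit 368) (nat_lit 266) (nat_lit 146)))))) (XT.nd (nat_lit 390) (nat_lit 76) (nat_lit 0) (XT.nd (nat_lit 156) (nat_lit 0) (nat_lit 0) (XT.nd (nat_lit 78) (nat_lit 0) (nat_lit 0) (XT.lf (nat_lit 0) (nat_lit 106540827655) (nat_lit 152) (nat_lit 80749343061) (nat_lit 0) (nat_lit 73984615930) (nat_lit 4) (nat_lit 5) (nat_lit 6) (nat_lit 4) (nat_lit 4) (nat_lit 4) (nat_lit 369) (nat_lit 266) (nat_lit 145)) (XT.lf (nat_lit 0) (nat_lit 119129839275) (nat_lit 152) (nat_lit 68189180798) (nat_lit 0) (nat_lit 86569384321) (nat_lit 4) (nat_lit 5) (nat_lit 6) (nat_lit 4) (nat_lit 4) (nat_lit 4) (nat_lit 370) (nat_lit 266) (nat_lit 144))) (XT.nd (nat_lit 78) (nat_lit 0) (nat_lit 0) (XT.lf (nat_lit 0) (nat_lit 132346056352) (nat_lit 152) (nat_lit 55005200074) (nat_lit 0) (nat_lit 99781560228) (nat_lit 4) (nat_lit 5) (nat_lit 6) (nat_lit 4) (nat_lit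 4) (nat_lit 4) (nat_lit 371) (nat_lit 266) (nat_lit 143)) (XT.nd (nat_lit 78) (nat_lit 0) (nat_lit 0) (XT.lf (nat_lit 0) (nat_lit 146220946068) (nat_lit 152) (nat_lit 41166010456) (nat_lit 0) (nat_lit 113652601210) (nat_lit 4) (nat_lit 5) (nat_lit 6) (nat_lit 4) (nat_lit 4) (nat_lit 4) (nat_lit 372) (nat_lit 266) (nat_lit 142)) (XT.lf (nat_lit 0) (nat_lit 160787543876) (nat_lit 152) (nat_lit 26638661496) (nat_lit 0) (nat_lit 128215533557) (nat_lit 4) (nat_lit 5) (nat_lit 6) (nat_lit 4) (nat_lit 4) (nat_lit 4) (nat_lit 373) (nat_lit 266) (nat_lit 141))))) (XT.nd (nat_lit 156) (nat_lit 0) (nat_lit 0) (XT.nd (nat_lit 78) (nat_lit 76) (nat_lit 0) (XT.lf (nat_lit 0) (nat_lit 176080532151) (nat_lit 152) (nat_lit 11388564265) (nat_lit 0) (nat_lit 143505030918) (nat_lit 4) (nat_lit 5) (nat_lit 6) (nat_lit 4) (nat_lit 4) (nat_lit 4) (nat_lit 374) (nat_lit 266) (nat_lit 140)) (XT.lf (nat_lit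 0) (nat_lit 4773368596) (nat_lit 76) (nat_lit 187437479835) (nat_lit 76) (nat_lit 154858653921) (nat_lit 3) (nat_lit 4) (nat_lit 4) (nat_lit 5) (nat_lit 4) (nat_lit 4) (nat_lit 375) (nat_lit 266) (nat_lit 139))) (XT.nd (nat_lit 78) (nat_lit 0) (nat_lit 0) (XT.lf (nat_lit 0) (nat_lit 22135392093) (nat_lit 76) (nat_lit 187203347218) (nat_lit 76) (nat_lit 154621354941) (nat_lit 3) (nat_lit 4) (nat_lit 4) (nat_lit 5) (nat_lit 4) (nat_lit 4) (nat_lit 376) (nat_lit 266) (nat_lit 138)) (XT.nd (nat_lit 78) (nat_lit 0) (nat_lit 0) (XT.lf (nat_lit 0) (nat_lit 40362287011) (nat_lit 76) (nat_lit 186959011952) (nat_lit 76) (nat_lit 154374004092) (nat_lit 3) (nat_lit 4) (nat_lit 4) (nat_lit 5) (nat_lit 4) (nat_lit 4) (nat_lit 377) (nat_lit 266) (nat_lit 137)) (XT.lf (nat_lit 0) (nat_lit 59497450718) (nat_lit 76) (nat_lit 186703892287) (nat_lit 76) (nat_lit 154116012443) (nat_lit 3) (nat_lit 4) (nat_lit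 4) (nat_lit 5) (nat_lit 4) (nat_lit 4) (nat_lit 378) (nat_lit 266) (nat_lit 136))))))) (XT.nd (nat_lit 32136) (nat_lit 0) (nat_lit 6308) (XT.nd (nat_lit 390) (nat_lit 0) (nat_lit 0) (XT.nd (nat_lit 156) (nat_lit 0) (nat_lit 0) (XT.nd (nat_lit 78) (nat_lit 0) (nat_lit 0) (XT.lf (nat_lit 0) (nat_lit 79586443127) (nat_lit 76) (nat_lit 186437380795) (nat_lit 76) (nat_lit 153846765729) (nat_lit 3) (nat_lit 4) (nat_lit 4) (nat_lit 5) (nat_lit 4) (nat_lit 4) (nat_lit 379) (nat_lit 266) (nat_lit 135)) (XT.lf (nat_lit 0) (nat_lit 100677095174) (nat_lit 76) (nat_lit 186158842926) (nat_lit 76) (nat_lit 153565622884) (nat_lit 3) (nat_lit 4) (nat_lit 4) (nat_lit 5) (nat_lit 4) (nat_lit 4) (nat_lit 380) (nat_lit 266) (nat_lit 134))) (XT.nd (nat_lit 78) (nat_lit 0) (nat_lit 0) (XT.lf (nat_lit 0) (nat_lit 122819622696) (nat_lit 76) (nat_lit 185867615493) (nat_lit 76) (nat_lit 153271914523) (nat_lit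 3) (nat_lit 4) (nat_lit 4) (nat_lit 5) (nat_lit 4) (nat_lit 4) (nat_lit 381) (nat_lit 266) (nat_lit 133)) (XT.nd (nat_lit 78) (nat_lit 0) (nat_lit 0) (XT.lf (nat_lit 0) (nat_lit 146066745998) (nat_lit 76) (nat_lit 185563005097) (nat_lit 76) (nat_lit 152964941340) (nat_lit 3) (nat_lit 4) (nat_lit 4) (nat_lit 5) (nat_lit 4) (nat_lit 4) (nat_lit 382) (nat_lit 266) (nat_lit 132)) (XT.lf (nat_lit 0) (nat_lit 170473815371) (nat_lit 76) (nat_lit 185244286477) (nat_lit 76) (nat_lit 152643972445) (nat_lit 3) (nat_lit 4) (nat_lit 4) (nat_lit 5) (nat_lit 4) (nat_lit 4) (nat_lit 383) (nat_lit 266) (nat_lit 131))))) (XT.nd (nat_lit 31512) (nat_lit 0) (nat_lit 7828) (XT.nd (nat_lit 78) (nat_lit 0) (nat_lit 0) (XT.lf (nat_lit 0) (nat_lit 196098942887) (nat_lit 76) (nat_lit 184910700778) (nat_lit 76) (nat_lit 152308243627) (nat_lit 3) (nat_lit 4) (nat_lit 4) (nat_lit 5) (nat_lit 4) (nat_lit 4) (nat_lit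 384) (nat_lit 266) (nat_lit 130)) (XT.lf (nat_lit 0) (nat_lit 223003140754) (nat_lit 76) (nat_lit 184561453749) (nat_lit 76) (nat_lit 151956955532) (nat_lit 3) (nat_lit 4) (nat_lit 4) (nat_lit 5) (nat_lit 4) (nat_lit 4) (nat_lit 385) (nat_lit 266) (nat_lit 129))) (XT.nd (nat_lit 78) (nat_lit 532) (nat_lit 0) (XT.lf (nat_lit 0) (nat_lit 1448092042) (nat_lit 0) (nat_lit 1448092042) (nat_lit 380) (nat_lit 616263285) (nat_lit 113) (nat_lit 5) (nat_lit 113) (nat_lit 3) (nat_lit 118) (nat_lit 3) (nat_lit 267) (nat_lit 267) (nat_lit 246)) (XT.nd (nat_lit 78) (nat_lit 0) (nat_lit 76) (XT.lf (nat_lit 0) (nat_lit 442319104) (nat_lit 532) (nat_lit 947782603) (nat_lit 532) (nat_lit 5722586149) (nat_lit 106) (nat_lit 3) (nat_lit 113) (nat_lit 3) (nat_lit 113) (nat_lit 5) (nat_lit 268) (nat_lit 267) (nat_lit 245)) (XT.lf (nat_lit 0) (nat_lit 2094961113) (nat_lit 456) (nat_lit 4819977234) (nat_lit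 532) (nat_lit 292503807) (nat_lit 107) (nat_lit 5) (nat_lit 113) (nat_lit 5) (nat_lit 114) (nat_lit 5) (nat_lit 269) (nat_lit 267) (nat_lit 244)))))) (XT.nd (nat_lit 390) (nat_lit 1140) (nat_lit 0) (XT.nd (nat_lit 156) (nat_lit 456) (nat_lit 0) (XT.nd (nat_lit 78) (nat_lit 0) (nat_lit 0) (XT.lf (nat_lit 0) (nat_lit 3767692608) (nat_lit 456) (nat_lit 1468232117) (nat_lit 532) (nat_lit 2074475182) (nat_lit 107) (nat_lit 5) (nat_lit 113) (nat_lit 5) (nat_lit 114) (nat_lit 5) (nat_lit 270) (nat_lit 267) (nat_lit 243)) (XT.lf (nat_lit 76) (nat_lit 2058481161) (nat_lit 0) (nat_lit 3400912981) (nat_lit 532) (nat_lit 1962667221) (nat_lit 108) (nat_lit 5) (nat_lit 107) (nat_lit 5) (nat_lit 114) (nat_lit 5) (nat_lit 271) (nat_lit 267) (nat_lit 242))) (XT.nd (nat_lit 78) (nat_lit 456) (nat_lit 0) (XT.lf (nat_lit 76) (nat_lit 5754944061) (nat_lit 0) (nat_lit 1412507819) (nat_lit 532) (nat_lit 375572585)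 (nat_lit 108) (nat_lit 5) (nat_lit 107) (nat_lit 5) (nat_lit 114) (nat_lit 5) (nat_lit 272) (nat_lit 267) (nat_lit 241)) (XT.nd (nat_lit 78) (nat_lit 0) (nat_lit 0) (XT.lf (nat_lit 0) (nat_lit 1201491548) (nat_lit 532) (nat_lit 5733803468) (nat_lit 608) (nat_lit 736415029) (nat_lit 101) (nat_lit 5) (nat_lit 108) (nat_lit 5) (nat_lit 109) (nat_lit 5) (nat_lit 273) (nat_lit 267) (nat_lit 240)) (XT.lf (nat_lit 0) (nat_lit 2812202048) (nat_lit 532) (nat_lit 1985083854) (nat_lit 608) (nat_lit 3011130723) (nat_lit 101) (nat_lit 5) (nat_lit 108) (nat_lit 5) (nat_lit 109) (nat_lit 5) (nat_lit 274) (nat_lit 267) (nat_lit 239))))) (XT.nd (nat_lit 156) (nat_lit 1140) (nat_lit 0) (XT.nd (nat_lit 78) (nat_lit 0) (nat_lit 0) (XT.lf (nat_lit 76) (nat_lit 1954356837) (nat_lit 0) (nat_lit 2497204759) (nat_lit 608) (nat_lit 3503243939) (nat_lit 102) (nat_lit 5) (nat_lit 101) (nat_lit 5) (nat_lit 109)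 (nat_lit 5) (nat_lit 275) (nat_lit 267) (nat_lit 238)) (XT.lf (nat_lit 76) (nat_lit 6101376576) (nat_lit 0) (nat_lit 25744828) (nat_lit 608) (nat_lit 1983921518) (nat_lit 102) (nat_lit 5) (nat_lit 101) (nat_lit 5) (nat_lit 109) (nat_lit 5) (nat_lit 276) (nat_lit 267) (nat_lit 237))) (XT.nd (nat_lit 78) (nat_lit 684) (nat_lit 0) (XT.lf (nat_lit 0) (nat_lit 2149481392) (nat_lit 532) (nat_lit 5735358621) (nat_lit 608) (nat_lit 390562309) (nat_lit 95) (nat_lit 5) (nat_lit 102) (nat_lit 5) (nat_lit 103) (nat_lit 5) (nat_lit 277) (nat_lit 267) (nat_lit 236)) (XT.nd (nat_lit 78) (nat_lit 608) (nat_lit 0) (XT.lf (nat_lit 0) (nat_lit 1202404241) (nat_lit 608) (nat_lit 1942470158) (nat_lit 76) (nat_lit 5304262714) (nat_lit 94) (nat_lit 5) (nat_lit 102) (nat_lit 5) (nat_lit 95) (nat_lit 5) (nat_lit 278) (nat_lit 267) (nat_lit 235)) (XT.lf (nat_lit 0) (nat_lit 2463997678) (nat_lit 608) (nat_lit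 365862662) (nat_lit 684) (nat_lit 5803177817) (nat_lit 86) (nat_lit 5) (nat_lit 94) (nat_lit 5) (nat_lit 95) (nat_lit 5) (nat_lit 279) (nat_lit 267) (nat_lit 234))))))))
noncomputable def xc128 : XT := (XT.nd (nat_lit 1482) (nat_lit 1596) (nat_lit 0) (XT.nd (nat_lit 702) (nat_lit 1596) (nat_lit 0) (XT.nd (nat_lit 312) (nat_lit 684) (nat_lit 0) (XT.nd (nat_lit 156) (nat_lit 456) (nat_lit 0) (XT.nd (nat_lit 78) (nat_lit 684) (nat_lit 0) (XT.lf (nat_lit 0) (nat_lit 4544086288) (nat_lit 684) (nat_lit 1768070618) (nat_lit 76) (nat_lit 2513896046) (nat_lit 86) (nat_lit 5) (nat_lit 95) (nat_lit 5) (nat_lit 87) (nat_lit 5) (nat_lit 280) (nat_lit 267) (nat_lit 233)) (XT.lf (nat_lit 0) (nat_lit 2880650148) (nat_lit 684) (nat_lit 3449694397) (nat_lit 760) (nat_lit 2699237465) (nat_lit 77) (nat_lit 5) (nat_lit 86) (nat_lit 5) (nat_lit 87) (nat_lit 5) (nat_lit 281) (nat_lit 267) (nat_lit 232)))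 (XT.nd (nat_lit 78) (nat_lit 456) (nat_lit 0) (XT.lf (nat_lit 0) (nat_lit 7765635266) (nat_lit 684) (nat_lit 407751881) (nat_lit 760) (nat_lit 1071697824) (nat_lit 77) (nat_lit 5) (nat_lit 86) (nat_lit 5) (nat_lit 87) (nat_lit 5) (nat_lit 282) (nat_lit 267) (nat_lit 231)) (XT.lf (nat_lit 0) (nat_lit 654941828) (nat_lit 456) (nat_lit 6048387388) (nat_lit 76) (nat_lit 2765785645) (nat_lit 71) (nat_lit 5) (nat_lit 77) (nat_lit 5) (nat_lit 72) (nat_lit 5) (nat_lit 283) (nat_lit 267) (nat_lit 230)))) (XT.nd (nat_lit 156) (nat_lit 304) (nat_lit 0) (XT.nd (nat_lit 78) (nat_lit 380) (nat_lit 0) (XT.lf (nat_lit 0) (nat_lit 2405469872) (nat_lit 456) (nat_lit 1169654747) (nat_lit 76) (nat_lit 6129812299) (nat_lit 71) (nat_lit 5) (nat_lit 77) (nat_lit 5) (nat_lit 72) (nat_lit 5) (nat_lit 284) (nat_lit 267) (nat_lit 229)) (XT.lf (nat_lit 0) (nat_lit 4025499546) (nat_lit 380) (nat_lit 225085612)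 (nat_lit 456) (nat_lit 5701752576) (nat_lit 66) (nat_lit 5) (nat_lit 71) (nat_lit 5) (nat_lit 72) (nat_lit 5) (nat_lit 285) (nat_lit 267) (nat_lit 228))) (XT.nd (nat_lit 78) (nat_lit 304) (nat_lit 0) (XT.lf (nat_lit 0) (nat_lit 6205473857) (nat_lit 456) (nat_lit 800086402) (nat_lit 76) (nat_lit 3205806450) (nat_lit 66) (nat_lit 5) (nat_lit 72) (nat_lit 5) (nat_lit 67) (nat_lit 5) (nat_lit 286) (nat_lit 267) (nat_lit 227)) (XT.nd (nat_lit 78) (nat_lit 0) (nat_lit 0) (XT.lf (nat_lit 0) (nat_lit 4673407082) (nat_lit 304) (nat_lit 3609906997) (nat_lit 380) (nat_lit 2198900318) (nat_lit 62) (nat_lit 5) (nat_lit 66) (nat_lit 5) (nat_lit 67) (nat_lit 5) (nat_lit 287) (nat_lit 267) (nat_lit 226)) (XT.lf (nat_lit 0) (nat_lit 10393763168) (nat_lit 304) (nat_lit 34982781) (nat_lit 380) (nat_lit 339795082) (nat_lit 62) (nat_lit 5) (nat_lit 66) (nat_lit 5) (nat_lit 67) (nat_lit 5) (nat_lit 288)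 (nat_lit 267) (nat_lit 225)))))) (XT.nd (nat_lit 390) (nat_lit 684) (nat_lit 0) (XT.nd (nat_lit 156) (nat_lit 532) (nat_lit 0) (XT.nd (nat_lit 78) (nat_lit 0) (nat_lit 0) (XT.lf (nat_lit 0) (nat_lit 1656784347) (nat_lit 380) (nat_lit 5700256288) (nat_lit 76) (nat_lit 3706188929) (nat_lit 57) (nat_lit 5) (nat_lit 62) (nat_lit 5) (nat_lit 58) (nat_lit 5) (nat_lit 289) (nat_lit 267) (nat_lit 224)) (XT.lf (nat_lit 0) (nat_lit 3701816733) (nat_lit 380) (nat_lit 33149435) (nat_lit 76) (nat_lit 7639510662) (nat_lit 57) (nat_lit 5) (nat_lit 62) (nat_lit 5) (nat_lit 58) (nat_lit 5) (nat_lit 290) (nat_lit 267) (nat_lit 223))) (XT.nd (nat_lit 78) (nat_lit 304) (nat_lit 0) (XT.lf (nat_lit 0) (nat_lit 5901443075) (nat_lit 304) (nat_lit 5642721373) (nat_lit 76) (nat_lit 154604887) (nat_lit 54) (nat_lit 5) (nat_lit 58) (nat_lit 5) (nat_lit 55) (nat_lit 5) (nat_lit 291) (nat_lit 267) (nat_lit 222))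 (XT.nd (nat_lit 78) (nat_lit 0) (nat_lit 0) (XT.lf (nat_lit 0) (nat_lit 306323135) (nat_lit 304) (nat_lit 7927759460) (nat_lit 380) (nat_lit 3804137508) (nat_lit 50) (nat_lit 5) (nat_lit 54) (nat_lit 5) (nat_lit 55) (nat_lit 5) (nat_lit 292) (nat_lit 267) (nat_lit 221)) (XT.lf (nat_lit 0) (nat_lit 6695740302) (nat_lit 304) (nat_lit 4040872369) (nat_lit 380) (nat_lit 1655458505) (nat_lit 50) (nat_lit 5) (nat_lit 54) (nat_lit 5) (nat_lit 55) (nat_lit 5) (nat_lit 293) (nat_lit 267) (nat_lit 220))))) (XT.nd (nat_lit 156) (nat_lit 380) (nat_lit 0) (XT.nd (nat_lit 78) (nat_lit 0) (nat_lit 0) (XT.lf (nat_lit 0) (nat_lit 550514600) (nat_lit 304) (nat_lit 12166673621) (nat_lit 76) (nat_lit 47585711) (nat_lit 46) (nat_lit 5) (nat_lit 50) (nat_lit 5) (nat_lit 47) (nat_lit 5) (nat_lit 294) (nat_lit 267) (nat_lit 219)) (XT.lf (nat_lit 0) (nat_lit 2935396373) (nat_lit 304) (nat_lit 5894194112) (nat_lit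 76) (nat_lit 4319030541) (nat_lit 46) (nat_lit 5) (nat_lit 50) (nat_lit 5) (nat_lit 47) (nat_lit 5) (nat_lit 295) (nat_lit 267) (nat_lit 218))) (XT.nd (nat_lit 78) (nat_lit 152) (nat_lit 0) (XT.lf (nat_lit 0) (nat_lit 662682547) (nat_lit 228) (nat_lit 4749042082) (nat_lit 304) (nat_lit 8141400340) (nat_lit 43) (nat_lit 5) (nat_lit 46) (nat_lit 5) (nat_lit 47) (nat_lit 5) (nat_lit 296) (nat_lit 267) (nat_lit 217)) (XT.nd (nat_lit 78) (nat_lit 152) (nat_lit 0) (XT.lf (nat_lit 0) (nat_lit 7702412842) (nat_lit 228) (nat_lit 372175169) (nat_lit 304) (nat_lit 5900201228) (nat_lit 43) (nat_lit 5) (nat_lit 46) (nat_lit 5) (nat_lit 47) (nat_lit 5) (nat_lit 297) (nat_lit 267) (nat_lit 216)) (XT.lf (nat_lit 0) (nat_lit 580316904) (nat_lit 152) (nat_lit 10329757531) (nat_lit 228) (nat_lit 3505555971) (nat_lit 41) (nat_lit 5) (nat_lit 43) (nat_lit 5) (nat_lit 44) (nat_lit 5) (nat_lit 298) (nat_lit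 267) (nat_lit 215))))))) (XT.nd (nat_lit 780) (nat_lit 684) (nat_lit 0) (XT.nd (nat_lit 390) (nat_lit 456) (nat_lit 0) (XT.nd (nat_lit 156) (nat_lit 152) (nat_lit 0) (XT.nd (nat_lit 78) (nat_lit 304) (nat_lit 0) (XT.lf (nat_lit 0) (nat_lit 7938984927) (nat_lit 152) (nat_lit 6025997316) (nat_lit 228) (nat_lit 909713494) (nat_lit 41) (nat_lit 5) (nat_lit 43) (nat_lit 5) (nat_lit 44) (nat_lit 5) (nat_lit 299) (nat_lit 267) (nat_lit 214)) (XT.lf (nat_lit 0) (nat_lit 241246225) (nat_lit 228) (nat_lit 1486786504) (nat_lit 304) (nat_lit 13628810864) (nat_lit 37) (nat_lit 5) (nat_lit 40) (nat_lit 5) (nat_lit 41) (nat_lit 5) (nat_lit 300) (nat_lit 267) (nat_lit 213))) (XT.nd (nat_lit 78) (nat_lit 152) (nat_lit 0) (XT.lf (nat_lit 0) (nat_lit 4604808375) (nat_lit 304) (nat_lit 7955136028) (nat_lit 76) (nat_lit 3295578730) (nat_lit 37) (nat_lit 5) (nat_lit 41) (nat_lit 5) (nat_lit 38) (nat_lit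 5) (nat_lit 301) (nat_lit 267) (nat_lit 212)) (XT.nd (nat_lit 78) (nat_lit 152) (nat_lit 0) (XT.lf (nat_lit 0) (nat_lit 7618490519) (nat_lit 304) (nat_lit 506467270) (nat_lit 76) (nat_lit 8254578504) (nat_lit 37) (nat_lit 5) (nat_lit 41) (nat_lit 5) (nat_lit 38) (nat_lit 5) (nat_lit 302) (nat_lit 267) (nat_lit 211)) (XT.lf (nat_lit 0) (nat_lit 7511780625) (nat_lit 152) (nat_lit 3358541013) (nat_lit 228) (nat_lit 6055105734) (nat_lit 35) (nat_lit 5) (nat_lit 37) (nat_lit 5) (nat_lit 38) (nat_lit 5) (nat_lit 303) (nat_lit 267) (nat_lit 210))))) (XT.nd (nat_lit 156) (nat_lit 228) (nat_lit 0) (XT.nd (nat_lit 78) (nat_lit 228) (nat_lit 0) (XT.lf (nat_lit 0) (nat_lit 14289892739) (nat_lit 228) (nat_lit 1619372351) (nat_lit 76) (nat_lit 1589138589) (nat_lit 35) (nat_lit 5) (nat_lit 38) (nat_lit 5) (nat_lit 36) (nat_lit 5) (nat_lit 304) (nat_lit 267) (nat_lit 209)) (XT.lf (nat_lit 0) (nat_lit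 6681630500) (nat_lit 228) (nat_lit 11330311593) (nat_lit 304) (nat_lit 81557533) (nat_lit 32) (nat_lit 5) (nat_lit 35) (nat_lit 5) (nat_lit 36) (nat_lit 5) (nat_lit 305) (nat_lit 267) (nat_lit 208))) (XT.nd (nat_lit 78) (nat_lit 152) (nat_lit 0) (XT.lf (nat_lit 0) (nat_lit 3099462566) (nat_lit 304) (nat_lit 3355576452) (nat_lit 76) (nat_lit 12260843752) (nat_lit 31) (nat_lit 5) (nat_lit 35) (nat_lit 5) (nat_lit 32) (nat_lit 5) (nat_lit 306) (nat_lit 267) (nat_lit 207)) (XT.nd (nat_lit 78) (nat_lit 0) (nat_lit 0) (XT.lf (nat_lit 0) (nat_lit 5229509878) (nat_lit 152) (nat_lit 1262568677) (nat_lit 228) (nat_lit 12874514947) (nat_lit 29) (nat_lit 5) (nat_lit 31) (nat_lit 5) (nat_lit 32) (nat_lit 5) (nat_lit 307) (nat_lit 267) (nat_lit 206)) (XT.lf (nat_lit 0) (nat_lit 10151560092) (nat_lit 228) (nat_lit 5793516413) (nat_lit 76) (nat_lit 4099939217) (nat_lit 29) (nat_lit 5) (nat_lit 32)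 (nat_lit 5) (nat_lit 30) (nat_lit 5) (nat_lit 308) (nat_lit 267) (nat_lit 205)))))) (XT.nd (nat_lit 390) (nat_lit 304) (nat_lit 0) (XT.nd (nat_lit 156) (nat_lit 228) (nat_lit 0) (XT.nd (nat_lit 78) (nat_lit 0) (nat_lit 0) (XT.lf (nat_lit 0) (nat_lit 3004085790) (nat_lit 152) (nat_lit 11032829572) (nat_lit 228) (nat_lit 6718334597) (nat_lit 27) (nat_lit 5) (nat_lit 29) (nat_lit 5) (nat_lit 30) (nat_lit 5) (nat_lit 309) (nat_lit 267) (nat_lit 204)) (XT.lf (nat_lit 0) (nat_lit 12404733386) (nat_lit 152) (nat_lit 5785803980) (nat_lit 228) (nat_lit 3306792778) (nat_lit 27) (nat_lit 5) (nat_lit 29) (nat_lit 5) (nat_lit 30) (nat_lit 5) (nat_lit 310) (nat_lit 267) (nat_lit 203))) (XT.nd (nat_lit 78) (nat_lit 152) (nat_lit 0) (XT.lf (nat_lit 0) (nat_lit 243137324) (nat_lit 228) (nat_lit 42367842) (nat_lit 76) (nat_lit 21991994078) (nat_lit 26) (nat_lit 5) (nat_lit 29) (nat_lit 5) (nat_lit 27)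 (nat_lit 5) (nat_lit 311) (nat_lit 267) (nat_lit 202)) (XT.nd (nat_lit 78) (nat_lit 0) (nat_lit 0) (XT.lf (nat_lit 0) (nat_lit 4077190628) (nat_lit 228) (nat_lit 13495626423) (nat_lit 76) (nat_lit 5510290960) (nat_lit 24) (nat_lit 5) (nat_lit 27) (nat_lit 5) (nat_lit 25) (nat_lit 5) (nat_lit 312) (nat_lit 267) (nat_lit 201)) (XT.lf (nat_lit 0) (nat_lit 8086410812) (nat_lit 228) (nat_lit 4268913088) (nat_lit 76) (nat_lit 11574528227) (nat_lit 24) (nat_lit 5) (nat_lit 27) (nat_lit 5) (nat_lit 25) (nat_lit 5) (nat_lit 313) (nat_lit 267) (nat_lit 200))))) (XT.nd (nat_lit 156) (nat_lit 152) (nat_lit 0) (XT.nd (nat_lit 78) (nat_lit 0) (nat_lit 0) (XT.lf (nat_lit 0) (nat_lit 5563336490) (nat_lit 152) (nat_lit 6798714332) (nat_lit 228) (nat_lit 12453611470) (nat_lit 22) (nat_lit 5) (nat_lit 24) (nat_lit 5) (nat_lit 25) (nat_lit 5) (nat_lit 314) (nat_lit 267) (nat_lit 199)) (XT.lf (nat_lit 0)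 (nat_lit 16002090783) (nat_lit 152) (nat_lit 901252824) (nat_lit 228) (nat_lit 8839851327) (nat_lit 22) (nat_lit 5) (nat_lit 24) (nat_lit 5) (nat_lit 25) (nat_lit 5) (nat_lit 315) (nat_lit 267) (nat_lit 198))) (XT.nd (nat_lit 78) (nat_lit 76) (nat_lit 0) (XT.lf (nat_lit 0) (nat_lit 134852446) (nat_lit 76) (nat_lit 21601918266) (nat_lit 152) (nat_lit 4977104303) (nat_lit 21) (nat_lit 5) (nat_lit 22) (nat_lit 5) (nat_lit 23) (nat_lit 4) (nat_lit 316) (nat_lit 267) (nat_lit 197)) (XT.nd (nat_lit 78) (nat_lit 76) (nat_lit 0) (XT.lf (nat_lit 0) (nat_lit 10795523957) (nat_lit 76) (nat_lit 16176643204) (nat_lit 152) (nat_lit 752930177) (nat_lit 21) (nat_lit 5) (nat_lit 22) (nat_lit 5) (nat_lit 23) (nat_lit 4) (nat_lit 317) (nat_lit 267) (nat_lit 196)) (XT.lf (nat_lit 0) (nat_lit 3545975979) (nat_lit 152) (nat_lit 6886266300) (nat_lit 76) (nat_lit 18352715574) (nat_lit 20) (nat_lit 5) (nat_lit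 22) (nat_lit 5) (nat_lit 21) (nat_lit 5) (nat_lit 318) (nat_lit 267) (nat_lit 195))))))))
noncomputable def xc129 : XT := (XT.nd (nat_lit 1482) (nat_lit 304) (nat_lit 0) (XT.nd (nat_lit 702) (nat_lit 304) (nat_lit 0) (XT.nd (nat_lit 312) (nat_lit 228) (nat_lit 0) (XT.nd (nat_lit 156) (nat_lit 76) (nat_lit 0) (XT.nd (nat_lit 78) (nat_lit 0) (nat_lit 0) (XT.lf (nat_lit 0) (nat_lit 3736825575) (nat_lit 152) (nat_lit 4338312042) (nat_lit 228) (nat_lit 21820045926) (nat_lit 18) (nat_lit 5) (nat_lit 20) (nat_lit 5) (nat_lit 21) (nat_lit 5) (nat_lit 319) (nat_lit 267) (nat_lit 194)) (XT.lf (nat_lit 0) (nat_lit 12963934337) (nat_lit 228) (nat_lit 15988883481) (nat_lit 76) (nat_lit 2101462884) (nat_lit 18) (nat_lit 5) (nat_lit 21) (nat_lit 5) (nat_lit 19) (nat_lit 4) (nat_lit 320) (nat_lit 267) (nat_lit 193))) (XT.nd (nat_lit 78) (nat_lit 76) (nat_lit 0) (XT.lf (nat_lit 0) (nat_lit 18151600877)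 (nat_lit 228) (nat_lit 5410495718) (nat_lit 76) (nat_lit 8706532754) (nat_lit 18) (nat_lit 5) (nat_lit 21) (nat_lit 5) (nat_lit 19) (nat_lit 4) (nat_lit 321) (nat_lit 267) (nat_lit 192)) (XT.lf (nat_lit 0) (nat_lit 5857191886) (nat_lit 76) (nat_lit 17817010909) (nat_lit 152) (nat_lit 9865732295) (nat_lit 17) (nat_lit 5) (nat_lit 18) (nat_lit 5) (nat_lit 19) (nat_lit 4) (nat_lit 322) (nat_lit 267) (nat_lit 191)))) (XT.nd (nat_lit 156) (nat_lit 228) (nat_lit 0) (XT.nd (nat_lit 78) (nat_lit 0) (nat_lit 0) (XT.lf (nat_lit 0) (nat_lit 17849454675) (nat_lit 76) (nat_lit 11699555207) (nat_lit 152) (nat_lit 5322008924) (nat_lit 17) (nat_lit 5) (nat_lit 18) (nat_lit 5) (nat_lit 19) (nat_lit 4) (nat_lit 323) (nat_lit 267) (nat_lit 190)) (XT.lf (nat_lit 0) (nat_lit 30415950231) (nat_lit 76) (nat_lit 5286793484) (nat_lit 152) (nat_lit 566669334) (nat_lit 17) (nat_lit 5) (nat_lit 18) (nat_lit 5)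 (nat_lit 19) (nat_lit 4) (nat_lit 324) (nat_lit 267) (nat_lit 189))) (XT.nd (nat_lit 78) (nat_lit 0) (nat_lit 0) (XT.lf (nat_lit 0) (nat_lit 4388709476) (nat_lit 228) (nat_lit 31785065668) (nat_lit 76) (nat_lit 1555313314) (nat_lit 14) (nat_lit 5) (nat_lit 17) (nat_lit 5) (nat_lit 15) (nat_lit 4) (nat_lit 325) (nat_lit 267) (nat_lit 188)) (XT.nd (nat_lit 78) (nat_lit 0) (nat_lit 0) (XT.lf (nat_lit 0) (nat_lit 9746029822) (nat_lit 228) (nat_lit 20844592259) (nat_lit 76) (nat_lit 8662013780) (nat_lit 14) (nat_lit 5) (nat_lit 17) (nat_lit 5) (nat_lit 15) (nat_lit 4) (nat_lit 326) (nat_lit 267) (nat_lit 187)) (XT.lf (nat_lit 0) (nat_lit 15357684117) (nat_lit 228) (nat_lit 9380732670) (nat_lit 76) (nat_lit 16114633335) (nat_lit 14) (nat_lit 5) (nat_lit 17) (nat_lit 5) (nat_lit 15) (nat_lit 4) (nat_lit 327) (nat_lit 267) (nat_lit 186)))))) (XT.nd (nat_lit 390) (nat_lit 152) (nat_lit 0) (XT.nd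 (nat_lit 156) (nat_lit 76) (nat_lit 0) (XT.nd (nat_lit 78) (nat_lit 0) (nat_lit 0) (XT.lf (nat_lit 0) (nat_lit 2720893590) (nat_lit 76) (nat_lit 18558620626) (nat_lit 152) (nat_lit 21252503495) (nat_lit 13) (nat_lit 5) (nat_lit 14) (nat_lit 5) (nat_lit 15) (nat_lit 4) (nat_lit 328) (nat_lit 267) (nat_lit 185)) (XT.lf (nat_lit 0) (nat_lit 15731130219) (nat_lit 76) (nat_lit 11912553058) (nat_lit 152) (nat_lit 16643949714) (nat_lit 13) (nat_lit 5) (nat_lit 14) (nat_lit 5) (nat_lit 15) (nat_lit 4) (nat_lit 329) (nat_lit 267) (nat_lit 184))) (XT.nd (nat_lit 78) (nat_lit 76) (nat_lit 0) (XT.lf (nat_lit 0) (nat_lit 29370784585) (nat_lit 76) (nat_lit 4943257358) (nat_lit 152) (nat_lit 11817599164) (nat_lit 13) (nat_lit 5) (nat_lit 14) (nat_lit 5) (nat_lit 15) (nat_lit 4) (nat_lit 330) (nat_lit 267) (nat_lit 183)) (XT.nd (nat_lit 78) (nat_lit 76) (nat_lit 0) (XT.lf (nat_lit 0) (nat_lit 41343409728)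 (nat_lit 152) (nat_lit 4433038205) (nat_lit 0) (nat_lit 2290137736) (nat_lit 13) (nat_lit 5) (nat_lit 15) (nat_lit 4) (nat_lit 13) (nat_lit 4) (nat_lit 331) (nat_lit 267) (nat_lit 182)) (XT.lf (nat_lit 0) (nat_lit 8688665978) (nat_lit 76) (nat_lit 40241241387) (nat_lit 76) (nat_lit 1158097113) (nat_lit 12) (nat_lit 4) (nat_lit 13) (nat_lit 5) (nat_lit 13) (nat_lit 4) (nat_lit 332) (nat_lit 267) (nat_lit 181))))) (XT.nd (nat_lit 156) (nat_lit 76) (nat_lit 0) (XT.nd (nat_lit 78) (nat_lit 0) (nat_lit 0) (XT.lf (nat_lit 0) (nat_lit 4600593625) (nat_lit 152) (nat_lit 29680377133) (nat_lit 76) (nat_lit 17922609405) (nat_lit 11) (nat_lit 5) (nat_lit 13) (nat_lit 5) (nat_lit 12) (nat_lit 4) (nat_lit 333) (nat_lit 267) (nat_lit 180)) (XT.lf (nat_lit 0) (nat_lit 10597831031) (nat_lit 152) (nat_lit 17413135493) (nat_lit 76) (nat_lit 26413550980) (nat_lit 11) (nat_lit 5) (nat_lit 13) (nat_lit 5)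 (nat_lit 12) (nat_lit 4) (nat_lit 334) (nat_lit 267) (nat_lit 179))) (XT.nd (nat_lit 78) (nat_lit 76) (nat_lit 0) (XT.lf (nat_lit 0) (nat_lit 16884960579) (nat_lit 152) (nat_lit 4550324720) (nat_lit 76) (nat_lit 35321723203) (nat_lit 11) (nat_lit 5) (nat_lit 13) (nat_lit 5) (nat_lit 12) (nat_lit 4) (nat_lit 335) (nat_lit 267) (nat_lit 178)) (XT.nd (nat_lit 78) (nat_lit 0) (nat_lit 0) (XT.lf (nat_lit 0) (nat_lit 9234234084) (nat_lit 76) (nat_lit 14386889814) (nat_lit 152) (nat_lit 35578274196) (nat_lit 10) (nat_lit 5) (nat_lit 11) (nat_lit 5) (nat_lit 12) (nat_lit 4) (nat_lit 336) (nat_lit 267) (nat_lit 177)) (XT.lf (nat_lit 0) (nat_lit 23849325480) (nat_lit 76) (nat_lit 6912528716) (nat_lit 152) (nat_lit 30998672561) (nat_lit 10) (nat_lit 5) (nat_lit 11) (nat_lit 5) (nat_lit 12) (nat_lit 4) (nat_lit 337) (nat_lit 267) (nat_lit 176))))))) (XT.nd (nat_lit 780) (nat_lit 76) (nat_lit 0)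 (XT.nd (nat_lit 390) (nat_lit 152) (nat_lit 0) (XT.nd (nat_lit 156) (nat_lit 76) (nat_lit 0) (XT.nd (nat_lit 78) (nat_lit 0) (nat_lit 0) (XT.lf (nat_lit 0) (nat_lit 38265257866) (nat_lit 152) (nat_lit 25285366006) (nat_lit 0) (nat_lit 898813313) (nat_lit 10) (nat_lit 5) (nat_lit 12) (nat_lit 4) (nat_lit 10) (nat_lit 4) (nat_lit 338) (nat_lit 267) (nat_lit 175)) (XT.lf (nat_lit 0) (nat_lit 46248609284) (nat_lit 152) (nat_lit 12157005811) (nat_lit 0) (nat_lit 8861945994) (nat_lit 10) (nat_lit 5) (nat_lit 12) (nat_lit 4) (nat_lit 10) (nat_lit 4) (nat_lit 339) (nat_lit 267) (nat_lit 174))) (XT.nd (nat_lit 78) (nat_lit 0) (nat_lit 0) (XT.lf (nat_lit 0) (nat_lit 1666396342) (nat_lit 76) (nat_lit 52982613257) (nat_lit 76) (nat_lit 15576694028) (nat_lit 9) (nat_lit 4) (nat_lit 10) (nat_lit 5) (nat_lit 10) (nat_lit 4) (nat_lit 340) (nat_lit 267) (nat_lit 173)) (XT.nd (nat_lit 78) (nat_lit 0)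 (nat_lit 0) (XT.lf (nat_lit 0) (nat_lit 16588558530) (nat_lit 76) (nat_lit 47078781828) (nat_lit 76) (nat_lit 9654523609) (nat_lit 9) (nat_lit 4) (nat_lit 10) (nat_lit 5) (nat_lit 10) (nat_lit 4) (nat_lit 341) (nat_lit 267) (nat_lit 172)) (XT.lf (nat_lit 0) (nat_lit 32243044195) (nat_lit 76) (nat_lit 40885948844) (nat_lit 76) (nat_lit 3444224920) (nat_lit 9) (nat_lit 4) (nat_lit 10) (nat_lit 5) (nat_lit 10) (nat_lit 4) (nat_lit 342) (nat_lit 267) (nat_lit 171))))) (XT.nd (nat_lit 156) (nat_lit 76) (nat_lit 0) (XT.nd (nat_lit 78) (nat_lit 0) (nat_lit 0) (XT.lf (nat_lit 0) (nat_lit 2970761667) (nat_lit 152) (nat_lit 31368296508) (nat_lit 76) (nat_lit 45646052967) (nat_lit 8) (nat_lit 5) (nat_lit 10) (nat_lit 5) (nat_lit 9) (nat_lit 4) (nat_lit 343) (nat_lit 267) (nat_lit 170)) (XT.lf (nat_lit 0) (nat_lit 9583742392) (nat_lit 152) (nat_lit 17827527931) (nat_lit 76) (nat_lit 56153860958)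 (nat_lit 8) (nat_lit 5) (nat_lit 10) (nat_lit 5) (nat_lit 9) (nat_lit 4) (nat_lit 344) (nat_lit 267) (nat_lit 169))) (XT.nd (nat_lit 78) (nat_lit 76) (nat_lit 0) (XT.lf (nat_lit 0) (nat_lit 16520699153) (nat_lit 152) (nat_lit 3621854104) (nat_lit 76) (nat_lit 67181937676) (nat_lit 8) (nat_lit 5) (nat_lit 10) (nat_lit 5) (nat_lit 9) (nat_lit 4) (nat_lit 345) (nat_lit 267) (nat_lit 168)) (XT.nd (nat_lit 78) (nat_lit 0) (nat_lit 0) (XT.lf (nat_lit 0) (nat_lit 11655599995) (nat_lit 76) (nat_lit 12324525099) (nat_lit 152) (nat_lit 67282917031) (nat_lit 7) (nat_lit 5) (nat_lit 8) (nat_lit 5) (nat_lit 9) (nat_lit 4) (nat_lit 346) (nat_lit 267) (nat_lit 167)) (XT.lf (nat_lit 0) (nat_lit 27811300365) (nat_lit 76) (nat_lit 4056329707) (nat_lit 152) (nat_lit 63528139820) (nat_lit 7) (nat_lit 5) (nat_lit 8) (nat_lit 5) (nat_lit 9) (nat_lit 4) (nat_lit 347) (nat_lit 267) (nat_lit 166)))))) (XT.nd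 (nat_lit 390) (nat_lit 0) (nat_lit 0) (XT.nd (nat_lit 156) (nat_lit 76) (nat_lit 0) (XT.nd (nat_lit 78) (nat_lit 0) (nat_lit 0) (XT.lf (nat_lit 0) (nat_lit 40215713962) (nat_lit 152) (nat_lit 55043613909) (nat_lit 0) (nat_lit 4472500188) (nat_lit 7) (nat_lit 5) (nat_lit 9) (nat_lit 4) (nat_lit 7) (nat_lit 4) (nat_lit 348) (nat_lit 267) (nat_lit 165)) (XT.lf (nat_lit 0) (nat_lit 49041975587) (nat_lit 152) (nat_lit 41952738530) (nat_lit 0) (nat_lit 13286940336) (nat_lit 7) (nat_lit 5) (nat_lit 9) (nat_lit 4) (nat_lit 7) (nat_lit 4) (nat_lit 349) (nat_lit 267) (nat_lit 164))) (XT.nd (nat_lit 78) (nat_lit 76) (nat_lit 0) (XT.lf (nat_lit 0) (nat_lit 58304099180) (nat_lit 152) (nat_lit 28217343965) (nat_lit 0) (nat_lit 22537805381) (nat_lit 7) (nat_lit 5) (nat_lit 9) (nat_lit 4) (nat_lit 7) (nat_lit 4) (nat_lit 350) (nat_lit 267) (nat_lit 163)) (XT.nd (nat_lit 78) (nat_lit 76) (nat_lit 0)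 (XT.lf (nat_lit 0) (nat_lit 68024137418) (nat_lit 152) (nat_lit 13804726894) (nat_lit 0) (nat_lit 32247121191) (nat_lit 7) (nat_lit 5) (nat_lit 9) (nat_lit 4) (nat_lit 7) (nat_lit 4) (nat_lit 351) (nat_lit 267) (nat_lit 162)) (XT.lf (nat_lit 0) (nat_lit 1363054701) (nat_lit 76) (nat_lit 76883459651) (nat_lit 76) (nat_lit 41096231588) (nat_lit 6) (nat_lit 4) (nat_lit 7) (nat_lit 5) (nat_lit 7) (nat_lit 4) (nat_lit 352) (nat_lit 267) (nat_lit 161))))) (XT.nd (nat_lit 156) (nat_lit 0) (nat_lit 0) (XT.nd (nat_lit 78) (nat_lit 0) (nat_lit 0) (XT.lf (nat_lit 0) (nat_lit 17759548385) (nat_lit 76) (nat_lit 71449402931) (nat_lit 76) (nat_lit 35652449310) (nat_lit 6) (nat_lit 4) (nat_lit 7) (nat_lit 5) (nat_lit 7) (nat_lit 4) (nat_lit 353) (nat_lit 267) (nat_lit 160)) (XT.lf (nat_lit 0) (nat_lit 34967346814) (nat_lit 76) (nat_lit 65747545651) (nat_lit 76) (nat_lit 29941329594) (nat_lit 6) (nat_lit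 4) (nat_lit 7) (nat_lit 5) (nat_lit 7) (nat_lit 4) (nat_lit 354) (nat_lit 267) (nat_lit 159))) (XT.nd (nat_lit 78) (nat_lit 0) (nat_lit 0) (XT.lf (nat_lit 0) (nat_lit 53027420934) (nat_lit 76) (nat_lit 59764311962) (nat_lit 76) (nat_lit 23949274537) (nat_lit 6) (nat_lit 4) (nat_lit 7) (nat_lit 5) (nat_lit 7) (nat_lit 4) (nat_lit 355) (nat_lit 267) (nat_lit 158)) (XT.nd (nat_lit 78) (nat_lit 0) (nat_lit 0) (XT.lf (nat_lit 0) (nat_lit 71982770924) (nat_lit 76) (nat_lit 53485456069) (nat_lit 76) (nat_lit 17662017341) (nat_lit 6) (nat_lit 4) (nat_lit 7) (nat_lit 5) (nat_lit 7) (nat_lit 4) (nat_lit 356) (nat_lit 267) (nat_lit 157)) (XT.lf (nat_lit 0) (nat_lit 91878528568) (nat_lit 76) (nat_lit 46896028314) (nat_lit 76) (nat_lit 11064588346) (nat_lit 6) (nat_lit 4) (nat_lit 7) (nat_lit 5) (nat_lit 7) (nat_lit 4) (nat_lit 357) (nat_lit 267) (nat_lit 156))))))))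
noncomputable def xc130 : XT := (XT.nd (nat_lit 1482) (nat_lit 0) (nat_lit 0) (XT.nd (nat_lit 702) (nat_lit 76) (nat_lit 0) (XT.nd (nat_lit 312) (nat_lit 0) (nat_lit 0) (XT.nd (nat_lit 156) (nat_lit 76) (nat_lit 0) (XT.nd (nat_lit 78) (nat_lit 76) (nat_lit 0) (XT.lf (nat_lit 0) (nat_lit 112762064718) (nat_lit 76) (nat_lit 39980339585) (nat_lit 76) (nat_lit 4141279388) (nat_lit 6) (nat_lit 4) (nat_lit 7) (nat_lit 5) (nat_lit 7) (nat_lit 4) (nat_lit 358) (nat_lit 267) (nat_lit 155)) (XT.lf (nat_lit 0) (nat_lit 3024393495) (nat_lit 152) (nat_lit 29646310893) (nat_lit 76) (nat_lit 131607489017) (nat_lit 5) (nat_lit 5) (nat_lit 7) (nat_lit 5) (nat_lit 6) (nat_lit 4) (nat_lit 359) (nat_lit 267) (nat_lit 154))) (XT.nd (nat_lit 78) (nat_lit 76) (nat_lit 0) (XT.lf (nat_lit 0) (nat_lit 10405671359) (nat_lit 152) (nat_lit 14521603044) (nat_lit 76) (nat_lit 147111937160) (nat_lit 5) (nat_lit 5)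 (nat_lit 7) (nat_lit 5) (nat_lit 6) (nat_lit 4) (nat_lit 360) (nat_lit 267) (nat_lit 153)) (XT.lf (nat_lit 0) (nat_lit 1397914760) (nat_lit 76) (nat_lit 16776586084) (nat_lit 152) (nat_lit 162012857518) (nat_lit 4) (nat_lit 5) (nat_lit 5) (nat_lit 5) (nat_lit 6) (nat_lit 4) (nat_lit 361) (nat_lit 267) (nat_lit 152)))) (XT.nd (nat_lit 156) (nat_lit 0) (nat_lit 0) (XT.nd (nat_lit 78) (nat_lit 0) (nat_lit 0) (XT.lf (nat_lit 0) (nat_lit 18611497758) (nat_lit 76) (nat_lit 7962930978) (nat_lit 152) (nat_lit 162156352935) (nat_lit 4) (nat_lit 5) (nat_lit 5) (nat_lit 5) (nat_lit 6) (nat_lit 4) (nat_lit 362) (nat_lit 267) (nat_lit 151)) (XT.lf (nat_lit 0) (nat_lit 35411356389) (nat_lit 152) (nat_lit 161041673980) (nat_lit 0) (nat_lit 1247497530) (nat_lit 4) (nat_lit 5) (nat_lit 6) (nat_lit 4) (nat_lit 4) (nat_lit 4) (nat_lit 363) (nat_lit 267) (nat_lit 150))) (XT.nd (nat_lit 78) (nat_lit 0)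 (nat_lit 0) (XT.lf (nat_lit 0) (nat_lit 44817661594) (nat_lit 152) (nat_lit 151646337936) (nat_lit 0) (nat_lit 10648387181) (nat_lit 4) (nat_lit 5) (nat_lit 6) (nat_lit 4) (nat_lit 4) (nat_lit 4) (nat_lit 364) (nat_lit 267) (nat_lit 149)) (XT.nd (nat_lit 78) (nat_lit 0) (nat_lit 0) (XT.lf (nat_lit 0) (nat_lit 54691416648) (nat_lit 152) (nat_lit 141786582263) (nat_lit 0) (nat_lit 20516984564) (nat_lit 4) (nat_lit 5) (nat_lit 6) (nat_lit 4) (nat_lit 4) (nat_lit 4) (nat_lit 365) (nat_lit 267) (nat_lit 148)) (XT.lf (nat_lit 0) (nat_lit 65056130491) (nat_lit 152) (nat_lit 131438931355) (nat_lit 0) (nat_lit 30876786340) (nat_lit 4) (nat_lit 5) (nat_lit 6) (nat_lit 4) (nat_lit 4) (nat_lit 4) (nat_lit 366) (nat_lit 267) (nat_lit 147)))))) (XT.nd (nat_lit 390) (nat_lit 76) (nat_lit 0) (XT.nd (nat_lit 156) (nat_lit 0) (nat_lit 0) (XT.nd (nat_lit 78) (nat_lit 0) (nat_lit 0) (XT.lf (nat_lit 0)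 (nat_lit 75936481015) (nat_lit 152) (nat_lit 120578747945) (nat_lit 0) (nat_lit 41752458703) (nat_lit 4) (nat_lit 5) (nat_lit 6) (nat_lit 4) (nat_lit 4) (nat_lit 4) (nat_lit 367) (nat_lit 267) (nat_lit 146)) (XT.lf (nat_lit 0) (nat_lit 87358373815) (nat_lit 152) (nat_lit 109180174456) (nat_lit 0) (nat_lit 53169896113) (nat_lit 4) (nat_lit 5) (nat_lit 6) (nat_lit 4) (nat_lit 4) (nat_lit 4) (nat_lit 368) (nat_lit 267) (nat_lit 145))) (XT.nd (nat_lit 78) (nat_lit 0) (nat_lit 0) (XT.lf (nat_lit 0) (nat_lit 99349003874) (nat_lit 152) (nat_lit 97216071426) (nat_lit 0) (nat_lit 65156282943) (nat_lit 4) (nat_lit 5) (nat_lit 6) (nat_lit 4) (nat_lit 4) (nat_lit 4) (nat_lit 369) (nat_lit 267) (nat_lit 144)) (XT.nd (nat_lit 78) (nat_lit 0) (nat_lit 0) (XT.lf (nat_lit 0) (nat_lit 111936920311) (nat_lit 152) (nat_lit 84657952895) (nat_lit 0) (nat_lit 77740158210) (nat_lit 4) (nat_lit 5) (nat_lit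 6) (nat_lit 4) (nat_lit 4) (nat_lit 4) (nat_lit 370) (nat_lit 267) (nat_lit 143)) (XT.lf (nat_lit 0) (nat_lit 125152094356) (nat_lit 152) (nat_lit 71475918582) (nat_lit 0) (nat_lit 90951483522) (nat_lit 4) (nat_lit 5) (nat_lit 6) (nat_lit 4) (nat_lit 4) (nat_lit 4) (nat_lit 371) (nat_lit 267) (nat_lit 142))))) (XT.nd (nat_lit 156) (nat_lit 76) (nat_lit 0) (XT.nd (nat_lit 78) (nat_lit 0) (nat_lit 0) (XT.lf (nat_lit 0) (nat_lit 139025990709) (nat_lit 152) (nat_lit 57638582691) (nat_lit 0) (nat_lit 104821714414) (nat_lit 4) (nat_lit 5) (nat_lit 6) (nat_lit 4) (nat_lit 4) (nat_lit 4) (nat_lit 372) (nat_lit 267) (nat_lit 141)) (XT.lf (nat_lit 0) (nat_lit 153591642457) (nat_lit 152) (nat_lit 43112999182) (nat_lit 0) (nat_lit 119383875247) (nat_lit 4) (nat_lit 5) (nat_lit 6) (nat_lit 4) (nat_lit 4) (nat_lit 4) (nat_lit 373) (nat_lit 267) (nat_lit 140))) (XT.nd (nat_lit 78) (nat_lit 76) (nat_lit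 0) (XT.lf (nat_lit 0) (nat_lit 168883729722) (nat_lit 152) (nat_lit 27864583335) (nat_lit 0) (nat_lit 134672637832) (nat_lit 4) (nat_lit 5) (nat_lit 6) (nat_lit 4) (nat_lit 4) (nat_lit 4) (nat_lit 374) (nat_lit 267) (nat_lit 139)) (XT.nd (nat_lit 78) (nat_lit 76) (nat_lit 0) (XT.lf (nat_lit 0) (nat_lit 184938662237) (nat_lit 152) (nat_lit 11857029397) (nat_lit 0) (nat_lit 150724403984) (nat_lit 4) (nat_lit 5) (nat_lit 6) (nat_lit 4) (nat_lit 4) (nat_lit 4) (nat_lit 375) (nat_lit 267) (nat_lit 138)) (XT.lf (nat_lit 0) (nat_lit 5111371670) (nat_lit 76) (nat_lit 196763097197) (nat_lit 76) (nat_lit 162545823361) (nat_lit 3) (nat_lit 4) (nat_lit 4) (nat_lit 5) (nat_lit 4) (nat_lit 4) (nat_lit 376) (nat_lit 267) (nat_lit 137))))))) (XT.nd (nat_lit 32214) (nat_lit 0) (nat_lit 6840) (XT.nd (nat_lit 390) (nat_lit 0) (nat_lit 0) (XT.nd (nat_lit 156) (nat_lit 0) (nat_lit 0) (XT.nd (nat_lit 78)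 (nat_lit 0) (nat_lit 0) (XT.lf (nat_lit 0) (nat_lit 23336766121) (nat_lit 76) (nat_lit 196519460646) (nat_lit 76) (nat_lit 162299314826) (nat_lit 3) (nat_lit 4) (nat_lit 4) (nat_lit 5) (nat_lit 4) (nat_lit 4) (nat_lit 377) (nat_lit 267) (nat_lit 136)) (XT.lf (nat_lit 0) (nat_lit 42470500812) (nat_lit 76) (nat_lit 196265006423) (nat_lit 76) (nat_lit 162042125380) (nat_lit 3) (nat_lit 4) (nat_lit 4) (nat_lit 5) (nat_lit 4) (nat_lit 4) (nat_lit 378) (nat_lit 267) (nat_lit 135))) (XT.nd (nat_lit 78) (nat_lit 0) (nat_lit 0) (XT.lf (nat_lit 0) (nat_lit 62558132254) (nat_lit 76) (nat_lit 195999128686) (nat_lit 76) (nat_lit 161773642668) (nat_lit 3) (nat_lit 4) (nat_lit 4) (nat_lit 5) (nat_lit 4) (nat_lit 4) (nat_lit 379) (nat_lit 267) (nat_lit 134)) (XT.nd (nat_lit 78) (nat_lit 0) (nat_lit 0) (XT.lf (nat_lit 0) (nat_lit 83647488141) (nat_lit 76) (nat_lit 195721194392) (nat_lit 76) (nat_lit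 161493227446) (nat_lit 3) (nat_lit 4) (nat_lit 4) (nat_lit 5) (nat_lit 4) (nat_lit 4) (nat_lit 380) (nat_lit 267) (nat_lit 133)) (XT.lf (nat_lit 0) (nat_lit 105788781226) (nat_lit 76) (nat_lit 195430541793) (nat_lit 76) (nat_lit 161200212058) (nat_lit 3) (nat_lit 4) (nat_lit 4) (nat_lit 5) (nat_lit 4) (nat_lit 4) (nat_lit 381) (nat_lit 267) (nat_lit 132))))) (XT.nd (nat_lit 156) (nat_lit 0) (nat_lit 0) (XT.nd (nat_lit 78) (nat_lit 0) (nat_lit 0) (XT.lf (nat_lit 0) (nat_lit 129034728872) (nat_lit 76) (nat_lit 195126478858) (nat_lit 76) (nat_lit 160893898849) (nat_lit 3) (nat_lit 4) (nat_lit 4) (nat_lit 5) (nat_lit 4) (nat_lit 4) (nat_lit 382) (nat_lit 267) (nat_lit 131)) (XT.lf (nat_lit 0) (nat_lit 153440678574) (nat_lit 76) (nat_lit 194808281629) (nat_lit 76) (nat_lit 160573558502) (nat_lit 3) (nat_lit 4) (nat_lit 4) (nat_lit 5) (nat_lit 4) (nat_lit 4) (nat_lit 383) (nat_lit 267) (nat_lit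 130))) (XT.nd (nat_lit 78) (nat_lit 0) (nat_lit 0) (XT.lf (nat_lit 0) (nat_lit 179064739737) (nat_lit 76) (nat_lit 194475192494) (nat_lit 76) (nat_lit 160238428300) (nat_lit 3) (nat_lit 4) (nat_lit 4) (nat_lit 5) (nat_lit 4) (nat_lit 4) (nat_lit 384) (nat_lit 267) (nat_lit 129)) (XT.nd (nat_lit 31512) (nat_lit 0) (nat_lit 7828) (XT.lf (nat_lit 0) (nat_lit 205967922029) (nat_lit 76) (nat_lit 194126418381) (nat_lit 76) (nat_lit 159887710316) (nat_lit 3) (nat_lit 4) (nat_lit 4) (nat_lit 5) (nat_lit 4) (nat_lit 4) (nat_lit 385) (nat_lit 267) (nat_lit 128)) (XT.lf (nat_lit 0) (nat_lit 1012859302) (nat_lit 532) (nat_lit 1294143382) (nat_lit 532) (nat_lit 1294143382) (nat_lit 106) (nat_lit 3) (nat_lit 113) (nat_lit 3) (nat_lit 113) (nat_lit 5) (nat_lit 268) (nat_lit 268) (nat_lit 244)))))) (XT.nd (nat_lit 390) (nat_lit 532) (nat_lit 0) (XT.nd (nat_lit 156) (nat_lit 456) (nat_lit 0) (XT.nd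 (nat_lit 78) (nat_lit 0) (nat_lit 0) (XT.lf (nat_lit 76) (nat_lit 670728206) (nat_lit 0) (nat_lit 2926512639) (nat_lit 532) (nat_lit 3704026748) (nat_lit 107) (nat_lit 5) (nat_lit 106) (nat_lit 3) (nat_lit 113) (nat_lit 5) (nat_lit 269) (nat_lit 268) (nat_lit 243)) (XT.lf (nat_lit 76) (nat_lit 4129948889) (nat_lit 0) (nat_lit 1063717959) (nat_lit 532) (nat_lit 2214531084) (nat_lit 107) (nat_lit 5) (nat_lit 106) (nat_lit 3) (nat_lit 113) (nat_lit 5) (nat_lit 270) (nat_lit 268) (nat_lit 242))) (XT.nd (nat_lit 78) (nat_lit 532) (nat_lit 0) (XT.lf (nat_lit 76) (nat_lit 177695716) (nat_lit 0) (nat_lit 6616727337) (nat_lit 532) (nat_lit 730133420) (nat_lit 108) (nat_lit 5) (nat_lit 107) (nat_lit 5) (nat_lit 114) (nat_lit 5) (nat_lit 271) (nat_lit 268) (nat_lit 241)) (XT.nd (nat_lit 78) (nat_lit 0) (nat_lit 0) (XT.lf (nat_lit 0) (nat_lit 785436692) (nat_lit 532) (nat_lit 3813075324) (nat_lit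 608) (nat_lit 3048679294) (nat_lit 100) (nat_lit 5) (nat_lit 107) (nat_lit 5) (nat_lit 108) (nat_lit 5) (nat_lit 272) (nat_lit 268) (nat_lit 240)) (XT.lf (nat_lit 0) (nat_lit 2266155044) (nat_lit 532) (nat_lit 169890339) (nat_lit 608) (nat_lit 5343883994) (nat_lit 100) (nat_lit 5) (nat_lit 107) (nat_lit 5) (nat_lit 108) (nat_lit 5) (nat_lit 273) (nat_lit 268) (nat_lit 239))))) (XT.nd (nat_lit 156) (nat_lit 532) (nat_lit 0) (XT.nd (nat_lit 78) (nat_lit 0) (nat_lit 76) (XT.lf (nat_lit 76) (nat_lit 3721891652) (nat_lit 0) (nat_lit 75133493) (nat_lit 608) (nat_lit 4123726090) (nat_lit 101) (nat_lit 5) (nat_lit 100) (nat_lit 5) (nat_lit 108) (nat_lit 5) (nat_lit 274) (nat_lit 268) (nat_lit 238)) (XT.lf (nat_lit 0) (nat_lit 5366417842) (nat_lit 532) (nat_lit 348331282) (nat_lit 608) (nat_lit 2356006751) (nat_lit 101) (nat_lit 5) (nat_lit 108) (nat_lit 5) (nat_lit 109) (nat_lit 5) (nat_lit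 275) (nat_lit 268) (nat_lit 237))) (XT.nd (nat_lit 78) (nat_lit 608) (nat_lit 0) (XT.lf (nat_lit 76) (nat_lit 3760081334) (nat_lit 0) (nat_lit 3239397199) (nat_lit 608) (nat_lit 1229751483) (nat_lit 102) (nat_lit 5) (nat_lit 101) (nat_lit 5) (nat_lit 109) (nat_lit 5) (nat_lit 276) (nat_lit 268) (nat_lit 236)) (XT.nd (nat_lit 78) (nat_lit 0) (nat_lit 76) (XT.lf (nat_lit 0) (nat_lit 240967000) (nat_lit 608) (nat_lit 369919607) (nat_lit 684) (nat_lit 7788070517) (nat_lit 93) (nat_lit 5) (nat_lit 101) (nat_lit 5) (nat_lit 102) (nat_lit 5) (nat_lit 277) (nat_lit 268) (nat_lit 235)) (XT.lf (nat_lit 0) (nat_lit 1771439389) (nat_lit 608) (nat_lit 4623011037) (nat_lit 76) (nat_lit 2180532863) (nat_lit 94) (nat_lit 5) (nat_lit 102) (nat_lit 5) (nat_lit 95) (nat_lit 5) (nat_lit 278) (nat_lit 268) (nat_lit 234))))))))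
noncomputable def xc131 : XT := (XT.nd (nat_lit 1482) (nat_lit 1672) (nat_lit 0) (XT.nd (nat_lit 702) (nat_lit 1444) (nat_lit 0) (XT.nd (nat_lit 312) (nat_lit 1140) (nat_lit 0) (XT.nd (nat_lit 156) (nat_lit 684) (nat_lit 0) (XT.nd (nat_lit 78) (nat_lit 608) (nat_lit 0) (XT.lf (nat_lit 0) (nat_lit 3327671463) (nat_lit 608) (nat_lit 322638162) (nat_lit 76) (nat_lit 5112227885) (nat_lit 94) (nat_lit 5) (nat_lit 102) (nat_lit 5) (nat_lit 95) (nat_lit 5) (nat_lit 279) (nat_lit 268) (nat_lit 233)) (XT.lf (nat_lit 0) (nat_lit 4276460236) (nat_lit 608) (nat_lit 688073921) (nat_lit 684) (nat_lit 3994973907) (nat_lit 86) (nat_lit 5) (nat_lit 94) (nat_lit 5) (nat_lit 95) (nat_lit 5) (nat_lit 280) (nat_lit 268) (nat_lit 232))) (XT.nd (nat_lit 78) (nat_lit 684) (nat_lit 0) (XT.lf (nat_lit 0) (nat_lit 6665038971) (nat_lit 684) (nat_lit 142960160) (nat_lit 76) (nat_lit 2359409088) (nat_lit 86) (nat_lit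 5) (nat_lit 95) (nat_lit 5) (nat_lit 87) (nat_lit 5) (nat_lit 281) (nat_lit 268) (nat_lit 231)) (XT.lf (nat_lit 0) (nat_lit 4710559323) (nat_lit 684) (nat_lit 3766193583) (nat_lit 760) (nat_lit 907804159) (nat_lit 77) (nat_lit 5) (nat_lit 86) (nat_lit 5) (nat_lit 87) (nat_lit 5) (nat_lit 282) (nat_lit 268) (nat_lit 230)))) (XT.nd (nat_lit 156) (nat_lit 684) (nat_lit 0) (XT.nd (nat_lit 78) (nat_lit 0) (nat_lit 0) (XT.lf (nat_lit 0) (nat_lit 137405689) (nat_lit 380) (nat_lit 551414388) (nat_lit 456) (nat_lit 8925949493) (nat_lit 71) (nat_lit 5) (nat_lit 76) (nat_lit 5) (nat_lit 77) (nat_lit 5) (nat_lit 283) (nat_lit 268) (nat_lit 229)) (XT.lf (nat_lit 0) (nat_lit 2403525101) (nat_lit 456) (nat_lit 4617512899) (nat_lit 76) (nat_lit 2831413412) (nat_lit 71) (nat_lit 5) (nat_lit 77) (nat_lit 5) (nat_lit 72) (nat_lit 5) (nat_lit 284) (nat_lit 268) (nat_lit 228))) (XT.nd (nat_lit 78) (nat_lit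 304) (nat_lit 0) (XT.lf (nat_lit 0) (nat_lit 436592250) (nat_lit 380) (nat_lit 3730097240) (nat_lit 456) (nat_lit 5937325649) (nat_lit 66) (nat_lit 5) (nat_lit 71) (nat_lit 5) (nat_lit 72) (nat_lit 5) (nat_lit 285) (nat_lit 268) (nat_lit 227)) (XT.nd (nat_lit 78) (nat_lit 304) (nat_lit 0) (XT.lf (nat_lit 0) (nat_lit 5850905482) (nat_lit 380) (nat_lit 193880167) (nat_lit 456) (nat_lit 4322160345) (nat_lit 66) (nat_lit 5) (nat_lit 71) (nat_lit 5) (nat_lit 72) (nat_lit 5) (nat_lit 286) (nat_lit 268) (nat_lit 226)) (XT.lf (nat_lit 0) (nat_lit 811084936) (nat_lit 304) (nat_lit 7224310824) (nat_lit 380) (nat_lit 2606818716) (nat_lit 62) (nat_lit 5) (nat_lit 66) (nat_lit 5) (nat_lit 67) (nat_lit 5) (nat_lit 287) (nat_lit 268) (nat_lit 225)))))) (XT.nd (nat_lit 390) (nat_lit 836) (nat_lit 0) (XT.nd (nat_lit 156) (nat_lit 228) (nat_lit 0) (XT.nd (nat_lit 78) (nat_lit 380) (nat_lit 0) (XT.lf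 (nat_lit 0) (nat_lit 6506080154) (nat_lit 304) (nat_lit 3651588260) (nat_lit 380) (nat_lit 772087123) (nat_lit 62) (nat_lit 5) (nat_lit 66) (nat_lit 5) (nat_lit 67) (nat_lit 5) (nat_lit 288) (nat_lit 268) (nat_lit 224)) (XT.lf (nat_lit 0) (nat_lit 1092569949) (nat_lit 380) (nat_lit 10010145001) (nat_lit 76) (nat_lit 129405719) (nat_lit 57) (nat_lit 5) (nat_lit 62) (nat_lit 5) (nat_lit 58) (nat_lit 5) (nat_lit 289) (nat_lit 268) (nat_lit 223))) (XT.nd (nat_lit 78) (nat_lit 228) (nat_lit 0) (XT.lf (nat_lit 0) (nat_lit 3115775969) (nat_lit 380) (nat_lit 4368677976) (nat_lit 76) (nat_lit 4060054086) (nat_lit 57) (nat_lit 5) (nat_lit 62) (nat_lit 5) (nat_lit 58) (nat_lit 5) (nat_lit 290) (nat_lit 268) (nat_lit 222)) (XT.nd (nat_lit 78) (nat_lit 0) (nat_lit 0) (XT.lf (nat_lit 0) (nat_lit 1554559295) (nat_lit 228) (nat_lit 3667240640) (nat_lit 304) (nat_lit 6651727174) (nat_lit 54) (nat_lit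 5) (nat_lit 57) (nat_lit 5) (nat_lit 58) (nat_lit 5) (nat_lit 291) (nat_lit 268) (nat_lit 221)) (XT.lf (nat_lit 0) (nat_lit 7472168581) (nat_lit 304) (nat_lit 4347489388) (nat_lit 76) (nat_lit 397477694) (nat_lit 54) (nat_lit 5) (nat_lit 58) (nat_lit 5) (nat_lit 55) (nat_lit 5) (nat_lit 292) (nat_lit 268) (nat_lit 220))))) (XT.nd (nat_lit 156) (nat_lit 532) (nat_lit 0) (XT.nd (nat_lit 78) (nat_lit 0) (nat_lit 0) (XT.lf (nat_lit 0) (nat_lit 1873565925) (nat_lit 304) (nat_lit 8011358679) (nat_lit 380) (nat_lit 2690592972) (nat_lit 50) (nat_lit 5) (nat_lit 54) (nat_lit 5) (nat_lit 55) (nat_lit 5) (nat_lit 293) (nat_lit 268) (nat_lit 219)) (XT.lf (nat_lit 0) (nat_lit 8508552683) (nat_lit 304) (nat_lit 3945021936) (nat_lit 380) (nat_lit 496563419) (nat_lit 50) (nat_lit 5) (nat_lit 54) (nat_lit 5) (nat_lit 55) (nat_lit 5) (nat_lit 294) (nat_lit 268) (nat_lit 218))) (XT.nd (nat_lit 78) (nat_lit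 228) (nat_lit 0) (XT.lf (nat_lit 0) (nat_lit 1751198962) (nat_lit 304) (nat_lit 11223768004) (nat_lit 76) (nat_lit 367092827) (nat_lit 46) (nat_lit 5) (nat_lit 50) (nat_lit 5) (nat_lit 47) (nat_lit 5) (nat_lit 295) (nat_lit 268) (nat_lit 217)) (XT.nd (nat_lit 78) (nat_lit 228) (nat_lit 0) (XT.lf (nat_lit 0) (nat_lit 4199460127) (nat_lit 304) (nat_lit 4711533057) (nat_lit 76) (nat_lit 4837008573) (nat_lit 46) (nat_lit 5) (nat_lit 50) (nat_lit 5) (nat_lit 47) (nat_lit 5) (nat_lit 296) (nat_lit 268) (nat_lit 216)) (XT.lf (nat_lit 0) (nat_lit 2149358874) (nat_lit 228) (nat_lit 4619735316) (nat_lit 304) (nat_lit 7405266315) (nat_lit 43) (nat_lit 5) (nat_lit 46) (nat_lit 5) (nat_lit 47) (nat_lit 5) (nat_lit 297) (nat_lit 268) (nat_lit 215))))))) (XT.nd (nat_lit 780) (nat_lit 760) (nat_lit 0) (XT.nd (nat_lit 390) (nat_lit 456) (nat_lit 0) (XT.nd (nat_lit 156) (nat_lit 304) (nat_lit 0) (XT.nd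 (nat_lit 78) (nat_lit 152) (nat_lit 0) (XT.lf (nat_lit 0) (nat_lit 9471859388) (nat_lit 228) (nat_lit 41489766) (nat_lit 304) (nat_lit 5106445534) (nat_lit 43) (nat_lit 5) (nat_lit 46) (nat_lit 5) (nat_lit 47) (nat_lit 5) (nat_lit 298) (nat_lit 268) (nat_lit 214)) (XT.lf (nat_lit 0) (nat_lit 2018832649) (nat_lit 152) (nat_lit 10449690040) (nat_lit 228) (nat_lit 2615353987) (nat_lit 41) (nat_lit 5) (nat_lit 43) (nat_lit 5) (nat_lit 44) (nat_lit 5) (nat_lit 299) (nat_lit 268) (nat_lit 213))) (XT.nd (nat_lit 78) (nat_lit 228) (nat_lit 0) (XT.lf (nat_lit 0) (nat_lit 57637718) (nat_lit 228) (nat_lit 5891011562) (nat_lit 76) (nat_lit 9619701189) (nat_lit 40) (nat_lit 5) (nat_lit 43) (nat_lit 5) (nat_lit 41) (nat_lit 5) (nat_lit 300) (nat_lit 268) (nat_lit 212)) (XT.nd (nat_lit 78) (nat_lit 0) (nat_lit 0) (XT.lf (nat_lit 0) (nat_lit 1607677224) (nat_lit 228) (nat_lit 1163392679) (nat_lit 304)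 (nat_lit 13304153148) (nat_lit 37) (nat_lit 5) (nat_lit 40) (nat_lit 5) (nat_lit 41) (nat_lit 5) (nat_lit 301) (nat_lit 268) (nat_lit 211)) (XT.lf (nat_lit 0) (nat_lit 5752044285) (nat_lit 304) (nat_lit 7021824562) (nat_lit 76) (nat_lit 3827027386) (nat_lit 37) (nat_lit 5) (nat_lit 41) (nat_lit 5) (nat_lit 38) (nat_lit 5) (nat_lit 302) (nat_lit 268) (nat_lit 210))))) (XT.nd (nat_lit 156) (nat_lit 304) (nat_lit 0) (XT.nd (nat_lit 78) (nat_lit 0) (nat_lit 0) (XT.lf (nat_lit 0) (nat_lit 760225389) (nat_lit 152) (nat_lit 8124387943) (nat_lit 228) (nat_lit 8268160545) (nat_lit 35) (nat_lit 5) (nat_lit 37) (nat_lit 5) (nat_lit 38) (nat_lit 5) (nat_lit 303) (nat_lit 268) (nat_lit 209)) (XT.lf (nat_lit 0) (nat_lit 9134607203) (nat_lit 152) (nat_lit 3130445332) (nat_lit 228) (nat_lit 5462676591) (nat_lit 35) (nat_lit 5) (nat_lit 37) (nat_lit 5) (nat_lit 38) (nat_lit 5) (nat_lit 304) (nat_lit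 268) (nat_lit 208))) (XT.nd (nat_lit 78) (nat_lit 304) (nat_lit 0) (XT.lf (nat_lit 0) (nat_lit 15820956748) (nat_lit 228) (nat_lit 476508459) (nat_lit 76) (nat_lit 2033688405) (nat_lit 35) (nat_lit 5) (nat_lit 38) (nat_lit 5) (nat_lit 36) (nat_lit 5) (nat_lit 305) (nat_lit 268) (nat_lit 207)) (XT.nd (nat_lit 78) (nat_lit 0) (nat_lit 0) (XT.lf (nat_lit 0) (nat_lit 727883953) (nat_lit 304) (nat_lit 10749007263) (nat_lit 76) (nat_lit 7479594280) (nat_lit 31) (nat_lit 5) (nat_lit 35) (nat_lit 5) (nat_lit 32) (nat_lit 5) (nat_lit 306) (nat_lit 268) (nat_lit 206)) (XT.lf (nat_lit 0) (nat_lit 4026605691) (nat_lit 304) (nat_lit 2349909264) (nat_lit 76) (nat_lit 13235394371) (nat_lit 31) (nat_lit 5) (nat_lit 35) (nat_lit 5) (nat_lit 32) (nat_lit 5) (nat_lit 307) (nat_lit 268) (nat_lit 205)))))) (XT.nd (nat_lit 390) (nat_lit 228) (nat_lit 0) (XT.nd (nat_lit 156) (nat_lit 380) (nat_lit 0) (XT.nd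 (nat_lit 78) (nat_lit 0) (nat_lit 0) (XT.lf (nat_lit 0) (nat_lit 6645504834) (nat_lit 152) (nat_lit 924602930) (nat_lit 228) (nat_lit 12726040262) (nat_lit 29) (nat_lit 5) (nat_lit 31) (nat_lit 5) (nat_lit 32) (nat_lit 5) (nat_lit 308) (nat_lit 268) (nat_lit 204)) (XT.lf (nat_lit 0) (nat_lit 11382649987) (nat_lit 228) (nat_lit 4952685176) (nat_lit 76) (nat_lit 4674704428) (nat_lit 29) (nat_lit 5) (nat_lit 32) (nat_lit 5) (nat_lit 30) (nat_lit 5) (nat_lit 309) (nat_lit 268) (nat_lit 203))) (XT.nd (nat_lit 78) (nat_lit 228) (nat_lit 0) (XT.lf (nat_lit 0) (nat_lit 4266563152) (nat_lit 152) (nat_lit 11178622621) (nat_lit 228) (nat_lit 6311504193) (nat_lit 27) (nat_lit 5) (nat_lit 29) (nat_lit 5) (nat_lit 30) (nat_lit 5) (nat_lit 310) (nat_lit 268) (nat_lit 202)) (XT.nd (nat_lit 78) (nat_lit 228) (nat_lit 0) (XT.lf (nat_lit 0) (nat_lit 14084277744) (nat_lit 152) (nat_lit 5688571865) (nat_lit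 228) (nat_lit 2764754193) (nat_lit 27) (nat_lit 5) (nat_lit 29) (nat_lit 5) (nat_lit 30) (nat_lit 5) (nat_lit 311) (nat_lit 268) (nat_lit 201)) (XT.lf (nat_lit 0) (nat_lit 924841824) (nat_lit 228) (nat_lit 22339173379) (nat_lit 76) (nat_lit 93016697) (nat_lit 24) (nat_lit 5) (nat_lit 27) (nat_lit 5) (nat_lit 25) (nat_lit 5) (nat_lit 312) (nat_lit 268) (nat_lit 200))))) (XT.nd (nat_lit 156) (nat_lit 228) (nat_lit 0) (XT.nd (nat_lit 78) (nat_lit 0) (nat_lit 0) (XT.lf (nat_lit 0) (nat_lit 4923866663) (nat_lit 228) (nat_lit 13128977573) (nat_lit 76) (nat_lit 6151454613) (nat_lit 24) (nat_lit 5) (nat_lit 27) (nat_lit 5) (nat_lit 25) (nat_lit 5) (nat_lit 313) (nat_lit 268) (nat_lit 199)) (XT.lf (nat_lit 0) (nat_lit 9102937547) (nat_lit 228) (nat_lit 3490520484) (nat_lit 76) (nat_lit 12501491881) (nat_lit 24) (nat_lit 5) (nat_lit 27) (nat_lit 5) (nat_lit 25) (nat_lit 5) (nat_lit 314) (nat_lit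 268) (nat_lit 198))) (XT.nd (nat_lit 78) (nat_lit 76) (nat_lit 0) (XT.lf (nat_lit 0) (nat_lit 6817344182) (nat_lit 152) (nat_lit 6761098309) (nat_lit 228) (nat_lit 12447341304) (nat_lit 22) (nat_lit 5) (nat_lit 24) (nat_lit 5) (nat_lit 25) (nat_lit 5) (nat_lit 315) (nat_lit 268) (nat_lit 197)) (XT.nd (nat_lit 78) (nat_lit 76) (nat_lit 0) (XT.lf (nat_lit 0) (nat_lit 17731567576) (nat_lit 152) (nat_lit 586742380) (nat_lit 228) (nat_lit 8682843188) (nat_lit 22) (nat_lit 5) (nat_lit 24) (nat_lit 5) (nat_lit 25) (nat_lit 5) (nat_lit 316) (nat_lit 268) (nat_lit 196)) (XT.lf (nat_lit 0) (nat_lit 1079184594) (nat_lit 76) (nat_lit 22307075543) (nat_lit 152) (nat_lit 4634498393) (nat_lit 21) (nat_lit 5) (nat_lit 22) (nat_lit 5) (nat_lit 23) (nat_lit 4) (nat_lit 317) (nat_lit 268) (nat_lit 195))))))))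
noncomputable def xc132 : XT := (XT.nd (nat_lit 1482) (nat_lit 380) (nat_lit 0) (XT.nd (nat_lit 702) (nat_lit 228) (nat_lit 0) (XT.nd (nat_lit 312) (nat_lit 304) (nat_lit 0) (XT.nd (nat_lit 156) (nat_lit 152) (nat_lit 0) (XT.nd (nat_lit 78) (nat_lit 76) (nat_lit 0) (XT.lf (nat_lit 0) (nat_lit 12228242560) (nat_lit 76) (nat_lit 16628390948) (nat_lit 152) (nat_lit 227280377) (nat_lit 21) (nat_lit 5) (nat_lit 22) (nat_lit 5) (nat_lit 23) (nat_lit 4) (nat_lit 318) (nat_lit 268) (nat_lit 194)) (XT.lf (nat_lit 0) (nat_lit 4242576978) (nat_lit 152) (nat_lit 6362402385) (nat_lit 76) (nat_lit 19592675857) (nat_lit 20) (nat_lit 5) (nat_lit 22) (nat_lit 5) (nat_lit 21) (nat_lit 5) (nat_lit 319) (nat_lit 268) (nat_lit 193))) (XT.nd (nat_lit 78) (nat_lit 0) (nat_lit 0) (XT.lf (nat_lit 0) (nat_lit 4777841225) (nat_lit 152) (nat_lit 4208962853) (nat_lit 228) (nat_lit 22377185625) (nat_lit 18) (nat_lit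 5) (nat_lit 20) (nat_lit 5) (nat_lit 21) (nat_lit 5) (nat_lit 320) (nat_lit 268) (nat_lit 192)) (XT.lf (nat_lit 0) (nat_lit 14101003191) (nat_lit 228) (nat_lit 15955259822) (nat_lit 76) (nat_lit 2525757130) (nat_lit 18) (nat_lit 5) (nat_lit 21) (nat_lit 5) (nat_lit 19) (nat_lit 4) (nat_lit 321) (nat_lit 268) (nat_lit 191)))) (XT.nd (nat_lit 156) (nat_lit 228) (nat_lit 0) (XT.nd (nat_lit 78) (nat_lit 76) (nat_lit 0) (XT.lf (nat_lit 0) (nat_lit 19524773432) (nat_lit 228) (nat_lit 4887622567) (nat_lit 76) (nat_lit 9445879488) (nat_lit 18) (nat_lit 5) (nat_lit 21) (nat_lit 5) (nat_lit 19) (nat_lit 4) (nat_lit 322) (nat_lit 268) (nat_lit 190)) (XT.lf (nat_lit 0) (nat_lit 6930652676) (nat_lit 76) (nat_lit 18382869070) (nat_lit 152) (nat_lit 9880148035) (nat_lit 17) (nat_lit 5) (nat_lit 18) (nat_lit 5) (nat_lit 19) (nat_lit 4) (nat_lit 323) (nat_lit 268) (nat_lit 189))) (XT.nd (nat_lit 78)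 (nat_lit 228) (nat_lit 0) (XT.lf (nat_lit 0) (nat_lit 19485357119) (nat_lit 76) (nat_lit 11975016411) (nat_lit 152) (nat_lit 5132041871) (nat_lit 17) (nat_lit 5) (nat_lit 18) (nat_lit 5) (nat_lit 19) (nat_lit 4) (nat_lit 324) (nat_lit 268) (nat_lit 188)) (XT.nd (nat_lit 78) (nat_lit 228) (nat_lit 0) (XT.lf (nat_lit 0) (nat_lit 32644776038) (nat_lit 76) (nat_lit 5256355485) (nat_lit 152) (nat_lit 160652801) (nat_lit 17) (nat_lit 5) (nat_lit 18) (nat_lit 5) (nat_lit 19) (nat_lit 4) (nat_lit 325) (nat_lit 268) (nat_lit 187)) (XT.lf (nat_lit 0) (nat_lit 5024338574) (nat_lit 228) (nat_lit 32647322004) (nat_lit 76) (nat_lit 1922676389) (nat_lit 14) (nat_lit 5) (nat_lit 17) (nat_lit 5) (nat_lit 15) (nat_lit 4) (nat_lit 326) (nat_lit 268) (nat_lit 186)))))) (XT.nd (nat_lit 390) (nat_lit 152) (nat_lit 0) (XT.nd (nat_lit 156) (nat_lit 76) (nat_lit 0) (XT.nd (nat_lit 78) (nat_lit 0) (nat_lit 0)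 (XT.lf (nat_lit 0) (nat_lit 10629706193) (nat_lit 228) (nat_lit 21194443827) (nat_lit 76) (nat_lit 9370921526) (nat_lit 14) (nat_lit 5) (nat_lit 17) (nat_lit 5) (nat_lit 15) (nat_lit 4) (nat_lit 327) (nat_lit 268) (nat_lit 185)) (XT.lf (nat_lit 0) (nat_lit 16503068209) (nat_lit 228) (nat_lit 9190361642) (nat_lit 76) (nat_lit 17183038389) (nat_lit 14) (nat_lit 5) (nat_lit 17) (nat_lit 5) (nat_lit 15) (nat_lit 4) (nat_lit 328) (nat_lit 268) (nat_lit 184))) (XT.nd (nat_lit 78) (nat_lit 0) (nat_lit 0) (XT.lf (nat_lit 0) (nat_lit 3505710324) (nat_lit 76) (nat_lit 19207432454) (nat_lit 152) (nat_lit 21926650896) (nat_lit 13) (nat_lit 5) (nat_lit 14) (nat_lit 5) (nat_lit 15) (nat_lit 4) (nat_lit 329) (nat_lit 268) (nat_lit 183)) (XT.nd (nat_lit 78) (nat_lit 0) (nat_lit 0) (XT.lf (nat_lit 0) (nat_lit 17135564877) (nat_lit 76) (nat_lit 12242352897) (nat_lit 152) (nat_lit 17106168368) (nat_lit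 13) (nat_lit 5) (nat_lit 14) (nat_lit 5) (nat_lit 15) (nat_lit 4) (nat_lit 330) (nat_lit 268) (nat_lit 182)) (XT.lf (nat_lit 0) (nat_lit 31427779192) (nat_lit 76) (nat_lit 4937250881) (nat_lit 152) (nat_lit 12056118329) (nat_lit 13) (nat_lit 5) (nat_lit 14) (nat_lit 5) (nat_lit 15) (nat_lit 4) (nat_lit 331) (nat_lit 268) (nat_lit 181))))) (XT.nd (nat_lit 156) (nat_lit 76) (nat_lit 0) (XT.nd (nat_lit 78) (nat_lit 76) (nat_lit 0) (XT.lf (nat_lit 0) (nat_lit 43733664705) (nat_lit 152) (nat_lit 4081759206) (nat_lit 0) (nat_lit 2638041142) (nat_lit 13) (nat_lit 5) (nat_lit 15) (nat_lit 4) (nat_lit 13) (nat_lit 4) (nat_lit 332) (nat_lit 268) (nat_lit 180)) (XT.lf (nat_lit 0) (nat_lit 9686789366) (nat_lit 76) (nat_lit 42006113665) (nat_lit 76) (nat_lit 883395062) (nat_lit 12) (nat_lit 4) (nat_lit 13) (nat_lit 5) (nat_lit 13) (nat_lit 4) (nat_lit 333) (nat_lit 268) (nat_lit 179))) (XT.nd (nat_lit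 78) (nat_lit 0) (nat_lit 0) (XT.lf (nat_lit 0) (nat_lit 5137253220) (nat_lit 152) (nat_lit 30617154302) (nat_lit 76) (nat_lit 19043764740) (nat_lit 11) (nat_lit 5) (nat_lit 13) (nat_lit 5) (nat_lit 12) (nat_lit 4) (nat_lit 334) (nat_lit 268) (nat_lit 178)) (XT.nd (nat_lit 78) (nat_lit 0) (nat_lit 0) (XT.lf (nat_lit 0) (nat_lit 11419751071) (nat_lit 152) (nat_lit 17762609708) (nat_lit 76) (nat_lit 27948537924) (nat_lit 11) (nat_lit 5) (nat_lit 13) (nat_lit 5) (nat_lit 12) (nat_lit 4) (nat_lit 335) (nat_lit 268) (nat_lit 177)) (XT.lf (nat_lit 0) (nat_lit 18007330978) (nat_lit 152) (nat_lit 4281476613) (nat_lit 76) (nat_lit 37291913548) (nat_lit 11) (nat_lit 5) (nat_lit 13) (nat_lit 5) (nat_lit 12) (nat_lit 4) (nat_lit 336) (nat_lit 268) (nat_lit 176))))))) (XT.nd (nat_lit 780) (nat_lit 152) (nat_lit 0) (XT.nd (nat_lit 390) (nat_lit 76) (nat_lit 0) (XT.nd (nat_lit 156) (nat_lit 76) (nat_lit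 0) (XT.nd (nat_lit 78) (nat_lit 0) (nat_lit 0) (XT.lf (nat_lit 0) (nat_lit 10184304255) (nat_lit 76) (nat_lit 14890378930) (nat_lit 152) (nat_lit 37070839022) (nat_lit 10) (nat_lit 5) (nat_lit 11) (nat_lit 5) (nat_lit 12) (nat_lit 4) (nat_lit 337) (nat_lit 268) (nat_lit 175)) (XT.lf (nat_lit 0) (nat_lit 25506895055) (nat_lit 76) (nat_lit 7052578605) (nat_lit 152) (nat_lit 32275892967) (nat_lit 10) (nat_lit 5) (nat_lit 11) (nat_lit 5) (nat_lit 12) (nat_lit 4) (nat_lit 338) (nat_lit 268) (nat_lit 174))) (XT.nd (nat_lit 78) (nat_lit 76) (nat_lit 0) (XT.lf (nat_lit 0) (nat_lit 40428745884) (nat_lit 152) (nat_lit 26097177027) (nat_lit 0) (nat_lit 1133274754) (nat_lit 10) (nat_lit 5) (nat_lit 12) (nat_lit 4) (nat_lit 10) (nat_lit 4) (nat_lit 339) (nat_lit 268) (nat_lit 173)) (XT.nd (nat_lit 78) (nat_lit 76) (nat_lit 0) (XT.lf (nat_lit 0) (nat_lit 48799349390) (nat_lit 152) (nat_lit 12333944406)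 (nat_lit 0) (nat_lit 9485539270) (nat_lit 10) (nat_lit 5) (nat_lit 12) (nat_lit 4) (nat_lit 10) (nat_lit 4) (nat_lit 340) (nat_lit 268) (nat_lit 172)) (XT.lf (nat_lit 0) (nat_lit 2173677666) (nat_lit 76) (nat_lit 55441363204) (nat_lit 76) (nat_lit 16110087380) (nat_lit 9) (nat_lit 4) (nat_lit 10) (nat_lit 5) (nat_lit 10) (nat_lit 4) (nat_lit 341) (nat_lit 268) (nat_lit 171))))) (XT.nd (nat_lit 156) (nat_lit 76) (nat_lit 0) (XT.nd (nat_lit 78) (nat_lit 0) (nat_lit 0) (XT.lf (nat_lit 0) (nat_lit 17821759320) (nat_lit 76) (nat_lit 49251405953) (nat_lit 76) (nat_lit 9903496124) (nat_lit 9) (nat_lit 4) (nat_lit 10) (nat_lit 5) (nat_lit 10) (nat_lit 4) (nat_lit 342) (nat_lit 268) (nat_lit 170)) (XT.lf (nat_lit 0) (nat_lit 34239741988) (nat_lit 76) (nat_lit 42757565365) (nat_lit 76) (nat_lit 3393813627) (nat_lit 9) (nat_lit 4) (nat_lit 10) (nat_lit 5) (nat_lit 10) (nat_lit 4) (nat_lit 343)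 (nat_lit 268) (nat_lit 169))) (XT.nd (nat_lit 78) (nat_lit 0) (nat_lit 0) (XT.lf (nat_lit 0) (nat_lit 3324535206) (nat_lit 152) (nat_lit 32563542098) (nat_lit 76) (nat_lit 48085878288) (nat_lit 8) (nat_lit 5) (nat_lit 10) (nat_lit 5) (nat_lit 9) (nat_lit 4) (nat_lit 344) (nat_lit 268) (nat_lit 168)) (XT.nd (nat_lit 78) (nat_lit 0) (nat_lit 0) (XT.lf (nat_lit 0) (nat_lit 10258391850) (nat_lit 152) (nat_lit 18363505056) (nat_lit 76) (nat_lit 59111575599) (nat_lit 8) (nat_lit 5) (nat_lit 10) (nat_lit 5) (nat_lit 9) (nat_lit 4) (nat_lit 345) (nat_lit 268) (nat_lit 167)) (XT.lf (nat_lit 0) (nat_lit 17532888718) (nat_lit 152) (nat_lit 3464471312) (nat_lit 76) (nat_lit 70683912267) (nat_lit 8) (nat_lit 5) (nat_lit 10) (nat_lit 5) (nat_lit 9) (nat_lit 4) (nat_lit 346) (nat_lit 268) (nat_lit 166)))))) (XT.nd (nat_lit 390) (nat_lit 76) (nat_lit 0) (XT.nd (nat_lit 156) (nat_lit 0) (nat_lit 0)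 (XT.nd (nat_lit 78) (nat_lit 0) (nat_lit 0) (XT.lf (nat_lit 0) (nat_lit 12571396210) (nat_lit 76) (nat_lit 12790224557) (nat_lit 152) (nat_lit 70455319991) (nat_lit 7) (nat_lit 5) (nat_lit 8) (nat_lit 5) (nat_lit 9) (nat_lit 4) (nat_lit 347) (nat_lit 268) (nat_lit 165)) (XT.lf (nat_lit 0) (nat_lit 29519023684) (nat_lit 76) (nat_lit 4115787339) (nat_lit 152) (nat_lit 66521934533) (nat_lit 7) (nat_lit 5) (nat_lit 8) (nat_lit 5) (nat_lit 9) (nat_lit 4) (nat_lit 348) (nat_lit 268) (nat_lit 164))) (XT.nd (nat_lit 78) (nat_lit 0) (nat_lit 0) (XT.lf (nat_lit 0) (nat_lit 42394154594) (nat_lit 152) (nat_lit 57487477559) (nat_lit 0) (nat_lit 4828287555) (nat_lit 7) (nat_lit 5) (nat_lit 9) (nat_lit 4) (nat_lit 7) (nat_lit 4) (nat_lit 349) (nat_lit 268) (nat_lit 163)) (XT.nd (nat_lit 78) (nat_lit 0) (nat_lit 0) (XT.lf (nat_lit 0) (nat_lit 51653745731) (nat_lit 152) (nat_lit 43756740175) (nat_lit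 0) (nat_lit 14077156265) (nat_lit 7) (nat_lit 5) (nat_lit 9) (nat_lit 4) (nat_lit 7) (nat_lit 4) (nat_lit 350) (nat_lit 268) (nat_lit 162)) (XT.lf (nat_lit 0) (nat_lit 61371372106) (nat_lit 152) (nat_lit 29348558514) (nat_lit 0) (nat_lit 23784570804) (nat_lit 7) (nat_lit 5) (nat_lit 9) (nat_lit 4) (nat_lit 7) (nat_lit 4) (nat_lit 351) (nat_lit 268) (nat_lit 161))))) (XT.nd (nat_lit 156) (nat_lit 0) (nat_lit 0) (XT.nd (nat_lit 78) (nat_lit 76) (nat_lit 0) (XT.lf (nat_lit 0) (nat_lit 71570170924) (nat_lit 152) (nat_lit 14228627382) (nat_lit 0) (nat_lit 33973644064) (nat_lit 7) (nat_lit 5) (nat_lit 9) (nat_lit 4) (nat_lit 7) (nat_lit 4) (nat_lit 352) (nat_lit 268) (nat_lit 160)) (XT.lf (nat_lit 0) (nat_lit 1693247553) (nat_lit 76) (nat_lit 80607613825) (nat_lit 76) (nat_lit 43001824529) (nat_lit 6) (nat_lit 4) (nat_lit 7) (nat_lit 5) (nat_lit 7) (nat_lit 4) (nat_lit 353) (nat_lit 268)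 (nat_lit 159))) (XT.nd (nat_lit 78) (nat_lit 0) (nat_lit 0) (XT.lf (nat_lit 0) (nat_lit 18897087821) (nat_lit 76) (nat_lit 74907569451) (nat_lit 76) (nat_lit 37292958787) (nat_lit 6) (nat_lit 4) (nat_lit 7) (nat_lit 5) (nat_lit 7) (nat_lit 4) (nat_lit 354) (nat_lit 268) (nat_lit 158)) (XT.nd (nat_lit 78) (nat_lit 0) (nat_lit 0) (XT.lf (nat_lit 0) (nat_lit 36953392265) (nat_lit 76) (nat_lit 68926062337) (nat_lit 76) (nat_lit 31303050371) (nat_lit 6) (nat_lit 4) (nat_lit 7) (nat_lit 5) (nat_lit 7) (nat_lit 4) (nat_lit 355) (nat_lit 268) (nat_lit 157)) (XT.lf (nat_lit 0) (nat_lit 55905152086) (nat_lit 76) (nat_lit 62648850802) (nat_lit 76) (nat_lit 25017837595) (nat_lit 6) (nat_lit 4) (nat_lit 7) (nat_lit 5) (nat_lit 7) (nat_lit 4) (nat_lit 356) (nat_lit 268) (nat_lit 156))))))))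
noncomputable def xc133 : XT := (XT.nd (nat_lit 1482) (nat_lit 76) (nat_lit 0) (XT.nd (nat_lit 702) (nat_lit 0) (nat_lit 0) (XT.nd (nat_lit 312) (nat_lit 76) (nat_lit 0) (XT.nd (nat_lit 156) (nat_lit 76) (nat_lit 0) (XT.nd (nat_lit 78) (nat_lit 0) (nat_lit 0) (XT.lf (nat_lit 0) (nat_lit 75797490522) (nat_lit 76) (nat_lit 56060989102) (nat_lit 76) (nat_lit 18422355666) (nat_lit 6) (nat_lit 4) (nat_lit 7) (nat_lit 5) (nat_lit 7) (nat_lit 4) (nat_lit 357) (nat_lit 268) (nat_lit 155)) (XT.lf (nat_lit 0) (nat_lit 96677770284) (nat_lit 76) (nat_lit 49146791854) (nat_lit 76) (nat_lit 11500901057) (nat_lit 6) (nat_lit 4) (nat_lit 7) (nat_lit 5) (nat_lit 7) (nat_lit 4) (nat_lit 358) (nat_lit 268) (nat_lit 154))) (XT.nd (nat_lit 78) (nat_lit 76) (nat_lit 0) (XT.lf (nat_lit 0) (nat_lit 118595706324) (nat_lit 76) (nat_lit 41889796682) (nat_lit 76) (nat_lit 4236994112) (nat_lit 6) (nat_lit 4) (nat_lit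 7) (nat_lit 5) (nat_lit 7) (nat_lit 4) (nat_lit 359) (nat_lit 268) (nat_lit 153)) (XT.lf (nat_lit 0) (nat_lit 3278265906) (nat_lit 152) (nat_lit 30938940101) (nat_lit 76) (nat_lit 138269699276) (nat_lit 5) (nat_lit 5) (nat_lit 7) (nat_lit 5) (nat_lit 6) (nat_lit 4) (nat_lit 360) (nat_lit 268) (nat_lit 152)))) (XT.nd (nat_lit 156) (nat_lit 0) (nat_lit 0) (XT.nd (nat_lit 78) (nat_lit 76) (nat_lit 0) (XT.lf (nat_lit 0) (nat_lit 11023719438) (nat_lit 152) (nat_lit 15067029543) (nat_lit 76) (nat_lit 154545472883) (nat_lit 5) (nat_lit 5) (nat_lit 7) (nat_lit 5) (nat_lit 6) (nat_lit 4) (nat_lit 361) (nat_lit 268) (nat_lit 151)) (XT.lf (nat_lit 0) (nat_lit 1645550383) (nat_lit 76) (nat_lit 17533559579) (nat_lit 152) (nat_lit 170012763017) (nat_lit 4) (nat_lit 5) (nat_lit 5) (nat_lit 5) (nat_lit 6) (nat_lit 4) (nat_lit 362) (nat_lit 268) (nat_lit 150))) (XT.nd (nat_lit 78) (nat_lit 0) (nat_lit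 0) (XT.lf (nat_lit 0) (nat_lit 19711348727) (nat_lit 76) (nat_lit 8283119614) (nat_lit 152) (nat_lit 170168230222) (nat_lit 4) (nat_lit 5) (nat_lit 5) (nat_lit 5) (nat_lit 6) (nat_lit 4) (nat_lit 363) (nat_lit 268) (nat_lit 149)) (XT.nd (nat_lit 78) (nat_lit 0) (nat_lit 0) (XT.lf (nat_lit 0) (nat_lit 37270053074) (nat_lit 152) (nat_lit 168929299459) (nat_lit 0) (nat_lit 1381741715) (nat_lit 4) (nat_lit 5) (nat_lit 6) (nat_lit 4) (nat_lit 4) (nat_lit 4) (nat_lit 364) (nat_lit 268) (nat_lit 148)) (XT.lf (nat_lit 0) (nat_lit 47142476927) (nat_lit 152) (nat_lit 159072027956) (nat_lit 0) (nat_lit 11249253500) (nat_lit 4) (nat_lit 5) (nat_lit 6) (nat_lit 4) (nat_lit 4) (nat_lit 4) (nat_lit 365) (nat_lit 268) (nat_lit 147)))))) (XT.nd (nat_lit 390) (nat_lit 0) (nat_lit 0) (XT.nd (nat_lit 156) (nat_lit 0) (nat_lit 0) (XT.nd (nat_lit 78) (nat_lit 0) (nat_lit 0) (XT.lf (nat_lit 0) (nat_lit 57505922959)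 (nat_lit 152) (nat_lit 148726742923) (nat_lit 0) (nat_lit 21608021373) (nat_lit 4) (nat_lit 5) (nat_lit 6) (nat_lit 4) (nat_lit 4) (nat_lit 4) (nat_lit 366) (nat_lit 268) (nat_lit 146)) (XT.lf (nat_lit 0) (nat_lit 68385066044) (nat_lit 152) (nat_lit 137868812729) (nat_lit 0) (nat_lit 32482709067) (nat_lit 4) (nat_lit 5) (nat_lit 6) (nat_lit 4) (nat_lit 4) (nat_lit 4) (nat_lit 367) (nat_lit 268) (nat_lit 145))) (XT.nd (nat_lit 78) (nat_lit 0) (nat_lit 0) (XT.lf (nat_lit 0) (nat_lit 79805808902) (nat_lit 152) (nat_lit 126472385158) (nat_lit 0) (nat_lit 43899208696) (nat_lit 4) (nat_lit 5) (nat_lit 6) (nat_lit 4) (nat_lit 4) (nat_lit 4) (nat_lit 368) (nat_lit 268) (nat_lit 144)) (XT.nd (nat_lit 78) (nat_lit 0) (nat_lit 0) (XT.lf (nat_lit 0) (nat_lit 91795343778) (nat_lit 152) (nat_lit 114510325860) (nat_lit 0) (nat_lit 55884702402) (nat_lit 4) (nat_lit 5) (nat_lit 6) (nat_lit 4) (nat_lit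 4) (nat_lit 4) (nat_lit 369) (nat_lit 268) (nat_lit 143)) (XT.lf (nat_lit 0) (nat_lit 104382217184) (nat_lit 152) (nat_lit 101954153741) (nat_lit 0) (nat_lit 68467727075) (nat_lit 4) (nat_lit 5) (nat_lit 6) (nat_lit 4) (nat_lit 4) (nat_lit 4) (nat_lit 370) (nat_lit 268) (nat_lit 142))))) (XT.nd (nat_lit 156) (nat_lit 0) (nat_lit 0) (XT.nd (nat_lit 78) (nat_lit 0) (nat_lit 0) (XT.lf (nat_lit 0) (nat_lit 117596397866) (nat_lit 152) (nat_lit 88773973154) (nat_lit 0) (nat_lit 81678242296) (nat_lit 4) (nat_lit 5) (nat_lit 6) (nat_lit 4) (nat_lit 4) (nat_lit 4) (nat_lit 371) (nat_lit 268) (nat_lit 141)) (XT.lf (nat_lit 0) (nat_lit 131469348159) (nat_lit 152) (nat_lit 74938402715) (nat_lit 0) (nat_lit 95547701674) (nat_lit 4) (nat_lit 5) (nat_lit 6) (nat_lit 4) (nat_lit 4) (nat_lit 4) (nat_lit 372) (nat_lit 268) (nat_lit 140))) (XT.nd (nat_lit 78) (nat_lit 0) (nat_lit 0) (XT.lf (nat_lit 0)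 (nat_lit 146034098897) (nat_lit 152) (nat_lit 60414500590) (nat_lit 0) (nat_lit 110109127732) (nat_lit 4) (nat_lit 5) (nat_lit 6) (nat_lit 4) (nat_lit 4) (nat_lit 4) (nat_lit 373) (nat_lit 268) (nat_lit 139)) (XT.nd (nat_lit 78) (nat_lit 0) (nat_lit 0) (XT.lf (nat_lit 0) (nat_lit 161325328058) (nat_lit 152) (nat_lit 45167686061) (nat_lit 0) (nat_lit 125397190530) (nat_lit 4) (nat_lit 5) (nat_lit 6) (nat_lit 4) (nat_lit 4) (nat_lit 4) (nat_lit 374) (nat_lit 268) (nat_lit 138)) (XT.lf (nat_lit 0) (nat_lit 177379443331) (nat_lit 152) (nat_lit 29161657187) (nat_lit 0) (nat_lit 141448290220) (nat_lit 4) (nat_lit 5) (nat_lit 6) (nat_lit 4) (nat_lit 4) (nat_lit 4) (nat_lit 375) (nat_lit 268) (nat_lit 137))))))) (XT.nd (nat_lit 32292) (nat_lit 0) (nat_lit 6840) (XT.nd (nat_lit 390) (nat_lit 0) (nat_lit 0) (XT.nd (nat_lit 156) (nat_lit 0) (nat_lit 0) (XT.nd (nat_lit 78) (nat_lit 76) (nat_lit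 0) (XT.lf (nat_lit 0) (nat_lit 194234668799) (nat_lit 152) (nat_lit 12358304376) (nat_lit 0) (nat_lit 158300643703) (nat_lit 4) (nat_lit 5) (nat_lit 6) (nat_lit 4) (nat_lit 4) (nat_lit 4) (nat_lit 376) (nat_lit 268) (nat_lit 136)) (XT.lf (nat_lit 0) (nat_lit 5457039704) (nat_lit 76) (nat_lit 206559295931) (nat_lit 76) (nat_lit 170622535612) (nat_lit 3) (nat_lit 4) (nat_lit 4) (nat_lit 5) (nat_lit 4) (nat_lit 4) (nat_lit 377) (nat_lit 268) (nat_lit 135))) (XT.nd (nat_lit 78) (nat_lit 0) (nat_lit 0) (XT.lf (nat_lit 0) (nat_lit 24589413427) (nat_lit 76) (nat_lit 206305475463) (nat_lit 76) (nat_lit 170366110170) (nat_lit 3) (nat_lit 4) (nat_lit 4) (nat_lit 5) (nat_lit 4) (nat_lit 4) (nat_lit 378) (nat_lit 268) (nat_lit 134)) (XT.nd (nat_lit 78) (nat_lit 0) (nat_lit 0) (XT.lf (nat_lit 0) (nat_lit 44675748710) (nat_lit 76) (nat_lit 206040201301) (nat_lit 76) (nat_lit 170098355080) (nat_lit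 3) (nat_lit 4) (nat_lit 4) (nat_lit 5) (nat_lit 4) (nat_lit 4) (nat_lit 379) (nat_lit 268) (nat_lit 133)) (XT.lf (nat_lit 0) (nat_lit 65763870160) (nat_lit 76) (nat_lit 205762841841) (nat_lit 76) (nat_lit 169818632831) (nat_lit 3) (nat_lit 4) (nat_lit 4) (nat_lit 5) (nat_lit 4) (nat_lit 4) (nat_lit 380) (nat_lit 268) (nat_lit 132))))) (XT.nd (nat_lit 156) (nat_lit 0) (nat_lit 0) (XT.nd (nat_lit 78) (nat_lit 0) (nat_lit 0) (XT.lf (nat_lit 0) (nat_lit 87903987589) (nat_lit 76) (nat_lit 205472736702) (nat_lit 76) (nat_lit 169526277418) (nat_lit 3) (nat_lit 4) (nat_lit 4) (nat_lit 5) (nat_lit 4) (nat_lit 4) (nat_lit 381) (nat_lit 268) (nat_lit 131)) (XT.lf (nat_lit 0) (nat_lit 111148815564) (nat_lit 76) (nat_lit 205169195159) (nat_lit 76) (nat_lit 169220592756) (nat_lit 3) (nat_lit 4) (nat_lit 4) (nat_lit 5) (nat_lit 4) (nat_lit 4) (nat_lit 382) (nat_lit 268) (nat_lit 130))) (XT.nd (nat_lit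 78) (nat_lit 0) (nat_lit 0) (XT.lf (nat_lit 0) (nat_lit 135553698913) (nat_lit 76) (nat_lit 204851494494) (nat_lit 76) (nat_lit 168900851025) (nat_lit 3) (nat_lit 4) (nat_lit 4) (nat_lit 5) (nat_lit 4) (nat_lit 4) (nat_lit 383) (nat_lit 268) (nat_lit 129)) (XT.nd (nat_lit 78) (nat_lit 0) (nat_lit 0) (XT.lf (nat_lit 0) (nat_lit 161176744501) (nat_lit 76) (nat_lit 204518878275) (nat_lit 76) (nat_lit 168566290935) (nat_lit 3) (nat_lit 4) (nat_lit 4) (nat_lit 5) (nat_lit 4) (nat_lit 4) (nat_lit 384) (nat_lit 268) (nat_lit 128)) (XT.lf (nat_lit 0) (nat_lit 188078959578) (nat_lit 76) (nat_lit 204170554560) (nat_lit 76) (nat_lit 168216115913) (nat_lit 3) (nat_lit 4) (nat_lit 4) (nat_lit 5) (nat_lit 4) (nat_lit 4) (nat_lit 385) (nat_lit 268) (nat_lit 127)))))) (XT.nd (nat_lit 390) (nat_lit 456) (nat_lit 0) (XT.nd (nat_lit 156) (nat_lit 532) (nat_lit 0) (XT.nd (nat_lit 78) (nat_lit 0) (nat_lit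 0) (XT.lf (nat_lit 0) (nat_lit 2550327904) (nat_lit 532) (nat_lit 575787480) (nat_lit 532) (nat_lit 575787480) (nat_lit 106) (nat_lit 3) (nat_lit 113) (nat_lit 3) (nat_lit 113) (nat_lit 5) (nat_lit 269) (nat_lit 269) (nat_lit 242)) (XT.lf (nat_lit 76) (nat_lit 2245130658) (nat_lit 0) (nat_lit 4388078298) (nat_lit 532) (nat_lit 880870574) (nat_lit 107) (nat_lit 5) (nat_lit 106) (nat_lit 3) (nat_lit 113) (nat_lit 5) (nat_lit 270) (nat_lit 269) (nat_lit 241))) (XT.nd (nat_lit 78) (nat_lit 0) (nat_lit 0) (XT.lf (nat_lit 0) (nat_lit 522566349) (nat_lit 532) (nat_lit 1838097143) (nat_lit 608) (nat_lit 5272521539) (nat_lit 99) (nat_lit 5) (nat_lit 106) (nat_lit 3) (nat_lit 107) (nat_lit 5) (nat_lit 271) (nat_lit 269) (nat_lit 240)) (XT.nd (nat_lit 78) (nat_lit 0) (nat_lit 76) (XT.lf (nat_lit 76) (nat_lit 1757563021) (nat_lit 0) (nat_lit 150569528) (nat_lit 608) (nat_lit 5852578521) (nat_lit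 100) (nat_lit 5) (nat_lit 99) (nat_lit 5) (nat_lit 107) (nat_lit 5) (nat_lit 272) (nat_lit 269) (nat_lit 239)) (XT.lf (nat_lit 0) (nat_lit 3346503344) (nat_lit 532) (nat_lit 2383312749) (nat_lit 608) (nat_lit 2165873680) (nat_lit 100) (nat_lit 5) (nat_lit 107) (nat_lit 5) (nat_lit 108) (nat_lit 5) (nat_lit 273) (nat_lit 269) (nat_lit 238))))) (XT.nd (nat_lit 156) (nat_lit 532) (nat_lit 0) (XT.nd (nat_lit 78) (nat_lit 0) (nat_lit 0) (XT.lf (nat_lit 76) (nat_lit 1409997528) (nat_lit 0) (nat_lit 3393188631) (nat_lit 608) (nat_lit 3237152223) (nat_lit 101) (nat_lit 5) (nat_lit 100) (nat_lit 5) (nat_lit 108) (nat_lit 5) (nat_lit 274) (nat_lit 269) (nat_lit 237)) (XT.lf (nat_lit 76) (nat_lit 5426348705) (nat_lit 0) (nat_lit 871575829) (nat_lit 608) (nat_lit 1896263003) (nat_lit 101) (nat_lit 5) (nat_lit 100) (nat_lit 5) (nat_lit 108) (nat_lit 5) (nat_lit 275) (nat_lit 269) (nat_lit 236)))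 (XT.nd (nat_lit 78) (nat_lit 608) (nat_lit 0) (XT.lf (nat_lit 76) (nat_lit 1248831882) (nat_lit 0) (nat_lit 6594616128) (nat_lit 608) (nat_lit 513697001) (nat_lit 102) (nat_lit 5) (nat_lit 101) (nat_lit 5) (nat_lit 109) (nat_lit 5) (nat_lit 276) (nat_lit 269) (nat_lit 235)) (XT.nd (nat_lit 78) (nat_lit 0) (nat_lit 0) (XT.lf (nat_lit 0) (nat_lit 900004677) (nat_lit 608) (nat_lit 3046058872) (nat_lit 684) (nat_lit 4582051094) (nat_lit 93) (nat_lit 5) (nat_lit 101) (nat_lit 5) (nat_lit 102) (nat_lit 5) (nat_lit 277) (nat_lit 269) (nat_lit 234)) (XT.lf (nat_lit 76) (nat_lit 1198896967) (nat_lit 0) (nat_lit 1120375591) (nat_lit 684) (nat_lit 6390520452) (nat_lit 94) (nat_lit 5) (nat_lit 93) (nat_lit 5) (nat_lit 102) (nat_lit 5) (nat_lit 278) (nat_lit 269) (nat_lit 233))))))))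
noncomputable def xc134 : XT := (XT.nd (nat_lit 1482) (nat_lit 1824) (nat_lit 0) (XT.nd (nat_lit 702) (nat_lit 1520) (nat_lit 0) (XT.nd (nat_lit 312) (nat_lit 836) (nat_lit 0) (XT.nd (nat_lit 156) (nat_lit 684) (nat_lit 0) (XT.nd (nat_lit 78) (nat_lit 608) (nat_lit 0) (XT.lf (nat_lit 0) (nat_lit 3826818034) (nat_lit 608) (nat_lit 3218965870) (nat_lit 76) (nat_lit 1854085254) (nat_lit 94) (nat_lit 5) (nat_lit 102) (nat_lit 5) (nat_lit 95) (nat_lit 5) (nat_lit 279) (nat_lit 269) (nat_lit 232)) (XT.lf (nat_lit 0) (nat_lit 1258850254) (nat_lit 608) (nat_lit 4128008176) (nat_lit 684) (nat_lit 3713905821) (nat_lit 86) (nat_lit 5) (nat_lit 94) (nat_lit 5) (nat_lit 95) (nat_lit 5) (nat_lit 280) (nat_lit 269) (nat_lit 231))) (XT.nd (nat_lit 78) (nat_lit 684) (nat_lit 0) (XT.lf (nat_lit 0) (nat_lit 6022494289) (nat_lit 608) (nat_lit 998140317) (nat_lit 684) (nat_lit 2291445685) (nat_lit 86) (nat_lit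 5) (nat_lit 94) (nat_lit 5) (nat_lit 95) (nat_lit 5) (nat_lit 281) (nat_lit 269) (nat_lit 230)) (XT.lf (nat_lit 0) (nat_lit 1450525403) (nat_lit 684) (nat_lit 7288097877) (nat_lit 760) (nat_lit 795367790) (nat_lit 77) (nat_lit 5) (nat_lit 86) (nat_lit 5) (nat_lit 87) (nat_lit 5) (nat_lit 282) (nat_lit 269) (nat_lit 229)))) (XT.nd (nat_lit 156) (nat_lit 380) (nat_lit 0) (XT.nd (nat_lit 78) (nat_lit 380) (nat_lit 0) (XT.lf (nat_lit 0) (nat_lit 768686596) (nat_lit 760) (nat_lit 3303423953) (nat_lit 76) (nat_lit 5693522447) (nat_lit 76) (nat_lit 5) (nat_lit 86) (nat_lit 5) (nat_lit 77) (nat_lit 5) (nat_lit 283) (nat_lit 269) (nat_lit 228)) (XT.lf (nat_lit 0) (nat_lit 1708032266) (nat_lit 380) (nat_lit 650474663) (nat_lit 456) (nat_lit 7651117508) (nat_lit 71) (nat_lit 5) (nat_lit 76) (nat_lit 5) (nat_lit 77) (nat_lit 5) (nat_lit 284) (nat_lit 269) (nat_lit 227))) (XT.nd (nat_lit 78) (nat_lit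 380) (nat_lit 0) (XT.lf (nat_lit 0) (nat_lit 4080015352) (nat_lit 456) (nat_lit 3276239919) (nat_lit 76) (nat_lit 2907077946) (nat_lit 71) (nat_lit 5) (nat_lit 77) (nat_lit 5) (nat_lit 72) (nat_lit 5) (nat_lit 285) (nat_lit 269) (nat_lit 226)) (XT.nd (nat_lit 78) (nat_lit 0) (nat_lit 0) (XT.lf (nat_lit 0) (nat_lit 2005213251) (nat_lit 380) (nat_lit 3876164268) (nat_lit 456) (nat_lit 4648782541) (nat_lit 66) (nat_lit 5) (nat_lit 71) (nat_lit 5) (nat_lit 72) (nat_lit 5) (nat_lit 286) (nat_lit 269) (nat_lit 225)) (XT.lf (nat_lit 0) (nat_lit 7616585412) (nat_lit 380) (nat_lit 165061952) (nat_lit 456) (nat_lit 3028354658) (nat_lit 66) (nat_lit 5) (nat_lit 71) (nat_lit 5) (nat_lit 72) (nat_lit 5) (nat_lit 287) (nat_lit 269) (nat_lit 224)))))) (XT.nd (nat_lit 390) (nat_lit 608) (nat_lit 0) (XT.nd (nat_lit 156) (nat_lit 532) (nat_lit 0) (XT.nd (nat_lit 78) (nat_lit 76) (nat_lit 0) (XT.lf (nat_lit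 0) (nat_lit 2374498914) (nat_lit 304) (nat_lit 7453322473) (nat_lit 380) (nat_lit 1273580403) (nat_lit 62) (nat_lit 5) (nat_lit 66) (nat_lit 5) (nat_lit 67) (nat_lit 5) (nat_lit 288) (nat_lit 269) (nat_lit 223)) (XT.lf (nat_lit 0) (nat_lit 564527685) (nat_lit 380) (nat_lit 3134170969) (nat_lit 76) (nat_lit 7707638527) (nat_lit 61) (nat_lit 5) (nat_lit 66) (nat_lit 5) (nat_lit 62) (nat_lit 5) (nat_lit 289) (nat_lit 269) (nat_lit 222))) (XT.nd (nat_lit 78) (nat_lit 228) (nat_lit 0) (XT.lf (nat_lit 0) (nat_lit 2457819785) (nat_lit 380) (nat_lit 8971041654) (nat_lit 76) (nat_lit 296405253) (nat_lit 57) (nat_lit 5) (nat_lit 62) (nat_lit 5) (nat_lit 58) (nat_lit 5) (nat_lit 290) (nat_lit 269) (nat_lit 221)) (XT.nd (nat_lit 78) (nat_lit 228) (nat_lit 0) (XT.lf (nat_lit 0) (nat_lit 4519775566) (nat_lit 380) (nat_lit 3120816067) (nat_lit 76) (nat_lit 4415941788) (nat_lit 57) (nat_lit 5) (nat_lit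 62) (nat_lit 5) (nat_lit 58) (nat_lit 5) (nat_lit 291) (nat_lit 269) (nat_lit 220)) (XT.lf (nat_lit 0) (nat_lit 3074933134) (nat_lit 228) (nat_lit 3619252731) (nat_lit 304) (nat_lit 5709796163) (nat_lit 54) (nat_lit 5) (nat_lit 57) (nat_lit 5) (nat_lit 58) (nat_lit 5) (nat_lit 292) (nat_lit 269) (nat_lit 219))))) (XT.nd (nat_lit 156) (nat_lit 304) (nat_lit 0) (XT.nd (nat_lit 78) (nat_lit 304) (nat_lit 0) (XT.lf (nat_lit 0) (nat_lit 9002832206) (nat_lit 304) (nat_lit 3134144534) (nat_lit 76) (nat_lit 630632814) (nat_lit 54) (nat_lit 5) (nat_lit 58) (nat_lit 5) (nat_lit 55) (nat_lit 5) (nat_lit 293) (nat_lit 269) (nat_lit 218)) (XT.lf (nat_lit 0) (nat_lit 3374887426) (nat_lit 304) (nat_lit 8128217992) (nat_lit 380) (nat_lit 1642581657) (nat_lit 50) (nat_lit 5) (nat_lit 54) (nat_lit 5) (nat_lit 55) (nat_lit 5) (nat_lit 294) (nat_lit 269) (nat_lit 217))) (XT.nd (nat_lit 78) (nat_lit 228)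 (nat_lit 0) (XT.lf (nat_lit 0) (nat_lit 585479307) (nat_lit 380) (nat_lit 3276679663) (nat_lit 76) (nat_lit 9679198210) (nat_lit 49) (nat_lit 5) (nat_lit 54) (nat_lit 5) (nat_lit 50) (nat_lit 5) (nat_lit 295) (nat_lit 269) (nat_lit 216)) (XT.nd (nat_lit 78) (nat_lit 0) (nat_lit 0) (XT.lf (nat_lit 0) (nat_lit 2902848373) (nat_lit 304) (nat_lit 10377936632) (nat_lit 76) (nat_lit 673091759) (nat_lit 46) (nat_lit 5) (nat_lit 50) (nat_lit 5) (nat_lit 47) (nat_lit 5) (nat_lit 296) (nat_lit 269) (nat_lit 215)) (XT.lf (nat_lit 0) (nat_lit 5422851669) (nat_lit 304) (nat_lit 3607090880) (nat_lit 76) (nat_lit 5352805944) (nat_lit 46) (nat_lit 5) (nat_lit 50) (nat_lit 5) (nat_lit 47) (nat_lit 5) (nat_lit 297) (nat_lit 269) (nat_lit 214))))))) (XT.nd (nat_lit 780) (nat_lit 684) (nat_lit 0) (XT.nd (nat_lit 390) (nat_lit 456) (nat_lit 0) (XT.nd (nat_lit 156) (nat_lit 456) (nat_lit 0) (XT.nd (nat_lit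 78) (nat_lit 0) (nat_lit 0) (XT.lf (nat_lit 0) (nat_lit 3575232441) (nat_lit 228) (nat_lit 4518060976) (nat_lit 304) (nat_lit 6738609865) (nat_lit 43) (nat_lit 5) (nat_lit 46) (nat_lit 5) (nat_lit 47) (nat_lit 5) (nat_lit 298) (nat_lit 269) (nat_lit 213)) (XT.lf (nat_lit 0) (nat_lit 10932087204) (nat_lit 304) (nat_lit 4105235619) (nat_lit 76) (nat_lit 264509953) (nat_lit 43) (nat_lit 5) (nat_lit 47) (nat_lit 5) (nat_lit 44) (nat_lit 5) (nat_lit 299) (nat_lit 269) (nat_lit 212))) (XT.nd (nat_lit 78) (nat_lit 304) (nat_lit 0) (XT.lf (nat_lit 0) (nat_lit 3398232241) (nat_lit 152) (nat_lit 10612487134) (nat_lit 228) (nat_lit 1779700115) (nat_lit 41) (nat_lit 5) (nat_lit 43) (nat_lit 5) (nat_lit 44) (nat_lit 5) (nat_lit 300) (nat_lit 269) (nat_lit 211)) (XT.nd (nat_lit 78) (nat_lit 228) (nat_lit 0) (XT.lf (nat_lit 0) (nat_lit 951462504) (nat_lit 228) (nat_lit 4936971254) (nat_lit 76) (nat_lit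 10412233807) (nat_lit 40) (nat_lit 5) (nat_lit 43) (nat_lit 5) (nat_lit 41) (nat_lit 5) (nat_lit 301) (nat_lit 269) (nat_lit 210)) (XT.lf (nat_lit 0) (nat_lit 2916513408) (nat_lit 228) (nat_lit 860806621) (nat_lit 304) (nat_lit 13056800025) (nat_lit 37) (nat_lit 5) (nat_lit 40) (nat_lit 5) (nat_lit 41) (nat_lit 5) (nat_lit 302) (nat_lit 269) (nat_lit 209))))) (XT.nd (nat_lit 156) (nat_lit 304) (nat_lit 0) (XT.nd (nat_lit 78) (nat_lit 152) (nat_lit 0) (XT.lf (nat_lit 0) (nat_lit 6871388442) (nat_lit 304) (nat_lit 6165597634) (nat_lit 76) (nat_lit 4350959000) (nat_lit 37) (nat_lit 5) (nat_lit 41) (nat_lit 5) (nat_lit 38) (nat_lit 5) (nat_lit 303) (nat_lit 269) (nat_lit 208)) (XT.lf (nat_lit 0) (nat_lit 1986081941) (nat_lit 152) (nat_lit 8153442835) (nat_lit 228) (nat_lit 7829011973) (nat_lit 35) (nat_lit 5) (nat_lit 37) (nat_lit 5) (nat_lit 38) (nat_lit 5) (nat_lit 304) (nat_lit 269)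 (nat_lit 207))) (XT.nd (nat_lit 78) (nat_lit 304) (nat_lit 0) (XT.lf (nat_lit 0) (nat_lit 10722618784) (nat_lit 152) (nat_lit 2927763308) (nat_lit 228) (nat_lit 4923851755) (nat_lit 35) (nat_lit 5) (nat_lit 37) (nat_lit 5) (nat_lit 38) (nat_lit 5) (nat_lit 305) (nat_lit 269) (nat_lit 206)) (XT.nd (nat_lit 78) (nat_lit 76) (nat_lit 0) (XT.lf (nat_lit 0) (nat_lit 629878320) (nat_lit 228) (nat_lit 16732612922) (nat_lit 304) (nat_lit 1846478680) (nat_lit 32) (nat_lit 5) (nat_lit 35) (nat_lit 5) (nat_lit 36) (nat_lit 5) (nat_lit 306) (nat_lit 269) (nat_lit 205)) (XT.lf (nat_lit 0) (nat_lit 1499678147) (nat_lit 304) (nat_lit 10168889997) (nat_lit 76) (nat_lit 8197867739) (nat_lit 31) (nat_lit 5) (nat_lit 35) (nat_lit 5) (nat_lit 32) (nat_lit 5) (nat_lit 307) (nat_lit 269) (nat_lit 204)))))) (XT.nd (nat_lit 390) (nat_lit 380) (nat_lit 0) (XT.nd (nat_lit 156) (nat_lit 152) (nat_lit 0) (XT.nd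 (nat_lit 78) (nat_lit 152) (nat_lit 0) (XT.lf (nat_lit 0) (nat_lit 4928316924) (nat_lit 304) (nat_lit 1403054604) (nat_lit 76) (nat_lit 14225062894) (nat_lit 31) (nat_lit 5) (nat_lit 35) (nat_lit 5) (nat_lit 32) (nat_lit 5) (nat_lit 308) (nat_lit 269) (nat_lit 203)) (XT.lf (nat_lit 0) (nat_lit 8024963262) (nat_lit 152) (nat_lit 607028830) (nat_lit 228) (nat_lit 12643793129) (nat_lit 29) (nat_lit 5) (nat_lit 31) (nat_lit 5) (nat_lit 32) (nat_lit 5) (nat_lit 309) (nat_lit 269) (nat_lit 202))) (XT.nd (nat_lit 78) (nat_lit 152) (nat_lit 0) (XT.lf (nat_lit 0) (nat_lit 12608029099) (nat_lit 228) (nat_lit 4174916209) (nat_lit 76) (nat_lit 5243830352) (nat_lit 29) (nat_lit 5) (nat_lit 32) (nat_lit 5) (nat_lit 30) (nat_lit 5) (nat_lit 310) (nat_lit 269) (nat_lit 201)) (XT.nd (nat_lit 78) (nat_lit 0) (nat_lit 0) (XT.lf (nat_lit 0) (nat_lit 5488755775) (nat_lit 152) (nat_lit 11369437263) (nat_lit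 228) (nat_lit 5953385856) (nat_lit 27) (nat_lit 5) (nat_lit 29) (nat_lit 5) (nat_lit 30) (nat_lit 5) (nat_lit 311) (nat_lit 269) (nat_lit 200)) (XT.lf (nat_lit 0) (nat_lit 15749314931) (nat_lit 152) (nat_lit 5622413326) (nat_lit 228) (nat_lit 2261379002) (nat_lit 27) (nat_lit 5) (nat_lit 29) (nat_lit 5) (nat_lit 30) (nat_lit 5) (nat_lit 312) (nat_lit 269) (nat_lit 199))))) (XT.nd (nat_lit 156) (nat_lit 152) (nat_lit 0) (XT.nd (nat_lit 78) (nat_lit 0) (nat_lit 0) (XT.lf (nat_lit 0) (nat_lit 1583290108) (nat_lit 228) (nat_lit 22464293789) (nat_lit 76) (nat_lit 445904775) (nat_lit 24) (nat_lit 5) (nat_lit 27) (nat_lit 5) (nat_lit 25) (nat_lit 5) (nat_lit 313) (nat_lit 269) (nat_lit 198)) (XT.lf (nat_lit 0) (nat_lit 5753113514) (nat_lit 228) (nat_lit 12840818586) (nat_lit 76) (nat_lit 6790681860) (nat_lit 24) (nat_lit 5) (nat_lit 27) (nat_lit 5) (nat_lit 25) (nat_lit 5) (nat_lit 314) (nat_lit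 269) (nat_lit 197))) (XT.nd (nat_lit 78) (nat_lit 152) (nat_lit 0) (XT.lf (nat_lit 0) (nat_lit 10113373488) (nat_lit 228) (nat_lit 2765419970) (nat_lit 76) (nat_lit 13442427920) (nat_lit 24) (nat_lit 5) (nat_lit 27) (nat_lit 5) (nat_lit 25) (nat_lit 5) (nat_lit 315) (nat_lit 269) (nat_lit 196)) (XT.nd (nat_lit 78) (nat_lit 0) (nat_lit 0) (XT.lf (nat_lit 0) (nat_lit 8043327824) (nat_lit 152) (nat_lit 6756702668) (nat_lit 228) (nat_lit 12499231507) (nat_lit 22) (nat_lit 5) (nat_lit 24) (nat_lit 5) (nat_lit 25) (nat_lit 5) (nat_lit 316) (nat_lit 269) (nat_lit 195)) (XT.lf (nat_lit 0) (nat_lit 19461113987) (nat_lit 152) (nat_lit 289936112) (nat_lit 228) (nat_lit 8573674051) (nat_lit 22) (nat_lit 5) (nat_lit 24) (nat_lit 5) (nat_lit 25) (nat_lit 5) (nat_lit 317) (nat_lit 269) (nat_lit 194))))))))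
noncomputable def xc135 : XT := (XT.nd (nat_lit 1560) (nat_lit 380) (nat_lit 0) (XT.nd (nat_lit 780) (nat_lit 228) (nat_lit 0) (XT.nd (nat_lit 390) (nat_lit 304) (nat_lit 0) (XT.nd (nat_lit 156) (nat_lit 152) (nat_lit 0) (XT.nd (nat_lit 78) (nat_lit 76) (nat_lit 0) (XT.lf (nat_lit 0) (nat_lit 1983565163) (nat_lit 76) (nat_lit 23082348924) (nat_lit 152) (nat_lit 4329750637) (nat_lit 21) (nat_lit 5) (nat_lit 22) (nat_lit 5) (nat_lit 23) (nat_lit 4) (nat_lit 318) (nat_lit 269) (nat_lit 193)) (XT.lf (nat_lit 0) (nat_lit 263567238) (nat_lit 152) (nat_lit 16867893527) (nat_lit 76) (nat_lit 13381548895) (nat_lit 20) (nat_lit 5) (nat_lit 22) (nat_lit 5) (nat_lit 21) (nat_lit 5) (nat_lit 319) (nat_lit 269) (nat_lit 192))) (XT.nd (nat_lit 78) (nat_lit 152) (nat_lit 0) (XT.lf (nat_lit 0) (nat_lit 4925728230) (nat_lit 152) (nat_lit 5893060164) (nat_lit 76) (nat_lit 20864667477) (nat_lit 20) (nat_lit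 5) (nat_lit 22) (nat_lit 5) (nat_lit 21) (nat_lit 5) (nat_lit 320) (nat_lit 269) (nat_lit 191)) (XT.nd (nat_lit 78) (nat_lit 0) (nat_lit 0) (XT.lf (nat_lit 0) (nat_lit 5791494621) (nat_lit 152) (nat_lit 4105338621) (nat_lit 228) (nat_lit 23011815793) (nat_lit 18) (nat_lit 5) (nat_lit 20) (nat_lit 5) (nat_lit 21) (nat_lit 5) (nat_lit 321) (nat_lit 269) (nat_lit 190)) (XT.lf (nat_lit 0) (nat_lit 15249474789) (nat_lit 228) (nat_lit 15997405730) (nat_lit 76) (nat_lit 2941587935) (nat_lit 18) (nat_lit 5) (nat_lit 21) (nat_lit 5) (nat_lit 19) (nat_lit 4) (nat_lit 322) (nat_lit 269) (nat_lit 189))))) (XT.nd (nat_lit 156) (nat_lit 228) (nat_lit 0) (XT.nd (nat_lit 78) (nat_lit 76) (nat_lit 0) (XT.lf (nat_lit 0) (nat_lit 20923318236) (nat_lit 228) (nat_lit 4412368379) (nat_lit 76) (nat_lit 10193928652) (nat_lit 18) (nat_lit 5) (nat_lit 21) (nat_lit 5) (nat_lit 19) (nat_lit 4) (nat_lit 323) (nat_lit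 269) (nat_lit 188)) (XT.lf (nat_lit 0) (nat_lit 7985213605) (nat_lit 76) (nat_lit 19007234850) (nat_lit 152) (nat_lit 9939805437) (nat_lit 17) (nat_lit 5) (nat_lit 18) (nat_lit 5) (nat_lit 19) (nat_lit 4) (nat_lit 324) (nat_lit 269) (nat_lit 187))) (XT.nd (nat_lit 78) (nat_lit 228) (nat_lit 0) (XT.lf (nat_lit 0) (nat_lit 21133937637) (nat_lit 76) (nat_lit 12293026591) (nat_lit 152) (nat_lit 4974977298) (nat_lit 17) (nat_lit 5) (nat_lit 18) (nat_lit 5) (nat_lit 19) (nat_lit 4) (nat_lit 325) (nat_lit 269) (nat_lit 186)) (XT.nd (nat_lit 78) (nat_lit 152) (nat_lit 0) (XT.lf (nat_lit 0) (nat_lit 218072355) (nat_lit 152) (nat_lit 5030035704) (nat_lit 76) (nat_lit 34697451859) (nat_lit 16) (nat_lit 5) (nat_lit 18) (nat_lit 5) (nat_lit 17) (nat_lit 5) (nat_lit 326) (nat_lit 269) (nat_lit 185)) (XT.lf (nat_lit 0) (nat_lit 5653055388) (nat_lit 228) (nat_lit 33620280442) (nat_lit 76) (nat_lit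 2281483596) (nat_lit 14) (nat_lit 5) (nat_lit 17) (nat_lit 5) (nat_lit 15) (nat_lit 4) (nat_lit 327) (nat_lit 269) (nat_lit 184)))))) (XT.nd (nat_lit 390) (nat_lit 152) (nat_lit 0) (XT.nd (nat_lit 156) (nat_lit 76) (nat_lit 0) (XT.nd (nat_lit 78) (nat_lit 0) (nat_lit 0) (XT.lf (nat_lit 0) (nat_lit 11520715204) (nat_lit 228) (nat_lit 21626158721) (nat_lit 76) (nat_lit 10089632733) (nat_lit 14) (nat_lit 5) (nat_lit 17) (nat_lit 5) (nat_lit 15) (nat_lit 4) (nat_lit 328) (nat_lit 269) (nat_lit 183)) (XT.lf (nat_lit 0) (nat_lit 17670625144) (nat_lit 228) (nat_lit 9051777536) (nat_lit 76) (nat_lit 18280442814) (nat_lit 14) (nat_lit 5) (nat_lit 17) (nat_lit 5) (nat_lit 15) (nat_lit 4) (nat_lit 329) (nat_lit 269) (nat_lit 182))) (XT.nd (nat_lit 78) (nat_lit 0) (nat_lit 0) (XT.lf (nat_lit 0) (nat_lit 4269451218) (nat_lit 76) (nat_lit 19914634731) (nat_lit 152) (nat_lit 22670622648) (nat_lit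 13) (nat_lit 5) (nat_lit 14) (nat_lit 5) (nat_lit 15) (nat_lit 4) (nat_lit 330) (nat_lit 269) (nat_lit 181)) (XT.nd (nat_lit 78) (nat_lit 0) (nat_lit 0) (XT.lf (nat_lit 0) (nat_lit 18552776815) (nat_lit 76) (nat_lit 12613356880) (nat_lit 152) (nat_lit 17625895079) (nat_lit 13) (nat_lit 5) (nat_lit 14) (nat_lit 5) (nat_lit 15) (nat_lit 4) (nat_lit 331) (nat_lit 269) (nat_lit 180)) (XT.lf (nat_lit 0) (nat_lit 33532914527) (nat_lit 76) (nat_lit 4954481365) (nat_lit 152) (nat_lit 12339322620) (nat_lit 13) (nat_lit 5) (nat_lit 14) (nat_lit 5) (nat_lit 15) (nat_lit 4) (nat_lit 332) (nat_lit 269) (nat_lit 179))))) (XT.nd (nat_lit 156) (nat_lit 76) (nat_lit 0) (XT.nd (nat_lit 78) (nat_lit 76) (nat_lit 0) (XT.lf (nat_lit 0) (nat_lit 46213395098) (nat_lit 152) (nat_lit 3766181942) (nat_lit 0) (nat_lit 2981640723) (nat_lit 13) (nat_lit 5) (nat_lit 15) (nat_lit 4) (nat_lit 13) (nat_lit 4) (nat_lit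 333) (nat_lit 269) (nat_lit 178)) (XT.lf (nat_lit 0) (nat_lit 10682412361) (nat_lit 76) (nat_lit 43882210921) (nat_lit 76) (nat_lit 625880546) (nat_lit 12) (nat_lit 4) (nat_lit 13) (nat_lit 5) (nat_lit 13) (nat_lit 4) (nat_lit 334) (nat_lit 269) (nat_lit 177))) (XT.nd (nat_lit 78) (nat_lit 0) (nat_lit 0) (XT.lf (nat_lit 0) (nat_lit 5672238251) (nat_lit 152) (nat_lit 31651647675) (nat_lit 76) (nat_lit 20200057162) (nat_lit 11) (nat_lit 5) (nat_lit 13) (nat_lit 5) (nat_lit 12) (nat_lit 4) (nat_lit 335) (nat_lit 269) (nat_lit 176)) (XT.nd (nat_lit 78) (nat_lit 0) (nat_lit 0) (XT.lf (nat_lit 0) (nat_lit 12255617072) (nat_lit 152) (nat_lit 18178012248) (nat_lit 76) (nat_lit 29540349758) (nat_lit 11) (nat_lit 5) (nat_lit 13) (nat_lit 5) (nat_lit 12) (nat_lit 4) (nat_lit 336) (nat_lit 269) (nat_lit 175)) (XT.lf (nat_lit 0) (nat_lit 19159962715) (nat_lit 152) (nat_lit 4045333353) (nat_lit 76)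 (nat_lit 39341637739) (nat_lit 11) (nat_lit 5) (nat_lit 13) (nat_lit 5) (nat_lit 12) (nat_lit 4) (nat_lit 337) (nat_lit 269) (nat_lit 174))))))) (XT.nd (nat_lit 780) (nat_lit 152) (nat_lit 0) (XT.nd (nat_lit 390) (nat_lit 76) (nat_lit 0) (XT.nd (nat_lit 156) (nat_lit 76) (nat_lit 0) (XT.nd (nat_lit 78) (nat_lit 0) (nat_lit 0) (XT.lf (nat_lit 0) (nat_lit 11136474993) (nat_lit 76) (nat_lit 15439110689) (nat_lit 152) (nat_lit 38664654094) (nat_lit 10) (nat_lit 5) (nat_lit 11) (nat_lit 5) (nat_lit 12) (nat_lit 4) (nat_lit 338) (nat_lit 269) (nat_lit 173)) (XT.lf (nat_lit 0) (nat_lit 27204102213) (nat_lit 76) (nat_lit 7218743547) (nat_lit 152) (nat_lit 33642328683) (nat_lit 10) (nat_lit 5) (nat_lit 11) (nat_lit 5) (nat_lit 12) (nat_lit 4) (nat_lit 339) (nat_lit 269) (nat_lit 172))) (XT.nd (nat_lit 78) (nat_lit 76) (nat_lit 0) (XT.lf (nat_lit 0) (nat_lit 42677144742) (nat_lit 152) (nat_lit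 26991643788) (nat_lit 0) (nat_lit 1361839421) (nat_lit 10) (nat_lit 5) (nat_lit 12) (nat_lit 4) (nat_lit 10) (nat_lit 4) (nat_lit 340) (nat_lit 269) (nat_lit 171)) (XT.nd (nat_lit 78) (nat_lit 76) (nat_lit 0) (XT.lf (nat_lit 0) (nat_lit 51455470730) (nat_lit 152) (nat_lit 12559792017) (nat_lit 0) (nat_lit 10123531404) (nat_lit 10) (nat_lit 5) (nat_lit 12) (nat_lit 4) (nat_lit 10) (nat_lit 4) (nat_lit 341) (nat_lit 269) (nat_lit 170)) (XT.lf (nat_lit 0) (nat_lit 2666907133) (nat_lit 76) (nat_lit 58040750444) (nat_lit 76) (nat_lit 16692969210) (nat_lit 9) (nat_lit 4) (nat_lit 10) (nat_lit 5) (nat_lit 10) (nat_lit 4) (nat_lit 342) (nat_lit 269) (nat_lit 169))))) (XT.nd (nat_lit 156) (nat_lit 76) (nat_lit 0) (XT.nd (nat_lit 78) (nat_lit 0) (nat_lit 0) (XT.lf (nat_lit 0) (nat_lit 19079081175) (nat_lit 76) (nat_lit 51549518231) (nat_lit 76) (nat_lit 10186649464) (nat_lit 9) (nat_lit 4) (nat_lit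 10) (nat_lit 5) (nat_lit 10) (nat_lit 4) (nat_lit 343) (nat_lit 269) (nat_lit 168)) (XT.lf (nat_lit 0) (nat_lit 36300523268) (nat_lit 76) (nat_lit 44738816948) (nat_lit 76) (nat_lit 3361579103) (nat_lit 9) (nat_lit 4) (nat_lit 10) (nat_lit 5) (nat_lit 10) (nat_lit 4) (nat_lit 344) (nat_lit 269) (nat_lit 167))) (XT.nd (nat_lit 78) (nat_lit 0) (nat_lit 0) (XT.lf (nat_lit 0) (nat_lit 3676916573) (nat_lit 152) (nat_lit 33853243705) (nat_lit 76) (nat_lit 50633049910) (nat_lit 8) (nat_lit 5) (nat_lit 10) (nat_lit 5) (nat_lit 9) (nat_lit 4) (nat_lit 345) (nat_lit 269) (nat_lit 166)) (XT.nd (nat_lit 78) (nat_lit 0) (nat_lit 0) (XT.lf (nat_lit 0) (nat_lit 10948601545) (nat_lit 152) (nat_lit 18959322692) (nat_lit 76) (nat_lit 62203228387) (nat_lit 8) (nat_lit 5) (nat_lit 10) (nat_lit 5) (nat_lit 9) (nat_lit 4) (nat_lit 346) (nat_lit 269) (nat_lit 165)) (XT.lf (nat_lit 0) (nat_lit 18578380871)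 (nat_lit 152) (nat_lit 3330687624) (nat_lit 76) (nat_lit 74347702173) (nat_lit 8) (nat_lit 5) (nat_lit 10) (nat_lit 5) (nat_lit 9) (nat_lit 4) (nat_lit 347) (nat_lit 269) (nat_lit 164)))))) (XT.nd (nat_lit 390) (nat_lit 76) (nat_lit 0) (XT.nd (nat_lit 156) (nat_lit 0) (nat_lit 0) (XT.nd (nat_lit 78) (nat_lit 0) (nat_lit 0) (XT.lf (nat_lit 0) (nat_lit 13502021545) (nat_lit 76) (nat_lit 13293203543) (nat_lit 152) (nat_lit 73804169536) (nat_lit 7) (nat_lit 5) (nat_lit 8) (nat_lit 5) (nat_lit 9) (nat_lit 4) (nat_lit 348) (nat_lit 269) (nat_lit 163)) (XT.lf (nat_lit 0) (nat_lit 31282646796) (nat_lit 76) (nat_lit 4191545999) (nat_lit 152) (nat_lit 69682396541) (nat_lit 7) (nat_lit 5) (nat_lit 8) (nat_lit 5) (nat_lit 9) (nat_lit 4) (nat_lit 349) (nat_lit 269) (nat_lit 162))) (XT.nd (nat_lit 78) (nat_lit 0) (nat_lit 0) (XT.lf (nat_lit 0) (nat_lit 44665930290) (nat_lit 152) (nat_lit 60082198788)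 (nat_lit 0) (nat_lit 5189577087) (nat_lit 7) (nat_lit 5) (nat_lit 9) (nat_lit 4) (nat_lit 7) (nat_lit 4) (nat_lit 350) (nat_lit 269) (nat_lit 161)) (XT.nd (nat_lit 78) (nat_lit 0) (nat_lit 0) (XT.lf (nat_lit 0) (nat_lit 54381259652) (nat_lit 152) (nat_lit 45678241328) (nat_lit 0) (nat_lit 14895180891) (nat_lit 7) (nat_lit 5) (nat_lit 9) (nat_lit 4) (nat_lit 7) (nat_lit 4) (nat_lit 351) (nat_lit 269) (nat_lit 160)) (XT.lf (nat_lit 0) (nat_lit 64577870839) (nat_lit 152) (nat_lit 30562333243) (nat_lit 0) (nat_lit 25082529642) (nat_lit 7) (nat_lit 5) (nat_lit 9) (nat_lit 4) (nat_lit 7) (nat_lit 4) (nat_lit 352) (nat_lit 269) (nat_lit 159))))) (XT.nd (nat_lit 156) (nat_lit 0) (nat_lit 0) (XT.nd (nat_lit 78) (nat_lit 76) (nat_lit 0) (XT.lf (nat_lit 0) (nat_lit 75280041497) (nat_lit 152) (nat_lit 14698484278) (nat_lit 0) (nat_lit 35775878932) (nat_lit 7) (nat_lit 5) (nat_lit 9) (nat_lit 4)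 (nat_lit 7) (nat_lit 4) (nat_lit 353) (nat_lit 269) (nat_lit 158)) (XT.lf (nat_lit 0) (nat_lit 2015588041) (nat_lit 76) (nat_lit 84529133920) (nat_lit 76) (nat_lit 45016570053) (nat_lit 6) (nat_lit 4) (nat_lit 7) (nat_lit 5) (nat_lit 7) (nat_lit 4) (nat_lit 354) (nat_lit 269) (nat_lit 157))) (XT.nd (nat_lit 78) (nat_lit 0) (nat_lit 0) (XT.lf (nat_lit 0) (nat_lit 20068302317) (nat_lit 76) (nat_lit 78549271165) (nat_lit 76) (nat_lit 39028706057) (nat_lit 6) (nat_lit 4) (nat_lit 7) (nat_lit 5) (nat_lit 7) (nat_lit 4) (nat_lit 355) (nat_lit 269) (nat_lit 156)) (XT.nd (nat_lit 78) (nat_lit 0) (nat_lit 0) (XT.lf (nat_lit 0) (nat_lit 39016642931) (nat_lit 76) (nat_lit 72273625684) (nat_lit 76) (nat_lit 32745440347) (nat_lit 6) (nat_lit 4) (nat_lit 7) (nat_lit 5) (nat_lit 7) (nat_lit 4) (nat_lit 356) (nat_lit 269) (nat_lit 155)) (XT.lf (nat_lit 0) (nat_lit 58905724978) (nat_lit 76) (nat_lit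 65687255466) (nat_lit 76) (nat_lit 26151812767) (nat_lit 6) (nat_lit 4) (nat_lit 7) (nat_lit 5) (nat_lit 7) (nat_lit 4) (nat_lit 357) (nat_lit 269) (nat_lit 154))))))))
noncomputable def xc136 : XT := (XT.nd (nat_lit 1482) (nat_lit 76) (nat_lit 0) (XT.nd (nat_lit 702) (nat_lit 0) (nat_lit 0) (XT.nd (nat_lit 312) (nat_lit 76) (nat_lit 0) (XT.nd (nat_lit 156) (nat_lit 76) (nat_lit 0) (XT.nd (nat_lit 78) (nat_lit 0) (nat_lit 0) (XT.lf (nat_lit 0) (nat_lit 79782903418) (nat_lit 76) (nat_lit 58774478675) (nat_lit 76) (nat_lit 19232124204) (nat_lit 6) (nat_lit 4) (nat_lit 7) (nat_lit 5) (nat_lit 7) (nat_lit 4) (nat_lit 358) (nat_lit 269) (nat_lit 153)) (XT.lf (nat_lit 0) (nat_lit 101697885817) (nat_lit 76) (nat_lit 51518836321) (nat_lit 76) (nat_lit 11969899209) (nat_lit 6) (nat_lit 4) (nat_lit 7) (nat_lit 5) (nat_lit 7) (nat_lit 4) (nat_lit 359) (nat_lit 269) (nat_lit 152))) (XT.nd (nat_lit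 78) (nat_lit 76) (nat_lit 0) (XT.lf (nat_lit 0) (nat_lit 124702850705) (nat_lit 76) (nat_lit 43903053063) (nat_lit 76) (nat_lit 4347846770) (nat_lit 6) (nat_lit 4) (nat_lit 7) (nat_lit 5) (nat_lit 7) (nat_lit 4) (nat_lit 360) (nat_lit 269) (nat_lit 151)) (XT.lf (nat_lit 0) (nat_lit 3535288260) (nat_lit 152) (nat_lit 32313836007) (nat_lit 76) (nat_lit 145257411731) (nat_lit 5) (nat_lit 5) (nat_lit 7) (nat_lit 5) (nat_lit 6) (nat_lit 4) (nat_lit 361) (nat_lit 269) (nat_lit 150)))) (XT.nd (nat_lit 156) (nat_lit 0) (nat_lit 0) (XT.nd (nat_lit 78) (nat_lit 76) (nat_lit 0) (XT.lf (nat_lit 0) (nat_lit 11663580703) (nat_lit 152) (nat_lit 15656522830) (nat_lit 76) (nat_lit 162343439375) (nat_lit 5) (nat_lit 5) (nat_lit 7) (nat_lit 5) (nat_lit 6) (nat_lit 4) (nat_lit 362) (nat_lit 269) (nat_lit 149)) (XT.lf (nat_lit 0) (nat_lit 1889043217) (nat_lit 76) (nat_lit 18335991926) (nat_lit 152) (nat_lit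 178422029397) (nat_lit 4) (nat_lit 5) (nat_lit 5) (nat_lit 5) (nat_lit 6) (nat_lit 4) (nat_lit 363) (nat_lit 269) (nat_lit 148))) (XT.nd (nat_lit 78) (nat_lit 0) (nat_lit 0) (XT.lf (nat_lit 0) (nat_lit 20850454559) (nat_lit 76) (nat_lit 8626565469) (nat_lit 152) (nat_lit 178589621000) (nat_lit 4) (nat_lit 5) (nat_lit 5) (nat_lit 5) (nat_lit 6) (nat_lit 4) (nat_lit 364) (nat_lit 269) (nat_lit 147)) (XT.nd (nat_lit 78) (nat_lit 0) (nat_lit 0) (XT.lf (nat_lit 0) (nat_lit 39213491207) (nat_lit 152) (nat_lit 177226595978) (nat_lit 0) (nat_lit 1516016381) (nat_lit 4) (nat_lit 5) (nat_lit 6) (nat_lit 4) (nat_lit 4) (nat_lit 4) (nat_lit 365) (nat_lit 269) (nat_lit 146)) (XT.lf (nat_lit 0) (nat_lit 49575729801) (nat_lit 152) (nat_lit 166883564160) (nat_lit 0) (nat_lit 11873799585) (nat_lit 4) (nat_lit 5) (nat_lit 6) (nat_lit 4) (nat_lit 4) (nat_lit 4) (nat_lit 366) (nat_lit 269) (nat_lit 145))))))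 (XT.nd (nat_lit 390) (nat_lit 0) (nat_lit 0) (XT.nd (nat_lit 156) (nat_lit 0) (nat_lit 0) (XT.nd (nat_lit 78) (nat_lit 0) (nat_lit 0) (XT.lf (nat_lit 0) (nat_lit 60453722943) (nat_lit 152) (nat_lit 156027779885) (nat_lit 0) (nat_lit 22747549499) (nat_lit 4) (nat_lit 5) (nat_lit 6) (nat_lit 4) (nat_lit 4) (nat_lit 4) (nat_lit 367) (nat_lit 269) (nat_lit 144)) (XT.lf (nat_lit 0) (nat_lit 71873370619) (nat_lit 152) (nat_lit 144633396046) (nat_lit 0) (nat_lit 34163156004) (nat_lit 4) (nat_lit 5) (nat_lit 6) (nat_lit 4) (nat_lit 4) (nat_lit 4) (nat_lit 368) (nat_lit 269) (nat_lit 143))) (XT.nd (nat_lit 78) (nat_lit 0) (nat_lit 0) (XT.lf (nat_lit 0) (nat_lit 83861862463) (nat_lit 152) (nat_lit 132673283160) (nat_lit 0) (nat_lit 46147799115) (nat_lit 4) (nat_lit 5) (nat_lit 6) (nat_lit 4) (nat_lit 4) (nat_lit 4) (nat_lit 369) (nat_lit 269) (nat_lit 142)) (XT.nd (nat_lit 78) (nat_lit 0) (nat_lit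 0) (XT.lf (nat_lit 0) (nat_lit 96447742506) (nat_lit 152) (nat_lit 120118964767) (nat_lit 0) (nat_lit 58730013698) (nat_lit 4) (nat_lit 5) (nat_lit 6) (nat_lit 4) (nat_lit 4) (nat_lit 4) (nat_lit 370) (nat_lit 269) (nat_lit 141)) (XT.lf (nat_lit 0) (nat_lit 109660977128) (nat_lit 152) (nat_lit 106940549632) (nat_lit 0) (nat_lit 71939757405) (nat_lit 4) (nat_lit 5) (nat_lit 6) (nat_lit 4) (nat_lit 4) (nat_lit 4) (nat_lit 371) (nat_lit 269) (nat_lit 140))))) (XT.nd (nat_lit 156) (nat_lit 0) (nat_lit 0) (XT.nd (nat_lit 78) (nat_lit 0) (nat_lit 0) (XT.lf (nat_lit 0) (nat_lit 123533026412) (nat_lit 152) (nat_lit 93106660576) (nat_lit 0) (nat_lit 85808482008) (nat_lit 4) (nat_lit 5) (nat_lit 6) (nat_lit 4) (nat_lit 4) (nat_lit 4) (nat_lit 372) (nat_lit 269) (nat_lit 139)) (XT.lf (nat_lit 0) (nat_lit 138096919046) (nat_lit 152) (nat_lit 78584359769) (nat_lit 0) (nat_lit 100369208279) (nat_lit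 4) (nat_lit 5) (nat_lit 6) (nat_lit 4) (nat_lit 4) (nat_lit 4) (nat_lit 373) (nat_lit 269) (nat_lit 138))) (XT.nd (nat_lit 78) (nat_lit 0) (nat_lit 0) (XT.lf (nat_lit 0) (nat_lit 153387330965) (nat_lit 152) (nat_lit 63339070304) (nat_lit 0) (nat_lit 115656604614) (nat_lit 4) (nat_lit 5) (nat_lit 6) (nat_lit 4) (nat_lit 4) (nat_lit 4) (nat_lit 374) (nat_lit 269) (nat_lit 137)) (XT.nd (nat_lit 78) (nat_lit 0) (nat_lit 0) (XT.lf (nat_lit 0) (nat_lit 169440667911) (nat_lit 152) (nat_lit 47334493873) (nat_lit 0) (nat_lit 131707069577) (nat_lit 4) (nat_lit 5) (nat_lit 6) (nat_lit 4) (nat_lit 4) (nat_lit 4) (nat_lit 375) (nat_lit 269) (nat_lit 136)) (XT.lf (nat_lit 0) (nat_lit 186295152117) (nat_lit 152) (nat_lit 30532524341) (nat_lit 0) (nat_lit 148558818559) (nat_lit 4) (nat_lit 5) (nat_lit 6) (nat_lit 4) (nat_lit 4) (nat_lit 4) (nat_lit 376) (nat_lit 269) (nat_lit 135))))))) (XT.nd (nat_lit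 32448) (nat_lit 0) (nat_lit 6308) (XT.nd (nat_lit 390) (nat_lit 0) (nat_lit 0) (XT.nd (nat_lit 156) (nat_lit 0) (nat_lit 0) (XT.nd (nat_lit 78) (nat_lit 76) (nat_lit 0) (XT.lf (nat_lit 0) (nat_lit 203990913305) (nat_lit 152) (nat_lit 12893157018) (nat_lit 0) (nat_lit 166251974773) (nat_lit 4) (nat_lit 5) (nat_lit 6) (nat_lit 4) (nat_lit 4) (nat_lit 4) (nat_lit 377) (nat_lit 269) (nat_lit 134)) (XT.lf (nat_lit 0) (nat_lit 5811614546) (nat_lit 76) (nat_lit 216849205284) (nat_lit 76) (nat_lit 179107785824) (nat_lit 3) (nat_lit 4) (nat_lit 4) (nat_lit 5) (nat_lit 4) (nat_lit 4) (nat_lit 378) (nat_lit 269) (nat_lit 133))) (XT.nd (nat_lit 78) (nat_lit 0) (nat_lit 0) (XT.lf (nat_lit 0) (nat_lit 25896715392) (nat_lit 76) (nat_lit 216584505956) (nat_lit 76) (nat_lit 178840723708) (nat_lit 3) (nat_lit 4) (nat_lit 4) (nat_lit 5) (nat_lit 4) (nat_lit 4) (nat_lit 379) (nat_lit 269) (nat_lit 132))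 (XT.nd (nat_lit 78) (nat_lit 0) (nat_lit 0) (XT.lf (nat_lit 0) (nat_lit 46983661186) (nat_lit 76) (nat_lit 216307693957) (nat_lit 76) (nat_lit 178561661434) (nat_lit 3) (nat_lit 4) (nat_lit 4) (nat_lit 5) (nat_lit 4) (nat_lit 4) (nat_lit 380) (nat_lit 269) (nat_lit 131)) (XT.lf (nat_lit 0) (nat_lit 69122658945) (nat_lit 76) (nat_lit 216018110210) (nat_lit 76) (nat_lit 178269934568) (nat_lit 3) (nat_lit 4) (nat_lit 4) (nat_lit 5) (nat_lit 4) (nat_lit 4) (nat_lit 381) (nat_lit 269) (nat_lit 130))))) (XT.nd (nat_lit 156) (nat_lit 0) (nat_lit 0) (XT.nd (nat_lit 78) (nat_lit 0) (nat_lit 0) (XT.lf (nat_lit 0) (nat_lit 92366420566) (nat_lit 76) (nat_lit 215715065230) (nat_lit 76) (nat_lit 177964848522) (nat_lit 3) (nat_lit 4) (nat_lit 4) (nat_lit 5) (nat_lit 4) (nat_lit 4) (nat_lit 382) (nat_lit 269) (nat_lit 129)) (XT.lf (nat_lit 0) (nat_lit 116770288340) (nat_lit 76) (nat_lit 215397837482)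 (nat_lit 76) (nat_lit 177645676902) (nat_lit 3) (nat_lit 4) (nat_lit 4) (nat_lit 5) (nat_lit 4) (nat_lit 4) (nat_lit 383) (nat_lit 269) (nat_lit 128))) (XT.nd (nat_lit 31746) (nat_lit 0) (nat_lit 7296) (XT.lf (nat_lit 0) (nat_lit 142392366713) (nat_lit 76) (nat_lit 215065671661) (nat_lit 76) (nat_lit 177311659774) (nat_lit 3) (nat_lit 4) (nat_lit 4) (nat_lit 5) (nat_lit 4) (nat_lit 4) (nat_lit 384) (nat_lit 269) (nat_lit 127)) (XT.nd (nat_lit 78) (nat_lit 0) (nat_lit 0) (XT.lf (nat_lit 0) (nat_lit 103979846) (nat_lit 0) (nat_lit 103979846) (nat_lit 532) (nat_lit 3606777619) (nat_lit 99) (nat_lit 5) (nat_lit 99) (nat_lit 3) (nat_lit 106) (nat_lit 3) (nat_lit 270) (nat_lit 270) (nat_lit 240)) (XT.lf (nat_lit 0) (nat_lit 1746023422) (nat_lit 532) (nat_lit 4024850516) (nat_lit 608) (nat_lit 1979404941) (nat_lit 99) (nat_lit 5) (nat_lit 106) (nat_lit 3) (nat_lit 107) (nat_lit 5) (nat_lit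 271) (nat_lit 270) (nat_lit 239)))))) (XT.nd (nat_lit 390) (nat_lit 456) (nat_lit 0) (XT.nd (nat_lit 156) (nat_lit 532) (nat_lit 0) (XT.nd (nat_lit 78) (nat_lit 0) (nat_lit 0) (XT.lf (nat_lit 0) (nat_lit 3064251331) (nat_lit 532) (nat_lit 507996953) (nat_lit 608) (nat_lit 4309046804) (nat_lit 99) (nat_lit 5) (nat_lit 106) (nat_lit 3) (nat_lit 107) (nat_lit 5) (nat_lit 272) (nat_lit 270) (nat_lit 238)) (XT.lf (nat_lit 76) (nat_lit 3244510654) (nat_lit 0) (nat_lit 1176640170) (nat_lit 608) (nat_lit 3599313921) (nat_lit 100) (nat_lit 5) (nat_lit 99) (nat_lit 5) (nat_lit 107) (nat_lit 5) (nat_lit 273) (nat_lit 270) (nat_lit 237))) (XT.nd (nat_lit 78) (nat_lit 608) (nat_lit 0) (XT.lf (nat_lit 0) (nat_lit 5801170749) (nat_lit 532) (nat_lit 1032712997) (nat_lit 608) (nat_lit 1335174549) (nat_lit 100) (nat_lit 5) (nat_lit 107) (nat_lit 5) (nat_lit 108) (nat_lit 5) (nat_lit 274) (nat_lit 270)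 (nat_lit 236)) (XT.nd (nat_lit 78) (nat_lit 608) (nat_lit 0) (XT.lf (nat_lit 76) (nat_lit 2926556900) (nat_lit 0) (nat_lit 4317786787) (nat_lit 608) (nat_lit 1081248509) (nat_lit 101) (nat_lit 5) (nat_lit 100) (nat_lit 5) (nat_lit 108) (nat_lit 5) (nat_lit 275) (nat_lit 270) (nat_lit 235)) (XT.lf (nat_lit 0) (nat_lit 209392135) (nat_lit 608) (nat_lit 1421205589) (nat_lit 684) (nat_lit 6861927367) (nat_lit 92) (nat_lit 5) (nat_lit 100) (nat_lit 5) (nat_lit 101) (nat_lit 5) (nat_lit 276) (nat_lit 270) (nat_lit 234))))) (XT.nd (nat_lit 156) (nat_lit 532) (nat_lit 0) (XT.nd (nat_lit 78) (nat_lit 0) (nat_lit 0) (XT.lf (nat_lit 0) (nat_lit 1525420803) (nat_lit 608) (nat_lit 5906367159) (nat_lit 684) (nat_lit 1235459300) (nat_lit 93) (nat_lit 5) (nat_lit 101) (nat_lit 5) (nat_lit 102) (nat_lit 5) (nat_lit 277) (nat_lit 270) (nat_lit 233)) (XT.lf (nat_lit 0) (nat_lit 2895042118) (nat_lit 608)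 (nat_lit 1723180516) (nat_lit 684) (nat_lit 4233272920) (nat_lit 93) (nat_lit 5) (nat_lit 101) (nat_lit 5) (nat_lit 102) (nat_lit 5) (nat_lit 278) (nat_lit 270) (nat_lit 232))) (XT.nd (nat_lit 78) (nat_lit 532) (nat_lit 0) (XT.lf (nat_lit 76) (nat_lit 2710229869) (nat_lit 0) (nat_lit 1604844844) (nat_lit 684) (nat_lit 4730956057) (nat_lit 94) (nat_lit 5) (nat_lit 93) (nat_lit 5) (nat_lit 102) (nat_lit 5) (nat_lit 279) (nat_lit 270) (nat_lit 231)) (XT.nd (nat_lit 78) (nat_lit 608) (nat_lit 0) (XT.lf (nat_lit 0) (nat_lit 5802110569) (nat_lit 608) (nat_lit 1896743444) (nat_lit 76) (nat_lit 1551801533) (nat_lit 94) (nat_lit 5) (nat_lit 102) (nat_lit 5) (nat_lit 95) (nat_lit 5) (nat_lit 280) (nat_lit 270) (nat_lit 230)) (XT.lf (nat_lit 0) (nat_lit 2781041378) (nat_lit 608) (nat_lit 4596944490) (nat_lit 684) (nat_lit 2086956429) (nat_lit 86) (nat_lit 5) (nat_lit 94) (nat_lit 5) (nat_lit 95)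 (nat_lit 5) (nat_lit 281) (nat_lit 270) (nat_lit 229))))))))
noncomputable def xc137 : XT := (XT.nd (nat_lit 1482) (nat_lit 1748) (nat_lit 0) (XT.nd (nat_lit 702) (nat_lit 1368) (nat_lit 0) (XT.nd (nat_lit 312) (nat_lit 760) (nat_lit 0) (XT.nd (nat_lit 156) (nat_lit 380) (nat_lit 0) (XT.nd (nat_lit 78) (nat_lit 760) (nat_lit 0) (XT.lf (nat_lit 0) (nat_lit 7713379586) (nat_lit 608) (nat_lit 1298081528) (nat_lit 684) (nat_lit 679689699) (nat_lit 86) (nat_lit 5) (nat_lit 94) (nat_lit 5) (nat_lit 95) (nat_lit 5) (nat_lit 282) (nat_lit 270) (nat_lit 228)) (XT.lf (nat_lit 0) (nat_lit 802424623) (nat_lit 760) (nat_lit 6960893809) (nat_lit 76) (nat_lit 2163361252) (nat_lit 76) (nat_lit 5) (nat_lit 86) (nat_lit 5) (nat_lit 77) (nat_lit 5) (nat_lit 283) (nat_lit 270) (nat_lit 227))) (XT.nd (nat_lit 78) (nat_lit 380) (nat_lit 0) (XT.lf (nat_lit 0) (nat_lit 2341245907) (nat_lit 760) (nat_lit 2026970079)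 (nat_lit 76) (nat_lit 5805067345) (nat_lit 76) (nat_lit 5) (nat_lit 86) (nat_lit 5) (nat_lit 77) (nat_lit 5) (nat_lit 284) (nat_lit 270) (nat_lit 226)) (XT.lf (nat_lit 0) (nat_lit 3211806934) (nat_lit 380) (nat_lit 747841531) (nat_lit 456) (nat_lit 6472558227) (nat_lit 71) (nat_lit 5) (nat_lit 76) (nat_lit 5) (nat_lit 77) (nat_lit 5) (nat_lit 285) (nat_lit 270) (nat_lit 225)))) (XT.nd (nat_lit 156) (nat_lit 380) (nat_lit 0) (XT.nd (nat_lit 78) (nat_lit 380) (nat_lit 0) (XT.lf (nat_lit 0) (nat_lit 5695638792) (nat_lit 456) (nat_lit 2014066767) (nat_lit 76) (nat_lit 2992653034) (nat_lit 71) (nat_lit 5) (nat_lit 77) (nat_lit 5) (nat_lit 72) (nat_lit 5) (nat_lit 286) (nat_lit 270) (nat_lit 224)) (XT.lf (nat_lit 0) (nat_lit 3508459300) (nat_lit 380) (nat_lit 4033294173) (nat_lit 456) (nat_lit 3443208617) (nat_lit 66) (nat_lit 5) (nat_lit 71) (nat_lit 5) (nat_lit 72) (nat_lit 5) (nat_lit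 287) (nat_lit 270) (nat_lit 223))) (XT.nd (nat_lit 78) (nat_lit 380) (nat_lit 0) (XT.lf (nat_lit 0) (nat_lit 9333591241) (nat_lit 380) (nat_lit 138383327) (nat_lit 456) (nat_lit 1810236151) (nat_lit 66) (nat_lit 5) (nat_lit 71) (nat_lit 5) (nat_lit 72) (nat_lit 5) (nat_lit 288) (nat_lit 270) (nat_lit 222)) (XT.nd (nat_lit 78) (nat_lit 76) (nat_lit 0) (XT.lf (nat_lit 0) (nat_lit 3874502526) (nat_lit 304) (nat_lit 7706075769) (nat_lit 380) (nat_lit 9749900) (nat_lit 62) (nat_lit 5) (nat_lit 66) (nat_lit 5) (nat_lit 67) (nat_lit 5) (nat_lit 289) (nat_lit 270) (nat_lit 221)) (XT.lf (nat_lit 0) (nat_lit 1816583524) (nat_lit 380) (nat_lit 1932121225) (nat_lit 76) (nat_lit 8163968347) (nat_lit 61) (nat_lit 5) (nat_lit 66) (nat_lit 5) (nat_lit 62) (nat_lit 5) (nat_lit 290) (nat_lit 270) (nat_lit 220)))))) (XT.nd (nat_lit 390) (nat_lit 532) (nat_lit 0) (XT.nd (nat_lit 156) (nat_lit 532) (nat_lit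 0) (XT.nd (nat_lit 78) (nat_lit 0) (nat_lit 0) (XT.lf (nat_lit 0) (nat_lit 3769482964) (nat_lit 380) (nat_lit 8023121540) (nat_lit 76) (nat_lit 456830275) (nat_lit 57) (nat_lit 5) (nat_lit 62) (nat_lit 5) (nat_lit 58) (nat_lit 5) (nat_lit 291) (nat_lit 270) (nat_lit 219)) (XT.lf (nat_lit 0) (nat_lit 5877928334) (nat_lit 380) (nat_lit 1946883350) (nat_lit 76) (nat_lit 4775410077) (nat_lit 57) (nat_lit 5) (nat_lit 62) (nat_lit 5) (nat_lit 58) (nat_lit 5) (nat_lit 292) (nat_lit 270) (nat_lit 218))) (XT.nd (nat_lit 78) (nat_lit 304) (nat_lit 0) (XT.lf (nat_lit 0) (nat_lit 4537202126) (nat_lit 228) (nat_lit 3590374152) (nat_lit 304) (nat_lit 4839261146) (nat_lit 54) (nat_lit 5) (nat_lit 57) (nat_lit 5) (nat_lit 58) (nat_lit 5) (nat_lit 293) (nat_lit 270) (nat_lit 217)) (XT.nd (nat_lit 78) (nat_lit 304) (nat_lit 0) (XT.lf (nat_lit 0) (nat_lit 10502456986) (nat_lit 304) (nat_lit 1993147159)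 (nat_lit 76) (nat_lit 855616823) (nat_lit 54) (nat_lit 5) (nat_lit 58) (nat_lit 5) (nat_lit 55) (nat_lit 5) (nat_lit 294) (nat_lit 270) (nat_lit 216)) (XT.lf (nat_lit 0) (nat_lit 4820405680) (nat_lit 304) (nat_lit 8277296809) (nat_lit 380) (nat_lit 652111227) (nat_lit 50) (nat_lit 5) (nat_lit 54) (nat_lit 5) (nat_lit 55) (nat_lit 5) (nat_lit 295) (nat_lit 270) (nat_lit 215))))) (XT.nd (nat_lit 156) (nat_lit 228) (nat_lit 0) (XT.nd (nat_lit 78) (nat_lit 228) (nat_lit 0) (XT.lf (nat_lit 0) (nat_lit 1603581492) (nat_lit 380) (nat_lit 2189860969) (nat_lit 76) (nat_lit 10373558742) (nat_lit 49) (nat_lit 5) (nat_lit 54) (nat_lit 5) (nat_lit 50) (nat_lit 5) (nat_lit 296) (nat_lit 270) (nat_lit 214)) (XT.lf (nat_lit 0) (nat_lit 4013151302) (nat_lit 304) (nat_lit 9620625054) (nat_lit 76) (nat_lit 967648197) (nat_lit 46) (nat_lit 5) (nat_lit 50) (nat_lit 5) (nat_lit 47) (nat_lit 5) (nat_lit 297)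 (nat_lit 270) (nat_lit 213))) (XT.nd (nat_lit 78) (nat_lit 228) (nat_lit 0) (XT.lf (nat_lit 0) (nat_lit 6613194739) (nat_lit 304) (nat_lit 2572008843) (nat_lit 76) (nat_lit 5868924194) (nat_lit 46) (nat_lit 5) (nat_lit 50) (nat_lit 5) (nat_lit 47) (nat_lit 5) (nat_lit 298) (nat_lit 270) (nat_lit 212)) (XT.nd (nat_lit 78) (nat_lit 0) (nat_lit 0) (XT.lf (nat_lit 0) (nat_lit 4949826828) (nat_lit 228) (nat_lit 4442230594) (nat_lit 304) (nat_lit 6135023563) (nat_lit 43) (nat_lit 5) (nat_lit 46) (nat_lit 5) (nat_lit 47) (nat_lit 5) (nat_lit 299) (nat_lit 270) (nat_lit 211)) (XT.lf (nat_lit 0) (nat_lit 12334701316) (nat_lit 304) (nat_lit 3131888524) (nat_lit 76) (nat_lit 555903142) (nat_lit 43) (nat_lit 5) (nat_lit 47) (nat_lit 5) (nat_lit 44) (nat_lit 5) (nat_lit 300) (nat_lit 270) (nat_lit 210))))))) (XT.nd (nat_lit 780) (nat_lit 684) (nat_lit 0) (XT.nd (nat_lit 390) (nat_lit 456) (nat_lit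 0) (XT.nd (nat_lit 156) (nat_lit 380) (nat_lit 0) (XT.nd (nat_lit 78) (nat_lit 76) (nat_lit 0) (XT.lf (nat_lit 0) (nat_lit 4727742909) (nat_lit 152) (nat_lit 10816864409) (nat_lit 228) (nat_lit 992112267) (nat_lit 41) (nat_lit 5) (nat_lit 43) (nat_lit 5) (nat_lit 44) (nat_lit 5) (nat_lit 301) (nat_lit 270) (nat_lit 209)) (XT.lf (nat_lit 0) (nat_lit 1807147104) (nat_lit 228) (nat_lit 4051311076) (nat_lit 76) (nat_lit 11215428318) (nat_lit 40) (nat_lit 5) (nat_lit 43) (nat_lit 5) (nat_lit 41) (nat_lit 5) (nat_lit 302) (nat_lit 270) (nat_lit 208))) (XT.nd (nat_lit 78) (nat_lit 152) (nat_lit 0) (XT.lf (nat_lit 0) (nat_lit 4176581549) (nat_lit 228) (nat_lit 576630905) (nat_lit 304) (nat_lit 12881920499) (nat_lit 37) (nat_lit 5) (nat_lit 40) (nat_lit 5) (nat_lit 41) (nat_lit 5) (nat_lit 303) (nat_lit 270) (nat_lit 207)) (XT.nd (nat_lit 78) (nat_lit 152) (nat_lit 0) (XT.lf (nat_lit 0) (nat_lit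 7969372324) (nat_lit 304) (nat_lit 5378804358) (nat_lit 76) (nat_lit 4870167036) (nat_lit 37) (nat_lit 5) (nat_lit 41) (nat_lit 5) (nat_lit 38) (nat_lit 5) (nat_lit 304) (nat_lit 270) (nat_lit 206)) (XT.lf (nat_lit 0) (nat_lit 3162796725) (nat_lit 152) (nat_lit 8219015652) (nat_lit 228) (nat_lit 7447168605) (nat_lit 35) (nat_lit 5) (nat_lit 37) (nat_lit 5) (nat_lit 38) (nat_lit 5) (nat_lit 305) (nat_lit 270) (nat_lit 205))))) (XT.nd (nat_lit 156) (nat_lit 228) (nat_lit 0) (XT.nd (nat_lit 78) (nat_lit 228) (nat_lit 0) (XT.lf (nat_lit 0) (nat_lit 12284855140) (nat_lit 152) (nat_lit 2748342592) (nat_lit 228) (nat_lit 4433573898) (nat_lit 35) (nat_lit 5) (nat_lit 37) (nat_lit 5) (nat_lit 38) (nat_lit 5) (nat_lit 306) (nat_lit 270) (nat_lit 204)) (XT.lf (nat_lit 0) (nat_lit 1701513280) (nat_lit 228) (nat_lit 17217135684) (nat_lit 304) (nat_lit 1215263908) (nat_lit 32) (nat_lit 5) (nat_lit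 35) (nat_lit 5) (nat_lit 36) (nat_lit 5) (nat_lit 307) (nat_lit 270) (nat_lit 203))) (XT.nd (nat_lit 78) (nat_lit 152) (nat_lit 0) (XT.lf (nat_lit 0) (nat_lit 2241691529) (nat_lit 304) (nat_lit 9663667713) (nat_lit 76) (nat_lit 8920045702) (nat_lit 31) (nat_lit 5) (nat_lit 35) (nat_lit 5) (nat_lit 32) (nat_lit 5) (nat_lit 308) (nat_lit 270) (nat_lit 202)) (XT.nd (nat_lit 78) (nat_lit 152) (nat_lit 0) (XT.lf (nat_lit 0) (nat_lit 5809998937) (nat_lit 304) (nat_lit 507810397) (nat_lit 76) (nat_lit 15233729921) (nat_lit 31) (nat_lit 5) (nat_lit 35) (nat_lit 5) (nat_lit 32) (nat_lit 5) (nat_lit 309) (nat_lit 270) (nat_lit 201)) (XT.lf (nat_lit 0) (nat_lit 9376037444) (nat_lit 152) (nat_lit 307399096) (nat_lit 228) (nat_lit 12624237529) (nat_lit 29) (nat_lit 5) (nat_lit 31) (nat_lit 5) (nat_lit 32) (nat_lit 5) (nat_lit 310) (nat_lit 270) (nat_lit 200)))))) (XT.nd (nat_lit 390) (nat_lit 304)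 (nat_lit 0) (XT.nd (nat_lit 156) (nat_lit 228) (nat_lit 0) (XT.nd (nat_lit 78) (nat_lit 152) (nat_lit 0) (XT.lf (nat_lit 0) (nat_lit 13833665576) (nat_lit 228) (nat_lit 3453591065) (nat_lit 76) (nat_lit 5810231125) (nat_lit 29) (nat_lit 5) (nat_lit 32) (nat_lit 5) (nat_lit 30) (nat_lit 5) (nat_lit 311) (nat_lit 270) (nat_lit 199)) (XT.lf (nat_lit 0) (nat_lit 6678263373) (nat_lit 152) (nat_lit 11604016619) (nat_lit 228) (nat_lit 5639995244) (nat_lit 27) (nat_lit 5) (nat_lit 29) (nat_lit 5) (nat_lit 30) (nat_lit 5) (nat_lit 312) (nat_lit 270) (nat_lit 198))) (XT.nd (nat_lit 78) (nat_lit 228) (nat_lit 0) (XT.lf (nat_lit 0) (nat_lit 17408275734) (nat_lit 152) (nat_lit 5585541128) (nat_lit 228) (nat_lit 1792486137) (nat_lit 27) (nat_lit 5) (nat_lit 29) (nat_lit 5) (nat_lit 30) (nat_lit 5) (nat_lit 313) (nat_lit 270) (nat_lit 197)) (XT.nd (nat_lit 78) (nat_lit 0) (nat_lit 0) (XT.lf (nat_lit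 0) (nat_lit 2217743678) (nat_lit 228) (nat_lit 22687881940) (nat_lit 76) (nat_lit 784061458) (nat_lit 24) (nat_lit 5) (nat_lit 27) (nat_lit 5) (nat_lit 25) (nat_lit 5) (nat_lit 314) (nat_lit 270) (nat_lit 196)) (XT.lf (nat_lit 0) (nat_lit 6569615917) (nat_lit 228) (nat_lit 12626072336) (nat_lit 76) (nat_lit 7431036377) (nat_lit 24) (nat_lit 5) (nat_lit 27) (nat_lit 5) (nat_lit 25) (nat_lit 5) (nat_lit 315) (nat_lit 270) (nat_lit 195))))) (XT.nd (nat_lit 156) (nat_lit 152) (nat_lit 0) (XT.nd (nat_lit 78) (nat_lit 152) (nat_lit 0) (XT.lf (nat_lit 0) (nat_lit 11122705713) (nat_lit 228) (nat_lit 2087703178) (nat_lit 76) (nat_lit 14401044957) (nat_lit 24) (nat_lit 5) (nat_lit 27) (nat_lit 5) (nat_lit 25) (nat_lit 5) (nat_lit 316) (nat_lit 270) (nat_lit 194)) (XT.lf (nat_lit 0) (nat_lit 9248320912) (nat_lit 152) (nat_lit 6783925051) (nat_lit 228) (nat_lit 12606753753) (nat_lit 22) (nat_lit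 5) (nat_lit 24) (nat_lit 5) (nat_lit 25) (nat_lit 5) (nat_lit 317) (nat_lit 270) (nat_lit 193))) (XT.nd (nat_lit 78) (nat_lit 152) (nat_lit 0) (XT.lf (nat_lit 0) (nat_lit 21198766540) (nat_lit 152) (nat_lit 8611251) (nat_lit 228) (nat_lit 8509558392) (nat_lit 22) (nat_lit 5) (nat_lit 24) (nat_lit 5) (nat_lit 25) (nat_lit 5) (nat_lit 318) (nat_lit 270) (nat_lit 192)) (XT.nd (nat_lit 78) (nat_lit 76) (nat_lit 0) (XT.lf (nat_lit 0) (nat_lit 2854100644) (nat_lit 76) (nat_lit 23928003426) (nat_lit 152) (nat_lit 4059641637) (nat_lit 21) (nat_lit 5) (nat_lit 22) (nat_lit 5) (nat_lit 23) (nat_lit 4) (nat_lit 319) (nat_lit 270) (nat_lit 191)) (XT.lf (nat_lit 0) (nat_lit 725338365) (nat_lit 152) (nat_lit 16961324070) (nat_lit 76) (nat_lit 14329062366) (nat_lit 20) (nat_lit 5) (nat_lit 22) (nat_lit 5) (nat_lit 21) (nat_lit 5) (nat_lit 320) (nat_lit 270) (nat_lit 190))))))))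
noncomputable def xc138 : XT := (XT.nd (nat_lit 1482) (nat_lit 304) (nat_lit 0) (XT.nd (nat_lit 702) (nat_lit 304) (nat_lit 0) (XT.nd (nat_lit 312) (nat_lit 304) (nat_lit 0) (XT.nd (nat_lit 156) (nat_lit 0) (nat_lit 0) (XT.nd (nat_lit 78) (nat_lit 152) (nat_lit 0) (XT.lf (nat_lit 0) (nat_lit 5599245847) (nat_lit 152) (nat_lit 5473461616) (nat_lit 76) (nat_lit 22173078019) (nat_lit 20) (nat_lit 5) (nat_lit 22) (nat_lit 5) (nat_lit 21) (nat_lit 5) (nat_lit 321) (nat_lit 270) (nat_lit 189)) (XT.lf (nat_lit 0) (nat_lit 6783800721) (nat_lit 152) (nat_lit 4025732651) (nat_lit 228) (nat_lit 23723196503) (nat_lit 18) (nat_lit 5) (nat_lit 20) (nat_lit 5) (nat_lit 21) (nat_lit 5) (nat_lit 322) (nat_lit 270) (nat_lit 188))) (XT.nd (nat_lit 78) (nat_lit 0) (nat_lit 0) (XT.lf (nat_lit 0) (nat_lit 16414144845) (nat_lit 228) (nat_lit 16111909048) (nat_lit 76) (nat_lit 3351291322) (nat_lit 18) (nat_lit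 5) (nat_lit 21) (nat_lit 5) (nat_lit 19) (nat_lit 4) (nat_lit 323) (nat_lit 270) (nat_lit 187)) (XT.lf (nat_lit 0) (nat_lit 22352528259) (nat_lit 228) (nat_lit 3980256352) (nat_lit 76) (nat_lit 10953743170) (nat_lit 18) (nat_lit 5) (nat_lit 21) (nat_lit 5) (nat_lit 19) (nat_lit 4) (nat_lit 324) (nat_lit 270) (nat_lit 186)))) (XT.nd (nat_lit 156) (nat_lit 228) (nat_lit 0) (XT.nd (nat_lit 78) (nat_lit 0) (nat_lit 0) (XT.lf (nat_lit 0) (nat_lit 9026676821) (nat_lit 76) (nat_lit 19690224554) (nat_lit 152) (nat_lit 10042827455) (nat_lit 17) (nat_lit 5) (nat_lit 18) (nat_lit 5) (nat_lit 19) (nat_lit 4) (nat_lit 325) (nat_lit 270) (nat_lit 185)) (XT.lf (nat_lit 0) (nat_lit 22802255981) (nat_lit 76) (nat_lit 12653037883) (nat_lit 152) (nat_lit 4848518302) (nat_lit 17) (nat_lit 5) (nat_lit 18) (nat_lit 5) (nat_lit 19) (nat_lit 4) (nat_lit 326) (nat_lit 270) (nat_lit 184))) (XT.nd (nat_lit 78)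 (nat_lit 152) (nat_lit 0) (XT.lf (nat_lit 0) (nat_lit 574879655) (nat_lit 152) (nat_lit 4687261440) (nat_lit 76) (nat_lit 36663059355) (nat_lit 16) (nat_lit 5) (nat_lit 18) (nat_lit 5) (nat_lit 17) (nat_lit 5) (nat_lit 327) (nat_lit 270) (nat_lit 183)) (XT.nd (nat_lit 78) (nat_lit 0) (nat_lit 0) (XT.lf (nat_lit 0) (nat_lit 6278111682) (nat_lit 228) (nat_lit 34703192277) (nat_lit 76) (nat_lit 2633810281) (nat_lit 14) (nat_lit 5) (nat_lit 17) (nat_lit 5) (nat_lit 15) (nat_lit 4) (nat_lit 328) (nat_lit 270) (nat_lit 182)) (XT.lf (nat_lit 0) (nat_lit 12422849559) (nat_lit 228) (nat_lit 22137845526) (nat_lit 76) (nat_lit 10821021518) (nat_lit 14) (nat_lit 5) (nat_lit 17) (nat_lit 5) (nat_lit 15) (nat_lit 4) (nat_lit 329) (nat_lit 270) (nat_lit 181)))))) (XT.nd (nat_lit 390) (nat_lit 228) (nat_lit 0) (XT.nd (nat_lit 156) (nat_lit 0) (nat_lit 0) (XT.nd (nat_lit 78) (nat_lit 76) (nat_lit 0)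 (XT.lf (nat_lit 0) (nat_lit 18864726491) (nat_lit 228) (nat_lit 8961870098) (nat_lit 76) (nat_lit 19410567001) (nat_lit 14) (nat_lit 5) (nat_lit 17) (nat_lit 5) (nat_lit 15) (nat_lit 4) (nat_lit 330) (nat_lit 270) (nat_lit 180)) (XT.lf (nat_lit 0) (nat_lit 5016670154) (nat_lit 76) (nat_lit 20680734408) (nat_lit 152) (nat_lit 23484552155) (nat_lit 13) (nat_lit 5) (nat_lit 14) (nat_lit 5) (nat_lit 15) (nat_lit 4) (nat_lit 331) (nat_lit 270) (nat_lit 179))) (XT.nd (nat_lit 78) (nat_lit 0) (nat_lit 0) (XT.lf (nat_lit 0) (nat_lit 19988745536) (nat_lit 76) (nat_lit 13025327524) (nat_lit 152) (nat_lit 18202807332) (nat_lit 13) (nat_lit 5) (nat_lit 14) (nat_lit 5) (nat_lit 15) (nat_lit 4) (nat_lit 332) (nat_lit 270) (nat_lit 178)) (XT.nd (nat_lit 78) (nat_lit 0) (nat_lit 0) (XT.lf (nat_lit 0) (nat_lit 35693683949) (nat_lit 76) (nat_lit 4993922386) (nat_lit 152) (nat_lit 12666400655) (nat_lit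 13) (nat_lit 5) (nat_lit 14) (nat_lit 5) (nat_lit 15) (nat_lit 4) (nat_lit 333) (nat_lit 270) (nat_lit 177)) (XT.lf (nat_lit 0) (nat_lit 48789867263) (nat_lit 152) (nat_lit 3483139362) (nat_lit 0) (nat_lit 3322738653) (nat_lit 13) (nat_lit 5) (nat_lit 15) (nat_lit 4) (nat_lit 13) (nat_lit 4) (nat_lit 334) (nat_lit 270) (nat_lit 176))))) (XT.nd (nat_lit 156) (nat_lit 76) (nat_lit 0) (XT.nd (nat_lit 78) (nat_lit 76) (nat_lit 0) (XT.lf (nat_lit 0) (nat_lit 11680282210) (nat_lit 76) (nat_lit 45872957814) (nat_lit 76) (nat_lit 383538047) (nat_lit 12) (nat_lit 4) (nat_lit 13) (nat_lit 5) (nat_lit 13) (nat_lit 4) (nat_lit 335) (nat_lit 270) (nat_lit 175)) (XT.lf (nat_lit 0) (nat_lit 6208115352) (nat_lit 152) (nat_lit 32784012967) (nat_lit 76) (nat_lit 21395188533) (nat_lit 11) (nat_lit 5) (nat_lit 13) (nat_lit 5) (nat_lit 12) (nat_lit 4) (nat_lit 336) (nat_lit 270) (nat_lit 174))) (XT.nd (nat_lit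 78) (nat_lit 76) (nat_lit 0) (XT.lf (nat_lit 0) (nat_lit 13108650486) (nat_lit 152) (nat_lit 18658134678) (nat_lit 76) (nat_lit 31193680116) (nat_lit 11) (nat_lit 5) (nat_lit 13) (nat_lit 5) (nat_lit 12) (nat_lit 4) (nat_lit 337) (nat_lit 270) (nat_lit 173)) (XT.nd (nat_lit 78) (nat_lit 76) (nat_lit 0) (XT.lf (nat_lit 0) (nat_lit 20346772813) (nat_lit 152) (nat_lit 3839239847) (nat_lit 76) (nat_lit 41476636644) (nat_lit 11) (nat_lit 5) (nat_lit 13) (nat_lit 5) (nat_lit 12) (nat_lit 4) (nat_lit 338) (nat_lit 270) (nat_lit 172)) (XT.lf (nat_lit 0) (nat_lit 12095072461) (nat_lit 76) (nat_lit 16033481473) (nat_lit 152) (nat_lit 40362306864) (nat_lit 10) (nat_lit 5) (nat_lit 11) (nat_lit 5) (nat_lit 12) (nat_lit 4) (nat_lit 339) (nat_lit 270) (nat_lit 171))))))) (XT.nd (nat_lit 780) (nat_lit 76) (nat_lit 0) (XT.nd (nat_lit 390) (nat_lit 152) (nat_lit 0) (XT.nd (nat_lit 156) (nat_lit 76)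 (nat_lit 0) (XT.nd (nat_lit 78) (nat_lit 0) (nat_lit 0) (XT.lf (nat_lit 0) (nat_lit 28946948961) (nat_lit 76) (nat_lit 7410552390) (nat_lit 152) (nat_lit 35100083274) (nat_lit 10) (nat_lit 5) (nat_lit 11) (nat_lit 5) (nat_lit 12) (nat_lit 4) (nat_lit 340) (nat_lit 270) (nat_lit 170)) (XT.lf (nat_lit 0) (nat_lit 45016862808) (nat_lit 152) (nat_lit 27968988254) (nat_lit 0) (nat_lit 1585850603) (nat_lit 10) (nat_lit 5) (nat_lit 12) (nat_lit 4) (nat_lit 10) (nat_lit 4) (nat_lit 341) (nat_lit 270) (nat_lit 169))) (XT.nd (nat_lit 78) (nat_lit 76) (nat_lit 0) (XT.lf (nat_lit 0) (nat_lit 54224302198) (nat_lit 152) (nat_lit 12833269500) (nat_lit 0) (nat_lit 10778202461) (nat_lit 10) (nat_lit 5) (nat_lit 12) (nat_lit 4) (nat_lit 10) (nat_lit 4) (nat_lit 342) (nat_lit 270) (nat_lit 168)) (XT.nd (nat_lit 78) (nat_lit 0) (nat_lit 0) (XT.lf (nat_lit 0) (nat_lit 3149046670) (nat_lit 76) (nat_lit 60786161281)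 (nat_lit 76) (nat_lit 17325692465) (nat_lit 9) (nat_lit 4) (nat_lit 10) (nat_lit 5) (nat_lit 10) (nat_lit 4) (nat_lit 343) (nat_lit 270) (nat_lit 167)) (XT.lf (nat_lit 0) (nat_lit 20365220167) (nat_lit 76) (nat_lit 53977825871) (nat_lit 76) (nat_lit 10503672218) (nat_lit 9) (nat_lit 4) (nat_lit 10) (nat_lit 5) (nat_lit 10) (nat_lit 4) (nat_lit 344) (nat_lit 270) (nat_lit 166))))) (XT.nd (nat_lit 156) (nat_lit 76) (nat_lit 0) (XT.nd (nat_lit 78) (nat_lit 76) (nat_lit 0) (XT.lf (nat_lit 0) (nat_lit 38431916035) (nat_lit 76) (nat_lit 46833692775) (nat_lit 76) (nat_lit 3346505944) (nat_lit 9) (nat_lit 4) (nat_lit 10) (nat_lit 5) (nat_lit 10) (nat_lit 4) (nat_lit 345) (nat_lit 270) (nat_lit 165)) (XT.lf (nat_lit 0) (nat_lit 4029610118) (nat_lit 152) (nat_lit 35238898637) (nat_lit 76) (nat_lit 53294296699) (nat_lit 8) (nat_lit 5) (nat_lit 10) (nat_lit 5) (nat_lit 9) (nat_lit 4) (nat_lit 346)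 (nat_lit 270) (nat_lit 164))) (XT.nd (nat_lit 78) (nat_lit 76) (nat_lit 0) (XT.lf (nat_lit 0) (nat_lit 11656838971) (nat_lit 152) (nat_lit 19614900965) (nat_lit 76) (nat_lit 65436812942) (nat_lit 8) (nat_lit 5) (nat_lit 10) (nat_lit 5) (nat_lit 9) (nat_lit 4) (nat_lit 347) (nat_lit 270) (nat_lit 163)) (XT.nd (nat_lit 78) (nat_lit 76) (nat_lit 0) (XT.lf (nat_lit 0) (nat_lit 19660449770) (nat_lit 152) (nat_lit 3218757375) (nat_lit 76) (nat_lit 78182633126) (nat_lit 8) (nat_lit 5) (nat_lit 10) (nat_lit 5) (nat_lit 9) (nat_lit 4) (nat_lit 348) (nat_lit 270) (nat_lit 162)) (XT.lf (nat_lit 0) (nat_lit 14451095886) (nat_lit 76) (nat_lit 13834024952) (nat_lit 152) (nat_lit 77336630661) (nat_lit 7) (nat_lit 5) (nat_lit 8) (nat_lit 5) (nat_lit 9) (nat_lit 4) (nat_lit 349) (nat_lit 270) (nat_lit 161)))))) (XT.nd (nat_lit 390) (nat_lit 76) (nat_lit 0) (XT.nd (nat_lit 156) (nat_lit 0) (nat_lit 0)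 (XT.nd (nat_lit 78) (nat_lit 0) (nat_lit 0) (XT.lf (nat_lit 0) (nat_lit 33107706054) (nat_lit 76) (nat_lit 4283181615) (nat_lit 152) (nat_lit 73016280795) (nat_lit 7) (nat_lit 5) (nat_lit 8) (nat_lit 5) (nat_lit 9) (nat_lit 4) (nat_lit 350) (nat_lit 270) (nat_lit 160)) (XT.lf (nat_lit 0) (nat_lit 47037156933) (nat_lit 152) (nat_lit 62832655530) (nat_lit 0) (nat_lit 5557786240) (nat_lit 7) (nat_lit 5) (nat_lit 9) (nat_lit 4) (nat_lit 7) (nat_lit 4) (nat_lit 351) (nat_lit 270) (nat_lit 159))) (XT.nd (nat_lit 78) (nat_lit 0) (nat_lit 0) (XT.lf (nat_lit 0) (nat_lit 57231684662) (nat_lit 152) (nat_lit 47720578921) (nat_lit 0) (nat_lit 15743492601) (nat_lit 7) (nat_lit 5) (nat_lit 9) (nat_lit 4) (nat_lit 7) (nat_lit 4) (nat_lit 352) (nat_lit 270) (nat_lit 158)) (XT.nd (nat_lit 78) (nat_lit 0) (nat_lit 0) (XT.lf (nat_lit 0) (nat_lit 67931871074) (nat_lit 152) (nat_lit 31860378979) (nat_lit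 0) (nat_lit 26435277711) (nat_lit 7) (nat_lit 5) (nat_lit 9) (nat_lit 4) (nat_lit 7) (nat_lit 4) (nat_lit 353) (nat_lit 270) (nat_lit 157)) (XT.lf (nat_lit 0) (nat_lit 79163192803) (nat_lit 152) (nat_lit 15214293324) (nat_lit 0) (nat_lit 37658598199) (nat_lit 7) (nat_lit 5) (nat_lit 9) (nat_lit 4) (nat_lit 7) (nat_lit 4) (nat_lit 354) (nat_lit 270) (nat_lit 156))))) (XT.nd (nat_lit 156) (nat_lit 0) (nat_lit 0) (XT.nd (nat_lit 78) (nat_lit 0) (nat_lit 0) (XT.lf (nat_lit 0) (nat_lit 2331948496) (nat_lit 76) (nat_lit 88656850846) (nat_lit 76) (nat_lit 47144636013) (nat_lit 6) (nat_lit 4) (nat_lit 7) (nat_lit 5) (nat_lit 7) (nat_lit 4) (nat_lit 355) (nat_lit 270) (nat_lit 155)) (XT.lf (nat_lit 0) (nat_lit 21277032721) (nat_lit 76) (nat_lit 82382696847) (nat_lit 76) (nat_lit 40863224652) (nat_lit 6) (nat_lit 4) (nat_lit 7) (nat_lit 5) (nat_lit 7) (nat_lit 4) (nat_lit 356) (nat_lit 270) (nat_lit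 154))) (XT.nd (nat_lit 78) (nat_lit 0) (nat_lit 0) (XT.lf (nat_lit 0) (nat_lit 41163013447) (nat_lit 76) (nat_lit 75797747086) (nat_lit 76) (nat_lit 34271363119) (nat_lit 6) (nat_lit 4) (nat_lit 7) (nat_lit 5) (nat_lit 7) (nat_lit 4) (nat_lit 357) (nat_lit 270) (nat_lit 153)) (XT.nd (nat_lit 78) (nat_lit 0) (nat_lit 0) (XT.lf (nat_lit 0) (nat_lit 62037238246) (nat_lit 76) (nat_lit 68886323113) (nat_lit 76) (nat_lit 27353356506) (nat_lit 6) (nat_lit 4) (nat_lit 7) (nat_lit 5) (nat_lit 7) (nat_lit 4) (nat_lit 358) (nat_lit 270) (nat_lit 152)) (XT.lf (nat_lit 0) (nat_lit 83949407655) (nat_lit 76) (nat_lit 61631969156) (nat_lit 76) (nat_lit 20092733367) (nat_lit 6) (nat_lit 4) (nat_lit 7) (nat_lit 5) (nat_lit 7) (nat_lit 4) (nat_lit 359) (nat_lit 270) (nat_lit 151))))))))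
noncomputable def xc139 : XT := (XT.nd (nat_lit 1482) (nat_lit 76) (nat_lit 0) (XT.nd (nat_lit 702) (nat_lit 0) (nat_lit 0) (XT.nd (nat_lit 312) (nat_lit 76) (nat_lit 0) (XT.nd (nat_lit 156) (nat_lit 76) (nat_lit 0) (XT.nd (nat_lit 78) (nat_lit 0) (nat_lit 0) (XT.lf (nat_lit 0) (nat_lit 106951693504) (nat_lit 76) (nat_lit 54017412943) (nat_lit 76) (nat_lit 12472206506) (nat_lit 6) (nat_lit 4) (nat_lit 7) (nat_lit 5) (nat_lit 7) (nat_lit 4) (nat_lit 360) (nat_lit 270) (nat_lit 150)) (XT.lf (nat_lit 0) (nat_lit 131098863141) (nat_lit 76) (nat_lit 46024524579) (nat_lit 76) (nat_lit 4473631810) (nat_lit 6) (nat_lit 4) (nat_lit 7) (nat_lit 5) (nat_lit 7) (nat_lit 4) (nat_lit 361) (nat_lit 270) (nat_lit 149))) (XT.nd (nat_lit 78) (nat_lit 0) (nat_lit 0) (XT.lf (nat_lit 0) (nat_lit 3796505334) (nat_lit 152) (nat_lit 33773472389) (nat_lit 76) (nat_lit 152587608839) (nat_lit 5) (nat_lit 5) (nat_lit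 7) (nat_lit 5) (nat_lit 6) (nat_lit 4) (nat_lit 362) (nat_lit 270) (nat_lit 148)) (XT.lf (nat_lit 0) (nat_lit 12327190844) (nat_lit 152) (nat_lit 16290724764) (nat_lit 76) (nat_lit 170524731841) (nat_lit 5) (nat_lit 5) (nat_lit 7) (nat_lit 5) (nat_lit 6) (nat_lit 4) (nat_lit 363) (nat_lit 270) (nat_lit 147)))) (XT.nd (nat_lit 156) (nat_lit 0) (nat_lit 0) (XT.nd (nat_lit 78) (nat_lit 0) (nat_lit 0) (XT.lf (nat_lit 0) (nat_lit 2129722422) (nat_lit 76) (nat_lit 19185448546) (nat_lit 152) (nat_lit 187260253978) (nat_lit 4) (nat_lit 5) (nat_lit 5) (nat_lit 5) (nat_lit 6) (nat_lit 4) (nat_lit 364) (nat_lit 270) (nat_lit 146)) (XT.lf (nat_lit 0) (nat_lit 22032241138) (nat_lit 76) (nat_lit 8993757574) (nat_lit 152) (nat_lit 187440171679) (nat_lit 4) (nat_lit 5) (nat_lit 5) (nat_lit 5) (nat_lit 6) (nat_lit 4) (nat_lit 365) (nat_lit 270) (nat_lit 145))) (XT.nd (nat_lit 78) (nat_lit 0) (nat_lit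 0) (XT.lf (nat_lit 0) (nat_lit 41246669603) (nat_lit 152) (nat_lit 185952625593) (nat_lit 0) (nat_lit 1650944258) (nat_lit 4) (nat_lit 5) (nat_lit 6) (nat_lit 4) (nat_lit 4) (nat_lit 4) (nat_lit 366) (nat_lit 270) (nat_lit 144)) (XT.nd (nat_lit 78) (nat_lit 0) (nat_lit 0) (XT.lf (nat_lit 0) (nat_lit 52123567563) (nat_lit 152) (nat_lit 175098885049) (nat_lit 0) (nat_lit 12523801048) (nat_lit 4) (nat_lit 5) (nat_lit 6) (nat_lit 4) (nat_lit 4) (nat_lit 4) (nat_lit 367) (nat_lit 270) (nat_lit 143)) (XT.lf (nat_lit 0) (nat_lit 63542172207) (nat_lit 152) (nat_lit 163706447623) (nat_lit 0) (nat_lit 23938556958) (nat_lit 4) (nat_lit 5) (nat_lit 6) (nat_lit 4) (nat_lit 4) (nat_lit 4) (nat_lit 368) (nat_lit 270) (nat_lit 142)))))) (XT.nd (nat_lit 390) (nat_lit 0) (nat_lit 0) (XT.nd (nat_lit 156) (nat_lit 0) (nat_lit 0) (XT.nd (nat_lit 78) (nat_lit 0) (nat_lit 0) (XT.lf (nat_lit 0) (nat_lit 75529670689)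 (nat_lit 152) (nat_lit 151748188462) (nat_lit 0) (nat_lit 35922389979) (nat_lit 4) (nat_lit 5) (nat_lit 6) (nat_lit 4) (nat_lit 4) (nat_lit 4) (nat_lit 369) (nat_lit 270) (nat_lit 141)) (XT.lf (nat_lit 0) (nat_lit 88114604672) (nat_lit 152) (nat_lit 139195635521) (nat_lit 0) (nat_lit 48503833048) (nat_lit 4) (nat_lit 5) (nat_lit 6) (nat_lit 4) (nat_lit 4) (nat_lit 4) (nat_lit 370) (nat_lit 270) (nat_lit 140))) (XT.nd (nat_lit 78) (nat_lit 0) (nat_lit 0) (XT.lf (nat_lit 0) (nat_lit 101326938285) (nat_lit 152) (nat_lit 126018901770) (nat_lit 0) (nat_lit 61712841979) (nat_lit 4) (nat_lit 5) (nat_lit 6) (nat_lit 4) (nat_lit 4) (nat_lit 4) (nat_lit 371) (nat_lit 270) (nat_lit 139)) (XT.nd (nat_lit 78) (nat_lit 0) (nat_lit 0) (XT.lf (nat_lit 0) (nat_lit 115198129464) (nat_lit 152) (nat_lit 112186614032) (nat_lit 0) (nat_lit 75580866796) (nat_lit 4) (nat_lit 5) (nat_lit 6) (nat_lit 4) (nat_lit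 4) (nat_lit 4) (nat_lit 372) (nat_lit 270) (nat_lit 138)) (XT.lf (nat_lit 0) (nat_lit 129761204855) (nat_lit 152) (nat_lit 97665838290) (nat_lit 0) (nat_lit 90140926604) (nat_lit 4) (nat_lit 5) (nat_lit 6) (nat_lit 4) (nat_lit 4) (nat_lit 4) (nat_lit 373) (nat_lit 270) (nat_lit 137))))) (XT.nd (nat_lit 156) (nat_lit 0) (nat_lit 0) (XT.nd (nat_lit 78) (nat_lit 0) (nat_lit 0) (XT.lf (nat_lit 0) (nat_lit 145050838448) (nat_lit 152) (nat_lit 82422001267) (nat_lit 0) (nat_lit 105427688213) (nat_lit 4) (nat_lit 5) (nat_lit 6) (nat_lit 4) (nat_lit 4) (nat_lit 4) (nat_lit 374) (nat_lit 270) (nat_lit 136)) (XT.lf (nat_lit 0) (nat_lit 161103434132) (nat_lit 152) (nat_lit 66418808114) (nat_lit 0) (nat_lit 121477548674) (nat_lit 4) (nat_lit 5) (nat_lit 6) (nat_lit 4) (nat_lit 4) (nat_lit 4) (nat_lit 375) (nat_lit 270) (nat_lit 135))) (XT.nd (nat_lit 78) (nat_lit 0) (nat_lit 0) (XT.lf (nat_lit 0)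 (nat_lit 177957212373) (nat_lit 152) (nat_lit 49618155990) (nat_lit 0) (nat_lit 138328721940) (nat_lit 4) (nat_lit 5) (nat_lit 6) (nat_lit 4) (nat_lit 4) (nat_lit 4) (nat_lit 376) (nat_lit 270) (nat_lit 134)) (XT.nd (nat_lit 78) (nat_lit 0) (nat_lit 0) (XT.lf (nat_lit 0) (nat_lit 195652301214) (nat_lit 152) (nat_lit 31980043342) (nat_lit 0) (nat_lit 156021329853) (nat_lit 4) (nat_lit 5) (nat_lit 6) (nat_lit 4) (nat_lit 4) (nat_lit 4) (nat_lit 377) (nat_lit 270) (nat_lit 133)) (XT.lf (nat_lit 0) (nat_lit 214230831819) (nat_lit 152) (nat_lit 13462474664) (nat_lit 0) (nat_lit 174597497670) (nat_lit 4) (nat_lit 5) (nat_lit 6) (nat_lit 4) (nat_lit 4) (nat_lit 4) (nat_lit 378) (nat_lit 270) (nat_lit 132))))))) (XT.nd (nat_lit 32526) (nat_lit 0) (nat_lit 5548) (XT.nd (nat_lit 390) (nat_lit 0) (nat_lit 0) (XT.nd (nat_lit 156) (nat_lit 0) (nat_lit 0) (XT.nd (nat_lit 78) (nat_lit 0) (nat_lit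 0) (XT.lf (nat_lit 0) (nat_lit 6176320315) (nat_lit 76) (nat_lit 227657148139) (nat_lit 76) (nat_lit 188021563715) (nat_lit 3) (nat_lit 4) (nat_lit 4) (nat_lit 5) (nat_lit 4) (nat_lit 4) (nat_lit 379) (nat_lit 270) (nat_lit 131)) (XT.lf (nat_lit 0) (nat_lit 27262146438) (nat_lit 76) (nat_lit 227380857531) (nat_lit 76) (nat_lit 187743129988) (nat_lit 3) (nat_lit 4) (nat_lit 4) (nat_lit 5) (nat_lit 4) (nat_lit 4) (nat_lit 380) (nat_lit 270) (nat_lit 130))) (XT.nd (nat_lit 78) (nat_lit 0) (nat_lit 0) (XT.lf (nat_lit 0) (nat_lit 49400077843) (nat_lit 76) (nat_lit 227091770347) (nat_lit 76) (nat_lit 187452001739) (nat_lit 3) (nat_lit 4) (nat_lit 4) (nat_lit 5) (nat_lit 4) (nat_lit 4) (nat_lit 381) (nat_lit 270) (nat_lit 129)) (XT.nd (nat_lit 78) (nat_lit 0) (nat_lit 0) (XT.lf (nat_lit 0) (nat_lit 72642823889) (nat_lit 76) (nat_lit 226789198285) (nat_lit 76) (nat_lit 187147485804) (nat_lit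 3) (nat_lit 4) (nat_lit 4) (nat_lit 5) (nat_lit 4) (nat_lit 4) (nat_lit 382) (nat_lit 270) (nat_lit 128)) (XT.lf (nat_lit 0) (nat_lit 97045724449) (nat_lit 76) (nat_lit 226472420934) (nat_lit 76) (nat_lit 186828857147) (nat_lit 3) (nat_lit 4) (nat_lit 4) (nat_lit 5) (nat_lit 4) (nat_lit 4) (nat_lit 383) (nat_lit 270) (nat_lit 127))))) (XT.nd (nat_lit 31902) (nat_lit 0) (nat_lit 7296) (XT.nd (nat_lit 31824) (nat_lit 0) (nat_lit 7296) (XT.lf (nat_lit 0) (nat_lit 122666881666) (nat_lit 76) (nat_lit 226140684063) (nat_lit 76) (nat_lit 186495357126) (nat_lit 3) (nat_lit 4) (nat_lit 4) (nat_lit 5) (nat_lit 4) (nat_lit 4) (nat_lit 384) (nat_lit 270) (nat_lit 126)) (XT.lf (nat_lit 0) (nat_lit 743015992) (nat_lit 0) (nat_lit 743015992) (nat_lit 532) (nat_lit 2452172797) (nat_lit 99) (nat_lit 5) (nat_lit 99) (nat_lit 3) (nat_lit 106) (nat_lit 3) (nat_lit 271) (nat_lit 271) (nat_lit 238))) (XT.nd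 (nat_lit 78) (nat_lit 0) (nat_lit 0) (XT.lf (nat_lit 0) (nat_lit 4229092845) (nat_lit 532) (nat_lit 2871802520) (nat_lit 608) (nat_lit 909707748) (nat_lit 99) (nat_lit 5) (nat_lit 106) (nat_lit 3) (nat_lit 107) (nat_lit 5) (nat_lit 272) (nat_lit 271) (nat_lit 237)) (XT.nd (nat_lit 78) (nat_lit 0) (nat_lit 0) (XT.lf (nat_lit 76) (nat_lit 781413817) (nat_lit 0) (nat_lit 4729934190) (nat_lit 608) (nat_lit 2642268777) (nat_lit 100) (nat_lit 5) (nat_lit 99) (nat_lit 5) (nat_lit 107) (nat_lit 5) (nat_lit 273) (nat_lit 271) (nat_lit 236)) (XT.lf (nat_lit 76) (nat_lit 4675733449) (nat_lit 0) (nat_lit 2159319948) (nat_lit 608) (nat_lit 1470079139) (nat_lit 100) (nat_lit 5) (nat_lit 99) (nat_lit 5) (nat_lit 107) (nat_lit 5) (nat_lit 274) (nat_lit 271) (nat_lit 235)))))) (XT.nd (nat_lit 390) (nat_lit 1216) (nat_lit 0) (XT.nd (nat_lit 156) (nat_lit 0) (nat_lit 0) (XT.nd (nat_lit 78) (nat_lit 608)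 (nat_lit 0) (XT.lf (nat_lit 76) (nat_lit 256997408) (nat_lit 0) (nat_lit 7912931165) (nat_lit 608) (nat_lit 297254155) (nat_lit 101) (nat_lit 5) (nat_lit 100) (nat_lit 5) (nat_lit 108) (nat_lit 5) (nat_lit 275) (nat_lit 271) (nat_lit 234)) (XT.lf (nat_lit 0) (nat_lit 936017931) (nat_lit 608) (nat_lit 4266557956) (nat_lit 684) (nat_lit 3432633487) (nat_lit 92) (nat_lit 5) (nat_lit 100) (nat_lit 5) (nat_lit 101) (nat_lit 5) (nat_lit 276) (nat_lit 271) (nat_lit 233))) (XT.nd (nat_lit 78) (nat_lit 0) (nat_lit 76) (XT.lf (nat_lit 0) (nat_lit 2157949195) (nat_lit 608) (nat_lit 173500421) (nat_lit 684) (nat_lit 6483274395) (nat_lit 92) (nat_lit 5) (nat_lit 100) (nat_lit 5) (nat_lit 101) (nat_lit 5) (nat_lit 277) (nat_lit 271) (nat_lit 232)) (XT.nd (nat_lit 78) (nat_lit 0) (nat_lit 0) (XT.lf (nat_lit 0) (nat_lit 3458870135) (nat_lit 608) (nat_lit 4796750945) (nat_lit 684) (nat_lit 746869667)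 (nat_lit 93) (nat_lit 5) (nat_lit 101) (nat_lit 5) (nat_lit 102) (nat_lit 5) (nat_lit 278) (nat_lit 271) (nat_lit 231)) (XT.lf (nat_lit 0) (nat_lit 4808535454) (nat_lit 608) (nat_lit 471306616) (nat_lit 684) (nat_lit 3920781710) (nat_lit 93) (nat_lit 5) (nat_lit 101) (nat_lit 5) (nat_lit 102) (nat_lit 5) (nat_lit 279) (nat_lit 271) (nat_lit 230))))) (XT.nd (nat_lit 156) (nat_lit 1292) (nat_lit 0) (XT.nd (nat_lit 78) (nat_lit 0) (nat_lit 76) (XT.lf (nat_lit 76) (nat_lit 4162193112) (nat_lit 0) (nat_lit 2073704297) (nat_lit 684) (nat_lit 3172410511) (nat_lit 94) (nat_lit 5) (nat_lit 93) (nat_lit 5) (nat_lit 102) (nat_lit 5) (nat_lit 280) (nat_lit 271) (nat_lit 229)) (XT.lf (nat_lit 0) (nat_lit 7710312816) (nat_lit 608) (nat_lit 646301052) (nat_lit 76) (nat_lit 1271125864) (nat_lit 94) (nat_lit 5) (nat_lit 102) (nat_lit 5) (nat_lit 95) (nat_lit 5) (nat_lit 281) (nat_lit 271) (nat_lit 228)))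 (XT.nd (nat_lit 78) (nat_lit 760) (nat_lit 0) (XT.lf (nat_lit 0) (nat_lit 4243674954) (nat_lit 608) (nat_lit 5064919519) (nat_lit 684) (nat_lit 547182089) (nat_lit 86) (nat_lit 5) (nat_lit 94) (nat_lit 5) (nat_lit 95) (nat_lit 5) (nat_lit 282) (nat_lit 271) (nat_lit 227)) (XT.nd (nat_lit 78) (nat_lit 684) (nat_lit 0) (XT.lf (nat_lit 0) (nat_lit 824882117) (nat_lit 684) (nat_lit 750922094) (nat_lit 76) (nat_lit 8520750486) (nat_lit 85) (nat_lit 5) (nat_lit 94) (nat_lit 5) (nat_lit 86) (nat_lit 5) (nat_lit 283) (nat_lit 271) (nat_lit 226)) (XT.lf (nat_lit 0) (nat_lit 2303617265) (nat_lit 760) (nat_lit 5935962241) (nat_lit 76) (nat_lit 2106642434) (nat_lit 76) (nat_lit 5) (nat_lit 86) (nat_lit 5) (nat_lit 77) (nat_lit 5) (nat_lit 284) (nat_lit 271) (nat_lit 225))))))))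
noncomputable def xc140 : XT := (XT.nd (nat_lit 1482) (nat_lit 1672) (nat_lit 0) (XT.nd (nat_lit 702) (nat_lit 1292) (nat_lit 0) (XT.nd (nat_lit 312) (nat_lit 684) (nat_lit 0) (XT.nd (nat_lit 156) (nat_lit 380) (nat_lit 0) (XT.nd (nat_lit 78) (nat_lit 380) (nat_lit 0) (XT.lf (nat_lit 0) (nat_lit 3849804784) (nat_lit 760) (nat_lit 820722146) (nat_lit 76) (nat_lit 5938285588) (nat_lit 76) (nat_lit 5) (nat_lit 86) (nat_lit 5) (nat_lit 77) (nat_lit 5) (nat_lit 285) (nat_lit 271) (nat_lit 224)) (XT.lf (nat_lit 0) (nat_lit 4658903453) (nat_lit 380) (nat_lit 844048242) (nat_lit 456) (nat_lit 5380208673) (nat_lit 71) (nat_lit 5) (nat_lit 76) (nat_lit 5) (nat_lit 77) (nat_lit 5) (nat_lit 286) (nat_lit 271) (nat_lit 223))) (XT.nd (nat_lit 78) (nat_lit 380) (nat_lit 0) (XT.lf (nat_lit 0) (nat_lit 7260804108) (nat_lit 456) (nat_lit 821359541) (nat_lit 76) (nat_lit 3088064544) (nat_lit 71) (nat_lit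 5) (nat_lit 77) (nat_lit 5) (nat_lit 72) (nat_lit 5) (nat_lit 287) (nat_lit 271) (nat_lit 222)) (XT.lf (nat_lit 0) (nat_lit 4956431369) (nat_lit 380) (nat_lit 4201690575) (nat_lit 456) (nat_lit 2311048819) (nat_lit 66) (nat_lit 5) (nat_lit 71) (nat_lit 5) (nat_lit 72) (nat_lit 5) (nat_lit 288) (nat_lit 271) (nat_lit 221)))) (XT.nd (nat_lit 156) (nat_lit 304) (nat_lit 0) (XT.nd (nat_lit 78) (nat_lit 380) (nat_lit 0) (XT.lf (nat_lit 0) (nat_lit 11012222331) (nat_lit 380) (nat_lit 113618392) (nat_lit 456) (nat_lit 658538217) (nat_lit 66) (nat_lit 5) (nat_lit 71) (nat_lit 5) (nat_lit 72) (nat_lit 5) (nat_lit 289) (nat_lit 271) (nat_lit 220)) (XT.lf (nat_lit 0) (nat_lit 1155642127) (nat_lit 380) (nat_lit 6807401602) (nat_lit 76) (nat_lit 4145874636) (nat_lit 61) (nat_lit 5) (nat_lit 66) (nat_lit 5) (nat_lit 62) (nat_lit 5) (nat_lit 290) (nat_lit 271) (nat_lit 219))) (XT.nd (nat_lit 78) (nat_lit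 304) (nat_lit 0) (XT.lf (nat_lit 0) (nat_lit 3017462093) (nat_lit 380) (nat_lit 796293461) (nat_lit 76) (nat_lit 8636518595) (nat_lit 61) (nat_lit 5) (nat_lit 66) (nat_lit 5) (nat_lit 62) (nat_lit 5) (nat_lit 291) (nat_lit 271) (nat_lit 218)) (XT.nd (nat_lit 78) (nat_lit 0) (nat_lit 0) (XT.lf (nat_lit 0) (nat_lit 5036208531) (nat_lit 380) (nat_lit 7157636168) (nat_lit 76) (nat_lit 611739598) (nat_lit 57) (nat_lit 5) (nat_lit 62) (nat_lit 5) (nat_lit 58) (nat_lit 5) (nat_lit 292) (nat_lit 271) (nat_lit 217)) (XT.lf (nat_lit 0) (nat_lit 7198730864) (nat_lit 380) (nat_lit 837902328) (nat_lit 76) (nat_lit 5139959446) (nat_lit 57) (nat_lit 5) (nat_lit 62) (nat_lit 5) (nat_lit 58) (nat_lit 5) (nat_lit 293) (nat_lit 271) (nat_lit 216)))))) (XT.nd (nat_lit 390) (nat_lit 456) (nat_lit 0) (XT.nd (nat_lit 156) (nat_lit 608) (nat_lit 0) (XT.nd (nat_lit 78) (nat_lit 0) (nat_lit 0) (XT.lf (nat_lit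 0) (nat_lit 5950930564) (nat_lit 228) (nat_lit 3579560692) (nat_lit 304) (nat_lit 4032675609) (nat_lit 54) (nat_lit 5) (nat_lit 57) (nat_lit 5) (nat_lit 58) (nat_lit 5) (nat_lit 294) (nat_lit 271) (nat_lit 215)) (XT.lf (nat_lit 0) (nat_lit 11979492008) (nat_lit 304) (nat_lit 915748190) (nat_lit 76) (nat_lit 1073864665) (nat_lit 54) (nat_lit 5) (nat_lit 58) (nat_lit 5) (nat_lit 55) (nat_lit 5) (nat_lit 295) (nat_lit 271) (nat_lit 214))) (XT.nd (nat_lit 78) (nat_lit 228) (nat_lit 0) (XT.lf (nat_lit 0) (nat_lit 278939586) (nat_lit 380) (nat_lit 8174090303) (nat_lit 76) (nat_lit 5935833949) (nat_lit 49) (nat_lit 5) (nat_lit 54) (nat_lit 5) (nat_lit 50) (nat_lit 5) (nat_lit 296) (nat_lit 271) (nat_lit 213)) (XT.nd (nat_lit 78) (nat_lit 228) (nat_lit 0) (XT.lf (nat_lit 0) (nat_lit 2580656911) (nat_lit 380) (nat_lit 1164975172) (nat_lit 76) (nat_lit 11083076246) (nat_lit 49) (nat_lit 5) (nat_lit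 54) (nat_lit 5) (nat_lit 50) (nat_lit 5) (nat_lit 297) (nat_lit 271) (nat_lit 212)) (XT.lf (nat_lit 0) (nat_lit 5089237901) (nat_lit 304) (nat_lit 8944097658) (nat_lit 76) (nat_lit 1252676276) (nat_lit 46) (nat_lit 5) (nat_lit 50) (nat_lit 5) (nat_lit 47) (nat_lit 5) (nat_lit 298) (nat_lit 271) (nat_lit 211))))) (XT.nd (nat_lit 156) (nat_lit 228) (nat_lit 0) (XT.nd (nat_lit 78) (nat_lit 228) (nat_lit 0) (XT.lf (nat_lit 0) (nat_lit 7777596413) (nat_lit 304) (nat_lit 1598172477) (nat_lit 76) (nat_lit 6387747232) (nat_lit 46) (nat_lit 5) (nat_lit 50) (nat_lit 5) (nat_lit 47) (nat_lit 5) (nat_lit 299) (nat_lit 271) (nat_lit 210)) (XT.lf (nat_lit 0) (nat_lit 6281973739) (nat_lit 228) (nat_lit 4390661008) (nat_lit 304) (nat_lit 5588698283) (nat_lit 43) (nat_lit 5) (nat_lit 46) (nat_lit 5) (nat_lit 47) (nat_lit 5) (nat_lit 300) (nat_lit 271) (nat_lit 209))) (XT.nd (nat_lit 78) (nat_lit 228)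 (nat_lit 0) (XT.lf (nat_lit 0) (nat_lit 13727862460) (nat_lit 304) (nat_lit 2219449955) (nat_lit 76) (nat_lit 836004595) (nat_lit 43) (nat_lit 5) (nat_lit 47) (nat_lit 5) (nat_lit 44) (nat_lit 5) (nat_lit 301) (nat_lit 271) (nat_lit 208)) (XT.nd (nat_lit 78) (nat_lit 76) (nat_lit 0) (XT.lf (nat_lit 0) (nat_lit 6015920581) (nat_lit 152) (nat_lit 11061791908) (nat_lit 228) (nat_lit 246640461) (nat_lit 41) (nat_lit 5) (nat_lit 43) (nat_lit 5) (nat_lit 44) (nat_lit 5) (nat_lit 302) (nat_lit 271) (nat_lit 207)) (XT.lf (nat_lit 0) (nat_lit 2630485389) (nat_lit 228) (nat_lit 3226657818) (nat_lit 76) (nat_lit 12032510681) (nat_lit 40) (nat_lit 5) (nat_lit 43) (nat_lit 5) (nat_lit 41) (nat_lit 5) (nat_lit 303) (nat_lit 271) (nat_lit 206))))))) (XT.nd (nat_lit 780) (nat_lit 684) (nat_lit 0) (XT.nd (nat_lit 390) (nat_lit 380) (nat_lit 0) (XT.nd (nat_lit 156) (nat_lit 380) (nat_lit 0) (XT.nd (nat_lit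 78) (nat_lit 0) (nat_lit 0) (XT.lf (nat_lit 0) (nat_lit 5396061394) (nat_lit 228) (nat_lit 308667850) (nat_lit 304) (nat_lit 12775250512) (nat_lit 37) (nat_lit 5) (nat_lit 40) (nat_lit 5) (nat_lit 41) (nat_lit 5) (nat_lit 304) (nat_lit 271) (nat_lit 205)) (XT.lf (nat_lit 0) (nat_lit 9052117094) (nat_lit 304) (nat_lit 4654480942) (nat_lit 76) (nat_lit 5387289978) (nat_lit 37) (nat_lit 5) (nat_lit 41) (nat_lit 5) (nat_lit 38) (nat_lit 5) (nat_lit 305) (nat_lit 271) (nat_lit 204))) (XT.nd (nat_lit 78) (nat_lit 228) (nat_lit 0) (XT.lf (nat_lit 0) (nat_lit 4298179815) (nat_lit 152) (nat_lit 8319672262) (nat_lit 228) (nat_lit 7118126611) (nat_lit 35) (nat_lit 5) (nat_lit 37) (nat_lit 5) (nat_lit 38) (nat_lit 5) (nat_lit 306) (nat_lit 271) (nat_lit 203)) (XT.nd (nat_lit 78) (nat_lit 228) (nat_lit 0) (XT.lf (nat_lit 0) (nat_lit 13829805757) (nat_lit 152) (nat_lit 2590241463) (nat_lit 228) (nat_lit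 3987252189) (nat_lit 35) (nat_lit 5) (nat_lit 37) (nat_lit 5) (nat_lit 38) (nat_lit 5) (nat_lit 307) (nat_lit 271) (nat_lit 202)) (XT.lf (nat_lit 0) (nat_lit 2730027532) (nat_lit 228) (nat_lit 17758620238) (nat_lit 304) (nat_lit 619756169) (nat_lit 32) (nat_lit 5) (nat_lit 35) (nat_lit 5) (nat_lit 36) (nat_lit 5) (nat_lit 308) (nat_lit 271) (nat_lit 201))))) (XT.nd (nat_lit 156) (nat_lit 152) (nat_lit 0) (XT.nd (nat_lit 78) (nat_lit 152) (nat_lit 0) (XT.lf (nat_lit 0) (nat_lit 2958791503) (nat_lit 304) (nat_lit 9227425445) (nat_lit 76) (nat_lit 9649299302) (nat_lit 31) (nat_lit 5) (nat_lit 35) (nat_lit 5) (nat_lit 32) (nat_lit 5) (nat_lit 309) (nat_lit 271) (nat_lit 200)) (XT.lf (nat_lit 0) (nat_lit 353765260) (nat_lit 152) (nat_lit 6328462031) (nat_lit 228) (nat_lit 15916937581) (nat_lit 29) (nat_lit 5) (nat_lit 31) (nat_lit 5) (nat_lit 32) (nat_lit 5) (nat_lit 310) (nat_lit 271) (nat_lit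 199))) (XT.nd (nat_lit 78) (nat_lit 152) (nat_lit 0) (XT.lf (nat_lit 0) (nat_lit 10706359514) (nat_lit 152) (nat_lit 23466397) (nat_lit 228) (nat_lit 12664297245) (nat_lit 29) (nat_lit 5) (nat_lit 31) (nat_lit 5) (nat_lit 32) (nat_lit 5) (nat_lit 311) (nat_lit 271) (nat_lit 198)) (XT.nd (nat_lit 78) (nat_lit 152) (nat_lit 0) (XT.lf (nat_lit 0) (nat_lit 15065244567) (nat_lit 228) (nat_lit 2782668846) (nat_lit 76) (nat_lit 6376669442) (nat_lit 29) (nat_lit 5) (nat_lit 32) (nat_lit 5) (nat_lit 30) (nat_lit 5) (nat_lit 312) (nat_lit 271) (nat_lit 197)) (XT.lf (nat_lit 0) (nat_lit 7842171834) (nat_lit 152) (nat_lit 11881367103) (nat_lit 228) (nat_lit 5367745658) (nat_lit 27) (nat_lit 5) (nat_lit 29) (nat_lit 5) (nat_lit 30) (nat_lit 5) (nat_lit 313) (nat_lit 271) (nat_lit 196)))))) (XT.nd (nat_lit 390) (nat_lit 304) (nat_lit 0) (XT.nd (nat_lit 156) (nat_lit 152) (nat_lit 0) (XT.nd (nat_lit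 78) (nat_lit 228) (nat_lit 0) (XT.lf (nat_lit 0) (nat_lit 19069161227) (nat_lit 152) (nat_lit 5576389283) (nat_lit 228) (nat_lit 1354253923) (nat_lit 27) (nat_lit 5) (nat_lit 29) (nat_lit 5) (nat_lit 30) (nat_lit 5) (nat_lit 314) (nat_lit 271) (nat_lit 195)) (XT.lf (nat_lit 0) (nat_lit 2832294412) (nat_lit 228) (nat_lit 23006288247) (nat_lit 76) (nat_lit 1109760173) (nat_lit 24) (nat_lit 5) (nat_lit 27) (nat_lit 5) (nat_lit 25) (nat_lit 5) (nat_lit 315) (nat_lit 271) (nat_lit 194))) (XT.nd (nat_lit 78) (nat_lit 152) (nat_lit 0) (XT.lf (nat_lit 0) (nat_lit 7377776285) (nat_lit 228) (nat_lit 12480244724) (nat_lit 76) (nat_lit 8075441187) (nat_lit 24) (nat_lit 5) (nat_lit 27) (nat_lit 5) (nat_lit 25) (nat_lit 5) (nat_lit 316) (nat_lit 271) (nat_lit 193)) (XT.nd (nat_lit 78) (nat_lit 152) (nat_lit 0) (XT.lf (nat_lit 0) (nat_lit 12135678686) (nat_lit 228) (nat_lit 1451963358) (nat_lit 76)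 (nat_lit 15380957197) (nat_lit 24) (nat_lit 5) (nat_lit 27) (nat_lit 5) (nat_lit 25) (nat_lit 5) (nat_lit 317) (nat_lit 271) (nat_lit 192)) (XT.lf (nat_lit 0) (nat_lit 10438924438) (nat_lit 152) (nat_lit 6841386383) (nat_lit 228) (nat_lit 12767758714) (nat_lit 22) (nat_lit 5) (nat_lit 24) (nat_lit 5) (nat_lit 25) (nat_lit 5) (nat_lit 318) (nat_lit 271) (nat_lit 191))))) (XT.nd (nat_lit 156) (nat_lit 228) (nat_lit 0) (XT.nd (nat_lit 78) (nat_lit 76) (nat_lit 0) (XT.lf (nat_lit 0) (nat_lit 22696987637) (nat_lit 228) (nat_lit 8232823648) (nat_lit 76) (nat_lit 250978669) (nat_lit 22) (nat_lit 5) (nat_lit 25) (nat_lit 5) (nat_lit 23) (nat_lit 4) (nat_lit 319) (nat_lit 271) (nat_lit 190)) (XT.lf (nat_lit 0) (nat_lit 3696449416) (nat_lit 76) (nat_lit 24844618613) (nat_lit 152) (nat_lit 3821266321) (nat_lit 21) (nat_lit 5) (nat_lit 22) (nat_lit 5) (nat_lit 23) (nat_lit 4) (nat_lit 320) (nat_lit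 271) (nat_lit 189))) (XT.nd (nat_lit 78) (nat_lit 152) (nat_lit 0) (XT.lf (nat_lit 0) (nat_lit 1168492146) (nat_lit 152) (nat_lit 17129150696) (nat_lit 76) (nat_lit 15298065168) (nat_lit 20) (nat_lit 5) (nat_lit 22) (nat_lit 5) (nat_lit 21) (nat_lit 5) (nat_lit 321) (nat_lit 271) (nat_lit 188)) (XT.nd (nat_lit 78) (nat_lit 152) (nat_lit 0) (XT.lf (nat_lit 0) (nat_lit 6266719436) (nat_lit 152) (nat_lit 5099287481) (nat_lit 76) (nat_lit 23522255428) (nat_lit 20) (nat_lit 5) (nat_lit 22) (nat_lit 5) (nat_lit 21) (nat_lit 5) (nat_lit 322) (nat_lit 271) (nat_lit 187)) (XT.lf (nat_lit 0) (nat_lit 7760388825) (nat_lit 152) (nat_lit 3968631165) (nat_lit 228) (nat_lit 24510979839) (nat_lit 18) (nat_lit 5) (nat_lit 20) (nat_lit 5) (nat_lit 21) (nat_lit 5) (nat_lit 323) (nat_lit 271) (nat_lit 186))))))))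
noncomputable def xc141 : XT := (XT.nd (nat_lit 1482) (nat_lit 304) (nat_lit 0) (XT.nd (nat_lit 702) (nat_lit 228) (nat_lit 0) (XT.nd (nat_lit 312) (nat_lit 304) (nat_lit 0) (XT.nd (nat_lit 156) (nat_lit 76) (nat_lit 0) (XT.nd (nat_lit 78) (nat_lit 0) (nat_lit 0) (XT.lf (nat_lit 0) (nat_lit 17599656003) (nat_lit 228) (nat_lit 16295856457) (nat_lit 76) (nat_lit 3757063588) (nat_lit 18) (nat_lit 5) (nat_lit 21) (nat_lit 5) (nat_lit 19) (nat_lit 4) (nat_lit 324) (nat_lit 271) (nat_lit 185)) (XT.lf (nat_lit 0) (nat_lit 23817586972) (nat_lit 228) (nat_lit 3587223413) (nat_lit 76) (nat_lit 11728294805) (nat_lit 18) (nat_lit 5) (nat_lit 21) (nat_lit 5) (nat_lit 19) (nat_lit 4) (nat_lit 325) (nat_lit 271) (nat_lit 184))) (XT.nd (nat_lit 78) (nat_lit 0) (nat_lit 0) (XT.lf (nat_lit 0) (nat_lit 10060507293) (nat_lit 76) (nat_lit 20432221460) (nat_lit 152) (nat_lit 10187628008) (nat_lit 17) (nat_lit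 5) (nat_lit 18) (nat_lit 5) (nat_lit 19) (nat_lit 4) (nat_lit 326) (nat_lit 271) (nat_lit 183)) (XT.lf (nat_lit 0) (nat_lit 24497127477) (nat_lit 76) (nat_lit 13054723757) (nat_lit 152) (nat_lit 4750619627) (nat_lit 17) (nat_lit 5) (nat_lit 18) (nat_lit 5) (nat_lit 19) (nat_lit 4) (nat_lit 327) (nat_lit 271) (nat_lit 182)))) (XT.nd (nat_lit 156) (nat_lit 76) (nat_lit 0) (XT.nd (nat_lit 78) (nat_lit 152) (nat_lit 0) (XT.lf (nat_lit 0) (nat_lit 917368473) (nat_lit 152) (nat_lit 4382598617) (nat_lit 76) (nat_lit 38705495681) (nat_lit 16) (nat_lit 5) (nat_lit 18) (nat_lit 5) (nat_lit 17) (nat_lit 5) (nat_lit 328) (nat_lit 271) (nat_lit 181)) (XT.lf (nat_lit 0) (nat_lit 6902587357) (nat_lit 228) (nat_lit 35895855575) (nat_lit 76) (nat_lit 2981602841) (nat_lit 14) (nat_lit 5) (nat_lit 17) (nat_lit 5) (nat_lit 15) (nat_lit 4) (nat_lit 329) (nat_lit 271) (nat_lit 180))) (XT.nd (nat_lit 78)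 (nat_lit 76) (nat_lit 0) (XT.lf (nat_lit 0) (nat_lit 13339773075) (nat_lit 228) (nat_lit 22728074645) (nat_lit 76) (nat_lit 11567884066) (nat_lit 14) (nat_lit 5) (nat_lit 17) (nat_lit 5) (nat_lit 15) (nat_lit 4) (nat_lit 330) (nat_lit 271) (nat_lit 179)) (XT.nd (nat_lit 78) (nat_lit 76) (nat_lit 0) (XT.lf (nat_lit 0) (nat_lit 20089659043) (nat_lit 228) (nat_lit 8917903452) (nat_lit 76) (nat_lit 20577106277) (nat_lit 14) (nat_lit 5) (nat_lit 17) (nat_lit 5) (nat_lit 15) (nat_lit 4) (nat_lit 331) (nat_lit 271) (nat_lit 178)) (XT.lf (nat_lit 0) (nat_lit 5751627357) (nat_lit 76) (nat_lit 21506488081) (nat_lit 152) (nat_lit 24368891667) (nat_lit 13) (nat_lit 5) (nat_lit 14) (nat_lit 5) (nat_lit 15) (nat_lit 4) (nat_lit 332) (nat_lit 271) (nat_lit 177)))))) (XT.nd (nat_lit 390) (nat_lit 76) (nat_lit 0) (XT.nd (nat_lit 156) (nat_lit 152) (nat_lit 0) (XT.nd (nat_lit 78) (nat_lit 0) (nat_lit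 0) (XT.lf (nat_lit 0) (nat_lit 21449253000) (nat_lit 76) (nat_lit 13478229093) (nat_lit 152) (nat_lit 18836863798) (nat_lit 13) (nat_lit 5) (nat_lit 14) (nat_lit 5) (nat_lit 15) (nat_lit 4) (nat_lit 333) (nat_lit 271) (nat_lit 176)) (XT.lf (nat_lit 0) (nat_lit 37917482610) (nat_lit 76) (nat_lit 5054699642) (nat_lit 152) (nat_lit 13036783639) (nat_lit 13) (nat_lit 5) (nat_lit 14) (nat_lit 5) (nat_lit 15) (nat_lit 4) (nat_lit 334) (nat_lit 271) (nat_lit 175))) (XT.nd (nat_lit 78) (nat_lit 152) (nat_lit 0) (XT.lf (nat_lit 0) (nat_lit 51470451247) (nat_lit 152) (nat_lit 3229766464) (nat_lit 0) (nat_lit 3663039662) (nat_lit 13) (nat_lit 5) (nat_lit 15) (nat_lit 4) (nat_lit 13) (nat_lit 4) (nat_lit 335) (nat_lit 271) (nat_lit 174)) (XT.nd (nat_lit 78) (nat_lit 76) (nat_lit 0) (XT.lf (nat_lit 0) (nat_lit 12684930544) (nat_lit 76) (nat_lit 47982148877) (nat_lit 76) (nat_lit 154518555) (nat_lit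 12) (nat_lit 4) (nat_lit 13) (nat_lit 5) (nat_lit 13) (nat_lit 4) (nat_lit 336) (nat_lit 271) (nat_lit 173)) (XT.lf (nat_lit 0) (nat_lit 6747333082) (nat_lit 152) (nat_lit 34014853442) (nat_lit 76) (nat_lit 22632864978) (nat_lit 11) (nat_lit 5) (nat_lit 13) (nat_lit 5) (nat_lit 12) (nat_lit 4) (nat_lit 337) (nat_lit 271) (nat_lit 172))))) (XT.nd (nat_lit 156) (nat_lit 76) (nat_lit 0) (XT.nd (nat_lit 78) (nat_lit 0) (nat_lit 0) (XT.lf (nat_lit 0) (nat_lit 13981999165) (nat_lit 152) (nat_lit 19202126961) (nat_lit 76) (nat_lit 32913285091) (nat_lit 11) (nat_lit 5) (nat_lit 13) (nat_lit 5) (nat_lit 12) (nat_lit 4) (nat_lit 338) (nat_lit 271) (nat_lit 171)) (XT.lf (nat_lit 0) (nat_lit 21571650649) (nat_lit 152) (nat_lit 3660807125) (nat_lit 76) (nat_lit 43702774162) (nat_lit 11) (nat_lit 5) (nat_lit 13) (nat_lit 5) (nat_lit 12) (nat_lit 4) (nat_lit 339) (nat_lit 271) (nat_lit 170))) (XT.nd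 (nat_lit 78) (nat_lit 0) (nat_lit 0) (XT.lf (nat_lit 0) (nat_lit 13064246691) (nat_lit 76) (nat_lit 16674080943) (nat_lit 152) (nat_lit 42166744261) (nat_lit 10) (nat_lit 5) (nat_lit 11) (nat_lit 5) (nat_lit 12) (nat_lit 4) (nat_lit 340) (nat_lit 271) (nat_lit 169)) (XT.nd (nat_lit 78) (nat_lit 0) (nat_lit 0) (XT.lf (nat_lit 0) (nat_lit 30741363653) (nat_lit 76) (nat_lit 7627675625) (nat_lit 152) (nat_lit 36651584633) (nat_lit 10) (nat_lit 5) (nat_lit 11) (nat_lit 5) (nat_lit 12) (nat_lit 4) (nat_lit 341) (nat_lit 271) (nat_lit 168)) (XT.lf (nat_lit 0) (nat_lit 47454427788) (nat_lit 152) (nat_lit 29029807078) (nat_lit 0) (nat_lit 1806566453) (nat_lit 10) (nat_lit 5) (nat_lit 12) (nat_lit 4) (nat_lit 10) (nat_lit 4) (nat_lit 342) (nat_lit 271) (nat_lit 167))))))) (XT.nd (nat_lit 780) (nat_lit 76) (nat_lit 0) (XT.nd (nat_lit 390) (nat_lit 76) (nat_lit 0) (XT.nd (nat_lit 156) (nat_lit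 76) (nat_lit 0) (XT.nd (nat_lit 78) (nat_lit 76) (nat_lit 0) (XT.lf (nat_lit 0) (nat_lit 57113347632) (nat_lit 152) (nat_lit 13153380034) (nat_lit 0) (nat_lit 11451801460) (nat_lit 10) (nat_lit 5) (nat_lit 12) (nat_lit 4) (nat_lit 10) (nat_lit 4) (nat_lit 343) (nat_lit 271) (nat_lit 166)) (XT.lf (nat_lit 0) (nat_lit 3622865606) (nat_lit 76) (nat_lit 63683404324) (nat_lit 76) (nat_lit 18008824975) (nat_lit 9) (nat_lit 4) (nat_lit 10) (nat_lit 5) (nat_lit 10) (nat_lit 4) (nat_lit 344) (nat_lit 271) (nat_lit 165))) (XT.nd (nat_lit 78) (nat_lit 76) (nat_lit 0) (XT.lf (nat_lit 0) (nat_lit 21684782703) (nat_lit 76) (nat_lit 56541417145) (nat_lit 76) (nat_lit 10854425245) (nat_lit 9) (nat_lit 4) (nat_lit 10) (nat_lit 5) (nat_lit 10) (nat_lit 4) (nat_lit 345) (nat_lit 271) (nat_lit 164)) (XT.nd (nat_lit 78) (nat_lit 76) (nat_lit 0) (XT.lf (nat_lit 0) (nat_lit 40640465672) (nat_lit 76) (nat_lit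 49046520252) (nat_lit 76) (nat_lit 3347706876) (nat_lit 9) (nat_lit 4) (nat_lit 10) (nat_lit 5) (nat_lit 10) (nat_lit 4) (nat_lit 346) (nat_lit 271) (nat_lit 163)) (XT.lf (nat_lit 0) (nat_lit 4384240481) (nat_lit 152) (nat_lit 36722378939) (nat_lit 76) (nat_lit 56076557377) (nat_lit 8) (nat_lit 5) (nat_lit 10) (nat_lit 5) (nat_lit 9) (nat_lit 4) (nat_lit 347) (nat_lit 271) (nat_lit 162))))) (XT.nd (nat_lit 156) (nat_lit 76) (nat_lit 0) (XT.nd (nat_lit 78) (nat_lit 0) (nat_lit 0) (XT.lf (nat_lit 0) (nat_lit 12385537925) (nat_lit 152) (nat_lit 20330441605) (nat_lit 76) (nat_lit 68820602012) (nat_lit 8) (nat_lit 5) (nat_lit 10) (nat_lit 5) (nat_lit 9) (nat_lit 4) (nat_lit 348) (nat_lit 271) (nat_lit 161)) (XT.lf (nat_lit 0) (nat_lit 20782383693) (nat_lit 152) (nat_lit 3127119617) (nat_lit 76) (nat_lit 82198382328) (nat_lit 8) (nat_lit 5) (nat_lit 10) (nat_lit 5) (nat_lit 9) (nat_lit 4)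 (nat_lit 349) (nat_lit 271) (nat_lit 160))) (XT.nd (nat_lit 78) (nat_lit 0) (nat_lit 0) (XT.lf (nat_lit 0) (nat_lit 15422152508) (nat_lit 76) (nat_lit 14413400786) (nat_lit 152) (nat_lit 81060380696) (nat_lit 7) (nat_lit 5) (nat_lit 8) (nat_lit 5) (nat_lit 9) (nat_lit 4) (nat_lit 350) (nat_lit 271) (nat_lit 159)) (XT.nd (nat_lit 78) (nat_lit 0) (nat_lit 0) (XT.lf (nat_lit 0) (nat_lit 34999759764) (nat_lit 76) (nat_lit 4390364112) (nat_lit 152) (nat_lit 76530826742) (nat_lit 7) (nat_lit 5) (nat_lit 8) (nat_lit 5) (nat_lit 9) (nat_lit 4) (nat_lit 351) (nat_lit 271) (nat_lit 158)) (XT.lf (nat_lit 0) (nat_lit 49514121472) (nat_lit 152) (nat_lit 65744217380) (nat_lit 0) (nat_lit 5934297138) (nat_lit 7) (nat_lit 5) (nat_lit 9) (nat_lit 4) (nat_lit 7) (nat_lit 4) (nat_lit 352) (nat_lit 271) (nat_lit 157)))))) (XT.nd (nat_lit 390) (nat_lit 0) (nat_lit 0) (XT.nd (nat_lit 156) (nat_lit 76) (nat_lit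 0) (XT.nd (nat_lit 78) (nat_lit 0) (nat_lit 0) (XT.lf (nat_lit 0) (nat_lit 60212418126) (nat_lit 152) (nat_lit 49887492699) (nat_lit 0) (nat_lit 16624592551) (nat_lit 7) (nat_lit 5) (nat_lit 9) (nat_lit 4) (nat_lit 7) (nat_lit 4) (nat_lit 353) (nat_lit 271) (nat_lit 156)) (XT.lf (nat_lit 0) (nat_lit 71441940086) (nat_lit 152) (nat_lit 33244716815) (nat_lit 0) (nat_lit 27846494282) (nat_lit 7) (nat_lit 5) (nat_lit 9) (nat_lit 4) (nat_lit 7) (nat_lit 4) (nat_lit 354) (nat_lit 271) (nat_lit 155))) (XT.nd (nat_lit 78) (nat_lit 76) (nat_lit 0) (XT.lf (nat_lit 0) (nat_lit 83229424308) (nat_lit 152) (nat_lit 15776264073) (nat_lit 0) (nat_lit 39626721143) (nat_lit 7) (nat_lit 5) (nat_lit 9) (nat_lit 4) (nat_lit 7) (nat_lit 4) (nat_lit 355) (nat_lit 271) (nat_lit 154)) (XT.nd (nat_lit 78) (nat_lit 0) (nat_lit 0) (XT.lf (nat_lit 0) (nat_lit 2644084290) (nat_lit 76) (nat_lit 93000133506) (nat_lit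 76) (nat_lit 49390518569) (nat_lit 6) (nat_lit 4) (nat_lit 7) (nat_lit 5) (nat_lit 7) (nat_lit 4) (nat_lit 356) (nat_lit 271) (nat_lit 153)) (XT.lf (nat_lit 0) (nat_lit 22527111376) (nat_lit 76) (nat_lit 86416536563) (nat_lit 76) (nat_lit 42800338985) (nat_lit 6) (nat_lit 4) (nat_lit 7) (nat_lit 5) (nat_lit 7) (nat_lit 4) (nat_lit 357) (nat_lit 271) (nat_lit 152))))) (XT.nd (nat_lit 156) (nat_lit 0) (nat_lit 0) (XT.nd (nat_lit 78) (nat_lit 0) (nat_lit 0) (XT.lf (nat_lit 0) (nat_lit 43398523185) (nat_lit 76) (nat_lit 79506400987) (nat_lit 76) (nat_lit 35883934228) (nat_lit 6) (nat_lit 4) (nat_lit 7) (nat_lit 5) (nat_lit 7) (nat_lit 4) (nat_lit 358) (nat_lit 271) (nat_lit 151)) (XT.lf (nat_lit 0) (nat_lit 65308013554) (nat_lit 76) (nat_lit 72253274075) (nat_lit 76) (nat_lit 28624836667) (nat_lit 6) (nat_lit 4) (nat_lit 7) (nat_lit 5) (nat_lit 7) (nat_lit 4) (nat_lit 359) (nat_lit 271)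 (nat_lit 150))) (XT.nd (nat_lit 78) (nat_lit 0) (nat_lit 0) (XT.lf (nat_lit 0) (nat_lit 88307747938) (nat_lit 76) (nat_lit 64639886477) (nat_lit 76) (nat_lit 21005762736) (nat_lit 6) (nat_lit 4) (nat_lit 7) (nat_lit 5) (nat_lit 7) (nat_lit 4) (nat_lit 360) (nat_lit 271) (nat_lit 149)) (XT.nd (nat_lit 78) (nat_lit 0) (nat_lit 0) (XT.lf (nat_lit 0) (nat_lit 112452487608) (nat_lit 76) (nat_lit 56648111079) (nat_lit 76) (nat_lit 13008571784) (nat_lit 6) (nat_lit 4) (nat_lit 7) (nat_lit 5) (nat_lit 7) (nat_lit 4) (nat_lit 361) (nat_lit 271) (nat_lit 148)) (XT.lf (nat_lit 0) (nat_lit 137799720041) (nat_lit 76) (nat_lit 48258919845) (nat_lit 76) (nat_lit 4614222879) (nat_lit 6) (nat_lit 4) (nat_lit 7) (nat_lit 5) (nat_lit 7) (nat_lit 4) (nat_lit 362) (nat_lit 271) (nat_lit 147))))))))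
noncomputable def xc142 : XT := (XT.nd (nat_lit 1482) (nat_lit 0) (nat_lit 0) (XT.nd (nat_lit 702) (nat_lit 76) (nat_lit 0) (XT.nd (nat_lit 312) (nat_lit 0) (nat_lit 0) (XT.nd (nat_lit 156) (nat_lit 76) (nat_lit 0) (XT.nd (nat_lit 78) (nat_lit 0) (nat_lit 0) (XT.lf (nat_lit 0) (nat_lit 4062931653) (nat_lit 152) (nat_lit 35320599143) (nat_lit 76) (nat_lit 160278056421) (nat_lit 5) (nat_lit 5) (nat_lit 7) (nat_lit 5) (nat_lit 6) (nat_lit 4) (nat_lit 363) (nat_lit 271) (nat_lit 146)) (XT.lf (nat_lit 0) (nat_lit 13016503770) (nat_lit 152) (nat_lit 16970454464) (nat_lit 76) (nat_lit 179109127614) (nat_lit 5) (nat_lit 5) (nat_lit 7) (nat_lit 5) (nat_lit 6) (nat_lit 4) (nat_lit 364) (nat_lit 271) (nat_lit 145))) (XT.nd (nat_lit 78) (nat_lit 0) (nat_lit 0) (XT.lf (nat_lit 0) (nat_lit 2368840782) (nat_lit 76) (nat_lit 20083638908) (nat_lit 152) (nat_lit 196548094895) (nat_lit 4) (nat_lit 5)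 (nat_lit 5) (nat_lit 5) (nat_lit 6) (nat_lit 4) (nat_lit 365) (nat_lit 271) (nat_lit 144)) (XT.lf (nat_lit 0) (nat_lit 23260169613) (nat_lit 76) (nat_lit 9385272057) (nat_lit 152) (nat_lit 196740588090) (nat_lit 4) (nat_lit 5) (nat_lit 5) (nat_lit 5) (nat_lit 6) (nat_lit 4) (nat_lit 366) (nat_lit 271) (nat_lit 143)))) (XT.nd (nat_lit 156) (nat_lit 0) (nat_lit 0) (XT.nd (nat_lit 78) (nat_lit 0) (nat_lit 0) (XT.lf (nat_lit 0) (nat_lit 43374766200) (nat_lit 152) (nat_lit 195127535616) (nat_lit 0) (nat_lit 1787121455) (nat_lit 4) (nat_lit 5) (nat_lit 6) (nat_lit 4) (nat_lit 4) (nat_lit 4) (nat_lit 367) (nat_lit 271) (nat_lit 142)) (XT.lf (nat_lit 0) (nat_lit 54792377481) (nat_lit 152) (nat_lit 183736951915) (nat_lit 0) (nat_lit 13201067275) (nat_lit 4) (nat_lit 5) (nat_lit 6) (nat_lit 4) (nat_lit 4) (nat_lit 4) (nat_lit 368) (nat_lit 271) (nat_lit 141))) (XT.nd (nat_lit 78) (nat_lit 0)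 (nat_lit 0) (XT.lf (nat_lit 0) (nat_lit 66778929903) (nat_lit 152) (nat_lit 171780458207) (nat_lit 0) (nat_lit 25184128783) (nat_lit 4) (nat_lit 5) (nat_lit 6) (nat_lit 4) (nat_lit 4) (nat_lit 4) (nat_lit 369) (nat_lit 271) (nat_lit 140)) (XT.nd (nat_lit 78) (nat_lit 0) (nat_lit 0) (XT.lf (nat_lit 0) (nat_lit 79362962876) (nat_lit 152) (nat_lit 159229586650) (nat_lit 0) (nat_lit 37764837075) (nat_lit 4) (nat_lit 5) (nat_lit 6) (nat_lit 4) (nat_lit 4) (nat_lit 4) (nat_lit 370) (nat_lit 271) (nat_lit 139)) (XT.lf (nat_lit 0) (nat_lit 92574438384) (nat_lit 152) (nat_lit 146054454216) (nat_lit 0) (nat_lit 50973146221) (nat_lit 4) (nat_lit 5) (nat_lit 6) (nat_lit 4) (nat_lit 4) (nat_lit 4) (nat_lit 371) (nat_lit 271) (nat_lit 138)))))) (XT.nd (nat_lit 390) (nat_lit 76) (nat_lit 0) (XT.nd (nat_lit 156) (nat_lit 0) (nat_lit 0) (XT.nd (nat_lit 78) (nat_lit 0) (nat_lit 0) (XT.lf (nat_lit 0)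 (nat_lit 106444812321) (nat_lit 152) (nat_lit 132223691543) (nat_lit 0) (nat_lit 64840504574) (nat_lit 4) (nat_lit 5) (nat_lit 6) (nat_lit 4) (nat_lit 4) (nat_lit 4) (nat_lit 372) (nat_lit 271) (nat_lit 137)) (XT.lf (nat_lit 0) (nat_lit 121007109387) (nat_lit 152) (nat_lit 117704368243) (nat_lit 0) (nat_lit 79399929656) (nat_lit 4) (nat_lit 5) (nat_lit 6) (nat_lit 4) (nat_lit 4) (nat_lit 4) (nat_lit 373) (nat_lit 271) (nat_lit 136))) (XT.nd (nat_lit 78) (nat_lit 0) (nat_lit 0) (XT.lf (nat_lit 0) (nat_lit 136296001717) (nat_lit 152) (nat_lit 102461914499) (nat_lit 0) (nat_lit 94686086763) (nat_lit 4) (nat_lit 5) (nat_lit 6) (nat_lit 4) (nat_lit 4) (nat_lit 4) (nat_lit 374) (nat_lit 271) (nat_lit 135)) (XT.nd (nat_lit 78) (nat_lit 0) (nat_lit 0) (XT.lf (nat_lit 0) (nat_lit 152347891437) (nat_lit 152) (nat_lit 86460038754) (nat_lit 0) (nat_lit 110735371508) (nat_lit 4) (nat_lit 5) (nat_lit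 6) (nat_lit 4) (nat_lit 4) (nat_lit 4) (nat_lit 375) (nat_lit 271) (nat_lit 134)) (XT.lf (nat_lit 0) (nat_lit 169200997330) (nat_lit 152) (nat_lit 69660641304) (nat_lit 0) (nat_lit 127585996473) (nat_lit 4) (nat_lit 5) (nat_lit 6) (nat_lit 4) (nat_lit 4) (nat_lit 4) (nat_lit 376) (nat_lit 271) (nat_lit 133))))) (XT.nd (nat_lit 156) (nat_lit 76) (nat_lit 0) (XT.nd (nat_lit 78) (nat_lit 0) (nat_lit 0) (XT.lf (nat_lit 0) (nat_lit 186895445840) (nat_lit 152) (nat_lit 52023723584) (nat_lit 0) (nat_lit 145278082195) (nat_lit 4) (nat_lit 5) (nat_lit 6) (nat_lit 4) (nat_lit 4) (nat_lit 4) (nat_lit 377) (nat_lit 271) (nat_lit 132)) (XT.lf (nat_lit 0) (nat_lit 205473366607) (nat_lit 152) (nat_lit 33507292932) (nat_lit 0) (nat_lit 163853752687) (nat_lit 4) (nat_lit 5) (nat_lit 6) (nat_lit 4) (nat_lit 4) (nat_lit 4) (nat_lit 378) (nat_lit 271) (nat_lit 131))) (XT.nd (nat_lit 78) (nat_lit 76) (nat_lit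 0) (XT.lf (nat_lit 0) (nat_lit 224978992774) (nat_lit 152) (nat_lit 14067262610) (nat_lit 0) (nat_lit 183357235735) (nat_lit 4) (nat_lit 5) (nat_lit 6) (nat_lit 4) (nat_lit 4) (nat_lit 4) (nat_lit 379) (nat_lit 271) (nat_lit 130)) (XT.nd (nat_lit 78) (nat_lit 0) (nat_lit 0) (XT.lf (nat_lit 0) (nat_lit 6552369928) (nat_lit 76) (nat_lit 239008697239) (nat_lit 76) (nat_lit 197384899134) (nat_lit 3) (nat_lit 4) (nat_lit 4) (nat_lit 5) (nat_lit 4) (nat_lit 4) (nat_lit 380) (nat_lit 271) (nat_lit 129)) (XT.lf (nat_lit 0) (nat_lit 28689285757) (nat_lit 76) (nat_lit 238720082972) (nat_lit 76) (nat_lit 197094340996) (nat_lit 3) (nat_lit 4) (nat_lit 4) (nat_lit 5) (nat_lit 4) (nat_lit 4) (nat_lit 381) (nat_lit 271) (nat_lit 128))))))) (XT.nd (nat_lit 32604) (nat_lit 0) (nat_lit 4788) (XT.nd (nat_lit 32214) (nat_lit 0) (nat_lit 6688) (XT.nd (nat_lit 156) (nat_lit 0) (nat_lit 0) (XT.nd (nat_lit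 78) (nat_lit 0) (nat_lit 0) (XT.lf (nat_lit 0) (nat_lit 51931064590) (nat_lit 76) (nat_lit 238417961307) (nat_lit 76) (nat_lit 196790368024) (nat_lit 3) (nat_lit 4) (nat_lit 4) (nat_lit 5) (nat_lit 4) (nat_lit 4) (nat_lit 382) (nat_lit 271) (nat_lit 127)) (XT.lf (nat_lit 0) (nat_lit 76333043993) (nat_lit 76) (nat_lit 238101612906) (nat_lit 76) (nat_lit 196472256474) (nat_lit 3) (nat_lit 4) (nat_lit 4) (nat_lit 5) (nat_lit 4) (nat_lit 4) (nat_lit 383) (nat_lit 271) (nat_lit 126))) (XT.nd (nat_lit 31902) (nat_lit 0) (nat_lit 7296) (XT.lf (nat_lit 0) (nat_lit 101953323918) (nat_lit 76) (nat_lit 237770284558) (nat_lit 76) (nat_lit 196139248936) (nat_lit 3) (nat_lit 4) (nat_lit 4) (nat_lit 5) (nat_lit 4) (nat_lit 4) (nat_lit 384) (nat_lit 271) (nat_lit 125)) (XT.nd (nat_lit 78) (nat_lit 0) (nat_lit 0) (XT.lf (nat_lit 0) (nat_lit 1355075774) (nat_lit 0) (nat_lit 1355075774) (nat_lit 532)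 (nat_lit 1363948147) (nat_lit 99) (nat_lit 5) (nat_lit 99) (nat_lit 3) (nat_lit 106) (nat_lit 3) (nat_lit 272) (nat_lit 272) (nat_lit 236)) (XT.lf (nat_lit 0) (nat_lit 6506982010) (nat_lit 0) (nat_lit 108288594) (nat_lit 532) (nat_lit 1680413316) (nat_lit 99) (nat_lit 5) (nat_lit 99) (nat_lit 3) (nat_lit 106) (nat_lit 3) (nat_lit 273) (nat_lit 272) (nat_lit 235))))) (XT.nd (nat_lit 156) (nat_lit 0) (nat_lit 0) (XT.nd (nat_lit 78) (nat_lit 608) (nat_lit 0) (XT.lf (nat_lit 76) (nat_lit 2029053329) (nat_lit 0) (nat_lit 5846285918) (nat_lit 608) (nat_lit 575143666) (nat_lit 100) (nat_lit 5) (nat_lit 99) (nat_lit 5) (nat_lit 107) (nat_lit 5) (nat_lit 274) (nat_lit 272) (nat_lit 234)) (XT.lf (nat_lit 0) (nat_lit 533296613) (nat_lit 608) (nat_lit 2562914856) (nat_lit 684) (nat_lit 5518209797) (nat_lit 91) (nat_lit 5) (nat_lit 99) (nat_lit 5) (nat_lit 100) (nat_lit 5) (nat_lit 275) (nat_lit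 272) (nat_lit 233))) (XT.nd (nat_lit 78) (nat_lit 0) (nat_lit 76) (XT.lf (nat_lit 76) (nat_lit 1488852205) (nat_lit 0) (nat_lit 149441270) (nat_lit 684) (nat_lit 7149948047) (nat_lit 92) (nat_lit 5) (nat_lit 91) (nat_lit 5) (nat_lit 100) (nat_lit 5) (nat_lit 276) (nat_lit 272) (nat_lit 232)) (XT.nd (nat_lit 78) (nat_lit 0) (nat_lit 0) (XT.lf (nat_lit 0) (nat_lit 2828616402) (nat_lit 608) (nat_lit 3223918762) (nat_lit 684) (nat_lit 2916884837) (nat_lit 92) (nat_lit 5) (nat_lit 100) (nat_lit 5) (nat_lit 101) (nat_lit 5) (nat_lit 277) (nat_lit 272) (nat_lit 231)) (XT.lf (nat_lit 76) (nat_lit 1047510573) (nat_lit 0) (nat_lit 2992593110) (nat_lit 684) (nat_lit 5121634190) (nat_lit 93) (nat_lit 5) (nat_lit 92) (nat_lit 5) (nat_lit 101) (nat_lit 5) (nat_lit 278) (nat_lit 272) (nat_lit 230)))))) (XT.nd (nat_lit 390) (nat_lit 1444) (nat_lit 0) (XT.nd (nat_lit 156) (nat_lit 608) (nat_lit 0) (XT.nd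 (nat_lit 78) (nat_lit 0) (nat_lit 0) (XT.lf (nat_lit 0) (nat_lit 5316329100) (nat_lit 608) (nat_lit 3762271421) (nat_lit 684) (nat_lit 285018049) (nat_lit 93) (nat_lit 5) (nat_lit 101) (nat_lit 5) (nat_lit 102) (nat_lit 5) (nat_lit 279) (nat_lit 272) (nat_lit 229)) (XT.lf (nat_lit 76) (nat_lit 742528921) (nat_lit 0) (nat_lit 5922326699) (nat_lit 684) (nat_lit 2910460926) (nat_lit 94) (nat_lit 5) (nat_lit 93) (nat_lit 5) (nat_lit 102) (nat_lit 5) (nat_lit 280) (nat_lit 272) (nat_lit 228))) (XT.nd (nat_lit 78) (nat_lit 608) (nat_lit 0) (XT.lf (nat_lit 76) (nat_lit 5564363311) (nat_lit 0) (nat_lit 2529876777) (nat_lit 684) (nat_lit 1702828453) (nat_lit 94) (nat_lit 5) (nat_lit 93) (nat_lit 5) (nat_lit 102) (nat_lit 5) (nat_lit 281) (nat_lit 272) (nat_lit 227)) (XT.nd (nat_lit 78) (nat_lit 76) (nat_lit 0) (XT.lf (nat_lit 0) (nat_lit 559499597) (nat_lit 608) (nat_lit 9012725639) (nat_lit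 684) (nat_lit 458960324) (nat_lit 86) (nat_lit 5) (nat_lit 94) (nat_lit 5) (nat_lit 95) (nat_lit 5) (nat_lit 282) (nat_lit 272) (nat_lit 226)) (XT.lf (nat_lit 0) (nat_lit 887385113) (nat_lit 684) (nat_lit 4631741023) (nat_lit 76) (nat_lit 4753972736) (nat_lit 85) (nat_lit 5) (nat_lit 94) (nat_lit 5) (nat_lit 86) (nat_lit 5) (nat_lit 283) (nat_lit 272) (nat_lit 225))))) (XT.nd (nat_lit 156) (nat_lit 760) (nat_lit 0) (XT.nd (nat_lit 78) (nat_lit 0) (nat_lit 0) (XT.lf (nat_lit 0) (nat_lit 417263472) (nat_lit 684) (nat_lit 1830174927) (nat_lit 760) (nat_lit 8281318274) (nat_lit 76) (nat_lit 5) (nat_lit 85) (nat_lit 5) (nat_lit 86) (nat_lit 5) (nat_lit 284) (nat_lit 272) (nat_lit 224)) (XT.lf (nat_lit 0) (nat_lit 3744032967) (nat_lit 760) (nat_lit 4987430413) (nat_lit 76) (nat_lit 2062417295) (nat_lit 76) (nat_lit 5) (nat_lit 86) (nat_lit 5) (nat_lit 77) (nat_lit 5) (nat_lit 285) (nat_lit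 272) (nat_lit 223))) (XT.nd (nat_lit 78) (nat_lit 380) (nat_lit 0) (XT.lf (nat_lit 0) (nat_lit 334992099) (nat_lit 380) (nat_lit 4974661508) (nat_lit 456) (nat_lit 5763002447) (nat_lit 71) (nat_lit 5) (nat_lit 76) (nat_lit 5) (nat_lit 77) (nat_lit 5) (nat_lit 286) (nat_lit 272) (nat_lit 222)) (XT.nd (nat_lit 78) (nat_lit 380) (nat_lit 0) (XT.lf (nat_lit 0) (nat_lit 6058747647) (nat_lit 380) (nat_lit 939597261) (nat_lit 456) (nat_lit 4364885804) (nat_lit 71) (nat_lit 5) (nat_lit 76) (nat_lit 5) (nat_lit 77) (nat_lit 5) (nat_lit 287) (nat_lit 272) (nat_lit 221)) (XT.lf (nat_lit 0) (nat_lit 321008259) (nat_lit 380) (nat_lit 8469193358) (nat_lit 456) (nat_lit 2877291176) (nat_lit 66) (nat_lit 5) (nat_lit 71) (nat_lit 5) (nat_lit 72) (nat_lit 5) (nat_lit 288) (nat_lit 272) (nat_lit 220))))))))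
noncomputable def xc143 : XT := (XT.nd (nat_lit 1560) (nat_lit 1368) (nat_lit 0) (XT.nd (nat_lit 780) (nat_lit 1064) (nat_lit 0) (XT.nd (nat_lit 390) (nat_lit 608) (nat_lit 0) (XT.nd (nat_lit 156) (nat_lit 304) (nat_lit 0) (XT.nd (nat_lit 78) (nat_lit 380) (nat_lit 0) (XT.lf (nat_lit 0) (nat_lit 6358492487) (nat_lit 380) (nat_lit 4381599769) (nat_lit 456) (nat_lit 1243544363) (nat_lit 66) (nat_lit 5) (nat_lit 71) (nat_lit 5) (nat_lit 72) (nat_lit 5) (nat_lit 289) (nat_lit 272) (nat_lit 219)) (XT.lf (nat_lit 0) (nat_lit 349071741) (nat_lit 304) (nat_lit 77703071) (nat_lit 380) (nat_lit 11890027292) (nat_lit 61) (nat_lit 5) (nat_lit 65) (nat_lit 5) (nat_lit 66) (nat_lit 5) (nat_lit 290) (nat_lit 272) (nat_lit 218))) (XT.nd (nat_lit 78) (nat_lit 304) (nat_lit 0) (XT.lf (nat_lit 0) (nat_lit 2270614131) (nat_lit 380) (nat_lit 5974025182) (nat_lit 76) (nat_lit 4414455826) (nat_lit 61) (nat_lit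 5) (nat_lit 66) (nat_lit 5) (nat_lit 62) (nat_lit 5) (nat_lit 291) (nat_lit 272) (nat_lit 217)) (XT.nd (nat_lit 78) (nat_lit 0) (nat_lit 0) (XT.lf (nat_lit 0) (nat_lit 291061458) (nat_lit 304) (nat_lit 3888665545) (nat_lit 380) (nat_lit 8840196359) (nat_lit 57) (nat_lit 5) (nat_lit 61) (nat_lit 5) (nat_lit 62) (nat_lit 5) (nat_lit 292) (nat_lit 272) (nat_lit 216)) (XT.lf (nat_lit 0) (nat_lit 6266024779) (nat_lit 380) (nat_lit 6366636844) (nat_lit 76) (nat_lit 762115974) (nat_lit 57) (nat_lit 5) (nat_lit 62) (nat_lit 5) (nat_lit 58) (nat_lit 5) (nat_lit 293) (nat_lit 272) (nat_lit 215))))) (XT.nd (nat_lit 156) (nat_lit 380) (nat_lit 0) (XT.nd (nat_lit 78) (nat_lit 0) (nat_lit 0) (XT.lf (nat_lit 0) (nat_lit 221463269) (nat_lit 228) (nat_lit 8272095916) (nat_lit 304) (nat_lit 5293036950) (nat_lit 54) (nat_lit 5) (nat_lit 57) (nat_lit 5) (nat_lit 58) (nat_lit 5) (nat_lit 294) (nat_lit 272)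 (nat_lit 214)) (XT.lf (nat_lit 0) (nat_lit 7325001656) (nat_lit 228) (nat_lit 3585901839) (nat_lit 304) (nat_lit 3283244904) (nat_lit 54) (nat_lit 5) (nat_lit 57) (nat_lit 5) (nat_lit 58) (nat_lit 5) (nat_lit 295) (nat_lit 272) (nat_lit 213))) (XT.nd (nat_lit 78) (nat_lit 76) (nat_lit 0) (XT.lf (nat_lit 0) (nat_lit 109596975) (nat_lit 304) (nat_lit 13333993151) (nat_lit 380) (nat_lit 1178825780) (nat_lit 50) (nat_lit 5) (nat_lit 54) (nat_lit 5) (nat_lit 55) (nat_lit 5) (nat_lit 296) (nat_lit 272) (nat_lit 212)) (XT.nd (nat_lit 78) (nat_lit 0) (nat_lit 0) (XT.lf (nat_lit 0) (nat_lit 1147073559) (nat_lit 380) (nat_lit 7502434013) (nat_lit 76) (nat_lit 6414377615) (nat_lit 49) (nat_lit 5) (nat_lit 54) (nat_lit 5) (nat_lit 50) (nat_lit 5) (nat_lit 297) (nat_lit 272) (nat_lit 211)) (XT.lf (nat_lit 0) (nat_lit 3523201179) (nat_lit 380) (nat_lit 194308878) (nat_lit 76) (nat_lit 11810327171)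 (nat_lit 49) (nat_lit 5) (nat_lit 54) (nat_lit 5) (nat_lit 50) (nat_lit 5) (nat_lit 298) (nat_lit 272) (nat_lit 210)))))) (XT.nd (nat_lit 390) (nat_lit 380) (nat_lit 0) (XT.nd (nat_lit 156) (nat_lit 456) (nat_lit 0) (XT.nd (nat_lit 78) (nat_lit 0) (nat_lit 0) (XT.lf (nat_lit 0) (nat_lit 6137739736) (nat_lit 304) (nat_lit 8341362724) (nat_lit 76) (nat_lit 1529954688) (nat_lit 46) (nat_lit 5) (nat_lit 50) (nat_lit 5) (nat_lit 47) (nat_lit 5) (nat_lit 299) (nat_lit 272) (nat_lit 209)) (XT.lf (nat_lit 0) (nat_lit 8922704748) (nat_lit 304) (nat_lit 678138418) (nat_lit 76) (nat_lit 6911558020) (nat_lit 46) (nat_lit 5) (nat_lit 50) (nat_lit 5) (nat_lit 47) (nat_lit 5) (nat_lit 300) (nat_lit 272) (nat_lit 208))) (XT.nd (nat_lit 78) (nat_lit 228) (nat_lit 0) (XT.lf (nat_lit 0) (nat_lit 7579887001) (nat_lit 228) (nat_lit 4361957219) (nat_lit 304) (nat_lit 5094367703) (nat_lit 43) (nat_lit 5)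 (nat_lit 46) (nat_lit 5) (nat_lit 47) (nat_lit 5) (nat_lit 301) (nat_lit 272) (nat_lit 207)) (XT.nd (nat_lit 78) (nat_lit 228) (nat_lit 0) (XT.lf (nat_lit 0) (nat_lit 15118496925) (nat_lit 304) (nat_lit 1360778013) (nat_lit 76) (nat_lit 1106654073) (nat_lit 43) (nat_lit 5) (nat_lit 47) (nat_lit 5) (nat_lit 44) (nat_lit 5) (nat_lit 302) (nat_lit 272) (nat_lit 206)) (XT.lf (nat_lit 0) (nat_lit 447393327) (nat_lit 228) (nat_lit 10891507071) (nat_lit 76) (nat_lit 6815751473) (nat_lit 40) (nat_lit 5) (nat_lit 43) (nat_lit 5) (nat_lit 41) (nat_lit 5) (nat_lit 303) (nat_lit 272) (nat_lit 205))))) (XT.nd (nat_lit 156) (nat_lit 152) (nat_lit 0) (XT.nd (nat_lit 78) (nat_lit 228) (nat_lit 0) (XT.lf (nat_lit 0) (nat_lit 3426844969) (nat_lit 228) (nat_lit 2456272965) (nat_lit 76) (nat_lit 12866617800) (nat_lit 40) (nat_lit 5) (nat_lit 43) (nat_lit 5) (nat_lit 41) (nat_lit 5) (nat_lit 304) (nat_lit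 272) (nat_lit 204)) (XT.lf (nat_lit 0) (nat_lit 6582554502) (nat_lit 228) (nat_lit 54899791) (nat_lit 304) (nat_lit 12733046134) (nat_lit 37) (nat_lit 5) (nat_lit 40) (nat_lit 5) (nat_lit 41) (nat_lit 5) (nat_lit 305) (nat_lit 272) (nat_lit 203))) (XT.nd (nat_lit 78) (nat_lit 152) (nat_lit 0) (XT.lf (nat_lit 0) (nat_lit 10125381593) (nat_lit 304) (nat_lit 3986285592) (nat_lit 76) (nat_lit 5904830975) (nat_lit 37) (nat_lit 5) (nat_lit 41) (nat_lit 5) (nat_lit 38) (nat_lit 5) (nat_lit 306) (nat_lit 272) (nat_lit 202)) (XT.nd (nat_lit 78) (nat_lit 0) (nat_lit 0) (XT.lf (nat_lit 0) (nat_lit 5399477245) (nat_lit 152) (nat_lit 8454209914) (nat_lit 228) (nat_lit 6837842081) (nat_lit 35) (nat_lit 5) (nat_lit 37) (nat_lit 5) (nat_lit 38) (nat_lit 5) (nat_lit 307) (nat_lit 272) (nat_lit 201)) (XT.lf (nat_lit 0) (nat_lit 15365475511) (nat_lit 152) (nat_lit 2451709763) (nat_lit 228) (nat_lit 3580718741)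 (nat_lit 35) (nat_lit 5) (nat_lit 37) (nat_lit 5) (nat_lit 38) (nat_lit 5) (nat_lit 308) (nat_lit 272) (nat_lit 200))))))) (XT.nd (nat_lit 780) (nat_lit 532) (nat_lit 0) (XT.nd (nat_lit 390) (nat_lit 380) (nat_lit 0) (XT.nd (nat_lit 156) (nat_lit 152) (nat_lit 0) (XT.nd (nat_lit 78) (nat_lit 76) (nat_lit 0) (XT.lf (nat_lit 0) (nat_lit 3722255519) (nat_lit 228) (nat_lit 18356871223) (nat_lit 304) (nat_lit 55486893) (nat_lit 32) (nat_lit 5) (nat_lit 35) (nat_lit 5) (nat_lit 36) (nat_lit 5) (nat_lit 309) (nat_lit 272) (nat_lit 199)) (XT.lf (nat_lit 0) (nat_lit 3655497878) (nat_lit 304) (nat_lit 8854850545) (nat_lit 76) (nat_lit 10388681561) (nat_lit 31) (nat_lit 5) (nat_lit 35) (nat_lit 5) (nat_lit 32) (nat_lit 5) (nat_lit 310) (nat_lit 272) (nat_lit 198))) (XT.nd (nat_lit 78) (nat_lit 0) (nat_lit 0) (XT.lf (nat_lit 0) (nat_lit 1191948950) (nat_lit 152) (nat_lit 6359834986) (nat_lit 228)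 (nat_lit 16149782403) (nat_lit 29) (nat_lit 5) (nat_lit 31) (nat_lit 5) (nat_lit 32) (nat_lit 5) (nat_lit 311) (nat_lit 272) (nat_lit 197)) (XT.nd (nat_lit 78) (nat_lit 0) (nat_lit 0) (XT.lf (nat_lit 0) (nat_lit 11780118905) (nat_lit 228) (nat_lit 12518336870) (nat_lit 76) (nat_lit 238936299) (nat_lit 29) (nat_lit 5) (nat_lit 32) (nat_lit 5) (nat_lit 30) (nat_lit 5) (nat_lit 312) (nat_lit 272) (nat_lit 196)) (XT.lf (nat_lit 0) (nat_lit 16308208122) (nat_lit 228) (nat_lit 2156630613) (nat_lit 76) (nat_lit 6945776621) (nat_lit 29) (nat_lit 5) (nat_lit 32) (nat_lit 5) (nat_lit 30) (nat_lit 5) (nat_lit 313) (nat_lit 272) (nat_lit 195))))) (XT.nd (nat_lit 156) (nat_lit 228) (nat_lit 0) (XT.nd (nat_lit 78) (nat_lit 0) (nat_lit 0) (XT.lf (nat_lit 0) (nat_lit 8987110622) (nat_lit 152) (nat_lit 12200741266) (nat_lit 228) (nat_lit 5133412445) (nat_lit 27) (nat_lit 5) (nat_lit 29) (nat_lit 5)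 (nat_lit 30) (nat_lit 5) (nat_lit 314) (nat_lit 272) (nat_lit 194)) (XT.lf (nat_lit 0) (nat_lit 20739600429) (nat_lit 152) (nat_lit 5593595231) (nat_lit 228) (nat_lit 943185194) (nat_lit 27) (nat_lit 5) (nat_lit 29) (nat_lit 5) (nat_lit 30) (nat_lit 5) (nat_lit 315) (nat_lit 272) (nat_lit 193))) (XT.nd (nat_lit 78) (nat_lit 0) (nat_lit 0) (XT.lf (nat_lit 0) (nat_lit 3430746821) (nat_lit 228) (nat_lit 23416477680) (nat_lit 76) (nat_lit 1425108173) (nat_lit 24) (nat_lit 5) (nat_lit 27) (nat_lit 5) (nat_lit 25) (nat_lit 5) (nat_lit 316) (nat_lit 272) (nat_lit 192)) (XT.nd (nat_lit 78) (nat_lit 0) (nat_lit 0) (XT.lf (nat_lit 0) (nat_lit 8181748611) (nat_lit 228) (nat_lit 12399376027) (nat_lit 76) (nat_lit 8726698954) (nat_lit 24) (nat_lit 5) (nat_lit 27) (nat_lit 5) (nat_lit 25) (nat_lit 5) (nat_lit 317) (nat_lit 272) (nat_lit 191)) (XT.lf (nat_lit 0) (nat_lit 13156827870) (nat_lit 228)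 (nat_lit 853246351) (nat_lit 76) (nat_lit 16385705730) (nat_lit 24) (nat_lit 5) (nat_lit 27) (nat_lit 5) (nat_lit 25) (nat_lit 5) (nat_lit 318) (nat_lit 272) (nat_lit 190)))))) (XT.nd (nat_lit 390) (nat_lit 228) (nat_lit 0) (XT.nd (nat_lit 156) (nat_lit 152) (nat_lit 0) (XT.nd (nat_lit 78) (nat_lit 0) (nat_lit 0) (XT.lf (nat_lit 0) (nat_lit 11621358170) (nat_lit 152) (nat_lit 6927913824) (nat_lit 228) (nat_lit 12980448033) (nat_lit 22) (nat_lit 5) (nat_lit 24) (nat_lit 5) (nat_lit 25) (nat_lit 5) (nat_lit 319) (nat_lit 272) (nat_lit 189)) (XT.lf (nat_lit 0) (nat_lit 24221299264) (nat_lit 228) (nat_lit 7999464096) (nat_lit 76) (nat_lit 499111357) (nat_lit 22) (nat_lit 5) (nat_lit 25) (nat_lit 5) (nat_lit 23) (nat_lit 4) (nat_lit 320) (nat_lit 272) (nat_lit 188))) (XT.nd (nat_lit 78) (nat_lit 76) (nat_lit 0) (XT.lf (nat_lit 0) (nat_lit 4515869383) (nat_lit 76) (nat_lit 25833076316) (nat_lit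 152) (nat_lit 3612005467) (nat_lit 21) (nat_lit 5) (nat_lit 22) (nat_lit 5) (nat_lit 23) (nat_lit 4) (nat_lit 321) (nat_lit 272) (nat_lit 187)) (XT.nd (nat_lit 78) (nat_lit 0) (nat_lit 0) (XT.lf (nat_lit 0) (nat_lit 1595975131) (nat_lit 152) (nat_lit 17368610882) (nat_lit 76) (nat_lit 16292038434) (nat_lit 20) (nat_lit 5) (nat_lit 22) (nat_lit 5) (nat_lit 21) (nat_lit 5) (nat_lit 322) (nat_lit 272) (nat_lit 186)) (XT.lf (nat_lit 0) (nat_lit 6931539578) (nat_lit 152) (nat_lit 4766635332) (nat_lit 76) (nat_lit 24916530111) (nat_lit 20) (nat_lit 5) (nat_lit 22) (nat_lit 5) (nat_lit 21) (nat_lit 5) (nat_lit 323) (nat_lit 272) (nat_lit 185))))) (XT.nd (nat_lit 156) (nat_lit 76) (nat_lit 0) (XT.nd (nat_lit 78) (nat_lit 0) (nat_lit 0) (XT.lf (nat_lit 0) (nat_lit 8726547103) (nat_lit 152) (nat_lit 3932697082) (nat_lit 228) (nat_lit 25375189611) (nat_lit 18) (nat_lit 5) (nat_lit 20) (nat_lit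 5) (nat_lit 21) (nat_lit 5) (nat_lit 324) (nat_lit 272) (nat_lit 184)) (XT.lf (nat_lit 0) (nat_lit 18810526708) (nat_lit 228) (nat_lit 16546796179) (nat_lit 76) (nat_lit 4160978174) (nat_lit 18) (nat_lit 5) (nat_lit 21) (nat_lit 5) (nat_lit 19) (nat_lit 4) (nat_lit 325) (nat_lit 272) (nat_lit 183))) (XT.nd (nat_lit 78) (nat_lit 76) (nat_lit 0) (XT.lf (nat_lit 0) (nat_lit 25323597659) (nat_lit 228) (nat_lit 3229581631) (nat_lit 76) (nat_lit 12520482314) (nat_lit 18) (nat_lit 5) (nat_lit 21) (nat_lit 5) (nat_lit 19) (nat_lit 4) (nat_lit 326) (nat_lit 272) (nat_lit 182)) (XT.nd (nat_lit 78) (nat_lit 0) (nat_lit 0) (XT.lf (nat_lit 0) (nat_lit 11091874273) (nat_lit 76) (nat_lit 21233864895) (nat_lit 152) (nat_lit 10372890752) (nat_lit 17) (nat_lit 5) (nat_lit 18) (nat_lit 5) (nat_lit 19) (nat_lit 4) (nat_lit 327) (nat_lit 272) (nat_lit 181)) (XT.lf (nat_lit 0) (nat_lit 26225166341) (nat_lit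 76) (nat_lit 13497966956) (nat_lit 152) (nat_lit 4679466173) (nat_lit 17) (nat_lit 5) (nat_lit 18) (nat_lit 5) (nat_lit 19) (nat_lit 4) (nat_lit 328) (nat_lit 272) (nat_lit 180))))))))
noncomputable def xc144 : XT := (XT.nd (nat_lit 1482) (nat_lit 380) (nat_lit 0) (XT.nd (nat_lit 702) (nat_lit 152) (nat_lit 0) (XT.nd (nat_lit 312) (nat_lit 228) (nat_lit 0) (XT.nd (nat_lit 156) (nat_lit 0) (nat_lit 0) (XT.nd (nat_lit 78) (nat_lit 152) (nat_lit 0) (XT.lf (nat_lit 0) (nat_lit 1247812712) (nat_lit 152) (nat_lit 4112816171) (nat_lit 76) (nat_lit 40830596641) (nat_lit 16) (nat_lit 5) (nat_lit 18) (nat_lit 5) (nat_lit 17) (nat_lit 5) (nat_lit 329) (nat_lit 272) (nat_lit 179)) (XT.lf (nat_lit 0) (nat_lit 7529412952) (nat_lit 228) (nat_lit 37198588204) (nat_lit 76) (nat_lit 3326693909) (nat_lit 14) (nat_lit 5) (nat_lit 17) (nat_lit 5) (nat_lit 15) (nat_lit 4) (nat_lit 330) (nat_lit 272) (nat_lit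 178))) (XT.nd (nat_lit 78) (nat_lit 0) (nat_lit 0) (XT.lf (nat_lit 0) (nat_lit 14275043850) (nat_lit 228) (nat_lit 23395849663) (nat_lit 76) (nat_lit 12332955342) (nat_lit 14) (nat_lit 5) (nat_lit 17) (nat_lit 5) (nat_lit 15) (nat_lit 4) (nat_lit 331) (nat_lit 272) (nat_lit 177)) (XT.lf (nat_lit 0) (nat_lit 21349648777) (nat_lit 228) (nat_lit 8917485564) (nat_lit 76) (nat_lit 21783749279) (nat_lit 14) (nat_lit 5) (nat_lit 17) (nat_lit 5) (nat_lit 15) (nat_lit 4) (nat_lit 332) (nat_lit 272) (nat_lit 176)))) (XT.nd (nat_lit 156) (nat_lit 152) (nat_lit 0) (XT.nd (nat_lit 78) (nat_lit 0) (nat_lit 0) (XT.lf (nat_lit 0) (nat_lit 6478323189) (nat_lit 76) (nat_lit 22392893621) (nat_lit 152) (nat_lit 25324399202) (nat_lit 13) (nat_lit 5) (nat_lit 14) (nat_lit 5) (nat_lit 15) (nat_lit 4) (nat_lit 333) (nat_lit 272) (nat_lit 175)) (XT.lf (nat_lit 0) (nat_lit 22939919901) (nat_lit 76) (nat_lit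 13972217821) (nat_lit 152) (nat_lit 19528290752) (nat_lit 13) (nat_lit 5) (nat_lit 14) (nat_lit 5) (nat_lit 15) (nat_lit 4) (nat_lit 334) (nat_lit 272) (nat_lit 174))) (XT.nd (nat_lit 78) (nat_lit 152) (nat_lit 0) (XT.lf (nat_lit 0) (nat_lit 40211646503) (nat_lit 76) (nat_lit 5136079645) (nat_lit 152) (nat_lit 13450131167) (nat_lit 13) (nat_lit 5) (nat_lit 14) (nat_lit 5) (nat_lit 15) (nat_lit 4) (nat_lit 335) (nat_lit 272) (nat_lit 173)) (XT.nd (nat_lit 78) (nat_lit 152) (nat_lit 0) (XT.lf (nat_lit 0) (nat_lit 54262650110) (nat_lit 152) (nat_lit 3003472596) (nat_lit 0) (nat_lit 4004163597) (nat_lit 13) (nat_lit 5) (nat_lit 15) (nat_lit 4) (nat_lit 13) (nat_lit 4) (nat_lit 336) (nat_lit 272) (nat_lit 172)) (XT.lf (nat_lit 0) (nat_lit 60864507) (nat_lit 152) (nat_lit 50152053262) (nat_lit 76) (nat_lit 13638809433) (nat_lit 11) (nat_lit 5) (nat_lit 13) (nat_lit 5) (nat_lit 12) (nat_lit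 4) (nat_lit 337) (nat_lit 272) (nat_lit 171)))))) (XT.nd (nat_lit 390) (nat_lit 76) (nat_lit 0) (XT.nd (nat_lit 156) (nat_lit 76) (nat_lit 0) (XT.nd (nat_lit 78) (nat_lit 0) (nat_lit 0) (XT.lf (nat_lit 0) (nat_lit 7292238930) (nat_lit 152) (nat_lit 35345201400) (nat_lit 76) (nat_lit 23916813913) (nat_lit 11) (nat_lit 5) (nat_lit 13) (nat_lit 5) (nat_lit 12) (nat_lit 4) (nat_lit 338) (nat_lit 272) (nat_lit 170)) (XT.lf (nat_lit 0) (nat_lit 14878755499) (nat_lit 152) (nat_lit 19809476438) (nat_lit 76) (nat_lit 34704002380) (nat_lit 11) (nat_lit 5) (nat_lit 13) (nat_lit 5) (nat_lit 12) (nat_lit 4) (nat_lit 339) (nat_lit 272) (nat_lit 169))) (XT.nd (nat_lit 78) (nat_lit 76) (nat_lit 0) (XT.lf (nat_lit 0) (nat_lit 22838477349) (nat_lit 152) (nat_lit 3507888556) (nat_lit 76) (nat_lit 46026058617) (nat_lit 11) (nat_lit 5) (nat_lit 13) (nat_lit 5) (nat_lit 12) (nat_lit 4) (nat_lit 340) (nat_lit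 272) (nat_lit 168)) (XT.nd (nat_lit 78) (nat_lit 0) (nat_lit 0) (XT.lf (nat_lit 0) (nat_lit 14047999258) (nat_lit 76) (nat_lit 17361685577) (nat_lit 152) (nat_lit 44081269279) (nat_lit 10) (nat_lit 5) (nat_lit 11) (nat_lit 5) (nat_lit 12) (nat_lit 4) (nat_lit 341) (nat_lit 272) (nat_lit 167)) (XT.lf (nat_lit 0) (nat_lit 32593232058) (nat_lit 76) (nat_lit 7869917108) (nat_lit 152) (nat_lit 38299580821) (nat_lit 10) (nat_lit 5) (nat_lit 11) (nat_lit 5) (nat_lit 12) (nat_lit 4) (nat_lit 342) (nat_lit 272) (nat_lit 166))))) (XT.nd (nat_lit 156) (nat_lit 76) (nat_lit 0) (XT.nd (nat_lit 78) (nat_lit 0) (nat_lit 0) (XT.lf (nat_lit 0) (nat_lit 49996511391) (nat_lit 152) (nat_lit 30175056536) (nat_lit 0) (nat_lit 2025169896) (nat_lit 10) (nat_lit 5) (nat_lit 12) (nat_lit 4) (nat_lit 10) (nat_lit 4) (nat_lit 343) (nat_lit 272) (nat_lit 165)) (XT.lf (nat_lit 0) (nat_lit 60130312360) (nat_lit 152)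 (nat_lit 13519391039) (nat_lit 0) (nat_lit 12146558315) (nat_lit 10) (nat_lit 5) (nat_lit 12) (nat_lit 4) (nat_lit 10) (nat_lit 4) (nat_lit 344) (nat_lit 272) (nat_lit 164))) (XT.nd (nat_lit 78) (nat_lit 0) (nat_lit 0) (XT.lf (nat_lit 0) (nat_lit 4090962722) (nat_lit 76) (nat_lit 66738717379) (nat_lit 76) (nat_lit 18743141857) (nat_lit 9) (nat_lit 4) (nat_lit 10) (nat_lit 5) (nat_lit 10) (nat_lit 4) (nat_lit 345) (nat_lit 272) (nat_lit 163)) (XT.nd (nat_lit 78) (nat_lit 0) (nat_lit 0) (XT.lf (nat_lit 0) (nat_lit 23042311205) (nat_lit 76) (nat_lit 59245766896) (nat_lit 76) (nat_lit 11238932825) (nat_lit 9) (nat_lit 4) (nat_lit 10) (nat_lit 5) (nat_lit 10) (nat_lit 4) (nat_lit 346) (nat_lit 272) (nat_lit 162)) (XT.lf (nat_lit 0) (nat_lit 42932764543) (nat_lit 76) (nat_lit 51381969021) (nat_lit 76) (nat_lit 3364412522) (nat_lit 9) (nat_lit 4) (nat_lit 10) (nat_lit 5) (nat_lit 10) (nat_lit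 4) (nat_lit 347) (nat_lit 272) (nat_lit 161))))))) (XT.nd (nat_lit 780) (nat_lit 152) (nat_lit 0) (XT.nd (nat_lit 390) (nat_lit 76) (nat_lit 0) (XT.nd (nat_lit 156) (nat_lit 76) (nat_lit 0) (XT.nd (nat_lit 78) (nat_lit 0) (nat_lit 0) (XT.lf (nat_lit 0) (nat_lit 4742363939) (nat_lit 152) (nat_lit 38305922258) (nat_lit 76) (nat_lit 58987002792) (nat_lit 8) (nat_lit 5) (nat_lit 10) (nat_lit 5) (nat_lit 9) (nat_lit 4) (nat_lit 348) (nat_lit 272) (nat_lit 160)) (XT.lf (nat_lit 0) (nat_lit 13137111426) (nat_lit 152) (nat_lit 21106415468) (nat_lit 76) (nat_lit 72363172632) (nat_lit 8) (nat_lit 5) (nat_lit 10) (nat_lit 5) (nat_lit 9) (nat_lit 4) (nat_lit 349) (nat_lit 272) (nat_lit 159))) (XT.nd (nat_lit 78) (nat_lit 76) (nat_lit 0) (XT.lf (nat_lit 0) (nat_lit 21947499644) (nat_lit 152) (nat_lit 3054382058) (nat_lit 76) (nat_lit 86405006701) (nat_lit 8) (nat_lit 5) (nat_lit 10) (nat_lit 5)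 (nat_lit 9) (nat_lit 4) (nat_lit 350) (nat_lit 272) (nat_lit 158)) (XT.nd (nat_lit 78) (nat_lit 0) (nat_lit 0) (XT.lf (nat_lit 0) (nat_lit 16418658616) (nat_lit 76) (nat_lit 15032188365) (nat_lit 152) (nat_lit 84983620595) (nat_lit 7) (nat_lit 5) (nat_lit 8) (nat_lit 5) (nat_lit 9) (nat_lit 4) (nat_lit 351) (nat_lit 272) (nat_lit 157)) (XT.lf (nat_lit 0) (nat_lit 36964412974) (nat_lit 76) (nat_lit 4512851402) (nat_lit 152) (nat_lit 80233768901) (nat_lit 7) (nat_lit 5) (nat_lit 8) (nat_lit 5) (nat_lit 9) (nat_lit 4) (nat_lit 352) (nat_lit 272) (nat_lit 156))))) (XT.nd (nat_lit 156) (nat_lit 76) (nat_lit 0) (XT.nd (nat_lit 78) (nat_lit 0) (nat_lit 0) (XT.lf (nat_lit 0) (nat_lit 52103303004) (nat_lit 152) (nat_lit 68822747137) (nat_lit 0) (nat_lit 6320464680) (nat_lit 7) (nat_lit 5) (nat_lit 9) (nat_lit 4) (nat_lit 7) (nat_lit 4) (nat_lit 353) (nat_lit 272) (nat_lit 155)) (XT.lf (nat_lit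 0) (nat_lit 63331110897) (nat_lit 152) (nat_lit 52183123417) (nat_lit 0) (nat_lit 17541015213) (nat_lit 7) (nat_lit 5) (nat_lit 9) (nat_lit 4) (nat_lit 7) (nat_lit 4) (nat_lit 354) (nat_lit 272) (nat_lit 154))) (XT.nd (nat_lit 78) (nat_lit 76) (nat_lit 0) (XT.lf (nat_lit 0) (nat_lit 75116962676) (nat_lit 152) (nat_lit 34717672736) (nat_lit 0) (nat_lit 29319955219) (nat_lit 7) (nat_lit 5) (nat_lit 9) (nat_lit 4) (nat_lit 7) (nat_lit 4) (nat_lit 355) (nat_lit 272) (nat_lit 153)) (XT.nd (nat_lit 78) (nat_lit 76) (nat_lit 0) (XT.lf (nat_lit 0) (nat_lit 87488919890) (nat_lit 152) (nat_lit 16384810686) (nat_lit 0) (nat_lit 41685329793) (nat_lit 7) (nat_lit 5) (nat_lit 9) (nat_lit 4) (nat_lit 7) (nat_lit 4) (nat_lit 356) (nat_lit 272) (nat_lit 152)) (XT.lf (nat_lit 0) (nat_lit 2953647571) (nat_lit 76) (nat_lit 97568906728) (nat_lit 76) (nat_lit 51759047450) (nat_lit 6) (nat_lit 4) (nat_lit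 7) (nat_lit 5) (nat_lit 7) (nat_lit 4) (nat_lit 357) (nat_lit 272) (nat_lit 151)))))) (XT.nd (nat_lit 390) (nat_lit 152) (nat_lit 0) (XT.nd (nat_lit 156) (nat_lit 0) (nat_lit 0) (XT.nd (nat_lit 78) (nat_lit 0) (nat_lit 0) (XT.lf (nat_lit 0) (nat_lit 23822380340) (nat_lit 76) (nat_lit 90659998198) (nat_lit 76) (nat_lit 44844168270) (nat_lit 6) (nat_lit 4) (nat_lit 7) (nat_lit 5) (nat_lit 7) (nat_lit 4) (nat_lit 358) (nat_lit 272) (nat_lit 150)) (XT.lf (nat_lit 0) (nat_lit 45729319245) (nat_lit 76) (nat_lit 83408039900) (nat_lit 76) (nat_lit 37586523640) (nat_lit 6) (nat_lit 4) (nat_lit 7) (nat_lit 5) (nat_lit 7) (nat_lit 4) (nat_lit 359) (nat_lit 272) (nat_lit 149))) (XT.nd (nat_lit 78) (nat_lit 0) (nat_lit 0) (XT.lf (nat_lit 0) (nat_lit 68726623661) (nat_lit 76) (nat_lit 75795765268) (nat_lit 76) (nat_lit 29968833453) (nat_lit 6) (nat_lit 4) (nat_lit 7) (nat_lit 5) (nat_lit 7) (nat_lit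 4) (nat_lit 360) (nat_lit 272) (nat_lit 148)) (XT.nd (nat_lit 78) (nat_lit 0) (nat_lit 0) (XT.lf (nat_lit 0) (nat_lit 92869049077) (nat_lit 76) (nat_lit 67805049838) (nat_lit 76) (nat_lit 21972960352) (nat_lit 6) (nat_lit 4) (nat_lit 7) (nat_lit 5) (nat_lit 7) (nat_lit 4) (nat_lit 361) (nat_lit 272) (nat_lit 147)) (XT.lf (nat_lit 0) (nat_lit 118214077457) (nat_lit 76) (nat_lit 59416868097) (nat_lit 76) (nat_lit 13579866544) (nat_lit 6) (nat_lit 4) (nat_lit 7) (nat_lit 5) (nat_lit 7) (nat_lit 4) (nat_lit 362) (nat_lit 272) (nat_lit 146))))) (XT.nd (nat_lit 156) (nat_lit 76) (nat_lit 0) (XT.nd (nat_lit 78) (nat_lit 76) (nat_lit 0) (XT.lf (nat_lit 0) (nat_lit 144822054108) (nat_lit 76) (nat_lit 50611248184) (nat_lit 76) (nat_lit 4769568471) (nat_lit 6) (nat_lit 4) (nat_lit 7) (nat_lit 5) (nat_lit 7) (nat_lit 4) (nat_lit 363) (nat_lit 272) (nat_lit 145)) (XT.lf (nat_lit 0) (nat_lit 4335557649)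 (nat_lit 152) (nat_lit 36958241922) (nat_lit 76) (nat_lit 168347348938) (nat_lit 5) (nat_lit 5) (nat_lit 7) (nat_lit 5) (nat_lit 6) (nat_lit 4) (nat_lit 364) (nat_lit 272) (nat_lit 144))) (XT.nd (nat_lit 78) (nat_lit 76) (nat_lit 0) (XT.lf (nat_lit 0) (nat_lit 13733499828) (nat_lit 152) (nat_lit 17696703684) (nat_lit 76) (nat_lit 188117336087) (nat_lit 5) (nat_lit 5) (nat_lit 7) (nat_lit 5) (nat_lit 6) (nat_lit 4) (nat_lit 365) (nat_lit 272) (nat_lit 143)) (XT.nd (nat_lit 78) (nat_lit 0) (nat_lit 0) (XT.lf (nat_lit 0) (nat_lit 2607584171) (nat_lit 76) (nat_lit 21032417620) (nat_lit 152) (nat_lit 206307316617) (nat_lit 4) (nat_lit 5) (nat_lit 5) (nat_lit 5) (nat_lit 6) (nat_lit 4) (nat_lit 366) (nat_lit 272) (nat_lit 142)) (XT.lf (nat_lit 0) (nat_lit 24537750809) (nat_lit 76) (nat_lit 9801770676) (nat_lit 152) (nat_lit 206512681283) (nat_lit 4) (nat_lit 5) (nat_lit 5) (nat_lit 5) (nat_lit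 6) (nat_lit 4) (nat_lit 367) (nat_lit 272) (nat_lit 141))))))))
noncomputable def xc145 : XT := (XT.nd (nat_lit 33384) (nat_lit 0) (nat_lit 4104) (XT.nd (nat_lit 702) (nat_lit 76) (nat_lit 0) (XT.nd (nat_lit 312) (nat_lit 0) (nat_lit 0) (XT.nd (nat_lit 156) (nat_lit 0) (nat_lit 0) (XT.nd (nat_lit 78) (nat_lit 0) (nat_lit 0) (XT.lf (nat_lit 0) (nat_lit 45603153596) (nat_lit 152) (nat_lit 204772600600) (nat_lit 0) (nat_lit 1925121504) (nat_lit 4) (nat_lit 5) (nat_lit 6) (nat_lit 4) (nat_lit 4) (nat_lit 4) (nat_lit 368) (nat_lit 272) (nat_lit 140)) (XT.lf (nat_lit 0) (nat_lit 57588805008) (nat_lit 152) (nat_lit 192817788276) (nat_lit 0) (nat_lit 13907448236) (nat_lit 4) (nat_lit 5) (nat_lit 6) (nat_lit 4) (nat_lit 4) (nat_lit 4) (nat_lit 369) (nat_lit 272) (nat_lit 139))) (XT.nd (nat_lit 78) (nat_lit 0) (nat_lit 0) (XT.lf (nat_lit 0) (nat_lit 70171979877) (nat_lit 152) (nat_lit 180268518037)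 (nat_lit 0) (nat_lit 26487456742) (nat_lit 4) (nat_lit 5) (nat_lit 6) (nat_lit 4) (nat_lit 4) (nat_lit 4) (nat_lit 370) (nat_lit 272) (nat_lit 138)) (XT.lf (nat_lit 0) (nat_lit 83382638143) (nat_lit 152) (nat_lit 167094910667) (nat_lit 0) (nat_lit 39695099425) (nat_lit 4) (nat_lit 5) (nat_lit 6) (nat_lit 4) (nat_lit 4) (nat_lit 4) (nat_lit 371) (nat_lit 272) (nat_lit 137)))) (XT.nd (nat_lit 156) (nat_lit 0) (nat_lit 0) (XT.nd (nat_lit 78) (nat_lit 0) (nat_lit 0) (XT.lf (nat_lit 0) (nat_lit 97252233754) (nat_lit 152) (nat_lit 153265600437) (nat_lit 0) (nat_lit 53561823052) (nat_lit 4) (nat_lit 5) (nat_lit 6) (nat_lit 4) (nat_lit 4) (nat_lit 4) (nat_lit 372) (nat_lit 272) (nat_lit 136)) (XT.lf (nat_lit 0) (nat_lit 111813789557) (nat_lit 152) (nat_lit 138747660415) (nat_lit 0) (nat_lit 68120643631) (nat_lit 4) (nat_lit 5) (nat_lit 6) (nat_lit 4) (nat_lit 4) (nat_lit 4) (nat_lit 373) (nat_lit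 272) (nat_lit 135))) (XT.nd (nat_lit 78) (nat_lit 0) (nat_lit 0) (XT.lf (nat_lit 0) (nat_lit 127101975922) (nat_lit 152) (nat_lit 123506524079) (nat_lit 0) (nat_lit 83406225023) (nat_lit 4) (nat_lit 5) (nat_lit 6) (nat_lit 4) (nat_lit 4) (nat_lit 4) (nat_lit 374) (nat_lit 272) (nat_lit 134)) (XT.nd (nat_lit 78) (nat_lit 0) (nat_lit 0) (XT.lf (nat_lit 0) (nat_lit 143153193294) (nat_lit 152) (nat_lit 107505903008) (nat_lit 0) (nat_lit 99454961467) (nat_lit 4) (nat_lit 5) (nat_lit 6) (nat_lit 4) (nat_lit 4) (nat_lit 4) (nat_lit 375) (nat_lit 272) (nat_lit 133)) (XT.lf (nat_lit 0) (nat_lit 160005658857) (nat_lit 152) (nat_lit 90707700486) (nat_lit 0) (nat_lit 116305064241) (nat_lit 4) (nat_lit 5) (nat_lit 6) (nat_lit 4) (nat_lit 4) (nat_lit 4) (nat_lit 376) (nat_lit 272) (nat_lit 132)))))) (XT.nd (nat_lit 390) (nat_lit 0) (nat_lit 0) (XT.nd (nat_lit 156) (nat_lit 76) (nat_lit 0) (XT.nd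 (nat_lit 78) (nat_lit 0) (nat_lit 0) (XT.lf (nat_lit 0) (nat_lit 177699497529) (nat_lit 152) (nat_lit 73071920793) (nat_lit 0) (nat_lit 133996652638) (nat_lit 4) (nat_lit 5) (nat_lit 6) (nat_lit 4) (nat_lit 4) (nat_lit 4) (nat_lit 377) (nat_lit 272) (nat_lit 131)) (XT.lf (nat_lit 0) (nat_lit 196276837497) (nat_lit 152) (nat_lit 54556573976) (nat_lit 0) (nat_lit 152571849487) (nat_lit 4) (nat_lit 5) (nat_lit 6) (nat_lit 4) (nat_lit 4) (nat_lit 4) (nat_lit 378) (nat_lit 272) (nat_lit 130))) (XT.nd (nat_lit 78) (nat_lit 76) (nat_lit 0) (XT.lf (nat_lit 0) (nat_lit 215781910522) (nat_lit 152) (nat_lit 35117575877) (nat_lit 0) (nat_lit 172074881447) (nat_lit 4) (nat_lit 5) (nat_lit 6) (nat_lit 4) (nat_lit 4) (nat_lit 4) (nat_lit 379) (nat_lit 272) (nat_lit 129)) (XT.nd (nat_lit 78) (nat_lit 76) (nat_lit 0) (XT.lf (nat_lit 0) (nat_lit 236261157256) (nat_lit 152) (nat_lit 14708643167) (nat_lit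 0) (nat_lit 192552184308) (nat_lit 4) (nat_lit 5) (nat_lit 6) (nat_lit 4) (nat_lit 4) (nat_lit 4) (nat_lit 380) (nat_lit 272) (nat_lit 128)) (XT.lf (nat_lit 0) (nat_lit 6940971279) (nat_lit 76) (nat_lit 250930734543) (nat_lit 76) (nat_lit 207219910289) (nat_lit 3) (nat_lit 4) (nat_lit 4) (nat_lit 5) (nat_lit 4) (nat_lit 4) (nat_lit 381) (nat_lit 272) (nat_lit 127))))) (XT.nd (nat_lit 156) (nat_lit 0) (nat_lit 0) (XT.nd (nat_lit 78) (nat_lit 0) (nat_lit 0) (XT.lf (nat_lit 0) (nat_lit 30181828954) (nat_lit 76) (nat_lit 250629041828) (nat_lit 76) (nat_lit 206916454424) (nat_lit 3) (nat_lit 4) (nat_lit 4) (nat_lit 5) (nat_lit 4) (nat_lit 4) (nat_lit 382) (nat_lit 272) (nat_lit 126)) (XT.lf (nat_lit 0) (nat_lit 54582931066) (nat_lit 76) (nat_lit 250313101950) (nat_lit 76) (nat_lit 206598835357) (nat_lit 3) (nat_lit 4) (nat_lit 4) (nat_lit 5) (nat_lit 4) (nat_lit 4) (nat_lit 383) (nat_lit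 272) (nat_lit 125))) (XT.nd (nat_lit 31980) (nat_lit 0) (nat_lit 6612) (XT.lf (nat_lit 0) (nat_lit 80202375475) (nat_lit 76) (nat_lit 249982162673) (nat_lit 76) (nat_lit 206266296852) (nat_lit 3) (nat_lit 4) (nat_lit 4) (nat_lit 5) (nat_lit 4) (nat_lit 4) (nat_lit 384) (nat_lit 272) (nat_lit 124)) (XT.nd (nat_lit 78) (nat_lit 684) (nat_lit 0) (XT.lf (nat_lit 0) (nat_lit 1944288958) (nat_lit 0) (nat_lit 1944288958) (nat_lit 532) (nat_lit 333884066) (nat_lit 99) (nat_lit 5) (nat_lit 99) (nat_lit 3) (nat_lit 106) (nat_lit 3) (nat_lit 273) (nat_lit 273) (nat_lit 234)) (XT.lf (nat_lit 0) (nat_lit 317010851) (nat_lit 684) (nat_lit 784579430) (nat_lit 684) (nat_lit 7503207517) (nat_lit 90) (nat_lit 3) (nat_lit 99) (nat_lit 3) (nat_lit 99) (nat_lit 5) (nat_lit 274) (nat_lit 273) (nat_lit 233))))))) (XT.nd (nat_lit 780) (nat_lit 2128) (nat_lit 0) (XT.nd (nat_lit 390) (nat_lit 456) (nat_lit 0)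 (XT.nd (nat_lit 156) (nat_lit 0) (nat_lit 0) (XT.nd (nat_lit 78) (nat_lit 0) (nat_lit 0) (XT.lf (nat_lit 0) (nat_lit 1346356712) (nat_lit 608) (nat_lit 5567496737) (nat_lit 684) (nat_lit 1857555629) (nat_lit 91) (nat_lit 5) (nat_lit 99) (nat_lit 5) (nat_lit 100) (nat_lit 5) (nat_lit 275) (nat_lit 273) (nat_lit 232)) (XT.lf (nat_lit 0) (nat_lit 2398941409) (nat_lit 608) (nat_lit 1580988464) (nat_lit 684) (nat_lit 4968003495) (nat_lit 91) (nat_lit 5) (nat_lit 99) (nat_lit 5) (nat_lit 100) (nat_lit 5) (nat_lit 276) (nat_lit 273) (nat_lit 231))) (XT.nd (nat_lit 78) (nat_lit 0) (nat_lit 76) (XT.lf (nat_lit 76) (nat_lit 2655462560) (nat_lit 0) (nat_lit 833206878) (nat_lit 684) (nat_lit 5645551606) (nat_lit 92) (nat_lit 5) (nat_lit 91) (nat_lit 5) (nat_lit 100) (nat_lit 5) (nat_lit 277) (nat_lit 273) (nat_lit 230)) (XT.nd (nat_lit 78) (nat_lit 0) (nat_lit 0) (XT.lf (nat_lit 0) (nat_lit 4644240034)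 (nat_lit 608) (nat_lit 2245915523) (nat_lit 684) (nat_lit 2439254862) (nat_lit 92) (nat_lit 5) (nat_lit 100) (nat_lit 5) (nat_lit 101) (nat_lit 5) (nat_lit 278) (nat_lit 273) (nat_lit 229)) (XT.lf (nat_lit 76) (nat_lit 2220711098) (nat_lit 0) (nat_lit 3633366332) (nat_lit 684) (nat_lit 3680605154) (nat_lit 93) (nat_lit 5) (nat_lit 92) (nat_lit 5) (nat_lit 101) (nat_lit 5) (nat_lit 279) (nat_lit 273) (nat_lit 228))))) (XT.nd (nat_lit 156) (nat_lit 532) (nat_lit 0) (XT.nd (nat_lit 78) (nat_lit 0) (nat_lit 76) (XT.lf (nat_lit 76) (nat_lit 6953935150) (nat_lit 0) (nat_lit 158591642) (nat_lit 684) (nat_lit 2638426260) (nat_lit 93) (nat_lit 5) (nat_lit 92) (nat_lit 5) (nat_lit 101) (nat_lit 5) (nat_lit 280) (nat_lit 273) (nat_lit 227)) (XT.lf (nat_lit 76) (nat_lit 1916855885) (nat_lit 0) (nat_lit 6554145192) (nat_lit 684) (nat_lit 1505314845) (nat_lit 94) (nat_lit 5) (nat_lit 93) (nat_lit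 5) (nat_lit 102) (nat_lit 5) (nat_lit 281) (nat_lit 273) (nat_lit 226))) (XT.nd (nat_lit 78) (nat_lit 608) (nat_lit 0) (XT.lf (nat_lit 76) (nat_lit 6925629588) (nat_lit 0) (nat_lit 2976086956) (nat_lit 684) (nat_lit 311142135) (nat_lit 94) (nat_lit 5) (nat_lit 93) (nat_lit 5) (nat_lit 102) (nat_lit 5) (nat_lit 282) (nat_lit 273) (nat_lit 225)) (XT.nd (nat_lit 78) (nat_lit 0) (nat_lit 0) (XT.lf (nat_lit 0) (nat_lit 908313260) (nat_lit 684) (nat_lit 8745369687) (nat_lit 76) (nat_lit 807138063) (nat_lit 85) (nat_lit 5) (nat_lit 94) (nat_lit 5) (nat_lit 86) (nat_lit 5) (nat_lit 283) (nat_lit 273) (nat_lit 224)) (XT.lf (nat_lit 0) (nat_lit 2241085345) (nat_lit 684) (nat_lit 3727731279) (nat_lit 76) (nat_lit 4749080024) (nat_lit 85) (nat_lit 5) (nat_lit 94) (nat_lit 5) (nat_lit 86) (nat_lit 5) (nat_lit 284) (nat_lit 273) (nat_lit 223)))))) (XT.nd (nat_lit 390) (nat_lit 684) (nat_lit 0) (XT.nd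 (nat_lit 156) (nat_lit 760) (nat_lit 0) (XT.nd (nat_lit 78) (nat_lit 0) (nat_lit 0) (XT.lf (nat_lit 0) (nat_lit 1555407364) (nat_lit 684) (nat_lit 2068828720) (nat_lit 760) (nat_lit 7364507973) (nat_lit 76) (nat_lit 5) (nat_lit 85) (nat_lit 5) (nat_lit 86) (nat_lit 5) (nat_lit 285) (nat_lit 273) (nat_lit 222)) (XT.lf (nat_lit 0) (nat_lit 5133261681) (nat_lit 760) (nat_lit 4107250968) (nat_lit 76) (nat_lit 2029885316) (nat_lit 76) (nat_lit 5) (nat_lit 86) (nat_lit 5) (nat_lit 77) (nat_lit 5) (nat_lit 286) (nat_lit 273) (nat_lit 221))) (XT.nd (nat_lit 78) (nat_lit 380) (nat_lit 0) (XT.lf (nat_lit 0) (nat_lit 1463074106) (nat_lit 380) (nat_lit 5274200876) (nat_lit 456) (nat_lit 4827977996) (nat_lit 71) (nat_lit 5) (nat_lit 76) (nat_lit 5) (nat_lit 77) (nat_lit 5) (nat_lit 287) (nat_lit 273) (nat_lit 220)) (XT.nd (nat_lit 78) (nat_lit 380) (nat_lit 0) (XT.lf (nat_lit 0) (nat_lit 7420096841)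 (nat_lit 380) (nat_lit 1034964070) (nat_lit 456) (nat_lit 3418201929) (nat_lit 71) (nat_lit 5) (nat_lit 76) (nat_lit 5) (nat_lit 77) (nat_lit 5) (nat_lit 288) (nat_lit 273) (nat_lit 219)) (XT.lf (nat_lit 0) (nat_lit 1436334434) (nat_lit 380) (nat_lit 8863914612) (nat_lit 456) (nat_lit 1894434881) (nat_lit 66) (nat_lit 5) (nat_lit 71) (nat_lit 5) (nat_lit 72) (nat_lit 5) (nat_lit 289) (nat_lit 273) (nat_lit 218))))) (XT.nd (nat_lit 156) (nat_lit 304) (nat_lit 0) (XT.nd (nat_lit 78) (nat_lit 380) (nat_lit 0) (XT.lf (nat_lit 0) (nat_lit 7723346409) (nat_lit 380) (nat_lit 4573309839) (nat_lit 456) (nat_lit 232654102) (nat_lit 66) (nat_lit 5) (nat_lit 71) (nat_lit 5) (nat_lit 72) (nat_lit 5) (nat_lit 290) (nat_lit 273) (nat_lit 217)) (XT.lf (nat_lit 0) (nat_lit 1432730364) (nat_lit 304) (nat_lit 21289274) (nat_lit 380) (nat_lit 11426032362) (nat_lit 61) (nat_lit 5) (nat_lit 65) (nat_lit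 5) (nat_lit 66) (nat_lit 5) (nat_lit 291) (nat_lit 273) (nat_lit 216))) (XT.nd (nat_lit 78) (nat_lit 304) (nat_lit 0) (XT.lf (nat_lit 0) (nat_lit 3343047239) (nat_lit 380) (nat_lit 5208103765) (nat_lit 76) (nat_lit 4690768148) (nat_lit 61) (nat_lit 5) (nat_lit 66) (nat_lit 5) (nat_lit 62) (nat_lit 5) (nat_lit 292) (nat_lit 273) (nat_lit 215)) (XT.nd (nat_lit 78) (nat_lit 0) (nat_lit 0) (XT.lf (nat_lit 0) (nat_lit 1353065874) (nat_lit 304) (nat_lit 3965241513) (nat_lit 380) (nat_lit 8304050895) (nat_lit 57) (nat_lit 5) (nat_lit 61) (nat_lit 5) (nat_lit 62) (nat_lit 5) (nat_lit 293) (nat_lit 273) (nat_lit 214)) (XT.lf (nat_lit 0) (nat_lit 7466406129) (nat_lit 380) (nat_lit 5642899632) (nat_lit 76) (nat_lit 908874286) (nat_lit 57) (nat_lit 5) (nat_lit 62) (nat_lit 5) (nat_lit 58) (nat_lit 5) (nat_lit 294) (nat_lit 273) (nat_lit 213))))))))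
noncomputable def xc146 : XT := (XT.nd (nat_lit 1482) (nat_lit 1140) (nat_lit 0) (XT.nd (nat_lit 702) (nat_lit 1064) (nat_lit 0) (XT.nd (nat_lit 312) (nat_lit 456) (nat_lit 0) (XT.nd (nat_lit 156) (nat_lit 380) (nat_lit 0) (XT.nd (nat_lit 78) (nat_lit 0) (nat_lit 0) (XT.lf (nat_lit 0) (nat_lit 1257797922) (nat_lit 228) (nat_lit 8521284629) (nat_lit 304) (nat_lit 4651913098) (nat_lit 54) (nat_lit 5) (nat_lit 57) (nat_lit 5) (nat_lit 58) (nat_lit 5) (nat_lit 295) (nat_lit 273) (nat_lit 212)) (XT.lf (nat_lit 0) (nat_lit 8667691252) (nat_lit 228) (nat_lit 3608610185) (nat_lit 304) (nat_lit 2584763626) (nat_lit 54) (nat_lit 5) (nat_lit 57) (nat_lit 5) (nat_lit 58) (nat_lit 5) (nat_lit 296) (nat_lit 273) (nat_lit 211))) (XT.nd (nat_lit 78) (nat_lit 76) (nat_lit 0) (XT.lf (nat_lit 0) (nat_lit 1115462569) (nat_lit 304) (nat_lit 13799066389) (nat_lit 380) (nat_lit 397357285) (nat_lit 50) (nat_lit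 5) (nat_lit 54) (nat_lit 5) (nat_lit 55) (nat_lit 5) (nat_lit 297) (nat_lit 273) (nat_lit 210)) (XT.lf (nat_lit 0) (nat_lit 1979200021) (nat_lit 380) (nat_lit 6897636616) (nat_lit 76) (nat_lit 6899950888) (nat_lit 49) (nat_lit 5) (nat_lit 54) (nat_lit 5) (nat_lit 50) (nat_lit 5) (nat_lit 298) (nat_lit 273) (nat_lit 209)))) (XT.nd (nat_lit 156) (nat_lit 228) (nat_lit 0) (XT.nd (nat_lit 78) (nat_lit 0) (nat_lit 0) (XT.lf (nat_lit 0) (nat_lit 753343662) (nat_lit 228) (nat_lit 3695658223) (nat_lit 304) (nat_lit 11816265856) (nat_lit 46) (nat_lit 5) (nat_lit 49) (nat_lit 5) (nat_lit 50) (nat_lit 5) (nat_lit 299) (nat_lit 273) (nat_lit 208)) (XT.lf (nat_lit 0) (nat_lit 7164844356) (nat_lit 304) (nat_lit 7806104496) (nat_lit 76) (nat_lit 1801141400) (nat_lit 46) (nat_lit 5) (nat_lit 50) (nat_lit 5) (nat_lit 47) (nat_lit 5) (nat_lit 300) (nat_lit 273) (nat_lit 207))) (XT.nd (nat_lit 78) (nat_lit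 0) (nat_lit 0) (XT.lf (nat_lit 0) (nat_lit 201377488) (nat_lit 228) (nat_lit 9856528119) (nat_lit 304) (nat_lit 7244320574) (nat_lit 43) (nat_lit 5) (nat_lit 46) (nat_lit 5) (nat_lit 47) (nat_lit 5) (nat_lit 301) (nat_lit 273) (nat_lit 206)) (XT.nd (nat_lit 78) (nat_lit 0) (nat_lit 0) (XT.lf (nat_lit 0) (nat_lit 8851230172) (nat_lit 228) (nat_lit 4354896949) (nat_lit 304) (nat_lit 4647257975) (nat_lit 43) (nat_lit 5) (nat_lit 46) (nat_lit 5) (nat_lit 47) (nat_lit 5) (nat_lit 302) (nat_lit 273) (nat_lit 205)) (XT.lf (nat_lit 0) (nat_lit 16513189428) (nat_lit 304) (nat_lit 549320824) (nat_lit 76) (nat_lit 1369559790) (nat_lit 43) (nat_lit 5) (nat_lit 47) (nat_lit 5) (nat_lit 44) (nat_lit 5) (nat_lit 303) (nat_lit 273) (nat_lit 204)))))) (XT.nd (nat_lit 390) (nat_lit 456) (nat_lit 0) (XT.nd (nat_lit 156) (nat_lit 380) (nat_lit 0) (XT.nd (nat_lit 78) (nat_lit 0) (nat_lit 0) (XT.lf (nat_lit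 0) (nat_lit 1102939480) (nat_lit 228) (nat_lit 10548732193) (nat_lit 76) (nat_lit 7377950080) (nat_lit 40) (nat_lit 5) (nat_lit 43) (nat_lit 5) (nat_lit 41) (nat_lit 5) (nat_lit 304) (nat_lit 273) (nat_lit 203)) (XT.lf (nat_lit 0) (nat_lit 4201212442) (nat_lit 228) (nat_lit 1733991154) (nat_lit 76) (nat_lit 13720816341) (nat_lit 40) (nat_lit 5) (nat_lit 43) (nat_lit 5) (nat_lit 41) (nat_lit 5) (nat_lit 305) (nat_lit 273) (nat_lit 202))) (XT.nd (nat_lit 78) (nat_lit 152) (nat_lit 0) (XT.lf (nat_lit 0) (nat_lit 7559530481) (nat_lit 304) (nat_lit 12568424752) (nat_lit 76) (nat_lit 180558782) (nat_lit 37) (nat_lit 5) (nat_lit 41) (nat_lit 5) (nat_lit 38) (nat_lit 5) (nat_lit 306) (nat_lit 273) (nat_lit 201)) (XT.nd (nat_lit 78) (nat_lit 152) (nat_lit 0) (XT.lf (nat_lit 0) (nat_lit 11194606358) (nat_lit 304) (nat_lit 3368439421) (nat_lit 76) (nat_lit 6425175925) (nat_lit 37) (nat_lit 5)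 (nat_lit 41) (nat_lit 5) (nat_lit 38) (nat_lit 5) (nat_lit 307) (nat_lit 273) (nat_lit 200)) (XT.lf (nat_lit 0) (nat_lit 6473431550) (nat_lit 152) (nat_lit 8621640627) (nat_lit 228) (nat_lit 6602690321) (nat_lit 35) (nat_lit 5) (nat_lit 37) (nat_lit 5) (nat_lit 38) (nat_lit 5) (nat_lit 308) (nat_lit 273) (nat_lit 199))))) (XT.nd (nat_lit 156) (nat_lit 152) (nat_lit 0) (XT.nd (nat_lit 78) (nat_lit 304) (nat_lit 0) (XT.lf (nat_lit 0) (nat_lit 16899444947) (nat_lit 152) (nat_lit 2331171648) (nat_lit 228) (nat_lit 3210189093) (nat_lit 35) (nat_lit 5) (nat_lit 37) (nat_lit 5) (nat_lit 38) (nat_lit 5) (nat_lit 309) (nat_lit 273) (nat_lit 198)) (XT.lf (nat_lit 0) (nat_lit 466238532) (nat_lit 304) (nat_lit 18537831952) (nat_lit 76) (nat_lit 4210403049) (nat_lit 31) (nat_lit 5) (nat_lit 35) (nat_lit 5) (nat_lit 32) (nat_lit 5) (nat_lit 310) (nat_lit 273) (nat_lit 197))) (XT.nd (nat_lit 78) (nat_lit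 152) (nat_lit 0) (XT.lf (nat_lit 0) (nat_lit 4336020436) (nat_lit 304) (nat_lit 8541179312) (nat_lit 76) (nat_lit 11141147197) (nat_lit 31) (nat_lit 5) (nat_lit 35) (nat_lit 5) (nat_lit 32) (nat_lit 5) (nat_lit 311) (nat_lit 273) (nat_lit 196)) (XT.nd (nat_lit 78) (nat_lit 0) (nat_lit 0) (XT.lf (nat_lit 0) (nat_lit 1995759937) (nat_lit 152) (nat_lit 6419277850) (nat_lit 228) (nat_lit 16446612060) (nat_lit 29) (nat_lit 5) (nat_lit 31) (nat_lit 5) (nat_lit 32) (nat_lit 5) (nat_lit 312) (nat_lit 273) (nat_lit 195)) (XT.lf (nat_lit 0) (nat_lit 12835507065) (nat_lit 228) (nat_lit 12415518785) (nat_lit 76) (nat_lit 489239025) (nat_lit 29) (nat_lit 5) (nat_lit 32) (nat_lit 5) (nat_lit 30) (nat_lit 5) (nat_lit 313) (nat_lit 273) (nat_lit 194))))))) (XT.nd (nat_lit 780) (nat_lit 456) (nat_lit 0) (XT.nd (nat_lit 390) (nat_lit 304) (nat_lit 0) (XT.nd (nat_lit 156) (nat_lit 228) (nat_lit 0) (XT.nd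 (nat_lit 78) (nat_lit 152) (nat_lit 0) (XT.lf (nat_lit 0) (nat_lit 17567792067) (nat_lit 228) (nat_lit 1570428878) (nat_lit 76) (nat_lit 7520071082) (nat_lit 29) (nat_lit 5) (nat_lit 32) (nat_lit 5) (nat_lit 30) (nat_lit 5) (nat_lit 314) (nat_lit 273) (nat_lit 193)) (XT.lf (nat_lit 0) (nat_lit 10119305334) (nat_lit 152) (nat_lit 12561622600) (nat_lit 228) (nat_lit 4934100757) (nat_lit 27) (nat_lit 5) (nat_lit 29) (nat_lit 5) (nat_lit 30) (nat_lit 5) (nat_lit 315) (nat_lit 273) (nat_lit 192))) (XT.nd (nat_lit 78) (nat_lit 228) (nat_lit 0) (XT.lf (nat_lit 0) (nat_lit 22426903479) (nat_lit 152) (nat_lit 5635983821) (nat_lit 228) (nat_lit 556075587) (nat_lit 27) (nat_lit 5) (nat_lit 29) (nat_lit 5) (nat_lit 30) (nat_lit 5) (nat_lit 316) (nat_lit 273) (nat_lit 191)) (XT.nd (nat_lit 78) (nat_lit 0) (nat_lit 0) (XT.lf (nat_lit 0) (nat_lit 4016649411) (nat_lit 228) (nat_lit 23915986390) (nat_lit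 76) (nat_lit 1732064255) (nat_lit 24) (nat_lit 5) (nat_lit 27) (nat_lit 5) (nat_lit 25) (nat_lit 5) (nat_lit 317) (nat_lit 273) (nat_lit 190)) (XT.lf (nat_lit 0) (nat_lit 8985469613) (nat_lit 228) (nat_lit 12379997044) (nat_lit 76) (nat_lit 9387510733) (nat_lit 24) (nat_lit 5) (nat_lit 27) (nat_lit 5) (nat_lit 25) (nat_lit 5) (nat_lit 318) (nat_lit 273) (nat_lit 189))))) (XT.nd (nat_lit 156) (nat_lit 152) (nat_lit 0) (XT.nd (nat_lit 78) (nat_lit 152) (nat_lit 0) (XT.lf (nat_lit 0) (nat_lit 14190510760) (nat_lit 228) (nat_lit 287006017) (nat_lit 76) (nat_lit 17418778475) (nat_lit 24) (nat_lit 5) (nat_lit 27) (nat_lit 5) (nat_lit 25) (nat_lit 5) (nat_lit 319) (nat_lit 273) (nat_lit 188)) (XT.lf (nat_lit 0) (nat_lit 12801507720) (nat_lit 152) (nat_lit 7042525499) (nat_lit 228) (nat_lit 13243349239) (nat_lit 22) (nat_lit 5) (nat_lit 24) (nat_lit 5) (nat_lit 25) (nat_lit 5) (nat_lit 320)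 (nat_lit 273) (nat_lit 187))) (XT.nd (nat_lit 78) (nat_lit 152) (nat_lit 0) (XT.lf (nat_lit 0) (nat_lit 25785617963) (nat_lit 228) (nat_lit 7814402621) (nat_lit 76) (nat_lit 737748335) (nat_lit 22) (nat_lit 5) (nat_lit 25) (nat_lit 5) (nat_lit 23) (nat_lit 4) (nat_lit 321) (nat_lit 273) (nat_lit 186)) (XT.nd (nat_lit 78) (nat_lit 76) (nat_lit 0) (XT.lf (nat_lit 0) (nat_lit 5317261489) (nat_lit 76) (nat_lit 26894550334) (nat_lit 152) (nat_lit 3429499916) (nat_lit 21) (nat_lit 5) (nat_lit 22) (nat_lit 5) (nat_lit 23) (nat_lit 4) (nat_lit 322) (nat_lit 273) (nat_lit 185)) (XT.lf (nat_lit 0) (nat_lit 2010520716) (nat_lit 152) (nat_lit 17677406643) (nat_lit 76) (nat_lit 17314413605) (nat_lit 20) (nat_lit 5) (nat_lit 22) (nat_lit 5) (nat_lit 21) (nat_lit 5) (nat_lit 323) (nat_lit 273) (nat_lit 184)))))) (XT.nd (nat_lit 390) (nat_lit 228) (nat_lit 0) (XT.nd (nat_lit 156) (nat_lit 76) (nat_lit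 0) (XT.nd (nat_lit 78) (nat_lit 152) (nat_lit 0) (XT.lf (nat_lit 0) (nat_lit 7596923060) (nat_lit 152) (nat_lit 4471981591) (nat_lit 76) (nat_lit 26360235902) (nat_lit 20) (nat_lit 5) (nat_lit 22) (nat_lit 5) (nat_lit 21) (nat_lit 5) (nat_lit 324) (nat_lit 273) (nat_lit 183)) (XT.lf (nat_lit 0) (nat_lit 9687263425) (nat_lit 152) (nat_lit 3916755391) (nat_lit 228) (nat_lit 26316203768) (nat_lit 18) (nat_lit 5) (nat_lit 20) (nat_lit 5) (nat_lit 21) (nat_lit 5) (nat_lit 325) (nat_lit 273) (nat_lit 182))) (XT.nd (nat_lit 78) (nat_lit 76) (nat_lit 0) (XT.lf (nat_lit 0) (nat_lit 20051178127) (nat_lit 228) (nat_lit 16862704604) (nat_lit 76) (nat_lit 4565001148) (nat_lit 18) (nat_lit 5) (nat_lit 21) (nat_lit 5) (nat_lit 19) (nat_lit 4) (nat_lit 326) (nat_lit 273) (nat_lit 181)) (XT.nd (nat_lit 78) (nat_lit 76) (nat_lit 0) (XT.lf (nat_lit 0) (nat_lit 26875610955) (nat_lit 228) (nat_lit 2903983203)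 (nat_lit 76) (nat_lit 13333148396) (nat_lit 18) (nat_lit 5) (nat_lit 21) (nat_lit 5) (nat_lit 19) (nat_lit 4) (nat_lit 327) (nat_lit 273) (nat_lit 180)) (XT.lf (nat_lit 0) (nat_lit 12125689407) (nat_lit 76) (nat_lit 22096041008) (nat_lit 152) (nat_lit 10597550113) (nat_lit 17) (nat_lit 5) (nat_lit 18) (nat_lit 5) (nat_lit 19) (nat_lit 4) (nat_lit 328) (nat_lit 273) (nat_lit 179))))) (XT.nd (nat_lit 156) (nat_lit 152) (nat_lit 0) (XT.nd (nat_lit 78) (nat_lit 76) (nat_lit 0) (XT.lf (nat_lit 0) (nat_lit 27992826011) (nat_lit 76) (nat_lit 13982848988) (nat_lit 152) (nat_lit 4633453599) (nat_lit 17) (nat_lit 5) (nat_lit 18) (nat_lit 5) (nat_lit 19) (nat_lit 4) (nat_lit 329) (nat_lit 273) (nat_lit 178)) (XT.lf (nat_lit 0) (nat_lit 1568322001) (nat_lit 152) (nat_lit 3874999042) (nat_lit 76) (nat_lit 43044304410) (nat_lit 16) (nat_lit 5) (nat_lit 18) (nat_lit 5) (nat_lit 17) (nat_lit 5) (nat_lit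 330) (nat_lit 273) (nat_lit 177))) (XT.nd (nat_lit 78) (nat_lit 0) (nat_lit 0) (XT.lf (nat_lit 0) (nat_lit 8161390381) (nat_lit 228) (nat_lit 38612204553) (nat_lit 76) (nat_lit 3670816292) (nat_lit 14) (nat_lit 5) (nat_lit 17) (nat_lit 5) (nat_lit 15) (nat_lit 4) (nat_lit 331) (nat_lit 273) (nat_lit 176)) (XT.nd (nat_lit 78) (nat_lit 0) (nat_lit 0) (XT.lf (nat_lit 0) (nat_lit 15232135835) (nat_lit 228) (nat_lit 24140582088) (nat_lit 76) (nat_lit 13118924716) (nat_lit 14) (nat_lit 5) (nat_lit 17) (nat_lit 5) (nat_lit 15) (nat_lit 4) (nat_lit 332) (nat_lit 273) (nat_lit 175)) (XT.lf (nat_lit 0) (nat_lit 22648883399) (nat_lit 228) (nat_lit 8958540739) (nat_lit 76) (nat_lit 23034195416) (nat_lit 14) (nat_lit 5) (nat_lit 17) (nat_lit 5) (nat_lit 15) (nat_lit 4) (nat_lit 333) (nat_lit 273) (nat_lit 174))))))))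
noncomputable def xc147 : XT := (XT.nd (nat_lit 1482) (nat_lit 228) (nat_lit 0) (XT.nd (nat_lit 702) (nat_lit 228) (nat_lit 0) (XT.nd (nat_lit 312) (nat_lit 228) (nat_lit 0) (XT.nd (nat_lit 156) (nat_lit 0) (nat_lit 0) (XT.nd (nat_lit 78) (nat_lit 0) (nat_lit 0) (XT.lf (nat_lit 0) (nat_lit 7200529111) (nat_lit 76) (nat_lit 23341183324) (nat_lit 152) (nat_lit 26352127508) (nat_lit 13) (nat_lit 5) (nat_lit 14) (nat_lit 5) (nat_lit 15) (nat_lit 4) (nat_lit 334) (nat_lit 273) (nat_lit 173)) (XT.lf (nat_lit 0) (nat_lit 24466239479) (nat_lit 76) (nat_lit 14507633494) (nat_lit 152) (nat_lit 20277570381) (nat_lit 13) (nat_lit 5) (nat_lit 14) (nat_lit 5) (nat_lit 15) (nat_lit 4) (nat_lit 335) (nat_lit 273) (nat_lit 172))) (XT.nd (nat_lit 78) (nat_lit 0) (nat_lit 0) (XT.lf (nat_lit 0) (nat_lit 42583489384) (nat_lit 76) (nat_lit 5237459611) (nat_lit 152) (nat_lit 13906318765) (nat_lit 13) (nat_lit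 5) (nat_lit 14) (nat_lit 5) (nat_lit 15) (nat_lit 4) (nat_lit 336) (nat_lit 273) (nat_lit 171)) (XT.lf (nat_lit 0) (nat_lit 57174128467) (nat_lit 152) (nat_lit 2801916347) (nat_lit 0) (nat_lit 4347656993) (nat_lit 13) (nat_lit 5) (nat_lit 15) (nat_lit 4) (nat_lit 13) (nat_lit 4) (nat_lit 337) (nat_lit 273) (nat_lit 170)))) (XT.nd (nat_lit 156) (nat_lit 76) (nat_lit 0) (XT.nd (nat_lit 78) (nat_lit 0) (nat_lit 0) (XT.lf (nat_lit 0) (nat_lit 261564109) (nat_lit 152) (nat_lit 52306899054) (nat_lit 76) (nat_lit 14465802938) (nat_lit 11) (nat_lit 5) (nat_lit 13) (nat_lit 5) (nat_lit 12) (nat_lit 4) (nat_lit 338) (nat_lit 273) (nat_lit 169)) (XT.lf (nat_lit 0) (nat_lit 7845095045) (nat_lit 152) (nat_lit 36776502545) (nat_lit 76) (nat_lit 25250800355) (nat_lit 11) (nat_lit 5) (nat_lit 13) (nat_lit 5) (nat_lit 12) (nat_lit 4) (nat_lit 339) (nat_lit 273) (nat_lit 168))) (XT.nd (nat_lit 78) (nat_lit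 76) (nat_lit 0) (XT.lf (nat_lit 0) (nat_lit 15801973434) (nat_lit 152) (nat_lit 20479989379) (nat_lit 76) (nat_lit 36570769877) (nat_lit 11) (nat_lit 5) (nat_lit 13) (nat_lit 5) (nat_lit 12) (nat_lit 4) (nat_lit 340) (nat_lit 273) (nat_lit 167)) (XT.nd (nat_lit 78) (nat_lit 76) (nat_lit 0) (XT.lf (nat_lit 0) (nat_lit 24151144225) (nat_lit 152) (nat_lit 3378558335) (nat_lit 76) (nat_lit 48452663812) (nat_lit 11) (nat_lit 5) (nat_lit 13) (nat_lit 5) (nat_lit 12) (nat_lit 4) (nat_lit 341) (nat_lit 273) (nat_lit 166)) (XT.lf (nat_lit 0) (nat_lit 15050208956) (nat_lit 76) (nat_lit 18097253380) (nat_lit 152) (nat_lit 46109539368) (nat_lit 10) (nat_lit 5) (nat_lit 11) (nat_lit 5) (nat_lit 12) (nat_lit 4) (nat_lit 342) (nat_lit 273) (nat_lit 165)))))) (XT.nd (nat_lit 390) (nat_lit 152) (nat_lit 0) (XT.nd (nat_lit 156) (nat_lit 76) (nat_lit 0) (XT.nd (nat_lit 78) (nat_lit 0) (nat_lit 0) (XT.lf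 (nat_lit 0) (nat_lit 34508426741) (nat_lit 76) (nat_lit 8137206797) (nat_lit 152) (nat_lit 40047137600) (nat_lit 10) (nat_lit 5) (nat_lit 11) (nat_lit 5) (nat_lit 12) (nat_lit 4) (nat_lit 343) (nat_lit 273) (nat_lit 164)) (XT.lf (nat_lit 0) (nat_lit 52649953481) (nat_lit 152) (nat_lit 31406039842) (nat_lit 0) (nat_lit 2242777706) (nat_lit 10) (nat_lit 5) (nat_lit 12) (nat_lit 4) (nat_lit 10) (nat_lit 4) (nat_lit 344) (nat_lit 273) (nat_lit 163))) (XT.nd (nat_lit 78) (nat_lit 76) (nat_lit 0) (XT.lf (nat_lit 0) (nat_lit 63283129426) (nat_lit 152) (nat_lit 13930818191) (nat_lit 0) (nat_lit 12864695102) (nat_lit 10) (nat_lit 5) (nat_lit 12) (nat_lit 4) (nat_lit 10) (nat_lit 4) (nat_lit 345) (nat_lit 273) (nat_lit 162)) (XT.nd (nat_lit 78) (nat_lit 0) (nat_lit 0) (XT.lf (nat_lit 0) (nat_lit 4555786446) (nat_lit 76) (nat_lit 69958776004) (nat_lit 76) (nat_lit 19529619253) (nat_lit 9) (nat_lit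 4) (nat_lit 10) (nat_lit 5) (nat_lit 10) (nat_lit 4) (nat_lit 346) (nat_lit 273) (nat_lit 161)) (XT.lf (nat_lit 0) (nat_lit 24442308277) (nat_lit 76) (nat_lit 62096743579) (nat_lit 76) (nat_lit 11657374992) (nat_lit 9) (nat_lit 4) (nat_lit 10) (nat_lit 5) (nat_lit 10) (nat_lit 4) (nat_lit 347) (nat_lit 273) (nat_lit 160))))) (XT.nd (nat_lit 156) (nat_lit 76) (nat_lit 0) (XT.nd (nat_lit 78) (nat_lit 76) (nat_lit 0) (XT.lf (nat_lit 0) (nat_lit 45315480401) (nat_lit 76) (nat_lit 53845056366) (nat_lit 76) (nat_lit 3395962221) (nat_lit 9) (nat_lit 4) (nat_lit 10) (nat_lit 5) (nat_lit 10) (nat_lit 4) (nat_lit 348) (nat_lit 273) (nat_lit 159)) (XT.lf (nat_lit 0) (nat_lit 5105478902) (nat_lit 152) (nat_lit 39992124831) (nat_lit 76) (nat_lit 62033058188) (nat_lit 8) (nat_lit 5) (nat_lit 10) (nat_lit 5) (nat_lit 9) (nat_lit 4) (nat_lit 349) (nat_lit 273) (nat_lit 158))) (XT.nd (nat_lit 78) (nat_lit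 76) (nat_lit 0) (XT.lf (nat_lit 0) (nat_lit 13913963917) (nat_lit 152) (nat_lit 21943551918) (nat_lit 76) (nat_lit 76073431508) (nat_lit 8) (nat_lit 5) (nat_lit 10) (nat_lit 5) (nat_lit 9) (nat_lit 4) (nat_lit 350) (nat_lit 273) (nat_lit 157)) (XT.nd (nat_lit 78) (nat_lit 76) (nat_lit 0) (XT.lf (nat_lit 0) (nat_lit 23159157406) (nat_lit 152) (nat_lit 2999306567) (nat_lit 76) (nat_lit 90812971554) (nat_lit 8) (nat_lit 5) (nat_lit 10) (nat_lit 5) (nat_lit 9) (nat_lit 4) (nat_lit 351) (nat_lit 273) (nat_lit 156)) (XT.lf (nat_lit 0) (nat_lit 17444034615) (nat_lit 76) (nat_lit 15691387388) (nat_lit 152) (nat_lit 89115088122) (nat_lit 7) (nat_lit 5) (nat_lit 8) (nat_lit 5) (nat_lit 9) (nat_lit 4) (nat_lit 352) (nat_lit 273) (nat_lit 155))))))) (XT.nd (nat_lit 780) (nat_lit 152) (nat_lit 0) (XT.nd (nat_lit 390) (nat_lit 76) (nat_lit 0) (XT.nd (nat_lit 156) (nat_lit 0) (nat_lit 0) (XT.nd (nat_lit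 78) (nat_lit 0) (nat_lit 0) (XT.lf (nat_lit 0) (nat_lit 39007341306) (nat_lit 76) (nat_lit 4650484072) (nat_lit 152) (nat_lit 84133349249) (nat_lit 7) (nat_lit 5) (nat_lit 8) (nat_lit 5) (nat_lit 9) (nat_lit 4) (nat_lit 353) (nat_lit 273) (nat_lit 154)) (XT.lf (nat_lit 0) (nat_lit 54811393739) (nat_lit 152) (nat_lit 72074604573) (nat_lit 0) (nat_lit 6717624137) (nat_lit 7) (nat_lit 5) (nat_lit 9) (nat_lit 4) (nat_lit 7) (nat_lit 4) (nat_lit 354) (nat_lit 273) (nat_lit 153))) (XT.nd (nat_lit 78) (nat_lit 0) (nat_lit 0) (XT.lf (nat_lit 0) (nat_lit 66595690809) (nat_lit 152) (nat_lit 54612012997) (nat_lit 0) (nat_lit 18495338567) (nat_lit 7) (nat_lit 5) (nat_lit 9) (nat_lit 4) (nat_lit 7) (nat_lit 4) (nat_lit 355) (nat_lit 273) (nat_lit 152)) (XT.nd (nat_lit 78) (nat_lit 0) (nat_lit 0) (XT.lf (nat_lit 0) (nat_lit 78966167350) (nat_lit 152) (nat_lit 36281873905) (nat_lit 0) (nat_lit 30859545926)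 (nat_lit 7) (nat_lit 5) (nat_lit 9) (nat_lit 4) (nat_lit 7) (nat_lit 4) (nat_lit 356) (nat_lit 273) (nat_lit 151)) (XT.lf (nat_lit 0) (nat_lit 91952276876) (nat_lit 152) (nat_lit 17040544108) (nat_lit 0) (nat_lit 43839684803) (nat_lit 7) (nat_lit 5) (nat_lit 9) (nat_lit 4) (nat_lit 7) (nat_lit 4) (nat_lit 357) (nat_lit 273) (nat_lit 150))))) (XT.nd (nat_lit 156) (nat_lit 0) (nat_lit 0) (XT.nd (nat_lit 78) (nat_lit 0) (nat_lit 0) (XT.lf (nat_lit 0) (nat_lit 3262199850) (nat_lit 76) (nat_lit 102373670928) (nat_lit 76) (nat_lit 54255392523) (nat_lit 6) (nat_lit 4) (nat_lit 7) (nat_lit 5) (nat_lit 7) (nat_lit 4) (nat_lit 358) (nat_lit 273) (nat_lit 149)) (XT.lf (nat_lit 0) (nat_lit 25166708787) (nat_lit 76) (nat_lit 95122825596) (nat_lit 76) (nat_lit 46999131637) (nat_lit 6) (nat_lit 4) (nat_lit 7) (nat_lit 5) (nat_lit 7) (nat_lit 4) (nat_lit 359) (nat_lit 273) (nat_lit 148))) (XT.nd (nat_lit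 78) (nat_lit 0) (nat_lit 0) (XT.lf (nat_lit 0) (nat_lit 48161698949) (nat_lit 76) (nat_lit 87511610932) (nat_lit 76) (nat_lit 39382759301) (nat_lit 6) (nat_lit 4) (nat_lit 7) (nat_lit 5) (nat_lit 7) (nat_lit 4) (nat_lit 360) (nat_lit 273) (nat_lit 147)) (XT.nd (nat_lit 78) (nat_lit 0) (nat_lit 0) (XT.lf (nat_lit 0) (nat_lit 72301920313) (nat_lit 76) (nat_lit 79521904995) (nat_lit 76) (nat_lit 31388141296) (nat_lit 6) (nat_lit 4) (nat_lit 7) (nat_lit 5) (nat_lit 7) (nat_lit 4) (nat_lit 361) (nat_lit 273) (nat_lit 146)) (XT.lf (nat_lit 0) (nat_lit 97644849596) (nat_lit 76) (nat_lit 71134684676) (nat_lit 76) (nat_lit 22996242818) (nat_lit 6) (nat_lit 4) (nat_lit 7) (nat_lit 5) (nat_lit 7) (nat_lit 4) (nat_lit 362) (nat_lit 273) (nat_lit 145)))))) (XT.nd (nat_lit 390) (nat_lit 0) (nat_lit 0) (XT.nd (nat_lit 156) (nat_lit 152) (nat_lit 0) (XT.nd (nat_lit 78) (nat_lit 0) (nat_lit 0) (XT.lf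 (nat_lit 0) (nat_lit 124250827107) (nat_lit 76) (nat_lit 62329980403) (nat_lit 76) (nat_lit 14187083155) (nat_lit 6) (nat_lit 4) (nat_lit 7) (nat_lit 5) (nat_lit 7) (nat_lit 4) (nat_lit 363) (nat_lit 273) (nat_lit 144)) (XT.lf (nat_lit 0) (nat_lit 152183200410) (nat_lit 76) (nat_lit 53086828594) (nat_lit 76) (nat_lit 4939688118) (nat_lit 6) (nat_lit 4) (nat_lit 7) (nat_lit 5) (nat_lit 7) (nat_lit 4) (nat_lit 364) (nat_lit 273) (nat_lit 143))) (XT.nd (nat_lit 78) (nat_lit 76) (nat_lit 0) (XT.lf (nat_lit 0) (nat_lit 4615355407) (nat_lit 152) (nat_lit 38689703062) (nat_lit 76) (nat_lit 176814956472) (nat_lit 5) (nat_lit 5) (nat_lit 7) (nat_lit 5) (nat_lit 6) (nat_lit 4) (nat_lit 365) (nat_lit 273) (nat_lit 142)) (XT.nd (nat_lit 78) (nat_lit 76) (nat_lit 0) (XT.lf (nat_lit 0) (nat_lit 14480193748) (nat_lit 152) (nat_lit 18470633195) (nat_lit 76) (nat_lit 197571050593) (nat_lit 5) (nat_lit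 5) (nat_lit 7) (nat_lit 5) (nat_lit 6) (nat_lit 4) (nat_lit 366) (nat_lit 273) (nat_lit 141)) (XT.lf (nat_lit 0) (nat_lit 2847080251) (nat_lit 76) (nat_lit 22033786135) (nat_lit 152) (nat_lit 216560838437) (nat_lit 4) (nat_lit 5) (nat_lit 5) (nat_lit 5) (nat_lit 6) (nat_lit 4) (nat_lit 367) (nat_lit 273) (nat_lit 140))))) (XT.nd (nat_lit 156) (nat_lit 0) (nat_lit 0) (XT.nd (nat_lit 78) (nat_lit 0) (nat_lit 0) (XT.lf (nat_lit 0) (nat_lit 25868559179) (nat_lit 76) (nat_lit 10243999813) (nat_lit 152) (nat_lit 216779416289) (nat_lit 4) (nat_lit 5) (nat_lit 5) (nat_lit 5) (nat_lit 6) (nat_lit 4) (nat_lit 368) (nat_lit 273) (nat_lit 139)) (XT.lf (nat_lit 0) (nat_lit 47937414754) (nat_lit 152) (nat_lit 214910267550) (nat_lit 0) (nat_lit 2065499100) (nat_lit 4) (nat_lit 5) (nat_lit 6) (nat_lit 4) (nat_lit 4) (nat_lit 4) (nat_lit 369) (nat_lit 273) (nat_lit 138))) (XT.nd (nat_lit 78) (nat_lit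 0) (nat_lit 0) (XT.lf (nat_lit 0) (nat_lit 60519772381) (nat_lit 152) (nat_lit 202362522375) (nat_lit 0) (nat_lit 14644841144) (nat_lit 4) (nat_lit 5) (nat_lit 6) (nat_lit 4) (nat_lit 4) (nat_lit 4) (nat_lit 370) (nat_lit 273) (nat_lit 137)) (XT.nd (nat_lit 78) (nat_lit 0) (nat_lit 0) (XT.lf (nat_lit 0) (nat_lit 73729652321) (nat_lit 152) (nat_lit 189190367448) (nat_lit 0) (nat_lit 27851849099) (nat_lit 4) (nat_lit 5) (nat_lit 6) (nat_lit 4) (nat_lit 4) (nat_lit 4) (nat_lit 371) (nat_lit 273) (nat_lit 136)) (XT.lf (nat_lit 0) (nat_lit 87598506669) (nat_lit 152) (nat_lit 175362440495) (nat_lit 0) (nat_lit 41717968225) (nat_lit 4) (nat_lit 5) (nat_lit 6) (nat_lit 4) (nat_lit 4) (nat_lit 4) (nat_lit 372) (nat_lit 273) (nat_lit 135))))))))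
noncomputable def xc148 : XT := (XT.nd (nat_lit 33462) (nat_lit 0) (nat_lit 3268) (XT.nd (nat_lit 702) (nat_lit 76) (nat_lit 0) (XT.nd (nat_lit 312) (nat_lit 0) (nat_lit 0) (XT.nd (nat_lit 156) (nat_lit 0) (nat_lit 0) (XT.nd (nat_lit 78) (nat_lit 0) (nat_lit 0) (XT.lf (nat_lit 0) (nat_lit 102159356508) (nat_lit 152) (nat_lit 160845817882) (nat_lit 0) (nat_lit 56276213089) (nat_lit 4) (nat_lit 5) (nat_lit 6) (nat_lit 4) (nat_lit 4) (nat_lit 4) (nat_lit 373) (nat_lit 273) (nat_lit 134)) (XT.lf (nat_lit 0) (nat_lit 117446870526) (nat_lit 152) (nat_lit 145605936220) (nat_lit 0) (nat_lit 71561246179) (nat_lit 4) (nat_lit 5) (nat_lit 6) (nat_lit 4) (nat_lit 4) (nat_lit 4) (nat_lit 374) (nat_lit 273) (nat_lit 133))) (XT.nd (nat_lit 78) (nat_lit 0) (nat_lit 0) (XT.lf (nat_lit 0) (nat_lit 133497447567) (nat_lit 152) (nat_lit 129606510077) (nat_lit 0) (nat_lit 87609460432) (nat_lit 4) (nat_lit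 5) (nat_lit 6) (nat_lit 4) (nat_lit 4) (nat_lit 4) (nat_lit 375) (nat_lit 273) (nat_lit 132)) (XT.lf (nat_lit 0) (nat_lit 150349303292) (nat_lit 152) (nat_lit 112809445582) (nat_lit 0) (nat_lit 104459065881) (nat_lit 4) (nat_lit 5) (nat_lit 6) (nat_lit 4) (nat_lit 4) (nat_lit 4) (nat_lit 376) (nat_lit 273) (nat_lit 131)))) (XT.nd (nat_lit 156) (nat_lit 0) (nat_lit 0) (XT.nd (nat_lit 78) (nat_lit 0) (nat_lit 0) (XT.lf (nat_lit 0) (nat_lit 168042561164) (nat_lit 152) (nat_lit 95174749723) (nat_lit 0) (nat_lit 122150180635) (nat_lit 4) (nat_lit 5) (nat_lit 6) (nat_lit 4) (nat_lit 4) (nat_lit 4) (nat_lit 377) (nat_lit 273) (nat_lit 130)) (XT.lf (nat_lit 0) (nat_lit 186619347990) (nat_lit 152) (nat_lit 76660435130) (nat_lit 0) (nat_lit 140724926396) (nat_lit 4) (nat_lit 5) (nat_lit 6) (nat_lit 4) (nat_lit 4) (nat_lit 4) (nat_lit 378) (nat_lit 273) (nat_lit 129))) (XT.nd (nat_lit 78) (nat_lit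 0) (nat_lit 0) (XT.lf (nat_lit 0) (nat_lit 206123894214) (nat_lit 152) (nat_lit 57222420101) (nat_lit 0) (nat_lit 160227528747) (nat_lit 4) (nat_lit 5) (nat_lit 6) (nat_lit 4) (nat_lit 4) (nat_lit 4) (nat_lit 379) (nat_lit 273) (nat_lit 128)) (XT.nd (nat_lit 78) (nat_lit 0) (nat_lit 0) (XT.lf (nat_lit 0) (nat_lit 226602639232) (nat_lit 152) (nat_lit 36814423648) (nat_lit 0) (nat_lit 180704422458) (nat_lit 4) (nat_lit 5) (nat_lit 6) (nat_lit 4) (nat_lit 4) (nat_lit 4) (nat_lit 380) (nat_lit 273) (nat_lit 127)) (XT.lf (nat_lit 0) (nat_lit 248104341960) (nat_lit 152) (nat_lit 15387855304) (nat_lit 0) (nat_lit 202204362037) (nat_lit 4) (nat_lit 5) (nat_lit 6) (nat_lit 4) (nat_lit 4) (nat_lit 4) (nat_lit 381) (nat_lit 273) (nat_lit 126)))))) (XT.nd (nat_lit 32370) (nat_lit 0) (nat_lit 6688) (XT.nd (nat_lit 156) (nat_lit 0) (nat_lit 0) (XT.nd (nat_lit 78) (nat_lit 0) (nat_lit 0) (XT.lf (nat_lit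 0) (nat_lit 7343333089) (nat_lit 76) (nat_lit 263451513848) (nat_lit 76) (nat_lit 217549854736) (nat_lit 3) (nat_lit 4) (nat_lit 4) (nat_lit 5) (nat_lit 4) (nat_lit 4) (nat_lit 382) (nat_lit 273) (nat_lit 125)) (XT.lf (nat_lit 0) (nat_lit 31743599685) (nat_lit 76) (nat_lit 263135963041) (nat_lit 76) (nat_lit 217232704700) (nat_lit 3) (nat_lit 4) (nat_lit 4) (nat_lit 5) (nat_lit 4) (nat_lit 4) (nat_lit 383) (nat_lit 273) (nat_lit 124))) (XT.nd (nat_lit 32058) (nat_lit 0) (nat_lit 6612) (XT.lf (nat_lit 0) (nat_lit 57362248365) (nat_lit 76) (nat_lit 262805394307) (nat_lit 76) (nat_lit 216900612892) (nat_lit 3) (nat_lit 4) (nat_lit 4) (nat_lit 5) (nat_lit 4) (nat_lit 4) (nat_lit 384) (nat_lit 273) (nat_lit 123)) (XT.nd (nat_lit 78) (nat_lit 0) (nat_lit 0) (XT.lf (nat_lit 0) (nat_lit 624914770) (nat_lit 684) (nat_lit 1878984444) (nat_lit 684) (nat_lit 1878984444) (nat_lit 90) (nat_lit 3)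 (nat_lit 99) (nat_lit 3) (nat_lit 99) (nat_lit 5) (nat_lit 274) (nat_lit 274) (nat_lit 232)) (XT.lf (nat_lit 76) (nat_lit 147825257) (nat_lit 0) (nat_lit 2024053333) (nat_lit 684) (nat_lit 6765948274) (nat_lit 91) (nat_lit 5) (nat_lit 90) (nat_lit 3) (nat_lit 99) (nat_lit 5) (nat_lit 275) (nat_lit 274) (nat_lit 231))))) (XT.nd (nat_lit 156) (nat_lit 0) (nat_lit 0) (XT.nd (nat_lit 78) (nat_lit 0) (nat_lit 0) (XT.lf (nat_lit 0) (nat_lit 3165084038) (nat_lit 608) (nat_lit 4788660018) (nat_lit 684) (nat_lit 1163655513) (nat_lit 91) (nat_lit 5) (nat_lit 99) (nat_lit 5) (nat_lit 100) (nat_lit 5) (nat_lit 276) (nat_lit 274) (nat_lit 230)) (XT.lf (nat_lit 0) (nat_lit 4186897518) (nat_lit 608) (nat_lit 653169738) (nat_lit 684) (nat_lit 4467091386) (nat_lit 91) (nat_lit 5) (nat_lit 99) (nat_lit 5) (nat_lit 100) (nat_lit 5) (nat_lit 277) (nat_lit 274) (nat_lit 229))) (XT.nd (nat_lit 78) (nat_lit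 0) (nat_lit 76) (XT.lf (nat_lit 76) (nat_lit 3778864028) (nat_lit 0) (nat_lit 1488285404) (nat_lit 684) (nat_lit 4239036585) (nat_lit 92) (nat_lit 5) (nat_lit 91) (nat_lit 5) (nat_lit 100) (nat_lit 5) (nat_lit 278) (nat_lit 274) (nat_lit 228)) (XT.nd (nat_lit 78) (nat_lit 0) (nat_lit 0) (XT.lf (nat_lit 0) (nat_lit 6394994269) (nat_lit 608) (nat_lit 1324924063) (nat_lit 684) (nat_lit 1995708112) (nat_lit 92) (nat_lit 5) (nat_lit 100) (nat_lit 5) (nat_lit 101) (nat_lit 5) (nat_lit 279) (nat_lit 274) (nat_lit 227)) (XT.lf (nat_lit 76) (nat_lit 3348367965) (nat_lit 0) (nat_lit 4260516342) (nat_lit 684) (nat_lit 2325305937) (nat_lit 93) (nat_lit 5) (nat_lit 92) (nat_lit 5) (nat_lit 101) (nat_lit 5) (nat_lit 280) (nat_lit 274) (nat_lit 226))))))) (XT.nd (nat_lit 780) (nat_lit 1520) (nat_lit 0) (XT.nd (nat_lit 390) (nat_lit 1368) (nat_lit 0) (XT.nd (nat_lit 156) (nat_lit 608) (nat_lit 0) (XT.nd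 (nat_lit 78) (nat_lit 0) (nat_lit 76) (XT.lf (nat_lit 76) (nat_lit 8269842681) (nat_lit 0) (nat_lit 590789504) (nat_lit 684) (nat_lit 1304319502) (nat_lit 93) (nat_lit 5) (nat_lit 92) (nat_lit 5) (nat_lit 101) (nat_lit 5) (nat_lit 281) (nat_lit 274) (nat_lit 225)) (XT.lf (nat_lit 76) (nat_lit 3044173071) (nat_lit 0) (nat_lit 7186344204) (nat_lit 684) (nat_lit 174077977) (nat_lit 94) (nat_lit 5) (nat_lit 93) (nat_lit 5) (nat_lit 102) (nat_lit 5) (nat_lit 282) (nat_lit 274) (nat_lit 224))) (XT.nd (nat_lit 78) (nat_lit 0) (nat_lit 76) (XT.lf (nat_lit 0) (nat_lit 980410261) (nat_lit 684) (nat_lit 2417869465) (nat_lit 760) (nat_lit 7257253647) (nat_lit 84) (nat_lit 5) (nat_lit 93) (nat_lit 5) (nat_lit 94) (nat_lit 5) (nat_lit 283) (nat_lit 274) (nat_lit 223)) (XT.nd (nat_lit 78) (nat_lit 0) (nat_lit 0) (XT.lf (nat_lit 0) (nat_lit 2200710805) (nat_lit 684) (nat_lit 8101117414) (nat_lit 76)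 (nat_lit 616455586) (nat_lit 85) (nat_lit 5) (nat_lit 94) (nat_lit 5) (nat_lit 86) (nat_lit 5) (nat_lit 284) (nat_lit 274) (nat_lit 222)) (XT.lf (nat_lit 0) (nat_lit 3540741404) (nat_lit 684) (nat_lit 2884098074) (nat_lit 76) (nat_lit 4766496521) (nat_lit 85) (nat_lit 5) (nat_lit 94) (nat_lit 5) (nat_lit 86) (nat_lit 5) (nat_lit 285) (nat_lit 274) (nat_lit 221))))) (XT.nd (nat_lit 156) (nat_lit 760) (nat_lit 0) (XT.nd (nat_lit 78) (nat_lit 0) (nat_lit 0) (XT.lf (nat_lit 0) (nat_lit 2646584280) (nat_lit 684) (nat_lit 2305735051) (nat_lit 760) (nat_lit 6525589413) (nat_lit 76) (nat_lit 5) (nat_lit 85) (nat_lit 5) (nat_lit 86) (nat_lit 5) (nat_lit 286) (nat_lit 274) (nat_lit 220)) (XT.lf (nat_lit 0) (nat_lit 6480198747) (nat_lit 760) (nat_lit 3288077493) (nat_lit 76) (nat_lit 2008338453) (nat_lit 76) (nat_lit 5) (nat_lit 86) (nat_lit 5) (nat_lit 77) (nat_lit 5) (nat_lit 287) (nat_lit 274)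 (nat_lit 219))) (XT.nd (nat_lit 78) (nat_lit 380) (nat_lit 0) (XT.lf (nat_lit 0) (nat_lit 2544239060) (nat_lit 380) (nat_lit 5583993725) (nat_lit 456) (nat_lit 3959921500) (nat_lit 71) (nat_lit 5) (nat_lit 76) (nat_lit 5) (nat_lit 77) (nat_lit 5) (nat_lit 288) (nat_lit 274) (nat_lit 218)) (XT.nd (nat_lit 78) (nat_lit 380) (nat_lit 0) (XT.lf (nat_lit 0) (nat_lit 8751112397) (nat_lit 380) (nat_lit 1130600659) (nat_lit 456) (nat_lit 2532487839) (nat_lit 71) (nat_lit 5) (nat_lit 76) (nat_lit 5) (nat_lit 77) (nat_lit 5) (nat_lit 289) (nat_lit 274) (nat_lit 217)) (XT.lf (nat_lit 0) (nat_lit 2505226676) (nat_lit 380) (nat_lit 9281043754) (nat_lit 456) (nat_lit 967187597) (nat_lit 66) (nat_lit 5) (nat_lit 71) (nat_lit 5) (nat_lit 72) (nat_lit 5) (nat_lit 290) (nat_lit 274) (nat_lit 216)))))) (XT.nd (nat_lit 390) (nat_lit 836) (nat_lit 0) (XT.nd (nat_lit 156) (nat_lit 304) (nat_lit 0) (XT.nd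 (nat_lit 78) (nat_lit 304) (nat_lit 0) (XT.lf (nat_lit 0) (nat_lit 705683931) (nat_lit 456) (nat_lit 4059514978) (nat_lit 76) (nat_lit 8341474433) (nat_lit 65) (nat_lit 5) (nat_lit 71) (nat_lit 5) (nat_lit 66) (nat_lit 5) (nat_lit 291) (nat_lit 274) (nat_lit 215)) (XT.lf (nat_lit 0) (nat_lit 2439611998) (nat_lit 380) (nat_lit 11005412356) (nat_lit 76) (nat_lit 31304131) (nat_lit 61) (nat_lit 5) (nat_lit 66) (nat_lit 5) (nat_lit 62) (nat_lit 5) (nat_lit 292) (nat_lit 274) (nat_lit 214))) (XT.nd (nat_lit 78) (nat_lit 304) (nat_lit 0) (XT.lf (nat_lit 0) (nat_lit 4379952346) (nat_lit 380) (nat_lit 4502864803) (nat_lit 76) (nat_lit 4975727899) (nat_lit 61) (nat_lit 5) (nat_lit 66) (nat_lit 5) (nat_lit 62) (nat_lit 5) (nat_lit 293) (nat_lit 274) (nat_lit 213)) (XT.nd (nat_lit 78) (nat_lit 0) (nat_lit 0) (XT.lf (nat_lit 0) (nat_lit 2370788412) (nat_lit 304) (nat_lit 4056603536) (nat_lit 380)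 (nat_lit 7832037766) (nat_lit 57) (nat_lit 5) (nat_lit 61) (nat_lit 5) (nat_lit 62) (nat_lit 5) (nat_lit 294) (nat_lit 274) (nat_lit 212)) (XT.lf (nat_lit 0) (nat_lit 8644334245) (nat_lit 380) (nat_lit 4979857263) (nat_lit 76) (nat_lit 1052869033) (nat_lit 57) (nat_lit 5) (nat_lit 62) (nat_lit 5) (nat_lit 58) (nat_lit 5) (nat_lit 295) (nat_lit 274) (nat_lit 211))))) (XT.nd (nat_lit 156) (nat_lit 608) (nat_lit 0) (XT.nd (nat_lit 78) (nat_lit 0) (nat_lit 0) (XT.lf (nat_lit 0) (nat_lit 2250630211) (nat_lit 228) (nat_lit 8798218626) (nat_lit 304) (nat_lit 4062943493) (nat_lit 54) (nat_lit 5) (nat_lit 57) (nat_lit 5) (nat_lit 58) (nat_lit 5) (nat_lit 296) (nat_lit 274) (nat_lit 210)) (XT.lf (nat_lit 0) (nat_lit 9986735237) (nat_lit 228) (nat_lit 3647011899) (nat_lit 304) (nat_lit 1931558702) (nat_lit 54) (nat_lit 5) (nat_lit 57) (nat_lit 5) (nat_lit 58) (nat_lit 5) (nat_lit 297) (nat_lit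 274) (nat_lit 209))) (XT.nd (nat_lit 78) (nat_lit 228) (nat_lit 0) (XT.lf (nat_lit 0) (nat_lit 334007502) (nat_lit 380) (nat_lit 13966474521) (nat_lit 76) (nat_lit 1738950976) (nat_lit 49) (nat_lit 5) (nat_lit 54) (nat_lit 5) (nat_lit 50) (nat_lit 5) (nat_lit 298) (nat_lit 274) (nat_lit 208)) (XT.nd (nat_lit 78) (nat_lit 228) (nat_lit 0) (XT.lf (nat_lit 0) (nat_lit 2780901776) (nat_lit 380) (nat_lit 6353702938) (nat_lit 76) (nat_lit 7394476227) (nat_lit 49) (nat_lit 5) (nat_lit 54) (nat_lit 5) (nat_lit 50) (nat_lit 5) (nat_lit 299) (nat_lit 274) (nat_lit 207)) (XT.lf (nat_lit 0) (nat_lit 1665490620) (nat_lit 228) (nat_lit 3688892302) (nat_lit 304) (nat_lit 11688659878) (nat_lit 46) (nat_lit 5) (nat_lit 49) (nat_lit 5) (nat_lit 50) (nat_lit 5) (nat_lit 300) (nat_lit 274) (nat_lit 206))))))))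
noncomputable def xc149 : XT := (XT.nd (nat_lit 1482) (nat_lit 988) (nat_lit 0) (XT.nd (nat_lit 702) (nat_lit 836) (nat_lit 0) (XT.nd (nat_lit 312) (nat_lit 456) (nat_lit 0) (XT.nd (nat_lit 156) (nat_lit 152) (nat_lit 0) (XT.nd (nat_lit 78) (nat_lit 228) (nat_lit 0) (XT.lf (nat_lit 0) (nat_lit 8176345198) (nat_lit 304) (nat_lit 7332621635) (nat_lit 76) (nat_lit 2067787112) (nat_lit 46) (nat_lit 5) (nat_lit 50) (nat_lit 5) (nat_lit 47) (nat_lit 5) (nat_lit 301) (nat_lit 274) (nat_lit 205)) (XT.lf (nat_lit 0) (nat_lit 1061302382) (nat_lit 228) (nat_lit 10134918210) (nat_lit 304) (nat_lit 6938128876) (nat_lit 43) (nat_lit 5) (nat_lit 46) (nat_lit 5) (nat_lit 47) (nat_lit 5) (nat_lit 302) (nat_lit 274) (nat_lit 204))) (XT.nd (nat_lit 78) (nat_lit 152) (nat_lit 0) (XT.lf (nat_lit 0) (nat_lit 10103178367) (nat_lit 228) (nat_lit 4368416734) (nat_lit 304) (nat_lit 4243042086) (nat_lit 43) (nat_lit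 5) (nat_lit 46) (nat_lit 5) (nat_lit 47) (nat_lit 5) (nat_lit 303) (nat_lit 274) (nat_lit 203)) (XT.lf (nat_lit 0) (nat_lit 228247355) (nat_lit 152) (nat_lit 17693546219) (nat_lit 228) (nat_lit 1401628848) (nat_lit 41) (nat_lit 5) (nat_lit 43) (nat_lit 5) (nat_lit 44) (nat_lit 5) (nat_lit 304) (nat_lit 274) (nat_lit 202)))) (XT.nd (nat_lit 156) (nat_lit 380) (nat_lit 0) (XT.nd (nat_lit 78) (nat_lit 0) (nat_lit 0) (XT.lf (nat_lit 0) (nat_lit 1732396191) (nat_lit 228) (nat_lit 10271315985) (nat_lit 76) (nat_lit 7947673918) (nat_lit 40) (nat_lit 5) (nat_lit 43) (nat_lit 5) (nat_lit 41) (nat_lit 5) (nat_lit 305) (nat_lit 274) (nat_lit 201)) (XT.lf (nat_lit 0) (nat_lit 4958234719) (nat_lit 228) (nat_lit 1054164219) (nat_lit 76) (nat_lit 14598120334) (nat_lit 40) (nat_lit 5) (nat_lit 43) (nat_lit 5) (nat_lit 41) (nat_lit 5) (nat_lit 306) (nat_lit 274) (nat_lit 200))) (XT.nd (nat_lit 78) (nat_lit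 152) (nat_lit 0) (XT.lf (nat_lit 0) (nat_lit 8473655277) (nat_lit 304) (nat_lit 12418597941) (nat_lit 76) (nat_lit 403970912) (nat_lit 37) (nat_lit 5) (nat_lit 41) (nat_lit 5) (nat_lit 38) (nat_lit 5) (nat_lit 307) (nat_lit 274) (nat_lit 199)) (XT.nd (nat_lit 78) (nat_lit 152) (nat_lit 0) (XT.lf (nat_lit 0) (nat_lit 12264954078) (nat_lit 304) (nat_lit 2795672775) (nat_lit 76) (nat_lit 6950610141) (nat_lit 37) (nat_lit 5) (nat_lit 41) (nat_lit 5) (nat_lit 38) (nat_lit 5) (nat_lit 308) (nat_lit 274) (nat_lit 198)) (XT.lf (nat_lit 0) (nat_lit 7526337090) (nat_lit 152) (nat_lit 8821176369) (nat_lit 228) (nat_lit 6409429041) (nat_lit 35) (nat_lit 5) (nat_lit 37) (nat_lit 5) (nat_lit 38) (nat_lit 5) (nat_lit 309) (nat_lit 274) (nat_lit 197)))))) (XT.nd (nat_lit 390) (nat_lit 380) (nat_lit 0) (XT.nd (nat_lit 156) (nat_lit 152) (nat_lit 0) (XT.nd (nat_lit 78) (nat_lit 304) (nat_lit 0) (XT.lf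 (nat_lit 0) (nat_lit 18438925729) (nat_lit 152) (nat_lit 2227209956) (nat_lit 228) (nat_lit 2872226362) (nat_lit 35) (nat_lit 5) (nat_lit 37) (nat_lit 5) (nat_lit 38) (nat_lit 5) (nat_lit 310) (nat_lit 274) (nat_lit 196)) (XT.lf (nat_lit 0) (nat_lit 963595854) (nat_lit 304) (nat_lit 18744329491) (nat_lit 76) (nat_lit 4642858019) (nat_lit 31) (nat_lit 5) (nat_lit 35) (nat_lit 5) (nat_lit 32) (nat_lit 5) (nat_lit 311) (nat_lit 274) (nat_lit 195))) (XT.nd (nat_lit 78) (nat_lit 152) (nat_lit 0) (XT.lf (nat_lit 0) (nat_lit 5004293262) (nat_lit 304) (nat_lit 8282148698) (nat_lit 76) (nat_lit 11909571050) (nat_lit 31) (nat_lit 5) (nat_lit 35) (nat_lit 5) (nat_lit 32) (nat_lit 5) (nat_lit 312) (nat_lit 274) (nat_lit 194)) (XT.nd (nat_lit 78) (nat_lit 0) (nat_lit 0) (XT.lf (nat_lit 0) (nat_lit 2770571552) (nat_lit 152) (nat_lit 6505730281) (nat_lit 228) (nat_lit 16805759478) (nat_lit 29) (nat_lit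 5) (nat_lit 31) (nat_lit 5) (nat_lit 32) (nat_lit 5) (nat_lit 313) (nat_lit 274) (nat_lit 193)) (XT.lf (nat_lit 0) (nat_lit 13900304836) (nat_lit 228) (nat_lit 12375310661) (nat_lit 76) (nat_lit 729896814) (nat_lit 29) (nat_lit 5) (nat_lit 32) (nat_lit 5) (nat_lit 30) (nat_lit 5) (nat_lit 314) (nat_lit 274) (nat_lit 192))))) (XT.nd (nat_lit 156) (nat_lit 228) (nat_lit 0) (XT.nd (nat_lit 78) (nat_lit 152) (nat_lit 0) (XT.lf (nat_lit 0) (nat_lit 18849060163) (nat_lit 228) (nat_lit 1019441691) (nat_lit 76) (nat_lit 8101975434) (nat_lit 29) (nat_lit 5) (nat_lit 32) (nat_lit 5) (nat_lit 30) (nat_lit 5) (nat_lit 315) (nat_lit 274) (nat_lit 191)) (XT.lf (nat_lit 0) (nat_lit 11244625867) (nat_lit 152) (nat_lit 12963712138) (nat_lit 228) (nat_lit 4767216398) (nat_lit 27) (nat_lit 5) (nat_lit 29) (nat_lit 5) (nat_lit 30) (nat_lit 5) (nat_lit 316) (nat_lit 274) (nat_lit 190))) (XT.nd (nat_lit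 78) (nat_lit 228) (nat_lit 0) (XT.lf (nat_lit 0) (nat_lit 24138110812) (nat_lit 152) (nat_lit 5702552925) (nat_lit 228) (nat_lit 189984703) (nat_lit 27) (nat_lit 5) (nat_lit 29) (nat_lit 5) (nat_lit 30) (nat_lit 5) (nat_lit 317) (nat_lit 274) (nat_lit 189)) (XT.nd (nat_lit 78) (nat_lit 0) (nat_lit 0) (XT.lf (nat_lit 0) (nat_lit 4593323378) (nat_lit 228) (nat_lit 24502883057) (nat_lit 76) (nat_lit 2032454927) (nat_lit 24) (nat_lit 5) (nat_lit 27) (nat_lit 5) (nat_lit 25) (nat_lit 5) (nat_lit 318) (nat_lit 274) (nat_lit 188)) (XT.lf (nat_lit 0) (nat_lit 9792687375) (nat_lit 228) (nat_lit 12419089608) (nat_lit 76) (nat_lit 10060493373) (nat_lit 24) (nat_lit 5) (nat_lit 27) (nat_lit 5) (nat_lit 25) (nat_lit 5) (nat_lit 319) (nat_lit 274) (nat_lit 187))))))) (XT.nd (nat_lit 780) (nat_lit 456) (nat_lit 0) (XT.nd (nat_lit 390) (nat_lit 228) (nat_lit 0) (XT.nd (nat_lit 156) (nat_lit 152) (nat_lit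 0) (XT.nd (nat_lit 78) (nat_lit 0) (nat_lit 0) (XT.lf (nat_lit 0) (nat_lit 259233425) (nat_lit 152) (nat_lit 14985749548) (nat_lit 228) (nat_lit 18228442861) (nat_lit 22) (nat_lit 5) (nat_lit 24) (nat_lit 5) (nat_lit 25) (nat_lit 5) (nat_lit 320) (nat_lit 274) (nat_lit 186)) (XT.lf (nat_lit 0) (nat_lit 13984967815) (nat_lit 152) (nat_lit 7184416838) (nat_lit 228) (nat_lit 13555293395) (nat_lit 22) (nat_lit 5) (nat_lit 24) (nat_lit 5) (nat_lit 25) (nat_lit 5) (nat_lit 321) (nat_lit 274) (nat_lit 185))) (XT.nd (nat_lit 78) (nat_lit 152) (nat_lit 0) (XT.lf (nat_lit 0) (nat_lit 27395310414) (nat_lit 228) (nat_lit 7674479052) (nat_lit 76) (nat_lit 968451090) (nat_lit 22) (nat_lit 5) (nat_lit 25) (nat_lit 5) (nat_lit 23) (nat_lit 4) (nat_lit 322) (nat_lit 274) (nat_lit 184)) (XT.nd (nat_lit 78) (nat_lit 76) (nat_lit 0) (XT.lf (nat_lit 0) (nat_lit 6105209494) (nat_lit 76) (nat_lit 28030497988)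 (nat_lit 152) (nat_lit 3271627226) (nat_lit 21) (nat_lit 5) (nat_lit 22) (nat_lit 5) (nat_lit 23) (nat_lit 4) (nat_lit 323) (nat_lit 274) (nat_lit 183)) (XT.lf (nat_lit 0) (nat_lit 2414671993) (nat_lit 152) (nat_lit 18053671730) (nat_lit 76) (nat_lit 18368590748) (nat_lit 20) (nat_lit 5) (nat_lit 22) (nat_lit 5) (nat_lit 21) (nat_lit 5) (nat_lit 324) (nat_lit 274) (nat_lit 182))))) (XT.nd (nat_lit 156) (nat_lit 76) (nat_lit 0) (XT.nd (nat_lit 78) (nat_lit 152) (nat_lit 0) (XT.lf (nat_lit 0) (nat_lit 8265936109) (nat_lit 152) (nat_lit 4212147103) (nat_lit 76) (nat_lit 27857730042) (nat_lit 20) (nat_lit 5) (nat_lit 22) (nat_lit 5) (nat_lit 21) (nat_lit 5) (nat_lit 325) (nat_lit 274) (nat_lit 181)) (XT.lf (nat_lit 0) (nat_lit 10647262848) (nat_lit 152) (nat_lit 3919779968) (nat_lit 228) (nat_lit 27334739286) (nat_lit 18) (nat_lit 5) (nat_lit 20) (nat_lit 5) (nat_lit 21) (nat_lit 5) (nat_lit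 326) (nat_lit 274) (nat_lit 180))) (XT.nd (nat_lit 78) (nat_lit 76) (nat_lit 0) (XT.lf (nat_lit 0) (nat_lit 21325959332) (nat_lit 228) (nat_lit 17241956492) (nat_lit 76) (nat_lit 4971005459) (nat_lit 18) (nat_lit 5) (nat_lit 21) (nat_lit 5) (nat_lit 19) (nat_lit 4) (nat_lit 327) (nat_lit 274) (nat_lit 179)) (XT.nd (nat_lit 78) (nat_lit 76) (nat_lit 0) (XT.lf (nat_lit 0) (nat_lit 28478650834) (nat_lit 228) (nat_lit 2607388705) (nat_lit 76) (nat_lit 14169095581) (nat_lit 18) (nat_lit 5) (nat_lit 21) (nat_lit 5) (nat_lit 19) (nat_lit 4) (nat_lit 328) (nat_lit 274) (nat_lit 178)) (XT.lf (nat_lit 0) (nat_lit 13166641832) (nat_lit 76) (nat_lit 23019875138) (nat_lit 152) (nat_lit 10860774397) (nat_lit 17) (nat_lit 5) (nat_lit 18) (nat_lit 5) (nat_lit 19) (nat_lit 4) (nat_lit 329) (nat_lit 274) (nat_lit 177)))))) (XT.nd (nat_lit 390) (nat_lit 228) (nat_lit 0) (XT.nd (nat_lit 156) (nat_lit 152)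 (nat_lit 0) (XT.nd (nat_lit 78) (nat_lit 76) (nat_lit 0) (XT.lf (nat_lit 0) (nat_lit 29806436792) (nat_lit 76) (nat_lit 14509641037) (nat_lit 152) (nat_lit 4611170830) (nat_lit 17) (nat_lit 5) (nat_lit 18) (nat_lit 5) (nat_lit 19) (nat_lit 4) (nat_lit 330) (nat_lit 274) (nat_lit 176)) (XT.lf (nat_lit 0) (nat_lit 1880859328) (nat_lit 152) (nat_lit 3666519572) (nat_lit 76) (nat_lit 45352690095) (nat_lit 16) (nat_lit 5) (nat_lit 18) (nat_lit 5) (nat_lit 17) (nat_lit 5) (nat_lit 331) (nat_lit 274) (nat_lit 175))) (XT.nd (nat_lit 78) (nat_lit 0) (nat_lit 0) (XT.lf (nat_lit 0) (nat_lit 8801212084) (nat_lit 228) (nat_lit 40137995678) (nat_lit 76) (nat_lit 4015615781) (nat_lit 14) (nat_lit 5) (nat_lit 17) (nat_lit 5) (nat_lit 15) (nat_lit 4) (nat_lit 332) (nat_lit 274) (nat_lit 174)) (XT.nd (nat_lit 78) (nat_lit 0) (nat_lit 0) (XT.lf (nat_lit 0) (nat_lit 16214458991) (nat_lit 228) (nat_lit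 24962069190) (nat_lit 76) (nat_lit 13928450641) (nat_lit 14) (nat_lit 5) (nat_lit 17) (nat_lit 5) (nat_lit 15) (nat_lit 4) (nat_lit 333) (nat_lit 274) (nat_lit 173)) (XT.lf (nat_lit 0) (nat_lit 23991533631) (nat_lit 228) (nat_lit 9039284916) (nat_lit 76) (nat_lit 24332171558) (nat_lit 14) (nat_lit 5) (nat_lit 17) (nat_lit 5) (nat_lit 15) (nat_lit 4) (nat_lit 334) (nat_lit 274) (nat_lit 172))))) (XT.nd (nat_lit 156) (nat_lit 152) (nat_lit 0) (XT.nd (nat_lit 78) (nat_lit 0) (nat_lit 0) (XT.lf (nat_lit 0) (nat_lit 7921816122) (nat_lit 76) (nat_lit 24352818473) (nat_lit 152) (nat_lit 27453414923) (nat_lit 13) (nat_lit 5) (nat_lit 14) (nat_lit 5) (nat_lit 15) (nat_lit 4) (nat_lit 335) (nat_lit 274) (nat_lit 171)) (XT.lf (nat_lit 0) (nat_lit 26033609125) (nat_lit 76) (nat_lit 15084992296) (nat_lit 152) (nat_lit 21085430842) (nat_lit 13) (nat_lit 5) (nat_lit 14) (nat_lit 5) (nat_lit 15) (nat_lit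 4) (nat_lit 336) (nat_lit 274) (nat_lit 170))) (XT.nd (nat_lit 78) (nat_lit 152) (nat_lit 0) (XT.lf (nat_lit 0) (nat_lit 45040337827) (nat_lit 76) (nat_lit 5358358427) (nat_lit 152) (nat_lit 14405427030) (nat_lit 13) (nat_lit 5) (nat_lit 14) (nat_lit 5) (nat_lit 15) (nat_lit 4) (nat_lit 337) (nat_lit 274) (nat_lit 169)) (XT.nd (nat_lit 78) (nat_lit 152) (nat_lit 0) (XT.lf (nat_lit 0) (nat_lit 60212740424) (nat_lit 152) (nat_lit 2622982795) (nat_lit 0) (nat_lit 4695003758) (nat_lit 13) (nat_lit 5) (nat_lit 15) (nat_lit 4) (nat_lit 13) (nat_lit 4) (nat_lit 338) (nat_lit 274) (nat_lit 168)) (XT.lf (nat_lit 0) (nat_lit 453922474) (nat_lit 152) (nat_lit 54602283125) (nat_lit 76) (nat_lit 15320660463) (nat_lit 11) (nat_lit 5) (nat_lit 13) (nat_lit 5) (nat_lit 12) (nat_lit 4) (nat_lit 339) (nat_lit 274) (nat_lit 167))))))))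
noncomputable def xc150 : XT := (XT.nd (nat_lit 1482) (nat_lit 228) (nat_lit 0) (XT.nd (nat_lit 702) (nat_lit 152) (nat_lit 0) (XT.nd (nat_lit 312) (nat_lit 76) (nat_lit 0) (XT.nd (nat_lit 156) (nat_lit 76) (nat_lit 0) (XT.nd (nat_lit 78) (nat_lit 0) (nat_lit 0) (XT.lf (nat_lit 0) (nat_lit 8408092806) (nat_lit 152) (nat_lit 38310603023) (nat_lit 76) (nat_lit 26638642637) (nat_lit 11) (nat_lit 5) (nat_lit 13) (nat_lit 5) (nat_lit 12) (nat_lit 4) (nat_lit 340) (nat_lit 274) (nat_lit 166)) (XT.lf (nat_lit 0) (nat_lit 16754684495) (nat_lit 152) (nat_lit 21213774897) (nat_lit 76) (nat_lit 38518643861) (nat_lit 11) (nat_lit 5) (nat_lit 13) (nat_lit 5) (nat_lit 12) (nat_lit 4) (nat_lit 341) (nat_lit 274) (nat_lit 165))) (XT.nd (nat_lit 78) (nat_lit 76) (nat_lit 0) (XT.lf (nat_lit 0) (nat_lit 25513570379) (nat_lit 152) (nat_lit 3271092013) (nat_lit 76) (nat_lit 50988949850) (nat_lit 11) (nat_lit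 5) (nat_lit 13) (nat_lit 5) (nat_lit 12) (nat_lit 4) (nat_lit 342) (nat_lit 274) (nat_lit 164)) (XT.lf (nat_lit 0) (nat_lit 16074655671) (nat_lit 76) (nat_lit 18881919700) (nat_lit 152) (nat_lit 48255566563) (nat_lit 10) (nat_lit 5) (nat_lit 11) (nat_lit 5) (nat_lit 12) (nat_lit 4) (nat_lit 343) (nat_lit 274) (nat_lit 163)))) (XT.nd (nat_lit 156) (nat_lit 76) (nat_lit 0) (XT.nd (nat_lit 78) (nat_lit 0) (nat_lit 0) (XT.lf (nat_lit 0) (nat_lit 36492835000) (nat_lit 76) (nat_lit 8429594423) (nat_lit 152) (nat_lit 41897637554) (nat_lit 10) (nat_lit 5) (nat_lit 11) (nat_lit 5) (nat_lit 12) (nat_lit 4) (nat_lit 344) (nat_lit 274) (nat_lit 162)) (XT.lf (nat_lit 0) (nat_lit 55421785867) (nat_lit 152) (nat_lit 32724396691) (nat_lit 0) (nat_lit 2460448851) (nat_lit 10) (nat_lit 5) (nat_lit 12) (nat_lit 4) (nat_lit 10) (nat_lit 4) (nat_lit 345) (nat_lit 274) (nat_lit 161))) (XT.nd (nat_lit 78)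 (nat_lit 76) (nat_lit 0) (XT.lf (nat_lit 0) (nat_lit 66579985623) (nat_lit 152) (nat_lit 14387411345) (nat_lit 0) (nat_lit 13608436771) (nat_lit 10) (nat_lit 5) (nat_lit 12) (nat_lit 4) (nat_lit 10) (nat_lit 4) (nat_lit 346) (nat_lit 274) (nat_lit 160)) (XT.nd (nat_lit 78) (nat_lit 0) (nat_lit 0) (XT.lf (nat_lit 0) (nat_lit 5019653399) (nat_lit 76) (nat_lit 73350703698) (nat_lit 76) (nat_lit 20369429288) (nat_lit 9) (nat_lit 4) (nat_lit 10) (nat_lit 5) (nat_lit 10) (nat_lit 4) (nat_lit 347) (nat_lit 274) (nat_lit 159)) (XT.lf (nat_lit 0) (nat_lit 25889259529) (nat_lit 76) (nat_lit 65100617800) (nat_lit 76) (nat_lit 12110080954) (nat_lit 9) (nat_lit 4) (nat_lit 10) (nat_lit 5) (nat_lit 10) (nat_lit 4) (nat_lit 348) (nat_lit 274) (nat_lit 158)))))) (XT.nd (nat_lit 390) (nat_lit 0) (nat_lit 0) (XT.nd (nat_lit 156) (nat_lit 76) (nat_lit 0) (XT.nd (nat_lit 78) (nat_lit 76) (nat_lit 0) (XT.lf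 (nat_lit 0) (nat_lit 47795383791) (nat_lit 76) (nat_lit 56441153986) (nat_lit 76) (nat_lit 3441795772) (nat_lit 9) (nat_lit 4) (nat_lit 10) (nat_lit 5) (nat_lit 10) (nat_lit 4) (nat_lit 349) (nat_lit 274) (nat_lit 157)) (XT.lf (nat_lit 0) (nat_lit 5475035627) (nat_lit 152) (nat_lit 41783936479) (nat_lit 76) (nat_lit 65222425616) (nat_lit 8) (nat_lit 5) (nat_lit 10) (nat_lit 5) (nat_lit 9) (nat_lit 4) (nat_lit 350) (nat_lit 274) (nat_lit 156))) (XT.nd (nat_lit 78) (nat_lit 76) (nat_lit 0) (XT.lf (nat_lit 0) (nat_lit 14718502856) (nat_lit 152) (nat_lit 22842829900) (nat_lit 76) (nat_lit 79960640720) (nat_lit 8) (nat_lit 5) (nat_lit 10) (nat_lit 5) (nat_lit 9) (nat_lit 4) (nat_lit 351) (nat_lit 274) (nat_lit 155)) (XT.nd (nat_lit 78) (nat_lit 76) (nat_lit 0) (XT.lf (nat_lit 0) (nat_lit 24420773128) (nat_lit 152) (nat_lit 2960796073) (nat_lit 76) (nat_lit 95433179786) (nat_lit 8) (nat_lit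 5) (nat_lit 10) (nat_lit 5) (nat_lit 9) (nat_lit 4) (nat_lit 352) (nat_lit 274) (nat_lit 154)) (XT.lf (nat_lit 0) (nat_lit 18501672235) (nat_lit 76) (nat_lit 16392137804) (nat_lit 152) (nat_lit 93464072912) (nat_lit 7) (nat_lit 5) (nat_lit 8) (nat_lit 5) (nat_lit 9) (nat_lit 4) (nat_lit 353) (nat_lit 274) (nat_lit 153))))) (XT.nd (nat_lit 156) (nat_lit 0) (nat_lit 0) (XT.nd (nat_lit 78) (nat_lit 0) (nat_lit 0) (XT.lf (nat_lit 0) (nat_lit 41134313981) (nat_lit 76) (nat_lit 4803180702) (nat_lit 152) (nat_lit 88238331362) (nat_lit 7) (nat_lit 5) (nat_lit 8) (nat_lit 5) (nat_lit 9) (nat_lit 4) (nat_lit 354) (nat_lit 274) (nat_lit 152)) (XT.lf (nat_lit 0) (nat_lit 57645319967) (nat_lit 152) (nat_lit 75506652334) (nat_lit 0) (nat_lit 7127098290) (nat_lit 7) (nat_lit 5) (nat_lit 9) (nat_lit 4) (nat_lit 7) (nat_lit 4) (nat_lit 355) (nat_lit 274) (nat_lit 151))) (XT.nd (nat_lit 78) (nat_lit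 0) (nat_lit 0) (XT.lf (nat_lit 0) (nat_lit 70014386340) (nat_lit 152) (nat_lit 57179106535) (nat_lit 0) (nat_lit 19490194015) (nat_lit 7) (nat_lit 5) (nat_lit 9) (nat_lit 4) (nat_lit 7) (nat_lit 4) (nat_lit 356) (nat_lit 274) (nat_lit 150)) (XT.nd (nat_lit 78) (nat_lit 0) (nat_lit 0) (XT.lf (nat_lit 0) (nat_lit 82999152851) (nat_lit 152) (nat_lit 37940246541) (nat_lit 0) (nat_lit 32469274193) (nat_lit 7) (nat_lit 5) (nat_lit 9) (nat_lit 4) (nat_lit 7) (nat_lit 4) (nat_lit 357) (nat_lit 274) (nat_lit 149)) (XT.lf (nat_lit 0) (nat_lit 96630535609) (nat_lit 152) (nat_lit 17744265543) (nat_lit 0) (nat_lit 46095241397) (nat_lit 7) (nat_lit 5) (nat_lit 9) (nat_lit 4) (nat_lit 7) (nat_lit 4) (nat_lit 358) (nat_lit 274) (nat_lit 148))))))) (XT.nd (nat_lit 780) (nat_lit 0) (nat_lit 0) (XT.nd (nat_lit 390) (nat_lit 152) (nat_lit 0) (XT.nd (nat_lit 156) (nat_lit 0) (nat_lit 0) (XT.nd (nat_lit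 78) (nat_lit 0) (nat_lit 0) (XT.lf (nat_lit 0) (nat_lit 3571223584) (nat_lit 76) (nat_lit 107425523511) (nat_lit 76) (nat_lit 56885071628) (nat_lit 6) (nat_lit 4) (nat_lit 7) (nat_lit 5) (nat_lit 7) (nat_lit 4) (nat_lit 359) (nat_lit 274) (nat_lit 147)) (XT.lf (nat_lit 0) (nat_lit 26564009695) (nat_lit 76) (nat_lit 99815318340) (nat_lit 76) (nat_lit 49269954389) (nat_lit 6) (nat_lit 4) (nat_lit 7) (nat_lit 5) (nat_lit 7) (nat_lit 4) (nat_lit 360) (nat_lit 274) (nat_lit 146))) (XT.nd (nat_lit 78) (nat_lit 0) (nat_lit 0) (XT.lf (nat_lit 0) (nat_lit 50702131962) (nat_lit 76) (nat_lit 91826573825) (nat_lit 76) (nat_lit 41276531714) (nat_lit 6) (nat_lit 4) (nat_lit 7) (nat_lit 5) (nat_lit 7) (nat_lit 4) (nat_lit 361) (nat_lit 274) (nat_lit 145)) (XT.nd (nat_lit 78) (nat_lit 0) (nat_lit 0) (XT.lf (nat_lit 0) (nat_lit 76043062105) (nat_lit 76) (nat_lit 83440269146) (nat_lit 76) (nat_lit 32885771645)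 (nat_lit 6) (nat_lit 4) (nat_lit 7) (nat_lit 5) (nat_lit 7) (nat_lit 4) (nat_lit 362) (nat_lit 274) (nat_lit 144)) (XT.lf (nat_lit 0) (nat_lit 102647135673) (nat_lit 76) (nat_lit 74636436911) (nat_lit 76) (nat_lit 24077696182) (nat_lit 6) (nat_lit 4) (nat_lit 7) (nat_lit 5) (nat_lit 7) (nat_lit 4) (nat_lit 363) (nat_lit 274) (nat_lit 143))))) (XT.nd (nat_lit 156) (nat_lit 152) (nat_lit 0) (XT.nd (nat_lit 78) (nat_lit 0) (nat_lit 0) (XT.lf (nat_lit 0) (nat_lit 130577695697) (nat_lit 76) (nat_lit 65394115615) (nat_lit 76) (nat_lit 14831333715) (nat_lit 6) (nat_lit 4) (nat_lit 7) (nat_lit 5) (nat_lit 7) (nat_lit 4) (nat_lit 364) (nat_lit 274) (nat_lit 142)) (XT.lf (nat_lit 0) (nat_lit 159901243512) (nat_lit 76) (nat_lit 55691299731) (nat_lit 76) (nat_lit 5124669097) (nat_lit 6) (nat_lit 4) (nat_lit 7) (nat_lit 5) (nat_lit 7) (nat_lit 4) (nat_lit 365) (nat_lit 274) (nat_lit 141))) (XT.nd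 (nat_lit 78) (nat_lit 76) (nat_lit 0) (XT.lf (nat_lit 0) (nat_lit 4903284062) (nat_lit 152) (nat_lit 40518563765) (nat_lit 76) (nat_lit 185701273536) (nat_lit 5) (nat_lit 5) (nat_lit 7) (nat_lit 5) (nat_lit 6) (nat_lit 4) (nat_lit 366) (nat_lit 274) (nat_lit 140)) (XT.nd (nat_lit 78) (nat_lit 76) (nat_lit 0) (XT.lf (nat_lit 0) (nat_lit 15258642374) (nat_lit 152) (nat_lit 19293570141) (nat_lit 76) (nat_lit 207493002399) (nat_lit 5) (nat_lit 5) (nat_lit 7) (nat_lit 5) (nat_lit 6) (nat_lit 4) (nat_lit 367) (nat_lit 274) (nat_lit 139)) (XT.lf (nat_lit 0) (nat_lit 3088406483) (nat_lit 76) (nat_lit 23089895064) (nat_lit 152) (nat_lit 227332786018) (nat_lit 4) (nat_lit 5) (nat_lit 5) (nat_lit 5) (nat_lit 6) (nat_lit 4) (nat_lit 368) (nat_lit 274) (nat_lit 138)))))) (XT.nd (nat_lit 390) (nat_lit 0) (nat_lit 0) (XT.nd (nat_lit 156) (nat_lit 0) (nat_lit 0) (XT.nd (nat_lit 78) (nat_lit 0) (nat_lit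 0) (XT.lf (nat_lit 0) (nat_lit 27256246394) (nat_lit 76) (nat_lit 10712789920) (nat_lit 152) (nat_lit 227564963921) (nat_lit 4) (nat_lit 5) (nat_lit 5) (nat_lit 5) (nat_lit 6) (nat_lit 4) (nat_lit 369) (nat_lit 274) (nat_lit 137)) (XT.lf (nat_lit 0) (nat_lit 50383358942) (nat_lit 152) (nat_lit 225564204436) (nat_lit 0) (nat_lit 2208793575) (nat_lit 4) (nat_lit 5) (nat_lit 6) (nat_lit 4) (nat_lit 4) (nat_lit 4) (nat_lit 370) (nat_lit 274) (nat_lit 136))) (XT.nd (nat_lit 78) (nat_lit 0) (nat_lit 0) (XT.lf (nat_lit 0) (nat_lit 63592497619) (nat_lit 152) (nat_lit 212393432788) (nat_lit 0) (nat_lit 15415197029) (nat_lit 4) (nat_lit 5) (nat_lit 6) (nat_lit 4) (nat_lit 4) (nat_lit 4) (nat_lit 371) (nat_lit 274) (nat_lit 135)) (XT.nd (nat_lit 78) (nat_lit 0) (nat_lit 0) (XT.lf (nat_lit 0) (nat_lit 77460646003) (nat_lit 152) (nat_lit 198566823244) (nat_lit 0) (nat_lit 29280740439) (nat_lit 4)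 (nat_lit 5) (nat_lit 6) (nat_lit 4) (nat_lit 4) (nat_lit 4) (nat_lit 372) (nat_lit 274) (nat_lit 134)) (XT.lf (nat_lit 0) (nat_lit 92020823494) (nat_lit 152) (nat_lit 184051455304) (nat_lit 0) (nat_lit 43838437002) (nat_lit 4) (nat_lit 5) (nat_lit 6) (nat_lit 4) (nat_lit 4) (nat_lit 4) (nat_lit 373) (nat_lit 274) (nat_lit 133))))) (XT.nd (nat_lit 156) (nat_lit 0) (nat_lit 0) (XT.nd (nat_lit 78) (nat_lit 0) (nat_lit 0) (XT.lf (nat_lit 0) (nat_lit 107307697182) (nat_lit 152) (nat_lit 168812768570) (nat_lit 0) (nat_lit 59122947901) (nat_lit 4) (nat_lit 5) (nat_lit 6) (nat_lit 4) (nat_lit 4) (nat_lit 4) (nat_lit 374) (nat_lit 274) (nat_lit 132)) (XT.lf (nat_lit 0) (nat_lit 123357664385) (nat_lit 152) (nat_lit 152814480454) (nat_lit 0) (nat_lit 75170664829) (nat_lit 4) (nat_lit 5) (nat_lit 6) (nat_lit 4) (nat_lit 4) (nat_lit 4) (nat_lit 375) (nat_lit 274) (nat_lit 131))) (XT.nd (nat_lit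 78) (nat_lit 0) (nat_lit 0) (XT.lf (nat_lit 0) (nat_lit 140208939310) (nat_lit 152) (nat_lit 136018499794) (nat_lit 0) (nat_lit 92019796635) (nat_lit 4) (nat_lit 5) (nat_lit 6) (nat_lit 4) (nat_lit 4) (nat_lit 4) (nat_lit 376) (nat_lit 274) (nat_lit 130)) (XT.nd (nat_lit 78) (nat_lit 0) (nat_lit 0) (XT.lf (nat_lit 0) (nat_lit 157901644041) (nat_lit 152) (nat_lit 118384836159) (nat_lit 0) (nat_lit 109710460301) (nat_lit 4) (nat_lit 5) (nat_lit 6) (nat_lit 4) (nat_lit 4) (nat_lit 4) (nat_lit 377) (nat_lit 274) (nat_lit 129)) (XT.lf (nat_lit 0) (nat_lit 176477904065) (nat_lit 152) (nat_lit 99871504636) (nat_lit 0) (nat_lit 128284776453) (nat_lit 4) (nat_lit 5) (nat_lit 6) (nat_lit 4) (nat_lit 4) (nat_lit 4) (nat_lit 378) (nat_lit 274) (nat_lit 128))))))))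
noncomputable def xc151 : XT := (XT.nd (nat_lit 33696) (nat_lit 0) (nat_lit 2584) (XT.nd (nat_lit 32916) (nat_lit 0) (nat_lit 5168) (XT.nd (nat_lit 32526) (nat_lit 0) (nat_lit 6612) (XT.nd (nat_lit 156) (nat_lit 76) (nat_lit 0) (XT.nd (nat_lit 78) (nat_lit 0) (nat_lit 0) (XT.lf (nat_lit 0) (nat_lit 195981948573) (nat_lit 152) (nat_lit 80434425864) (nat_lit 0) (nat_lit 147786969655) (nat_lit 4) (nat_lit 5) (nat_lit 6) (nat_lit 4) (nat_lit 4) (nat_lit 4) (nat_lit 379) (nat_lit 274) (nat_lit 127)) (XT.lf (nat_lit 0) (nat_lit 216460215766) (nat_lit 152) (nat_lit 60027321085) (nat_lit 0) (nat_lit 168263473699) (nat_lit 4) (nat_lit 5) (nat_lit 6) (nat_lit 4) (nat_lit 4) (nat_lit 4) (nat_lit 380) (nat_lit 274) (nat_lit 126))) (XT.nd (nat_lit 78) (nat_lit 76) (nat_lit 0) (XT.lf (nat_lit 0) (nat_lit 237961463423) (nat_lit 152) (nat_lit 38601601953) (nat_lit 0) (nat_lit 189763042166) (nat_lit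 4) (nat_lit 5) (nat_lit 6) (nat_lit 4) (nat_lit 4) (nat_lit 4) (nat_lit 381) (nat_lit 274) (nat_lit 125)) (XT.nd (nat_lit 78) (nat_lit 76) (nat_lit 0) (XT.lf (nat_lit 0) (nat_lit 260536884991) (nat_lit 152) (nat_lit 16106254852) (nat_lit 0) (nat_lit 212336864505) (nat_lit 4) (nat_lit 5) (nat_lit 6) (nat_lit 4) (nat_lit 4) (nat_lit 4) (nat_lit 382) (nat_lit 274) (nat_lit 124)) (XT.lf (nat_lit 0) (nat_lit 7760670489) (nat_lit 76) (nat_lit 276600726799) (nat_lit 76) (nat_lit 228399183239) (nat_lit 3) (nat_lit 4) (nat_lit 4) (nat_lit 5) (nat_lit 4) (nat_lit 4) (nat_lit 383) (nat_lit 274) (nat_lit 123))))) (XT.nd (nat_lit 156) (nat_lit 0) (nat_lit 76) (XT.nd (nat_lit 78) (nat_lit 0) (nat_lit 0) (XT.lf (nat_lit 0) (nat_lit 1530783951) (nat_lit 684) (nat_lit 1512503987) (nat_lit 684) (nat_lit 1512503987) (nat_lit 90) (nat_lit 3) (nat_lit 99) (nat_lit 3) (nat_lit 99) (nat_lit 5) (nat_lit 275)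 (nat_lit 275) (nat_lit 230)) (XT.lf (nat_lit 76) (nat_lit 1061223309) (nat_lit 0) (nat_lit 2899343931) (nat_lit 684) (nat_lit 5335375290) (nat_lit 91) (nat_lit 5) (nat_lit 90) (nat_lit 3) (nat_lit 99) (nat_lit 5) (nat_lit 276) (nat_lit 275) (nat_lit 229))) (XT.nd (nat_lit 78) (nat_lit 0) (nat_lit 0) (XT.lf (nat_lit 0) (nat_lit 4911918276) (nat_lit 608) (nat_lit 4069170972) (nat_lit 684) (nat_lit 508207543) (nat_lit 91) (nat_lit 5) (nat_lit 99) (nat_lit 5) (nat_lit 100) (nat_lit 5) (nat_lit 277) (nat_lit 275) (nat_lit 228)) (XT.nd (nat_lit 78) (nat_lit 0) (nat_lit 0) (XT.lf (nat_lit 76) (nat_lit 234950757) (nat_lit 0) (nat_lit 5677893244) (nat_lit 684) (nat_lit 3779515108) (nat_lit 92) (nat_lit 5) (nat_lit 91) (nat_lit 5) (nat_lit 100) (nat_lit 5) (nat_lit 278) (nat_lit 275) (nat_lit 227)) (XT.lf (nat_lit 76) (nat_lit 4866336336) (nat_lit 0) (nat_lit 2119088047) (nat_lit 684) (nat_lit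 2919203742) (nat_lit 92) (nat_lit 5) (nat_lit 91) (nat_lit 5) (nat_lit 100) (nat_lit 5) (nat_lit 279) (nat_lit 275) (nat_lit 226)))))) (XT.nd (nat_lit 390) (nat_lit 988) (nat_lit 0) (XT.nd (nat_lit 156) (nat_lit 608) (nat_lit 0) (XT.nd (nat_lit 78) (nat_lit 0) (nat_lit 0) (XT.lf (nat_lit 0) (nat_lit 8092106551) (nat_lit 608) (nat_lit 453948284) (nat_lit 684) (nat_lit 1582559736) (nat_lit 92) (nat_lit 5) (nat_lit 100) (nat_lit 5) (nat_lit 101) (nat_lit 5) (nat_lit 280) (nat_lit 275) (nat_lit 225)) (XT.lf (nat_lit 76) (nat_lit 4437891862) (nat_lit 0) (nat_lit 4877607187) (nat_lit 684) (nat_lit 1045354023) (nat_lit 93) (nat_lit 5) (nat_lit 92) (nat_lit 5) (nat_lit 101) (nat_lit 5) (nat_lit 281) (nat_lit 275) (nat_lit 224))) (XT.nd (nat_lit 78) (nat_lit 608) (nat_lit 0) (XT.lf (nat_lit 76) (nat_lit 9561530528) (nat_lit 0) (nat_lit 1005152815) (nat_lit 684) (nat_lit 39804800) (nat_lit 93)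 (nat_lit 5) (nat_lit 92) (nat_lit 5) (nat_lit 101) (nat_lit 5) (nat_lit 282) (nat_lit 275) (nat_lit 223)) (XT.nd (nat_lit 78) (nat_lit 0) (nat_lit 0) (XT.lf (nat_lit 0) (nat_lit 1057975988) (nat_lit 684) (nat_lit 6745951086) (nat_lit 760) (nat_lit 3056066081) (nat_lit 84) (nat_lit 5) (nat_lit 93) (nat_lit 5) (nat_lit 94) (nat_lit 5) (nat_lit 283) (nat_lit 275) (nat_lit 222)) (XT.lf (nat_lit 0) (nat_lit 2205533349) (nat_lit 684) (nat_lit 1605773922) (nat_lit 760) (nat_lit 7315122251) (nat_lit 84) (nat_lit 5) (nat_lit 93) (nat_lit 5) (nat_lit 94) (nat_lit 5) (nat_lit 284) (nat_lit 275) (nat_lit 221))))) (XT.nd (nat_lit 156) (nat_lit 1064) (nat_lit 0) (XT.nd (nat_lit 78) (nat_lit 0) (nat_lit 0) (XT.lf (nat_lit 0) (nat_lit 3441795671) (nat_lit 684) (nat_lit 7525202076) (nat_lit 76) (nat_lit 437718838) (nat_lit 85) (nat_lit 5) (nat_lit 94) (nat_lit 5) (nat_lit 86) (nat_lit 5) (nat_lit 285)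 (nat_lit 275) (nat_lit 220)) (XT.lf (nat_lit 0) (nat_lit 4794968309) (nat_lit 684) (nat_lit 2094044683) (nat_lit 76) (nat_lit 4805240845) (nat_lit 85) (nat_lit 5) (nat_lit 94) (nat_lit 5) (nat_lit 86) (nat_lit 5) (nat_lit 286) (nat_lit 275) (nat_lit 219))) (XT.nd (nat_lit 78) (nat_lit 380) (nat_lit 0) (XT.lf (nat_lit 0) (nat_lit 3698103106) (nat_lit 684) (nat_lit 2542078398) (nat_lit 760) (nat_lit 5756953728) (nat_lit 76) (nat_lit 5) (nat_lit 85) (nat_lit 5) (nat_lit 86) (nat_lit 5) (nat_lit 287) (nat_lit 275) (nat_lit 218)) (XT.nd (nat_lit 78) (nat_lit 380) (nat_lit 0) (XT.lf (nat_lit 0) (nat_lit 7793119326) (nat_lit 760) (nat_lit 2523196992) (nat_lit 76) (nat_lit 1997153445) (nat_lit 76) (nat_lit 5) (nat_lit 86) (nat_lit 5) (nat_lit 77) (nat_lit 5) (nat_lit 288) (nat_lit 275) (nat_lit 217)) (XT.lf (nat_lit 0) (nat_lit 3585746931) (nat_lit 380) (nat_lit 5904991874) (nat_lit 456) (nat_lit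 3151608827) (nat_lit 71) (nat_lit 5) (nat_lit 76) (nat_lit 5) (nat_lit 77) (nat_lit 5) (nat_lit 289) (nat_lit 275) (nat_lit 216))))))) (XT.nd (nat_lit 780) (nat_lit 912) (nat_lit 0) (XT.nd (nat_lit 390) (nat_lit 912) (nat_lit 0) (XT.nd (nat_lit 156) (nat_lit 380) (nat_lit 0) (XT.nd (nat_lit 78) (nat_lit 380) (nat_lit 0) (XT.lf (nat_lit 0) (nat_lit 10059426033) (nat_lit 380) (nat_lit 1226938752) (nat_lit 456) (nat_lit 1700722946) (nat_lit 71) (nat_lit 5) (nat_lit 76) (nat_lit 5) (nat_lit 77) (nat_lit 5) (nat_lit 290) (nat_lit 275) (nat_lit 215)) (XT.lf (nat_lit 0) (nat_lit 3534864900) (nat_lit 380) (nat_lit 9721452777) (nat_lit 456) (nat_lit 88590942) (nat_lit 66) (nat_lit 5) (nat_lit 71) (nat_lit 5) (nat_lit 72) (nat_lit 5) (nat_lit 291) (nat_lit 275) (nat_lit 214))) (XT.nd (nat_lit 78) (nat_lit 304) (nat_lit 0) (XT.lf (nat_lit 0) (nat_lit 1595527797) (nat_lit 456) (nat_lit 3370941377)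 (nat_lit 76) (nat_lit 8750827427) (nat_lit 65) (nat_lit 5) (nat_lit 71) (nat_lit 5) (nat_lit 66) (nat_lit 5) (nat_lit 292) (nat_lit 275) (nat_lit 213)) (XT.nd (nat_lit 78) (nat_lit 0) (nat_lit 0) (XT.lf (nat_lit 0) (nat_lit 3389928546) (nat_lit 380) (nat_lit 10636021878) (nat_lit 76) (nat_lit 80889665) (nat_lit 61) (nat_lit 5) (nat_lit 66) (nat_lit 5) (nat_lit 62) (nat_lit 5) (nat_lit 293) (nat_lit 275) (nat_lit 212)) (XT.lf (nat_lit 0) (nat_lit 5387841342) (nat_lit 380) (nat_lit 3852140334) (nat_lit 76) (nat_lit 5270247938) (nat_lit 61) (nat_lit 5) (nat_lit 66) (nat_lit 5) (nat_lit 62) (nat_lit 5) (nat_lit 294) (nat_lit 275) (nat_lit 211))))) (XT.nd (nat_lit 156) (nat_lit 608) (nat_lit 0) (XT.nd (nat_lit 78) (nat_lit 0) (nat_lit 0) (XT.lf (nat_lit 0) (nat_lit 3351068644) (nat_lit 304) (nat_lit 4162472213) (nat_lit 380) (nat_lit 7418908884) (nat_lit 57) (nat_lit 5) (nat_lit 61) (nat_lit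 5) (nat_lit 62) (nat_lit 5) (nat_lit 295) (nat_lit 275) (nat_lit 210)) (XT.lf (nat_lit 0) (nat_lit 9806353960) (nat_lit 380) (nat_lit 4371537336) (nat_lit 76) (nat_lit 1194901176) (nat_lit 57) (nat_lit 5) (nat_lit 62) (nat_lit 5) (nat_lit 58) (nat_lit 5) (nat_lit 296) (nat_lit 275) (nat_lit 209))) (XT.nd (nat_lit 78) (nat_lit 380) (nat_lit 0) (XT.lf (nat_lit 0) (nat_lit 3206646886) (nat_lit 228) (nat_lit 9102864039) (nat_lit 304) (nat_lit 3520906758) (nat_lit 54) (nat_lit 5) (nat_lit 57) (nat_lit 5) (nat_lit 58) (nat_lit 5) (nat_lit 297) (nat_lit 275) (nat_lit 208)) (XT.nd (nat_lit 78) (nat_lit 380) (nat_lit 0) (XT.lf (nat_lit 0) (nat_lit 11289391203) (nat_lit 228) (nat_lit 3700538191) (nat_lit 304) (nat_lit 1318437676) (nat_lit 54) (nat_lit 5) (nat_lit 57) (nat_lit 5) (nat_lit 58) (nat_lit 5) (nat_lit 298) (nat_lit 275) (nat_lit 207)) (XT.lf (nat_lit 0) (nat_lit 1019985738) (nat_lit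 380) (nat_lit 13818307286) (nat_lit 76) (nat_lit 1968305948) (nat_lit 49) (nat_lit 5) (nat_lit 54) (nat_lit 5) (nat_lit 50) (nat_lit 5) (nat_lit 299) (nat_lit 275) (nat_lit 206)))))) (XT.nd (nat_lit 390) (nat_lit 456) (nat_lit 0) (XT.nd (nat_lit 156) (nat_lit 228) (nat_lit 0) (XT.nd (nat_lit 78) (nat_lit 228) (nat_lit 0) (XT.lf (nat_lit 0) (nat_lit 3557354352) (nat_lit 380) (nat_lit 5865206218) (nat_lit 76) (nat_lit 7899826155) (nat_lit 49) (nat_lit 5) (nat_lit 54) (nat_lit 5) (nat_lit 50) (nat_lit 5) (nat_lit 300) (nat_lit 275) (nat_lit 205)) (XT.lf (nat_lit 0) (nat_lit 2541944084) (nat_lit 228) (nat_lit 3699596479) (nat_lit 304) (nat_lit 11621465415) (nat_lit 46) (nat_lit 5) (nat_lit 49) (nat_lit 5) (nat_lit 50) (nat_lit 5) (nat_lit 301) (nat_lit 275) (nat_lit 204))) (XT.nd (nat_lit 78) (nat_lit 228) (nat_lit 0) (XT.lf (nat_lit 0) (nat_lit 9177687287) (nat_lit 304) (nat_lit 6915771459)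 (nat_lit 76) (nat_lit 2331347572) (nat_lit 46) (nat_lit 5) (nat_lit 50) (nat_lit 5) (nat_lit 47) (nat_lit 5) (nat_lit 302) (nat_lit 275) (nat_lit 203)) (XT.nd (nat_lit 78) (nat_lit 0) (nat_lit 0) (XT.lf (nat_lit 0) (nat_lit 1885211964) (nat_lit 228) (nat_lit 10447164061) (nat_lit 304) (nat_lit 6678769808) (nat_lit 43) (nat_lit 5) (nat_lit 46) (nat_lit 5) (nat_lit 47) (nat_lit 5) (nat_lit 303) (nat_lit 275) (nat_lit 202)) (XT.lf (nat_lit 0) (nat_lit 11342474869) (nat_lit 228) (nat_lit 4401599419) (nat_lit 304) (nat_lit 3877798465) (nat_lit 43) (nat_lit 5) (nat_lit 46) (nat_lit 5) (nat_lit 47) (nat_lit 5) (nat_lit 304) (nat_lit 275) (nat_lit 201))))) (XT.nd (nat_lit 156) (nat_lit 228) (nat_lit 0) (XT.nd (nat_lit 78) (nat_lit 76) (nat_lit 0) (XT.lf (nat_lit 0) (nat_lit 987147613) (nat_lit 152) (nat_lit 18367921752) (nat_lit 228) (nat_lit 906663613) (nat_lit 41) (nat_lit 5) (nat_lit 43)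 (nat_lit 5) (nat_lit 44) (nat_lit 5) (nat_lit 305) (nat_lit 275) (nat_lit 200)) (XT.lf (nat_lit 0) (nat_lit 2339931863) (nat_lit 228) (nat_lit 10054856552) (nat_lit 76) (nat_lit 8527213019) (nat_lit 40) (nat_lit 5) (nat_lit 43) (nat_lit 5) (nat_lit 41) (nat_lit 5) (nat_lit 306) (nat_lit 275) (nat_lit 199))) (XT.nd (nat_lit 78) (nat_lit 228) (nat_lit 0) (XT.lf (nat_lit 0) (nat_lit 5702256800) (nat_lit 228) (nat_lit 411610304) (nat_lit 76) (nat_lit 15501507688) (nat_lit 40) (nat_lit 5) (nat_lit 43) (nat_lit 5) (nat_lit 41) (nat_lit 5) (nat_lit 307) (nat_lit 275) (nat_lit 198)) (XT.nd (nat_lit 78) (nat_lit 0) (nat_lit 0) (XT.lf (nat_lit 0) (nat_lit 9383640328) (nat_lit 304) (nat_lit 12333633917) (nat_lit 76) (nat_lit 618622238) (nat_lit 37) (nat_lit 5) (nat_lit 41) (nat_lit 5) (nat_lit 38) (nat_lit 5) (nat_lit 308) (nat_lit 275) (nat_lit 197)) (XT.lf (nat_lit 0) (nat_lit 13341346817) (nat_lit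 304) (nat_lit 2263176489) (nat_lit 76) (nat_lit 7483333772) (nat_lit 37) (nat_lit 5) (nat_lit 41) (nat_lit 5) (nat_lit 38) (nat_lit 5) (nat_lit 309) (nat_lit 275) (nat_lit 196))))))))
noncomputable def xc152 : XT := (XT.nd (nat_lit 1482) (nat_lit 684) (nat_lit 0) (XT.nd (nat_lit 702) (nat_lit 608) (nat_lit 0) (XT.nd (nat_lit 312) (nat_lit 380) (nat_lit 0) (XT.nd (nat_lit 156) (nat_lit 304) (nat_lit 0) (XT.nd (nat_lit 78) (nat_lit 0) (nat_lit 0) (XT.lf (nat_lit 0) (nat_lit 8564090645) (nat_lit 152) (nat_lit 9052215878) (nat_lit 228) (nat_lit 6255165078) (nat_lit 35) (nat_lit 5) (nat_lit 37) (nat_lit 5) (nat_lit 38) (nat_lit 5) (nat_lit 310) (nat_lit 275) (nat_lit 195)) (XT.lf (nat_lit 0) (nat_lit 19990811730) (nat_lit 152) (nat_lit 2138552063) (nat_lit 228) (nat_lit 2563708713) (nat_lit 35) (nat_lit 5) (nat_lit 37) (nat_lit 5) (nat_lit 38) (nat_lit 5) (nat_lit 311) (nat_lit 275) (nat_lit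 194))) (XT.nd (nat_lit 78) (nat_lit 0) (nat_lit 0) (XT.lf (nat_lit 0) (nat_lit 1441748793) (nat_lit 304) (nat_lit 19028127319) (nat_lit 76) (nat_lit 5076302342) (nat_lit 31) (nat_lit 5) (nat_lit 35) (nat_lit 5) (nat_lit 32) (nat_lit 5) (nat_lit 312) (nat_lit 275) (nat_lit 193)) (XT.lf (nat_lit 0) (nat_lit 5664006161) (nat_lit 304) (nat_lit 8073952660) (nat_lit 76) (nat_lit 12696765243) (nat_lit 31) (nat_lit 5) (nat_lit 35) (nat_lit 5) (nat_lit 32) (nat_lit 5) (nat_lit 313) (nat_lit 275) (nat_lit 192)))) (XT.nd (nat_lit 156) (nat_lit 228) (nat_lit 0) (XT.nd (nat_lit 78) (nat_lit 0) (nat_lit 0) (XT.lf (nat_lit 0) (nat_lit 3521366450) (nat_lit 152) (nat_lit 6618307988) (nat_lit 228) (nat_lit 17225926648) (nat_lit 29) (nat_lit 5) (nat_lit 31) (nat_lit 5) (nat_lit 32) (nat_lit 5) (nat_lit 314) (nat_lit 275) (nat_lit 191)) (XT.lf (nat_lit 0) (nat_lit 14979013881) (nat_lit 228) (nat_lit 12394544165)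 (nat_lit 76) (nat_lit 962487652) (nat_lit 29) (nat_lit 5) (nat_lit 32) (nat_lit 5) (nat_lit 30) (nat_lit 5) (nat_lit 315) (nat_lit 275) (nat_lit 190))) (XT.nd (nat_lit 78) (nat_lit 228) (nat_lit 0) (XT.lf (nat_lit 0) (nat_lit 20156935841) (nat_lit 228) (nat_lit 499430891) (nat_lit 76) (nat_lit 8693832298) (nat_lit 29) (nat_lit 5) (nat_lit 32) (nat_lit 5) (nat_lit 30) (nat_lit 5) (nat_lit 316) (nat_lit 275) (nat_lit 189)) (XT.nd (nat_lit 78) (nat_lit 76) (nat_lit 0) (XT.lf (nat_lit 0) (nat_lit 12368630644) (nat_lit 152) (nat_lit 13406916710) (nat_lit 228) (nat_lit 4630439444) (nat_lit 27) (nat_lit 5) (nat_lit 29) (nat_lit 5) (nat_lit 30) (nat_lit 5) (nat_lit 317) (nat_lit 275) (nat_lit 188)) (XT.lf (nat_lit 0) (nat_lit 152739863) (nat_lit 228) (nat_lit 5637133951) (nat_lit 76) (nat_lit 25724712131) (nat_lit 26) (nat_lit 5) (nat_lit 29) (nat_lit 5) (nat_lit 27) (nat_lit 5) (nat_lit 318)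 (nat_lit 275) (nat_lit 187)))))) (XT.nd (nat_lit 390) (nat_lit 304) (nat_lit 0) (XT.nd (nat_lit 156) (nat_lit 152) (nat_lit 0) (XT.nd (nat_lit 78) (nat_lit 0) (nat_lit 0) (XT.lf (nat_lit 0) (nat_lit 5163888863) (nat_lit 228) (nat_lit 25175734555) (nat_lit 76) (nat_lit 2327989200) (nat_lit 24) (nat_lit 5) (nat_lit 27) (nat_lit 5) (nat_lit 25) (nat_lit 5) (nat_lit 319) (nat_lit 275) (nat_lit 186)) (XT.lf (nat_lit 0) (nat_lit 10606987759) (nat_lit 228) (nat_lit 12514051084) (nat_lit 76) (nat_lit 10748195687) (nat_lit 24) (nat_lit 5) (nat_lit 27) (nat_lit 5) (nat_lit 25) (nat_lit 5) (nat_lit 320) (nat_lit 275) (nat_lit 185))) (XT.nd (nat_lit 78) (nat_lit 0) (nat_lit 0) (XT.lf (nat_lit 0) (nat_lit 789704343) (nat_lit 152) (nat_lit 15534813278) (nat_lit 228) (nat_lit 18806318998) (nat_lit 22) (nat_lit 5) (nat_lit 24) (nat_lit 5) (nat_lit 25) (nat_lit 5) (nat_lit 321) (nat_lit 275) (nat_lit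 184)) (XT.nd (nat_lit 78) (nat_lit 0) (nat_lit 0) (XT.lf (nat_lit 0) (nat_lit 15177082155) (nat_lit 152) (nat_lit 7352948396) (nat_lit 228) (nat_lit 13915395202) (nat_lit 22) (nat_lit 5) (nat_lit 24) (nat_lit 5) (nat_lit 25) (nat_lit 5) (nat_lit 322) (nat_lit 275) (nat_lit 183)) (XT.lf (nat_lit 0) (nat_lit 29055698658) (nat_lit 228) (nat_lit 7576893526) (nat_lit 76) (nat_lit 1192669869) (nat_lit 22) (nat_lit 5) (nat_lit 25) (nat_lit 5) (nat_lit 23) (nat_lit 4) (nat_lit 323) (nat_lit 275) (nat_lit 182))))) (XT.nd (nat_lit 156) (nat_lit 152) (nat_lit 0) (XT.nd (nat_lit 78) (nat_lit 76) (nat_lit 0) (XT.lf (nat_lit 0) (nat_lit 6884016391) (nat_lit 76) (nat_lit 29242653398) (nat_lit 152) (nat_lit 3136480528) (nat_lit 21) (nat_lit 5) (nat_lit 22) (nat_lit 5) (nat_lit 23) (nat_lit 4) (nat_lit 324) (nat_lit 275) (nat_lit 181)) (XT.lf (nat_lit 0) (nat_lit 2810802637) (nat_lit 152) (nat_lit 18495942395)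 (nat_lit 76) (nat_lit 19457955852) (nat_lit 20) (nat_lit 5) (nat_lit 22) (nat_lit 5) (nat_lit 21) (nat_lit 5) (nat_lit 325) (nat_lit 275) (nat_lit 180))) (XT.nd (nat_lit 78) (nat_lit 152) (nat_lit 0) (XT.lf (nat_lit 0) (nat_lit 8941515813) (nat_lit 152) (nat_lit 3984265962) (nat_lit 76) (nat_lit 29413412322) (nat_lit 20) (nat_lit 5) (nat_lit 22) (nat_lit 5) (nat_lit 21) (nat_lit 5) (nat_lit 326) (nat_lit 275) (nat_lit 179)) (XT.nd (nat_lit 78) (nat_lit 0) (nat_lit 0) (XT.lf (nat_lit 0) (nat_lit 11611042092) (nat_lit 152) (nat_lit 3940881717) (nat_lit 228) (nat_lit 28431839362) (nat_lit 18) (nat_lit 5) (nat_lit 20) (nat_lit 5) (nat_lit 21) (nat_lit 5) (nat_lit 327) (nat_lit 275) (nat_lit 178)) (XT.lf (nat_lit 0) (nat_lit 22639170948) (nat_lit 228) (nat_lit 17683298452) (nat_lit 76) (nat_lit 5380784080) (nat_lit 18) (nat_lit 5) (nat_lit 21) (nat_lit 5) (nat_lit 19) (nat_lit 4) (nat_lit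 328) (nat_lit 275) (nat_lit 177))))))) (XT.nd (nat_lit 780) (nat_lit 304) (nat_lit 0) (XT.nd (nat_lit 390) (nat_lit 76) (nat_lit 0) (XT.nd (nat_lit 156) (nat_lit 228) (nat_lit 0) (XT.nd (nat_lit 78) (nat_lit 76) (nat_lit 0) (XT.lf (nat_lit 0) (nat_lit 30137739232) (nat_lit 228) (nat_lit 2337038268) (nat_lit 76) (nat_lit 15031101168) (nat_lit 18) (nat_lit 5) (nat_lit 21) (nat_lit 5) (nat_lit 19) (nat_lit 4) (nat_lit 329) (nat_lit 275) (nat_lit 176)) (XT.lf (nat_lit 0) (nat_lit 14219230572) (nat_lit 76) (nat_lit 24006725656) (nat_lit 152) (nat_lit 11161950784) (nat_lit 17) (nat_lit 5) (nat_lit 18) (nat_lit 5) (nat_lit 19) (nat_lit 4) (nat_lit 330) (nat_lit 275) (nat_lit 175))) (XT.nd (nat_lit 78) (nat_lit 228) (nat_lit 0) (XT.lf (nat_lit 0) (nat_lit 31672241153) (nat_lit 76) (nat_lit 15078796195) (nat_lit 152) (nat_lit 4611384293) (nat_lit 17) (nat_lit 5) (nat_lit 18) (nat_lit 5) (nat_lit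 19) (nat_lit 4) (nat_lit 331) (nat_lit 275) (nat_lit 174)) (XT.nd (nat_lit 78) (nat_lit 152) (nat_lit 0) (XT.lf (nat_lit 0) (nat_lit 2187257149) (nat_lit 152) (nat_lit 3485011608) (nat_lit 76) (nat_lit 47761975815) (nat_lit 16) (nat_lit 5) (nat_lit 18) (nat_lit 5) (nat_lit 17) (nat_lit 5) (nat_lit 332) (nat_lit 275) (nat_lit 173)) (XT.lf (nat_lit 0) (nat_lit 9451478750) (nat_lit 228) (nat_lit 41777712602) (nat_lit 76) (nat_lit 4362662941) (nat_lit 14) (nat_lit 5) (nat_lit 17) (nat_lit 5) (nat_lit 15) (nat_lit 4) (nat_lit 333) (nat_lit 275) (nat_lit 172))))) (XT.nd (nat_lit 156) (nat_lit 76) (nat_lit 0) (XT.nd (nat_lit 78) (nat_lit 0) (nat_lit 0) (XT.lf (nat_lit 0) (nat_lit 17225378190) (nat_lit 228) (nat_lit 25860474687) (nat_lit 76) (nat_lit 14764174479) (nat_lit 14) (nat_lit 5) (nat_lit 17) (nat_lit 5) (nat_lit 15) (nat_lit 4) (nat_lit 334) (nat_lit 275) (nat_lit 171)) (XT.lf (nat_lit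 0) (nat_lit 25381773407) (nat_lit 228) (nat_lit 9158203484) (nat_lit 76) (nat_lit 25681448046) (nat_lit 14) (nat_lit 5) (nat_lit 17) (nat_lit 5) (nat_lit 15) (nat_lit 4) (nat_lit 335) (nat_lit 275) (nat_lit 170))) (XT.nd (nat_lit 78) (nat_lit 0) (nat_lit 0) (XT.lf (nat_lit 0) (nat_lit 8645580902) (nat_lit 76) (nat_lit 25429485232) (nat_lit 152) (nat_lit 28629877995) (nat_lit 13) (nat_lit 5) (nat_lit 14) (nat_lit 5) (nat_lit 15) (nat_lit 4) (nat_lit 336) (nat_lit 275) (nat_lit 169)) (XT.nd (nat_lit 78) (nat_lit 0) (nat_lit 0) (XT.lf (nat_lit 0) (nat_lit 27647360033) (nat_lit 76) (nat_lit 15704980801) (nat_lit 152) (nat_lit 21952837933) (nat_lit 13) (nat_lit 5) (nat_lit 14) (nat_lit 5) (nat_lit 15) (nat_lit 4) (nat_lit 337) (nat_lit 275) (nat_lit 168)) (XT.lf (nat_lit 0) (nat_lit 47589564672) (nat_lit 76) (nat_lit 5498408625) (nat_lit 152) (nat_lit 14947732237) (nat_lit 13) (nat_lit 5)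 (nat_lit 14) (nat_lit 5) (nat_lit 15) (nat_lit 4) (nat_lit 338) (nat_lit 275) (nat_lit 167)))))) (XT.nd (nat_lit 390) (nat_lit 152) (nat_lit 0) (XT.nd (nat_lit 156) (nat_lit 0) (nat_lit 0) (XT.nd (nat_lit 78) (nat_lit 152) (nat_lit 0) (XT.lf (nat_lit 0) (nat_lit 63386557068) (nat_lit 152) (nat_lit 2464762894) (nat_lit 0) (nat_lit 5047635049) (nat_lit 13) (nat_lit 5) (nat_lit 15) (nat_lit 4) (nat_lit 13) (nat_lit 4) (nat_lit 339) (nat_lit 275) (nat_lit 166)) (XT.lf (nat_lit 0) (nat_lit 639230987) (nat_lit 152) (nat_lit 57042183331) (nat_lit 76) (nat_lit 16206028976) (nat_lit 11) (nat_lit 5) (nat_lit 13) (nat_lit 5) (nat_lit 12) (nat_lit 4) (nat_lit 340) (nat_lit 275) (nat_lit 165))) (XT.nd (nat_lit 78) (nat_lit 0) (nat_lit 0) (XT.lf (nat_lit 0) (nat_lit 8983366389) (nat_lit 152) (nat_lit 39949738935) (nat_lit 76) (nat_lit 28084227617) (nat_lit 11) (nat_lit 5) (nat_lit 13) (nat_lit 5)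 (nat_lit 12) (nat_lit 4) (nat_lit 341) (nat_lit 275) (nat_lit 164)) (XT.nd (nat_lit 78) (nat_lit 0) (nat_lit 0) (XT.lf (nat_lit 0) (nat_lit 17739912951) (nat_lit 152) (nat_lit 22011231033) (nat_lit 76) (nat_lit 40552816861) (nat_lit 11) (nat_lit 5) (nat_lit 13) (nat_lit 5) (nat_lit 12) (nat_lit 4) (nat_lit 342) (nat_lit 275) (nat_lit 163)) (XT.lf (nat_lit 0) (nat_lit 26929719594) (nat_lit 152) (nat_lit 3183948891) (nat_lit 76) (nat_lit 53641483826) (nat_lit 11) (nat_lit 5) (nat_lit 13) (nat_lit 5) (nat_lit 12) (nat_lit 4) (nat_lit 343) (nat_lit 275) (nat_lit 162))))) (XT.nd (nat_lit 156) (nat_lit 76) (nat_lit 0) (XT.nd (nat_lit 78) (nat_lit 0) (nat_lit 0) (XT.lf (nat_lit 0) (nat_lit 17125042666) (nat_lit 76) (nat_lit 19716994053) (nat_lit 152) (nat_lit 50523719247) (nat_lit 10) (nat_lit 5) (nat_lit 11) (nat_lit 5) (nat_lit 12) (nat_lit 4) (nat_lit 344) (nat_lit 275) (nat_lit 161)) (XT.lf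 (nat_lit 0) (nat_lit 38552385522) (nat_lit 76) (nat_lit 8747244018) (nat_lit 152) (nat_lit 43854780722) (nat_lit 10) (nat_lit 5) (nat_lit 11) (nat_lit 5) (nat_lit 12) (nat_lit 4) (nat_lit 345) (nat_lit 275) (nat_lit 160))) (XT.nd (nat_lit 78) (nat_lit 76) (nat_lit 0) (XT.lf (nat_lit 0) (nat_lit 58319255852) (nat_lit 152) (nat_lit 34132094853) (nat_lit 0) (nat_lit 2679192163) (nat_lit 10) (nat_lit 5) (nat_lit 12) (nat_lit 4) (nat_lit 10) (nat_lit 4) (nat_lit 346) (nat_lit 275) (nat_lit 159)) (XT.nd (nat_lit 78) (nat_lit 76) (nat_lit 0) (XT.lf (nat_lit 0) (nat_lit 70029347467) (nat_lit 152) (nat_lit 14889142225) (nat_lit 0) (nat_lit 14380021342) (nat_lit 10) (nat_lit 5) (nat_lit 12) (nat_lit 4) (nat_lit 10) (nat_lit 4) (nat_lit 347) (nat_lit 275) (nat_lit 158)) (XT.lf (nat_lit 0) (nat_lit 5484765439) (nat_lit 76) (nat_lit 76922083685) (nat_lit 76) (nat_lit 21263936193) (nat_lit 9) (nat_lit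 4) (nat_lit 10) (nat_lit 5) (nat_lit 10) (nat_lit 4) (nat_lit 348) (nat_lit 275) (nat_lit 157))))))))
noncomputable def xc153 : XT := (XT.nd (nat_lit 1482) (nat_lit 76) (nat_lit 0) (XT.nd (nat_lit 702) (nat_lit 152) (nat_lit 0) (XT.nd (nat_lit 312) (nat_lit 76) (nat_lit 0) (XT.nd (nat_lit 156) (nat_lit 76) (nat_lit 0) (XT.nd (nat_lit 78) (nat_lit 0) (nat_lit 0) (XT.lf (nat_lit 0) (nat_lit 27387655239) (nat_lit 76) (nat_lit 68264072311) (nat_lit 76) (nat_lit 12597523516) (nat_lit 9) (nat_lit 4) (nat_lit 10) (nat_lit 5) (nat_lit 10) (nat_lit 4) (nat_lit 349) (nat_lit 275) (nat_lit 156)) (XT.lf (nat_lit 0) (nat_lit 50379374631) (nat_lit 76) (nat_lit 59175996086) (nat_lit 76) (nat_lit 3501446051) (nat_lit 9) (nat_lit 4) (nat_lit 10) (nat_lit 5) (nat_lit 10) (nat_lit 4) (nat_lit 350) (nat_lit 275) (nat_lit 155))) (XT.nd (nat_lit 78) (nat_lit 0) (nat_lit 0) (XT.lf (nat_lit 0) (nat_lit 5852445260)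 (nat_lit 152) (nat_lit 43684657481) (nat_lit 76) (nat_lit 68563106550) (nat_lit 8) (nat_lit 5) (nat_lit 10) (nat_lit 5) (nat_lit 9) (nat_lit 4) (nat_lit 351) (nat_lit 275) (nat_lit 154)) (XT.lf (nat_lit 0) (nat_lit 15553149762) (nat_lit 152) (nat_lit 23805470612) (nat_lit 76) (nat_lit 84034443855) (nat_lit 8) (nat_lit 5) (nat_lit 10) (nat_lit 5) (nat_lit 9) (nat_lit 4) (nat_lit 352) (nat_lit 275) (nat_lit 153)))) (XT.nd (nat_lit 156) (nat_lit 0) (nat_lit 0) (XT.nd (nat_lit 78) (nat_lit 76) (nat_lit 0) (XT.lf (nat_lit 0) (nat_lit 25735832511) (nat_lit 152) (nat_lit 2937882750) (nat_lit 76) (nat_lit 100277001727) (nat_lit 8) (nat_lit 5) (nat_lit 10) (nat_lit 5) (nat_lit 9) (nat_lit 4) (nat_lit 353) (nat_lit 275) (nat_lit 152)) (XT.lf (nat_lit 0) (nat_lit 19594951665) (nat_lit 76) (nat_lit 17135718433) (nat_lit 152) (nat_lit 98040433368) (nat_lit 7) (nat_lit 5) (nat_lit 8) (nat_lit 5)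 (nat_lit 9) (nat_lit 4) (nat_lit 354) (nat_lit 275) (nat_lit 151))) (XT.nd (nat_lit 78) (nat_lit 0) (nat_lit 0) (XT.lf (nat_lit 0) (nat_lit 43351216173) (nat_lit 76) (nat_lit 4970933774) (nat_lit 152) (nat_lit 92558016321) (nat_lit 7) (nat_lit 5) (nat_lit 8) (nat_lit 5) (nat_lit 9) (nat_lit 4) (nat_lit 355) (nat_lit 275) (nat_lit 150)) (XT.nd (nat_lit 78) (nat_lit 0) (nat_lit 0) (XT.lf (nat_lit 0) (nat_lit 60612263099) (nat_lit 152) (nat_lit 79126263891) (nat_lit 0) (nat_lit 7550204176) (nat_lit 7) (nat_lit 5) (nat_lit 9) (nat_lit 4) (nat_lit 7) (nat_lit 4) (nat_lit 356) (nat_lit 275) (nat_lit 149)) (XT.lf (nat_lit 0) (nat_lit 73595750547) (nat_lit 152) (nat_lit 59889756091) (nat_lit 0) (nat_lit 20528276069) (nat_lit 7) (nat_lit 5) (nat_lit 9) (nat_lit 4) (nat_lit 7) (nat_lit 4) (nat_lit 357) (nat_lit 275) (nat_lit 148)))))) (XT.nd (nat_lit 390) (nat_lit 76) (nat_lit 0) (XT.nd (nat_lit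 156) (nat_lit 76) (nat_lit 0) (XT.nd (nat_lit 78) (nat_lit 0) (nat_lit 0) (XT.lf (nat_lit 0) (nat_lit 87225915150) (nat_lit 152) (nat_lit 39696015277) (nat_lit 0) (nat_lit 34153283002) (nat_lit 7) (nat_lit 5) (nat_lit 9) (nat_lit 4) (nat_lit 7) (nat_lit 4) (nat_lit 358) (nat_lit 275) (nat_lit 147)) (XT.lf (nat_lit 0) (nat_lit 101535209681) (nat_lit 152) (nat_lit 18496961114) (nat_lit 0) (nat_lit 48457665465) (nat_lit 7) (nat_lit 5) (nat_lit 9) (nat_lit 4) (nat_lit 7) (nat_lit 4) (nat_lit 359) (nat_lit 275) (nat_lit 146))) (XT.nd (nat_lit 78) (nat_lit 0) (nat_lit 0) (XT.lf (nat_lit 0) (nat_lit 3882132829) (nat_lit 76) (nat_lit 112736182033) (nat_lit 76) (nat_lit 59653959658) (nat_lit 6) (nat_lit 4) (nat_lit 7) (nat_lit 5) (nat_lit 7) (nat_lit 4) (nat_lit 360) (nat_lit 275) (nat_lit 145)) (XT.nd (nat_lit 78) (nat_lit 0) (nat_lit 0) (XT.lf (nat_lit 0) (nat_lit 28018255956) (nat_lit 76)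 (nat_lit 104748353158) (nat_lit 76) (nat_lit 51661675392) (nat_lit 6) (nat_lit 4) (nat_lit 7) (nat_lit 5) (nat_lit 7) (nat_lit 4) (nat_lit 361) (nat_lit 275) (nat_lit 144)) (XT.lf (nat_lit 0) (nat_lit 53357282157) (nat_lit 76) (nat_lit 96362920517) (nat_lit 76) (nat_lit 43271999523) (nat_lit 6) (nat_lit 4) (nat_lit 7) (nat_lit 5) (nat_lit 7) (nat_lit 4) (nat_lit 362) (nat_lit 275) (nat_lit 143))))) (XT.nd (nat_lit 156) (nat_lit 76) (nat_lit 0) (XT.nd (nat_lit 78) (nat_lit 0) (nat_lit 0) (XT.lf (nat_lit 0) (nat_lit 79959542445) (nat_lit 76) (nat_lit 87559918795) (nat_lit 76) (nat_lit 34464956630) (nat_lit 6) (nat_lit 4) (nat_lit 7) (nat_lit 5) (nat_lit 7) (nat_lit 4) (nat_lit 363) (nat_lit 275) (nat_lit 142)) (XT.lf (nat_lit 0) (nat_lit 107888375537) (nat_lit 76) (nat_lit 78318388463) (nat_lit 76) (nat_lit 25219577565) (nat_lit 6) (nat_lit 4) (nat_lit 7) (nat_lit 5) (nat_lit 7) (nat_lit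 4) (nat_lit 364) (nat_lit 275) (nat_lit 141))) (XT.nd (nat_lit 78) (nat_lit 76) (nat_lit 0) (XT.lf (nat_lit 0) (nat_lit 137210278654) (nat_lit 76) (nat_lit 68616325878) (nat_lit 76) (nat_lit 15513849519) (nat_lit 6) (nat_lit 4) (nat_lit 7) (nat_lit 5) (nat_lit 7) (nat_lit 4) (nat_lit 365) (nat_lit 275) (nat_lit 140)) (XT.nd (nat_lit 78) (nat_lit 76) (nat_lit 0) (XT.lf (nat_lit 0) (nat_lit 167995065851) (nat_lit 76) (nat_lit 58430630891) (nat_lit 76) (nat_lit 5324663617) (nat_lit 6) (nat_lit 4) (nat_lit 7) (nat_lit 5) (nat_lit 7) (nat_lit 4) (nat_lit 366) (nat_lit 275) (nat_lit 139)) (XT.lf (nat_lit 0) (nat_lit 5200294873) (nat_lit 152) (nat_lit 42448687463) (nat_lit 76) (nat_lit 195027669857) (nat_lit 5) (nat_lit 5) (nat_lit 7) (nat_lit 5) (nat_lit 6) (nat_lit 4) (nat_lit 367) (nat_lit 275) (nat_lit 138))))))) (XT.nd (nat_lit 780) (nat_lit 0) (nat_lit 0) (XT.nd (nat_lit 390) (nat_lit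 0) (nat_lit 0) (XT.nd (nat_lit 156) (nat_lit 0) (nat_lit 0) (XT.nd (nat_lit 78) (nat_lit 76) (nat_lit 0) (XT.lf (nat_lit 0) (nat_lit 16070952214) (nat_lit 152) (nat_lit 20167006277) (nat_lit 76) (nat_lit 217907016942) (nat_lit 5) (nat_lit 5) (nat_lit 7) (nat_lit 5) (nat_lit 6) (nat_lit 4) (nat_lit 368) (nat_lit 275) (nat_lit 137)) (XT.lf (nat_lit 0) (nat_lit 3332597527) (nat_lit 76) (nat_lit 24203047071) (nat_lit 152) (nat_lit 238648546098) (nat_lit 4) (nat_lit 5) (nat_lit 5) (nat_lit 5) (nat_lit 6) (nat_lit 4) (nat_lit 369) (nat_lit 275) (nat_lit 136))) (XT.nd (nat_lit 78) (nat_lit 0) (nat_lit 0) (XT.lf (nat_lit 0) (nat_lit 28704554637) (nat_lit 76) (nat_lit 11209055373) (nat_lit 152) (nat_lit 238894755716) (nat_lit 4) (nat_lit 5) (nat_lit 5) (nat_lit 5) (nat_lit 6) (nat_lit 4) (nat_lit 370) (nat_lit 275) (nat_lit 135)) (XT.nd (nat_lit 78) (nat_lit 0) (nat_lit 0) (XT.lf (nat_lit 0)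 (nat_lit 52947037955) (nat_lit 152) (nat_lit 236759352082) (nat_lit 0) (nat_lit 2355532138) (nat_lit 4) (nat_lit 5) (nat_lit 6) (nat_lit 4) (nat_lit 4) (nat_lit 4) (nat_lit 371) (nat_lit 275) (nat_lit 134)) (XT.lf (nat_lit 0) (nat_lit 66814513992) (nat_lit 152) (nat_lit 222933997212) (nat_lit 0) (nat_lit 16220527247) (nat_lit 4) (nat_lit 5) (nat_lit 6) (nat_lit 4) (nat_lit 4) (nat_lit 4) (nat_lit 372) (nat_lit 275) (nat_lit 133))))) (XT.nd (nat_lit 156) (nat_lit 0) (nat_lit 0) (XT.nd (nat_lit 78) (nat_lit 0) (nat_lit 0) (XT.lf (nat_lit 0) (nat_lit 81374051152) (nat_lit 152) (nat_lit 208419824200) (nat_lit 0) (nat_lit 30777701619) (nat_lit 4) (nat_lit 5) (nat_lit 6) (nat_lit 4) (nat_lit 4) (nat_lit 4) (nat_lit 373) (nat_lit 275) (nat_lit 132)) (XT.lf (nat_lit 0) (nat_lit 96660315001) (nat_lit 152) (nat_lit 193182275493) (nat_lit 0) (nat_lit 46061715193) (nat_lit 4) (nat_lit 5) (nat_lit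 6) (nat_lit 4) (nat_lit 4) (nat_lit 4) (nat_lit 374) (nat_lit 275) (nat_lit 131))) (XT.nd (nat_lit 78) (nat_lit 0) (nat_lit 0) (XT.lf (nat_lit 0) (nat_lit 112709701405) (nat_lit 152) (nat_lit 177185071212) (nat_lit 0) (nat_lit 62108958478) (nat_lit 4) (nat_lit 5) (nat_lit 6) (nat_lit 4) (nat_lit 4) (nat_lit 4) (nat_lit 375) (nat_lit 275) (nat_lit 130)) (XT.nd (nat_lit 78) (nat_lit 0) (nat_lit 0) (XT.lf (nat_lit 0) (nat_lit 129560423189) (nat_lit 152) (nat_lit 160390122775) (nat_lit 0) (nat_lit 78957639196) (nat_lit 4) (nat_lit 5) (nat_lit 6) (nat_lit 4) (nat_lit 4) (nat_lit 4) (nat_lit 376) (nat_lit 275) (nat_lit 129)) (XT.lf (nat_lit 0) (nat_lit 147252601118) (nat_lit 152) (nat_lit 142757442210) (nat_lit 0) (nat_lit 96647873254) (nat_lit 4) (nat_lit 5) (nat_lit 6) (nat_lit 4) (nat_lit 4) (nat_lit 4) (nat_lit 377) (nat_lit 275) (nat_lit 128)))))) (XT.nd (nat_lit 390) (nat_lit 0) (nat_lit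 0) (XT.nd (nat_lit 156) (nat_lit 0) (nat_lit 0) (XT.nd (nat_lit 78) (nat_lit 0) (nat_lit 0) (XT.lf (nat_lit 0) (nat_lit 165828359427) (nat_lit 152) (nat_lit 124245046944) (nat_lit 0) (nat_lit 115221780255) (nat_lit 4) (nat_lit 5) (nat_lit 6) (nat_lit 4) (nat_lit 4) (nat_lit 4) (nat_lit 378) (nat_lit 275) (nat_lit 127)) (XT.lf (nat_lit 0) (nat_lit 185331926110) (nat_lit 152) (nat_lit 104808859846) (nat_lit 0) (nat_lit 134723583790) (nat_lit 4) (nat_lit 5) (nat_lit 6) (nat_lit 4) (nat_lit 4) (nat_lit 4) (nat_lit 379) (nat_lit 275) (nat_lit 126))) (XT.nd (nat_lit 78) (nat_lit 0) (nat_lit 0) (XT.lf (nat_lit 0) (nat_lit 205809738232) (nat_lit 152) (nat_lit 84402604280) (nat_lit 0) (nat_lit 155199716722) (nat_lit 4) (nat_lit 5) (nat_lit 6) (nat_lit 4) (nat_lit 4) (nat_lit 4) (nat_lit 380) (nat_lit 275) (nat_lit 125)) (XT.nd (nat_lit 78) (nat_lit 0) (nat_lit 0) (XT.lf (nat_lit 0) (nat_lit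 227310552488) (nat_lit 152) (nat_lit 62977693923) (nat_lit 0) (nat_lit 176698931750) (nat_lit 4) (nat_lit 5) (nat_lit 6) (nat_lit 4) (nat_lit 4) (nat_lit 4) (nat_lit 381) (nat_lit 275) (nat_lit 124)) (XT.lf (nat_lit 0) (nat_lit 249885561293) (nat_lit 152) (nat_lit 40483117083) (nat_lit 0) (nat_lit 199272417480) (nat_lit 4) (nat_lit 5) (nat_lit 6) (nat_lit 4) (nat_lit 4) (nat_lit 4) (nat_lit 382) (nat_lit 275) (nat_lit 123))))) (XT.nd (nat_lit 32370) (nat_lit 0) (nat_lit 6536) (XT.nd (nat_lit 32292) (nat_lit 0) (nat_lit 6536) (XT.lf (nat_lit 0) (nat_lit 273588514668) (nat_lit 152) (nat_lit 16865315244) (nat_lit 0) (nat_lit 222973920308) (nat_lit 4) (nat_lit 5) (nat_lit 6) (nat_lit 4) (nat_lit 4) (nat_lit 4) (nat_lit 383) (nat_lit 275) (nat_lit 122)) (XT.lf (nat_lit 0) (nat_lit 2400632394) (nat_lit 684) (nat_lit 1170505894) (nat_lit 684) (nat_lit 1170505894) (nat_lit 90) (nat_lit 3) (nat_lit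 99) (nat_lit 3) (nat_lit 99) (nat_lit 5) (nat_lit 276) (nat_lit 276) (nat_lit 228))) (XT.nd (nat_lit 78) (nat_lit 0) (nat_lit 0) (XT.lf (nat_lit 76) (nat_lit 1936059340) (nat_lit 0) (nat_lit 3746431700) (nat_lit 684) (nat_lit 3997726460) (nat_lit 91) (nat_lit 5) (nat_lit 90) (nat_lit 3) (nat_lit 99) (nat_lit 5) (nat_lit 277) (nat_lit 276) (nat_lit 227)) (XT.nd (nat_lit 78) (nat_lit 0) (nat_lit 76) (XT.lf (nat_lit 76) (nat_lit 6482811918) (nat_lit 0) (nat_lit 117424520) (nat_lit 684) (nat_lit 3287267762) (nat_lit 91) (nat_lit 5) (nat_lit 90) (nat_lit 3) (nat_lit 99) (nat_lit 5) (nat_lit 278) (nat_lit 276) (nat_lit 226)) (XT.lf (nat_lit 76) (nat_lit 1102440302) (nat_lit 0) (nat_lit 6491681594) (nat_lit 684) (nat_lit 2509648319) (nat_lit 92) (nat_lit 5) (nat_lit 91) (nat_lit 5) (nat_lit 100) (nat_lit 5) (nat_lit 279) (nat_lit 276) (nat_lit 225))))))))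
noncomputable def xc154 : XT := (XT.nd (nat_lit 1482) (nat_lit 2052) (nat_lit 0) (XT.nd (nat_lit 702) (nat_lit 1672) (nat_lit 0) (XT.nd (nat_lit 312) (nat_lit 532) (nat_lit 0) (XT.nd (nat_lit 156) (nat_lit 608) (nat_lit 0) (XT.nd (nat_lit 78) (nat_lit 0) (nat_lit 76) (XT.lf (nat_lit 76) (nat_lit 5924645540) (nat_lit 0) (nat_lit 2729703105) (nat_lit 684) (nat_lit 1675790077) (nat_lit 92) (nat_lit 5) (nat_lit 91) (nat_lit 5) (nat_lit 100) (nat_lit 5) (nat_lit 280) (nat_lit 276) (nat_lit 224)) (XT.lf (nat_lit 76) (nat_lit 385789954) (nat_lit 0) (nat_lit 9366253640) (nat_lit 684) (nat_lit 816674971) (nat_lit 93) (nat_lit 5) (nat_lit 92) (nat_lit 5) (nat_lit 101) (nat_lit 5) (nat_lit 281) (nat_lit 276) (nat_lit 223))) (XT.nd (nat_lit 78) (nat_lit 0) (nat_lit 0) (XT.lf (nat_lit 0) (nat_lit 163386159) (nat_lit 684) (nat_lit 5321833255) (nat_lit 760) (nat_lit 5330010142) (nat_lit 83) (nat_lit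 5) (nat_lit 92) (nat_lit 5) (nat_lit 93) (nat_lit 5) (nat_lit 282) (nat_lit 276) (nat_lit 222)) (XT.lf (nat_lit 0) (nat_lit 1127044693) (nat_lit 684) (nat_lit 258325278) (nat_lit 760) (nat_lit 9690024713) (nat_lit 83) (nat_lit 5) (nat_lit 92) (nat_lit 5) (nat_lit 93) (nat_lit 5) (nat_lit 283) (nat_lit 276) (nat_lit 221)))) (XT.nd (nat_lit 156) (nat_lit 608) (nat_lit 0) (XT.nd (nat_lit 78) (nat_lit 0) (nat_lit 0) (XT.lf (nat_lit 0) (nat_lit 2230972477) (nat_lit 684) (nat_lit 6194687673) (nat_lit 760) (nat_lit 2918398835) (nat_lit 84) (nat_lit 5) (nat_lit 93) (nat_lit 5) (nat_lit 94) (nat_lit 5) (nat_lit 284) (nat_lit 276) (nat_lit 220)) (XT.lf (nat_lit 0) (nat_lit 3382569721) (nat_lit 684) (nat_lit 839814078) (nat_lit 760) (nat_lit 7404239744) (nat_lit 84) (nat_lit 5) (nat_lit 93) (nat_lit 5) (nat_lit 94) (nat_lit 5) (nat_lit 285) (nat_lit 276) (nat_lit 219))) (XT.nd (nat_lit 78) (nat_lit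 684) (nat_lit 0) (XT.lf (nat_lit 0) (nat_lit 4639780535) (nat_lit 684) (nat_lit 7011692376) (nat_lit 76) (nat_lit 269528110) (nat_lit 85) (nat_lit 5) (nat_lit 94) (nat_lit 5) (nat_lit 86) (nat_lit 5) (nat_lit 286) (nat_lit 276) (nat_lit 218)) (XT.nd (nat_lit 78) (nat_lit 684) (nat_lit 0) (XT.lf (nat_lit 0) (nat_lit 6011759658) (nat_lit 684) (nat_lit 1351347104) (nat_lit 76) (nat_lit 4864477487) (nat_lit 85) (nat_lit 5) (nat_lit 94) (nat_lit 5) (nat_lit 86) (nat_lit 5) (nat_lit 287) (nat_lit 276) (nat_lit 217)) (XT.lf (nat_lit 0) (nat_lit 4716740335) (nat_lit 684) (nat_lit 2778984218) (nat_lit 760) (nat_lit 5051681093) (nat_lit 76) (nat_lit 5) (nat_lit 85) (nat_lit 5) (nat_lit 86) (nat_lit 5) (nat_lit 288) (nat_lit 276) (nat_lit 216)))))) (XT.nd (nat_lit 390) (nat_lit 836) (nat_lit 0) (XT.nd (nat_lit 156) (nat_lit 456) (nat_lit 0) (XT.nd (nat_lit 78) (nat_lit 380) (nat_lit 0) (XT.lf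 (nat_lit 0) (nat_lit 9079746396) (nat_lit 760) (nat_lit 1806468520) (nat_lit 76) (nat_lit 1995784877) (nat_lit 76) (nat_lit 5) (nat_lit 86) (nat_lit 5) (nat_lit 77) (nat_lit 5) (nat_lit 289) (nat_lit 276) (nat_lit 215)) (XT.lf (nat_lit 0) (nat_lit 4594327626) (nat_lit 380) (nat_lit 6238153905) (nat_lit 456) (nat_lit 2396437568) (nat_lit 71) (nat_lit 5) (nat_lit 76) (nat_lit 5) (nat_lit 77) (nat_lit 5) (nat_lit 290) (nat_lit 276) (nat_lit 214))) (XT.nd (nat_lit 78) (nat_lit 456) (nat_lit 0) (XT.lf (nat_lit 0) (nat_lit 11352200524) (nat_lit 380) (nat_lit 1324392773) (nat_lit 456) (nat_lit 916471761) (nat_lit 71) (nat_lit 5) (nat_lit 76) (nat_lit 5) (nat_lit 77) (nat_lit 5) (nat_lit 291) (nat_lit 276) (nat_lit 213)) (XT.nd (nat_lit 78) (nat_lit 0) (nat_lit 0) (XT.lf (nat_lit 0) (nat_lit 723823099) (nat_lit 456) (nat_lit 9449998975) (nat_lit 76) (nat_lit 3795823250) (nat_lit 65) (nat_lit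 5) (nat_lit 71) (nat_lit 5) (nat_lit 66) (nat_lit 5) (nat_lit 292) (nat_lit 276) (nat_lit 212)) (XT.lf (nat_lit 0) (nat_lit 2450414998) (nat_lit 456) (nat_lit 2730826903) (nat_lit 76) (nat_lit 9181365871) (nat_lit 65) (nat_lit 5) (nat_lit 71) (nat_lit 5) (nat_lit 66) (nat_lit 5) (nat_lit 293) (nat_lit 276) (nat_lit 211))))) (XT.nd (nat_lit 156) (nat_lit 532) (nat_lit 0) (XT.nd (nat_lit 78) (nat_lit 0) (nat_lit 0) (XT.lf (nat_lit 0) (nat_lit 4310750096) (nat_lit 380) (nat_lit 10333663248) (nat_lit 76) (nat_lit 128490000) (nat_lit 61) (nat_lit 5) (nat_lit 66) (nat_lit 5) (nat_lit 62) (nat_lit 5) (nat_lit 294) (nat_lit 276) (nat_lit 210)) (XT.lf (nat_lit 0) (nat_lit 6372781145) (nat_lit 380) (nat_lit 3250309518) (nat_lit 76) (nat_lit 5575242099) (nat_lit 61) (nat_lit 5) (nat_lit 66) (nat_lit 5) (nat_lit 62) (nat_lit 5) (nat_lit 295) (nat_lit 276) (nat_lit 209))) (XT.nd (nat_lit 78) (nat_lit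 228) (nat_lit 0) (XT.lf (nat_lit 0) (nat_lit 4300246395) (nat_lit 304) (nat_lit 4282648885) (nat_lit 380) (nat_lit 7059939797) (nat_lit 57) (nat_lit 5) (nat_lit 61) (nat_lit 5) (nat_lit 62) (nat_lit 5) (nat_lit 296) (nat_lit 276) (nat_lit 208)) (XT.nd (nat_lit 78) (nat_lit 228) (nat_lit 0) (XT.lf (nat_lit 0) (nat_lit 10958624495) (nat_lit 380) (nat_lit 3812506230) (nat_lit 76) (nat_lit 1335724414) (nat_lit 57) (nat_lit 5) (nat_lit 62) (nat_lit 5) (nat_lit 58) (nat_lit 5) (nat_lit 297) (nat_lit 276) (nat_lit 207)) (XT.lf (nat_lit 0) (nat_lit 4132045139) (nat_lit 228) (nat_lit 9435317428) (nat_lit 304) (nat_lit 3021048323) (nat_lit 54) (nat_lit 5) (nat_lit 57) (nat_lit 5) (nat_lit 58) (nat_lit 5) (nat_lit 298) (nat_lit 276) (nat_lit 206))))))) (XT.nd (nat_lit 780) (nat_lit 760) (nat_lit 0) (XT.nd (nat_lit 390) (nat_lit 684) (nat_lit 0) (XT.nd (nat_lit 156) (nat_lit 228) (nat_lit 0) (XT.nd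 (nat_lit 78) (nat_lit 380) (nat_lit 0) (XT.lf (nat_lit 0) (nat_lit 12582494962) (nat_lit 228) (nat_lit 3768717660) (nat_lit 304) (nat_lit 740641681) (nat_lit 54) (nat_lit 5) (nat_lit 57) (nat_lit 5) (nat_lit 58) (nat_lit 5) (nat_lit 299) (nat_lit 276) (nat_lit 205)) (XT.lf (nat_lit 0) (nat_lit 1678039775) (nat_lit 380) (nat_lit 13741430397) (nat_lit 76) (nat_lit 2195888976) (nat_lit 49) (nat_lit 5) (nat_lit 54) (nat_lit 5) (nat_lit 50) (nat_lit 5) (nat_lit 300) (nat_lit 276) (nat_lit 204))) (XT.nd (nat_lit 78) (nat_lit 228) (nat_lit 0) (XT.lf (nat_lit 0) (nat_lit 4313369450) (nat_lit 380) (nat_lit 5427235811) (nat_lit 76) (nat_lit 8417834349) (nat_lit 49) (nat_lit 5) (nat_lit 54) (nat_lit 5) (nat_lit 50) (nat_lit 5) (nat_lit 301) (nat_lit 276) (nat_lit 203)) (XT.nd (nat_lit 78) (nat_lit 0) (nat_lit 0) (XT.lf (nat_lit 0) (nat_lit 3388477963) (nat_lit 228) (nat_lit 3726988603) (nat_lit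 304) (nat_lit 11611493373) (nat_lit 46) (nat_lit 5) (nat_lit 49) (nat_lit 5) (nat_lit 50) (nat_lit 5) (nat_lit 302) (nat_lit 276) (nat_lit 202)) (XT.lf (nat_lit 0) (nat_lit 10174009138) (nat_lit 304) (nat_lit 6550919436) (nat_lit 76) (nat_lit 2593194863) (nat_lit 46) (nat_lit 5) (nat_lit 50) (nat_lit 5) (nat_lit 47) (nat_lit 5) (nat_lit 303) (nat_lit 276) (nat_lit 201))))) (XT.nd (nat_lit 156) (nat_lit 456) (nat_lit 0) (XT.nd (nat_lit 78) (nat_lit 0) (nat_lit 0) (XT.lf (nat_lit 0) (nat_lit 2678651213) (nat_lit 228) (nat_lit 10793104977) (nat_lit 304) (nat_lit 6462807608) (nat_lit 43) (nat_lit 5) (nat_lit 46) (nat_lit 5) (nat_lit 47) (nat_lit 5) (nat_lit 304) (nat_lit 276) (nat_lit 200)) (XT.lf (nat_lit 0) (nat_lit 12575483041) (nat_lit 228) (nat_lit 4453662926) (nat_lit 304) (nat_lit 3547973444) (nat_lit 43) (nat_lit 5) (nat_lit 46) (nat_lit 5) (nat_lit 47) (nat_lit 5) (nat_lit 305)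 (nat_lit 276) (nat_lit 199))) (XT.nd (nat_lit 78) (nat_lit 304) (nat_lit 0) (XT.lf (nat_lit 0) (nat_lit 1714498546) (nat_lit 152) (nat_lit 19095567927) (nat_lit 228) (nat_lit 439482801) (nat_lit 41) (nat_lit 5) (nat_lit 43) (nat_lit 5) (nat_lit 44) (nat_lit 5) (nat_lit 306) (nat_lit 276) (nat_lit 198)) (XT.nd (nat_lit 78) (nat_lit 228) (nat_lit 0) (XT.lf (nat_lit 0) (nat_lit 2929414499) (nat_lit 228) (nat_lit 9895444975) (nat_lit 76) (nat_lit 9118793993) (nat_lit 40) (nat_lit 5) (nat_lit 43) (nat_lit 5) (nat_lit 41) (nat_lit 5) (nat_lit 307) (nat_lit 276) (nat_lit 197)) (XT.lf (nat_lit 0) (nat_lit 204993495) (nat_lit 228) (nat_lit 6235563375) (nat_lit 304) (nat_lit 16232142788) (nat_lit 37) (nat_lit 5) (nat_lit 40) (nat_lit 5) (nat_lit 41) (nat_lit 5) (nat_lit 308) (nat_lit 276) (nat_lit 196)))))) (XT.nd (nat_lit 390) (nat_lit 304) (nat_lit 0) (XT.nd (nat_lit 156) (nat_lit 456) (nat_lit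 0) (XT.nd (nat_lit 78) (nat_lit 0) (nat_lit 0) (XT.lf (nat_lit 0) (nat_lit 10293912855) (nat_lit 304) (nat_lit 12310049018) (nat_lit 76) (nat_lit 825927755) (nat_lit 37) (nat_lit 5) (nat_lit 41) (nat_lit 5) (nat_lit 38) (nat_lit 5) (nat_lit 309) (nat_lit 276) (nat_lit 195)) (XT.lf (nat_lit 0) (nat_lit 14428500358) (nat_lit 304) (nat_lit 1766557603) (nat_lit 76) (nat_lit 8025476084) (nat_lit 37) (nat_lit 5) (nat_lit 41) (nat_lit 5) (nat_lit 38) (nat_lit 5) (nat_lit 310) (nat_lit 276) (nat_lit 194))) (XT.nd (nat_lit 78) (nat_lit 304) (nat_lit 0) (XT.lf (nat_lit 0) (nat_lit 9592237762) (nat_lit 152) (nat_lit 9314332967) (nat_lit 228) (nat_lit 6137324316) (nat_lit 35) (nat_lit 5) (nat_lit 37) (nat_lit 5) (nat_lit 38) (nat_lit 5) (nat_lit 311) (nat_lit 276) (nat_lit 193)) (XT.nd (nat_lit 78) (nat_lit 304) (nat_lit 0) (XT.lf (nat_lit 0) (nat_lit 21561726208) (nat_lit 152) (nat_lit 2064057091)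 (nat_lit 228) (nat_lit 2281799847) (nat_lit 35) (nat_lit 5) (nat_lit 37) (nat_lit 5) (nat_lit 38) (nat_lit 5) (nat_lit 312) (nat_lit 276) (nat_lit 192)) (XT.lf (nat_lit 0) (nat_lit 1903834552) (nat_lit 304) (nat_lit 19386863710) (nat_lit 76) (nat_lit 5512703783) (nat_lit 31) (nat_lit 5) (nat_lit 35) (nat_lit 5) (nat_lit 32) (nat_lit 5) (nat_lit 313) (nat_lit 276) (nat_lit 191))))) (XT.nd (nat_lit 156) (nat_lit 152) (nat_lit 0) (XT.nd (nat_lit 78) (nat_lit 152) (nat_lit 0) (XT.lf (nat_lit 0) (nat_lit 6318633440) (nat_lit 304) (nat_lit 7913202698) (nat_lit 76) (nat_lit 13505495242) (nat_lit 31) (nat_lit 5) (nat_lit 35) (nat_lit 5) (nat_lit 32) (nat_lit 5) (nat_lit 314) (nat_lit 276) (nat_lit 190)) (XT.lf (nat_lit 0) (nat_lit 4252778374) (nat_lit 152) (nat_lit 6756290228) (nat_lit 228) (nat_lit 17706161027) (nat_lit 29) (nat_lit 5) (nat_lit 31) (nat_lit 5) (nat_lit 32) (nat_lit 5) (nat_lit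 315) (nat_lit 276) (nat_lit 189))) (XT.nd (nat_lit 78) (nat_lit 152) (nat_lit 0) (XT.lf (nat_lit 0) (nat_lit 16075986165) (nat_lit 228) (nat_lit 12470478149) (nat_lit 76) (nat_lit 1188476886) (nat_lit 29) (nat_lit 5) (nat_lit 32) (nat_lit 5) (nat_lit 30) (nat_lit 5) (nat_lit 316) (nat_lit 276) (nat_lit 188)) (XT.nd (nat_lit 78) (nat_lit 152) (nat_lit 0) (XT.lf (nat_lit 0) (nat_lit 21496231766) (nat_lit 228) (nat_lit 6504127) (nat_lit 76) (nat_lit 9297919009) (nat_lit 29) (nat_lit 5) (nat_lit 32) (nat_lit 5) (nat_lit 30) (nat_lit 5) (nat_lit 317) (nat_lit 276) (nat_lit 187)) (XT.lf (nat_lit 0) (nat_lit 13496607287) (nat_lit 152) (nat_lit 13891338703) (nat_lit 228) (nat_lit 4521700396) (nat_lit 27) (nat_lit 5) (nat_lit 29) (nat_lit 5) (nat_lit 30) (nat_lit 5) (nat_lit 318) (nat_lit 276) (nat_lit 186))))))))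
noncomputable def xc155 : XT := (XT.nd (nat_lit 1560) (nat_lit 456) (nat_lit 0) (XT.nd (nat_lit 780) (nat_lit 380) (nat_lit 0) (XT.nd (nat_lit 390) (nat_lit 304) (nat_lit 0) (XT.nd (nat_lit 156) (nat_lit 152) (nat_lit 0) (XT.nd (nat_lit 78) (nat_lit 152) (nat_lit 0) (XT.lf (nat_lit 0) (nat_lit 474063087) (nat_lit 228) (nat_lit 5422921664) (nat_lit 76) (nat_lit 27177230136) (nat_lit 26) (nat_lit 5) (nat_lit 29) (nat_lit 5) (nat_lit 27) (nat_lit 5) (nat_lit 319) (nat_lit 276) (nat_lit 185)) (XT.lf (nat_lit 0) (nat_lit 5731289035) (nat_lit 228) (nat_lit 25933575564) (nat_lit 76) (nat_lit 2620272132) (nat_lit 24) (nat_lit 5) (nat_lit 27) (nat_lit 5) (nat_lit 25) (nat_lit 5) (nat_lit 320) (nat_lit 276) (nat_lit 184))) (XT.nd (nat_lit 78) (nat_lit 152) (nat_lit 0) (XT.lf (nat_lit 0) (nat_lit 11431818794) (nat_lit 228) (nat_lit 12662662477) (nat_lit 76) (nat_lit 11453113539) (nat_lit 24) (nat_lit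 5) (nat_lit 27) (nat_lit 5) (nat_lit 25) (nat_lit 5) (nat_lit 321) (nat_lit 276) (nat_lit 183)) (XT.nd (nat_lit 78) (nat_lit 0) (nat_lit 0) (XT.lf (nat_lit 0) (nat_lit 1298585703) (nat_lit 152) (nat_lit 16129945100) (nat_lit 228) (nat_lit 19444098888) (nat_lit 22) (nat_lit 5) (nat_lit 24) (nat_lit 5) (nat_lit 25) (nat_lit 5) (nat_lit 322) (nat_lit 276) (nat_lit 182)) (XT.lf (nat_lit 0) (nat_lit 16382980208) (nat_lit 152) (nat_lit 7547635014) (nat_lit 228) (nat_lit 14323035382) (nat_lit 22) (nat_lit 5) (nat_lit 24) (nat_lit 5) (nat_lit 25) (nat_lit 5) (nat_lit 323) (nat_lit 276) (nat_lit 181))))) (XT.nd (nat_lit 156) (nat_lit 228) (nat_lit 0) (XT.nd (nat_lit 78) (nat_lit 76) (nat_lit 0) (XT.lf (nat_lit 0) (nat_lit 30772086968) (nat_lit 228) (nat_lit 7519176317) (nat_lit 76) (nat_lit 1411755721) (nat_lit 22) (nat_lit 5) (nat_lit 25) (nat_lit 5) (nat_lit 23) (nat_lit 4) (nat_lit 324) (nat_lit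 276) (nat_lit 180)) (XT.lf (nat_lit 0) (nat_lit 7657737775) (nat_lit 76) (nat_lit 30533022358) (nat_lit 152) (nat_lit 3022349398) (nat_lit 21) (nat_lit 5) (nat_lit 22) (nat_lit 5) (nat_lit 23) (nat_lit 4) (nat_lit 325) (nat_lit 276) (nat_lit 179))) (XT.nd (nat_lit 78) (nat_lit 152) (nat_lit 0) (XT.lf (nat_lit 0) (nat_lit 3201136006) (nat_lit 152) (nat_lit 19003131423) (nat_lit 76) (nat_lit 20585897242) (nat_lit 20) (nat_lit 5) (nat_lit 22) (nat_lit 5) (nat_lit 21) (nat_lit 5) (nat_lit 326) (nat_lit 276) (nat_lit 178)) (XT.nd (nat_lit 78) (nat_lit 152) (nat_lit 0) (XT.lf (nat_lit 0) (nat_lit 9626489925) (nat_lit 152) (nat_lit 3785757268) (nat_lit 76) (nat_lit 31031743507) (nat_lit 20) (nat_lit 5) (nat_lit 22) (nat_lit 5) (nat_lit 21) (nat_lit 5) (nat_lit 327) (nat_lit 276) (nat_lit 177)) (XT.lf (nat_lit 0) (nat_lit 12582901318) (nat_lit 152) (nat_lit 3979297912) (nat_lit 228) (nat_lit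 29608862723) (nat_lit 18) (nat_lit 5) (nat_lit 20) (nat_lit 5) (nat_lit 21) (nat_lit 5) (nat_lit 328) (nat_lit 276) (nat_lit 176)))))) (XT.nd (nat_lit 390) (nat_lit 228) (nat_lit 0) (XT.nd (nat_lit 156) (nat_lit 152) (nat_lit 0) (XT.nd (nat_lit 78) (nat_lit 0) (nat_lit 0) (XT.lf (nat_lit 0) (nat_lit 23995087453) (nat_lit 228) (nat_lit 18185825401) (nat_lit 76) (nat_lit 5796062149) (nat_lit 18) (nat_lit 5) (nat_lit 21) (nat_lit 5) (nat_lit 19) (nat_lit 4) (nat_lit 329) (nat_lit 276) (nat_lit 175)) (XT.lf (nat_lit 0) (nat_lit 31857919488) (nat_lit 228) (nat_lit 2090425446) (nat_lit 76) (nat_lit 15921931335) (nat_lit 18) (nat_lit 5) (nat_lit 21) (nat_lit 5) (nat_lit 19) (nat_lit 4) (nat_lit 330) (nat_lit 276) (nat_lit 174))) (XT.nd (nat_lit 78) (nat_lit 76) (nat_lit 0) (XT.lf (nat_lit 0) (nat_lit 15287794502) (nat_lit 76) (nat_lit 25058179183) (nat_lit 152) (nat_lit 11500672058) (nat_lit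 17) (nat_lit 5) (nat_lit 18) (nat_lit 5) (nat_lit 19) (nat_lit 4) (nat_lit 331) (nat_lit 276) (nat_lit 173)) (XT.nd (nat_lit 78) (nat_lit 76) (nat_lit 0) (XT.lf (nat_lit 0) (nat_lit 33596426927) (nat_lit 76) (nat_lit 15690942904) (nat_lit 152) (nat_lit 4633023731) (nat_lit 17) (nat_lit 5) (nat_lit 18) (nat_lit 5) (nat_lit 19) (nat_lit 4) (nat_lit 332) (nat_lit 276) (nat_lit 172)) (XT.lf (nat_lit 0) (nat_lit 2489232120) (nat_lit 152) (nat_lit 3328347047) (nat_lit 76) (nat_lit 50278556433) (nat_lit 16) (nat_lit 5) (nat_lit 18) (nat_lit 5) (nat_lit 17) (nat_lit 5) (nat_lit 333) (nat_lit 276) (nat_lit 171))))) (XT.nd (nat_lit 156) (nat_lit 76) (nat_lit 0) (XT.nd (nat_lit 78) (nat_lit 0) (nat_lit 0) (XT.lf (nat_lit 0) (nat_lit 10114715782) (nat_lit 228) (nat_lit 43533552554) (nat_lit 76) (nat_lit 4713463998) (nat_lit 14) (nat_lit 5) (nat_lit 17) (nat_lit 5) (nat_lit 15) (nat_lit 4) (nat_lit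 334) (nat_lit 276) (nat_lit 170)) (XT.lf (nat_lit 0) (nat_lit 18268231000) (nat_lit 228) (nat_lit 26836312062) (nat_lit 76) (nat_lit 15628733594) (nat_lit 14) (nat_lit 5) (nat_lit 17) (nat_lit 5) (nat_lit 15) (nat_lit 4) (nat_lit 335) (nat_lit 276) (nat_lit 169))) (XT.nd (nat_lit 78) (nat_lit 76) (nat_lit 0) (XT.lf (nat_lit 0) (nat_lit 26823799124) (nat_lit 228) (nat_lit 9314031411) (nat_lit 76) (nat_lit 27085854154) (nat_lit 14) (nat_lit 5) (nat_lit 17) (nat_lit 5) (nat_lit 15) (nat_lit 4) (nat_lit 336) (nat_lit 276) (nat_lit 168)) (XT.nd (nat_lit 78) (nat_lit 0) (nat_lit 0) (XT.lf (nat_lit 0) (nat_lit 9375069900) (nat_lit 76) (nat_lit 26573091770) (nat_lit 152) (nat_lit 29883405751) (nat_lit 13) (nat_lit 5) (nat_lit 14) (nat_lit 5) (nat_lit 15) (nat_lit 4) (nat_lit 337) (nat_lit 276) (nat_lit 167)) (XT.lf (nat_lit 0) (nat_lit 29312785133) (nat_lit 76) (nat_lit 16368451057) (nat_lit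 152) (nat_lit 22880988264) (nat_lit 13) (nat_lit 5) (nat_lit 14) (nat_lit 5) (nat_lit 15) (nat_lit 4) (nat_lit 338) (nat_lit 276) (nat_lit 166))))))) (XT.nd (nat_lit 780) (nat_lit 228) (nat_lit 0) (XT.nd (nat_lit 390) (nat_lit 76) (nat_lit 0) (XT.nd (nat_lit 156) (nat_lit 152) (nat_lit 0) (XT.nd (nat_lit 78) (nat_lit 0) (nat_lit 0) (XT.lf (nat_lit 0) (nat_lit 50238621094) (nat_lit 76) (nat_lit 5657349262) (nat_lit 152) (nat_lit 15533698310) (nat_lit 13) (nat_lit 5) (nat_lit 14) (nat_lit 5) (nat_lit 15) (nat_lit 4) (nat_lit 339) (nat_lit 276) (nat_lit 165)) (XT.lf (nat_lit 0) (nat_lit 66703893649) (nat_lit 152) (nat_lit 2325534787) (nat_lit 0) (nat_lit 5406938436) (nat_lit 13) (nat_lit 5) (nat_lit 15) (nat_lit 4) (nat_lit 13) (nat_lit 4) (nat_lit 340) (nat_lit 276) (nat_lit 164))) (XT.nd (nat_lit 78) (nat_lit 0) (nat_lit 0) (XT.lf (nat_lit 0) (nat_lit 818686768) (nat_lit 152) (nat_lit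 59631059888) (nat_lit 76) (nat_lit 17124571232) (nat_lit 11) (nat_lit 5) (nat_lit 13) (nat_lit 5) (nat_lit 12) (nat_lit 4) (nat_lit 341) (nat_lit 276) (nat_lit 163)) (XT.nd (nat_lit 78) (nat_lit 0) (nat_lit 0) (XT.lf (nat_lit 0) (nat_lit 9573005404) (nat_lit 152) (nat_lit 41696528159) (nat_lit 76) (nat_lit 29591525481) (nat_lit 11) (nat_lit 5) (nat_lit 13) (nat_lit 5) (nat_lit 12) (nat_lit 4) (nat_lit 342) (nat_lit 276) (nat_lit 162)) (XT.lf (nat_lit 0) (nat_lit 18760690214) (nat_lit 152) (nat_lit 22873032849) (nat_lit 76) (nat_lit 42678635307) (nat_lit 11) (nat_lit 5) (nat_lit 13) (nat_lit 5) (nat_lit 12) (nat_lit 4) (nat_lit 343) (nat_lit 276) (nat_lit 161))))) (XT.nd (nat_lit 156) (nat_lit 0) (nat_lit 0) (XT.nd (nat_lit 78) (nat_lit 76) (nat_lit 0) (XT.lf (nat_lit 0) (nat_lit 28403616636) (nat_lit 152) (nat_lit 3115756111) (nat_lit 76) (nat_lit 56417060496) (nat_lit 11) (nat_lit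 5) (nat_lit 13) (nat_lit 5) (nat_lit 12) (nat_lit 4) (nat_lit 344) (nat_lit 276) (nat_lit 160)) (XT.lf (nat_lit 0) (nat_lit 18205017439) (nat_lit 76) (nat_lit 20603957922) (nat_lit 152) (nat_lit 52918725487) (nat_lit 10) (nat_lit 5) (nat_lit 11) (nat_lit 5) (nat_lit 12) (nat_lit 4) (nat_lit 345) (nat_lit 276) (nat_lit 159))) (XT.nd (nat_lit 78) (nat_lit 0) (nat_lit 0) (XT.lf (nat_lit 0) (nat_lit 40693073980) (nat_lit 76) (nat_lit 9090429234) (nat_lit 152) (nat_lit 45922586689) (nat_lit 10) (nat_lit 5) (nat_lit 11) (nat_lit 5) (nat_lit 12) (nat_lit 4) (nat_lit 346) (nat_lit 276) (nat_lit 158)) (XT.nd (nat_lit 78) (nat_lit 0) (nat_lit 0) (XT.lf (nat_lit 0) (nat_lit 61349849657) (nat_lit 152) (nat_lit 35631423703) (nat_lit 0) (nat_lit 2899973422) (nat_lit 10) (nat_lit 5) (nat_lit 12) (nat_lit 4) (nat_lit 10) (nat_lit 4) (nat_lit 347) (nat_lit 276) (nat_lit 157)) (XT.lf (nat_lit 0) (nat_lit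 73639987233) (nat_lit 152) (nat_lit 15436193724) (nat_lit 0) (nat_lit 15181709696) (nat_lit 10) (nat_lit 5) (nat_lit 12) (nat_lit 4) (nat_lit 10) (nat_lit 4) (nat_lit 348) (nat_lit 276) (nat_lit 156)))))) (XT.nd (nat_lit 390) (nat_lit 76) (nat_lit 0) (XT.nd (nat_lit 156) (nat_lit 76) (nat_lit 0) (XT.nd (nat_lit 78) (nat_lit 0) (nat_lit 0) (XT.lf (nat_lit 0) (nat_lit 5953225361) (nat_lit 76) (nat_lit 80680972270) (nat_lit 76) (nat_lit 22214693492) (nat_lit 9) (nat_lit 4) (nat_lit 10) (nat_lit 5) (nat_lit 10) (nat_lit 4) (nat_lit 349) (nat_lit 276) (nat_lit 155)) (XT.lf (nat_lit 0) (nat_lit 28942011002) (nat_lit 76) (nat_lit 71594213452) (nat_lit 76) (nat_lit 13120314445) (nat_lit 9) (nat_lit 4) (nat_lit 10) (nat_lit 5) (nat_lit 10) (nat_lit 4) (nat_lit 350) (nat_lit 276) (nat_lit 154))) (XT.nd (nat_lit 78) (nat_lit 76) (nat_lit 0) (XT.lf (nat_lit 0) (nat_lit 53074508125) (nat_lit 76)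 (nat_lit 62055688771) (nat_lit 76) (nat_lit 3574532403) (nat_lit 9) (nat_lit 4) (nat_lit 10) (nat_lit 5) (nat_lit 10) (nat_lit 4) (nat_lit 351) (nat_lit 276) (nat_lit 153)) (XT.nd (nat_lit 78) (nat_lit 0) (nat_lit 0) (XT.lf (nat_lit 0) (nat_lit 6239088249) (nat_lit 152) (nat_lit 45697937228) (nat_lit 76) (nat_lit 72063424829) (nat_lit 8) (nat_lit 5) (nat_lit 10) (nat_lit 5) (nat_lit 9) (nat_lit 4) (nat_lit 352) (nat_lit 276) (nat_lit 152)) (XT.lf (nat_lit 0) (nat_lit 16420350799) (nat_lit 152) (nat_lit 24832931641) (nat_lit 76) (nat_lit 88304892668) (nat_lit 8) (nat_lit 5) (nat_lit 10) (nat_lit 5) (nat_lit 9) (nat_lit 4) (nat_lit 353) (nat_lit 276) (nat_lit 151))))) (XT.nd (nat_lit 156) (nat_lit 0) (nat_lit 0) (XT.nd (nat_lit 78) (nat_lit 76) (nat_lit 0) (XT.lf (nat_lit 0) (nat_lit 27107903707) (nat_lit 152) (nat_lit 2929717362) (nat_lit 76) (nat_lit 105356305737) (nat_lit 8) (nat_lit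 5) (nat_lit 10) (nat_lit 5) (nat_lit 9) (nat_lit 4) (nat_lit 354) (nat_lit 276) (nat_lit 150)) (XT.lf (nat_lit 0) (nat_lit 20727257814) (nat_lit 76) (nat_lit 17923546295) (nat_lit 152) (nat_lit 102854615408) (nat_lit 7) (nat_lit 5) (nat_lit 8) (nat_lit 5) (nat_lit 9) (nat_lit 4) (nat_lit 355) (nat_lit 276) (nat_lit 149))) (XT.nd (nat_lit 78) (nat_lit 0) (nat_lit 0) (XT.lf (nat_lit 0) (nat_lit 45664070854) (nat_lit 76) (nat_lit 5153806120) (nat_lit 152) (nat_lit 97102260349) (nat_lit 7) (nat_lit 5) (nat_lit 8) (nat_lit 5) (nat_lit 9) (nat_lit 4) (nat_lit 356) (nat_lit 276) (nat_lit 148)) (XT.nd (nat_lit 78) (nat_lit 0) (nat_lit 0) (XT.lf (nat_lit 0) (nat_lit 63719680910) (nat_lit 152) (nat_lit 82941333495) (nat_lit 0) (nat_lit 7988259483) (nat_lit 7) (nat_lit 5) (nat_lit 9) (nat_lit 4) (nat_lit 7) (nat_lit 4) (nat_lit 357) (nat_lit 276) (nat_lit 147)) (XT.lf (nat_lit 0) (nat_lit 77348685366)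 (nat_lit 152) (nat_lit 62749726189) (nat_lit 0) (nat_lit 21612351872) (nat_lit 7) (nat_lit 5) (nat_lit 9) (nat_lit 4) (nat_lit 7) (nat_lit 4) (nat_lit 358) (nat_lit 276) (nat_lit 146))))))))
noncomputable def xc156 : XT := (XT.nd (nat_lit 1482) (nat_lit 0) (nat_lit 0) (XT.nd (nat_lit 702) (nat_lit 152) (nat_lit 0) (XT.nd (nat_lit 312) (nat_lit 0) (nat_lit 0) (XT.nd (nat_lit 156) (nat_lit 76) (nat_lit 0) (XT.nd (nat_lit 78) (nat_lit 0) (nat_lit 0) (XT.lf (nat_lit 0) (nat_lit 91656874995) (nat_lit 152) (nat_lit 41552703940) (nat_lit 0) (nat_lit 35915863341) (nat_lit 7) (nat_lit 5) (nat_lit 9) (nat_lit 4) (nat_lit 7) (nat_lit 4) (nat_lit 359) (nat_lit 276) (nat_lit 145)) (XT.lf (nat_lit 0) (nat_lit 106678316916) (nat_lit 152) (nat_lit 19299797645) (nat_lit 0) (nat_lit 50932849871) (nat_lit 7) (nat_lit 5) (nat_lit 9) (nat_lit 4) (nat_lit 7) (nat_lit 4) (nat_lit 360) (nat_lit 276) (nat_lit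 144))) (XT.nd (nat_lit 78) (nat_lit 0) (nat_lit 0) (XT.lf (nat_lit 0) (nat_lit 4196283067) (nat_lit 76) (nat_lit 118318009136) (nat_lit 76) (nat_lit 62568298863) (nat_lit 6) (nat_lit 4) (nat_lit 7) (nat_lit 5) (nat_lit 7) (nat_lit 4) (nat_lit 361) (nat_lit 276) (nat_lit 143)) (XT.lf (nat_lit 0) (nat_lit 29533495989) (nat_lit 76) (nat_lit 109933407008) (nat_lit 76) (nat_lit 54179655565) (nat_lit 6) (nat_lit 4) (nat_lit 7) (nat_lit 5) (nat_lit 7) (nat_lit 4) (nat_lit 362) (nat_lit 276) (nat_lit 142)))) (XT.nd (nat_lit 156) (nat_lit 0) (nat_lit 0) (XT.nd (nat_lit 78) (nat_lit 0) (nat_lit 0) (XT.lf (nat_lit 0) (nat_lit 56134029345) (nat_lit 76) (nat_lit 101131196250) (nat_lit 76) (nat_lit 45373596073) (nat_lit 6) (nat_lit 4) (nat_lit 7) (nat_lit 5) (nat_lit 7) (nat_lit 4) (nat_lit 363) (nat_lit 276) (nat_lit 141)) (XT.lf (nat_lit 0) (nat_lit 84061217740) (nat_lit 76) (nat_lit 91890419217)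 (nat_lit 76) (nat_lit 36129153580) (nat_lit 6) (nat_lit 4) (nat_lit 7) (nat_lit 5) (nat_lit 7) (nat_lit 4) (nat_lit 364) (nat_lit 276) (nat_lit 140))) (XT.nd (nat_lit 78) (nat_lit 0) (nat_lit 0) (XT.lf (nat_lit 0) (nat_lit 113381554478) (nat_lit 76) (nat_lit 82189074060) (nat_lit 76) (nat_lit 26424317508) (nat_lit 6) (nat_lit 4) (nat_lit 7) (nat_lit 5) (nat_lit 7) (nat_lit 4) (nat_lit 365) (nat_lit 276) (nat_lit 139)) (XT.nd (nat_lit 78) (nat_lit 0) (nat_lit 0) (XT.lf (nat_lit 0) (nat_lit 144164849886) (nat_lit 76) (nat_lit 72004062337) (nat_lit 76) (nat_lit 16235981104) (nat_lit 6) (nat_lit 4) (nat_lit 7) (nat_lit 5) (nat_lit 7) (nat_lit 4) (nat_lit 366) (nat_lit 276) (nat_lit 138)) (XT.lf (nat_lit 0) (nat_lit 176484397524) (nat_lit 76) (nat_lit 61311134021) (nat_lit 76) (nat_lit 5539886426) (nat_lit 6) (nat_lit 4) (nat_lit 7) (nat_lit 5) (nat_lit 7) (nat_lit 4) (nat_lit 367) (nat_lit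 276) (nat_lit 137)))))) (XT.nd (nat_lit 390) (nat_lit 0) (nat_lit 0) (XT.nd (nat_lit 156) (nat_lit 76) (nat_lit 0) (XT.nd (nat_lit 78) (nat_lit 0) (nat_lit 0) (XT.lf (nat_lit 0) (nat_lit 5507336018) (nat_lit 152) (nat_lit 44484224340) (nat_lit 76) (nat_lit 204816543277) (nat_lit 5) (nat_lit 5) (nat_lit 7) (nat_lit 5) (nat_lit 6) (nat_lit 4) (nat_lit 368) (nat_lit 276) (nat_lit 136)) (XT.lf (nat_lit 0) (nat_lit 16919286874) (nat_lit 152) (nat_lit 21092597070) (nat_lit 76) (nat_lit 228838072481) (nat_lit 5) (nat_lit 5) (nat_lit 7) (nat_lit 5) (nat_lit 6) (nat_lit 4) (nat_lit 369) (nat_lit 276) (nat_lit 135))) (XT.nd (nat_lit 78) (nat_lit 0) (nat_lit 0) (XT.lf (nat_lit 0) (nat_lit 3580652092) (nat_lit 76) (nat_lit 25375700335) (nat_lit 152) (nat_lit 250534824450) (nat_lit 4) (nat_lit 5) (nat_lit 5) (nat_lit 5) (nat_lit 6) (nat_lit 4) (nat_lit 370) (nat_lit 276) (nat_lit 134)) (XT.nd (nat_lit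 78) (nat_lit 0) (nat_lit 0) (XT.lf (nat_lit 0) (nat_lit 30217329692) (nat_lit 76) (nat_lit 11733794723) (nat_lit 152) (nat_lit 250795542118) (nat_lit 4) (nat_lit 5) (nat_lit 5) (nat_lit 5) (nat_lit 6) (nat_lit 4) (nat_lit 371) (nat_lit 276) (nat_lit 133)) (XT.lf (nat_lit 0) (nat_lit 55634762702) (nat_lit 152) (nat_lit 248521979480) (nat_lit 0) (nat_lit 2506232903) (nat_lit 4) (nat_lit 5) (nat_lit 6) (nat_lit 4) (nat_lit 4) (nat_lit 4) (nat_lit 372) (nat_lit 276) (nat_lit 132))))) (XT.nd (nat_lit 156) (nat_lit 0) (nat_lit 0) (XT.nd (nat_lit 78) (nat_lit 0) (nat_lit 0) (XT.lf (nat_lit 0) (nat_lit 70193690024) (nat_lit 152) (nat_lit 234008944495) (nat_lit 0) (nat_lit 17062909950) (nat_lit 4) (nat_lit 5) (nat_lit 6) (nat_lit 4) (nat_lit 4) (nat_lit 4) (nat_lit 373) (nat_lit 276) (nat_lit 131)) (XT.lf (nat_lit 0) (nat_lit 85479373074) (nat_lit 152) (nat_lit 218772479623) (nat_lit 0) (nat_lit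 32346449882) (nat_lit 4) (nat_lit 5) (nat_lit 6) (nat_lit 4) (nat_lit 4) (nat_lit 4) (nat_lit 374) (nat_lit 276) (nat_lit 130))) (XT.nd (nat_lit 78) (nat_lit 0) (nat_lit 0) (XT.lf (nat_lit 0) (nat_lit 101528206336) (nat_lit 152) (nat_lit 202776307565) (nat_lit 0) (nat_lit 48393242078) (nat_lit 4) (nat_lit 5) (nat_lit 6) (nat_lit 4) (nat_lit 4) (nat_lit 4) (nat_lit 375) (nat_lit 276) (nat_lit 129)) (XT.nd (nat_lit 78) (nat_lit 0) (nat_lit 0) (XT.lf (nat_lit 0) (nat_lit 118378401318) (nat_lit 152) (nat_lit 185982342199) (nat_lit 0) (nat_lit 65241493188) (nat_lit 4) (nat_lit 5) (nat_lit 6) (nat_lit 4) (nat_lit 4) (nat_lit 4) (nat_lit 376) (nat_lit 276) (nat_lit 128)) (XT.lf (nat_lit 0) (nat_lit 136070077532) (nat_lit 152) (nat_lit 168350597891) (nat_lit 0) (nat_lit 82931318095) (nat_lit 4) (nat_lit 5) (nat_lit 6) (nat_lit 4) (nat_lit 4) (nat_lit 4) (nat_lit 377) (nat_lit 276) (nat_lit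 127))))))) (XT.nd (nat_lit 33072) (nat_lit 0) (nat_lit 5472) (XT.nd (nat_lit 390) (nat_lit 0) (nat_lit 0) (XT.nd (nat_lit 156) (nat_lit 0) (nat_lit 0) (XT.nd (nat_lit 78) (nat_lit 0) (nat_lit 0) (XT.lf (nat_lit 0) (nat_lit 154645358015) (nat_lit 152) (nat_lit 149839094299) (nat_lit 0) (nat_lit 101504835430) (nat_lit 4) (nat_lit 5) (nat_lit 6) (nat_lit 4) (nat_lit 4) (nat_lit 4) (nat_lit 378) (nat_lit 276) (nat_lit 126)) (XT.lf (nat_lit 0) (nat_lit 174148469628) (nat_lit 152) (nat_lit 130403756414) (nat_lit 0) (nat_lit 121006267853) (nat_lit 4) (nat_lit 5) (nat_lit 6) (nat_lit 4) (nat_lit 4) (nat_lit 4) (nat_lit 379) (nat_lit 276) (nat_lit 125))) (XT.nd (nat_lit 78) (nat_lit 0) (nat_lit 0) (XT.lf (nat_lit 0) (nat_lit 194625848349) (nat_lit 152) (nat_lit 109998309622) (nat_lit 0) (nat_lit 141482047345) (nat_lit 4) (nat_lit 5) (nat_lit 6) (nat_lit 4) (nat_lit 4) (nat_lit 4) (nat_lit 380)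 (nat_lit 276) (nat_lit 124)) (XT.nd (nat_lit 78) (nat_lit 0) (nat_lit 0) (XT.lf (nat_lit 0) (nat_lit 216126249842) (nat_lit 152) (nat_lit 88574169526) (nat_lit 0) (nat_lit 162980925764) (nat_lit 4) (nat_lit 5) (nat_lit 6) (nat_lit 4) (nat_lit 4) (nat_lit 4) (nat_lit 381) (nat_lit 276) (nat_lit 123)) (XT.lf (nat_lit 0) (nat_lit 238700865539) (nat_lit 152) (nat_lit 66080326268) (nat_lit 0) (nat_lit 185554090914) (nat_lit 4) (nat_lit 5) (nat_lit 6) (nat_lit 4) (nat_lit 4) (nat_lit 4) (nat_lit 382) (nat_lit 276) (nat_lit 122))))) (XT.nd (nat_lit 32448) (nat_lit 0) (nat_lit 6536) (XT.nd (nat_lit 32370) (nat_lit 0) (nat_lit 6536) (XT.lf (nat_lit 0) (nat_lit 262403444526) (nat_lit 152) (nat_lit 42463223079) (nat_lit 0) (nat_lit 209255288427) (nat_lit 4) (nat_lit 5) (nat_lit 6) (nat_lit 4) (nat_lit 4) (nat_lit 4) (nat_lit 383) (nat_lit 276) (nat_lit 121)) (XT.lf (nat_lit 0) (nat_lit 3240218885)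 (nat_lit 684) (nat_lit 850234551) (nat_lit 684) (nat_lit 850234551) (nat_lit 90) (nat_lit 3) (nat_lit 99) (nat_lit 3) (nat_lit 99) (nat_lit 5) (nat_lit 277) (nat_lit 277) (nat_lit 226))) (XT.nd (nat_lit 78) (nat_lit 0) (nat_lit 0) (XT.lf (nat_lit 76) (nat_lit 2778236335) (nat_lit 0) (nat_lit 4570597342) (nat_lit 684) (nat_lit 2742358729) (nat_lit 91) (nat_lit 5) (nat_lit 90) (nat_lit 3) (nat_lit 99) (nat_lit 5) (nat_lit 278) (nat_lit 277) (nat_lit 225)) (XT.nd (nat_lit 78) (nat_lit 0) (nat_lit 76) (XT.lf (nat_lit 76) (nat_lit 7516832540) (nat_lit 0) (nat_lit 729813895) (nat_lit 684) (nat_lit 2065674908) (nat_lit 91) (nat_lit 5) (nat_lit 90) (nat_lit 3) (nat_lit 99) (nat_lit 5) (nat_lit 279) (nat_lit 277) (nat_lit 224)) (XT.lf (nat_lit 76) (nat_lit 1933745542) (nat_lit 0) (nat_lit 7296894870) (nat_lit 684) (nat_lit 1311917542) (nat_lit 92) (nat_lit 5) (nat_lit 91) (nat_lit 5) (nat_lit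 100) (nat_lit 5) (nat_lit 280) (nat_lit 277) (nat_lit 223)))))) (XT.nd (nat_lit 390) (nat_lit 532) (nat_lit 0) (XT.nd (nat_lit 156) (nat_lit 0) (nat_lit 0) (XT.nd (nat_lit 78) (nat_lit 608) (nat_lit 0) (XT.lf (nat_lit 76) (nat_lit 6960099937) (nat_lit 0) (nat_lit 3323930351) (nat_lit 684) (nat_lit 499376540) (nat_lit 92) (nat_lit 5) (nat_lit 91) (nat_lit 5) (nat_lit 100) (nat_lit 5) (nat_lit 281) (nat_lit 277) (nat_lit 222)) (XT.lf (nat_lit 0) (nat_lit 337438946) (nat_lit 684) (nat_lit 9840459247) (nat_lit 760) (nat_lit 858475213) (nat_lit 83) (nat_lit 5) (nat_lit 92) (nat_lit 5) (nat_lit 93) (nat_lit 5) (nat_lit 282) (nat_lit 277) (nat_lit 221))) (XT.nd (nat_lit 78) (nat_lit 0) (nat_lit 0) (XT.lf (nat_lit 0) (nat_lit 1283462164) (nat_lit 684) (nat_lit 4789612841) (nat_lit 760) (nat_lit 5224391749) (nat_lit 83) (nat_lit 5) (nat_lit 92) (nat_lit 5) (nat_lit 93) (nat_lit 5) (nat_lit 283)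 (nat_lit 277) (nat_lit 220)) (XT.nd (nat_lit 78) (nat_lit 0) (nat_lit 76) (XT.lf (nat_lit 76) (nat_lit 505226062) (nat_lit 0) (nat_lit 1745017619) (nat_lit 760) (nat_lit 9322788928) (nat_lit 84) (nat_lit 5) (nat_lit 83) (nat_lit 5) (nat_lit 93) (nat_lit 5) (nat_lit 284) (nat_lit 277) (nat_lit 219)) (XT.lf (nat_lit 0) (nat_lit 3358482724) (nat_lit 684) (nat_lit 5698471066) (nat_lit 760) (nat_lit 2800853424) (nat_lit 84) (nat_lit 5) (nat_lit 93) (nat_lit 5) (nat_lit 94) (nat_lit 5) (nat_lit 285) (nat_lit 277) (nat_lit 218))))) (XT.nd (nat_lit 156) (nat_lit 608) (nat_lit 0) (XT.nd (nat_lit 78) (nat_lit 0) (nat_lit 76) (XT.lf (nat_lit 0) (nat_lit 4519280706) (nat_lit 684) (nat_lit 114232409) (nat_lit 760) (nat_lit 7523532348) (nat_lit 84) (nat_lit 5) (nat_lit 93) (nat_lit 5) (nat_lit 94) (nat_lit 5) (nat_lit 286) (nat_lit 277) (nat_lit 217)) (XT.lf (nat_lit 0) (nat_lit 5802286642) (nat_lit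 684) (nat_lit 6555229553) (nat_lit 76) (nat_lit 110599374) (nat_lit 85) (nat_lit 5) (nat_lit 94) (nat_lit 5) (nat_lit 86) (nat_lit 5) (nat_lit 287) (nat_lit 277) (nat_lit 216))) (XT.nd (nat_lit 78) (nat_lit 684) (nat_lit 0) (XT.lf (nat_lit 0) (nat_lit 7198554383) (nat_lit 684) (nat_lit 650297849) (nat_lit 76) (nat_lit 4943505988) (nat_lit 85) (nat_lit 5) (nat_lit 94) (nat_lit 5) (nat_lit 86) (nat_lit 5) (nat_lit 288) (nat_lit 277) (nat_lit 215)) (XT.nd (nat_lit 78) (nat_lit 0) (nat_lit 0) (XT.lf (nat_lit 0) (nat_lit 5708796921) (nat_lit 684) (nat_lit 3017526988) (nat_lit 760) (nat_lit 4403475739) (nat_lit 76) (nat_lit 5) (nat_lit 85) (nat_lit 5) (nat_lit 86) (nat_lit 5) (nat_lit 289) (nat_lit 277) (nat_lit 214)) (XT.lf (nat_lit 0) (nat_lit 10347312948) (nat_lit 760) (nat_lit 1132267391) (nat_lit 76) (nat_lit 2003758936) (nat_lit 76) (nat_lit 5) (nat_lit 86) (nat_lit 5) (nat_lit 77)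 (nat_lit 5) (nat_lit 290) (nat_lit 277) (nat_lit 213))))))))
noncomputable def xc157 : XT := (XT.nd (nat_lit 1482) (nat_lit 1444) (nat_lit 0) (XT.nd (nat_lit 702) (nat_lit 1292) (nat_lit 0) (XT.nd (nat_lit 312) (nat_lit 836) (nat_lit 0) (XT.nd (nat_lit 156) (nat_lit 456) (nat_lit 0) (XT.nd (nat_lit 78) (nat_lit 0) (nat_lit 0) (XT.lf (nat_lit 0) (nat_lit 5576237522) (nat_lit 380) (nat_lit 6584449299) (nat_lit 456) (nat_lit 1688366749) (nat_lit 71) (nat_lit 5) (nat_lit 76) (nat_lit 5) (nat_lit 77) (nat_lit 5) (nat_lit 291) (nat_lit 277) (nat_lit 212)) (XT.lf (nat_lit 0) (nat_lit 12636185326) (nat_lit 380) (nat_lit 1423362601) (nat_lit 456) (nat_lit 173826113) (nat_lit 71) (nat_lit 5) (nat_lit 76) (nat_lit 5) (nat_lit 77) (nat_lit 5) (nat_lit 292) (nat_lit 277) (nat_lit 211))) (XT.nd (nat_lit 78) (nat_lit 0) (nat_lit 0) (XT.lf (nat_lit 0) (nat_lit 1498215026) (nat_lit 456) (nat_lit 9152345074)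 (nat_lit 76) (nat_lit 3978944958) (nat_lit 65) (nat_lit 5) (nat_lit 71) (nat_lit 5) (nat_lit 66) (nat_lit 5) (nat_lit 293) (nat_lit 277) (nat_lit 210)) (XT.lf (nat_lit 0) (nat_lit 3275984103) (nat_lit 456) (nat_lit 2133888392) (nat_lit 76) (nat_lit 9634082303) (nat_lit 65) (nat_lit 5) (nat_lit 71) (nat_lit 5) (nat_lit 66) (nat_lit 5) (nat_lit 294) (nat_lit 277) (nat_lit 209)))) (XT.nd (nat_lit 156) (nat_lit 532) (nat_lit 0) (XT.nd (nat_lit 78) (nat_lit 0) (nat_lit 0) (XT.lf (nat_lit 0) (nat_lit 5207761634) (nat_lit 380) (nat_lit 10093738951) (nat_lit 76) (nat_lit 174420942) (nat_lit 61) (nat_lit 5) (nat_lit 66) (nat_lit 5) (nat_lit 62) (nat_lit 5) (nat_lit 295) (nat_lit 277) (nat_lit 208)) (XT.lf (nat_lit 0) (nat_lit 7340443092) (nat_lit 380) (nat_lit 2692246461) (nat_lit 76) (nat_lit 5891629387) (nat_lit 61) (nat_lit 5) (nat_lit 66) (nat_lit 5) (nat_lit 62) (nat_lit 5) (nat_lit 296)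 (nat_lit 277) (nat_lit 207))) (XT.nd (nat_lit 78) (nat_lit 228) (nat_lit 0) (XT.lf (nat_lit 0) (nat_lit 5224215013) (nat_lit 304) (nat_lit 4417010863) (nat_lit 380) (nat_lit 6750882791) (nat_lit 57) (nat_lit 5) (nat_lit 61) (nat_lit 5) (nat_lit 62) (nat_lit 5) (nat_lit 297) (nat_lit 277) (nat_lit 206)) (XT.nd (nat_lit 78) (nat_lit 228) (nat_lit 0) (XT.lf (nat_lit 0) (nat_lit 12106966456) (nat_lit 380) (nat_lit 3297818187) (nat_lit 76) (nat_lit 1476050932) (nat_lit 57) (nat_lit 5) (nat_lit 62) (nat_lit 5) (nat_lit 58) (nat_lit 5) (nat_lit 298) (nat_lit 277) (nat_lit 205)) (XT.lf (nat_lit 0) (nat_lit 5032584728) (nat_lit 228) (nat_lit 9795800022) (nat_lit 304) (nat_lit 2559036092) (nat_lit 54) (nat_lit 5) (nat_lit 57) (nat_lit 5) (nat_lit 58) (nat_lit 5) (nat_lit 299) (nat_lit 277) (nat_lit 204)))))) (XT.nd (nat_lit 390) (nat_lit 684) (nat_lit 0) (XT.nd (nat_lit 156) (nat_lit 228) (nat_lit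 0) (XT.nd (nat_lit 78) (nat_lit 380) (nat_lit 0) (XT.lf (nat_lit 0) (nat_lit 13872512407) (nat_lit 228) (nat_lit 3851169469) (nat_lit 304) (nat_lit 193802672) (nat_lit 54) (nat_lit 5) (nat_lit 57) (nat_lit 5) (nat_lit 58) (nat_lit 5) (nat_lit 300) (nat_lit 277) (nat_lit 203)) (XT.lf (nat_lit 0) (nat_lit 2312558316) (nat_lit 380) (nat_lit 13732091709) (nat_lit 76) (nat_lit 2422842364) (nat_lit 49) (nat_lit 5) (nat_lit 54) (nat_lit 5) (nat_lit 50) (nat_lit 5) (nat_lit 301) (nat_lit 277) (nat_lit 202))) (XT.nd (nat_lit 78) (nat_lit 228) (nat_lit 0) (XT.lf (nat_lit 0) (nat_lit 5053434639) (nat_lit 380) (nat_lit 5035349785) (nat_lit 76) (nat_lit 8950306008) (nat_lit 49) (nat_lit 5) (nat_lit 54) (nat_lit 5) (nat_lit 50) (nat_lit 5) (nat_lit 302) (nat_lit 277) (nat_lit 201)) (XT.nd (nat_lit 78) (nat_lit 0) (nat_lit 0) (XT.lf (nat_lit 0) (nat_lit 4210452132) (nat_lit 228) (nat_lit 3770401345)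 (nat_lit 304) (nat_lit 11655972520) (nat_lit 46) (nat_lit 5) (nat_lit 49) (nat_lit 5) (nat_lit 50) (nat_lit 5) (nat_lit 303) (nat_lit 277) (nat_lit 200)) (XT.lf (nat_lit 0) (nat_lit 11170181238) (nat_lit 304) (nat_lit 6233893439) (nat_lit 76) (nat_lit 2854627770) (nat_lit 46) (nat_lit 5) (nat_lit 50) (nat_lit 5) (nat_lit 47) (nat_lit 5) (nat_lit 304) (nat_lit 277) (nat_lit 199))))) (XT.nd (nat_lit 156) (nat_lit 456) (nat_lit 0) (XT.nd (nat_lit 78) (nat_lit 0) (nat_lit 0) (XT.lf (nat_lit 0) (nat_lit 3446759421) (nat_lit 228) (nat_lit 11172744546) (nat_lit 304) (nat_lit 6287171851) (nat_lit 43) (nat_lit 5) (nat_lit 46) (nat_lit 5) (nat_lit 47) (nat_lit 5) (nat_lit 305) (nat_lit 277) (nat_lit 198)) (XT.lf (nat_lit 0) (nat_lit 13808234000) (nat_lit 228) (nat_lit 4523950187) (nat_lit 304) (nat_lit 3250347224) (nat_lit 43) (nat_lit 5) (nat_lit 46) (nat_lit 5) (nat_lit 47) (nat_lit 5) (nat_lit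 306) (nat_lit 277) (nat_lit 197))) (XT.nd (nat_lit 78) (nat_lit 228) (nat_lit 0) (XT.lf (nat_lit 0) (nat_lit 3299269) (nat_lit 228) (nat_lit 19873975386) (nat_lit 76) (nat_lit 2411828466) (nat_lit 40) (nat_lit 5) (nat_lit 43) (nat_lit 5) (nat_lit 41) (nat_lit 5) (nat_lit 307) (nat_lit 277) (nat_lit 196)) (XT.nd (nat_lit 78) (nat_lit 228) (nat_lit 0) (XT.lf (nat_lit 0) (nat_lit 3504443992) (nat_lit 228) (nat_lit 9789623658) (nat_lit 76) (nat_lit 9724593395) (nat_lit 40) (nat_lit 5) (nat_lit 43) (nat_lit 5) (nat_lit 41) (nat_lit 5) (nat_lit 308) (nat_lit 277) (nat_lit 195)) (XT.lf (nat_lit 0) (nat_lit 806149742) (nat_lit 228) (nat_lit 6373811888) (nat_lit 304) (nat_lit 16604792590) (nat_lit 37) (nat_lit 5) (nat_lit 40) (nat_lit 5) (nat_lit 41) (nat_lit 5) (nat_lit 309) (nat_lit 277) (nat_lit 194))))))) (XT.nd (nat_lit 780) (nat_lit 684) (nat_lit 0) (XT.nd (nat_lit 390) (nat_lit 304) (nat_lit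 0) (XT.nd (nat_lit 156) (nat_lit 456) (nat_lit 0) (XT.nd (nat_lit 78) (nat_lit 0) (nat_lit 0) (XT.lf (nat_lit 0) (nat_lit 11208690593) (nat_lit 304) (nat_lit 12344810793) (nat_lit 76) (nat_lit 1027200926) (nat_lit 37) (nat_lit 5) (nat_lit 41) (nat_lit 5) (nat_lit 38) (nat_lit 5) (nat_lit 310) (nat_lit 277) (nat_lit 193)) (XT.lf (nat_lit 0) (nat_lit 15530955943) (nat_lit 304) (nat_lit 1301799126) (nat_lit 76) (nat_lit 8579108731) (nat_lit 37) (nat_lit 5) (nat_lit 41) (nat_lit 5) (nat_lit 38) (nat_lit 5) (nat_lit 311) (nat_lit 277) (nat_lit 192))) (XT.nd (nat_lit 78) (nat_lit 304) (nat_lit 0) (XT.lf (nat_lit 0) (nat_lit 10616015261) (nat_lit 152) (nat_lit 9607266210) (nat_lit 228) (nat_lit 6053624530) (nat_lit 35) (nat_lit 5) (nat_lit 37) (nat_lit 5) (nat_lit 38) (nat_lit 5) (nat_lit 312) (nat_lit 277) (nat_lit 191)) (XT.nd (nat_lit 78) (nat_lit 304) (nat_lit 0) (XT.lf (nat_lit 0) (nat_lit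 23158065480) (nat_lit 152) (nat_lit 2002704321) (nat_lit 228) (nat_lit 2023922219) (nat_lit 35) (nat_lit 5) (nat_lit 37) (nat_lit 5) (nat_lit 38) (nat_lit 5) (nat_lit 313) (nat_lit 277) (nat_lit 190)) (XT.lf (nat_lit 0) (nat_lit 2352766252) (nat_lit 304) (nat_lit 19818637758) (nat_lit 76) (nat_lit 5953950150) (nat_lit 31) (nat_lit 5) (nat_lit 35) (nat_lit 5) (nat_lit 32) (nat_lit 5) (nat_lit 314) (nat_lit 277) (nat_lit 189))))) (XT.nd (nat_lit 156) (nat_lit 152) (nat_lit 0) (XT.nd (nat_lit 78) (nat_lit 152) (nat_lit 0) (XT.lf (nat_lit 0) (nat_lit 6971460323) (nat_lit 304) (nat_lit 7796892225) (nat_lit 76) (nat_lit 14338494935) (nat_lit 31) (nat_lit 5) (nat_lit 35) (nat_lit 5) (nat_lit 32) (nat_lit 5) (nat_lit 315) (nat_lit 277) (nat_lit 188)) (XT.lf (nat_lit 0) (nat_lit 4969130310) (nat_lit 152) (nat_lit 6919108676) (nat_lit 228) (nat_lit 18245834653) (nat_lit 29) (nat_lit 5) (nat_lit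 31) (nat_lit 5) (nat_lit 32) (nat_lit 5) (nat_lit 316) (nat_lit 277) (nat_lit 187))) (XT.nd (nat_lit 78) (nat_lit 152) (nat_lit 0) (XT.lf (nat_lit 0) (nat_lit 17195451315) (nat_lit 228) (nat_lit 12600765572) (nat_lit 76) (nat_lit 1409229393) (nat_lit 29) (nat_lit 5) (nat_lit 32) (nat_lit 5) (nat_lit 30) (nat_lit 5) (nat_lit 317) (nat_lit 277) (nat_lit 186)) (XT.nd (nat_lit 78) (nat_lit 0) (nat_lit 0) (XT.lf (nat_lit 0) (nat_lit 478225915) (nat_lit 152) (nat_lit 22400918020) (nat_lit 228) (nat_lit 9445701837) (nat_lit 27) (nat_lit 5) (nat_lit 29) (nat_lit 5) (nat_lit 30) (nat_lit 5) (nat_lit 318) (nat_lit 277) (nat_lit 185)) (XT.lf (nat_lit 0) (nat_lit 14633610086) (nat_lit 152) (nat_lit 14417267233) (nat_lit 228) (nat_lit 4439158640) (nat_lit 27) (nat_lit 5) (nat_lit 29) (nat_lit 5) (nat_lit 30) (nat_lit 5) (nat_lit 319) (nat_lit 277) (nat_lit 184)))))) (XT.nd (nat_lit 390) (nat_lit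 304) (nat_lit 0) (XT.nd (nat_lit 156) (nat_lit 152) (nat_lit 0) (XT.nd (nat_lit 78) (nat_lit 152) (nat_lit 0) (XT.lf (nat_lit 0) (nat_lit 782288900) (nat_lit 228) (nat_lit 5244118555) (nat_lit 76) (nat_lit 28686914679) (nat_lit 26) (nat_lit 5) (nat_lit 29) (nat_lit 5) (nat_lit 27) (nat_lit 5) (nat_lit 320) (nat_lit 277) (nat_lit 183)) (XT.lf (nat_lit 0) (nat_lit 6298312198) (nat_lit 228) (nat_lit 26775881808) (nat_lit 76) (nat_lit 2910817231) (nat_lit 24) (nat_lit 5) (nat_lit 27) (nat_lit 5) (nat_lit 25) (nat_lit 5) (nat_lit 321) (nat_lit 277) (nat_lit 182))) (XT.nd (nat_lit 78) (nat_lit 152) (nat_lit 0) (XT.lf (nat_lit 0) (nat_lit 12270513268) (nat_lit 228) (nat_lit 12863059854) (nat_lit 76) (nat_lit 12177703971) (nat_lit 24) (nat_lit 5) (nat_lit 27) (nat_lit 5) (nat_lit 25) (nat_lit 5) (nat_lit 322) (nat_lit 277) (nat_lit 181)) (XT.nd (nat_lit 78) (nat_lit 0) (nat_lit 0) (XT.lf (nat_lit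 0) (nat_lit 1789271126) (nat_lit 152) (nat_lit 16771717781) (nat_lit 228) (nat_lit 20141894708) (nat_lit 22) (nat_lit 5) (nat_lit 24) (nat_lit 5) (nat_lit 25) (nat_lit 5) (nat_lit 323) (nat_lit 277) (nat_lit 180)) (XT.lf (nat_lit 0) (nat_lit 17607611255) (nat_lit 152) (nat_lit 7768136219) (nat_lit 228) (nat_lit 14777845128) (nat_lit 22) (nat_lit 5) (nat_lit 24) (nat_lit 5) (nat_lit 25) (nat_lit 5) (nat_lit 324) (nat_lit 277) (nat_lit 179))))) (XT.nd (nat_lit 156) (nat_lit 228) (nat_lit 0) (XT.nd (nat_lit 78) (nat_lit 76) (nat_lit 0) (XT.lf (nat_lit 0) (nat_lit 32549787350) (nat_lit 228) (nat_lit 7499160634) (nat_lit 76) (nat_lit 1626971496) (nat_lit 22) (nat_lit 5) (nat_lit 25) (nat_lit 5) (nat_lit 23) (nat_lit 4) (nat_lit 325) (nat_lit 277) (nat_lit 178)) (XT.lf (nat_lit 0) (nat_lit 8430212478) (nat_lit 76) (nat_lit 31903878728) (nat_lit 152) (nat_lit 2927702554) (nat_lit 21) (nat_lit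 5) (nat_lit 22) (nat_lit 5) (nat_lit 23) (nat_lit 4) (nat_lit 326) (nat_lit 277) (nat_lit 177))) (XT.nd (nat_lit 78) (nat_lit 152) (nat_lit 0) (XT.lf (nat_lit 0) (nat_lit 3587762636) (nat_lit 152) (nat_lit 19574505145) (nat_lit 76) (nat_lit 21755821218) (nat_lit 20) (nat_lit 5) (nat_lit 22) (nat_lit 5) (nat_lit 21) (nat_lit 5) (nat_lit 327) (nat_lit 277) (nat_lit 176)) (XT.nd (nat_lit 78) (nat_lit 152) (nat_lit 0) (XT.lf (nat_lit 0) (nat_lit 10323595212) (nat_lit 152) (nat_lit 3614299560) (nat_lit 76) (nat_lit 32717263172) (nat_lit 20) (nat_lit 5) (nat_lit 22) (nat_lit 5) (nat_lit 21) (nat_lit 5) (nat_lit 328) (nat_lit 277) (nat_lit 175)) (XT.lf (nat_lit 0) (nat_lit 13566973478) (nat_lit 152) (nat_lit 4034382634) (nat_lit 228) (nat_lit 30867474923) (nat_lit 18) (nat_lit 5) (nat_lit 20) (nat_lit 5) (nat_lit 21) (nat_lit 5) (nat_lit 329) (nat_lit 277) (nat_lit 174))))))))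
noncomputable def xc158 : XT := (XT.nd (nat_lit 1482) (nat_lit 304) (nat_lit 0) (XT.nd (nat_lit 702) (nat_lit 228) (nat_lit 0) (XT.nd (nat_lit 312) (nat_lit 304) (nat_lit 0) (XT.nd (nat_lit 156) (nat_lit 76) (nat_lit 0) (XT.nd (nat_lit 78) (nat_lit 0) (nat_lit 0) (XT.lf (nat_lit 0) (nat_lit 25397978296) (nat_lit 228) (nat_lit 18748959779) (nat_lit 76) (nat_lit 6218508217) (nat_lit 18) (nat_lit 5) (nat_lit 21) (nat_lit 5) (nat_lit 19) (nat_lit 4) (nat_lit 330) (nat_lit 277) (nat_lit 173)) (XT.lf (nat_lit 0) (nat_lit 33644278767) (nat_lit 228) (nat_lit 1865273488) (nat_lit 76) (nat_lit 16844354532) (nat_lit 18) (nat_lit 5) (nat_lit 21) (nat_lit 5) (nat_lit 19) (nat_lit 4) (nat_lit 331) (nat_lit 277) (nat_lit 172))) (XT.nd (nat_lit 78) (nat_lit 0) (nat_lit 0) (XT.lf (nat_lit 0) (nat_lit 16376540147) (nat_lit 76) (nat_lit 26176047094) (nat_lit 152) (nat_lit 11876724922) (nat_lit 17) (nat_lit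 5) (nat_lit 18) (nat_lit 5) (nat_lit 19) (nat_lit 4) (nat_lit 332) (nat_lit 277) (nat_lit 171)) (XT.lf (nat_lit 0) (nat_lit 35585158673) (nat_lit 76) (nat_lit 16346879526) (nat_lit 152) (nat_lit 4675169452) (nat_lit 17) (nat_lit 5) (nat_lit 18) (nat_lit 5) (nat_lit 19) (nat_lit 4) (nat_lit 333) (nat_lit 277) (nat_lit 170)))) (XT.nd (nat_lit 156) (nat_lit 76) (nat_lit 0) (XT.nd (nat_lit 78) (nat_lit 152) (nat_lit 0) (XT.lf (nat_lit 0) (nat_lit 2788398590) (nat_lit 152) (nat_lit 3194614612) (nat_lit 76) (nat_lit 52909021060) (nat_lit 16) (nat_lit 5) (nat_lit 18) (nat_lit 5) (nat_lit 17) (nat_lit 5) (nat_lit 334) (nat_lit 277) (nat_lit 169)) (XT.lf (nat_lit 0) (nat_lit 10793388618) (nat_lit 228) (nat_lit 45408147934) (nat_lit 76) (nat_lit 5069470903) (nat_lit 14) (nat_lit 5) (nat_lit 17) (nat_lit 5) (nat_lit 15) (nat_lit 4) (nat_lit 335) (nat_lit 277) (nat_lit 168))) (XT.nd (nat_lit 78)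 (nat_lit 76) (nat_lit 0) (XT.lf (nat_lit 0) (nat_lit 19346344499) (nat_lit 228) (nat_lit 27890430286) (nat_lit 76) (nat_lit 16524773802) (nat_lit 14) (nat_lit 5) (nat_lit 17) (nat_lit 5) (nat_lit 15) (nat_lit 4) (nat_lit 336) (nat_lit 277) (nat_lit 167)) (XT.nd (nat_lit 78) (nat_lit 76) (nat_lit 0) (XT.lf (nat_lit 0) (nat_lit 28321848080) (nat_lit 228) (nat_lit 9505735478) (nat_lit 76) (nat_lit 28549293079) (nat_lit 14) (nat_lit 5) (nat_lit 17) (nat_lit 5) (nat_lit 15) (nat_lit 4) (nat_lit 337) (nat_lit 277) (nat_lit 166)) (XT.lf (nat_lit 0) (nat_lit 10113401584) (nat_lit 76) (nat_lit 27785766565) (nat_lit 152) (nat_lit 31216155499) (nat_lit 13) (nat_lit 5) (nat_lit 14) (nat_lit 5) (nat_lit 15) (nat_lit 4) (nat_lit 338) (nat_lit 277) (nat_lit 165)))))) (XT.nd (nat_lit 390) (nat_lit 76) (nat_lit 0) (XT.nd (nat_lit 156) (nat_lit 152) (nat_lit 0) (XT.nd (nat_lit 78) (nat_lit 0) (nat_lit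 0) (XT.lf (nat_lit 0) (nat_lit 31035165522) (nat_lit 76) (nat_lit 17076416663) (nat_lit 152) (nat_lit 23871303830) (nat_lit 13) (nat_lit 5) (nat_lit 14) (nat_lit 5) (nat_lit 15) (nat_lit 4) (nat_lit 339) (nat_lit 277) (nat_lit 164)) (XT.lf (nat_lit 0) (nat_lit 52995067513) (nat_lit 76) (nat_lit 5835019633) (nat_lit 152) (nat_lit 16163970038) (nat_lit 13) (nat_lit 5) (nat_lit 14) (nat_lit 5) (nat_lit 15) (nat_lit 4) (nat_lit 340) (nat_lit 277) (nat_lit 163))) (XT.nd (nat_lit 78) (nat_lit 152) (nat_lit 0) (XT.lf (nat_lit 0) (nat_lit 70173336611) (nat_lit 152) (nat_lit 2203746900) (nat_lit 0) (nat_lit 5774266432) (nat_lit 13) (nat_lit 5) (nat_lit 15) (nat_lit 4) (nat_lit 13) (nat_lit 4) (nat_lit 341) (nat_lit 277) (nat_lit 162)) (XT.nd (nat_lit 78) (nat_lit 0) (nat_lit 0) (XT.lf (nat_lit 0) (nat_lit 993402721) (nat_lit 152) (nat_lit 62373853147) (nat_lit 76) (nat_lit 18078977397) (nat_lit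 11) (nat_lit 5) (nat_lit 13) (nat_lit 5) (nat_lit 12) (nat_lit 4) (nat_lit 342) (nat_lit 277) (nat_lit 161)) (XT.lf (nat_lit 0) (nat_lit 10179066737) (nat_lit 152) (nat_lit 43553964343) (nat_lit 76) (nat_lit 31164604234) (nat_lit 11) (nat_lit 5) (nat_lit 13) (nat_lit 5) (nat_lit 12) (nat_lit 4) (nat_lit 343) (nat_lit 277) (nat_lit 160))))) (XT.nd (nat_lit 156) (nat_lit 76) (nat_lit 0) (XT.nd (nat_lit 78) (nat_lit 0) (nat_lit 0) (XT.lf (nat_lit 0) (nat_lit 19820068593) (nat_lit 152) (nat_lit 23800122373) (nat_lit 76) (nat_lit 44901617052) (nat_lit 11) (nat_lit 5) (nat_lit 13) (nat_lit 5) (nat_lit 12) (nat_lit 4) (nat_lit 344) (nat_lit 277) (nat_lit 159)) (XT.lf (nat_lit 0) (nat_lit 29939363057) (nat_lit 152) (nat_lit 3065294280) (nat_lit 76) (nat_lit 59322723026) (nat_lit 11) (nat_lit 5) (nat_lit 13) (nat_lit 5) (nat_lit 12) (nat_lit 4) (nat_lit 345) (nat_lit 277) (nat_lit 158))) (XT.nd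 (nat_lit 78) (nat_lit 0) (nat_lit 0) (XT.lf (nat_lit 0) (nat_lit 19318191341) (nat_lit 76) (nat_lit 21544463451) (nat_lit 152) (nat_lit 55445677885) (nat_lit 10) (nat_lit 5) (nat_lit 11) (nat_lit 5) (nat_lit 12) (nat_lit 4) (nat_lit 346) (nat_lit 277) (nat_lit 157)) (XT.nd (nat_lit 78) (nat_lit 0) (nat_lit 0) (XT.lf (nat_lit 0) (nat_lit 42920987707) (nat_lit 76) (nat_lit 9459529395) (nat_lit 152) (nat_lit 48105398047) (nat_lit 10) (nat_lit 5) (nat_lit 11) (nat_lit 5) (nat_lit 12) (nat_lit 4) (nat_lit 347) (nat_lit 277) (nat_lit 156)) (XT.lf (nat_lit 0) (nat_lit 64521315847) (nat_lit 152) (nat_lit 37224989543) (nat_lit 0) (nat_lit 3123721889) (nat_lit 10) (nat_lit 5) (nat_lit 12) (nat_lit 4) (nat_lit 10) (nat_lit 4) (nat_lit 348) (nat_lit 277) (nat_lit 155))))))) (XT.nd (nat_lit 780) (nat_lit 76) (nat_lit 0) (XT.nd (nat_lit 390) (nat_lit 76) (nat_lit 0) (XT.nd (nat_lit 156) (nat_lit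 76) (nat_lit 0) (XT.nd (nat_lit 78) (nat_lit 76) (nat_lit 0) (XT.lf (nat_lit 0) (nat_lit 77421009173) (nat_lit 152) (nat_lit 16028950700) (nat_lit 0) (nat_lit 16015794987) (nat_lit 10) (nat_lit 5) (nat_lit 12) (nat_lit 4) (nat_lit 10) (nat_lit 4) (nat_lit 349) (nat_lit 277) (nat_lit 154)) (XT.lf (nat_lit 0) (nat_lit 6427051392) (nat_lit 76) (nat_lit 84635913765) (nat_lit 76) (nat_lit 23223442217) (nat_lit 9) (nat_lit 4) (nat_lit 10) (nat_lit 5) (nat_lit 10) (nat_lit 4) (nat_lit 350) (nat_lit 277) (nat_lit 153))) (XT.nd (nat_lit 78) (nat_lit 76) (nat_lit 0) (XT.lf (nat_lit 0) (nat_lit 30556887517) (nat_lit 76) (nat_lit 75098584011) (nat_lit 76) (nat_lit 13679200691) (nat_lit 9) (nat_lit 4) (nat_lit 10) (nat_lit 5) (nat_lit 10) (nat_lit 4) (nat_lit 351) (nat_lit 277) (nat_lit 152)) (XT.nd (nat_lit 78) (nat_lit 76) (nat_lit 0) (XT.lf (nat_lit 0) (nat_lit 55888020164) (nat_lit 76) (nat_lit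 65086720721) (nat_lit 76) (nat_lit 3660754760) (nat_lit 9) (nat_lit 4) (nat_lit 10) (nat_lit 5) (nat_lit 10) (nat_lit 4) (nat_lit 352) (nat_lit 277) (nat_lit 151)) (XT.lf (nat_lit 0) (nat_lit 6636322232) (nat_lit 152) (nat_lit 47827774564) (nat_lit 76) (nat_lit 75732049995) (nat_lit 8) (nat_lit 5) (nat_lit 10) (nat_lit 5) (nat_lit 9) (nat_lit 4) (nat_lit 353) (nat_lit 277) (nat_lit 150))))) (XT.nd (nat_lit 156) (nat_lit 76) (nat_lit 0) (XT.nd (nat_lit 78) (nat_lit 0) (nat_lit 0) (XT.lf (nat_lit 0) (nat_lit 17322586978) (nat_lit 152) (nat_lit 25926902485) (nat_lit 76) (nat_lit 92782474372) (nat_lit 8) (nat_lit 5) (nat_lit 10) (nat_lit 5) (nat_lit 9) (nat_lit 4) (nat_lit 354) (nat_lit 277) (nat_lit 149)) (XT.lf (nat_lit 0) (nat_lit 28540649977) (nat_lit 152) (nat_lit 2935559670) (nat_lit 76) (nat_lit 110683489663) (nat_lit 8) (nat_lit 5) (nat_lit 10) (nat_lit 5) (nat_lit 9) (nat_lit 4)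 (nat_lit 355) (nat_lit 277) (nat_lit 148))) (XT.nd (nat_lit 78) (nat_lit 0) (nat_lit 0) (XT.lf (nat_lit 0) (nat_lit 21901995820) (nat_lit 76) (nat_lit 18757176617) (nat_lit 152) (nat_lit 107917673047) (nat_lit 7) (nat_lit 5) (nat_lit 8) (nat_lit 5) (nat_lit 9) (nat_lit 4) (nat_lit 356) (nat_lit 277) (nat_lit 147)) (XT.nd (nat_lit 78) (nat_lit 0) (nat_lit 0) (XT.lf (nat_lit 0) (nat_lit 48079060221) (nat_lit 76) (nat_lit 5351927861) (nat_lit 152) (nat_lit 101881494193) (nat_lit 7) (nat_lit 5) (nat_lit 8) (nat_lit 5) (nat_lit 9) (nat_lit 4) (nat_lit 357) (nat_lit 277) (nat_lit 146)) (XT.lf (nat_lit 0) (nat_lit 66975329044) (nat_lit 152) (nat_lit 86960288069) (nat_lit 0) (nat_lit 8442588647) (nat_lit 7) (nat_lit 5) (nat_lit 9) (nat_lit 4) (nat_lit 7) (nat_lit 4) (nat_lit 358) (nat_lit 277) (nat_lit 145)))))) (XT.nd (nat_lit 390) (nat_lit 0) (nat_lit 0) (XT.nd (nat_lit 156) (nat_lit 76)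 (nat_lit 0) (XT.nd (nat_lit 78) (nat_lit 0) (nat_lit 0) (XT.lf (nat_lit 0) (nat_lit 81282466385) (nat_lit 152) (nat_lit 65765200974) (nat_lit 0) (nat_lit 22745270598) (nat_lit 7) (nat_lit 5) (nat_lit 9) (nat_lit 4) (nat_lit 7) (nat_lit 4) (nat_lit 359) (nat_lit 277) (nat_lit 144)) (XT.lf (nat_lit 0) (nat_lit 96302906126) (nat_lit 152) (nat_lit 43514137685) (nat_lit 0) (nat_lit 37761467111) (nat_lit 7) (nat_lit 5) (nat_lit 9) (nat_lit 4) (nat_lit 7) (nat_lit 4) (nat_lit 360) (nat_lit 277) (nat_lit 143))) (XT.nd (nat_lit 78) (nat_lit 76) (nat_lit 0) (XT.lf (nat_lit 0) (nat_lit 112072411220) (nat_lit 152) (nat_lit 20154119478) (nat_lit 0) (nat_lit 53526931034) (nat_lit 7) (nat_lit 5) (nat_lit 9) (nat_lit 4) (nat_lit 7) (nat_lit 4) (nat_lit 361) (nat_lit 277) (nat_lit 142)) (XT.nd (nat_lit 78) (nat_lit 0) (nat_lit 0) (XT.lf (nat_lit 0) (nat_lit 4514980301) (nat_lit 76) (nat_lit 124184039300)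 (nat_lit 76) (nat_lit 65634710380) (nat_lit 6) (nat_lit 4) (nat_lit 7) (nat_lit 5) (nat_lit 7) (nat_lit 4) (nat_lit 362) (nat_lit 277) (nat_lit 141)) (XT.lf (nat_lit 0) (nat_lit 31113868961) (nat_lit 76) (nat_lit 115382581841) (nat_lit 76) (nat_lit 56829587461) (nat_lit 6) (nat_lit 4) (nat_lit 7) (nat_lit 5) (nat_lit 7) (nat_lit 4) (nat_lit 363) (nat_lit 277) (nat_lit 140))))) (XT.nd (nat_lit 156) (nat_lit 0) (nat_lit 0) (XT.nd (nat_lit 78) (nat_lit 0) (nat_lit 0) (XT.lf (nat_lit 0) (nat_lit 59039490977) (nat_lit 76) (nat_lit 106142522236) (nat_lit 76) (nat_lit 47586036941) (nat_lit 6) (nat_lit 4) (nat_lit 7) (nat_lit 5) (nat_lit 7) (nat_lit 4) (nat_lit 364) (nat_lit 277) (nat_lit 139)) (XT.lf (nat_lit 0) (nat_lit 88358335926) (nat_lit 76) (nat_lit 96441860343) (nat_lit 76) (nat_lit 37882050368) (nat_lit 6) (nat_lit 4) (nat_lit 7) (nat_lit 5) (nat_lit 7) (nat_lit 4) (nat_lit 365) (nat_lit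 277) (nat_lit 138))) (XT.nd (nat_lit 78) (nat_lit 0) (nat_lit 0) (XT.lf (nat_lit 0) (nat_lit 119140210583) (nat_lit 76) (nat_lit 86257499349) (nat_lit 76) (nat_lit 27694523011) (nat_lit 6) (nat_lit 4) (nat_lit 7) (nat_lit 5) (nat_lit 7) (nat_lit 4) (nat_lit 366) (nat_lit 277) (nat_lit 137)) (XT.nd (nat_lit 78) (nat_lit 0) (nat_lit 0) (XT.lf (nat_lit 0) (nat_lit 151458405124) (nat_lit 76) (nat_lit 75565190774) (nat_lit 76) (nat_lit 16999198853) (nat_lit 6) (nat_lit 4) (nat_lit 7) (nat_lit 5) (nat_lit 7) (nat_lit 4) (nat_lit 367) (nat_lit 277) (nat_lit 136)) (XT.lf (nat_lit 0) (nat_lit 185389867632) (nat_lit 76) (nat_lit 64339476742) (nat_lit 76) (nat_lit 5770612836) (nat_lit 6) (nat_lit 4) (nat_lit 7) (nat_lit 5) (nat_lit 7) (nat_lit 4) (nat_lit 368) (nat_lit 277) (nat_lit 135))))))))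
noncomputable def xc159 : XT := (XT.nd (nat_lit 33930) (nat_lit 0) (nat_lit 3420) (XT.nd (nat_lit 780) (nat_lit 0) (nat_lit 0) (XT.nd (nat_lit 390) (nat_lit 0) (nat_lit 0) (XT.nd (nat_lit 156) (nat_lit 76) (nat_lit 0) (XT.nd (nat_lit 78) (nat_lit 0) (nat_lit 0) (XT.lf (nat_lit 0) (nat_lit 5825357151) (nat_lit 152) (nat_lit 46629616966) (nat_lit 76) (nat_lit 215091374909) (nat_lit 5) (nat_lit 5) (nat_lit 7) (nat_lit 5) (nat_lit 6) (nat_lit 4) (nat_lit 369) (nat_lit 277) (nat_lit 134)) (XT.lf (nat_lit 0) (nat_lit 17805874391) (nat_lit 152) (nat_lit 22072161599) (nat_lit 76) (nat_lit 240312361314) (nat_lit 5) (nat_lit 5) (nat_lit 7) (nat_lit 5) (nat_lit 6) (nat_lit 4) (nat_lit 370) (nat_lit 277) (nat_lit 133))) (XT.nd (nat_lit 78) (nat_lit 0) (nat_lit 0) (XT.lf (nat_lit 0) (nat_lit 3833539291) (nat_lit 76) (nat_lit 26610472573) (nat_lit 152) (nat_lit 263019707212) (nat_lit 4) (nat_lit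 5) (nat_lit 5) (nat_lit 5) (nat_lit 6) (nat_lit 4) (nat_lit 371) (nat_lit 277) (nat_lit 132)) (XT.nd (nat_lit 78) (nat_lit 0) (nat_lit 0) (XT.lf (nat_lit 0) (nat_lit 31798533885) (nat_lit 76) (nat_lit 12288091336) (nat_lit 152) (nat_lit 263295454023) (nat_lit 4) (nat_lit 5) (nat_lit 5) (nat_lit 5) (nat_lit 6) (nat_lit 4) (nat_lit 372) (nat_lit 277) (nat_lit 131)) (XT.lf (nat_lit 0) (nat_lit 58453120201) (nat_lit 152) (nat_lit 260879742667) (nat_lit 0) (nat_lit 2661407731) (nat_lit 4) (nat_lit 5) (nat_lit 6) (nat_lit 4) (nat_lit 4) (nat_lit 4) (nat_lit 373) (nat_lit 277) (nat_lit 130))))) (XT.nd (nat_lit 156) (nat_lit 0) (nat_lit 0) (XT.nd (nat_lit 78) (nat_lit 0) (nat_lit 0) (XT.lf (nat_lit 0) (nat_lit 73738250110) (nat_lit 152) (nat_lit 245644310018) (nat_lit 0) (nat_lit 17944496573) (nat_lit 4) (nat_lit 5) (nat_lit 6) (nat_lit 4) (nat_lit 4) (nat_lit 4) (nat_lit 374) (nat_lit 277)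 (nat_lit 129)) (XT.lf (nat_lit 0) (nat_lit 89786556570) (nat_lit 152) (nat_lit 229649121031) (nat_lit 0) (nat_lit 33990859162) (nat_lit 4) (nat_lit 5) (nat_lit 6) (nat_lit 4) (nat_lit 4) (nat_lit 4) (nat_lit 375) (nat_lit 277) (nat_lit 128))) (XT.nd (nat_lit 78) (nat_lit 0) (nat_lit 0) (XT.lf (nat_lit 0) (nat_lit 106636249836) (nat_lit 152) (nat_lit 212856091921) (nat_lit 0) (nat_lit 50838701122) (nat_lit 4) (nat_lit 5) (nat_lit 6) (nat_lit 4) (nat_lit 4) (nat_lit 4) (nat_lit 376) (nat_lit 277) (nat_lit 127)) (XT.nd (nat_lit 78) (nat_lit 0) (nat_lit 0) (XT.lf (nat_lit 0) (nat_lit 124327448225) (nat_lit 152) (nat_lit 195225239287) (nat_lit 0) (nat_lit 68528136361) (nat_lit 4) (nat_lit 5) (nat_lit 6) (nat_lit 4) (nat_lit 4) (nat_lit 4) (nat_lit 377) (nat_lit 277) (nat_lit 126)) (XT.lf (nat_lit 0) (nat_lit 142902273638) (nat_lit 152) (nat_lit 176714584908) (nat_lit 0) (nat_lit 87101282585)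 (nat_lit 4) (nat_lit 5) (nat_lit 6) (nat_lit 4) (nat_lit 4) (nat_lit 4) (nat_lit 378) (nat_lit 277) (nat_lit 125)))))) (XT.nd (nat_lit 32760) (nat_lit 0) (nat_lit 5928) (XT.nd (nat_lit 156) (nat_lit 0) (nat_lit 0) (XT.nd (nat_lit 78) (nat_lit 0) (nat_lit 0) (XT.lf (nat_lit 0) (nat_lit 162404951850) (nat_lit 152) (nat_lit 157280055797) (nat_lit 0) (nat_lit 106602361568) (nat_lit 4) (nat_lit 5) (nat_lit 6) (nat_lit 4) (nat_lit 4) (nat_lit 4) (nat_lit 379) (nat_lit 277) (nat_lit 124)) (XT.lf (nat_lit 0) (nat_lit 182881917808) (nat_lit 152) (nat_lit 136875379267) (nat_lit 0) (nat_lit 127077804451) (nat_lit 4) (nat_lit 5) (nat_lit 6) (nat_lit 4) (nat_lit 4) (nat_lit 4) (nat_lit 380) (nat_lit 277) (nat_lit 123))) (XT.nd (nat_lit 78) (nat_lit 0) (nat_lit 0) (XT.lf (nat_lit 0) (nat_lit 204381926193) (nat_lit 152) (nat_lit 115451972752) (nat_lit 0) (nat_lit 148576362290) (nat_lit 4) (nat_lit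 5) (nat_lit 6) (nat_lit 4) (nat_lit 4) (nat_lit 4) (nat_lit 381) (nat_lit 277) (nat_lit 122)) (XT.nd (nat_lit 78) (nat_lit 0) (nat_lit 0) (XT.lf (nat_lit 0) (nat_lit 226956167503) (nat_lit 152) (nat_lit 92958828144) (nat_lit 0) (nat_lit 171149222125) (nat_lit 4) (nat_lit 5) (nat_lit 6) (nat_lit 4) (nat_lit 4) (nat_lit 4) (nat_lit 382) (nat_lit 277) (nat_lit 121)) (XT.lf (nat_lit 0) (nat_lit 250658389929) (nat_lit 152) (nat_lit 69342390336) (nat_lit 0) (nat_lit 194850128863) (nat_lit 4) (nat_lit 5) (nat_lit 6) (nat_lit 4) (nat_lit 4) (nat_lit 4) (nat_lit 383) (nat_lit 277) (nat_lit 120))))) (XT.nd (nat_lit 156) (nat_lit 608) (nat_lit 0) (XT.nd (nat_lit 78) (nat_lit 0) (nat_lit 0) (XT.lf (nat_lit 0) (nat_lit 4054887309) (nat_lit 684) (nat_lit 549166563) (nat_lit 684) (nat_lit 549166563) (nat_lit 90) (nat_lit 3) (nat_lit 99) (nat_lit 3) (nat_lit 99) (nat_lit 5) (nat_lit 278) (nat_lit 278)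 (nat_lit 224)) (XT.lf (nat_lit 76) (nat_lit 3593224367) (nat_lit 0) (nat_lit 5376763541) (nat_lit 684) (nat_lit 1559518339) (nat_lit 91) (nat_lit 5) (nat_lit 90) (nat_lit 3) (nat_lit 99) (nat_lit 5) (nat_lit 279) (nat_lit 278) (nat_lit 223))) (XT.nd (nat_lit 78) (nat_lit 608) (nat_lit 0) (XT.lf (nat_lit 76) (nat_lit 8536556277) (nat_lit 0) (nat_lit 1316434430) (nat_lit 684) (nat_lit 911855486) (nat_lit 91) (nat_lit 5) (nat_lit 90) (nat_lit 3) (nat_lit 99) (nat_lit 5) (nat_lit 280) (nat_lit 278) (nat_lit 222)) (XT.nd (nat_lit 78) (nat_lit 684) (nat_lit 0) (XT.lf (nat_lit 76) (nat_lit 2734453886) (nat_lit 0) (nat_lit 8097684463) (nat_lit 684) (nat_lit 177320047) (nat_lit 92) (nat_lit 5) (nat_lit 91) (nat_lit 5) (nat_lit 100) (nat_lit 5) (nat_lit 281) (nat_lit 278) (nat_lit 221)) (XT.lf (nat_lit 0) (nat_lit 598893805) (nat_lit 684) (nat_lit 3296276077) (nat_lit 760) (nat_lit 7369564825)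 (nat_lit 82) (nat_lit 5) (nat_lit 91) (nat_lit 5) (nat_lit 92) (nat_lit 5) (nat_lit 282) (nat_lit 278) (nat_lit 220))))))) (XT.nd (nat_lit 780) (nat_lit 1672) (nat_lit 0) (XT.nd (nat_lit 390) (nat_lit 912) (nat_lit 0) (XT.nd (nat_lit 156) (nat_lit 0) (nat_lit 0) (XT.nd (nat_lit 78) (nat_lit 0) (nat_lit 0) (XT.lf (nat_lit 0) (nat_lit 1413269653) (nat_lit 684) (nat_lit 9572184993) (nat_lit 760) (nat_lit 547000021) (nat_lit 83) (nat_lit 5) (nat_lit 92) (nat_lit 5) (nat_lit 93) (nat_lit 5) (nat_lit 283) (nat_lit 278) (nat_lit 219)) (XT.lf (nat_lit 0) (nat_lit 2356167424) (nat_lit 684) (nat_lit 4305000896) (nat_lit 760) (nat_lit 5148088525) (nat_lit 83) (nat_lit 5) (nat_lit 92) (nat_lit 5) (nat_lit 93) (nat_lit 5) (nat_lit 284) (nat_lit 278) (nat_lit 218))) (XT.nd (nat_lit 78) (nat_lit 0) (nat_lit 76) (XT.lf (nat_lit 76) (nat_lit 1242901040) (nat_lit 0) (nat_lit 2091484412) (nat_lit 760)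 (nat_lit 8766187178) (nat_lit 84) (nat_lit 5) (nat_lit 83) (nat_lit 5) (nat_lit 93) (nat_lit 5) (nat_lit 285) (nat_lit 278) (nat_lit 217)) (XT.nd (nat_lit 78) (nat_lit 0) (nat_lit 0) (XT.lf (nat_lit 0) (nat_lit 4447914002) (nat_lit 684) (nat_lit 5252373312) (nat_lit 760) (nat_lit 2701925254) (nat_lit 84) (nat_lit 5) (nat_lit 93) (nat_lit 5) (nat_lit 94) (nat_lit 5) (nat_lit 286) (nat_lit 278) (nat_lit 216)) (XT.lf (nat_lit 76) (nat_lit 595320719) (nat_lit 0) (nat_lit 5036844496) (nat_lit 760) (nat_lit 7086091593) (nat_lit 85) (nat_lit 5) (nat_lit 84) (nat_lit 5) (nat_lit 94) (nat_lit 5) (nat_lit 287) (nat_lit 278) (nat_lit 215))))) (XT.nd (nat_lit 156) (nat_lit 380) (nat_lit 0) (XT.nd (nat_lit 78) (nat_lit 608) (nat_lit 0) (XT.lf (nat_lit 76) (nat_lit 6895478586) (nat_lit 0) (nat_lit 41577957) (nat_lit 760) (nat_lit 6110046402) (nat_lit 85) (nat_lit 5) (nat_lit 84) (nat_lit 5) (nat_lit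 94) (nat_lit 5) (nat_lit 288) (nat_lit 278) (nat_lit 214)) (XT.lf (nat_lit 0) (nat_lit 14819498) (nat_lit 684) (nat_lit 8347709618) (nat_lit 760) (nat_lit 5027163119) (nat_lit 76) (nat_lit 5) (nat_lit 85) (nat_lit 5) (nat_lit 86) (nat_lit 5) (nat_lit 289) (nat_lit 278) (nat_lit 213))) (XT.nd (nat_lit 78) (nat_lit 380) (nat_lit 0) (XT.lf (nat_lit 0) (nat_lit 6680150208) (nat_lit 684) (nat_lit 3258737632) (nat_lit 760) (nat_lit 3806606979) (nat_lit 76) (nat_lit 5) (nat_lit 85) (nat_lit 5) (nat_lit 86) (nat_lit 5) (nat_lit 290) (nat_lit 278) (nat_lit 212)) (XT.nd (nat_lit 78) (nat_lit 380) (nat_lit 0) (XT.lf (nat_lit 0) (nat_lit 11602618942) (nat_lit 760) (nat_lit 495434452) (nat_lit 76) (nat_lit 2020667804) (nat_lit 76) (nat_lit 5) (nat_lit 86) (nat_lit 5) (nat_lit 77) (nat_lit 5) (nat_lit 291) (nat_lit 278) (nat_lit 211)) (XT.lf (nat_lit 0) (nat_lit 6537311088) (nat_lit 380) (nat_lit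 6944862421) (nat_lit 456) (nat_lit 1021862004) (nat_lit 71) (nat_lit 5) (nat_lit 76) (nat_lit 5) (nat_lit 77) (nat_lit 5) (nat_lit 292) (nat_lit 278) (nat_lit 210)))))) (XT.nd (nat_lit 390) (nat_lit 912) (nat_lit 0) (XT.nd (nat_lit 156) (nat_lit 304) (nat_lit 0) (XT.nd (nat_lit 78) (nat_lit 380) (nat_lit 0) (XT.lf (nat_lit 0) (nat_lit 515599377) (nat_lit 456) (nat_lit 999904815) (nat_lit 76) (nat_lit 13393436328) (nat_lit 70) (nat_lit 5) (nat_lit 76) (nat_lit 5) (nat_lit 71) (nat_lit 5) (nat_lit 293) (nat_lit 278) (nat_lit 209)) (XT.lf (nat_lit 0) (nat_lit 2242695639) (nat_lit 456) (nat_lit 8911410083) (nat_lit 76) (nat_lit 4171842814) (nat_lit 65) (nat_lit 5) (nat_lit 71) (nat_lit 5) (nat_lit 66) (nat_lit 5) (nat_lit 294) (nat_lit 278) (nat_lit 208))) (XT.nd (nat_lit 78) (nat_lit 304) (nat_lit 0) (XT.lf (nat_lit 0) (nat_lit 4077468891) (nat_lit 456) (nat_lit 1575294959) (nat_lit 76)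 (nat_lit 10110025092) (nat_lit 65) (nat_lit 5) (nat_lit 71) (nat_lit 5) (nat_lit 66) (nat_lit 5) (nat_lit 295) (nat_lit 278) (nat_lit 207)) (XT.nd (nat_lit 78) (nat_lit 0) (nat_lit 0) (XT.lf (nat_lit 0) (nat_lit 6086266754) (nat_lit 380) (nat_lit 9912160630) (nat_lit 76) (nat_lit 218975496) (nat_lit 61) (nat_lit 5) (nat_lit 66) (nat_lit 5) (nat_lit 62) (nat_lit 5) (nat_lit 296) (nat_lit 278) (nat_lit 206)) (XT.lf (nat_lit 0) (nat_lit 8296148139) (nat_lit 380) (nat_lit 2173272814) (nat_lit 76) (nat_lit 6220338006) (nat_lit 61) (nat_lit 5) (nat_lit 66) (nat_lit 5) (nat_lit 62) (nat_lit 5) (nat_lit 297) (nat_lit 278) (nat_lit 205))))) (XT.nd (nat_lit 156) (nat_lit 608) (nat_lit 0) (XT.nd (nat_lit 78) (nat_lit 0) (nat_lit 0) (XT.lf (nat_lit 0) (nat_lit 6128470026) (nat_lit 304) (nat_lit 4565507242) (nat_lit 380) (nat_lit 6487924439) (nat_lit 57) (nat_lit 5) (nat_lit 61) (nat_lit 5) (nat_lit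 62) (nat_lit 5) (nat_lit 298) (nat_lit 278) (nat_lit 204)) (XT.lf (nat_lit 0) (nat_lit 13256905015) (nat_lit 380) (nat_lit 2822969093) (nat_lit 76) (nat_lit 1616556697) (nat_lit 57) (nat_lit 5) (nat_lit 62) (nat_lit 5) (nat_lit 58) (nat_lit 5) (nat_lit 299) (nat_lit 278) (nat_lit 203))) (XT.nd (nat_lit 78) (nat_lit 380) (nat_lit 0) (XT.lf (nat_lit 0) (nat_lit 5913635581) (nat_lit 228) (nat_lit 10184652811) (nat_lit 304) (nat_lit 2130920190) (nat_lit 54) (nat_lit 5) (nat_lit 57) (nat_lit 5) (nat_lit 58) (nat_lit 5) (nat_lit 300) (nat_lit 278) (nat_lit 202)) (XT.nd (nat_lit 78) (nat_lit 304) (nat_lit 0) (XT.lf (nat_lit 0) (nat_lit 315658393) (nat_lit 304) (nat_lit 3626593043) (nat_lit 76) (nat_lit 14844582965) (nat_lit 53) (nat_lit 5) (nat_lit 57) (nat_lit 5) (nat_lit 54) (nat_lit 5) (nat_lit 301) (nat_lit 278) (nat_lit 201)) (XT.lf (nat_lit 0) (nat_lit 2927611676) (nat_lit 380) (nat_lit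 13787031707) (nat_lit 76) (nat_lit 2650251094) (nat_lit 49) (nat_lit 5) (nat_lit 54) (nat_lit 5) (nat_lit 50) (nat_lit 5) (nat_lit 302) (nat_lit 278) (nat_lit 200))))))))
noncomputable def xc160 : XT := (XT.nd (nat_lit 1482) (nat_lit 988) (nat_lit 0) (XT.nd (nat_lit 702) (nat_lit 836) (nat_lit 0) (XT.nd (nat_lit 312) (nat_lit 456) (nat_lit 0) (XT.nd (nat_lit 156) (nat_lit 228) (nat_lit 0) (XT.nd (nat_lit 78) (nat_lit 228) (nat_lit 0) (XT.lf (nat_lit 0) (nat_lit 5781749652) (nat_lit 380) (nat_lit 4685531953) (nat_lit 76) (nat_lit 9499027605) (nat_lit 49) (nat_lit 5) (nat_lit 54) (nat_lit 5) (nat_lit 50) (nat_lit 5) (nat_lit 303) (nat_lit 278) (nat_lit 199)) (XT.lf (nat_lit 0) (nat_lit 5012857071) (nat_lit 228) (nat_lit 3829273623) (nat_lit 304) (nat_lit 11752516705) (nat_lit 46) (nat_lit 5) (nat_lit 49) (nat_lit 5) (nat_lit 50) (nat_lit 5) (nat_lit 304) (nat_lit 278) (nat_lit 198)))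 (XT.nd (nat_lit 78) (nat_lit 228) (nat_lit 0) (XT.lf (nat_lit 0) (nat_lit 12170841450) (nat_lit 304) (nat_lit 5960942334) (nat_lit 76) (nat_lit 3116881303) (nat_lit 46) (nat_lit 5) (nat_lit 50) (nat_lit 5) (nat_lit 47) (nat_lit 5) (nat_lit 305) (nat_lit 278) (nat_lit 197)) (XT.lf (nat_lit 0) (nat_lit 4194313398) (nat_lit 228) (nat_lit 11586242834) (nat_lit 304) (nat_lit 6149125784) (nat_lit 43) (nat_lit 5) (nat_lit 46) (nat_lit 5) (nat_lit 47) (nat_lit 5) (nat_lit 306) (nat_lit 278) (nat_lit 196)))) (XT.nd (nat_lit 156) (nat_lit 228) (nat_lit 0) (XT.nd (nat_lit 78) (nat_lit 228) (nat_lit 0) (XT.lf (nat_lit 0) (nat_lit 15046470468) (nat_lit 228) (nat_lit 4611920135) (nat_lit 304) (nat_lit 2982003005) (nat_lit 43) (nat_lit 5) (nat_lit 46) (nat_lit 5) (nat_lit 47) (nat_lit 5) (nat_lit 307) (nat_lit 278) (nat_lit 195)) (XT.lf (nat_lit 0) (nat_lit 411615441) (nat_lit 228) (nat_lit 20295680284)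 (nat_lit 76) (nat_lit 2675143415) (nat_lit 40) (nat_lit 5) (nat_lit 43) (nat_lit 5) (nat_lit 41) (nat_lit 5) (nat_lit 308) (nat_lit 278) (nat_lit 194))) (XT.nd (nat_lit 78) (nat_lit 228) (nat_lit 0) (XT.lf (nat_lit 0) (nat_lit 4068381629) (nat_lit 228) (nat_lit 9734348773) (nat_lit 76) (nat_lit 10346750233) (nat_lit 40) (nat_lit 5) (nat_lit 43) (nat_lit 5) (nat_lit 41) (nat_lit 5) (nat_lit 309) (nat_lit 278) (nat_lit 193)) (XT.nd (nat_lit 78) (nat_lit 0) (nat_lit 0) (XT.lf (nat_lit 0) (nat_lit 1382426908) (nat_lit 228) (nat_lit 6535105969) (nat_lit 304) (nat_lit 17036884974) (nat_lit 37) (nat_lit 5) (nat_lit 40) (nat_lit 5) (nat_lit 41) (nat_lit 5) (nat_lit 310) (nat_lit 278) (nat_lit 192)) (XT.lf (nat_lit 0) (nat_lit 12132011377) (nat_lit 304) (nat_lit 12435302420) (nat_lit 76) (nat_lit 1223664632) (nat_lit 37) (nat_lit 5) (nat_lit 41) (nat_lit 5) (nat_lit 38) (nat_lit 5) (nat_lit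 311) (nat_lit 278) (nat_lit 191)))))) (XT.nd (nat_lit 390) (nat_lit 380) (nat_lit 0) (XT.nd (nat_lit 156) (nat_lit 304) (nat_lit 0) (XT.nd (nat_lit 78) (nat_lit 152) (nat_lit 0) (XT.lf (nat_lit 0) (nat_lit 16653109697) (nat_lit 304) (nat_lit 865223451) (nat_lit 76) (nat_lit 9146258128) (nat_lit 37) (nat_lit 5) (nat_lit 41) (nat_lit 5) (nat_lit 38) (nat_lit 5) (nat_lit 312) (nat_lit 278) (nat_lit 190)) (XT.lf (nat_lit 0) (nat_lit 11640390274) (nat_lit 152) (nat_lit 9930909878) (nat_lit 228) (nat_lit 6002050881) (nat_lit 35) (nat_lit 5) (nat_lit 37) (nat_lit 5) (nat_lit 38) (nat_lit 5) (nat_lit 313) (nat_lit 278) (nat_lit 189))) (XT.nd (nat_lit 78) (nat_lit 304) (nat_lit 0) (XT.lf (nat_lit 0) (nat_lit 24786039468) (nat_lit 152) (nat_lit 1953582734) (nat_lit 228) (nat_lit 1787732734) (nat_lit 35) (nat_lit 5) (nat_lit 37) (nat_lit 5) (nat_lit 38) (nat_lit 5) (nat_lit 314) (nat_lit 278)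 (nat_lit 188)) (XT.nd (nat_lit 78) (nat_lit 0) (nat_lit 0) (XT.lf (nat_lit 0) (nat_lit 2791257147) (nat_lit 304) (nat_lit 20321978591) (nat_lit 76) (nat_lit 6401861878) (nat_lit 31) (nat_lit 5) (nat_lit 35) (nat_lit 5) (nat_lit 32) (nat_lit 5) (nat_lit 315) (nat_lit 278) (nat_lit 187)) (XT.lf (nat_lit 0) (nat_lit 7625607228) (nat_lit 304) (nat_lit 7722364403) (nat_lit 76) (nat_lit 15198480844) (nat_lit 31) (nat_lit 5) (nat_lit 35) (nat_lit 5) (nat_lit 32) (nat_lit 5) (nat_lit 316) (nat_lit 278) (nat_lit 186))))) (XT.nd (nat_lit 156) (nat_lit 228) (nat_lit 0) (XT.nd (nat_lit 78) (nat_lit 0) (nat_lit 0) (XT.lf (nat_lit 0) (nat_lit 5674469380) (nat_lit 152) (nat_lit 7106337523) (nat_lit 228) (nat_lit 18844625774) (nat_lit 29) (nat_lit 5) (nat_lit 31) (nat_lit 5) (nat_lit 32) (nat_lit 5) (nat_lit 317) (nat_lit 278) (nat_lit 185)) (XT.lf (nat_lit 0) (nat_lit 18341542104) (nat_lit 228) (nat_lit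 12783423820) (nat_lit 76) (nat_lit 1626020715) (nat_lit 29) (nat_lit 5) (nat_lit 32) (nat_lit 5) (nat_lit 30) (nat_lit 5) (nat_lit 318) (nat_lit 278) (nat_lit 184))) (XT.nd (nat_lit 78) (nat_lit 76) (nat_lit 0) (XT.lf (nat_lit 0) (nat_lit 942301435) (nat_lit 152) (nat_lit 23360355917) (nat_lit 228) (nat_lit 9624056666) (nat_lit 27) (nat_lit 5) (nat_lit 29) (nat_lit 5) (nat_lit 30) (nat_lit 5) (nat_lit 319) (nat_lit 278) (nat_lit 183)) (XT.nd (nat_lit 78) (nat_lit 76) (nat_lit 0) (XT.lf (nat_lit 0) (nat_lit 15784494614) (nat_lit 152) (nat_lit 14985170590) (nat_lit 228) (nat_lit 4381182988) (nat_lit 27) (nat_lit 5) (nat_lit 29) (nat_lit 5) (nat_lit 30) (nat_lit 5) (nat_lit 320) (nat_lit 278) (nat_lit 182)) (XT.lf (nat_lit 0) (nat_lit 1079473783) (nat_lit 228) (nat_lit 5098207301) (nat_lit 76) (nat_lit 30258061354) (nat_lit 26) (nat_lit 5) (nat_lit 29) (nat_lit 5) (nat_lit 27) (nat_lit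 5) (nat_lit 321) (nat_lit 278) (nat_lit 181))))))) (XT.nd (nat_lit 780) (nat_lit 380) (nat_lit 0) (XT.nd (nat_lit 390) (nat_lit 304) (nat_lit 0) (XT.nd (nat_lit 156) (nat_lit 152) (nat_lit 0) (XT.nd (nat_lit 78) (nat_lit 0) (nat_lit 0) (XT.lf (nat_lit 0) (nat_lit 6867612126) (nat_lit 228) (nat_lit 27702546615) (nat_lit 76) (nat_lit 3201057860) (nat_lit 24) (nat_lit 5) (nat_lit 27) (nat_lit 5) (nat_lit 25) (nat_lit 5) (nat_lit 322) (nat_lit 278) (nat_lit 180)) (XT.lf (nat_lit 0) (nat_lit 13126309711) (nat_lit 228) (nat_lit 13113708768) (nat_lit 76) (nat_lit 12924398472) (nat_lit 24) (nat_lit 5) (nat_lit 27) (nat_lit 5) (nat_lit 25) (nat_lit 5) (nat_lit 323) (nat_lit 278) (nat_lit 179))) (XT.nd (nat_lit 78) (nat_lit 0) (nat_lit 0) (XT.lf (nat_lit 0) (nat_lit 2264908050) (nat_lit 152) (nat_lit 17460893627) (nat_lit 228) (nat_lit 20900092279) (nat_lit 22) (nat_lit 5) (nat_lit 24) (nat_lit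 5) (nat_lit 25) (nat_lit 5) (nat_lit 324) (nat_lit 278) (nat_lit 178)) (XT.nd (nat_lit 78) (nat_lit 0) (nat_lit 0) (XT.lf (nat_lit 0) (nat_lit 18855775977) (nat_lit 152) (nat_lit 8014247750) (nat_lit 228) (nat_lit 15279692465) (nat_lit 22) (nat_lit 5) (nat_lit 24) (nat_lit 5) (nat_lit 25) (nat_lit 5) (nat_lit 325) (nat_lit 278) (nat_lit 177)) (XT.lf (nat_lit 0) (nat_lit 34394143869) (nat_lit 228) (nat_lit 7514958122) (nat_lit 76) (nat_lit 1839501921) (nat_lit 22) (nat_lit 5) (nat_lit 25) (nat_lit 5) (nat_lit 23) (nat_lit 4) (nat_lit 326) (nat_lit 278) (nat_lit 176))))) (XT.nd (nat_lit 156) (nat_lit 152) (nat_lit 0) (XT.nd (nat_lit 78) (nat_lit 76) (nat_lit 0) (XT.lf (nat_lit 0) (nat_lit 9205090733) (nat_lit 76) (nat_lit 33357762236) (nat_lit 152) (nat_lit 2851172204) (nat_lit 21) (nat_lit 5) (nat_lit 22) (nat_lit 5) (nat_lit 23) (nat_lit 4) (nat_lit 327) (nat_lit 278) (nat_lit 175))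 (XT.lf (nat_lit 0) (nat_lit 3972656282) (nat_lit 152) (nat_lit 20209663191) (nat_lit 76) (nat_lit 22971167030) (nat_lit 20) (nat_lit 5) (nat_lit 22) (nat_lit 5) (nat_lit 21) (nat_lit 5) (nat_lit 328) (nat_lit 278) (nat_lit 174))) (XT.nd (nat_lit 78) (nat_lit 152) (nat_lit 0) (XT.lf (nat_lit 0) (nat_lit 11035494510) (nat_lit 152) (nat_lit 3467807671) (nat_lit 76) (nat_lit 34474607047) (nat_lit 20) (nat_lit 5) (nat_lit 22) (nat_lit 5) (nat_lit 21) (nat_lit 5) (nat_lit 329) (nat_lit 278) (nat_lit 173)) (XT.nd (nat_lit 78) (nat_lit 0) (nat_lit 0) (XT.lf (nat_lit 0) (nat_lit 14567251489) (nat_lit 152) (nat_lit 4105598207) (nat_lit 228) (nat_lit 32209641471) (nat_lit 18) (nat_lit 5) (nat_lit 20) (nat_lit 5) (nat_lit 21) (nat_lit 5) (nat_lit 330) (nat_lit 278) (nat_lit 172)) (XT.lf (nat_lit 0) (nat_lit 26852127978) (nat_lit 228) (nat_lit 19372433263) (nat_lit 76) (nat_lit 6649744704) (nat_lit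 18) (nat_lit 5) (nat_lit 21) (nat_lit 5) (nat_lit 19) (nat_lit 4) (nat_lit 331) (nat_lit 278) (nat_lit 171)))))) (XT.nd (nat_lit 390) (nat_lit 76) (nat_lit 0) (XT.nd (nat_lit 156) (nat_lit 228) (nat_lit 0) (XT.nd (nat_lit 78) (nat_lit 76) (nat_lit 0) (XT.lf (nat_lit 0) (nat_lit 35501969626) (nat_lit 228) (nat_lit 1659513824) (nat_lit 76) (nat_lit 17801154235) (nat_lit 18) (nat_lit 5) (nat_lit 21) (nat_lit 5) (nat_lit 19) (nat_lit 4) (nat_lit 332) (nat_lit 278) (nat_lit 170)) (XT.lf (nat_lit 0) (nat_lit 17489567536) (nat_lit 76) (nat_lit 27362363237) (nat_lit 152) (nat_lit 12290079771) (nat_lit 17) (nat_lit 5) (nat_lit 18) (nat_lit 5) (nat_lit 19) (nat_lit 4) (nat_lit 333) (nat_lit 278) (nat_lit 169))) (XT.nd (nat_lit 78) (nat_lit 228) (nat_lit 0) (XT.lf (nat_lit 0) (nat_lit 37644607446) (nat_lit 76) (nat_lit 17047569968) (nat_lit 152) (nat_lit 4737040880) (nat_lit 17) (nat_lit 5) (nat_lit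 18) (nat_lit 5) (nat_lit 19) (nat_lit 4) (nat_lit 334) (nat_lit 278) (nat_lit 168)) (XT.nd (nat_lit 78) (nat_lit 152) (nat_lit 0) (XT.lf (nat_lit 0) (nat_lit 3086280982) (nat_lit 152) (nat_lit 3082100637) (nat_lit 76) (nat_lit 55660174431) (nat_lit 16) (nat_lit 5) (nat_lit 18) (nat_lit 5) (nat_lit 17) (nat_lit 5) (nat_lit 335) (nat_lit 278) (nat_lit 167)) (XT.lf (nat_lit 0) (nat_lit 11489917049) (nat_lit 228) (nat_lit 47404557827) (nat_lit 76) (nat_lit 5432090666) (nat_lit 14) (nat_lit 5) (nat_lit 17) (nat_lit 5) (nat_lit 15) (nat_lit 4) (nat_lit 336) (nat_lit 278) (nat_lit 166))))) (XT.nd (nat_lit 156) (nat_lit 76) (nat_lit 0) (XT.nd (nat_lit 78) (nat_lit 0) (nat_lit 0) (XT.lf (nat_lit 0) (nat_lit 20463051248) (nat_lit 228) (nat_lit 29024001797) (nat_lit 76) (nat_lit 17454961271) (nat_lit 14) (nat_lit 5) (nat_lit 17) (nat_lit 5) (nat_lit 15) (nat_lit 4) (nat_lit 337) (nat_lit 278)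 (nat_lit 165)) (XT.lf (nat_lit 0) (nat_lit 29880216221) (nat_lit 228) (nat_lit 9732498439) (nat_lit 76) (nat_lit 30075756570) (nat_lit 14) (nat_lit 5) (nat_lit 17) (nat_lit 5) (nat_lit 15) (nat_lit 4) (nat_lit 338) (nat_lit 278) (nat_lit 164))) (XT.nd (nat_lit 78) (nat_lit 0) (nat_lit 0) (XT.lf (nat_lit 0) (nat_lit 10863587028) (nat_lit 76) (nat_lit 29069857801) (nat_lit 152) (nat_lit 32630550087) (nat_lit 13) (nat_lit 5) (nat_lit 14) (nat_lit 5) (nat_lit 15) (nat_lit 4) (nat_lit 339) (nat_lit 278) (nat_lit 163)) (XT.nd (nat_lit 78) (nat_lit 0) (nat_lit 0) (XT.lf (nat_lit 0) (nat_lit 32819795573) (nat_lit 76) (nat_lit 17830049790) (nat_lit 152) (nat_lit 24925427891) (nat_lit 13) (nat_lit 5) (nat_lit 14) (nat_lit 5) (nat_lit 15) (nat_lit 4) (nat_lit 340) (nat_lit 278) (nat_lit 162)) (XT.lf (nat_lit 0) (nat_lit 55866603532) (nat_lit 76) (nat_lit 6031353750) (nat_lit 152) (nat_lit 16839367463)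 (nat_lit 13) (nat_lit 5) (nat_lit 14) (nat_lit 5) (nat_lit 15) (nat_lit 4) (nat_lit 341) (nat_lit 278) (nat_lit 161))))))))
noncomputable def xc161 : XT := (XT.nd (nat_lit 1482) (nat_lit 228) (nat_lit 0) (XT.nd (nat_lit 702) (nat_lit 228) (nat_lit 0) (XT.nd (nat_lit 312) (nat_lit 76) (nat_lit 0) (XT.nd (nat_lit 156) (nat_lit 0) (nat_lit 0) (XT.nd (nat_lit 78) (nat_lit 152) (nat_lit 0) (XT.lf (nat_lit 0) (nat_lit 73803770588) (nat_lit 152) (nat_lit 2098002611) (nat_lit 0) (nat_lit 6150944448) (nat_lit 13) (nat_lit 5) (nat_lit 15) (nat_lit 4) (nat_lit 13) (nat_lit 4) (nat_lit 342) (nat_lit 278) (nat_lit 160)) (XT.lf (nat_lit 0) (nat_lit 1164416726) (nat_lit 152) (nat_lit 65275983686) (nat_lit 76) (nat_lit 19071976247) (nat_lit 11) (nat_lit 5) (nat_lit 13) (nat_lit 5) (nat_lit 12) (nat_lit 4) (nat_lit 343) (nat_lit 278) (nat_lit 159))) (XT.nd (nat_lit 78) (nat_lit 0) (nat_lit 0) (XT.lf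 (nat_lit 0) (nat_lit 10803585663) (nat_lit 152) (nat_lit 45525412923) (nat_lit 76) (nat_lit 32807643950) (nat_lit 11) (nat_lit 5) (nat_lit 13) (nat_lit 5) (nat_lit 12) (nat_lit 4) (nat_lit 344) (nat_lit 278) (nat_lit 158)) (XT.lf (nat_lit 0) (nat_lit 20921134489) (nat_lit 152) (nat_lit 24793700266) (nat_lit 76) (nat_lit 47227468862) (nat_lit 11) (nat_lit 5) (nat_lit 13) (nat_lit 5) (nat_lit 12) (nat_lit 4) (nat_lit 345) (nat_lit 278) (nat_lit 157)))) (XT.nd (nat_lit 156) (nat_lit 0) (nat_lit 0) (XT.nd (nat_lit 78) (nat_lit 76) (nat_lit 0) (XT.lf (nat_lit 0) (nat_lit 31541152607) (nat_lit 152) (nat_lit 3031484493) (nat_lit 76) (nat_lit 62365783898) (nat_lit 11) (nat_lit 5) (nat_lit 13) (nat_lit 5) (nat_lit 12) (nat_lit 4) (nat_lit 346) (nat_lit 278) (nat_lit 156)) (XT.lf (nat_lit 0) (nat_lit 20468158078) (nat_lit 76) (nat_lit 22540333004) (nat_lit 152) (nat_lit 58110039897) (nat_lit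 10) (nat_lit 5) (nat_lit 11) (nat_lit 5) (nat_lit 12) (nat_lit 4) (nat_lit 347) (nat_lit 278) (nat_lit 155))) (XT.nd (nat_lit 78) (nat_lit 0) (nat_lit 0) (XT.lf (nat_lit 0) (nat_lit 45242329635) (nat_lit 76) (nat_lit 9855026226) (nat_lit 152) (nat_lit 50407885204) (nat_lit 10) (nat_lit 5) (nat_lit 11) (nat_lit 5) (nat_lit 12) (nat_lit 4) (nat_lit 348) (nat_lit 278) (nat_lit 154)) (XT.nd (nat_lit 78) (nat_lit 0) (nat_lit 0) (XT.lf (nat_lit 0) (nat_lit 67841688857) (nat_lit 152) (nat_lit 38915712631) (nat_lit 0) (nat_lit 3351336371) (nat_lit 10) (nat_lit 5) (nat_lit 12) (nat_lit 4) (nat_lit 10) (nat_lit 4) (nat_lit 349) (nat_lit 278) (nat_lit 153)) (XT.lf (nat_lit 0) (nat_lit 81381876030) (nat_lit 152) (nat_lit 16667992150) (nat_lit 0) (nat_lit 16884611771) (nat_lit 10) (nat_lit 5) (nat_lit 12) (nat_lit 4) (nat_lit 10) (nat_lit 4) (nat_lit 350) (nat_lit 278) (nat_lit 152)))))) (XT.nd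 (nat_lit 390) (nat_lit 76) (nat_lit 0) (XT.nd (nat_lit 156) (nat_lit 76) (nat_lit 0) (XT.nd (nat_lit 78) (nat_lit 0) (nat_lit 0) (XT.lf (nat_lit 0) (nat_lit 6908190594) (nat_lit 76) (nat_lit 88795956964) (nat_lit 76) (nat_lit 24292110064) (nat_lit 9) (nat_lit 4) (nat_lit 10) (nat_lit 5) (nat_lit 10) (nat_lit 4) (nat_lit 351) (nat_lit 278) (nat_lit 151)) (XT.lf (nat_lit 0) (nat_lit 32236909638) (nat_lit 76) (nat_lit 78785177507) (nat_lit 76) (nat_lit 14275061427) (nat_lit 9) (nat_lit 4) (nat_lit 10) (nat_lit 5) (nat_lit 10) (nat_lit 4) (nat_lit 352) (nat_lit 278) (nat_lit 150))) (XT.nd (nat_lit 78) (nat_lit 76) (nat_lit 0) (XT.lf (nat_lit 0) (nat_lit 58827352359) (nat_lit 76) (nat_lit 68275975134) (nat_lit 76) (nat_lit 3759888405) (nat_lit 9) (nat_lit 4) (nat_lit 10) (nat_lit 5) (nat_lit 10) (nat_lit 4) (nat_lit 353) (nat_lit 278) (nat_lit 149)) (XT.nd (nat_lit 78) (nat_lit 0) (nat_lit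 0) (XT.lf (nat_lit 0) (nat_lit 7045489428) (nat_lit 152) (nat_lit 50078519732) (nat_lit 76) (nat_lit 79578021134) (nat_lit 8) (nat_lit 5) (nat_lit 10) (nat_lit 5) (nat_lit 9) (nat_lit 4) (nat_lit 354) (nat_lit 278) (nat_lit 148)) (XT.lf (nat_lit 0) (nat_lit 18262384026) (nat_lit 152) (nat_lit 27089301361) (nat_lit 76) (nat_lit 97478139651) (nat_lit 8) (nat_lit 5) (nat_lit 10) (nat_lit 5) (nat_lit 9) (nat_lit 4) (nat_lit 355) (nat_lit 278) (nat_lit 147))))) (XT.nd (nat_lit 156) (nat_lit 0) (nat_lit 0) (XT.nd (nat_lit 78) (nat_lit 76) (nat_lit 0) (XT.lf (nat_lit 0) (nat_lit 30037842189) (nat_lit 152) (nat_lit 2954769798) (nat_lit 76) (nat_lit 116271513251) (nat_lit 8) (nat_lit 5) (nat_lit 10) (nat_lit 5) (nat_lit 9) (nat_lit 4) (nat_lit 356) (nat_lit 278) (nat_lit 146)) (XT.lf (nat_lit 0) (nat_lit 23122605921) (nat_lit 76) (nat_lit 19638303481) (nat_lit 152) (nat_lit 113241290820) (nat_lit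 7) (nat_lit 5) (nat_lit 8) (nat_lit 5) (nat_lit 9) (nat_lit 4) (nat_lit 357) (nat_lit 278) (nat_lit 145))) (XT.nd (nat_lit 78) (nat_lit 0) (nat_lit 0) (XT.lf (nat_lit 0) (nat_lit 50602546860) (nat_lit 76) (nat_lit 5565493810) (nat_lit 152) (nat_lit 106906744256) (nat_lit 7) (nat_lit 5) (nat_lit 8) (nat_lit 5) (nat_lit 9) (nat_lit 4) (nat_lit 358) (nat_lit 278) (nat_lit 144)) (XT.nd (nat_lit 78) (nat_lit 0) (nat_lit 0) (XT.lf (nat_lit 0) (nat_lit 70387282877) (nat_lit 152) (nat_lit 91192101020) (nat_lit 0) (nat_lit 8914528682) (nat_lit 7) (nat_lit 5) (nat_lit 9) (nat_lit 4) (nat_lit 7) (nat_lit 4) (nat_lit 359) (nat_lit 278) (nat_lit 143)) (XT.lf (nat_lit 0) (nat_lit 85406768162) (nat_lit 152) (nat_lit 68942792974) (nat_lit 0) (nat_lit 23929972797) (nat_lit 7) (nat_lit 5) (nat_lit 9) (nat_lit 4) (nat_lit 7) (nat_lit 4) (nat_lit 360) (nat_lit 278) (nat_lit 142))))))) (XT.nd (nat_lit 780)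 (nat_lit 76) (nat_lit 0) (XT.nd (nat_lit 390) (nat_lit 76) (nat_lit 0) (XT.nd (nat_lit 156) (nat_lit 76) (nat_lit 0) (XT.nd (nat_lit 78) (nat_lit 0) (nat_lit 0) (XT.lf (nat_lit 0) (nat_lit 101175364250) (nat_lit 152) (nat_lit 45584446427) (nat_lit 0) (nat_lit 39694720151) (nat_lit 7) (nat_lit 5) (nat_lit 9) (nat_lit 4) (nat_lit 7) (nat_lit 4) (nat_lit 361) (nat_lit 278) (nat_lit 141)) (XT.lf (nat_lit 0) (nat_lit 117730615416) (nat_lit 152) (nat_lit 21061446269) (nat_lit 0) (nat_lit 56246305857) (nat_lit 7) (nat_lit 5) (nat_lit 9) (nat_lit 4) (nat_lit 7) (nat_lit 4) (nat_lit 362) (nat_lit 278) (nat_lit 140))) (XT.nd (nat_lit 78) (nat_lit 0) (nat_lit 0) (XT.lf (nat_lit 0) (nat_lit 4839489481) (nat_lit 76) (nat_lit 130348007438) (nat_lit 76) (nat_lit 68860206964) (nat_lit 6) (nat_lit 4) (nat_lit 7) (nat_lit 5) (nat_lit 7) (nat_lit 4) (nat_lit 363) (nat_lit 278) (nat_lit 139)) (XT.nd (nat_lit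 78) (nat_lit 0) (nat_lit 0) (XT.lf (nat_lit 0) (nat_lit 32763619708) (nat_lit 76) (nat_lit 121108631098) (nat_lit 76) (nat_lit 59617505943) (nat_lit 6) (nat_lit 4) (nat_lit 7) (nat_lit 5) (nat_lit 7) (nat_lit 4) (nat_lit 364) (nat_lit 278) (nat_lit 138)) (XT.lf (nat_lit 0) (nat_lit 62081043906) (nat_lit 76) (nat_lit 111408619934) (nat_lit 76) (nat_lit 49914328416) (nat_lit 6) (nat_lit 4) (nat_lit 7) (nat_lit 5) (nat_lit 7) (nat_lit 4) (nat_lit 365) (nat_lit 278) (nat_lit 137))))) (XT.nd (nat_lit 156) (nat_lit 76) (nat_lit 0) (XT.nd (nat_lit 78) (nat_lit 0) (nat_lit 0) (XT.lf (nat_lit 0) (nat_lit 92861565466) (nat_lit 76) (nat_lit 101224878680) (nat_lit 76) (nat_lit 39727571580) (nat_lit 6) (nat_lit 4) (nat_lit 7) (nat_lit 5) (nat_lit 7) (nat_lit 4) (nat_lit 366) (nat_lit 278) (nat_lit 136)) (XT.lf (nat_lit 0) (nat_lit 125178471343) (nat_lit 76) (nat_lit 90533160335) (nat_lit 76) (nat_lit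 29032981251) (nat_lit 6) (nat_lit 4) (nat_lit 7) (nat_lit 5) (nat_lit 7) (nat_lit 4) (nat_lit 367) (nat_lit 278) (nat_lit 135))) (XT.nd (nat_lit 78) (nat_lit 76) (nat_lit 0) (XT.lf (nat_lit 0) (nat_lit 159108706553) (nat_lit 76) (nat_lit 79308008426) (nat_lit 76) (nat_lit 17805094118) (nat_lit 6) (nat_lit 4) (nat_lit 7) (nat_lit 5) (nat_lit 7) (nat_lit 4) (nat_lit 368) (nat_lit 278) (nat_lit 134)) (XT.nd (nat_lit 78) (nat_lit 76) (nat_lit 0) (XT.lf (nat_lit 0) (nat_lit 194733057368) (nat_lit 76) (nat_lit 67522696401) (nat_lit 76) (nat_lit 6017177119) (nat_lit 6) (nat_lit 4) (nat_lit 7) (nat_lit 5) (nat_lit 7) (nat_lit 4) (nat_lit 369) (nat_lit 278) (nat_lit 133)) (XT.lf (nat_lit 0) (nat_lit 6155313746) (nat_lit 152) (nat_lit 48889607030) (nat_lit 76) (nat_lit 225876786710) (nat_lit 5) (nat_lit 5) (nat_lit 7) (nat_lit 5) (nat_lit 6) (nat_lit 4) (nat_lit 370) (nat_lit 278) (nat_lit 132))))))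 (XT.nd (nat_lit 390) (nat_lit 0) (nat_lit 0) (XT.nd (nat_lit 156) (nat_lit 0) (nat_lit 0) (XT.nd (nat_lit 78) (nat_lit 76) (nat_lit 0) (XT.lf (nat_lit 0) (nat_lit 18733014527) (nat_lit 152) (nat_lit 23107683217) (nat_lit 76) (nat_lit 252357353718) (nat_lit 5) (nat_lit 5) (nat_lit 7) (nat_lit 5) (nat_lit 6) (nat_lit 4) (nat_lit 371) (nat_lit 278) (nat_lit 131)) (XT.lf (nat_lit 0) (nat_lit 4092204549) (nat_lit 76) (nat_lit 27910145608) (nat_lit 152) (nat_lit 276132725714) (nat_lit 4) (nat_lit 5) (nat_lit 5) (nat_lit 5) (nat_lit 6) (nat_lit 4) (nat_lit 372) (nat_lit 278) (nat_lit 130))) (XT.nd (nat_lit 78) (nat_lit 0) (nat_lit 0) (XT.lf (nat_lit 0) (nat_lit 33452258954) (nat_lit 76) (nat_lit 12873114385) (nat_lit 152) (nat_lit 276424067812) (nat_lit 4) (nat_lit 5) (nat_lit 5) (nat_lit 5) (nat_lit 6) (nat_lit 4) (nat_lit 373) (nat_lit 278) (nat_lit 129)) (XT.nd (nat_lit 78) (nat_lit 0)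 (nat_lit 0) (XT.lf (nat_lit 0) (nat_lit 61408991054) (nat_lit 152) (nat_lit 273861747227) (nat_lit 0) (nat_lit 2821564903) (nat_lit 4) (nat_lit 5) (nat_lit 6) (nat_lit 4) (nat_lit 4) (nat_lit 4) (nat_lit 374) (nat_lit 278) (nat_lit 128)) (XT.lf (nat_lit 0) (nat_lit 77456795799) (nat_lit 152) (nat_lit 257867494497) (nat_lit 0) (nat_lit 18867518341) (nat_lit 4) (nat_lit 5) (nat_lit 6) (nat_lit 4) (nat_lit 4) (nat_lit 4) (nat_lit 375) (nat_lit 278) (nat_lit 127))))) (XT.nd (nat_lit 156) (nat_lit 0) (nat_lit 0) (XT.nd (nat_lit 78) (nat_lit 0) (nat_lit 0) (XT.lf (nat_lit 0) (nat_lit 94306011240) (nat_lit 152) (nat_lit 241075357061) (nat_lit 0) (nat_lit 35714970634) (nat_lit 4) (nat_lit 5) (nat_lit 6) (nat_lit 4) (nat_lit 4) (nat_lit 4) (nat_lit 376) (nat_lit 278) (nat_lit 126)) (XT.lf (nat_lit 0) (nat_lit 111996754558) (nat_lit 152) (nat_lit 223445353640) (nat_lit 0) (nat_lit 53404034762)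 (nat_lit 4) (nat_lit 5) (nat_lit 6) (nat_lit 4) (nat_lit 4) (nat_lit 4) (nat_lit 377) (nat_lit 278) (nat_lit 125))) (XT.nd (nat_lit 78) (nat_lit 0) (nat_lit 0) (XT.lf (nat_lit 0) (nat_lit 130571146570) (nat_lit 152) (nat_lit 204935508035) (nat_lit 0) (nat_lit 71976827546) (nat_lit 4) (nat_lit 5) (nat_lit 6) (nat_lit 4) (nat_lit 4) (nat_lit 4) (nat_lit 378) (nat_lit 278) (nat_lit 124)) (XT.nd (nat_lit 78) (nat_lit 0) (nat_lit 0) (XT.lf (nat_lit 0) (nat_lit 150073412018) (nat_lit 152) (nat_lit 185501749185) (nat_lit 0) (nat_lit 91477569920) (nat_lit 4) (nat_lit 5) (nat_lit 6) (nat_lit 4) (nat_lit 4) (nat_lit 4) (nat_lit 379) (nat_lit 278) (nat_lit 123)) (XT.lf (nat_lit 0) (nat_lit 170549984869) (nat_lit 152) (nat_lit 165097806237) (nat_lit 0) (nat_lit 111952692223) (nat_lit 4) (nat_lit 5) (nat_lit 6) (nat_lit 4) (nat_lit 4) (nat_lit 4) (nat_lit 380) (nat_lit 278) (nat_lit 122))))))))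
noncomputable def xc162 : XT := (XT.nd (nat_lit 33930) (nat_lit 0) (nat_lit 2356) (XT.nd (nat_lit 33150) (nat_lit 0) (nat_lit 5016) (XT.nd (nat_lit 32760) (nat_lit 0) (nat_lit 5852) (XT.nd (nat_lit 156) (nat_lit 0) (nat_lit 0) (XT.nd (nat_lit 78) (nat_lit 0) (nat_lit 0) (XT.lf (nat_lit 0) (nat_lit 192049618867) (nat_lit 152) (nat_lit 143675098372) (nat_lit 0) (nat_lit 133450944747) (nat_lit 4) (nat_lit 5) (nat_lit 6) (nat_lit 4) (nat_lit 4) (nat_lit 4) (nat_lit 381) (nat_lit 278) (nat_lit 121)) (XT.lf (nat_lit 0) (nat_lit 214623503616) (nat_lit 152) (nat_lit 121182619145) (nat_lit 0) (nat_lit 156023513807) (nat_lit 4) (nat_lit 5) (nat_lit 6) (nat_lit 4) (nat_lit 4) (nat_lit 4) (nat_lit 382) (nat_lit 278) (nat_lit 120))) (XT.nd (nat_lit 32526) (nat_lit 0) (nat_lit 6536) (XT.lf (nat_lit 0) (nat_lit 238325386462) (nat_lit 152) (nat_lit 97566815032) (nat_lit 0) (nat_lit 179724143616) (nat_lit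 4) (nat_lit 5) (nat_lit 6) (nat_lit 4) (nat_lit 4) (nat_lit 4) (nat_lit 383) (nat_lit 278) (nat_lit 119)) (XT.lf (nat_lit 0) (nat_lit 4849611248) (nat_lit 684) (nat_lit 264987960) (nat_lit 684) (nat_lit 264987960) (nat_lit 90) (nat_lit 3) (nat_lit 99) (nat_lit 3) (nat_lit 99) (nat_lit 5) (nat_lit 279) (nat_lit 279) (nat_lit 222)))) (XT.nd (nat_lit 156) (nat_lit 0) (nat_lit 76) (XT.nd (nat_lit 78) (nat_lit 684) (nat_lit 0) (XT.lf (nat_lit 76) (nat_lit 4386106643) (nat_lit 0) (nat_lit 6169534900) (nat_lit 684) (nat_lit 440253144) (nat_lit 91) (nat_lit 5) (nat_lit 90) (nat_lit 3) (nat_lit 99) (nat_lit 5) (nat_lit 280) (nat_lit 279) (nat_lit 221)) (XT.lf (nat_lit 0) (nat_lit 176931223) (nat_lit 684) (nat_lit 1701312495) (nat_lit 760) (nat_lit 9367476506) (nat_lit 81) (nat_lit 5) (nat_lit 90) (nat_lit 3) (nat_lit 91) (nat_lit 5) (nat_lit 281) (nat_lit 279) (nat_lit 220))) (XT.nd (nat_lit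 78) (nat_lit 0) (nat_lit 0) (XT.lf (nat_lit 0) (nat_lit 873541492) (nat_lit 684) (nat_lit 8009648174) (nat_lit 760) (nat_lit 2621409101) (nat_lit 82) (nat_lit 5) (nat_lit 91) (nat_lit 5) (nat_lit 92) (nat_lit 5) (nat_lit 282) (nat_lit 279) (nat_lit 219)) (XT.nd (nat_lit 78) (nat_lit 0) (nat_lit 76) (XT.lf (nat_lit 0) (nat_lit 1632427472) (nat_lit 684) (nat_lit 2817090191) (nat_lit 760) (nat_lit 7325617693) (nat_lit 82) (nat_lit 5) (nat_lit 91) (nat_lit 5) (nat_lit 92) (nat_lit 5) (nat_lit 283) (nat_lit 279) (nat_lit 218)) (XT.lf (nat_lit 0) (nat_lit 2444439947) (nat_lit 684) (nat_lit 9361182255) (nat_lit 760) (nat_lit 252899725) (nat_lit 83) (nat_lit 5) (nat_lit 92) (nat_lit 5) (nat_lit 93) (nat_lit 5) (nat_lit 284) (nat_lit 279) (nat_lit 217)))))) (XT.nd (nat_lit 390) (nat_lit 988) (nat_lit 0) (XT.nd (nat_lit 156) (nat_lit 0) (nat_lit 76) (XT.nd (nat_lit 78) (nat_lit 0) (nat_lit 0)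 (XT.lf (nat_lit 0) (nat_lit 3388744188) (nat_lit 684) (nat_lit 3863477620) (nat_lit 760) (nat_lit 5099349811) (nat_lit 83) (nat_lit 5) (nat_lit 92) (nat_lit 5) (nat_lit 93) (nat_lit 5) (nat_lit 285) (nat_lit 279) (nat_lit 216)) (XT.lf (nat_lit 76) (nat_lit 1951226295) (nat_lit 0) (nat_lit 2431175105) (nat_lit 760) (nat_lit 8276840122) (nat_lit 84) (nat_lit 5) (nat_lit 83) (nat_lit 5) (nat_lit 93) (nat_lit 5) (nat_lit 286) (nat_lit 279) (nat_lit 215))) (XT.nd (nat_lit 78) (nat_lit 0) (nat_lit 0) (XT.lf (nat_lit 0) (nat_lit 5506143844) (nat_lit 684) (nat_lit 4851934102) (nat_lit 760) (nat_lit 2620267919) (nat_lit 84) (nat_lit 5) (nat_lit 93) (nat_lit 5) (nat_lit 94) (nat_lit 5) (nat_lit 287) (nat_lit 279) (nat_lit 214)) (XT.nd (nat_lit 78) (nat_lit 0) (nat_lit 0) (XT.lf (nat_lit 76) (nat_lit 1277450148) (nat_lit 0) (nat_lit 5442541064) (nat_lit 760) (nat_lit 6591786003) (nat_lit 85) (nat_lit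 5) (nat_lit 84) (nat_lit 5) (nat_lit 94) (nat_lit 5) (nat_lit 288) (nat_lit 279) (nat_lit 213)) (XT.lf (nat_lit 76) (nat_lit 7861550985) (nat_lit 0) (nat_lit 190184801) (nat_lit 760) (nat_lit 5607348561) (nat_lit 85) (nat_lit 5) (nat_lit 84) (nat_lit 5) (nat_lit 94) (nat_lit 5) (nat_lit 289) (nat_lit 279) (nat_lit 212))))) (XT.nd (nat_lit 156) (nat_lit 456) (nat_lit 0) (XT.nd (nat_lit 78) (nat_lit 0) (nat_lit 0) (XT.lf (nat_lit 0) (nat_lit 668811369) (nat_lit 684) (nat_lit 8851127760) (nat_lit 760) (nat_lit 4500385516) (nat_lit 76) (nat_lit 5) (nat_lit 85) (nat_lit 5) (nat_lit 86) (nat_lit 5) (nat_lit 290) (nat_lit 279) (nat_lit 211)) (XT.lf (nat_lit 0) (nat_lit 7636301428) (nat_lit 684) (nat_lit 3503610382) (nat_lit 760) (nat_lit 3255855653) (nat_lit 76) (nat_lit 5) (nat_lit 85) (nat_lit 5) (nat_lit 86) (nat_lit 5) (nat_lit 291) (nat_lit 279) (nat_lit 210))) (XT.nd (nat_lit 78) (nat_lit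 76) (nat_lit 0) (XT.lf (nat_lit 0) (nat_lit 112366498) (nat_lit 380) (nat_lit 12741471394) (nat_lit 456) (nat_lit 1935552472) (nat_lit 71) (nat_lit 5) (nat_lit 76) (nat_lit 5) (nat_lit 77) (nat_lit 5) (nat_lit 292) (nat_lit 279) (nat_lit 209)) (XT.nd (nat_lit 78) (nat_lit 76) (nat_lit 0) (XT.lf (nat_lit 0) (nat_lit 7483008108) (nat_lit 380) (nat_lit 7320396386) (nat_lit 456) (nat_lit 391845733) (nat_lit 71) (nat_lit 5) (nat_lit 76) (nat_lit 5) (nat_lit 77) (nat_lit 5) (nat_lit 293) (nat_lit 279) (nat_lit 208)) (XT.lf (nat_lit 0) (nat_lit 1169293268) (nat_lit 456) (nat_lit 438295770) (nat_lit 76) (nat_lit 14013923497) (nat_lit 70) (nat_lit 5) (nat_lit 76) (nat_lit 5) (nat_lit 71) (nat_lit 5) (nat_lit 294) (nat_lit 279) (nat_lit 207))))))) (XT.nd (nat_lit 780) (nat_lit 1064) (nat_lit 0) (XT.nd (nat_lit 390) (nat_lit 608) (nat_lit 0) (XT.nd (nat_lit 156) (nat_lit 608) (nat_lit 0) (XT.nd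 (nat_lit 78) (nat_lit 0) (nat_lit 0) (XT.lf (nat_lit 0) (nat_lit 2962150024) (nat_lit 456) (nat_lit 8723373110) (nat_lit 76) (nat_lit 4374947978) (nat_lit 65) (nat_lit 5) (nat_lit 71) (nat_lit 5) (nat_lit 66) (nat_lit 5) (nat_lit 295) (nat_lit 279) (nat_lit 206)) (XT.lf (nat_lit 0) (nat_lit 4859741957) (nat_lit 456) (nat_lit 1050624014) (nat_lit 76) (nat_lit 10610300655) (nat_lit 65) (nat_lit 5) (nat_lit 71) (nat_lit 5) (nat_lit 66) (nat_lit 5) (nat_lit 296) (nat_lit 279) (nat_lit 205))) (XT.nd (nat_lit 78) (nat_lit 304) (nat_lit 0) (XT.lf (nat_lit 0) (nat_lit 6951230466) (nat_lit 380) (nat_lit 9785305832) (nat_lit 76) (nat_lit 262426318) (nat_lit 61) (nat_lit 5) (nat_lit 66) (nat_lit 5) (nat_lit 62) (nat_lit 5) (nat_lit 297) (nat_lit 279) (nat_lit 204)) (XT.nd (nat_lit 78) (nat_lit 304) (nat_lit 0) (XT.lf (nat_lit 0) (nat_lit 9244908284) (nat_lit 380) (nat_lit 1689114712) (nat_lit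 76) (nat_lit 6562309237) (nat_lit 61) (nat_lit 5) (nat_lit 66) (nat_lit 5) (nat_lit 62) (nat_lit 5) (nat_lit 298) (nat_lit 279) (nat_lit 203)) (XT.lf (nat_lit 0) (nat_lit 7018153628) (nat_lit 304) (nat_lit 4728155245) (nat_lit 380) (nat_lit 6267647200) (nat_lit 57) (nat_lit 5) (nat_lit 61) (nat_lit 5) (nat_lit 62) (nat_lit 5) (nat_lit 299) (nat_lit 279) (nat_lit 202))))) (XT.nd (nat_lit 156) (nat_lit 380) (nat_lit 0) (XT.nd (nat_lit 78) (nat_lit 228) (nat_lit 0) (XT.lf (nat_lit 0) (nat_lit 14413709665) (nat_lit 380) (nat_lit 2383854506) (nat_lit 76) (nat_lit 1757886317) (nat_lit 57) (nat_lit 5) (nat_lit 62) (nat_lit 5) (nat_lit 58) (nat_lit 5) (nat_lit 300) (nat_lit 279) (nat_lit 201)) (XT.lf (nat_lit 0) (nat_lit 6780221321) (nat_lit 228) (nat_lit 10602332424) (nat_lit 304) (nat_lit 1733096398) (nat_lit 54) (nat_lit 5) (nat_lit 57) (nat_lit 5) (nat_lit 58) (nat_lit 5) (nat_lit 301)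 (nat_lit 279) (nat_lit 200))) (XT.nd (nat_lit 78) (nat_lit 304) (nat_lit 0) (XT.lf (nat_lit 0) (nat_lit 796419235) (nat_lit 304) (nat_lit 3247876787) (nat_lit 76) (nat_lit 15657677623) (nat_lit 53) (nat_lit 5) (nat_lit 57) (nat_lit 5) (nat_lit 54) (nat_lit 5) (nat_lit 302) (nat_lit 279) (nat_lit 199)) (XT.nd (nat_lit 78) (nat_lit 0) (nat_lit 0) (XT.lf (nat_lit 0) (nat_lit 3526985861) (nat_lit 380) (nat_lit 13903444891) (nat_lit 76) (nat_lit 2879150598) (nat_lit 49) (nat_lit 5) (nat_lit 54) (nat_lit 5) (nat_lit 50) (nat_lit 5) (nat_lit 303) (nat_lit 279) (nat_lit 198)) (XT.lf (nat_lit 0) (nat_lit 6502259611) (nat_lit 380) (nat_lit 4374152930) (nat_lit 76) (nat_lit 10065776080) (nat_lit 49) (nat_lit 5) (nat_lit 54) (nat_lit 5) (nat_lit 50) (nat_lit 5) (nat_lit 304) (nat_lit 279) (nat_lit 197)))))) (XT.nd (nat_lit 390) (nat_lit 380) (nat_lit 0) (XT.nd (nat_lit 156) (nat_lit 456) (nat_lit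 0) (XT.nd (nat_lit 78) (nat_lit 0) (nat_lit 0) (XT.lf (nat_lit 0) (nat_lit 5800354648) (nat_lit 228) (nat_lit 3903142936) (nat_lit 304) (nat_lit 11899095428) (nat_lit 46) (nat_lit 5) (nat_lit 49) (nat_lit 5) (nat_lit 50) (nat_lit 5) (nat_lit 305) (nat_lit 279) (nat_lit 196)) (XT.lf (nat_lit 0) (nat_lit 13180427650) (nat_lit 304) (nat_lit 5728698496) (nat_lit 76) (nat_lit 3381135475) (nat_lit 46) (nat_lit 5) (nat_lit 50) (nat_lit 5) (nat_lit 47) (nat_lit 5) (nat_lit 306) (nat_lit 279) (nat_lit 195))) (XT.nd (nat_lit 78) (nat_lit 228) (nat_lit 0) (XT.lf (nat_lit 0) (nat_lit 4925766943) (nat_lit 228) (nat_lit 12033909680) (nat_lit 304) (nat_lit 6046237711) (nat_lit 43) (nat_lit 5) (nat_lit 46) (nat_lit 5) (nat_lit 47) (nat_lit 5) (nat_lit 307) (nat_lit 279) (nat_lit 194)) (XT.nd (nat_lit 78) (nat_lit 228) (nat_lit 0) (XT.lf (nat_lit 0) (nat_lit 16295687205) (nat_lit 228) (nat_lit 4717139670)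 (nat_lit 304) (nat_lit 2740299001) (nat_lit 43) (nat_lit 5) (nat_lit 46) (nat_lit 5) (nat_lit 47) (nat_lit 5) (nat_lit 308) (nat_lit 279) (nat_lit 193)) (XT.lf (nat_lit 0) (nat_lit 802401391) (nat_lit 228) (nat_lit 20791648995) (nat_lit 76) (nat_lit 2938355032) (nat_lit 40) (nat_lit 5) (nat_lit 43) (nat_lit 5) (nat_lit 41) (nat_lit 5) (nat_lit 309) (nat_lit 279) (nat_lit 192))))) (XT.nd (nat_lit 156) (nat_lit 152) (nat_lit 0) (XT.nd (nat_lit 78) (nat_lit 228) (nat_lit 0) (XT.lf (nat_lit 0) (nat_lit 4624377070) (nat_lit 228) (nat_lit 9726956400) (nat_lit 76) (nat_lit 10987377692) (nat_lit 40) (nat_lit 5) (nat_lit 43) (nat_lit 5) (nat_lit 41) (nat_lit 5) (nat_lit 310) (nat_lit 279) (nat_lit 191)) (XT.lf (nat_lit 0) (nat_lit 1937688553) (nat_lit 228) (nat_lit 6719097990) (nat_lit 304) (nat_lit 17527597934) (nat_lit 37) (nat_lit 5) (nat_lit 40) (nat_lit 5) (nat_lit 41) (nat_lit 5) (nat_lit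 311) (nat_lit 279) (nat_lit 190))) (XT.nd (nat_lit 78) (nat_lit 152) (nat_lit 0) (XT.lf (nat_lit 0) (nat_lit 13067760476) (nat_lit 304) (nat_lit 12579290750) (nat_lit 76) (nat_lit 1416461160) (nat_lit 37) (nat_lit 5) (nat_lit 41) (nat_lit 5) (nat_lit 38) (nat_lit 5) (nat_lit 312) (nat_lit 279) (nat_lit 189)) (XT.nd (nat_lit 78) (nat_lit 152) (nat_lit 0) (XT.lf (nat_lit 0) (nat_lit 17799239972) (nat_lit 304) (nat_lit 453459108) (nat_lit 76) (nat_lit 9728917031) (nat_lit 37) (nat_lit 5) (nat_lit 41) (nat_lit 5) (nat_lit 38) (nat_lit 5) (nat_lit 313) (nat_lit 279) (nat_lit 188)) (XT.lf (nat_lit 0) (nat_lit 12670096182) (nat_lit 152) (nat_lit 10285306036) (nat_lit 228) (nat_lit 5980833809) (nat_lit 35) (nat_lit 5) (nat_lit 37) (nat_lit 5) (nat_lit 38) (nat_lit 5) (nat_lit 314) (nat_lit 279) (nat_lit 187))))))))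
noncomputable def xc163 : XT := (XT.nd (nat_lit 1482) (nat_lit 684) (nat_lit 0) (XT.nd (nat_lit 702) (nat_lit 456) (nat_lit 0) (XT.nd (nat_lit 312) (nat_lit 380) (nat_lit 0) (XT.nd (nat_lit 156) (nat_lit 152) (nat_lit 0) (XT.nd (nat_lit 78) (nat_lit 304) (nat_lit 0) (XT.lf (nat_lit 0) (nat_lit 26451709436) (nat_lit 152) (nat_lit 1915881552) (nat_lit 228) (nat_lit 1571100689) (nat_lit 35) (nat_lit 5) (nat_lit 37) (nat_lit 5) (nat_lit 38) (nat_lit 5) (nat_lit 315) (nat_lit 279) (nat_lit 186)) (XT.lf (nat_lit 0) (nat_lit 3221842755) (nat_lit 304) (nat_lit 20895818060) (nat_lit 76) (nat_lit 6858203698) (nat_lit 31) (nat_lit 5) (nat_lit 35) (nat_lit 5) (nat_lit 32) (nat_lit 5) (nat_lit 316) (nat_lit 279) (nat_lit 185))) (XT.nd (nat_lit 78) (nat_lit 152) (nat_lit 0) (XT.lf (nat_lit 0) (nat_lit 8284052113) (nat_lit 304) (nat_lit 7687283138) (nat_lit 76) (nat_lit 16088165578) (nat_lit 31) (nat_lit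 5) (nat_lit 35) (nat_lit 5) (nat_lit 32) (nat_lit 5) (nat_lit 317) (nat_lit 279) (nat_lit 184)) (XT.lf (nat_lit 0) (nat_lit 6372598795) (nat_lit 152) (nat_lit 7317684705) (nat_lit 228) (nat_lit 19502502766) (nat_lit 29) (nat_lit 5) (nat_lit 31) (nat_lit 5) (nat_lit 32) (nat_lit 5) (nat_lit 318) (nat_lit 279) (nat_lit 183)))) (XT.nd (nat_lit 156) (nat_lit 228) (nat_lit 0) (XT.nd (nat_lit 78) (nat_lit 152) (nat_lit 0) (XT.lf (nat_lit 0) (nat_lit 19518318278) (nat_lit 228) (nat_lit 13016808134) (nat_lit 76) (nat_lit 1840047241) (nat_lit 29) (nat_lit 5) (nat_lit 32) (nat_lit 5) (nat_lit 30) (nat_lit 5) (nat_lit 319) (nat_lit 279) (nat_lit 182)) (XT.lf (nat_lit 0) (nat_lit 1388658433) (nat_lit 152) (nat_lit 24382697517) (nat_lit 228) (nat_lit 9838656087) (nat_lit 27) (nat_lit 5) (nat_lit 29) (nat_lit 5) (nat_lit 30) (nat_lit 5) (nat_lit 320) (nat_lit 279) (nat_lit 181))) (XT.nd (nat_lit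 78) (nat_lit 228) (nat_lit 0) (XT.lf (nat_lit 0) (nat_lit 16953949751) (nat_lit 152) (nat_lit 15595689887) (nat_lit 228) (nat_lit 4346334126) (nat_lit 27) (nat_lit 5) (nat_lit 29) (nat_lit 5) (nat_lit 30) (nat_lit 5) (nat_lit 321) (nat_lit 279) (nat_lit 180)) (XT.nd (nat_lit 78) (nat_lit 152) (nat_lit 0) (XT.lf (nat_lit 0) (nat_lit 1367524968) (nat_lit 228) (nat_lit 4982943352) (nat_lit 76) (nat_lit 31895046907) (nat_lit 26) (nat_lit 5) (nat_lit 29) (nat_lit 5) (nat_lit 27) (nat_lit 5) (nat_lit 322) (nat_lit 279) (nat_lit 179)) (XT.lf (nat_lit 0) (nat_lit 7441726808) (nat_lit 228) (nat_lit 28713860538) (nat_lit 76) (nat_lit 3492357707) (nat_lit 24) (nat_lit 5) (nat_lit 27) (nat_lit 5) (nat_lit 25) (nat_lit 5) (nat_lit 323) (nat_lit 279) (nat_lit 178)))))) (XT.nd (nat_lit 390) (nat_lit 228) (nat_lit 0) (XT.nd (nat_lit 156) (nat_lit 76) (nat_lit 0) (XT.nd (nat_lit 78) (nat_lit 152) (nat_lit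 0) (XT.lf (nat_lit 0) (nat_lit 14002371935) (nat_lit 228) (nat_lit 13413381436) (nat_lit 76) (nat_lit 13695615495) (nat_lit 24) (nat_lit 5) (nat_lit 27) (nat_lit 5) (nat_lit 25) (nat_lit 5) (nat_lit 324) (nat_lit 279) (nat_lit 177)) (XT.lf (nat_lit 0) (nat_lit 2728424081) (nat_lit 152) (nat_lit 18198418994) (nat_lit 228) (nat_lit 21719339827) (nat_lit 22) (nat_lit 5) (nat_lit 24) (nat_lit 5) (nat_lit 25) (nat_lit 5) (nat_lit 325) (nat_lit 279) (nat_lit 176))) (XT.nd (nat_lit 78) (nat_lit 76) (nat_lit 0) (XT.lf (nat_lit 0) (nat_lit 20132155851) (nat_lit 152) (nat_lit 8285894124) (nat_lit 228) (nat_lit 15828670359) (nat_lit 22) (nat_lit 5) (nat_lit 24) (nat_lit 5) (nat_lit 25) (nat_lit 5) (nat_lit 326) (nat_lit 279) (nat_lit 175)) (XT.nd (nat_lit 78) (nat_lit 76) (nat_lit 0) (XT.lf (nat_lit 0) (nat_lit 36310555961) (nat_lit 228) (nat_lit 7564936828) (nat_lit 76) (nat_lit 2050462821) (nat_lit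 22) (nat_lit 5) (nat_lit 25) (nat_lit 5) (nat_lit 23) (nat_lit 4) (nat_lit 327) (nat_lit 279) (nat_lit 174)) (XT.lf (nat_lit 0) (nat_lit 9985860128) (nat_lit 76) (nat_lit 34897477623) (nat_lit 152) (nat_lit 2791539905) (nat_lit 21) (nat_lit 5) (nat_lit 22) (nat_lit 5) (nat_lit 23) (nat_lit 4) (nat_lit 328) (nat_lit 279) (nat_lit 173))))) (XT.nd (nat_lit 156) (nat_lit 152) (nat_lit 0) (XT.nd (nat_lit 78) (nat_lit 0) (nat_lit 0) (XT.lf (nat_lit 0) (nat_lit 4357688656) (nat_lit 152) (nat_lit 20908520763) (nat_lit 76) (nat_lit 24235421302) (nat_lit 20) (nat_lit 5) (nat_lit 22) (nat_lit 5) (nat_lit 21) (nat_lit 5) (nat_lit 329) (nat_lit 279) (nat_lit 172)) (XT.lf (nat_lit 0) (nat_lit 11764792626) (nat_lit 152) (nat_lit 3344411781) (nat_lit 76) (nat_lit 36308523989) (nat_lit 20) (nat_lit 5) (nat_lit 22) (nat_lit 5) (nat_lit 21) (nat_lit 5) (nat_lit 330) (nat_lit 279) (nat_lit 171))) (XT.nd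 (nat_lit 78) (nat_lit 0) (nat_lit 0) (XT.lf (nat_lit 0) (nat_lit 15587613463) (nat_lit 152) (nat_lit 4192507543) (nat_lit 228) (nat_lit 33637622685) (nat_lit 18) (nat_lit 5) (nat_lit 20) (nat_lit 5) (nat_lit 21) (nat_lit 5) (nat_lit 331) (nat_lit 279) (nat_lit 170)) (XT.nd (nat_lit 78) (nat_lit 0) (nat_lit 0) (XT.lf (nat_lit 0) (nat_lit 28361855254) (nat_lit 228) (nat_lit 20056270795) (nat_lit 76) (nat_lit 7091357631) (nat_lit 18) (nat_lit 5) (nat_lit 21) (nat_lit 5) (nat_lit 19) (nat_lit 4) (nat_lit 332) (nat_lit 279) (nat_lit 169)) (XT.lf (nat_lit 0) (nat_lit 37436230847) (nat_lit 228) (nat_lit 1471266533) (nat_lit 76) (nat_lit 18795141178) (nat_lit 18) (nat_lit 5) (nat_lit 21) (nat_lit 5) (nat_lit 19) (nat_lit 4) (nat_lit 333) (nat_lit 279) (nat_lit 168))))))) (XT.nd (nat_lit 780) (nat_lit 304) (nat_lit 0) (XT.nd (nat_lit 390) (nat_lit 76) (nat_lit 0) (XT.nd (nat_lit 156) (nat_lit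 228) (nat_lit 0) (XT.nd (nat_lit 78) (nat_lit 0) (nat_lit 0) (XT.lf (nat_lit 0) (nat_lit 18630894331) (nat_lit 76) (nat_lit 28619382794) (nat_lit 152) (nat_lit 12740881813) (nat_lit 17) (nat_lit 5) (nat_lit 18) (nat_lit 5) (nat_lit 19) (nat_lit 4) (nat_lit 334) (nat_lit 279) (nat_lit 167)) (XT.lf (nat_lit 0) (nat_lit 39780979169) (nat_lit 76) (nat_lit 17794140271) (nat_lit 152) (nat_lit 4817986308) (nat_lit 17) (nat_lit 5) (nat_lit 18) (nat_lit 5) (nat_lit 19) (nat_lit 4) (nat_lit 335) (nat_lit 279) (nat_lit 166))) (XT.nd (nat_lit 78) (nat_lit 152) (nat_lit 0) (XT.lf (nat_lit 0) (nat_lit 3384325156) (nat_lit 152) (nat_lit 2989271696) (nat_lit 76) (nat_lit 58539058270) (nat_lit 16) (nat_lit 5) (nat_lit 18) (nat_lit 5) (nat_lit 17) (nat_lit 5) (nat_lit 336) (nat_lit 279) (nat_lit 165)) (XT.nd (nat_lit 78) (nat_lit 0) (nat_lit 0) (XT.lf (nat_lit 0) (nat_lit 12206688638) (nat_lit 228) (nat_lit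 49526261906) (nat_lit 76) (nat_lit 5802694037) (nat_lit 14) (nat_lit 5) (nat_lit 17) (nat_lit 5) (nat_lit 15) (nat_lit 4) (nat_lit 337) (nat_lit 279) (nat_lit 164)) (XT.lf (nat_lit 0) (nat_lit 21621704512) (nat_lit 228) (nat_lit 30238512542) (nat_lit 76) (nat_lit 18421993942) (nat_lit 14) (nat_lit 5) (nat_lit 17) (nat_lit 5) (nat_lit 15) (nat_lit 4) (nat_lit 338) (nat_lit 279) (nat_lit 163))))) (XT.nd (nat_lit 156) (nat_lit 0) (nat_lit 0) (XT.nd (nat_lit 78) (nat_lit 76) (nat_lit 0) (XT.lf (nat_lit 0) (nat_lit 31503275320) (nat_lit 228) (nat_lit 9993704937) (nat_lit 76) (nat_lit 31669339263) (nat_lit 14) (nat_lit 5) (nat_lit 17) (nat_lit 5) (nat_lit 15) (nat_lit 4) (nat_lit 339) (nat_lit 279) (nat_lit 162)) (XT.lf (nat_lit 0) (nat_lit 11628549022) (nat_lit 76) (nat_lit 30427933827) (nat_lit 152) (nat_lit 34129276514) (nat_lit 13) (nat_lit 5) (nat_lit 14) (nat_lit 5) (nat_lit 15) (nat_lit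 4) (nat_lit 340) (nat_lit 279) (nat_lit 161))) (XT.nd (nat_lit 78) (nat_lit 0) (nat_lit 0) (XT.lf (nat_lit 0) (nat_lit 34672006917) (nat_lit 76) (nat_lit 18630679076) (nat_lit 152) (nat_lit 26045222070) (nat_lit 13) (nat_lit 5) (nat_lit 14) (nat_lit 5) (nat_lit 15) (nat_lit 4) (nat_lit 341) (nat_lit 279) (nat_lit 160)) (XT.nd (nat_lit 78) (nat_lit 0) (nat_lit 0) (XT.lf (nat_lit 0) (nat_lit 58861097104) (nat_lit 76) (nat_lit 6246375530) (nat_lit 152) (nat_lit 17560881345) (nat_lit 13) (nat_lit 5) (nat_lit 14) (nat_lit 5) (nat_lit 15) (nat_lit 4) (nat_lit 342) (nat_lit 279) (nat_lit 159)) (XT.lf (nat_lit 0) (nat_lit 77604405509) (nat_lit 152) (nat_lit 2007046383) (nat_lit 0) (nat_lit 6538278240) (nat_lit 13) (nat_lit 5) (nat_lit 15) (nat_lit 4) (nat_lit 13) (nat_lit 4) (nat_lit 343) (nat_lit 279) (nat_lit 158)))))) (XT.nd (nat_lit 390) (nat_lit 76) (nat_lit 0) (XT.nd (nat_lit 156) (nat_lit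 76) (nat_lit 0) (XT.nd (nat_lit 78) (nat_lit 0) (nat_lit 0) (XT.lf (nat_lit 0) (nat_lit 1332700029) (nat_lit 152) (nat_lit 68343354645) (nat_lit 76) (nat_lit 20106346016) (nat_lit 11) (nat_lit 5) (nat_lit 13) (nat_lit 5) (nat_lit 12) (nat_lit 4) (nat_lit 344) (nat_lit 279) (nat_lit 157)) (XT.lf (nat_lit 0) (nat_lit 11448586343) (nat_lit 152) (nat_lit 47614609069) (nat_lit 76) (nat_lit 34524950869) (nat_lit 11) (nat_lit 5) (nat_lit 13) (nat_lit 5) (nat_lit 12) (nat_lit 4) (nat_lit 345) (nat_lit 279) (nat_lit 156))) (XT.nd (nat_lit 78) (nat_lit 76) (nat_lit 0) (XT.lf (nat_lit 0) (nat_lit 22067021115) (nat_lit 152) (nat_lit 25855219088) (nat_lit 76) (nat_lit 49662103944) (nat_lit 11) (nat_lit 5) (nat_lit 13) (nat_lit 5) (nat_lit 12) (nat_lit 4) (nat_lit 346) (nat_lit 279) (nat_lit 155)) (XT.nd (nat_lit 78) (nat_lit 76) (nat_lit 0) (XT.lf (nat_lit 0) (nat_lit 33213286333) (nat_lit 152)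 (nat_lit 3013376631) (nat_lit 76) (nat_lit 65553846082) (nat_lit 11) (nat_lit 5) (nat_lit 13) (nat_lit 5) (nat_lit 12) (nat_lit 4) (nat_lit 347) (nat_lit 279) (nat_lit 154)) (XT.lf (nat_lit 0) (nat_lit 21658511261) (nat_lit 76) (nat_lit 23593559522) (nat_lit 152) (nat_lit 60917653563) (nat_lit 10) (nat_lit 5) (nat_lit 11) (nat_lit 5) (nat_lit 12) (nat_lit 4) (nat_lit 348) (nat_lit 279) (nat_lit 153))))) (XT.nd (nat_lit 156) (nat_lit 76) (nat_lit 0) (XT.nd (nat_lit 78) (nat_lit 0) (nat_lit 0) (XT.lf (nat_lit 0) (nat_lit 47663441620) (nat_lit 76) (nat_lit 10277501221) (nat_lit 152) (nat_lit 52835052484) (nat_lit 10) (nat_lit 5) (nat_lit 11) (nat_lit 5) (nat_lit 12) (nat_lit 4) (nat_lit 349) (nat_lit 279) (nat_lit 152)) (XT.lf (nat_lit 0) (nat_lit 71319312726) (nat_lit 152) (nat_lit 40706825799) (nat_lit 0) (nat_lit 3583690842) (nat_lit 10) (nat_lit 5) (nat_lit 12) (nat_lit 4) (nat_lit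 10) (nat_lit 4) (nat_lit 350) (nat_lit 279) (nat_lit 151))) (XT.nd (nat_lit 78) (nat_lit 76) (nat_lit 0) (XT.lf (nat_lit 0) (nat_lit 85532435952) (nat_lit 152) (nat_lit 17354084650) (nat_lit 0) (nat_lit 17790544886) (nat_lit 10) (nat_lit 5) (nat_lit 12) (nat_lit 4) (nat_lit 10) (nat_lit 4) (nat_lit 351) (nat_lit 279) (nat_lit 150)) (XT.nd (nat_lit 78) (nat_lit 0) (nat_lit 0) (XT.lf (nat_lit 0) (nat_lit 7398531310) (nat_lit 76) (nat_lit 93170673189) (nat_lit 76) (nat_lit 25422811474) (nat_lit 9) (nat_lit 4) (nat_lit 10) (nat_lit 5) (nat_lit 10) (nat_lit 4) (nat_lit 352) (nat_lit 279) (nat_lit 149)) (XT.lf (nat_lit 0) (nat_lit 33986784821) (nat_lit 76) (nat_lit 82662453885) (nat_lit 76) (nat_lit 14908905838) (nat_lit 9) (nat_lit 4) (nat_lit 10) (nat_lit 5) (nat_lit 10) (nat_lit 4) (nat_lit 353) (nat_lit 279) (nat_lit 148))))))))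
noncomputable def xc164 : XT := (XT.nd (nat_lit 1482) (nat_lit 76) (nat_lit 0) (XT.nd (nat_lit 702) (nat_lit 152) (nat_lit 0) (XT.nd (nat_lit 312) (nat_lit 76) (nat_lit 0) (XT.nd (nat_lit 156) (nat_lit 0) (nat_lit 0) (XT.nd (nat_lit 78) (nat_lit 76) (nat_lit 0) (XT.lf (nat_lit 0) (nat_lit 61900176835) (nat_lit 76) (nat_lit 71630742940) (nat_lit 76) (nat_lit 3871779339) (nat_lit 9) (nat_lit 4) (nat_lit 10) (nat_lit 5) (nat_lit 10) (nat_lit 4) (nat_lit 354) (nat_lit 279) (nat_lit 147)) (XT.lf (nat_lit 0) (nat_lit 7467923613) (nat_lit 152) (nat_lit 52454877863) (nat_lit 76) (nat_lit 83610771296) (nat_lit 8) (nat_lit 5) (nat_lit 10) (nat_lit 5) (nat_lit 9) (nat_lit 4) (nat_lit 355) (nat_lit 279) (nat_lit 146))) (XT.nd (nat_lit 78) (nat_lit 0) (nat_lit 0) (XT.lf (nat_lit 0) (nat_lit 19242322002) (nat_lit 152) (nat_lit 28322273234) (nat_lit 76) (nat_lit 102403331496) (nat_lit 8) (nat_lit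 5) (nat_lit 10) (nat_lit 5) (nat_lit 9) (nat_lit 4) (nat_lit 356) (nat_lit 279) (nat_lit 145)) (XT.lf (nat_lit 0) (nat_lit 31603371227) (nat_lit 152) (nat_lit 2986800483) (nat_lit 76) (nat_lit 122133931640) (nat_lit 8) (nat_lit 5) (nat_lit 10) (nat_lit 5) (nat_lit 9) (nat_lit 4) (nat_lit 357) (nat_lit 279) (nat_lit 144)))) (XT.nd (nat_lit 156) (nat_lit 0) (nat_lit 0) (XT.nd (nat_lit 78) (nat_lit 0) (nat_lit 0) (XT.lf (nat_lit 0) (nat_lit 24392577767) (nat_lit 76) (nat_lit 20568761089) (nat_lit 152) (nat_lit 118837808078) (nat_lit 7) (nat_lit 5) (nat_lit 8) (nat_lit 5) (nat_lit 9) (nat_lit 4) (nat_lit 358) (nat_lit 279) (nat_lit 143)) (XT.lf (nat_lit 0) (nat_lit 53241094727) (nat_lit 76) (nat_lit 5794761295) (nat_lit 152) (nat_lit 112189655485) (nat_lit 7) (nat_lit 5) (nat_lit 8) (nat_lit 5) (nat_lit 9) (nat_lit 4) (nat_lit 359) (nat_lit 279) (nat_lit 142))) (XT.nd (nat_lit 78) (nat_lit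 0) (nat_lit 0) (XT.lf (nat_lit 0) (nat_lit 73963959838) (nat_lit 152) (nat_lit 95646307929) (nat_lit 0) (nat_lit 9405434801) (nat_lit 7) (nat_lit 5) (nat_lit 9) (nat_lit 4) (nat_lit 7) (nat_lit 4) (nat_lit 360) (nat_lit 279) (nat_lit 141)) (XT.nd (nat_lit 78) (nat_lit 0) (nat_lit 0) (XT.lf (nat_lit 0) (nat_lit 89731690206) (nat_lit 152) (nat_lit 72289553439) (nat_lit 0) (nat_lit 25169499708) (nat_lit 7) (nat_lit 5) (nat_lit 9) (nat_lit 4) (nat_lit 7) (nat_lit 4) (nat_lit 361) (nat_lit 279) (nat_lit 140)) (XT.lf (nat_lit 0) (nat_lit 106286116877) (nat_lit 152) (nat_lit 47768069526) (nat_lit 0) (nat_lit 41720435465) (nat_lit 7) (nat_lit 5) (nat_lit 9) (nat_lit 4) (nat_lit 7) (nat_lit 4) (nat_lit 362) (nat_lit 279) (nat_lit 139)))))) (XT.nd (nat_lit 390) (nat_lit 76) (nat_lit 0) (XT.nd (nat_lit 156) (nat_lit 0) (nat_lit 0) (XT.nd (nat_lit 78) (nat_lit 76) (nat_lit 0) (XT.lf (nat_lit 0)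 (nat_lit 123666655153) (nat_lit 152) (nat_lit 22023471704) (nat_lit 0) (nat_lit 59097649060) (nat_lit 7) (nat_lit 5) (nat_lit 9) (nat_lit 4) (nat_lit 7) (nat_lit 4) (nat_lit 363) (nat_lit 279) (nat_lit 138)) (XT.lf (nat_lit 0) (nat_lit 5171042335) (nat_lit 76) (nat_lit 136824379396) (nat_lit 76) (nat_lit 72252206940) (nat_lit 6) (nat_lit 4) (nat_lit 7) (nat_lit 5) (nat_lit 7) (nat_lit 4) (nat_lit 364) (nat_lit 279) (nat_lit 137))) (XT.nd (nat_lit 78) (nat_lit 0) (nat_lit 0) (XT.lf (nat_lit 0) (nat_lit 34487113436) (nat_lit 76) (nat_lit 127124987973) (nat_lit 76) (nat_lit 62549799934) (nat_lit 6) (nat_lit 4) (nat_lit 7) (nat_lit 5) (nat_lit 7) (nat_lit 4) (nat_lit 365) (nat_lit 279) (nat_lit 136)) (XT.nd (nat_lit 78) (nat_lit 0) (nat_lit 0) (XT.lf (nat_lit 0) (nat_lit 65266346332) (nat_lit 76) (nat_lit 116941836949) (nat_lit 76) (nat_lit 52363776926) (nat_lit 6) (nat_lit 4) (nat_lit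 7) (nat_lit 5) (nat_lit 7) (nat_lit 4) (nat_lit 366) (nat_lit 279) (nat_lit 135)) (XT.lf (nat_lit 0) (nat_lit 97582024912) (nat_lit 76) (nat_lit 106250680728) (nat_lit 76) (nat_lit 41669885481) (nat_lit 6) (nat_lit 4) (nat_lit 7) (nat_lit 5) (nat_lit 7) (nat_lit 4) (nat_lit 367) (nat_lit 279) (nat_lit 134))))) (XT.nd (nat_lit 156) (nat_lit 76) (nat_lit 0) (XT.nd (nat_lit 78) (nat_lit 0) (nat_lit 0) (XT.lf (nat_lit 0) (nat_lit 131511091265) (nat_lit 76) (nat_lit 95026064175) (nat_lit 76) (nat_lit 30442663954) (nat_lit 6) (nat_lit 4) (nat_lit 7) (nat_lit 5) (nat_lit 7) (nat_lit 4) (nat_lit 368) (nat_lit 279) (nat_lit 133)) (XT.lf (nat_lit 0) (nat_lit 167134328885) (nat_lit 76) (nat_lit 83241262012) (nat_lit 76) (nat_lit 18655380863) (nat_lit 6) (nat_lit 4) (nat_lit 7) (nat_lit 5) (nat_lit 7) (nat_lit 4) (nat_lit 369) (nat_lit 279) (nat_lit 132))) (XT.nd (nat_lit 78) (nat_lit 76) (nat_lit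 0) (XT.lf (nat_lit 0) (nat_lit 204536555003) (nat_lit 76) (nat_lit 70868215187) (nat_lit 76) (nat_lit 6279971250) (nat_lit 6) (nat_lit 4) (nat_lit 7) (nat_lit 5) (nat_lit 7) (nat_lit 4) (nat_lit 370) (nat_lit 279) (nat_lit 131)) (XT.nd (nat_lit 78) (nat_lit 0) (nat_lit 0) (XT.lf (nat_lit 0) (nat_lit 6498171258) (nat_lit 152) (nat_lit 51269243131) (nat_lit 76) (nat_lit 237198601606) (nat_lit 5) (nat_lit 5) (nat_lit 7) (nat_lit 5) (nat_lit 6) (nat_lit 4) (nat_lit 371) (nat_lit 279) (nat_lit 130)) (XT.lf (nat_lit 0) (nat_lit 19703086039) (nat_lit 152) (nat_lit 24201310950) (nat_lit 76) (nat_lit 265001864795) (nat_lit 5) (nat_lit 5) (nat_lit 7) (nat_lit 5) (nat_lit 6) (nat_lit 4) (nat_lit 372) (nat_lit 279) (nat_lit 129))))))) (XT.nd (nat_lit 33384) (nat_lit 0) (nat_lit 5852) (XT.nd (nat_lit 390) (nat_lit 0) (nat_lit 0) (XT.nd (nat_lit 156) (nat_lit 0) (nat_lit 0) (XT.nd (nat_lit 78) (nat_lit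 0) (nat_lit 0) (XT.lf (nat_lit 0) (nat_lit 4357575133) (nat_lit 76) (nat_lit 29277670490) (nat_lit 152) (nat_lit 289904924941) (nat_lit 4) (nat_lit 5) (nat_lit 5) (nat_lit 5) (nat_lit 6) (nat_lit 4) (nat_lit 373) (nat_lit 279) (nat_lit 128)) (XT.lf (nat_lit 0) (nat_lit 35182738908) (nat_lit 76) (nat_lit 13490120202) (nat_lit 152) (nat_lit 290212474004) (nat_lit 4) (nat_lit 5) (nat_lit 5) (nat_lit 5) (nat_lit 6) (nat_lit 4) (nat_lit 374) (nat_lit 279) (nat_lit 127))) (XT.nd (nat_lit 78) (nat_lit 0) (nat_lit 0) (XT.lf (nat_lit 0) (nat_lit 64509567448) (nat_lit 152) (nat_lit 287498614567) (nat_lit 0) (nat_lit 2987211662) (nat_lit 4) (nat_lit 5) (nat_lit 6) (nat_lit 4) (nat_lit 4) (nat_lit 4) (nat_lit 375) (nat_lit 279) (nat_lit 126)) (XT.nd (nat_lit 78) (nat_lit 0) (nat_lit 0) (XT.lf (nat_lit 0) (nat_lit 81358327819) (nat_lit 152) (nat_lit 270707326344) (nat_lit 0) (nat_lit 19834292843)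 (nat_lit 4) (nat_lit 5) (nat_lit 6) (nat_lit 4) (nat_lit 4) (nat_lit 4) (nat_lit 376) (nat_lit 279) (nat_lit 125)) (XT.lf (nat_lit 0) (nat_lit 99048637735) (nat_lit 152) (nat_lit 253078131697) (nat_lit 0) (nat_lit 37523003532) (nat_lit 4) (nat_lit 5) (nat_lit 6) (nat_lit 4) (nat_lit 4) (nat_lit 4) (nat_lit 377) (nat_lit 279) (nat_lit 124))))) (XT.nd (nat_lit 156) (nat_lit 0) (nat_lit 0) (XT.nd (nat_lit 78) (nat_lit 0) (nat_lit 0) (XT.lf (nat_lit 0) (nat_lit 117622616984) (nat_lit 152) (nat_lit 234569056354) (nat_lit 0) (nat_lit 56095459706) (nat_lit 4) (nat_lit 5) (nat_lit 6) (nat_lit 4) (nat_lit 4) (nat_lit 4) (nat_lit 378) (nat_lit 279) (nat_lit 123)) (XT.lf (nat_lit 0) (nat_lit 137124489325) (nat_lit 152) (nat_lit 215136031086) (nat_lit 0) (nat_lit 75595881500) (nat_lit 4) (nat_lit 5) (nat_lit 6) (nat_lit 4) (nat_lit 4) (nat_lit 4) (nat_lit 379) (nat_lit 279) (nat_lit 122))) (XT.nd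 (nat_lit 78) (nat_lit 0) (nat_lit 0) (XT.lf (nat_lit 0) (nat_lit 157600687788) (nat_lit 152) (nat_lit 194732786787) (nat_lit 0) (nat_lit 96070698489) (nat_lit 4) (nat_lit 5) (nat_lit 6) (nat_lit 4) (nat_lit 4) (nat_lit 4) (nat_lit 380) (nat_lit 279) (nat_lit 121)) (XT.nd (nat_lit 78) (nat_lit 0) (nat_lit 0) (XT.lf (nat_lit 0) (nat_lit 179099965225) (nat_lit 152) (nat_lit 173310744303) (nat_lit 0) (nat_lit 117568660237) (nat_lit 4) (nat_lit 5) (nat_lit 6) (nat_lit 4) (nat_lit 4) (nat_lit 4) (nat_lit 381) (nat_lit 279) (nat_lit 120)) (XT.lf (nat_lit 0) (nat_lit 201673510394) (nat_lit 152) (nat_lit 150818898771) (nat_lit 0) (nat_lit 140140952368) (nat_lit 4) (nat_lit 5) (nat_lit 6) (nat_lit 4) (nat_lit 4) (nat_lit 4) (nat_lit 382) (nat_lit 279) (nat_lit 119)))))) (XT.nd (nat_lit 390) (nat_lit 0) (nat_lit 76) (XT.nd (nat_lit 156) (nat_lit 0) (nat_lit 0) (XT.nd (nat_lit 78) (nat_lit 0) (nat_lit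 0) (XT.lf (nat_lit 0) (nat_lit 4355128) (nat_lit 0) (nat_lit 4355128) (nat_lit 684) (nat_lit 5611457489) (nat_lit 81) (nat_lit 5) (nat_lit 81) (nat_lit 3) (nat_lit 90) (nat_lit 3) (nat_lit 280) (nat_lit 280) (nat_lit 220)) (XT.lf (nat_lit 0) (nat_lit 603705934) (nat_lit 684) (nat_lit 6339304499) (nat_lit 760) (nat_lit 4547691564) (nat_lit 81) (nat_lit 5) (nat_lit 90) (nat_lit 3) (nat_lit 91) (nat_lit 5) (nat_lit 281) (nat_lit 280) (nat_lit 219))) (XT.nd (nat_lit 78) (nat_lit 0) (nat_lit 76) (XT.lf (nat_lit 0) (nat_lit 1186898112) (nat_lit 684) (nat_lit 1220896516) (nat_lit 760) (nat_lit 9347498952) (nat_lit 81) (nat_lit 5) (nat_lit 90) (nat_lit 3) (nat_lit 91) (nat_lit 5) (nat_lit 282) (nat_lit 280) (nat_lit 218)) (XT.nd (nat_lit 78) (nat_lit 0) (nat_lit 0) (XT.lf (nat_lit 0) (nat_lit 1873017592) (nat_lit 684) (nat_lit 7796797545) (nat_lit 760) (nat_lit 2359693486) (nat_lit 82) (nat_lit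 5) (nat_lit 91) (nat_lit 5) (nat_lit 92) (nat_lit 5) (nat_lit 283) (nat_lit 280) (nat_lit 217)) (XT.lf (nat_lit 0) (nat_lit 2624333632) (nat_lit 684) (nat_lit 2373817997) (nat_lit 760) (nat_lit 7317816605) (nat_lit 82) (nat_lit 5) (nat_lit 91) (nat_lit 5) (nat_lit 92) (nat_lit 5) (nat_lit 284) (nat_lit 280) (nat_lit 216))))) (XT.nd (nat_lit 156) (nat_lit 0) (nat_lit 76) (XT.nd (nat_lit 78) (nat_lit 0) (nat_lit 76) (XT.lf (nat_lit 76) (nat_lit 3411409090) (nat_lit 0) (nat_lit 26880527) (nat_lit 760) (nat_lit 9177282120) (nat_lit 83) (nat_lit 5) (nat_lit 82) (nat_lit 5) (nat_lit 92) (nat_lit 5) (nat_lit 285) (nat_lit 280) (nat_lit 215)) (XT.lf (nat_lit 0) (nat_lit 4387903294) (nat_lit 684) (nat_lit 3460938738) (nat_lit 760) (nat_lit 5076636450) (nat_lit 83) (nat_lit 5) (nat_lit 92) (nat_lit 5) (nat_lit 93) (nat_lit 5) (nat_lit 286) (nat_lit 280) (nat_lit 214))) (XT.nd (nat_lit 78) (nat_lit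 0) (nat_lit 76) (XT.lf (nat_lit 76) (nat_lit 2634892102) (nat_lit 0) (nat_lit 2765991432) (nat_lit 760) (nat_lit 7849270415) (nat_lit 84) (nat_lit 5) (nat_lit 83) (nat_lit 5) (nat_lit 93) (nat_lit 5) (nat_lit 287) (nat_lit 280) (nat_lit 213)) (XT.nd (nat_lit 78) (nat_lit 0) (nat_lit 0) (XT.lf (nat_lit 0) (nat_lit 6539577242) (nat_lit 684) (nat_lit 4493117769) (nat_lit 760) (nat_lit 2554679413) (nat_lit 84) (nat_lit 5) (nat_lit 93) (nat_lit 5) (nat_lit 94) (nat_lit 5) (nat_lit 288) (nat_lit 280) (nat_lit 212)) (XT.lf (nat_lit 76) (nat_lit 1933035483) (nat_lit 0) (nat_lit 5854218543) (nat_lit 760) (nat_lit 6151660864) (nat_lit 85) (nat_lit 5) (nat_lit 84) (nat_lit 5) (nat_lit 94) (nat_lit 5) (nat_lit 289) (nat_lit 280) (nat_lit 211))))))))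
noncomputable def xc165 : XT := (XT.nd (nat_lit 1482) (nat_lit 1596) (nat_lit 0) (XT.nd (nat_lit 702) (nat_lit 1368) (nat_lit 0) (XT.nd (nat_lit 312) (nat_lit 760) (nat_lit 0) (XT.nd (nat_lit 156) (nat_lit 380) (nat_lit 0) (XT.nd (nat_lit 78) (nat_lit 608) (nat_lit 0) (XT.lf (nat_lit 76) (nat_lit 8818164561) (nat_lit 0) (nat_lit 332599208) (nat_lit 760) (nat_lit 5154654617) (nat_lit 85) (nat_lit 5) (nat_lit 84) (nat_lit 5) (nat_lit 94) (nat_lit 5) (nat_lit 290) (nat_lit 280) (nat_lit 210)) (XT.lf (nat_lit 0) (nat_lit 1294769757) (nat_lit 684) (nat_lit 9371718308) (nat_lit 760) (nat_lit 4019612721) (nat_lit 76) (nat_lit 5) (nat_lit 85) (nat_lit 5) (nat_lit 86) (nat_lit 5) (nat_lit 291) (nat_lit 280) (nat_lit 209))) (XT.nd (nat_lit 78) (nat_lit 380) (nat_lit 0) (XT.lf (nat_lit 0) (nat_lit 8582419185) (nat_lit 684) (nat_lit 3753109149) (nat_lit 760) (nat_lit 2746465510) (nat_lit 76) (nat_lit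 5) (nat_lit 85) (nat_lit 5) (nat_lit 86) (nat_lit 5) (nat_lit 292) (nat_lit 280) (nat_lit 208)) (XT.lf (nat_lit 0) (nat_lit 707348123) (nat_lit 380) (nat_lit 13405488626) (nat_lit 456) (nat_lit 1383654504) (nat_lit 71) (nat_lit 5) (nat_lit 76) (nat_lit 5) (nat_lit 77) (nat_lit 5) (nat_lit 293) (nat_lit 280) (nat_lit 207)))) (XT.nd (nat_lit 156) (nat_lit 304) (nat_lit 0) (XT.nd (nat_lit 78) (nat_lit 380) (nat_lit 0) (XT.lf (nat_lit 0) (nat_lit 199743825) (nat_lit 456) (nat_lit 7508950252) (nat_lit 76) (nat_lit 8215330311) (nat_lit 70) (nat_lit 5) (nat_lit 76) (nat_lit 5) (nat_lit 71) (nat_lit 5) (nat_lit 294) (nat_lit 280) (nat_lit 206)) (XT.lf (nat_lit 0) (nat_lit 97658231) (nat_lit 380) (nat_lit 1701160856) (nat_lit 456) (nat_lit 14573874234) (nat_lit 65) (nat_lit 5) (nat_lit 70) (nat_lit 5) (nat_lit 71) (nat_lit 5) (nat_lit 295) (nat_lit 280) (nat_lit 205))) (XT.nd (nat_lit 78) (nat_lit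 304) (nat_lit 0) (XT.lf (nat_lit 0) (nat_lit 3661114307) (nat_lit 456) (nat_lit 8584841105) (nat_lit 76) (nat_lit 4588718527) (nat_lit 65) (nat_lit 5) (nat_lit 71) (nat_lit 5) (nat_lit 66) (nat_lit 5) (nat_lit 296) (nat_lit 280) (nat_lit 204)) (XT.nd (nat_lit 78) (nat_lit 304) (nat_lit 0) (XT.lf (nat_lit 0) (nat_lit 5627354562) (nat_lit 456) (nat_lit 555821252) (nat_lit 76) (nat_lit 11136075831) (nat_lit 65) (nat_lit 5) (nat_lit 71) (nat_lit 5) (nat_lit 66) (nat_lit 5) (nat_lit 297) (nat_lit 280) (nat_lit 203)) (XT.lf (nat_lit 0) (nat_lit 7807318406) (nat_lit 380) (nat_lit 9709978988) (nat_lit 76) (nat_lit 305027949) (nat_lit 61) (nat_lit 5) (nat_lit 66) (nat_lit 5) (nat_lit 62) (nat_lit 5) (nat_lit 298) (nat_lit 280) (nat_lit 202)))))) (XT.nd (nat_lit 390) (nat_lit 760) (nat_lit 0) (XT.nd (nat_lit 156) (nat_lit 304) (nat_lit 0) (XT.nd (nat_lit 78) (nat_lit 304) (nat_lit 0) (XT.lf (nat_lit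 0) (nat_lit 10191464571) (nat_lit 380) (nat_lit 1235863652) (nat_lit 76) (nat_lit 6918501189) (nat_lit 61) (nat_lit 5) (nat_lit 66) (nat_lit 5) (nat_lit 62) (nat_lit 5) (nat_lit 299) (nat_lit 280) (nat_lit 201)) (XT.lf (nat_lit 0) (nat_lit 7898095415) (nat_lit 304) (nat_lit 4905037057) (nat_lit 380) (nat_lit 6086994674) (nat_lit 57) (nat_lit 5) (nat_lit 61) (nat_lit 5) (nat_lit 62) (nat_lit 5) (nat_lit 300) (nat_lit 280) (nat_lit 200))) (XT.nd (nat_lit 78) (nat_lit 304) (nat_lit 0) (XT.lf (nat_lit 0) (nat_lit 15582430883) (nat_lit 380) (nat_lit 1976731547) (nat_lit 76) (nat_lit 1900657535) (nat_lit 57) (nat_lit 5) (nat_lit 62) (nat_lit 5) (nat_lit 58) (nat_lit 5) (nat_lit 301) (nat_lit 280) (nat_lit 199)) (XT.nd (nat_lit 78) (nat_lit 76) (nat_lit 0) (XT.lf (nat_lit 0) (nat_lit 7637059109) (nat_lit 228) (nat_lit 11049407751) (nat_lit 304) (nat_lit 1362272939) (nat_lit 54) (nat_lit 5)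 (nat_lit 57) (nat_lit 5) (nat_lit 58) (nat_lit 5) (nat_lit 302) (nat_lit 280) (nat_lit 198)) (XT.lf (nat_lit 0) (nat_lit 1257988879) (nat_lit 304) (nat_lit 2902292479) (nat_lit 76) (nat_lit 16504838610) (nat_lit 53) (nat_lit 5) (nat_lit 57) (nat_lit 5) (nat_lit 54) (nat_lit 5) (nat_lit 303) (nat_lit 280) (nat_lit 197))))) (XT.nd (nat_lit 156) (nat_lit 456) (nat_lit 0) (XT.nd (nat_lit 78) (nat_lit 0) (nat_lit 0) (XT.lf (nat_lit 0) (nat_lit 4114213703) (nat_lit 380) (nat_lit 14078945116) (nat_lit 76) (nat_lit 3110533932) (nat_lit 49) (nat_lit 5) (nat_lit 54) (nat_lit 5) (nat_lit 50) (nat_lit 5) (nat_lit 304) (nat_lit 280) (nat_lit 196)) (XT.lf (nat_lit 0) (nat_lit 7218685496) (nat_lit 380) (nat_lit 4097934844) (nat_lit 76) (nat_lit 10652327555) (nat_lit 49) (nat_lit 5) (nat_lit 54) (nat_lit 5) (nat_lit 50) (nat_lit 5) (nat_lit 305) (nat_lit 280) (nat_lit 195))) (XT.nd (nat_lit 78) (nat_lit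 228) (nat_lit 0) (XT.lf (nat_lit 0) (nat_lit 6577315440) (nat_lit 228) (nat_lit 3991638526) (nat_lit 304) (nat_lit 12094007467) (nat_lit 46) (nat_lit 5) (nat_lit 49) (nat_lit 5) (nat_lit 50) (nat_lit 5) (nat_lit 306) (nat_lit 280) (nat_lit 194)) (XT.nd (nat_lit 78) (nat_lit 228) (nat_lit 0) (XT.lf (nat_lit 0) (nat_lit 14203207878) (nat_lit 304) (nat_lit 5534143894) (nat_lit 76) (nat_lit 3648523413) (nat_lit 46) (nat_lit 5) (nat_lit 50) (nat_lit 5) (nat_lit 47) (nat_lit 5) (nat_lit 307) (nat_lit 280) (nat_lit 193)) (XT.lf (nat_lit 0) (nat_lit 5645286922) (nat_lit 228) (nat_lit 12516198999) (nat_lit 304) (nat_lit 5976355164) (nat_lit 43) (nat_lit 5) (nat_lit 46) (nat_lit 5) (nat_lit 47) (nat_lit 5) (nat_lit 308) (nat_lit 280) (nat_lit 192))))))) (XT.nd (nat_lit 780) (nat_lit 684) (nat_lit 0) (XT.nd (nat_lit 390) (nat_lit 456) (nat_lit 0) (XT.nd (nat_lit 156) (nat_lit 228) (nat_lit 0)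 (XT.nd (nat_lit 78) (nat_lit 228) (nat_lit 0) (XT.lf (nat_lit 0) (nat_lit 17561168358) (nat_lit 228) (nat_lit 4839276497) (nat_lit 304) (nat_lit 2522843063) (nat_lit 43) (nat_lit 5) (nat_lit 46) (nat_lit 5) (nat_lit 47) (nat_lit 5) (nat_lit 309) (nat_lit 280) (nat_lit 191)) (XT.lf (nat_lit 0) (nat_lit 1178308470) (nat_lit 228) (nat_lit 21360650671) (nat_lit 76) (nat_lit 3202691782) (nat_lit 40) (nat_lit 5) (nat_lit 43) (nat_lit 5) (nat_lit 41) (nat_lit 5) (nat_lit 310) (nat_lit 280) (nat_lit 190))) (XT.nd (nat_lit 78) (nat_lit 228) (nat_lit 0) (XT.lf (nat_lit 0) (nat_lit 5175393075) (nat_lit 228) (nat_lit 9765132055) (nat_lit 76) (nat_lit 11648574194) (nat_lit 40) (nat_lit 5) (nat_lit 43) (nat_lit 5) (nat_lit 41) (nat_lit 5) (nat_lit 311) (nat_lit 280) (nat_lit 189)) (XT.nd (nat_lit 78) (nat_lit 0) (nat_lit 0) (XT.lf (nat_lit 0) (nat_lit 2475516562) (nat_lit 228) (nat_lit 6925562388)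 (nat_lit 304) (nat_lit 18076421107) (nat_lit 37) (nat_lit 5) (nat_lit 40) (nat_lit 5) (nat_lit 41) (nat_lit 5) (nat_lit 312) (nat_lit 280) (nat_lit 188)) (XT.lf (nat_lit 0) (nat_lit 14019695920) (nat_lit 304) (nat_lit 12774897654) (nat_lit 76) (nat_lit 1606661357) (nat_lit 37) (nat_lit 5) (nat_lit 41) (nat_lit 5) (nat_lit 38) (nat_lit 5) (nat_lit 313) (nat_lit 280) (nat_lit 187))))) (XT.nd (nat_lit 156) (nat_lit 304) (nat_lit 0) (XT.nd (nat_lit 78) (nat_lit 152) (nat_lit 0) (XT.lf (nat_lit 0) (nat_lit 18973532847) (nat_lit 304) (nat_lit 63410508) (nat_lit 76) (nat_lit 10329055396) (nat_lit 37) (nat_lit 5) (nat_lit 41) (nat_lit 5) (nat_lit 38) (nat_lit 5) (nat_lit 314) (nat_lit 280) (nat_lit 186)) (XT.lf (nat_lit 0) (nat_lit 13709665748) (nat_lit 152) (nat_lit 10670637700) (nat_lit 228) (nat_lit 5988429136) (nat_lit 35) (nat_lit 5) (nat_lit 37) (nat_lit 5) (nat_lit 38) (nat_lit 5) (nat_lit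 315) (nat_lit 280) (nat_lit 185))) (XT.nd (nat_lit 78) (nat_lit 304) (nat_lit 0) (XT.lf (nat_lit 0) (nat_lit 28161023248) (nat_lit 152) (nat_lit 1888881689) (nat_lit 228) (nat_lit 1372087758) (nat_lit 35) (nat_lit 5) (nat_lit 37) (nat_lit 5) (nat_lit 38) (nat_lit 5) (nat_lit 316) (nat_lit 280) (nat_lit 184)) (XT.nd (nat_lit 78) (nat_lit 0) (nat_lit 0) (XT.lf (nat_lit 0) (nat_lit 3646901106) (nat_lit 304) (nat_lit 21539466596) (nat_lit 76) (nat_lit 7324695493) (nat_lit 31) (nat_lit 5) (nat_lit 35) (nat_lit 5) (nat_lit 32) (nat_lit 5) (nat_lit 317) (nat_lit 280) (nat_lit 183)) (XT.lf (nat_lit 0) (nat_lit 8949651113) (nat_lit 304) (nat_lit 7689606945) (nat_lit 76) (nat_lit 17010270629) (nat_lit 31) (nat_lit 5) (nat_lit 35) (nat_lit 5) (nat_lit 32) (nat_lit 5) (nat_lit 318) (nat_lit 280) (nat_lit 182)))))) (XT.nd (nat_lit 390) (nat_lit 304) (nat_lit 0) (XT.nd (nat_lit 156) (nat_lit 228)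 (nat_lit 0) (XT.nd (nat_lit 78) (nat_lit 0) (nat_lit 0) (XT.lf (nat_lit 0) (nat_lit 7067107144) (nat_lit 152) (nat_lit 7552984184) (nat_lit 228) (nat_lit 20219710175) (nat_lit 29) (nat_lit 5) (nat_lit 31) (nat_lit 5) (nat_lit 32) (nat_lit 5) (nat_lit 319) (nat_lit 280) (nat_lit 181)) (XT.lf (nat_lit 0) (nat_lit 20729788903) (nat_lit 228) (nat_lit 13299587882) (nat_lit 76) (nat_lit 2052435535) (nat_lit 29) (nat_lit 5) (nat_lit 32) (nat_lit 5) (nat_lit 30) (nat_lit 5) (nat_lit 320) (nat_lit 280) (nat_lit 180))) (XT.nd (nat_lit 78) (nat_lit 76) (nat_lit 0) (XT.lf (nat_lit 0) (nat_lit 1820215552) (nat_lit 152) (nat_lit 25469699790) (nat_lit 228) (nat_lit 10088771737) (nat_lit 27) (nat_lit 5) (nat_lit 29) (nat_lit 5) (nat_lit 30) (nat_lit 5) (nat_lit 321) (nat_lit 280) (nat_lit 179)) (XT.nd (nat_lit 78) (nat_lit 76) (nat_lit 0) (XT.lf (nat_lit 0) (nat_lit 18146527426) (nat_lit 152) (nat_lit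 16249633806) (nat_lit 228) (nat_lit 4333348780) (nat_lit 27) (nat_lit 5) (nat_lit 29) (nat_lit 5) (nat_lit 30) (nat_lit 5) (nat_lit 322) (nat_lit 280) (nat_lit 178)) (XT.lf (nat_lit 0) (nat_lit 1648216405) (nat_lit 228) (nat_lit 4896331505) (nat_lit 76) (nat_lit 33602345725) (nat_lit 26) (nat_lit 5) (nat_lit 29) (nat_lit 5) (nat_lit 27) (nat_lit 5) (nat_lit 323) (nat_lit 280) (nat_lit 177))))) (XT.nd (nat_lit 156) (nat_lit 152) (nat_lit 0) (XT.nd (nat_lit 78) (nat_lit 0) (nat_lit 0) (XT.lf (nat_lit 0) (nat_lit 8023095757) (nat_lit 228) (nat_lit 29810493784) (nat_lit 76) (nat_lit 3786020449) (nat_lit 24) (nat_lit 5) (nat_lit 27) (nat_lit 5) (nat_lit 25) (nat_lit 5) (nat_lit 324) (nat_lit 280) (nat_lit 176)) (XT.lf (nat_lit 0) (nat_lit 14901807302) (nat_lit 228) (nat_lit 13761136431) (nat_lit 76) (nat_lit 14493772324) (nat_lit 24) (nat_lit 5) (nat_lit 27) (nat_lit 5) (nat_lit 25) (nat_lit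 5) (nat_lit 325) (nat_lit 280) (nat_lit 175))) (XT.nd (nat_lit 78) (nat_lit 0) (nat_lit 0) (XT.lf (nat_lit 0) (nat_lit 3182551071) (nat_lit 152) (nat_lit 18985419931) (nat_lit 228) (nat_lit 22600538505) (nat_lit 22) (nat_lit 5) (nat_lit 24) (nat_lit 5) (nat_lit 25) (nat_lit 5) (nat_lit 326) (nat_lit 280) (nat_lit 174)) (XT.nd (nat_lit 78) (nat_lit 0) (nat_lit 0) (XT.lf (nat_lit 0) (nat_lit 21441340582) (nat_lit 152) (nat_lit 8583122152) (nat_lit 228) (nat_lit 16425086436) (nat_lit 22) (nat_lit 5) (nat_lit 24) (nat_lit 5) (nat_lit 25) (nat_lit 5) (nat_lit 327) (nat_lit 280) (nat_lit 173)) (XT.lf (nat_lit 0) (nat_lit 38304500900) (nat_lit 228) (nat_lit 7647701402) (nat_lit 76) (nat_lit 2260909595) (nat_lit 22) (nat_lit 5) (nat_lit 25) (nat_lit 5) (nat_lit 23) (nat_lit 4) (nat_lit 328) (nat_lit 280) (nat_lit 172))))))))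
noncomputable def xc166 : XT := (XT.nd (nat_lit 1482) (nat_lit 380) (nat_lit 0) (XT.nd (nat_lit 702) (nat_lit 380) (nat_lit 0) (XT.nd (nat_lit 312) (nat_lit 152) (nat_lit 0) (XT.nd (nat_lit 156) (nat_lit 152) (nat_lit 0) (XT.nd (nat_lit 78) (nat_lit 76) (nat_lit 0) (XT.lf (nat_lit 0) (nat_lit 10775869560) (nat_lit 76) (nat_lit 36526095065) (nat_lit 152) (nat_lit 2747723785) (nat_lit 21) (nat_lit 5) (nat_lit 22) (nat_lit 5) (nat_lit 23) (nat_lit 4) (nat_lit 329) (nat_lit 280) (nat_lit 171)) (XT.lf (nat_lit 0) (nat_lit 4744642984) (nat_lit 152) (nat_lit 21671293207) (nat_lit 76) (nat_lit 25552131977) (nat_lit 20) (nat_lit 5) (nat_lit 22) (nat_lit 5) (nat_lit 21) (nat_lit 5) (nat_lit 330) (nat_lit 280) (nat_lit 170))) (XT.nd (nat_lit 78) (nat_lit 152) (nat_lit 0) (XT.lf (nat_lit 0) (nat_lit 12514051205) (nat_lit 152) (nat_lit 3242438470) (nat_lit 76) (nat_lit 38223892674) (nat_lit 20)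 (nat_lit 5) (nat_lit 22) (nat_lit 5) (nat_lit 21) (nat_lit 5) (nat_lit 331) (nat_lit 280) (nat_lit 169)) (XT.lf (nat_lit 0) (nat_lit 16631846198) (nat_lit 152) (nat_lit 4294767320) (nat_lit 228) (nat_lit 35153970159) (nat_lit 18) (nat_lit 5) (nat_lit 20) (nat_lit 5) (nat_lit 21) (nat_lit 5) (nat_lit 332) (nat_lit 280) (nat_lit 168)))) (XT.nd (nat_lit 156) (nat_lit 152) (nat_lit 0) (XT.nd (nat_lit 78) (nat_lit 0) (nat_lit 0) (XT.lf (nat_lit 0) (nat_lit 29931531578) (nat_lit 228) (nat_lit 20800776733) (nat_lit 76) (nat_lit 7544905732) (nat_lit 18) (nat_lit 5) (nat_lit 21) (nat_lit 5) (nat_lit 19) (nat_lit 4) (nat_lit 333) (nat_lit 280) (nat_lit 167)) (XT.lf (nat_lit 0) (nat_lit 39452407687) (nat_lit 228) (nat_lit 1298822619) (nat_lit 76) (nat_lit 19829165113) (nat_lit 18) (nat_lit 5) (nat_lit 21) (nat_lit 5) (nat_lit 19) (nat_lit 4) (nat_lit 334) (nat_lit 280) (nat_lit 166))) (XT.nd (nat_lit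 78) (nat_lit 76) (nat_lit 0) (XT.lf (nat_lit 0) (nat_lit 19804478429) (nat_lit 76) (nat_lit 29949582224) (nat_lit 152) (nat_lit 13229443413) (nat_lit 17) (nat_lit 5) (nat_lit 18) (nat_lit 5) (nat_lit 19) (nat_lit 4) (nat_lit 335) (nat_lit 280) (nat_lit 165)) (XT.nd (nat_lit 78) (nat_lit 76) (nat_lit 0) (XT.lf (nat_lit 0) (nat_lit 42000541824) (nat_lit 76) (nat_lit 18587876133) (nat_lit 152) (nat_lit 4917473727) (nat_lit 17) (nat_lit 5) (nat_lit 18) (nat_lit 5) (nat_lit 19) (nat_lit 4) (nat_lit 336) (nat_lit 280) (nat_lit 164)) (XT.lf (nat_lit 0) (nat_lit 3683908873) (nat_lit 152) (nat_lit 2914758888) (nat_lit 76) (nat_lit 61552972742) (nat_lit 16) (nat_lit 5) (nat_lit 18) (nat_lit 5) (nat_lit 17) (nat_lit 5) (nat_lit 337) (nat_lit 280) (nat_lit 163)))))) (XT.nd (nat_lit 390) (nat_lit 152) (nat_lit 0) (XT.nd (nat_lit 156) (nat_lit 76) (nat_lit 0) (XT.nd (nat_lit 78) (nat_lit 0) (nat_lit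 0) (XT.lf (nat_lit 0) (nat_lit 12946071357) (nat_lit 228) (nat_lit 51777156577) (nat_lit 76) (nat_lit 6182623602) (nat_lit 14) (nat_lit 5) (nat_lit 17) (nat_lit 5) (nat_lit 15) (nat_lit 4) (nat_lit 338) (nat_lit 280) (nat_lit 162)) (XT.lf (nat_lit 0) (nat_lit 22825692868) (nat_lit 228) (nat_lit 31535753955) (nat_lit 76) (nat_lit 19428612556) (nat_lit 14) (nat_lit 5) (nat_lit 17) (nat_lit 5) (nat_lit 15) (nat_lit 4) (nat_lit 339) (nat_lit 280) (nat_lit 161))) (XT.nd (nat_lit 78) (nat_lit 76) (nat_lit 0) (XT.lf (nat_lit 0) (nat_lit 33195489686) (nat_lit 228) (nat_lit 10288929028) (nat_lit 76) (nat_lit 33334252814) (nat_lit 14) (nat_lit 5) (nat_lit 17) (nat_lit 5) (nat_lit 15) (nat_lit 4) (nat_lit 340) (nat_lit 280) (nat_lit 160)) (XT.nd (nat_lit 78) (nat_lit 0) (nat_lit 0) (XT.lf (nat_lit 0) (nat_lit 12411139868) (nat_lit 76) (nat_lit 31862784610) (nat_lit 152) (nat_lit 35715285849) (nat_lit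 13) (nat_lit 5) (nat_lit 14) (nat_lit 5) (nat_lit 15) (nat_lit 4) (nat_lit 341) (nat_lit 280) (nat_lit 159)) (XT.lf (nat_lit 0) (nat_lit 36597191448) (nat_lit 76) (nat_lit 19479788355) (nat_lit 152) (nat_lit 27232764610) (nat_lit 13) (nat_lit 5) (nat_lit 14) (nat_lit 5) (nat_lit 15) (nat_lit 4) (nat_lit 342) (nat_lit 280) (nat_lit 158))))) (XT.nd (nat_lit 156) (nat_lit 152) (nat_lit 0) (XT.nd (nat_lit 78) (nat_lit 0) (nat_lit 0) (XT.lf (nat_lit 0) (nat_lit 61986613088) (nat_lit 76) (nat_lit 6480194616) (nat_lit 152) (nat_lit 18329669638) (nat_lit 13) (nat_lit 5) (nat_lit 14) (nat_lit 5) (nat_lit 15) (nat_lit 4) (nat_lit 343) (nat_lit 280) (nat_lit 157)) (XT.lf (nat_lit 0) (nat_lit 81584803917) (nat_lit 152) (nat_lit 1929751213) (nat_lit 0) (nat_lit 6937560923) (nat_lit 13) (nat_lit 5) (nat_lit 15) (nat_lit 4) (nat_lit 13) (nat_lit 4) (nat_lit 344) (nat_lit 280) (nat_lit 156))) (XT.nd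 (nat_lit 78) (nat_lit 0) (nat_lit 0) (XT.lf (nat_lit 0) (nat_lit 1499164931) (nat_lit 152) (nat_lit 71582356186) (nat_lit 76) (nat_lit 21184924956) (nat_lit 11) (nat_lit 5) (nat_lit 13) (nat_lit 5) (nat_lit 12) (nat_lit 4) (nat_lit 345) (nat_lit 280) (nat_lit 155)) (XT.nd (nat_lit 78) (nat_lit 0) (nat_lit 0) (XT.lf (nat_lit 0) (nat_lit 12116091756) (nat_lit 152) (nat_lit 49825657436) (nat_lit 76) (nat_lit 36320971402) (nat_lit 11) (nat_lit 5) (nat_lit 13) (nat_lit 5) (nat_lit 12) (nat_lit 4) (nat_lit 346) (nat_lit 280) (nat_lit 154)) (XT.lf (nat_lit 0) (nat_lit 23260920834) (nat_lit 152) (nat_lit 26986378056) (nat_lit 76) (nat_lit 52211659607) (nat_lit 11) (nat_lit 5) (nat_lit 13) (nat_lit 5) (nat_lit 12) (nat_lit 4) (nat_lit 347) (nat_lit 280) (nat_lit 153))))))) (XT.nd (nat_lit 780) (nat_lit 152) (nat_lit 0) (XT.nd (nat_lit 390) (nat_lit 152) (nat_lit 0) (XT.nd (nat_lit 156) (nat_lit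 0) (nat_lit 0) (XT.nd (nat_lit 78) (nat_lit 76) (nat_lit 0) (XT.lf (nat_lit 0) (nat_lit 34960187472) (nat_lit 152) (nat_lit 3010138808) (nat_lit 76) (nat_lit 68894824545) (nat_lit 11) (nat_lit 5) (nat_lit 13) (nat_lit 5) (nat_lit 12) (nat_lit 4) (nat_lit 348) (nat_lit 280) (nat_lit 152)) (XT.lf (nat_lit 0) (nat_lit 22892861113) (nat_lit 76) (nat_lit 24706307673) (nat_lit 152) (nat_lit 63874748641) (nat_lit 10) (nat_lit 5) (nat_lit 11) (nat_lit 5) (nat_lit 12) (nat_lit 4) (nat_lit 349) (nat_lit 280) (nat_lit 151))) (XT.nd (nat_lit 78) (nat_lit 0) (nat_lit 0) (XT.lf (nat_lit 0) (nat_lit 50190827310) (nat_lit 76) (nat_lit 10727633592) (nat_lit 152) (nat_lit 55392245489) (nat_lit 10) (nat_lit 5) (nat_lit 11) (nat_lit 5) (nat_lit 12) (nat_lit 4) (nat_lit 350) (nat_lit 280) (nat_lit 150)) (XT.nd (nat_lit 78) (nat_lit 0) (nat_lit 0) (XT.lf (nat_lit 0) (nat_lit 74962865144) (nat_lit 152) (nat_lit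 42601874606) (nat_lit 0) (nat_lit 3821639695) (nat_lit 10) (nat_lit 5) (nat_lit 12) (nat_lit 4) (nat_lit 10) (nat_lit 4) (nat_lit 351) (nat_lit 280) (nat_lit 149)) (XT.lf (nat_lit 0) (nat_lit 89882949922) (nat_lit 152) (nat_lit 18088176994) (nat_lit 0) (nat_lit 18736038140) (nat_lit 10) (nat_lit 5) (nat_lit 12) (nat_lit 4) (nat_lit 10) (nat_lit 4) (nat_lit 352) (nat_lit 280) (nat_lit 148))))) (XT.nd (nat_lit 156) (nat_lit 76) (nat_lit 0) (XT.nd (nat_lit 78) (nat_lit 0) (nat_lit 0) (XT.lf (nat_lit 0) (nat_lit 7899914734) (nat_lit 76) (nat_lit 97770175898) (nat_lit 76) (nat_lit 26617848562) (nat_lit 9) (nat_lit 4) (nat_lit 10) (nat_lit 5) (nat_lit 10) (nat_lit 4) (nat_lit 353) (nat_lit 280) (nat_lit 147)) (XT.lf (nat_lit 0) (nat_lit 35811321070) (nat_lit 76) (nat_lit 86739356626) (nat_lit 76) (nat_lit 15581871619) (nat_lit 9) (nat_lit 4) (nat_lit 10) (nat_lit 5) (nat_lit 10) (nat_lit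 4) (nat_lit 354) (nat_lit 280) (nat_lit 146))) (XT.nd (nat_lit 78) (nat_lit 76) (nat_lit 0) (XT.lf (nat_lit 0) (nat_lit 65114420922) (nat_lit 76) (nat_lit 75158737275) (nat_lit 76) (nat_lit 3996340200) (nat_lit 9) (nat_lit 4) (nat_lit 10) (nat_lit 5) (nat_lit 10) (nat_lit 4) (nat_lit 355) (nat_lit 280) (nat_lit 145)) (XT.nd (nat_lit 78) (nat_lit 0) (nat_lit 0) (XT.lf (nat_lit 0) (nat_lit 7904956723) (nat_lit 152) (nat_lit 54961913951) (nat_lit 76) (nat_lit 87840152587) (nat_lit 8) (nat_lit 5) (nat_lit 10) (nat_lit 5) (nat_lit 9) (nat_lit 4) (nat_lit 356) (nat_lit 280) (nat_lit 144)) (XT.lf (nat_lit 0) (nat_lit 20265044701) (nat_lit 152) (nat_lit 29628188986) (nat_lit 76) (nat_lit 107570014953) (nat_lit 8) (nat_lit 5) (nat_lit 10) (nat_lit 5) (nat_lit 9) (nat_lit 4) (nat_lit 357) (nat_lit 280) (nat_lit 143)))))) (XT.nd (nat_lit 390) (nat_lit 76) (nat_lit 0) (XT.nd (nat_lit 156) (nat_lit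 0) (nat_lit 0) (XT.nd (nat_lit 78) (nat_lit 76) (nat_lit 0) (XT.lf (nat_lit 0) (nat_lit 33241260359) (nat_lit 152) (nat_lit 3031190117) (nat_lit 76) (nat_lit 128284930014) (nat_lit 8) (nat_lit 5) (nat_lit 10) (nat_lit 5) (nat_lit 9) (nat_lit 4) (nat_lit 358) (nat_lit 280) (nat_lit 142)) (XT.lf (nat_lit 0) (nat_lit 25715464297) (nat_lit 76) (nat_lit 21550525615) (nat_lit 152) (nat_lit 124720245164) (nat_lit 7) (nat_lit 5) (nat_lit 8) (nat_lit 5) (nat_lit 9) (nat_lit 4) (nat_lit 359) (nat_lit 280) (nat_lit 141))) (XT.nd (nat_lit 78) (nat_lit 0) (nat_lit 0) (XT.lf (nat_lit 0) (nat_lit 56001490075) (nat_lit 76) (nat_lit 6040048379) (nat_lit 152) (nat_lit 117742516052) (nat_lit 7) (nat_lit 5) (nat_lit 8) (nat_lit 5) (nat_lit 9) (nat_lit 4) (nat_lit 360) (nat_lit 280) (nat_lit 140)) (XT.nd (nat_lit 78) (nat_lit 0) (nat_lit 0) (XT.lf (nat_lit 0) (nat_lit 77714142245) (nat_lit 152) (nat_lit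 100333024104) (nat_lit 0) (nat_lit 9916685847) (nat_lit 7) (nat_lit 5) (nat_lit 9) (nat_lit 4) (nat_lit 7) (nat_lit 4) (nat_lit 361) (nat_lit 280) (nat_lit 139)) (XT.lf (nat_lit 0) (nat_lit 94267783683) (nat_lit 152) (nat_lit 75812984233) (nat_lit 0) (nat_lit 26467002604) (nat_lit 7) (nat_lit 5) (nat_lit 9) (nat_lit 4) (nat_lit 7) (nat_lit 4) (nat_lit 362) (nat_lit 280) (nat_lit 138))))) (XT.nd (nat_lit 156) (nat_lit 76) (nat_lit 0) (XT.nd (nat_lit 78) (nat_lit 0) (nat_lit 0) (XT.lf (nat_lit 0) (nat_lit 111647574118) (nat_lit 152) (nat_lit 50069761690) (nat_lit 0) (nat_lit 43843626676) (nat_lit 7) (nat_lit 5) (nat_lit 9) (nat_lit 4) (nat_lit 7) (nat_lit 4) (nat_lit 363) (nat_lit 280) (nat_lit 137)) (XT.lf (nat_lit 0) (nat_lit 129894894003) (nat_lit 152) (nat_lit 23042063087) (nat_lit 0) (nat_lit 62087930979) (nat_lit 7) (nat_lit 5) (nat_lit 9) (nat_lit 4) (nat_lit 7) (nat_lit 4) (nat_lit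 364) (nat_lit 280) (nat_lit 136))) (XT.nd (nat_lit 78) (nat_lit 0) (nat_lit 0) (XT.lf (nat_lit 0) (nat_lit 5510844683) (nat_lit 76) (nat_lit 143628384385) (nat_lit 76) (nat_lit 75818549376) (nat_lit 6) (nat_lit 4) (nat_lit 7) (nat_lit 5) (nat_lit 7) (nat_lit 4) (nat_lit 365) (nat_lit 280) (nat_lit 135)) (XT.nd (nat_lit 78) (nat_lit 0) (nat_lit 0) (XT.lf (nat_lit 0) (nat_lit 36288850281) (nat_lit 76) (nat_lit 133445795485) (nat_lit 76) (nat_lit 65633225253) (nat_lit 6) (nat_lit 4) (nat_lit 7) (nat_lit 5) (nat_lit 7) (nat_lit 4) (nat_lit 366) (nat_lit 280) (nat_lit 134)) (XT.lf (nat_lit 0) (nat_lit 68603360004) (nat_lit 76) (nat_lit 122755174619) (nat_lit 76) (nat_lit 54939999413) (nat_lit 6) (nat_lit 4) (nat_lit 7) (nat_lit 5) (nat_lit 7) (nat_lit 4) (nat_lit 367) (nat_lit 280) (nat_lit 133))))))))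
noncomputable def xc167 : XT := (XT.nd (nat_lit 34242) (nat_lit 0) (nat_lit 3420) (XT.nd (nat_lit 780) (nat_lit 0) (nat_lit 0) (XT.nd (nat_lit 390) (nat_lit 76) (nat_lit 0) (XT.nd (nat_lit 156) (nat_lit 76) (nat_lit 0) (XT.nd (nat_lit 78) (nat_lit 0) (nat_lit 0) (XT.lf (nat_lit 0) (nat_lit 102531313162) (nat_lit 76) (nat_lit 111531067928) (nat_lit 76) (nat_lit 43713411794) (nat_lit 6) (nat_lit 4) (nat_lit 7) (nat_lit 5) (nat_lit 7) (nat_lit 4) (nat_lit 368) (nat_lit 280) (nat_lit 132)) (XT.lf (nat_lit 0) (nat_lit 138153490595) (nat_lit 76) (nat_lit 99746751349) (nat_lit 76) (nat_lit 31926732426) (nat_lit 6) (nat_lit 4) (nat_lit 7) (nat_lit 5) (nat_lit 7) (nat_lit 4) (nat_lit 369) (nat_lit 280) (nat_lit 131))) (XT.nd (nat_lit 78) (nat_lit 76) (nat_lit 0) (XT.lf (nat_lit 0) (nat_lit 175554707012) (nat_lit 76) (nat_lit 87374166985) (nat_lit 76) (nat_lit 19551897787) (nat_lit 6) (nat_lit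 4) (nat_lit 7) (nat_lit 5) (nat_lit 7) (nat_lit 4) (nat_lit 370) (nat_lit 280) (nat_lit 130)) (XT.nd (nat_lit 78) (nat_lit 76) (nat_lit 0) (XT.lf (nat_lit 0) (nat_lit 214824012927) (nat_lit 76) (nat_lit 74383856301) (nat_lit 76) (nat_lit 6559443984) (nat_lit 6) (nat_lit 4) (nat_lit 7) (nat_lit 5) (nat_lit 7) (nat_lit 4) (nat_lit 371) (nat_lit 280) (nat_lit 129)) (XT.lf (nat_lit 0) (nat_lit 6854909141) (nat_lit 152) (nat_lit 53773889642) (nat_lit 76) (nat_lit 249083906344) (nat_lit 5) (nat_lit 5) (nat_lit 7) (nat_lit 5) (nat_lit 6) (nat_lit 4) (nat_lit 372) (nat_lit 280) (nat_lit 128))))) (XT.nd (nat_lit 156) (nat_lit 0) (nat_lit 0) (XT.nd (nat_lit 78) (nat_lit 76) (nat_lit 0) (XT.lf (nat_lit 0) (nat_lit 20718553978) (nat_lit 152) (nat_lit 25355361596) (nat_lit 76) (nat_lit 278276124375) (nat_lit 5) (nat_lit 5) (nat_lit 7) (nat_lit 5) (nat_lit 6) (nat_lit 4) (nat_lit 373) (nat_lit 280)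 (nat_lit 127)) (XT.lf (nat_lit 0) (nat_lit 4630565324) (nat_lit 76) (nat_lit 30716173155) (nat_lit 152) (nat_lit 304368935760) (nat_lit 4) (nat_lit 5) (nat_lit 5) (nat_lit 5) (nat_lit 6) (nat_lit 4) (nat_lit 374) (nat_lit 280) (nat_lit 126))) (XT.nd (nat_lit 78) (nat_lit 0) (nat_lit 0) (XT.lf (nat_lit 0) (nat_lit 36994362934) (nat_lit 76) (nat_lit 14140453964) (nat_lit 152) (nat_lit 304693349677) (nat_lit 4) (nat_lit 5) (nat_lit 5) (nat_lit 5) (nat_lit 6) (nat_lit 4) (nat_lit 375) (nat_lit 280) (nat_lit 125)) (XT.nd (nat_lit 78) (nat_lit 0) (nat_lit 0) (XT.lf (nat_lit 0) (nat_lit 67762371754) (nat_lit 152) (nat_lit 301822552078) (nat_lit 0) (nat_lit 3158856612) (nat_lit 4) (nat_lit 5) (nat_lit 6) (nat_lit 4) (nat_lit 4) (nat_lit 4) (nat_lit 376) (nat_lit 280) (nat_lit 124)) (XT.lf (nat_lit 0) (nat_lit 85452268908) (nat_lit 152) (nat_lit 284194127693) (nat_lit 0) (nat_lit 20847230691)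 (nat_lit 4) (nat_lit 5) (nat_lit 6) (nat_lit 4) (nat_lit 4) (nat_lit 4) (nat_lit 377) (nat_lit 280) (nat_lit 123)))))) (XT.nd (nat_lit 33072) (nat_lit 0) (nat_lit 5852) (XT.nd (nat_lit 156) (nat_lit 0) (nat_lit 0) (XT.nd (nat_lit 78) (nat_lit 0) (nat_lit 0) (XT.lf (nat_lit 0) (nat_lit 104025855049) (nat_lit 152) (nat_lit 265685785931) (nat_lit 0) (nat_lit 39419366285) (nat_lit 4) (nat_lit 5) (nat_lit 6) (nat_lit 4) (nat_lit 4) (nat_lit 4) (nat_lit 378) (nat_lit 280) (nat_lit 122)) (XT.lf (nat_lit 0) (nat_lit 123527353002) (nat_lit 152) (nat_lit 246253459314) (nat_lit 0) (nat_lit 58919482765) (nat_lit 4) (nat_lit 5) (nat_lit 6) (nat_lit 4) (nat_lit 4) (nat_lit 4) (nat_lit 379) (nat_lit 280) (nat_lit 121))) (XT.nd (nat_lit 78) (nat_lit 0) (nat_lit 0) (XT.lf (nat_lit 0) (nat_lit 144003194905) (nat_lit 152) (nat_lit 225850880395) (nat_lit 0) (nat_lit 79394008978) (nat_lit 4) (nat_lit 5)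 (nat_lit 6) (nat_lit 4) (nat_lit 4) (nat_lit 4) (nat_lit 380) (nat_lit 280) (nat_lit 120)) (XT.nd (nat_lit 78) (nat_lit 0) (nat_lit 0) (XT.lf (nat_lit 0) (nat_lit 165502132761) (nat_lit 152) (nat_lit 204429471607) (nat_lit 0) (nat_lit 100891693797) (nat_lit 4) (nat_lit 5) (nat_lit 6) (nat_lit 4) (nat_lit 4) (nat_lit 4) (nat_lit 381) (nat_lit 280) (nat_lit 119)) (XT.lf (nat_lit 0) (nat_lit 188075354519) (nat_lit 152) (nat_lit 181938229595) (nat_lit 0) (nat_lit 123463722186) (nat_lit 4) (nat_lit 5) (nat_lit 6) (nat_lit 4) (nat_lit 4) (nat_lit 4) (nat_lit 382) (nat_lit 280) (nat_lit 118))))) (XT.nd (nat_lit 156) (nat_lit 0) (nat_lit 0) (XT.nd (nat_lit 78) (nat_lit 0) (nat_lit 0) (XT.lf (nat_lit 0) (nat_lit 256822125) (nat_lit 0) (nat_lit 256822125) (nat_lit 684) (nat_lit 5360978638) (nat_lit 81) (nat_lit 5) (nat_lit 81) (nat_lit 3) (nat_lit 90) (nat_lit 3) (nat_lit 281) (nat_lit 281) (nat_lit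 218)) (XT.lf (nat_lit 0) (nat_lit 1587339162) (nat_lit 684) (nat_lit 6117715815) (nat_lit 760) (nat_lit 4309979590) (nat_lit 81) (nat_lit 5) (nat_lit 90) (nat_lit 3) (nat_lit 91) (nat_lit 5) (nat_lit 282) (nat_lit 281) (nat_lit 217))) (XT.nd (nat_lit 78) (nat_lit 0) (nat_lit 76) (XT.lf (nat_lit 0) (nat_lit 2154288667) (nat_lit 684) (nat_lit 769032858) (nat_lit 760) (nat_lit 9371924802) (nat_lit 81) (nat_lit 5) (nat_lit 90) (nat_lit 3) (nat_lit 91) (nat_lit 5) (nat_lit 283) (nat_lit 281) (nat_lit 216)) (XT.nd (nat_lit 78) (nat_lit 0) (nat_lit 0) (XT.lf (nat_lit 0) (nat_lit 2833606363) (nat_lit 684) (nat_lit 7630326277) (nat_lit 760) (nat_lit 2121409615) (nat_lit 82) (nat_lit 5) (nat_lit 91) (nat_lit 5) (nat_lit 92) (nat_lit 5) (nat_lit 284) (nat_lit 281) (nat_lit 215)) (XT.lf (nat_lit 0) (nat_lit 3581205448) (nat_lit 684) (nat_lit 1962688758) (nat_lit 760) (nat_lit 7344404060) (nat_lit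 82) (nat_lit 5) (nat_lit 91) (nat_lit 5) (nat_lit 92) (nat_lit 5) (nat_lit 285) (nat_lit 281) (nat_lit 214))))))) (XT.nd (nat_lit 780) (nat_lit 1596) (nat_lit 0) (XT.nd (nat_lit 390) (nat_lit 912) (nat_lit 0) (XT.nd (nat_lit 156) (nat_lit 0) (nat_lit 76) (XT.nd (nat_lit 78) (nat_lit 0) (nat_lit 76) (XT.lf (nat_lit 76) (nat_lit 4103254197) (nat_lit 0) (nat_lit 301426682) (nat_lit 760) (nat_lit 8799864059) (nat_lit 83) (nat_lit 5) (nat_lit 82) (nat_lit 5) (nat_lit 92) (nat_lit 5) (nat_lit 286) (nat_lit 281) (nat_lit 213)) (XT.lf (nat_lit 0) (nat_lit 5359880679) (nat_lit 684) (nat_lit 3093656638) (nat_lit 760) (nat_lit 5078603553) (nat_lit 83) (nat_lit 5) (nat_lit 92) (nat_lit 5) (nat_lit 93) (nat_lit 5) (nat_lit 287) (nat_lit 281) (nat_lit 212))) (XT.nd (nat_lit 78) (nat_lit 0) (nat_lit 76) (XT.lf (nat_lit 76) (nat_lit 3298250760) (nat_lit 0) (nat_lit 3097721908) (nat_lit 760) (nat_lit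 7478548708) (nat_lit 84) (nat_lit 5) (nat_lit 83) (nat_lit 5) (nat_lit 93) (nat_lit 5) (nat_lit 288) (nat_lit 281) (nat_lit 211)) (XT.nd (nat_lit 78) (nat_lit 0) (nat_lit 0) (XT.lf (nat_lit 0) (nat_lit 7554198922) (nat_lit 684) (nat_lit 4172274303) (nat_lit 760) (nat_lit 2504089662) (nat_lit 84) (nat_lit 5) (nat_lit 93) (nat_lit 5) (nat_lit 94) (nat_lit 5) (nat_lit 289) (nat_lit 281) (nat_lit 210)) (XT.lf (nat_lit 76) (nat_lit 2566388236) (nat_lit 0) (nat_lit 6273505820) (nat_lit 760) (nat_lit 5761090220) (nat_lit 85) (nat_lit 5) (nat_lit 84) (nat_lit 5) (nat_lit 94) (nat_lit 5) (nat_lit 290) (nat_lit 281) (nat_lit 209))))) (XT.nd (nat_lit 156) (nat_lit 456) (nat_lit 0) (XT.nd (nat_lit 78) (nat_lit 608) (nat_lit 0) (XT.lf (nat_lit 76) (nat_lit 9770216578) (nat_lit 0) (nat_lit 469778073) (nat_lit 760) (nat_lit 4747479075) (nat_lit 85) (nat_lit 5) (nat_lit 84) (nat_lit 5) (nat_lit 94)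 (nat_lit 5) (nat_lit 291) (nat_lit 281) (nat_lit 208)) (XT.lf (nat_lit 0) (nat_lit 1896939374) (nat_lit 684) (nat_lit 9911083507) (nat_lit 760) (nat_lit 3580419142) (nat_lit 76) (nat_lit 5) (nat_lit 85) (nat_lit 5) (nat_lit 86) (nat_lit 5) (nat_lit 292) (nat_lit 281) (nat_lit 207))) (XT.nd (nat_lit 78) (nat_lit 456) (nat_lit 0) (XT.lf (nat_lit 0) (nat_lit 9523379315) (nat_lit 684) (nat_lit 4008173447) (nat_lit 760) (nat_lit 2274099058) (nat_lit 76) (nat_lit 5) (nat_lit 85) (nat_lit 5) (nat_lit 86) (nat_lit 5) (nat_lit 293) (nat_lit 281) (nat_lit 206)) (XT.nd (nat_lit 78) (nat_lit 76) (nat_lit 0) (XT.lf (nat_lit 0) (nat_lit 1277285416) (nat_lit 380) (nat_lit 14100201752) (nat_lit 456) (nat_lit 864469345) (nat_lit 71) (nat_lit 5) (nat_lit 76) (nat_lit 5) (nat_lit 77) (nat_lit 5) (nat_lit 294) (nat_lit 281) (nat_lit 205)) (XT.lf (nat_lit 0) (nat_lit 752146671) (nat_lit 456) (nat_lit 7356070987)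 (nat_lit 76) (nat_lit 8583609279) (nat_lit 70) (nat_lit 5) (nat_lit 76) (nat_lit 5) (nat_lit 71) (nat_lit 5) (nat_lit 295) (nat_lit 281) (nat_lit 204)))))) (XT.nd (nat_lit 390) (nat_lit 912) (nat_lit 0) (XT.nd (nat_lit 156) (nat_lit 304) (nat_lit 0) (XT.nd (nat_lit 78) (nat_lit 0) (nat_lit 0) (XT.lf (nat_lit 0) (nat_lit 622346521) (nat_lit 380) (nat_lit 1791115476) (nat_lit 456) (nat_lit 14750413855) (nat_lit 65) (nat_lit 5) (nat_lit 70) (nat_lit 5) (nat_lit 71) (nat_lit 5) (nat_lit 296) (nat_lit 281) (nat_lit 203)) (XT.lf (nat_lit 0) (nat_lit 4343813363) (nat_lit 456) (nat_lit 8492812720) (nat_lit 76) (nat_lit 4813640304) (nat_lit 65) (nat_lit 5) (nat_lit 71) (nat_lit 5) (nat_lit 66) (nat_lit 5) (nat_lit 297) (nat_lit 281) (nat_lit 202))) (XT.nd (nat_lit 78) (nat_lit 304) (nat_lit 0) (XT.lf (nat_lit 0) (nat_lit 6384573090) (nat_lit 456) (nat_lit 87164277) (nat_lit 76) (nat_lit 11688580432)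 (nat_lit 65) (nat_lit 5) (nat_lit 71) (nat_lit 5) (nat_lit 66) (nat_lit 5) (nat_lit 298) (nat_lit 281) (nat_lit 201)) (XT.nd (nat_lit 78) (nat_lit 0) (nat_lit 0) (XT.lf (nat_lit 0) (nat_lit 8658932777) (nat_lit 380) (nat_lit 9683376227) (nat_lit 76) (nat_lit 347018862) (nat_lit 61) (nat_lit 5) (nat_lit 66) (nat_lit 5) (nat_lit 62) (nat_lit 5) (nat_lit 299) (nat_lit 281) (nat_lit 200)) (XT.lf (nat_lit 0) (nat_lit 11140322038) (nat_lit 380) (nat_lit 809940921) (nat_lit 76) (nat_lit 7289892453) (nat_lit 61) (nat_lit 5) (nat_lit 66) (nat_lit 5) (nat_lit 62) (nat_lit 5) (nat_lit 300) (nat_lit 281) (nat_lit 199))))) (XT.nd (nat_lit 156) (nat_lit 608) (nat_lit 0) (XT.nd (nat_lit 78) (nat_lit 0) (nat_lit 0) (XT.lf (nat_lit 0) (nat_lit 8772849714) (nat_lit 304) (nat_lit 5096297119) (nat_lit 380) (nat_lit 5943240204) (nat_lit 57) (nat_lit 5) (nat_lit 61) (nat_lit 5) (nat_lit 62) (nat_lit 5) (nat_lit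 301) (nat_lit 281) (nat_lit 198)) (XT.lf (nat_lit 0) (nat_lit 16767934047) (nat_lit 380) (nat_lit 1598184284) (nat_lit 76) (nat_lit 2045465380) (nat_lit 57) (nat_lit 5) (nat_lit 62) (nat_lit 5) (nat_lit 58) (nat_lit 5) (nat_lit 302) (nat_lit 281) (nat_lit 197))) (XT.nd (nat_lit 78) (nat_lit 380) (nat_lit 0) (XT.lf (nat_lit 0) (nat_lit 8488596165) (nat_lit 228) (nat_lit 11526557236) (nat_lit 304) (nat_lit 1015440302) (nat_lit 54) (nat_lit 5) (nat_lit 57) (nat_lit 5) (nat_lit 58) (nat_lit 5) (nat_lit 303) (nat_lit 281) (nat_lit 196)) (XT.nd (nat_lit 78) (nat_lit 304) (nat_lit 0) (XT.lf (nat_lit 0) (nat_lit 1703426811) (nat_lit 304) (nat_lit 2586655949) (nat_lit 76) (nat_lit 17388381770) (nat_lit 53) (nat_lit 5) (nat_lit 57) (nat_lit 5) (nat_lit 54) (nat_lit 5) (nat_lit 304) (nat_lit 281) (nat_lit 195)) (XT.lf (nat_lit 0) (nat_lit 4692603345) (nat_lit 380) (nat_lit 14311534531) (nat_lit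 76) (nat_lit 3345358410) (nat_lit 49) (nat_lit 5) (nat_lit 54) (nat_lit 5) (nat_lit 50) (nat_lit 5) (nat_lit 305) (nat_lit 281) (nat_lit 194))))))))
noncomputable def xc168 : XT := (XT.nd (nat_lit 1482) (nat_lit 988) (nat_lit 0) (XT.nd (nat_lit 702) (nat_lit 836) (nat_lit 0) (XT.nd (nat_lit 312) (nat_lit 456) (nat_lit 0) (XT.nd (nat_lit 156) (nat_lit 228) (nat_lit 0) (XT.nd (nat_lit 78) (nat_lit 228) (nat_lit 0) (XT.lf (nat_lit 0) (nat_lit 7934552110) (nat_lit 380) (nat_lit 3853919357) (nat_lit 76) (nat_lit 11260465630) (nat_lit 49) (nat_lit 5) (nat_lit 54) (nat_lit 5) (nat_lit 50) (nat_lit 5) (nat_lit 306) (nat_lit 281) (nat_lit 193)) (XT.lf (nat_lit 0) (nat_lit 7347852922) (nat_lit 228) (nat_lit 4094475275) (nat_lit 304) (nat_lit 12335857290) (nat_lit 46) (nat_lit 5) (nat_lit 49) (nat_lit 5) (nat_lit 50) (nat_lit 5) (nat_lit 307) (nat_lit 281) (nat_lit 192))) (XT.nd (nat_lit 78) (nat_lit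 228) (nat_lit 0) (XT.lf (nat_lit 0) (nat_lit 15243308268) (nat_lit 304) (nat_lit 5374579408) (nat_lit 76) (nat_lit 3920138847) (nat_lit 46) (nat_lit 5) (nat_lit 50) (nat_lit 5) (nat_lit 47) (nat_lit 5) (nat_lit 308) (nat_lit 281) (nat_lit 191)) (XT.lf (nat_lit 0) (nat_lit 6356786308) (nat_lit 228) (nat_lit 13033704039) (nat_lit 304) (nat_lit 5937581600) (nat_lit 43) (nat_lit 5) (nat_lit 46) (nat_lit 5) (nat_lit 47) (nat_lit 5) (nat_lit 309) (nat_lit 281) (nat_lit 190)))) (XT.nd (nat_lit 156) (nat_lit 228) (nat_lit 0) (XT.nd (nat_lit 78) (nat_lit 228) (nat_lit 0) (XT.lf (nat_lit 0) (nat_lit 18848022053) (nat_lit 228) (nat_lit 4978092788) (nat_lit 304) (nat_lit 2327469671) (nat_lit 43) (nat_lit 5) (nat_lit 46) (nat_lit 5) (nat_lit 47) (nat_lit 5) (nat_lit 310) (nat_lit 281) (nat_lit 189)) (XT.lf (nat_lit 0) (nat_lit 1541792609) (nat_lit 228) (nat_lit 22001852571) (nat_lit 76) (nat_lit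 3469328864) (nat_lit 40) (nat_lit 5) (nat_lit 43) (nat_lit 5) (nat_lit 41) (nat_lit 5) (nat_lit 311) (nat_lit 281) (nat_lit 188))) (XT.nd (nat_lit 78) (nat_lit 228) (nat_lit 0) (XT.lf (nat_lit 0) (nat_lit 5724228172) (nat_lit 228) (nat_lit 9846883292) (nat_lit 76) (nat_lit 12332433850) (nat_lit 40) (nat_lit 5) (nat_lit 43) (nat_lit 5) (nat_lit 41) (nat_lit 5) (nat_lit 312) (nat_lit 281) (nat_lit 187)) (XT.nd (nat_lit 78) (nat_lit 0) (nat_lit 0) (XT.lf (nat_lit 0) (nat_lit 2999241218) (nat_lit 228) (nat_lit 7154388806) (nat_lit 304) (nat_lit 18683138558) (nat_lit 37) (nat_lit 5) (nat_lit 40) (nat_lit 5) (nat_lit 41) (nat_lit 5) (nat_lit 313) (nat_lit 281) (nat_lit 186)) (XT.lf (nat_lit 0) (nat_lit 14991472026) (nat_lit 304) (nat_lit 13020574388) (nat_lit 76) (nat_lit 1795273009) (nat_lit 37) (nat_lit 5) (nat_lit 41) (nat_lit 5) (nat_lit 38) (nat_lit 5) (nat_lit 314) (nat_lit 281) (nat_lit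 185)))))) (XT.nd (nat_lit 390) (nat_lit 380) (nat_lit 0) (XT.nd (nat_lit 156) (nat_lit 304) (nat_lit 0) (XT.nd (nat_lit 78) (nat_lit 0) (nat_lit 0) (XT.lf (nat_lit 0) (nat_lit 317945836) (nat_lit 152) (nat_lit 19867124164) (nat_lit 228) (nat_lit 10635648816) (nat_lit 35) (nat_lit 5) (nat_lit 37) (nat_lit 5) (nat_lit 38) (nat_lit 5) (nat_lit 315) (nat_lit 281) (nat_lit 184)) (XT.lf (nat_lit 0) (nat_lit 14763461739) (nat_lit 152) (nat_lit 11087222975) (nat_lit 228) (nat_lit 6023500150) (nat_lit 35) (nat_lit 5) (nat_lit 37) (nat_lit 5) (nat_lit 38) (nat_lit 5) (nat_lit 316) (nat_lit 281) (nat_lit 183))) (XT.nd (nat_lit 78) (nat_lit 304) (nat_lit 0) (XT.lf (nat_lit 0) (nat_lit 29919848415) (nat_lit 152) (nat_lit 1871948049) (nat_lit 228) (nat_lit 1188929820) (nat_lit 35) (nat_lit 5) (nat_lit 37) (nat_lit 5) (nat_lit 38) (nat_lit 5) (nat_lit 317) (nat_lit 281) (nat_lit 182)) (XT.nd (nat_lit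 78) (nat_lit 0) (nat_lit 0) (XT.lf (nat_lit 0) (nat_lit 4068671299) (nat_lit 304) (nat_lit 22252591973) (nat_lit 76) (nat_lit 7803022432) (nat_lit 31) (nat_lit 5) (nat_lit 35) (nat_lit 5) (nat_lit 32) (nat_lit 5) (nat_lit 318) (nat_lit 281) (nat_lit 181)) (XT.lf (nat_lit 0) (nat_lit 9625157609) (nat_lit 304) (nat_lit 7727565433) (nat_lit 76) (nat_lit 17967538603) (nat_lit 31) (nat_lit 5) (nat_lit 35) (nat_lit 5) (nat_lit 32) (nat_lit 5) (nat_lit 319) (nat_lit 281) (nat_lit 180))))) (XT.nd (nat_lit 156) (nat_lit 228) (nat_lit 0) (XT.nd (nat_lit 78) (nat_lit 0) (nat_lit 0) (XT.lf (nat_lit 0) (nat_lit 7761395298) (nat_lit 152) (nat_lit 7812189170) (nat_lit 228) (nat_lit 20996756700) (nat_lit 29) (nat_lit 5) (nat_lit 31) (nat_lit 5) (nat_lit 32) (nat_lit 5) (nat_lit 320) (nat_lit 281) (nat_lit 179)) (XT.lf (nat_lit 0) (nat_lit 21979933414) (nat_lit 228) (nat_lit 13630725409) (nat_lit 76)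 (nat_lit 2264250901) (nat_lit 29) (nat_lit 5) (nat_lit 32) (nat_lit 5) (nat_lit 30) (nat_lit 5) (nat_lit 321) (nat_lit 281) (nat_lit 178))) (XT.nd (nat_lit 78) (nat_lit 76) (nat_lit 0) (XT.lf (nat_lit 0) (nat_lit 2239683650) (nat_lit 152) (nat_lit 26623336614) (nat_lit 228) (nat_lit 10373875036) (nat_lit 27) (nat_lit 5) (nat_lit 29) (nat_lit 5) (nat_lit 30) (nat_lit 5) (nat_lit 322) (nat_lit 281) (nat_lit 177)) (XT.nd (nat_lit 78) (nat_lit 76) (nat_lit 0) (XT.lf (nat_lit 0) (nat_lit 19366670294) (nat_lit 152) (nat_lit 16947974386) (nat_lit 228) (nat_lit 4341125469) (nat_lit 27) (nat_lit 5) (nat_lit 29) (nat_lit 5) (nat_lit 30) (nat_lit 5) (nat_lit 323) (nat_lit 281) (nat_lit 176)) (XT.lf (nat_lit 0) (nat_lit 1923203360) (nat_lit 228) (nat_lit 4836604756) (nat_lit 76) (nat_lit 35384545979) (nat_lit 26) (nat_lit 5) (nat_lit 29) (nat_lit 5) (nat_lit 27) (nat_lit 5) (nat_lit 324) (nat_lit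 281) (nat_lit 175))))))) (XT.nd (nat_lit 780) (nat_lit 380) (nat_lit 0) (XT.nd (nat_lit 390) (nat_lit 304) (nat_lit 0) (XT.nd (nat_lit 156) (nat_lit 152) (nat_lit 0) (XT.nd (nat_lit 78) (nat_lit 0) (nat_lit 0) (XT.lf (nat_lit 0) (nat_lit 8614076040) (nat_lit 228) (nat_lit 30993481257) (nat_lit 76) (nat_lit 4083298666) (nat_lit 24) (nat_lit 5) (nat_lit 27) (nat_lit 5) (nat_lit 25) (nat_lit 5) (nat_lit 325) (nat_lit 281) (nat_lit 174)) (XT.lf (nat_lit 0) (nat_lit 15827683853) (nat_lit 228) (nat_lit 14156300666) (nat_lit 76) (nat_lit 15321296363) (nat_lit 24) (nat_lit 5) (nat_lit 27) (nat_lit 5) (nat_lit 25) (nat_lit 5) (nat_lit 326) (nat_lit 281) (nat_lit 173))) (XT.nd (nat_lit 78) (nat_lit 0) (nat_lit 0) (XT.lf (nat_lit 0) (nat_lit 3629847137) (nat_lit 152) (nat_lit 19823198853) (nat_lit 228) (nat_lit 23544834533) (nat_lit 22) (nat_lit 5) (nat_lit 24) (nat_lit 5) (nat_lit 25) (nat_lit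 5) (nat_lit 327) (nat_lit 281) (nat_lit 172)) (XT.nd (nat_lit 78) (nat_lit 0) (nat_lit 0) (XT.lf (nat_lit 0) (nat_lit 22787853814) (nat_lit 152) (nat_lit 8906095331) (nat_lit 228) (nat_lit 17069454189) (nat_lit 22) (nat_lit 5) (nat_lit 24) (nat_lit 5) (nat_lit 25) (nat_lit 5) (nat_lit 328) (nat_lit 281) (nat_lit 171)) (XT.lf (nat_lit 0) (nat_lit 40381555552) (nat_lit 228) (nat_lit 7762075344) (nat_lit 76) (nat_lit 2471844990) (nat_lit 22) (nat_lit 5) (nat_lit 25) (nat_lit 5) (nat_lit 23) (nat_lit 4) (nat_lit 329) (nat_lit 281) (nat_lit 170))))) (XT.nd (nat_lit 156) (nat_lit 152) (nat_lit 0) (XT.nd (nat_lit 78) (nat_lit 76) (nat_lit 0) (XT.lf (nat_lit 0) (nat_lit 11578351405) (nat_lit 76) (nat_lit 38246951800) (nat_lit 152) (nat_lit 2718767013) (nat_lit 21) (nat_lit 5) (nat_lit 22) (nat_lit 5) (nat_lit 23) (nat_lit 4) (nat_lit 330) (nat_lit 281) (nat_lit 169)) (XT.lf (nat_lit 0) (nat_lit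 5135226512) (nat_lit 152) (nat_lit 22498482725) (nat_lit 76) (nat_lit 26924921895) (nat_lit 20) (nat_lit 5) (nat_lit 22) (nat_lit 5) (nat_lit 21) (nat_lit 5) (nat_lit 331) (nat_lit 281) (nat_lit 168))) (XT.nd (nat_lit 78) (nat_lit 152) (nat_lit 0) (XT.lf (nat_lit 0) (nat_lit 13285802697) (nat_lit 152) (nat_lit 3160393592) (nat_lit 76) (nat_lit 40225738089) (nat_lit 20) (nat_lit 5) (nat_lit 22) (nat_lit 5) (nat_lit 21) (nat_lit 5) (nat_lit 332) (nat_lit 281) (nat_lit 167)) (XT.nd (nat_lit 78) (nat_lit 0) (nat_lit 0) (XT.lf (nat_lit 0) (nat_lit 17703667136) (nat_lit 152) (nat_lit 4412121921) (nat_lit 228) (nat_lit 36761524758) (nat_lit 18) (nat_lit 5) (nat_lit 20) (nat_lit 5) (nat_lit 21) (nat_lit 5) (nat_lit 333) (nat_lit 281) (nat_lit 166)) (XT.lf (nat_lit 0) (nat_lit 31565598916) (nat_lit 228) (nat_lit 21606522959) (nat_lit 76) (nat_lit 8011928996) (nat_lit 18) (nat_lit 5) (nat_lit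 21) (nat_lit 5) (nat_lit 19) (nat_lit 4) (nat_lit 334) (nat_lit 281) (nat_lit 165)))))) (XT.nd (nat_lit 390) (nat_lit 76) (nat_lit 0) (XT.nd (nat_lit 156) (nat_lit 228) (nat_lit 0) (XT.nd (nat_lit 78) (nat_lit 76) (nat_lit 0) (XT.lf (nat_lit 0) (nat_lit 41555971651) (nat_lit 228) (nat_lit 1140627931) (nat_lit 76) (nat_lit 20906126204) (nat_lit 18) (nat_lit 5) (nat_lit 21) (nat_lit 5) (nat_lit 19) (nat_lit 4) (nat_lit 335) (nat_lit 281) (nat_lit 164)) (XT.lf (nat_lit 0) (nat_lit 21014239204) (nat_lit 76) (nat_lit 31355660238) (nat_lit 152) (nat_lit 13756237587) (nat_lit 17) (nat_lit 5) (nat_lit 18) (nat_lit 5) (nat_lit 19) (nat_lit 4) (nat_lit 336) (nat_lit 281) (nat_lit 163))) (XT.nd (nat_lit 78) (nat_lit 228) (nat_lit 0) (XT.lf (nat_lit 0) (nat_lit 44309651634) (nat_lit 76) (nat_lit 19430221276) (nat_lit 152) (nat_lit 5035082655) (nat_lit 17) (nat_lit 5) (nat_lit 18) (nat_lit 5) (nat_lit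 19) (nat_lit 4) (nat_lit 337) (nat_lit 281) (nat_lit 162)) (XT.nd (nat_lit 78) (nat_lit 152) (nat_lit 0) (XT.lf (nat_lit 0) (nat_lit 3986351446) (nat_lit 152) (nat_lit 2857343642) (nat_lit 76) (nat_lit 64709498076) (nat_lit 16) (nat_lit 5) (nat_lit 18) (nat_lit 5) (nat_lit 17) (nat_lit 5) (nat_lit 338) (nat_lit 281) (nat_lit 161)) (XT.lf (nat_lit 0) (nat_lit 13710425526) (nat_lit 228) (nat_lit 54161553250) (nat_lit 76) (nat_lit 6573201371) (nat_lit 14) (nat_lit 5) (nat_lit 17) (nat_lit 5) (nat_lit 15) (nat_lit 4) (nat_lit 339) (nat_lit 281) (nat_lit 160))))) (XT.nd (nat_lit 156) (nat_lit 76) (nat_lit 0) (XT.nd (nat_lit 78) (nat_lit 0) (nat_lit 0) (XT.lf (nat_lit 0) (nat_lit 24078454275) (nat_lit 228) (nat_lit 32917816743) (nat_lit 76) (nat_lit 20477611364) (nat_lit 14) (nat_lit 5) (nat_lit 17) (nat_lit 5) (nat_lit 15) (nat_lit 4) (nat_lit 340) (nat_lit 281) (nat_lit 159)) (XT.lf (nat_lit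 0) (nat_lit 34961432516) (nat_lit 228) (nat_lit 10617923184) (nat_lit 76) (nat_lit 35074839911) (nat_lit 14) (nat_lit 5) (nat_lit 17) (nat_lit 5) (nat_lit 15) (nat_lit 4) (nat_lit 341) (nat_lit 281) (nat_lit 158))) (XT.nd (nat_lit 78) (nat_lit 0) (nat_lit 0) (XT.lf (nat_lit 0) (nat_lit 13214157991) (nat_lit 76) (nat_lit 33377424151) (nat_lit 152) (nat_lit 37391794367) (nat_lit 13) (nat_lit 5) (nat_lit 14) (nat_lit 5) (nat_lit 15) (nat_lit 4) (nat_lit 342) (nat_lit 281) (nat_lit 157)) (XT.nd (nat_lit 78) (nat_lit 0) (nat_lit 0) (XT.lf (nat_lit 0) (nat_lit 38600823525) (nat_lit 76) (nat_lit 20379016163) (nat_lit 152) (nat_lit 28490349722) (nat_lit 13) (nat_lit 5) (nat_lit 14) (nat_lit 5) (nat_lit 15) (nat_lit 4) (nat_lit 343) (nat_lit 281) (nat_lit 156)) (XT.lf (nat_lit 0) (nat_lit 65251441366) (nat_lit 76) (nat_lit 6733002814) (nat_lit 152) (nat_lit 19147054912) (nat_lit 13) (nat_lit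 5) (nat_lit 14) (nat_lit 5) (nat_lit 15) (nat_lit 4) (nat_lit 344) (nat_lit 281) (nat_lit 155))))))))
noncomputable def xc169 : XT := (XT.nd (nat_lit 1482) (nat_lit 228) (nat_lit 0) (XT.nd (nat_lit 702) (nat_lit 228) (nat_lit 0) (XT.nd (nat_lit 312) (nat_lit 76) (nat_lit 0) (XT.nd (nat_lit 156) (nat_lit 0) (nat_lit 0) (XT.nd (nat_lit 78) (nat_lit 152) (nat_lit 0) (XT.lf (nat_lit 0) (nat_lit 85754908633) (nat_lit 152) (nat_lit 1865107263) (nat_lit 0) (nat_lit 7350079578) (nat_lit 13) (nat_lit 5) (nat_lit 15) (nat_lit 4) (nat_lit 13) (nat_lit 4) (nat_lit 345) (nat_lit 281) (nat_lit 154)) (XT.lf (nat_lit 0) (nat_lit 1664671841) (nat_lit 152) (nat_lit 74999872008) (nat_lit 76) (nat_lit 22310621670) (nat_lit 11) (nat_lit 5) (nat_lit 13) (nat_lit 5) (nat_lit 12) (nat_lit 4) (nat_lit 346) (nat_lit 281) (nat_lit 153))) (XT.nd (nat_lit 78) (nat_lit 0) (nat_lit 0) (XT.lf (nat_lit 0) (nat_lit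 12808133166) (nat_lit 152) (nat_lit 52163033653) (nat_lit 76) (nat_lit 38200306130) (nat_lit 11) (nat_lit 5) (nat_lit 13) (nat_lit 5) (nat_lit 12) (nat_lit 4) (nat_lit 347) (nat_lit 281) (nat_lit 152)) (XT.lf (nat_lit 0) (nat_lit 24506097182) (nat_lit 152) (nat_lit 28189119192) (nat_lit 76) (nat_lit 54882515119) (nat_lit 11) (nat_lit 5) (nat_lit 13) (nat_lit 5) (nat_lit 12) (nat_lit 4) (nat_lit 348) (nat_lit 281) (nat_lit 151)))) (XT.nd (nat_lit 156) (nat_lit 0) (nat_lit 0) (XT.nd (nat_lit 78) (nat_lit 76) (nat_lit 0) (XT.lf (nat_lit 0) (nat_lit 36786416185) (nat_lit 152) (nat_lit 3021047876) (nat_lit 76) (nat_lit 72396968183) (nat_lit 11) (nat_lit 5) (nat_lit 13) (nat_lit 5) (nat_lit 12) (nat_lit 4) (nat_lit 349) (nat_lit 281) (nat_lit 150)) (XT.lf (nat_lit 0) (nat_lit 24174850463) (nat_lit 76) (nat_lit 25880915733) (nat_lit 152) (nat_lit 66987953103) (nat_lit 10) (nat_lit 5) (nat_lit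 11) (nat_lit 5) (nat_lit 12) (nat_lit 4) (nat_lit 350) (nat_lit 281) (nat_lit 149))) (XT.nd (nat_lit 78) (nat_lit 0) (nat_lit 0) (XT.lf (nat_lit 0) (nat_lit 52831174670) (nat_lit 76) (nat_lit 11206198772) (nat_lit 152) (nat_lit 58085159697) (nat_lit 10) (nat_lit 5) (nat_lit 11) (nat_lit 5) (nat_lit 12) (nat_lit 4) (nat_lit 351) (nat_lit 281) (nat_lit 148)) (XT.nd (nat_lit 78) (nat_lit 0) (nat_lit 0) (XT.lf (nat_lit 0) (nat_lit 78781381899) (nat_lit 152) (nat_lit 44604718919) (nat_lit 0) (nat_lit 4066022641) (nat_lit 10) (nat_lit 5) (nat_lit 12) (nat_lit 4) (nat_lit 10) (nat_lit 4) (nat_lit 352) (nat_lit 281) (nat_lit 147)) (XT.lf (nat_lit 0) (nat_lit 94444119797) (nat_lit 152) (nat_lit 18871395922) (nat_lit 0) (nat_lit 19723602868) (nat_lit 10) (nat_lit 5) (nat_lit 12) (nat_lit 4) (nat_lit 10) (nat_lit 4) (nat_lit 353) (nat_lit 281) (nat_lit 146)))))) (XT.nd (nat_lit 390) (nat_lit 76)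 (nat_lit 0) (XT.nd (nat_lit 156) (nat_lit 76) (nat_lit 0) (XT.nd (nat_lit 78) (nat_lit 0) (nat_lit 0) (XT.lf (nat_lit 0) (nat_lit 8414145716) (nat_lit 76) (nat_lit 102605141881) (nat_lit 76) (nat_lit 27879712884) (nat_lit 9) (nat_lit 4) (nat_lit 10) (nat_lit 5) (nat_lit 10) (nat_lit 4) (nat_lit 354) (nat_lit 281) (nat_lit 145)) (XT.lf (nat_lit 0) (nat_lit 37715444500) (nat_lit 76) (nat_lit 91025331303) (nat_lit 76) (nat_lit 16295224147) (nat_lit 9) (nat_lit 4) (nat_lit 10) (nat_lit 5) (nat_lit 10) (nat_lit 4) (nat_lit 355) (nat_lit 281) (nat_lit 144))) (XT.nd (nat_lit 78) (nat_lit 76) (nat_lit 0) (XT.lf (nat_lit 0) (nat_lit 68478291851) (nat_lit 76) (nat_lit 78868109230) (nat_lit 76) (nat_lit 4133546684) (nat_lit 9) (nat_lit 4) (nat_lit 10) (nat_lit 5) (nat_lit 10) (nat_lit 4) (nat_lit 356) (nat_lit 281) (nat_lit 143)) (XT.nd (nat_lit 78) (nat_lit 0) (nat_lit 0) (XT.lf (nat_lit 0) (nat_lit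 8357925129) (nat_lit 152) (nat_lit 57605059259) (nat_lit 76) (nat_lit 92276462008) (nat_lit 8) (nat_lit 5) (nat_lit 10) (nat_lit 5) (nat_lit 9) (nat_lit 4) (nat_lit 357) (nat_lit 281) (nat_lit 142)) (XT.lf (nat_lit 0) (nat_lit 21333268908) (nat_lit 152) (nat_lit 31009645683) (nat_lit 76) (nat_lit 112990707883) (nat_lit 8) (nat_lit 5) (nat_lit 10) (nat_lit 5) (nat_lit 9) (nat_lit 4) (nat_lit 358) (nat_lit 281) (nat_lit 141))))) (XT.nd (nat_lit 156) (nat_lit 0) (nat_lit 0) (XT.nd (nat_lit 78) (nat_lit 76) (nat_lit 0) (XT.lf (nat_lit 0) (nat_lit 34955677635) (nat_lit 152) (nat_lit 3087556525) (nat_lit 76) (nat_lit 134739359546) (nat_lit 8) (nat_lit 5) (nat_lit 10) (nat_lit 5) (nat_lit 9) (nat_lit 4) (nat_lit 359) (nat_lit 281) (nat_lit 140)) (XT.lf (nat_lit 0) (nat_lit 27094895237) (nat_lit 76) (nat_lit 22585717628) (nat_lit 152) (nat_lit 130902331511) (nat_lit 7) (nat_lit 5) (nat_lit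 8) (nat_lit 5) (nat_lit 9) (nat_lit 4) (nat_lit 360) (nat_lit 281) (nat_lit 139))) (XT.nd (nat_lit 78) (nat_lit 0) (nat_lit 0) (XT.lf (nat_lit 0) (nat_lit 58890762412) (nat_lit 76) (nat_lit 6301732449) (nat_lit 152) (nat_lit 123578283843) (nat_lit 7) (nat_lit 5) (nat_lit 8) (nat_lit 5) (nat_lit 9) (nat_lit 4) (nat_lit 361) (nat_lit 281) (nat_lit 138)) (XT.nd (nat_lit 78) (nat_lit 0) (nat_lit 0) (XT.lf (nat_lit 0) (nat_lit 81647000754) (nat_lit 152) (nat_lit 105262963996) (nat_lit 0) (nat_lit 10449689578) (nat_lit 7) (nat_lit 5) (nat_lit 9) (nat_lit 4) (nat_lit 7) (nat_lit 4) (nat_lit 362) (nat_lit 281) (nat_lit 137)) (XT.lf (nat_lit 0) (nat_lit 99026078959) (nat_lit 152) (nat_lit 79521051242) (nat_lit 0) (nat_lit 27825752200) (nat_lit 7) (nat_lit 5) (nat_lit 9) (nat_lit 4) (nat_lit 7) (nat_lit 4) (nat_lit 363) (nat_lit 281) (nat_lit 136))))))) (XT.nd (nat_lit 780) (nat_lit 76) (nat_lit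 0) (XT.nd (nat_lit 390) (nat_lit 76) (nat_lit 0) (XT.nd (nat_lit 156) (nat_lit 76) (nat_lit 0) (XT.nd (nat_lit 78) (nat_lit 0) (nat_lit 0) (XT.lf (nat_lit 0) (nat_lit 117272720530) (nat_lit 152) (nat_lit 52494600058) (nat_lit 0) (nat_lit 46069521787) (nat_lit 7) (nat_lit 5) (nat_lit 9) (nat_lit 4) (nat_lit 7) (nat_lit 4) (nat_lit 364) (nat_lit 281) (nat_lit 135)) (XT.lf (nat_lit 0) (nat_lit 136430369853) (nat_lit 152) (nat_lit 24119261750) (nat_lit 0) (nat_lit 65224435886) (nat_lit 7) (nat_lit 5) (nat_lit 9) (nat_lit 4) (nat_lit 7) (nat_lit 4) (nat_lit 365) (nat_lit 281) (nat_lit 134))) (XT.nd (nat_lit 78) (nat_lit 0) (nat_lit 0) (XT.lf (nat_lit 0) (nat_lit 5860083272) (nat_lit 76) (nat_lit 150776049427) (nat_lit 76) (nat_lit 79567510486) (nat_lit 6) (nat_lit 4) (nat_lit 7) (nat_lit 5) (nat_lit 7) (nat_lit 4) (nat_lit 366) (nat_lit 281) (nat_lit 133)) (XT.nd (nat_lit 78) (nat_lit 0)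 (nat_lit 0) (XT.lf (nat_lit 0) (nat_lit 38173479800) (nat_lit 76) (nat_lit 140085938423) (nat_lit 76) (nat_lit 68874918555) (nat_lit 6) (nat_lit 4) (nat_lit 7) (nat_lit 5) (nat_lit 7) (nat_lit 4) (nat_lit 367) (nat_lit 281) (nat_lit 132)) (XT.lf (nat_lit 0) (nat_lit 72100372771) (nat_lit 76) (nat_lit 128862317316) (nat_lit 76) (nat_lit 57648934659) (nat_lit 6) (nat_lit 4) (nat_lit 7) (nat_lit 5) (nat_lit 7) (nat_lit 4) (nat_lit 368) (nat_lit 281) (nat_lit 131))))) (XT.nd (nat_lit 156) (nat_lit 76) (nat_lit 0) (XT.nd (nat_lit 78) (nat_lit 0) (nat_lit 0) (XT.lf (nat_lit 0) (nat_lit 107721540502) (nat_lit 76) (nat_lit 117078463197) (nat_lit 76) (nat_lit 45862830265) (nat_lit 6) (nat_lit 4) (nat_lit 7) (nat_lit 5) (nat_lit 7) (nat_lit 4) (nat_lit 369) (nat_lit 281) (nat_lit 130)) (XT.lf (nat_lit 0) (nat_lit 145121795299) (nat_lit 76) (nat_lit 104706319271) (nat_lit 76) (nat_lit 33488543220)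 (nat_lit 6) (nat_lit 4) (nat_lit 7) (nat_lit 5) (nat_lit 7) (nat_lit 4) (nat_lit 370) (nat_lit 281) (nat_lit 129))) (XT.nd (nat_lit 78) (nat_lit 76) (nat_lit 0) (XT.lf (nat_lit 0) (nat_lit 184390185385) (nat_lit 76) (nat_lit 91716428052) (nat_lit 76) (nat_lit 20496610936) (nat_lit 6) (nat_lit 4) (nat_lit 7) (nat_lit 5) (nat_lit 7) (nat_lit 4) (nat_lit 371) (nat_lit 281) (nat_lit 128)) (XT.nd (nat_lit 78) (nat_lit 76) (nat_lit 0) (XT.lf (nat_lit 0) (nat_lit 225620206928) (nat_lit 76) (nat_lit 78077861229) (nat_lit 76) (nat_lit 6856100240) (nat_lit 6) (nat_lit 4) (nat_lit 7) (nat_lit 5) (nat_lit 7) (nat_lit 4) (nat_lit 372) (nat_lit 281) (nat_lit 127)) (XT.lf (nat_lit 0) (nat_lit 7226524729) (nat_lit 152) (nat_lit 56409236599) (nat_lit 76) (nat_lit 261561117224) (nat_lit 5) (nat_lit 5) (nat_lit 7) (nat_lit 5) (nat_lit 6) (nat_lit 4) (nat_lit 373) (nat_lit 281) (nat_lit 126)))))) (XT.nd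 (nat_lit 390) (nat_lit 0) (nat_lit 0) (XT.nd (nat_lit 156) (nat_lit 0) (nat_lit 0) (XT.nd (nat_lit 78) (nat_lit 76) (nat_lit 0) (XT.lf (nat_lit 0) (nat_lit 21781977040) (nat_lit 152) (nat_lit 26572322510) (nat_lit 76) (nat_lit 292211850178) (nat_lit 5) (nat_lit 5) (nat_lit 7) (nat_lit 5) (nat_lit 6) (nat_lit 4) (nat_lit 374) (nat_lit 281) (nat_lit 125)) (XT.lf (nat_lit 0) (nat_lit 4912081287) (nat_lit 76) (nat_lit 32228960625) (nat_lit 152) (nat_lit 319559051094) (nat_lit 4) (nat_lit 5) (nat_lit 5) (nat_lit 5) (nat_lit 6) (nat_lit 4) (nat_lit 375) (nat_lit 281) (nat_lit 124))) (XT.nd (nat_lit 78) (nat_lit 0) (nat_lit 0) (XT.lf (nat_lit 0) (nat_lit 38891688411) (nat_lit 76) (nat_lit 14825551722) (nat_lit 152) (nat_lit 319901034824) (nat_lit 4) (nat_lit 5) (nat_lit 5) (nat_lit 5) (nat_lit 6) (nat_lit 4) (nat_lit 376) (nat_lit 281) (nat_lit 123)) (XT.nd (nat_lit 78) (nat_lit 0) (nat_lit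 0) (XT.lf (nat_lit 0) (nat_lit 71175275768) (nat_lit 152) (nat_lit 316867427332) (nat_lit 0) (nat_lit 3337012019) (nat_lit 4) (nat_lit 5) (nat_lit 6) (nat_lit 4) (nat_lit 4) (nat_lit 4) (nat_lit 377) (nat_lit 281) (nat_lit 122)) (XT.lf (nat_lit 0) (nat_lit 89748487522) (nat_lit 152) (nat_lit 298359784220) (nat_lit 0) (nat_lit 21908842299) (nat_lit 4) (nat_lit 5) (nat_lit 6) (nat_lit 4) (nat_lit 4) (nat_lit 4) (nat_lit 378) (nat_lit 281) (nat_lit 121))))) (XT.nd (nat_lit 156) (nat_lit 0) (nat_lit 0) (XT.nd (nat_lit 78) (nat_lit 0) (nat_lit 0) (XT.lf (nat_lit 0) (nat_lit 109249628915) (nat_lit 152) (nat_lit 278928122982) (nat_lit 0) (nat_lit 41408668003) (nat_lit 4) (nat_lit 5) (nat_lit 6) (nat_lit 4) (nat_lit 4) (nat_lit 4) (nat_lit 379) (nat_lit 281) (nat_lit 120)) (XT.lf (nat_lit 0) (nat_lit 129725131236) (nat_lit 152) (nat_lit 258526177760) (nat_lit 0) (nat_lit 61882917287) (nat_lit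 4) (nat_lit 5) (nat_lit 6) (nat_lit 4) (nat_lit 4) (nat_lit 4) (nat_lit 380) (nat_lit 281) (nat_lit 119))) (XT.nd (nat_lit 78) (nat_lit 0) (nat_lit 0) (XT.lf (nat_lit 0) (nat_lit 151223745682) (nat_lit 152) (nat_lit 237105372491) (nat_lit 0) (nat_lit 83380338364) (nat_lit 4) (nat_lit 5) (nat_lit 6) (nat_lit 4) (nat_lit 4) (nat_lit 4) (nat_lit 381) (nat_lit 281) (nat_lit 118)) (XT.nd (nat_lit 32838) (nat_lit 0) (nat_lit 5852) (XT.lf (nat_lit 0) (nat_lit 173796659430) (nat_lit 152) (nat_lit 214614705260) (nat_lit 0) (nat_lit 105952115570) (nat_lit 4) (nat_lit 5) (nat_lit 6) (nat_lit 4) (nat_lit 4) (nat_lit 4) (nat_lit 382) (nat_lit 281) (nat_lit 117)) (XT.lf (nat_lit 0) (nat_lit 498460729) (nat_lit 0) (nat_lit 498460729) (nat_lit 684) (nat_lit 5147348001) (nat_lit 81) (nat_lit 5) (nat_lit 81) (nat_lit 3) (nat_lit 90) (nat_lit 3) (nat_lit 282) (nat_lit 282) (nat_lit 216))))))))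
noncomputable def xc170 : XT := (XT.nd (nat_lit 1482) (nat_lit 2432) (nat_lit 0) (XT.nd (nat_lit 702) (nat_lit 1520) (nat_lit 0) (XT.nd (nat_lit 312) (nat_lit 0) (nat_lit 76) (XT.nd (nat_lit 156) (nat_lit 0) (nat_lit 76) (XT.nd (nat_lit 78) (nat_lit 0) (nat_lit 0) (XT.lf (nat_lit 0) (nat_lit 2531511500) (nat_lit 684) (nat_lit 5935117336) (nat_lit 760) (nat_lit 4103622287) (nat_lit 81) (nat_lit 5) (nat_lit 90) (nat_lit 3) (nat_lit 91) (nat_lit 5) (nat_lit 283) (nat_lit 282) (nat_lit 215)) (XT.lf (nat_lit 0) (nat_lit 3085627271) (nat_lit 684) (nat_lit 342261386) (nat_lit 760) (nat_lit 9438753154) (nat_lit 81) (nat_lit 5) (nat_lit 90) (nat_lit 3) (nat_lit 91) (nat_lit 5) (nat_lit 284) (nat_lit 282) (nat_lit 214))) (XT.nd (nat_lit 78) (nat_lit 0) (nat_lit 0) (XT.lf (nat_lit 0) (nat_lit 3761624904) (nat_lit 684) (nat_lit 7507251982) (nat_lit 760) (nat_lit 1904334024) (nat_lit 82) (nat_lit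 5) (nat_lit 91) (nat_lit 5) (nat_lit 92) (nat_lit 5) (nat_lit 285) (nat_lit 282) (nat_lit 213)) (XT.lf (nat_lit 0) (nat_lit 4509159266) (nat_lit 684) (nat_lit 1580260712) (nat_lit 760) (nat_lit 7403866099) (nat_lit 82) (nat_lit 5) (nat_lit 91) (nat_lit 5) (nat_lit 92) (nat_lit 5) (nat_lit 286) (nat_lit 282) (nat_lit 212)))) (XT.nd (nat_lit 156) (nat_lit 0) (nat_lit 76) (XT.nd (nat_lit 78) (nat_lit 0) (nat_lit 76) (XT.lf (nat_lit 76) (nat_lit 4781228383) (nat_lit 0) (nat_lit 564300401) (nat_lit 760) (nat_lit 8481324684) (nat_lit 83) (nat_lit 5) (nat_lit 82) (nat_lit 5) (nat_lit 92) (nat_lit 5) (nat_lit 287) (nat_lit 282) (nat_lit 211)) (XT.lf (nat_lit 0) (nat_lit 6310488971) (nat_lit 684) (nat_lit 2758245105) (nat_lit 760) (nat_lit 5104085007) (nat_lit 83) (nat_lit 5) (nat_lit 92) (nat_lit 5) (nat_lit 93) (nat_lit 5) (nat_lit 288) (nat_lit 282) (nat_lit 210))) (XT.nd (nat_lit 78) (nat_lit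 0) (nat_lit 76) (XT.lf (nat_lit 76) (nat_lit 3945352915) (nat_lit 0) (nat_lit 3428055535) (nat_lit 760) (nat_lit 7160244644) (nat_lit 84) (nat_lit 5) (nat_lit 83) (nat_lit 5) (nat_lit 93) (nat_lit 5) (nat_lit 289) (nat_lit 282) (nat_lit 209)) (XT.nd (nat_lit 78) (nat_lit 0) (nat_lit 0) (XT.lf (nat_lit 0) (nat_lit 8555621174) (nat_lit 684) (nat_lit 3886104023) (nat_lit 760) (nat_lit 2467549274) (nat_lit 84) (nat_lit 5) (nat_lit 93) (nat_lit 5) (nat_lit 94) (nat_lit 5) (nat_lit 290) (nat_lit 282) (nat_lit 208)) (XT.lf (nat_lit 76) (nat_lit 3181511256) (nat_lit 0) (nat_lit 6701989591) (nat_lit 760) (nat_lit 5415898756) (nat_lit 85) (nat_lit 5) (nat_lit 84) (nat_lit 5) (nat_lit 94) (nat_lit 5) (nat_lit 291) (nat_lit 282) (nat_lit 207)))))) (XT.nd (nat_lit 390) (nat_lit 684) (nat_lit 0) (XT.nd (nat_lit 156) (nat_lit 456) (nat_lit 0) (XT.nd (nat_lit 78) (nat_lit 608) (nat_lit 0) (XT.lf (nat_lit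 76) (nat_lit 10722349891) (nat_lit 0) (nat_lit 602608386) (nat_lit 760) (nat_lit 4381761625) (nat_lit 85) (nat_lit 5) (nat_lit 84) (nat_lit 5) (nat_lit 94) (nat_lit 5) (nat_lit 292) (nat_lit 282) (nat_lit 206)) (XT.lf (nat_lit 0) (nat_lit 2479252219) (nat_lit 684) (nat_lit 10470836579) (nat_lit 760) (nat_lit 3178783215) (nat_lit 76) (nat_lit 5) (nat_lit 85) (nat_lit 5) (nat_lit 86) (nat_lit 5) (nat_lit 293) (nat_lit 282) (nat_lit 205))) (XT.nd (nat_lit 78) (nat_lit 456) (nat_lit 0) (XT.lf (nat_lit 0) (nat_lit 10463801496) (nat_lit 684) (nat_lit 4269723926) (nat_lit 760) (nat_lit 1834797454) (nat_lit 76) (nat_lit 5) (nat_lit 85) (nat_lit 5) (nat_lit 86) (nat_lit 5) (nat_lit 294) (nat_lit 282) (nat_lit 204)) (XT.nd (nat_lit 78) (nat_lit 76) (nat_lit 0) (XT.lf (nat_lit 0) (nat_lit 1826020333) (nat_lit 380) (nat_lit 14827378457) (nat_lit 456) (nat_lit 374025798) (nat_lit 71) (nat_lit 5)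 (nat_lit 76) (nat_lit 5) (nat_lit 77) (nat_lit 5) (nat_lit 295) (nat_lit 282) (nat_lit 203)) (XT.lf (nat_lit 0) (nat_lit 1281740992) (nat_lit 456) (nat_lit 7244666574) (nat_lit 76) (nat_lit 8974252284) (nat_lit 70) (nat_lit 5) (nat_lit 76) (nat_lit 5) (nat_lit 71) (nat_lit 5) (nat_lit 296) (nat_lit 282) (nat_lit 202))))) (XT.nd (nat_lit 156) (nat_lit 304) (nat_lit 0) (XT.nd (nat_lit 78) (nat_lit 0) (nat_lit 0) (XT.lf (nat_lit 0) (nat_lit 1124942648) (nat_lit 380) (nat_lit 1885112591) (nat_lit 456) (nat_lit 14987114510) (nat_lit 65) (nat_lit 5) (nat_lit 70) (nat_lit 5) (nat_lit 71) (nat_lit 5) (nat_lit 297) (nat_lit 282) (nat_lit 201)) (XT.lf (nat_lit 0) (nat_lit 5014195269) (nat_lit 456) (nat_lit 8444645700) (nat_lit 76) (nat_lit 5050227852) (nat_lit 65) (nat_lit 5) (nat_lit 71) (nat_lit 5) (nat_lit 66) (nat_lit 5) (nat_lit 298) (nat_lit 282) (nat_lit 200))) (XT.nd (nat_lit 78) (nat_lit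 0) (nat_lit 0) (XT.lf (nat_lit 0) (nat_lit 370633087) (nat_lit 304) (nat_lit 6770565981) (nat_lit 380) (nat_lit 11904263495) (nat_lit 61) (nat_lit 5) (nat_lit 65) (nat_lit 5) (nat_lit 66) (nat_lit 5) (nat_lit 299) (nat_lit 282) (nat_lit 199)) (XT.nd (nat_lit 78) (nat_lit 0) (nat_lit 0) (XT.lf (nat_lit 0) (nat_lit 9510245357) (nat_lit 380) (nat_lit 9703053692) (nat_lit 76) (nat_lit 388623333) (nat_lit 61) (nat_lit 5) (nat_lit 66) (nat_lit 5) (nat_lit 62) (nat_lit 5) (nat_lit 300) (nat_lit 282) (nat_lit 198)) (XT.lf (nat_lit 0) (nat_lit 12095781894) (nat_lit 380) (nat_lit 408065255) (nat_lit 76) (nat_lit 7677485674) (nat_lit 61) (nat_lit 5) (nat_lit 66) (nat_lit 5) (nat_lit 62) (nat_lit 5) (nat_lit 301) (nat_lit 282) (nat_lit 197))))))) (XT.nd (nat_lit 780) (nat_lit 1064) (nat_lit 0) (XT.nd (nat_lit 390) (nat_lit 456) (nat_lit 0) (XT.nd (nat_lit 156) (nat_lit 608) (nat_lit 0) (XT.nd (nat_lit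 78) (nat_lit 0) (nat_lit 0) (XT.lf (nat_lit 0) (nat_lit 9646729868) (nat_lit 304) (nat_lit 5302139828) (nat_lit 380) (nat_lit 5833958491) (nat_lit 57) (nat_lit 5) (nat_lit 61) (nat_lit 5) (nat_lit 62) (nat_lit 5) (nat_lit 302) (nat_lit 282) (nat_lit 196)) (XT.lf (nat_lit 0) (nat_lit 17974930858) (nat_lit 380) (nat_lit 1245092282) (nat_lit 76) (nat_lit 2192886013) (nat_lit 57) (nat_lit 5) (nat_lit 62) (nat_lit 5) (nat_lit 58) (nat_lit 5) (nat_lit 303) (nat_lit 282) (nat_lit 195))) (XT.nd (nat_lit 78) (nat_lit 380) (nat_lit 0) (XT.lf (nat_lit 0) (nat_lit 9339043299) (nat_lit 228) (nat_lit 12034566819) (nat_lit 304) (nat_lit 689843805) (nat_lit 54) (nat_lit 5) (nat_lit 57) (nat_lit 5) (nat_lit 58) (nat_lit 5) (nat_lit 304) (nat_lit 282) (nat_lit 194)) (XT.nd (nat_lit 78) (nat_lit 304) (nat_lit 0) (XT.lf (nat_lit 0) (nat_lit 2135571836) (nat_lit 304) (nat_lit 2298073867) (nat_lit 76) (nat_lit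 18310681792) (nat_lit 53) (nat_lit 5) (nat_lit 57) (nat_lit 5) (nat_lit 54) (nat_lit 5) (nat_lit 305) (nat_lit 282) (nat_lit 193)) (XT.lf (nat_lit 0) (nat_lit 5265264311) (nat_lit 380) (nat_lit 14599575801) (nat_lit 76) (nat_lit 3584551756) (nat_lit 49) (nat_lit 5) (nat_lit 54) (nat_lit 5) (nat_lit 50) (nat_lit 5) (nat_lit 306) (nat_lit 282) (nat_lit 192))))) (XT.nd (nat_lit 156) (nat_lit 228) (nat_lit 0) (XT.nd (nat_lit 78) (nat_lit 228) (nat_lit 0) (XT.lf (nat_lit 0) (nat_lit 8653213810) (nat_lit 380) (nat_lit 3639438699) (nat_lit 76) (nat_lit 11891989316) (nat_lit 49) (nat_lit 5) (nat_lit 54) (nat_lit 5) (nat_lit 50) (nat_lit 5) (nat_lit 307) (nat_lit 282) (nat_lit 191)) (XT.lf (nat_lit 0) (nat_lit 8115854828) (nat_lit 228) (nat_lit 4211448311) (nat_lit 304) (nat_lit 12623534009) (nat_lit 46) (nat_lit 5) (nat_lit 49) (nat_lit 5) (nat_lit 50) (nat_lit 5) (nat_lit 308) (nat_lit 282)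 (nat_lit 190))) (XT.nd (nat_lit 78) (nat_lit 228) (nat_lit 0) (XT.lf (nat_lit 0) (nat_lit 16304738984) (nat_lit 304) (nat_lit 5247597104) (nat_lit 76) (nat_lit 4197043081) (nat_lit 46) (nat_lit 5) (nat_lit 50) (nat_lit 5) (nat_lit 47) (nat_lit 5) (nat_lit 309) (nat_lit 282) (nat_lit 189)) (XT.nd (nat_lit 78) (nat_lit 0) (nat_lit 0) (XT.lf (nat_lit 0) (nat_lit 7063954459) (nat_lit 228) (nat_lit 13587153494) (nat_lit 304) (nat_lit 5928255399) (nat_lit 43) (nat_lit 5) (nat_lit 46) (nat_lit 5) (nat_lit 47) (nat_lit 5) (nat_lit 310) (nat_lit 282) (nat_lit 188)) (XT.lf (nat_lit 0) (nat_lit 20161212522) (nat_lit 228) (nat_lit 5133439573) (nat_lit 304) (nat_lit 2152219077) (nat_lit 43) (nat_lit 5) (nat_lit 46) (nat_lit 5) (nat_lit 47) (nat_lit 5) (nat_lit 311) (nat_lit 282) (nat_lit 187)))))) (XT.nd (nat_lit 390) (nat_lit 456) (nat_lit 0) (XT.nd (nat_lit 156) (nat_lit 380) (nat_lit 0) (XT.nd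 (nat_lit 78) (nat_lit 0) (nat_lit 0) (XT.lf (nat_lit 0) (nat_lit 1895135043) (nat_lit 228) (nat_lit 22714797233) (nat_lit 76) (nat_lit 3739396207) (nat_lit 40) (nat_lit 5) (nat_lit 43) (nat_lit 5) (nat_lit 41) (nat_lit 5) (nat_lit 312) (nat_lit 282) (nat_lit 186)) (XT.lf (nat_lit 0) (nat_lit 6273537489) (nat_lit 228) (nat_lit 9970515107) (nat_lit 76) (nat_lit 13041056400) (nat_lit 40) (nat_lit 5) (nat_lit 43) (nat_lit 5) (nat_lit 41) (nat_lit 5) (nat_lit 313) (nat_lit 282) (nat_lit 185))) (XT.nd (nat_lit 78) (nat_lit 152) (nat_lit 0) (XT.lf (nat_lit 0) (nat_lit 3511968655) (nat_lit 228) (nat_lit 7405576091) (nat_lit 304) (nat_lit 19347813758) (nat_lit 37) (nat_lit 5) (nat_lit 40) (nat_lit 5) (nat_lit 41) (nat_lit 5) (nat_lit 314) (nat_lit 282) (nat_lit 184)) (XT.nd (nat_lit 78) (nat_lit 152) (nat_lit 0) (XT.lf (nat_lit 0) (nat_lit 15986661328) (nat_lit 304) (nat_lit 13315078709) (nat_lit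 76) (nat_lit 1983248528) (nat_lit 37) (nat_lit 5) (nat_lit 41) (nat_lit 5) (nat_lit 38) (nat_lit 5) (nat_lit 315) (nat_lit 282) (nat_lit 183)) (XT.lf (nat_lit 0) (nat_lit 684617132) (nat_lit 152) (nat_lit 20749102648) (nat_lit 228) (nat_lit 10915668930) (nat_lit 35) (nat_lit 5) (nat_lit 37) (nat_lit 5) (nat_lit 38) (nat_lit 5) (nat_lit 316) (nat_lit 282) (nat_lit 182))))) (XT.nd (nat_lit 156) (nat_lit 456) (nat_lit 0) (XT.nd (nat_lit 78) (nat_lit 0) (nat_lit 0) (XT.lf (nat_lit 0) (nat_lit 15835705307) (nat_lit 152) (nat_lit 11535510101) (nat_lit 228) (nat_lit 6084901513) (nat_lit 35) (nat_lit 5) (nat_lit 37) (nat_lit 5) (nat_lit 38) (nat_lit 5) (nat_lit 317) (nat_lit 282) (nat_lit 181)) (XT.lf (nat_lit 0) (nat_lit 31734003198) (nat_lit 152) (nat_lit 1864522573) (nat_lit 228) (nat_lit 1020020459) (nat_lit 35) (nat_lit 5) (nat_lit 37) (nat_lit 5) (nat_lit 38) (nat_lit 5) (nat_lit 318)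 (nat_lit 282) (nat_lit 180))) (XT.nd (nat_lit 78) (nat_lit 152) (nat_lit 0) (XT.lf (nat_lit 0) (nat_lit 4489270521) (nat_lit 304) (nat_lit 23035200754) (nat_lit 76) (nat_lit 8294844451) (nat_lit 31) (nat_lit 5) (nat_lit 35) (nat_lit 5) (nat_lit 32) (nat_lit 5) (nat_lit 319) (nat_lit 282) (nat_lit 179)) (XT.nd (nat_lit 78) (nat_lit 152) (nat_lit 0) (XT.lf (nat_lit 0) (nat_lit 10313239925) (nat_lit 304) (nat_lit 7799638163) (nat_lit 76) (nat_lit 18962744959) (nat_lit 31) (nat_lit 5) (nat_lit 35) (nat_lit 5) (nat_lit 32) (nat_lit 5) (nat_lit 320) (nat_lit 282) (nat_lit 178)) (XT.lf (nat_lit 0) (nat_lit 8458701160) (nat_lit 152) (nat_lit 8095366226) (nat_lit 228) (nat_lit 21834404981) (nat_lit 29) (nat_lit 5) (nat_lit 31) (nat_lit 5) (nat_lit 32) (nat_lit 5) (nat_lit 321) (nat_lit 282) (nat_lit 177))))))))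
noncomputable def xc171 : XT := (XT.nd (nat_lit 1560) (nat_lit 532) (nat_lit 0) (XT.nd (nat_lit 780) (nat_lit 532) (nat_lit 0) (XT.nd (nat_lit 390) (nat_lit 228) (nat_lit 0) (XT.nd (nat_lit 156) (nat_lit 228) (nat_lit 0) (XT.nd (nat_lit 78) (nat_lit 152) (nat_lit 0) (XT.lf (nat_lit 0) (nat_lit 23272721529) (nat_lit 228) (nat_lit 14009457264) (nat_lit 76) (nat_lit 2476505251) (nat_lit 29) (nat_lit 5) (nat_lit 32) (nat_lit 5) (nat_lit 30) (nat_lit 5) (nat_lit 322) (nat_lit 282) (nat_lit 176)) (XT.lf (nat_lit 0) (nat_lit 2649588306) (nat_lit 152) (nat_lit 27845797625) (nat_lit 228) (nat_lit 10693625216) (nat_lit 27) (nat_lit 5) (nat_lit 29) (nat_lit 5) (nat_lit 30) (nat_lit 5) (nat_lit 323) (nat_lit 282) (nat_lit 175))) (XT.nd (nat_lit 78) (nat_lit 228) (nat_lit 0) (XT.lf (nat_lit 0) (nat_lit 20618737592) (nat_lit 152) (nat_lit 17691843754) (nat_lit 228) (nat_lit 4368711675) (nat_lit 27)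 (nat_lit 5) (nat_lit 29) (nat_lit 5) (nat_lit 30) (nat_lit 5) (nat_lit 324) (nat_lit 282) (nat_lit 174)) (XT.nd (nat_lit 78) (nat_lit 152) (nat_lit 0) (XT.lf (nat_lit 0) (nat_lit 2194035759) (nat_lit 228) (nat_lit 4802205221) (nat_lit 76) (nat_lit 37246365539) (nat_lit 26) (nat_lit 5) (nat_lit 29) (nat_lit 5) (nat_lit 27) (nat_lit 5) (nat_lit 325) (nat_lit 282) (nat_lit 173)) (XT.lf (nat_lit 0) (nat_lit 9216957161) (nat_lit 228) (nat_lit 32264209999) (nat_lit 76) (nat_lit 4385402097) (nat_lit 24) (nat_lit 5) (nat_lit 27) (nat_lit 5) (nat_lit 25) (nat_lit 5) (nat_lit 326) (nat_lit 282) (nat_lit 172))))) (XT.nd (nat_lit 156) (nat_lit 76) (nat_lit 0) (XT.nd (nat_lit 78) (nat_lit 152) (nat_lit 0) (XT.lf (nat_lit 0) (nat_lit 16783046445) (nat_lit 228) (nat_lit 14598453489) (nat_lit 76) (nat_lit 16180635941) (nat_lit 24) (nat_lit 5) (nat_lit 27) (nat_lit 5) (nat_lit 25) (nat_lit 5) (nat_lit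 327) (nat_lit 282) (nat_lit 171)) (XT.lf (nat_lit 0) (nat_lit 4072716830) (nat_lit 152) (nat_lit 20713232197) (nat_lit 228) (nat_lit 24553612862) (nat_lit 22) (nat_lit 5) (nat_lit 24) (nat_lit 5) (nat_lit 25) (nat_lit 5) (nat_lit 328) (nat_lit 282) (nat_lit 170))) (XT.nd (nat_lit 78) (nat_lit 76) (nat_lit 0) (XT.lf (nat_lit 0) (nat_lit 24176177301) (nat_lit 152) (nat_lit 9255089051) (nat_lit 228) (nat_lit 17762485567) (nat_lit 22) (nat_lit 5) (nat_lit 24) (nat_lit 5) (nat_lit 25) (nat_lit 5) (nat_lit 329) (nat_lit 282) (nat_lit 169)) (XT.nd (nat_lit 78) (nat_lit 76) (nat_lit 0) (XT.lf (nat_lit 0) (nat_lit 42547417554) (nat_lit 228) (nat_lit 7907085118) (nat_lit 76) (nat_lit 2684226279) (nat_lit 22) (nat_lit 5) (nat_lit 25) (nat_lit 5) (nat_lit 23) (nat_lit 4) (nat_lit 330) (nat_lit 282) (nat_lit 168)) (XT.lf (nat_lit 0) (nat_lit 12396442098) (nat_lit 76) (nat_lit 40063654930) (nat_lit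 152) (nat_lit 2703827394) (nat_lit 21) (nat_lit 5) (nat_lit 22) (nat_lit 5) (nat_lit 23) (nat_lit 4) (nat_lit 331) (nat_lit 282) (nat_lit 167)))))) (XT.nd (nat_lit 390) (nat_lit 304) (nat_lit 0) (XT.nd (nat_lit 156) (nat_lit 152) (nat_lit 0) (XT.nd (nat_lit 78) (nat_lit 0) (nat_lit 0) (XT.lf (nat_lit 0) (nat_lit 5531082059) (nat_lit 152) (nat_lit 23390867049) (nat_lit 76) (nat_lit 28357502067) (nat_lit 20) (nat_lit 5) (nat_lit 22) (nat_lit 5) (nat_lit 21) (nat_lit 5) (nat_lit 332) (nat_lit 282) (nat_lit 166)) (XT.lf (nat_lit 0) (nat_lit 14082563519) (nat_lit 152) (nat_lit 3096946784) (nat_lit 76) (nat_lit 42319247923) (nat_lit 20) (nat_lit 5) (nat_lit 22) (nat_lit 5) (nat_lit 21) (nat_lit 5) (nat_lit 333) (nat_lit 282) (nat_lit 165))) (XT.nd (nat_lit 78) (nat_lit 0) (nat_lit 0) (XT.lf (nat_lit 0) (nat_lit 18806744940) (nat_lit 152) (nat_lit 4544398072) (nat_lit 228) (nat_lit 38463416044)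 (nat_lit 18) (nat_lit 5) (nat_lit 20) (nat_lit 5) (nat_lit 21) (nat_lit 5) (nat_lit 334) (nat_lit 282) (nat_lit 164)) (XT.nd (nat_lit 78) (nat_lit 0) (nat_lit 0) (XT.lf (nat_lit 0) (nat_lit 33268587033) (nat_lit 228) (nat_lit 22474338804) (nat_lit 76) (nat_lit 8493956718) (nat_lit 18) (nat_lit 5) (nat_lit 21) (nat_lit 5) (nat_lit 19) (nat_lit 4) (nat_lit 335) (nat_lit 282) (nat_lit 163)) (XT.lf (nat_lit 0) (nat_lit 43752539921) (nat_lit 228) (nat_lit 995268563) (nat_lit 76) (nat_lit 22028986106) (nat_lit 18) (nat_lit 5) (nat_lit 21) (nat_lit 5) (nat_lit 19) (nat_lit 4) (nat_lit 336) (nat_lit 282) (nat_lit 162))))) (XT.nd (nat_lit 156) (nat_lit 228) (nat_lit 0) (XT.nd (nat_lit 78) (nat_lit 0) (nat_lit 0) (XT.lf (nat_lit 0) (nat_lit 22264077563) (nat_lit 76) (nat_lit 32840539761) (nat_lit 152) (nat_lit 14321892553) (nat_lit 17) (nat_lit 5) (nat_lit 18) (nat_lit 5) (nat_lit 19) (nat_lit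 4) (nat_lit 337) (nat_lit 282) (nat_lit 161)) (XT.lf (nat_lit 0) (nat_lit 46714778404) (nat_lit 76) (nat_lit 20322776635) (nat_lit 152) (nat_lit 5170496870) (nat_lit 17) (nat_lit 5) (nat_lit 18) (nat_lit 5) (nat_lit 19) (nat_lit 4) (nat_lit 338) (nat_lit 282) (nat_lit 160))) (XT.nd (nat_lit 78) (nat_lit 152) (nat_lit 0) (XT.lf (nat_lit 0) (nat_lit 4292922650) (nat_lit 152) (nat_lit 2815944891) (nat_lit 76) (nat_lit 68016516469) (nat_lit 16) (nat_lit 5) (nat_lit 18) (nat_lit 5) (nat_lit 17) (nat_lit 5) (nat_lit 339) (nat_lit 282) (nat_lit 159)) (XT.nd (nat_lit 78) (nat_lit 0) (nat_lit 0) (XT.lf (nat_lit 0) (nat_lit 14502115147) (nat_lit 228) (nat_lit 56684178617) (nat_lit 76) (nat_lit 6975735896) (nat_lit 14) (nat_lit 5) (nat_lit 17) (nat_lit 5) (nat_lit 15) (nat_lit 4) (nat_lit 340) (nat_lit 282) (nat_lit 158)) (XT.lf (nat_lit 0) (nat_lit 25383489698) (nat_lit 228) (nat_lit 34387086346)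 (nat_lit 76) (nat_lit 21571848557) (nat_lit 14) (nat_lit 5) (nat_lit 17) (nat_lit 5) (nat_lit 15) (nat_lit 4) (nat_lit 341) (nat_lit 282) (nat_lit 157))))))) (XT.nd (nat_lit 780) (nat_lit 228) (nat_lit 0) (XT.nd (nat_lit 390) (nat_lit 228) (nat_lit 0) (XT.nd (nat_lit 156) (nat_lit 0) (nat_lit 0) (XT.nd (nat_lit 78) (nat_lit 76) (nat_lit 0) (XT.lf (nat_lit 0) (nat_lit 36805801961) (nat_lit 228) (nat_lit 10980608644) (nat_lit 76) (nat_lit 36895588217) (nat_lit 14) (nat_lit 5) (nat_lit 17) (nat_lit 5) (nat_lit 15) (nat_lit 4) (nat_lit 342) (nat_lit 282) (nat_lit 156)) (XT.lf (nat_lit 0) (nat_lit 14040363514) (nat_lit 76) (nat_lit 34975093825) (nat_lit 152) (nat_lit 39162285877) (nat_lit 13) (nat_lit 5) (nat_lit 14) (nat_lit 5) (nat_lit 15) (nat_lit 4) (nat_lit 343) (nat_lit 282) (nat_lit 155))) (XT.nd (nat_lit 78) (nat_lit 0) (nat_lit 0) (XT.lf (nat_lit 0) (nat_lit 40688481485) (nat_lit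 76) (nat_lit 21330155988) (nat_lit 152) (nat_lit 29820487962) (nat_lit 13) (nat_lit 5) (nat_lit 14) (nat_lit 5) (nat_lit 15) (nat_lit 4) (nat_lit 344) (nat_lit 282) (nat_lit 154)) (XT.nd (nat_lit 78) (nat_lit 0) (nat_lit 0) (XT.lf (nat_lit 0) (nat_lit 68664124657) (nat_lit 76) (nat_lit 7005071066) (nat_lit 152) (nat_lit 20014522661) (nat_lit 13) (nat_lit 5) (nat_lit 14) (nat_lit 5) (nat_lit 15) (nat_lit 4) (nat_lit 345) (nat_lit 282) (nat_lit 153)) (XT.lf (nat_lit 0) (nat_lit 90125070863) (nat_lit 152) (nat_lit 1812211597) (nat_lit 0) (nat_lit 7777121524) (nat_lit 13) (nat_lit 5) (nat_lit 15) (nat_lit 4) (nat_lit 13) (nat_lit 4) (nat_lit 346) (nat_lit 282) (nat_lit 152))))) (XT.nd (nat_lit 156) (nat_lit 76) (nat_lit 0) (XT.nd (nat_lit 78) (nat_lit 0) (nat_lit 0) (XT.lf (nat_lit 0) (nat_lit 1830035740) (nat_lit 152) (nat_lit 78603287842) (nat_lit 76) (nat_lit 23486425285) (nat_lit 11)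 (nat_lit 5) (nat_lit 13) (nat_lit 5) (nat_lit 12) (nat_lit 4) (nat_lit 347) (nat_lit 282) (nat_lit 151)) (XT.lf (nat_lit 0) (nat_lit 13526759164) (nat_lit 152) (nat_lit 54631587463) (nat_lit 76) (nat_lit 40167723848) (nat_lit 11) (nat_lit 5) (nat_lit 13) (nat_lit 5) (nat_lit 12) (nat_lit 4) (nat_lit 348) (nat_lit 282) (nat_lit 150))) (XT.nd (nat_lit 78) (nat_lit 76) (nat_lit 0) (XT.lf (nat_lit 0) (nat_lit 25805896651) (nat_lit 152) (nat_lit 29465624797) (nat_lit 76) (nat_lit 57681309838) (nat_lit 11) (nat_lit 5) (nat_lit 13) (nat_lit 5) (nat_lit 12) (nat_lit 4) (nat_lit 349) (nat_lit 282) (nat_lit 149)) (XT.nd (nat_lit 78) (nat_lit 76) (nat_lit 0) (XT.lf (nat_lit 0) (nat_lit 38696684242) (nat_lit 152) (nat_lit 3045480884) (nat_lit 76) (nat_lit 76068882271) (nat_lit 11) (nat_lit 5) (nat_lit 13) (nat_lit 5) (nat_lit 12) (nat_lit 4) (nat_lit 350) (nat_lit 282) (nat_lit 148)) (XT.lf (nat_lit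 0) (nat_lit 25508170123) (nat_lit 76) (nat_lit 27119898187) (nat_lit 152) (nat_lit 70264304980) (nat_lit 10) (nat_lit 5) (nat_lit 11) (nat_lit 5) (nat_lit 12) (nat_lit 4) (nat_lit 351) (nat_lit 282) (nat_lit 147)))))) (XT.nd (nat_lit 390) (nat_lit 152) (nat_lit 0) (XT.nd (nat_lit 156) (nat_lit 76) (nat_lit 0) (XT.nd (nat_lit 78) (nat_lit 0) (nat_lit 0) (XT.lf (nat_lit 0) (nat_lit 55591378296) (nat_lit 76) (nat_lit 11714067442) (nat_lit 152) (nat_lit 60919850274) (nat_lit 10) (nat_lit 5) (nat_lit 11) (nat_lit 5) (nat_lit 12) (nat_lit 4) (nat_lit 352) (nat_lit 282) (nat_lit 146)) (XT.lf (nat_lit 0) (nat_lit 82784281831) (nat_lit 152) (nat_lit 46719535892) (nat_lit 0) (nat_lit 4317669317) (nat_lit 10) (nat_lit 5) (nat_lit 12) (nat_lit 4) (nat_lit 10) (nat_lit 4) (nat_lit 353) (nat_lit 282) (nat_lit 145))) (XT.nd (nat_lit 78) (nat_lit 76) (nat_lit 0) (XT.lf (nat_lit 0) (nat_lit 99227117060)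 (nat_lit 152) (nat_lit 19705042886) (nat_lit 0) (nat_lit 20755826387) (nat_lit 10) (nat_lit 5) (nat_lit 12) (nat_lit 4) (nat_lit 10) (nat_lit 4) (nat_lit 354) (nat_lit 282) (nat_lit 144)) (XT.nd (nat_lit 78) (nat_lit 0) (nat_lit 0) (XT.lf (nat_lit 0) (nat_lit 8943002885) (nat_lit 76) (nat_lit 107686834066) (nat_lit 76) (nat_lit 29211088002) (nat_lit 9) (nat_lit 4) (nat_lit 10) (nat_lit 5) (nat_lit 10) (nat_lit 4) (nat_lit 355) (nat_lit 282) (nat_lit 143)) (XT.lf (nat_lit 0) (nat_lit 39704216613) (nat_lit 76) (nat_lit 95530345574) (nat_lit 76) (nat_lit 17050356281) (nat_lit 9) (nat_lit 4) (nat_lit 10) (nat_lit 5) (nat_lit 10) (nat_lit 4) (nat_lit 356) (nat_lit 282) (nat_lit 142))))) (XT.nd (nat_lit 156) (nat_lit 76) (nat_lit 0) (XT.nd (nat_lit 78) (nat_lit 76) (nat_lit 0) (XT.lf (nat_lit 0) (nat_lit 72000301575) (nat_lit 76) (nat_lit 82767464887) (nat_lit 76) (nat_lit 4283434425) (nat_lit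 9) (nat_lit 4) (nat_lit 10) (nat_lit 5) (nat_lit 10) (nat_lit 4) (nat_lit 357) (nat_lit 282) (nat_lit 141)) (XT.lf (nat_lit 0) (nat_lit 8828175644) (nat_lit 152) (nat_lit 60390119124) (nat_lit 76) (nat_lit 96930468140) (nat_lit 8) (nat_lit 5) (nat_lit 10) (nat_lit 5) (nat_lit 9) (nat_lit 4) (nat_lit 358) (nat_lit 282) (nat_lit 140))) (XT.nd (nat_lit 78) (nat_lit 76) (nat_lit 0) (XT.lf (nat_lit 0) (nat_lit 22449793552) (nat_lit 152) (nat_lit 32469467874) (nat_lit 76) (nat_lit 118678512831) (nat_lit 8) (nat_lit 5) (nat_lit 10) (nat_lit 5) (nat_lit 9) (nat_lit 4) (nat_lit 359) (nat_lit 282) (nat_lit 139)) (XT.nd (nat_lit 78) (nat_lit 76) (nat_lit 0) (XT.lf (nat_lit 0) (nat_lit 36750948373) (nat_lit 152) (nat_lit 3155591405) (nat_lit 76) (nat_lit 141512774718) (nat_lit 8) (nat_lit 5) (nat_lit 10) (nat_lit 5) (nat_lit 9) (nat_lit 4) (nat_lit 360) (nat_lit 282) (nat_lit 138)) (XT.lf (nat_lit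 0) (nat_lit 28534590317) (nat_lit 76) (nat_lit 23676605082) (nat_lit 152) (nat_lit 137398535695) (nat_lit 7) (nat_lit 5) (nat_lit 8) (nat_lit 5) (nat_lit 9) (nat_lit 4) (nat_lit 361) (nat_lit 282) (nat_lit 137))))))))
noncomputable def xc172 : XT := (XT.nd (nat_lit 1482) (nat_lit 0) (nat_lit 0) (XT.nd (nat_lit 702) (nat_lit 152) (nat_lit 0) (XT.nd (nat_lit 312) (nat_lit 76) (nat_lit 0) (XT.nd (nat_lit 156) (nat_lit 0) (nat_lit 0) (XT.nd (nat_lit 78) (nat_lit 0) (nat_lit 0) (XT.lf (nat_lit 0) (nat_lit 61916205597) (nat_lit 76) (nat_lit 6580249140) (nat_lit 152) (nat_lit 129710614805) (nat_lit 7) (nat_lit 5) (nat_lit 8) (nat_lit 5) (nat_lit 9) (nat_lit 4) (nat_lit 362) (nat_lit 282) (nat_lit 136)) (XT.lf (nat_lit 0) (nat_lit 85772118498) (nat_lit 152) (nat_lit 110447462479) (nat_lit 0) (nat_lit 11005887833) (nat_lit 7) (nat_lit 5) (nat_lit 9) (nat_lit 4) (nat_lit 7) (nat_lit 4) (nat_lit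 363) (nat_lit 282) (nat_lit 135))) (XT.nd (nat_lit 78) (nat_lit 0) (nat_lit 0) (XT.lf (nat_lit 0) (nat_lit 104018114056) (nat_lit 152) (nat_lit 83422199312) (nat_lit 0) (nat_lit 29249148168) (nat_lit 7) (nat_lit 5) (nat_lit 9) (nat_lit 4) (nat_lit 7) (nat_lit 4) (nat_lit 364) (nat_lit 282) (nat_lit 134)) (XT.lf (nat_lit 0) (nat_lit 123175148127) (nat_lit 152) (nat_lit 55047992449) (nat_lit 0) (nat_lit 48403577265) (nat_lit 7) (nat_lit 5) (nat_lit 9) (nat_lit 4) (nat_lit 7) (nat_lit 4) (nat_lit 365) (nat_lit 282) (nat_lit 133)))) (XT.nd (nat_lit 156) (nat_lit 0) (nat_lit 0) (XT.nd (nat_lit 78) (nat_lit 76) (nat_lit 0) (XT.lf (nat_lit 0) (nat_lit 143288832698) (nat_lit 152) (nat_lit 25257284255) (nat_lit 0) (nat_lit 68514780908) (nat_lit 7) (nat_lit 5) (nat_lit 9) (nat_lit 4) (nat_lit 7) (nat_lit 4) (nat_lit 366) (nat_lit 282) (nat_lit 132)) (XT.lf (nat_lit 0) (nat_lit 6219932202) (nat_lit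 76) (nat_lit 158284235864) (nat_lit 76) (nat_lit 83507821285) (nat_lit 6) (nat_lit 4) (nat_lit 7) (nat_lit 5) (nat_lit 7) (nat_lit 4) (nat_lit 367) (nat_lit 282) (nat_lit 131))) (XT.nd (nat_lit 78) (nat_lit 0) (nat_lit 0) (XT.lf (nat_lit 0) (nat_lit 40145815472) (nat_lit 76) (nat_lit 147061077217) (nat_lit 76) (nat_lit 72282412363) (nat_lit 6) (nat_lit 4) (nat_lit 7) (nat_lit 5) (nat_lit 7) (nat_lit 4) (nat_lit 368) (nat_lit 282) (nat_lit 130)) (XT.nd (nat_lit 78) (nat_lit 0) (nat_lit 0) (XT.lf (nat_lit 0) (nat_lit 75766021583) (nat_lit 76) (nat_lit 135277663536) (nat_lit 76) (nat_lit 60496855564) (nat_lit 6) (nat_lit 4) (nat_lit 7) (nat_lit 5) (nat_lit 7) (nat_lit 4) (nat_lit 369) (nat_lit 282) (nat_lit 129)) (XT.lf (nat_lit 0) (nat_lit 113165360550) (nat_lit 76) (nat_lit 122905939076) (nat_lit 76) (nat_lit 48123090038) (nat_lit 6) (nat_lit 4) (nat_lit 7) (nat_lit 5) (nat_lit 7) (nat_lit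 4) (nat_lit 370) (nat_lit 282) (nat_lit 128)))))) (XT.nd (nat_lit 390) (nat_lit 76) (nat_lit 0) (XT.nd (nat_lit 156) (nat_lit 76) (nat_lit 0) (XT.nd (nat_lit 78) (nat_lit 0) (nat_lit 0) (XT.lf (nat_lit 0) (nat_lit 152432878418) (nat_lit 76) (nat_lit 109916447348) (nat_lit 76) (nat_lit 35131654438) (nat_lit 6) (nat_lit 4) (nat_lit 7) (nat_lit 5) (nat_lit 7) (nat_lit 4) (nat_lit 371) (nat_lit 282) (nat_lit 127)) (XT.lf (nat_lit 0) (nat_lit 193662069278) (nat_lit 76) (nat_lit 96278260991) (nat_lit 76) (nat_lit 21491616775) (nat_lit 6) (nat_lit 4) (nat_lit 7) (nat_lit 5) (nat_lit 7) (nat_lit 4) (nat_lit 372) (nat_lit 282) (nat_lit 126))) (XT.nd (nat_lit 78) (nat_lit 76) (nat_lit 0) (XT.lf (nat_lit 0) (nat_lit 236951097869) (nat_lit 76) (nat_lit 81958908134) (nat_lit 76) (nat_lit 7170500768) (nat_lit 6) (nat_lit 4) (nat_lit 7) (nat_lit 5) (nat_lit 7) (nat_lit 4) (nat_lit 373) (nat_lit 282)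 (nat_lit 125)) (XT.nd (nat_lit 78) (nat_lit 0) (nat_lit 0) (XT.lf (nat_lit 0) (nat_lit 7614037025) (nat_lit 152) (nat_lit 59181310652) (nat_lit 76) (nat_lit 274660048880) (nat_lit 5) (nat_lit 5) (nat_lit 7) (nat_lit 5) (nat_lit 6) (nat_lit 4) (nat_lit 374) (nat_lit 282) (nat_lit 124)) (XT.lf (nat_lit 0) (nat_lit 22896014997) (nat_lit 152) (nat_lit 27854855038) (nat_lit 76) (nat_lit 306842324395) (nat_lit 5) (nat_lit 5) (nat_lit 7) (nat_lit 5) (nat_lit 6) (nat_lit 4) (nat_lit 375) (nat_lit 282) (nat_lit 123))))) (XT.nd (nat_lit 156) (nat_lit 0) (nat_lit 0) (XT.nd (nat_lit 78) (nat_lit 0) (nat_lit 0) (XT.lf (nat_lit 0) (nat_lit 5203025665) (nat_lit 76) (nat_lit 33819527760) (nat_lit 152) (nat_lit 335511306185) (nat_lit 4) (nat_lit 5) (nat_lit 5) (nat_lit 5) (nat_lit 6) (nat_lit 4) (nat_lit 376) (nat_lit 282) (nat_lit 122)) (XT.lf (nat_lit 0) (nat_lit 40879454082) (nat_lit 76) (nat_lit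 15546942740) (nat_lit 152) (nat_lit 335871612790) (nat_lit 4) (nat_lit 5) (nat_lit 5) (nat_lit 5) (nat_lit 6) (nat_lit 4) (nat_lit 377) (nat_lit 282) (nat_lit 121))) (XT.nd (nat_lit 78) (nat_lit 0) (nat_lit 0) (XT.lf (nat_lit 0) (nat_lit 74756520670) (nat_lit 152) (nat_lit 332668846453) (nat_lit 0) (nat_lit 3522196023) (nat_lit 4) (nat_lit 5) (nat_lit 6) (nat_lit 4) (nat_lit 4) (nat_lit 4) (nat_lit 378) (nat_lit 282) (nat_lit 120)) (XT.nd (nat_lit 78) (nat_lit 0) (nat_lit 0) (XT.lf (nat_lit 0) (nat_lit 94257322482) (nat_lit 152) (nat_lit 313237818911) (nat_lit 0) (nat_lit 23021744798) (nat_lit 4) (nat_lit 5) (nat_lit 6) (nat_lit 4) (nat_lit 4) (nat_lit 4) (nat_lit 379) (nat_lit 282) (nat_lit 119)) (XT.lf (nat_lit 0) (nat_lit 114732501393) (nat_lit 152) (nat_lit 292836477208) (nat_lit 0) (nat_lit 43495730340) (nat_lit 4) (nat_lit 5) (nat_lit 6) (nat_lit 4) (nat_lit 4) (nat_lit 4) (nat_lit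 380) (nat_lit 282) (nat_lit 118))))))) (XT.nd (nat_lit 33618) (nat_lit 0) (nat_lit 4332) (XT.nd (nat_lit 33228) (nat_lit 0) (nat_lit 5928) (XT.nd (nat_lit 32994) (nat_lit 0) (nat_lit 5852) (XT.nd (nat_lit 78) (nat_lit 0) (nat_lit 0) (XT.lf (nat_lit 0) (nat_lit 136230807829) (nat_lit 152) (nat_lit 271416246721) (nat_lit 0) (nat_lit 64992900234) (nat_lit 4) (nat_lit 5) (nat_lit 6) (nat_lit 4) (nat_lit 4) (nat_lit 4) (nat_lit 381) (nat_lit 282) (nat_lit 117)) (XT.lf (nat_lit 0) (nat_lit 158803428233) (nat_lit 152) (nat_lit 248926126900) (nat_lit 0) (nat_lit 87564438219) (nat_lit 4) (nat_lit 5) (nat_lit 6) (nat_lit 4) (nat_lit 4) (nat_lit 4) (nat_lit 382) (nat_lit 282) (nat_lit 116))) (XT.nd (nat_lit 78) (nat_lit 0) (nat_lit 0) (XT.lf (nat_lit 0) (nat_lit 730909840) (nat_lit 0) (nat_lit 730909840) (nat_lit 684) (nat_lit 4967817833) (nat_lit 81) (nat_lit 5) (nat_lit 81) (nat_lit 3) (nat_lit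 90) (nat_lit 3) (nat_lit 283) (nat_lit 283) (nat_lit 214)) (XT.nd (nat_lit 78) (nat_lit 0) (nat_lit 0) (XT.lf (nat_lit 0) (nat_lit 3442491047) (nat_lit 684) (nat_lit 5788803570) (nat_lit 760) (nat_lit 3926167317) (nat_lit 81) (nat_lit 5) (nat_lit 90) (nat_lit 3) (nat_lit 91) (nat_lit 5) (nat_lit 284) (nat_lit 283) (nat_lit 213)) (XT.lf (nat_lit 76) (nat_lit 64666350) (nat_lit 0) (nat_lit 3923303310) (nat_lit 760) (nat_lit 9482618766) (nat_lit 82) (nat_lit 5) (nat_lit 81) (nat_lit 5) (nat_lit 91) (nat_lit 5) (nat_lit 285) (nat_lit 283) (nat_lit 212))))) (XT.nd (nat_lit 156) (nat_lit 0) (nat_lit 0) (XT.nd (nat_lit 78) (nat_lit 0) (nat_lit 0) (XT.lf (nat_lit 0) (nat_lit 4662938098) (nat_lit 684) (nat_lit 7424936025) (nat_lit 760) (nat_lit 1706447711) (nat_lit 82) (nat_lit 5) (nat_lit 91) (nat_lit 5) (nat_lit 92) (nat_lit 5) (nat_lit 286) (nat_lit 283) (nat_lit 211)) (XT.lf (nat_lit 0)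 (nat_lit 5413885752) (nat_lit 684) (nat_lit 1223389408) (nat_lit 760) (nat_lit 7494913677) (nat_lit 82) (nat_lit 5) (nat_lit 91) (nat_lit 5) (nat_lit 92) (nat_lit 5) (nat_lit 287) (nat_lit 283) (nat_lit 210))) (XT.nd (nat_lit 78) (nat_lit 0) (nat_lit 76) (XT.lf (nat_lit 76) (nat_lit 5449143749) (nat_lit 0) (nat_lit 817279489) (nat_lit 760) (nat_lit 8217379510) (nat_lit 83) (nat_lit 5) (nat_lit 82) (nat_lit 5) (nat_lit 92) (nat_lit 5) (nat_lit 288) (nat_lit 283) (nat_lit 209)) (XT.nd (nat_lit 78) (nat_lit 0) (nat_lit 0) (XT.lf (nat_lit 0) (nat_lit 7245164674) (nat_lit 684) (nat_lit 2451627324) (nat_lit 760) (nat_lit 5152079530) (nat_lit 83) (nat_lit 5) (nat_lit 92) (nat_lit 5) (nat_lit 93) (nat_lit 5) (nat_lit 289) (nat_lit 283) (nat_lit 208)) (XT.lf (nat_lit 76) (nat_lit 4579980757) (nat_lit 0) (nat_lit 3758594395) (nat_lit 760) (nat_lit 6890382500) (nat_lit 84) (nat_lit 5) (nat_lit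 83) (nat_lit 5) (nat_lit 93) (nat_lit 5) (nat_lit 290) (nat_lit 283) (nat_lit 207)))))) (XT.nd (nat_lit 390) (nat_lit 1140) (nat_lit 0) (XT.nd (nat_lit 156) (nat_lit 608) (nat_lit 0) (XT.nd (nat_lit 78) (nat_lit 0) (nat_lit 0) (XT.lf (nat_lit 0) (nat_lit 9549127680) (nat_lit 684) (nat_lit 3631625555) (nat_lit 760) (nat_lit 2444219371) (nat_lit 84) (nat_lit 5) (nat_lit 93) (nat_lit 5) (nat_lit 94) (nat_lit 5) (nat_lit 291) (nat_lit 283) (nat_lit 206)) (XT.lf (nat_lit 76) (nat_lit 3782132041) (nat_lit 0) (nat_lit 7141223746) (nat_lit 760) (nat_lit 5112320928) (nat_lit 85) (nat_lit 5) (nat_lit 84) (nat_lit 5) (nat_lit 94) (nat_lit 5) (nat_lit 292) (nat_lit 283) (nat_lit 205))) (XT.nd (nat_lit 78) (nat_lit 608) (nat_lit 0) (XT.lf (nat_lit 76) (nat_lit 11678986645) (nat_lit 0) (nat_lit 731914688) (nat_lit 760) (nat_lit 4053828024) (nat_lit 85) (nat_lit 5) (nat_lit 84) (nat_lit 5) (nat_lit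 94) (nat_lit 5) (nat_lit 293) (nat_lit 283) (nat_lit 204)) (XT.nd (nat_lit 78) (nat_lit 0) (nat_lit 0) (XT.lf (nat_lit 0) (nat_lit 3045360749) (nat_lit 684) (nat_lit 11052608699) (nat_lit 760) (nat_lit 2811049465) (nat_lit 76) (nat_lit 5) (nat_lit 85) (nat_lit 5) (nat_lit 86) (nat_lit 5) (nat_lit 294) (nat_lit 283) (nat_lit 203)) (XT.lf (nat_lit 0) (nat_lit 11408082923) (nat_lit 684) (nat_lit 4538667543) (nat_lit 760) (nat_lit 1424944079) (nat_lit 76) (nat_lit 5) (nat_lit 85) (nat_lit 5) (nat_lit 86) (nat_lit 5) (nat_lit 295) (nat_lit 283) (nat_lit 202))))) (XT.nd (nat_lit 156) (nat_lit 684) (nat_lit 0) (XT.nd (nat_lit 78) (nat_lit 0) (nat_lit 0) (XT.lf (nat_lit 0) (nat_lit 88401667) (nat_lit 456) (nat_lit 15498954362) (nat_lit 76) (nat_lit 2267214526) (nat_lit 70) (nat_lit 5) (nat_lit 76) (nat_lit 5) (nat_lit 71) (nat_lit 5) (nat_lit 296) (nat_lit 283) (nat_lit 201)) (XT.lf (nat_lit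 0) (nat_lit 1792074743) (nat_lit 456) (nat_lit 7172244155) (nat_lit 76) (nat_lit 9388010288) (nat_lit 70) (nat_lit 5) (nat_lit 76) (nat_lit 5) (nat_lit 71) (nat_lit 5) (nat_lit 297) (nat_lit 283) (nat_lit 200))) (XT.nd (nat_lit 78) (nat_lit 304) (nat_lit 0) (XT.lf (nat_lit 0) (nat_lit 1608834952) (nat_lit 380) (nat_lit 1983396647) (nat_lit 456) (nat_lit 15282211699) (nat_lit 65) (nat_lit 5) (nat_lit 70) (nat_lit 5) (nat_lit 71) (nat_lit 5) (nat_lit 298) (nat_lit 283) (nat_lit 199)) (XT.nd (nat_lit 78) (nat_lit 304) (nat_lit 0) (XT.lf (nat_lit 0) (nat_lit 5675962845) (nat_lit 456) (nat_lit 8438027504) (nat_lit 76) (nat_lit 5299025443) (nat_lit 65) (nat_lit 5) (nat_lit 71) (nat_lit 5) (nat_lit 66) (nat_lit 5) (nat_lit 299) (nat_lit 283) (nat_lit 198)) (XT.lf (nat_lit 0) (nat_lit 811098280) (nat_lit 304) (nat_lit 7085231937) (nat_lit 380) (nat_lit 12080593743) (nat_lit 61) (nat_lit 5)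 (nat_lit 65) (nat_lit 5) (nat_lit 66) (nat_lit 5) (nat_lit 300) (nat_lit 283) (nat_lit 197))))))))
noncomputable def xc173 : XT := (XT.nd (nat_lit 1482) (nat_lit 1368) (nat_lit 0) (XT.nd (nat_lit 702) (nat_lit 836) (nat_lit 0) (XT.nd (nat_lit 312) (nat_lit 836) (nat_lit 0) (XT.nd (nat_lit 156) (nat_lit 304) (nat_lit 0) (XT.nd (nat_lit 78) (nat_lit 0) (nat_lit 0) (XT.lf (nat_lit 0) (nat_lit 10365227867) (nat_lit 380) (nat_lit 9766899032) (nat_lit 76) (nat_lit 430053165) (nat_lit 61) (nat_lit 5) (nat_lit 66) (nat_lit 5) (nat_lit 62) (nat_lit 5) (nat_lit 301) (nat_lit 283) (nat_lit 196)) (XT.lf (nat_lit 0) (nat_lit 13061971219) (nat_lit 380) (nat_lit 27223428) (nat_lit 76) (nat_lit 8082311068) (nat_lit 61) (nat_lit 5) (nat_lit 66) (nat_lit 5) (nat_lit 62) (nat_lit 5) (nat_lit 302) (nat_lit 283) (nat_lit 195))) (XT.nd (nat_lit 78) (nat_lit 0) (nat_lit 0) (XT.lf (nat_lit 0) (nat_lit 10523839756)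 (nat_lit 304) (nat_lit 5522827640) (nat_lit 380) (nat_lit 5756999978) (nat_lit 57) (nat_lit 5) (nat_lit 61) (nat_lit 5) (nat_lit 62) (nat_lit 5) (nat_lit 303) (nat_lit 283) (nat_lit 194)) (XT.lf (nat_lit 0) (nat_lit 19208008565) (nat_lit 380) (nat_lit 914602029) (nat_lit 76) (nat_lit 2343480303) (nat_lit 57) (nat_lit 5) (nat_lit 62) (nat_lit 5) (nat_lit 58) (nat_lit 5) (nat_lit 304) (nat_lit 283) (nat_lit 193)))) (XT.nd (nat_lit 156) (nat_lit 532) (nat_lit 0) (XT.nd (nat_lit 78) (nat_lit 76) (nat_lit 0) (XT.lf (nat_lit 0) (nat_lit 10192405736) (nat_lit 228) (nat_lit 12574328468) (nat_lit 304) (nat_lit 382958660) (nat_lit 54) (nat_lit 5) (nat_lit 57) (nat_lit 5) (nat_lit 58) (nat_lit 5) (nat_lit 305) (nat_lit 283) (nat_lit 192)) (XT.lf (nat_lit 0) (nat_lit 2557065788) (nat_lit 304) (nat_lit 2033916445) (nat_lit 76) (nat_lit 19274180448) (nat_lit 53) (nat_lit 5) (nat_lit 57) (nat_lit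 5) (nat_lit 54) (nat_lit 5) (nat_lit 306) (nat_lit 283) (nat_lit 191))) (XT.nd (nat_lit 78) (nat_lit 228) (nat_lit 0) (XT.lf (nat_lit 0) (nat_lit 5835131426) (nat_lit 380) (nat_lit 14941767329) (nat_lit 76) (nat_lit 3829017825) (nat_lit 49) (nat_lit 5) (nat_lit 54) (nat_lit 5) (nat_lit 50) (nat_lit 5) (nat_lit 307) (nat_lit 283) (nat_lit 190)) (XT.nd (nat_lit 78) (nat_lit 228) (nat_lit 0) (XT.lf (nat_lit 0) (nat_lit 9377878214) (nat_lit 380) (nat_lit 3452089432) (nat_lit 76) (nat_lit 12548720669) (nat_lit 49) (nat_lit 5) (nat_lit 54) (nat_lit 5) (nat_lit 50) (nat_lit 5) (nat_lit 308) (nat_lit 283) (nat_lit 189)) (XT.lf (nat_lit 0) (nat_lit 8885011978) (nat_lit 228) (nat_lit 4342428230) (nat_lit 304) (nat_lit 12956192663) (nat_lit 46) (nat_lit 5) (nat_lit 49) (nat_lit 5) (nat_lit 50) (nat_lit 5) (nat_lit 309) (nat_lit 283) (nat_lit 188)))))) (XT.nd (nat_lit 390) (nat_lit 380) (nat_lit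 0) (XT.nd (nat_lit 156) (nat_lit 228) (nat_lit 0) (XT.nd (nat_lit 78) (nat_lit 228) (nat_lit 0) (XT.lf (nat_lit 0) (nat_lit 17391418384) (nat_lit 304) (nat_lit 5151055168) (nat_lit 76) (nat_lit 4480271464) (nat_lit 46) (nat_lit 5) (nat_lit 50) (nat_lit 5) (nat_lit 47) (nat_lit 5) (nat_lit 310) (nat_lit 283) (nat_lit 187)) (XT.lf (nat_lit 0) (nat_lit 7770284911) (nat_lit 228) (nat_lit 14177408450) (nat_lit 304) (nat_lit 5946930953) (nat_lit 43) (nat_lit 5) (nat_lit 46) (nat_lit 5) (nat_lit 47) (nat_lit 5) (nat_lit 311) (nat_lit 283) (nat_lit 186))) (XT.nd (nat_lit 78) (nat_lit 228) (nat_lit 0) (XT.lf (nat_lit 0) (nat_lit 21505590033) (nat_lit 228) (nat_lit 5305251820) (nat_lit 304) (nat_lit 1995318396) (nat_lit 43) (nat_lit 5) (nat_lit 46) (nat_lit 5) (nat_lit 47) (nat_lit 5) (nat_lit 312) (nat_lit 283) (nat_lit 185)) (XT.nd (nat_lit 78) (nat_lit 0) (nat_lit 0) (XT.lf (nat_lit 0) (nat_lit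 2240461232) (nat_lit 228) (nat_lit 23499382476) (nat_lit 76) (nat_lit 4013985882) (nat_lit 40) (nat_lit 5) (nat_lit 43) (nat_lit 5) (nat_lit 41) (nat_lit 5) (nat_lit 313) (nat_lit 283) (nat_lit 184)) (XT.lf (nat_lit 0) (nat_lit 6825851922) (nat_lit 228) (nat_lit 10134607893) (nat_lit 76) (nat_lit 13776556710) (nat_lit 40) (nat_lit 5) (nat_lit 43) (nat_lit 5) (nat_lit 41) (nat_lit 5) (nat_lit 314) (nat_lit 283) (nat_lit 183))))) (XT.nd (nat_lit 156) (nat_lit 152) (nat_lit 0) (XT.nd (nat_lit 78) (nat_lit 0) (nat_lit 0) (XT.lf (nat_lit 0) (nat_lit 4016605977) (nat_lit 228) (nat_lit 7679227090) (nat_lit 304) (nat_lit 20070776575) (nat_lit 37) (nat_lit 5) (nat_lit 40) (nat_lit 5) (nat_lit 41) (nat_lit 5) (nat_lit 315) (nat_lit 283) (nat_lit 182)) (XT.lf (nat_lit 0) (nat_lit 17008775076) (nat_lit 304) (nat_lit 13657454506) (nat_lit 76) (nat_lit 2171492013) (nat_lit 37) (nat_lit 5) (nat_lit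 41) (nat_lit 5) (nat_lit 38) (nat_lit 5) (nat_lit 316) (nat_lit 283) (nat_lit 181))) (XT.nd (nat_lit 78) (nat_lit 0) (nat_lit 0) (XT.lf (nat_lit 0) (nat_lit 1037010351) (nat_lit 152) (nat_lit 21685534902) (nat_lit 228) (nat_lit 11233096525) (nat_lit 35) (nat_lit 5) (nat_lit 37) (nat_lit 5) (nat_lit 38) (nat_lit 5) (nat_lit 317) (nat_lit 283) (nat_lit 180)) (XT.nd (nat_lit 78) (nat_lit 0) (nat_lit 0) (XT.lf (nat_lit 0) (nat_lit 16930502346) (nat_lit 152) (nat_lit 12016073341) (nat_lit 228) (nat_lit 6171664825) (nat_lit 35) (nat_lit 5) (nat_lit 37) (nat_lit 5) (nat_lit 38) (nat_lit 5) (nat_lit 318) (nat_lit 283) (nat_lit 179)) (XT.lf (nat_lit 0) (nat_lit 33609285999) (nat_lit 152) (nat_lit 1866117972) (nat_lit 228) (nat_lit 863895992) (nat_lit 35) (nat_lit 5) (nat_lit 37) (nat_lit 5) (nat_lit 38) (nat_lit 5) (nat_lit 319) (nat_lit 283) (nat_lit 178))))))) (XT.nd (nat_lit 780) (nat_lit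 380) (nat_lit 0) (XT.nd (nat_lit 390) (nat_lit 380) (nat_lit 0) (XT.nd (nat_lit 156) (nat_lit 304) (nat_lit 0) (XT.nd (nat_lit 78) (nat_lit 0) (nat_lit 0) (XT.lf (nat_lit 0) (nat_lit 4910709700) (nat_lit 304) (nat_lit 23887622180) (nat_lit 76) (nat_lit 8801805174) (nat_lit 31) (nat_lit 5) (nat_lit 35) (nat_lit 5) (nat_lit 32) (nat_lit 5) (nat_lit 320) (nat_lit 283) (nat_lit 177)) (XT.lf (nat_lit 0) (nat_lit 11016497781) (nat_lit 304) (nat_lit 7904535680) (nat_lit 76) (nat_lit 19998709350) (nat_lit 31) (nat_lit 5) (nat_lit 35) (nat_lit 5) (nat_lit 32) (nat_lit 5) (nat_lit 321) (nat_lit 283) (nat_lit 176))) (XT.nd (nat_lit 78) (nat_lit 152) (nat_lit 0) (XT.lf (nat_lit 0) (nat_lit 9162122474) (nat_lit 152) (nat_lit 8402690181) (nat_lit 228) (nat_lit 22733663049) (nat_lit 29) (nat_lit 5) (nat_lit 31) (nat_lit 5) (nat_lit 32) (nat_lit 5) (nat_lit 322) (nat_lit 283) (nat_lit 175)) (XT.nd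 (nat_lit 78) (nat_lit 152) (nat_lit 0) (XT.lf (nat_lit 0) (nat_lit 24612132157) (nat_lit 228) (nat_lit 14435277597) (nat_lit 76) (nat_lit 2690164349) (nat_lit 29) (nat_lit 5) (nat_lit 32) (nat_lit 5) (nat_lit 30) (nat_lit 5) (nat_lit 323) (nat_lit 283) (nat_lit 174)) (XT.lf (nat_lit 0) (nat_lit 3052290372) (nat_lit 152) (nat_lit 29139488123) (nat_lit 228) (nat_lit 11047858793) (nat_lit 27) (nat_lit 5) (nat_lit 29) (nat_lit 5) (nat_lit 30) (nat_lit 5) (nat_lit 324) (nat_lit 283) (nat_lit 173))))) (XT.nd (nat_lit 156) (nat_lit 304) (nat_lit 0) (XT.nd (nat_lit 78) (nat_lit 76) (nat_lit 0) (XT.lf (nat_lit 0) (nat_lit 21907029377) (nat_lit 152) (nat_lit 18482531767) (nat_lit 228) (nat_lit 4415292321) (nat_lit 27) (nat_lit 5) (nat_lit 29) (nat_lit 5) (nat_lit 30) (nat_lit 5) (nat_lit 325) (nat_lit 283) (nat_lit 172)) (XT.lf (nat_lit 0) (nat_lit 2462170409) (nat_lit 228) (nat_lit 4791766935)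 (nat_lit 76) (nat_lit 39192667727) (nat_lit 26) (nat_lit 5) (nat_lit 29) (nat_lit 5) (nat_lit 27) (nat_lit 5) (nat_lit 326) (nat_lit 283) (nat_lit 171))) (XT.nd (nat_lit 78) (nat_lit 152) (nat_lit 0) (XT.lf (nat_lit 0) (nat_lit 9833974924) (nat_lit 228) (nat_lit 33624408870) (nat_lit 76) (nat_lit 4693505307) (nat_lit 24) (nat_lit 5) (nat_lit 27) (nat_lit 5) (nat_lit 25) (nat_lit 5) (nat_lit 327) (nat_lit 283) (nat_lit 170)) (XT.nd (nat_lit 78) (nat_lit 152) (nat_lit 0) (XT.lf (nat_lit 0) (nat_lit 17770932010) (nat_lit 228) (nat_lit 15087412707) (nat_lit 76) (nat_lit 17074270695) (nat_lit 24) (nat_lit 5) (nat_lit 27) (nat_lit 5) (nat_lit 25) (nat_lit 5) (nat_lit 328) (nat_lit 283) (nat_lit 169)) (XT.lf (nat_lit 0) (nat_lit 4513429620) (nat_lit 152) (nat_lit 21657169001) (nat_lit 228) (nat_lit 25628492236) (nat_lit 22) (nat_lit 5) (nat_lit 24) (nat_lit 5) (nat_lit 25) (nat_lit 5) (nat_lit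 329) (nat_lit 283) (nat_lit 168)))))) (XT.nd (nat_lit 390) (nat_lit 228) (nat_lit 0) (XT.nd (nat_lit 156) (nat_lit 152) (nat_lit 0) (XT.nd (nat_lit 78) (nat_lit 0) (nat_lit 0) (XT.lf (nat_lit 0) (nat_lit 25610773736) (nat_lit 152) (nat_lit 9630486545) (nat_lit 228) (nat_lit 18505084828) (nat_lit 22) (nat_lit 5) (nat_lit 24) (nat_lit 5) (nat_lit 25) (nat_lit 5) (nat_lit 330) (nat_lit 283) (nat_lit 167)) (XT.lf (nat_lit 0) (nat_lit 44807926050) (nat_lit 228) (nat_lit 8081945957) (nat_lit 76) (nat_lit 2898971869) (nat_lit 22) (nat_lit 5) (nat_lit 25) (nat_lit 5) (nat_lit 23) (nat_lit 4) (nat_lit 331) (nat_lit 283) (nat_lit 166))) (XT.nd (nat_lit 78) (nat_lit 76) (nat_lit 0) (XT.lf (nat_lit 0) (nat_lit 13233201275) (nat_lit 76) (nat_lit 41980085331) (nat_lit 152) (nat_lit 2702167998) (nat_lit 21) (nat_lit 5) (nat_lit 22) (nat_lit 5) (nat_lit 23) (nat_lit 4) (nat_lit 332) (nat_lit 283) (nat_lit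 165)) (XT.nd (nat_lit 78) (nat_lit 0) (nat_lit 0) (XT.lf (nat_lit 0) (nat_lit 5933798721) (nat_lit 152) (nat_lit 24349489938) (nat_lit 76) (nat_lit 29853684723) (nat_lit 20) (nat_lit 5) (nat_lit 22) (nat_lit 5) (nat_lit 21) (nat_lit 5) (nat_lit 333) (nat_lit 283) (nat_lit 164)) (XT.lf (nat_lit 0) (nat_lit 14906846513) (nat_lit 152) (nat_lit 3050917491) (nat_lit 76) (nat_lit 44509788941) (nat_lit 20) (nat_lit 5) (nat_lit 22) (nat_lit 5) (nat_lit 21) (nat_lit 5) (nat_lit 334) (nat_lit 283) (nat_lit 163))))) (XT.nd (nat_lit 156) (nat_lit 76) (nat_lit 0) (XT.nd (nat_lit 78) (nat_lit 0) (nat_lit 0) (XT.lf (nat_lit 0) (nat_lit 19944718874) (nat_lit 152) (nat_lit 4691500112) (nat_lit 228) (nat_lit 40263063081) (nat_lit 18) (nat_lit 5) (nat_lit 20) (nat_lit 5) (nat_lit 21) (nat_lit 5) (nat_lit 335) (nat_lit 283) (nat_lit 162)) (XT.lf (nat_lit 0) (nat_lit 35045130373) (nat_lit 228) (nat_lit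 23405302634) (nat_lit 76) (nat_lit 8992515118) (nat_lit 18) (nat_lit 5) (nat_lit 21) (nat_lit 5) (nat_lit 19) (nat_lit 4) (nat_lit 336) (nat_lit 283) (nat_lit 161))) (XT.nd (nat_lit 78) (nat_lit 76) (nat_lit 0) (XT.lf (nat_lit 0) (nat_lit 46047894524) (nat_lit 228) (nat_lit 861457600) (nat_lit 76) (nat_lit 23200778805) (nat_lit 18) (nat_lit 5) (nat_lit 21) (nat_lit 5) (nat_lit 19) (nat_lit 4) (nat_lit 337) (nat_lit 283) (nat_lit 160)) (XT.nd (nat_lit 78) (nat_lit 0) (nat_lit 0) (XT.lf (nat_lit 0) (nat_lit 23557894954) (nat_lit 76) (nat_lit 34407370840) (nat_lit 152) (nat_lit 14927187259) (nat_lit 17) (nat_lit 5) (nat_lit 18) (nat_lit 5) (nat_lit 19) (nat_lit 4) (nat_lit 338) (nat_lit 283) (nat_lit 159)) (XT.lf (nat_lit 0) (nat_lit 49222530194) (nat_lit 76) (nat_lit 21267300316) (nat_lit 152) (nat_lit 5323497979) (nat_lit 17) (nat_lit 5) (nat_lit 18) (nat_lit 5) (nat_lit 19) (nat_lit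 4) (nat_lit 339) (nat_lit 283) (nat_lit 158))))))))
noncomputable def xc174 : XT := (XT.nd (nat_lit 1482) (nat_lit 380) (nat_lit 0) (XT.nd (nat_lit 702) (nat_lit 152) (nat_lit 0) (XT.nd (nat_lit 312) (nat_lit 228) (nat_lit 0) (XT.nd (nat_lit 156) (nat_lit 0) (nat_lit 0) (XT.nd (nat_lit 78) (nat_lit 152) (nat_lit 0) (XT.lf (nat_lit 0) (nat_lit 4604850988) (nat_lit 152) (nat_lit 2789607503) (nat_lit 76) (nat_lit 71482234346) (nat_lit 16) (nat_lit 5) (nat_lit 18) (nat_lit 5) (nat_lit 17) (nat_lit 5) (nat_lit 340) (nat_lit 283) (nat_lit 157)) (XT.lf (nat_lit 0) (nat_lit 15323518724) (nat_lit 228) (nat_lit 59350176849) (nat_lit 76) (nat_lit 7391529000) (nat_lit 14) (nat_lit 5) (nat_lit 17) (nat_lit 5) (nat_lit 15) (nat_lit 4) (nat_lit 341) (nat_lit 283) (nat_lit 156))) (XT.nd (nat_lit 78) (nat_lit 0) (nat_lit 0) (XT.lf (nat_lit 0) (nat_lit 26744376392) (nat_lit 228) (nat_lit 35946239998)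 (nat_lit 76) (nat_lit 22714256518) (nat_lit 14) (nat_lit 5) (nat_lit 17) (nat_lit 5) (nat_lit 15) (nat_lit 4) (nat_lit 342) (nat_lit 283) (nat_lit 155)) (XT.lf (nat_lit 0) (nat_lit 38733437019) (nat_lit 228) (nat_lit 11377067014) (nat_lit 76) (nat_lit 38801144326) (nat_lit 14) (nat_lit 5) (nat_lit 17) (nat_lit 5) (nat_lit 15) (nat_lit 4) (nat_lit 343) (nat_lit 283) (nat_lit 154)))) (XT.nd (nat_lit 156) (nat_lit 152) (nat_lit 0) (XT.nd (nat_lit 78) (nat_lit 0) (nat_lit 0) (XT.lf (nat_lit 0) (nat_lit 14892492912) (nat_lit 76) (nat_lit 36659266627) (nat_lit 152) (nat_lit 41030515174) (nat_lit 13) (nat_lit 5) (nat_lit 14) (nat_lit 5) (nat_lit 15) (nat_lit 4) (nat_lit 344) (nat_lit 283) (nat_lit 153)) (XT.lf (nat_lit 0) (nat_lit 42865868629) (nat_lit 76) (nat_lit 22335157226) (nat_lit 152) (nat_lit 31225907602) (nat_lit 13) (nat_lit 5) (nat_lit 14) (nat_lit 5) (nat_lit 15) (nat_lit 4) (nat_lit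 345) (nat_lit 283) (nat_lit 152))) (XT.nd (nat_lit 78) (nat_lit 152) (nat_lit 0) (XT.lf (nat_lit 0) (nat_lit 72233486194) (nat_lit 76) (nat_lit 7296746942) (nat_lit 152) (nat_lit 20933720453) (nat_lit 13) (nat_lit 5) (nat_lit 14) (nat_lit 5) (nat_lit 15) (nat_lit 4) (nat_lit 346) (nat_lit 283) (nat_lit 151)) (XT.nd (nat_lit 78) (nat_lit 152) (nat_lit 0) (XT.lf (nat_lit 0) (nat_lit 94706078871) (nat_lit 152) (nat_lit 1770258885) (nat_lit 0) (nat_lit 8219980292) (nat_lit 13) (nat_lit 5) (nat_lit 15) (nat_lit 4) (nat_lit 13) (nat_lit 4) (nat_lit 347) (nat_lit 283) (nat_lit 150)) (XT.lf (nat_lit 0) (nat_lit 1996032136) (nat_lit 152) (nat_lit 82400501880) (nat_lit 76) (nat_lit 24715415512) (nat_lit 11) (nat_lit 5) (nat_lit 13) (nat_lit 5) (nat_lit 12) (nat_lit 4) (nat_lit 348) (nat_lit 283) (nat_lit 149)))))) (XT.nd (nat_lit 390) (nat_lit 76) (nat_lit 0) (XT.nd (nat_lit 156) (nat_lit 76)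 (nat_lit 0) (XT.nd (nat_lit 78) (nat_lit 0) (nat_lit 0) (XT.lf (nat_lit 0) (nat_lit 14274044369) (nat_lit 152) (nat_lit 57236547451) (nat_lit 76) (nat_lit 42228175719) (nat_lit 11) (nat_lit 5) (nat_lit 13) (nat_lit 5) (nat_lit 12) (nat_lit 4) (nat_lit 349) (nat_lit 283) (nat_lit 148)) (XT.lf (nat_lit 0) (nat_lit 27163760290) (nat_lit 152) (nat_lit 30818316146) (nat_lit 76) (nat_lit 60614961691) (nat_lit 11) (nat_lit 5) (nat_lit 13) (nat_lit 5) (nat_lit 12) (nat_lit 4) (nat_lit 350) (nat_lit 283) (nat_lit 147))) (XT.nd (nat_lit 78) (nat_lit 76) (nat_lit 0) (XT.lf (nat_lit 0) (nat_lit 40695869698) (nat_lit 152) (nat_lit 3082907413) (nat_lit 76) (nat_lit 79919551491) (nat_lit 11) (nat_lit 5) (nat_lit 13) (nat_lit 5) (nat_lit 12) (nat_lit 4) (nat_lit 351) (nat_lit 283) (nat_lit 146)) (XT.nd (nat_lit 78) (nat_lit 0) (nat_lit 0) (XT.lf (nat_lit 0) (nat_lit 26896573765) (nat_lit 76) (nat_lit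 28425949030) (nat_lit 152) (nat_lit 73711265555) (nat_lit 10) (nat_lit 5) (nat_lit 11) (nat_lit 5) (nat_lit 12) (nat_lit 4) (nat_lit 352) (nat_lit 283) (nat_lit 145)) (XT.lf (nat_lit 0) (nat_lit 58478561626) (nat_lit 76) (nat_lit 12252205037) (nat_lit 152) (nat_lit 63902743098) (nat_lit 10) (nat_lit 5) (nat_lit 11) (nat_lit 5) (nat_lit 12) (nat_lit 4) (nat_lit 353) (nat_lit 283) (nat_lit 144))))) (XT.nd (nat_lit 156) (nat_lit 76) (nat_lit 0) (XT.nd (nat_lit 78) (nat_lit 0) (nat_lit 0) (XT.lf (nat_lit 0) (nat_lit 86981392373) (nat_lit 152) (nat_lit 48950824275) (nat_lit 0) (nat_lit 4577403616) (nat_lit 10) (nat_lit 5) (nat_lit 12) (nat_lit 4) (nat_lit 10) (nat_lit 4) (nat_lit 354) (nat_lit 283) (nat_lit 143)) (XT.lf (nat_lit 0) (nat_lit 104243612390) (nat_lit 152) (nat_lit 20590591782) (nat_lit 0) (nat_lit 21835380405) (nat_lit 10) (nat_lit 5) (nat_lit 12) (nat_lit 4) (nat_lit 10) (nat_lit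 4) (nat_lit 355) (nat_lit 283) (nat_lit 142))) (XT.nd (nat_lit 78) (nat_lit 0) (nat_lit 0) (XT.lf (nat_lit 0) (nat_lit 9488248161) (nat_lit 76) (nat_lit 113027125965) (nat_lit 76) (nat_lit 30614852809) (nat_lit 9) (nat_lit 4) (nat_lit 10) (nat_lit 5) (nat_lit 10) (nat_lit 4) (nat_lit 356) (nat_lit 283) (nat_lit 141)) (XT.nd (nat_lit 78) (nat_lit 0) (nat_lit 0) (XT.lf (nat_lit 0) (nat_lit 41782851379) (nat_lit 76) (nat_lit 100264910658) (nat_lit 76) (nat_lit 17848788769) (nat_lit 9) (nat_lit 4) (nat_lit 10) (nat_lit 5) (nat_lit 10) (nat_lit 4) (nat_lit 357) (nat_lit 283) (nat_lit 140)) (XT.lf (nat_lit 0) (nat_lit 75689291830) (nat_lit 76) (nat_lit 86865883661) (nat_lit 76) (nat_lit 4446096311) (nat_lit 9) (nat_lit 4) (nat_lit 10) (nat_lit 5) (nat_lit 10) (nat_lit 4) (nat_lit 358) (nat_lit 283) (nat_lit 139))))))) (XT.nd (nat_lit 780) (nat_lit 152) (nat_lit 0) (XT.nd (nat_lit 390) (nat_lit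 76) (nat_lit 0) (XT.nd (nat_lit 156) (nat_lit 76) (nat_lit 0) (XT.nd (nat_lit 78) (nat_lit 0) (nat_lit 0) (XT.lf (nat_lit 0) (nat_lit 9317071282) (nat_lit 152) (nat_lit 63323282135) (nat_lit 76) (nat_lit 101813438741) (nat_lit 8) (nat_lit 5) (nat_lit 10) (nat_lit 5) (nat_lit 9) (nat_lit 4) (nat_lit 359) (nat_lit 283) (nat_lit 138)) (XT.lf (nat_lit 0) (nat_lit 23617508806) (nat_lit 152) (nat_lit 34010709891) (nat_lit 76) (nat_lit 124647150087) (nat_lit 8) (nat_lit 5) (nat_lit 10) (nat_lit 5) (nat_lit 9) (nat_lit 4) (nat_lit 360) (nat_lit 283) (nat_lit 137))) (XT.nd (nat_lit 78) (nat_lit 76) (nat_lit 0) (XT.lf (nat_lit 0) (nat_lit 38631567770) (nat_lit 152) (nat_lit 3235055379) (nat_lit 76) (nat_lit 148621472133) (nat_lit 8) (nat_lit 5) (nat_lit 10) (nat_lit 5) (nat_lit 9) (nat_lit 4) (nat_lit 361) (nat_lit 283) (nat_lit 136)) (XT.nd (nat_lit 78) (nat_lit 0) (nat_lit 0) (XT.lf (nat_lit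 0) (nat_lit 30038372275) (nat_lit 76) (nat_lit 24825606830) (nat_lit 152) (nat_lit 144224097499) (nat_lit 7) (nat_lit 5) (nat_lit 8) (nat_lit 5) (nat_lit 9) (nat_lit 4) (nat_lit 362) (nat_lit 283) (nat_lit 135)) (XT.lf (nat_lit 0) (nat_lit 65085399155) (nat_lit 76) (nat_lit 6876091591) (nat_lit 152) (nat_lit 136153893183) (nat_lit 7) (nat_lit 5) (nat_lit 8) (nat_lit 5) (nat_lit 9) (nat_lit 4) (nat_lit 363) (nat_lit 283) (nat_lit 134))))) (XT.nd (nat_lit 156) (nat_lit 76) (nat_lit 0) (XT.nd (nat_lit 78) (nat_lit 0) (nat_lit 0) (XT.lf (nat_lit 0) (nat_lit 90099515994) (nat_lit 152) (nat_lit 115898497992) (nat_lit 0) (nat_lit 11586761614) (nat_lit 7) (nat_lit 5) (nat_lit 9) (nat_lit 4) (nat_lit 7) (nat_lit 4) (nat_lit 364) (nat_lit 283) (nat_lit 133)) (XT.lf (nat_lit 0) (nat_lit 109255964112) (nat_lit 152) (nat_lit 87525368696) (nat_lit 0) (nat_lit 30740728804) (nat_lit 7) (nat_lit 5)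 (nat_lit 9) (nat_lit 4) (nat_lit 7) (nat_lit 4) (nat_lit 365) (nat_lit 283) (nat_lit 132))) (XT.nd (nat_lit 78) (nat_lit 76) (nat_lit 0) (XT.lf (nat_lit 0) (nat_lit 129369090632) (nat_lit 152) (nat_lit 57735686755) (nat_lit 0) (nat_lit 50851492536) (nat_lit 7) (nat_lit 5) (nat_lit 9) (nat_lit 4) (nat_lit 7) (nat_lit 4) (nat_lit 366) (nat_lit 283) (nat_lit 131)) (XT.nd (nat_lit 78) (nat_lit 76) (nat_lit 0) (XT.lf (nat_lit 0) (nat_lit 150486783951) (nat_lit 152) (nat_lit 26458524357) (nat_lit 0) (nat_lit 71966935580) (nat_lit 7) (nat_lit 5) (nat_lit 9) (nat_lit 4) (nat_lit 7) (nat_lit 4) (nat_lit 367) (nat_lit 283) (nat_lit 130)) (XT.lf (nat_lit 0) (nat_lit 6591558986) (nat_lit 76) (nat_lit 166170678012) (nat_lit 76) (nat_lit 87648686522) (nat_lit 6) (nat_lit 4) (nat_lit 7) (nat_lit 5) (nat_lit 7) (nat_lit 4) (nat_lit 368) (nat_lit 283) (nat_lit 129)))))) (XT.nd (nat_lit 390) (nat_lit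 152) (nat_lit 0) (XT.nd (nat_lit 156) (nat_lit 0) (nat_lit 0) (XT.nd (nat_lit 78) (nat_lit 0) (nat_lit 0) (XT.lf (nat_lit 0) (nat_lit 42210849268) (nat_lit 76) (nat_lit 154387683796) (nat_lit 76) (nat_lit 75863651241) (nat_lit 6) (nat_lit 4) (nat_lit 7) (nat_lit 5) (nat_lit 7) (nat_lit 4) (nat_lit 369) (nat_lit 283) (nat_lit 128)) (XT.lf (nat_lit 0) (nat_lit 79609316017) (nat_lit 76) (nat_lit 142016358826) (nat_lit 76) (nat_lit 63490382399) (nat_lit 6) (nat_lit 4) (nat_lit 7) (nat_lit 5) (nat_lit 7) (nat_lit 4) (nat_lit 370) (nat_lit 283) (nat_lit 127))) (XT.nd (nat_lit 78) (nat_lit 0) (nat_lit 0) (XT.lf (nat_lit 0) (nat_lit 118876003201) (nat_lit 76) (nat_lit 129027247565) (nat_lit 76) (nat_lit 50499419831) (nat_lit 6) (nat_lit 4) (nat_lit 7) (nat_lit 5) (nat_lit 7) (nat_lit 4) (nat_lit 371) (nat_lit 283) (nat_lit 126)) (XT.nd (nat_lit 78) (nat_lit 0) (nat_lit 0) (XT.lf (nat_lit 0)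 (nat_lit 160104402933) (nat_lit 76) (nat_lit 115389423559) (nat_lit 76) (nat_lit 36859832676) (nat_lit 6) (nat_lit 4) (nat_lit 7) (nat_lit 5) (nat_lit 7) (nat_lit 4) (nat_lit 372) (nat_lit 283) (nat_lit 125)) (XT.lf (nat_lit 0) (nat_lit 203392678069) (nat_lit 76) (nat_lit 101070415797) (nat_lit 76) (nat_lit 22539145724) (nat_lit 6) (nat_lit 4) (nat_lit 7) (nat_lit 5) (nat_lit 7) (nat_lit 4) (nat_lit 373) (nat_lit 283) (nat_lit 124))))) (XT.nd (nat_lit 156) (nat_lit 76) (nat_lit 0) (XT.nd (nat_lit 78) (nat_lit 76) (nat_lit 0) (XT.lf (nat_lit 0) (nat_lit 248843895931) (nat_lit 76) (nat_lit 86036131404) (nat_lit 76) (nat_lit 7503262103) (nat_lit 6) (nat_lit 4) (nat_lit 7) (nat_lit 5) (nat_lit 7) (nat_lit 4) (nat_lit 374) (nat_lit 283) (nat_lit 123)) (XT.lf (nat_lit 0) (nat_lit 8018490405) (nat_lit 152) (nat_lit 62096487044) (nat_lit 76) (nat_lit 288411986284) (nat_lit 5) (nat_lit 5) (nat_lit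 7) (nat_lit 5) (nat_lit 6) (nat_lit 4) (nat_lit 375) (nat_lit 283) (nat_lit 122))) (XT.nd (nat_lit 78) (nat_lit 76) (nat_lit 0) (XT.lf (nat_lit 0) (nat_lit 24063436250) (nat_lit 152) (nat_lit 29205798608) (nat_lit 76) (nat_lit 322202473911) (nat_lit 5) (nat_lit 5) (nat_lit 7) (nat_lit 5) (nat_lit 6) (nat_lit 4) (nat_lit 376) (nat_lit 283) (nat_lit 121)) (XT.nd (nat_lit 78) (nat_lit 0) (nat_lit 0) (XT.lf (nat_lit 0) (nat_lit 5504301949) (nat_lit 76) (nat_lit 35491564560) (nat_lit 152) (nat_lit 352263563137) (nat_lit 4) (nat_lit 5) (nat_lit 5) (nat_lit 5) (nat_lit 6) (nat_lit 4) (nat_lit 377) (nat_lit 283) (nat_lit 120)) (XT.lf (nat_lit 0) (nat_lit 42962593454) (nat_lit 76) (nat_lit 16306252174) (nat_lit 152) (nat_lit 352642994994) (nat_lit 4) (nat_lit 5) (nat_lit 5) (nat_lit 5) (nat_lit 6) (nat_lit 4) (nat_lit 378) (nat_lit 283) (nat_lit 119))))))))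
noncomputable def xc175 : XT := (XT.nd (nat_lit 34476) (nat_lit 0) (nat_lit 2356) (XT.nd (nat_lit 33696) (nat_lit 0) (nat_lit 4636) (XT.nd (nat_lit 33306) (nat_lit 0) (nat_lit 5852) (XT.nd (nat_lit 156) (nat_lit 0) (nat_lit 0) (XT.nd (nat_lit 78) (nat_lit 0) (nat_lit 0) (XT.lf (nat_lit 0) (nat_lit 78514737736) (nat_lit 152) (nat_lit 349264236852) (nat_lit 0) (nat_lit 3714934762) (nat_lit 4) (nat_lit 5) (nat_lit 6) (nat_lit 4) (nat_lit 4) (nat_lit 4) (nat_lit 379) (nat_lit 283) (nat_lit 118)) (XT.lf (nat_lit 0) (nat_lit 98989608636) (nat_lit 152) (nat_lit 328863469930) (nat_lit 0) (nat_lit 24188669121) (nat_lit 4) (nat_lit 5) (nat_lit 6) (nat_lit 4) (nat_lit 4) (nat_lit 4) (nat_lit 380) (nat_lit 283) (nat_lit 117))) (XT.nd (nat_lit 78) (nat_lit 0) (nat_lit 0) (XT.lf (nat_lit 0) (nat_lit 120487621730) (nat_lit 152) (nat_lit 307443786852) (nat_lit 0) (nat_lit 45685599793) (nat_lit 4) (nat_lit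 5) (nat_lit 6) (nat_lit 4) (nat_lit 4) (nat_lit 4) (nat_lit 381) (nat_lit 283) (nat_lit 116)) (XT.nd (nat_lit 32994) (nat_lit 0) (nat_lit 5852) (XT.lf (nat_lit 0) (nat_lit 143059962760) (nat_lit 152) (nat_lit 284954188375) (nat_lit 0) (nat_lit 68256909947) (nat_lit 4) (nat_lit 5) (nat_lit 6) (nat_lit 4) (nat_lit 4) (nat_lit 4) (nat_lit 382) (nat_lit 283) (nat_lit 115)) (XT.lf (nat_lit 0) (nat_lit 955687599) (nat_lit 0) (nat_lit 955687599) (nat_lit 684) (nat_lit 4819929751) (nat_lit 81) (nat_lit 5) (nat_lit 81) (nat_lit 3) (nat_lit 90) (nat_lit 3) (nat_lit 284) (nat_lit 284) (nat_lit 212))))) (XT.nd (nat_lit 156) (nat_lit 0) (nat_lit 76) (XT.nd (nat_lit 78) (nat_lit 0) (nat_lit 0) (XT.lf (nat_lit 0) (nat_lit 4326093126) (nat_lit 684) (nat_lit 5676366530) (nat_lit 760) (nat_lit 3775413475) (nat_lit 81) (nat_lit 5) (nat_lit 90) (nat_lit 3) (nat_lit 91) (nat_lit 5) (nat_lit 285) (nat_lit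 284) (nat_lit 211)) (XT.lf (nat_lit 76) (nat_lit 463294995) (nat_lit 0) (nat_lit 4407844021) (nat_lit 760) (nat_lit 9236992170) (nat_lit 82) (nat_lit 5) (nat_lit 81) (nat_lit 5) (nat_lit 91) (nat_lit 5) (nat_lit 286) (nat_lit 284) (nat_lit 210))) (XT.nd (nat_lit 78) (nat_lit 0) (nat_lit 0) (XT.lf (nat_lit 0) (nat_lit 5543007406) (nat_lit 684) (nat_lit 7381054884) (nat_lit 760) (nat_lit 1525917023) (nat_lit 82) (nat_lit 5) (nat_lit 91) (nat_lit 5) (nat_lit 92) (nat_lit 5) (nat_lit 287) (nat_lit 284) (nat_lit 209)) (XT.nd (nat_lit 78) (nat_lit 0) (nat_lit 0) (XT.lf (nat_lit 0) (nat_lit 6300696614) (nat_lit 684) (nat_lit 889198934) (nat_lit 760) (nat_lit 7616465957) (nat_lit 82) (nat_lit 5) (nat_lit 91) (nat_lit 5) (nat_lit 92) (nat_lit 5) (nat_lit 288) (nat_lit 284) (nat_lit 208)) (XT.lf (nat_lit 76) (nat_lit 6110584108) (nat_lit 0) (nat_lit 1062011098) (nat_lit 760) (nat_lit 8004201857)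 (nat_lit 83) (nat_lit 5) (nat_lit 82) (nat_lit 5) (nat_lit 92) (nat_lit 5) (nat_lit 289) (nat_lit 284) (nat_lit 207)))))) (XT.nd (nat_lit 390) (nat_lit 1368) (nat_lit 0) (XT.nd (nat_lit 156) (nat_lit 0) (nat_lit 76) (XT.nd (nat_lit 78) (nat_lit 0) (nat_lit 0) (XT.lf (nat_lit 0) (nat_lit 8169011348) (nat_lit 684) (nat_lit 2171006844) (nat_lit 760) (nat_lit 5221738175) (nat_lit 83) (nat_lit 5) (nat_lit 92) (nat_lit 5) (nat_lit 93) (nat_lit 5) (nat_lit 290) (nat_lit 284) (nat_lit 206)) (XT.lf (nat_lit 76) (nat_lit 5205678386) (nat_lit 0) (nat_lit 4090865234) (nat_lit 760) (nat_lit 6665401058) (nat_lit 84) (nat_lit 5) (nat_lit 83) (nat_lit 5) (nat_lit 93) (nat_lit 5) (nat_lit 291) (nat_lit 284) (nat_lit 205))) (XT.nd (nat_lit 78) (nat_lit 0) (nat_lit 0) (XT.lf (nat_lit 0) (nat_lit 10539713721) (nat_lit 684) (nat_lit 3406146815) (nat_lit 760) (nat_lit 2433362433) (nat_lit 84) (nat_lit 5)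 (nat_lit 93) (nat_lit 5) (nat_lit 94) (nat_lit 5) (nat_lit 292) (nat_lit 284) (nat_lit 204)) (XT.nd (nat_lit 78) (nat_lit 0) (nat_lit 0) (XT.lf (nat_lit 76) (nat_lit 4371733176) (nat_lit 0) (nat_lit 7592738154) (nat_lit 760) (nat_lit 4846963944) (nat_lit 85) (nat_lit 5) (nat_lit 84) (nat_lit 5) (nat_lit 94) (nat_lit 5) (nat_lit 293) (nat_lit 284) (nat_lit 203)) (XT.lf (nat_lit 76) (nat_lit 12644359342) (nat_lit 0) (nat_lit 858465870) (nat_lit 760) (nat_lit 3760354634) (nat_lit 85) (nat_lit 5) (nat_lit 84) (nat_lit 5) (nat_lit 94) (nat_lit 5) (nat_lit 294) (nat_lit 284) (nat_lit 202))))) (XT.nd (nat_lit 156) (nat_lit 836) (nat_lit 0) (XT.nd (nat_lit 78) (nat_lit 0) (nat_lit 0) (XT.lf (nat_lit 0) (nat_lit 3598668170) (nat_lit 684) (nat_lit 11658055726) (nat_lit 760) (nat_lit 2473894083) (nat_lit 76) (nat_lit 5) (nat_lit 85) (nat_lit 5) (nat_lit 86) (nat_lit 5) (nat_lit 295) (nat_lit 284)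 (nat_lit 201)) (XT.lf (nat_lit 0) (nat_lit 12360429339) (nat_lit 684) (nat_lit 4815902436) (nat_lit 760) (nat_lit 1041231420) (nat_lit 76) (nat_lit 5) (nat_lit 85) (nat_lit 5) (nat_lit 86) (nat_lit 5) (nat_lit 296) (nat_lit 284) (nat_lit 200))) (XT.nd (nat_lit 78) (nat_lit 380) (nat_lit 0) (XT.lf (nat_lit 0) (nat_lit 517818609) (nat_lit 456) (nat_lit 15859944226) (nat_lit 76) (nat_lit 2347285146) (nat_lit 70) (nat_lit 5) (nat_lit 76) (nat_lit 5) (nat_lit 71) (nat_lit 5) (nat_lit 297) (nat_lit 284) (nat_lit 199)) (XT.nd (nat_lit 78) (nat_lit 380) (nat_lit 0) (XT.lf (nat_lit 0) (nat_lit 2286437393) (nat_lit 456) (nat_lit 7136610787) (nat_lit 76) (nat_lit 9825705940) (nat_lit 70) (nat_lit 5) (nat_lit 76) (nat_lit 5) (nat_lit 71) (nat_lit 5) (nat_lit 298) (nat_lit 284) (nat_lit 198)) (XT.lf (nat_lit 0) (nat_lit 2077163476) (nat_lit 380) (nat_lit 2086220381) (nat_lit 456) (nat_lit 15634296400)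 (nat_lit 65) (nat_lit 5) (nat_lit 70) (nat_lit 5) (nat_lit 71) (nat_lit 5) (nat_lit 299) (nat_lit 284) (nat_lit 197))))))) (XT.nd (nat_lit 780) (nat_lit 1064) (nat_lit 0) (XT.nd (nat_lit 390) (nat_lit 608) (nat_lit 0) (XT.nd (nat_lit 156) (nat_lit 304) (nat_lit 0) (XT.nd (nat_lit 78) (nat_lit 304) (nat_lit 0) (XT.lf (nat_lit 0) (nat_lit 6332602540) (nat_lit 456) (nat_lit 8470948851) (nat_lit 76) (nat_lit 5560608188) (nat_lit 65) (nat_lit 5) (nat_lit 71) (nat_lit 5) (nat_lit 66) (nat_lit 5) (nat_lit 300) (nat_lit 284) (nat_lit 196)) (XT.lf (nat_lit 0) (nat_lit 1234359351) (nat_lit 304) (nat_lit 7417849686) (nat_lit 380) (nat_lit 12304684267) (nat_lit 61) (nat_lit 5) (nat_lit 65) (nat_lit 5) (nat_lit 66) (nat_lit 5) (nat_lit 301) (nat_lit 284) (nat_lit 195))) (XT.nd (nat_lit 78) (nat_lit 304) (nat_lit 0) (XT.lf (nat_lit 0) (nat_lit 11227679956) (nat_lit 380) (nat_lit 9873105803) (nat_lit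 76) (nat_lit 471509261) (nat_lit 61) (nat_lit 5) (nat_lit 66) (nat_lit 5) (nat_lit 62) (nat_lit 5) (nat_lit 302) (nat_lit 284) (nat_lit 194)) (XT.nd (nat_lit 78) (nat_lit 0) (nat_lit 0) (XT.lf (nat_lit 0) (nat_lit 346444925) (nat_lit 304) (nat_lit 13701834493) (nat_lit 380) (nat_lit 8164393946) (nat_lit 57) (nat_lit 5) (nat_lit 61) (nat_lit 5) (nat_lit 62) (nat_lit 5) (nat_lit 303) (nat_lit 284) (nat_lit 193)) (XT.lf (nat_lit 0) (nat_lit 11408102850) (nat_lit 304) (nat_lit 5758679516) (nat_lit 380) (nat_lit 5710467720) (nat_lit 57) (nat_lit 5) (nat_lit 61) (nat_lit 5) (nat_lit 62) (nat_lit 5) (nat_lit 304) (nat_lit 284) (nat_lit 192))))) (XT.nd (nat_lit 156) (nat_lit 380) (nat_lit 0) (XT.nd (nat_lit 78) (nat_lit 228) (nat_lit 0) (XT.lf (nat_lit 0) (nat_lit 20471657215) (nat_lit 380) (nat_lit 604100959) (nat_lit 76) (nat_lit 2497797166) (nat_lit 57) (nat_lit 5) (nat_lit 62) (nat_lit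 5) (nat_lit 58) (nat_lit 5) (nat_lit 305) (nat_lit 284) (nat_lit 191)) (XT.lf (nat_lit 0) (nat_lit 11052511531) (nat_lit 228) (nat_lit 13146839274) (nat_lit 304) (nat_lit 92467287) (nat_lit 54) (nat_lit 5) (nat_lit 57) (nat_lit 5) (nat_lit 58) (nat_lit 5) (nat_lit 306) (nat_lit 284) (nat_lit 190))) (XT.nd (nat_lit 78) (nat_lit 304) (nat_lit 0) (XT.lf (nat_lit 0) (nat_lit 2970375187) (nat_lit 304) (nat_lit 1791792662) (nat_lit 76) (nat_lit 20281394746) (nat_lit 53) (nat_lit 5) (nat_lit 57) (nat_lit 5) (nat_lit 54) (nat_lit 5) (nat_lit 307) (nat_lit 284) (nat_lit 189)) (XT.nd (nat_lit 78) (nat_lit 0) (nat_lit 0) (XT.lf (nat_lit 0) (nat_lit 6404986773) (nat_lit 380) (nat_lit 15337121217) (nat_lit 76) (nat_lit 4079641942) (nat_lit 49) (nat_lit 5) (nat_lit 54) (nat_lit 5) (nat_lit 50) (nat_lit 5) (nat_lit 308) (nat_lit 284) (nat_lit 188)) (XT.lf (nat_lit 0) (nat_lit 10111628101) (nat_lit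 380) (nat_lit 3289708687) (nat_lit 76) (nat_lit 13232512156) (nat_lit 49) (nat_lit 5) (nat_lit 54) (nat_lit 5) (nat_lit 50) (nat_lit 5) (nat_lit 309) (nat_lit 284) (nat_lit 187)))))) (XT.nd (nat_lit 390) (nat_lit 380) (nat_lit 0) (XT.nd (nat_lit 156) (nat_lit 456) (nat_lit 0) (XT.nd (nat_lit 78) (nat_lit 0) (nat_lit 0) (XT.lf (nat_lit 0) (nat_lit 9658844807) (nat_lit 228) (nat_lit 4487356901) (nat_lit 304) (nat_lit 13333237628) (nat_lit 46) (nat_lit 5) (nat_lit 49) (nat_lit 5) (nat_lit 50) (nat_lit 5) (nat_lit 310) (nat_lit 284) (nat_lit 186)) (XT.lf (nat_lit 0) (nat_lit 18507195608) (nat_lit 304) (nat_lit 5083055281) (nat_lit 76) (nat_lit 4770839439) (nat_lit 46) (nat_lit 5) (nat_lit 50) (nat_lit 5) (nat_lit 47) (nat_lit 5) (nat_lit 311) (nat_lit 284) (nat_lit 185))) (XT.nd (nat_lit 78) (nat_lit 228) (nat_lit 0) (XT.lf (nat_lit 0) (nat_lit 8479100953) (nat_lit 228) (nat_lit 14805460081)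 (nat_lit 304) (nat_lit 5992361658) (nat_lit 43) (nat_lit 5) (nat_lit 46) (nat_lit 5) (nat_lit 47) (nat_lit 5) (nat_lit 312) (nat_lit 284) (nat_lit 184)) (XT.nd (nat_lit 78) (nat_lit 228) (nat_lit 0) (XT.lf (nat_lit 0) (nat_lit 22885918865) (nat_lit 228) (nat_lit 5493544133) (nat_lit 304) (nat_lit 1855164466) (nat_lit 43) (nat_lit 5) (nat_lit 46) (nat_lit 5) (nat_lit 47) (nat_lit 5) (nat_lit 313) (nat_lit 284) (nat_lit 183)) (XT.lf (nat_lit 0) (nat_lit 2579758158) (nat_lit 228) (nat_lit 24355844009) (nat_lit 76) (nat_lit 4294158976) (nat_lit 40) (nat_lit 5) (nat_lit 43) (nat_lit 5) (nat_lit 41) (nat_lit 5) (nat_lit 314) (nat_lit 284) (nat_lit 182))))) (XT.nd (nat_lit 156) (nat_lit 152) (nat_lit 0) (XT.nd (nat_lit 78) (nat_lit 228) (nat_lit 0) (XT.lf (nat_lit 0) (nat_lit 7383595818) (nat_lit 228) (nat_lit 10337997725) (nat_lit 76) (nat_lit 14541073878) (nat_lit 40) (nat_lit 5) (nat_lit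 43) (nat_lit 5) (nat_lit 41) (nat_lit 5) (nat_lit 315) (nat_lit 284) (nat_lit 181)) (XT.lf (nat_lit 0) (nat_lit 4515884249) (nat_lit 228) (nat_lit 7975544176) (nat_lit 304) (nat_lit 20852612120) (nat_lit 37) (nat_lit 5) (nat_lit 40) (nat_lit 5) (nat_lit 41) (nat_lit 5) (nat_lit 316) (nat_lit 284) (nat_lit 180))) (XT.nd (nat_lit 78) (nat_lit 152) (nat_lit 0) (XT.lf (nat_lit 0) (nat_lit 18061282474) (nat_lit 304) (nat_lit 14047013727) (nat_lit 76) (nat_lit 2360865761) (nat_lit 37) (nat_lit 5) (nat_lit 41) (nat_lit 5) (nat_lit 38) (nat_lit 5) (nat_lit 317) (nat_lit 284) (nat_lit 179)) (XT.nd (nat_lit 78) (nat_lit 0) (nat_lit 0) (XT.lf (nat_lit 0) (nat_lit 1377443510) (nat_lit 152) (nat_lit 22678180918) (nat_lit 228) (nat_lit 11587625862) (nat_lit 35) (nat_lit 5) (nat_lit 37) (nat_lit 5) (nat_lit 38) (nat_lit 5) (nat_lit 318) (nat_lit 284) (nat_lit 178)) (XT.lf (nat_lit 0) (nat_lit 18051868074)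 (nat_lit 152) (nat_lit 12529609647) (nat_lit 228) (nat_lit 6282985695) (nat_lit 35) (nat_lit 5) (nat_lit 37) (nat_lit 5) (nat_lit 38) (nat_lit 5) (nat_lit 319) (nat_lit 284) (nat_lit 177))))))))
noncomputable def xc176 : XT := (XT.nd (nat_lit 1482) (nat_lit 684) (nat_lit 0) (XT.nd (nat_lit 702) (nat_lit 456) (nat_lit 0) (XT.nd (nat_lit 312) (nat_lit 380) (nat_lit 0) (XT.nd (nat_lit 156) (nat_lit 152) (nat_lit 0) (XT.nd (nat_lit 78) (nat_lit 304) (nat_lit 0) (XT.lf (nat_lit 0) (nat_lit 35551503262) (nat_lit 152) (nat_lit 1876312098) (nat_lit 228) (nat_lit 719221868) (nat_lit 35) (nat_lit 5) (nat_lit 37) (nat_lit 5) (nat_lit 38) (nat_lit 5) (nat_lit 320) (nat_lit 284) (nat_lit 176)) (XT.lf (nat_lit 0) (nat_lit 5334907909) (nat_lit 304) (nat_lit 24810494345) (nat_lit 76) (nat_lit 9325540331) (nat_lit 31) (nat_lit 5) (nat_lit 35) (nat_lit 5) (nat_lit 32) (nat_lit 5) (nat_lit 321) (nat_lit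 284) (nat_lit 175))) (XT.nd (nat_lit 78) (nat_lit 152) (nat_lit 0) (XT.lf (nat_lit 0) (nat_lit 11737477645) (nat_lit 304) (nat_lit 8041182517) (nat_lit 76) (nat_lit 21078306626) (nat_lit 31) (nat_lit 5) (nat_lit 35) (nat_lit 5) (nat_lit 32) (nat_lit 5) (nat_lit 322) (nat_lit 284) (nat_lit 174)) (XT.lf (nat_lit 0) (nat_lit 9874637900) (nat_lit 152) (nat_lit 8734439787) (nat_lit 228) (nat_lit 23695777330) (nat_lit 29) (nat_lit 5) (nat_lit 31) (nat_lit 5) (nat_lit 32) (nat_lit 5) (nat_lit 323) (nat_lit 284) (nat_lit 173)))) (XT.nd (nat_lit 156) (nat_lit 228) (nat_lit 0) (XT.nd (nat_lit 78) (nat_lit 152) (nat_lit 0) (XT.lf (nat_lit 0) (nat_lit 26002171465) (nat_lit 228) (nat_lit 14907923535) (nat_lit 76) (nat_lit 2906154504) (nat_lit 29) (nat_lit 5) (nat_lit 32) (nat_lit 5) (nat_lit 30) (nat_lit 5) (nat_lit 324) (nat_lit 284) (nat_lit 172)) (XT.lf (nat_lit 0) (nat_lit 3450004801) (nat_lit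 152) (nat_lit 30507029982) (nat_lit 228) (nat_lit 11436580365) (nat_lit 27) (nat_lit 5) (nat_lit 29) (nat_lit 5) (nat_lit 30) (nat_lit 5) (nat_lit 325) (nat_lit 284) (nat_lit 171))) (XT.nd (nat_lit 78) (nat_lit 228) (nat_lit 0) (XT.lf (nat_lit 0) (nat_lit 23235809332) (nat_lit 152) (nat_lit 19321484501) (nat_lit 228) (nat_lit 4480179444) (nat_lit 27) (nat_lit 5) (nat_lit 29) (nat_lit 5) (nat_lit 30) (nat_lit 5) (nat_lit 326) (nat_lit 284) (nat_lit 170)) (XT.nd (nat_lit 78) (nat_lit 152) (nat_lit 0) (XT.lf (nat_lit 0) (nat_lit 2728982206) (nat_lit 228) (nat_lit 4804100364) (nat_lit 76) (nat_lit 41228476996) (nat_lit 26) (nat_lit 5) (nat_lit 29) (nat_lit 5) (nat_lit 27) (nat_lit 5) (nat_lit 327) (nat_lit 284) (nat_lit 169)) (XT.lf (nat_lit 0) (nat_lit 10467324377) (nat_lit 228) (nat_lit 35076140308) (nat_lit 76) (nat_lit 5008754817) (nat_lit 24) (nat_lit 5) (nat_lit 27) (nat_lit 5) (nat_lit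 25) (nat_lit 5) (nat_lit 328) (nat_lit 284) (nat_lit 168)))))) (XT.nd (nat_lit 390) (nat_lit 228) (nat_lit 0) (XT.nd (nat_lit 156) (nat_lit 76) (nat_lit 0) (XT.nd (nat_lit 78) (nat_lit 152) (nat_lit 0) (XT.lf (nat_lit 0) (nat_lit 18794384046) (nat_lit 228) (nat_lit 15623222385) (nat_lit 76) (nat_lit 18004721606) (nat_lit 24) (nat_lit 5) (nat_lit 27) (nat_lit 5) (nat_lit 25) (nat_lit 5) (nat_lit 329) (nat_lit 284) (nat_lit 167)) (XT.lf (nat_lit 0) (nat_lit 4954136882) (nat_lit 152) (nat_lit 22656830348) (nat_lit 228) (nat_lit 26771321593) (nat_lit 22) (nat_lit 5) (nat_lit 24) (nat_lit 5) (nat_lit 25) (nat_lit 5) (nat_lit 330) (nat_lit 284) (nat_lit 166))) (XT.nd (nat_lit 78) (nat_lit 76) (nat_lit 0) (XT.lf (nat_lit 0) (nat_lit 27096108405) (nat_lit 152) (nat_lit 10032775536) (nat_lit 228) (nat_lit 19298343588) (nat_lit 22) (nat_lit 5) (nat_lit 24) (nat_lit 5) (nat_lit 25) (nat_lit 5)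 (nat_lit 331) (nat_lit 284) (nat_lit 165)) (XT.nd (nat_lit 78) (nat_lit 76) (nat_lit 0) (XT.lf (nat_lit 0) (nat_lit 47169082096) (nat_lit 228) (nat_lit 8286049225) (nat_lit 76) (nat_lit 3116967425) (nat_lit 22) (nat_lit 5) (nat_lit 25) (nat_lit 5) (nat_lit 23) (nat_lit 4) (nat_lit 332) (nat_lit 284) (nat_lit 164)) (XT.lf (nat_lit 0) (nat_lit 14091629658) (nat_lit 76) (nat_lit 44000402663) (nat_lit 152) (nat_lit 2713148719) (nat_lit 21) (nat_lit 5) (nat_lit 22) (nat_lit 5) (nat_lit 23) (nat_lit 4) (nat_lit 333) (nat_lit 284) (nat_lit 163))))) (XT.nd (nat_lit 156) (nat_lit 152) (nat_lit 0) (XT.nd (nat_lit 78) (nat_lit 0) (nat_lit 0) (XT.lf (nat_lit 0) (nat_lit 6344921817) (nat_lit 152) (nat_lit 25375653356) (nat_lit 76) (nat_lit 31417396218) (nat_lit 20) (nat_lit 5) (nat_lit 22) (nat_lit 5) (nat_lit 21) (nat_lit 5) (nat_lit 334) (nat_lit 284) (nat_lit 162)) (XT.lf (nat_lit 0) (nat_lit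 15761172801) (nat_lit 152) (nat_lit 3021262338) (nat_lit 76) (nat_lit 46802923396) (nat_lit 20) (nat_lit 5) (nat_lit 22) (nat_lit 5) (nat_lit 21) (nat_lit 5) (nat_lit 335) (nat_lit 284) (nat_lit 161))) (XT.nd (nat_lit 78) (nat_lit 0) (nat_lit 0) (XT.lf (nat_lit 0) (nat_lit 21121217118) (nat_lit 152) (nat_lit 4853405853) (nat_lit 228) (nat_lit 42164176538) (nat_lit 18) (nat_lit 5) (nat_lit 20) (nat_lit 5) (nat_lit 21) (nat_lit 5) (nat_lit 336) (nat_lit 284) (nat_lit 160)) (XT.nd (nat_lit 78) (nat_lit 0) (nat_lit 0) (XT.lf (nat_lit 0) (nat_lit 36899984612) (nat_lit 228) (nat_lit 24400735013) (nat_lit 76) (nat_lit 9509134582) (nat_lit 18) (nat_lit 5) (nat_lit 21) (nat_lit 5) (nat_lit 19) (nat_lit 4) (nat_lit 337) (nat_lit 284) (nat_lit 159)) (XT.lf (nat_lit 0) (nat_lit 48448001366) (nat_lit 228) (nat_lit 738023097) (nat_lit 76) (nat_lit 24424621278) (nat_lit 18) (nat_lit 5) (nat_lit 21)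 (nat_lit 5) (nat_lit 19) (nat_lit 4) (nat_lit 338) (nat_lit 284) (nat_lit 158))))))) (XT.nd (nat_lit 780) (nat_lit 304) (nat_lit 0) (XT.nd (nat_lit 390) (nat_lit 76) (nat_lit 0) (XT.nd (nat_lit 156) (nat_lit 228) (nat_lit 0) (XT.nd (nat_lit 78) (nat_lit 0) (nat_lit 0) (XT.lf (nat_lit 0) (nat_lit 24899611482) (nat_lit 76) (nat_lit 36059534476) (nat_lit 152) (nat_lit 15573047827) (nat_lit 17) (nat_lit 5) (nat_lit 18) (nat_lit 5) (nat_lit 19) (nat_lit 4) (nat_lit 339) (nat_lit 284) (nat_lit 157)) (XT.lf (nat_lit 0) (nat_lit 51839677447) (nat_lit 76) (nat_lit 22265708278) (nat_lit 152) (nat_lit 5493959740) (nat_lit 17) (nat_lit 5) (nat_lit 18) (nat_lit 5) (nat_lit 19) (nat_lit 4) (nat_lit 340) (nat_lit 284) (nat_lit 156))) (XT.nd (nat_lit 78) (nat_lit 152) (nat_lit 0) (XT.lf (nat_lit 0) (nat_lit 4923331366) (nat_lit 152) (nat_lit 2777491839) (nat_lit 76) (nat_lit 75115205069) (nat_lit 16)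 (nat_lit 5) (nat_lit 18) (nat_lit 5) (nat_lit 17) (nat_lit 5) (nat_lit 341) (nat_lit 284) (nat_lit 155)) (XT.nd (nat_lit 78) (nat_lit 0) (nat_lit 0) (XT.lf (nat_lit 0) (nat_lit 16177039620) (nat_lit 228) (nat_lit 62165113629) (nat_lit 76) (nat_lit 7821882149) (nat_lit 14) (nat_lit 5) (nat_lit 17) (nat_lit 5) (nat_lit 15) (nat_lit 4) (nat_lit 342) (nat_lit 284) (nat_lit 154)) (XT.lf (nat_lit 0) (nat_lit 28164780888) (nat_lit 228) (nat_lit 37598245272) (nat_lit 76) (nat_lit 23907851914) (nat_lit 14) (nat_lit 5) (nat_lit 17) (nat_lit 5) (nat_lit 15) (nat_lit 4) (nat_lit 343) (nat_lit 284) (nat_lit 153))))) (XT.nd (nat_lit 156) (nat_lit 0) (nat_lit 0) (XT.nd (nat_lit 78) (nat_lit 76) (nat_lit 0) (XT.lf (nat_lit 0) (nat_lit 40749333324) (nat_lit 228) (nat_lit 11807533006) (nat_lit 76) (nat_lit 40796327799) (nat_lit 14) (nat_lit 5) (nat_lit 17) (nat_lit 5) (nat_lit 15) (nat_lit 4) (nat_lit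 344) (nat_lit 284) (nat_lit 152)) (XT.lf (nat_lit 0) (nat_lit 15773272862) (nat_lit 76) (nat_lit 38433652281) (nat_lit 152) (nat_lit 43000512592) (nat_lit 13) (nat_lit 5) (nat_lit 14) (nat_lit 5) (nat_lit 15) (nat_lit 4) (nat_lit 345) (nat_lit 284) (nat_lit 151))) (XT.nd (nat_lit 78) (nat_lit 0) (nat_lit 0) (XT.lf (nat_lit 0) (nat_lit 45138833778) (nat_lit 76) (nat_lit 23396126823) (nat_lit 152) (nat_lit 32709556943) (nat_lit 13) (nat_lit 5) (nat_lit 14) (nat_lit 5) (nat_lit 15) (nat_lit 4) (nat_lit 346) (nat_lit 284) (nat_lit 150)) (XT.nd (nat_lit 78) (nat_lit 0) (nat_lit 0) (XT.lf (nat_lit 0) (nat_lit 75968657378) (nat_lit 76) (nat_lit 7608452609) (nat_lit 152) (nat_lit 21906457867) (nat_lit 13) (nat_lit 5) (nat_lit 14) (nat_lit 5) (nat_lit 15) (nat_lit 4) (nat_lit 347) (nat_lit 284) (nat_lit 149)) (XT.lf (nat_lit 0) (nat_lit 99509187318) (nat_lit 152) (nat_lit 1738533015) (nat_lit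 0) (nat_lit 8679961339) (nat_lit 13) (nat_lit 5) (nat_lit 15) (nat_lit 4) (nat_lit 13) (nat_lit 4) (nat_lit 348) (nat_lit 284) (nat_lit 148)))))) (XT.nd (nat_lit 390) (nat_lit 76) (nat_lit 0) (XT.nd (nat_lit 156) (nat_lit 76) (nat_lit 0) (XT.nd (nat_lit 78) (nat_lit 0) (nat_lit 0) (XT.lf (nat_lit 0) (nat_lit 2163402550) (nat_lit 152) (nat_lit 86399937083) (nat_lit 76) (nat_lit 26000772649) (nat_lit 11) (nat_lit 5) (nat_lit 13) (nat_lit 5) (nat_lit 12) (nat_lit 4) (nat_lit 349) (nat_lit 284) (nat_lit 147)) (XT.lf (nat_lit 0) (nat_lit 15052097832) (nat_lit 152) (nat_lit 59983527308) (nat_lit 76) (nat_lit 44386809611) (nat_lit 11) (nat_lit 5) (nat_lit 13) (nat_lit 5) (nat_lit 12) (nat_lit 4) (nat_lit 350) (nat_lit 284) (nat_lit 146))) (XT.nd (nat_lit 78) (nat_lit 76) (nat_lit 0) (XT.lf (nat_lit 0) (nat_lit 28583235204) (nat_lit 152) (nat_lit 32249853367) (nat_lit 76) (nat_lit 63690686067)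 (nat_lit 11) (nat_lit 5) (nat_lit 13) (nat_lit 5) (nat_lit 12) (nat_lit 4) (nat_lit 351) (nat_lit 284) (nat_lit 145)) (XT.nd (nat_lit 78) (nat_lit 76) (nat_lit 0) (XT.lf (nat_lit 0) (nat_lit 42789031659) (nat_lit 152) (nat_lit 3132882702) (nat_lit 76) (nat_lit 83958363628) (nat_lit 11) (nat_lit 5) (nat_lit 13) (nat_lit 5) (nat_lit 12) (nat_lit 4) (nat_lit 352) (nat_lit 284) (nat_lit 144)) (XT.lf (nat_lit 0) (nat_lit 28343892373) (nat_lit 76) (nat_lit 29801945742) (nat_lit 152) (nat_lit 77336733890) (nat_lit 10) (nat_lit 5) (nat_lit 11) (nat_lit 5) (nat_lit 12) (nat_lit 4) (nat_lit 353) (nat_lit 284) (nat_lit 143))))) (XT.nd (nat_lit 156) (nat_lit 76) (nat_lit 0) (XT.nd (nat_lit 78) (nat_lit 0) (nat_lit 0) (XT.lf (nat_lit 0) (nat_lit 61500099154) (nat_lit 76) (nat_lit 12821671727) (nat_lit 152) (nat_lit 67040646974) (nat_lit 10) (nat_lit 5) (nat_lit 11) (nat_lit 5) (nat_lit 12) (nat_lit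 4) (nat_lit 354) (nat_lit 284) (nat_lit 142)) (XT.lf (nat_lit 0) (nat_lit 91382975780) (nat_lit 152) (nat_lit 51303410014) (nat_lit 0) (nat_lit 4846047796) (nat_lit 10) (nat_lit 5) (nat_lit 12) (nat_lit 4) (nat_lit 10) (nat_lit 4) (nat_lit 355) (nat_lit 284) (nat_lit 141))) (XT.nd (nat_lit 78) (nat_lit 76) (nat_lit 0) (XT.lf (nat_lit 0) (nat_lit 109505806141) (nat_lit 152) (nat_lit 21529687586) (nat_lit 0) (nat_lit 22965029424) (nat_lit 10) (nat_lit 5) (nat_lit 12) (nat_lit 4) (nat_lit 10) (nat_lit 4) (nat_lit 356) (nat_lit 284) (nat_lit 140)) (XT.nd (nat_lit 78) (nat_lit 0) (nat_lit 0) (XT.lf (nat_lit 0) (nat_lit 10051635745) (nat_lit 76) (nat_lit 118638527792) (nat_lit 76) (nat_lit 32094085614) (nat_lit 9) (nat_lit 4) (nat_lit 10) (nat_lit 5) (nat_lit 10) (nat_lit 4) (nat_lit 357) (nat_lit 284) (nat_lit 139)) (XT.lf (nat_lit 0) (nat_lit 43956732211) (nat_lit 76) (nat_lit 105240104314)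 (nat_lit 76) (nat_lit 18692171221) (nat_lit 9) (nat_lit 4) (nat_lit 10) (nat_lit 5) (nat_lit 10) (nat_lit 4) (nat_lit 358) (nat_lit 284) (nat_lit 138))))))))
noncomputable def xc177 : XT := (XT.nd (nat_lit 1482) (nat_lit 76) (nat_lit 0) (XT.nd (nat_lit 702) (nat_lit 152) (nat_lit 0) (XT.nd (nat_lit 312) (nat_lit 76) (nat_lit 0) (XT.nd (nat_lit 156) (nat_lit 0) (nat_lit 0) (XT.nd (nat_lit 78) (nat_lit 76) (nat_lit 0) (XT.lf (nat_lit 0) (nat_lit 79554459529) (nat_lit 76) (nat_lit 91172937961) (nat_lit 76) (nat_lit 4621680188) (nat_lit 9) (nat_lit 4) (nat_lit 10) (nat_lit 5) (nat_lit 10) (nat_lit 4) (nat_lit 359) (nat_lit 284) (nat_lit 137)) (XT.lf (nat_lit 0) (nat_lit 9825996824) (nat_lit 152) (nat_lit 66411130644) (nat_lit 76) (nat_lit 106937169358) (nat_lit 8) (nat_lit 5) (nat_lit 10) (nat_lit 5) (nat_lit 9) (nat_lit 4) (nat_lit 360) (nat_lit 284) (nat_lit 136))) (XT.nd (nat_lit 78)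 (nat_lit 0) (nat_lit 0) (XT.lf (nat_lit 0) (nat_lit 24839405178) (nat_lit 152) (nat_lit 35636659102) (nat_lit 76) (nat_lit 130910992048) (nat_lit 8) (nat_lit 5) (nat_lit 10) (nat_lit 5) (nat_lit 9) (nat_lit 4) (nat_lit 361) (nat_lit 284) (nat_lit 135)) (XT.lf (nat_lit 0) (nat_lit 40602213712) (nat_lit 152) (nat_lit 3325773592) (nat_lit 76) (nat_lit 156082530937) (nat_lit 8) (nat_lit 5) (nat_lit 10) (nat_lit 5) (nat_lit 9) (nat_lit 4) (nat_lit 362) (nat_lit 284) (nat_lit 134)))) (XT.nd (nat_lit 156) (nat_lit 0) (nat_lit 0) (XT.nd (nat_lit 78) (nat_lit 0) (nat_lit 0) (XT.lf (nat_lit 0) (nat_lit 31610179725) (nat_lit 76) (nat_lit 26035296690) (nat_lit 152) (nat_lit 151395062028) (nat_lit 7) (nat_lit 5) (nat_lit 8) (nat_lit 5) (nat_lit 9) (nat_lit 4) (nat_lit 363) (nat_lit 284) (nat_lit 133)) (XT.lf (nat_lit 0) (nat_lit 68406229910) (nat_lit 76) (nat_lit 7189809997) (nat_lit 152) (nat_lit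 142923263703) (nat_lit 7) (nat_lit 5) (nat_lit 8) (nat_lit 5) (nat_lit 9) (nat_lit 4) (nat_lit 364) (nat_lit 284) (nat_lit 132))) (XT.nd (nat_lit 78) (nat_lit 0) (nat_lit 0) (XT.lf (nat_lit 0) (nat_lit 94639676891) (nat_lit 152) (nat_lit 121628717575) (nat_lit 0) (nat_lit 12193836102) (nat_lit 7) (nat_lit 5) (nat_lit 9) (nat_lit 4) (nat_lit 7) (nat_lit 4) (nat_lit 365) (nat_lit 284) (nat_lit 131)) (XT.nd (nat_lit 78) (nat_lit 0) (nat_lit 0) (XT.lf (nat_lit 0) (nat_lit 114752271935) (nat_lit 152) (nat_lit 91840013019) (nat_lit 0) (nat_lit 32304180870) (nat_lit 7) (nat_lit 5) (nat_lit 9) (nat_lit 4) (nat_lit 7) (nat_lit 4) (nat_lit 366) (nat_lit 284) (nat_lit 130)) (XT.lf (nat_lit 0) (nat_lit 135869459085) (nat_lit 152) (nat_lit 60563781463) (nat_lit 0) (nat_lit 53419224902) (nat_lit 7) (nat_lit 5) (nat_lit 9) (nat_lit 4) (nat_lit 7) (nat_lit 4) (nat_lit 367) (nat_lit 284) (nat_lit 129))))))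 (XT.nd (nat_lit 390) (nat_lit 76) (nat_lit 0) (XT.nd (nat_lit 156) (nat_lit 0) (nat_lit 0) (XT.nd (nat_lit 78) (nat_lit 76) (nat_lit 0) (XT.lf (nat_lit 0) (nat_lit 158041517359) (nat_lit 152) (nat_lit 27725555689) (nat_lit 0) (nat_lit 75589242110) (nat_lit 7) (nat_lit 5) (nat_lit 9) (nat_lit 4) (nat_lit 7) (nat_lit 4) (nat_lit 368) (nat_lit 284) (nat_lit 128)) (XT.lf (nat_lit 0) (nat_lit 6976130290) (nat_lit 76) (nat_lit 174454024025) (nat_lit 76) (nat_lit 91999804904) (nat_lit 6) (nat_lit 4) (nat_lit 7) (nat_lit 5) (nat_lit 7) (nat_lit 4) (nat_lit 369) (nat_lit 284) (nat_lit 127))) (XT.nd (nat_lit 78) (nat_lit 0) (nat_lit 0) (XT.lf (nat_lit 0) (nat_lit 44373766355) (nat_lit 76) (nat_lit 162083079522) (nat_lit 76) (nat_lit 79627009095) (nat_lit 6) (nat_lit 4) (nat_lit 7) (nat_lit 5) (nat_lit 7) (nat_lit 4) (nat_lit 370) (nat_lit 284) (nat_lit 126)) (XT.nd (nat_lit 78) (nat_lit 0) (nat_lit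 0) (XT.lf (nat_lit 0) (nat_lit 83639662412) (nat_lit 76) (nat_lit 149094330611) (nat_lit 76) (nat_lit 66636497035) (nat_lit 6) (nat_lit 4) (nat_lit 7) (nat_lit 5) (nat_lit 7) (nat_lit 4) (nat_lit 371) (nat_lit 284) (nat_lit 125)) (XT.lf (nat_lit 0) (nat_lit 124867308689) (nat_lit 76) (nat_lit 135456851700) (nat_lit 76) (nat_lit 52997338934) (nat_lit 6) (nat_lit 4) (nat_lit 7) (nat_lit 5) (nat_lit 7) (nat_lit 4) (nat_lit 372) (nat_lit 284) (nat_lit 124))))) (XT.nd (nat_lit 156) (nat_lit 76) (nat_lit 0) (XT.nd (nat_lit 78) (nat_lit 0) (nat_lit 0) (XT.lf (nat_lit 0) (nat_lit 168154866249) (nat_lit 76) (nat_lit 121138172600) (nat_lit 76) (nat_lit 38677060605) (nat_lit 6) (nat_lit 4) (nat_lit 7) (nat_lit 5) (nat_lit 7) (nat_lit 4) (nat_lit 373) (nat_lit 284) (nat_lit 123)) (XT.lf (nat_lit 0) (nat_lit 213605400705) (nat_lit 76) (nat_lit 106104201218) (nat_lit 76) (nat_lit 23641566149) (nat_lit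 6) (nat_lit 4) (nat_lit 7) (nat_lit 5) (nat_lit 7) (nat_lit 4) (nat_lit 374) (nat_lit 284) (nat_lit 122))) (XT.nd (nat_lit 78) (nat_lit 76) (nat_lit 0) (XT.lf (nat_lit 0) (nat_lit 261327127616) (nat_lit 76) (nat_lit 90319142385) (nat_lit 76) (nat_lit 7855056769) (nat_lit 6) (nat_lit 4) (nat_lit 7) (nat_lit 5) (nat_lit 7) (nat_lit 4) (nat_lit 375) (nat_lit 284) (nat_lit 121)) (XT.nd (nat_lit 78) (nat_lit 0) (nat_lit 0) (XT.lf (nat_lit 0) (nat_lit 8440958262) (nat_lit 152) (nat_lit 65161502652) (nat_lit 76) (nat_lit 302849760166) (nat_lit 5) (nat_lit 5) (nat_lit 7) (nat_lit 5) (nat_lit 6) (nat_lit 4) (nat_lit 376) (nat_lit 284) (nat_lit 120)) (XT.lf (nat_lit 0) (nat_lit 25287125526) (nat_lit 152) (nat_lit 30628175449) (nat_lit 76) (nat_lit 338328954337) (nat_lit 5) (nat_lit 5) (nat_lit 7) (nat_lit 5) (nat_lit 6) (nat_lit 4) (nat_lit 377) (nat_lit 284) (nat_lit 119))))))) (XT.nd (nat_lit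 33852) (nat_lit 0) (nat_lit 4636) (XT.nd (nat_lit 33462) (nat_lit 0) (nat_lit 5852) (XT.nd (nat_lit 156) (nat_lit 0) (nat_lit 0) (XT.nd (nat_lit 78) (nat_lit 0) (nat_lit 0) (XT.lf (nat_lit 0) (nat_lit 5816818635) (nat_lit 76) (nat_lit 37248964023) (nat_lit 152) (nat_lit 369855599926) (nat_lit 4) (nat_lit 5) (nat_lit 5) (nat_lit 5) (nat_lit 6) (nat_lit 4) (nat_lit 378) (nat_lit 284) (nat_lit 118)) (XT.lf (nat_lit 0) (nat_lit 45146248449) (nat_lit 76) (nat_lit 17105204054) (nat_lit 152) (nat_lit 370255010108) (nat_lit 4) (nat_lit 5) (nat_lit 5) (nat_lit 5) (nat_lit 6) (nat_lit 4) (nat_lit 379) (nat_lit 284) (nat_lit 117))) (XT.nd (nat_lit 78) (nat_lit 0) (nat_lit 0) (XT.lf (nat_lit 0) (nat_lit 82458969890) (nat_lit 152) (nat_lit 366692934478) (nat_lit 0) (nat_lit 3915764436) (nat_lit 4) (nat_lit 5) (nat_lit 6) (nat_lit 4) (nat_lit 4) (nat_lit 4) (nat_lit 380) (nat_lit 284) (nat_lit 116))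 (XT.nd (nat_lit 33150) (nat_lit 0) (nat_lit 5852) (XT.lf (nat_lit 0) (nat_lit 103956703609) (nat_lit 152) (nat_lit 345273772744) (nat_lit 0) (nat_lit 25412467278) (nat_lit 4) (nat_lit 5) (nat_lit 6) (nat_lit 4) (nat_lit 4) (nat_lit 4) (nat_lit 381) (nat_lit 284) (nat_lit 115)) (XT.lf (nat_lit 0) (nat_lit 1174204194) (nat_lit 0) (nat_lit 1174204194) (nat_lit 684) (nat_lit 4701489528) (nat_lit 81) (nat_lit 5) (nat_lit 81) (nat_lit 3) (nat_lit 90) (nat_lit 3) (nat_lit 285) (nat_lit 285) (nat_lit 210))))) (XT.nd (nat_lit 156) (nat_lit 0) (nat_lit 76) (XT.nd (nat_lit 78) (nat_lit 0) (nat_lit 0) (XT.lf (nat_lit 0) (nat_lit 5187728871) (nat_lit 684) (nat_lit 5595670373) (nat_lit 760) (nat_lit 3649388496) (nat_lit 81) (nat_lit 5) (nat_lit 90) (nat_lit 3) (nat_lit 91) (nat_lit 5) (nat_lit 286) (nat_lit 285) (nat_lit 209)) (XT.lf (nat_lit 76) (nat_lit 845094963) (nat_lit 0) (nat_lit 4889801342)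 (nat_lit 760) (nat_lit 9046000478) (nat_lit 82) (nat_lit 5) (nat_lit 81) (nat_lit 5) (nat_lit 91) (nat_lit 5) (nat_lit 287) (nat_lit 285) (nat_lit 208))) (XT.nd (nat_lit 78) (nat_lit 0) (nat_lit 0) (XT.lf (nat_lit 0) (nat_lit 6406935465) (nat_lit 684) (nat_lit 7373574347) (nat_lit 760) (nat_lit 1361076300) (nat_lit 82) (nat_lit 5) (nat_lit 91) (nat_lit 5) (nat_lit 92) (nat_lit 5) (nat_lit 288) (nat_lit 285) (nat_lit 207)) (XT.nd (nat_lit 78) (nat_lit 0) (nat_lit 0) (XT.lf (nat_lit 0) (nat_lit 7174567339) (nat_lit 684) (nat_lit 575055756) (nat_lit 760) (nat_lit 7767635374) (nat_lit 82) (nat_lit 5) (nat_lit 91) (nat_lit 5) (nat_lit 92) (nat_lit 5) (nat_lit 289) (nat_lit 285) (nat_lit 206)) (XT.lf (nat_lit 76) (nat_lit 6768932517) (nat_lit 0) (nat_lit 1300025608) (nat_lit 760) (nat_lit 7838383261) (nat_lit 83) (nat_lit 5) (nat_lit 82) (nat_lit 5) (nat_lit 92) (nat_lit 5) (nat_lit 290)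 (nat_lit 285) (nat_lit 205)))))) (XT.nd (nat_lit 390) (nat_lit 1368) (nat_lit 0) (XT.nd (nat_lit 156) (nat_lit 0) (nat_lit 76) (XT.nd (nat_lit 78) (nat_lit 0) (nat_lit 0) (XT.lf (nat_lit 0) (nat_lit 9086839185) (nat_lit 684) (nat_lit 1913841226) (nat_lit 760) (nat_lit 5312353128) (nat_lit 83) (nat_lit 5) (nat_lit 92) (nat_lit 5) (nat_lit 93) (nat_lit 5) (nat_lit 291) (nat_lit 285) (nat_lit 204)) (XT.lf (nat_lit 76) (nat_lit 5825779621) (nat_lit 0) (nat_lit 4426330145) (nat_lit 760) (nat_lit 6482117308) (nat_lit 84) (nat_lit 5) (nat_lit 83) (nat_lit 5) (nat_lit 93) (nat_lit 5) (nat_lit 292) (nat_lit 285) (nat_lit 203))) (XT.nd (nat_lit 78) (nat_lit 0) (nat_lit 0) (XT.lf (nat_lit 0) (nat_lit 11532123133) (nat_lit 684) (nat_lit 3207238721) (nat_lit 760) (nat_lit 2434334041) (nat_lit 84) (nat_lit 5) (nat_lit 93) (nat_lit 5) (nat_lit 94) (nat_lit 5) (nat_lit 293) (nat_lit 285) (nat_lit 202))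 (XT.nd (nat_lit 78) (nat_lit 0) (nat_lit 0) (XT.lf (nat_lit 76) (nat_lit 4953580183) (nat_lit 0) (nat_lit 8058046918) (nat_lit 760) (nat_lit 4616774246) (nat_lit 85) (nat_lit 5) (nat_lit 84) (nat_lit 5) (nat_lit 94) (nat_lit 5) (nat_lit 294) (nat_lit 285) (nat_lit 201)) (XT.lf (nat_lit 76) (nat_lit 13622539545) (nat_lit 0) (nat_lit 982981407) (nat_lit 760) (nat_lit 3498336275) (nat_lit 85) (nat_lit 5) (nat_lit 84) (nat_lit 5) (nat_lit 94) (nat_lit 5) (nat_lit 295) (nat_lit 285) (nat_lit 200))))) (XT.nd (nat_lit 156) (nat_lit 836) (nat_lit 0) (XT.nd (nat_lit 78) (nat_lit 0) (nat_lit 0) (XT.lf (nat_lit 0) (nat_lit 4142356121) (nat_lit 684) (nat_lit 12288864717) (nat_lit 760) (nat_lit 2164293680) (nat_lit 76) (nat_lit 5) (nat_lit 85) (nat_lit 5) (nat_lit 86) (nat_lit 5) (nat_lit 296) (nat_lit 285) (nat_lit 199)) (XT.lf (nat_lit 0) (nat_lit 13324883704) (nat_lit 684) (nat_lit 5102322515)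 (nat_lit 760) (nat_lit 680630985) (nat_lit 76) (nat_lit 5) (nat_lit 85) (nat_lit 5) (nat_lit 86) (nat_lit 5) (nat_lit 297) (nat_lit 285) (nat_lit 198))) (XT.nd (nat_lit 78) (nat_lit 380) (nat_lit 0) (XT.lf (nat_lit 0) (nat_lit 929194218) (nat_lit 456) (nat_lit 16277469460) (nat_lit 76) (nat_lit 2434454297) (nat_lit 70) (nat_lit 5) (nat_lit 76) (nat_lit 5) (nat_lit 71) (nat_lit 5) (nat_lit 298) (nat_lit 285) (nat_lit 197)) (XT.nd (nat_lit 78) (nat_lit 380) (nat_lit 0) (XT.lf (nat_lit 0) (nat_lit 2767887528) (nat_lit 456) (nat_lit 7135848967) (nat_lit 76) (nat_lit 10288233992) (nat_lit 70) (nat_lit 5) (nat_lit 76) (nat_lit 5) (nat_lit 71) (nat_lit 5) (nat_lit 299) (nat_lit 285) (nat_lit 196)) (XT.lf (nat_lit 0) (nat_lit 2532846390) (nat_lit 380) (nat_lit 2193845597) (nat_lit 456) (nat_lit 16042291597) (nat_lit 65) (nat_lit 5) (nat_lit 70) (nat_lit 5) (nat_lit 71) (nat_lit 5) (nat_lit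 300) (nat_lit 285) (nat_lit 195))))))))
noncomputable def xc178 : XT := (XT.nd (nat_lit 1482) (nat_lit 1292) (nat_lit 0) (XT.nd (nat_lit 702) (nat_lit 1064) (nat_lit 0) (XT.nd (nat_lit 312) (nat_lit 608) (nat_lit 0) (XT.nd (nat_lit 156) (nat_lit 304) (nat_lit 0) (XT.nd (nat_lit 78) (nat_lit 304) (nat_lit 0) (XT.lf (nat_lit 0) (nat_lit 6987410947) (nat_lit 456) (nat_lit 8541679941) (nat_lit 76) (nat_lit 5835583243) (nat_lit 65) (nat_lit 5) (nat_lit 71) (nat_lit 5) (nat_lit 66) (nat_lit 5) (nat_lit 301) (nat_lit 285) (nat_lit 194)) (XT.lf (nat_lit 0) (nat_lit 1643203084) (nat_lit 304) (nat_lit 7769110563) (nat_lit 380) (nat_lit 12575302460) (nat_lit 61) (nat_lit 5) (nat_lit 65) (nat_lit 5) (nat_lit 66) (nat_lit 5) (nat_lit 302) (nat_lit 285) (nat_lit 193))) (XT.nd (nat_lit 78) (nat_lit 304) (nat_lit 0) (XT.lf (nat_lit 0) (nat_lit 12101255060) (nat_lit 380) (nat_lit 10020150499) (nat_lit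 76) (nat_lit 513183080) (nat_lit 61) (nat_lit 5) (nat_lit 66) (nat_lit 5) (nat_lit 62) (nat_lit 5) (nat_lit 303) (nat_lit 285) (nat_lit 192)) (XT.lf (nat_lit 0) (nat_lit 704787273) (nat_lit 304) (nat_lit 14348555259) (nat_lit 380) (nat_lit 8254154351) (nat_lit 57) (nat_lit 5) (nat_lit 61) (nat_lit 5) (nat_lit 62) (nat_lit 5) (nat_lit 304) (nat_lit 285) (nat_lit 191)))) (XT.nd (nat_lit 156) (nat_lit 608) (nat_lit 0) (XT.nd (nat_lit 78) (nat_lit 0) (nat_lit 0) (XT.lf (nat_lit 0) (nat_lit 12303289041) (nat_lit 304) (nat_lit 6010069722) (nat_lit 380) (nat_lit 5692696542) (nat_lit 57) (nat_lit 5) (nat_lit 61) (nat_lit 5) (nat_lit 62) (nat_lit 5) (nat_lit 305) (nat_lit 285) (nat_lit 190)) (XT.lf (nat_lit 0) (nat_lit 21770295152) (nat_lit 380) (nat_lit 311193833) (nat_lit 76) (nat_lit 2656376682) (nat_lit 57) (nat_lit 5) (nat_lit 62) (nat_lit 5) (nat_lit 58) (nat_lit 5) (nat_lit 306) (nat_lit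 285) (nat_lit 189))) (XT.nd (nat_lit 78) (nat_lit 304) (nat_lit 0) (XT.lf (nat_lit 0) (nat_lit 177879816) (nat_lit 304) (nat_lit 13572308789) (nat_lit 76) (nat_lit 11742145498) (nat_lit 53) (nat_lit 5) (nat_lit 57) (nat_lit 5) (nat_lit 54) (nat_lit 5) (nat_lit 307) (nat_lit 285) (nat_lit 188)) (XT.nd (nat_lit 78) (nat_lit 304) (nat_lit 0) (XT.lf (nat_lit 0) (nat_lit 3377811052) (nat_lit 304) (nat_lit 1569527778) (nat_lit 76) (nat_lit 21334925050) (nat_lit 53) (nat_lit 5) (nat_lit 57) (nat_lit 5) (nat_lit 54) (nat_lit 5) (nat_lit 308) (nat_lit 285) (nat_lit 187)) (XT.lf (nat_lit 0) (nat_lit 6977479898) (nat_lit 380) (nat_lit 15784943738) (nat_lit 76) (nat_lit 4337295899) (nat_lit 49) (nat_lit 5) (nat_lit 54) (nat_lit 5) (nat_lit 50) (nat_lit 5) (nat_lit 309) (nat_lit 285) (nat_lit 186)))))) (XT.nd (nat_lit 390) (nat_lit 608) (nat_lit 0) (XT.nd (nat_lit 156) (nat_lit 228) (nat_lit 0)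 (XT.nd (nat_lit 78) (nat_lit 228) (nat_lit 0) (XT.lf (nat_lit 0) (nat_lit 10857441684) (nat_lit 380) (nat_lit 3150352654) (nat_lit 76) (nat_lit 13945253820) (nat_lit 49) (nat_lit 5) (nat_lit 54) (nat_lit 5) (nat_lit 50) (nat_lit 5) (nat_lit 310) (nat_lit 285) (nat_lit 185)) (XT.lf (nat_lit 0) (nat_lit 10440727845) (nat_lit 228) (nat_lit 4646243802) (nat_lit 304) (nat_lit 13754307975) (nat_lit 46) (nat_lit 5) (nat_lit 49) (nat_lit 5) (nat_lit 50) (nat_lit 5) (nat_lit 311) (nat_lit 285) (nat_lit 184))) (XT.nd (nat_lit 78) (nat_lit 228) (nat_lit 0) (XT.lf (nat_lit 0) (nat_lit 19655871765) (nat_lit 304) (nat_lit 5041922199) (nat_lit 76) (nat_lit 5069748215) (nat_lit 46) (nat_lit 5) (nat_lit 50) (nat_lit 5) (nat_lit 47) (nat_lit 5) (nat_lit 312) (nat_lit 285) (nat_lit 183)) (XT.nd (nat_lit 78) (nat_lit 0) (nat_lit 0) (XT.lf (nat_lit 0) (nat_lit 9193579172) (nat_lit 228) (nat_lit 15472428058)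 (nat_lit 304) (nat_lit 6063484646) (nat_lit 43) (nat_lit 5) (nat_lit 46) (nat_lit 5) (nat_lit 47) (nat_lit 5) (nat_lit 313) (nat_lit 285) (nat_lit 182)) (XT.lf (nat_lit 0) (nat_lit 24306903542) (nat_lit 228) (nat_lit 5698407028) (nat_lit 304) (nat_lit 1730308313) (nat_lit 43) (nat_lit 5) (nat_lit 46) (nat_lit 5) (nat_lit 47) (nat_lit 5) (nat_lit 314) (nat_lit 285) (nat_lit 181))))) (XT.nd (nat_lit 156) (nat_lit 380) (nat_lit 0) (XT.nd (nat_lit 78) (nat_lit 0) (nat_lit 0) (XT.lf (nat_lit 0) (nat_lit 2914890162) (nat_lit 228) (nat_lit 25284740436) (nat_lit 76) (nat_lit 4580952004) (nat_lit 40) (nat_lit 5) (nat_lit 43) (nat_lit 5) (nat_lit 41) (nat_lit 5) (nat_lit 315) (nat_lit 285) (nat_lit 180)) (XT.lf (nat_lit 0) (nat_lit 7949103319) (nat_lit 228) (nat_lit 10579758779) (nat_lit 76) (nat_lit 15336780029) (nat_lit 40) (nat_lit 5) (nat_lit 43) (nat_lit 5) (nat_lit 41) (nat_lit 5) (nat_lit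 316) (nat_lit 285) (nat_lit 179))) (XT.nd (nat_lit 78) (nat_lit 152) (nat_lit 0) (XT.lf (nat_lit 0) (nat_lit 5012379570) (nat_lit 228) (nat_lit 8294825450) (nat_lit 304) (nat_lit 21694151312) (nat_lit 37) (nat_lit 5) (nat_lit 40) (nat_lit 5) (nat_lit 41) (nat_lit 5) (nat_lit 317) (nat_lit 285) (nat_lit 178)) (XT.nd (nat_lit 78) (nat_lit 152) (nat_lit 0) (XT.lf (nat_lit 0) (nat_lit 19147628816) (nat_lit 304) (nat_lit 14483320419) (nat_lit 76) (nat_lit 2552196257) (nat_lit 37) (nat_lit 5) (nat_lit 41) (nat_lit 5) (nat_lit 38) (nat_lit 5) (nat_lit 318) (nat_lit 285) (nat_lit 177)) (XT.lf (nat_lit 0) (nat_lit 1708068648) (nat_lit 152) (nat_lit 23728978192) (nat_lit 228) (nat_lit 11979138231) (nat_lit 35) (nat_lit 5) (nat_lit 37) (nat_lit 5) (nat_lit 38) (nat_lit 5) (nat_lit 319) (nat_lit 285) (nat_lit 176))))))) (XT.nd (nat_lit 780) (nat_lit 456) (nat_lit 0) (XT.nd (nat_lit 390) (nat_lit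 380) (nat_lit 0) (XT.nd (nat_lit 156) (nat_lit 456) (nat_lit 0) (XT.nd (nat_lit 78) (nat_lit 0) (nat_lit 0) (XT.lf (nat_lit 0) (nat_lit 19203750013) (nat_lit 152) (nat_lit 13076936060) (nat_lit 228) (nat_lit 6418212195) (nat_lit 35) (nat_lit 5) (nat_lit 37) (nat_lit 5) (nat_lit 38) (nat_lit 5) (nat_lit 320) (nat_lit 285) (nat_lit 175)) (XT.lf (nat_lit 0) (nat_lit 37566496078) (nat_lit 152) (nat_lit 1894742876) (nat_lit 228) (nat_lit 584780309) (nat_lit 35) (nat_lit 5) (nat_lit 37) (nat_lit 5) (nat_lit 38) (nat_lit 5) (nat_lit 321) (nat_lit 285) (nat_lit 174))) (XT.nd (nat_lit 78) (nat_lit 152) (nat_lit 0) (XT.lf (nat_lit 0) (nat_lit 5763705661) (nat_lit 304) (nat_lit 25804752447) (nat_lit 76) (nat_lit 9867685737) (nat_lit 31) (nat_lit 5) (nat_lit 35) (nat_lit 5) (nat_lit 32) (nat_lit 5) (nat_lit 322) (nat_lit 285) (nat_lit 173)) (XT.nd (nat_lit 78) (nat_lit 152) (nat_lit 0) (XT.lf (nat_lit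 0) (nat_lit 12478687105) (nat_lit 304) (nat_lit 8208702009) (nat_lit 76) (nat_lit 22204477566) (nat_lit 31) (nat_lit 5) (nat_lit 35) (nat_lit 5) (nat_lit 32) (nat_lit 5) (nat_lit 323) (nat_lit 285) (nat_lit 172)) (XT.lf (nat_lit 0) (nat_lit 10599126532) (nat_lit 152) (nat_lit 9090994064) (nat_lit 228) (nat_lit 24722227084) (nat_lit 29) (nat_lit 5) (nat_lit 31) (nat_lit 5) (nat_lit 32) (nat_lit 5) (nat_lit 324) (nat_lit 285) (nat_lit 171))))) (XT.nd (nat_lit 156) (nat_lit 228) (nat_lit 0) (XT.nd (nat_lit 78) (nat_lit 152) (nat_lit 0) (XT.lf (nat_lit 0) (nat_lit 27446890198) (nat_lit 228) (nat_lit 15427362396) (nat_lit 76) (nat_lit 3125368749) (nat_lit 29) (nat_lit 5) (nat_lit 32) (nat_lit 5) (nat_lit 30) (nat_lit 5) (nat_lit 325) (nat_lit 285) (nat_lit 170)) (XT.lf (nat_lit 0) (nat_lit 3844817885) (nat_lit 152) (nat_lit 31951263525) (nat_lit 228) (nat_lit 11859954627) (nat_lit 27) (nat_lit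 5) (nat_lit 29) (nat_lit 5) (nat_lit 30) (nat_lit 5) (nat_lit 326) (nat_lit 285) (nat_lit 169))) (XT.nd (nat_lit 78) (nat_lit 228) (nat_lit 0) (XT.lf (nat_lit 0) (nat_lit 24609326316) (nat_lit 152) (nat_lit 20210303530) (nat_lit 228) (nat_lit 4562802934) (nat_lit 27) (nat_lit 5) (nat_lit 29) (nat_lit 5) (nat_lit 30) (nat_lit 5) (nat_lit 327) (nat_lit 285) (nat_lit 168)) (XT.nd (nat_lit 78) (nat_lit 152) (nat_lit 0) (XT.lf (nat_lit 0) (nat_lit 2995774425) (nat_lit 228) (nat_lit 4838178473) (nat_lit 76) (nat_lit 43358994617) (nat_lit 26) (nat_lit 5) (nat_lit 29) (nat_lit 5) (nat_lit 27) (nat_lit 5) (nat_lit 328) (nat_lit 285) (nat_lit 167)) (XT.lf (nat_lit 0) (nat_lit 11119171963) (nat_lit 228) (nat_lit 36621794030) (nat_lit 76) (nat_lit 5332275773) (nat_lit 24) (nat_lit 5) (nat_lit 27) (nat_lit 5) (nat_lit 25) (nat_lit 5) (nat_lit 329) (nat_lit 285) (nat_lit 166)))))) (XT.nd (nat_lit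 390) (nat_lit 228) (nat_lit 0) (XT.nd (nat_lit 156) (nat_lit 76) (nat_lit 0) (XT.nd (nat_lit 78) (nat_lit 152) (nat_lit 0) (XT.lf (nat_lit 0) (nat_lit 19856466454) (nat_lit 228) (nat_lit 16206142272) (nat_lit 76) (nat_lit 18974560748) (nat_lit 24) (nat_lit 5) (nat_lit 27) (nat_lit 5) (nat_lit 25) (nat_lit 5) (nat_lit 330) (nat_lit 285) (nat_lit 165)) (XT.lf (nat_lit 0) (nat_lit 5396887519) (nat_lit 152) (nat_lit 23714209640) (nat_lit 228) (nat_lit 27984177691) (nat_lit 22) (nat_lit 5) (nat_lit 24) (nat_lit 5) (nat_lit 25) (nat_lit 5) (nat_lit 331) (nat_lit 285) (nat_lit 164))) (XT.nd (nat_lit 78) (nat_lit 76) (nat_lit 0) (XT.lf (nat_lit 0) (nat_lit 28636669818) (nat_lit 152) (nat_lit 10462545528) (nat_lit 228) (nat_lit 20143536976) (nat_lit 22) (nat_lit 5) (nat_lit 24) (nat_lit 5) (nat_lit 25) (nat_lit 5) (nat_lit 332) (nat_lit 285) (nat_lit 163)) (XT.nd (nat_lit 78) (nat_lit 76) (nat_lit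 0) (XT.lf (nat_lit 0) (nat_lit 49637068849) (nat_lit 228) (nat_lit 8518951205) (nat_lit 76) (nat_lit 3339071545) (nat_lit 22) (nat_lit 5) (nat_lit 25) (nat_lit 5) (nat_lit 23) (nat_lit 4) (nat_lit 333) (nat_lit 285) (nat_lit 162)) (XT.lf (nat_lit 0) (nat_lit 14974685807) (nat_lit 76) (nat_lit 46129051427) (nat_lit 152) (nat_lit 2736218691) (nat_lit 21) (nat_lit 5) (nat_lit 22) (nat_lit 5) (nat_lit 23) (nat_lit 4) (nat_lit 334) (nat_lit 285) (nat_lit 161))))) (XT.nd (nat_lit 156) (nat_lit 152) (nat_lit 0) (XT.nd (nat_lit 78) (nat_lit 0) (nat_lit 0) (XT.lf (nat_lit 0) (nat_lit 6765962157) (nat_lit 152) (nat_lit 26470911236) (nat_lit 76) (nat_lit 33052689846) (nat_lit 20) (nat_lit 5) (nat_lit 22) (nat_lit 5) (nat_lit 21) (nat_lit 5) (nat_lit 335) (nat_lit 285) (nat_lit 160)) (XT.lf (nat_lit 0) (nat_lit 16648083107) (nat_lit 152) (nat_lit 3007063752) (nat_lit 76) (nat_lit 49204425583) (nat_lit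 20) (nat_lit 5) (nat_lit 22) (nat_lit 5) (nat_lit 21) (nat_lit 5) (nat_lit 336) (nat_lit 285) (nat_lit 159))) (XT.nd (nat_lit 78) (nat_lit 0) (nat_lit 0) (XT.lf (nat_lit 0) (nat_lit 22339874166) (nat_lit 152) (nat_lit 5030162981) (nat_lit 228) (nat_lit 44170762057) (nat_lit 18) (nat_lit 5) (nat_lit 20) (nat_lit 5) (nat_lit 21) (nat_lit 5) (nat_lit 337) (nat_lit 285) (nat_lit 158)) (XT.nd (nat_lit 78) (nat_lit 0) (nat_lit 0) (XT.lf (nat_lit 0) (nat_lit 38838043001) (nat_lit 228) (nat_lit 25462193303) (nat_lit 76) (nat_lit 10045356580) (nat_lit 18) (nat_lit 5) (nat_lit 21) (nat_lit 5) (nat_lit 19) (nat_lit 4) (nat_lit 338) (nat_lit 285) (nat_lit 157)) (XT.lf (nat_lit 0) (nat_lit 50959029203) (nat_lit 228) (nat_lit 623897146) (nat_lit 76) (nat_lit 25703724026) (nat_lit 18) (nat_lit 5) (nat_lit 21) (nat_lit 5) (nat_lit 19) (nat_lit 4) (nat_lit 339) (nat_lit 285) (nat_lit 156))))))))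
noncomputable def xc179 : XT := (XT.nd (nat_lit 1482) (nat_lit 304) (nat_lit 0) (XT.nd (nat_lit 702) (nat_lit 304) (nat_lit 0) (XT.nd (nat_lit 312) (nat_lit 76) (nat_lit 0) (XT.nd (nat_lit 156) (nat_lit 228) (nat_lit 0) (XT.nd (nat_lit 78) (nat_lit 0) (nat_lit 0) (XT.lf (nat_lit 0) (nat_lit 26293183241) (nat_lit 76) (nat_lit 37800647340) (nat_lit 152) (nat_lit 16260544849) (nat_lit 17) (nat_lit 5) (nat_lit 18) (nat_lit 5) (nat_lit 19) (nat_lit 4) (nat_lit 340) (nat_lit 285) (nat_lit 155)) (XT.lf (nat_lit 0) (nat_lit 54573176733) (nat_lit 76) (nat_lit 23320075730) (nat_lit 152) (nat_lit 5681843090) (nat_lit 17) (nat_lit 5) (nat_lit 18) (nat_lit 5) (nat_lit 19) (nat_lit 4) (nat_lit 341) (nat_lit 285) (nat_lit 154))) (XT.nd (nat_lit 78) (nat_lit 152) (nat_lit 0) (XT.lf (nat_lit 0) (nat_lit 5249532246) (nat_lit 152) (nat_lit 2778864355) (nat_lit 76) (nat_lit 78924352176) (nat_lit 16) (nat_lit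 5) (nat_lit 18) (nat_lit 5) (nat_lit 17) (nat_lit 5) (nat_lit 342) (nat_lit 285) (nat_lit 153)) (XT.lf (nat_lit 0) (nat_lit 17065116055) (nat_lit 228) (nat_lit 65134981953) (nat_lit 76) (nat_lit 8268102513) (nat_lit 14) (nat_lit 5) (nat_lit 17) (nat_lit 5) (nat_lit 15) (nat_lit 4) (nat_lit 343) (nat_lit 285) (nat_lit 152)))) (XT.nd (nat_lit 156) (nat_lit 76) (nat_lit 0) (XT.nd (nat_lit 78) (nat_lit 0) (nat_lit 0) (XT.lf (nat_lit 0) (nat_lit 29648471793) (nat_lit 228) (nat_lit 39346360052) (nat_lit 76) (nat_lit 25155745706) (nat_lit 14) (nat_lit 5) (nat_lit 17) (nat_lit 5) (nat_lit 15) (nat_lit 4) (nat_lit 344) (nat_lit 285) (nat_lit 151)) (XT.lf (nat_lit 0) (nat_lit 42858658906) (nat_lit 228) (nat_lit 12272388243) (nat_lit 76) (nat_lit 42886145329) (nat_lit 14) (nat_lit 5) (nat_lit 17) (nat_lit 5) (nat_lit 15) (nat_lit 4) (nat_lit 345) (nat_lit 285) (nat_lit 150))) (XT.nd (nat_lit 78)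 (nat_lit 0) (nat_lit 0) (XT.lf (nat_lit 0) (nat_lit 16685433380) (nat_lit 76) (nat_lit 40302203215) (nat_lit 152) (nat_lit 45076589613) (nat_lit 13) (nat_lit 5) (nat_lit 14) (nat_lit 5) (nat_lit 15) (nat_lit 4) (nat_lit 346) (nat_lit 285) (nat_lit 149)) (XT.nd (nat_lit 78) (nat_lit 0) (nat_lit 0) (XT.lf (nat_lit 0) (nat_lit 47513391538) (nat_lit 76) (nat_lit 24515331564) (nat_lit 152) (nat_lit 34274607543) (nat_lit 13) (nat_lit 5) (nat_lit 14) (nat_lit 5) (nat_lit 15) (nat_lit 4) (nat_lit 347) (nat_lit 285) (nat_lit 148)) (XT.lf (nat_lit 0) (nat_lit 79879105552) (nat_lit 76) (nat_lit 7940683239) (nat_lit 152) (nat_lit 22934707192) (nat_lit 13) (nat_lit 5) (nat_lit 14) (nat_lit 5) (nat_lit 15) (nat_lit 4) (nat_lit 348) (nat_lit 285) (nat_lit 147)))))) (XT.nd (nat_lit 390) (nat_lit 152) (nat_lit 0) (XT.nd (nat_lit 156) (nat_lit 0) (nat_lit 0) (XT.nd (nat_lit 78) (nat_lit 152) (nat_lit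 0) (XT.lf (nat_lit 0) (nat_lit 104546147368) (nat_lit 152) (nat_lit 1716399517) (nat_lit 0) (nat_lit 9158387554) (nat_lit 13) (nat_lit 5) (nat_lit 15) (nat_lit 4) (nat_lit 13) (nat_lit 4) (nat_lit 349) (nat_lit 285) (nat_lit 146)) (XT.lf (nat_lit 0) (nat_lit 2332859577) (nat_lit 152) (nat_lit 90610555351) (nat_lit 76) (nat_lit 27345787573) (nat_lit 11) (nat_lit 5) (nat_lit 13) (nat_lit 5) (nat_lit 12) (nat_lit 4) (nat_lit 350) (nat_lit 285) (nat_lit 145))) (XT.nd (nat_lit 78) (nat_lit 0) (nat_lit 0) (XT.lf (nat_lit 0) (nat_lit 15863071200) (nat_lit 152) (nat_lit 62878533592) (nat_lit 76) (nat_lit 46648984654) (nat_lit 11) (nat_lit 5) (nat_lit 13) (nat_lit 5) (nat_lit 12) (nat_lit 4) (nat_lit 351) (nat_lit 285) (nat_lit 144)) (XT.nd (nat_lit 78) (nat_lit 0) (nat_lit 0) (XT.lf (nat_lit 0) (nat_lit 30067985989) (nat_lit 152) (nat_lit 33763136434) (nat_lit 76) (nat_lit 66916015192) (nat_lit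 11) (nat_lit 5) (nat_lit 13) (nat_lit 5) (nat_lit 12) (nat_lit 4) (nat_lit 352) (nat_lit 285) (nat_lit 143)) (XT.lf (nat_lit 0) (nat_lit 44981425170) (nat_lit 152) (nat_lit 3195041502) (nat_lit 76) (nat_lit 88195134021) (nat_lit 11) (nat_lit 5) (nat_lit 13) (nat_lit 5) (nat_lit 12) (nat_lit 4) (nat_lit 353) (nat_lit 285) (nat_lit 142))))) (XT.nd (nat_lit 156) (nat_lit 76) (nat_lit 0) (XT.nd (nat_lit 78) (nat_lit 0) (nat_lit 0) (XT.lf (nat_lit 0) (nat_lit 29854048369) (nat_lit 76) (nat_lit 31250953923) (nat_lit 152) (nat_lit 81149062700) (nat_lit 10) (nat_lit 5) (nat_lit 11) (nat_lit 5) (nat_lit 12) (nat_lit 4) (nat_lit 354) (nat_lit 285) (nat_lit 141)) (XT.lf (nat_lit 0) (nat_lit 64663638758) (nat_lit 76) (nat_lit 13423622831) (nat_lit 152) (nat_lit 70340767052) (nat_lit 10) (nat_lit 5) (nat_lit 11) (nat_lit 5) (nat_lit 12) (nat_lit 4) (nat_lit 355) (nat_lit 285) (nat_lit 140))) (XT.nd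 (nat_lit 78) (nat_lit 76) (nat_lit 0) (XT.lf (nat_lit 0) (nat_lit 95999756122) (nat_lit 152) (nat_lit 53782453100) (nat_lit 0) (nat_lit 5124426375) (nat_lit 10) (nat_lit 5) (nat_lit 12) (nat_lit 4) (nat_lit 10) (nat_lit 4) (nat_lit 356) (nat_lit 285) (nat_lit 139)) (XT.nd (nat_lit 78) (nat_lit 76) (nat_lit 0) (XT.lf (nat_lit 0) (nat_lit 115026459832) (nat_lit 152) (nat_lit 22524145856) (nat_lit 0) (nat_lit 24147639170) (nat_lit 10) (nat_lit 5) (nat_lit 12) (nat_lit 4) (nat_lit 10) (nat_lit 4) (nat_lit 357) (nat_lit 285) (nat_lit 138)) (XT.lf (nat_lit 0) (nat_lit 10634920640) (nat_lit 76) (nat_lit 124534214299) (nat_lit 76) (nat_lit 33652068956) (nat_lit 9) (nat_lit 4) (nat_lit 10) (nat_lit 5) (nat_lit 10) (nat_lit 4) (nat_lit 358) (nat_lit 285) (nat_lit 137))))))) (XT.nd (nat_lit 780) (nat_lit 152) (nat_lit 0) (XT.nd (nat_lit 390) (nat_lit 76) (nat_lit 0) (XT.nd (nat_lit 156) (nat_lit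 76) (nat_lit 0) (XT.nd (nat_lit 78) (nat_lit 0) (nat_lit 0) (XT.lf (nat_lit 0) (nat_lit 46231428924) (nat_lit 76) (nat_lit 110467595356) (nat_lit 76) (nat_lit 19582283650) (nat_lit 9) (nat_lit 4) (nat_lit 10) (nat_lit 5) (nat_lit 10) (nat_lit 4) (nat_lit 359) (nat_lit 285) (nat_lit 136)) (XT.lf (nat_lit 0) (nat_lit 83605382603) (nat_lit 76) (nat_lit 95698714217) (nat_lit 76) (nat_lit 4810386928) (nat_lit 9) (nat_lit 4) (nat_lit 10) (nat_lit 5) (nat_lit 10) (nat_lit 4) (nat_lit 360) (nat_lit 285) (nat_lit 135))) (XT.nd (nat_lit 78) (nat_lit 0) (nat_lit 0) (XT.lf (nat_lit 0) (nat_lit 10356364220) (nat_lit 152) (nat_lit 69660652621) (nat_lit 76) (nat_lit 112314013023) (nat_lit 8) (nat_lit 5) (nat_lit 10) (nat_lit 5) (nat_lit 9) (nat_lit 4) (nat_lit 361) (nat_lit 285) (nat_lit 134)) (XT.nd (nat_lit 78) (nat_lit 0) (nat_lit 0) (XT.lf (nat_lit 0) (nat_lit 26118582631) (nat_lit 152) (nat_lit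 37350840100) (nat_lit 76) (nat_lit 137485098980) (nat_lit 8) (nat_lit 5) (nat_lit 10) (nat_lit 5) (nat_lit 9) (nat_lit 4) (nat_lit 362) (nat_lit 285) (nat_lit 133)) (XT.lf (nat_lit 0) (nat_lit 42667759821) (nat_lit 152) (nat_lit 3427631837) (nat_lit 76) (nat_lit 163913854941) (nat_lit 8) (nat_lit 5) (nat_lit 10) (nat_lit 5) (nat_lit 9) (nat_lit 4) (nat_lit 363) (nat_lit 285) (nat_lit 132))))) (XT.nd (nat_lit 156) (nat_lit 0) (nat_lit 0) (XT.nd (nat_lit 78) (nat_lit 0) (nat_lit 0) (XT.lf (nat_lit 0) (nat_lit 33254079947) (nat_lit 76) (nat_lit 27308408026) (nat_lit 152) (nat_lit 158928315950) (nat_lit 7) (nat_lit 5) (nat_lit 8) (nat_lit 5) (nat_lit 9) (nat_lit 4) (nat_lit 364) (nat_lit 285) (nat_lit 131)) (XT.lf (nat_lit 0) (nat_lit 71886914010) (nat_lit 76) (nat_lit 7522011451) (nat_lit 152) (nat_lit 150034665765) (nat_lit 7) (nat_lit 5) (nat_lit 8) (nat_lit 5) (nat_lit 9) (nat_lit 4)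 (nat_lit 365) (nat_lit 285) (nat_lit 130))) (XT.nd (nat_lit 78) (nat_lit 0) (nat_lit 0) (XT.lf (nat_lit 0) (nat_lit 99403574657) (nat_lit 152) (nat_lit 127651463824) (nat_lit 0) (nat_lit 12828685646) (nat_lit 7) (nat_lit 5) (nat_lit 9) (nat_lit 4) (nat_lit 7) (nat_lit 4) (nat_lit 366) (nat_lit 285) (nat_lit 129)) (XT.nd (nat_lit 78) (nat_lit 0) (nat_lit 0) (XT.lf (nat_lit 0) (nat_lit 120520279742) (nat_lit 152) (nat_lit 96376118785) (nat_lit 0) (nat_lit 33943349665) (nat_lit 7) (nat_lit 5) (nat_lit 9) (nat_lit 4) (nat_lit 7) (nat_lit 4) (nat_lit 367) (nat_lit 285) (nat_lit 128)) (XT.lf (nat_lit 0) (nat_lit 142691878906) (nat_lit 152) (nat_lit 63538737313) (nat_lit 0) (nat_lit 56113004958) (nat_lit 7) (nat_lit 5) (nat_lit 9) (nat_lit 4) (nat_lit 7) (nat_lit 4) (nat_lit 368) (nat_lit 285) (nat_lit 127)))))) (XT.nd (nat_lit 390) (nat_lit 76) (nat_lit 0) (XT.nd (nat_lit 156) (nat_lit 0)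 (nat_lit 0) (XT.nd (nat_lit 78) (nat_lit 76) (nat_lit 0) (XT.lf (nat_lit 0) (nat_lit 165971161672) (nat_lit 152) (nat_lit 29061135165) (nat_lit 0) (nat_lit 79390436416) (nat_lit 7) (nat_lit 5) (nat_lit 9) (nat_lit 4) (nat_lit 7) (nat_lit 4) (nat_lit 369) (nat_lit 285) (nat_lit 126)) (XT.lf (nat_lit 0) (nat_lit 7374817399) (nat_lit 76) (nat_lit 183153879070) (nat_lit 76) (nat_lit 96571390666) (nat_lit 6) (nat_lit 4) (nat_lit 7) (nat_lit 5) (nat_lit 7) (nat_lit 4) (nat_lit 370) (nat_lit 285) (nat_lit 125))) (XT.nd (nat_lit 78) (nat_lit 0) (nat_lit 0) (XT.lf (nat_lit 0) (nat_lit 46639960001) (nat_lit 76) (nat_lit 170165475254) (nat_lit 76) (nat_lit 83581307660) (nat_lit 6) (nat_lit 4) (nat_lit 7) (nat_lit 5) (nat_lit 7) (nat_lit 4) (nat_lit 371) (nat_lit 285) (nat_lit 124)) (XT.nd (nat_lit 78) (nat_lit 0) (nat_lit 0) (XT.lf (nat_lit 0) (nat_lit 87866888702) (nat_lit 76) (nat_lit 156528325005)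 (nat_lit 76) (nat_lit 69942558182) (nat_lit 6) (nat_lit 4) (nat_lit 7) (nat_lit 5) (nat_lit 7) (nat_lit 4) (nat_lit 372) (nat_lit 285) (nat_lit 123)) (XT.lf (nat_lit 0) (nat_lit 131153762856) (nat_lit 76) (nat_lit 142209958916) (nat_lit 76) (nat_lit 55622669019) (nat_lit 6) (nat_lit 4) (nat_lit 7) (nat_lit 5) (nat_lit 7) (nat_lit 4) (nat_lit 373) (nat_lit 285) (nat_lit 122))))) (XT.nd (nat_lit 156) (nat_lit 76) (nat_lit 0) (XT.nd (nat_lit 78) (nat_lit 0) (nat_lit 0) (XT.lf (nat_lit 0) (nat_lit 176603646450) (nat_lit 76) (nat_lit 127176285641) (nat_lit 76) (nat_lit 40587545196) (nat_lit 6) (nat_lit 4) (nat_lit 7) (nat_lit 5) (nat_lit 7) (nat_lit 4) (nat_lit 374) (nat_lit 285) (nat_lit 121)) (XT.lf (nat_lit 0) (nat_lit 224324753491) (nat_lit 76) (nat_lit 111391510718) (nat_lit 76) (nat_lit 24801388800) (nat_lit 6) (nat_lit 4) (nat_lit 7) (nat_lit 5) (nat_lit 7) (nat_lit 4) (nat_lit 375)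 (nat_lit 285) (nat_lit 120))) (XT.nd (nat_lit 78) (nat_lit 76) (nat_lit 0) (XT.lf (nat_lit 0) (nat_lit 274430705664) (nat_lit 76) (nat_lit 94818051351) (nat_lit 76) (nat_lit 8226613744) (nat_lit 6) (nat_lit 4) (nat_lit 7) (nat_lit 5) (nat_lit 7) (nat_lit 4) (nat_lit 376) (nat_lit 285) (nat_lit 119)) (XT.nd (nat_lit 78) (nat_lit 0) (nat_lit 0) (XT.lf (nat_lit 0) (nat_lit 8882546616) (nat_lit 152) (nat_lit 68383470080) (nat_lit 76) (nat_lit 318007826013) (nat_lit 5) (nat_lit 5) (nat_lit 7) (nat_lit 5) (nat_lit 6) (nat_lit 4) (nat_lit 377) (nat_lit 285) (nat_lit 118)) (XT.lf (nat_lit 0) (nat_lit 26570091746) (nat_lit 152) (nat_lit 32125195931) (nat_lit 76) (nat_lit 355260238091) (nat_lit 5) (nat_lit 5) (nat_lit 7) (nat_lit 5) (nat_lit 6) (nat_lit 4) (nat_lit 378) (nat_lit 285) (nat_lit 117))))))))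
noncomputable def xc180 : XT := (XT.nd (nat_lit 34632) (nat_lit 0) (nat_lit 2356) (XT.nd (nat_lit 33852) (nat_lit 0) (nat_lit 4636) (XT.nd (nat_lit 33462) (nat_lit 0) (nat_lit 5852) (XT.nd (nat_lit 156) (nat_lit 0) (nat_lit 0) (XT.nd (nat_lit 78) (nat_lit 0) (nat_lit 0) (XT.lf (nat_lit 0) (nat_lit 6141493207) (nat_lit 76) (nat_lit 39095830578) (nat_lit 152) (nat_lit 388329204079) (nat_lit 4) (nat_lit 5) (nat_lit 5) (nat_lit 5) (nat_lit 6) (nat_lit 4) (nat_lit 379) (nat_lit 285) (nat_lit 116)) (XT.lf (nat_lit 0) (nat_lit 47435783386) (nat_lit 76) (nat_lit 17945624594) (nat_lit 152) (nat_lit 388749497906) (nat_lit 4) (nat_lit 5) (nat_lit 5) (nat_lit 5) (nat_lit 6) (nat_lit 4) (nat_lit 380) (nat_lit 285) (nat_lit 115))) (XT.nd (nat_lit 33228) (nat_lit 0) (nat_lit 5852) (XT.lf (nat_lit 0) (nat_lit 86598694137) (nat_lit 152) (nat_lit 384996275791) (nat_lit 0) (nat_lit 4125233325) (nat_lit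 4) (nat_lit 5) (nat_lit 6) (nat_lit 4) (nat_lit 4) (nat_lit 4) (nat_lit 381) (nat_lit 285) (nat_lit 114)) (XT.lf (nat_lit 0) (nat_lit 1387773556) (nat_lit 0) (nat_lit 1387773556) (nat_lit 684) (nat_lit 4610544312) (nat_lit 81) (nat_lit 5) (nat_lit 81) (nat_lit 3) (nat_lit 90) (nat_lit 3) (nat_lit 286) (nat_lit 286) (nat_lit 208)))) (XT.nd (nat_lit 156) (nat_lit 0) (nat_lit 76) (XT.nd (nat_lit 78) (nat_lit 0) (nat_lit 0) (XT.lf (nat_lit 0) (nat_lit 6032449636) (nat_lit 684) (nat_lit 5544828510) (nat_lit 760) (nat_lit 3546328983) (nat_lit 81) (nat_lit 5) (nat_lit 90) (nat_lit 3) (nat_lit 91) (nat_lit 5) (nat_lit 287) (nat_lit 286) (nat_lit 207)) (XT.lf (nat_lit 76) (nat_lit 1212642425) (nat_lit 0) (nat_lit 5371538684) (nat_lit 760) (nat_lit 8906154197) (nat_lit 82) (nat_lit 5) (nat_lit 81) (nat_lit 5) (nat_lit 91) (nat_lit 5) (nat_lit 288) (nat_lit 286) (nat_lit 206))) (XT.nd (nat_lit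 78) (nat_lit 0) (nat_lit 0) (XT.lf (nat_lit 0) (nat_lit 7259506900) (nat_lit 684) (nat_lit 7400726279) (nat_lit 760) (nat_lit 1210412134) (nat_lit 82) (nat_lit 5) (nat_lit 91) (nat_lit 5) (nat_lit 92) (nat_lit 5) (nat_lit 289) (nat_lit 286) (nat_lit 205)) (XT.nd (nat_lit 78) (nat_lit 0) (nat_lit 0) (XT.lf (nat_lit 0) (nat_lit 8040176336) (nat_lit 684) (nat_lit 278544938) (nat_lit 760) (nat_lit 7947714304) (nat_lit 82) (nat_lit 5) (nat_lit 91) (nat_lit 5) (nat_lit 92) (nat_lit 5) (nat_lit 290) (nat_lit 286) (nat_lit 204)) (XT.lf (nat_lit 76) (nat_lit 7427396561) (nat_lit 0) (nat_lit 1532749296) (nat_lit 760) (nat_lit 7716897718) (nat_lit 83) (nat_lit 5) (nat_lit 82) (nat_lit 5) (nat_lit 92) (nat_lit 5) (nat_lit 291) (nat_lit 286) (nat_lit 203)))))) (XT.nd (nat_lit 390) (nat_lit 1368) (nat_lit 0) (XT.nd (nat_lit 156) (nat_lit 0) (nat_lit 76) (XT.nd (nat_lit 78) (nat_lit 0) (nat_lit 0)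 (XT.lf (nat_lit 0) (nat_lit 10003201343) (nat_lit 684) (nat_lit 1677818130) (nat_lit 760) (nat_lit 5423347696) (nat_lit 83) (nat_lit 5) (nat_lit 92) (nat_lit 5) (nat_lit 93) (nat_lit 5) (nat_lit 292) (nat_lit 286) (nat_lit 202)) (XT.lf (nat_lit 76) (nat_lit 6443433515) (nat_lit 0) (nat_lit 4766396448) (nat_lit 760) (nat_lit 6337693647) (nat_lit 84) (nat_lit 5) (nat_lit 83) (nat_lit 5) (nat_lit 93) (nat_lit 5) (nat_lit 293) (nat_lit 286) (nat_lit 201))) (XT.nd (nat_lit 78) (nat_lit 0) (nat_lit 0) (XT.lf (nat_lit 0) (nat_lit 12530882329) (nat_lit 684) (nat_lit 3032711373) (nat_lit 760) (nat_lit 2446575448) (nat_lit 84) (nat_lit 5) (nat_lit 93) (nat_lit 5) (nat_lit 94) (nat_lit 5) (nat_lit 294) (nat_lit 286) (nat_lit 200)) (XT.nd (nat_lit 78) (nat_lit 0) (nat_lit 0) (XT.lf (nat_lit 76) (nat_lit 5530747036) (nat_lit 0) (nat_lit 8538656162) (nat_lit 760) (nat_lit 4419007157) (nat_lit 85)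 (nat_lit 5) (nat_lit 84) (nat_lit 5) (nat_lit 94) (nat_lit 5) (nat_lit 295) (nat_lit 286) (nat_lit 199)) (XT.lf (nat_lit 76) (nat_lit 14617464469) (nat_lit 0) (nat_lit 1106137048) (nat_lit 760) (nat_lit 3265057087) (nat_lit 85) (nat_lit 5) (nat_lit 84) (nat_lit 5) (nat_lit 94) (nat_lit 5) (nat_lit 296) (nat_lit 286) (nat_lit 198))))) (XT.nd (nat_lit 156) (nat_lit 836) (nat_lit 0) (XT.nd (nat_lit 78) (nat_lit 0) (nat_lit 0) (XT.lf (nat_lit 0) (nat_lit 4679410020) (nat_lit 684) (nat_lit 12946760293) (nat_lit 760) (nat_lit 1879496929) (nat_lit 76) (nat_lit 5) (nat_lit 85) (nat_lit 5) (nat_lit 86) (nat_lit 5) (nat_lit 297) (nat_lit 286) (nat_lit 197)) (XT.lf (nat_lit 0) (nat_lit 14305352739) (nat_lit 684) (nat_lit 5398821821) (nat_lit 760) (nat_lit 340365929) (nat_lit 76) (nat_lit 5) (nat_lit 85) (nat_lit 5) (nat_lit 86) (nat_lit 5) (nat_lit 298) (nat_lit 286) (nat_lit 196))) (XT.nd (nat_lit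 78) (nat_lit 380) (nat_lit 0) (XT.lf (nat_lit 0) (nat_lit 1325299896) (nat_lit 456) (nat_lit 16750778781) (nat_lit 76) (nat_lit 2528789159) (nat_lit 70) (nat_lit 5) (nat_lit 76) (nat_lit 5) (nat_lit 71) (nat_lit 5) (nat_lit 299) (nat_lit 286) (nat_lit 195)) (XT.nd (nat_lit 78) (nat_lit 380) (nat_lit 0) (XT.lf (nat_lit 0) (nat_lit 3239278064) (nat_lit 456) (nat_lit 7168294604) (nat_lit 76) (nat_lit 10776562023) (nat_lit 70) (nat_lit 5) (nat_lit 76) (nat_lit 5) (nat_lit 71) (nat_lit 5) (nat_lit 300) (nat_lit 286) (nat_lit 194)) (XT.lf (nat_lit 0) (nat_lit 2978604121) (nat_lit 380) (nat_lit 2306543951) (nat_lit 456) (nat_lit 16505431463) (nat_lit 65) (nat_lit 5) (nat_lit 70) (nat_lit 5) (nat_lit 71) (nat_lit 5) (nat_lit 301) (nat_lit 286) (nat_lit 193))))))) (XT.nd (nat_lit 780) (nat_lit 1064) (nat_lit 0) (XT.nd (nat_lit 390) (nat_lit 608) (nat_lit 0) (XT.nd (nat_lit 156) (nat_lit 304)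 (nat_lit 0) (XT.nd (nat_lit 78) (nat_lit 304) (nat_lit 0) (XT.lf (nat_lit 0) (nat_lit 7643519162) (nat_lit 456) (nat_lit 8648749106) (nat_lit 76) (nat_lit 6124591109) (nat_lit 65) (nat_lit 5) (nat_lit 71) (nat_lit 5) (nat_lit 66) (nat_lit 5) (nat_lit 302) (nat_lit 286) (nat_lit 192)) (XT.lf (nat_lit 0) (nat_lit 2040216541) (nat_lit 304) (nat_lit 8139759644) (nat_lit 380) (nat_lit 12891490693) (nat_lit 61) (nat_lit 5) (nat_lit 65) (nat_lit 5) (nat_lit 66) (nat_lit 5) (nat_lit 303) (nat_lit 286) (nat_lit 191))) (XT.nd (nat_lit 78) (nat_lit 304) (nat_lit 0) (XT.lf (nat_lit 0) (nat_lit 12989484350) (nat_lit 380) (nat_lit 10206771997) (nat_lit 76) (nat_lit 555257977) (nat_lit 61) (nat_lit 5) (nat_lit 66) (nat_lit 5) (nat_lit 62) (nat_lit 5) (nat_lit 304) (nat_lit 286) (nat_lit 190)) (XT.nd (nat_lit 78) (nat_lit 0) (nat_lit 0) (XT.lf (nat_lit 0) (nat_lit 1049341921) (nat_lit 304) (nat_lit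 15031179432) (nat_lit 380) (nat_lit 8378010103) (nat_lit 57) (nat_lit 5) (nat_lit 61) (nat_lit 5) (nat_lit 62) (nat_lit 5) (nat_lit 305) (nat_lit 286) (nat_lit 189)) (XT.lf (nat_lit 0) (nat_lit 13213039479) (nat_lit 304) (nat_lit 6277426932) (nat_lit 380) (nat_lit 5702234259) (nat_lit 57) (nat_lit 5) (nat_lit 61) (nat_lit 5) (nat_lit 62) (nat_lit 5) (nat_lit 306) (nat_lit 286) (nat_lit 188))))) (XT.nd (nat_lit 156) (nat_lit 304) (nat_lit 0) (XT.nd (nat_lit 78) (nat_lit 304) (nat_lit 0) (XT.lf (nat_lit 0) (nat_lit 23108292972) (nat_lit 380) (nat_lit 33681258) (nat_lit 76) (nat_lit 2819753029) (nat_lit 57) (nat_lit 5) (nat_lit 62) (nat_lit 5) (nat_lit 58) (nat_lit 5) (nat_lit 307) (nat_lit 286) (nat_lit 187)) (XT.lf (nat_lit 0) (nat_lit 433361527) (nat_lit 304) (nat_lit 13953919926) (nat_lit 76) (nat_lit 12366834265) (nat_lit 53) (nat_lit 5) (nat_lit 57) (nat_lit 5) (nat_lit 54) (nat_lit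 5) (nat_lit 308) (nat_lit 286) (nat_lit 186))) (XT.nd (nat_lit 78) (nat_lit 304) (nat_lit 0) (XT.lf (nat_lit 0) (nat_lit 3781547052) (nat_lit 304) (nat_lit 1365142926) (nat_lit 76) (nat_lit 22437463200) (nat_lit 53) (nat_lit 5) (nat_lit 57) (nat_lit 5) (nat_lit 54) (nat_lit 5) (nat_lit 309) (nat_lit 286) (nat_lit 185)) (XT.nd (nat_lit 78) (nat_lit 0) (nat_lit 0) (XT.lf (nat_lit 0) (nat_lit 7555146444) (nat_lit 380) (nat_lit 16284818099) (nat_lit 76) (nat_lit 4602842653) (nat_lit 49) (nat_lit 5) (nat_lit 54) (nat_lit 5) (nat_lit 50) (nat_lit 5) (nat_lit 310) (nat_lit 286) (nat_lit 184)) (XT.lf (nat_lit 0) (nat_lit 11618211436) (nat_lit 380) (nat_lit 3032277120) (nat_lit 76) (nat_lit 14688880282) (nat_lit 49) (nat_lit 5) (nat_lit 54) (nat_lit 5) (nat_lit 50) (nat_lit 5) (nat_lit 311) (nat_lit 286) (nat_lit 183)))))) (XT.nd (nat_lit 390) (nat_lit 380) (nat_lit 0) (XT.nd (nat_lit 156) (nat_lit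 456) (nat_lit 0) (XT.nd (nat_lit 78) (nat_lit 0) (nat_lit 0) (XT.lf (nat_lit 0) (nat_lit 11233912354) (nat_lit 228) (nat_lit 4819162846) (nat_lit 304) (nat_lit 14219264611) (nat_lit 46) (nat_lit 5) (nat_lit 49) (nat_lit 5) (nat_lit 50) (nat_lit 5) (nat_lit 312) (nat_lit 286) (nat_lit 182)) (XT.lf (nat_lit 0) (nat_lit 20841219890) (nat_lit 304) (nat_lit 5026185343) (nat_lit 76) (nat_lit 5377990097) (nat_lit 46) (nat_lit 5) (nat_lit 50) (nat_lit 5) (nat_lit 47) (nat_lit 5) (nat_lit 313) (nat_lit 286) (nat_lit 181))) (XT.nd (nat_lit 78) (nat_lit 228) (nat_lit 0) (XT.lf (nat_lit 0) (nat_lit 9916771210) (nat_lit 228) (nat_lit 16179559641) (nat_lit 304) (nat_lit 6159407091) (nat_lit 43) (nat_lit 5) (nat_lit 46) (nat_lit 5) (nat_lit 47) (nat_lit 5) (nat_lit 314) (nat_lit 286) (nat_lit 180)) (XT.nd (nat_lit 78) (nat_lit 228) (nat_lit 0) (XT.lf (nat_lit 0) (nat_lit 25773213557) (nat_lit 228)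 (nat_lit 5920003741) (nat_lit 304) (nat_lit 1619441075) (nat_lit 43) (nat_lit 5) (nat_lit 46) (nat_lit 5) (nat_lit 47) (nat_lit 5) (nat_lit 315) (nat_lit 286) (nat_lit 179)) (XT.lf (nat_lit 0) (nat_lit 3247613441) (nat_lit 228) (nat_lit 26286940475) (nat_lit 76) (nat_lit 4875382896) (nat_lit 40) (nat_lit 5) (nat_lit 43) (nat_lit 5) (nat_lit 41) (nat_lit 5) (nat_lit 316) (nat_lit 286) (nat_lit 178))))) (XT.nd (nat_lit 156) (nat_lit 152) (nat_lit 0) (XT.nd (nat_lit 78) (nat_lit 228) (nat_lit 0) (XT.lf (nat_lit 0) (nat_lit 8524633505) (nat_lit 228) (nat_lit 10859187687) (nat_lit 76) (nat_lit 16165888832) (nat_lit 40) (nat_lit 5) (nat_lit 43) (nat_lit 5) (nat_lit 41) (nat_lit 5) (nat_lit 317) (nat_lit 286) (nat_lit 177)) (XT.lf (nat_lit 0) (nat_lit 5508532435) (nat_lit 228) (nat_lit 8637461566) (nat_lit 304) (nat_lit 22596463037) (nat_lit 37) (nat_lit 5) (nat_lit 40) (nat_lit 5) (nat_lit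 41) (nat_lit 5) (nat_lit 318) (nat_lit 286) (nat_lit 176))) (XT.nd (nat_lit 78) (nat_lit 152) (nat_lit 0) (XT.lf (nat_lit 0) (nat_lit 20271252631) (nat_lit 304) (nat_lit 14966176694) (nat_lit 76) (nat_lit 2746279728) (nat_lit 37) (nat_lit 5) (nat_lit 41) (nat_lit 5) (nat_lit 38) (nat_lit 5) (nat_lit 319) (nat_lit 286) (nat_lit 175)) (XT.nd (nat_lit 78) (nat_lit 0) (nat_lit 0) (XT.lf (nat_lit 0) (nat_lit 2030889734) (nat_lit 152) (nat_lit 24840042274) (nat_lit 228) (nat_lit 12407692490) (nat_lit 35) (nat_lit 5) (nat_lit 37) (nat_lit 5) (nat_lit 38) (nat_lit 5) (nat_lit 320) (nat_lit 286) (nat_lit 174)) (XT.lf (nat_lit 0) (nat_lit 20390049565) (nat_lit 152) (nat_lit 13658987790) (nat_lit 228) (nat_lit 6576834564) (nat_lit 35) (nat_lit 5) (nat_lit 37) (nat_lit 5) (nat_lit 38) (nat_lit 5) (nat_lit 321) (nat_lit 286) (nat_lit 173))))))))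
noncomputable def xc181 : XT := (XT.nd (nat_lit 1482) (nat_lit 684) (nat_lit 0) (XT.nd (nat_lit 702) (nat_lit 456) (nat_lit 0) (XT.nd (nat_lit 312) (nat_lit 380) (nat_lit 0) (XT.nd (nat_lit 156) (nat_lit 152) (nat_lit 0) (XT.nd (nat_lit 78) (nat_lit 304) (nat_lit 0) (XT.lf (nat_lit 0) (nat_lit 39660165692) (nat_lit 152) (nat_lit 1921103759) (nat_lit 228) (nat_lit 459459095) (nat_lit 35) (nat_lit 5) (nat_lit 37) (nat_lit 5) (nat_lit 38) (nat_lit 5) (nat_lit 322) (nat_lit 286) (nat_lit 172)) (XT.lf (nat_lit 0) (nat_lit 6198877209) (nat_lit 304) (nat_lit 26871618989) (nat_lit 76) (nat_lit 10429884889) (nat_lit 31) (nat_lit 5) (nat_lit 35) (nat_lit 5) (nat_lit 32) (nat_lit 5) (nat_lit 323) (nat_lit 286) (nat_lit 171))) (XT.nd (nat_lit 78) (nat_lit 152) (nat_lit 0) (XT.lf (nat_lit 0) (nat_lit 13242608379) (nat_lit 304) (nat_lit 8406402747) (nat_lit 76) (nat_lit 23380239411) (nat_lit 31)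 (nat_lit 5) (nat_lit 35) (nat_lit 5) (nat_lit 32) (nat_lit 5) (nat_lit 324) (nat_lit 286) (nat_lit 170)) (XT.lf (nat_lit 0) (nat_lit 11338386022) (nat_lit 152) (nat_lit 9472829289) (nat_lit 228) (nat_lit 25814720196) (nat_lit 29) (nat_lit 5) (nat_lit 31) (nat_lit 5) (nat_lit 32) (nat_lit 5) (nat_lit 325) (nat_lit 286) (nat_lit 169)))) (XT.nd (nat_lit 156) (nat_lit 228) (nat_lit 0) (XT.nd (nat_lit 78) (nat_lit 152) (nat_lit 0) (XT.lf (nat_lit 0) (nat_lit 28950400385) (nat_lit 228) (nat_lit 15993780568) (nat_lit 76) (nat_lit 3348672578) (nat_lit 29) (nat_lit 5) (nat_lit 32) (nat_lit 5) (nat_lit 30) (nat_lit 5) (nat_lit 326) (nat_lit 286) (nat_lit 168)) (XT.lf (nat_lit 0) (nat_lit 4238703082) (nat_lit 152) (nat_lit 33475250324) (nat_lit 228) (nat_lit 12318299518) (nat_lit 27) (nat_lit 5) (nat_lit 29) (nat_lit 5) (nat_lit 30) (nat_lit 5) (nat_lit 327) (nat_lit 286) (nat_lit 167))) (XT.nd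 (nat_lit 78) (nat_lit 228) (nat_lit 0) (XT.lf (nat_lit 0) (nat_lit 26031834825) (nat_lit 152) (nat_lit 21150745966) (nat_lit 228) (nat_lit 4662702281) (nat_lit 27) (nat_lit 5) (nat_lit 29) (nat_lit 5) (nat_lit 30) (nat_lit 5) (nat_lit 328) (nat_lit 286) (nat_lit 166)) (XT.nd (nat_lit 78) (nat_lit 152) (nat_lit 0) (XT.lf (nat_lit 0) (nat_lit 3263788188) (nat_lit 228) (nat_lit 4893124214) (nat_lit 76) (nat_lit 45589614434) (nat_lit 26) (nat_lit 5) (nat_lit 29) (nat_lit 5) (nat_lit 27) (nat_lit 5) (nat_lit 329) (nat_lit 286) (nat_lit 165)) (XT.lf (nat_lit 0) (nat_lit 11791666949) (nat_lit 228) (nat_lit 38264082559) (nat_lit 76) (nat_lit 5665178193) (nat_lit 24) (nat_lit 5) (nat_lit 27) (nat_lit 5) (nat_lit 25) (nat_lit 5) (nat_lit 330) (nat_lit 286) (nat_lit 164)))))) (XT.nd (nat_lit 390) (nat_lit 228) (nat_lit 0) (XT.nd (nat_lit 156) (nat_lit 76) (nat_lit 0) (XT.nd (nat_lit 78) (nat_lit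 152) (nat_lit 0) (XT.lf (nat_lit 0) (nat_lit 20960276813) (nat_lit 228) (nat_lit 16836638745) (nat_lit 76) (nat_lit 19986420815) (nat_lit 24) (nat_lit 5) (nat_lit 27) (nat_lit 5) (nat_lit 25) (nat_lit 5) (nat_lit 331) (nat_lit 286) (nat_lit 163)) (XT.lf (nat_lit 0) (nat_lit 5843642364) (nat_lit 152) (nat_lit 24831473660) (nat_lit 228) (nat_lit 29269363917) (nat_lit 22) (nat_lit 5) (nat_lit 24) (nat_lit 5) (nat_lit 25) (nat_lit 5) (nat_lit 332) (nat_lit 286) (nat_lit 162))) (XT.nd (nat_lit 78) (nat_lit 76) (nat_lit 0) (XT.lf (nat_lit 0) (nat_lit 30236989470) (nat_lit 152) (nat_lit 10920485697) (nat_lit 228) (nat_lit 21042120816) (nat_lit 22) (nat_lit 5) (nat_lit 24) (nat_lit 5) (nat_lit 25) (nat_lit 5) (nat_lit 333) (nat_lit 286) (nat_lit 161)) (XT.nd (nat_lit 78) (nat_lit 76) (nat_lit 0) (XT.lf (nat_lit 0) (nat_lit 52218271632) (nat_lit 228) (nat_lit 8780363182) (nat_lit 76) (nat_lit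 3566121039) (nat_lit 22) (nat_lit 5) (nat_lit 25) (nat_lit 5) (nat_lit 23) (nat_lit 4) (nat_lit 334) (nat_lit 286) (nat_lit 160)) (XT.lf (nat_lit 0) (nat_lit 15885301881) (nat_lit 76) (nat_lit 48370768063) (nat_lit 152) (nat_lit 2770909476) (nat_lit 21) (nat_lit 5) (nat_lit 22) (nat_lit 5) (nat_lit 23) (nat_lit 4) (nat_lit 335) (nat_lit 286) (nat_lit 159))))) (XT.nd (nat_lit 156) (nat_lit 152) (nat_lit 0) (XT.nd (nat_lit 78) (nat_lit 0) (nat_lit 0) (XT.lf (nat_lit 0) (nat_lit 7198404709) (nat_lit 152) (nat_lit 27637064700) (nat_lit 76) (nat_lit 34763758639) (nat_lit 20) (nat_lit 5) (nat_lit 22) (nat_lit 5) (nat_lit 21) (nat_lit 5) (nat_lit 336) (nat_lit 286) (nat_lit 158)) (XT.lf (nat_lit 0) (nat_lit 17570148638) (nat_lit 152) (nat_lit 3007519704) (nat_lit 76) (nat_lit 51720298577) (nat_lit 20) (nat_lit 5) (nat_lit 22) (nat_lit 5) (nat_lit 21) (nat_lit 5) (nat_lit 337) (nat_lit 286)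 (nat_lit 157))) (XT.nd (nat_lit 78) (nat_lit 0) (nat_lit 0) (XT.lf (nat_lit 0) (nat_lit 23604347413) (nat_lit 152) (nat_lit 5221885946) (nat_lit 228) (nat_lit 46287124824) (nat_lit 18) (nat_lit 5) (nat_lit 20) (nat_lit 5) (nat_lit 21) (nat_lit 5) (nat_lit 338) (nat_lit 286) (nat_lit 156)) (XT.nd (nat_lit 78) (nat_lit 0) (nat_lit 0) (XT.lf (nat_lit 0) (nat_lit 40864352550) (nat_lit 228) (nat_lit 26591467630) (nat_lit 76) (nat_lit 10602740299) (nat_lit 18) (nat_lit 5) (nat_lit 21) (nat_lit 5) (nat_lit 19) (nat_lit 4) (nat_lit 339) (nat_lit 286) (nat_lit 155)) (XT.lf (nat_lit 0) (nat_lit 53587368662) (nat_lit 228) (nat_lit 518105967) (nat_lit 76) (nat_lit 27041401552) (nat_lit 18) (nat_lit 5) (nat_lit 21) (nat_lit 5) (nat_lit 19) (nat_lit 4) (nat_lit 340) (nat_lit 286) (nat_lit 154))))))) (XT.nd (nat_lit 780) (nat_lit 304) (nat_lit 0) (XT.nd (nat_lit 390) (nat_lit 76) (nat_lit 0) (XT.nd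 (nat_lit 156) (nat_lit 228) (nat_lit 0) (XT.nd (nat_lit 78) (nat_lit 0) (nat_lit 0) (XT.lf (nat_lit 0) (nat_lit 27742618987) (nat_lit 76) (nat_lit 39634567362) (nat_lit 152) (nat_lit 16990891485) (nat_lit 17) (nat_lit 5) (nat_lit 18) (nat_lit 5) (nat_lit 19) (nat_lit 4) (nat_lit 341) (nat_lit 286) (nat_lit 153)) (XT.lf (nat_lit 0) (nat_lit 57430194221) (nat_lit 76) (nat_lit 24432639188) (nat_lit 152) (nat_lit 5887191809) (nat_lit 17) (nat_lit 5) (nat_lit 18) (nat_lit 5) (nat_lit 19) (nat_lit 4) (nat_lit 342) (nat_lit 286) (nat_lit 152))) (XT.nd (nat_lit 78) (nat_lit 152) (nat_lit 0) (XT.lf (nat_lit 0) (nat_lit 5584602338) (nat_lit 152) (nat_lit 2793089137) (nat_lit 76) (nat_lit 82918993234) (nat_lit 16) (nat_lit 5) (nat_lit 18) (nat_lit 5) (nat_lit 17) (nat_lit 5) (nat_lit 343) (nat_lit 286) (nat_lit 151)) (XT.nd (nat_lit 78) (nat_lit 0) (nat_lit 0) (XT.lf (nat_lit 0) (nat_lit 17990230773)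 (nat_lit 228) (nat_lit 68266209637) (nat_lit 76) (nat_lit 8731508779) (nat_lit 14) (nat_lit 5) (nat_lit 17) (nat_lit 5) (nat_lit 15) (nat_lit 4) (nat_lit 344) (nat_lit 286) (nat_lit 150)) (XT.lf (nat_lit 0) (nat_lit 31199332445) (nat_lit 228) (nat_lit 41194133851) (nat_lit 76) (nat_lit 26461153125) (nat_lit 14) (nat_lit 5) (nat_lit 17) (nat_lit 5) (nat_lit 15) (nat_lit 4) (nat_lit 345) (nat_lit 286) (nat_lit 149))))) (XT.nd (nat_lit 156) (nat_lit 0) (nat_lit 0) (XT.nd (nat_lit 78) (nat_lit 76) (nat_lit 0) (XT.lf (nat_lit 0) (nat_lit 45066770005) (nat_lit 228) (nat_lit 12772156033) (nat_lit 76) (nat_lit 45075805103) (nat_lit 14) (nat_lit 5) (nat_lit 17) (nat_lit 5) (nat_lit 15) (nat_lit 4) (nat_lit 346) (nat_lit 286) (nat_lit 148)) (XT.lf (nat_lit 0) (nat_lit 17631720354) (nat_lit 76) (nat_lit 42269121376) (nat_lit 152) (nat_lit 47263345526) (nat_lit 13) (nat_lit 5) (nat_lit 14) (nat_lit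 5) (nat_lit 15) (nat_lit 4) (nat_lit 347) (nat_lit 286) (nat_lit 147))) (XT.nd (nat_lit 78) (nat_lit 0) (nat_lit 0) (XT.lf (nat_lit 0) (nat_lit 49995742358) (nat_lit 76) (nat_lit 25695201000) (nat_lit 152) (nat_lit 35924458332) (nat_lit 13) (nat_lit 5) (nat_lit 14) (nat_lit 5) (nat_lit 15) (nat_lit 4) (nat_lit 348) (nat_lit 286) (nat_lit 146)) (XT.nd (nat_lit 78) (nat_lit 0) (nat_lit 0) (XT.lf (nat_lit 0) (nat_lit 83974662014) (nat_lit 76) (nat_lit 8294005837) (nat_lit 152) (nat_lit 24020604848) (nat_lit 13) (nat_lit 5) (nat_lit 14) (nat_lit 5) (nat_lit 15) (nat_lit 4) (nat_lit 349) (nat_lit 286) (nat_lit 145)) (XT.lf (nat_lit 0) (nat_lit 109829237669) (nat_lit 152) (nat_lit 1703298724) (nat_lit 0) (nat_lit 9656604571) (nat_lit 13) (nat_lit 5) (nat_lit 15) (nat_lit 4) (nat_lit 13) (nat_lit 4) (nat_lit 350) (nat_lit 286) (nat_lit 144)))))) (XT.nd (nat_lit 390) (nat_lit 76) (nat_lit 0)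 (XT.nd (nat_lit 156) (nat_lit 76) (nat_lit 0) (XT.nd (nat_lit 78) (nat_lit 0) (nat_lit 0) (XT.lf (nat_lit 0) (nat_lit 2505091580) (nat_lit 152) (nat_lit 95041873517) (nat_lit 76) (nat_lit 28753871773) (nat_lit 11) (nat_lit 5) (nat_lit 13) (nat_lit 5) (nat_lit 12) (nat_lit 4) (nat_lit 351) (nat_lit 286) (nat_lit 143)) (XT.lf (nat_lit 0) (nat_lit 16709166688) (nat_lit 152) (nat_lit 65927974936) (nat_lit 76) (nat_lit 49020286098) (nat_lit 11) (nat_lit 5) (nat_lit 13) (nat_lit 5) (nat_lit 12) (nat_lit 4) (nat_lit 352) (nat_lit 286) (nat_lit 142))) (XT.nd (nat_lit 78) (nat_lit 76) (nat_lit 0) (XT.lf (nat_lit 0) (nat_lit 31621806172) (nat_lit 152) (nat_lit 35361307222) (nat_lit 76) (nat_lit 70298818058) (nat_lit 11) (nat_lit 5) (nat_lit 13) (nat_lit 5) (nat_lit 12) (nat_lit 4) (nat_lit 353) (nat_lit 286) (nat_lit 141)) (XT.nd (nat_lit 78) (nat_lit 76) (nat_lit 0) (XT.lf (nat_lit 0) (nat_lit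 47278516318) (nat_lit 152) (nat_lit 3269092593) (nat_lit 76) (nat_lit 92640130823) (nat_lit 11) (nat_lit 5) (nat_lit 13) (nat_lit 5) (nat_lit 12) (nat_lit 4) (nat_lit 354) (nat_lit 286) (nat_lit 140)) (XT.lf (nat_lit 0) (nat_lit 31431069498) (nat_lit 76) (nat_lit 32776232588) (nat_lit 152) (nat_lit 85157075577) (nat_lit 10) (nat_lit 5) (nat_lit 11) (nat_lit 5) (nat_lit 12) (nat_lit 4) (nat_lit 355) (nat_lit 286) (nat_lit 139))))) (XT.nd (nat_lit 156) (nat_lit 76) (nat_lit 0) (XT.nd (nat_lit 78) (nat_lit 0) (nat_lit 0) (XT.lf (nat_lit 0) (nat_lit 67977124229) (nat_lit 76) (nat_lit 14059309658) (nat_lit 152) (nat_lit 73810719445) (nat_lit 10) (nat_lit 5) (nat_lit 11) (nat_lit 5) (nat_lit 12) (nat_lit 4) (nat_lit 356) (nat_lit 286) (nat_lit 138)) (XT.lf (nat_lit 0) (nat_lit 100842947151) (nat_lit 152) (nat_lit 56393455651) (nat_lit 0) (nat_lit 5413369860) (nat_lit 10) (nat_lit 5) (nat_lit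 12) (nat_lit 4) (nat_lit 10) (nat_lit 4) (nat_lit 357) (nat_lit 286) (nat_lit 137))) (XT.nd (nat_lit 78) (nat_lit 76) (nat_lit 0) (XT.lf (nat_lit 0) (nat_lit 120818928750) (nat_lit 152) (nat_lit 23575953049) (nat_lit 0) (nat_lit 25386185097) (nat_lit 10) (nat_lit 5) (nat_lit 12) (nat_lit 4) (nat_lit 10) (nat_lit 4) (nat_lit 358) (nat_lit 286) (nat_lit 136)) (XT.nd (nat_lit 78) (nat_lit 0) (nat_lit 0) (XT.lf (nat_lit 0) (nat_lit 11239866769) (nat_lit 76) (nat_lit 130728054372) (nat_lit 76) (nat_lit 35292295135) (nat_lit 9) (nat_lit 4) (nat_lit 10) (nat_lit 5) (nat_lit 10) (nat_lit 4) (nat_lit 359) (nat_lit 286) (nat_lit 135)) (XT.lf (nat_lit 0) (nat_lit 48612714749) (nat_lit 76) (nat_lit 115959669750) (nat_lit 76) (nat_lit 20521038529) (nat_lit 9) (nat_lit 4) (nat_lit 10) (nat_lit 5) (nat_lit 10) (nat_lit 4) (nat_lit 360) (nat_lit 286) (nat_lit 134))))))))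
noncomputable def xc182 : XT := (XT.nd (nat_lit 1482) (nat_lit 76) (nat_lit 0) (XT.nd (nat_lit 702) (nat_lit 152) (nat_lit 0) (XT.nd (nat_lit 312) (nat_lit 76) (nat_lit 0) (XT.nd (nat_lit 156) (nat_lit 0) (nat_lit 0) (XT.nd (nat_lit 78) (nat_lit 76) (nat_lit 0) (XT.lf (nat_lit 0) (nat_lit 87852046380) (nat_lit 76) (nat_lit 100453835287) (nat_lit 76) (nat_lit 5012468843) (nat_lit 9) (nat_lit 4) (nat_lit 10) (nat_lit 5) (nat_lit 10) (nat_lit 4) (nat_lit 361) (nat_lit 286) (nat_lit 133)) (XT.lf (nat_lit 0) (nat_lit 10909617854) (nat_lit 152) (nat_lit 73079254817) (nat_lit 76) (nat_lit 117956911131) (nat_lit 8) (nat_lit 5) (nat_lit 10) (nat_lit 5) (nat_lit 9) (nat_lit 4) (nat_lit 362) (nat_lit 286) (nat_lit 132))) (XT.nd (nat_lit 78) (nat_lit 0) (nat_lit 0) (XT.lf (nat_lit 0) (nat_lit 27458259785) (nat_lit 152) (nat_lit 39157019786) (nat_lit 76) (nat_lit 144385256270) (nat_lit 8) (nat_lit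 5) (nat_lit 10) (nat_lit 5) (nat_lit 9) (nat_lit 4) (nat_lit 363) (nat_lit 286) (nat_lit 131)) (XT.lf (nat_lit 0) (nat_lit 44833288785) (nat_lit 152) (nat_lit 3540573124) (nat_lit 76) (nat_lit 172134216584) (nat_lit 8) (nat_lit 5) (nat_lit 10) (nat_lit 5) (nat_lit 9) (nat_lit 4) (nat_lit 364) (nat_lit 286) (nat_lit 130)))) (XT.nd (nat_lit 156) (nat_lit 0) (nat_lit 0) (XT.nd (nat_lit 78) (nat_lit 0) (nat_lit 0) (XT.lf (nat_lit 0) (nat_lit 34974281663) (nat_lit 76) (nat_lit 28647838860) (nat_lit 152) (nat_lit 166841625915) (nat_lit 7) (nat_lit 5) (nat_lit 8) (nat_lit 5) (nat_lit 9) (nat_lit 4) (nat_lit 365) (nat_lit 286) (nat_lit 129)) (XT.lf (nat_lit 0) (nat_lit 75536019443) (nat_lit 76) (nat_lit 7873360055) (nat_lit 152) (nat_lit 157504869689) (nat_lit 7) (nat_lit 5) (nat_lit 8) (nat_lit 5) (nat_lit 9) (nat_lit 4) (nat_lit 366) (nat_lit 286) (nat_lit 128))) (XT.nd (nat_lit 78) (nat_lit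 0) (nat_lit 0) (XT.lf (nat_lit 0) (nat_lit 104402700257) (nat_lit 152) (nat_lit 133980803792) (nat_lit 0) (nat_lit 13492938739) (nat_lit 7) (nat_lit 5) (nat_lit 9) (nat_lit 4) (nat_lit 7) (nat_lit 4) (nat_lit 367) (nat_lit 286) (nat_lit 127)) (XT.nd (nat_lit 78) (nat_lit 0) (nat_lit 0) (XT.lf (nat_lit 0) (nat_lit 126573862174) (nat_lit 152) (nat_lit 101144226416) (nat_lit 0) (nat_lit 35662249350) (nat_lit 7) (nat_lit 5) (nat_lit 9) (nat_lit 4) (nat_lit 7) (nat_lit 4) (nat_lit 368) (nat_lit 286) (nat_lit 126)) (XT.lf (nat_lit 0) (nat_lit 149852728514) (nat_lit 152) (nat_lit 66667390075) (nat_lit 0) (nat_lit 58939352540) (nat_lit 7) (nat_lit 5) (nat_lit 9) (nat_lit 4) (nat_lit 7) (nat_lit 4) (nat_lit 369) (nat_lit 286) (nat_lit 125)))))) (XT.nd (nat_lit 390) (nat_lit 76) (nat_lit 0) (XT.nd (nat_lit 156) (nat_lit 0) (nat_lit 0) (XT.nd (nat_lit 78) (nat_lit 76) (nat_lit 0) (XT.lf (nat_lit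 0) (nat_lit 174294725148) (nat_lit 152) (nat_lit 30468207063) (nat_lit 0) (nat_lit 83379669984) (nat_lit 7) (nat_lit 5) (nat_lit 9) (nat_lit 4) (nat_lit 7) (nat_lit 4) (nat_lit 370) (nat_lit 286) (nat_lit 124)) (XT.lf (nat_lit 0) (nat_lit 7788801438) (nat_lit 76) (nat_lit 192290850887) (nat_lit 76) (nat_lit 101374196495) (nat_lit 6) (nat_lit 4) (nat_lit 7) (nat_lit 5) (nat_lit 7) (nat_lit 4) (nat_lit 371) (nat_lit 286) (nat_lit 123))) (XT.nd (nat_lit 78) (nat_lit 0) (nat_lit 0) (XT.lf (nat_lit 0) (nat_lit 49015046733) (nat_lit 76) (nat_lit 178654013649) (nat_lit 76) (nat_lit 87735836182) (nat_lit 6) (nat_lit 4) (nat_lit 7) (nat_lit 5) (nat_lit 7) (nat_lit 4) (nat_lit 372) (nat_lit 286) (nat_lit 122)) (XT.nd (nat_lit 78) (nat_lit 0) (nat_lit 0) (XT.lf (nat_lit 0) (nat_lit 92301270025) (nat_lit 76) (nat_lit 164335945666) (nat_lit 76) (nat_lit 73416317652) (nat_lit 6) (nat_lit 4) (nat_lit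 7) (nat_lit 5) (nat_lit 7) (nat_lit 4) (nat_lit 373) (nat_lit 286) (nat_lit 121)) (XT.lf (nat_lit 0) (nat_lit 137750533749) (nat_lit 76) (nat_lit 149302556301) (nat_lit 76) (nat_lit 58381546814) (nat_lit 6) (nat_lit 4) (nat_lit 7) (nat_lit 5) (nat_lit 7) (nat_lit 4) (nat_lit 374) (nat_lit 286) (nat_lit 120))))) (XT.nd (nat_lit 156) (nat_lit 76) (nat_lit 0) (XT.nd (nat_lit 78) (nat_lit 0) (nat_lit 0) (XT.lf (nat_lit 0) (nat_lit 185471050439) (nat_lit 76) (nat_lit 133518051769) (nat_lit 76) (nat_lit 42595726593) (nat_lit 6) (nat_lit 4) (nat_lit 7) (nat_lit 5) (nat_lit 7) (nat_lit 4) (nat_lit 375) (nat_lit 286) (nat_lit 119)) (XT.lf (nat_lit 0) (nat_lit 235576440372) (nat_lit 76) (nat_lit 116944849917) (nat_lit 76) (nat_lit 26021271704) (nat_lit 6) (nat_lit 4) (nat_lit 7) (nat_lit 5) (nat_lit 7) (nat_lit 4) (nat_lit 376) (nat_lit 286) (nat_lit 118))) (XT.nd (nat_lit 78) (nat_lit 76) (nat_lit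 0) (XT.lf (nat_lit 0) (nat_lit 288186002096) (nat_lit 76) (nat_lit 99543490740) (nat_lit 76) (nat_lit 8618719158) (nat_lit 6) (nat_lit 4) (nat_lit 7) (nat_lit 5) (nat_lit 7) (nat_lit 4) (nat_lit 377) (nat_lit 286) (nat_lit 117)) (XT.nd (nat_lit 78) (nat_lit 0) (nat_lit 0) (XT.lf (nat_lit 0) (nat_lit 9344397703) (nat_lit 152) (nat_lit 71769892831) (nat_lit 76) (nat_lit 333922346873) (nat_lit 5) (nat_lit 5) (nat_lit 7) (nat_lit 5) (nat_lit 6) (nat_lit 4) (nat_lit 378) (nat_lit 286) (nat_lit 116)) (XT.lf (nat_lit 0) (nat_lit 27915476101) (nat_lit 152) (nat_lit 33700264535) (nat_lit 76) (nat_lit 373036706719) (nat_lit 5) (nat_lit 5) (nat_lit 7) (nat_lit 5) (nat_lit 6) (nat_lit 4) (nat_lit 379) (nat_lit 286) (nat_lit 115))))))) (XT.nd (nat_lit 34008) (nat_lit 0) (nat_lit 4332) (XT.nd (nat_lit 33618) (nat_lit 0) (nat_lit 5928) (XT.nd (nat_lit 33384) (nat_lit 0) (nat_lit 5852) (XT.nd (nat_lit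 78) (nat_lit 0) (nat_lit 0) (XT.lf (nat_lit 0) (nat_lit 6479255976) (nat_lit 76) (nat_lit 41036489095) (nat_lit 152) (nat_lit 407728271228) (nat_lit 4) (nat_lit 5) (nat_lit 5) (nat_lit 5) (nat_lit 6) (nat_lit 4) (nat_lit 380) (nat_lit 286) (nat_lit 114)) (XT.lf (nat_lit 0) (nat_lit 49836799326) (nat_lit 76) (nat_lit 18829445812) (nat_lit 152) (nat_lit 408170407987) (nat_lit 4) (nat_lit 5) (nat_lit 5) (nat_lit 5) (nat_lit 6) (nat_lit 4) (nat_lit 381) (nat_lit 286) (nat_lit 113))) (XT.nd (nat_lit 78) (nat_lit 0) (nat_lit 0) (XT.lf (nat_lit 0) (nat_lit 1597624050) (nat_lit 0) (nat_lit 1597624050) (nat_lit 684) (nat_lit 4545362057) (nat_lit 81) (nat_lit 5) (nat_lit 81) (nat_lit 3) (nat_lit 90) (nat_lit 3) (nat_lit 287) (nat_lit 287) (nat_lit 206)) (XT.nd (nat_lit 78) (nat_lit 0) (nat_lit 0) (XT.lf (nat_lit 0) (nat_lit 6864987603) (nat_lit 684) (nat_lit 5522182967) (nat_lit 760) (nat_lit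 3464662269) (nat_lit 81) (nat_lit 5) (nat_lit 90) (nat_lit 3) (nat_lit 91) (nat_lit 5) (nat_lit 288) (nat_lit 287) (nat_lit 205)) (XT.lf (nat_lit 76) (nat_lit 1568324628) (nat_lit 0) (nat_lit 5855305891) (nat_lit 760) (nat_lit 8814367753) (nat_lit 82) (nat_lit 5) (nat_lit 81) (nat_lit 5) (nat_lit 91) (nat_lit 5) (nat_lit 289) (nat_lit 287) (nat_lit 204))))) (XT.nd (nat_lit 156) (nat_lit 0) (nat_lit 0) (XT.nd (nat_lit 78) (nat_lit 0) (nat_lit 0) (XT.lf (nat_lit 0) (nat_lit 8105225702) (nat_lit 684) (nat_lit 7460987731) (nat_lit 760) (nat_lit 1072549084) (nat_lit 82) (nat_lit 5) (nat_lit 91) (nat_lit 5) (nat_lit 92) (nat_lit 5) (nat_lit 290) (nat_lit 287) (nat_lit 203)) (XT.lf (nat_lit 76) (nat_lit 2635856) (nat_lit 0) (nat_lit 8899346123) (nat_lit 760) (nat_lit 8153568500) (nat_lit 83) (nat_lit 5) (nat_lit 82) (nat_lit 5) (nat_lit 92) (nat_lit 5) (nat_lit 291) (nat_lit 287) (nat_lit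 202))) (XT.nd (nat_lit 78) (nat_lit 0) (nat_lit 76) (XT.lf (nat_lit 76) (nat_lit 8089031621) (nat_lit 0) (nat_lit 1761515929) (nat_lit 760) (nat_lit 7637069402) (nat_lit 83) (nat_lit 5) (nat_lit 82) (nat_lit 5) (nat_lit 92) (nat_lit 5) (nat_lit 292) (nat_lit 287) (nat_lit 201)) (XT.nd (nat_lit 78) (nat_lit 0) (nat_lit 0) (XT.lf (nat_lit 0) (nat_lit 10922427351) (nat_lit 684) (nat_lit 1460833611) (nat_lit 760) (nat_lit 5554267381) (nat_lit 83) (nat_lit 5) (nat_lit 92) (nat_lit 5) (nat_lit 93) (nat_lit 5) (nat_lit 293) (nat_lit 287) (nat_lit 200)) (XT.lf (nat_lit 76) (nat_lit 7061627787) (nat_lit 0) (nat_lit 5112425836) (nat_lit 760) (nat_lit 6229608237) (nat_lit 84) (nat_lit 5) (nat_lit 83) (nat_lit 5) (nat_lit 93) (nat_lit 5) (nat_lit 294) (nat_lit 287) (nat_lit 199)))))) (XT.nd (nat_lit 390) (nat_lit 1140) (nat_lit 0) (XT.nd (nat_lit 156) (nat_lit 608) (nat_lit 0) (XT.nd (nat_lit 78)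 (nat_lit 0) (nat_lit 0) (XT.lf (nat_lit 0) (nat_lit 13540331696) (nat_lit 684) (nat_lit 2880592490) (nat_lit 760) (nat_lit 2469606900) (nat_lit 84) (nat_lit 5) (nat_lit 93) (nat_lit 5) (nat_lit 94) (nat_lit 5) (nat_lit 295) (nat_lit 287) (nat_lit 198)) (XT.lf (nat_lit 76) (nat_lit 6106139574) (nat_lit 0) (nat_lit 9036071418) (nat_lit 760) (nat_lit 4251199418) (nat_lit 85) (nat_lit 5) (nat_lit 84) (nat_lit 5) (nat_lit 94) (nat_lit 5) (nat_lit 296) (nat_lit 287) (nat_lit 197))) (XT.nd (nat_lit 78) (nat_lit 608) (nat_lit 0) (XT.lf (nat_lit 76) (nat_lit 15632961680) (nat_lit 0) (nat_lit 1228570041) (nat_lit 760) (nat_lit 3058064135) (nat_lit 85) (nat_lit 5) (nat_lit 84) (nat_lit 5) (nat_lit 94) (nat_lit 5) (nat_lit 297) (nat_lit 287) (nat_lit 196)) (XT.nd (nat_lit 78) (nat_lit 0) (nat_lit 0) (XT.lf (nat_lit 0) (nat_lit 5212642283) (nat_lit 684) (nat_lit 13633510861) (nat_lit 760) (nat_lit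 1616998819) (nat_lit 76) (nat_lit 5) (nat_lit 85) (nat_lit 5) (nat_lit 86) (nat_lit 5) (nat_lit 298) (nat_lit 287) (nat_lit 195)) (XT.lf (nat_lit 0) (nat_lit 15305631578) (nat_lit 684) (nat_lit 5706298678) (nat_lit 760) (nat_lit 17886172) (nat_lit 76) (nat_lit 5) (nat_lit 85) (nat_lit 5) (nat_lit 86) (nat_lit 5) (nat_lit 299) (nat_lit 287) (nat_lit 194))))) (XT.nd (nat_lit 156) (nat_lit 684) (nat_lit 0) (XT.nd (nat_lit 78) (nat_lit 0) (nat_lit 0) (XT.lf (nat_lit 0) (nat_lit 1708704090) (nat_lit 456) (nat_lit 17279415995) (nat_lit 76) (nat_lit 2630387028) (nat_lit 70) (nat_lit 5) (nat_lit 76) (nat_lit 5) (nat_lit 71) (nat_lit 5) (nat_lit 300) (nat_lit 287) (nat_lit 193)) (XT.lf (nat_lit 0) (nat_lit 3703279300) (nat_lit 456) (nat_lit 7232517215) (nat_lit 76) (nat_lit 11291731468) (nat_lit 70) (nat_lit 5) (nat_lit 76) (nat_lit 5) (nat_lit 71) (nat_lit 5) (nat_lit 301) (nat_lit 287) (nat_lit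 192))) (XT.nd (nat_lit 78) (nat_lit 304) (nat_lit 0) (XT.lf (nat_lit 0) (nat_lit 3416981412) (nat_lit 380) (nat_lit 2424597747) (nat_lit 456) (nat_lit 17023242977) (nat_lit 65) (nat_lit 5) (nat_lit 70) (nat_lit 5) (nat_lit 71) (nat_lit 5) (nat_lit 302) (nat_lit 287) (nat_lit 191)) (XT.nd (nat_lit 78) (nat_lit 304) (nat_lit 0) (XT.lf (nat_lit 0) (nat_lit 8303915228) (nat_lit 456) (nat_lit 8790923675) (nat_lit 76) (nat_lit 6428307017) (nat_lit 65) (nat_lit 5) (nat_lit 71) (nat_lit 5) (nat_lit 66) (nat_lit 5) (nat_lit 303) (nat_lit 287) (nat_lit 190)) (XT.lf (nat_lit 0) (nat_lit 2427808595) (nat_lit 304) (nat_lit 8530596653) (nat_lit 380) (nat_lit 13252548775) (nat_lit 61) (nat_lit 5) (nat_lit 65) (nat_lit 5) (nat_lit 66) (nat_lit 5) (nat_lit 304) (nat_lit 287) (nat_lit 189))))))))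
noncomputable def xc183 : XT := (XT.nd (nat_lit 1560) (nat_lit 1140) (nat_lit 0) (XT.nd (nat_lit 780) (nat_lit 1140) (nat_lit 0) (XT.nd (nat_lit 390) (nat_lit 532) (nat_lit 0) (XT.nd (nat_lit 156) (nat_lit 304) (nat_lit 0) (XT.nd (nat_lit 78) (nat_lit 304) (nat_lit 0) (XT.lf (nat_lit 0) (nat_lit 13895798964) (nat_lit 380) (nat_lit 10431953202) (nat_lit 76) (nat_lit 597910438) (nat_lit 61) (nat_lit 5) (nat_lit 66) (nat_lit 5) (nat_lit 62) (nat_lit 5) (nat_lit 305) (nat_lit 287) (nat_lit 188)) (XT.lf (nat_lit 0) (nat_lit 1382367098) (nat_lit 304) (nat_lit 15751170522) (nat_lit 380) (nat_lit 8534913360) (nat_lit 57) (nat_lit 5) (nat_lit 61) (nat_lit 5) (nat_lit 62) (nat_lit 5) (nat_lit 306) (nat_lit 287) (nat_lit 187))) (XT.nd (nat_lit 78) (nat_lit 304) (nat_lit 0) (XT.lf (nat_lit 0) (nat_lit 14140889625) (nat_lit 304) (nat_lit 6561233629) (nat_lit 380) (nat_lit 5737824783) (nat_lit 57)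 (nat_lit 5) (nat_lit 61) (nat_lit 5) (nat_lit 62) (nat_lit 5) (nat_lit 307) (nat_lit 287) (nat_lit 186)) (XT.nd (nat_lit 78) (nat_lit 76) (nat_lit 0) (XT.lf (nat_lit 0) (nat_lit 238079908) (nat_lit 228) (nat_lit 24255633299) (nat_lit 304) (nat_lit 2754094432) (nat_lit 54) (nat_lit 5) (nat_lit 57) (nat_lit 5) (nat_lit 58) (nat_lit 5) (nat_lit 308) (nat_lit 287) (nat_lit 185)) (XT.lf (nat_lit 0) (nat_lit 678691934) (nat_lit 304) (nat_lit 14382224265) (nat_lit 76) (nat_lit 13019263500) (nat_lit 53) (nat_lit 5) (nat_lit 57) (nat_lit 5) (nat_lit 54) (nat_lit 5) (nat_lit 309) (nat_lit 287) (nat_lit 184))))) (XT.nd (nat_lit 156) (nat_lit 228) (nat_lit 0) (XT.nd (nat_lit 78) (nat_lit 304) (nat_lit 0) (XT.lf (nat_lit 0) (nat_lit 4183636149) (nat_lit 304) (nat_lit 1176836589) (nat_lit 76) (nat_lit 23591800666) (nat_lit 53) (nat_lit 5) (nat_lit 57) (nat_lit 5) (nat_lit 54) (nat_lit 5) (nat_lit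 310) (nat_lit 287) (nat_lit 183)) (XT.lf (nat_lit 0) (nat_lit 8140425354) (nat_lit 380) (nat_lit 16836589321) (nat_lit 76) (nat_lit 4877140758) (nat_lit 49) (nat_lit 5) (nat_lit 54) (nat_lit 5) (nat_lit 50) (nat_lit 5) (nat_lit 311) (nat_lit 287) (nat_lit 182))) (XT.nd (nat_lit 78) (nat_lit 228) (nat_lit 0) (XT.lf (nat_lit 0) (nat_lit 12396761615) (nat_lit 380) (nat_lit 2933919849) (nat_lit 76) (nat_lit 15465377603) (nat_lit 49) (nat_lit 5) (nat_lit 54) (nat_lit 5) (nat_lit 50) (nat_lit 5) (nat_lit 312) (nat_lit 287) (nat_lit 181)) (XT.nd (nat_lit 78) (nat_lit 0) (nat_lit 0) (XT.lf (nat_lit 0) (nat_lit 12041547306) (nat_lit 228) (nat_lit 5006249654) (nat_lit 304) (nat_lit 14728179078) (nat_lit 46) (nat_lit 5) (nat_lit 49) (nat_lit 5) (nat_lit 50) (nat_lit 5) (nat_lit 313) (nat_lit 287) (nat_lit 180)) (XT.lf (nat_lit 0) (nat_lit 22067003820) (nat_lit 304) (nat_lit 5034562214) (nat_lit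 76) (nat_lit 5696553522) (nat_lit 46) (nat_lit 5) (nat_lit 50) (nat_lit 5) (nat_lit 47) (nat_lit 5) (nat_lit 314) (nat_lit 287) (nat_lit 179)))))) (XT.nd (nat_lit 390) (nat_lit 456) (nat_lit 0) (XT.nd (nat_lit 156) (nat_lit 456) (nat_lit 0) (XT.nd (nat_lit 78) (nat_lit 0) (nat_lit 0) (XT.lf (nat_lit 0) (nat_lit 10651623903) (nat_lit 228) (nat_lit 16928229396) (nat_lit 304) (nat_lit 6279393965) (nat_lit 43) (nat_lit 5) (nat_lit 46) (nat_lit 5) (nat_lit 47) (nat_lit 5) (nat_lit 315) (nat_lit 287) (nat_lit 178)) (XT.lf (nat_lit 0) (nat_lit 27289506742) (nat_lit 228) (nat_lit 6158567522) (nat_lit 304) (nat_lit 1521381242) (nat_lit 43) (nat_lit 5) (nat_lit 46) (nat_lit 5) (nat_lit 47) (nat_lit 5) (nat_lit 316) (nat_lit 287) (nat_lit 177))) (XT.nd (nat_lit 78) (nat_lit 228) (nat_lit 0) (XT.lf (nat_lit 0) (nat_lit 3579589370) (nat_lit 228) (nat_lit 27363612231) (nat_lit 76) (nat_lit 5178456614)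 (nat_lit 40) (nat_lit 5) (nat_lit 43) (nat_lit 5) (nat_lit 41) (nat_lit 5) (nat_lit 317) (nat_lit 287) (nat_lit 176)) (XT.nd (nat_lit 78) (nat_lit 228) (nat_lit 0) (XT.lf (nat_lit 0) (nat_lit 9112384473) (nat_lit 228) (nat_lit 11175789673) (nat_lit 76) (nat_lit 17030663819) (nat_lit 40) (nat_lit 5) (nat_lit 43) (nat_lit 5) (nat_lit 41) (nat_lit 5) (nat_lit 318) (nat_lit 287) (nat_lit 175)) (XT.lf (nat_lit 0) (nat_lit 6006665529) (nat_lit 228) (nat_lit 9003933142) (nat_lit 304) (nat_lit 23560847784) (nat_lit 37) (nat_lit 5) (nat_lit 40) (nat_lit 5) (nat_lit 41) (nat_lit 5) (nat_lit 319) (nat_lit 287) (nat_lit 174))))) (XT.nd (nat_lit 156) (nat_lit 304) (nat_lit 0) (XT.nd (nat_lit 78) (nat_lit 152) (nat_lit 0) (XT.lf (nat_lit 0) (nat_lit 21435601996) (nat_lit 304) (nat_lit 15495610475) (nat_lit 76) (nat_lit 2943887282) (nat_lit 37) (nat_lit 5) (nat_lit 41) (nat_lit 5) (nat_lit 38) (nat_lit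 5) (nat_lit 320) (nat_lit 287) (nat_lit 173)) (XT.lf (nat_lit 0) (nat_lit 2347779031) (nat_lit 152) (nat_lit 26013668126) (nat_lit 228) (nat_lit 12873516885) (nat_lit 35) (nat_lit 5) (nat_lit 37) (nat_lit 5) (nat_lit 38) (nat_lit 5) (nat_lit 321) (nat_lit 287) (nat_lit 172))) (XT.nd (nat_lit 78) (nat_lit 304) (nat_lit 0) (XT.lf (nat_lit 0) (nat_lit 21614642339) (nat_lit 152) (nat_lit 14276816931) (nat_lit 228) (nat_lit 6758476074) (nat_lit 35) (nat_lit 5) (nat_lit 37) (nat_lit 5) (nat_lit 38) (nat_lit 5) (nat_lit 322) (nat_lit 287) (nat_lit 171)) (XT.nd (nat_lit 78) (nat_lit 304) (nat_lit 0) (XT.lf (nat_lit 0) (nat_lit 41838498068) (nat_lit 152) (nat_lit 1955139663) (nat_lit 228) (nat_lit 342241366) (nat_lit 35) (nat_lit 5) (nat_lit 37) (nat_lit 5) (nat_lit 38) (nat_lit 5) (nat_lit 323) (nat_lit 287) (nat_lit 170)) (XT.lf (nat_lit 0) (nat_lit 6642141945) (nat_lit 304) (nat_lit 28012595784)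 (nat_lit 76) (nat_lit 11013796245) (nat_lit 31) (nat_lit 5) (nat_lit 35) (nat_lit 5) (nat_lit 32) (nat_lit 5) (nat_lit 324) (nat_lit 287) (nat_lit 169))))))) (XT.nd (nat_lit 780) (nat_lit 456) (nat_lit 0) (XT.nd (nat_lit 390) (nat_lit 380) (nat_lit 0) (XT.nd (nat_lit 156) (nat_lit 152) (nat_lit 0) (XT.nd (nat_lit 78) (nat_lit 152) (nat_lit 0) (XT.lf (nat_lit 0) (nat_lit 14031711060) (nat_lit 304) (nat_lit 8633766547) (nat_lit 76) (nat_lit 24608696249) (nat_lit 31) (nat_lit 5) (nat_lit 35) (nat_lit 5) (nat_lit 32) (nat_lit 5) (nat_lit 325) (nat_lit 287) (nat_lit 168)) (XT.lf (nat_lit 0) (nat_lit 12095149461) (nat_lit 152) (nat_lit 9880516577) (nat_lit 228) (nat_lit 26975190226) (nat_lit 29) (nat_lit 5) (nat_lit 31) (nat_lit 5) (nat_lit 32) (nat_lit 5) (nat_lit 326) (nat_lit 287) (nat_lit 167))) (XT.nd (nat_lit 78) (nat_lit 152) (nat_lit 0) (XT.lf (nat_lit 0) (nat_lit 30516891540) (nat_lit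 228) (nat_lit 16607573953) (nat_lit 76) (nat_lit 3576909283) (nat_lit 29) (nat_lit 5) (nat_lit 32) (nat_lit 5) (nat_lit 30) (nat_lit 5) (nat_lit 327) (nat_lit 287) (nat_lit 166)) (XT.nd (nat_lit 78) (nat_lit 0) (nat_lit 0) (XT.lf (nat_lit 0) (nat_lit 4633535563) (nat_lit 152) (nat_lit 35082276897) (nat_lit 228) (nat_lit 12812080399) (nat_lit 27) (nat_lit 5) (nat_lit 29) (nat_lit 5) (nat_lit 30) (nat_lit 5) (nat_lit 328) (nat_lit 287) (nat_lit 165)) (XT.lf (nat_lit 0) (nat_lit 27507614497) (nat_lit 152) (nat_lit 22144725223) (nat_lit 228) (nat_lit 4779519209) (nat_lit 27) (nat_lit 5) (nat_lit 29) (nat_lit 5) (nat_lit 30) (nat_lit 5) (nat_lit 329) (nat_lit 287) (nat_lit 164))))) (XT.nd (nat_lit 156) (nat_lit 152) (nat_lit 0) (XT.nd (nat_lit 78) (nat_lit 152) (nat_lit 0) (XT.lf (nat_lit 0) (nat_lit 3534211195) (nat_lit 228) (nat_lit 4968199306) (nat_lit 76) (nat_lit 47925938773) (nat_lit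 26) (nat_lit 5) (nat_lit 29) (nat_lit 5) (nat_lit 27) (nat_lit 5) (nat_lit 330) (nat_lit 287) (nat_lit 163)) (XT.lf (nat_lit 0) (nat_lit 12486952235) (nat_lit 228) (nat_lit 40006038457) (nat_lit 76) (nat_lit 6008562844) (nat_lit 24) (nat_lit 5) (nat_lit 27) (nat_lit 5) (nat_lit 25) (nat_lit 5) (nat_lit 331) (nat_lit 287) (nat_lit 162))) (XT.nd (nat_lit 78) (nat_lit 152) (nat_lit 0) (XT.lf (nat_lit 0) (nat_lit 22108959166) (nat_lit 228) (nat_lit 17515377131) (nat_lit 76) (nat_lit 21043004467) (nat_lit 24) (nat_lit 5) (nat_lit 27) (nat_lit 5) (nat_lit 25) (nat_lit 5) (nat_lit 332) (nat_lit 287) (nat_lit 161)) (XT.nd (nat_lit 78) (nat_lit 0) (nat_lit 0) (XT.lf (nat_lit 0) (nat_lit 6296287493) (nat_lit 152) (nat_lit 26010964384) (nat_lit 228) (nat_lit 30629410200) (nat_lit 22) (nat_lit 5) (nat_lit 24) (nat_lit 5) (nat_lit 25) (nat_lit 5) (nat_lit 333) (nat_lit 287) (nat_lit 160)) (XT.lf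 (nat_lit 0) (nat_lit 31901660859) (nat_lit 152) (nat_lit 11407383354) (nat_lit 228) (nat_lit 21995729797) (nat_lit 22) (nat_lit 5) (nat_lit 24) (nat_lit 5) (nat_lit 25) (nat_lit 5) (nat_lit 334) (nat_lit 287) (nat_lit 159)))))) (XT.nd (nat_lit 390) (nat_lit 152) (nat_lit 0) (XT.nd (nat_lit 156) (nat_lit 228) (nat_lit 0) (XT.nd (nat_lit 78) (nat_lit 76) (nat_lit 0) (XT.lf (nat_lit 0) (nat_lit 54919297994) (nat_lit 228) (nat_lit 9070142717) (nat_lit 76) (nat_lit 3798935859) (nat_lit 22) (nat_lit 5) (nat_lit 25) (nat_lit 5) (nat_lit 23) (nat_lit 4) (nat_lit 335) (nat_lit 287) (nat_lit 158)) (XT.lf (nat_lit 0) (nat_lit 16826398525) (nat_lit 76) (nat_lit 50730589064) (nat_lit 152) (nat_lit 2816828965) (nat_lit 21) (nat_lit 5) (nat_lit 22) (nat_lit 5) (nat_lit 23) (nat_lit 4) (nat_lit 336) (nat_lit 287) (nat_lit 157))) (XT.nd (nat_lit 78) (nat_lit 152) (nat_lit 0) (XT.lf (nat_lit 0) (nat_lit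 7643716731) (nat_lit 152) (nat_lit 28876158663) (nat_lit 76) (nat_lit 36554948205) (nat_lit 20) (nat_lit 5) (nat_lit 22) (nat_lit 5) (nat_lit 21) (nat_lit 5) (nat_lit 337) (nat_lit 287) (nat_lit 156)) (XT.nd (nat_lit 78) (nat_lit 152) (nat_lit 0) (XT.lf (nat_lit 0) (nat_lit 18529981580) (nat_lit 152) (nat_lit 3021934477) (nat_lit 76) (nat_lit 54356791253) (nat_lit 20) (nat_lit 5) (nat_lit 22) (nat_lit 5) (nat_lit 21) (nat_lit 5) (nat_lit 338) (nat_lit 287) (nat_lit 155)) (XT.lf (nat_lit 0) (nat_lit 24918333072) (nat_lit 152) (nat_lit 5428753319) (nat_lit 228) (nat_lit 48517875319) (nat_lit 18) (nat_lit 5) (nat_lit 20) (nat_lit 5) (nat_lit 21) (nat_lit 5) (nat_lit 339) (nat_lit 287) (nat_lit 154))))) (XT.nd (nat_lit 156) (nat_lit 152) (nat_lit 0) (XT.nd (nat_lit 78) (nat_lit 0) (nat_lit 0) (XT.lf (nat_lit 0) (nat_lit 42984130177) (nat_lit 228) (nat_lit 27790578120) (nat_lit 76) (nat_lit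 11182869051) (nat_lit 18) (nat_lit 5) (nat_lit 21) (nat_lit 5) (nat_lit 19) (nat_lit 4) (nat_lit 340) (nat_lit 287) (nat_lit 153)) (XT.lf (nat_lit 0) (nat_lit 56339651381) (nat_lit 228) (nat_lit 419760892) (nat_lit 76) (nat_lit 28441082807) (nat_lit 18) (nat_lit 5) (nat_lit 21) (nat_lit 5) (nat_lit 19) (nat_lit 4) (nat_lit 341) (nat_lit 287) (nat_lit 152))) (XT.nd (nat_lit 78) (nat_lit 76) (nat_lit 0) (XT.lf (nat_lit 0) (nat_lit 29251996271) (nat_lit 76) (nat_lit 41565400179) (nat_lit 152) (nat_lit 17765442311) (nat_lit 17) (nat_lit 5) (nat_lit 18) (nat_lit 5) (nat_lit 19) (nat_lit 4) (nat_lit 342) (nat_lit 287) (nat_lit 151)) (XT.nd (nat_lit 78) (nat_lit 76) (nat_lit 0) (XT.lf (nat_lit 0) (nat_lit 60418129014) (nat_lit 76) (nat_lit 25605799194) (nat_lit 152) (nat_lit 6110128782) (nat_lit 17) (nat_lit 5) (nat_lit 18) (nat_lit 5) (nat_lit 19) (nat_lit 4) (nat_lit 343) (nat_lit 287) (nat_lit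 150)) (XT.lf (nat_lit 0) (nat_lit 5929676881) (nat_lit 152) (nat_lit 2819620295) (nat_lit 76) (nat_lit 87108864392) (nat_lit 16) (nat_lit 5) (nat_lit 18) (nat_lit 5) (nat_lit 17) (nat_lit 5) (nat_lit 344) (nat_lit 287) (nat_lit 149))))))))
noncomputable def xc184 : XT := (XT.nd (nat_lit 1482) (nat_lit 228) (nat_lit 0) (XT.nd (nat_lit 702) (nat_lit 228) (nat_lit 0) (XT.nd (nat_lit 312) (nat_lit 152) (nat_lit 0) (XT.nd (nat_lit 156) (nat_lit 76) (nat_lit 0) (XT.nd (nat_lit 78) (nat_lit 0) (nat_lit 0) (XT.lf (nat_lit 0) (nat_lit 18954920466) (nat_lit 228) (nat_lit 71565668497) (nat_lit 76) (nat_lit 9213436725) (nat_lit 14) (nat_lit 5) (nat_lit 17) (nat_lit 5) (nat_lit 15) (nat_lit 4) (nat_lit 345) (nat_lit 287) (nat_lit 148)) (XT.lf (nat_lit 0) (nat_lit 32821373500) (nat_lit 228) (nat_lit 43145410427) (nat_lit 76) (nat_lit 27827403646) (nat_lit 14) (nat_lit 5) (nat_lit 17) (nat_lit 5)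 (nat_lit 15) (nat_lit 4) (nat_lit 346) (nat_lit 287) (nat_lit 147))) (XT.nd (nat_lit 78) (nat_lit 76) (nat_lit 0) (XT.lf (nat_lit 0) (nat_lit 47379227013) (nat_lit 228) (nat_lit 13307497058) (nat_lit 76) (nat_lit 47370731420) (nat_lit 14) (nat_lit 5) (nat_lit 17) (nat_lit 5) (nat_lit 15) (nat_lit 4) (nat_lit 347) (nat_lit 287) (nat_lit 146)) (XT.lf (nat_lit 0) (nat_lit 18614907556) (nat_lit 76) (nat_lit 44338865880) (nat_lit 152) (nat_lit 49565675098) (nat_lit 13) (nat_lit 5) (nat_lit 14) (nat_lit 5) (nat_lit 15) (nat_lit 4) (nat_lit 348) (nat_lit 287) (nat_lit 145)))) (XT.nd (nat_lit 156) (nat_lit 152) (nat_lit 0) (XT.nd (nat_lit 78) (nat_lit 0) (nat_lit 0) (XT.lf (nat_lit 0) (nat_lit 52592292509) (nat_lit 76) (nat_lit 26938330988) (nat_lit 152) (nat_lit 37662740579) (nat_lit 13) (nat_lit 5) (nat_lit 14) (nat_lit 5) (nat_lit 15) (nat_lit 4) (nat_lit 349) (nat_lit 287) (nat_lit 144))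 (XT.lf (nat_lit 0) (nat_lit 88265550384) (nat_lit 76) (nat_lit 8669058451) (nat_lit 152) (nat_lit 25166453500) (nat_lit 13) (nat_lit 5) (nat_lit 14) (nat_lit 5) (nat_lit 15) (nat_lit 4) (nat_lit 350) (nat_lit 287) (nat_lit 143))) (XT.nd (nat_lit 78) (nat_lit 152) (nat_lit 0) (XT.lf (nat_lit 0) (nat_lit 115371296317) (nat_lit 152) (nat_lit 1698739606) (nat_lit 0) (nat_lit 10175985947) (nat_lit 13) (nat_lit 5) (nat_lit 15) (nat_lit 4) (nat_lit 13) (nat_lit 4) (nat_lit 351) (nat_lit 287) (nat_lit 142)) (XT.nd (nat_lit 78) (nat_lit 0) (nat_lit 0) (XT.lf (nat_lit 0) (nat_lit 2680767043) (nat_lit 152) (nat_lit 99703981159) (nat_lit 76) (nat_lit 30228567468) (nat_lit 11) (nat_lit 5) (nat_lit 13) (nat_lit 5) (nat_lit 12) (nat_lit 4) (nat_lit 352) (nat_lit 287) (nat_lit 141)) (XT.lf (nat_lit 0) (nat_lit 17592644911) (nat_lit 152) (nat_lit 69138672699) (nat_lit 76) (nat_lit 51506540504) (nat_lit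 11) (nat_lit 5) (nat_lit 13) (nat_lit 5) (nat_lit 12) (nat_lit 4) (nat_lit 353) (nat_lit 287) (nat_lit 140)))))) (XT.nd (nat_lit 390) (nat_lit 152) (nat_lit 0) (XT.nd (nat_lit 156) (nat_lit 76) (nat_lit 0) (XT.nd (nat_lit 78) (nat_lit 0) (nat_lit 0) (XT.lf (nat_lit 0) (nat_lit 33248629709) (nat_lit 152) (nat_lit 37047752598) (nat_lit 76) (nat_lit 73847320962) (nat_lit 11) (nat_lit 5) (nat_lit 13) (nat_lit 5) (nat_lit 12) (nat_lit 4) (nat_lit 354) (nat_lit 287) (nat_lit 139)) (XT.lf (nat_lit 0) (nat_lit 49685997589) (nat_lit 152) (nat_lit 3354813904) (nat_lit 76) (nat_lit 97304101175) (nat_lit 11) (nat_lit 5) (nat_lit 13) (nat_lit 5) (nat_lit 12) (nat_lit 4) (nat_lit 355) (nat_lit 287) (nat_lit 138))) (XT.nd (nat_lit 78) (nat_lit 0) (nat_lit 0) (XT.lf (nat_lit 0) (nat_lit 33079102529) (nat_lit 76) (nat_lit 34381240108) (nat_lit 152) (nat_lit 89370085585) (nat_lit 10) (nat_lit 5) (nat_lit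 11) (nat_lit 5) (nat_lit 12) (nat_lit 4) (nat_lit 356) (nat_lit 287) (nat_lit 137)) (XT.nd (nat_lit 78) (nat_lit 0) (nat_lit 0) (XT.lf (nat_lit 0) (nat_lit 71448818113) (nat_lit 76) (nat_lit 14730080750) (nat_lit 152) (nat_lit 77458547063) (nat_lit 10) (nat_lit 5) (nat_lit 11) (nat_lit 5) (nat_lit 12) (nat_lit 4) (nat_lit 357) (nat_lit 287) (nat_lit 136)) (XT.lf (nat_lit 0) (nat_lit 105924281105) (nat_lit 152) (nat_lit 59142271197) (nat_lit 0) (nat_lit 5713718324) (nat_lit 10) (nat_lit 5) (nat_lit 12) (nat_lit 4) (nat_lit 10) (nat_lit 4) (nat_lit 358) (nat_lit 287) (nat_lit 135))))) (XT.nd (nat_lit 156) (nat_lit 76) (nat_lit 0) (XT.nd (nat_lit 78) (nat_lit 76) (nat_lit 0) (XT.lf (nat_lit 0) (nat_lit 126897195756) (nat_lit 152) (nat_lit 24687267619) (nat_lit 0) (nat_lit 26683760990) (nat_lit 10) (nat_lit 5) (nat_lit 12) (nat_lit 4) (nat_lit 10) (nat_lit 4) (nat_lit 359) (nat_lit 287)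 (nat_lit 134)) (XT.lf (nat_lit 0) (nat_lit 11868254754) (nat_lit 76) (nat_lit 137234642449) (nat_lit 76) (nat_lit 37018472460) (nat_lit 9) (nat_lit 4) (nat_lit 10) (nat_lit 5) (nat_lit 10) (nat_lit 4) (nat_lit 360) (nat_lit 287) (nat_lit 133))) (XT.nd (nat_lit 78) (nat_lit 76) (nat_lit 0) (XT.lf (nat_lit 0) (nat_lit 51106583483) (nat_lit 76) (nat_lit 121729258341) (nat_lit 76) (nat_lit 21510483378) (nat_lit 9) (nat_lit 4) (nat_lit 10) (nat_lit 5) (nat_lit 10) (nat_lit 4) (nat_lit 361) (nat_lit 287) (nat_lit 132)) (XT.nd (nat_lit 78) (nat_lit 76) (nat_lit 0) (XT.lf (nat_lit 0) (nat_lit 92304870600) (nat_lit 76) (nat_lit 105449484292) (nat_lit 76) (nat_lit 5228228401) (nat_lit 9) (nat_lit 4) (nat_lit 10) (nat_lit 5) (nat_lit 10) (nat_lit 4) (nat_lit 362) (nat_lit 287) (nat_lit 131)) (XT.lf (nat_lit 0) (nat_lit 11487239720) (nat_lit 152) (nat_lit 76674777254) (nat_lit 76) (nat_lit 123879425583)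 (nat_lit 8) (nat_lit 5) (nat_lit 10) (nat_lit 5) (nat_lit 9) (nat_lit 4) (nat_lit 363) (nat_lit 287) (nat_lit 130))))))) (XT.nd (nat_lit 780) (nat_lit 76) (nat_lit 0) (XT.nd (nat_lit 390) (nat_lit 76) (nat_lit 0) (XT.nd (nat_lit 156) (nat_lit 76) (nat_lit 0) (XT.nd (nat_lit 78) (nat_lit 0) (nat_lit 0) (XT.lf (nat_lit 0) (nat_lit 28861783225) (nat_lit 152) (nat_lit 41059213342) (nat_lit 76) (nat_lit 151628013270) (nat_lit 8) (nat_lit 5) (nat_lit 10) (nat_lit 5) (nat_lit 9) (nat_lit 4) (nat_lit 364) (nat_lit 287) (nat_lit 129)) (XT.lf (nat_lit 0) (nat_lit 47104106034) (nat_lit 152) (nat_lit 3664594702) (nat_lit 76) (nat_lit 180763302829) (nat_lit 8) (nat_lit 5) (nat_lit 10) (nat_lit 5) (nat_lit 9) (nat_lit 4) (nat_lit 365) (nat_lit 287) (nat_lit 128))) (XT.nd (nat_lit 78) (nat_lit 0) (nat_lit 0) (XT.lf (nat_lit 0) (nat_lit 36775147872) (nat_lit 76) (nat_lit 30056657499) (nat_lit 152)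 (nat_lit 175153679246) (nat_lit 7) (nat_lit 5) (nat_lit 8) (nat_lit 5) (nat_lit 9) (nat_lit 4) (nat_lit 366) (nat_lit 287) (nat_lit 127)) (XT.nd (nat_lit 78) (nat_lit 0) (nat_lit 0) (XT.lf (nat_lit 0) (nat_lit 79362489106) (nat_lit 76) (nat_lit 8244577292) (nat_lit 152) (nat_lit 165351515112) (nat_lit 7) (nat_lit 5) (nat_lit 8) (nat_lit 5) (nat_lit 9) (nat_lit 4) (nat_lit 367) (nat_lit 287) (nat_lit 126)) (XT.lf (nat_lit 0) (nat_lit 109649090932) (nat_lit 152) (nat_lit 140631559878) (nat_lit 0) (nat_lit 14188283011) (nat_lit 7) (nat_lit 5) (nat_lit 9) (nat_lit 4) (nat_lit 7) (nat_lit 4) (nat_lit 368) (nat_lit 287) (nat_lit 125))))) (XT.nd (nat_lit 156) (nat_lit 76) (nat_lit 0) (XT.nd (nat_lit 78) (nat_lit 0) (nat_lit 0) (XT.lf (nat_lit 0) (nat_lit 132927560675) (nat_lit 152) (nat_lit 106155452876) (nat_lit 0) (nat_lit 37465073564) (nat_lit 7) (nat_lit 5) (nat_lit 9) (nat_lit 4) (nat_lit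 7) (nat_lit 4) (nat_lit 369) (nat_lit 287) (nat_lit 124)) (XT.lf (nat_lit 0) (nat_lit 157369179599) (nat_lit 152) (nat_lit 69956964474) (nat_lit 0) (nat_lit 61905093259) (nat_lit 7) (nat_lit 5) (nat_lit 9) (nat_lit 4) (nat_lit 7) (nat_lit 4) (nat_lit 370) (nat_lit 287) (nat_lit 123))) (XT.nd (nat_lit 78) (nat_lit 76) (nat_lit 0) (XT.lf (nat_lit 0) (nat_lit 183032142033) (nat_lit 152) (nat_lit 31949907792) (nat_lit 0) (nat_lit 87566532619) (nat_lit 7) (nat_lit 5) (nat_lit 9) (nat_lit 4) (nat_lit 7) (nat_lit 4) (nat_lit 371) (nat_lit 287) (nat_lit 122)) (XT.nd (nat_lit 78) (nat_lit 0) (nat_lit 0) (XT.lf (nat_lit 0) (nat_lit 8219278398) (nat_lit 76) (nat_lit 201886597842) (nat_lit 76) (nat_lit 106419537880) (nat_lit 6) (nat_lit 4) (nat_lit 7) (nat_lit 5) (nat_lit 7) (nat_lit 4) (nat_lit 372) (nat_lit 287) (nat_lit 121)) (XT.lf (nat_lit 0) (nat_lit 51504881820) (nat_lit 76) (nat_lit 187568813770)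 (nat_lit 76) (nat_lit 92100372335) (nat_lit 6) (nat_lit 4) (nat_lit 7) (nat_lit 5) (nat_lit 7) (nat_lit 4) (nat_lit 373) (nat_lit 287) (nat_lit 120)))))) (XT.nd (nat_lit 390) (nat_lit 76) (nat_lit 0) (XT.nd (nat_lit 156) (nat_lit 0) (nat_lit 0) (XT.nd (nat_lit 78) (nat_lit 0) (nat_lit 0) (XT.lf (nat_lit 0) (nat_lit 96953555193) (nat_lit 76) (nat_lit 172535694796) (nat_lit 76) (nat_lit 77065937672) (nat_lit 6) (nat_lit 4) (nat_lit 7) (nat_lit 5) (nat_lit 7) (nat_lit 4) (nat_lit 374) (nat_lit 287) (nat_lit 119)) (XT.lf (nat_lit 0) (nat_lit 144673509644) (nat_lit 76) (nat_lit 156751447779) (nat_lit 76) (nat_lit 61280437618) (nat_lit 6) (nat_lit 4) (nat_lit 7) (nat_lit 5) (nat_lit 7) (nat_lit 4) (nat_lit 375) (nat_lit 287) (nat_lit 118))) (XT.nd (nat_lit 78) (nat_lit 0) (nat_lit 0) (XT.lf (nat_lit 0) (nat_lit 194778364111) (nat_lit 76) (nat_lit 140178491180) (nat_lit 76) (nat_lit 44706287650)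 (nat_lit 6) (nat_lit 4) (nat_lit 7) (nat_lit 5) (nat_lit 7) (nat_lit 4) (nat_lit 376) (nat_lit 287) (nat_lit 117)) (XT.nd (nat_lit 78) (nat_lit 0) (nat_lit 0) (XT.lf (nat_lit 0) (nat_lit 247387415867) (nat_lit 76) (nat_lit 122777365577) (nat_lit 76) (nat_lit 27304025505) (nat_lit 6) (nat_lit 4) (nat_lit 7) (nat_lit 5) (nat_lit 7) (nat_lit 4) (nat_lit 377) (nat_lit 287) (nat_lit 116)) (XT.lf (nat_lit 0) (nat_lit 302625924559) (nat_lit 76) (nat_lit 104506639719) (nat_lit 76) (nat_lit 9032217227) (nat_lit 6) (nat_lit 4) (nat_lit 7) (nat_lit 5) (nat_lit 7) (nat_lit 4) (nat_lit 378) (nat_lit 287) (nat_lit 115))))) (XT.nd (nat_lit 33540) (nat_lit 0) (nat_lit 5776) (XT.nd (nat_lit 78) (nat_lit 0) (nat_lit 0) (XT.lf (nat_lit 0) (nat_lit 9827693557) (nat_lit 152) (nat_lit 75328681575) (nat_lit 76) (nat_lit 350631280143) (nat_lit 5) (nat_lit 5) (nat_lit 7) (nat_lit 5) (nat_lit 6) (nat_lit 4)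 (nat_lit 379) (nat_lit 287) (nat_lit 114)) (XT.lf (nat_lit 0) (nat_lit 29326560354) (nat_lit 152) (nat_lit 35356986430) (nat_lit 76) (nat_lit 391700747699) (nat_lit 5) (nat_lit 5) (nat_lit 7) (nat_lit 5) (nat_lit 6) (nat_lit 4) (nat_lit 380) (nat_lit 287) (nat_lit 113))) (XT.nd (nat_lit 78) (nat_lit 0) (nat_lit 0) (XT.lf (nat_lit 0) (nat_lit 1804908260) (nat_lit 0) (nat_lit 1804908260) (nat_lit 684) (nat_lit 4504412952) (nat_lit 81) (nat_lit 5) (nat_lit 81) (nat_lit 3) (nat_lit 90) (nat_lit 3) (nat_lit 288) (nat_lit 288) (nat_lit 204)) (XT.nd (nat_lit 78) (nat_lit 0) (nat_lit 0) (XT.lf (nat_lit 0) (nat_lit 7689792978) (nat_lit 684) (nat_lit 5526285796) (nat_lit 760) (nat_lit 3402990020) (nat_lit 81) (nat_lit 5) (nat_lit 90) (nat_lit 3) (nat_lit 91) (nat_lit 5) (nat_lit 289) (nat_lit 288) (nat_lit 203)) (XT.lf (nat_lit 76) (nat_lit 1914359980) (nat_lit 0) (nat_lit 6343255105) (nat_lit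 760) (nat_lit 8767925910) (nat_lit 82) (nat_lit 5) (nat_lit 81) (nat_lit 5) (nat_lit 91) (nat_lit 5) (nat_lit 290) (nat_lit 288) (nat_lit 202))))))))
noncomputable def xc185 : XT := (XT.nd (nat_lit 1482) (nat_lit 2052) (nat_lit 0) (XT.nd (nat_lit 702) (nat_lit 1672) (nat_lit 0) (XT.nd (nat_lit 312) (nat_lit 456) (nat_lit 0) (XT.nd (nat_lit 156) (nat_lit 0) (nat_lit 0) (XT.nd (nat_lit 78) (nat_lit 0) (nat_lit 0) (XT.lf (nat_lit 0) (nat_lit 8948349534) (nat_lit 684) (nat_lit 7553062186) (nat_lit 760) (nat_lit 946236713) (nat_lit 82) (nat_lit 5) (nat_lit 91) (nat_lit 5) (nat_lit 92) (nat_lit 5) (nat_lit 291) (nat_lit 288) (nat_lit 201)) (XT.lf (nat_lit 76) (nat_lit 279210726) (nat_lit 0) (nat_lit 9489198352) (nat_lit 760) (nat_lit 8117748637) (nat_lit 83) (nat_lit 5) (nat_lit 82) (nat_lit 5) (nat_lit 92) (nat_lit 5) (nat_lit 292) (nat_lit 288) (nat_lit 200))) (XT.nd (nat_lit 78) (nat_lit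 0) (nat_lit 76) (XT.lf (nat_lit 76) (nat_lit 8756762324) (nat_lit 0) (nat_lit 1987577366) (nat_lit 760) (nat_lit 7596543550) (nat_lit 83) (nat_lit 5) (nat_lit 82) (nat_lit 5) (nat_lit 92) (nat_lit 5) (nat_lit 293) (nat_lit 288) (nat_lit 199)) (XT.lf (nat_lit 0) (nat_lit 11848653879) (nat_lit 684) (nat_lit 1260972411) (nat_lit 760) (nat_lit 5704771952) (nat_lit 83) (nat_lit 5) (nat_lit 92) (nat_lit 5) (nat_lit 93) (nat_lit 5) (nat_lit 294) (nat_lit 288) (nat_lit 198)))) (XT.nd (nat_lit 156) (nat_lit 532) (nat_lit 0) (XT.nd (nat_lit 78) (nat_lit 0) (nat_lit 76) (XT.lf (nat_lit 76) (nat_lit 7683210398) (nat_lit 0) (nat_lit 5465742878) (nat_lit 760) (nat_lit 6155628248) (nat_lit 84) (nat_lit 5) (nat_lit 83) (nat_lit 5) (nat_lit 93) (nat_lit 5) (nat_lit 295) (nat_lit 288) (nat_lit 197)) (XT.lf (nat_lit 0) (nat_lit 14564654631) (nat_lit 684) (nat_lit 2749107872) (nat_lit 760) (nat_lit 2503021648)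 (nat_lit 84) (nat_lit 5) (nat_lit 93) (nat_lit 5) (nat_lit 94) (nat_lit 5) (nat_lit 296) (nat_lit 288) (nat_lit 196))) (XT.nd (nat_lit 78) (nat_lit 608) (nat_lit 0) (XT.lf (nat_lit 76) (nat_lit 6682517017) (nat_lit 0) (nat_lit 9551804647) (nat_lit 760) (nat_lit 4111144335) (nat_lit 85) (nat_lit 5) (nat_lit 84) (nat_lit 5) (nat_lit 94) (nat_lit 5) (nat_lit 297) (nat_lit 288) (nat_lit 195)) (XT.nd (nat_lit 78) (nat_lit 608) (nat_lit 0) (XT.lf (nat_lit 76) (nat_lit 16672772111) (nat_lit 0) (nat_lit 1350883931) (nat_lit 760) (nat_lit 2875143481) (nat_lit 85) (nat_lit 5) (nat_lit 84) (nat_lit 5) (nat_lit 94) (nat_lit 5) (nat_lit 298) (nat_lit 288) (nat_lit 194)) (XT.lf (nat_lit 0) (nat_lit 5744713637) (nat_lit 684) (nat_lit 14350934752) (nat_lit 760) (nat_lit 1374517280) (nat_lit 76) (nat_lit 5) (nat_lit 85) (nat_lit 5) (nat_lit 86) (nat_lit 5) (nat_lit 299) (nat_lit 288) (nat_lit 193))))))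 (XT.nd (nat_lit 390) (nat_lit 836) (nat_lit 0) (XT.nd (nat_lit 156) (nat_lit 380) (nat_lit 0) (XT.nd (nat_lit 78) (nat_lit 380) (nat_lit 0) (XT.lf (nat_lit 0) (nat_lit 279899520) (nat_lit 760) (nat_lit 5741019903) (nat_lit 76) (nat_lit 16044786965) (nat_lit 75) (nat_lit 5) (nat_lit 85) (nat_lit 5) (nat_lit 76) (nat_lit 5) (nat_lit 300) (nat_lit 288) (nat_lit 192)) (XT.lf (nat_lit 0) (nat_lit 2081793897) (nat_lit 456) (nat_lit 17863203824) (nat_lit 76) (nat_lit 2739374326) (nat_lit 70) (nat_lit 5) (nat_lit 76) (nat_lit 5) (nat_lit 71) (nat_lit 5) (nat_lit 301) (nat_lit 288) (nat_lit 191))) (XT.nd (nat_lit 78) (nat_lit 380) (nat_lit 0) (XT.lf (nat_lit 0) (nat_lit 4162400029) (nat_lit 456) (nat_lit 7327302152) (nat_lit 76) (nat_lit 11834858942) (nat_lit 70) (nat_lit 5) (nat_lit 76) (nat_lit 5) (nat_lit 71) (nat_lit 5) (nat_lit 302) (nat_lit 288) (nat_lit 190)) (XT.nd (nat_lit 78) (nat_lit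 0) (nat_lit 0) (XT.lf (nat_lit 0) (nat_lit 3850367521) (nat_lit 380) (nat_lit 2548300739) (nat_lit 456) (nat_lit 17595529790) (nat_lit 65) (nat_lit 5) (nat_lit 70) (nat_lit 5) (nat_lit 71) (nat_lit 5) (nat_lit 303) (nat_lit 288) (nat_lit 189)) (XT.lf (nat_lit 0) (nat_lit 8971464828) (nat_lit 456) (nat_lit 8967192865) (nat_lit 76) (nat_lit 6747442416) (nat_lit 65) (nat_lit 5) (nat_lit 71) (nat_lit 5) (nat_lit 66) (nat_lit 5) (nat_lit 304) (nat_lit 288) (nat_lit 188))))) (XT.nd (nat_lit 156) (nat_lit 532) (nat_lit 0) (XT.nd (nat_lit 78) (nat_lit 0) (nat_lit 0) (XT.lf (nat_lit 0) (nat_lit 2808229616) (nat_lit 304) (nat_lit 8942477078) (nat_lit 380) (nat_lit 13658018433) (nat_lit 61) (nat_lit 5) (nat_lit 65) (nat_lit 5) (nat_lit 66) (nat_lit 5) (nat_lit 305) (nat_lit 288) (nat_lit 187)) (XT.lf (nat_lit 0) (nat_lit 14823550723) (nat_lit 380) (nat_lit 10694904700) (nat_lit 76) (nat_lit 641311232)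 (nat_lit 61) (nat_lit 5) (nat_lit 66) (nat_lit 5) (nat_lit 62) (nat_lit 5) (nat_lit 306) (nat_lit 288) (nat_lit 186))) (XT.nd (nat_lit 78) (nat_lit 228) (nat_lit 0) (XT.lf (nat_lit 0) (nat_lit 1705959903) (nat_lit 304) (nat_lit 16510096048) (nat_lit 380) (nat_lit 8724019801) (nat_lit 57) (nat_lit 5) (nat_lit 61) (nat_lit 5) (nat_lit 62) (nat_lit 5) (nat_lit 307) (nat_lit 288) (nat_lit 185)) (XT.nd (nat_lit 78) (nat_lit 228) (nat_lit 0) (XT.lf (nat_lit 0) (nat_lit 15090290726) (nat_lit 304) (nat_lit 6862025787) (nat_lit 380) (nat_lit 5798392949) (nat_lit 57) (nat_lit 5) (nat_lit 61) (nat_lit 5) (nat_lit 62) (nat_lit 5) (nat_lit 308) (nat_lit 288) (nat_lit 184)) (XT.lf (nat_lit 0) (nat_lit 499067410) (nat_lit 228) (nat_lit 25428470681) (nat_lit 304) (nat_lit 2671744279) (nat_lit 54) (nat_lit 5) (nat_lit 57) (nat_lit 5) (nat_lit 58) (nat_lit 5) (nat_lit 309) (nat_lit 288) (nat_lit 183)))))))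 (XT.nd (nat_lit 780) (nat_lit 988) (nat_lit 0) (XT.nd (nat_lit 390) (nat_lit 456) (nat_lit 0) (XT.nd (nat_lit 156) (nat_lit 532) (nat_lit 0) (XT.nd (nat_lit 78) (nat_lit 0) (nat_lit 0) (XT.lf (nat_lit 0) (nat_lit 915494858) (nat_lit 304) (nat_lit 14856989304) (nat_lit 76) (nat_lit 13701145062) (nat_lit 53) (nat_lit 5) (nat_lit 57) (nat_lit 5) (nat_lit 54) (nat_lit 5) (nat_lit 310) (nat_lit 288) (nat_lit 182)) (XT.lf (nat_lit 0) (nat_lit 4586025887) (nat_lit 304) (nat_lit 1002967777) (nat_lit 76) (nat_lit 24800836782) (nat_lit 53) (nat_lit 5) (nat_lit 57) (nat_lit 5) (nat_lit 54) (nat_lit 5) (nat_lit 311) (nat_lit 288) (nat_lit 181))) (XT.nd (nat_lit 78) (nat_lit 228) (nat_lit 0) (XT.lf (nat_lit 0) (nat_lit 8735674819) (nat_lit 380) (nat_lit 17440351048) (nat_lit 76) (nat_lit 5161048564) (nat_lit 49) (nat_lit 5) (nat_lit 54) (nat_lit 5) (nat_lit 50) (nat_lit 5) (nat_lit 312) (nat_lit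 288) (nat_lit 180)) (XT.nd (nat_lit 78) (nat_lit 228) (nat_lit 0) (XT.lf (nat_lit 0) (nat_lit 13195864646) (nat_lit 380) (nat_lit 2853884661) (nat_lit 76) (nat_lit 16276790072) (nat_lit 49) (nat_lit 5) (nat_lit 54) (nat_lit 5) (nat_lit 50) (nat_lit 5) (nat_lit 313) (nat_lit 288) (nat_lit 179)) (XT.lf (nat_lit 0) (nat_lit 12866698897) (nat_lit 228) (nat_lit 5207699248) (nat_lit 304) (nat_lit 15281323847) (nat_lit 46) (nat_lit 5) (nat_lit 49) (nat_lit 5) (nat_lit 50) (nat_lit 5) (nat_lit 314) (nat_lit 288) (nat_lit 178))))) (XT.nd (nat_lit 156) (nat_lit 228) (nat_lit 0) (XT.nd (nat_lit 78) (nat_lit 228) (nat_lit 0) (XT.lf (nat_lit 0) (nat_lit 23336996129) (nat_lit 304) (nat_lit 5065943480) (nat_lit 76) (nat_lit 6026427837) (nat_lit 46) (nat_lit 5) (nat_lit 50) (nat_lit 5) (nat_lit 47) (nat_lit 5) (nat_lit 315) (nat_lit 288) (nat_lit 177)) (XT.lf (nat_lit 0) (nat_lit 11400997961) (nat_lit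 228) (nat_lit 17719939526) (nat_lit 304) (nat_lit 6422857105) (nat_lit 43) (nat_lit 5) (nat_lit 46) (nat_lit 5) (nat_lit 47) (nat_lit 5) (nat_lit 316) (nat_lit 288) (nat_lit 176))) (XT.nd (nat_lit 78) (nat_lit 228) (nat_lit 0) (XT.lf (nat_lit 0) (nat_lit 28860451472) (nat_lit 228) (nat_lit 6414399384) (nat_lit 304) (nat_lit 1435063106) (nat_lit 43) (nat_lit 5) (nat_lit 46) (nat_lit 5) (nat_lit 47) (nat_lit 5) (nat_lit 317) (nat_lit 288) (nat_lit 175)) (XT.nd (nat_lit 78) (nat_lit 0) (nat_lit 0) (XT.lf (nat_lit 0) (nat_lit 3912396737) (nat_lit 228) (nat_lit 28516214368) (nat_lit 76) (nat_lit 5491170441) (nat_lit 40) (nat_lit 5) (nat_lit 43) (nat_lit 5) (nat_lit 41) (nat_lit 5) (nat_lit 318) (nat_lit 288) (nat_lit 174)) (XT.lf (nat_lit 0) (nat_lit 9714506456) (nat_lit 228) (nat_lit 11529266324) (nat_lit 76) (nat_lit 17933426531) (nat_lit 40) (nat_lit 5) (nat_lit 43) (nat_lit 5) (nat_lit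 41) (nat_lit 5) (nat_lit 319) (nat_lit 288) (nat_lit 173)))))) (XT.nd (nat_lit 390) (nat_lit 608) (nat_lit 0) (XT.nd (nat_lit 156) (nat_lit 152) (nat_lit 0) (XT.nd (nat_lit 78) (nat_lit 0) (nat_lit 0) (XT.lf (nat_lit 0) (nat_lit 6509000141) (nat_lit 228) (nat_lit 9394808709) (nat_lit 304) (nat_lit 24588832664) (nat_lit 37) (nat_lit 5) (nat_lit 40) (nat_lit 5) (nat_lit 41) (nat_lit 5) (nat_lit 320) (nat_lit 288) (nat_lit 172)) (XT.lf (nat_lit 0) (nat_lit 22644150109) (nat_lit 304) (nat_lit 16071864874) (nat_lit 76) (nat_lit 3145769689) (nat_lit 37) (nat_lit 5) (nat_lit 41) (nat_lit 5) (nat_lit 38) (nat_lit 5) (nat_lit 321) (nat_lit 288) (nat_lit 171))) (XT.nd (nat_lit 78) (nat_lit 0) (nat_lit 0) (XT.lf (nat_lit 0) (nat_lit 2660492074) (nat_lit 152) (nat_lit 27252332249) (nat_lit 228) (nat_lit 13377002045) (nat_lit 35) (nat_lit 5) (nat_lit 37) (nat_lit 5) (nat_lit 38) (nat_lit 5) (nat_lit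 322) (nat_lit 288) (nat_lit 170)) (XT.nd (nat_lit 78) (nat_lit 0) (nat_lit 0) (XT.lf (nat_lit 0) (nat_lit 22881397399) (nat_lit 152) (nat_lit 14931591792) (nat_lit 228) (nat_lit 6962884941) (nat_lit 35) (nat_lit 5) (nat_lit 37) (nat_lit 5) (nat_lit 38) (nat_lit 5) (nat_lit 323) (nat_lit 288) (nat_lit 169)) (XT.lf (nat_lit 0) (nat_lit 44107587680) (nat_lit 152) (nat_lit 1996643327) (nat_lit 228) (nat_lit 232196351) (nat_lit 35) (nat_lit 5) (nat_lit 37) (nat_lit 5) (nat_lit 38) (nat_lit 5) (nat_lit 324) (nat_lit 288) (nat_lit 168))))) (XT.nd (nat_lit 156) (nat_lit 304) (nat_lit 0) (XT.nd (nat_lit 78) (nat_lit 0) (nat_lit 0) (XT.lf (nat_lit 0) (nat_lit 7095175006) (nat_lit 304) (nat_lit 29229457633) (nat_lit 76) (nat_lit 11621100217) (nat_lit 31) (nat_lit 5) (nat_lit 35) (nat_lit 5) (nat_lit 32) (nat_lit 5) (nat_lit 325) (nat_lit 288) (nat_lit 167)) (XT.lf (nat_lit 0) (nat_lit 14848464198)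 (nat_lit 304) (nat_lit 8890437788) (nat_lit 76) (nat_lit 25893049309) (nat_lit 31) (nat_lit 5) (nat_lit 35) (nat_lit 5) (nat_lit 32) (nat_lit 5) (nat_lit 326) (nat_lit 288) (nat_lit 166))) (XT.nd (nat_lit 78) (nat_lit 152) (nat_lit 0) (XT.lf (nat_lit 0) (nat_lit 12872101164) (nat_lit 152) (nat_lit 10314720025) (nat_lit 228) (nat_lit 28205794654) (nat_lit 29) (nat_lit 5) (nat_lit 31) (nat_lit 5) (nat_lit 32) (nat_lit 5) (nat_lit 327) (nat_lit 288) (nat_lit 165)) (XT.nd (nat_lit 78) (nat_lit 152) (nat_lit 0) (XT.lf (nat_lit 0) (nat_lit 32150646444) (nat_lit 228) (nat_lit 17269339822) (nat_lit 76) (nat_lit 3810904930) (nat_lit 29) (nat_lit 5) (nat_lit 32) (nat_lit 5) (nat_lit 30) (nat_lit 5) (nat_lit 328) (nat_lit 288) (nat_lit 164)) (XT.lf (nat_lit 0) (nat_lit 5031105608) (nat_lit 152) (nat_lit 36775859274) (nat_lit 228) (nat_lit 13341905194) (nat_lit 27) (nat_lit 5) (nat_lit 29) (nat_lit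 5) (nat_lit 30) (nat_lit 5) (nat_lit 329) (nat_lit 288) (nat_lit 163))))))))
noncomputable def xc186 : XT := (XT.nd (nat_lit 1482) (nat_lit 532) (nat_lit 0) (XT.nd (nat_lit 702) (nat_lit 456) (nat_lit 0) (XT.nd (nat_lit 312) (nat_lit 304) (nat_lit 0) (XT.nd (nat_lit 156) (nat_lit 152) (nat_lit 0) (XT.nd (nat_lit 78) (nat_lit 76) (nat_lit 0) (XT.lf (nat_lit 0) (nat_lit 29040988809) (nat_lit 152) (nat_lit 23194312467) (nat_lit 228) (nat_lit 4912991146) (nat_lit 27) (nat_lit 5) (nat_lit 29) (nat_lit 5) (nat_lit 30) (nat_lit 5) (nat_lit 330) (nat_lit 288) (nat_lit 162)) (XT.lf (nat_lit 0) (nat_lit 3808185789) (nat_lit 228) (nat_lit 5062794198) (nat_lit 76) (nat_lit 50373794547) (nat_lit 26) (nat_lit 5) (nat_lit 29) (nat_lit 5) (nat_lit 27) (nat_lit 5) (nat_lit 331) (nat_lit 288) (nat_lit 161))) (XT.nd (nat_lit 78) (nat_lit 0) (nat_lit 0) (XT.lf (nat_lit 0) (nat_lit 13207174621) (nat_lit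 228) (nat_lit 41851013188) (nat_lit 76) (nat_lit 6363526807) (nat_lit 24) (nat_lit 5) (nat_lit 27) (nat_lit 5) (nat_lit 25) (nat_lit 5) (nat_lit 332) (nat_lit 288) (nat_lit 160)) (XT.lf (nat_lit 0) (nat_lit 23305716433) (nat_lit 228) (nat_lit 18243215328) (nat_lit 76) (nat_lit 22147093567) (nat_lit 24) (nat_lit 5) (nat_lit 27) (nat_lit 5) (nat_lit 25) (nat_lit 5) (nat_lit 333) (nat_lit 288) (nat_lit 159)))) (XT.nd (nat_lit 156) (nat_lit 152) (nat_lit 0) (XT.nd (nat_lit 78) (nat_lit 0) (nat_lit 0) (XT.lf (nat_lit 0) (nat_lit 6756646548) (nat_lit 152) (nat_lit 27255201529) (nat_lit 228) (nat_lit 32067073986) (nat_lit 22) (nat_lit 5) (nat_lit 24) (nat_lit 5) (nat_lit 25) (nat_lit 5) (nat_lit 334) (nat_lit 288) (nat_lit 158)) (XT.lf (nat_lit 0) (nat_lit 33635357883) (nat_lit 152) (nat_lit 11924122927) (nat_lit 228) (nat_lit 23006176550) (nat_lit 22) (nat_lit 5) (nat_lit 24) (nat_lit 5)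 (nat_lit 25) (nat_lit 5) (nat_lit 335) (nat_lit 288) (nat_lit 157))) (XT.nd (nat_lit 78) (nat_lit 152) (nat_lit 0) (XT.lf (nat_lit 0) (nat_lit 57746997842) (nat_lit 228) (nat_lit 9388286022) (nat_lit 76) (nat_lit 4038323711) (nat_lit 22) (nat_lit 5) (nat_lit 25) (nat_lit 5) (nat_lit 23) (nat_lit 4) (nat_lit 336) (nat_lit 288) (nat_lit 156)) (XT.nd (nat_lit 78) (nat_lit 76) (nat_lit 0) (XT.lf (nat_lit 0) (nat_lit 17800898995) (nat_lit 76) (nat_lit 53213860103) (nat_lit 152) (nat_lit 2873655914) (nat_lit 21) (nat_lit 5) (nat_lit 22) (nat_lit 5) (nat_lit 23) (nat_lit 4) (nat_lit 337) (nat_lit 288) (nat_lit 155)) (XT.lf (nat_lit 0) (nat_lit 8103355434) (nat_lit 152) (nat_lit 30190479728) (nat_lit 76) (nat_lit 38430769660) (nat_lit 20) (nat_lit 5) (nat_lit 22) (nat_lit 5) (nat_lit 21) (nat_lit 5) (nat_lit 338) (nat_lit 288) (nat_lit 154)))))) (XT.nd (nat_lit 390) (nat_lit 228) (nat_lit 0)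 (XT.nd (nat_lit 156) (nat_lit 76) (nat_lit 0) (XT.nd (nat_lit 78) (nat_lit 152) (nat_lit 0) (XT.lf (nat_lit 0) (nat_lit 19530245295) (nat_lit 152) (nat_lit 3049710374) (nat_lit 76) (nat_lit 57120415620) (nat_lit 20) (nat_lit 5) (nat_lit 22) (nat_lit 5) (nat_lit 21) (nat_lit 5) (nat_lit 339) (nat_lit 288) (nat_lit 153)) (XT.lf (nat_lit 0) (nat_lit 26285581507) (nat_lit 152) (nat_lit 5651005566) (nat_lit 228) (nat_lit 50867936208) (nat_lit 18) (nat_lit 5) (nat_lit 20) (nat_lit 5) (nat_lit 21) (nat_lit 5) (nat_lit 340) (nat_lit 288) (nat_lit 152))) (XT.nd (nat_lit 78) (nat_lit 76) (nat_lit 0) (XT.lf (nat_lit 0) (nat_lit 45202778862) (nat_lit 228) (nat_lit 29061773337) (nat_lit 76) (nat_lit 11787356483) (nat_lit 18) (nat_lit 5) (nat_lit 21) (nat_lit 5) (nat_lit 19) (nat_lit 4) (nat_lit 341) (nat_lit 288) (nat_lit 151)) (XT.nd (nat_lit 78) (nat_lit 76) (nat_lit 0) (XT.lf (nat_lit 0) (nat_lit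 59222769355) (nat_lit 228) (nat_lit 328050186) (nat_lit 76) (nat_lit 29906321690) (nat_lit 18) (nat_lit 5) (nat_lit 21) (nat_lit 5) (nat_lit 19) (nat_lit 4) (nat_lit 342) (nat_lit 288) (nat_lit 150)) (XT.lf (nat_lit 0) (nat_lit 30825477114) (nat_lit 76) (nat_lit 43597506423) (nat_lit 152) (nat_lit 18585692887) (nat_lit 17) (nat_lit 5) (nat_lit 18) (nat_lit 5) (nat_lit 19) (nat_lit 4) (nat_lit 343) (nat_lit 288) (nat_lit 149))))) (XT.nd (nat_lit 156) (nat_lit 152) (nat_lit 0) (XT.nd (nat_lit 78) (nat_lit 76) (nat_lit 0) (XT.lf (nat_lit 0) (nat_lit 63544636445) (nat_lit 76) (nat_lit 26842123664) (nat_lit 152) (nat_lit 6350852802) (nat_lit 17) (nat_lit 5) (nat_lit 18) (nat_lit 5) (nat_lit 19) (nat_lit 4) (nat_lit 344) (nat_lit 288) (nat_lit 148)) (XT.lf (nat_lit 0) (nat_lit 6285883560) (nat_lit 152) (nat_lit 2857995144) (nat_lit 76) (nat_lit 91504145704) (nat_lit 16) (nat_lit 5) (nat_lit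 18) (nat_lit 5) (nat_lit 17) (nat_lit 5) (nat_lit 345) (nat_lit 288) (nat_lit 147))) (XT.nd (nat_lit 78) (nat_lit 0) (nat_lit 0) (XT.lf (nat_lit 0) (nat_lit 19961784997) (nat_lit 228) (nat_lit 75040685144) (nat_lit 76) (nat_lit 9715244623) (nat_lit 14) (nat_lit 5) (nat_lit 17) (nat_lit 5) (nat_lit 15) (nat_lit 4) (nat_lit 346) (nat_lit 288) (nat_lit 146)) (XT.nd (nat_lit 78) (nat_lit 0) (nat_lit 0) (XT.lf (nat_lit 0) (nat_lit 34518745515) (nat_lit 228) (nat_lit 45204331637) (nat_lit 76) (nat_lit 29257951030) (nat_lit 14) (nat_lit 5) (nat_lit 17) (nat_lit 5) (nat_lit 15) (nat_lit 4) (nat_lit 347) (nat_lit 288) (nat_lit 145)) (XT.lf (nat_lit 0) (nat_lit 49801810592) (nat_lit 228) (nat_lit 13879205899) (nat_lit 76) (nat_lit 49776579612) (nat_lit 14) (nat_lit 5) (nat_lit 17) (nat_lit 5) (nat_lit 15) (nat_lit 4) (nat_lit 348) (nat_lit 288) (nat_lit 144))))))) (XT.nd (nat_lit 780) (nat_lit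 228) (nat_lit 0) (XT.nd (nat_lit 390) (nat_lit 76) (nat_lit 0) (XT.nd (nat_lit 156) (nat_lit 152) (nat_lit 0) (XT.nd (nat_lit 78) (nat_lit 0) (nat_lit 0) (XT.lf (nat_lit 0) (nat_lit 19637808203) (nat_lit 76) (nat_lit 46516161497) (nat_lit 152) (nat_lit 51988777263) (nat_lit 13) (nat_lit 5) (nat_lit 14) (nat_lit 5) (nat_lit 15) (nat_lit 4) (nat_lit 349) (nat_lit 288) (nat_lit 143)) (XT.lf (nat_lit 0) (nat_lit 55309674057) (nat_lit 76) (nat_lit 28247487844) (nat_lit 152) (nat_lit 39493323712) (nat_lit 13) (nat_lit 5) (nat_lit 14) (nat_lit 5) (nat_lit 15) (nat_lit 4) (nat_lit 350) (nat_lit 288) (nat_lit 142))) (XT.nd (nat_lit 78) (nat_lit 152) (nat_lit 0) (XT.lf (nat_lit 0) (nat_lit 92762415449) (nat_lit 76) (nat_lit 9066549761) (nat_lit 152) (nat_lit 26374724846) (nat_lit 13) (nat_lit 5) (nat_lit 14) (nat_lit 5) (nat_lit 15) (nat_lit 4) (nat_lit 351) (nat_lit 288) (nat_lit 141)) (XT.nd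 (nat_lit 78) (nat_lit 152) (nat_lit 0) (XT.lf (nat_lit 0) (nat_lit 121185753890) (nat_lit 152) (nat_lit 1702294224) (nat_lit 0) (nat_lit 10717938212) (nat_lit 13) (nat_lit 5) (nat_lit 15) (nat_lit 4) (nat_lit 13) (nat_lit 4) (nat_lit 352) (nat_lit 288) (nat_lit 140)) (XT.lf (nat_lit 0) (nat_lit 2860538623) (nat_lit 152) (nat_lit 104607560232) (nat_lit 76) (nat_lit 31773557842) (nat_lit 11) (nat_lit 5) (nat_lit 13) (nat_lit 5) (nat_lit 12) (nat_lit 4) (nat_lit 353) (nat_lit 288) (nat_lit 139))))) (XT.nd (nat_lit 156) (nat_lit 76) (nat_lit 0) (XT.nd (nat_lit 78) (nat_lit 0) (nat_lit 0) (XT.lf (nat_lit 0) (nat_lit 18515832612) (nat_lit 152) (nat_lit 72517873015) (nat_lit 76) (nat_lit 54113831340) (nat_lit 11) (nat_lit 5) (nat_lit 13) (nat_lit 5) (nat_lit 12) (nat_lit 4) (nat_lit 354) (nat_lit 288) (nat_lit 138)) (XT.lf (nat_lit 0) (nat_lit 34952542580) (nat_lit 152) (nat_lit 38826108496)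 (nat_lit 76) (nat_lit 77570128734) (nat_lit 11) (nat_lit 5) (nat_lit 13) (nat_lit 5) (nat_lit 12) (nat_lit 4) (nat_lit 355) (nat_lit 288) (nat_lit 137))) (XT.nd (nat_lit 78) (nat_lit 76) (nat_lit 0) (XT.lf (nat_lit 0) (nat_lit 52209803550) (nat_lit 152) (nat_lit 3452048188) (nat_lit 76) (nat_lit 102198298352) (nat_lit 11) (nat_lit 5) (nat_lit 13) (nat_lit 5) (nat_lit 12) (nat_lit 4) (nat_lit 356) (nat_lit 288) (nat_lit 136)) (XT.nd (nat_lit 78) (nat_lit 0) (nat_lit 0) (XT.lf (nat_lit 0) (nat_lit 34802426867) (nat_lit 76) (nat_lit 36069640789) (nat_lit 152) (nat_lit 93797915242) (nat_lit 10) (nat_lit 5) (nat_lit 11) (nat_lit 5) (nat_lit 12) (nat_lit 4) (nat_lit 357) (nat_lit 288) (nat_lit 135)) (XT.lf (nat_lit 0) (nat_lit 75087324934) (nat_lit 76) (nat_lit 15437383527) (nat_lit 152) (nat_lit 81292736681) (nat_lit 10) (nat_lit 5) (nat_lit 11) (nat_lit 5) (nat_lit 12) (nat_lit 4) (nat_lit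 358) (nat_lit 288) (nat_lit 134)))))) (XT.nd (nat_lit 390) (nat_lit 152) (nat_lit 0) (XT.nd (nat_lit 156) (nat_lit 76) (nat_lit 0) (XT.nd (nat_lit 78) (nat_lit 0) (nat_lit 0) (XT.lf (nat_lit 0) (nat_lit 111256038559) (nat_lit 152) (nat_lit 62035115154) (nat_lit 0) (nat_lit 6026324847) (nat_lit 10) (nat_lit 5) (nat_lit 12) (nat_lit 4) (nat_lit 10) (nat_lit 4) (nat_lit 359) (nat_lit 288) (nat_lit 133)) (XT.lf (nat_lit 0) (nat_lit 133275906400) (nat_lit 152) (nat_lit 25860421854) (nat_lit 0) (nat_lit 28043587714) (nat_lit 10) (nat_lit 5) (nat_lit 12) (nat_lit 4) (nat_lit 10) (nat_lit 4) (nat_lit 360) (nat_lit 288) (nat_lit 132))) (XT.nd (nat_lit 78) (nat_lit 0) (nat_lit 0) (XT.lf (nat_lit 0) (nat_lit 12521889393) (nat_lit 76) (nat_lit 144069331813) (nat_lit 76) (nat_lit 38834532199) (nat_lit 9) (nat_lit 4) (nat_lit 10) (nat_lit 5) (nat_lit 10) (nat_lit 4) (nat_lit 361) (nat_lit 288) (nat_lit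 131)) (XT.nd (nat_lit 78) (nat_lit 0) (nat_lit 0) (XT.lf (nat_lit 0) (nat_lit 53719266849) (nat_lit 76) (nat_lit 127789966250) (nat_lit 76) (nat_lit 22552803847) (nat_lit 9) (nat_lit 4) (nat_lit 10) (nat_lit 5) (nat_lit 10) (nat_lit 4) (nat_lit 362) (nat_lit 288) (nat_lit 130)) (XT.lf (nat_lit 0) (nat_lit 96974737170) (nat_lit 76) (nat_lit 110697429928) (nat_lit 76) (nat_lit 5458017251) (nat_lit 9) (nat_lit 4) (nat_lit 10) (nat_lit 5) (nat_lit 10) (nat_lit 4) (nat_lit 363) (nat_lit 288) (nat_lit 129))))) (XT.nd (nat_lit 156) (nat_lit 76) (nat_lit 0) (XT.nd (nat_lit 78) (nat_lit 0) (nat_lit 0) (XT.lf (nat_lit 0) (nat_lit 12090754516) (nat_lit 152) (nat_lit 80455509038) (nat_lit 76) (nat_lit 130095772278) (nat_lit 8) (nat_lit 5) (nat_lit 10) (nat_lit 5) (nat_lit 9) (nat_lit 4) (nat_lit 364) (nat_lit 288) (nat_lit 128)) (XT.lf (nat_lit 0) (nat_lit 30332636967) (nat_lit 152) (nat_lit 43061691077)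 (nat_lit 76) (nat_lit 159230723853) (nat_lit 8) (nat_lit 5) (nat_lit 10) (nat_lit 5) (nat_lit 9) (nat_lit 4) (nat_lit 365) (nat_lit 288) (nat_lit 127))) (XT.nd (nat_lit 78) (nat_lit 76) (nat_lit 0) (XT.lf (nat_lit 0) (nat_lit 49485753794) (nat_lit 152) (nat_lit 3799745454) (nat_lit 76) (nat_lit 189821763131) (nat_lit 8) (nat_lit 5) (nat_lit 10) (nat_lit 5) (nat_lit 9) (nat_lit 4) (nat_lit 366) (nat_lit 288) (nat_lit 126)) (XT.nd (nat_lit 78) (nat_lit 0) (nat_lit 0) (XT.lf (nat_lit 0) (nat_lit 38661208781) (nat_lit 76) (nat_lit 31538108692) (nat_lit 152) (nat_lit 183884126958) (nat_lit 7) (nat_lit 5) (nat_lit 8) (nat_lit 5) (nat_lit 9) (nat_lit 4) (nat_lit 367) (nat_lit 288) (nat_lit 125)) (XT.lf (nat_lit 0) (nat_lit 83375664529) (nat_lit 76) (nat_lit 8636442650) (nat_lit 152) (nat_lit 173593151582) (nat_lit 7) (nat_lit 5) (nat_lit 8) (nat_lit 5) (nat_lit 9) (nat_lit 4) (nat_lit 368)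 (nat_lit 288) (nat_lit 124))))))))
noncomputable def xc187 : XT := (XT.nd (nat_lit 35022) (nat_lit 0) (nat_lit 3116) (XT.nd (nat_lit 780) (nat_lit 76) (nat_lit 0) (XT.nd (nat_lit 390) (nat_lit 0) (nat_lit 0) (XT.nd (nat_lit 156) (nat_lit 76) (nat_lit 0) (XT.nd (nat_lit 78) (nat_lit 0) (nat_lit 0) (XT.lf (nat_lit 0) (nat_lit 115155360138) (nat_lit 152) (nat_lit 147619342767) (nat_lit 0) (nat_lit 14916470253) (nat_lit 7) (nat_lit 5) (nat_lit 9) (nat_lit 4) (nat_lit 7) (nat_lit 4) (nat_lit 369) (nat_lit 288) (nat_lit 123)) (XT.lf (nat_lit 0) (nat_lit 139596619337) (nat_lit 152) (nat_lit 111421515896) (nat_lit 0) (nat_lit 39356206378) (nat_lit 7) (nat_lit 5) (nat_lit 9) (nat_lit 4) (nat_lit 7) (nat_lit 4) (nat_lit 370) (nat_lit 288) (nat_lit 122))) (XT.nd (nat_lit 78) (nat_lit 76) (nat_lit 0) (XT.lf (nat_lit 0) (nat_lit 165259239177) (nat_lit 152) (nat_lit 73415089246) (nat_lit 0) (nat_lit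 65017375670) (nat_lit 7) (nat_lit 5) (nat_lit 9) (nat_lit 4) (nat_lit 7) (nat_lit 4) (nat_lit 371) (nat_lit 288) (nat_lit 121)) (XT.nd (nat_lit 78) (nat_lit 76) (nat_lit 0) (XT.lf (nat_lit 0) (nat_lit 192204321133) (nat_lit 152) (nat_lit 33509571323) (nat_lit 0) (nat_lit 91961076153) (nat_lit 7) (nat_lit 5) (nat_lit 9) (nat_lit 4) (nat_lit 7) (nat_lit 4) (nat_lit 372) (nat_lit 288) (nat_lit 120)) (XT.lf (nat_lit 0) (nat_lit 8667463985) (nat_lit 76) (nat_lit 211963879581) (nat_lit 76) (nat_lit 111719318911) (nat_lit 6) (nat_lit 4) (nat_lit 7) (nat_lit 5) (nat_lit 7) (nat_lit 4) (nat_lit 373) (nat_lit 288) (nat_lit 119))))) (XT.nd (nat_lit 156) (nat_lit 0) (nat_lit 0) (XT.nd (nat_lit 78) (nat_lit 0) (nat_lit 0) (XT.lf (nat_lit 0) (nat_lit 54115575118) (nat_lit 76) (nat_lit 196931018122) (nat_lit 76) (nat_lit 96685204415) (nat_lit 6) (nat_lit 4) (nat_lit 7) (nat_lit 5) (nat_lit 7) (nat_lit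 4) (nat_lit 374) (nat_lit 288) (nat_lit 118)) (XT.lf (nat_lit 0) (nat_lit 101834994102) (nat_lit 76) (nat_lit 181147016358) (nat_lit 76) (nat_lit 80900009283) (nat_lit 6) (nat_lit 4) (nat_lit 7) (nat_lit 5) (nat_lit 7) (nat_lit 4) (nat_lit 375) (nat_lit 288) (nat_lit 117))) (XT.nd (nat_lit 78) (nat_lit 0) (nat_lit 0) (XT.lf (nat_lit 0) (nat_lit 151939338601) (nat_lit 76) (nat_lit 164574293332) (nat_lit 76) (nat_lit 64326149716) (nat_lit 6) (nat_lit 4) (nat_lit 7) (nat_lit 5) (nat_lit 7) (nat_lit 4) (nat_lit 376) (nat_lit 288) (nat_lit 116)) (XT.nd (nat_lit 78) (nat_lit 0) (nat_lit 0) (XT.lf (nat_lit 0) (nat_lit 204547904674) (nat_lit 76) (nat_lit 147173390181) (nat_lit 76) (nat_lit 46924164143) (nat_lit 6) (nat_lit 4) (nat_lit 7) (nat_lit 5) (nat_lit 7) (nat_lit 4) (nat_lit 377) (nat_lit 288) (nat_lit 115)) (XT.lf (nat_lit 0) (nat_lit 259785950810) (nat_lit 76) (nat_lit 128902876182)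 (nat_lit 76) (nat_lit 28652619267) (nat_lit 6) (nat_lit 4) (nat_lit 7) (nat_lit 5) (nat_lit 7) (nat_lit 4) (nat_lit 378) (nat_lit 288) (nat_lit 114)))))) (XT.nd (nat_lit 33852) (nat_lit 0) (nat_lit 5852) (XT.nd (nat_lit 33618) (nat_lit 0) (nat_lit 5776) (XT.nd (nat_lit 78) (nat_lit 76) (nat_lit 0) (XT.lf (nat_lit 0) (nat_lit 317784996168) (nat_lit 76) (nat_lit 109719250111) (nat_lit 76) (nat_lit 9468011409) (nat_lit 6) (nat_lit 4) (nat_lit 7) (nat_lit 5) (nat_lit 7) (nat_lit 4) (nat_lit 379) (nat_lit 288) (nat_lit 113)) (XT.lf (nat_lit 0) (nat_lit 10333659613) (nat_lit 152) (nat_lit 79068171529) (nat_lit 76) (nat_lit 368174468573) (nat_lit 5) (nat_lit 5) (nat_lit 7) (nat_lit 5) (nat_lit 6) (nat_lit 4) (nat_lit 380) (nat_lit 288) (nat_lit 112))) (XT.nd (nat_lit 78) (nat_lit 0) (nat_lit 0) (XT.lf (nat_lit 0) (nat_lit 2010711956) (nat_lit 0) (nat_lit 2010711956) (nat_lit 684) (nat_lit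 4486352685) (nat_lit 81) (nat_lit 5) (nat_lit 81) (nat_lit 3) (nat_lit 90) (nat_lit 3) (nat_lit 289) (nat_lit 289) (nat_lit 202)) (XT.nd (nat_lit 78) (nat_lit 0) (nat_lit 0) (XT.lf (nat_lit 0) (nat_lit 8511068109) (nat_lit 684) (nat_lit 5555882335) (nat_lit 760) (nat_lit 3360073431) (nat_lit 81) (nat_lit 5) (nat_lit 90) (nat_lit 3) (nat_lit 91) (nat_lit 5) (nat_lit 290) (nat_lit 289) (nat_lit 201)) (XT.lf (nat_lit 76) (nat_lit 2252816411) (nat_lit 0) (nat_lit 6837455430) (nat_lit 760) (nat_lit 8764453516) (nat_lit 82) (nat_lit 5) (nat_lit 81) (nat_lit 5) (nat_lit 91) (nat_lit 5) (nat_lit 291) (nat_lit 289) (nat_lit 200))))) (XT.nd (nat_lit 156) (nat_lit 0) (nat_lit 0) (XT.nd (nat_lit 78) (nat_lit 0) (nat_lit 0) (XT.lf (nat_lit 0) (nat_lit 9792921247) (nat_lit 684) (nat_lit 7675862749) (nat_lit 760) (nat_lit 830337824) (nat_lit 82) (nat_lit 5) (nat_lit 91) (nat_lit 5) (nat_lit 92) (nat_lit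 5) (nat_lit 292) (nat_lit 289) (nat_lit 199)) (XT.lf (nat_lit 76) (nat_lit 543913284) (nat_lit 0) (nat_lit 10095073164) (nat_lit 760) (nat_lit 8121370048) (nat_lit 83) (nat_lit 5) (nat_lit 82) (nat_lit 5) (nat_lit 92) (nat_lit 5) (nat_lit 293) (nat_lit 289) (nat_lit 198))) (XT.nd (nat_lit 78) (nat_lit 0) (nat_lit 76) (XT.lf (nat_lit 76) (nat_lit 9433402364) (nat_lit 0) (nat_lit 2212113277) (nat_lit 760) (nat_lit 7593260231) (nat_lit 83) (nat_lit 5) (nat_lit 82) (nat_lit 5) (nat_lit 92) (nat_lit 5) (nat_lit 294) (nat_lit 289) (nat_lit 197)) (XT.nd (nat_lit 78) (nat_lit 0) (nat_lit 0) (XT.lf (nat_lit 0) (nat_lit 12785853160) (nat_lit 684) (nat_lit 1076490074) (nat_lit 760) (nat_lit 5874628420) (nat_lit 83) (nat_lit 5) (nat_lit 92) (nat_lit 5) (nat_lit 93) (nat_lit 5) (nat_lit 295) (nat_lit 289) (nat_lit 196)) (XT.lf (nat_lit 76) (nat_lit 8310909441) (nat_lit 0) (nat_lit 5827642948) (nat_lit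 760) (nat_lit 6113785715) (nat_lit 84) (nat_lit 5) (nat_lit 83) (nat_lit 5) (nat_lit 93) (nat_lit 5) (nat_lit 296) (nat_lit 289) (nat_lit 195))))))) (XT.nd (nat_lit 780) (nat_lit 1140) (nat_lit 0) (XT.nd (nat_lit 390) (nat_lit 1064) (nat_lit 0) (XT.nd (nat_lit 156) (nat_lit 684) (nat_lit 0) (XT.nd (nat_lit 78) (nat_lit 0) (nat_lit 0) (XT.lf (nat_lit 0) (nat_lit 15607904460) (nat_lit 684) (nat_lit 2636663726) (nat_lit 760) (nat_lit 2546480579) (nat_lit 84) (nat_lit 5) (nat_lit 93) (nat_lit 5) (nat_lit 94) (nat_lit 5) (nat_lit 297) (nat_lit 289) (nat_lit 194)) (XT.lf (nat_lit 76) (nat_lit 7262511770) (nat_lit 0) (nat_lit 10087380963) (nat_lit 760) (nat_lit 3996869304) (nat_lit 85) (nat_lit 5) (nat_lit 84) (nat_lit 5) (nat_lit 94) (nat_lit 5) (nat_lit 298) (nat_lit 289) (nat_lit 193))) (XT.nd (nat_lit 78) (nat_lit 684) (nat_lit 0) (XT.lf (nat_lit 76) (nat_lit 17740571575) (nat_lit 0) (nat_lit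 1473652970) (nat_lit 760) (nat_lit 2714298515) (nat_lit 85) (nat_lit 5) (nat_lit 84) (nat_lit 5) (nat_lit 94) (nat_lit 5) (nat_lit 299) (nat_lit 289) (nat_lit 192)) (XT.nd (nat_lit 78) (nat_lit 76) (nat_lit 0) (XT.lf (nat_lit 0) (nat_lit 6278152712) (nat_lit 684) (nat_lit 15100906295) (nat_lit 760) (nat_lit 1149971960) (nat_lit 76) (nat_lit 5) (nat_lit 85) (nat_lit 5) (nat_lit 86) (nat_lit 5) (nat_lit 300) (nat_lit 289) (nat_lit 191)) (XT.lf (nat_lit 0) (nat_lit 564260852) (nat_lit 760) (nat_lit 5784006524) (nat_lit 76) (nat_lit 16806560593) (nat_lit 75) (nat_lit 5) (nat_lit 85) (nat_lit 5) (nat_lit 76) (nat_lit 5) (nat_lit 301) (nat_lit 289) (nat_lit 190))))) (XT.nd (nat_lit 156) (nat_lit 684) (nat_lit 0) (XT.nd (nat_lit 78) (nat_lit 0) (nat_lit 0) (XT.lf (nat_lit 0) (nat_lit 2446794796) (nat_lit 456) (nat_lit 18502229802) (nat_lit 76) (nat_lit 2855905805) (nat_lit 70) (nat_lit 5)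 (nat_lit 76) (nat_lit 5) (nat_lit 71) (nat_lit 5) (nat_lit 302) (nat_lit 289) (nat_lit 189)) (XT.lf (nat_lit 0) (nat_lit 4619006891) (nat_lit 456) (nat_lit 7451634675) (nat_lit 76) (nat_lit 12407137854) (nat_lit 70) (nat_lit 5) (nat_lit 76) (nat_lit 5) (nat_lit 71) (nat_lit 5) (nat_lit 303) (nat_lit 289) (nat_lit 188))) (XT.nd (nat_lit 78) (nat_lit 304) (nat_lit 0) (XT.lf (nat_lit 0) (nat_lit 4281014730) (nat_lit 380) (nat_lit 2677958954) (nat_lit 456) (nat_lit 18222358128) (nat_lit 65) (nat_lit 5) (nat_lit 70) (nat_lit 5) (nat_lit 71) (nat_lit 5) (nat_lit 304) (nat_lit 289) (nat_lit 187)) (XT.nd (nat_lit 78) (nat_lit 304) (nat_lit 0) (XT.lf (nat_lit 0) (nat_lit 9648930441) (nat_lit 456) (nat_lit 9176752513) (nat_lit 76) (nat_lit 7082746553) (nat_lit 65) (nat_lit 5) (nat_lit 71) (nat_lit 5) (nat_lit 66) (nat_lit 5) (nat_lit 305) (nat_lit 289) (nat_lit 186)) (XT.lf (nat_lit 0) (nat_lit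 3183589478) (nat_lit 304) (nat_lit 9376313487) (nat_lit 380) (nat_lit 14107669667) (nat_lit 61) (nat_lit 5) (nat_lit 65) (nat_lit 5) (nat_lit 66) (nat_lit 5) (nat_lit 306) (nat_lit 289) (nat_lit 185)))))) (XT.nd (nat_lit 390) (nat_lit 532) (nat_lit 0) (XT.nd (nat_lit 156) (nat_lit 304) (nat_lit 0) (XT.nd (nat_lit 78) (nat_lit 304) (nat_lit 0) (XT.lf (nat_lit 0) (nat_lit 15776031489) (nat_lit 380) (nat_lit 10995050241) (nat_lit 76) (nat_lit 685626473) (nat_lit 61) (nat_lit 5) (nat_lit 66) (nat_lit 5) (nat_lit 62) (nat_lit 5) (nat_lit 307) (nat_lit 289) (nat_lit 184)) (XT.lf (nat_lit 0) (nat_lit 2022073726) (nat_lit 304) (nat_lit 17309629876) (nat_lit 380) (nat_lit 8944675007) (nat_lit 57) (nat_lit 5) (nat_lit 61) (nat_lit 5) (nat_lit 62) (nat_lit 5) (nat_lit 308) (nat_lit 289) (nat_lit 183))) (XT.nd (nat_lit 78) (nat_lit 304) (nat_lit 0) (XT.lf (nat_lit 0) (nat_lit 16064629860) (nat_lit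 304) (nat_lit 7180392815) (nat_lit 380) (nat_lit 5883030898) (nat_lit 57) (nat_lit 5) (nat_lit 61) (nat_lit 5) (nat_lit 62) (nat_lit 5) (nat_lit 309) (nat_lit 289) (nat_lit 182)) (XT.nd (nat_lit 78) (nat_lit 76) (nat_lit 0) (XT.lf (nat_lit 0) (nat_lit 749946864) (nat_lit 228) (nat_lit 26663663573) (nat_lit 304) (nat_lit 2605735236) (nat_lit 54) (nat_lit 5) (nat_lit 57) (nat_lit 5) (nat_lit 58) (nat_lit 5) (nat_lit 310) (nat_lit 289) (nat_lit 181)) (XT.lf (nat_lit 0) (nat_lit 1145277154) (nat_lit 304) (nat_lit 15378209586) (nat_lit 76) (nat_lit 14414246203) (nat_lit 53) (nat_lit 5) (nat_lit 57) (nat_lit 5) (nat_lit 54) (nat_lit 5) (nat_lit 311) (nat_lit 289) (nat_lit 180))))) (XT.nd (nat_lit 156) (nat_lit 228) (nat_lit 0) (XT.nd (nat_lit 78) (nat_lit 304) (nat_lit 0) (XT.lf (nat_lit 0) (nat_lit 4990572470) (nat_lit 304) (nat_lit 842040753) (nat_lit 76) (nat_lit 26067587087) (nat_lit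 53) (nat_lit 5) (nat_lit 57) (nat_lit 5) (nat_lit 54) (nat_lit 5) (nat_lit 312) (nat_lit 289) (nat_lit 179)) (XT.lf (nat_lit 0) (nat_lit 9343187084) (nat_lit 380) (nat_lit 18096434142) (nat_lit 76) (nat_lit 5455428220) (nat_lit 49) (nat_lit 5) (nat_lit 54) (nat_lit 5) (nat_lit 50) (nat_lit 5) (nat_lit 313) (nat_lit 289) (nat_lit 178))) (XT.nd (nat_lit 78) (nat_lit 228) (nat_lit 0) (XT.lf (nat_lit 0) (nat_lit 14018256472) (nat_lit 380) (nat_lit 2790927029) (nat_lit 76) (nat_lit 17125226935) (nat_lit 49) (nat_lit 5) (nat_lit 54) (nat_lit 5) (nat_lit 50) (nat_lit 5) (nat_lit 314) (nat_lit 289) (nat_lit 177)) (XT.nd (nat_lit 78) (nat_lit 0) (nat_lit 0) (XT.lf (nat_lit 0) (nat_lit 13712368741) (nat_lit 228) (nat_lit 5423764130) (nat_lit 304) (nat_lit 15879164021) (nat_lit 46) (nat_lit 5) (nat_lit 49) (nat_lit 5) (nat_lit 50) (nat_lit 5) (nat_lit 315) (nat_lit 289) (nat_lit 176)) (XT.lf (nat_lit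 0) (nat_lit 24654995250) (nat_lit 304) (nat_lit 5119379570) (nat_lit 76) (nat_lit 6368607858) (nat_lit 46) (nat_lit 5) (nat_lit 50) (nat_lit 5) (nat_lit 47) (nat_lit 5) (nat_lit 316) (nat_lit 289) (nat_lit 175))))))))
noncomputable def xc188 : XT := (XT.nd (nat_lit 1482) (nat_lit 836) (nat_lit 0) (XT.nd (nat_lit 702) (nat_lit 988) (nat_lit 0) (XT.nd (nat_lit 312) (nat_lit 380) (nat_lit 0) (XT.nd (nat_lit 156) (nat_lit 228) (nat_lit 0) (XT.nd (nat_lit 78) (nat_lit 0) (nat_lit 0) (XT.lf (nat_lit 0) (nat_lit 12167685377) (nat_lit 228) (nat_lit 18556320775) (nat_lit 304) (nat_lit 6589345486) (nat_lit 43) (nat_lit 5) (nat_lit 46) (nat_lit 5) (nat_lit 47) (nat_lit 5) (nat_lit 317) (nat_lit 289) (nat_lit 174)) (XT.lf (nat_lit 0) (nat_lit 30490747872) (nat_lit 228) (nat_lit 6687866279) (nat_lit 304) (nat_lit 1359526286) (nat_lit 43) (nat_lit 5) (nat_lit 46) (nat_lit 5) (nat_lit 47) (nat_lit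 5) (nat_lit 318) (nat_lit 289) (nat_lit 173))) (XT.nd (nat_lit 78) (nat_lit 0) (nat_lit 0) (XT.lf (nat_lit 0) (nat_lit 4247543012) (nat_lit 228) (nat_lit 29746489055) (nat_lit 76) (nat_lit 5814518982) (nat_lit 40) (nat_lit 5) (nat_lit 43) (nat_lit 5) (nat_lit 41) (nat_lit 5) (nat_lit 319) (nat_lit 289) (nat_lit 172)) (XT.lf (nat_lit 0) (nat_lit 10333114101) (nat_lit 228) (nat_lit 11919504849) (nat_lit 76) (nat_lit 18876564542) (nat_lit 40) (nat_lit 5) (nat_lit 43) (nat_lit 5) (nat_lit 41) (nat_lit 5) (nat_lit 320) (nat_lit 289) (nat_lit 171)))) (XT.nd (nat_lit 156) (nat_lit 152) (nat_lit 0) (XT.nd (nat_lit 78) (nat_lit 0) (nat_lit 0) (XT.lf (nat_lit 0) (nat_lit 7017671314) (nat_lit 228) (nat_lit 9810743167) (nat_lit 304) (nat_lit 25682167713) (nat_lit 37) (nat_lit 5) (nat_lit 40) (nat_lit 5) (nat_lit 41) (nat_lit 5) (nat_lit 321) (nat_lit 289) (nat_lit 170)) (XT.lf (nat_lit 0) (nat_lit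 23900410234) (nat_lit 304) (nat_lit 16695389070) (nat_lit 76) (nat_lit 3352661841) (nat_lit 37) (nat_lit 5) (nat_lit 41) (nat_lit 5) (nat_lit 38) (nat_lit 5) (nat_lit 322) (nat_lit 289) (nat_lit 169))) (XT.nd (nat_lit 78) (nat_lit 0) (nat_lit 0) (XT.lf (nat_lit 0) (nat_lit 2970681386) (nat_lit 152) (nat_lit 28558695542) (nat_lit 228) (nat_lit 13918695065) (nat_lit 35) (nat_lit 5) (nat_lit 37) (nat_lit 5) (nat_lit 38) (nat_lit 5) (nat_lit 323) (nat_lit 289) (nat_lit 168)) (XT.nd (nat_lit 78) (nat_lit 0) (nat_lit 0) (XT.lf (nat_lit 0) (nat_lit 24194195563) (nat_lit 152) (nat_lit 15624596792) (nat_lit 228) (nat_lit 7189927204) (nat_lit 35) (nat_lit 5) (nat_lit 37) (nat_lit 5) (nat_lit 38) (nat_lit 5) (nat_lit 324) (nat_lit 289) (nat_lit 167)) (XT.lf (nat_lit 0) (nat_lit 46473660677) (nat_lit 152) (nat_lit 2045452074) (nat_lit 228) (nat_lit 128470946) (nat_lit 35) (nat_lit 5) (nat_lit 37)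 (nat_lit 5) (nat_lit 38) (nat_lit 5) (nat_lit 325) (nat_lit 289) (nat_lit 166)))))) (XT.nd (nat_lit 390) (nat_lit 380) (nat_lit 0) (XT.nd (nat_lit 156) (nat_lit 304) (nat_lit 0) (XT.nd (nat_lit 78) (nat_lit 0) (nat_lit 0) (XT.lf (nat_lit 0) (nat_lit 7559617170) (nat_lit 304) (nat_lit 30524247575) (nat_lit 76) (nat_lit 12253505939) (nat_lit 31) (nat_lit 5) (nat_lit 35) (nat_lit 5) (nat_lit 32) (nat_lit 5) (nat_lit 326) (nat_lit 289) (nat_lit 165)) (XT.lf (nat_lit 0) (nat_lit 15695347802) (nat_lit 304) (nat_lit 9176214021) (nat_lit 76) (nat_lit 27236607214) (nat_lit 31) (nat_lit 5) (nat_lit 35) (nat_lit 5) (nat_lit 32) (nat_lit 5) (nat_lit 327) (nat_lit 289) (nat_lit 164))) (XT.nd (nat_lit 78) (nat_lit 152) (nat_lit 0) (XT.lf (nat_lit 0) (nat_lit 13671891465) (nat_lit 152) (nat_lit 10776195363) (nat_lit 228) (nat_lit 29508914243) (nat_lit 29) (nat_lit 5) (nat_lit 31) (nat_lit 5) (nat_lit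 32) (nat_lit 5) (nat_lit 328) (nat_lit 289) (nat_lit 163)) (XT.nd (nat_lit 78) (nat_lit 152) (nat_lit 0) (XT.lf (nat_lit 0) (nat_lit 33856056614) (nat_lit 228) (nat_lit 17979870008) (nat_lit 76) (nat_lit 4051473017) (nat_lit 29) (nat_lit 5) (nat_lit 32) (nat_lit 5) (nat_lit 30) (nat_lit 5) (nat_lit 329) (nat_lit 289) (nat_lit 162)) (XT.lf (nat_lit 0) (nat_lit 5433130971) (nat_lit 152) (nat_lit 38559748412) (nat_lit 228) (nat_lit 13908520432) (nat_lit 27) (nat_lit 5) (nat_lit 29) (nat_lit 5) (nat_lit 30) (nat_lit 5) (nat_lit 330) (nat_lit 289) (nat_lit 161))))) (XT.nd (nat_lit 156) (nat_lit 304) (nat_lit 0) (XT.nd (nat_lit 78) (nat_lit 76) (nat_lit 0) (XT.lf (nat_lit 0) (nat_lit 30636343091) (nat_lit 152) (nat_lit 24301738733) (nat_lit 228) (nat_lit 5062945444) (nat_lit 27) (nat_lit 5) (nat_lit 29) (nat_lit 5) (nat_lit 30) (nat_lit 5) (nat_lit 331) (nat_lit 289) (nat_lit 160)) (XT.lf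 (nat_lit 0) (nat_lit 4086816424) (nat_lit 228) (nat_lit 5176419102) (nat_lit 76) (nat_lit 52939249658) (nat_lit 26) (nat_lit 5) (nat_lit 29) (nat_lit 5) (nat_lit 27) (nat_lit 5) (nat_lit 332) (nat_lit 289) (nat_lit 159))) (XT.nd (nat_lit 78) (nat_lit 152) (nat_lit 0) (XT.lf (nat_lit 0) (nat_lit 13954494598) (nat_lit 228) (nat_lit 43802677505) (nat_lit 76) (nat_lit 6731168744) (nat_lit 24) (nat_lit 5) (nat_lit 27) (nat_lit 5) (nat_lit 25) (nat_lit 5) (nat_lit 333) (nat_lit 289) (nat_lit 158)) (XT.nd (nat_lit 78) (nat_lit 152) (nat_lit 0) (XT.lf (nat_lit 0) (nat_lit 24553822490) (nat_lit 228) (nat_lit 19021198625) (nat_lit 76) (nat_lit 23301558338) (nat_lit 24) (nat_lit 5) (nat_lit 27) (nat_lit 5) (nat_lit 25) (nat_lit 5) (nat_lit 334) (nat_lit 289) (nat_lit 157)) (XT.lf (nat_lit 0) (nat_lit 7226492192) (nat_lit 152) (nat_lit 28566885801) (nat_lit 228) (nat_lit 33585342222) (nat_lit 22)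 (nat_lit 5) (nat_lit 24) (nat_lit 5) (nat_lit 25) (nat_lit 5) (nat_lit 335) (nat_lit 289) (nat_lit 156))))))) (XT.nd (nat_lit 780) (nat_lit 456) (nat_lit 0) (XT.nd (nat_lit 390) (nat_lit 228) (nat_lit 0) (XT.nd (nat_lit 156) (nat_lit 152) (nat_lit 0) (XT.nd (nat_lit 78) (nat_lit 0) (nat_lit 0) (XT.lf (nat_lit 0) (nat_lit 35442852745) (nat_lit 152) (nat_lit 12471685451) (nat_lit 228) (nat_lit 24075451602) (nat_lit 22) (nat_lit 5) (nat_lit 24) (nat_lit 5) (nat_lit 25) (nat_lit 5) (nat_lit 336) (nat_lit 289) (nat_lit 155)) (XT.lf (nat_lit 0) (nat_lit 60708483742) (nat_lit 228) (nat_lit 9734921337) (nat_lit 76) (nat_lit 4285084395) (nat_lit 22) (nat_lit 5) (nat_lit 25) (nat_lit 5) (nat_lit 23) (nat_lit 4) (nat_lit 337) (nat_lit 289) (nat_lit 154))) (XT.nd (nat_lit 78) (nat_lit 76) (nat_lit 0) (XT.lf (nat_lit 0) (nat_lit 18811742624) (nat_lit 76) (nat_lit 55826246157) (nat_lit 152) (nat_lit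 2941135083) (nat_lit 21) (nat_lit 5) (nat_lit 22) (nat_lit 5) (nat_lit 23) (nat_lit 4) (nat_lit 338) (nat_lit 289) (nat_lit 153)) (XT.nd (nat_lit 78) (nat_lit 0) (nat_lit 0) (XT.lf (nat_lit 0) (nat_lit 8578775240) (nat_lit 152) (nat_lit 31582555307) (nat_lit 76) (nat_lit 40395912719) (nat_lit 20) (nat_lit 5) (nat_lit 22) (nat_lit 5) (nat_lit 21) (nat_lit 5) (nat_lit 339) (nat_lit 289) (nat_lit 152)) (XT.lf (nat_lit 0) (nat_lit 20573664258) (nat_lit 152) (nat_lit 3090340268) (nat_lit 76) (nat_lit 60017964568) (nat_lit 20) (nat_lit 5) (nat_lit 22) (nat_lit 5) (nat_lit 21) (nat_lit 5) (nat_lit 340) (nat_lit 289) (nat_lit 151))))) (XT.nd (nat_lit 156) (nat_lit 76) (nat_lit 0) (XT.nd (nat_lit 78) (nat_lit 0) (nat_lit 0) (XT.lf (nat_lit 0) (nat_lit 27709912085) (nat_lit 152) (nat_lit 5888943220) (nat_lit 228) (nat_lit 53342550364) (nat_lit 18) (nat_lit 5) (nat_lit 20) (nat_lit 5) (nat_lit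 21) (nat_lit 5) (nat_lit 341) (nat_lit 289) (nat_lit 150)) (XT.lf (nat_lit 0) (nat_lit 47525903906) (nat_lit 228) (nat_lit 30407529860) (nat_lit 76) (nat_lit 12417852633) (nat_lit 18) (nat_lit 5) (nat_lit 21) (nat_lit 5) (nat_lit 19) (nat_lit 4) (nat_lit 342) (nat_lit 289) (nat_lit 149))) (XT.nd (nat_lit 78) (nat_lit 76) (nat_lit 0) (XT.lf (nat_lit 0) (nat_lit 62243894586) (nat_lit 228) (nat_lit 242231605) (nat_lit 76) (nat_lit 31440807608) (nat_lit 18) (nat_lit 5) (nat_lit 21) (nat_lit 5) (nat_lit 19) (nat_lit 4) (nat_lit 343) (nat_lit 289) (nat_lit 148)) (XT.nd (nat_lit 78) (nat_lit 0) (nat_lit 0) (XT.lf (nat_lit 0) (nat_lit 32467323332) (nat_lit 76) (nat_lit 45735509848) (nat_lit 152) (nat_lit 19453279989) (nat_lit 17) (nat_lit 5) (nat_lit 18) (nat_lit 5) (nat_lit 19) (nat_lit 4) (nat_lit 344) (nat_lit 289) (nat_lit 147)) (XT.lf (nat_lit 0) (nat_lit 66817651469) (nat_lit 76) (nat_lit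 28144351851) (nat_lit 152) (nat_lit 6609635879) (nat_lit 17) (nat_lit 5) (nat_lit 18) (nat_lit 5) (nat_lit 19) (nat_lit 4) (nat_lit 345) (nat_lit 289) (nat_lit 146)))))) (XT.nd (nat_lit 390) (nat_lit 152) (nat_lit 0) (XT.nd (nat_lit 156) (nat_lit 76) (nat_lit 0) (XT.nd (nat_lit 78) (nat_lit 152) (nat_lit 0) (XT.lf (nat_lit 0) (nat_lit 6654348110) (nat_lit 152) (nat_lit 2907828084) (nat_lit 76) (nat_lit 96115487313) (nat_lit 16) (nat_lit 5) (nat_lit 18) (nat_lit 5) (nat_lit 17) (nat_lit 5) (nat_lit 346) (nat_lit 289) (nat_lit 145)) (XT.lf (nat_lit 0) (nat_lit 21013496476) (nat_lit 228) (nat_lit 78699053390) (nat_lit 76) (nat_lit 10238318475) (nat_lit 14) (nat_lit 5) (nat_lit 17) (nat_lit 5) (nat_lit 15) (nat_lit 4) (nat_lit 347) (nat_lit 289) (nat_lit 144))) (XT.nd (nat_lit 78) (nat_lit 76) (nat_lit 0) (XT.lf (nat_lit 0) (nat_lit 36295751580) (nat_lit 228) (nat_lit 47375342494) (nat_lit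 76) (nat_lit 30756383458) (nat_lit 14) (nat_lit 5) (nat_lit 17) (nat_lit 5) (nat_lit 15) (nat_lit 4) (nat_lit 348) (nat_lit 289) (nat_lit 143)) (XT.nd (nat_lit 78) (nat_lit 76) (nat_lit 0) (XT.lf (nat_lit 0) (nat_lit 52340538064) (nat_lit 228) (nat_lit 14488208361) (nat_lit 76) (nat_lit 52299251332) (nat_lit 14) (nat_lit 5) (nat_lit 17) (nat_lit 5) (nat_lit 15) (nat_lit 4) (nat_lit 349) (nat_lit 289) (nat_lit 142)) (XT.lf (nat_lit 0) (nat_lit 20703286159) (nat_lit 76) (nat_lit 48806007959) (nat_lit 152) (nat_lit 54538164797) (nat_lit 13) (nat_lit 5) (nat_lit 14) (nat_lit 5) (nat_lit 15) (nat_lit 4) (nat_lit 350) (nat_lit 289) (nat_lit 141))))) (XT.nd (nat_lit 156) (nat_lit 152) (nat_lit 0) (XT.nd (nat_lit 78) (nat_lit 0) (nat_lit 0) (XT.lf (nat_lit 0) (nat_lit 58154764947) (nat_lit 76) (nat_lit 29625613082) (nat_lit 152) (nat_lit 41420321965) (nat_lit 13) (nat_lit 5) (nat_lit 14) (nat_lit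 5) (nat_lit 15) (nat_lit 4) (nat_lit 351) (nat_lit 289) (nat_lit 140)) (XT.lf (nat_lit 0) (nat_lit 97476352589) (nat_lit 76) (nat_lit 9487259006) (nat_lit 152) (nat_lit 27648063058) (nat_lit 13) (nat_lit 5) (nat_lit 14) (nat_lit 5) (nat_lit 15) (nat_lit 4) (nat_lit 352) (nat_lit 289) (nat_lit 139))) (XT.nd (nat_lit 78) (nat_lit 152) (nat_lit 0) (XT.lf (nat_lit 0) (nat_lit 127286667668) (nat_lit 152) (nat_lit 1713592734) (nat_lit 0) (nat_lit 11283905842) (nat_lit 13) (nat_lit 5) (nat_lit 15) (nat_lit 4) (nat_lit 13) (nat_lit 4) (nat_lit 353) (nat_lit 289) (nat_lit 138)) (XT.nd (nat_lit 78) (nat_lit 0) (nat_lit 0) (XT.lf (nat_lit 0) (nat_lit 3045046940) (nat_lit 152) (nat_lit 109763906511) (nat_lit 76) (nat_lit 33392677458) (nat_lit 11) (nat_lit 5) (nat_lit 13) (nat_lit 5) (nat_lit 12) (nat_lit 4) (nat_lit 354) (nat_lit 289) (nat_lit 137)) (XT.lf (nat_lit 0) (nat_lit 19481130325) (nat_lit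 152) (nat_lit 76073260254) (nat_lit 76) (nat_lit 56848515025) (nat_lit 11) (nat_lit 5) (nat_lit 13) (nat_lit 5) (nat_lit 12) (nat_lit 4) (nat_lit 355) (nat_lit 289) (nat_lit 136))))))))
noncomputable def xc189 : XT := (XT.nd (nat_lit 1482) (nat_lit 0) (nat_lit 0) (XT.nd (nat_lit 702) (nat_lit 228) (nat_lit 0) (XT.nd (nat_lit 312) (nat_lit 76) (nat_lit 0) (XT.nd (nat_lit 156) (nat_lit 76) (nat_lit 0) (XT.nd (nat_lit 78) (nat_lit 0) (nat_lit 0) (XT.lf (nat_lit 0) (nat_lit 36737794549) (nat_lit 152) (nat_lit 40700264957) (nat_lit 76) (nat_lit 81476246712) (nat_lit 11) (nat_lit 5) (nat_lit 13) (nat_lit 5) (nat_lit 12) (nat_lit 4) (nat_lit 356) (nat_lit 289) (nat_lit 135)) (XT.lf (nat_lit 0) (nat_lit 54856126909) (nat_lit 152) (nat_lit 3560699203) (nat_lit 76) (nat_lit 107334509975) (nat_lit 11) (nat_lit 5) (nat_lit 13) (nat_lit 5) (nat_lit 12) (nat_lit 4) (nat_lit 357) (nat_lit 289) (nat_lit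 134))) (XT.nd (nat_lit 78) (nat_lit 0) (nat_lit 0) (XT.lf (nat_lit 0) (nat_lit 36605468130) (nat_lit 76) (nat_lit 37845312104) (nat_lit 152) (nat_lit 98450917922) (nat_lit 10) (nat_lit 5) (nat_lit 11) (nat_lit 5) (nat_lit 12) (nat_lit 4) (nat_lit 358) (nat_lit 289) (nat_lit 133)) (XT.lf (nat_lit 0) (nat_lit 78901614914) (nat_lit 76) (nat_lit 16182766299) (nat_lit 152) (nat_lit 85322237246) (nat_lit 10) (nat_lit 5) (nat_lit 11) (nat_lit 5) (nat_lit 12) (nat_lit 4) (nat_lit 359) (nat_lit 289) (nat_lit 132)))) (XT.nd (nat_lit 156) (nat_lit 76) (nat_lit 0) (XT.nd (nat_lit 78) (nat_lit 0) (nat_lit 0) (XT.lf (nat_lit 0) (nat_lit 116851079397) (nat_lit 152) (nat_lit 65078576487) (nat_lit 0) (nat_lit 6352058875) (nat_lit 10) (nat_lit 5) (nat_lit 12) (nat_lit 4) (nat_lit 10) (nat_lit 4) (nat_lit 360) (nat_lit 289) (nat_lit 131)) (XT.lf (nat_lit 0) (nat_lit 139970405444) (nat_lit 152) (nat_lit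 27097924447) (nat_lit 0) (nat_lit 29469022133) (nat_lit 10) (nat_lit 5) (nat_lit 12) (nat_lit 4) (nat_lit 10) (nat_lit 4) (nat_lit 361) (nat_lit 289) (nat_lit 130))) (XT.nd (nat_lit 78) (nat_lit 0) (nat_lit 0) (XT.lf (nat_lit 0) (nat_lit 13202606902) (nat_lit 76) (nat_lit 151248269825) (nat_lit 76) (nat_lit 40744636239) (nat_lit 9) (nat_lit 4) (nat_lit 10) (nat_lit 5) (nat_lit 10) (nat_lit 4) (nat_lit 362) (nat_lit 289) (nat_lit 129)) (XT.nd (nat_lit 78) (nat_lit 0) (nat_lit 0) (XT.lf (nat_lit 0) (nat_lit 56457252134) (nat_lit 76) (nat_lit 134156104011) (nat_lit 76) (nat_lit 23650327306) (nat_lit 9) (nat_lit 4) (nat_lit 10) (nat_lit 5) (nat_lit 10) (nat_lit 4) (nat_lit 363) (nat_lit 289) (nat_lit 128)) (XT.lf (nat_lit 0) (nat_lit 101873018736) (nat_lit 76) (nat_lit 116210053280) (nat_lit 76) (nat_lit 5702235510) (nat_lit 9) (nat_lit 4) (nat_lit 10) (nat_lit 5) (nat_lit 10) (nat_lit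 4) (nat_lit 364) (nat_lit 289) (nat_lit 127)))))) (XT.nd (nat_lit 390) (nat_lit 76) (nat_lit 0) (XT.nd (nat_lit 156) (nat_lit 76) (nat_lit 0) (XT.nd (nat_lit 78) (nat_lit 0) (nat_lit 0) (XT.lf (nat_lit 0) (nat_lit 12721734700) (nat_lit 152) (nat_lit 84430205506) (nat_lit 76) (nat_lit 136620856054) (nat_lit 8) (nat_lit 5) (nat_lit 10) (nat_lit 5) (nat_lit 9) (nat_lit 4) (nat_lit 365) (nat_lit 289) (nat_lit 126)) (XT.lf (nat_lit 0) (nat_lit 31874452109) (nat_lit 152) (nat_lit 45168986124) (nat_lit 76) (nat_lit 167211588771) (nat_lit 8) (nat_lit 5) (nat_lit 10) (nat_lit 5) (nat_lit 9) (nat_lit 4) (nat_lit 366) (nat_lit 289) (nat_lit 125))) (XT.nd (nat_lit 78) (nat_lit 76) (nat_lit 0) (XT.lf (nat_lit 0) (nat_lit 51984025573) (nat_lit 152) (nat_lit 3946123671) (nat_lit 76) (nat_lit 199331259598) (nat_lit 8) (nat_lit 5) (nat_lit 10) (nat_lit 5) (nat_lit 9) (nat_lit 4) (nat_lit 367) (nat_lit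 289) (nat_lit 124)) (XT.nd (nat_lit 78) (nat_lit 0) (nat_lit 0) (XT.lf (nat_lit 0) (nat_lit 40637174903) (nat_lit 76) (nat_lit 33095620311) (nat_lit 152) (nat_lit 193053629224) (nat_lit 7) (nat_lit 5) (nat_lit 8) (nat_lit 5) (nat_lit 9) (nat_lit 4) (nat_lit 368) (nat_lit 289) (nat_lit 123)) (XT.lf (nat_lit 0) (nat_lit 87585310310) (nat_lit 76) (nat_lit 9049794482) (nat_lit 152) (nat_lit 182249281464) (nat_lit 7) (nat_lit 5) (nat_lit 8) (nat_lit 5) (nat_lit 9) (nat_lit 4) (nat_lit 369) (nat_lit 289) (nat_lit 122))))) (XT.nd (nat_lit 156) (nat_lit 76) (nat_lit 0) (XT.nd (nat_lit 78) (nat_lit 0) (nat_lit 0) (XT.lf (nat_lit 0) (nat_lit 120934728743) (nat_lit 152) (nat_lit 154960586454) (nat_lit 0) (nat_lit 15679321514) (nat_lit 7) (nat_lit 5) (nat_lit 9) (nat_lit 4) (nat_lit 7) (nat_lit 4) (nat_lit 370) (nat_lit 289) (nat_lit 121)) (XT.lf (nat_lit 0) (nat_lit 146597022302) (nat_lit 152)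 (nat_lit 116954759833) (nat_lit 0) (nat_lit 41340233600) (nat_lit 7) (nat_lit 5) (nat_lit 9) (nat_lit 4) (nat_lit 7) (nat_lit 4) (nat_lit 371) (nat_lit 289) (nat_lit 120))) (XT.nd (nat_lit 78) (nat_lit 76) (nat_lit 0) (XT.lf (nat_lit 0) (nat_lit 173541793515) (nat_lit 152) (nat_lit 77049813367) (nat_lit 0) (nat_lit 68283689123) (nat_lit 7) (nat_lit 5) (nat_lit 9) (nat_lit 4) (nat_lit 7) (nat_lit 4) (nat_lit 372) (nat_lit 289) (nat_lit 119)) (XT.nd (nat_lit 78) (nat_lit 76) (nat_lit 0) (XT.lf (nat_lit 0) (nat_lit 201833196598) (nat_lit 152) (nat_lit 35150735279) (nat_lit 0) (nat_lit 96573839169) (nat_lit 7) (nat_lit 5) (nat_lit 9) (nat_lit 4) (nat_lit 7) (nat_lit 4) (nat_lit 373) (nat_lit 289) (nat_lit 118)) (XT.lf (nat_lit 0) (nat_lit 9134598334) (nat_lit 76) (nat_lit 222546610382) (nat_lit 76) (nat_lit 117286059584) (nat_lit 6) (nat_lit 4) (nat_lit 7) (nat_lit 5) (nat_lit 7) (nat_lit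 4) (nat_lit 374) (nat_lit 289) (nat_lit 117))))))) (XT.nd (nat_lit 34320) (nat_lit 0) (nat_lit 4864) (XT.nd (nat_lit 390) (nat_lit 0) (nat_lit 0) (XT.nd (nat_lit 156) (nat_lit 0) (nat_lit 0) (XT.nd (nat_lit 78) (nat_lit 0) (nat_lit 0) (XT.lf (nat_lit 0) (nat_lit 56853507350) (nat_lit 76) (nat_lit 206762842192) (nat_lit 76) (nat_lit 101501154853) (nat_lit 6) (nat_lit 4) (nat_lit 7) (nat_lit 5) (nat_lit 7) (nat_lit 4) (nat_lit 375) (nat_lit 289) (nat_lit 116)) (XT.lf (nat_lit 0) (nat_lit 106957366165) (nat_lit 76) (nat_lit 190190341618) (nat_lit 76) (nat_lit 84927571858) (nat_lit 6) (nat_lit 4) (nat_lit 7) (nat_lit 5) (nat_lit 7) (nat_lit 4) (nat_lit 376) (nat_lit 289) (nat_lit 115))) (XT.nd (nat_lit 78) (nat_lit 0) (nat_lit 0) (XT.lf (nat_lit 0) (nat_lit 159565469682) (nat_lit 76) (nat_lit 172789650325) (nat_lit 76) (nat_lit 67525849688) (nat_lit 6) (nat_lit 4) (nat_lit 7) (nat_lit 5)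 (nat_lit 7) (nat_lit 4) (nat_lit 377) (nat_lit 289) (nat_lit 114)) (XT.nd (nat_lit 78) (nat_lit 0) (nat_lit 0) (XT.lf (nat_lit 0) (nat_lit 214803075289) (nat_lit 76) (nat_lit 154519338095) (nat_lit 76) (nat_lit 49254555671) (nat_lit 6) (nat_lit 4) (nat_lit 7) (nat_lit 5) (nat_lit 7) (nat_lit 4) (nat_lit 378) (nat_lit 289) (nat_lit 113)) (XT.lf (nat_lit 0) (nat_lit 272801701095) (nat_lit 76) (nat_lit 135335904186) (nat_lit 76) (nat_lit 30070186726) (nat_lit 6) (nat_lit 4) (nat_lit 7) (nat_lit 5) (nat_lit 7) (nat_lit 4) (nat_lit 379) (nat_lit 289) (nat_lit 112))))) (XT.nd (nat_lit 33696) (nat_lit 0) (nat_lit 5700) (XT.nd (nat_lit 33618) (nat_lit 0) (nat_lit 5700) (XT.lf (nat_lit 0) (nat_lit 333699439066) (nat_lit 76) (nat_lit 115193673755) (nat_lit 76) (nat_lit 9927065785) (nat_lit 6) (nat_lit 4) (nat_lit 7) (nat_lit 5) (nat_lit 7) (nat_lit 4) (nat_lit 380) (nat_lit 289) (nat_lit 111))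 (XT.lf (nat_lit 0) (nat_lit 2216062324) (nat_lit 0) (nat_lit 2216062324) (nat_lit 684) (nat_lit 4490007359) (nat_lit 81) (nat_lit 5) (nat_lit 81) (nat_lit 3) (nat_lit 90) (nat_lit 3) (nat_lit 290) (nat_lit 290) (nat_lit 200))) (XT.nd (nat_lit 78) (nat_lit 0) (nat_lit 0) (XT.lf (nat_lit 0) (nat_lit 9332798824) (nat_lit 684) (nat_lit 5609896179) (nat_lit 760) (nat_lit 3334819879) (nat_lit 81) (nat_lit 5) (nat_lit 90) (nat_lit 3) (nat_lit 91) (nat_lit 5) (nat_lit 291) (nat_lit 290) (nat_lit 199)) (XT.nd (nat_lit 78) (nat_lit 0) (nat_lit 76) (XT.lf (nat_lit 76) (nat_lit 2585628145) (nat_lit 0) (nat_lit 7339906496) (nat_lit 760) (nat_lit 8801888264) (nat_lit 82) (nat_lit 5) (nat_lit 81) (nat_lit 5) (nat_lit 91) (nat_lit 5) (nat_lit 292) (nat_lit 290) (nat_lit 198)) (XT.lf (nat_lit 0) (nat_lit 10642797910) (nat_lit 684) (nat_lit 7828497115) (nat_lit 760) (nat_lit 723817776) (nat_lit 82) (nat_lit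 5) (nat_lit 91) (nat_lit 5) (nat_lit 92) (nat_lit 5) (nat_lit 293) (nat_lit 290) (nat_lit 197)))))) (XT.nd (nat_lit 390) (nat_lit 912) (nat_lit 0) (XT.nd (nat_lit 156) (nat_lit 0) (nat_lit 76) (XT.nd (nat_lit 78) (nat_lit 0) (nat_lit 0) (XT.lf (nat_lit 76) (nat_lit 798539352) (nat_lit 0) (nat_lit 10719024007) (nat_lit 760) (nat_lit 8162571411) (nat_lit 83) (nat_lit 5) (nat_lit 82) (nat_lit 5) (nat_lit 92) (nat_lit 5) (nat_lit 294) (nat_lit 290) (nat_lit 196)) (XT.lf (nat_lit 76) (nat_lit 10121672868) (nat_lit 0) (nat_lit 2436240069) (nat_lit 760) (nat_lit 7625430729) (nat_lit 83) (nat_lit 5) (nat_lit 82) (nat_lit 5) (nat_lit 92) (nat_lit 5) (nat_lit 295) (nat_lit 290) (nat_lit 195))) (XT.nd (nat_lit 78) (nat_lit 0) (nat_lit 0) (XT.lf (nat_lit 0) (nat_lit 13737859274) (nat_lit 684) (nat_lit 905796702) (nat_lit 760) (nat_lit 6063704848) (nat_lit 83) (nat_lit 5) (nat_lit 92) (nat_lit 5)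 (nat_lit 93) (nat_lit 5) (nat_lit 296) (nat_lit 290) (nat_lit 194)) (XT.nd (nat_lit 78) (nat_lit 0) (nat_lit 76) (XT.lf (nat_lit 76) (nat_lit 8947351532) (nat_lit 0) (nat_lit 6199399632) (nat_lit 760) (nat_lit 6102355775) (nat_lit 84) (nat_lit 5) (nat_lit 83) (nat_lit 5) (nat_lit 93) (nat_lit 5) (nat_lit 297) (nat_lit 290) (nat_lit 193)) (XT.lf (nat_lit 0) (nat_lit 16674029477) (nat_lit 684) (nat_lit 2541830663) (nat_lit 760) (nat_lit 2599707419) (nat_lit 84) (nat_lit 5) (nat_lit 93) (nat_lit 5) (nat_lit 94) (nat_lit 5) (nat_lit 298) (nat_lit 290) (nat_lit 192))))) (XT.nd (nat_lit 156) (nat_lit 1064) (nat_lit 0) (XT.nd (nat_lit 78) (nat_lit 0) (nat_lit 0) (XT.lf (nat_lit 76) (nat_lit 7848647700) (nat_lit 0) (nat_lit 10644345099) (nat_lit 760) (nat_lit 3906615492) (nat_lit 85) (nat_lit 5) (nat_lit 84) (nat_lit 5) (nat_lit 94) (nat_lit 5) (nat_lit 299) (nat_lit 290) (nat_lit 191)) (XT.lf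 (nat_lit 76) (nat_lit 18839990956) (nat_lit 0) (nat_lit 1597426178) (nat_lit 760) (nat_lit 2573730319) (nat_lit 85) (nat_lit 5) (nat_lit 84) (nat_lit 5) (nat_lit 94) (nat_lit 5) (nat_lit 300) (nat_lit 290) (nat_lit 190))) (XT.nd (nat_lit 78) (nat_lit 456) (nat_lit 0) (XT.lf (nat_lit 0) (nat_lit 6815374082) (nat_lit 684) (nat_lit 15885361864) (nat_lit 760) (nat_lit 941464949) (nat_lit 76) (nat_lit 5) (nat_lit 85) (nat_lit 5) (nat_lit 86) (nat_lit 5) (nat_lit 301) (nat_lit 290) (nat_lit 189)) (XT.nd (nat_lit 78) (nat_lit 380) (nat_lit 0) (XT.lf (nat_lit 0) (nat_lit 837704150) (nat_lit 760) (nat_lit 5851833267) (nat_lit 76) (nat_lit 17610185022) (nat_lit 75) (nat_lit 5) (nat_lit 85) (nat_lit 5) (nat_lit 76) (nat_lit 5) (nat_lit 302) (nat_lit 290) (nat_lit 188)) (XT.lf (nat_lit 0) (nat_lit 2805788690) (nat_lit 456) (nat_lit 19196834069) (nat_lit 76) (nat_lit 2980163919) (nat_lit 70) (nat_lit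 5) (nat_lit 76) (nat_lit 5) (nat_lit 71) (nat_lit 5) (nat_lit 303) (nat_lit 290) (nat_lit 187))))))))
noncomputable def xc190 : XT := (XT.nd (nat_lit 1482) (nat_lit 1444) (nat_lit 0) (XT.nd (nat_lit 702) (nat_lit 1216) (nat_lit 0) (XT.nd (nat_lit 312) (nat_lit 608) (nat_lit 0) (XT.nd (nat_lit 156) (nat_lit 304) (nat_lit 0) (XT.nd (nat_lit 78) (nat_lit 380) (nat_lit 0) (XT.lf (nat_lit 0) (nat_lit 5075342144) (nat_lit 456) (nat_lit 7604685720) (nat_lit 76) (nat_lit 13009840293) (nat_lit 70) (nat_lit 5) (nat_lit 76) (nat_lit 5) (nat_lit 71) (nat_lit 5) (nat_lit 304) (nat_lit 290) (nat_lit 186)) (XT.lf (nat_lit 0) (nat_lit 4711055337) (nat_lit 380) (nat_lit 2813891531) (nat_lit 456) (nat_lit 18904044605) (nat_lit 65) (nat_lit 5) (nat_lit 70) (nat_lit 5) (nat_lit 71) (nat_lit 5) (nat_lit 305) (nat_lit 290) (nat_lit 185))) (XT.nd (nat_lit 78) (nat_lit 304) (nat_lit 0) (XT.lf (nat_lit 0) (nat_lit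 10338989091) (nat_lit 456) (nat_lit 9418991504) (nat_lit 76) (nat_lit 7435008158) (nat_lit 65) (nat_lit 5) (nat_lit 71) (nat_lit 5) (nat_lit 66) (nat_lit 5) (nat_lit 306) (nat_lit 290) (nat_lit 184)) (XT.lf (nat_lit 0) (nat_lit 3555874061) (nat_lit 304) (nat_lit 9833077057) (nat_lit 380) (nat_lit 14601488807) (nat_lit 61) (nat_lit 5) (nat_lit 65) (nat_lit 5) (nat_lit 66) (nat_lit 5) (nat_lit 307) (nat_lit 290) (nat_lit 183)))) (XT.nd (nat_lit 156) (nat_lit 304) (nat_lit 0) (XT.nd (nat_lit 78) (nat_lit 304) (nat_lit 0) (XT.lf (nat_lit 0) (nat_lit 16756491322) (nat_lit 380) (nat_lit 11332013915) (nat_lit 76) (nat_lit 731018618) (nat_lit 61) (nat_lit 5) (nat_lit 66) (nat_lit 5) (nat_lit 62) (nat_lit 5) (nat_lit 308) (nat_lit 290) (nat_lit 182)) (XT.lf (nat_lit 0) (nat_lit 2332534172) (nat_lit 304) (nat_lit 18151554930) (nat_lit 380) (nat_lit 9196402378) (nat_lit 57) (nat_lit 5) (nat_lit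 61) (nat_lit 5) (nat_lit 62) (nat_lit 5) (nat_lit 309) (nat_lit 290) (nat_lit 181))) (XT.nd (nat_lit 78) (nat_lit 304) (nat_lit 0) (XT.lf (nat_lit 0) (nat_lit 17067248743) (nat_lit 304) (nat_lit 7516977751) (nat_lit 380) (nat_lit 5990985890) (nat_lit 57) (nat_lit 5) (nat_lit 61) (nat_lit 5) (nat_lit 62) (nat_lit 5) (nat_lit 310) (nat_lit 290) (nat_lit 180)) (XT.nd (nat_lit 78) (nat_lit 76) (nat_lit 0) (XT.lf (nat_lit 0) (nat_lit 992365825) (nat_lit 228) (nat_lit 27963984492) (nat_lit 304) (nat_lit 2554982308) (nat_lit 54) (nat_lit 5) (nat_lit 57) (nat_lit 5) (nat_lit 58) (nat_lit 5) (nat_lit 311) (nat_lit 290) (nat_lit 179)) (XT.lf (nat_lit 0) (nat_lit 1369441287) (nat_lit 304) (nat_lit 15946095863) (nat_lit 76) (nat_lit 15160395147) (nat_lit 53) (nat_lit 5) (nat_lit 57) (nat_lit 5) (nat_lit 54) (nat_lit 5) (nat_lit 312) (nat_lit 290) (nat_lit 178)))))) (XT.nd (nat_lit 390) (nat_lit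 684) (nat_lit 0) (XT.nd (nat_lit 156) (nat_lit 228) (nat_lit 0) (XT.nd (nat_lit 78) (nat_lit 304) (nat_lit 0) (XT.lf (nat_lit 0) (nat_lit 5399053736) (nat_lit 304) (nat_lit 692691169) (nat_lit 76) (nat_lit 27395191806) (nat_lit 53) (nat_lit 5) (nat_lit 57) (nat_lit 5) (nat_lit 54) (nat_lit 5) (nat_lit 313) (nat_lit 290) (nat_lit 177)) (XT.lf (nat_lit 0) (nat_lit 9965202242) (nat_lit 380) (nat_lit 18805396931) (nat_lit 76) (nat_lit 5761149497) (nat_lit 49) (nat_lit 5) (nat_lit 54) (nat_lit 5) (nat_lit 50) (nat_lit 5) (nat_lit 314) (nat_lit 290) (nat_lit 176))) (XT.nd (nat_lit 78) (nat_lit 228) (nat_lit 0) (XT.lf (nat_lit 0) (nat_lit 14866651014) (nat_lit 380) (nat_lit 2743941077) (nat_lit 76) (nat_lit 18012869107) (nat_lit 49) (nat_lit 5) (nat_lit 54) (nat_lit 5) (nat_lit 50) (nat_lit 5) (nat_lit 315) (nat_lit 290) (nat_lit 175)) (XT.nd (nat_lit 78) (nat_lit 0) (nat_lit 0) (XT.lf (nat_lit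 0) (nat_lit 14581510896) (nat_lit 228) (nat_lit 5654752718) (nat_lit 304) (nat_lit 16522350324) (nat_lit 46) (nat_lit 5) (nat_lit 49) (nat_lit 5) (nat_lit 50) (nat_lit 5) (nat_lit 316) (nat_lit 290) (nat_lit 174)) (XT.lf (nat_lit 0) (nat_lit 26024841895) (nat_lit 304) (nat_lit 5194068654) (nat_lit 76) (nat_lit 6724098232) (nat_lit 46) (nat_lit 5) (nat_lit 50) (nat_lit 5) (nat_lit 47) (nat_lit 5) (nat_lit 317) (nat_lit 290) (nat_lit 173))))) (XT.nd (nat_lit 156) (nat_lit 456) (nat_lit 0) (XT.nd (nat_lit 78) (nat_lit 0) (nat_lit 0) (XT.lf (nat_lit 0) (nat_lit 12954425671) (nat_lit 228) (nat_lit 19439133886) (nat_lit 304) (nat_lit 6778536593) (nat_lit 43) (nat_lit 5) (nat_lit 46) (nat_lit 5) (nat_lit 47) (nat_lit 5) (nat_lit 318) (nat_lit 290) (nat_lit 172)) (XT.lf (nat_lit 0) (nat_lit 32185148147) (nat_lit 228) (nat_lit 6979399662) (nat_lit 304) (nat_lit 1293906250) (nat_lit 43) (nat_lit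 5) (nat_lit 46) (nat_lit 5) (nat_lit 47) (nat_lit 5) (nat_lit 319) (nat_lit 290) (nat_lit 171))) (XT.nd (nat_lit 78) (nat_lit 228) (nat_lit 0) (XT.lf (nat_lit 0) (nat_lit 4586474754) (nat_lit 228) (nat_lit 31056456564) (nat_lit 76) (nat_lit 6149498917) (nat_lit 40) (nat_lit 5) (nat_lit 43) (nat_lit 5) (nat_lit 41) (nat_lit 5) (nat_lit 320) (nat_lit 290) (nat_lit 170)) (XT.nd (nat_lit 78) (nat_lit 228) (nat_lit 0) (XT.lf (nat_lit 0) (nat_lit 10970297989) (nat_lit 228) (nat_lit 12346568716) (nat_lit 76) (nat_lit 19862539422) (nat_lit 40) (nat_lit 5) (nat_lit 43) (nat_lit 5) (nat_lit 41) (nat_lit 5) (nat_lit 321) (nat_lit 290) (nat_lit 169)) (XT.lf (nat_lit 0) (nat_lit 7534741878) (nat_lit 228) (nat_lit 10252476717) (nat_lit 304) (nat_lit 26842823414) (nat_lit 37) (nat_lit 5) (nat_lit 40) (nat_lit 5) (nat_lit 41) (nat_lit 5) (nat_lit 322) (nat_lit 290) (nat_lit 168))))))) (XT.nd (nat_lit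 780) (nat_lit 684) (nat_lit 0) (XT.nd (nat_lit 390) (nat_lit 304) (nat_lit 0) (XT.nd (nat_lit 156) (nat_lit 304) (nat_lit 0) (XT.nd (nat_lit 78) (nat_lit 152) (nat_lit 0) (XT.lf (nat_lit 0) (nat_lit 25207950128) (nat_lit 304) (nat_lit 17366830589) (nat_lit 76) (nat_lit 3565286921) (nat_lit 37) (nat_lit 5) (nat_lit 41) (nat_lit 5) (nat_lit 38) (nat_lit 5) (nat_lit 323) (nat_lit 290) (nat_lit 167)) (XT.lf (nat_lit 0) (nat_lit 3279909068) (nat_lit 152) (nat_lit 29935606900) (nat_lit 228) (nat_lit 14499294595) (nat_lit 35) (nat_lit 5) (nat_lit 37) (nat_lit 5) (nat_lit 38) (nat_lit 5) (nat_lit 324) (nat_lit 290) (nat_lit 166))) (XT.nd (nat_lit 78) (nat_lit 304) (nat_lit 0) (XT.lf (nat_lit 0) (nat_lit 25556946877) (nat_lit 152) (nat_lit 16357232900) (nat_lit 228) (nat_lit 7439580495) (nat_lit 35) (nat_lit 5) (nat_lit 37) (nat_lit 5) (nat_lit 38) (nat_lit 5) (nat_lit 325) (nat_lit 290) (nat_lit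 165)) (XT.nd (nat_lit 78) (nat_lit 304) (nat_lit 0) (XT.lf (nat_lit 0) (nat_lit 48943097554) (nat_lit 152) (nat_lit 2101444933) (nat_lit 228) (nat_lit 30282046) (nat_lit 35) (nat_lit 5) (nat_lit 37) (nat_lit 5) (nat_lit 38) (nat_lit 5) (nat_lit 326) (nat_lit 290) (nat_lit 164)) (XT.lf (nat_lit 0) (nat_lit 8037084118) (nat_lit 304) (nat_lit 31899273615) (nat_lit 76) (nat_lit 12912757846) (nat_lit 31) (nat_lit 5) (nat_lit 35) (nat_lit 5) (nat_lit 32) (nat_lit 5) (nat_lit 327) (nat_lit 290) (nat_lit 163))))) (XT.nd (nat_lit 156) (nat_lit 152) (nat_lit 0) (XT.nd (nat_lit 78) (nat_lit 152) (nat_lit 0) (XT.lf (nat_lit 0) (nat_lit 16574863849) (nat_lit 304) (nat_lit 9491037732) (nat_lit 76) (nat_lit 28642796251) (nat_lit 31) (nat_lit 5) (nat_lit 35) (nat_lit 5) (nat_lit 32) (nat_lit 5) (nat_lit 328) (nat_lit 290) (nat_lit 162)) (XT.lf (nat_lit 0) (nat_lit 14497150657) (nat_lit 152) (nat_lit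 11265789109) (nat_lit 228) (nat_lit 30887153475) (nat_lit 29) (nat_lit 5) (nat_lit 31) (nat_lit 5) (nat_lit 32) (nat_lit 5) (nat_lit 329) (nat_lit 290) (nat_lit 161))) (XT.nd (nat_lit 78) (nat_lit 152) (nat_lit 0) (XT.lf (nat_lit 0) (nat_lit 35637637537) (nat_lit 228) (nat_lit 18740145317) (nat_lit 76) (nat_lit 4299418860) (nat_lit 29) (nat_lit 5) (nat_lit 32) (nat_lit 5) (nat_lit 30) (nat_lit 5) (nat_lit 330) (nat_lit 290) (nat_lit 160)) (XT.nd (nat_lit 78) (nat_lit 0) (nat_lit 0) (XT.lf (nat_lit 0) (nat_lit 5841268321) (nat_lit 152) (nat_lit 40437936444) (nat_lit 228) (nat_lit 14512808111) (nat_lit 27) (nat_lit 5) (nat_lit 29) (nat_lit 5) (nat_lit 30) (nat_lit 5) (nat_lit 331) (nat_lit 290) (nat_lit 159)) (XT.lf (nat_lit 0) (nat_lit 32298141961) (nat_lit 152) (nat_lit 25469397680) (nat_lit 228) (nat_lit 5229294295) (nat_lit 27) (nat_lit 5) (nat_lit 29) (nat_lit 5) (nat_lit 30) (nat_lit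 5) (nat_lit 332) (nat_lit 290) (nat_lit 158)))))) (XT.nd (nat_lit 390) (nat_lit 304) (nat_lit 0) (XT.nd (nat_lit 156) (nat_lit 152) (nat_lit 0) (XT.nd (nat_lit 78) (nat_lit 152) (nat_lit 0) (XT.lf (nat_lit 0) (nat_lit 4371176607) (nat_lit 228) (nat_lit 5308696016) (nat_lit 76) (nat_lit 55628629723) (nat_lit 26) (nat_lit 5) (nat_lit 29) (nat_lit 5) (nat_lit 27) (nat_lit 5) (nat_lit 333) (nat_lit 290) (nat_lit 157)) (XT.lf (nat_lit 0) (nat_lit 14731095742) (nat_lit 228) (nat_lit 45865023315) (nat_lit 76) (nat_lit 7112593936) (nat_lit 24) (nat_lit 5) (nat_lit 27) (nat_lit 5) (nat_lit 25) (nat_lit 5) (nat_lit 334) (nat_lit 290) (nat_lit 156))) (XT.nd (nat_lit 78) (nat_lit 152) (nat_lit 0) (XT.lf (nat_lit 0) (nat_lit 25856634009) (nat_lit 228) (nat_lit 19850555637) (nat_lit 76) (nat_lit 24509366497) (nat_lit 24) (nat_lit 5) (nat_lit 27) (nat_lit 5) (nat_lit 25) (nat_lit 5) (nat_lit 335)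 (nat_lit 290) (nat_lit 155)) (XT.nd (nat_lit 78) (nat_lit 0) (nat_lit 0) (XT.lf (nat_lit 0) (nat_lit 7707556771) (nat_lit 152) (nat_lit 29948902831) (nat_lit 228) (nat_lit 35187434309) (nat_lit 22) (nat_lit 5) (nat_lit 24) (nat_lit 5) (nat_lit 25) (nat_lit 5) (nat_lit 336) (nat_lit 290) (nat_lit 154)) (XT.lf (nat_lit 0) (nat_lit 37329033448) (nat_lit 152) (nat_lit 13051148523) (nat_lit 228) (nat_lit 25205724159) (nat_lit 22) (nat_lit 5) (nat_lit 24) (nat_lit 5) (nat_lit 25) (nat_lit 5) (nat_lit 337) (nat_lit 290) (nat_lit 153))))) (XT.nd (nat_lit 156) (nat_lit 228) (nat_lit 0) (XT.nd (nat_lit 78) (nat_lit 76) (nat_lit 0) (XT.lf (nat_lit 0) (nat_lit 63811151473) (nat_lit 228) (nat_lit 10110303245) (nat_lit 76) (nat_lit 4540013897) (nat_lit 22) (nat_lit 5) (nat_lit 25) (nat_lit 5) (nat_lit 23) (nat_lit 4) (nat_lit 338) (nat_lit 290) (nat_lit 152)) (XT.lf (nat_lit 0) (nat_lit 19861897718)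 (nat_lit 76) (nat_lit 58573742635) (nat_lit 152) (nat_lit 3019072901) (nat_lit 21) (nat_lit 5) (nat_lit 22) (nat_lit 5) (nat_lit 23) (nat_lit 4) (nat_lit 339) (nat_lit 290) (nat_lit 151))) (XT.nd (nat_lit 78) (nat_lit 152) (nat_lit 0) (XT.lf (nat_lit 0) (nat_lit 9071434667) (nat_lit 152) (nat_lit 33055153906) (nat_lit 76) (nat_lit 42455258990) (nat_lit 20) (nat_lit 5) (nat_lit 22) (nat_lit 5) (nat_lit 21) (nat_lit 5) (nat_lit 340) (nat_lit 290) (nat_lit 150)) (XT.nd (nat_lit 78) (nat_lit 152) (nat_lit 0) (XT.lf (nat_lit 0) (nat_lit 21663033819) (nat_lit 152) (nat_lit 3143400931) (nat_lit 76) (nat_lit 63056530068) (nat_lit 20) (nat_lit 5) (nat_lit 22) (nat_lit 5) (nat_lit 21) (nat_lit 5) (nat_lit 341) (nat_lit 290) (nat_lit 149)) (XT.lf (nat_lit 0) (nat_lit 29195227646) (nat_lit 152) (nat_lit 6142925416) (nat_lit 228) (nat_lit 55947289987) (nat_lit 18) (nat_lit 5) (nat_lit 20) (nat_lit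 5) (nat_lit 21) (nat_lit 5) (nat_lit 342) (nat_lit 290) (nat_lit 148))))))))
noncomputable def xc191 : XT := (XT.nd (nat_lit 1560) (nat_lit 304) (nat_lit 0) (XT.nd (nat_lit 780) (nat_lit 228) (nat_lit 0) (XT.nd (nat_lit 390) (nat_lit 228) (nat_lit 0) (XT.nd (nat_lit 156) (nat_lit 152) (nat_lit 0) (XT.nd (nat_lit 78) (nat_lit 0) (nat_lit 0) (XT.lf (nat_lit 0) (nat_lit 49959329351) (nat_lit 228) (nat_lit 31830552934) (nat_lit 76) (nat_lit 13076049868) (nat_lit 18) (nat_lit 5) (nat_lit 21) (nat_lit 5) (nat_lit 19) (nat_lit 4) (nat_lit 343) (nat_lit 290) (nat_lit 147)) (XT.lf (nat_lit 0) (nat_lit 65410499077) (nat_lit 228) (nat_lit 161625644) (nat_lit 76) (nat_lit 33048376183) (nat_lit 18) (nat_lit 5) (nat_lit 21) (nat_lit 5) (nat_lit 19) (nat_lit 4) (nat_lit 344) (nat_lit 290) (nat_lit 146))) (XT.nd (nat_lit 78) (nat_lit 76) (nat_lit 0) (XT.lf (nat_lit 0) (nat_lit 34181911596) (nat_lit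 76) (nat_lit 47984306297) (nat_lit 152) (nat_lit 20369982499) (nat_lit 17) (nat_lit 5) (nat_lit 18) (nat_lit 5) (nat_lit 19) (nat_lit 4) (nat_lit 345) (nat_lit 290) (nat_lit 145)) (XT.nd (nat_lit 78) (nat_lit 76) (nat_lit 0) (XT.lf (nat_lit 0) (nat_lit 70245412231) (nat_lit 76) (nat_lit 29515398926) (nat_lit 152) (nat_lit 6886821016) (nat_lit 17) (nat_lit 5) (nat_lit 18) (nat_lit 5) (nat_lit 19) (nat_lit 4) (nat_lit 346) (nat_lit 290) (nat_lit 144)) (XT.lf (nat_lit 0) (nat_lit 7036199640) (nat_lit 152) (nat_lit 2968805141) (nat_lit 76) (nat_lit 100954036575) (nat_lit 16) (nat_lit 5) (nat_lit 18) (nat_lit 5) (nat_lit 17) (nat_lit 5) (nat_lit 347) (nat_lit 290) (nat_lit 143))))) (XT.nd (nat_lit 156) (nat_lit 76) (nat_lit 0) (XT.nd (nat_lit 78) (nat_lit 0) (nat_lit 0) (XT.lf (nat_lit 0) (nat_lit 22112808242) (nat_lit 228) (nat_lit 82549048227) (nat_lit 76) (nat_lit 10784077139) (nat_lit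 14) (nat_lit 5) (nat_lit 17) (nat_lit 5) (nat_lit 15) (nat_lit 4) (nat_lit 348) (nat_lit 290) (nat_lit 142)) (XT.lf (nat_lit 0) (nat_lit 38156860057) (nat_lit 228) (nat_lit 49663197396) (nat_lit 76) (nat_lit 32326433812) (nat_lit 14) (nat_lit 5) (nat_lit 17) (nat_lit 5) (nat_lit 15) (nat_lit 4) (nat_lit 349) (nat_lit 290) (nat_lit 141))) (XT.nd (nat_lit 78) (nat_lit 76) (nat_lit 0) (XT.lf (nat_lit 0) (nat_lit 55001680108) (nat_lit 228) (nat_lit 15135559520) (nat_lit 76) (nat_lit 54944910261) (nat_lit 14) (nat_lit 5) (nat_lit 17) (nat_lit 5) (nat_lit 15) (nat_lit 4) (nat_lit 350) (nat_lit 290) (nat_lit 140)) (XT.nd (nat_lit 78) (nat_lit 0) (nat_lit 0) (XT.lf (nat_lit 0) (nat_lit 21814266835) (nat_lit 76) (nat_lit 51213690114) (nat_lit 152) (nat_lit 57219675006) (nat_lit 13) (nat_lit 5) (nat_lit 14) (nat_lit 5) (nat_lit 15) (nat_lit 4) (nat_lit 351) (nat_lit 290) (nat_lit 139)) (XT.lf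 (nat_lit 0) (nat_lit 61134709259) (nat_lit 76) (nat_lit 31075828743) (nat_lit 152) (nat_lit 43448101843) (nat_lit 13) (nat_lit 5) (nat_lit 14) (nat_lit 5) (nat_lit 15) (nat_lit 4) (nat_lit 352) (nat_lit 290) (nat_lit 138)))))) (XT.nd (nat_lit 390) (nat_lit 76) (nat_lit 0) (XT.nd (nat_lit 156) (nat_lit 152) (nat_lit 0) (XT.nd (nat_lit 78) (nat_lit 0) (nat_lit 0) (XT.lf (nat_lit 0) (nat_lit 102418937900) (nat_lit 76) (nat_lit 9932036249) (nat_lit 152) (nat_lit 28989288858) (nat_lit 13) (nat_lit 5) (nat_lit 14) (nat_lit 5) (nat_lit 15) (nat_lit 4) (nat_lit 353) (nat_lit 290) (nat_lit 137)) (XT.lf (nat_lit 0) (nat_lit 133688757136) (nat_lit 152) (nat_lit 1732318900) (nat_lit 0) (nat_lit 11875376163) (nat_lit 13) (nat_lit 5) (nat_lit 15) (nat_lit 4) (nat_lit 13) (nat_lit 4) (nat_lit 354) (nat_lit 290) (nat_lit 136))) (XT.nd (nat_lit 78) (nat_lit 0) (nat_lit 0) (XT.lf (nat_lit 0) (nat_lit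 3234924127) (nat_lit 152) (nat_lit 115184952874) (nat_lit 76) (nat_lit 35089922873) (nat_lit 11) (nat_lit 5) (nat_lit 13) (nat_lit 5) (nat_lit 12) (nat_lit 4) (nat_lit 355) (nat_lit 290) (nat_lit 135)) (XT.nd (nat_lit 78) (nat_lit 0) (nat_lit 0) (XT.lf (nat_lit 0) (nat_lit 20491020022) (nat_lit 152) (nat_lit 79812971873) (nat_lit 76) (nat_lit 59717237482) (nat_lit 11) (nat_lit 5) (nat_lit 13) (nat_lit 5) (nat_lit 12) (nat_lit 4) (nat_lit 356) (nat_lit 290) (nat_lit 134)) (XT.lf (nat_lit 0) (nat_lit 38608811115) (nat_lit 152) (nat_lit 42674372116) (nat_lit 76) (nat_lit 85575103529) (nat_lit 11) (nat_lit 5) (nat_lit 13) (nat_lit 5) (nat_lit 12) (nat_lit 4) (nat_lit 357) (nat_lit 290) (nat_lit 133))))) (XT.nd (nat_lit 156) (nat_lit 0) (nat_lit 0) (XT.nd (nat_lit 78) (nat_lit 76) (nat_lit 0) (XT.lf (nat_lit 0) (nat_lit 57631435005) (nat_lit 152) (nat_lit 3680728364) (nat_lit 76) (nat_lit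 112725087361) (nat_lit 11) (nat_lit 5) (nat_lit 13) (nat_lit 5) (nat_lit 12) (nat_lit 4) (nat_lit 358) (nat_lit 290) (nat_lit 132)) (XT.lf (nat_lit 0) (nat_lit 38492811759) (nat_lit 76) (nat_lit 39712352562) (nat_lit 152) (nat_lit 103340000705) (nat_lit 10) (nat_lit 5) (nat_lit 11) (nat_lit 5) (nat_lit 12) (nat_lit 4) (nat_lit 359) (nat_lit 290) (nat_lit 131))) (XT.nd (nat_lit 78) (nat_lit 0) (nat_lit 0) (XT.lf (nat_lit 0) (nat_lit 82901048252) (nat_lit 76) (nat_lit 16967880664) (nat_lit 152) (nat_lit 89556479478) (nat_lit 10) (nat_lit 5) (nat_lit 11) (nat_lit 5) (nat_lit 12) (nat_lit 4) (nat_lit 360) (nat_lit 290) (nat_lit 130)) (XT.nd (nat_lit 78) (nat_lit 0) (nat_lit 0) (XT.lf (nat_lit 0) (nat_lit 122722875009) (nat_lit 152) (nat_lit 68279630550) (nat_lit 0) (nat_lit 6691809469) (nat_lit 10) (nat_lit 5) (nat_lit 12) (nat_lit 4) (nat_lit 10) (nat_lit 4) (nat_lit 361) (nat_lit 290)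 (nat_lit 129)) (XT.lf (nat_lit 0) (nat_lit 146996774899) (nat_lit 152) (nat_lit 28402463754) (nat_lit 0) (nat_lit 30963566240) (nat_lit 10) (nat_lit 5) (nat_lit 12) (nat_lit 4) (nat_lit 10) (nat_lit 4) (nat_lit 362) (nat_lit 290) (nat_lit 128))))))) (XT.nd (nat_lit 780) (nat_lit 76) (nat_lit 0) (XT.nd (nat_lit 390) (nat_lit 76) (nat_lit 0) (XT.nd (nat_lit 156) (nat_lit 76) (nat_lit 0) (XT.nd (nat_lit 78) (nat_lit 0) (nat_lit 0) (XT.lf (nat_lit 0) (nat_lit 13912281955) (nat_lit 76) (nat_lit 158788435172) (nat_lit 76) (nat_lit 42753185447) (nat_lit 9) (nat_lit 4) (nat_lit 10) (nat_lit 5) (nat_lit 10) (nat_lit 4) (nat_lit 363) (nat_lit 290) (nat_lit 127)) (XT.lf (nat_lit 0) (nat_lit 59327300176) (nat_lit 76) (nat_lit 140842720503) (nat_lit 76) (nat_lit 24805526906) (nat_lit 9) (nat_lit 4) (nat_lit 10) (nat_lit 5) (nat_lit 10) (nat_lit 4) (nat_lit 364) (nat_lit 290) (nat_lit 126))) (XT.nd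 (nat_lit 78) (nat_lit 76) (nat_lit 0) (XT.lf (nat_lit 0) (nat_lit 107011608183) (nat_lit 76) (nat_lit 122000376221) (nat_lit 76) (nat_lit 5961331318) (nat_lit 9) (nat_lit 4) (nat_lit 10) (nat_lit 5) (nat_lit 10) (nat_lit 4) (nat_lit 365) (nat_lit 290) (nat_lit 125)) (XT.nd (nat_lit 78) (nat_lit 0) (nat_lit 0) (XT.lf (nat_lit 0) (nat_lit 13381805524) (nat_lit 152) (nat_lit 88608106727) (nat_lit 76) (nat_lit 143470307166) (nat_lit 8) (nat_lit 5) (nat_lit 10) (nat_lit 5) (nat_lit 9) (nat_lit 4) (nat_lit 366) (nat_lit 290) (nat_lit 124)) (XT.lf (nat_lit 0) (nat_lit 33491016704) (nat_lit 152) (nat_lit 47385902997) (nat_lit 76) (nat_lit 175589699933) (nat_lit 8) (nat_lit 5) (nat_lit 10) (nat_lit 5) (nat_lit 9) (nat_lit 4) (nat_lit 367) (nat_lit 290) (nat_lit 123))))) (XT.nd (nat_lit 156) (nat_lit 0) (nat_lit 0) (XT.nd (nat_lit 78) (nat_lit 76) (nat_lit 0) (XT.lf (nat_lit 0) (nat_lit 54604981128)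 (nat_lit 152) (nat_lit 4103875157) (nat_lit 76) (nat_lit 209314519457) (nat_lit 8) (nat_lit 5) (nat_lit 10) (nat_lit 5) (nat_lit 9) (nat_lit 4) (nat_lit 368) (nat_lit 290) (nat_lit 122)) (XT.lf (nat_lit 0) (nat_lit 42707950367) (nat_lit 76) (nat_lit 34732810565) (nat_lit 152) (nat_lit 202683903356) (nat_lit 7) (nat_lit 5) (nat_lit 8) (nat_lit 5) (nat_lit 9) (nat_lit 4) (nat_lit 369) (nat_lit 290) (nat_lit 121))) (XT.nd (nat_lit 78) (nat_lit 0) (nat_lit 0) (XT.lf (nat_lit 0) (nat_lit 92001639368) (nat_lit 76) (nat_lit 9485531100) (nat_lit 152) (nat_lit 191340405223) (nat_lit 7) (nat_lit 5) (nat_lit 8) (nat_lit 5) (nat_lit 9) (nat_lit 4) (nat_lit 370) (nat_lit 290) (nat_lit 120)) (XT.nd (nat_lit 78) (nat_lit 0) (nat_lit 0) (XT.lf (nat_lit 0) (nat_lit 127001057560) (nat_lit 152) (nat_lit 162672585435) (nat_lit 0) (nat_lit 16478732259) (nat_lit 7) (nat_lit 5) (nat_lit 9) (nat_lit 4) (nat_lit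 7) (nat_lit 4) (nat_lit 371) (nat_lit 290) (nat_lit 119)) (XT.lf (nat_lit 0) (nat_lit 153945532826) (nat_lit 152) (nat_lit 122768183214) (nat_lit 0) (nat_lit 43421954488) (nat_lit 7) (nat_lit 5) (nat_lit 9) (nat_lit 4) (nat_lit 7) (nat_lit 4) (nat_lit 372) (nat_lit 290) (nat_lit 118)))))) (XT.nd (nat_lit 390) (nat_lit 0) (nat_lit 0) (XT.nd (nat_lit 156) (nat_lit 76) (nat_lit 0) (XT.nd (nat_lit 78) (nat_lit 0) (nat_lit 0) (XT.lf (nat_lit 0) (nat_lit 182236654056) (nat_lit 152) (nat_lit 80869623453) (nat_lit 0) (nat_lit 71711882350) (nat_lit 7) (nat_lit 5) (nat_lit 9) (nat_lit 4) (nat_lit 7) (nat_lit 4) (nat_lit 373) (nat_lit 290) (nat_lit 117)) (XT.lf (nat_lit 0) (nat_lit 211941781062) (nat_lit 152) (nat_lit 36877147679) (nat_lit 0) (nat_lit 101415872814) (nat_lit 7) (nat_lit 5) (nat_lit 9) (nat_lit 4) (nat_lit 7) (nat_lit 4) (nat_lit 374) (nat_lit 290) (nat_lit 116))) (XT.nd (nat_lit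 78) (nat_lit 0) (nat_lit 0) (XT.lf (nat_lit 0) (nat_lit 9621950608) (nat_lit 76) (nat_lit 233659915343) (nat_lit 76) (nat_lit 123132924674) (nat_lit 6) (nat_lit 4) (nat_lit 7) (nat_lit 5) (nat_lit 7) (nat_lit 4) (nat_lit 375) (nat_lit 290) (nat_lit 115)) (XT.nd (nat_lit 78) (nat_lit 0) (nat_lit 0) (XT.lf (nat_lit 0) (nat_lit 59725346867) (nat_lit 76) (nat_lit 217087626627) (nat_lit 76) (nat_lit 106559605082) (nat_lit 6) (nat_lit 4) (nat_lit 7) (nat_lit 5) (nat_lit 7) (nat_lit 4) (nat_lit 376) (nat_lit 290) (nat_lit 114)) (XT.lf (nat_lit 0) (nat_lit 112333009855) (nat_lit 76) (nat_lit 199687137104) (nat_lit 76) (nat_lit 89158133771) (nat_lit 6) (nat_lit 4) (nat_lit 7) (nat_lit 5) (nat_lit 7) (nat_lit 4) (nat_lit 377) (nat_lit 290) (nat_lit 113))))) (XT.nd (nat_lit 156) (nat_lit 0) (nat_lit 0) (XT.nd (nat_lit 78) (nat_lit 0) (nat_lit 0) (XT.lf (nat_lit 0) (nat_lit 167570195910) (nat_lit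 76) (nat_lit 181417017037) (nat_lit 76) (nat_lit 70887078668) (nat_lit 6) (nat_lit 4) (nat_lit 7) (nat_lit 5) (nat_lit 7) (nat_lit 4) (nat_lit 378) (nat_lit 290) (nat_lit 112)) (XT.lf (nat_lit 0) (nat_lit 225568422143) (nat_lit 76) (nat_lit 162233766139) (nat_lit 76) (nat_lit 51702937260) (nat_lit 6) (nat_lit 4) (nat_lit 7) (nat_lit 5) (nat_lit 7) (nat_lit 4) (nat_lit 379) (nat_lit 290) (nat_lit 111))) (XT.nd (nat_lit 33696) (nat_lit 0) (nat_lit 5700) (XT.lf (nat_lit 0) (nat_lit 286465779568) (nat_lit 76) (nat_lit 142091710004) (nat_lit 76) (nat_lit 31560033020) (nat_lit 6) (nat_lit 4) (nat_lit 7) (nat_lit 5) (nat_lit 7) (nat_lit 4) (nat_lit 380) (nat_lit 290) (nat_lit 110)) (XT.nd (nat_lit 78) (nat_lit 0) (nat_lit 0) (XT.lf (nat_lit 0) (nat_lit 2421935526) (nat_lit 0) (nat_lit 2421935526) (nat_lit 684) (nat_lit 4514359917) (nat_lit 81) (nat_lit 5) (nat_lit 81) (nat_lit 3) (nat_lit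 90) (nat_lit 3) (nat_lit 291) (nat_lit 291) (nat_lit 198)) (XT.lf (nat_lit 0) (nat_lit 10158783262) (nat_lit 684) (nat_lit 5687415684) (nat_lit 760) (nat_lit 3326270874) (nat_lit 81) (nat_lit 5) (nat_lit 90) (nat_lit 3) (nat_lit 91) (nat_lit 5) (nat_lit 292) (nat_lit 291) (nat_lit 197))))))))
noncomputable def xc192 : XT := (XT.nd (nat_lit 1482) (nat_lit 2128) (nat_lit 0) (XT.nd (nat_lit 702) (nat_lit 1824) (nat_lit 0) (XT.nd (nat_lit 312) (nat_lit 0) (nat_lit 152) (XT.nd (nat_lit 156) (nat_lit 0) (nat_lit 76) (XT.nd (nat_lit 78) (nat_lit 0) (nat_lit 76) (XT.lf (nat_lit 76) (nat_lit 2914611061) (nat_lit 0) (nat_lit 7852551067) (nat_lit 760) (nat_lit 8878456213) (nat_lit 82) (nat_lit 5) (nat_lit 81) (nat_lit 5) (nat_lit 91) (nat_lit 5) (nat_lit 293) (nat_lit 291) (nat_lit 196)) (XT.lf (nat_lit 0) (nat_lit 11501677579) (nat_lit 684) (nat_lit 8010254151) (nat_lit 760) (nat_lit 625734797)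 (nat_lit 82) (nat_lit 5) (nat_lit 91) (nat_lit 5) (nat_lit 92) (nat_lit 5) (nat_lit 294) (nat_lit 291) (nat_lit 195))) (XT.nd (nat_lit 78) (nat_lit 0) (nat_lit 0) (XT.lf (nat_lit 76) (nat_lit 1044752401) (nat_lit 0) (nat_lit 11363090566) (nat_lit 760) (nat_lit 8239754730) (nat_lit 83) (nat_lit 5) (nat_lit 82) (nat_lit 5) (nat_lit 92) (nat_lit 5) (nat_lit 295) (nat_lit 291) (nat_lit 194)) (XT.lf (nat_lit 76) (nat_lit 10824219445) (nat_lit 0) (nat_lit 2661019081) (nat_lit 760) (nat_lit 7691516312) (nat_lit 83) (nat_lit 5) (nat_lit 82) (nat_lit 5) (nat_lit 92) (nat_lit 5) (nat_lit 296) (nat_lit 291) (nat_lit 193)))) (XT.nd (nat_lit 156) (nat_lit 0) (nat_lit 76) (XT.nd (nat_lit 78) (nat_lit 0) (nat_lit 0) (XT.lf (nat_lit 0) (nat_lit 14708392562) (nat_lit 684) (nat_lit 747442206) (nat_lit 760) (nat_lit 6271964927) (nat_lit 83) (nat_lit 5) (nat_lit 92) (nat_lit 5) (nat_lit 93) (nat_lit 5)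 (nat_lit 297) (nat_lit 291) (nat_lit 192)) (XT.lf (nat_lit 76) (nat_lit 9595078854) (nat_lit 0) (nat_lit 6582271687) (nat_lit 760) (nat_lit 6119837077) (nat_lit 84) (nat_lit 5) (nat_lit 83) (nat_lit 5) (nat_lit 93) (nat_lit 5) (nat_lit 298) (nat_lit 291) (nat_lit 191))) (XT.nd (nat_lit 78) (nat_lit 0) (nat_lit 0) (XT.lf (nat_lit 0) (nat_lit 17766896296) (nat_lit 684) (nat_lit 2463329227) (nat_lit 760) (nat_lit 2662484454) (nat_lit 84) (nat_lit 5) (nat_lit 93) (nat_lit 5) (nat_lit 94) (nat_lit 5) (nat_lit 299) (nat_lit 291) (nat_lit 190)) (XT.nd (nat_lit 78) (nat_lit 0) (nat_lit 0) (XT.lf (nat_lit 76) (nat_lit 8443357040) (nat_lit 0) (nat_lit 11224267649) (nat_lit 760) (nat_lit 3838819485) (nat_lit 85) (nat_lit 5) (nat_lit 84) (nat_lit 5) (nat_lit 94) (nat_lit 5) (nat_lit 300) (nat_lit 291) (nat_lit 189)) (XT.lf (nat_lit 76) (nat_lit 19974635222) (nat_lit 0) (nat_lit 1722731101) (nat_lit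 760) (nat_lit 2451819900) (nat_lit 85) (nat_lit 5) (nat_lit 84) (nat_lit 5) (nat_lit 94) (nat_lit 5) (nat_lit 301) (nat_lit 291) (nat_lit 188)))))) (XT.nd (nat_lit 390) (nat_lit 608) (nat_lit 0) (XT.nd (nat_lit 156) (nat_lit 760) (nat_lit 0) (XT.nd (nat_lit 78) (nat_lit 76) (nat_lit 0) (XT.lf (nat_lit 0) (nat_lit 7358694926) (nat_lit 684) (nat_lit 16706305925) (nat_lit 760) (nat_lit 747263268) (nat_lit 76) (nat_lit 5) (nat_lit 85) (nat_lit 5) (nat_lit 86) (nat_lit 5) (nat_lit 302) (nat_lit 291) (nat_lit 187)) (XT.lf (nat_lit 0) (nat_lit 1102020428) (nat_lit 760) (nat_lit 5943632566) (nat_lit 76) (nat_lit 18457403025) (nat_lit 75) (nat_lit 5) (nat_lit 85) (nat_lit 5) (nat_lit 76) (nat_lit 5) (nat_lit 303) (nat_lit 291) (nat_lit 186))) (XT.nd (nat_lit 78) (nat_lit 380) (nat_lit 0) (XT.lf (nat_lit 0) (nat_lit 3160730417) (nat_lit 456) (nat_lit 19947598926) (nat_lit 76) (nat_lit 3112358349)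 (nat_lit 70) (nat_lit 5) (nat_lit 76) (nat_lit 5) (nat_lit 71) (nat_lit 5) (nat_lit 304) (nat_lit 291) (nat_lit 185)) (XT.nd (nat_lit 78) (nat_lit 380) (nat_lit 0) (XT.lf (nat_lit 0) (nat_lit 5533540007) (nat_lit 456) (nat_lit 7785799200) (nat_lit 76) (nat_lit 13644319198) (nat_lit 70) (nat_lit 5) (nat_lit 76) (nat_lit 5) (nat_lit 71) (nat_lit 5) (nat_lit 305) (nat_lit 291) (nat_lit 184)) (XT.lf (nat_lit 0) (nat_lit 5142517285) (nat_lit 380) (nat_lit 2956431577) (nat_lit 456) (nat_lit 19641145766) (nat_lit 65) (nat_lit 5) (nat_lit 70) (nat_lit 5) (nat_lit 71) (nat_lit 5) (nat_lit 306) (nat_lit 291) (nat_lit 183))))) (XT.nd (nat_lit 156) (nat_lit 304) (nat_lit 0) (XT.nd (nat_lit 78) (nat_lit 304) (nat_lit 0) (XT.lf (nat_lit 0) (nat_lit 11044248865) (nat_lit 456) (nat_lit 9693479733) (nat_lit 76) (nat_lit 7805057231) (nat_lit 65) (nat_lit 5) (nat_lit 71) (nat_lit 5) (nat_lit 66) (nat_lit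 5) (nat_lit 307) (nat_lit 291) (nat_lit 182)) (XT.lf (nat_lit 0) (nat_lit 3926960379) (nat_lit 304) (nat_lit 10313799296) (nat_lit 380) (nat_lit 15139668152) (nat_lit 61) (nat_lit 5) (nat_lit 65) (nat_lit 5) (nat_lit 66) (nat_lit 5) (nat_lit 308) (nat_lit 291) (nat_lit 181))) (XT.nd (nat_lit 78) (nat_lit 304) (nat_lit 0) (XT.lf (nat_lit 0) (nat_lit 17768155578) (nat_lit 380) (nat_lit 11705608863) (nat_lit 76) (nat_lit 777647390) (nat_lit 61) (nat_lit 5) (nat_lit 66) (nat_lit 5) (nat_lit 62) (nat_lit 5) (nat_lit 309) (nat_lit 291) (nat_lit 180)) (XT.nd (nat_lit 78) (nat_lit 0) (nat_lit 0) (XT.lf (nat_lit 0) (nat_lit 2639053634) (nat_lit 304) (nat_lit 19037766292) (nat_lit 380) (nat_lit 9478892447) (nat_lit 57) (nat_lit 5) (nat_lit 61) (nat_lit 5) (nat_lit 62) (nat_lit 5) (nat_lit 310) (nat_lit 291) (nat_lit 179)) (XT.lf (nat_lit 0) (nat_lit 18101461421) (nat_lit 304) (nat_lit 7872477700)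 (nat_lit 380) (nat_lit 6121649423) (nat_lit 57) (nat_lit 5) (nat_lit 61) (nat_lit 5) (nat_lit 62) (nat_lit 5) (nat_lit 311) (nat_lit 291) (nat_lit 178))))))) (XT.nd (nat_lit 780) (nat_lit 836) (nat_lit 0) (XT.nd (nat_lit 390) (nat_lit 684) (nat_lit 0) (XT.nd (nat_lit 156) (nat_lit 304) (nat_lit 0) (XT.nd (nat_lit 78) (nat_lit 76) (nat_lit 0) (XT.lf (nat_lit 0) (nat_lit 1227854064) (nat_lit 228) (nat_lit 29332376678) (nat_lit 304) (nat_lit 2518523089) (nat_lit 54) (nat_lit 5) (nat_lit 57) (nat_lit 5) (nat_lit 58) (nat_lit 5) (nat_lit 312) (nat_lit 291) (nat_lit 177)) (XT.lf (nat_lit 0) (nat_lit 1589296820) (nat_lit 304) (nat_lit 16561065779) (nat_lit 76) (nat_lit 15941486680) (nat_lit 53) (nat_lit 5) (nat_lit 57) (nat_lit 5) (nat_lit 54) (nat_lit 5) (nat_lit 313) (nat_lit 291) (nat_lit 176))) (XT.nd (nat_lit 78) (nat_lit 304) (nat_lit 0) (XT.lf (nat_lit 0) (nat_lit 5813181156) (nat_lit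 304) (nat_lit 553673463) (nat_lit 76) (nat_lit 28786924517) (nat_lit 53) (nat_lit 5) (nat_lit 57) (nat_lit 5) (nat_lit 54) (nat_lit 5) (nat_lit 314) (nat_lit 291) (nat_lit 175)) (XT.nd (nat_lit 78) (nat_lit 0) (nat_lit 0) (XT.lf (nat_lit 0) (nat_lit 10603921133) (nat_lit 380) (nat_lit 19568016964) (nat_lit 76) (nat_lit 6079093472) (nat_lit 49) (nat_lit 5) (nat_lit 54) (nat_lit 5) (nat_lit 50) (nat_lit 5) (nat_lit 315) (nat_lit 291) (nat_lit 174)) (XT.lf (nat_lit 0) (nat_lit 15743753830) (nat_lit 380) (nat_lit 2711947833) (nat_lit 76) (nat_lit 18941975895) (nat_lit 49) (nat_lit 5) (nat_lit 54) (nat_lit 5) (nat_lit 50) (nat_lit 5) (nat_lit 316) (nat_lit 291) (nat_lit 173))))) (XT.nd (nat_lit 156) (nat_lit 456) (nat_lit 0) (XT.nd (nat_lit 78) (nat_lit 0) (nat_lit 0) (XT.lf (nat_lit 0) (nat_lit 15477047863) (nat_lit 228) (nat_lit 5901028114) (nat_lit 304) (nat_lit 17211713284) (nat_lit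 46) (nat_lit 5) (nat_lit 49) (nat_lit 5) (nat_lit 50) (nat_lit 5) (nat_lit 317) (nat_lit 291) (nat_lit 172)) (XT.lf (nat_lit 0) (nat_lit 27450434905) (nat_lit 304) (nat_lit 5289345879) (nat_lit 76) (nat_lit 7093917640) (nat_lit 46) (nat_lit 5) (nat_lit 50) (nat_lit 5) (nat_lit 47) (nat_lit 5) (nat_lit 318) (nat_lit 291) (nat_lit 171))) (XT.nd (nat_lit 78) (nat_lit 228) (nat_lit 0) (XT.lf (nat_lit 0) (nat_lit 13763921127) (nat_lit 228) (nat_lit 20370271599) (nat_lit 304) (nat_lit 6990228804) (nat_lit 43) (nat_lit 5) (nat_lit 46) (nat_lit 5) (nat_lit 47) (nat_lit 5) (nat_lit 319) (nat_lit 291) (nat_lit 170)) (XT.nd (nat_lit 78) (nat_lit 228) (nat_lit 0) (XT.lf (nat_lit 0) (nat_lit 33948476195) (nat_lit 228) (nat_lit 7289494425) (nat_lit 304) (nat_lit 1237425735) (nat_lit 43) (nat_lit 5) (nat_lit 46) (nat_lit 5) (nat_lit 47) (nat_lit 5) (nat_lit 320) (nat_lit 291) (nat_lit 169)) (XT.lf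 (nat_lit 0) (nat_lit 4930587238) (nat_lit 228) (nat_lit 32448411415) (nat_lit 76) (nat_lit 6497113532) (nat_lit 40) (nat_lit 5) (nat_lit 43) (nat_lit 5) (nat_lit 41) (nat_lit 5) (nat_lit 321) (nat_lit 291) (nat_lit 168)))))) (XT.nd (nat_lit 390) (nat_lit 456) (nat_lit 0) (XT.nd (nat_lit 156) (nat_lit 152) (nat_lit 0) (XT.nd (nat_lit 78) (nat_lit 228) (nat_lit 0) (XT.lf (nat_lit 0) (nat_lit 11628135504) (nat_lit 228) (nat_lit 12810689554) (nat_lit 76) (nat_lit 20893894650) (nat_lit 40) (nat_lit 5) (nat_lit 43) (nat_lit 5) (nat_lit 41) (nat_lit 5) (nat_lit 322) (nat_lit 291) (nat_lit 167)) (XT.lf (nat_lit 0) (nat_lit 8062215478) (nat_lit 228) (nat_lit 10720834242) (nat_lit 304) (nat_lit 28072989361) (nat_lit 37) (nat_lit 5) (nat_lit 40) (nat_lit 5) (nat_lit 41) (nat_lit 5) (nat_lit 323) (nat_lit 291) (nat_lit 166))) (XT.nd (nat_lit 78) (nat_lit 152) (nat_lit 0) (XT.lf (nat_lit 0) (nat_lit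 26570406031) (nat_lit 304) (nat_lit 18087028867) (nat_lit 76) (nat_lit 3784360327) (nat_lit 37) (nat_lit 5) (nat_lit 41) (nat_lit 5) (nat_lit 38) (nat_lit 5) (nat_lit 324) (nat_lit 291) (nat_lit 165)) (XT.nd (nat_lit 78) (nat_lit 0) (nat_lit 0) (XT.lf (nat_lit 0) (nat_lit 3589658365) (nat_lit 152) (nat_lit 31386107501) (nat_lit 228) (nat_lit 15119646878) (nat_lit 35) (nat_lit 5) (nat_lit 37) (nat_lit 5) (nat_lit 38) (nat_lit 5) (nat_lit 325) (nat_lit 291) (nat_lit 164)) (XT.lf (nat_lit 0) (nat_lit 26973607406) (nat_lit 152) (nat_lit 17131018598) (nat_lit 228) (nat_lit 7711928618) (nat_lit 35) (nat_lit 5) (nat_lit 37) (nat_lit 5) (nat_lit 38) (nat_lit 5) (nat_lit 326) (nat_lit 291) (nat_lit 163))))) (XT.nd (nat_lit 156) (nat_lit 152) (nat_lit 0) (XT.nd (nat_lit 78) (nat_lit 228) (nat_lit 0) (XT.lf (nat_lit 0) (nat_lit 61071136) (nat_lit 228) (nat_lit 2102434682) (nat_lit 76) (nat_lit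 51460350060) (nat_lit 34) (nat_lit 5) (nat_lit 37) (nat_lit 5) (nat_lit 35) (nat_lit 5) (nat_lit 327) (nat_lit 291) (nat_lit 162)) (XT.lf (nat_lit 0) (nat_lit 8529175141) (nat_lit 304) (nat_lit 33357106829) (nat_lit 76) (nat_lit 13600642096) (nat_lit 31) (nat_lit 5) (nat_lit 35) (nat_lit 5) (nat_lit 32) (nat_lit 5) (nat_lit 328) (nat_lit 291) (nat_lit 161))) (XT.nd (nat_lit 78) (nat_lit 152) (nat_lit 0) (XT.lf (nat_lit 0) (nat_lit 17489546866) (nat_lit 304) (nat_lit 9834989175) (nat_lit 76) (nat_lit 30115170690) (nat_lit 31) (nat_lit 5) (nat_lit 35) (nat_lit 5) (nat_lit 32) (nat_lit 5) (nat_lit 329) (nat_lit 291) (nat_lit 160)) (XT.nd (nat_lit 78) (nat_lit 0) (nat_lit 0) (XT.lf (nat_lit 0) (nat_lit 15350502176) (nat_lit 152) (nat_lit 11784438183) (nat_lit 228) (nat_lit 32343342006) (nat_lit 29) (nat_lit 5) (nat_lit 31) (nat_lit 5) (nat_lit 32) (nat_lit 5) (nat_lit 330) (nat_lit 291)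 (nat_lit 159)) (XT.lf (nat_lit 0) (nat_lit 37500043762) (nat_lit 228) (nat_lit 19551331094) (nat_lit 76) (nat_lit 4555543718) (nat_lit 29) (nat_lit 5) (nat_lit 32) (nat_lit 5) (nat_lit 30) (nat_lit 5) (nat_lit 331) (nat_lit 291) (nat_lit 158))))))))
noncomputable def xc193 : XT := (XT.nd (nat_lit 1482) (nat_lit 532) (nat_lit 0) (XT.nd (nat_lit 702) (nat_lit 532) (nat_lit 0) (XT.nd (nat_lit 312) (nat_lit 228) (nat_lit 0) (XT.nd (nat_lit 156) (nat_lit 228) (nat_lit 0) (XT.nd (nat_lit 78) (nat_lit 0) (nat_lit 0) (XT.lf (nat_lit 0) (nat_lit 6257123847) (nat_lit 152) (nat_lit 42414663753) (nat_lit 228) (nat_lit 15155783353) (nat_lit 27) (nat_lit 5) (nat_lit 29) (nat_lit 5) (nat_lit 30) (nat_lit 5) (nat_lit 332) (nat_lit 291) (nat_lit 157)) (XT.lf (nat_lit 0) (nat_lit 34030946307) (nat_lit 152) (nat_lit 26699848980) (nat_lit 228) (nat_lit 5412030283) (nat_lit 27) (nat_lit 5) (nat_lit 29)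 (nat_lit 5) (nat_lit 30) (nat_lit 5) (nat_lit 333) (nat_lit 291) (nat_lit 156))) (XT.nd (nat_lit 78) (nat_lit 152) (nat_lit 0) (XT.lf (nat_lit 0) (nat_lit 4662315357) (nat_lit 228) (nat_lit 5459351641) (nat_lit 76) (nat_lit 58448535206) (nat_lit 26) (nat_lit 5) (nat_lit 29) (nat_lit 5) (nat_lit 27) (nat_lit 5) (nat_lit 334) (nat_lit 291) (nat_lit 155)) (XT.lf (nat_lit 0) (nat_lit 15539193762) (nat_lit 228) (nat_lit 48042366938) (nat_lit 76) (nat_lit 7508919101) (nat_lit 24) (nat_lit 5) (nat_lit 27) (nat_lit 5) (nat_lit 25) (nat_lit 5) (nat_lit 335) (nat_lit 291) (nat_lit 154)))) (XT.nd (nat_lit 156) (nat_lit 76) (nat_lit 0) (XT.nd (nat_lit 78) (nat_lit 152) (nat_lit 0) (XT.lf (nat_lit 0) (nat_lit 27217602121) (nat_lit 228) (nat_lit 20732695284) (nat_lit 76) (nat_lit 25773592411) (nat_lit 24) (nat_lit 5) (nat_lit 27) (nat_lit 5) (nat_lit 25) (nat_lit 5) (nat_lit 336) (nat_lit 291) (nat_lit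 153)) (XT.lf (nat_lit 0) (nat_lit 8201542291) (nat_lit 152) (nat_lit 31404327782) (nat_lit 228) (nat_lit 36876806003) (nat_lit 22) (nat_lit 5) (nat_lit 24) (nat_lit 5) (nat_lit 25) (nat_lit 5) (nat_lit 337) (nat_lit 291) (nat_lit 152))) (XT.nd (nat_lit 78) (nat_lit 76) (nat_lit 0) (XT.lf (nat_lit 0) (nat_lit 39298921008) (nat_lit 152) (nat_lit 13663686720) (nat_lit 228) (nat_lit 26399343680) (nat_lit 22) (nat_lit 5) (nat_lit 24) (nat_lit 5) (nat_lit 25) (nat_lit 5) (nat_lit 338) (nat_lit 291) (nat_lit 151)) (XT.nd (nat_lit 78) (nat_lit 76) (nat_lit 0) (XT.lf (nat_lit 0) (nat_lit 67062700924) (nat_lit 228) (nat_lit 10514807832) (nat_lit 76) (nat_lit 4803908272) (nat_lit 22) (nat_lit 5) (nat_lit 25) (nat_lit 5) (nat_lit 23) (nat_lit 4) (nat_lit 339) (nat_lit 291) (nat_lit 150)) (XT.lf (nat_lit 0) (nat_lit 20954373977) (nat_lit 76) (nat_lit 61462687518) (nat_lit 152) (nat_lit 3107333633)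 (nat_lit 21) (nat_lit 5) (nat_lit 22) (nat_lit 5) (nat_lit 23) (nat_lit 4) (nat_lit 340) (nat_lit 291) (nat_lit 149)))))) (XT.nd (nat_lit 390) (nat_lit 304) (nat_lit 0) (XT.nd (nat_lit 156) (nat_lit 152) (nat_lit 0) (XT.nd (nat_lit 78) (nat_lit 0) (nat_lit 0) (XT.lf (nat_lit 0) (nat_lit 9582802922) (nat_lit 152) (nat_lit 34611286506) (nat_lit 76) (nat_lit 44613895531) (nat_lit 20) (nat_lit 5) (nat_lit 22) (nat_lit 5) (nat_lit 21) (nat_lit 5) (nat_lit 341) (nat_lit 291) (nat_lit 148)) (XT.lf (nat_lit 0) (nat_lit 22801229816) (nat_lit 152) (nat_lit 3208547078) (nat_lit 76) (nat_lit 66243521897) (nat_lit 20) (nat_lit 5) (nat_lit 22) (nat_lit 5) (nat_lit 21) (nat_lit 5) (nat_lit 342) (nat_lit 291) (nat_lit 147))) (XT.nd (nat_lit 78) (nat_lit 0) (nat_lit 0) (XT.lf (nat_lit 0) (nat_lit 30745528672) (nat_lit 152) (nat_lit 6413368770) (nat_lit 228) (nat_lit 58688066826) (nat_lit 18) (nat_lit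 5) (nat_lit 20) (nat_lit 5) (nat_lit 21) (nat_lit 5) (nat_lit 343) (nat_lit 291) (nat_lit 146)) (XT.nd (nat_lit 78) (nat_lit 0) (nat_lit 0) (XT.lf (nat_lit 0) (nat_lit 52509114640) (nat_lit 228) (nat_lit 33333778160) (nat_lit 76) (nat_lit 13763688737) (nat_lit 18) (nat_lit 5) (nat_lit 21) (nat_lit 5) (nat_lit 19) (nat_lit 4) (nat_lit 344) (nat_lit 291) (nat_lit 145)) (XT.lf (nat_lit 0) (nat_lit 68730375289) (nat_lit 228) (nat_lit 85609383) (nat_lit 76) (nat_lit 34733020111) (nat_lit 18) (nat_lit 5) (nat_lit 21) (nat_lit 5) (nat_lit 19) (nat_lit 4) (nat_lit 345) (nat_lit 291) (nat_lit 144))))) (XT.nd (nat_lit 156) (nat_lit 228) (nat_lit 0) (XT.nd (nat_lit 78) (nat_lit 0) (nat_lit 0) (XT.lf (nat_lit 0) (nat_lit 35973748308) (nat_lit 76) (nat_lit 50349073500) (nat_lit 152) (nat_lit 21337722903) (nat_lit 17) (nat_lit 5) (nat_lit 18) (nat_lit 5) (nat_lit 19) (nat_lit 4) (nat_lit 346) (nat_lit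 291) (nat_lit 143)) (XT.lf (nat_lit 0) (nat_lit 73836483920) (nat_lit 76) (nat_lit 30958361146) (nat_lit 152) (nat_lit 7182820428) (nat_lit 17) (nat_lit 5) (nat_lit 18) (nat_lit 5) (nat_lit 19) (nat_lit 4) (nat_lit 347) (nat_lit 291) (nat_lit 142))) (XT.nd (nat_lit 78) (nat_lit 152) (nat_lit 0) (XT.lf (nat_lit 0) (nat_lit 7432575722) (nat_lit 152) (nat_lit 3040679097) (nat_lit 76) (nat_lit 106031466201) (nat_lit 16) (nat_lit 5) (nat_lit 18) (nat_lit 5) (nat_lit 17) (nat_lit 5) (nat_lit 348) (nat_lit 291) (nat_lit 141)) (XT.nd (nat_lit 78) (nat_lit 0) (nat_lit 0) (XT.lf (nat_lit 0) (nat_lit 23262563794) (nat_lit 228) (nat_lit 86599441379) (nat_lit 76) (nat_lit 11353977358) (nat_lit 14) (nat_lit 5) (nat_lit 17) (nat_lit 5) (nat_lit 15) (nat_lit 4) (nat_lit 349) (nat_lit 291) (nat_lit 140)) (XT.lf (nat_lit 0) (nat_lit 40106717479) (nat_lit 228) (nat_lit 52072967495) (nat_lit 76) (nat_lit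 33971990134) (nat_lit 14) (nat_lit 5) (nat_lit 17) (nat_lit 5) (nat_lit 15) (nat_lit 4) (nat_lit 350) (nat_lit 291) (nat_lit 139))))))) (XT.nd (nat_lit 780) (nat_lit 228) (nat_lit 0) (XT.nd (nat_lit 390) (nat_lit 228) (nat_lit 0) (XT.nd (nat_lit 156) (nat_lit 0) (nat_lit 0) (XT.nd (nat_lit 78) (nat_lit 76) (nat_lit 0) (XT.lf (nat_lit 0) (nat_lit 57791777846) (nat_lit 228) (nat_lit 15822442476) (nat_lit 76) (nat_lit 57719998280) (nat_lit 14) (nat_lit 5) (nat_lit 17) (nat_lit 5) (nat_lit 15) (nat_lit 4) (nat_lit 351) (nat_lit 291) (nat_lit 138)) (XT.lf (nat_lit 0) (nat_lit 22973747857) (nat_lit 76) (nat_lit 53744788913) (nat_lit 152) (nat_lit 60039481404) (nat_lit 13) (nat_lit 5) (nat_lit 14) (nat_lit 5) (nat_lit 15) (nat_lit 4) (nat_lit 352) (nat_lit 291) (nat_lit 137))) (XT.nd (nat_lit 78) (nat_lit 0) (nat_lit 0) (XT.lf (nat_lit 0) (nat_lit 64256937751) (nat_lit 76) (nat_lit 32601443316)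 (nat_lit 152) (nat_lit 45581290409) (nat_lit 13) (nat_lit 5) (nat_lit 14) (nat_lit 5) (nat_lit 15) (nat_lit 4) (nat_lit 353) (nat_lit 291) (nat_lit 136)) (XT.nd (nat_lit 78) (nat_lit 0) (nat_lit 0) (XT.lf (nat_lit 0) (nat_lit 107602259108) (nat_lit 76) (nat_lit 10401802953) (nat_lit 152) (nat_lit 30401404229) (nat_lit 13) (nat_lit 5) (nat_lit 14) (nat_lit 5) (nat_lit 15) (nat_lit 4) (nat_lit 354) (nat_lit 291) (nat_lit 135)) (XT.lf (nat_lit 0) (nat_lit 140407440874) (nat_lit 152) (nat_lit 1758206074) (nat_lit 0) (nat_lit 12493884226) (nat_lit 13) (nat_lit 5) (nat_lit 15) (nat_lit 4) (nat_lit 13) (nat_lit 4) (nat_lit 355) (nat_lit 291) (nat_lit 134))))) (XT.nd (nat_lit 156) (nat_lit 76) (nat_lit 0) (XT.nd (nat_lit 78) (nat_lit 0) (nat_lit 0) (XT.lf (nat_lit 0) (nat_lit 3430797172) (nat_lit 152) (nat_lit 120883294428) (nat_lit 76) (nat_lit 36869463498) (nat_lit 11) (nat_lit 5) (nat_lit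 13) (nat_lit 5) (nat_lit 12) (nat_lit 4) (nat_lit 356) (nat_lit 291) (nat_lit 133)) (XT.lf (nat_lit 0) (nat_lit 21548072774) (nat_lit 152) (nat_lit 83745614667) (nat_lit 76) (nat_lit 62726951244) (nat_lit 11) (nat_lit 5) (nat_lit 13) (nat_lit 5) (nat_lit 12) (nat_lit 4) (nat_lit 357) (nat_lit 291) (nat_lit 132))) (XT.nd (nat_lit 78) (nat_lit 76) (nat_lit 0) (XT.lf (nat_lit 0) (nat_lit 40570205720) (nat_lit 152) (nat_lit 44752847103) (nat_lit 76) (nat_lit 89876574789) (nat_lit 11) (nat_lit 5) (nat_lit 13) (nat_lit 5) (nat_lit 12) (nat_lit 4) (nat_lit 358) (nat_lit 291) (nat_lit 131)) (XT.nd (nat_lit 78) (nat_lit 76) (nat_lit 0) (XT.lf (nat_lit 0) (nat_lit 60542486802) (nat_lit 152) (nat_lit 3812151812) (nat_lit 76) (nat_lit 118382976094) (nat_lit 11) (nat_lit 5) (nat_lit 13) (nat_lit 5) (nat_lit 12) (nat_lit 4) (nat_lit 359) (nat_lit 291) (nat_lit 130)) (XT.lf (nat_lit 0) (nat_lit 40469216720)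 (nat_lit 76) (nat_lit 41675090238) (nat_lit 152) (nat_lit 108476648711) (nat_lit 10) (nat_lit 5) (nat_lit 11) (nat_lit 5) (nat_lit 12) (nat_lit 4) (nat_lit 360) (nat_lit 291) (nat_lit 129)))))) (XT.nd (nat_lit 390) (nat_lit 152) (nat_lit 0) (XT.nd (nat_lit 156) (nat_lit 76) (nat_lit 0) (XT.nd (nat_lit 78) (nat_lit 0) (nat_lit 0) (XT.lf (nat_lit 0) (nat_lit 87095400068) (nat_lit 76) (nat_lit 17794484267) (nat_lit 152) (nat_lit 94005396757) (nat_lit 10) (nat_lit 5) (nat_lit 11) (nat_lit 5) (nat_lit 12) (nat_lit 4) (nat_lit 361) (nat_lit 291) (nat_lit 128)) (XT.lf (nat_lit 0) (nat_lit 128885541791) (nat_lit 152) (nat_lit 71645653110) (nat_lit 0) (nat_lit 7046488515) (nat_lit 10) (nat_lit 5) (nat_lit 12) (nat_lit 4) (nat_lit 10) (nat_lit 4) (nat_lit 362) (nat_lit 291) (nat_lit 127))) (XT.nd (nat_lit 78) (nat_lit 76) (nat_lit 0) (XT.lf (nat_lit 0) (nat_lit 154371873674) (nat_lit 152) (nat_lit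 29776911735) (nat_lit 0) (nat_lit 32530876525) (nat_lit 10) (nat_lit 5) (nat_lit 12) (nat_lit 4) (nat_lit 10) (nat_lit 4) (nat_lit 363) (nat_lit 291) (nat_lit 126)) (XT.nd (nat_lit 78) (nat_lit 0) (nat_lit 0) (XT.lf (nat_lit 0) (nat_lit 14652834563) (nat_lit 76) (nat_lit 166707677207) (nat_lit 76) (nat_lit 44864828753) (nat_lit 9) (nat_lit 4) (nat_lit 10) (nat_lit 5) (nat_lit 10) (nat_lit 4) (nat_lit 364) (nat_lit 291) (nat_lit 125)) (XT.lf (nat_lit 0) (nat_lit 62336463766) (nat_lit 76) (nat_lit 147865637744) (nat_lit 76) (nat_lit 26021026140) (nat_lit 9) (nat_lit 4) (nat_lit 10) (nat_lit 5) (nat_lit 10) (nat_lit 4) (nat_lit 365) (nat_lit 291) (nat_lit 124))))) (XT.nd (nat_lit 156) (nat_lit 76) (nat_lit 0) (XT.nd (nat_lit 78) (nat_lit 76) (nat_lit 0) (XT.lf (nat_lit 0) (nat_lit 112402949145) (nat_lit 76) (nat_lit 128082091429) (nat_lit 76) (nat_lit 6235800635) (nat_lit 9) (nat_lit 4)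 (nat_lit 10) (nat_lit 5) (nat_lit 10) (nat_lit 4) (nat_lit 366) (nat_lit 291) (nat_lit 123)) (XT.lf (nat_lit 0) (nat_lit 14072650076) (nat_lit 152) (nat_lit 92998957365) (nat_lit 76) (nat_lit 150660519404) (nat_lit 8) (nat_lit 5) (nat_lit 10) (nat_lit 5) (nat_lit 9) (nat_lit 4) (nat_lit 367) (nat_lit 291) (nat_lit 122))) (XT.nd (nat_lit 78) (nat_lit 76) (nat_lit 0) (XT.lf (nat_lit 0) (nat_lit 35186285897) (nat_lit 152) (nat_lit 49717527005) (nat_lit 76) (nat_lit 184385086719) (nat_lit 8) (nat_lit 5) (nat_lit 10) (nat_lit 5) (nat_lit 9) (nat_lit 4) (nat_lit 368) (nat_lit 291) (nat_lit 121)) (XT.nd (nat_lit 78) (nat_lit 76) (nat_lit 0) (XT.lf (nat_lit 0) (nat_lit 57354961954) (nat_lit 152) (nat_lit 4273191637) (nat_lit 76) (nat_lit 219795389992) (nat_lit 8) (nat_lit 5) (nat_lit 10) (nat_lit 5) (nat_lit 9) (nat_lit 4) (nat_lit 369) (nat_lit 291) (nat_lit 120)) (XT.lf (nat_lit 0) (nat_lit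 44878646497) (nat_lit 76) (nat_lit 36453495753) (nat_lit 152) (nat_lit 212797774414) (nat_lit 7) (nat_lit 5) (nat_lit 8) (nat_lit 5) (nat_lit 9) (nat_lit 4) (nat_lit 370) (nat_lit 291) (nat_lit 119))))))))
noncomputable def xc194 : XT := (XT.nd (nat_lit 35256) (nat_lit 0) (nat_lit 2812) (XT.nd (nat_lit 34476) (nat_lit 0) (nat_lit 5700) (XT.nd (nat_lit 312) (nat_lit 76) (nat_lit 0) (XT.nd (nat_lit 156) (nat_lit 0) (nat_lit 0) (XT.nd (nat_lit 78) (nat_lit 0) (nat_lit 0) (XT.lf (nat_lit 0) (nat_lit 96635339062) (nat_lit 76) (nat_lit 9944612093) (nat_lit 152) (nat_lit 200888069190) (nat_lit 7) (nat_lit 5) (nat_lit 8) (nat_lit 5) (nat_lit 9) (nat_lit 4) (nat_lit 371) (nat_lit 291) (nat_lit 118)) (XT.lf (nat_lit 0) (nat_lit 133368881303) (nat_lit 152) (nat_lit 170773534125) (nat_lit 0) (nat_lit 17316677643) (nat_lit 7) (nat_lit 5) (nat_lit 9) (nat_lit 4) (nat_lit 7) (nat_lit 4) (nat_lit 372)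 (nat_lit 291) (nat_lit 117))) (XT.nd (nat_lit 78) (nat_lit 0) (nat_lit 0) (XT.lf (nat_lit 0) (nat_lit 161659734101) (nat_lit 152) (nat_lit 128875468011) (nat_lit 0) (nat_lit 45606393899) (nat_lit 7) (nat_lit 5) (nat_lit 9) (nat_lit 4) (nat_lit 7) (nat_lit 4) (nat_lit 373) (nat_lit 291) (nat_lit 116)) (XT.lf (nat_lit 0) (nat_lit 191364605458) (nat_lit 152) (nat_lit 84883462375) (nat_lit 0) (nat_lit 75310182835) (nat_lit 7) (nat_lit 5) (nat_lit 9) (nat_lit 4) (nat_lit 7) (nat_lit 4) (nat_lit 374) (nat_lit 291) (nat_lit 115)))) (XT.nd (nat_lit 156) (nat_lit 0) (nat_lit 0) (XT.nd (nat_lit 78) (nat_lit 76) (nat_lit 0) (XT.lf (nat_lit 0) (nat_lit 222554221257) (nat_lit 152) (nat_lit 38692774348) (nat_lit 0) (nat_lit 106498767757) (nat_lit 7) (nat_lit 5) (nat_lit 9) (nat_lit 4) (nat_lit 7) (nat_lit 4) (nat_lit 375) (nat_lit 291) (nat_lit 114)) (XT.lf (nat_lit 0) (nat_lit 10130823520) (nat_lit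 76) (nat_lit 245330189516) (nat_lit 76) (nat_lit 129273754228) (nat_lit 6) (nat_lit 4) (nat_lit 7) (nat_lit 5) (nat_lit 7) (nat_lit 4) (nat_lit 376) (nat_lit 291) (nat_lit 113))) (XT.nd (nat_lit 78) (nat_lit 0) (nat_lit 0) (XT.lf (nat_lit 0) (nat_lit 62738066955) (nat_lit 76) (nat_lit 227929892154) (nat_lit 76) (nat_lit 111872521832) (nat_lit 6) (nat_lit 4) (nat_lit 7) (nat_lit 5) (nat_lit 7) (nat_lit 4) (nat_lit 377) (nat_lit 291) (nat_lit 112)) (XT.nd (nat_lit 78) (nat_lit 0) (nat_lit 0) (XT.lf (nat_lit 0) (nat_lit 117974853437) (nat_lit 76) (nat_lit 209659955098) (nat_lit 76) (nat_lit 93601694265) (nat_lit 6) (nat_lit 4) (nat_lit 7) (nat_lit 5) (nat_lit 7) (nat_lit 4) (nat_lit 378) (nat_lit 291) (nat_lit 111)) (XT.lf (nat_lit 0) (nat_lit 175972699124) (nat_lit 76) (nat_lit 190476878497) (nat_lit 76) (nat_lit 74417769559) (nat_lit 6) (nat_lit 4) (nat_lit 7) (nat_lit 5) (nat_lit 7)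 (nat_lit 4) (nat_lit 379) (nat_lit 291) (nat_lit 110)))))) (XT.nd (nat_lit 390) (nat_lit 0) (nat_lit 76) (XT.nd (nat_lit 156) (nat_lit 0) (nat_lit 0) (XT.nd (nat_lit 78) (nat_lit 0) (nat_lit 0) (XT.lf (nat_lit 0) (nat_lit 2629263673) (nat_lit 0) (nat_lit 2629263673) (nat_lit 684) (nat_lit 4558537949) (nat_lit 81) (nat_lit 5) (nat_lit 81) (nat_lit 3) (nat_lit 90) (nat_lit 3) (nat_lit 292) (nat_lit 292) (nat_lit 196)) (XT.lf (nat_lit 0) (nat_lit 10992658478) (nat_lit 684) (nat_lit 5787681884) (nat_lit 760) (nat_lit 3333591222) (nat_lit 81) (nat_lit 5) (nat_lit 90) (nat_lit 3) (nat_lit 91) (nat_lit 5) (nat_lit 293) (nat_lit 292) (nat_lit 195))) (XT.nd (nat_lit 78) (nat_lit 0) (nat_lit 76) (XT.lf (nat_lit 76) (nat_lit 3241476770) (nat_lit 0) (nat_lit 8377286780) (nat_lit 760) (nat_lit 8992649804) (nat_lit 82) (nat_lit 5) (nat_lit 81) (nat_lit 5) (nat_lit 91) (nat_lit 5) (nat_lit 294) (nat_lit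 292) (nat_lit 194)) (XT.nd (nat_lit 78) (nat_lit 0) (nat_lit 0) (XT.lf (nat_lit 0) (nat_lit 12373124064) (nat_lit 684) (nat_lit 8220591965) (nat_lit 760) (nat_lit 535231181) (nat_lit 82) (nat_lit 5) (nat_lit 91) (nat_lit 5) (nat_lit 92) (nat_lit 5) (nat_lit 295) (nat_lit 292) (nat_lit 193)) (XT.lf (nat_lit 76) (nat_lit 1284097577) (nat_lit 0) (nat_lit 12029308913) (nat_lit 760) (nat_lit 8351565368) (nat_lit 83) (nat_lit 5) (nat_lit 82) (nat_lit 5) (nat_lit 92) (nat_lit 5) (nat_lit 296) (nat_lit 292) (nat_lit 192))))) (XT.nd (nat_lit 156) (nat_lit 0) (nat_lit 76) (XT.nd (nat_lit 78) (nat_lit 0) (nat_lit 76) (XT.lf (nat_lit 76) (nat_lit 11543628091) (nat_lit 0) (nat_lit 2887464148) (nat_lit 760) (nat_lit 7790209177) (nat_lit 83) (nat_lit 5) (nat_lit 82) (nat_lit 5) (nat_lit 92) (nat_lit 5) (nat_lit 297) (nat_lit 292) (nat_lit 191)) (XT.lf (nat_lit 0) (nat_lit 15701082325) (nat_lit 684)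 (nat_lit 600102905) (nat_lit 760) (nat_lit 6499463252) (nat_lit 83) (nat_lit 5) (nat_lit 92) (nat_lit 5) (nat_lit 93) (nat_lit 5) (nat_lit 298) (nat_lit 292) (nat_lit 190))) (XT.nd (nat_lit 78) (nat_lit 0) (nat_lit 76) (XT.lf (nat_lit 76) (nat_lit 10256564992) (nat_lit 0) (nat_lit 6977509601) (nat_lit 760) (nat_lit 6164934160) (nat_lit 84) (nat_lit 5) (nat_lit 83) (nat_lit 5) (nat_lit 93) (nat_lit 5) (nat_lit 299) (nat_lit 292) (nat_lit 189)) (XT.nd (nat_lit 78) (nat_lit 0) (nat_lit 0) (XT.lf (nat_lit 0) (nat_lit 18890311719) (nat_lit 684) (nat_lit 2400016804) (nat_lit 760) (nat_lit 2734648736) (nat_lit 84) (nat_lit 5) (nat_lit 93) (nat_lit 5) (nat_lit 94) (nat_lit 5) (nat_lit 300) (nat_lit 292) (nat_lit 188)) (XT.lf (nat_lit 76) (nat_lit 9048996052) (nat_lit 0) (nat_lit 11828751140) (nat_lit 760) (nat_lit 3792096711) (nat_lit 85) (nat_lit 5) (nat_lit 84) (nat_lit 5) (nat_lit 94) (nat_lit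 5) (nat_lit 301) (nat_lit 292) (nat_lit 187))))))) (XT.nd (nat_lit 780) (nat_lit 1064) (nat_lit 0) (XT.nd (nat_lit 390) (nat_lit 988) (nat_lit 0) (XT.nd (nat_lit 156) (nat_lit 456) (nat_lit 0) (XT.nd (nat_lit 78) (nat_lit 608) (nat_lit 0) (XT.lf (nat_lit 76) (nat_lit 21148101421) (nat_lit 0) (nat_lit 1850077283) (nat_lit 760) (nat_lit 2347112087) (nat_lit 85) (nat_lit 5) (nat_lit 84) (nat_lit 5) (nat_lit 94) (nat_lit 5) (nat_lit 302) (nat_lit 292) (nat_lit 186)) (XT.lf (nat_lit 0) (nat_lit 7910350435) (nat_lit 684) (nat_lit 17565817110) (nat_lit 760) (nat_lit 565782958) (nat_lit 76) (nat_lit 5) (nat_lit 85) (nat_lit 5) (nat_lit 86) (nat_lit 5) (nat_lit 303) (nat_lit 292) (nat_lit 185))) (XT.nd (nat_lit 78) (nat_lit 380) (nat_lit 0) (XT.lf (nat_lit 0) (nat_lit 1358872988) (nat_lit 760) (nat_lit 6058689600) (nat_lit 76) (nat_lit 19350077032) (nat_lit 75) (nat_lit 5) (nat_lit 85) (nat_lit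 5) (nat_lit 76) (nat_lit 5) (nat_lit 304) (nat_lit 292) (nat_lit 184)) (XT.nd (nat_lit 78) (nat_lit 0) (nat_lit 0) (XT.lf (nat_lit 0) (nat_lit 3513462896) (nat_lit 456) (nat_lit 20755340009) (nat_lit 76) (nat_lit 3252725686) (nat_lit 70) (nat_lit 5) (nat_lit 76) (nat_lit 5) (nat_lit 71) (nat_lit 5) (nat_lit 305) (nat_lit 292) (nat_lit 183)) (XT.lf (nat_lit 0) (nat_lit 5995641729) (nat_lit 456) (nat_lit 7994480719) (nat_lit 76) (nat_lit 14312010795) (nat_lit 70) (nat_lit 5) (nat_lit 76) (nat_lit 5) (nat_lit 71) (nat_lit 5) (nat_lit 306) (nat_lit 292) (nat_lit 182))))) (XT.nd (nat_lit 156) (nat_lit 608) (nat_lit 0) (XT.nd (nat_lit 78) (nat_lit 0) (nat_lit 0) (XT.lf (nat_lit 0) (nat_lit 5577338550) (nat_lit 380) (nat_lit 3105927050) (nat_lit 456) (nat_lit 20434449249) (nat_lit 65) (nat_lit 5) (nat_lit 70) (nat_lit 5) (nat_lit 71) (nat_lit 5) (nat_lit 307) (nat_lit 292) (nat_lit 181)) (XT.lf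 (nat_lit 0) (nat_lit 11767264320) (nat_lit 456) (nat_lit 9999957487) (nat_lit 76) (nat_lit 8193766931) (nat_lit 65) (nat_lit 5) (nat_lit 71) (nat_lit 5) (nat_lit 66) (nat_lit 5) (nat_lit 308) (nat_lit 292) (nat_lit 180))) (XT.nd (nat_lit 78) (nat_lit 304) (nat_lit 0) (XT.lf (nat_lit 0) (nat_lit 4298630498) (nat_lit 304) (nat_lit 10819573964) (nat_lit 380) (nat_lit 15722597052) (nat_lit 61) (nat_lit 5) (nat_lit 65) (nat_lit 5) (nat_lit 66) (nat_lit 5) (nat_lit 309) (nat_lit 292) (nat_lit 179)) (XT.nd (nat_lit 78) (nat_lit 304) (nat_lit 0) (XT.lf (nat_lit 0) (nat_lit 18814241080) (nat_lit 380) (nat_lit 12115827402) (nat_lit 76) (nat_lit 825670660) (nat_lit 61) (nat_lit 5) (nat_lit 66) (nat_lit 5) (nat_lit 62) (nat_lit 5) (nat_lit 310) (nat_lit 292) (nat_lit 178)) (XT.lf (nat_lit 0) (nat_lit 2943244640) (nat_lit 304) (nat_lit 19970274665) (nat_lit 380) (nat_lit 9791993486) (nat_lit 57)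 (nat_lit 5) (nat_lit 61) (nat_lit 5) (nat_lit 62) (nat_lit 5) (nat_lit 311) (nat_lit 292) (nat_lit 177)))))) (XT.nd (nat_lit 390) (nat_lit 456) (nat_lit 0) (XT.nd (nat_lit 156) (nat_lit 380) (nat_lit 0) (XT.nd (nat_lit 78) (nat_lit 228) (nat_lit 0) (XT.lf (nat_lit 0) (nat_lit 19170570992) (nat_lit 304) (nat_lit 8247644498) (nat_lit 380) (nat_lit 6274547529) (nat_lit 57) (nat_lit 5) (nat_lit 61) (nat_lit 5) (nat_lit 62) (nat_lit 5) (nat_lit 312) (nat_lit 292) (nat_lit 176)) (XT.lf (nat_lit 0) (nat_lit 1457836289) (nat_lit 228) (nat_lit 30771959649) (nat_lit 304) (nat_lit 2495507443) (nat_lit 54) (nat_lit 5) (nat_lit 57) (nat_lit 5) (nat_lit 58) (nat_lit 5) (nat_lit 313) (nat_lit 292) (nat_lit 175))) (XT.nd (nat_lit 78) (nat_lit 304) (nat_lit 0) (XT.lf (nat_lit 0) (nat_lit 1806070931) (nat_lit 304) (nat_lit 17223735959) (nat_lit 76) (nat_lit 16759487796) (nat_lit 53) (nat_lit 5) (nat_lit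 57) (nat_lit 5) (nat_lit 54) (nat_lit 5) (nat_lit 314) (nat_lit 292) (nat_lit 174)) (XT.nd (nat_lit 78) (nat_lit 304) (nat_lit 0) (XT.lf (nat_lit 0) (nat_lit 6234610946) (nat_lit 304) (nat_lit 423849414) (nat_lit 76) (nat_lit 30246201011) (nat_lit 53) (nat_lit 5) (nat_lit 57) (nat_lit 5) (nat_lit 54) (nat_lit 5) (nat_lit 315) (nat_lit 292) (nat_lit 173)) (XT.lf (nat_lit 0) (nat_lit 11261517443) (nat_lit 380) (nat_lit 20385284196) (nat_lit 76) (nat_lit 6410156082) (nat_lit 49) (nat_lit 5) (nat_lit 54) (nat_lit 5) (nat_lit 50) (nat_lit 5) (nat_lit 316) (nat_lit 292) (nat_lit 172))))) (XT.nd (nat_lit 156) (nat_lit 228) (nat_lit 0) (XT.nd (nat_lit 78) (nat_lit 228) (nat_lit 0) (XT.lf (nat_lit 0) (nat_lit 16652275096) (nat_lit 380) (nat_lit 2694084637) (nat_lit 76) (nat_lit 19914891772) (nat_lit 49) (nat_lit 5) (nat_lit 54) (nat_lit 5) (nat_lit 50) (nat_lit 5) (nat_lit 317) (nat_lit 292)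 (nat_lit 171)) (XT.lf (nat_lit 0) (nat_lit 16401885673) (nat_lit 228) (nat_lit 6163007193) (nat_lit 304) (nat_lit 17948258534) (nat_lit 46) (nat_lit 5) (nat_lit 49) (nat_lit 5) (nat_lit 50) (nat_lit 5) (nat_lit 318) (nat_lit 292) (nat_lit 170))) (XT.nd (nat_lit 78) (nat_lit 228) (nat_lit 0) (XT.lf (nat_lit 0) (nat_lit 28935746595) (nat_lit 304) (nat_lit 5404673755) (nat_lit 76) (nat_lit 7479102860) (nat_lit 46) (nat_lit 5) (nat_lit 50) (nat_lit 5) (nat_lit 47) (nat_lit 5) (nat_lit 319) (nat_lit 292) (nat_lit 169)) (XT.nd (nat_lit 78) (nat_lit 0) (nat_lit 0) (XT.lf (nat_lit 0) (nat_lit 14598851126) (nat_lit 228) (nat_lit 21351761159) (nat_lit 304) (nat_lit 7224334694) (nat_lit 43) (nat_lit 5) (nat_lit 46) (nat_lit 5) (nat_lit 47) (nat_lit 5) (nat_lit 320) (nat_lit 292) (nat_lit 168)) (XT.lf (nat_lit 0) (nat_lit 35785646617) (nat_lit 228) (nat_lit 7618708175) (nat_lit 304) (nat_lit 1189386975)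 (nat_lit 43) (nat_lit 5) (nat_lit 46) (nat_lit 5) (nat_lit 47) (nat_lit 5) (nat_lit 321) (nat_lit 292) (nat_lit 167))))))))
noncomputable def xc195 : XT := (XT.nd (nat_lit 1482) (nat_lit 836) (nat_lit 0) (XT.nd (nat_lit 702) (nat_lit 684) (nat_lit 0) (XT.nd (nat_lit 312) (nat_lit 456) (nat_lit 0) (XT.nd (nat_lit 156) (nat_lit 228) (nat_lit 0) (XT.nd (nat_lit 78) (nat_lit 0) (nat_lit 0) (XT.lf (nat_lit 0) (nat_lit 5281233376) (nat_lit 228) (nat_lit 33924919989) (nat_lit 76) (nat_lit 6858377072) (nat_lit 40) (nat_lit 5) (nat_lit 43) (nat_lit 5) (nat_lit 41) (nat_lit 5) (nat_lit 322) (nat_lit 292) (nat_lit 166)) (XT.lf (nat_lit 0) (nat_lit 12308701114) (nat_lit 228) (nat_lit 13312260225) (nat_lit 76) (nat_lit 21973263538) (nat_lit 40) (nat_lit 5) (nat_lit 43) (nat_lit 5) (nat_lit 41) (nat_lit 5) (nat_lit 323) (nat_lit 292) (nat_lit 165))) (XT.nd (nat_lit 78) (nat_lit 0) (nat_lit 0) (XT.lf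 (nat_lit 0) (nat_lit 8602048707) (nat_lit 228) (nat_lit 11216725105) (nat_lit 304) (nat_lit 29375074000) (nat_lit 37) (nat_lit 5) (nat_lit 40) (nat_lit 5) (nat_lit 41) (nat_lit 5) (nat_lit 324) (nat_lit 292) (nat_lit 164)) (XT.lf (nat_lit 0) (nat_lit 27991496308) (nat_lit 304) (nat_lit 18857010015) (nat_lit 76) (nat_lit 4010593363) (nat_lit 37) (nat_lit 5) (nat_lit 41) (nat_lit 5) (nat_lit 38) (nat_lit 5) (nat_lit 325) (nat_lit 292) (nat_lit 163)))) (XT.nd (nat_lit 156) (nat_lit 304) (nat_lit 0) (XT.nd (nat_lit 78) (nat_lit 0) (nat_lit 0) (XT.lf (nat_lit 0) (nat_lit 3901344317) (nat_lit 152) (nat_lit 32913435783) (nat_lit 228) (nat_lit 15780742649) (nat_lit 35) (nat_lit 5) (nat_lit 37) (nat_lit 5) (nat_lit 38) (nat_lit 5) (nat_lit 326) (nat_lit 292) (nat_lit 162)) (XT.lf (nat_lit 0) (nat_lit 28448195427) (nat_lit 152) (nat_lit 17947591344) (nat_lit 228) (nat_lit 8007156884) (nat_lit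 35) (nat_lit 5) (nat_lit 37) (nat_lit 5) (nat_lit 38) (nat_lit 5) (nat_lit 327) (nat_lit 292) (nat_lit 161))) (XT.nd (nat_lit 78) (nat_lit 228) (nat_lit 0) (XT.lf (nat_lit 0) (nat_lit 147434997) (nat_lit 228) (nat_lit 2084760751) (nat_lit 76) (nat_lit 54068558406) (nat_lit 34) (nat_lit 5) (nat_lit 37) (nat_lit 5) (nat_lit 35) (nat_lit 5) (nat_lit 328) (nat_lit 292) (nat_lit 160)) (XT.nd (nat_lit 78) (nat_lit 0) (nat_lit 0) (XT.lf (nat_lit 0) (nat_lit 9037481350) (nat_lit 304) (nat_lit 34900580795) (nat_lit 76) (nat_lit 14318992892) (nat_lit 31) (nat_lit 5) (nat_lit 35) (nat_lit 5) (nat_lit 32) (nat_lit 5) (nat_lit 329) (nat_lit 292) (nat_lit 159)) (XT.lf (nat_lit 0) (nat_lit 18441974164) (nat_lit 304) (nat_lit 10208280180) (nat_lit 76) (nat_lit 31657423217) (nat_lit 31) (nat_lit 5) (nat_lit 35) (nat_lit 5) (nat_lit 32) (nat_lit 5) (nat_lit 330) (nat_lit 292) (nat_lit 158)))))) (XT.nd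 (nat_lit 390) (nat_lit 304) (nat_lit 0) (XT.nd (nat_lit 156) (nat_lit 228) (nat_lit 0) (XT.nd (nat_lit 78) (nat_lit 0) (nat_lit 0) (XT.lf (nat_lit 0) (nat_lit 16234575118) (nat_lit 152) (nat_lit 12333169949) (nat_lit 228) (nat_lit 33880537095) (nat_lit 29) (nat_lit 5) (nat_lit 31) (nat_lit 5) (nat_lit 32) (nat_lit 5) (nat_lit 331) (nat_lit 292) (nat_lit 157)) (XT.lf (nat_lit 0) (nat_lit 39448083907) (nat_lit 228) (nat_lit 20414773849) (nat_lit 76) (nat_lit 4820648719) (nat_lit 29) (nat_lit 5) (nat_lit 32) (nat_lit 5) (nat_lit 30) (nat_lit 5) (nat_lit 332) (nat_lit 292) (nat_lit 156))) (XT.nd (nat_lit 78) (nat_lit 76) (nat_lit 0) (XT.lf (nat_lit 0) (nat_lit 6682263132) (nat_lit 152) (nat_lit 44494426860) (nat_lit 228) (nat_lit 15838592781) (nat_lit 27) (nat_lit 5) (nat_lit 29) (nat_lit 5) (nat_lit 30) (nat_lit 5) (nat_lit 333) (nat_lit 292) (nat_lit 155)) (XT.nd (nat_lit 78) (nat_lit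 76) (nat_lit 0) (XT.lf (nat_lit 0) (nat_lit 35839429901) (nat_lit 152) (nat_lit 27995822305) (nat_lit 228) (nat_lit 5611222521) (nat_lit 27) (nat_lit 5) (nat_lit 29) (nat_lit 5) (nat_lit 30) (nat_lit 5) (nat_lit 334) (nat_lit 292) (nat_lit 154)) (XT.lf (nat_lit 0) (nat_lit 4961263252) (nat_lit 228) (nat_lit 5628211127) (nat_lit 76) (nat_lit 61405859016) (nat_lit 26) (nat_lit 5) (nat_lit 29) (nat_lit 5) (nat_lit 27) (nat_lit 5) (nat_lit 335) (nat_lit 292) (nat_lit 153))))) (XT.nd (nat_lit 156) (nat_lit 152) (nat_lit 0) (XT.nd (nat_lit 78) (nat_lit 0) (nat_lit 0) (XT.lf (nat_lit 0) (nat_lit 16381045271) (nat_lit 228) (nat_lit 50339353727) (nat_lit 76) (nat_lit 7921277046) (nat_lit 24) (nat_lit 5) (nat_lit 27) (nat_lit 5) (nat_lit 25) (nat_lit 5) (nat_lit 336) (nat_lit 292) (nat_lit 152)) (XT.lf (nat_lit 0) (nat_lit 28640283962) (nat_lit 228) (nat_lit 21669204755) (nat_lit 76) (nat_lit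 27097426308) (nat_lit 24) (nat_lit 5) (nat_lit 27) (nat_lit 5) (nat_lit 25) (nat_lit 5) (nat_lit 337) (nat_lit 292) (nat_lit 151))) (XT.nd (nat_lit 78) (nat_lit 0) (nat_lit 0) (XT.lf (nat_lit 0) (nat_lit 8710129775) (nat_lit 152) (nat_lit 32936430620) (nat_lit 228) (nat_lit 38657154220) (nat_lit 22) (nat_lit 5) (nat_lit 24) (nat_lit 5) (nat_lit 25) (nat_lit 5) (nat_lit 338) (nat_lit 292) (nat_lit 150)) (XT.nd (nat_lit 78) (nat_lit 0) (nat_lit 0) (XT.lf (nat_lit 0) (nat_lit 41357686458) (nat_lit 152) (nat_lit 14310572436) (nat_lit 228) (nat_lit 27658842214) (nat_lit 22) (nat_lit 5) (nat_lit 24) (nat_lit 5) (nat_lit 25) (nat_lit 5) (nat_lit 339) (nat_lit 292) (nat_lit 149)) (XT.lf (nat_lit 0) (nat_lit 70471157400) (nat_lit 228) (nat_lit 10948928654) (nat_lit 76) (nat_lit 5077567340) (nat_lit 22) (nat_lit 5) (nat_lit 25) (nat_lit 5) (nat_lit 23) (nat_lit 4) (nat_lit 340) (nat_lit 292)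 (nat_lit 148))))))) (XT.nd (nat_lit 780) (nat_lit 228) (nat_lit 0) (XT.nd (nat_lit 390) (nat_lit 304) (nat_lit 0) (XT.nd (nat_lit 156) (nat_lit 152) (nat_lit 0) (XT.nd (nat_lit 78) (nat_lit 76) (nat_lit 0) (XT.lf (nat_lit 0) (nat_lit 22092234510) (nat_lit 76) (nat_lit 64499774503) (nat_lit 152) (nat_lit 3205835995) (nat_lit 21) (nat_lit 5) (nat_lit 22) (nat_lit 5) (nat_lit 23) (nat_lit 4) (nat_lit 341) (nat_lit 292) (nat_lit 147)) (XT.lf (nat_lit 0) (nat_lit 10114366218) (nat_lit 152) (nat_lit 36254209022) (nat_lit 76) (nat_lit 46877128713) (nat_lit 20) (nat_lit 5) (nat_lit 22) (nat_lit 5) (nat_lit 21) (nat_lit 5) (nat_lit 342) (nat_lit 292) (nat_lit 146))) (XT.nd (nat_lit 78) (nat_lit 152) (nat_lit 0) (XT.lf (nat_lit 0) (nat_lit 23991218116) (nat_lit 152) (nat_lit 3285506042) (nat_lit 76) (nat_lit 69586686950) (nat_lit 20) (nat_lit 5) (nat_lit 22) (nat_lit 5) (nat_lit 21) (nat_lit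 5) (nat_lit 343) (nat_lit 292) (nat_lit 145)) (XT.nd (nat_lit 78) (nat_lit 0) (nat_lit 0) (XT.lf (nat_lit 0) (nat_lit 32364927231) (nat_lit 152) (nat_lit 6700746581) (nat_lit 228) (nat_lit 61571143491) (nat_lit 18) (nat_lit 5) (nat_lit 20) (nat_lit 5) (nat_lit 21) (nat_lit 5) (nat_lit 344) (nat_lit 292) (nat_lit 144)) (XT.lf (nat_lit 0) (nat_lit 55181571570) (nat_lit 228) (nat_lit 34920374170) (nat_lit 76) (nat_lit 14482563764) (nat_lit 18) (nat_lit 5) (nat_lit 21) (nat_lit 5) (nat_lit 19) (nat_lit 4) (nat_lit 345) (nat_lit 292) (nat_lit 143))))) (XT.nd (nat_lit 156) (nat_lit 228) (nat_lit 0) (XT.nd (nat_lit 78) (nat_lit 76) (nat_lit 0) (XT.lf (nat_lit 0) (nat_lit 72211657100) (nat_lit 228) (nat_lit 13610901) (nat_lit 76) (nat_lit 36498900250) (nat_lit 18) (nat_lit 5) (nat_lit 21) (nat_lit 5) (nat_lit 19) (nat_lit 4) (nat_lit 346) (nat_lit 292) (nat_lit 142)) (XT.lf (nat_lit 0) (nat_lit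 37847484368) (nat_lit 76) (nat_lit 52835281721) (nat_lit 152) (nat_lit 22358569393) (nat_lit 17) (nat_lit 5) (nat_lit 18) (nat_lit 5) (nat_lit 19) (nat_lit 4) (nat_lit 347) (nat_lit 292) (nat_lit 141))) (XT.nd (nat_lit 78) (nat_lit 228) (nat_lit 0) (XT.lf (nat_lit 0) (nat_lit 77599783016) (nat_lit 76) (nat_lit 32476521629) (nat_lit 152) (nat_lit 7498114159) (nat_lit 17) (nat_lit 5) (nat_lit 18) (nat_lit 5) (nat_lit 19) (nat_lit 4) (nat_lit 348) (nat_lit 292) (nat_lit 140)) (XT.nd (nat_lit 78) (nat_lit 152) (nat_lit 0) (XT.lf (nat_lit 0) (nat_lit 7844627274) (nat_lit 152) (nat_lit 3123265160) (nat_lit 76) (nat_lit 111360003500) (nat_lit 16) (nat_lit 5) (nat_lit 18) (nat_lit 5) (nat_lit 17) (nat_lit 5) (nat_lit 349) (nat_lit 292) (nat_lit 139)) (XT.lf (nat_lit 0) (nat_lit 24465705717) (nat_lit 228) (nat_lit 90859518428) (nat_lit 76) (nat_lit 11949518732) (nat_lit 14) (nat_lit 5) (nat_lit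 17) (nat_lit 5) (nat_lit 15) (nat_lit 4) (nat_lit 350) (nat_lit 292) (nat_lit 138)))))) (XT.nd (nat_lit 390) (nat_lit 152) (nat_lit 0) (XT.nd (nat_lit 156) (nat_lit 76) (nat_lit 0) (XT.nd (nat_lit 78) (nat_lit 0) (nat_lit 0) (XT.lf (nat_lit 0) (nat_lit 42150161670) (nat_lit 228) (nat_lit 54610049185) (nat_lit 76) (nat_lit 35697106312) (nat_lit 14) (nat_lit 5) (nat_lit 17) (nat_lit 5) (nat_lit 15) (nat_lit 4) (nat_lit 351) (nat_lit 292) (nat_lit 137)) (XT.lf (nat_lit 0) (nat_lit 60717660374) (nat_lit 228) (nat_lit 16550167757) (nat_lit 76) (nat_lit 60631252167) (nat_lit 14) (nat_lit 5) (nat_lit 17) (nat_lit 5) (nat_lit 15) (nat_lit 4) (nat_lit 352) (nat_lit 292) (nat_lit 136))) (XT.nd (nat_lit 78) (nat_lit 0) (nat_lit 0) (XT.lf (nat_lit 0) (nat_lit 24184809564) (nat_lit 76) (nat_lit 56405193249) (nat_lit 152) (nat_lit 63004106402) (nat_lit 13) (nat_lit 5) (nat_lit 14) (nat_lit 5) (nat_lit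 15) (nat_lit 4) (nat_lit 353) (nat_lit 292) (nat_lit 135)) (XT.nd (nat_lit 78) (nat_lit 0) (nat_lit 0) (XT.lf (nat_lit 0) (nat_lit 67529188747) (nat_lit 76) (nat_lit 34205958235) (nat_lit 152) (nat_lit 47824784385) (nat_lit 13) (nat_lit 5) (nat_lit 14) (nat_lit 5) (nat_lit 15) (nat_lit 4) (nat_lit 354) (nat_lit 292) (nat_lit 134)) (XT.lf (nat_lit 0) (nat_lit 113038947405) (nat_lit 76) (nat_lit 10897552866) (nat_lit 152) (nat_lit 31887597730) (nat_lit 13) (nat_lit 5) (nat_lit 14) (nat_lit 5) (nat_lit 15) (nat_lit 4) (nat_lit 355) (nat_lit 292) (nat_lit 133))))) (XT.nd (nat_lit 156) (nat_lit 0) (nat_lit 0) (XT.nd (nat_lit 78) (nat_lit 152) (nat_lit 0) (XT.lf (nat_lit 0) (nat_lit 147458874942) (nat_lit 152) (nat_lit 1791033592) (nat_lit 0) (nat_lit 13141017671) (nat_lit 13) (nat_lit 5) (nat_lit 15) (nat_lit 4) (nat_lit 13) (nat_lit 4) (nat_lit 356) (nat_lit 292) (nat_lit 132)) (XT.lf (nat_lit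 0) (nat_lit 3633291080) (nat_lit 152) (nat_lit 126872215531) (nat_lit 76) (nat_lit 38735652756) (nat_lit 11) (nat_lit 5) (nat_lit 13) (nat_lit 5) (nat_lit 12) (nat_lit 4) (nat_lit 357) (nat_lit 292) (nat_lit 131))) (XT.nd (nat_lit 78) (nat_lit 0) (nat_lit 0) (XT.lf (nat_lit 0) (nat_lit 22654956459) (nat_lit 152) (nat_lit 87880282431) (nat_lit 76) (nat_lit 65884933171) (nat_lit 11) (nat_lit 5) (nat_lit 13) (nat_lit 5) (nat_lit 12) (nat_lit 4) (nat_lit 358) (nat_lit 292) (nat_lit 130)) (XT.nd (nat_lit 78) (nat_lit 0) (nat_lit 0) (XT.lf (nat_lit 0) (nat_lit 42626792241) (nat_lit 152) (nat_lit 46940381868) (nat_lit 76) (nat_lit 94391007686) (nat_lit 11) (nat_lit 5) (nat_lit 13) (nat_lit 5) (nat_lit 12) (nat_lit 4) (nat_lit 359) (nat_lit 292) (nat_lit 129)) (XT.lf (nat_lit 0) (nat_lit 63596350413) (nat_lit 152) (nat_lit 3955037888) (nat_lit 76) (nat_lit 124321747906) (nat_lit 11) (nat_lit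 5) (nat_lit 13) (nat_lit 5) (nat_lit 12) (nat_lit 4) (nat_lit 360) (nat_lit 292) (nat_lit 128))))))))
noncomputable def xc196 : XT := (XT.nd (nat_lit 35334) (nat_lit 0) (nat_lit 3876) (XT.nd (nat_lit 702) (nat_lit 152) (nat_lit 0) (XT.nd (nat_lit 312) (nat_lit 152) (nat_lit 0) (XT.nd (nat_lit 156) (nat_lit 0) (nat_lit 0) (XT.nd (nat_lit 78) (nat_lit 0) (nat_lit 0) (XT.lf (nat_lit 0) (nat_lit 42539629369) (nat_lit 76) (nat_lit 43738091959) (nat_lit 152) (nat_lit 113872950961) (nat_lit 10) (nat_lit 5) (nat_lit 11) (nat_lit 5) (nat_lit 12) (nat_lit 4) (nat_lit 361) (nat_lit 292) (nat_lit 127)) (XT.lf (nat_lit 0) (nat_lit 91494886084) (nat_lit 76) (nat_lit 18664443918) (nat_lit 152) (nat_lit 98679447370) (nat_lit 10) (nat_lit 5) (nat_lit 11) (nat_lit 5) (nat_lit 12) (nat_lit 4) (nat_lit 362) (nat_lit 292) (nat_lit 126))) (XT.nd (nat_lit 78) (nat_lit 0) (nat_lit 0) (XT.lf (nat_lit 0) (nat_lit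 135353876052) (nat_lit 152) (nat_lit 75184435569) (nat_lit 0) (nat_lit 7417033867) (nat_lit 10) (nat_lit 5) (nat_lit 12) (nat_lit 4) (nat_lit 10) (nat_lit 4) (nat_lit 363) (nat_lit 292) (nat_lit 125)) (XT.lf (nat_lit 0) (nat_lit 162113378949) (nat_lit 152) (nat_lit 31224328563) (nat_lit 0) (nat_lit 34174773615) (nat_lit 10) (nat_lit 5) (nat_lit 12) (nat_lit 4) (nat_lit 10) (nat_lit 4) (nat_lit 364) (nat_lit 292) (nat_lit 124)))) (XT.nd (nat_lit 156) (nat_lit 76) (nat_lit 0) (XT.nd (nat_lit 78) (nat_lit 0) (nat_lit 0) (XT.lf (nat_lit 0) (nat_lit 15426236844) (nat_lit 76) (nat_lit 175024757464) (nat_lit 76) (nat_lit 47084472941) (nat_lit 9) (nat_lit 4) (nat_lit 10) (nat_lit 5) (nat_lit 10) (nat_lit 4) (nat_lit 365) (nat_lit 292) (nat_lit 123)) (XT.lf (nat_lit 0) (nat_lit 65492106529) (nat_lit 76) (nat_lit 155241487628) (nat_lit 76) (nat_lit 27299603877) (nat_lit 9) (nat_lit 4) (nat_lit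 10) (nat_lit 5) (nat_lit 10) (nat_lit 4) (nat_lit 366) (nat_lit 292) (nat_lit 122))) (XT.nd (nat_lit 78) (nat_lit 76) (nat_lit 0) (XT.lf (nat_lit 0) (nat_lit 118060067626) (nat_lit 76) (nat_lit 134469594092) (nat_lit 76) (nat_lit 6526187266) (nat_lit 9) (nat_lit 4) (nat_lit 10) (nat_lit 5) (nat_lit 10) (nat_lit 4) (nat_lit 367) (nat_lit 292) (nat_lit 121)) (XT.nd (nat_lit 78) (nat_lit 0) (nat_lit 0) (XT.lf (nat_lit 0) (nat_lit 14796014349) (nat_lit 152) (nat_lit 97613027956) (nat_lit 76) (nat_lit 158208689936) (nat_lit 8) (nat_lit 5) (nat_lit 10) (nat_lit 5) (nat_lit 9) (nat_lit 4) (nat_lit 368) (nat_lit 292) (nat_lit 120)) (XT.lf (nat_lit 0) (nat_lit 36964392354) (nat_lit 152) (nat_lit 52169234520) (nat_lit 76) (nat_lit 193618764448) (nat_lit 8) (nat_lit 5) (nat_lit 10) (nat_lit 5) (nat_lit 9) (nat_lit 4) (nat_lit 369) (nat_lit 292) (nat_lit 119)))))) (XT.nd (nat_lit 390) (nat_lit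 76) (nat_lit 0) (XT.nd (nat_lit 156) (nat_lit 0) (nat_lit 0) (XT.nd (nat_lit 78) (nat_lit 76) (nat_lit 0) (XT.lf (nat_lit 0) (nat_lit 60240607348) (nat_lit 152) (nat_lit 4454309471) (nat_lit 76) (nat_lit 230798896056) (nat_lit 8) (nat_lit 5) (nat_lit 10) (nat_lit 5) (nat_lit 9) (nat_lit 4) (nat_lit 370) (nat_lit 292) (nat_lit 118)) (XT.lf (nat_lit 0) (nat_lit 47154595704) (nat_lit 76) (nat_lit 38261698577) (nat_lit 152) (nat_lit 223419228569) (nat_lit 7) (nat_lit 5) (nat_lit 8) (nat_lit 5) (nat_lit 9) (nat_lit 4) (nat_lit 371) (nat_lit 292) (nat_lit 117))) (XT.nd (nat_lit 78) (nat_lit 0) (nat_lit 0) (XT.lf (nat_lit 0) (nat_lit 101497598283) (nat_lit 76) (nat_lit 10428059875) (nat_lit 152) (nat_lit 210914915920) (nat_lit 7) (nat_lit 5) (nat_lit 8) (nat_lit 5) (nat_lit 9) (nat_lit 4) (nat_lit 372) (nat_lit 292) (nat_lit 116)) (XT.nd (nat_lit 78) (nat_lit 0) (nat_lit 0) (XT.lf (nat_lit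 0) (nat_lit 140053444067) (nat_lit 152) (nat_lit 179282568580) (nat_lit 0) (nat_lit 18195217893) (nat_lit 7) (nat_lit 5) (nat_lit 9) (nat_lit 4) (nat_lit 7) (nat_lit 4) (nat_lit 373) (nat_lit 292) (nat_lit 115)) (XT.lf (nat_lit 0) (nat_lit 169758071948) (nat_lit 152) (nat_lit 135291010696) (nat_lit 0) (nat_lit 47898814897) (nat_lit 7) (nat_lit 5) (nat_lit 9) (nat_lit 4) (nat_lit 7) (nat_lit 4) (nat_lit 374) (nat_lit 292) (nat_lit 114))))) (XT.nd (nat_lit 156) (nat_lit 76) (nat_lit 0) (XT.nd (nat_lit 78) (nat_lit 0) (nat_lit 0) (XT.lf (nat_lit 0) (nat_lit 200947455866) (nat_lit 152) (nat_lit 89100749098) (nat_lit 0) (nat_lit 79087217027) (nat_lit 7) (nat_lit 5) (nat_lit 9) (nat_lit 4) (nat_lit 7) (nat_lit 4) (nat_lit 375) (nat_lit 292) (nat_lit 113)) (XT.lf (nat_lit 0) (nat_lit 233695856258) (nat_lit 152) (nat_lit 40601806974) (nat_lit 0) (nat_lit 111834682384) (nat_lit 7) (nat_lit 5)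 (nat_lit 9) (nat_lit 4) (nat_lit 7) (nat_lit 4) (nat_lit 376) (nat_lit 292) (nat_lit 112))) (XT.nd (nat_lit 78) (nat_lit 0) (nat_lit 0) (XT.lf (nat_lit 0) (nat_lit 10662557785) (nat_lit 76) (nat_lit 257585160130) (nat_lit 76) (nat_lit 135723095745) (nat_lit 6) (nat_lit 4) (nat_lit 7) (nat_lit 5) (nat_lit 7) (nat_lit 4) (nat_lit 377) (nat_lit 292) (nat_lit 111)) (XT.nd (nat_lit 78) (nat_lit 0) (nat_lit 0) (XT.lf (nat_lit 0) (nat_lit 65898963721) (nat_lit 76) (nat_lit 239315397370) (nat_lit 76) (nat_lit 117452484881) (nat_lit 6) (nat_lit 4) (nat_lit 7) (nat_lit 5) (nat_lit 7) (nat_lit 4) (nat_lit 378) (nat_lit 292) (nat_lit 110)) (XT.lf (nat_lit 0) (nat_lit 123896446983) (nat_lit 76) (nat_lit 220132486766) (nat_lit 76) (nat_lit 98268766557) (nat_lit 6) (nat_lit 4) (nat_lit 7) (nat_lit 5) (nat_lit 7) (nat_lit 4) (nat_lit 379) (nat_lit 292) (nat_lit 109))))))) (XT.nd (nat_lit 780) (nat_lit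 1824) (nat_lit 0) (XT.nd (nat_lit 390) (nat_lit 0) (nat_lit 76) (XT.nd (nat_lit 156) (nat_lit 0) (nat_lit 0) (XT.nd (nat_lit 78) (nat_lit 0) (nat_lit 0) (XT.lf (nat_lit 0) (nat_lit 2838941251) (nat_lit 0) (nat_lit 2838941251) (nat_lit 684) (nat_lit 4621802748) (nat_lit 81) (nat_lit 5) (nat_lit 81) (nat_lit 3) (nat_lit 90) (nat_lit 3) (nat_lit 293) (nat_lit 293) (nat_lit 194)) (XT.lf (nat_lit 0) (nat_lit 11837925009) (nat_lit 684) (nat_lit 5910077694) (nat_lit 760) (nat_lit 3356059267) (nat_lit 81) (nat_lit 5) (nat_lit 90) (nat_lit 3) (nat_lit 91) (nat_lit 5) (nat_lit 294) (nat_lit 293) (nat_lit 193))) (XT.nd (nat_lit 78) (nat_lit 0) (nat_lit 76) (XT.lf (nat_lit 76) (nat_lit 3567845534) (nat_lit 0) (nat_lit 8915977115) (nat_lit 760) (nat_lit 9143208172) (nat_lit 82) (nat_lit 5) (nat_lit 81) (nat_lit 5) (nat_lit 91) (nat_lit 5) (nat_lit 295) (nat_lit 293) (nat_lit 192)) (XT.nd (nat_lit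 78) (nat_lit 0) (nat_lit 0) (XT.lf (nat_lit 0) (nat_lit 13260589888) (nat_lit 684) (nat_lit 8459127329) (nat_lit 760) (nat_lit 451525297) (nat_lit 82) (nat_lit 5) (nat_lit 91) (nat_lit 5) (nat_lit 92) (nat_lit 5) (nat_lit 296) (nat_lit 293) (nat_lit 191)) (XT.lf (nat_lit 76) (nat_lit 1518014525) (nat_lit 0) (nat_lit 12719721133) (nat_lit 760) (nat_lit 8496874160) (nat_lit 83) (nat_lit 5) (nat_lit 82) (nat_lit 5) (nat_lit 92) (nat_lit 5) (nat_lit 297) (nat_lit 293) (nat_lit 190))))) (XT.nd (nat_lit 156) (nat_lit 0) (nat_lit 76) (XT.nd (nat_lit 78) (nat_lit 0) (nat_lit 76) (XT.lf (nat_lit 76) (nat_lit 12282440037) (nat_lit 0) (nat_lit 3116548568) (nat_lit 760) (nat_lit 7920415372) (nat_lit 83) (nat_lit 5) (nat_lit 82) (nat_lit 5) (nat_lit 92) (nat_lit 5) (nat_lit 298) (nat_lit 293) (nat_lit 189)) (XT.lf (nat_lit 0) (nat_lit 16719488037) (nat_lit 684) (nat_lit 462569355) (nat_lit 760)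 (nat_lit 6746341247) (nat_lit 83) (nat_lit 5) (nat_lit 92) (nat_lit 5) (nat_lit 93) (nat_lit 5) (nat_lit 299) (nat_lit 293) (nat_lit 188))) (XT.nd (nat_lit 78) (nat_lit 0) (nat_lit 76) (XT.lf (nat_lit 76) (nat_lit 10934229700) (nat_lit 0) (nat_lit 7386361797) (nat_lit 760) (nat_lit 6236541619) (nat_lit 84) (nat_lit 5) (nat_lit 83) (nat_lit 5) (nat_lit 93) (nat_lit 5) (nat_lit 300) (nat_lit 293) (nat_lit 187)) (XT.nd (nat_lit 78) (nat_lit 0) (nat_lit 0) (XT.lf (nat_lit 0) (nat_lit 20048043277) (nat_lit 684) (nat_lit 2350875799) (nat_lit 760) (nat_lit 2816088709) (nat_lit 84) (nat_lit 5) (nat_lit 93) (nat_lit 5) (nat_lit 94) (nat_lit 5) (nat_lit 301) (nat_lit 293) (nat_lit 186)) (XT.lf (nat_lit 76) (nat_lit 9667859605) (nat_lit 0) (nat_lit 12459435961) (nat_lit 760) (nat_lit 3765226492) (nat_lit 85) (nat_lit 5) (nat_lit 84) (nat_lit 5) (nat_lit 94) (nat_lit 5) (nat_lit 302) (nat_lit 293)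 (nat_lit 185)))))) (XT.nd (nat_lit 390) (nat_lit 988) (nat_lit 0) (XT.nd (nat_lit 156) (nat_lit 456) (nat_lit 0) (XT.nd (nat_lit 78) (nat_lit 608) (nat_lit 0) (XT.lf (nat_lit 76) (nat_lit 22363995779) (nat_lit 0) (nat_lit 1979959494) (nat_lit 760) (nat_lit 2258300973) (nat_lit 85) (nat_lit 5) (nat_lit 84) (nat_lit 5) (nat_lit 94) (nat_lit 5) (nat_lit 303) (nat_lit 293) (nat_lit 184)) (XT.lf (nat_lit 0) (nat_lit 8472508103) (nat_lit 684) (nat_lit 18466054350) (nat_lit 760) (nat_lit 395574625) (nat_lit 76) (nat_lit 5) (nat_lit 85) (nat_lit 5) (nat_lit 86) (nat_lit 5) (nat_lit 304) (nat_lit 293) (nat_lit 183))) (XT.nd (nat_lit 78) (nat_lit 380) (nat_lit 0) (XT.lf (nat_lit 0) (nat_lit 1609811230) (nat_lit 760) (nat_lit 6196431704) (nat_lit 76) (nat_lit 20290192092) (nat_lit 75) (nat_lit 5) (nat_lit 85) (nat_lit 5) (nat_lit 76) (nat_lit 5) (nat_lit 305) (nat_lit 293) (nat_lit 182)) (XT.nd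 (nat_lit 78) (nat_lit 0) (nat_lit 0) (XT.lf (nat_lit 0) (nat_lit 3865731014) (nat_lit 456) (nat_lit 21621098971) (nat_lit 76) (nat_lit 3401529244) (nat_lit 70) (nat_lit 5) (nat_lit 76) (nat_lit 5) (nat_lit 71) (nat_lit 5) (nat_lit 306) (nat_lit 293) (nat_lit 181)) (XT.lf (nat_lit 0) (nat_lit 6463609504) (nat_lit 456) (nat_lit 8230387575) (nat_lit 76) (nat_lit 15014437310) (nat_lit 70) (nat_lit 5) (nat_lit 76) (nat_lit 5) (nat_lit 71) (nat_lit 5) (nat_lit 307) (nat_lit 293) (nat_lit 180))))) (XT.nd (nat_lit 156) (nat_lit 608) (nat_lit 0) (XT.nd (nat_lit 78) (nat_lit 0) (nat_lit 0) (XT.lf (nat_lit 0) (nat_lit 6017380445) (nat_lit 380) (nat_lit 3262741674) (nat_lit 456) (nat_lit 21284966447) (nat_lit 65) (nat_lit 5) (nat_lit 70) (nat_lit 5) (nat_lit 71) (nat_lit 5) (nat_lit 308) (nat_lit 293) (nat_lit 179)) (XT.lf (nat_lit 0) (nat_lit 12510550902) (nat_lit 456) (nat_lit 10338326125) (nat_lit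 76) (nat_lit 8602055585) (nat_lit 65) (nat_lit 5) (nat_lit 71) (nat_lit 5) (nat_lit 66) (nat_lit 5) (nat_lit 309) (nat_lit 293) (nat_lit 178))) (XT.nd (nat_lit 78) (nat_lit 304) (nat_lit 0) (XT.lf (nat_lit 0) (nat_lit 4672584336) (nat_lit 304) (nat_lit 11351559197) (nat_lit 380) (nat_lit 16350854335) (nat_lit 61) (nat_lit 5) (nat_lit 65) (nat_lit 5) (nat_lit 66) (nat_lit 5) (nat_lit 310) (nat_lit 293) (nat_lit 177)) (XT.nd (nat_lit 78) (nat_lit 304) (nat_lit 0) (XT.lf (nat_lit 0) (nat_lit 19897971477) (nat_lit 380) (nat_lit 12562832465) (nat_lit 76) (nat_lit 875245258) (nat_lit 61) (nat_lit 5) (nat_lit 66) (nat_lit 5) (nat_lit 62) (nat_lit 5) (nat_lit 311) (nat_lit 293) (nat_lit 176)) (XT.lf (nat_lit 0) (nat_lit 3246632110) (nat_lit 304) (nat_lit 20951210220) (nat_lit 380) (nat_lit 10135703290) (nat_lit 57) (nat_lit 5) (nat_lit 61) (nat_lit 5) (nat_lit 62) (nat_lit 5) (nat_lit 312)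 (nat_lit 293) (nat_lit 175))))))))
noncomputable def xc197 : XT := (XT.nd (nat_lit 1482) (nat_lit 1292) (nat_lit 0) (XT.nd (nat_lit 702) (nat_lit 912) (nat_lit 0) (XT.nd (nat_lit 312) (nat_lit 760) (nat_lit 0) (XT.nd (nat_lit 156) (nat_lit 76) (nat_lit 0) (XT.nd (nat_lit 78) (nat_lit 228) (nat_lit 0) (XT.lf (nat_lit 0) (nat_lit 20277885482) (nat_lit 304) (nat_lit 8643285601) (nat_lit 380) (nat_lit 6449332172) (nat_lit 57) (nat_lit 5) (nat_lit 61) (nat_lit 5) (nat_lit 62) (nat_lit 5) (nat_lit 313) (nat_lit 293) (nat_lit 174)) (XT.lf (nat_lit 0) (nat_lit 1683643769) (nat_lit 228) (nat_lit 32286035307) (nat_lit 304) (nat_lit 2485188211) (nat_lit 54) (nat_lit 5) (nat_lit 57) (nat_lit 5) (nat_lit 58) (nat_lit 5) (nat_lit 314) (nat_lit 293) (nat_lit 173))) (XT.nd (nat_lit 78) (nat_lit 0) (nat_lit 0) (XT.lf (nat_lit 0) (nat_lit 2020918032) (nat_lit 304) (nat_lit 17934915402) (nat_lit 76) (nat_lit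 17616443393) (nat_lit 53) (nat_lit 5) (nat_lit 57) (nat_lit 5) (nat_lit 54) (nat_lit 5) (nat_lit 315) (nat_lit 293) (nat_lit 172)) (XT.lf (nat_lit 0) (nat_lit 6664954403) (nat_lit 304) (nat_lit 302177737) (nat_lit 76) (nat_lit 31776588402) (nat_lit 53) (nat_lit 5) (nat_lit 57) (nat_lit 5) (nat_lit 54) (nat_lit 5) (nat_lit 316) (nat_lit 293) (nat_lit 171)))) (XT.nd (nat_lit 156) (nat_lit 456) (nat_lit 0) (XT.nd (nat_lit 78) (nat_lit 0) (nat_lit 0) (XT.lf (nat_lit 0) (nat_lit 11940149100) (nat_lit 380) (nat_lit 21258395465) (nat_lit 76) (nat_lit 6755251583) (nat_lit 49) (nat_lit 5) (nat_lit 54) (nat_lit 5) (nat_lit 50) (nat_lit 5) (nat_lit 317) (nat_lit 293) (nat_lit 170)) (XT.lf (nat_lit 0) (nat_lit 17594941980) (nat_lit 380) (nat_lit 2689595592) (nat_lit 76) (nat_lit 20934053216) (nat_lit 49) (nat_lit 5) (nat_lit 54) (nat_lit 5) (nat_lit 50) (nat_lit 5) (nat_lit 318) (nat_lit 293) (nat_lit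 169))) (XT.nd (nat_lit 78) (nat_lit 228) (nat_lit 0) (XT.lf (nat_lit 0) (nat_lit 17358928181) (nat_lit 228) (nat_lit 6441159978) (nat_lit 304) (nat_lit 18733163149) (nat_lit 46) (nat_lit 5) (nat_lit 49) (nat_lit 5) (nat_lit 50) (nat_lit 5) (nat_lit 319) (nat_lit 293) (nat_lit 168)) (XT.nd (nat_lit 78) (nat_lit 228) (nat_lit 0) (XT.lf (nat_lit 0) (nat_lit 30484837730) (nat_lit 304) (nat_lit 5539633595) (nat_lit 76) (nat_lit 7880712732) (nat_lit 46) (nat_lit 5) (nat_lit 50) (nat_lit 5) (nat_lit 47) (nat_lit 5) (nat_lit 320) (nat_lit 293) (nat_lit 167)) (XT.lf (nat_lit 0) (nat_lit 15461885694) (nat_lit 228) (nat_lit 22385767340) (nat_lit 304) (nat_lit 7480875193) (nat_lit 43) (nat_lit 5) (nat_lit 46) (nat_lit 5) (nat_lit 47) (nat_lit 5) (nat_lit 321) (nat_lit 293) (nat_lit 166)))))) (XT.nd (nat_lit 390) (nat_lit 456) (nat_lit 0) (XT.nd (nat_lit 156) (nat_lit 228) (nat_lit 0) (XT.nd (nat_lit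 78) (nat_lit 228) (nat_lit 0) (XT.lf (nat_lit 0) (nat_lit 37701683245) (nat_lit 228) (nat_lit 7967660843) (nat_lit 304) (nat_lit 1149164670) (nat_lit 43) (nat_lit 5) (nat_lit 46) (nat_lit 5) (nat_lit 47) (nat_lit 5) (nat_lit 322) (nat_lit 293) (nat_lit 165)) (XT.lf (nat_lit 0) (nat_lit 5639732030) (nat_lit 228) (nat_lit 35488819506) (nat_lit 76) (nat_lit 7234318931) (nat_lit 40) (nat_lit 5) (nat_lit 43) (nat_lit 5) (nat_lit 41) (nat_lit 5) (nat_lit 323) (nat_lit 293) (nat_lit 164))) (XT.nd (nat_lit 78) (nat_lit 228) (nat_lit 0) (XT.lf (nat_lit 0) (nat_lit 13014076155) (nat_lit 228) (nat_lit 13851828968) (nat_lit 76) (nat_lit 23103377196) (nat_lit 40) (nat_lit 5) (nat_lit 43) (nat_lit 5) (nat_lit 41) (nat_lit 5) (nat_lit 324) (nat_lit 293) (nat_lit 163)) (XT.nd (nat_lit 78) (nat_lit 0) (nat_lit 0) (XT.lf (nat_lit 0) (nat_lit 9156162440) (nat_lit 228) (nat_lit 11741143356) (nat_lit 304)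 (nat_lit 30751705406) (nat_lit 37) (nat_lit 5) (nat_lit 40) (nat_lit 5) (nat_lit 41) (nat_lit 5) (nat_lit 325) (nat_lit 293) (nat_lit 162)) (XT.lf (nat_lit 0) (nat_lit 29475034819) (nat_lit 304) (nat_lit 19677982696) (nat_lit 76) (nat_lit 4244696746) (nat_lit 37) (nat_lit 5) (nat_lit 41) (nat_lit 5) (nat_lit 38) (nat_lit 5) (nat_lit 326) (nat_lit 293) (nat_lit 161))))) (XT.nd (nat_lit 156) (nat_lit 304) (nat_lit 0) (XT.nd (nat_lit 78) (nat_lit 0) (nat_lit 0) (XT.lf (nat_lit 0) (nat_lit 4216323581) (nat_lit 152) (nat_lit 34521033112) (nat_lit 228) (nat_lit 16483714862) (nat_lit 35) (nat_lit 5) (nat_lit 37) (nat_lit 5) (nat_lit 38) (nat_lit 5) (nat_lit 327) (nat_lit 293) (nat_lit 160)) (XT.lf (nat_lit 0) (nat_lit 29984807149) (nat_lit 152) (nat_lit 18808709520) (nat_lit 228) (nat_lit 8325548139) (nat_lit 35) (nat_lit 5) (nat_lit 37) (nat_lit 5) (nat_lit 38) (nat_lit 5) (nat_lit 328) (nat_lit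 293) (nat_lit 159))) (XT.nd (nat_lit 78) (nat_lit 228) (nat_lit 0) (XT.lf (nat_lit 0) (nat_lit 230371648) (nat_lit 228) (nat_lit 2077619501) (nat_lit 76) (nat_lit 56803905460) (nat_lit 34) (nat_lit 5) (nat_lit 37) (nat_lit 5) (nat_lit 35) (nat_lit 5) (nat_lit 329) (nat_lit 293) (nat_lit 158)) (XT.nd (nat_lit 78) (nat_lit 0) (nat_lit 0) (XT.lf (nat_lit 0) (nat_lit 9563593469) (nat_lit 304) (nat_lit 36532792260) (nat_lit 76) (nat_lit 15069698720) (nat_lit 31) (nat_lit 5) (nat_lit 35) (nat_lit 5) (nat_lit 32) (nat_lit 5) (nat_lit 330) (nat_lit 293) (nat_lit 157)) (XT.lf (nat_lit 0) (nat_lit 19434775779) (nat_lit 304) (nat_lit 10611248881) (nat_lit 76) (nat_lit 33273395504) (nat_lit 31) (nat_lit 5) (nat_lit 35) (nat_lit 5) (nat_lit 32) (nat_lit 5) (nat_lit 331) (nat_lit 293) (nat_lit 156))))))) (XT.nd (nat_lit 780) (nat_lit 608) (nat_lit 0) (XT.nd (nat_lit 390) (nat_lit 304) (nat_lit 0)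 (XT.nd (nat_lit 156) (nat_lit 228) (nat_lit 0) (XT.nd (nat_lit 78) (nat_lit 0) (nat_lit 0) (XT.lf (nat_lit 0) (nat_lit 17152016193) (nat_lit 152) (nat_lit 12913102694) (nat_lit 228) (nat_lit 35502026978) (nat_lit 29) (nat_lit 5) (nat_lit 31) (nat_lit 5) (nat_lit 32) (nat_lit 5) (nat_lit 332) (nat_lit 293) (nat_lit 155)) (XT.lf (nat_lit 0) (nat_lit 41486735682) (nat_lit 228) (nat_lit 21331998891) (nat_lit 76) (nat_lit 5095538583) (nat_lit 29) (nat_lit 5) (nat_lit 32) (nat_lit 5) (nat_lit 30) (nat_lit 5) (nat_lit 333) (nat_lit 293) (nat_lit 154))) (XT.nd (nat_lit 78) (nat_lit 76) (nat_lit 0) (XT.lf (nat_lit 0) (nat_lit 7118220364) (nat_lit 152) (nat_lit 46681987133) (nat_lit 228) (nat_lit 16562513586) (nat_lit 27) (nat_lit 5) (nat_lit 29) (nat_lit 5) (nat_lit 30) (nat_lit 5) (nat_lit 334) (nat_lit 293) (nat_lit 153)) (XT.nd (nat_lit 78) (nat_lit 76) (nat_lit 0) (XT.lf (nat_lit 0) (nat_lit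 37728395753) (nat_lit 152) (nat_lit 29360221925) (nat_lit 228) (nat_lit 5827013329) (nat_lit 27) (nat_lit 5) (nat_lit 29) (nat_lit 5) (nat_lit 30) (nat_lit 5) (nat_lit 335) (nat_lit 293) (nat_lit 152)) (XT.lf (nat_lit 0) (nat_lit 5269038094) (nat_lit 228) (nat_lit 5815192571) (nat_lit 76) (nat_lit 64507804619) (nat_lit 26) (nat_lit 5) (nat_lit 29) (nat_lit 5) (nat_lit 27) (nat_lit 5) (nat_lit 336) (nat_lit 293) (nat_lit 151))))) (XT.nd (nat_lit 156) (nat_lit 152) (nat_lit 0) (XT.nd (nat_lit 78) (nat_lit 0) (nat_lit 0) (XT.lf (nat_lit 0) (nat_lit 17258956329) (nat_lit 228) (nat_lit 52760963992) (nat_lit 76) (nat_lit 8350821161) (nat_lit 24) (nat_lit 5) (nat_lit 27) (nat_lit 5) (nat_lit 25) (nat_lit 5) (nat_lit 337) (nat_lit 293) (nat_lit 150)) (XT.lf (nat_lit 0) (nat_lit 30128354155) (nat_lit 228) (nat_lit 22661848400) (nat_lit 76) (nat_lit 28484183588) (nat_lit 24) (nat_lit 5) (nat_lit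 27) (nat_lit 5) (nat_lit 25) (nat_lit 5) (nat_lit 338) (nat_lit 293) (nat_lit 149))) (XT.nd (nat_lit 78) (nat_lit 0) (nat_lit 0) (XT.lf (nat_lit 0) (nat_lit 9234988072) (nat_lit 152) (nat_lit 34548682036) (nat_lit 228) (nat_lit 40532422740) (nat_lit 22) (nat_lit 5) (nat_lit 24) (nat_lit 5) (nat_lit 25) (nat_lit 5) (nat_lit 339) (nat_lit 293) (nat_lit 148)) (XT.nd (nat_lit 78) (nat_lit 0) (nat_lit 0) (XT.lf (nat_lit 0) (nat_lit 43510667741) (nat_lit 152) (nat_lit 14993177139) (nat_lit 228) (nat_lit 28986937476) (nat_lit 22) (nat_lit 5) (nat_lit 24) (nat_lit 5) (nat_lit 25) (nat_lit 5) (nat_lit 340) (nat_lit 293) (nat_lit 147)) (XT.lf (nat_lit 0) (nat_lit 74044893438) (nat_lit 228) (nat_lit 11413273437) (nat_lit 76) (nat_lit 5361798229) (nat_lit 22) (nat_lit 5) (nat_lit 25) (nat_lit 5) (nat_lit 23) (nat_lit 4) (nat_lit 341) (nat_lit 293) (nat_lit 146)))))) (XT.nd (nat_lit 390) (nat_lit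 304) (nat_lit 0) (XT.nd (nat_lit 156) (nat_lit 152) (nat_lit 0) (XT.nd (nat_lit 78) (nat_lit 76) (nat_lit 0) (XT.lf (nat_lit 0) (nat_lit 23278607537) (nat_lit 76) (nat_lit 67692067181) (nat_lit 152) (nat_lit 3314550180) (nat_lit 21) (nat_lit 5) (nat_lit 22) (nat_lit 5) (nat_lit 23) (nat_lit 4) (nat_lit 342) (nat_lit 293) (nat_lit 145)) (XT.lf (nat_lit 0) (nat_lit 10667633870) (nat_lit 152) (nat_lit 37987425769) (nat_lit 76) (nat_lit 49250498442) (nat_lit 20) (nat_lit 5) (nat_lit 22) (nat_lit 5) (nat_lit 21) (nat_lit 5) (nat_lit 343) (nat_lit 293) (nat_lit 144))) (XT.nd (nat_lit 78) (nat_lit 152) (nat_lit 0) (XT.lf (nat_lit 0) (nat_lit 25236064109) (nat_lit 152) (nat_lit 3374073054) (nat_lit 76) (nat_lit 73094129195) (nat_lit 20) (nat_lit 5) (nat_lit 22) (nat_lit 5) (nat_lit 21) (nat_lit 5) (nat_lit 344) (nat_lit 293) (nat_lit 143)) (XT.nd (nat_lit 78) (nat_lit 0) (nat_lit 0) (XT.lf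 (nat_lit 0) (nat_lit 34057660781) (nat_lit 152) (nat_lit 7005588330) (nat_lit 228) (nat_lit 64603145857) (nat_lit 18) (nat_lit 5) (nat_lit 20) (nat_lit 5) (nat_lit 21) (nat_lit 5) (nat_lit 345) (nat_lit 293) (nat_lit 142)) (XT.lf (nat_lit 0) (nat_lit 57983281621) (nat_lit 228) (nat_lit 36593746258) (nat_lit 76) (nat_lit 15234529222) (nat_lit 18) (nat_lit 5) (nat_lit 21) (nat_lit 5) (nat_lit 19) (nat_lit 4) (nat_lit 346) (nat_lit 293) (nat_lit 141))))) (XT.nd (nat_lit 156) (nat_lit 228) (nat_lit 0) (XT.nd (nat_lit 78) (nat_lit 0) (nat_lit 0) (XT.lf (nat_lit 0) (nat_lit 56710913) (nat_lit 76) (nat_lit 75807015860) (nat_lit 152) (nat_lit 38294531451) (nat_lit 17) (nat_lit 5) (nat_lit 18) (nat_lit 5) (nat_lit 19) (nat_lit 4) (nat_lit 347) (nat_lit 293) (nat_lit 140)) (XT.lf (nat_lit 0) (nat_lit 39807929920) (nat_lit 76) (nat_lit 55448705260) (nat_lit 152) (nat_lit 23434738537) (nat_lit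 17) (nat_lit 5) (nat_lit 18) (nat_lit 5) (nat_lit 19) (nat_lit 4) (nat_lit 348) (nat_lit 293) (nat_lit 139))) (XT.nd (nat_lit 78) (nat_lit 228) (nat_lit 0) (XT.lf (nat_lit 0) (nat_lit 81544602008) (nat_lit 76) (nat_lit 34073356713) (nat_lit 152) (nat_lit 7833249081) (nat_lit 17) (nat_lit 5) (nat_lit 18) (nat_lit 5) (nat_lit 19) (nat_lit 4) (nat_lit 349) (nat_lit 293) (nat_lit 138)) (XT.nd (nat_lit 78) (nat_lit 152) (nat_lit 0) (XT.lf (nat_lit 0) (nat_lit 8273523278) (nat_lit 152) (nat_lit 3216437132) (nat_lit 76) (nat_lit 116952460808) (nat_lit 16) (nat_lit 5) (nat_lit 18) (nat_lit 5) (nat_lit 17) (nat_lit 5) (nat_lit 350) (nat_lit 293) (nat_lit 137)) (XT.lf (nat_lit 0) (nat_lit 25725284638) (nat_lit 228) (nat_lit 95339097506) (nat_lit 76) (nat_lit 12572248642) (nat_lit 14) (nat_lit 5) (nat_lit 17) (nat_lit 5) (nat_lit 15) (nat_lit 4) (nat_lit 351) (nat_lit 293) (nat_lit 136))))))))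
noncomputable def xc198 : XT := (XT.nd (nat_lit 1482) (nat_lit 152) (nat_lit 0) (XT.nd (nat_lit 702) (nat_lit 228) (nat_lit 0) (XT.nd (nat_lit 312) (nat_lit 152) (nat_lit 0) (XT.nd (nat_lit 156) (nat_lit 76) (nat_lit 0) (XT.nd (nat_lit 78) (nat_lit 0) (nat_lit 0) (XT.lf (nat_lit 0) (nat_lit 44292235120) (nat_lit 228) (nat_lit 57280173698) (nat_lit 76) (nat_lit 37506013031) (nat_lit 14) (nat_lit 5) (nat_lit 17) (nat_lit 5) (nat_lit 15) (nat_lit 4) (nat_lit 352) (nat_lit 293) (nat_lit 135)) (XT.lf (nat_lit 0) (nat_lit 63786462789) (nat_lit 228) (nat_lit 17320173339) (nat_lit 76) (nat_lit 63685720874) (nat_lit 14) (nat_lit 5) (nat_lit 17) (nat_lit 5) (nat_lit 15) (nat_lit 4) (nat_lit 353) (nat_lit 293) (nat_lit 134))) (XT.nd (nat_lit 78) (nat_lit 0) (nat_lit 0) (XT.lf (nat_lit 0) (nat_lit 25450625383) (nat_lit 76) (nat_lit 59201112677) (nat_lit 152) (nat_lit 66120435012) (nat_lit 13) (nat_lit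 5) (nat_lit 14) (nat_lit 5) (nat_lit 15) (nat_lit 4) (nat_lit 354) (nat_lit 293) (nat_lit 133)) (XT.lf (nat_lit 0) (nat_lit 70959529461) (nat_lit 76) (nat_lit 35893074971) (nat_lit 152) (nat_lit 50183760071) (nat_lit 13) (nat_lit 5) (nat_lit 14) (nat_lit 5) (nat_lit 15) (nat_lit 4) (nat_lit 355) (nat_lit 293) (nat_lit 132)))) (XT.nd (nat_lit 156) (nat_lit 152) (nat_lit 0) (XT.nd (nat_lit 78) (nat_lit 0) (nat_lit 0) (XT.lf (nat_lit 0) (nat_lit 118742210277) (nat_lit 76) (nat_lit 11420353198) (nat_lit 152) (nat_lit 33451250443) (nat_lit 13) (nat_lit 5) (nat_lit 14) (nat_lit 5) (nat_lit 15) (nat_lit 4) (nat_lit 356) (nat_lit 293) (nat_lit 131)) (XT.lf (nat_lit 0) (nat_lit 154859992861) (nat_lit 152) (nat_lit 1830623561) (nat_lit 0) (nat_lit 13818421601) (nat_lit 13) (nat_lit 5) (nat_lit 15) (nat_lit 4) (nat_lit 13) (nat_lit 4) (nat_lit 357) (nat_lit 293) (nat_lit 130))) (XT.nd (nat_lit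 78) (nat_lit 0) (nat_lit 0) (XT.lf (nat_lit 0) (nat_lit 3843031869) (nat_lit 152) (nat_lit 133165718717) (nat_lit 76) (nat_lit 40693039551) (nat_lit 11) (nat_lit 5) (nat_lit 13) (nat_lit 5) (nat_lit 12) (nat_lit 4) (nat_lit 358) (nat_lit 293) (nat_lit 129)) (XT.nd (nat_lit 78) (nat_lit 0) (nat_lit 0) (XT.lf (nat_lit 0) (nat_lit 23814443554) (nat_lit 152) (nat_lit 92226575037) (nat_lit 76) (nat_lit 69198802837) (nat_lit 11) (nat_lit 5) (nat_lit 13) (nat_lit 5) (nat_lit 12) (nat_lit 4) (nat_lit 359) (nat_lit 293) (nat_lit 128)) (XT.lf (nat_lit 0) (nat_lit 44783597825) (nat_lit 152) (nat_lit 49241951899) (nat_lit 76) (nat_lit 99129246648) (nat_lit 11) (nat_lit 5) (nat_lit 13) (nat_lit 5) (nat_lit 12) (nat_lit 4) (nat_lit 360) (nat_lit 293) (nat_lit 127)))))) (XT.nd (nat_lit 390) (nat_lit 152) (nat_lit 0) (XT.nd (nat_lit 156) (nat_lit 0) (nat_lit 0) (XT.nd (nat_lit 78) (nat_lit 76) (nat_lit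 0) (XT.lf (nat_lit 0) (nat_lit 66800421241) (nat_lit 152) (nat_lit 4109504962) (nat_lit 76) (nat_lit 130555633947) (nat_lit 11) (nat_lit 5) (nat_lit 13) (nat_lit 5) (nat_lit 12) (nat_lit 4) (nat_lit 361) (nat_lit 293) (nat_lit 126)) (XT.lf (nat_lit 0) (nat_lit 44709197516) (nat_lit 76) (nat_lit 45906173164) (nat_lit 152) (nat_lit 119541627819) (nat_lit 10) (nat_lit 5) (nat_lit 11) (nat_lit 5) (nat_lit 12) (nat_lit 4) (nat_lit 362) (nat_lit 293) (nat_lit 125))) (XT.nd (nat_lit 78) (nat_lit 0) (nat_lit 0) (XT.lf (nat_lit 0) (nat_lit 96110189130) (nat_lit 76) (nat_lit 19579739073) (nat_lit 152) (nat_lit 103589638129) (nat_lit 10) (nat_lit 5) (nat_lit 11) (nat_lit 5) (nat_lit 12) (nat_lit 4) (nat_lit 363) (nat_lit 293) (nat_lit 124)) (XT.nd (nat_lit 78) (nat_lit 0) (nat_lit 0) (XT.lf (nat_lit 0) (nat_lit 142143390418) (nat_lit 152) (nat_lit 78904201386) (nat_lit 0) (nat_lit 7804412479)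 (nat_lit 10) (nat_lit 5) (nat_lit 12) (nat_lit 4) (nat_lit 10) (nat_lit 4) (nat_lit 364) (nat_lit 293) (nat_lit 123)) (XT.lf (nat_lit 0) (nat_lit 170239829385) (nat_lit 152) (nat_lit 32747967885) (nat_lit 0) (nat_lit 35899252218) (nat_lit 10) (nat_lit 5) (nat_lit 12) (nat_lit 4) (nat_lit 10) (nat_lit 4) (nat_lit 365) (nat_lit 293) (nat_lit 122))))) (XT.nd (nat_lit 156) (nat_lit 76) (nat_lit 0) (XT.nd (nat_lit 78) (nat_lit 0) (nat_lit 0) (XT.lf (nat_lit 0) (nat_lit 16234519710) (nat_lit 76) (nat_lit 183759393430) (nat_lit 76) (nat_lit 49417293188) (nat_lit 9) (nat_lit 4) (nat_lit 10) (nat_lit 5) (nat_lit 10) (nat_lit 4) (nat_lit 366) (nat_lit 293) (nat_lit 121)) (XT.lf (nat_lit 0) (nat_lit 68801922354) (nat_lit 76) (nat_lit 162987750669) (nat_lit 76) (nat_lit 28644199880) (nat_lit 9) (nat_lit 4) (nat_lit 10) (nat_lit 5) (nat_lit 10) (nat_lit 4) (nat_lit 367) (nat_lit 293) (nat_lit 120)))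 (XT.nd (nat_lit 78) (nat_lit 76) (nat_lit 0) (XT.lf (nat_lit 0) (nat_lit 123996604815) (nat_lit 76) (nat_lit 141178015377) (nat_lit 76) (nat_lit 6833083115) (nat_lit 9) (nat_lit 4) (nat_lit 10) (nat_lit 5) (nat_lit 10) (nat_lit 4) (nat_lit 368) (nat_lit 293) (nat_lit 119)) (XT.nd (nat_lit 78) (nat_lit 0) (nat_lit 0) (XT.lf (nat_lit 0) (nat_lit 15553712363) (nat_lit 152) (nat_lit 102461137606) (nat_lit 76) (nat_lit 166132860997) (nat_lit 8) (nat_lit 5) (nat_lit 10) (nat_lit 5) (nat_lit 9) (nat_lit 4) (nat_lit 369) (nat_lit 293) (nat_lit 118)) (XT.lf (nat_lit 0) (nat_lit 38829657016) (nat_lit 152) (nat_lit 54746704105) (nat_lit 76) (nat_lit 203312785112) (nat_lit 8) (nat_lit 5) (nat_lit 10) (nat_lit 5) (nat_lit 9) (nat_lit 4) (nat_lit 370) (nat_lit 293) (nat_lit 117))))))) (XT.nd (nat_lit 34710) (nat_lit 0) (nat_lit 5700) (XT.nd (nat_lit 390) (nat_lit 76) (nat_lit 0) (XT.nd (nat_lit 156)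 (nat_lit 0) (nat_lit 0) (XT.nd (nat_lit 78) (nat_lit 76) (nat_lit 0) (XT.lf (nat_lit 0) (nat_lit 63268871091) (nat_lit 152) (nat_lit 4647508620) (nat_lit 76) (nat_lit 242351300327) (nat_lit 8) (nat_lit 5) (nat_lit 10) (nat_lit 5) (nat_lit 9) (nat_lit 4) (nat_lit 371) (nat_lit 293) (nat_lit 116)) (XT.lf (nat_lit 0) (nat_lit 49541365744) (nat_lit 76) (nat_lit 40161657008) (nat_lit 152) (nat_lit 234573469303) (nat_lit 7) (nat_lit 5) (nat_lit 8) (nat_lit 5) (nat_lit 9) (nat_lit 4) (nat_lit 372) (nat_lit 293) (nat_lit 115))) (XT.nd (nat_lit 78) (nat_lit 0) (nat_lit 0) (XT.lf (nat_lit 0) (nat_lit 106600135583) (nat_lit 76) (nat_lit 10936961442) (nat_lit 152) (nat_lit 221444737245) (nat_lit 7) (nat_lit 5) (nat_lit 8) (nat_lit 5) (nat_lit 9) (nat_lit 4) (nat_lit 373) (nat_lit 293) (nat_lit 114)) (XT.nd (nat_lit 78) (nat_lit 0) (nat_lit 0) (XT.lf (nat_lit 0) (nat_lit 147070736406) (nat_lit 152)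 (nat_lit 188219810614) (nat_lit 0) (nat_lit 19116503837) (nat_lit 7) (nat_lit 5) (nat_lit 9) (nat_lit 4) (nat_lit 7) (nat_lit 4) (nat_lit 374) (nat_lit 293) (nat_lit 113)) (XT.lf (nat_lit 0) (nat_lit 178259899484) (nat_lit 152) (nat_lit 142029955140) (nat_lit 0) (nat_lit 50304731880) (nat_lit 7) (nat_lit 5) (nat_lit 9) (nat_lit 4) (nat_lit 7) (nat_lit 4) (nat_lit 375) (nat_lit 293) (nat_lit 112))))) (XT.nd (nat_lit 156) (nat_lit 76) (nat_lit 0) (XT.nd (nat_lit 78) (nat_lit 0) (nat_lit 0) (XT.lf (nat_lit 0) (nat_lit 211008089553) (nat_lit 152) (nat_lit 93531399800) (nat_lit 0) (nat_lit 83052031438) (nat_lit 7) (nat_lit 5) (nat_lit 9) (nat_lit 4) (nat_lit 7) (nat_lit 4) (nat_lit 376) (nat_lit 293) (nat_lit 111)) (XT.lf (nat_lit 0) (nat_lit 245393278493) (nat_lit 152) (nat_lit 42608671844) (nat_lit 0) (nat_lit 117436372274) (nat_lit 7) (nat_lit 5) (nat_lit 9) (nat_lit 4) (nat_lit 7) (nat_lit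 4) (nat_lit 377) (nat_lit 293) (nat_lit 110))) (XT.nd (nat_lit 78) (nat_lit 0) (nat_lit 0) (XT.lf (nat_lit 0) (nat_lit 11218536549) (nat_lit 76) (nat_lit 270453952049) (nat_lit 76) (nat_lit 142496238111) (nat_lit 6) (nat_lit 4) (nat_lit 7) (nat_lit 5) (nat_lit 7) (nat_lit 4) (nat_lit 378) (nat_lit 293) (nat_lit 109)) (XT.nd (nat_lit 34008) (nat_lit 0) (nat_lit 5700) (XT.lf (nat_lit 0) (nat_lit 69215674645) (nat_lit 76) (nat_lit 251271199537) (nat_lit 76) (nat_lit 123312716343) (nat_lit 6) (nat_lit 4) (nat_lit 7) (nat_lit 5) (nat_lit 7) (nat_lit 4) (nat_lit 379) (nat_lit 293) (nat_lit 108)) (XT.lf (nat_lit 0) (nat_lit 3051831076) (nat_lit 0) (nat_lit 3051831076) (nat_lit 684) (nat_lit 4703539508) (nat_lit 81) (nat_lit 5) (nat_lit 81) (nat_lit 3) (nat_lit 90) (nat_lit 3) (nat_lit 294) (nat_lit 294) (nat_lit 192)))))) (XT.nd (nat_lit 390) (nat_lit 0) (nat_lit 152) (XT.nd (nat_lit 156)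 (nat_lit 0) (nat_lit 76) (XT.nd (nat_lit 78) (nat_lit 0) (nat_lit 0) (XT.lf (nat_lit 0) (nat_lit 12697969657) (nat_lit 684) (nat_lit 6054118281) (nat_lit 760) (nat_lit 3393058134) (nat_lit 81) (nat_lit 5) (nat_lit 90) (nat_lit 3) (nat_lit 91) (nat_lit 5) (nat_lit 295) (nat_lit 294) (nat_lit 191)) (XT.lf (nat_lit 76) (nat_lit 3895258151) (nat_lit 0) (nat_lit 9470461681) (nat_lit 760) (nat_lit 9329099536) (nat_lit 82) (nat_lit 5) (nat_lit 81) (nat_lit 5) (nat_lit 91) (nat_lit 5) (nat_lit 296) (nat_lit 294) (nat_lit 190))) (XT.nd (nat_lit 78) (nat_lit 0) (nat_lit 0) (XT.lf (nat_lit 0) (nat_lit 14167437632) (nat_lit 684) (nat_lit 8725626340) (nat_lit 760) (nat_lit 373904335) (nat_lit 82) (nat_lit 5) (nat_lit 91) (nat_lit 5) (nat_lit 92) (nat_lit 5) (nat_lit 297) (nat_lit 294) (nat_lit 189)) (XT.nd (nat_lit 78) (nat_lit 0) (nat_lit 0) (XT.lf (nat_lit 76) (nat_lit 1747849102) (nat_lit 0)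 (nat_lit 13436384535) (nat_lit 760) (nat_lit 8674761426) (nat_lit 83) (nat_lit 5) (nat_lit 82) (nat_lit 5) (nat_lit 92) (nat_lit 5) (nat_lit 298) (nat_lit 294) (nat_lit 188)) (XT.lf (nat_lit 76) (nat_lit 13043165706) (nat_lit 0) (nat_lit 3349211564) (nat_lit 760) (nat_lit 8081239529) (nat_lit 83) (nat_lit 5) (nat_lit 82) (nat_lit 5) (nat_lit 92) (nat_lit 5) (nat_lit 299) (nat_lit 294) (nat_lit 187))))) (XT.nd (nat_lit 156) (nat_lit 0) (nat_lit 76) (XT.nd (nat_lit 78) (nat_lit 0) (nat_lit 0) (XT.lf (nat_lit 0) (nat_lit 17767119216) (nat_lit 684) (nat_lit 333735287) (nat_lit 760) (nat_lit 7012823691) (nat_lit 83) (nat_lit 5) (nat_lit 92) (nat_lit 5) (nat_lit 93) (nat_lit 5) (nat_lit 300) (nat_lit 294) (nat_lit 186)) (XT.lf (nat_lit 76) (nat_lit 11630452712) (nat_lit 0) (nat_lit 7810080536) (nat_lit 760) (nat_lit 6333729925) (nat_lit 84) (nat_lit 5) (nat_lit 83) (nat_lit 5) (nat_lit 93)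 (nat_lit 5) (nat_lit 301) (nat_lit 294) (nat_lit 185))) (XT.nd (nat_lit 78) (nat_lit 0) (nat_lit 0) (XT.lf (nat_lit 0) (nat_lit 21243838612) (nat_lit 684) (nat_lit 2315002950) (nat_lit 760) (nat_lit 2906741251) (nat_lit 84) (nat_lit 5) (nat_lit 93) (nat_lit 5) (nat_lit 94) (nat_lit 5) (nat_lit 302) (nat_lit 294) (nat_lit 184)) (XT.nd (nat_lit 78) (nat_lit 0) (nat_lit 0) (XT.lf (nat_lit 76) (nat_lit 10302194763) (nat_lit 0) (nat_lit 13118006185) (nat_lit 760) (nat_lit 3757138560) (nat_lit 85) (nat_lit 5) (nat_lit 84) (nat_lit 5) (nat_lit 94) (nat_lit 5) (nat_lit 303) (nat_lit 294) (nat_lit 183)) (XT.lf (nat_lit 76) (nat_lit 23625950022) (nat_lit 0) (nat_lit 2112860732) (nat_lit 760) (nat_lit 2184216730) (nat_lit 85) (nat_lit 5) (nat_lit 84) (nat_lit 5) (nat_lit 94) (nat_lit 5) (nat_lit 304) (nat_lit 294) (nat_lit 182))))))))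
noncomputable def xc199 : XT := (XT.nd (nat_lit 1560) (nat_lit 1520) (nat_lit 0) (XT.nd (nat_lit 780) (nat_lit 1292) (nat_lit 0) (XT.nd (nat_lit 390) (nat_lit 608) (nat_lit 0) (XT.nd (nat_lit 156) (nat_lit 760) (nat_lit 0) (XT.nd (nat_lit 78) (nat_lit 76) (nat_lit 0) (XT.lf (nat_lit 0) (nat_lit 9047281034) (nat_lit 684) (nat_lit 19409263085) (nat_lit 760) (nat_lit 235310290) (nat_lit 76) (nat_lit 5) (nat_lit 85) (nat_lit 5) (nat_lit 86) (nat_lit 5) (nat_lit 305) (nat_lit 294) (nat_lit 181)) (XT.lf (nat_lit 0) (nat_lit 1856283281) (nat_lit 760) (nat_lit 6356418935) (nat_lit 76) (nat_lit 21279859254) (nat_lit 75) (nat_lit 5) (nat_lit 85) (nat_lit 5) (nat_lit 76) (nat_lit 5) (nat_lit 306) (nat_lit 294) (nat_lit 180))) (XT.nd (nat_lit 78) (nat_lit 380) (nat_lit 0) (XT.lf (nat_lit 0) (nat_lit 4219194411) (nat_lit 456) (nat_lit 22546137557) (nat_lit 76) (nat_lit 3559059015) (nat_lit 70) (nat_lit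 5) (nat_lit 76) (nat_lit 5) (nat_lit 71) (nat_lit 5) (nat_lit 307) (nat_lit 294) (nat_lit 179)) (XT.nd (nat_lit 78) (nat_lit 380) (nat_lit 0) (XT.lf (nat_lit 0) (nat_lit 6939339356) (nat_lit 456) (nat_lit 8493319943) (nat_lit 76) (nat_lit 15753209946) (nat_lit 70) (nat_lit 5) (nat_lit 76) (nat_lit 5) (nat_lit 71) (nat_lit 5) (nat_lit 308) (nat_lit 294) (nat_lit 178)) (XT.lf (nat_lit 0) (nat_lit 6464439914) (nat_lit 380) (nat_lit 3427255875) (nat_lit 456) (nat_lit 22193926547) (nat_lit 65) (nat_lit 5) (nat_lit 70) (nat_lit 5) (nat_lit 71) (nat_lit 5) (nat_lit 309) (nat_lit 294) (nat_lit 177))))) (XT.nd (nat_lit 156) (nat_lit 304) (nat_lit 0) (XT.nd (nat_lit 78) (nat_lit 304) (nat_lit 0) (XT.lf (nat_lit 0) (nat_lit 13276598507) (nat_lit 456) (nat_lit 10708639949) (nat_lit 76) (nat_lit 9030888801) (nat_lit 65) (nat_lit 5) (nat_lit 71) (nat_lit 5) (nat_lit 66) (nat_lit 5) (nat_lit 310)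 (nat_lit 294) (nat_lit 176)) (XT.lf (nat_lit 0) (nat_lit 5050451478) (nat_lit 304) (nat_lit 11910979818) (nat_lit 380) (nat_lit 17025201977) (nat_lit 61) (nat_lit 5) (nat_lit 65) (nat_lit 5) (nat_lit 66) (nat_lit 5) (nat_lit 311) (nat_lit 294) (nat_lit 175))) (XT.nd (nat_lit 78) (nat_lit 304) (nat_lit 0) (XT.lf (nat_lit 0) (nat_lit 21022591904) (nat_lit 380) (nat_lit 13046950227) (nat_lit 76) (nat_lit 926527762) (nat_lit 61) (nat_lit 5) (nat_lit 66) (nat_lit 5) (nat_lit 62) (nat_lit 5) (nat_lit 312) (nat_lit 294) (nat_lit 174)) (XT.nd (nat_lit 78) (nat_lit 0) (nat_lit 0) (XT.lf (nat_lit 0) (nat_lit 3550664611) (nat_lit 304) (nat_lit 21982826806) (nat_lit 380) (nat_lit 10510162040) (nat_lit 57) (nat_lit 5) (nat_lit 61) (nat_lit 5) (nat_lit 62) (nat_lit 5) (nat_lit 313) (nat_lit 294) (nat_lit 173)) (XT.lf (nat_lit 0) (nat_lit 21426732990) (nat_lit 304) (nat_lit 9060265190) (nat_lit 380)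 (nat_lit 6645773624) (nat_lit 57) (nat_lit 5) (nat_lit 61) (nat_lit 5) (nat_lit 62) (nat_lit 5) (nat_lit 314) (nat_lit 294) (nat_lit 172)))))) (XT.nd (nat_lit 390) (nat_lit 684) (nat_lit 0) (XT.nd (nat_lit 156) (nat_lit 304) (nat_lit 0) (XT.nd (nat_lit 78) (nat_lit 76) (nat_lit 0) (XT.lf (nat_lit 0) (nat_lit 1906524975) (nat_lit 228) (nat_lit 33878094601) (nat_lit 304) (nat_lit 2486912834) (nat_lit 54) (nat_lit 5) (nat_lit 57) (nat_lit 5) (nat_lit 58) (nat_lit 5) (nat_lit 315) (nat_lit 294) (nat_lit 171)) (XT.lf (nat_lit 0) (nat_lit 2234928610) (nat_lit 304) (nat_lit 18695600079) (nat_lit 76) (nat_lit 18514482078) (nat_lit 53) (nat_lit 5) (nat_lit 57) (nat_lit 5) (nat_lit 54) (nat_lit 5) (nat_lit 316) (nat_lit 294) (nat_lit 170))) (XT.nd (nat_lit 78) (nat_lit 304) (nat_lit 0) (XT.lf (nat_lit 0) (nat_lit 7105787529) (nat_lit 304) (nat_lit 187704630) (nat_lit 76) (nat_lit 33381814502)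 (nat_lit 53) (nat_lit 5) (nat_lit 57) (nat_lit 5) (nat_lit 54) (nat_lit 5) (nat_lit 317) (nat_lit 294) (nat_lit 169)) (XT.nd (nat_lit 78) (nat_lit 0) (nat_lit 0) (XT.lf (nat_lit 0) (nat_lit 12641969059) (nat_lit 380) (nat_lit 22188750212) (nat_lit 76) (nat_lit 7115315929) (nat_lit 49) (nat_lit 5) (nat_lit 54) (nat_lit 5) (nat_lit 50) (nat_lit 5) (nat_lit 318) (nat_lit 294) (nat_lit 168)) (XT.lf (nat_lit 0) (nat_lit 18574510511) (nat_lit 380) (nat_lit 2697822966) (nat_lit 76) (nat_lit 22001995654) (nat_lit 49) (nat_lit 5) (nat_lit 54) (nat_lit 5) (nat_lit 50) (nat_lit 5) (nat_lit 319) (nat_lit 294) (nat_lit 167))))) (XT.nd (nat_lit 156) (nat_lit 456) (nat_lit 0) (XT.nd (nat_lit 78) (nat_lit 0) (nat_lit 0) (XT.lf (nat_lit 0) (nat_lit 18351090666) (nat_lit 228) (nat_lit 6736009292) (nat_lit 304) (nat_lit 19567772951) (nat_lit 46) (nat_lit 5) (nat_lit 49) (nat_lit 5) (nat_lit 50) (nat_lit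 5) (nat_lit 320) (nat_lit 294) (nat_lit 166)) (XT.lf (nat_lit 0) (nat_lit 32101872183) (nat_lit 304) (nat_lit 5693917907) (nat_lit 76) (nat_lit 8299832022) (nat_lit 46) (nat_lit 5) (nat_lit 50) (nat_lit 5) (nat_lit 47) (nat_lit 5) (nat_lit 321) (nat_lit 294) (nat_lit 165))) (XT.nd (nat_lit 78) (nat_lit 228) (nat_lit 0) (XT.lf (nat_lit 0) (nat_lit 16355698357) (nat_lit 228) (nat_lit 23474595954) (nat_lit 304) (nat_lit 7759974521) (nat_lit 43) (nat_lit 5) (nat_lit 46) (nat_lit 5) (nat_lit 47) (nat_lit 5) (nat_lit 322) (nat_lit 294) (nat_lit 164)) (XT.nd (nat_lit 78) (nat_lit 228) (nat_lit 0) (XT.lf (nat_lit 0) (nat_lit 39701737291) (nat_lit 228) (nat_lit 8337034597) (nat_lit 304) (nat_lit 1116199636) (nat_lit 43) (nat_lit 5) (nat_lit 46) (nat_lit 5) (nat_lit 47) (nat_lit 5) (nat_lit 323) (nat_lit 294) (nat_lit 163)) (XT.lf (nat_lit 0) (nat_lit 6007375761) (nat_lit 228) (nat_lit 37143218320)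 (nat_lit 76) (nat_lit 7625987717) (nat_lit 40) (nat_lit 5) (nat_lit 43) (nat_lit 5) (nat_lit 41) (nat_lit 5) (nat_lit 324) (nat_lit 294) (nat_lit 162))))))) (XT.nd (nat_lit 780) (nat_lit 684) (nat_lit 0) (XT.nd (nat_lit 390) (nat_lit 456) (nat_lit 0) (XT.nd (nat_lit 156) (nat_lit 152) (nat_lit 0) (XT.nd (nat_lit 78) (nat_lit 228) (nat_lit 0) (XT.lf (nat_lit 0) (nat_lit 13746358182) (nat_lit 228) (nat_lit 14430094548) (nat_lit 76) (nat_lit 24287072569) (nat_lit 40) (nat_lit 5) (nat_lit 43) (nat_lit 5) (nat_lit 41) (nat_lit 5) (nat_lit 325) (nat_lit 294) (nat_lit 161)) (XT.lf (nat_lit 0) (nat_lit 9726452464) (nat_lit 228) (nat_lit 12295168321) (nat_lit 304) (nat_lit 32205733041) (nat_lit 37) (nat_lit 5) (nat_lit 40) (nat_lit 5) (nat_lit 41) (nat_lit 5) (nat_lit 326) (nat_lit 294) (nat_lit 160))) (XT.nd (nat_lit 78) (nat_lit 152) (nat_lit 0) (XT.lf (nat_lit 0) (nat_lit 31024944107) (nat_lit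 304) (nat_lit 20551335056) (nat_lit 76) (nat_lit 4487383932) (nat_lit 37) (nat_lit 5) (nat_lit 41) (nat_lit 5) (nat_lit 38) (nat_lit 5) (nat_lit 327) (nat_lit 294) (nat_lit 159)) (XT.nd (nat_lit 78) (nat_lit 0) (nat_lit 0) (XT.lf (nat_lit 0) (nat_lit 4535903522) (nat_lit 152) (nat_lit 36212550109) (nat_lit 228) (nat_lit 17229837187) (nat_lit 35) (nat_lit 5) (nat_lit 37) (nat_lit 5) (nat_lit 38) (nat_lit 5) (nat_lit 328) (nat_lit 294) (nat_lit 158)) (XT.lf (nat_lit 0) (nat_lit 31587632042) (nat_lit 152) (nat_lit 19716254846) (nat_lit 228) (nat_lit 8667479433) (nat_lit 35) (nat_lit 5) (nat_lit 37) (nat_lit 5) (nat_lit 38) (nat_lit 5) (nat_lit 329) (nat_lit 294) (nat_lit 157))))) (XT.nd (nat_lit 156) (nat_lit 152) (nat_lit 0) (XT.nd (nat_lit 78) (nat_lit 228) (nat_lit 0) (XT.lf (nat_lit 0) (nat_lit 310429824) (nat_lit 228) (nat_lit 2080476178) (nat_lit 76) (nat_lit 59673052327) (nat_lit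 34) (nat_lit 5) (nat_lit 37) (nat_lit 5) (nat_lit 35) (nat_lit 5) (nat_lit 330) (nat_lit 294) (nat_lit 156)) (XT.lf (nat_lit 0) (nat_lit 10109109244) (nat_lit 304) (nat_lit 38257103008) (nat_lit 76) (nat_lit 15854708539) (nat_lit 31) (nat_lit 5) (nat_lit 35) (nat_lit 5) (nat_lit 32) (nat_lit 5) (nat_lit 331) (nat_lit 294) (nat_lit 155))) (XT.nd (nat_lit 78) (nat_lit 152) (nat_lit 0) (XT.lf (nat_lit 0) (nat_lit 20470644189) (nat_lit 304) (nat_lit 11044355262) (nat_lit 76) (nat_lit 34967088977) (nat_lit 31) (nat_lit 5) (nat_lit 35) (nat_lit 5) (nat_lit 32) (nat_lit 5) (nat_lit 332) (nat_lit 294) (nat_lit 154)) (XT.nd (nat_lit 78) (nat_lit 0) (nat_lit 0) (XT.lf (nat_lit 0) (nat_lit 18105501194) (nat_lit 152) (nat_lit 13525446488) (nat_lit 228) (nat_lit 37211335156) (nat_lit 29) (nat_lit 5) (nat_lit 31) (nat_lit 5) (nat_lit 32) (nat_lit 5) (nat_lit 333) (nat_lit 294) (nat_lit 153)) (XT.lf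 (nat_lit 0) (nat_lit 43621160975) (nat_lit 228) (nat_lit 22304708904) (nat_lit 76) (nat_lit 5381025197) (nat_lit 29) (nat_lit 5) (nat_lit 32) (nat_lit 5) (nat_lit 30) (nat_lit 5) (nat_lit 334) (nat_lit 294) (nat_lit 152)))))) (XT.nd (nat_lit 390) (nat_lit 304) (nat_lit 0) (XT.nd (nat_lit 156) (nat_lit 228) (nat_lit 0) (XT.nd (nat_lit 78) (nat_lit 0) (nat_lit 0) (XT.lf (nat_lit 0) (nat_lit 7566506961) (nat_lit 152) (nat_lit 48982380303) (nat_lit 228) (nat_lit 17328953248) (nat_lit 27) (nat_lit 5) (nat_lit 29) (nat_lit 5) (nat_lit 30) (nat_lit 5) (nat_lit 335) (nat_lit 294) (nat_lit 151)) (XT.lf (nat_lit 0) (nat_lit 39702792282) (nat_lit 152) (nat_lit 30796131891) (nat_lit 228) (nat_lit 6059615407) (nat_lit 27) (nat_lit 5) (nat_lit 29) (nat_lit 5) (nat_lit 30) (nat_lit 5) (nat_lit 336) (nat_lit 294) (nat_lit 150))) (XT.nd (nat_lit 78) (nat_lit 152) (nat_lit 0) (XT.lf (nat_lit 0) (nat_lit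 5586650253) (nat_lit 228) (nat_lit 6020302211) (nat_lit 76) (nat_lit 67761904739) (nat_lit 26) (nat_lit 5) (nat_lit 29) (nat_lit 5) (nat_lit 27) (nat_lit 5) (nat_lit 337) (nat_lit 294) (nat_lit 149)) (XT.nd (nat_lit 78) (nat_lit 0) (nat_lit 0) (XT.lf (nat_lit 0) (nat_lit 18175290807) (nat_lit 228) (nat_lit 55312520199) (nat_lit 76) (nat_lit 8798729805) (nat_lit 24) (nat_lit 5) (nat_lit 27) (nat_lit 5) (nat_lit 25) (nat_lit 5) (nat_lit 338) (nat_lit 294) (nat_lit 148)) (XT.lf (nat_lit 0) (nat_lit 31685616302) (nat_lit 228) (nat_lit 23712567494) (nat_lit 76) (nat_lit 29937314277) (nat_lit 24) (nat_lit 5) (nat_lit 27) (nat_lit 5) (nat_lit 25) (nat_lit 5) (nat_lit 339) (nat_lit 294) (nat_lit 147))))) (XT.nd (nat_lit 156) (nat_lit 152) (nat_lit 0) (XT.nd (nat_lit 78) (nat_lit 0) (nat_lit 0) (XT.lf (nat_lit 0) (nat_lit 9777782200) (nat_lit 152) (nat_lit 36244760025) (nat_lit 228) (nat_lit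 42506808783) (nat_lit 22) (nat_lit 5) (nat_lit 24) (nat_lit 5) (nat_lit 25) (nat_lit 5) (nat_lit 340) (nat_lit 294) (nat_lit 146)) (XT.lf (nat_lit 0) (nat_lit 45763386580) (nat_lit 152) (nat_lit 15712973031) (nat_lit 228) (nat_lit 30386536641) (nat_lit 22) (nat_lit 5) (nat_lit 24) (nat_lit 5) (nat_lit 25) (nat_lit 5) (nat_lit 341) (nat_lit 294) (nat_lit 145))) (XT.nd (nat_lit 78) (nat_lit 152) (nat_lit 0) (XT.lf (nat_lit 0) (nat_lit 77792651188) (nat_lit 228) (nat_lit 11908561462) (nat_lit 76) (nat_lit 5657418773) (nat_lit 22) (nat_lit 5) (nat_lit 25) (nat_lit 5) (nat_lit 23) (nat_lit 4) (nat_lit 342) (nat_lit 294) (nat_lit 144)) (XT.nd (nat_lit 78) (nat_lit 76) (nat_lit 0) (XT.lf (nat_lit 0) (nat_lit 24516697824) (nat_lit 76) (nat_lit 71047014262) (nat_lit 152) (nat_lit 3433495272) (nat_lit 21) (nat_lit 5) (nat_lit 22) (nat_lit 5) (nat_lit 23) (nat_lit 4) (nat_lit 343) (nat_lit 294)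 (nat_lit 143)) (XT.lf (nat_lit 0) (nat_lit 11244144218) (nat_lit 152) (nat_lit 39814693924) (nat_lit 76) (nat_lit 51739792791) (nat_lit 20) (nat_lit 5) (nat_lit 22) (nat_lit 5) (nat_lit 21) (nat_lit 5) (nat_lit 344) (nat_lit 294) (nat_lit 142))))))))
noncomputable def xc200 : XT := (XT.nd (nat_lit 1482) (nat_lit 228) (nat_lit 0) (XT.nd (nat_lit 702) (nat_lit 304) (nat_lit 0) (XT.nd (nat_lit 312) (nat_lit 228) (nat_lit 0) (XT.nd (nat_lit 156) (nat_lit 76) (nat_lit 0) (XT.nd (nat_lit 78) (nat_lit 152) (nat_lit 0) (XT.lf (nat_lit 0) (nat_lit 26538942224) (nat_lit 152) (nat_lit 3474107056) (nat_lit 76) (nat_lit 76774330347) (nat_lit 20) (nat_lit 5) (nat_lit 22) (nat_lit 5) (nat_lit 21) (nat_lit 5) (nat_lit 345) (nat_lit 294) (nat_lit 141)) (XT.lf (nat_lit 0) (nat_lit 35828105896) (nat_lit 152) (nat_lit 7328479465) (nat_lit 228) (nat_lit 67791076567) (nat_lit 18) (nat_lit 5) (nat_lit 20)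 (nat_lit 5) (nat_lit 21) (nat_lit 5) (nat_lit 346) (nat_lit 294) (nat_lit 140))) (XT.nd (nat_lit 78) (nat_lit 76) (nat_lit 0) (XT.lf (nat_lit 0) (nat_lit 60921113704) (nat_lit 228) (nat_lit 38357540946) (nat_lit 76) (nat_lit 16021504907) (nat_lit 18) (nat_lit 5) (nat_lit 21) (nat_lit 5) (nat_lit 19) (nat_lit 4) (nat_lit 347) (nat_lit 294) (nat_lit 139)) (XT.lf (nat_lit 0) (nat_lit 124376300) (nat_lit 76) (nat_lit 79570375656) (nat_lit 152) (nat_lit 40169487238) (nat_lit 17) (nat_lit 5) (nat_lit 18) (nat_lit 5) (nat_lit 19) (nat_lit 4) (nat_lit 348) (nat_lit 294) (nat_lit 138)))) (XT.nd (nat_lit 156) (nat_lit 228) (nat_lit 0) (XT.nd (nat_lit 78) (nat_lit 0) (nat_lit 0) (XT.lf (nat_lit 0) (nat_lit 41860069122) (nat_lit 76) (nat_lit 58195434812) (nat_lit 152) (nat_lit 24568598526) (nat_lit 17) (nat_lit 5) (nat_lit 18) (nat_lit 5) (nat_lit 19) (nat_lit 4) (nat_lit 349) (nat_lit 294) (nat_lit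 137)) (XT.lf (nat_lit 0) (nat_lit 85680634686) (nat_lit 76) (nat_lit 35752542918) (nat_lit 152) (nat_lit 8188838260) (nat_lit 17) (nat_lit 5) (nat_lit 18) (nat_lit 5) (nat_lit 19) (nat_lit 4) (nat_lit 350) (nat_lit 294) (nat_lit 136))) (XT.nd (nat_lit 78) (nat_lit 152) (nat_lit 0) (XT.lf (nat_lit 0) (nat_lit 8720455351) (nat_lit 152) (nat_lit 3320124036) (nat_lit 76) (nat_lit 122822267188) (nat_lit 16) (nat_lit 5) (nat_lit 18) (nat_lit 5) (nat_lit 17) (nat_lit 5) (nat_lit 351) (nat_lit 294) (nat_lit 135)) (XT.nd (nat_lit 78) (nat_lit 0) (nat_lit 0) (XT.lf (nat_lit 0) (nat_lit 27044468267) (nat_lit 228) (nat_lit 100048549576) (nat_lit 76) (nat_lit 13223767172) (nat_lit 14) (nat_lit 5) (nat_lit 17) (nat_lit 5) (nat_lit 15) (nat_lit 4) (nat_lit 352) (nat_lit 294) (nat_lit 134)) (XT.lf (nat_lit 0) (nat_lit 46538198683) (nat_lit 228) (nat_lit 60089417806) (nat_lit 76) (nat_lit 39403129015)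 (nat_lit 14) (nat_lit 5) (nat_lit 17) (nat_lit 5) (nat_lit 15) (nat_lit 4) (nat_lit 353) (nat_lit 294) (nat_lit 133)))))) (XT.nd (nat_lit 390) (nat_lit 228) (nat_lit 0) (XT.nd (nat_lit 156) (nat_lit 0) (nat_lit 0) (XT.nd (nat_lit 78) (nat_lit 76) (nat_lit 0) (XT.lf (nat_lit 0) (nat_lit 67005644792) (nat_lit 228) (nat_lit 18134025266) (nat_lit 76) (nat_lit 66890783424) (nat_lit 14) (nat_lit 5) (nat_lit 17) (nat_lit 5) (nat_lit 15) (nat_lit 4) (nat_lit 354) (nat_lit 294) (nat_lit 132)) (XT.lf (nat_lit 0) (nat_lit 26774472154) (nat_lit 76) (nat_lit 62139091000) (nat_lit 152) (nat_lit 69395729588) (nat_lit 13) (nat_lit 5) (nat_lit 14) (nat_lit 5) (nat_lit 15) (nat_lit 4) (nat_lit 355) (nat_lit 294) (nat_lit 131))) (XT.nd (nat_lit 78) (nat_lit 0) (nat_lit 0) (XT.lf (nat_lit 0) (nat_lit 74556377841) (nat_lit 76) (nat_lit 37666702709) (nat_lit 152) (nat_lit 52663684099) (nat_lit 13) (nat_lit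 5) (nat_lit 14) (nat_lit 5) (nat_lit 15) (nat_lit 4) (nat_lit 356) (nat_lit 294) (nat_lit 130)) (XT.nd (nat_lit 78) (nat_lit 0) (nat_lit 0) (XT.lf (nat_lit 0) (nat_lit 124725865464) (nat_lit 76) (nat_lit 11971346087) (nat_lit 152) (nat_lit 35095942512) (nat_lit 13) (nat_lit 5) (nat_lit 14) (nat_lit 5) (nat_lit 15) (nat_lit 4) (nat_lit 357) (nat_lit 294) (nat_lit 129)) (XT.lf (nat_lit 0) (nat_lit 162628547309) (nat_lit 152) (nat_lit 1876837994) (nat_lit 0) (nat_lit 14527803494) (nat_lit 13) (nat_lit 5) (nat_lit 15) (nat_lit 4) (nat_lit 13) (nat_lit 4) (nat_lit 358) (nat_lit 294) (nat_lit 128))))) (XT.nd (nat_lit 156) (nat_lit 76) (nat_lit 0) (XT.nd (nat_lit 78) (nat_lit 0) (nat_lit 0) (XT.lf (nat_lit 0) (nat_lit 4060649435) (nat_lit 152) (nat_lit 139778555591) (nat_lit 76) (nat_lit 42746380107) (nat_lit 11) (nat_lit 5) (nat_lit 13) (nat_lit 5) (nat_lit 12) (nat_lit 4) (nat_lit 359) (nat_lit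 294) (nat_lit 127)) (XT.lf (nat_lit 0) (nat_lit 25029419038) (nat_lit 152) (nat_lit 96794618969) (nat_lit 76) (nat_lit 72676541624) (nat_lit 11) (nat_lit 5) (nat_lit 13) (nat_lit 5) (nat_lit 12) (nat_lit 4) (nat_lit 360) (nat_lit 294) (nat_lit 126))) (XT.nd (nat_lit 78) (nat_lit 76) (nat_lit 0) (XT.lf (nat_lit 0) (nat_lit 47045876104) (nat_lit 152) (nat_lit 51662825856) (nat_lit 76) (nat_lit 104102660072) (nat_lit 11) (nat_lit 5) (nat_lit 13) (nat_lit 5) (nat_lit 12) (nat_lit 4) (nat_lit 361) (nat_lit 294) (nat_lit 125)) (XT.nd (nat_lit 78) (nat_lit 76) (nat_lit 0) (XT.lf (nat_lit 0) (nat_lit 70162440768) (nat_lit 152) (nat_lit 4275719602) (nat_lit 76) (nat_lit 137099559541) (nat_lit 11) (nat_lit 5) (nat_lit 13) (nat_lit 5) (nat_lit 12) (nat_lit 4) (nat_lit 362) (nat_lit 294) (nat_lit 124)) (XT.lf (nat_lit 0) (nat_lit 46983284765) (nat_lit 76) (nat_lit 48184408450) (nat_lit 152) (nat_lit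 125496060059) (nat_lit 10) (nat_lit 5) (nat_lit 11) (nat_lit 5) (nat_lit 12) (nat_lit 4) (nat_lit 363) (nat_lit 294) (nat_lit 123))))))) (XT.nd (nat_lit 780) (nat_lit 0) (nat_lit 0) (XT.nd (nat_lit 390) (nat_lit 152) (nat_lit 0) (XT.nd (nat_lit 156) (nat_lit 76) (nat_lit 0) (XT.nd (nat_lit 78) (nat_lit 0) (nat_lit 0) (XT.lf (nat_lit 0) (nat_lit 100952486560) (nat_lit 76) (nat_lit 20542465672) (nat_lit 152) (nat_lit 108747549415) (nat_lit 10) (nat_lit 5) (nat_lit 11) (nat_lit 5) (nat_lit 12) (nat_lit 4) (nat_lit 364) (nat_lit 294) (nat_lit 122)) (XT.lf (nat_lit 0) (nat_lit 149270351833) (nat_lit 152) (nat_lit 82813623735) (nat_lit 0) (nat_lit 8209623504) (nat_lit 10) (nat_lit 5) (nat_lit 12) (nat_lit 4) (nat_lit 10) (nat_lit 4) (nat_lit 365) (nat_lit 294) (nat_lit 121))) (XT.nd (nat_lit 78) (nat_lit 76) (nat_lit 0) (XT.lf (nat_lit 0) (nat_lit 178770670278) (nat_lit 152) (nat_lit 34351282737)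 (nat_lit 0) (nat_lit 37708491402) (nat_lit 10) (nat_lit 5) (nat_lit 12) (nat_lit 4) (nat_lit 10) (nat_lit 4) (nat_lit 366) (nat_lit 294) (nat_lit 120)) (XT.nd (nat_lit 78) (nat_lit 0) (nat_lit 0) (XT.lf (nat_lit 0) (nat_lit 17079779503) (nat_lit 76) (nat_lit 192932304681) (nat_lit 76) (nat_lit 51868744332) (nat_lit 9) (nat_lit 4) (nat_lit 10) (nat_lit 5) (nat_lit 10) (nat_lit 4) (nat_lit 367) (nat_lit 294) (nat_lit 119)) (XT.lf (nat_lit 0) (nat_lit 72273955431) (nat_lit 76) (nat_lit 171122796850) (nat_lit 76) (nat_lit 30057920812) (nat_lit 9) (nat_lit 4) (nat_lit 10) (nat_lit 5) (nat_lit 10) (nat_lit 4) (nat_lit 368) (nat_lit 294) (nat_lit 118))))) (XT.nd (nat_lit 156) (nat_lit 76) (nat_lit 0) (XT.nd (nat_lit 78) (nat_lit 76) (nat_lit 0) (XT.lf (nat_lit 0) (nat_lit 130226851209) (nat_lit 76) (nat_lit 148223257715) (nat_lit 76) (nat_lit 7157128640) (nat_lit 9) (nat_lit 4) (nat_lit 10)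 (nat_lit 5) (nat_lit 10) (nat_lit 4) (nat_lit 369) (nat_lit 294) (nat_lit 117)) (XT.lf (nat_lit 0) (nat_lit 16347631357) (nat_lit 152) (nat_lit 107554678161) (nat_lit 76) (nat_lit 174451963516) (nat_lit 8) (nat_lit 5) (nat_lit 10) (nat_lit 5) (nat_lit 9) (nat_lit 4) (nat_lit 370) (nat_lit 294) (nat_lit 116))) (XT.nd (nat_lit 78) (nat_lit 76) (nat_lit 0) (XT.lf (nat_lit 0) (nat_lit 40786600224) (nat_lit 152) (nat_lit 57455928525) (nat_lit 76) (nat_lit 213490290528) (nat_lit 8) (nat_lit 5) (nat_lit 10) (nat_lit 5) (nat_lit 9) (nat_lit 4) (nat_lit 371) (nat_lit 294) (nat_lit 115)) (XT.nd (nat_lit 78) (nat_lit 76) (nat_lit 0) (XT.lf (nat_lit 0) (nat_lit 66447038796) (nat_lit 152) (nat_lit 4853111874) (nat_lit 76) (nat_lit 254480166449) (nat_lit 8) (nat_lit 5) (nat_lit 10) (nat_lit 5) (nat_lit 9) (nat_lit 4) (nat_lit 372) (nat_lit 294) (nat_lit 114)) (XT.lf (nat_lit 0) (nat_lit 52044774399)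 (nat_lit 76) (nat_lit 42157833738) (nat_lit 152) (nat_lit 246286976605) (nat_lit 7) (nat_lit 5) (nat_lit 8) (nat_lit 5) (nat_lit 9) (nat_lit 4) (nat_lit 373) (nat_lit 294) (nat_lit 113)))))) (XT.nd (nat_lit 34476) (nat_lit 0) (nat_lit 5624) (XT.nd (nat_lit 156) (nat_lit 0) (nat_lit 0) (XT.nd (nat_lit 78) (nat_lit 0) (nat_lit 0) (XT.lf (nat_lit 0) (nat_lit 111955228426) (nat_lit 76) (nat_lit 11472470352) (nat_lit 152) (nat_lit 232502530142) (nat_lit 7) (nat_lit 5) (nat_lit 8) (nat_lit 5) (nat_lit 9) (nat_lit 4) (nat_lit 374) (nat_lit 294) (nat_lit 112)) (XT.lf (nat_lit 0) (nat_lit 154437534120) (nat_lit 152) (nat_lit 197606414391) (nat_lit 0) (nat_lit 20082782590) (nat_lit 7) (nat_lit 5) (nat_lit 9) (nat_lit 4) (nat_lit 7) (nat_lit 4) (nat_lit 375) (nat_lit 294) (nat_lit 111))) (XT.nd (nat_lit 78) (nat_lit 0) (nat_lit 0) (XT.lf (nat_lit 0) (nat_lit 187185523880) (nat_lit 152) (nat_lit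 149108227418) (nat_lit 0) (nat_lit 52829924245) (nat_lit 7) (nat_lit 5) (nat_lit 9) (nat_lit 4) (nat_lit 7) (nat_lit 4) (nat_lit 376) (nat_lit 294) (nat_lit 110)) (XT.nd (nat_lit 78) (nat_lit 0) (nat_lit 0) (XT.lf (nat_lit 0) (nat_lit 221570522051) (nat_lit 152) (nat_lit 98185850286) (nat_lit 0) (nat_lit 87214114698) (nat_lit 7) (nat_lit 5) (nat_lit 9) (nat_lit 4) (nat_lit 7) (nat_lit 4) (nat_lit 377) (nat_lit 294) (nat_lit 109)) (XT.lf (nat_lit 0) (nat_lit 257674397676) (nat_lit 152) (nat_lit 44718039242) (nat_lit 0) (nat_lit 123317221066) (nat_lit 7) (nat_lit 5) (nat_lit 9) (nat_lit 4) (nat_lit 7) (nat_lit 4) (nat_lit 378) (nat_lit 294) (nat_lit 108))))) (XT.nd (nat_lit 156) (nat_lit 0) (nat_lit 0) (XT.nd (nat_lit 78) (nat_lit 0) (nat_lit 0) (XT.lf (nat_lit 0) (nat_lit 3268769806) (nat_lit 0) (nat_lit 3268769806) (nat_lit 684) (nat_lit 4803248568) (nat_lit 81) (nat_lit 5) (nat_lit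 81) (nat_lit 3) (nat_lit 90) (nat_lit 3) (nat_lit 295) (nat_lit 295) (nat_lit 190)) (XT.lf (nat_lit 0) (nat_lit 13576086640) (nat_lit 684) (nat_lit 6219442520) (nat_lit 760) (nat_lit 3444067870) (nat_lit 81) (nat_lit 5) (nat_lit 90) (nat_lit 3) (nat_lit 91) (nat_lit 5) (nat_lit 296) (nat_lit 295) (nat_lit 189))) (XT.nd (nat_lit 78) (nat_lit 0) (nat_lit 76) (XT.lf (nat_lit 76) (nat_lit 4225186900) (nat_lit 0) (nat_lit 10042565908) (nat_lit 760) (nat_lit 9549505492) (nat_lit 82) (nat_lit 5) (nat_lit 81) (nat_lit 5) (nat_lit 91) (nat_lit 5) (nat_lit 297) (nat_lit 295) (nat_lit 188)) (XT.nd (nat_lit 78) (nat_lit 0) (nat_lit 0) (XT.lf (nat_lit 0) (nat_lit 15096959854) (nat_lit 684) (nat_lit 9019996223) (nat_lit 760) (nat_lit 301717712) (nat_lit 82) (nat_lit 5) (nat_lit 91) (nat_lit 5) (nat_lit 92) (nat_lit 5) (nat_lit 298) (nat_lit 295) (nat_lit 187)) (XT.lf (nat_lit 76) (nat_lit 1974864096)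 (nat_lit 0) (nat_lit 14181380493) (nat_lit 760) (nat_lit 8884502725) (nat_lit 83) (nat_lit 5) (nat_lit 82) (nat_lit 5) (nat_lit 92) (nat_lit 5) (nat_lit 299) (nat_lit 295) (nat_lit 186))))))))
noncomputable def xc201 : XT := (XT.nd (nat_lit 1482) (nat_lit 2052) (nat_lit 0) (XT.nd (nat_lit 702) (nat_lit 1292) (nat_lit 0) (XT.nd (nat_lit 312) (nat_lit 912) (nat_lit 0) (XT.nd (nat_lit 156) (nat_lit 0) (nat_lit 76) (XT.nd (nat_lit 78) (nat_lit 0) (nat_lit 76) (XT.lf (nat_lit 76) (nat_lit 13828297838) (nat_lit 0) (nat_lit 3586364267) (nat_lit 760) (nat_lit 8271971246) (nat_lit 83) (nat_lit 5) (nat_lit 82) (nat_lit 5) (nat_lit 92) (nat_lit 5) (nat_lit 300) (nat_lit 295) (nat_lit 185)) (XT.lf (nat_lit 0) (nat_lit 18847454112) (nat_lit 684) (nat_lit 212587552) (nat_lit 760) (nat_lit 7299215789) (nat_lit 83) (nat_lit 5) (nat_lit 92) (nat_lit 5) (nat_lit 93) (nat_lit 5) (nat_lit 301) (nat_lit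 295) (nat_lit 184))) (XT.nd (nat_lit 78) (nat_lit 0) (nat_lit 76) (XT.lf (nat_lit 76) (nat_lit 12347586709) (nat_lit 0) (nat_lit 8249927556) (nat_lit 760) (nat_lit 6455732726) (nat_lit 84) (nat_lit 5) (nat_lit 83) (nat_lit 5) (nat_lit 93) (nat_lit 5) (nat_lit 302) (nat_lit 295) (nat_lit 183)) (XT.lf (nat_lit 0) (nat_lit 22481443850) (nat_lit 684) (nat_lit 2291599683) (nat_lit 760) (nat_lit 3006589067) (nat_lit 84) (nat_lit 5) (nat_lit 93) (nat_lit 5) (nat_lit 94) (nat_lit 5) (nat_lit 303) (nat_lit 295) (nat_lit 182)))) (XT.nd (nat_lit 156) (nat_lit 1064) (nat_lit 0) (XT.nd (nat_lit 78) (nat_lit 0) (nat_lit 0) (XT.lf (nat_lit 76) (nat_lit 10954213505) (nat_lit 0) (nat_lit 13806195315) (nat_lit 760) (nat_lit 3766900925) (nat_lit 85) (nat_lit 5) (nat_lit 84) (nat_lit 5) (nat_lit 94) (nat_lit 5) (nat_lit 304) (nat_lit 295) (nat_lit 181)) (XT.lf (nat_lit 76) (nat_lit 24937637051) (nat_lit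 0) (nat_lit 2249255027) (nat_lit 760) (nat_lit 2123813697) (nat_lit 85) (nat_lit 5) (nat_lit 84) (nat_lit 5) (nat_lit 94) (nat_lit 5) (nat_lit 305) (nat_lit 295) (nat_lit 180))) (XT.nd (nat_lit 78) (nat_lit 456) (nat_lit 0) (XT.lf (nat_lit 0) (nat_lit 9636740347) (nat_lit 684) (nat_lit 20397781584) (nat_lit 760) (nat_lit 83771436) (nat_lit 76) (nat_lit 5) (nat_lit 85) (nat_lit 5) (nat_lit 86) (nat_lit 5) (nat_lit 306) (nat_lit 295) (nat_lit 179)) (XT.nd (nat_lit 78) (nat_lit 380) (nat_lit 0) (XT.lf (nat_lit 0) (nat_lit 2099647549) (nat_lit 760) (nat_lit 6538335705) (nat_lit 76) (nat_lit 22321319390) (nat_lit 75) (nat_lit 5) (nat_lit 85) (nat_lit 5) (nat_lit 76) (nat_lit 5) (nat_lit 307) (nat_lit 295) (nat_lit 178)) (XT.lf (nat_lit 0) (nat_lit 4575439252) (nat_lit 456) (nat_lit 23531932996) (nat_lit 76) (nat_lit 3725631748) (nat_lit 70) (nat_lit 5) (nat_lit 76) (nat_lit 5) (nat_lit 71)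 (nat_lit 5) (nat_lit 308) (nat_lit 295) (nat_lit 177)))))) (XT.nd (nat_lit 390) (nat_lit 608) (nat_lit 0) (XT.nd (nat_lit 156) (nat_lit 304) (nat_lit 0) (XT.nd (nat_lit 78) (nat_lit 380) (nat_lit 0) (XT.lf (nat_lit 0) (nat_lit 7424673106) (nat_lit 456) (nat_lit 8783213141) (nat_lit 76) (nat_lit 16530032140) (nat_lit 70) (nat_lit 5) (nat_lit 76) (nat_lit 5) (nat_lit 71) (nat_lit 5) (nat_lit 309) (nat_lit 295) (nat_lit 176)) (XT.lf (nat_lit 0) (nat_lit 6920260955) (nat_lit 380) (nat_lit 3599867755) (nat_lit 456) (nat_lit 23162771879) (nat_lit 65) (nat_lit 5) (nat_lit 70) (nat_lit 5) (nat_lit 71) (nat_lit 5) (nat_lit 310) (nat_lit 295) (nat_lit 175))) (XT.nd (nat_lit 78) (nat_lit 304) (nat_lit 0) (XT.lf (nat_lit 0) (nat_lit 14067884270) (nat_lit 456) (nat_lit 11111099174) (nat_lit 76) (nat_lit 9481281710) (nat_lit 65) (nat_lit 5) (nat_lit 71) (nat_lit 5) (nat_lit 66) (nat_lit 5) (nat_lit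 311) (nat_lit 295) (nat_lit 174)) (XT.nd (nat_lit 78) (nat_lit 0) (nat_lit 0) (XT.lf (nat_lit 0) (nat_lit 5433802103) (nat_lit 304) (nat_lit 12499129862) (nat_lit 380) (nat_lit 17746579922) (nat_lit 61) (nat_lit 5) (nat_lit 65) (nat_lit 5) (nat_lit 66) (nat_lit 5) (nat_lit 312) (nat_lit 295) (nat_lit 173)) (XT.lf (nat_lit 0) (nat_lit 22191383045) (nat_lit 380) (nat_lit 13568663851) (nat_lit 76) (nat_lit 979675230) (nat_lit 61) (nat_lit 5) (nat_lit 66) (nat_lit 5) (nat_lit 62) (nat_lit 5) (nat_lit 313) (nat_lit 295) (nat_lit 172))))) (XT.nd (nat_lit 156) (nat_lit 304) (nat_lit 0) (XT.nd (nat_lit 78) (nat_lit 0) (nat_lit 0) (XT.lf (nat_lit 0) (nat_lit 3856724731) (nat_lit 304) (nat_lit 23067506536) (nat_lit 380) (nat_lit 10915646185) (nat_lit 57) (nat_lit 5) (nat_lit 61) (nat_lit 5) (nat_lit 62) (nat_lit 5) (nat_lit 314) (nat_lit 295) (nat_lit 171)) (XT.lf (nat_lit 0) (nat_lit 22620476201)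 (nat_lit 304) (nat_lit 9499505488) (nat_lit 380) (nat_lit 6863753774) (nat_lit 57) (nat_lit 5) (nat_lit 61) (nat_lit 5) (nat_lit 62) (nat_lit 5) (nat_lit 315) (nat_lit 295) (nat_lit 170))) (XT.nd (nat_lit 78) (nat_lit 76) (nat_lit 0) (XT.lf (nat_lit 0) (nat_lit 2127655321) (nat_lit 228) (nat_lit 35551824754) (nat_lit 304) (nat_lit 2500115811) (nat_lit 54) (nat_lit 5) (nat_lit 57) (nat_lit 5) (nat_lit 58) (nat_lit 5) (nat_lit 316) (nat_lit 295) (nat_lit 169)) (XT.nd (nat_lit 78) (nat_lit 0) (nat_lit 0) (XT.lf (nat_lit 0) (nat_lit 2449137331) (nat_lit 304) (nat_lit 19506968661) (nat_lit 76) (nat_lit 19455822068) (nat_lit 53) (nat_lit 5) (nat_lit 57) (nat_lit 5) (nat_lit 54) (nat_lit 5) (nat_lit 317) (nat_lit 295) (nat_lit 168)) (XT.lf (nat_lit 0) (nat_lit 7558660039) (nat_lit 304) (nat_lit 79555174) (nat_lit 76) (nat_lit 35065777500) (nat_lit 53) (nat_lit 5) (nat_lit 57) (nat_lit 5) (nat_lit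 54) (nat_lit 5) (nat_lit 318) (nat_lit 295) (nat_lit 167))))))) (XT.nd (nat_lit 780) (nat_lit 836) (nat_lit 0) (XT.nd (nat_lit 390) (nat_lit 456) (nat_lit 0) (XT.nd (nat_lit 156) (nat_lit 456) (nat_lit 0) (XT.nd (nat_lit 78) (nat_lit 0) (nat_lit 0) (XT.lf (nat_lit 0) (nat_lit 13369135542) (nat_lit 380) (nat_lit 23177947337) (nat_lit 76) (nat_lit 7491310085) (nat_lit 49) (nat_lit 5) (nat_lit 54) (nat_lit 5) (nat_lit 50) (nat_lit 5) (nat_lit 319) (nat_lit 295) (nat_lit 166)) (XT.lf (nat_lit 0) (nat_lit 19593777018) (nat_lit 380) (nat_lit 2718199461) (nat_lit 76) (nat_lit 23121360541) (nat_lit 49) (nat_lit 5) (nat_lit 54) (nat_lit 5) (nat_lit 50) (nat_lit 5) (nat_lit 320) (nat_lit 295) (nat_lit 165))) (XT.nd (nat_lit 78) (nat_lit 228) (nat_lit 0) (XT.lf (nat_lit 0) (nat_lit 19381312842) (nat_lit 228) (nat_lit 7048130678) (nat_lit 304) (nat_lit 20453600731) (nat_lit 46) (nat_lit 5) (nat_lit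 49) (nat_lit 5) (nat_lit 50) (nat_lit 5) (nat_lit 321) (nat_lit 295) (nat_lit 164)) (XT.nd (nat_lit 78) (nat_lit 228) (nat_lit 0) (XT.lf (nat_lit 0) (nat_lit 33791131386) (nat_lit 304) (nat_lit 5867323672) (nat_lit 76) (nat_lit 8737575237) (nat_lit 46) (nat_lit 5) (nat_lit 50) (nat_lit 5) (nat_lit 47) (nat_lit 5) (nat_lit 322) (nat_lit 295) (nat_lit 163)) (XT.lf (nat_lit 0) (nat_lit 17282978403) (nat_lit 228) (nat_lit 24620697858) (nat_lit 304) (nat_lit 8061855849) (nat_lit 43) (nat_lit 5) (nat_lit 46) (nat_lit 5) (nat_lit 47) (nat_lit 5) (nat_lit 323) (nat_lit 295) (nat_lit 162))))) (XT.nd (nat_lit 156) (nat_lit 228) (nat_lit 0) (XT.nd (nat_lit 78) (nat_lit 228) (nat_lit 0) (XT.lf (nat_lit 0) (nat_lit 41791105230) (nat_lit 228) (nat_lit 8727574047) (nat_lit 304) (nat_lit 1089993048) (nat_lit 43) (nat_lit 5) (nat_lit 46) (nat_lit 5) (nat_lit 47) (nat_lit 5) (nat_lit 324) (nat_lit 295)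 (nat_lit 161)) (XT.lf (nat_lit 0) (nat_lit 6385438091) (nat_lit 228) (nat_lit 38891497457) (nat_lit 76) (nat_lit 8034455211) (nat_lit 40) (nat_lit 5) (nat_lit 43) (nat_lit 5) (nat_lit 41) (nat_lit 5) (nat_lit 325) (nat_lit 295) (nat_lit 160))) (XT.nd (nat_lit 78) (nat_lit 228) (nat_lit 0) (XT.lf (nat_lit 0) (nat_lit 14507669940) (nat_lit 228) (nat_lit 15047902344) (nat_lit 76) (nat_lit 25527300587) (nat_lit 40) (nat_lit 5) (nat_lit 43) (nat_lit 5) (nat_lit 41) (nat_lit 5) (nat_lit 326) (nat_lit 295) (nat_lit 159)) (XT.nd (nat_lit 78) (nat_lit 0) (nat_lit 0) (XT.lf (nat_lit 0) (nat_lit 10314799488) (nat_lit 228) (nat_lit 12879965556) (nat_lit 304) (nat_lit 33740230454) (nat_lit 37) (nat_lit 5) (nat_lit 40) (nat_lit 5) (nat_lit 41) (nat_lit 5) (nat_lit 327) (nat_lit 295) (nat_lit 158)) (XT.lf (nat_lit 0) (nat_lit 32645268452) (nat_lit 304) (nat_lit 21478632625) (nat_lit 76) (nat_lit 4739374306)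 (nat_lit 37) (nat_lit 5) (nat_lit 41) (nat_lit 5) (nat_lit 38) (nat_lit 5) (nat_lit 328) (nat_lit 295) (nat_lit 157)))))) (XT.nd (nat_lit 390) (nat_lit 380) (nat_lit 0) (XT.nd (nat_lit 156) (nat_lit 304) (nat_lit 0) (XT.nd (nat_lit 78) (nat_lit 0) (nat_lit 0) (XT.lf (nat_lit 0) (nat_lit 4861350637) (nat_lit 152) (nat_lit 37991853662) (nat_lit 228) (nat_lit 18020523225) (nat_lit 35) (nat_lit 5) (nat_lit 37) (nat_lit 5) (nat_lit 38) (nat_lit 5) (nat_lit 329) (nat_lit 295) (nat_lit 156)) (XT.lf (nat_lit 0) (nat_lit 33260967871) (nat_lit 152) (nat_lit 20672235252) (nat_lit 228) (nat_lit 9033419289) (nat_lit 35) (nat_lit 5) (nat_lit 37) (nat_lit 5) (nat_lit 38) (nat_lit 5) (nat_lit 330) (nat_lit 295) (nat_lit 155))) (XT.nd (nat_lit 78) (nat_lit 228) (nat_lit 0) (XT.lf (nat_lit 0) (nat_lit 388118747) (nat_lit 228) (nat_lit 2092867971) (nat_lit 76) (nat_lit 62682964893) (nat_lit 34) (nat_lit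 5) (nat_lit 37) (nat_lit 5) (nat_lit 35) (nat_lit 5) (nat_lit 331) (nat_lit 295) (nat_lit 154)) (XT.nd (nat_lit 78) (nat_lit 0) (nat_lit 0) (XT.lf (nat_lit 0) (nat_lit 10675640536) (nat_lit 304) (nat_lit 40077142861) (nat_lit 76) (nat_lit 16676037964) (nat_lit 31) (nat_lit 5) (nat_lit 35) (nat_lit 5) (nat_lit 32) (nat_lit 5) (nat_lit 332) (nat_lit 295) (nat_lit 153)) (XT.lf (nat_lit 0) (nat_lit 21552343854) (nat_lit 304) (nat_lit 11508177504) (nat_lit 76) (nat_lit 36742675805) (nat_lit 31) (nat_lit 5) (nat_lit 35) (nat_lit 5) (nat_lit 32) (nat_lit 5) (nat_lit 333) (nat_lit 295) (nat_lit 152))))) (XT.nd (nat_lit 156) (nat_lit 228) (nat_lit 0) (XT.nd (nat_lit 78) (nat_lit 0) (nat_lit 0) (XT.lf (nat_lit 0) (nat_lit 19097746040) (nat_lit 152) (nat_lit 14171504445) (nat_lit 228) (nat_lit 39012225567) (nat_lit 29) (nat_lit 5) (nat_lit 31) (nat_lit 5) (nat_lit 32) (nat_lit 5) (nat_lit 334)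 (nat_lit 295) (nat_lit 151)) (XT.lf (nat_lit 0) (nat_lit 45856721071) (nat_lit 228) (nat_lit 23334783413) (nat_lit 76) (nat_lit 5677931047) (nat_lit 29) (nat_lit 5) (nat_lit 32) (nat_lit 5) (nat_lit 30) (nat_lit 5) (nat_lit 335) (nat_lit 295) (nat_lit 150))) (XT.nd (nat_lit 78) (nat_lit 76) (nat_lit 0) (XT.lf (nat_lit 0) (nat_lit 8028619682) (nat_lit 152) (nat_lit 51400926814) (nat_lit 228) (nat_lit 18139449874) (nat_lit 27) (nat_lit 5) (nat_lit 29) (nat_lit 5) (nat_lit 30) (nat_lit 5) (nat_lit 336) (nat_lit 295) (nat_lit 149)) (XT.nd (nat_lit 78) (nat_lit 76) (nat_lit 0) (XT.lf (nat_lit 0) (nat_lit 41767729394) (nat_lit 152) (nat_lit 32306821815) (nat_lit 228) (nat_lit 6309309476) (nat_lit 27) (nat_lit 5) (nat_lit 29) (nat_lit 5) (nat_lit 30) (nat_lit 5) (nat_lit 337) (nat_lit 295) (nat_lit 148)) (XT.lf (nat_lit 0) (nat_lit 5915107712) (nat_lit 228) (nat_lit 6243630257) (nat_lit 76)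 (nat_lit 71176040692) (nat_lit 26) (nat_lit 5) (nat_lit 29) (nat_lit 5) (nat_lit 27) (nat_lit 5) (nat_lit 338) (nat_lit 295) (nat_lit 147))))))))
noncomputable def xc202 : XT := (XT.nd (nat_lit 1482) (nat_lit 456) (nat_lit 0) (XT.nd (nat_lit 702) (nat_lit 380) (nat_lit 0) (XT.nd (nat_lit 312) (nat_lit 304) (nat_lit 0) (XT.nd (nat_lit 156) (nat_lit 152) (nat_lit 0) (XT.nd (nat_lit 78) (nat_lit 0) (nat_lit 0) (XT.lf (nat_lit 0) (nat_lit 19132478624) (nat_lit 228) (nat_lit 57999695422) (nat_lit 76) (nat_lit 9266210590) (nat_lit 24) (nat_lit 5) (nat_lit 27) (nat_lit 5) (nat_lit 25) (nat_lit 5) (nat_lit 339) (nat_lit 295) (nat_lit 146)) (XT.lf (nat_lit 0) (nat_lit 33316014523) (nat_lit 228) (nat_lit 24823480833) (nat_lit 76) (nat_lit 31460412653) (nat_lit 24) (nat_lit 5) (nat_lit 27) (nat_lit 5) (nat_lit 25) (nat_lit 5) (nat_lit 340) (nat_lit 295) (nat_lit 145))) (XT.nd (nat_lit 78) (nat_lit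 0) (nat_lit 0) (XT.lf (nat_lit 0) (nat_lit 10340181264) (nat_lit 152) (nat_lit 38028557107) (nat_lit 228) (nat_lit 44584770452) (nat_lit 22) (nat_lit 5) (nat_lit 24) (nat_lit 5) (nat_lit 25) (nat_lit 5) (nat_lit 341) (nat_lit 295) (nat_lit 144)) (XT.lf (nat_lit 0) (nat_lit 48121565389) (nat_lit 152) (nat_lit 16471535093) (nat_lit 228) (nat_lit 31860740835) (nat_lit 22) (nat_lit 5) (nat_lit 24) (nat_lit 5) (nat_lit 25) (nat_lit 5) (nat_lit 342) (nat_lit 295) (nat_lit 143)))) (XT.nd (nat_lit 156) (nat_lit 228) (nat_lit 0) (XT.nd (nat_lit 78) (nat_lit 76) (nat_lit 0) (XT.lf (nat_lit 0) (nat_lit 81723565450) (nat_lit 228) (nat_lit 12435621602) (nat_lit 76) (nat_lit 5965260806) (nat_lit 22) (nat_lit 5) (nat_lit 25) (nat_lit 5) (nat_lit 23) (nat_lit 4) (nat_lit 343) (nat_lit 295) (nat_lit 142)) (XT.lf (nat_lit 0) (nat_lit 25809797940) (nat_lit 76) (nat_lit 74572465857) (nat_lit 152) (nat_lit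 3562737005) (nat_lit 21) (nat_lit 5) (nat_lit 22) (nat_lit 5) (nat_lit 23) (nat_lit 4) (nat_lit 344) (nat_lit 295) (nat_lit 141))) (XT.nd (nat_lit 78) (nat_lit 152) (nat_lit 0) (XT.lf (nat_lit 0) (nat_lit 11845470390) (nat_lit 152) (nat_lit 41740028952) (nat_lit 76) (nat_lit 54351063090) (nat_lit 20) (nat_lit 5) (nat_lit 22) (nat_lit 5) (nat_lit 21) (nat_lit 5) (nat_lit 345) (nat_lit 295) (nat_lit 140)) (XT.nd (nat_lit 78) (nat_lit 152) (nat_lit 0) (XT.lf (nat_lit 0) (nat_lit 27903145488) (nat_lit 152) (nat_lit 3585527011) (nat_lit 76) (nat_lit 80636171302) (nat_lit 20) (nat_lit 5) (nat_lit 22) (nat_lit 5) (nat_lit 21) (nat_lit 5) (nat_lit 346) (nat_lit 295) (nat_lit 139)) (XT.lf (nat_lit 0) (nat_lit 37680791986) (nat_lit 152) (nat_lit 7670061459) (nat_lit 228) (nat_lit 71142329639) (nat_lit 18) (nat_lit 5) (nat_lit 20) (nat_lit 5) (nat_lit 21) (nat_lit 5) (nat_lit 347) (nat_lit 295)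 (nat_lit 138)))))) (XT.nd (nat_lit 390) (nat_lit 228) (nat_lit 0) (XT.nd (nat_lit 156) (nat_lit 76) (nat_lit 0) (XT.nd (nat_lit 78) (nat_lit 76) (nat_lit 0) (XT.lf (nat_lit 0) (nat_lit 64002242407) (nat_lit 228) (nat_lit 40215651439) (nat_lit 76) (nat_lit 16845481943) (nat_lit 18) (nat_lit 5) (nat_lit 21) (nat_lit 5) (nat_lit 19) (nat_lit 4) (nat_lit 348) (nat_lit 295) (nat_lit 137)) (XT.lf (nat_lit 0) (nat_lit 189397693) (nat_lit 76) (nat_lit 83524412808) (nat_lit 152) (nat_lit 42141888325) (nat_lit 17) (nat_lit 5) (nat_lit 18) (nat_lit 5) (nat_lit 19) (nat_lit 4) (nat_lit 349) (nat_lit 295) (nat_lit 136))) (XT.nd (nat_lit 78) (nat_lit 76) (nat_lit 0) (XT.lf (nat_lit 0) (nat_lit 44009075033) (nat_lit 76) (nat_lit 61081890714) (nat_lit 152) (nat_lit 25762672952) (nat_lit 17) (nat_lit 5) (nat_lit 18) (nat_lit 5) (nat_lit 19) (nat_lit 4) (nat_lit 350) (nat_lit 295) (nat_lit 135)) (XT.nd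 (nat_lit 78) (nat_lit 76) (nat_lit 0) (XT.lf (nat_lit 0) (nat_lit 90018002091) (nat_lit 76) (nat_lit 37517964504) (nat_lit 152) (nat_lit 8565560649) (nat_lit 17) (nat_lit 5) (nat_lit 18) (nat_lit 5) (nat_lit 19) (nat_lit 4) (nat_lit 351) (nat_lit 295) (nat_lit 134)) (XT.lf (nat_lit 0) (nat_lit 9186642209) (nat_lit 152) (nat_lit 3434307152) (nat_lit 76) (nat_lit 128983501491) (nat_lit 16) (nat_lit 5) (nat_lit 18) (nat_lit 5) (nat_lit 17) (nat_lit 5) (nat_lit 352) (nat_lit 295) (nat_lit 133))))) (XT.nd (nat_lit 156) (nat_lit 76) (nat_lit 0) (XT.nd (nat_lit 78) (nat_lit 0) (nat_lit 0) (XT.lf (nat_lit 0) (nat_lit 28426550544) (nat_lit 228) (nat_lit 104998820315) (nat_lit 76) (nat_lit 13905732037) (nat_lit 14) (nat_lit 5) (nat_lit 17) (nat_lit 5) (nat_lit 15) (nat_lit 4) (nat_lit 353) (nat_lit 295) (nat_lit 132)) (XT.lf (nat_lit 0) (nat_lit 48893545630) (nat_lit 228) (nat_lit 63044215611)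 (nat_lit 76) (nat_lit 41393072614) (nat_lit 14) (nat_lit 5) (nat_lit 17) (nat_lit 5) (nat_lit 15) (nat_lit 4) (nat_lit 354) (nat_lit 295) (nat_lit 131))) (XT.nd (nat_lit 78) (nat_lit 76) (nat_lit 0) (XT.lf (nat_lit 0) (nat_lit 70383009901) (nat_lit 228) (nat_lit 18993418829) (nat_lit 76) (nat_lit 70254167499) (nat_lit 14) (nat_lit 5) (nat_lit 17) (nat_lit 5) (nat_lit 15) (nat_lit 4) (nat_lit 355) (nat_lit 295) (nat_lit 130)) (XT.nd (nat_lit 78) (nat_lit 0) (nat_lit 0) (XT.lf (nat_lit 0) (nat_lit 28159740435) (nat_lit 76) (nat_lit 65226020779) (nat_lit 152) (nat_lit 72837645615) (nat_lit 13) (nat_lit 5) (nat_lit 14) (nat_lit 5) (nat_lit 15) (nat_lit 4) (nat_lit 356) (nat_lit 295) (nat_lit 129)) (XT.lf (nat_lit 0) (nat_lit 78328524993) (nat_lit 76) (nat_lit 39530966634) (nat_lit 152) (nat_lit 55270325015) (nat_lit 13) (nat_lit 5) (nat_lit 14) (nat_lit 5) (nat_lit 15) (nat_lit 4) (nat_lit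 357) (nat_lit 295) (nat_lit 128))))))) (XT.nd (nat_lit 780) (nat_lit 228) (nat_lit 0) (XT.nd (nat_lit 390) (nat_lit 76) (nat_lit 0) (XT.nd (nat_lit 156) (nat_lit 152) (nat_lit 0) (XT.nd (nat_lit 78) (nat_lit 0) (nat_lit 0) (XT.lf (nat_lit 0) (nat_lit 131004376128) (nat_lit 76) (nat_lit 12551750333) (nat_lit 152) (nat_lit 36825460315) (nat_lit 13) (nat_lit 5) (nat_lit 14) (nat_lit 5) (nat_lit 15) (nat_lit 4) (nat_lit 358) (nat_lit 295) (nat_lit 127)) (XT.lf (nat_lit 0) (nat_lit 170783153635) (nat_lit 152) (nat_lit 1929576271) (nat_lit 0) (nat_lit 15270938170) (nat_lit 13) (nat_lit 5) (nat_lit 15) (nat_lit 4) (nat_lit 13) (nat_lit 4) (nat_lit 359) (nat_lit 295) (nat_lit 126))) (XT.nd (nat_lit 78) (nat_lit 0) (nat_lit 0) (XT.lf (nat_lit 0) (nat_lit 4286780294) (nat_lit 152) (nat_lit 146726259732) (nat_lit 76) (nat_lit 44900650203) (nat_lit 11) (nat_lit 5) (nat_lit 13) (nat_lit 5) (nat_lit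 12) (nat_lit 4) (nat_lit 360) (nat_lit 295) (nat_lit 125)) (XT.nd (nat_lit 78) (nat_lit 0) (nat_lit 0) (XT.lf (nat_lit 0) (nat_lit 26302888455) (nat_lit 152) (nat_lit 101595089309) (nat_lit 76) (nat_lit 76326512602) (nat_lit 11) (nat_lit 5) (nat_lit 13) (nat_lit 5) (nat_lit 12) (nat_lit 4) (nat_lit 361) (nat_lit 295) (nat_lit 124)) (XT.lf (nat_lit 0) (nat_lit 49419120828) (nat_lit 152) (nat_lit 54208576093) (nat_lit 76) (nat_lit 109323168214) (nat_lit 11) (nat_lit 5) (nat_lit 13) (nat_lit 5) (nat_lit 12) (nat_lit 4) (nat_lit 362) (nat_lit 295) (nat_lit 123))))) (XT.nd (nat_lit 156) (nat_lit 0) (nat_lit 0) (XT.nd (nat_lit 78) (nat_lit 76) (nat_lit 0) (XT.lf (nat_lit 0) (nat_lit 73690516062) (nat_lit 152) (nat_lit 4453895053) (nat_lit 76) (nat_lit 143969180508) (nat_lit 11) (nat_lit 5) (nat_lit 13) (nat_lit 5) (nat_lit 12) (nat_lit 4) (nat_lit 363) (nat_lit 295) (nat_lit 122)) (XT.lf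 (nat_lit 0) (nat_lit 49367485168) (nat_lit 76) (nat_lit 50578142820) (nat_lit 152) (nat_lit 131750319613) (nat_lit 10) (nat_lit 5) (nat_lit 11) (nat_lit 5) (nat_lit 12) (nat_lit 4) (nat_lit 364) (nat_lit 295) (nat_lit 121))) (XT.nd (nat_lit 78) (nat_lit 0) (nat_lit 0) (XT.lf (nat_lit 0) (nat_lit 106033478665) (nat_lit 76) (nat_lit 21554840334) (nat_lit 152) (nat_lit 114165361697) (nat_lit 10) (nat_lit 5) (nat_lit 11) (nat_lit 5) (nat_lit 12) (nat_lit 4) (nat_lit 365) (nat_lit 295) (nat_lit 120)) (XT.nd (nat_lit 78) (nat_lit 0) (nat_lit 0) (XT.lf (nat_lit 0) (nat_lit 156751821256) (nat_lit 152) (nat_lit 86921844405) (nat_lit 0) (nat_lit 8633701416) (nat_lit 10) (nat_lit 5) (nat_lit 12) (nat_lit 4) (nat_lit 10) (nat_lit 4) (nat_lit 366) (nat_lit 295) (nat_lit 119)) (XT.lf (nat_lit 0) (nat_lit 187726300774) (nat_lit 152) (nat_lit 36037932095) (nat_lit 0) (nat_lit 39606865245) (nat_lit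 10) (nat_lit 5) (nat_lit 12) (nat_lit 4) (nat_lit 10) (nat_lit 4) (nat_lit 367) (nat_lit 295) (nat_lit 118)))))) (XT.nd (nat_lit 390) (nat_lit 76) (nat_lit 0) (XT.nd (nat_lit 156) (nat_lit 76) (nat_lit 0) (XT.nd (nat_lit 78) (nat_lit 0) (nat_lit 0) (XT.lf (nat_lit 0) (nat_lit 17964184631) (nat_lit 76) (nat_lit 202565261485) (nat_lit 76) (nat_lit 54444572918) (nat_lit 9) (nat_lit 4) (nat_lit 10) (nat_lit 5) (nat_lit 10) (nat_lit 4) (nat_lit 368) (nat_lit 295) (nat_lit 117)) (XT.lf (nat_lit 0) (nat_lit 75916620967) (nat_lit 76) (nat_lit 179665928663) (nat_lit 76) (nat_lit 31544046728) (nat_lit 9) (nat_lit 4) (nat_lit 10) (nat_lit 5) (nat_lit 10) (nat_lit 4) (nat_lit 369) (nat_lit 295) (nat_lit 116))) (XT.nd (nat_lit 78) (nat_lit 76) (nat_lit 0) (XT.lf (nat_lit 0) (nat_lit 136765782116) (nat_lit 76) (nat_lit 155622032002) (nat_lit 76) (nat_lit 7499013525) (nat_lit 9) (nat_lit 4) (nat_lit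 10) (nat_lit 5) (nat_lit 10) (nat_lit 4) (nat_lit 370) (nat_lit 295) (nat_lit 115)) (XT.nd (nat_lit 78) (nat_lit 0) (nat_lit 0) (XT.lf (nat_lit 0) (nat_lit 17179737075) (nat_lit 152) (nat_lit 112905639892) (nat_lit 76) (nat_lit 183185862797) (nat_lit 8) (nat_lit 5) (nat_lit 10) (nat_lit 5) (nat_lit 9) (nat_lit 4) (nat_lit 371) (nat_lit 295) (nat_lit 114)) (XT.lf (nat_lit 0) (nat_lit 42839953236) (nat_lit 152) (nat_lit 60303227640) (nat_lit 76) (nat_lit 224175568012) (nat_lit 8) (nat_lit 5) (nat_lit 10) (nat_lit 5) (nat_lit 9) (nat_lit 4) (nat_lit 372) (nat_lit 295) (nat_lit 113))))) (XT.nd (nat_lit 156) (nat_lit 0) (nat_lit 0) (XT.nd (nat_lit 78) (nat_lit 76) (nat_lit 0) (XT.lf (nat_lit 0) (nat_lit 69782745974) (nat_lit 152) (nat_lit 5071484314) (nat_lit 76) (nat_lit 267214425207) (nat_lit 8) (nat_lit 5) (nat_lit 10) (nat_lit 5) (nat_lit 9) (nat_lit 4) (nat_lit 373) (nat_lit 295) (nat_lit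 112)) (XT.lf (nat_lit 0) (nat_lit 54670904608) (nat_lit 76) (nat_lit 44254926223) (nat_lit 152) (nat_lit 258587569278) (nat_lit 7) (nat_lit 5) (nat_lit 8) (nat_lit 5) (nat_lit 9) (nat_lit 4) (nat_lit 374) (nat_lit 295) (nat_lit 111))) (XT.nd (nat_lit 78) (nat_lit 0) (nat_lit 0) (XT.lf (nat_lit 0) (nat_lit 117575743647) (nat_lit 76) (nat_lit 12035808915) (nat_lit 152) (nat_lit 244114555547) (nat_lit 7) (nat_lit 5) (nat_lit 8) (nat_lit 5) (nat_lit 9) (nat_lit 4) (nat_lit 375) (nat_lit 295) (nat_lit 110)) (XT.nd (nat_lit 78) (nat_lit 0) (nat_lit 0) (XT.lf (nat_lit 0) (nat_lit 162171438847) (nat_lit 152) (nat_lit 207464615607) (nat_lit 0) (nat_lit 21096403406) (nat_lit 7) (nat_lit 5) (nat_lit 9) (nat_lit 4) (nat_lit 7) (nat_lit 4) (nat_lit 376) (nat_lit 295) (nat_lit 109)) (XT.lf (nat_lit 0) (nat_lit 196556255333) (nat_lit 152) (nat_lit 156542572594) (nat_lit 0) (nat_lit 55480450636) (nat_lit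 7) (nat_lit 5) (nat_lit 9) (nat_lit 4) (nat_lit 7) (nat_lit 4) (nat_lit 377) (nat_lit 295) (nat_lit 108))))))))
noncomputable def xc203 : XT := (XT.nd (nat_lit 35724) (nat_lit 0) (nat_lit 1824) (XT.nd (nat_lit 34944) (nat_lit 0) (nat_lit 4104) (XT.nd (nat_lit 34554) (nat_lit 0) (nat_lit 5700) (XT.nd (nat_lit 34320) (nat_lit 0) (nat_lit 5624) (XT.nd (nat_lit 34242) (nat_lit 0) (nat_lit 5624) (XT.lf (nat_lit 0) (nat_lit 232659957924) (nat_lit 152) (nat_lit 103075079758) (nat_lit 0) (nat_lit 91583420602) (nat_lit 7) (nat_lit 5) (nat_lit 9) (nat_lit 4) (nat_lit 7) (nat_lit 4) (nat_lit 378) (nat_lit 295) (nat_lit 107)) (XT.lf (nat_lit 0) (nat_lit 3490573082) (nat_lit 0) (nat_lit 3490573082) (nat_lit 684) (nat_lit 4920537603) (nat_lit 81) (nat_lit 5) (nat_lit 81) (nat_lit 3) (nat_lit 90) (nat_lit 3) (nat_lit 296) (nat_lit 296) (nat_lit 188))) (XT.nd (nat_lit 78) (nat_lit 0) (nat_lit 0) (XT.lf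 (nat_lit 0) (nat_lit 14475497322) (nat_lit 684) (nat_lit 6405805417) (nat_lit 760) (nat_lit 3508658410) (nat_lit 81) (nat_lit 5) (nat_lit 90) (nat_lit 3) (nat_lit 91) (nat_lit 5) (nat_lit 297) (nat_lit 296) (nat_lit 187)) (XT.nd (nat_lit 78) (nat_lit 0) (nat_lit 76) (XT.lf (nat_lit 76) (nat_lit 4559045648) (nat_lit 0) (nat_lit 10634110206) (nat_lit 760) (nat_lit 9803807052) (nat_lit 82) (nat_lit 5) (nat_lit 81) (nat_lit 5) (nat_lit 91) (nat_lit 5) (nat_lit 298) (nat_lit 296) (nat_lit 186)) (XT.lf (nat_lit 0) (nat_lit 16052397724) (nat_lit 684) (nat_lit 9342278181) (nat_lit 760) (nat_lit 234371091) (nat_lit 82) (nat_lit 5) (nat_lit 91) (nat_lit 5) (nat_lit 92) (nat_lit 5) (nat_lit 299) (nat_lit 296) (nat_lit 185))))) (XT.nd (nat_lit 156) (nat_lit 0) (nat_lit 76) (XT.nd (nat_lit 78) (nat_lit 0) (nat_lit 0) (XT.lf (nat_lit 76) (nat_lit 2200249060) (nat_lit 0) (nat_lit 14956822970) (nat_lit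 760) (nat_lit 9125556185) (nat_lit 83) (nat_lit 5) (nat_lit 82) (nat_lit 5) (nat_lit 92) (nat_lit 5) (nat_lit 300) (nat_lit 296) (nat_lit 184)) (XT.lf (nat_lit 76) (nat_lit 14640323929) (nat_lit 0) (nat_lit 3828895292) (nat_lit 760) (nat_lit 8492072974) (nat_lit 83) (nat_lit 5) (nat_lit 82) (nat_lit 5) (nat_lit 92) (nat_lit 5) (nat_lit 301) (nat_lit 296) (nat_lit 183))) (XT.nd (nat_lit 78) (nat_lit 0) (nat_lit 0) (XT.lf (nat_lit 0) (nat_lit 19963957372) (nat_lit 684) (nat_lit 98196976) (nat_lit 760) (nat_lit 7605900762) (nat_lit 83) (nat_lit 5) (nat_lit 92) (nat_lit 5) (nat_lit 93) (nat_lit 5) (nat_lit 302) (nat_lit 296) (nat_lit 182)) (XT.nd (nat_lit 78) (nat_lit 0) (nat_lit 76) (XT.lf (nat_lit 76) (nat_lit 13087969548) (nat_lit 0) (nat_lit 8707179483) (nat_lit 760) (nat_lit 6601935511) (nat_lit 84) (nat_lit 5) (nat_lit 83) (nat_lit 5) (nat_lit 93) (nat_lit 5) (nat_lit 303) (nat_lit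 296) (nat_lit 181)) (XT.lf (nat_lit 0) (nat_lit 23764621083) (nat_lit 684) (nat_lit 2279963418) (nat_lit 760) (nat_lit 3115658432) (nat_lit 84) (nat_lit 5) (nat_lit 93) (nat_lit 5) (nat_lit 94) (nat_lit 5) (nat_lit 304) (nat_lit 296) (nat_lit 180)))))) (XT.nd (nat_lit 390) (nat_lit 684) (nat_lit 0) (XT.nd (nat_lit 156) (nat_lit 1064) (nat_lit 0) (XT.nd (nat_lit 78) (nat_lit 0) (nat_lit 0) (XT.lf (nat_lit 76) (nat_lit 11626104684) (nat_lit 0) (nat_lit 14525791994) (nat_lit 760) (nat_lit 3793708953) (nat_lit 85) (nat_lit 5) (nat_lit 84) (nat_lit 5) (nat_lit 94) (nat_lit 5) (nat_lit 305) (nat_lit 296) (nat_lit 179)) (XT.lf (nat_lit 76) (nat_lit 26302786050) (nat_lit 0) (nat_lit 2389610076) (nat_lit 760) (nat_lit 2076159602) (nat_lit 85) (nat_lit 5) (nat_lit 84) (nat_lit 5) (nat_lit 94) (nat_lit 5) (nat_lit 306) (nat_lit 296) (nat_lit 178))) (XT.nd (nat_lit 78) (nat_lit 380) (nat_lit 0)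 (XT.lf (nat_lit 0) (nat_lit 58236312) (nat_lit 760) (nat_lit 21374824820) (nat_lit 76) (nat_lit 10183704235) (nat_lit 75) (nat_lit 5) (nat_lit 85) (nat_lit 5) (nat_lit 76) (nat_lit 5) (nat_lit 307) (nat_lit 296) (nat_lit 177)) (XT.nd (nat_lit 78) (nat_lit 380) (nat_lit 0) (XT.lf (nat_lit 0) (nat_lit 2341183309) (nat_lit 760) (nat_lit 6741983397) (nat_lit 76) (nat_lit 23416947421) (nat_lit 75) (nat_lit 5) (nat_lit 85) (nat_lit 5) (nat_lit 76) (nat_lit 5) (nat_lit 308) (nat_lit 296) (nat_lit 176)) (XT.lf (nat_lit 0) (nat_lit 4935989103) (nat_lit 456) (nat_lit 24580174599) (nat_lit 76) (nat_lit 3901591142) (nat_lit 70) (nat_lit 5) (nat_lit 76) (nat_lit 5) (nat_lit 71) (nat_lit 5) (nat_lit 309) (nat_lit 296) (nat_lit 175))))) (XT.nd (nat_lit 156) (nat_lit 304) (nat_lit 0) (XT.nd (nat_lit 78) (nat_lit 380) (nat_lit 0) (XT.lf (nat_lit 0) (nat_lit 7921409512) (nat_lit 456) (nat_lit 9100130896)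 (nat_lit 76) (nat_lit 17346703087) (nat_lit 70) (nat_lit 5) (nat_lit 76) (nat_lit 5) (nat_lit 71) (nat_lit 5) (nat_lit 310) (nat_lit 296) (nat_lit 174)) (XT.lf (nat_lit 0) (nat_lit 7386545245) (nat_lit 380) (nat_lit 3780994100) (nat_lit 456) (nat_lit 24193154468) (nat_lit 65) (nat_lit 5) (nat_lit 70) (nat_lit 5) (nat_lit 71) (nat_lit 5) (nat_lit 311) (nat_lit 296) (nat_lit 173))) (XT.nd (nat_lit 78) (nat_lit 304) (nat_lit 0) (XT.lf (nat_lit 0) (nat_lit 14886884684) (nat_lit 456) (nat_lit 11546043908) (nat_lit 76) (nat_lit 9954301324) (nat_lit 65) (nat_lit 5) (nat_lit 71) (nat_lit 5) (nat_lit 66) (nat_lit 5) (nat_lit 312) (nat_lit 296) (nat_lit 172)) (XT.nd (nat_lit 78) (nat_lit 0) (nat_lit 0) (XT.lf (nat_lit 0) (nat_lit 5824157106) (nat_lit 304) (nat_lit 13117375293) (nat_lit 380) (nat_lit 18516101975) (nat_lit 61) (nat_lit 5) (nat_lit 65) (nat_lit 5) (nat_lit 66) (nat_lit 5) (nat_lit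 313) (nat_lit 296) (nat_lit 171)) (XT.lf (nat_lit 0) (nat_lit 23407674687) (nat_lit 380) (nat_lit 14128608256) (nat_lit 76) (nat_lit 1034845912) (nat_lit 61) (nat_lit 5) (nat_lit 66) (nat_lit 5) (nat_lit 62) (nat_lit 5) (nat_lit 314) (nat_lit 296) (nat_lit 170))))))) (XT.nd (nat_lit 780) (nat_lit 912) (nat_lit 0) (XT.nd (nat_lit 390) (nat_lit 456) (nat_lit 0) (XT.nd (nat_lit 156) (nat_lit 608) (nat_lit 0) (XT.nd (nat_lit 78) (nat_lit 0) (nat_lit 0) (XT.lf (nat_lit 0) (nat_lit 4166138645) (nat_lit 304) (nat_lit 24207764755) (nat_lit 380) (nat_lit 11352563226) (nat_lit 57) (nat_lit 5) (nat_lit 61) (nat_lit 5) (nat_lit 62) (nat_lit 5) (nat_lit 315) (nat_lit 296) (nat_lit 169)) (XT.lf (nat_lit 0) (nat_lit 23862526371) (nat_lit 304) (nat_lit 9961988279) (nat_lit 380) (nat_lit 7103260255) (nat_lit 57) (nat_lit 5) (nat_lit 61) (nat_lit 5) (nat_lit 62) (nat_lit 5) (nat_lit 316) (nat_lit 296)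 (nat_lit 168))) (XT.nd (nat_lit 78) (nat_lit 380) (nat_lit 0) (XT.lf (nat_lit 0) (nat_lit 2348146111) (nat_lit 228) (nat_lit 37311117056) (nat_lit 304) (nat_lit 2524311928) (nat_lit 54) (nat_lit 5) (nat_lit 57) (nat_lit 5) (nat_lit 58) (nat_lit 5) (nat_lit 317) (nat_lit 296) (nat_lit 167)) (XT.nd (nat_lit 78) (nat_lit 304) (nat_lit 0) (XT.lf (nat_lit 0) (nat_lit 2664530516) (nat_lit 304) (nat_lit 20370379296) (nat_lit 76) (nat_lit 20442777240) (nat_lit 53) (nat_lit 5) (nat_lit 57) (nat_lit 5) (nat_lit 54) (nat_lit 5) (nat_lit 318) (nat_lit 296) (nat_lit 166)) (XT.lf (nat_lit 0) (nat_lit 23837440) (nat_lit 304) (nat_lit 8001638549) (nat_lit 380) (nat_lit 36809090694) (nat_lit 49) (nat_lit 5) (nat_lit 53) (nat_lit 5) (nat_lit 54) (nat_lit 5) (nat_lit 319) (nat_lit 296) (nat_lit 165))))) (XT.nd (nat_lit 156) (nat_lit 456) (nat_lit 0) (XT.nd (nat_lit 78) (nat_lit 0) (nat_lit 0) (XT.lf (nat_lit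 0) (nat_lit 14123821826) (nat_lit 380) (nat_lit 24227783129) (nat_lit 76) (nat_lit 7884223308) (nat_lit 49) (nat_lit 5) (nat_lit 54) (nat_lit 5) (nat_lit 50) (nat_lit 5) (nat_lit 320) (nat_lit 296) (nat_lit 164)) (XT.lf (nat_lit 0) (nat_lit 20655589208) (nat_lit 380) (nat_lit 2750241268) (nat_lit 76) (nat_lit 24294902586) (nat_lit 49) (nat_lit 5) (nat_lit 54) (nat_lit 5) (nat_lit 50) (nat_lit 5) (nat_lit 321) (nat_lit 296) (nat_lit 163))) (XT.nd (nat_lit 78) (nat_lit 228) (nat_lit 0) (XT.lf (nat_lit 0) (nat_lit 20452571358) (nat_lit 228) (nat_lit 7378152560) (nat_lit 304) (nat_lit 21392325333) (nat_lit 46) (nat_lit 5) (nat_lit 49) (nat_lit 5) (nat_lit 50) (nat_lit 5) (nat_lit 322) (nat_lit 296) (nat_lit 162)) (XT.nd (nat_lit 78) (nat_lit 228) (nat_lit 0) (XT.lf (nat_lit 0) (nat_lit 35557028630) (nat_lit 304) (nat_lit 6059746428) (nat_lit 76) (nat_lit 9195090384) (nat_lit 46) (nat_lit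 5) (nat_lit 50) (nat_lit 5) (nat_lit 47) (nat_lit 5) (nat_lit 323) (nat_lit 296) (nat_lit 161)) (XT.lf (nat_lit 0) (nat_lit 18246442632) (nat_lit 228) (nat_lit 25826673437) (nat_lit 304) (nat_lit 8386837622) (nat_lit 43) (nat_lit 5) (nat_lit 46) (nat_lit 5) (nat_lit 47) (nat_lit 5) (nat_lit 324) (nat_lit 296) (nat_lit 160)))))) (XT.nd (nat_lit 390) (nat_lit 456) (nat_lit 0) (XT.nd (nat_lit 156) (nat_lit 228) (nat_lit 0) (XT.nd (nat_lit 78) (nat_lit 228) (nat_lit 0) (XT.lf (nat_lit 0) (nat_lit 43975246500) (nat_lit 228) (nat_lit 9140086736) (nat_lit 304) (nat_lit 1070101253) (nat_lit 43) (nat_lit 5) (nat_lit 46) (nat_lit 5) (nat_lit 47) (nat_lit 5) (nat_lit 325) (nat_lit 296) (nat_lit 159)) (XT.lf (nat_lit 0) (nat_lit 6775180328) (nat_lit 228) (nat_lit 40737313347) (nat_lit 76) (nat_lit 8460820247) (nat_lit 40) (nat_lit 5) (nat_lit 43) (nat_lit 5) (nat_lit 41) (nat_lit 5) (nat_lit 326)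 (nat_lit 296) (nat_lit 158))) (XT.nd (nat_lit 78) (nat_lit 228) (nat_lit 0) (XT.lf (nat_lit 0) (nat_lit 15300168039) (nat_lit 228) (nat_lit 15706241286) (nat_lit 76) (nat_lit 26827134450) (nat_lit 40) (nat_lit 5) (nat_lit 43) (nat_lit 5) (nat_lit 41) (nat_lit 5) (nat_lit 327) (nat_lit 296) (nat_lit 157)) (XT.nd (nat_lit 78) (nat_lit 0) (nat_lit 0) (XT.lf (nat_lit 0) (nat_lit 10923078602) (nat_lit 228) (nat_lit 13496788158) (nat_lit 304) (nat_lit 35358498902) (nat_lit 37) (nat_lit 5) (nat_lit 40) (nat_lit 5) (nat_lit 41) (nat_lit 5) (nat_lit 328) (nat_lit 296) (nat_lit 156)) (XT.lf (nat_lit 0) (nat_lit 34340186877) (nat_lit 304) (nat_lit 22461617151) (nat_lit 76) (nat_lit 5001396244) (nat_lit 37) (nat_lit 5) (nat_lit 41) (nat_lit 5) (nat_lit 38) (nat_lit 5) (nat_lit 329) (nat_lit 296) (nat_lit 155))))) (XT.nd (nat_lit 156) (nat_lit 304) (nat_lit 0) (XT.nd (nat_lit 78) (nat_lit 0) (nat_lit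 0) (XT.lf (nat_lit 0) (nat_lit 5193898386) (nat_lit 152) (nat_lit 39863034596) (nat_lit 228) (nat_lit 18857326418) (nat_lit 35) (nat_lit 5) (nat_lit 37) (nat_lit 5) (nat_lit 38) (nat_lit 5) (nat_lit 330) (nat_lit 296) (nat_lit 154)) (XT.lf (nat_lit 0) (nat_lit 35009235519) (nat_lit 152) (nat_lit 21678788206) (nat_lit 228) (nat_lit 9423925522) (nat_lit 35) (nat_lit 5) (nat_lit 37) (nat_lit 5) (nat_lit 38) (nat_lit 5) (nat_lit 331) (nat_lit 296) (nat_lit 153))) (XT.nd (nat_lit 78) (nat_lit 228) (nat_lit 0) (XT.lf (nat_lit 0) (nat_lit 463912377) (nat_lit 228) (nat_lit 2114398430) (nat_lit 76) (nat_lit 65840931686) (nat_lit 34) (nat_lit 5) (nat_lit 37) (nat_lit 5) (nat_lit 35) (nat_lit 5) (nat_lit 332) (nat_lit 296) (nat_lit 152)) (XT.nd (nat_lit 78) (nat_lit 0) (nat_lit 0) (XT.lf (nat_lit 0) (nat_lit 11264820140) (nat_lit 304) (nat_lit 41996813793) (nat_lit 76) (nat_lit 17535775461) (nat_lit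 31) (nat_lit 5) (nat_lit 35) (nat_lit 5) (nat_lit 32) (nat_lit 5) (nat_lit 333) (nat_lit 296) (nat_lit 151)) (XT.lf (nat_lit 0) (nat_lit 22682720645) (nat_lit 304) (nat_lit 12003409035) (nat_lit 76) (nat_lit 38604510165) (nat_lit 31) (nat_lit 5) (nat_lit 35) (nat_lit 5) (nat_lit 32) (nat_lit 5) (nat_lit 334) (nat_lit 296) (nat_lit 150))))))))
noncomputable def xc204 : XT := (XT.nd (nat_lit 1482) (nat_lit 608) (nat_lit 0) (XT.nd (nat_lit 702) (nat_lit 456) (nat_lit 0) (XT.nd (nat_lit 312) (nat_lit 380) (nat_lit 0) (XT.nd (nat_lit 156) (nat_lit 152) (nat_lit 0) (XT.nd (nat_lit 78) (nat_lit 0) (nat_lit 0) (XT.lf (nat_lit 0) (nat_lit 20131517503) (nat_lit 152) (nat_lit 14852674345) (nat_lit 228) (nat_lit 40908708640) (nat_lit 29) (nat_lit 5) (nat_lit 31) (nat_lit 5) (nat_lit 32) (nat_lit 5) (nat_lit 335) (nat_lit 296) (nat_lit 149)) (XT.lf (nat_lit 0) (nat_lit 48198992089) (nat_lit 228)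 (nat_lit 24424279104) (nat_lit 76) (nat_lit 5987092533) (nat_lit 29) (nat_lit 5) (nat_lit 32) (nat_lit 5) (nat_lit 30) (nat_lit 5) (nat_lit 336) (nat_lit 296) (nat_lit 148))) (XT.nd (nat_lit 78) (nat_lit 0) (nat_lit 0) (XT.lf (nat_lit 0) (nat_lit 8506048283) (nat_lit 152) (nat_lit 53943242992) (nat_lit 228) (nat_lit 18995673129) (nat_lit 27) (nat_lit 5) (nat_lit 29) (nat_lit 5) (nat_lit 30) (nat_lit 5) (nat_lit 337) (nat_lit 296) (nat_lit 147)) (XT.lf (nat_lit 0) (nat_lit 43928494547) (nat_lit 152) (nat_lit 33895753227) (nat_lit 228) (nat_lit 6576442341) (nat_lit 27) (nat_lit 5) (nat_lit 29) (nat_lit 5) (nat_lit 30) (nat_lit 5) (nat_lit 338) (nat_lit 296) (nat_lit 146)))) (XT.nd (nat_lit 156) (nat_lit 152) (nat_lit 0) (XT.nd (nat_lit 78) (nat_lit 152) (nat_lit 0) (XT.lf (nat_lit 0) (nat_lit 6255420872) (nat_lit 228) (nat_lit 6485347313) (nat_lit 76) (nat_lit 74758462423) (nat_lit 26)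 (nat_lit 5) (nat_lit 29) (nat_lit 5) (nat_lit 27) (nat_lit 5) (nat_lit 339) (nat_lit 296) (nat_lit 145)) (XT.lf (nat_lit 0) (nat_lit 20133023894) (nat_lit 228) (nat_lit 60828523016) (nat_lit 76) (nat_lit 9754504608) (nat_lit 24) (nat_lit 5) (nat_lit 27) (nat_lit 5) (nat_lit 25) (nat_lit 5) (nat_lit 340) (nat_lit 296) (nat_lit 144))) (XT.nd (nat_lit 78) (nat_lit 152) (nat_lit 0) (XT.lf (nat_lit 0) (nat_lit 35023645095) (nat_lit 228) (nat_lit 25996886135) (nat_lit 76) (nat_lit 33057227084) (nat_lit 24) (nat_lit 5) (nat_lit 27) (nat_lit 5) (nat_lit 25) (nat_lit 5) (nat_lit 341) (nat_lit 296) (nat_lit 143)) (XT.nd (nat_lit 78) (nat_lit 0) (nat_lit 0) (XT.lf (nat_lit 0) (nat_lit 10923866023) (nat_lit 152) (nat_lit 39904188211) (nat_lit 228) (nat_lit 46771035034) (nat_lit 22) (nat_lit 5) (nat_lit 24) (nat_lit 5) (nat_lit 25) (nat_lit 5) (nat_lit 342) (nat_lit 296) (nat_lit 142)) (XT.lf (nat_lit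 0) (nat_lit 50591144321) (nat_lit 152) (nat_lit 17270543513) (nat_lit 228) (nat_lit 33412850314) (nat_lit 22) (nat_lit 5) (nat_lit 24) (nat_lit 5) (nat_lit 25) (nat_lit 5) (nat_lit 343) (nat_lit 296) (nat_lit 141)))))) (XT.nd (nat_lit 390) (nat_lit 152) (nat_lit 0) (XT.nd (nat_lit 156) (nat_lit 228) (nat_lit 0) (XT.nd (nat_lit 78) (nat_lit 76) (nat_lit 0) (XT.lf (nat_lit 0) (nat_lit 85847187445) (nat_lit 228) (nat_lit 12995390952) (nat_lit 76) (nat_lit 6286173365) (nat_lit 22) (nat_lit 5) (nat_lit 25) (nat_lit 5) (nat_lit 23) (nat_lit 4) (nat_lit 344) (nat_lit 296) (nat_lit 140)) (XT.lf (nat_lit 0) (nat_lit 27161299378) (nat_lit 76) (nat_lit 78276690857) (nat_lit 152) (nat_lit 3702385845) (nat_lit 21) (nat_lit 5) (nat_lit 22) (nat_lit 5) (nat_lit 23) (nat_lit 4) (nat_lit 345) (nat_lit 296) (nat_lit 139))) (XT.nd (nat_lit 78) (nat_lit 152) (nat_lit 0) (XT.lf (nat_lit 0) (nat_lit 12473225961)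 (nat_lit 152) (nat_lit 43767710974) (nat_lit 76) (nat_lit 57090639518) (nat_lit 20) (nat_lit 5) (nat_lit 22) (nat_lit 5) (nat_lit 21) (nat_lit 5) (nat_lit 346) (nat_lit 296) (nat_lit 138)) (XT.nd (nat_lit 78) (nat_lit 152) (nat_lit 0) (XT.lf (nat_lit 0) (nat_lit 29332095192) (nat_lit 152) (nat_lit 3708308670) (nat_lit 76) (nat_lit 84688954413) (nat_lit 20) (nat_lit 5) (nat_lit 22) (nat_lit 5) (nat_lit 21) (nat_lit 5) (nat_lit 347) (nat_lit 296) (nat_lit 137)) (XT.lf (nat_lit 0) (nat_lit 39620415072) (nat_lit 152) (nat_lit 8031032125) (nat_lit 228) (nat_lit 74664706207) (nat_lit 18) (nat_lit 5) (nat_lit 20) (nat_lit 5) (nat_lit 21) (nat_lit 5) (nat_lit 348) (nat_lit 296) (nat_lit 136))))) (XT.nd (nat_lit 156) (nat_lit 76) (nat_lit 0) (XT.nd (nat_lit 78) (nat_lit 76) (nat_lit 0) (XT.lf (nat_lit 0) (nat_lit 67234166788) (nat_lit 228) (nat_lit 42172223985) (nat_lit 76) (nat_lit 17708528640)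 (nat_lit 18) (nat_lit 5) (nat_lit 21) (nat_lit 5) (nat_lit 19) (nat_lit 4) (nat_lit 349) (nat_lit 296) (nat_lit 135)) (XT.lf (nat_lit 0) (nat_lit 252203248) (nat_lit 76) (nat_lit 87678427888) (nat_lit 152) (nat_lit 44216263217) (nat_lit 17) (nat_lit 5) (nat_lit 18) (nat_lit 5) (nat_lit 19) (nat_lit 4) (nat_lit 350) (nat_lit 296) (nat_lit 134))) (XT.nd (nat_lit 78) (nat_lit 76) (nat_lit 0) (XT.lf (nat_lit 0) (nat_lit 46260324662) (nat_lit 76) (nat_lit 64114837097) (nat_lit 152) (nat_lit 27019645148) (nat_lit 17) (nat_lit 5) (nat_lit 18) (nat_lit 5) (nat_lit 19) (nat_lit 4) (nat_lit 351) (nat_lit 296) (nat_lit 133)) (XT.nd (nat_lit 78) (nat_lit 76) (nat_lit 0) (XT.lf (nat_lit 0) (nat_lit 94567279222) (nat_lit 76) (nat_lit 39373721632) (nat_lit 152) (nat_lit 8964161109) (nat_lit 17) (nat_lit 5) (nat_lit 18) (nat_lit 5) (nat_lit 19) (nat_lit 4) (nat_lit 352) (nat_lit 296) (nat_lit 132))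 (XT.lf (nat_lit 0) (nat_lit 9673334038) (nat_lit 152) (nat_lit 3559017443) (nat_lit 76) (nat_lit 135450926854) (nat_lit 16) (nat_lit 5) (nat_lit 18) (nat_lit 5) (nat_lit 17) (nat_lit 5) (nat_lit 353) (nat_lit 296) (nat_lit 131))))))) (XT.nd (nat_lit 780) (nat_lit 228) (nat_lit 0) (XT.nd (nat_lit 390) (nat_lit 152) (nat_lit 0) (XT.nd (nat_lit 156) (nat_lit 76) (nat_lit 0) (XT.nd (nat_lit 78) (nat_lit 0) (nat_lit 0) (XT.lf (nat_lit 0) (nat_lit 29874960940) (nat_lit 228) (nat_lit 110201453630) (nat_lit 76) (nat_lit 14619863543) (nat_lit 14) (nat_lit 5) (nat_lit 17) (nat_lit 5) (nat_lit 15) (nat_lit 4) (nat_lit 354) (nat_lit 296) (nat_lit 130)) (XT.lf (nat_lit 0) (nat_lit 51364016120) (nat_lit 228) (nat_lit 66151371438) (nat_lit 76) (nat_lit 43480673773) (nat_lit 14) (nat_lit 5) (nat_lit 17) (nat_lit 5) (nat_lit 15) (nat_lit 4) (nat_lit 355) (nat_lit 296) (nat_lit 129))) (XT.nd (nat_lit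 78) (nat_lit 76) (nat_lit 0) (XT.lf (nat_lit 0) (nat_lit 73926725357) (nat_lit 228) (nat_lit 19900180291) (nat_lit 76) (nat_lit 73783968758) (nat_lit 14) (nat_lit 5) (nat_lit 17) (nat_lit 5) (nat_lit 15) (nat_lit 4) (nat_lit 356) (nat_lit 296) (nat_lit 128)) (XT.nd (nat_lit 78) (nat_lit 0) (nat_lit 0) (XT.lf (nat_lit 0) (nat_lit 29609944848) (nat_lit 76) (nat_lit 68469158760) (nat_lit 152) (nat_lit 76454248573) (nat_lit 13) (nat_lit 5) (nat_lit 14) (nat_lit 5) (nat_lit 15) (nat_lit 4) (nat_lit 357) (nat_lit 296) (nat_lit 127)) (XT.lf (nat_lit 0) (nat_lit 82285158282) (nat_lit 76) (nat_lit 41490216815) (nat_lit 152) (nat_lit 58009765721) (nat_lit 13) (nat_lit 5) (nat_lit 14) (nat_lit 5) (nat_lit 15) (nat_lit 4) (nat_lit 358) (nat_lit 296) (nat_lit 126))))) (XT.nd (nat_lit 156) (nat_lit 152) (nat_lit 0) (XT.nd (nat_lit 78) (nat_lit 0) (nat_lit 0) (XT.lf (nat_lit 0) (nat_lit 137592887352)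 (nat_lit 76) (nat_lit 13162863421) (nat_lit 152) (nat_lit 38643804240) (nat_lit 13) (nat_lit 5) (nat_lit 14) (nat_lit 5) (nat_lit 15) (nat_lit 4) (nat_lit 359) (nat_lit 296) (nat_lit 125)) (XT.lf (nat_lit 0) (nat_lit 179343335317) (nat_lit 152) (nat_lit 1988772887) (nat_lit 0) (nat_lit 16049672835) (nat_lit 13) (nat_lit 5) (nat_lit 15) (nat_lit 4) (nat_lit 13) (nat_lit 4) (nat_lit 360) (nat_lit 296) (nat_lit 124))) (XT.nd (nat_lit 78) (nat_lit 0) (nat_lit 0) (XT.lf (nat_lit 0) (nat_lit 4522070228) (nat_lit 152) (nat_lit 154025181663) (nat_lit 76) (nat_lit 47161057853) (nat_lit 11) (nat_lit 5) (nat_lit 13) (nat_lit 5) (nat_lit 12) (nat_lit 4) (nat_lit 361) (nat_lit 296) (nat_lit 123)) (XT.nd (nat_lit 78) (nat_lit 0) (nat_lit 0) (XT.lf (nat_lit 0) (nat_lit 27637986134) (nat_lit 152) (nat_lit 106639233245) (nat_lit 76) (nat_lit 80157481222) (nat_lit 11) (nat_lit 5) (nat_lit 13) (nat_lit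 5) (nat_lit 12) (nat_lit 4) (nat_lit 362) (nat_lit 296) (nat_lit 122)) (XT.lf (nat_lit 0) (nat_lit 51909079970) (nat_lit 152) (nat_lit 56885090108) (nat_lit 76) (nat_lit 114803272330) (nat_lit 11) (nat_lit 5) (nat_lit 13) (nat_lit 5) (nat_lit 12) (nat_lit 4) (nat_lit 363) (nat_lit 296) (nat_lit 121)))))) (XT.nd (nat_lit 390) (nat_lit 152) (nat_lit 0) (XT.nd (nat_lit 156) (nat_lit 0) (nat_lit 0) (XT.nd (nat_lit 78) (nat_lit 76) (nat_lit 0) (XT.lf (nat_lit 0) (nat_lit 77393140057) (nat_lit 152) (nat_lit 4644290006) (nat_lit 76) (nat_lit 151180921156) (nat_lit 11) (nat_lit 5) (nat_lit 13) (nat_lit 5) (nat_lit 12) (nat_lit 4) (nat_lit 364) (nat_lit 296) (nat_lit 120)) (XT.lf (nat_lit 0) (nat_lit 51867638262) (nat_lit 76) (nat_lit 53093003656) (nat_lit 152) (nat_lit 138319202081) (nat_lit 10) (nat_lit 5) (nat_lit 11) (nat_lit 5) (nat_lit 12) (nat_lit 4) (nat_lit 365) (nat_lit 296) (nat_lit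 119))) (XT.nd (nat_lit 78) (nat_lit 0) (nat_lit 0) (XT.lf (nat_lit 0) (nat_lit 111365418156) (nat_lit 76) (nat_lit 22619204917) (nat_lit 152) (nat_lit 119855883579) (nat_lit 10) (nat_lit 5) (nat_lit 11) (nat_lit 5) (nat_lit 12) (nat_lit 4) (nat_lit 366) (nat_lit 296) (nat_lit 118)) (XT.nd (nat_lit 78) (nat_lit 0) (nat_lit 0) (XT.lf (nat_lit 0) (nat_lit 164605695159) (nat_lit 152) (nat_lit 91238493980) (nat_lit 0) (nat_lit 9077719127) (nat_lit 10) (nat_lit 5) (nat_lit 12) (nat_lit 4) (nat_lit 10) (nat_lit 4) (nat_lit 367) (nat_lit 296) (nat_lit 117)) (XT.lf (nat_lit 0) (nat_lit 197128123280) (nat_lit 152) (nat_lit 37811788085) (nat_lit 0) (nat_lit 41598953879) (nat_lit 10) (nat_lit 5) (nat_lit 12) (nat_lit 4) (nat_lit 10) (nat_lit 4) (nat_lit 368) (nat_lit 296) (nat_lit 116))))) (XT.nd (nat_lit 156) (nat_lit 76) (nat_lit 0) (XT.nd (nat_lit 78) (nat_lit 0) (nat_lit 0) (XT.lf (nat_lit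 0) (nat_lit 18889982210) (nat_lit 76) (nat_lit 212681135960) (nat_lit 76) (nat_lit 57150830017) (nat_lit 9) (nat_lit 4) (nat_lit 10) (nat_lit 5) (nat_lit 10) (nat_lit 4) (nat_lit 369) (nat_lit 296) (nat_lit 115)) (XT.lf (nat_lit 0) (nat_lit 79738726632) (nat_lit 76) (nat_lit 188637426430) (nat_lit 76) (nat_lit 33106038067) (nat_lit 9) (nat_lit 4) (nat_lit 10) (nat_lit 5) (nat_lit 10) (nat_lit 4) (nat_lit 370) (nat_lit 296) (nat_lit 114))) (XT.nd (nat_lit 78) (nat_lit 76) (nat_lit 0) (XT.lf (nat_lit 0) (nat_lit 143629094666) (nat_lit 76) (nat_lit 163391896777) (nat_lit 76) (nat_lit 7859477537) (nat_lit 9) (nat_lit 4) (nat_lit 10) (nat_lit 5) (nat_lit 10) (nat_lit 4) (nat_lit 371) (nat_lit 296) (nat_lit 113)) (XT.nd (nat_lit 78) (nat_lit 0) (nat_lit 0) (XT.lf (nat_lit 0) (nat_lit 18052079167) (nat_lit 152) (nat_lit 118526638733) (nat_lit 76) (nat_lit 192355406372) (nat_lit 8) (nat_lit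 5) (nat_lit 10) (nat_lit 5) (nat_lit 9) (nat_lit 4) (nat_lit 372) (nat_lit 296) (nat_lit 112)) (XT.lf (nat_lit 0) (nat_lit 44994670172) (nat_lit 152) (nat_lit 63295262209) (nat_lit 76) (nat_lit 235394108733) (nat_lit 8) (nat_lit 5) (nat_lit 10) (nat_lit 5) (nat_lit 9) (nat_lit 4) (nat_lit 373) (nat_lit 296) (nat_lit 111))))))))
noncomputable def xc205 : XT := (XT.nd (nat_lit 35802) (nat_lit 0) (nat_lit 2128) (XT.nd (nat_lit 35022) (nat_lit 0) (nat_lit 4788) (XT.nd (nat_lit 34632) (nat_lit 0) (nat_lit 5624) (XT.nd (nat_lit 156) (nat_lit 0) (nat_lit 0) (XT.nd (nat_lit 78) (nat_lit 76) (nat_lit 0) (XT.lf (nat_lit 0) (nat_lit 73283996867) (nat_lit 152) (nat_lit 5303032994) (nat_lit 76) (nat_lit 280584443915) (nat_lit 8) (nat_lit 5) (nat_lit 10) (nat_lit 5) (nat_lit 9) (nat_lit 4) (nat_lit 374) (nat_lit 296) (nat_lit 110)) (XT.lf (nat_lit 0) (nat_lit 57426120124) (nat_lit 76) (nat_lit 46457877339)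 (nat_lit 152) (nat_lit 271504470502) (nat_lit 7) (nat_lit 5) (nat_lit 8) (nat_lit 5) (nat_lit 9) (nat_lit 4) (nat_lit 375) (nat_lit 296) (nat_lit 109))) (XT.nd (nat_lit 78) (nat_lit 0) (nat_lit 0) (XT.lf (nat_lit 0) (nat_lit 123475169197) (nat_lit 76) (nat_lit 12628270604) (nat_lit 152) (nat_lit 256308400239) (nat_lit 7) (nat_lit 5) (nat_lit 8) (nat_lit 5) (nat_lit 9) (nat_lit 4) (nat_lit 376) (nat_lit 296) (nat_lit 108)) (XT.lf (nat_lit 0) (nat_lit 170290920559) (nat_lit 152) (nat_lit 217817783345) (nat_lit 0) (nat_lit 22159823747) (nat_lit 7) (nat_lit 5) (nat_lit 9) (nat_lit 4) (nat_lit 7) (nat_lit 4) (nat_lit 377) (nat_lit 296) (nat_lit 107)))) (XT.nd (nat_lit 156) (nat_lit 0) (nat_lit 0) (XT.nd (nat_lit 78) (nat_lit 0) (nat_lit 0) (XT.lf (nat_lit 0) (nat_lit 3718040317) (nat_lit 0) (nat_lit 3718040317) (nat_lit 684) (nat_lit 5055114693) (nat_lit 81) (nat_lit 5) (nat_lit 81) (nat_lit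 3) (nat_lit 90) (nat_lit 3) (nat_lit 297) (nat_lit 297) (nat_lit 186)) (XT.lf (nat_lit 0) (nat_lit 15399368651) (nat_lit 684) (nat_lit 6613071444) (nat_lit 760) (nat_lit 3586483300) (nat_lit 81) (nat_lit 5) (nat_lit 90) (nat_lit 3) (nat_lit 91) (nat_lit 5) (nat_lit 298) (nat_lit 297) (nat_lit 185))) (XT.nd (nat_lit 78) (nat_lit 0) (nat_lit 76) (XT.lf (nat_lit 76) (nat_lit 4898199203) (nat_lit 0) (nat_lit 11246918667) (nat_lit 760) (nat_lit 10091572267) (nat_lit 82) (nat_lit 5) (nat_lit 81) (nat_lit 5) (nat_lit 91) (nat_lit 5) (nat_lit 299) (nat_lit 297) (nat_lit 184)) (XT.nd (nat_lit 78) (nat_lit 0) (nat_lit 0) (XT.lf (nat_lit 0) (nat_lit 17036958542) (nat_lit 684) (nat_lit 9692641202) (nat_lit 760) (nat_lit 171320932) (nat_lit 82) (nat_lit 5) (nat_lit 91) (nat_lit 5) (nat_lit 92) (nat_lit 5) (nat_lit 300) (nat_lit 297) (nat_lit 183)) (XT.lf (nat_lit 76) (nat_lit 2425129322) (nat_lit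 0) (nat_lit 15764866796) (nat_lit 760) (nat_lit 9397551295) (nat_lit 83) (nat_lit 5) (nat_lit 82) (nat_lit 5) (nat_lit 92) (nat_lit 5) (nat_lit 301) (nat_lit 297) (nat_lit 182)))))) (XT.nd (nat_lit 390) (nat_lit 912) (nat_lit 0) (XT.nd (nat_lit 156) (nat_lit 0) (nat_lit 76) (XT.nd (nat_lit 78) (nat_lit 0) (nat_lit 76) (XT.lf (nat_lit 76) (nat_lit 15481738039) (nat_lit 0) (nat_lit 4077675940) (nat_lit 760) (nat_lit 8741169290) (nat_lit 83) (nat_lit 5) (nat_lit 82) (nat_lit 5) (nat_lit 92) (nat_lit 5) (nat_lit 302) (nat_lit 297) (nat_lit 181)) (XT.lf (nat_lit 76) (nat_lit 10630191) (nat_lit 0) (nat_lit 21109632562) (nat_lit 760) (nat_lit 7922873693) (nat_lit 84) (nat_lit 5) (nat_lit 83) (nat_lit 5) (nat_lit 93) (nat_lit 5) (nat_lit 303) (nat_lit 297) (nat_lit 180))) (XT.nd (nat_lit 78) (nat_lit 0) (nat_lit 76) (XT.lf (nat_lit 76) (nat_lit 13853935829) (nat_lit 0) (nat_lit 9183133059)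 (nat_lit 760) (nat_lit 6771865529) (nat_lit 84) (nat_lit 5) (nat_lit 83) (nat_lit 5) (nat_lit 93) (nat_lit 5) (nat_lit 304) (nat_lit 297) (nat_lit 179)) (XT.nd (nat_lit 78) (nat_lit 0) (nat_lit 0) (XT.lf (nat_lit 0) (nat_lit 25097165099) (nat_lit 684) (nat_lit 2279479731) (nat_lit 760) (nat_lit 3234017238) (nat_lit 84) (nat_lit 5) (nat_lit 93) (nat_lit 5) (nat_lit 94) (nat_lit 5) (nat_lit 305) (nat_lit 297) (nat_lit 178)) (XT.lf (nat_lit 76) (nat_lit 12320045295) (nat_lit 0) (nat_lit 15278645687) (nat_lit 760) (nat_lit 3836875562) (nat_lit 85) (nat_lit 5) (nat_lit 84) (nat_lit 5) (nat_lit 94) (nat_lit 5) (nat_lit 306) (nat_lit 297) (nat_lit 177))))) (XT.nd (nat_lit 156) (nat_lit 380) (nat_lit 0) (XT.nd (nat_lit 78) (nat_lit 684) (nat_lit 0) (XT.lf (nat_lit 76) (nat_lit 27725197140) (nat_lit 0) (nat_lit 2534389716) (nat_lit 760) (nat_lit 2040425832) (nat_lit 85) (nat_lit 5) (nat_lit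 84) (nat_lit 5) (nat_lit 94) (nat_lit 5) (nat_lit 307) (nat_lit 297) (nat_lit 176)) (XT.lf (nat_lit 0) (nat_lit 191198968) (nat_lit 760) (nat_lit 22326166924) (nat_lit 76) (nat_lit 10673424744) (nat_lit 75) (nat_lit 5) (nat_lit 85) (nat_lit 5) (nat_lit 76) (nat_lit 5) (nat_lit 308) (nat_lit 297) (nat_lit 175))) (XT.nd (nat_lit 78) (nat_lit 380) (nat_lit 0) (XT.lf (nat_lit 0) (nat_lit 2582100417) (nat_lit 760) (nat_lit 6967273864) (nat_lit 76) (nat_lit 24569256979) (nat_lit 75) (nat_lit 5) (nat_lit 85) (nat_lit 5) (nat_lit 76) (nat_lit 5) (nat_lit 309) (nat_lit 297) (nat_lit 174)) (XT.nd (nat_lit 78) (nat_lit 0) (nat_lit 0) (XT.lf (nat_lit 0) (nat_lit 5302314987) (nat_lit 456) (nat_lit 25692761517) (nat_lit 76) (nat_lit 4087308165) (nat_lit 70) (nat_lit 5) (nat_lit 76) (nat_lit 5) (nat_lit 71) (nat_lit 5) (nat_lit 310) (nat_lit 297) (nat_lit 173)) (XT.lf (nat_lit 0) (nat_lit 8431314681)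 (nat_lit 456) (nat_lit 9444259525) (nat_lit 76) (nat_lit 18205121542) (nat_lit 70) (nat_lit 5) (nat_lit 76) (nat_lit 5) (nat_lit 71) (nat_lit 5) (nat_lit 311) (nat_lit 297) (nat_lit 172))))))) (XT.nd (nat_lit 780) (nat_lit 1064) (nat_lit 0) (XT.nd (nat_lit 390) (nat_lit 608) (nat_lit 0) (XT.nd (nat_lit 156) (nat_lit 608) (nat_lit 0) (XT.nd (nat_lit 78) (nat_lit 0) (nat_lit 0) (XT.lf (nat_lit 0) (nat_lit 7864962069) (nat_lit 380) (nat_lit 3971071431) (nat_lit 456) (nat_lit 25286933729) (nat_lit 65) (nat_lit 5) (nat_lit 70) (nat_lit 5) (nat_lit 71) (nat_lit 5) (nat_lit 312) (nat_lit 297) (nat_lit 171)) (XT.lf (nat_lit 0) (nat_lit 15736087151) (nat_lit 456) (nat_lit 12013949075) (nat_lit 76) (nat_lit 10451069023) (nat_lit 65) (nat_lit 5) (nat_lit 71) (nat_lit 5) (nat_lit 66) (nat_lit 5) (nat_lit 313) (nat_lit 297) (nat_lit 170))) (XT.nd (nat_lit 78) (nat_lit 304) (nat_lit 0) (XT.lf (nat_lit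 0) (nat_lit 6222997522) (nat_lit 304) (nat_lit 13767156926) (nat_lit 380) (nat_lit 19335052705) (nat_lit 61) (nat_lit 5) (nat_lit 65) (nat_lit 5) (nat_lit 66) (nat_lit 5) (nat_lit 314) (nat_lit 297) (nat_lit 169)) (XT.nd (nat_lit 78) (nat_lit 304) (nat_lit 0) (XT.lf (nat_lit 0) (nat_lit 24674858865) (nat_lit 380) (nat_lit 14727565846) (nat_lit 76) (nat_lit 1092199927) (nat_lit 61) (nat_lit 5) (nat_lit 66) (nat_lit 5) (nat_lit 62) (nat_lit 5) (nat_lit 315) (nat_lit 297) (nat_lit 168)) (XT.lf (nat_lit 0) (nat_lit 4480184968) (nat_lit 304) (nat_lit 25406255390) (nat_lit 380) (nat_lit 11821447380) (nat_lit 57) (nat_lit 5) (nat_lit 61) (nat_lit 5) (nat_lit 62) (nat_lit 5) (nat_lit 316) (nat_lit 297) (nat_lit 167))))) (XT.nd (nat_lit 156) (nat_lit 380) (nat_lit 0) (XT.nd (nat_lit 78) (nat_lit 228) (nat_lit 0) (XT.lf (nat_lit 0) (nat_lit 25156356871) (nat_lit 304) (nat_lit 10448756643) (nat_lit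 380) (nat_lit 7364381357) (nat_lit 57) (nat_lit 5) (nat_lit 61) (nat_lit 5) (nat_lit 62) (nat_lit 5) (nat_lit 317) (nat_lit 297) (nat_lit 166)) (XT.lf (nat_lit 0) (nat_lit 2569052759) (nat_lit 228) (nat_lit 39160075234) (nat_lit 304) (nat_lit 2559090179) (nat_lit 54) (nat_lit 5) (nat_lit 57) (nat_lit 5) (nat_lit 58) (nat_lit 5) (nat_lit 318) (nat_lit 297) (nat_lit 165))) (XT.nd (nat_lit 78) (nat_lit 304) (nat_lit 0) (XT.lf (nat_lit 0) (nat_lit 2882053022) (nat_lit 304) (nat_lit 21287367378) (nat_lit 76) (nat_lit 21477763331) (nat_lit 53) (nat_lit 5) (nat_lit 57) (nat_lit 5) (nat_lit 54) (nat_lit 5) (nat_lit 319) (nat_lit 297) (nat_lit 164)) (XT.nd (nat_lit 78) (nat_lit 0) (nat_lit 0) (XT.lf (nat_lit 0) (nat_lit 124922599) (nat_lit 304) (nat_lit 8383668689) (nat_lit 380) (nat_lit 38563447011) (nat_lit 49) (nat_lit 5) (nat_lit 53) (nat_lit 5) (nat_lit 54) (nat_lit 5) (nat_lit 320) (nat_lit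 297) (nat_lit 163)) (XT.lf (nat_lit 0) (nat_lit 14908225621) (nat_lit 380) (nat_lit 25340250223) (nat_lit 76) (nat_lit 8295076395) (nat_lit 49) (nat_lit 5) (nat_lit 54) (nat_lit 5) (nat_lit 50) (nat_lit 5) (nat_lit 321) (nat_lit 297) (nat_lit 162)))))) (XT.nd (nat_lit 390) (nat_lit 608) (nat_lit 0) (XT.nd (nat_lit 156) (nat_lit 228) (nat_lit 0) (XT.nd (nat_lit 78) (nat_lit 228) (nat_lit 0) (XT.lf (nat_lit 0) (nat_lit 21762856957) (nat_lit 380) (nat_lit 2793541843) (nat_lit 76) (nat_lit 25525497164) (nat_lit 49) (nat_lit 5) (nat_lit 54) (nat_lit 5) (nat_lit 50) (nat_lit 5) (nat_lit 322) (nat_lit 297) (nat_lit 161)) (XT.lf (nat_lit 0) (nat_lit 21567891874) (nat_lit 228) (nat_lit 7726756648) (nat_lit 304) (nat_lit 22385791546) (nat_lit 46) (nat_lit 5) (nat_lit 49) (nat_lit 5) (nat_lit 50) (nat_lit 5) (nat_lit 323) (nat_lit 297) (nat_lit 160))) (XT.nd (nat_lit 78) (nat_lit 228) (nat_lit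 0) (XT.lf (nat_lit 0) (nat_lit 37404123304) (nat_lit 304) (nat_lit 6271175084) (nat_lit 76) (nat_lit 9673562712) (nat_lit 46) (nat_lit 5) (nat_lit 50) (nat_lit 5) (nat_lit 47) (nat_lit 5) (nat_lit 324) (nat_lit 297) (nat_lit 159)) (XT.nd (nat_lit 78) (nat_lit 0) (nat_lit 0) (XT.lf (nat_lit 0) (nat_lit 19248846676) (nat_lit 228) (nat_lit 27095277572) (nat_lit 304) (nat_lit 8735330507) (nat_lit 43) (nat_lit 5) (nat_lit 46) (nat_lit 5) (nat_lit 47) (nat_lit 5) (nat_lit 325) (nat_lit 297) (nat_lit 158)) (XT.lf (nat_lit 0) (nat_lit 46259801122) (nat_lit 228) (nat_lit 9575443896) (nat_lit 304) (nat_lit 1056131081) (nat_lit 43) (nat_lit 5) (nat_lit 46) (nat_lit 5) (nat_lit 47) (nat_lit 5) (nat_lit 326) (nat_lit 297) (nat_lit 157))))) (XT.nd (nat_lit 156) (nat_lit 380) (nat_lit 0) (XT.nd (nat_lit 78) (nat_lit 0) (nat_lit 0) (XT.lf (nat_lit 0) (nat_lit 7177858013) (nat_lit 228) (nat_lit 42684601706)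 (nat_lit 76) (nat_lit 8906212529) (nat_lit 40) (nat_lit 5) (nat_lit 43) (nat_lit 5) (nat_lit 41) (nat_lit 5) (nat_lit 327) (nat_lit 297) (nat_lit 156)) (XT.lf (nat_lit 0) (nat_lit 16126051364) (nat_lit 228) (nat_lit 16406241628) (nat_lit 76) (nat_lit 28189778096) (nat_lit 40) (nat_lit 5) (nat_lit 43) (nat_lit 5) (nat_lit 41) (nat_lit 5) (nat_lit 328) (nat_lit 297) (nat_lit 155))) (XT.nd (nat_lit 78) (nat_lit 152) (nat_lit 0) (XT.lf (nat_lit 0) (nat_lit 11553168259) (nat_lit 228) (nat_lit 14146978428) (nat_lit 304) (nat_lit 37064071853) (nat_lit 37) (nat_lit 5) (nat_lit 40) (nat_lit 5) (nat_lit 41) (nat_lit 5) (nat_lit 329) (nat_lit 297) (nat_lit 154)) (XT.nd (nat_lit 78) (nat_lit 152) (nat_lit 0) (XT.lf (nat_lit 0) (nat_lit 36114026155) (nat_lit 304) (nat_lit 23502206303) (nat_lit 76) (nat_lit 5274190068) (nat_lit 37) (nat_lit 5) (nat_lit 41) (nat_lit 5) (nat_lit 38) (nat_lit 5) (nat_lit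 330) (nat_lit 297) (nat_lit 153)) (XT.lf (nat_lit 0) (nat_lit 5534754499) (nat_lit 152) (nat_lit 41830416032) (nat_lit 228) (nat_lit 19741940614) (nat_lit 35) (nat_lit 5) (nat_lit 37) (nat_lit 5) (nat_lit 38) (nat_lit 5) (nat_lit 331) (nat_lit 297) (nat_lit 152))))))))
noncomputable def xc206 : XT := (XT.nd (nat_lit 1482) (nat_lit 684) (nat_lit 0) (XT.nd (nat_lit 702) (nat_lit 608) (nat_lit 0) (XT.nd (nat_lit 312) (nat_lit 380) (nat_lit 0) (XT.nd (nat_lit 156) (nat_lit 228) (nat_lit 0) (XT.nd (nat_lit 78) (nat_lit 76) (nat_lit 0) (XT.lf (nat_lit 0) (nat_lit 36836993670) (nat_lit 152) (nat_lit 22738184480) (nat_lit 228) (nat_lit 9839643584) (nat_lit 35) (nat_lit 5) (nat_lit 37) (nat_lit 5) (nat_lit 38) (nat_lit 5) (nat_lit 332) (nat_lit 297) (nat_lit 151)) (XT.lf (nat_lit 0) (nat_lit 538253296) (nat_lit 228) (nat_lit 2144732466) (nat_lit 76) (nat_lit 69154582395) (nat_lit 34) (nat_lit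 5) (nat_lit 37) (nat_lit 5) (nat_lit 35) (nat_lit 5) (nat_lit 333) (nat_lit 297) (nat_lit 150))) (XT.nd (nat_lit 78) (nat_lit 0) (nat_lit 0) (XT.lf (nat_lit 0) (nat_lit 11878308382) (nat_lit 304) (nat_lit 44020295107) (nat_lit 76) (nat_lit 18436088587) (nat_lit 31) (nat_lit 5) (nat_lit 35) (nat_lit 5) (nat_lit 32) (nat_lit 5) (nat_lit 334) (nat_lit 297) (nat_lit 149)) (XT.lf (nat_lit 0) (nat_lit 23864711187) (nat_lit 304) (nat_lit 12530856273) (nat_lit 76) (nat_lit 40557139819) (nat_lit 31) (nat_lit 5) (nat_lit 35) (nat_lit 5) (nat_lit 32) (nat_lit 5) (nat_lit 335) (nat_lit 297) (nat_lit 148)))) (XT.nd (nat_lit 156) (nat_lit 228) (nat_lit 0) (XT.nd (nat_lit 78) (nat_lit 0) (nat_lit 0) (XT.lf (nat_lit 0) (nat_lit 21209643638) (nat_lit 152) (nat_lit 15570450627) (nat_lit 228) (nat_lit 42905048195) (nat_lit 29) (nat_lit 5) (nat_lit 31) (nat_lit 5) (nat_lit 32) (nat_lit 5) (nat_lit 336)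 (nat_lit 297) (nat_lit 147)) (XT.lf (nat_lit 0) (nat_lit 50653780663) (nat_lit 228) (nat_lit 25575430946) (nat_lit 76) (nat_lit 6309363200) (nat_lit 29) (nat_lit 5) (nat_lit 32) (nat_lit 5) (nat_lit 30) (nat_lit 5) (nat_lit 337) (nat_lit 297) (nat_lit 146))) (XT.nd (nat_lit 78) (nat_lit 76) (nat_lit 0) (XT.lf (nat_lit 0) (nat_lit 9000282776) (nat_lit 152) (nat_lit 56615253066) (nat_lit 228) (nat_lit 19899425729) (nat_lit 27) (nat_lit 5) (nat_lit 29) (nat_lit 5) (nat_lit 30) (nat_lit 5) (nat_lit 338) (nat_lit 297) (nat_lit 145)) (XT.nd (nat_lit 78) (nat_lit 76) (nat_lit 0) (XT.lf (nat_lit 0) (nat_lit 46190568873) (nat_lit 152) (nat_lit 35566586531) (nat_lit 228) (nat_lit 6861425358) (nat_lit 27) (nat_lit 5) (nat_lit 29) (nat_lit 5) (nat_lit 30) (nat_lit 5) (nat_lit 339) (nat_lit 297) (nat_lit 144)) (XT.lf (nat_lit 0) (nat_lit 6608607131) (nat_lit 228) (nat_lit 6745701339) (nat_lit 76)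 (nat_lit 78517809305) (nat_lit 26) (nat_lit 5) (nat_lit 29) (nat_lit 5) (nat_lit 27) (nat_lit 5) (nat_lit 340) (nat_lit 297) (nat_lit 143)))))) (XT.nd (nat_lit 390) (nat_lit 304) (nat_lit 0) (XT.nd (nat_lit 156) (nat_lit 152) (nat_lit 0) (XT.nd (nat_lit 78) (nat_lit 0) (nat_lit 0) (XT.lf (nat_lit 0) (nat_lit 21179513037) (nat_lit 228) (nat_lit 63805407511) (nat_lit 76) (nat_lit 10264890598) (nat_lit 24) (nat_lit 5) (nat_lit 27) (nat_lit 5) (nat_lit 25) (nat_lit 5) (nat_lit 341) (nat_lit 297) (nat_lit 142)) (XT.lf (nat_lit 0) (nat_lit 36812768254) (nat_lit 228) (nat_lit 27235262198) (nat_lit 76) (nat_lit 34731670114) (nat_lit 24) (nat_lit 5) (nat_lit 27) (nat_lit 5) (nat_lit 25) (nat_lit 5) (nat_lit 342) (nat_lit 297) (nat_lit 141))) (XT.nd (nat_lit 78) (nat_lit 0) (nat_lit 0) (XT.lf (nat_lit 0) (nat_lit 11530536145) (nat_lit 152) (nat_lit 41875999207) (nat_lit 228) (nat_lit 49070608154)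 (nat_lit 22) (nat_lit 5) (nat_lit 24) (nat_lit 5) (nat_lit 25) (nat_lit 5) (nat_lit 343) (nat_lit 297) (nat_lit 140)) (XT.nd (nat_lit 78) (nat_lit 0) (nat_lit 0) (XT.lf (nat_lit 0) (nat_lit 53178298509) (nat_lit 152) (nat_lit 18111786484) (nat_lit 228) (nat_lit 35046370324) (nat_lit 22) (nat_lit 5) (nat_lit 24) (nat_lit 5) (nat_lit 25) (nat_lit 5) (nat_lit 344) (nat_lit 297) (nat_lit 139)) (XT.lf (nat_lit 0) (nat_lit 90173509376) (nat_lit 228) (nat_lit 13588914031) (nat_lit 76) (nat_lit 6621025815) (nat_lit 22) (nat_lit 5) (nat_lit 25) (nat_lit 5) (nat_lit 23) (nat_lit 4) (nat_lit 345) (nat_lit 297) (nat_lit 138))))) (XT.nd (nat_lit 156) (nat_lit 152) (nat_lit 0) (XT.nd (nat_lit 78) (nat_lit 76) (nat_lit 0) (XT.lf (nat_lit 0) (nat_lit 28574703614) (nat_lit 76) (nat_lit 82168395428) (nat_lit 152) (nat_lit 3852595377) (nat_lit 21) (nat_lit 5) (nat_lit 22) (nat_lit 5) (nat_lit 23) (nat_lit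 4) (nat_lit 346) (nat_lit 297) (nat_lit 137)) (XT.lf (nat_lit 0) (nat_lit 13129070525) (nat_lit 152) (nat_lit 45902292054) (nat_lit 76) (nat_lit 59965147252) (nat_lit 20) (nat_lit 5) (nat_lit 22) (nat_lit 5) (nat_lit 21) (nat_lit 5) (nat_lit 347) (nat_lit 297) (nat_lit 136))) (XT.nd (nat_lit 78) (nat_lit 152) (nat_lit 0) (XT.lf (nat_lit 0) (nat_lit 30829350681) (nat_lit 152) (nat_lit 3842481753) (nat_lit 76) (nat_lit 88942426666) (nat_lit 20) (nat_lit 5) (nat_lit 22) (nat_lit 5) (nat_lit 21) (nat_lit 5) (nat_lit 348) (nat_lit 297) (nat_lit 135)) (XT.nd (nat_lit 78) (nat_lit 0) (nat_lit 0) (XT.lf (nat_lit 0) (nat_lit 41651851687) (nat_lit 152) (nat_lit 8412146174) (nat_lit 228) (nat_lit 78366431390) (nat_lit 18) (nat_lit 5) (nat_lit 20) (nat_lit 5) (nat_lit 21) (nat_lit 5) (nat_lit 349) (nat_lit 297) (nat_lit 134)) (XT.lf (nat_lit 0) (nat_lit 70624729786) (nat_lit 228) (nat_lit 44231665092)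 (nat_lit 76) (nat_lit 18612796432) (nat_lit 18) (nat_lit 5) (nat_lit 21) (nat_lit 5) (nat_lit 19) (nat_lit 4) (nat_lit 350) (nat_lit 297) (nat_lit 133))))))) (XT.nd (nat_lit 780) (nat_lit 304) (nat_lit 0) (XT.nd (nat_lit 390) (nat_lit 76) (nat_lit 0) (XT.nd (nat_lit 156) (nat_lit 228) (nat_lit 0) (XT.nd (nat_lit 78) (nat_lit 0) (nat_lit 0) (XT.lf (nat_lit 0) (nat_lit 313190437) (nat_lit 76) (nat_lit 92042208185) (nat_lit 152) (nat_lit 46397398805) (nat_lit 17) (nat_lit 5) (nat_lit 18) (nat_lit 5) (nat_lit 19) (nat_lit 4) (nat_lit 351) (nat_lit 297) (nat_lit 132)) (XT.lf (nat_lit 0) (nat_lit 48619414253) (nat_lit 76) (nat_lit 67301396954) (nat_lit 152) (nat_lit 28342363051) (nat_lit 17) (nat_lit 5) (nat_lit 18) (nat_lit 5) (nat_lit 19) (nat_lit 4) (nat_lit 352) (nat_lit 297) (nat_lit 131))) (XT.nd (nat_lit 78) (nat_lit 228) (nat_lit 0) (XT.lf (nat_lit 0) (nat_lit 99339522571) (nat_lit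 76) (nat_lit 41324139144) (nat_lit 152) (nat_lit 9385450731) (nat_lit 17) (nat_lit 5) (nat_lit 18) (nat_lit 5) (nat_lit 19) (nat_lit 4) (nat_lit 353) (nat_lit 297) (nat_lit 130)) (XT.nd (nat_lit 78) (nat_lit 152) (nat_lit 0) (XT.lf (nat_lit 0) (nat_lit 10181816812) (nat_lit 152) (nat_lit 3694333333) (nat_lit 76) (nat_lit 142240026747) (nat_lit 16) (nat_lit 5) (nat_lit 18) (nat_lit 5) (nat_lit 17) (nat_lit 5) (nat_lit 354) (nat_lit 297) (nat_lit 129)) (XT.lf (nat_lit 0) (nat_lit 31393273948) (nat_lit 228) (nat_lit 115668616832) (nat_lit 76) (nat_lit 15367949604) (nat_lit 14) (nat_lit 5) (nat_lit 17) (nat_lit 5) (nat_lit 15) (nat_lit 4) (nat_lit 355) (nat_lit 297) (nat_lit 128))))) (XT.nd (nat_lit 156) (nat_lit 76) (nat_lit 0) (XT.nd (nat_lit 78) (nat_lit 0) (nat_lit 0) (XT.lf (nat_lit 0) (nat_lit 53955612127) (nat_lit 228) (nat_lit 69418073840) (nat_lit 76) (nat_lit 45670986398) (nat_lit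 14) (nat_lit 5) (nat_lit 17) (nat_lit 5) (nat_lit 15) (nat_lit 4) (nat_lit 356) (nat_lit 297) (nat_lit 127)) (XT.lf (nat_lit 0) (nat_lit 77645342769) (nat_lit 228) (nat_lit 20856269143) (nat_lit 76) (nat_lit 77488670944) (nat_lit 14) (nat_lit 5) (nat_lit 17) (nat_lit 5) (nat_lit 15) (nat_lit 4) (nat_lit 357) (nat_lit 297) (nat_lit 126))) (XT.nd (nat_lit 78) (nat_lit 0) (nat_lit 0) (XT.lf (nat_lit 0) (nat_lit 31128734508) (nat_lit 76) (nat_lit 71876142269) (nat_lit 152) (nat_lit 80254031911) (nat_lit 13) (nat_lit 5) (nat_lit 14) (nat_lit 5) (nat_lit 15) (nat_lit 4) (nat_lit 358) (nat_lit 297) (nat_lit 125)) (XT.nd (nat_lit 78) (nat_lit 0) (nat_lit 0) (XT.lf (nat_lit 0) (nat_lit 86435885165) (nat_lit 76) (nat_lit 43549037724) (nat_lit 152) (nat_lit 60888416778) (nat_lit 13) (nat_lit 5) (nat_lit 14) (nat_lit 5) (nat_lit 15) (nat_lit 4) (nat_lit 359) (nat_lit 297) (nat_lit 124)) (XT.lf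 (nat_lit 0) (nat_lit 144507264072) (nat_lit 76) (nat_lit 13806063799) (nat_lit 152) (nat_lit 40555197091) (nat_lit 13) (nat_lit 5) (nat_lit 14) (nat_lit 5) (nat_lit 15) (nat_lit 4) (nat_lit 360) (nat_lit 297) (nat_lit 123)))))) (XT.nd (nat_lit 390) (nat_lit 152) (nat_lit 0) (XT.nd (nat_lit 156) (nat_lit 0) (nat_lit 0) (XT.nd (nat_lit 78) (nat_lit 152) (nat_lit 0) (XT.lf (nat_lit 0) (nat_lit 188329571472) (nat_lit 152) (nat_lit 2054395479) (nat_lit 0) (nat_lit 16865932220) (nat_lit 13) (nat_lit 5) (nat_lit 15) (nat_lit 4) (nat_lit 13) (nat_lit 4) (nat_lit 361) (nat_lit 297) (nat_lit 122)) (XT.lf (nat_lit 0) (nat_lit 4767176840) (nat_lit 152) (nat_lit 161692525957) (nat_lit 76) (nat_lit 49533056450) (nat_lit 11) (nat_lit 5) (nat_lit 13) (nat_lit 5) (nat_lit 12) (nat_lit 4) (nat_lit 362) (nat_lit 297) (nat_lit 121))) (XT.nd (nat_lit 78) (nat_lit 0) (nat_lit 0) (XT.lf (nat_lit 0) (nat_lit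 29037983632) (nat_lit 152) (nat_lit 111938895108) (nat_lit 76) (nat_lit 84178636906) (nat_lit 11) (nat_lit 5) (nat_lit 13) (nat_lit 5) (nat_lit 12) (nat_lit 4) (nat_lit 363) (nat_lit 297) (nat_lit 120)) (XT.nd (nat_lit 78) (nat_lit 0) (nat_lit 0) (XT.lf (nat_lit 0) (nat_lit 54521770342) (nat_lit 152) (nat_lit 59698582900) (nat_lit 76) (nat_lit 120556085111) (nat_lit 11) (nat_lit 5) (nat_lit 13) (nat_lit 5) (nat_lit 12) (nat_lit 4) (nat_lit 364) (nat_lit 297) (nat_lit 119)) (XT.lf (nat_lit 0) (nat_lit 81279212653) (nat_lit 152) (nat_lit 4847207636) (nat_lit 76) (nat_lit 158752014038) (nat_lit 11) (nat_lit 5) (nat_lit 13) (nat_lit 5) (nat_lit 12) (nat_lit 4) (nat_lit 365) (nat_lit 297) (nat_lit 118))))) (XT.nd (nat_lit 156) (nat_lit 76) (nat_lit 0) (XT.nd (nat_lit 78) (nat_lit 0) (nat_lit 0) (XT.lf (nat_lit 0) (nat_lit 54489844515) (nat_lit 76) (nat_lit 55734913425) (nat_lit 152) (nat_lit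 145218261039) (nat_lit 10) (nat_lit 5) (nat_lit 11) (nat_lit 5) (nat_lit 12) (nat_lit 4) (nat_lit 366) (nat_lit 297) (nat_lit 117)) (XT.lf (nat_lit 0) (nat_lit 116961140816) (nat_lit 76) (nat_lit 23738031436) (nat_lit 152) (nat_lit 125832581428) (nat_lit 10) (nat_lit 5) (nat_lit 11) (nat_lit 5) (nat_lit 12) (nat_lit 4) (nat_lit 367) (nat_lit 297) (nat_lit 116))) (XT.nd (nat_lit 78) (nat_lit 76) (nat_lit 0) (XT.lf (nat_lit 0) (nat_lit 172850748933) (nat_lit 152) (nat_lit 95773713332) (nat_lit 0) (nat_lit 9542791152) (nat_lit 10) (nat_lit 5) (nat_lit 12) (nat_lit 4) (nat_lit 10) (nat_lit 4) (nat_lit 368) (nat_lit 297) (nat_lit 115)) (XT.nd (nat_lit 78) (nat_lit 76) (nat_lit 0) (XT.lf (nat_lit 0) (nat_lit 206998595174) (nat_lit 152) (nat_lit 39676943825) (nat_lit 0) (nat_lit 43689554972) (nat_lit 10) (nat_lit 5) (nat_lit 12) (nat_lit 4) (nat_lit 10) (nat_lit 4) (nat_lit 369) (nat_lit 297)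 (nat_lit 114)) (XT.lf (nat_lit 0) (nat_lit 19859504764) (nat_lit 76) (nat_lit 223303955933) (nat_lit 76) (nat_lit 59993884854) (nat_lit 9) (nat_lit 4) (nat_lit 10) (nat_lit 5) (nat_lit 10) (nat_lit 4) (nat_lit 370) (nat_lit 297) (nat_lit 113))))))))
noncomputable def xc207 : XT := (XT.nd (nat_lit 35958) (nat_lit 0) (nat_lit 2280) (XT.nd (nat_lit 35178) (nat_lit 0) (nat_lit 5168) (XT.nd (nat_lit 390) (nat_lit 76) (nat_lit 0) (XT.nd (nat_lit 156) (nat_lit 76) (nat_lit 0) (XT.nd (nat_lit 78) (nat_lit 0) (nat_lit 0) (XT.lf (nat_lit 0) (nat_lit 83749494815) (nat_lit 76) (nat_lit 198058596014) (nat_lit 76) (nat_lit 34747543148) (nat_lit 9) (nat_lit 4) (nat_lit 10) (nat_lit 5) (nat_lit 10) (nat_lit 4) (nat_lit 371) (nat_lit 297) (nat_lit 112)) (XT.lf (nat_lit 0) (nat_lit 150833246400) (nat_lit 76) (nat_lit 171551299485) (nat_lit 76) (nat_lit 8239311583) (nat_lit 9) (nat_lit 4) (nat_lit 10)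 (nat_lit 5) (nat_lit 10) (nat_lit 4) (nat_lit 372) (nat_lit 297) (nat_lit 111))) (XT.nd (nat_lit 78) (nat_lit 0) (nat_lit 0) (XT.lf (nat_lit 0) (nat_lit 18966796720) (nat_lit 152) (nat_lit 124430945134) (nat_lit 76) (nat_lit 201982474138) (nat_lit 8) (nat_lit 5) (nat_lit 10) (nat_lit 5) (nat_lit 9) (nat_lit 4) (nat_lit 373) (nat_lit 297) (nat_lit 110)) (XT.nd (nat_lit 78) (nat_lit 0) (nat_lit 0) (XT.lf (nat_lit 0) (nat_lit 47255940437) (nat_lit 152) (nat_lit 66439048618) (nat_lit 76) (nat_lit 247172668881) (nat_lit 8) (nat_lit 5) (nat_lit 10) (nat_lit 5) (nat_lit 9) (nat_lit 4) (nat_lit 374) (nat_lit 297) (nat_lit 109)) (XT.lf (nat_lit 0) (nat_lit 76959184098) (nat_lit 152) (nat_lit 5548206833) (nat_lit 76) (nat_lit 294622099170) (nat_lit 8) (nat_lit 5) (nat_lit 10) (nat_lit 5) (nat_lit 9) (nat_lit 4) (nat_lit 375) (nat_lit 297) (nat_lit 108))))) (XT.nd (nat_lit 34554) (nat_lit 0) (nat_lit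 5624) (XT.nd (nat_lit 78) (nat_lit 0) (nat_lit 0) (XT.lf (nat_lit 0) (nat_lit 60317081718) (nat_lit 76) (nat_lit 48771886676) (nat_lit 152) (nat_lit 285068376803) (nat_lit 7) (nat_lit 5) (nat_lit 8) (nat_lit 5) (nat_lit 9) (nat_lit 4) (nat_lit 376) (nat_lit 297) (nat_lit 107)) (XT.lf (nat_lit 0) (nat_lit 129667647264) (nat_lit 76) (nat_lit 13251222677) (nat_lit 152) (nat_lit 269113041942) (nat_lit 7) (nat_lit 5) (nat_lit 8) (nat_lit 5) (nat_lit 9) (nat_lit 4) (nat_lit 377) (nat_lit 297) (nat_lit 106))) (XT.nd (nat_lit 78) (nat_lit 0) (nat_lit 0) (XT.lf (nat_lit 0) (nat_lit 3951959187) (nat_lit 0) (nat_lit 3951959187) (nat_lit 684) (nat_lit 5206782183) (nat_lit 81) (nat_lit 5) (nat_lit 81) (nat_lit 3) (nat_lit 90) (nat_lit 3) (nat_lit 298) (nat_lit 298) (nat_lit 184)) (XT.nd (nat_lit 78) (nat_lit 0) (nat_lit 0) (XT.lf (nat_lit 0) (nat_lit 16350830473) (nat_lit 684) (nat_lit 6841208695)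 (nat_lit 760) (nat_lit 3677274104) (nat_lit 81) (nat_lit 5) (nat_lit 90) (nat_lit 3) (nat_lit 91) (nat_lit 5) (nat_lit 299) (nat_lit 298) (nat_lit 183)) (XT.lf (nat_lit 76) (nat_lit 5243971996) (nat_lit 0) (nat_lit 11882827367) (nat_lit 760) (nat_lit 10412545313) (nat_lit 82) (nat_lit 5) (nat_lit 81) (nat_lit 5) (nat_lit 91) (nat_lit 5) (nat_lit 300) (nat_lit 298) (nat_lit 182)))))) (XT.nd (nat_lit 390) (nat_lit 532) (nat_lit 0) (XT.nd (nat_lit 156) (nat_lit 0) (nat_lit 0) (XT.nd (nat_lit 78) (nat_lit 0) (nat_lit 0) (XT.lf (nat_lit 0) (nat_lit 18053832258) (nat_lit 684) (nat_lit 10071376766) (nat_lit 760) (nat_lit 112069551) (nat_lit 82) (nat_lit 5) (nat_lit 91) (nat_lit 5) (nat_lit 92) (nat_lit 5) (nat_lit 301) (nat_lit 298) (nat_lit 181)) (XT.lf (nat_lit 76) (nat_lit 2650574277) (nat_lit 0) (nat_lit 16607715739) (nat_lit 760) (nat_lit 9700279019) (nat_lit 83) (nat_lit 5) (nat_lit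 82) (nat_lit 5) (nat_lit 92) (nat_lit 5) (nat_lit 302) (nat_lit 298) (nat_lit 180))) (XT.nd (nat_lit 78) (nat_lit 0) (nat_lit 76) (XT.lf (nat_lit 76) (nat_lit 16355052073) (nat_lit 0) (nat_lit 4333565074) (nat_lit 760) (nat_lit 9019037431) (nat_lit 83) (nat_lit 5) (nat_lit 82) (nat_lit 5) (nat_lit 92) (nat_lit 5) (nat_lit 303) (nat_lit 298) (nat_lit 179)) (XT.nd (nat_lit 78) (nat_lit 0) (nat_lit 0) (XT.lf (nat_lit 76) (nat_lit 117416751) (nat_lit 0) (nat_lit 22203775716) (nat_lit 760) (nat_lit 8166477608) (nat_lit 84) (nat_lit 5) (nat_lit 83) (nat_lit 5) (nat_lit 93) (nat_lit 5) (nat_lit 304) (nat_lit 298) (nat_lit 178)) (XT.lf (nat_lit 76) (nat_lit 14647827907) (nat_lit 0) (nat_lit 9679110213) (nat_lit 760) (nat_lit 6965182834) (nat_lit 84) (nat_lit 5) (nat_lit 83) (nat_lit 5) (nat_lit 93) (nat_lit 5) (nat_lit 305) (nat_lit 298) (nat_lit 177))))) (XT.nd (nat_lit 156) (nat_lit 684)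 (nat_lit 0) (XT.nd (nat_lit 78) (nat_lit 0) (nat_lit 0) (XT.lf (nat_lit 0) (nat_lit 26482919465) (nat_lit 684) (nat_lit 2289615297) (nat_lit 760) (nat_lit 3361773324) (nat_lit 84) (nat_lit 5) (nat_lit 93) (nat_lit 5) (nat_lit 94) (nat_lit 5) (nat_lit 306) (nat_lit 298) (nat_lit 176)) (XT.lf (nat_lit 76) (nat_lit 13038211167) (nat_lit 0) (nat_lit 16066672387) (nat_lit 760) (nat_lit 3895822435) (nat_lit 85) (nat_lit 5) (nat_lit 84) (nat_lit 5) (nat_lit 94) (nat_lit 5) (nat_lit 307) (nat_lit 298) (nat_lit 175))) (XT.nd (nat_lit 78) (nat_lit 684) (nat_lit 0) (XT.lf (nat_lit 76) (nat_lit 29208755670) (nat_lit 0) (nat_lit 2684056265) (nat_lit 760) (nat_lit 2015878642) (nat_lit 85) (nat_lit 5) (nat_lit 84) (nat_lit 5) (nat_lit 94) (nat_lit 5) (nat_lit 308) (nat_lit 298) (nat_lit 174)) (XT.nd (nat_lit 78) (nat_lit 0) (nat_lit 0) (XT.lf (nat_lit 0) (nat_lit 318718863) (nat_lit 760) (nat_lit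 23335990792) (nat_lit 76) (nat_lit 11189440921) (nat_lit 75) (nat_lit 5) (nat_lit 85) (nat_lit 5) (nat_lit 76) (nat_lit 5) (nat_lit 309) (nat_lit 298) (nat_lit 173)) (XT.lf (nat_lit 0) (nat_lit 2823548244) (nat_lit 760) (nat_lit 7214223769) (nat_lit 76) (nat_lit 25780905485) (nat_lit 75) (nat_lit 5) (nat_lit 85) (nat_lit 5) (nat_lit 76) (nat_lit 5) (nat_lit 310) (nat_lit 298) (nat_lit 172))))))) (XT.nd (nat_lit 780) (nat_lit 1216) (nat_lit 0) (XT.nd (nat_lit 390) (nat_lit 608) (nat_lit 0) (XT.nd (nat_lit 156) (nat_lit 684) (nat_lit 0) (XT.nd (nat_lit 78) (nat_lit 0) (nat_lit 0) (XT.lf (nat_lit 0) (nat_lit 5675844730) (nat_lit 456) (nat_lit 26871801578) (nat_lit 76) (nat_lit 4283181480) (nat_lit 70) (nat_lit 5) (nat_lit 76) (nat_lit 5) (nat_lit 71) (nat_lit 5) (nat_lit 311) (nat_lit 298) (nat_lit 171)) (XT.lf (nat_lit 0) (nat_lit 8956131839) (nat_lit 456) (nat_lit 9815902963) (nat_lit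 76) (nat_lit 19107289911) (nat_lit 70) (nat_lit 5) (nat_lit 76) (nat_lit 5) (nat_lit 71) (nat_lit 5) (nat_lit 312) (nat_lit 298) (nat_lit 170))) (XT.nd (nat_lit 78) (nat_lit 304) (nat_lit 0) (XT.lf (nat_lit 0) (nat_lit 8357157621) (nat_lit 380) (nat_lit 4170557090) (nat_lit 456) (nat_lit 26446175234) (nat_lit 65) (nat_lit 5) (nat_lit 70) (nat_lit 5) (nat_lit 71) (nat_lit 5) (nat_lit 313) (nat_lit 298) (nat_lit 169)) (XT.nd (nat_lit 78) (nat_lit 304) (nat_lit 0) (XT.lf (nat_lit 0) (nat_lit 16618001016) (nat_lit 456) (nat_lit 12515420198) (nat_lit 76) (nat_lit 10972763184) (nat_lit 65) (nat_lit 5) (nat_lit 71) (nat_lit 5) (nat_lit 66) (nat_lit 5) (nat_lit 314) (nat_lit 298) (nat_lit 168)) (XT.lf (nat_lit 0) (nat_lit 6631773304) (nat_lit 304) (nat_lit 14449993564) (nat_lit 380) (nat_lit 20204885277) (nat_lit 61) (nat_lit 5) (nat_lit 65) (nat_lit 5) (nat_lit 66) (nat_lit 5) (nat_lit 315)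 (nat_lit 298) (nat_lit 167))))) (XT.nd (nat_lit 156) (nat_lit 304) (nat_lit 0) (XT.nd (nat_lit 78) (nat_lit 304) (nat_lit 0) (XT.lf (nat_lit 0) (nat_lit 25996402665) (nat_lit 380) (nat_lit 15366463120) (nat_lit 76) (nat_lit 1151899919) (nat_lit 61) (nat_lit 5) (nat_lit 66) (nat_lit 5) (nat_lit 62) (nat_lit 5) (nat_lit 316) (nat_lit 298) (nat_lit 166)) (XT.lf (nat_lit 0) (nat_lit 4800102960) (nat_lit 304) (nat_lit 26665776684) (nat_lit 380) (nat_lit 12322956024) (nat_lit 57) (nat_lit 5) (nat_lit 61) (nat_lit 5) (nat_lit 62) (nat_lit 5) (nat_lit 317) (nat_lit 298) (nat_lit 165))) (XT.nd (nat_lit 78) (nat_lit 304) (nat_lit 0) (XT.lf (nat_lit 0) (nat_lit 26505516375) (nat_lit 304) (nat_lit 10960916878) (nat_lit 380) (nat_lit 7647301638) (nat_lit 57) (nat_lit 5) (nat_lit 61) (nat_lit 5) (nat_lit 62) (nat_lit 5) (nat_lit 318) (nat_lit 298) (nat_lit 164)) (XT.nd (nat_lit 78) (nat_lit 76) (nat_lit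 0) (XT.lf (nat_lit 0) (nat_lit 2791382351) (nat_lit 228) (nat_lit 41103024416) (nat_lit 304) (nat_lit 2604108321) (nat_lit 54) (nat_lit 5) (nat_lit 57) (nat_lit 5) (nat_lit 58) (nat_lit 5) (nat_lit 319) (nat_lit 298) (nat_lit 163)) (XT.lf (nat_lit 0) (nat_lit 3102614612) (nat_lit 304) (nat_lit 22259644244) (nat_lit 76) (nat_lit 22563304312) (nat_lit 53) (nat_lit 5) (nat_lit 57) (nat_lit 5) (nat_lit 54) (nat_lit 5) (nat_lit 320) (nat_lit 298) (nat_lit 162)))))) (XT.nd (nat_lit 390) (nat_lit 684) (nat_lit 0) (XT.nd (nat_lit 156) (nat_lit 228) (nat_lit 0) (XT.nd (nat_lit 78) (nat_lit 0) (nat_lit 0) (XT.lf (nat_lit 0) (nat_lit 221774886) (nat_lit 304) (nat_lit 8786478621) (nat_lit 380) (nat_lit 40413525740) (nat_lit 49) (nat_lit 5) (nat_lit 53) (nat_lit 5) (nat_lit 54) (nat_lit 5) (nat_lit 321) (nat_lit 298) (nat_lit 161)) (XT.lf (nat_lit 0) (nat_lit 15724578130) (nat_lit 380) (nat_lit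 26517537507) (nat_lit 76) (nat_lit 8724924928) (nat_lit 49) (nat_lit 5) (nat_lit 54) (nat_lit 5) (nat_lit 50) (nat_lit 5) (nat_lit 322) (nat_lit 298) (nat_lit 160))) (XT.nd (nat_lit 78) (nat_lit 228) (nat_lit 0) (XT.lf (nat_lit 0) (nat_lit 22918562880) (nat_lit 380) (nat_lit 2847766338) (nat_lit 76) (nat_lit 26816147940) (nat_lit 49) (nat_lit 5) (nat_lit 54) (nat_lit 5) (nat_lit 50) (nat_lit 5) (nat_lit 323) (nat_lit 298) (nat_lit 159)) (XT.nd (nat_lit 78) (nat_lit 0) (nat_lit 0) (XT.lf (nat_lit 0) (nat_lit 22730360798) (nat_lit 228) (nat_lit 8094678572) (nat_lit 304) (nat_lit 23436010779) (nat_lit 46) (nat_lit 5) (nat_lit 49) (nat_lit 5) (nat_lit 50) (nat_lit 5) (nat_lit 324) (nat_lit 298) (nat_lit 158)) (XT.lf (nat_lit 0) (nat_lit 39337135131) (nat_lit 304) (nat_lit 6501687430) (nat_lit 76) (nat_lit 10174218452) (nat_lit 46) (nat_lit 5) (nat_lit 50) (nat_lit 5) (nat_lit 47) (nat_lit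 5) (nat_lit 325) (nat_lit 298) (nat_lit 157))))) (XT.nd (nat_lit 156) (nat_lit 456) (nat_lit 0) (XT.nd (nat_lit 78) (nat_lit 0) (nat_lit 0) (XT.lf (nat_lit 0) (nat_lit 20292995960) (nat_lit 228) (nat_lit 28429425091) (nat_lit 304) (nat_lit 9107834904) (nat_lit 43) (nat_lit 5) (nat_lit 46) (nat_lit 5) (nat_lit 47) (nat_lit 5) (nat_lit 326) (nat_lit 298) (nat_lit 156)) (XT.lf (nat_lit 0) (nat_lit 48650607321) (nat_lit 228) (nat_lit 10034581462) (nat_lit 304) (nat_lit 1047735608) (nat_lit 43) (nat_lit 5) (nat_lit 46) (nat_lit 5) (nat_lit 47) (nat_lit 5) (nat_lit 327) (nat_lit 298) (nat_lit 155))) (XT.nd (nat_lit 78) (nat_lit 228) (nat_lit 0) (XT.lf (nat_lit 0) (nat_lit 7594727031) (nat_lit 228) (nat_lit 44737582531) (nat_lit 76) (nat_lit 9371796416) (nat_lit 40) (nat_lit 5) (nat_lit 43) (nat_lit 5) (nat_lit 41) (nat_lit 5) (nat_lit 328) (nat_lit 298) (nat_lit 154)) (XT.nd (nat_lit 78)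 (nat_lit 228) (nat_lit 0) (XT.lf (nat_lit 0) (nat_lit 16987569281) (nat_lit 228) (nat_lit 17149173462) (nat_lit 76) (nat_lit 29618574868) (nat_lit 40) (nat_lit 5) (nat_lit 43) (nat_lit 5) (nat_lit 41) (nat_lit 5) (nat_lit 329) (nat_lit 298) (nat_lit 153)) (XT.lf (nat_lit 0) (nat_lit 12206958851) (nat_lit 228) (nat_lit 14831969854) (nat_lit 304) (nat_lit 38860720348) (nat_lit 37) (nat_lit 5) (nat_lit 40) (nat_lit 5) (nat_lit 41) (nat_lit 5) (nat_lit 330) (nat_lit 298) (nat_lit 152))))))))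
noncomputable def xc208 : XT := (XT.nd (nat_lit 1482) (nat_lit 760) (nat_lit 0) (XT.nd (nat_lit 702) (nat_lit 532) (nat_lit 0) (XT.nd (nat_lit 312) (nat_lit 532) (nat_lit 0) (XT.nd (nat_lit 156) (nat_lit 76) (nat_lit 0) (XT.nd (nat_lit 78) (nat_lit 152) (nat_lit 0) (XT.lf (nat_lit 0) (nat_lit 37971273889) (nat_lit 304) (nat_lit 24602494209) (nat_lit 76) (nat_lit 5558510920) (nat_lit 37) (nat_lit 5) (nat_lit 41) (nat_lit 5) (nat_lit 38) (nat_lit 5) (nat_lit 331) (nat_lit 298) (nat_lit 151)) (XT.lf (nat_lit 0) (nat_lit 5885107820) (nat_lit 152) (nat_lit 43898562418) (nat_lit 228) (nat_lit 20676201251) (nat_lit 35) (nat_lit 5) (nat_lit 37) (nat_lit 5) (nat_lit 38) (nat_lit 5) (nat_lit 332) (nat_lit 298) (nat_lit 150))) (XT.nd (nat_lit 78) (nat_lit 76) (nat_lit 0) (XT.lf (nat_lit 0) (nat_lit 38748953445) (nat_lit 152) (nat_lit 23852832355) (nat_lit 228) (nat_lit 10281305388) (nat_lit 35)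 (nat_lit 5) (nat_lit 37) (nat_lit 5) (nat_lit 38) (nat_lit 5) (nat_lit 333) (nat_lit 298) (nat_lit 149)) (XT.lf (nat_lit 0) (nat_lit 611556255) (nat_lit 228) (nat_lit 2183591868) (nat_lit 76) (nat_lit 72631907094) (nat_lit 34) (nat_lit 5) (nat_lit 37) (nat_lit 5) (nat_lit 35) (nat_lit 5) (nat_lit 334) (nat_lit 298) (nat_lit 148)))) (XT.nd (nat_lit 156) (nat_lit 304) (nat_lit 0) (XT.nd (nat_lit 78) (nat_lit 0) (nat_lit 0) (XT.lf (nat_lit 0) (nat_lit 12517799526) (nat_lit 304) (nat_lit 46152049659) (nat_lit 76) (nat_lit 19379230297) (nat_lit 31) (nat_lit 5) (nat_lit 35) (nat_lit 5) (nat_lit 32) (nat_lit 5) (nat_lit 335) (nat_lit 298) (nat_lit 147)) (XT.lf (nat_lit 0) (nat_lit 25101352198) (nat_lit 304) (nat_lit 13091436987) (nat_lit 76) (nat_lit 42605318031) (nat_lit 31) (nat_lit 5) (nat_lit 35) (nat_lit 5) (nat_lit 32) (nat_lit 5) (nat_lit 336) (nat_lit 298) (nat_lit 146))) (XT.nd (nat_lit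 78) (nat_lit 152) (nat_lit 0) (XT.lf (nat_lit 0) (nat_lit 22335024014) (nat_lit 152) (nat_lit 16326426732) (nat_lit 228) (nat_lit 45005769196) (nat_lit 29) (nat_lit 5) (nat_lit 31) (nat_lit 5) (nat_lit 32) (nat_lit 5) (nat_lit 337) (nat_lit 298) (nat_lit 145)) (XT.nd (nat_lit 78) (nat_lit 152) (nat_lit 0) (XT.lf (nat_lit 0) (nat_lit 53227139964) (nat_lit 228) (nat_lit 26790654092) (nat_lit 76) (nat_lit 6645616884) (nat_lit 29) (nat_lit 5) (nat_lit 32) (nat_lit 5) (nat_lit 30) (nat_lit 5) (nat_lit 338) (nat_lit 298) (nat_lit 144)) (XT.lf (nat_lit 0) (nat_lit 9512820342) (nat_lit 152) (nat_lit 59423202046) (nat_lit 228) (nat_lit 20852645491) (nat_lit 27) (nat_lit 5) (nat_lit 29) (nat_lit 5) (nat_lit 30) (nat_lit 5) (nat_lit 339) (nat_lit 298) (nat_lit 143)))))) (XT.nd (nat_lit 390) (nat_lit 152) (nat_lit 0) (XT.nd (nat_lit 156) (nat_lit 304) (nat_lit 0) (XT.nd (nat_lit 78) (nat_lit 76)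 (nat_lit 0) (XT.lf (nat_lit 0) (nat_lit 48559643438) (nat_lit 152) (nat_lit 37323188549) (nat_lit 228) (nat_lit 7164733269) (nat_lit 27) (nat_lit 5) (nat_lit 29) (nat_lit 5) (nat_lit 30) (nat_lit 5) (nat_lit 340) (nat_lit 298) (nat_lit 142)) (XT.lf (nat_lit 0) (nat_lit 6975695279) (nat_lit 228) (nat_lit 7025015122) (nat_lit 76) (nat_lit 82463131754) (nat_lit 26) (nat_lit 5) (nat_lit 29) (nat_lit 5) (nat_lit 27) (nat_lit 5) (nat_lit 341) (nat_lit 298) (nat_lit 141))) (XT.nd (nat_lit 78) (nat_lit 152) (nat_lit 0) (XT.lf (nat_lit 0) (nat_lit 22274622883) (nat_lit 228) (nat_lit 66937136701) (nat_lit 76) (nat_lit 10798689105) (nat_lit 24) (nat_lit 5) (nat_lit 27) (nat_lit 5) (nat_lit 25) (nat_lit 5) (nat_lit 342) (nat_lit 298) (nat_lit 140)) (XT.nd (nat_lit 78) (nat_lit 152) (nat_lit 0) (XT.lf (nat_lit 0) (nat_lit 38687820185) (nat_lit 228) (nat_lit 28541271798) (nat_lit 76) (nat_lit 36487828836)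 (nat_lit 24) (nat_lit 5) (nat_lit 27) (nat_lit 5) (nat_lit 25) (nat_lit 5) (nat_lit 343) (nat_lit 298) (nat_lit 139)) (XT.lf (nat_lit 0) (nat_lit 12161917212) (nat_lit 152) (nat_lit 43948576116) (nat_lit 228) (nat_lit 51488783794) (nat_lit 22) (nat_lit 5) (nat_lit 24) (nat_lit 5) (nat_lit 25) (nat_lit 5) (nat_lit 344) (nat_lit 298) (nat_lit 138))))) (XT.nd (nat_lit 156) (nat_lit 152) (nat_lit 0) (XT.nd (nat_lit 78) (nat_lit 0) (nat_lit 0) (XT.lf (nat_lit 0) (nat_lit 55889455587) (nat_lit 152) (nat_lit 18997163378) (nat_lit 228) (nat_lit 36765017633) (nat_lit 22) (nat_lit 5) (nat_lit 24) (nat_lit 5) (nat_lit 25) (nat_lit 5) (nat_lit 345) (nat_lit 298) (nat_lit 137)) (XT.lf (nat_lit 0) (nat_lit 94712989887) (nat_lit 228) (nat_lit 14217342528) (nat_lit 76) (nat_lit 6970710921) (nat_lit 22) (nat_lit 5) (nat_lit 25) (nat_lit 5) (nat_lit 23) (nat_lit 4) (nat_lit 346) (nat_lit 298) (nat_lit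 136))) (XT.nd (nat_lit 78) (nat_lit 76) (nat_lit 0) (XT.lf (nat_lit 0) (nat_lit 30053633141) (nat_lit 76) (nat_lit 86256742663) (nat_lit 152) (nat_lit 4013560965) (nat_lit 21) (nat_lit 5) (nat_lit 22) (nat_lit 5) (nat_lit 23) (nat_lit 4) (nat_lit 347) (nat_lit 298) (nat_lit 135)) (XT.nd (nat_lit 78) (nat_lit 0) (nat_lit 0) (XT.lf (nat_lit 0) (nat_lit 13814715222) (nat_lit 152) (nat_lit 48148604418) (nat_lit 76) (nat_lit 62981523217) (nat_lit 20) (nat_lit 5) (nat_lit 22) (nat_lit 5) (nat_lit 21) (nat_lit 5) (nat_lit 348) (nat_lit 298) (nat_lit 134)) (XT.lf (nat_lit 0) (nat_lit 32398619330) (nat_lit 152) (nat_lit 3988127518) (nat_lit 76) (nat_lit 93406803810) (nat_lit 20) (nat_lit 5) (nat_lit 22) (nat_lit 5) (nat_lit 21) (nat_lit 5) (nat_lit 349) (nat_lit 298) (nat_lit 133))))))) (XT.nd (nat_lit 780) (nat_lit 228) (nat_lit 0) (XT.nd (nat_lit 390) (nat_lit 304) (nat_lit 0) (XT.nd (nat_lit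 156) (nat_lit 76) (nat_lit 0) (XT.nd (nat_lit 78) (nat_lit 0) (nat_lit 0) (XT.lf (nat_lit 0) (nat_lit 43780172944) (nat_lit 152) (nat_lit 8814216016) (nat_lit 228) (nat_lit 82256172346) (nat_lit 18) (nat_lit 5) (nat_lit 20) (nat_lit 5) (nat_lit 21) (nat_lit 5) (nat_lit 350) (nat_lit 298) (nat_lit 132)) (XT.lf (nat_lit 0) (nat_lit 74182138302) (nat_lit 228) (nat_lit 46398649624) (nat_lit 76) (nat_lit 19560525922) (nat_lit 18) (nat_lit 5) (nat_lit 21) (nat_lit 5) (nat_lit 19) (nat_lit 4) (nat_lit 351) (nat_lit 298) (nat_lit 131))) (XT.nd (nat_lit 78) (nat_lit 0) (nat_lit 0) (XT.lf (nat_lit 0) (nat_lit 372729347) (nat_lit 76) (nat_lit 96626050025) (nat_lit 152) (nat_lit 48690350312) (nat_lit 17) (nat_lit 5) (nat_lit 18) (nat_lit 5) (nat_lit 19) (nat_lit 4) (nat_lit 352) (nat_lit 298) (nat_lit 130)) (XT.nd (nat_lit 78) (nat_lit 0) (nat_lit 0) (XT.lf (nat_lit 0) (nat_lit 51092174860) (nat_lit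 76) (nat_lit 70649068164) (nat_lit 152) (nat_lit 29733844600) (nat_lit 17) (nat_lit 5) (nat_lit 18) (nat_lit 5) (nat_lit 19) (nat_lit 4) (nat_lit 353) (nat_lit 298) (nat_lit 129)) (XT.lf (nat_lit 0) (nat_lit 104346298599) (nat_lit 76) (nat_lit 43373775970) (nat_lit 152) (nat_lit 9830307455) (nat_lit 17) (nat_lit 5) (nat_lit 18) (nat_lit 5) (nat_lit 19) (nat_lit 4) (nat_lit 354) (nat_lit 298) (nat_lit 128))))) (XT.nd (nat_lit 156) (nat_lit 76) (nat_lit 0) (XT.nd (nat_lit 78) (nat_lit 152) (nat_lit 0) (XT.lf (nat_lit 0) (nat_lit 10713416561) (nat_lit 152) (nat_lit 3840378815) (nat_lit 76) (nat_lit 149367042642) (nat_lit 16) (nat_lit 5) (nat_lit 18) (nat_lit 5) (nat_lit 17) (nat_lit 5) (nat_lit 355) (nat_lit 298) (nat_lit 127)) (XT.lf (nat_lit 0) (nat_lit 32985218789) (nat_lit 228) (nat_lit 121413127512) (nat_lit 76) (nat_lit 16151850833) (nat_lit 14) (nat_lit 5) (nat_lit 17) (nat_lit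 5) (nat_lit 15) (nat_lit 4) (nat_lit 356) (nat_lit 298) (nat_lit 126))) (XT.nd (nat_lit 78) (nat_lit 76) (nat_lit 0) (XT.lf (nat_lit 0) (nat_lit 56674612870) (nat_lit 228) (nat_lit 72851910711) (nat_lit 76) (nat_lit 47969301193) (nat_lit 14) (nat_lit 5) (nat_lit 17) (nat_lit 5) (nat_lit 15) (nat_lit 4) (nat_lit 357) (nat_lit 298) (nat_lit 125)) (XT.nd (nat_lit 78) (nat_lit 76) (nat_lit 0) (XT.lf (nat_lit 0) (nat_lit 81547819561) (nat_lit 228) (nat_lit 21863780866) (nat_lit 76) (nat_lit 81377166849) (nat_lit 14) (nat_lit 5) (nat_lit 17) (nat_lit 5) (nat_lit 15) (nat_lit 4) (nat_lit 358) (nat_lit 298) (nat_lit 124)) (XT.lf (nat_lit 0) (nat_lit 32719903585) (nat_lit 76) (nat_lit 75455006590) (nat_lit 152) (nat_lit 84245936146) (nat_lit 13) (nat_lit 5) (nat_lit 14) (nat_lit 5) (nat_lit 15) (nat_lit 4) (nat_lit 359) (nat_lit 298) (nat_lit 123)))))) (XT.nd (nat_lit 390) (nat_lit 76) (nat_lit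 0) (XT.nd (nat_lit 156) (nat_lit 152) (nat_lit 0) (XT.nd (nat_lit 78) (nat_lit 0) (nat_lit 0) (XT.lf (nat_lit 0) (nat_lit 90790757854) (nat_lit 76) (nat_lit 45712258379) (nat_lit 152) (nat_lit 63913030606) (nat_lit 13) (nat_lit 5) (nat_lit 14) (nat_lit 5) (nat_lit 15) (nat_lit 4) (nat_lit 360) (nat_lit 298) (nat_lit 122)) (XT.lf (nat_lit 0) (nat_lit 151764130542) (nat_lit 76) (nat_lit 14482813436) (nat_lit 152) (nat_lit 42564093126) (nat_lit 13) (nat_lit 5) (nat_lit 14) (nat_lit 5) (nat_lit 15) (nat_lit 4) (nat_lit 361) (nat_lit 298) (nat_lit 121))) (XT.nd (nat_lit 78) (nat_lit 152) (nat_lit 0) (XT.lf (nat_lit 0) (nat_lit 197763346543) (nat_lit 152) (nat_lit 2126443097) (nat_lit 0) (nat_lit 17721723836) (nat_lit 13) (nat_lit 5) (nat_lit 15) (nat_lit 4) (nat_lit 13) (nat_lit 4) (nat_lit 362) (nat_lit 298) (nat_lit 120)) (XT.nd (nat_lit 78) (nat_lit 0) (nat_lit 0) (XT.lf (nat_lit 0) (nat_lit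 5022772055) (nat_lit 152) (nat_lit 169746390541) (nat_lit 76) (nat_lit 52022358438) (nat_lit 11) (nat_lit 5) (nat_lit 13) (nat_lit 5) (nat_lit 12) (nat_lit 4) (nat_lit 363) (nat_lit 298) (nat_lit 119)) (XT.lf (nat_lit 0) (nat_lit 30506298406) (nat_lit 152) (nat_lit 117506542993) (nat_lit 76) (nat_lit 88399615575) (nat_lit 11) (nat_lit 5) (nat_lit 13) (nat_lit 5) (nat_lit 12) (nat_lit 4) (nat_lit 364) (nat_lit 298) (nat_lit 118))))) (XT.nd (nat_lit 156) (nat_lit 76) (nat_lit 0) (XT.nd (nat_lit 78) (nat_lit 0) (nat_lit 0) (XT.lf (nat_lit 0) (nat_lit 57263492757) (nat_lit 152) (nat_lit 62655610263) (nat_lit 76) (nat_lit 126595362533) (nat_lit 11) (nat_lit 5) (nat_lit 13) (nat_lit 5) (nat_lit 12) (nat_lit 4) (nat_lit 365) (nat_lit 298) (nat_lit 117)) (XT.lf (nat_lit 0) (nat_lit 85358062712) (nat_lit 152) (nat_lit 5062994893) (nat_lit 76) (nat_lit 166700541565) (nat_lit 11) (nat_lit 5) (nat_lit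 13) (nat_lit 5) (nat_lit 12) (nat_lit 4) (nat_lit 366) (nat_lit 298) (nat_lit 116))) (XT.nd (nat_lit 78) (nat_lit 0) (nat_lit 0) (XT.lf (nat_lit 0) (nat_lit 57240481267) (nat_lit 76) (nat_lit 58510103166) (nat_lit 152) (nat_lit 152463844253) (nat_lit 10) (nat_lit 5) (nat_lit 11) (nat_lit 5) (nat_lit 12) (nat_lit 4) (nat_lit 367) (nat_lit 298) (nat_lit 115)) (XT.nd (nat_lit 78) (nat_lit 0) (nat_lit 0) (XT.lf (nat_lit 0) (nat_lit 122834097406) (nat_lit 76) (nat_lit 24913927359) (nat_lit 152) (nat_lit 132109610655) (nat_lit 10) (nat_lit 5) (nat_lit 11) (nat_lit 5) (nat_lit 12) (nat_lit 4) (nat_lit 368) (nat_lit 298) (nat_lit 114)) (XT.lf (nat_lit 0) (nat_lit 181506682313) (nat_lit 152) (nat_lit 100538176461) (nat_lit 0) (nat_lit 10030076804) (nat_lit 10) (nat_lit 5) (nat_lit 12) (nat_lit 4) (nat_lit 10) (nat_lit 4) (nat_lit 369) (nat_lit 298) (nat_lit 113))))))))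
noncomputable def xc209 : XT := (XT.nd (nat_lit 35958) (nat_lit 0) (nat_lit 2508) (XT.nd (nat_lit 35178) (nat_lit 0) (nat_lit 5624) (XT.nd (nat_lit 312) (nat_lit 152) (nat_lit 0) (XT.nd (nat_lit 156) (nat_lit 0) (nat_lit 0) (XT.nd (nat_lit 78) (nat_lit 76) (nat_lit 0) (XT.lf (nat_lit 0) (nat_lit 217361282964) (nat_lit 152) (nat_lit 41637721933) (nat_lit 0) (nat_lit 45883695667) (nat_lit 10) (nat_lit 5) (nat_lit 12) (nat_lit 4) (nat_lit 10) (nat_lit 4) (nat_lit 370) (nat_lit 298) (nat_lit 112)) (XT.lf (nat_lit 0) (nat_lit 20875177004) (nat_lit 76) (nat_lit 234458961599) (nat_lit 76) (nat_lit 62980439266) (nat_lit 9) (nat_lit 4) (nat_lit 10) (nat_lit 5) (nat_lit 10) (nat_lit 4) (nat_lit 371) (nat_lit 298) (nat_lit 111))) (XT.nd (nat_lit 78) (nat_lit 0) (nat_lit 0) (XT.lf (nat_lit 0) (nat_lit 87958585747) (nat_lit 76) (nat_lit 207951819023) (nat_lit 76) (nat_lit 36472406181) (nat_lit 9)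 (nat_lit 4) (nat_lit 10) (nat_lit 5) (nat_lit 10) (nat_lit 4) (nat_lit 372) (nat_lit 298) (nat_lit 110)) (XT.lf (nat_lit 0) (nat_lit 158395495569) (nat_lit 76) (nat_lit 180119619896) (nat_lit 76) (nat_lit 8639358948) (nat_lit 9) (nat_lit 4) (nat_lit 10) (nat_lit 5) (nat_lit 10) (nat_lit 4) (nat_lit 373) (nat_lit 298) (nat_lit 109)))) (XT.nd (nat_lit 156) (nat_lit 76) (nat_lit 0) (XT.nd (nat_lit 78) (nat_lit 0) (nat_lit 0) (XT.lf (nat_lit 0) (nat_lit 19926123944) (nat_lit 152) (nat_lit 130632514580) (nat_lit 76) (nat_lit 212090030904) (nat_lit 8) (nat_lit 5) (nat_lit 10) (nat_lit 5) (nat_lit 9) (nat_lit 4) (nat_lit 374) (nat_lit 298) (nat_lit 108)) (XT.lf (nat_lit 0) (nat_lit 49629201638) (nat_lit 152) (nat_lit 69741974563) (nat_lit 76) (nat_lit 259539333810) (nat_lit 8) (nat_lit 5) (nat_lit 10) (nat_lit 5) (nat_lit 9) (nat_lit 4) (nat_lit 375) (nat_lit 298) (nat_lit 107))) (XT.nd (nat_lit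 78) (nat_lit 76) (nat_lit 0) (XT.lf (nat_lit 0) (nat_lit 80817109187) (nat_lit 152) (nat_lit 5807496712) (nat_lit 76) (nat_lit 309360853161) (nat_lit 8) (nat_lit 5) (nat_lit 10) (nat_lit 5) (nat_lit 9) (nat_lit 4) (nat_lit 376) (nat_lit 298) (nat_lit 106)) (XT.nd (nat_lit 34554) (nat_lit 0) (nat_lit 5624) (XT.lf (nat_lit 0) (nat_lit 63350764002) (nat_lit 76) (nat_lit 51202422479) (nat_lit 152) (nat_lit 299311530587) (nat_lit 7) (nat_lit 5) (nat_lit 8) (nat_lit 5) (nat_lit 9) (nat_lit 4) (nat_lit 377) (nat_lit 298) (nat_lit 105)) (XT.lf (nat_lit 0) (nat_lit 4193109848) (nat_lit 0) (nat_lit 4193109848) (nat_lit 684) (nat_lit 5375431275) (nat_lit 81) (nat_lit 5) (nat_lit 81) (nat_lit 3) (nat_lit 90) (nat_lit 3) (nat_lit 299) (nat_lit 299) (nat_lit 182)))))) (XT.nd (nat_lit 390) (nat_lit 0) (nat_lit 152) (XT.nd (nat_lit 156) (nat_lit 0) (nat_lit 76) (XT.nd (nat_lit 78) (nat_lit 0) (nat_lit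 0) (XT.lf (nat_lit 0) (nat_lit 17332991851) (nat_lit 684) (nat_lit 7090283804) (nat_lit 760) (nat_lit 3780835441) (nat_lit 81) (nat_lit 5) (nat_lit 90) (nat_lit 3) (nat_lit 91) (nat_lit 5) (nat_lit 300) (nat_lit 299) (nat_lit 181)) (XT.lf (nat_lit 76) (nat_lit 5597656157) (nat_lit 0) (nat_lit 12543692333) (nat_lit 760) (nat_lit 10766636917) (nat_lit 82) (nat_lit 5) (nat_lit 81) (nat_lit 5) (nat_lit 91) (nat_lit 5) (nat_lit 301) (nat_lit 299) (nat_lit 180))) (XT.nd (nat_lit 78) (nat_lit 0) (nat_lit 0) (XT.lf (nat_lit 0) (nat_lit 19106207126) (nat_lit 684) (nat_lit 10478894360) (nat_lit 760) (nat_lit 56160623) (nat_lit 82) (nat_lit 5) (nat_lit 91) (nat_lit 5) (nat_lit 92) (nat_lit 5) (nat_lit 302) (nat_lit 299) (nat_lit 179)) (XT.nd (nat_lit 78) (nat_lit 0) (nat_lit 0) (XT.lf (nat_lit 76) (nat_lit 2877605021) (nat_lit 0) (nat_lit 17487630418) (nat_lit 760) (nat_lit 10033683138) (nat_lit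 83) (nat_lit 5) (nat_lit 82) (nat_lit 5) (nat_lit 92) (nat_lit 5) (nat_lit 303) (nat_lit 299) (nat_lit 178)) (XT.lf (nat_lit 76) (nat_lit 17262806610) (nat_lit 0) (nat_lit 4597413701) (nat_lit 760) (nat_lit 9325598985) (nat_lit 83) (nat_lit 5) (nat_lit 82) (nat_lit 5) (nat_lit 92) (nat_lit 5) (nat_lit 304) (nat_lit 299) (nat_lit 177))))) (XT.nd (nat_lit 156) (nat_lit 0) (nat_lit 76) (XT.nd (nat_lit 78) (nat_lit 0) (nat_lit 0) (XT.lf (nat_lit 76) (nat_lit 219664052) (nat_lit 0) (nat_lit 23349031645) (nat_lit 760) (nat_lit 8436443421) (nat_lit 84) (nat_lit 5) (nat_lit 83) (nat_lit 5) (nat_lit 93) (nat_lit 5) (nat_lit 305) (nat_lit 299) (nat_lit 176)) (XT.lf (nat_lit 76) (nat_lit 15472006410) (nat_lit 0) (nat_lit 10196463004) (nat_lit 760) (nat_lit 7181672388) (nat_lit 84) (nat_lit 5) (nat_lit 83) (nat_lit 5) (nat_lit 93) (nat_lit 5) (nat_lit 306) (nat_lit 299) (nat_lit 175))) (XT.nd (nat_lit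 78) (nat_lit 0) (nat_lit 0) (XT.lf (nat_lit 0) (nat_lit 27925792069) (nat_lit 684) (nat_lit 2309911553) (nat_lit 760) (nat_lit 3499073078) (nat_lit 84) (nat_lit 5) (nat_lit 93) (nat_lit 5) (nat_lit 94) (nat_lit 5) (nat_lit 307) (nat_lit 299) (nat_lit 174)) (XT.nd (nat_lit 78) (nat_lit 0) (nat_lit 0) (XT.lf (nat_lit 76) (nat_lit 13782787128) (nat_lit 0) (nat_lit 16891860351) (nat_lit 760) (nat_lit 3970072147) (nat_lit 85) (nat_lit 5) (nat_lit 84) (nat_lit 5) (nat_lit 94) (nat_lit 5) (nat_lit 308) (nat_lit 299) (nat_lit 173)) (XT.lf (nat_lit 76) (nat_lit 30757446219) (nat_lit 0) (nat_lit 2839072740) (nat_lit 760) (nat_lit 2001871231) (nat_lit 85) (nat_lit 5) (nat_lit 84) (nat_lit 5) (nat_lit 94) (nat_lit 5) (nat_lit 309) (nat_lit 299) (nat_lit 172))))))) (XT.nd (nat_lit 780) (nat_lit 1292) (nat_lit 0) (XT.nd (nat_lit 390) (nat_lit 608) (nat_lit 0) (XT.nd (nat_lit 156) (nat_lit 760) (nat_lit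 0) (XT.nd (nat_lit 78) (nat_lit 0) (nat_lit 0) (XT.lf (nat_lit 0) (nat_lit 441647954) (nat_lit 760) (nat_lit 24406205771) (nat_lit 76) (nat_lit 11732899308) (nat_lit 75) (nat_lit 5) (nat_lit 85) (nat_lit 5) (nat_lit 76) (nat_lit 5) (nat_lit 310) (nat_lit 299) (nat_lit 171)) (XT.lf (nat_lit 0) (nat_lit 3066623892) (nat_lit 760) (nat_lit 7482949661) (nat_lit 76) (nat_lit 27054699655) (nat_lit 75) (nat_lit 5) (nat_lit 85) (nat_lit 5) (nat_lit 76) (nat_lit 5) (nat_lit 311) (nat_lit 299) (nat_lit 170))) (XT.nd (nat_lit 78) (nat_lit 380) (nat_lit 0) (XT.lf (nat_lit 0) (nat_lit 6057971656) (nat_lit 456) (nat_lit 28119611145) (nat_lit 76) (nat_lit 4489637974) (nat_lit 70) (nat_lit 5) (nat_lit 76) (nat_lit 5) (nat_lit 71) (nat_lit 5) (nat_lit 312) (nat_lit 299) (nat_lit 169)) (XT.nd (nat_lit 78) (nat_lit 380) (nat_lit 0) (XT.lf (nat_lit 0) (nat_lit 9497590515) (nat_lit 456) (nat_lit 10215478576)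 (nat_lit 76) (nat_lit 20055318616) (nat_lit 70) (nat_lit 5) (nat_lit 76) (nat_lit 5) (nat_lit 71) (nat_lit 5) (nat_lit 313) (nat_lit 299) (nat_lit 168)) (XT.lf (nat_lit 0) (nat_lit 8864763755) (nat_lit 380) (nat_lit 4379930375) (nat_lit 456) (nat_lit 27673150498) (nat_lit 65) (nat_lit 5) (nat_lit 70) (nat_lit 5) (nat_lit 71) (nat_lit 5) (nat_lit 314) (nat_lit 299) (nat_lit 167))))) (XT.nd (nat_lit 156) (nat_lit 304) (nat_lit 0) (XT.nd (nat_lit 78) (nat_lit 304) (nat_lit 0) (XT.lf (nat_lit 0) (nat_lit 17535168195) (nat_lit 456) (nat_lit 13051190002) (nat_lit 76) (nat_lit 11520621942) (nat_lit 65) (nat_lit 5) (nat_lit 71) (nat_lit 5) (nat_lit 66) (nat_lit 5) (nat_lit 315) (nat_lit 299) (nat_lit 166)) (XT.lf (nat_lit 0) (nat_lit 7051911543) (nat_lit 304) (nat_lit 15167485344) (nat_lit 380) (nat_lit 21127220187) (nat_lit 61) (nat_lit 5) (nat_lit 65) (nat_lit 5) (nat_lit 66) (nat_lit 5)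 (nat_lit 316) (nat_lit 299) (nat_lit 165))) (XT.nd (nat_lit 78) (nat_lit 304) (nat_lit 0) (XT.lf (nat_lit 0) (nat_lit 27375860763) (nat_lit 380) (nat_lit 16046368119) (nat_lit 76) (nat_lit 1214111690) (nat_lit 61) (nat_lit 5) (nat_lit 66) (nat_lit 5) (nat_lit 62) (nat_lit 5) (nat_lit 317) (nat_lit 299) (nat_lit 164)) (XT.nd (nat_lit 78) (nat_lit 0) (nat_lit 0) (XT.lf (nat_lit 0) (nat_lit 5127100166) (nat_lit 304) (nat_lit 27989277330) (nat_lit 380) (nat_lit 12857866886) (nat_lit 57) (nat_lit 5) (nat_lit 61) (nat_lit 5) (nat_lit 62) (nat_lit 5) (nat_lit 318) (nat_lit 299) (nat_lit 163)) (XT.lf (nat_lit 0) (nat_lit 27913641773) (nat_lit 304) (nat_lit 11499640639) (nat_lit 380) (nat_lit 7952298207) (nat_lit 57) (nat_lit 5) (nat_lit 61) (nat_lit 5) (nat_lit 62) (nat_lit 5) (nat_lit 319) (nat_lit 299) (nat_lit 162)))))) (XT.nd (nat_lit 390) (nat_lit 684) (nat_lit 0) (XT.nd (nat_lit 156)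 (nat_lit 304) (nat_lit 0) (XT.nd (nat_lit 78) (nat_lit 76) (nat_lit 0) (XT.lf (nat_lit 0) (nat_lit 3016100633) (nat_lit 228) (nat_lit 43144520689) (nat_lit 304) (nat_lit 2659088006) (nat_lit 54) (nat_lit 5) (nat_lit 57) (nat_lit 5) (nat_lit 58) (nat_lit 5) (nat_lit 320) (nat_lit 299) (nat_lit 161)) (XT.lf (nat_lit 0) (nat_lit 3327095854) (nat_lit 304) (nat_lit 23289096748) (nat_lit 76) (nat_lit 23702038975) (nat_lit 53) (nat_lit 5) (nat_lit 57) (nat_lit 5) (nat_lit 54) (nat_lit 5) (nat_lit 321) (nat_lit 299) (nat_lit 160))) (XT.nd (nat_lit 78) (nat_lit 0) (nat_lit 0) (XT.lf (nat_lit 0) (nat_lit 315046085) (nat_lit 304) (nat_lit 9210951301) (nat_lit 380) (nat_lit 42363368810) (nat_lit 49) (nat_lit 5) (nat_lit 53) (nat_lit 5) (nat_lit 54) (nat_lit 5) (nat_lit 322) (nat_lit 299) (nat_lit 159)) (XT.nd (nat_lit 78) (nat_lit 0) (nat_lit 0) (XT.lf (nat_lit 0) (nat_lit 16575152821) (nat_lit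 380) (nat_lit 27762030956) (nat_lit 76) (nat_lit 9174862524) (nat_lit 49) (nat_lit 5) (nat_lit 54) (nat_lit 5) (nat_lit 50) (nat_lit 5) (nat_lit 323) (nat_lit 299) (nat_lit 158)) (XT.lf (nat_lit 0) (nat_lit 24125772724) (nat_lit 380) (nat_lit 2912646630) (nat_lit 76) (nat_lit 28169994718) (nat_lit 49) (nat_lit 5) (nat_lit 54) (nat_lit 5) (nat_lit 50) (nat_lit 5) (nat_lit 324) (nat_lit 299) (nat_lit 157))))) (XT.nd (nat_lit 156) (nat_lit 456) (nat_lit 0) (XT.nd (nat_lit 78) (nat_lit 0) (nat_lit 0) (XT.lf (nat_lit 0) (nat_lit 23943136733) (nat_lit 228) (nat_lit 8482708728) (nat_lit 304) (nat_lit 24545162480) (nat_lit 46) (nat_lit 5) (nat_lit 49) (nat_lit 5) (nat_lit 50) (nat_lit 5) (nat_lit 325) (nat_lit 299) (nat_lit 156)) (XT.lf (nat_lit 0) (nat_lit 41360958474) (nat_lit 304) (nat_lit 6751446261) (nat_lit 76) (nat_lit 10698328562) (nat_lit 46) (nat_lit 5) (nat_lit 50) (nat_lit 5) (nat_lit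 47) (nat_lit 5) (nat_lit 326) (nat_lit 299) (nat_lit 155))) (XT.nd (nat_lit 78) (nat_lit 228) (nat_lit 0) (XT.lf (nat_lit 0) (nat_lit 21381756370) (nat_lit 228) (nat_lit 29832196700) (nat_lit 304) (nat_lit 9504939004) (nat_lit 43) (nat_lit 5) (nat_lit 46) (nat_lit 5) (nat_lit 47) (nat_lit 5) (nat_lit 327) (nat_lit 299) (nat_lit 154)) (XT.nd (nat_lit 78) (nat_lit 228) (nat_lit 0) (XT.lf (nat_lit 0) (nat_lit 51153719223) (nat_lit 228) (nat_lit 10518501349) (nat_lit 304) (nat_lit 1044610346) (nat_lit 43) (nat_lit 5) (nat_lit 46) (nat_lit 5) (nat_lit 47) (nat_lit 5) (nat_lit 328) (nat_lit 299) (nat_lit 153)) (XT.lf (nat_lit 0) (nat_lit 8027049429) (nat_lit 228) (nat_lit 46900766184) (nat_lit 76) (nat_lit 9858774682) (nat_lit 40) (nat_lit 5) (nat_lit 43) (nat_lit 5) (nat_lit 41) (nat_lit 5) (nat_lit 329) (nat_lit 299) (nat_lit 152))))))))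
noncomputable def xc210 : XT := (XT.nd (nat_lit 1482) (nat_lit 836) (nat_lit 0) (XT.nd (nat_lit 702) (nat_lit 608) (nat_lit 0) (XT.nd (nat_lit 312) (nat_lit 456) (nat_lit 0) (XT.nd (nat_lit 156) (nat_lit 152) (nat_lit 0) (XT.nd (nat_lit 78) (nat_lit 228) (nat_lit 0) (XT.lf (nat_lit 0) (nat_lit 17887029695) (nat_lit 228) (nat_lit 17936445970) (nat_lit 76) (nat_lit 31117016416) (nat_lit 40) (nat_lit 5) (nat_lit 43) (nat_lit 5) (nat_lit 41) (nat_lit 5) (nat_lit 330) (nat_lit 299) (nat_lit 151)) (XT.lf (nat_lit 0) (nat_lit 12886360924) (nat_lit 228) (nat_lit 15553289440) (nat_lit 304) (nat_lit 40752459226) (nat_lit 37) (nat_lit 5) (nat_lit 40) (nat_lit 5) (nat_lit 41) (nat_lit 5) (nat_lit 331) (nat_lit 299) (nat_lit 150))) (XT.nd (nat_lit 78) (nat_lit 152) (nat_lit 0) (XT.lf (nat_lit 0) (nat_lit 39916591711) (nat_lit 304) (nat_lit 25764752789) (nat_lit 76) (nat_lit 5855131566) (nat_lit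 37) (nat_lit 5) (nat_lit 41) (nat_lit 5) (nat_lit 38) (nat_lit 5) (nat_lit 332) (nat_lit 299) (nat_lit 149)) (XT.lf (nat_lit 0) (nat_lit 6246134726) (nat_lit 152) (nat_lit 46072289255) (nat_lit 228) (nat_lit 21662087146) (nat_lit 35) (nat_lit 5) (nat_lit 37) (nat_lit 5) (nat_lit 38) (nat_lit 5) (nat_lit 333) (nat_lit 299) (nat_lit 148)))) (XT.nd (nat_lit 156) (nat_lit 380) (nat_lit 0) (XT.nd (nat_lit 78) (nat_lit 76) (nat_lit 0) (XT.lf (nat_lit 0) (nat_lit 40749993036) (nat_lit 152) (nat_lit 25025282274) (nat_lit 228) (nat_lit 10749728593) (nat_lit 35) (nat_lit 5) (nat_lit 37) (nat_lit 5) (nat_lit 38) (nat_lit 5) (nat_lit 334) (nat_lit 299) (nat_lit 147)) (XT.lf (nat_lit 0) (nat_lit 684211433) (nat_lit 228) (nat_lit 2230751307) (nat_lit 76) (nat_lit 76281276216) (nat_lit 34) (nat_lit 5) (nat_lit 37) (nat_lit 5) (nat_lit 35) (nat_lit 5) (nat_lit 335) (nat_lit 299) (nat_lit 146))) (XT.nd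 (nat_lit 78) (nat_lit 152) (nat_lit 0) (XT.lf (nat_lit 0) (nat_lit 13185028027) (nat_lit 304) (nat_lit 48396831095) (nat_lit 76) (nat_lit 20367545356) (nat_lit 31) (nat_lit 5) (nat_lit 35) (nat_lit 5) (nat_lit 32) (nat_lit 5) (nat_lit 336) (nat_lit 299) (nat_lit 145)) (XT.nd (nat_lit 78) (nat_lit 152) (nat_lit 0) (XT.lf (nat_lit 0) (nat_lit 26395789832) (nat_lit 304) (nat_lit 13686179268) (nat_lit 76) (nat_lit 44754015878) (nat_lit 31) (nat_lit 5) (nat_lit 35) (nat_lit 5) (nat_lit 32) (nat_lit 5) (nat_lit 337) (nat_lit 299) (nat_lit 144)) (XT.lf (nat_lit 0) (nat_lit 23510639790) (nat_lit 152) (nat_lit 17122297795) (nat_lit 228) (nat_lit 47215666356) (nat_lit 29) (nat_lit 5) (nat_lit 31) (nat_lit 5) (nat_lit 32) (nat_lit 5) (nat_lit 338) (nat_lit 299) (nat_lit 143)))))) (XT.nd (nat_lit 390) (nat_lit 228) (nat_lit 0) (XT.nd (nat_lit 156) (nat_lit 228) (nat_lit 0) (XT.nd (nat_lit 78) (nat_lit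 152) (nat_lit 0) (XT.lf (nat_lit 0) (nat_lit 55925386094) (nat_lit 228) (nat_lit 28072546522) (nat_lit 76) (nat_lit 6996750811) (nat_lit 29) (nat_lit 5) (nat_lit 32) (nat_lit 5) (nat_lit 30) (nat_lit 5) (nat_lit 339) (nat_lit 299) (nat_lit 142)) (XT.lf (nat_lit 0) (nat_lit 10045171951) (nat_lit 152) (nat_lit 62373669473) (nat_lit 228) (nat_lit 21857407902) (nat_lit 27) (nat_lit 5) (nat_lit 29) (nat_lit 5) (nat_lit 30) (nat_lit 5) (nat_lit 340) (nat_lit 299) (nat_lit 141))) (XT.nd (nat_lit 78) (nat_lit 228) (nat_lit 0) (XT.lf (nat_lit 0) (nat_lit 51041635698) (nat_lit 152) (nat_lit 39169640667) (nat_lit 228) (nat_lit 7486903395) (nat_lit 27) (nat_lit 5) (nat_lit 29) (nat_lit 5) (nat_lit 30) (nat_lit 5) (nat_lit 341) (nat_lit 299) (nat_lit 140)) (XT.nd (nat_lit 78) (nat_lit 152) (nat_lit 0) (XT.lf (nat_lit 0) (nat_lit 7357729741) (nat_lit 228) (nat_lit 7323684215) (nat_lit 76) (nat_lit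 86603913723) (nat_lit 26) (nat_lit 5) (nat_lit 29) (nat_lit 5) (nat_lit 27) (nat_lit 5) (nat_lit 342) (nat_lit 299) (nat_lit 139)) (XT.lf (nat_lit 0) (nat_lit 23421128807) (nat_lit 228) (nat_lit 70230894955) (nat_lit 76) (nat_lit 11357266623) (nat_lit 24) (nat_lit 5) (nat_lit 27) (nat_lit 5) (nat_lit 25) (nat_lit 5) (nat_lit 343) (nat_lit 299) (nat_lit 138))))) (XT.nd (nat_lit 156) (nat_lit 76) (nat_lit 0) (XT.nd (nat_lit 78) (nat_lit 152) (nat_lit 0) (XT.lf (nat_lit 0) (nat_lit 40653425270) (nat_lit 228) (nat_lit 29917765311) (nat_lit 76) (nat_lit 38329975576) (nat_lit 24) (nat_lit 5) (nat_lit 27) (nat_lit 5) (nat_lit 25) (nat_lit 5) (nat_lit 344) (nat_lit 299) (nat_lit 137)) (XT.lf (nat_lit 0) (nat_lit 12819767503) (nat_lit 152) (nat_lit 46126754988) (nat_lit 228) (nat_lit 54031155167) (nat_lit 22) (nat_lit 5) (nat_lit 24) (nat_lit 5) (nat_lit 25) (nat_lit 5) (nat_lit 345) (nat_lit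 299) (nat_lit 136))) (XT.nd (nat_lit 78) (nat_lit 76) (nat_lit 0) (XT.lf (nat_lit 0) (nat_lit 58731313538) (nat_lit 152) (nat_lit 19928688277) (nat_lit 228) (nat_lit 38572727737) (nat_lit 22) (nat_lit 5) (nat_lit 24) (nat_lit 5) (nat_lit 25) (nat_lit 5) (nat_lit 346) (nat_lit 299) (nat_lit 135)) (XT.nd (nat_lit 78) (nat_lit 76) (nat_lit 0) (XT.lf (nat_lit 0) (nat_lit 99476580463) (nat_lit 228) (nat_lit 14881935546) (nat_lit 76) (nat_lit 7336147887) (nat_lit 22) (nat_lit 5) (nat_lit 25) (nat_lit 5) (nat_lit 23) (nat_lit 4) (nat_lit 347) (nat_lit 299) (nat_lit 134)) (XT.lf (nat_lit 0) (nat_lit 31601842550) (nat_lit 76) (nat_lit 90551373414) (nat_lit 152) (nat_lit 4185518668) (nat_lit 21) (nat_lit 5) (nat_lit 22) (nat_lit 5) (nat_lit 23) (nat_lit 4) (nat_lit 348) (nat_lit 299) (nat_lit 133))))))) (XT.nd (nat_lit 780) (nat_lit 304) (nat_lit 0) (XT.nd (nat_lit 390) (nat_lit 228) (nat_lit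 0) (XT.nd (nat_lit 156) (nat_lit 228) (nat_lit 0) (XT.nd (nat_lit 78) (nat_lit 0) (nat_lit 0) (XT.lf (nat_lit 0) (nat_lit 14531928236) (nat_lit 152) (nat_lit 50511769569) (nat_lit 76) (nat_lit 66147033483) (nat_lit 20) (nat_lit 5) (nat_lit 22) (nat_lit 5) (nat_lit 21) (nat_lit 5) (nat_lit 349) (nat_lit 299) (nat_lit 132)) (XT.lf (nat_lit 0) (nat_lit 34043766728) (nat_lit 152) (nat_lit 4145376685) (nat_lit 76) (nat_lit 98092795530) (nat_lit 20) (nat_lit 5) (nat_lit 22) (nat_lit 5) (nat_lit 21) (nat_lit 5) (nat_lit 350) (nat_lit 299) (nat_lit 131))) (XT.nd (nat_lit 78) (nat_lit 76) (nat_lit 0) (XT.lf (nat_lit 0) (nat_lit 46010658845) (nat_lit 152) (nat_lit 9238112787) (nat_lit 228) (nat_lit 86343057504) (nat_lit 18) (nat_lit 5) (nat_lit 20) (nat_lit 5) (nat_lit 21) (nat_lit 5) (nat_lit 351) (nat_lit 299) (nat_lit 130)) (XT.nd (nat_lit 78) (nat_lit 76) (nat_lit 0) (XT.lf (nat_lit 0) (nat_lit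 77914984016) (nat_lit 228) (nat_lit 48678129749) (nat_lit 76) (nat_lit 20554053052) (nat_lit 18) (nat_lit 5) (nat_lit 21) (nat_lit 5) (nat_lit 19) (nat_lit 4) (nat_lit 352) (nat_lit 299) (nat_lit 129)) (XT.lf (nat_lit 0) (nat_lit 431165713) (nat_lit 76) (nat_lit 101440782395) (nat_lit 152) (nat_lit 51100452015) (nat_lit 17) (nat_lit 5) (nat_lit 18) (nat_lit 5) (nat_lit 19) (nat_lit 4) (nat_lit 353) (nat_lit 299) (nat_lit 128))))) (XT.nd (nat_lit 156) (nat_lit 228) (nat_lit 0) (XT.nd (nat_lit 78) (nat_lit 0) (nat_lit 0) (XT.lf (nat_lit 0) (nat_lit 53684688268) (nat_lit 76) (nat_lit 74165740495) (nat_lit 152) (nat_lit 31197283675) (nat_lit 17) (nat_lit 5) (nat_lit 18) (nat_lit 5) (nat_lit 19) (nat_lit 4) (nat_lit 354) (nat_lit 299) (nat_lit 127)) (XT.lf (nat_lit 0) (nat_lit 109599713210) (nat_lit 76) (nat_lit 45527435171) (nat_lit 152) (nat_lit 10299676966) (nat_lit 17) (nat_lit 5) (nat_lit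 18) (nat_lit 5) (nat_lit 19) (nat_lit 4) (nat_lit 355) (nat_lit 299) (nat_lit 126))) (XT.nd (nat_lit 78) (nat_lit 152) (nat_lit 0) (XT.lf (nat_lit 0) (nat_lit 11269503633) (nat_lit 152) (nat_lit 3997321851) (nat_lit 76) (nat_lit 156849013421) (nat_lit 16) (nat_lit 5) (nat_lit 18) (nat_lit 5) (nat_lit 17) (nat_lit 5) (nat_lit 356) (nat_lit 299) (nat_lit 125)) (XT.nd (nat_lit 78) (nat_lit 0) (nat_lit 0) (XT.lf (nat_lit 0) (nat_lit 34654689383) (nat_lit 228) (nat_lit 127448482153) (nat_lit 76) (nat_lit 16973505732) (nat_lit 14) (nat_lit 5) (nat_lit 17) (nat_lit 5) (nat_lit 15) (nat_lit 4) (nat_lit 357) (nat_lit 299) (nat_lit 124)) (XT.lf (nat_lit 0) (nat_lit 59527590803) (nat_lit 228) (nat_lit 76460885547) (nat_lit 76) (nat_lit 50381158974) (nat_lit 14) (nat_lit 5) (nat_lit 17) (nat_lit 5) (nat_lit 15) (nat_lit 4) (nat_lit 358) (nat_lit 299) (nat_lit 123)))))) (XT.nd (nat_lit 390) (nat_lit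 228) (nat_lit 0) (XT.nd (nat_lit 156) (nat_lit 0) (nat_lit 0) (XT.nd (nat_lit 78) (nat_lit 76) (nat_lit 0) (XT.lf (nat_lit 0) (nat_lit 85643541291) (nat_lit 228) (nat_lit 22924950195) (nat_lit 76) (nat_lit 85458780164) (nat_lit 14) (nat_lit 5) (nat_lit 17) (nat_lit 5) (nat_lit 15) (nat_lit 4) (nat_lit 359) (nat_lit 299) (nat_lit 122)) (XT.lf (nat_lit 0) (nat_lit 34387402031) (nat_lit 76) (nat_lit 79214203366) (nat_lit 152) (nat_lit 88439369133) (nat_lit 13) (nat_lit 5) (nat_lit 14) (nat_lit 5) (nat_lit 15) (nat_lit 4) (nat_lit 360) (nat_lit 299) (nat_lit 121))) (XT.nd (nat_lit 78) (nat_lit 0) (nat_lit 0) (XT.lf (nat_lit 0) (nat_lit 95360298858) (nat_lit 76) (nat_lit 47984963151) (nat_lit 152) (nat_lit 67090716594) (nat_lit 13) (nat_lit 5) (nat_lit 14) (nat_lit 5) (nat_lit 15) (nat_lit 4) (nat_lit 361) (nat_lit 299) (nat_lit 120)) (XT.nd (nat_lit 78) (nat_lit 0) (nat_lit 0) (XT.lf (nat_lit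 0) (nat_lit 159380911461) (nat_lit 76) (nat_lit 15194660635) (nat_lit 152) (nat_lit 44675187742) (nat_lit 13) (nat_lit 5) (nat_lit 14) (nat_lit 5) (nat_lit 15) (nat_lit 4) (nat_lit 362) (nat_lit 299) (nat_lit 119)) (XT.lf (nat_lit 0) (nat_lit 207667202303) (nat_lit 152) (nat_lit 2204944701) (nat_lit 0) (nat_lit 18619143366) (nat_lit 13) (nat_lit 5) (nat_lit 15) (nat_lit 4) (nat_lit 13) (nat_lit 4) (nat_lit 363) (nat_lit 299) (nat_lit 118))))) (XT.nd (nat_lit 156) (nat_lit 76) (nat_lit 0) (XT.nd (nat_lit 78) (nat_lit 0) (nat_lit 0) (XT.lf (nat_lit 0) (nat_lit 5289544555) (nat_lit 152) (nat_lit 178205808286) (nat_lit 76) (nat_lit 54634949525) (nat_lit 11) (nat_lit 5) (nat_lit 13) (nat_lit 5) (nat_lit 12) (nat_lit 4) (nat_lit 364) (nat_lit 299) (nat_lit 117)) (XT.lf (nat_lit 0) (nat_lit 32046502753) (nat_lit 152) (nat_lit 123355297018) (nat_lit 76) (nat_lit 92830523179) (nat_lit 11) (nat_lit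 5) (nat_lit 13) (nat_lit 5) (nat_lit 12) (nat_lit 4) (nat_lit 365) (nat_lit 299) (nat_lit 116))) (XT.nd (nat_lit 78) (nat_lit 76) (nat_lit 0) (XT.lf (nat_lit 0) (nat_lit 60140847801) (nat_lit 152) (nat_lit 65763083038) (nat_lit 76) (nat_lit 132935537159) (nat_lit 11) (nat_lit 5) (nat_lit 13) (nat_lit 5) (nat_lit 12) (nat_lit 4) (nat_lit 366) (nat_lit 299) (nat_lit 115)) (XT.nd (nat_lit 78) (nat_lit 76) (nat_lit 0) (XT.lf (nat_lit 0) (nat_lit 89639470997) (nat_lit 152) (nat_lit 5292042029) (nat_lit 76) (nat_lit 175045479595) (nat_lit 11) (nat_lit 5) (nat_lit 13) (nat_lit 5) (nat_lit 12) (nat_lit 4) (nat_lit 367) (nat_lit 299) (nat_lit 114)) (XT.lf (nat_lit 0) (nat_lit 60126219187) (nat_lit 76) (nat_lit 61425126755) (nat_lit 152) (nat_lit 160073131852) (nat_lit 10) (nat_lit 5) (nat_lit 11) (nat_lit 5) (nat_lit 12) (nat_lit 4) (nat_lit 368) (nat_lit 299) (nat_lit 113))))))))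
noncomputable def xc211 : XT := (XT.nd (nat_lit 36114) (nat_lit 0) (nat_lit 2432) (XT.nd (nat_lit 35334) (nat_lit 0) (nat_lit 5548) (XT.nd (nat_lit 312) (nat_lit 76) (nat_lit 0) (XT.nd (nat_lit 156) (nat_lit 76) (nat_lit 0) (XT.nd (nat_lit 78) (nat_lit 0) (nat_lit 0) (XT.lf (nat_lit 0) (nat_lit 128998386901) (nat_lit 76) (nat_lit 26149641280) (nat_lit 152) (nat_lit 138701848698) (nat_lit 10) (nat_lit 5) (nat_lit 11) (nat_lit 5) (nat_lit 12) (nat_lit 4) (nat_lit 369) (nat_lit 299) (nat_lit 112)) (XT.lf (nat_lit 0) (nat_lit 190594166935) (nat_lit 152) (nat_lit 105543114728) (nat_lit 0) (nat_lit 10540783450) (nat_lit 10) (nat_lit 5) (nat_lit 12) (nat_lit 4) (nat_lit 10) (nat_lit 4) (nat_lit 370) (nat_lit 299) (nat_lit 111))) (XT.nd (nat_lit 78) (nat_lit 76) (nat_lit 0) (XT.lf (nat_lit 0) (nat_lit 228240919023) (nat_lit 152) (nat_lit 43698683692) (nat_lit 0) (nat_lit 48186645028) (nat_lit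 10) (nat_lit 5) (nat_lit 12) (nat_lit 4) (nat_lit 10) (nat_lit 4) (nat_lit 371) (nat_lit 299) (nat_lit 110)) (XT.lf (nat_lit 0) (nat_lit 21939522703) (nat_lit 76) (nat_lit 246172665115) (nat_lit 76) (nat_lit 66117543015) (nat_lit 9) (nat_lit 4) (nat_lit 10) (nat_lit 5) (nat_lit 10) (nat_lit 4) (nat_lit 372) (nat_lit 299) (nat_lit 109)))) (XT.nd (nat_lit 156) (nat_lit 76) (nat_lit 0) (XT.nd (nat_lit 78) (nat_lit 0) (nat_lit 0) (XT.lf (nat_lit 0) (nat_lit 92376121558) (nat_lit 76) (nat_lit 218340605628) (nat_lit 76) (nat_lit 38284675809) (nat_lit 9) (nat_lit 4) (nat_lit 10) (nat_lit 5) (nat_lit 10) (nat_lit 4) (nat_lit 373) (nat_lit 299) (nat_lit 108)) (XT.lf (nat_lit 0) (nat_lit 166333943227) (nat_lit 76) (nat_lit 189117215799) (nat_lit 76) (nat_lit 9060516724) (nat_lit 9) (nat_lit 4) (nat_lit 10) (nat_lit 5) (nat_lit 10) (nat_lit 4) (nat_lit 374) (nat_lit 299) (nat_lit 107))) (XT.nd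 (nat_lit 78) (nat_lit 0) (nat_lit 0) (XT.lf (nat_lit 0) (nat_lit 20932396025) (nat_lit 152) (nat_lit 137146019846) (nat_lit 76) (nat_lit 222702181482) (nat_lit 8) (nat_lit 5) (nat_lit 10) (nat_lit 5) (nat_lit 9) (nat_lit 4) (nat_lit 375) (nat_lit 299) (nat_lit 106)) (XT.nd (nat_lit 34710) (nat_lit 0) (nat_lit 5548) (XT.lf (nat_lit 0) (nat_lit 52120153038) (nat_lit 152) (nat_lit 73211815707) (nat_lit 76) (nat_lit 272523585293) (nat_lit 8) (nat_lit 5) (nat_lit 10) (nat_lit 5) (nat_lit 9) (nat_lit 4) (nat_lit 376) (nat_lit 299) (nat_lit 105)) (XT.lf (nat_lit 0) (nat_lit 4442268925) (nat_lit 0) (nat_lit 4442268925) (nat_lit 684) (nat_lit 5561037289) (nat_lit 81) (nat_lit 5) (nat_lit 81) (nat_lit 3) (nat_lit 90) (nat_lit 3) (nat_lit 300) (nat_lit 300) (nat_lit 180)))))) (XT.nd (nat_lit 390) (nat_lit 0) (nat_lit 152) (XT.nd (nat_lit 156) (nat_lit 0) (nat_lit 76) (XT.nd (nat_lit 78) (nat_lit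 0) (nat_lit 0) (XT.lf (nat_lit 0) (nat_lit 18348956505) (nat_lit 684) (nat_lit 7360457563) (nat_lit 760) (nat_lit 3897040598) (nat_lit 81) (nat_lit 5) (nat_lit 90) (nat_lit 3) (nat_lit 91) (nat_lit 5) (nat_lit 301) (nat_lit 300) (nat_lit 179)) (XT.lf (nat_lit 76) (nat_lit 5960519067) (nat_lit 0) (nat_lit 13231397220) (nat_lit 760) (nat_lit 11153916008) (nat_lit 82) (nat_lit 5) (nat_lit 81) (nat_lit 5) (nat_lit 91) (nat_lit 5) (nat_lit 302) (nat_lit 300) (nat_lit 178))) (XT.nd (nat_lit 78) (nat_lit 0) (nat_lit 0) (XT.lf (nat_lit 0) (nat_lit 20197284607) (nat_lit 684) (nat_lit 10915717768) (nat_lit 760) (nat_lit 3175089) (nat_lit 82) (nat_lit 5) (nat_lit 91) (nat_lit 5) (nat_lit 92) (nat_lit 5) (nat_lit 303) (nat_lit 300) (nat_lit 177)) (XT.nd (nat_lit 78) (nat_lit 0) (nat_lit 0) (XT.lf (nat_lit 76) (nat_lit 3107201400) (nat_lit 0) (nat_lit 18406936104) (nat_lit 760) (nat_lit 10397852707)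 (nat_lit 83) (nat_lit 5) (nat_lit 82) (nat_lit 5) (nat_lit 92) (nat_lit 5) (nat_lit 304) (nat_lit 300) (nat_lit 176)) (XT.lf (nat_lit 76) (nat_lit 18207581348) (nat_lit 0) (nat_lit 4870069305) (nat_lit 760) (nat_lit 9660912661) (nat_lit 83) (nat_lit 5) (nat_lit 82) (nat_lit 5) (nat_lit 92) (nat_lit 5) (nat_lit 305) (nat_lit 300) (nat_lit 175))))) (XT.nd (nat_lit 156) (nat_lit 0) (nat_lit 76) (XT.nd (nat_lit 78) (nat_lit 0) (nat_lit 0) (XT.lf (nat_lit 76) (nat_lit 318063548) (nat_lit 0) (nat_lit 24548290161) (nat_lit 760) (nat_lit 8732770746) (nat_lit 84) (nat_lit 5) (nat_lit 83) (nat_lit 5) (nat_lit 93) (nat_lit 5) (nat_lit 306) (nat_lit 300) (nat_lit 174)) (XT.lf (nat_lit 76) (nat_lit 16328860343) (nat_lit 0) (nat_lit 10736578471) (nat_lit 760) (nat_lit 7421237106) (nat_lit 84) (nat_lit 5) (nat_lit 83) (nat_lit 5) (nat_lit 93) (nat_lit 5) (nat_lit 307) (nat_lit 300) (nat_lit 173)))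 (XT.nd (nat_lit 78) (nat_lit 0) (nat_lit 0) (XT.lf (nat_lit 0) (nat_lit 29429770227) (nat_lit 684) (nat_lit 2339979006) (nat_lit 760) (nat_lit 3646100280) (nat_lit 84) (nat_lit 5) (nat_lit 93) (nat_lit 5) (nat_lit 94) (nat_lit 5) (nat_lit 308) (nat_lit 300) (nat_lit 172)) (XT.nd (nat_lit 78) (nat_lit 0) (nat_lit 0) (XT.lf (nat_lit 76) (nat_lit 14555976737) (nat_lit 0) (nat_lit 17756275904) (nat_lit 760) (nat_lit 4059241141) (nat_lit 85) (nat_lit 5) (nat_lit 84) (nat_lit 5) (nat_lit 94) (nat_lit 5) (nat_lit 309) (nat_lit 300) (nat_lit 171)) (XT.lf (nat_lit 76) (nat_lit 32375366389) (nat_lit 0) (nat_lit 2999904982) (nat_lit 760) (nat_lit 1997836590) (nat_lit 85) (nat_lit 5) (nat_lit 84) (nat_lit 5) (nat_lit 94) (nat_lit 5) (nat_lit 310) (nat_lit 300) (nat_lit 170))))))) (XT.nd (nat_lit 780) (nat_lit 1292) (nat_lit 0) (XT.nd (nat_lit 390) (nat_lit 608) (nat_lit 0) (XT.nd (nat_lit 156)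 (nat_lit 760) (nat_lit 0) (XT.nd (nat_lit 78) (nat_lit 0) (nat_lit 0) (XT.lf (nat_lit 0) (nat_lit 560776291) (nat_lit 760) (nat_lit 25538911016) (nat_lit 76) (nat_lit 12305019412) (nat_lit 75) (nat_lit 5) (nat_lit 85) (nat_lit 5) (nat_lit 76) (nat_lit 5) (nat_lit 311) (nat_lit 300) (nat_lit 169)) (XT.lf (nat_lit 0) (nat_lit 3312379791) (nat_lit 760) (nat_lit 7773663769) (nat_lit 76) (nat_lit 28393601437) (nat_lit 75) (nat_lit 5) (nat_lit 85) (nat_lit 5) (nat_lit 76) (nat_lit 5) (nat_lit 312) (nat_lit 300) (nat_lit 168))) (XT.nd (nat_lit 78) (nat_lit 380) (nat_lit 0) (XT.lf (nat_lit 0) (nat_lit 6450062700) (nat_lit 456) (nat_lit 29438715954) (nat_lit 76) (nat_lit 4707133406) (nat_lit 70) (nat_lit 5) (nat_lit 76) (nat_lit 5) (nat_lit 71) (nat_lit 5) (nat_lit 313) (nat_lit 300) (nat_lit 167)) (XT.nd (nat_lit 78) (nat_lit 380) (nat_lit 0) (XT.lf (nat_lit 0) (nat_lit 10057415242) (nat_lit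 456) (nat_lit 10643513697) (nat_lit 76) (nat_lit 21051430769) (nat_lit 70) (nat_lit 5) (nat_lit 76) (nat_lit 5) (nat_lit 71) (nat_lit 5) (nat_lit 314) (nat_lit 300) (nat_lit 166)) (XT.lf (nat_lit 0) (nat_lit 9389406253) (nat_lit 380) (nat_lit 4599693724) (nat_lit 456) (nat_lit 28970337730) (nat_lit 65) (nat_lit 5) (nat_lit 70) (nat_lit 5) (nat_lit 71) (nat_lit 5) (nat_lit 315) (nat_lit 300) (nat_lit 165))))) (XT.nd (nat_lit 156) (nat_lit 304) (nat_lit 0) (XT.nd (nat_lit 78) (nat_lit 304) (nat_lit 0) (XT.lf (nat_lit 0) (nat_lit 18490173432) (nat_lit 456) (nat_lit 13622115755) (nat_lit 76) (nat_lit 12095946099) (nat_lit 65) (nat_lit 5) (nat_lit 71) (nat_lit 5) (nat_lit 66) (nat_lit 5) (nat_lit 316) (nat_lit 300) (nat_lit 164)) (XT.lf (nat_lit 0) (nat_lit 7484824195) (nat_lit 304) (nat_lit 15921317300) (nat_lit 380) (nat_lit 22103844820) (nat_lit 61) (nat_lit 5) (nat_lit 65) (nat_lit 5)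 (nat_lit 66) (nat_lit 5) (nat_lit 317) (nat_lit 300) (nat_lit 163))) (XT.nd (nat_lit 78) (nat_lit 304) (nat_lit 0) (XT.lf (nat_lit 0) (nat_lit 28816887783) (nat_lit 380) (nat_lit 16768488650) (nat_lit 76) (nat_lit 1279004826) (nat_lit 61) (nat_lit 5) (nat_lit 66) (nat_lit 5) (nat_lit 62) (nat_lit 5) (nat_lit 318) (nat_lit 300) (nat_lit 162)) (XT.nd (nat_lit 78) (nat_lit 0) (nat_lit 0) (XT.lf (nat_lit 0) (nat_lit 5462359535) (nat_lit 304) (nat_lit 29379863023) (nat_lit 380) (nat_lit 13427075932) (nat_lit 57) (nat_lit 5) (nat_lit 61) (nat_lit 5) (nat_lit 62) (nat_lit 5) (nat_lit 319) (nat_lit 300) (nat_lit 161)) (XT.lf (nat_lit 0) (nat_lit 29384470872) (nat_lit 304) (nat_lit 12066167267) (nat_lit 380) (nat_lit 8279737595) (nat_lit 57) (nat_lit 5) (nat_lit 61) (nat_lit 5) (nat_lit 62) (nat_lit 5) (nat_lit 320) (nat_lit 300) (nat_lit 160)))))) (XT.nd (nat_lit 390) (nat_lit 684) (nat_lit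 0) (XT.nd (nat_lit 156) (nat_lit 304) (nat_lit 0) (XT.nd (nat_lit 78) (nat_lit 76) (nat_lit 0) (XT.lf (nat_lit 0) (nat_lit 3244138467) (nat_lit 228) (nat_lit 45289361283) (nat_lit 304) (nat_lit 2723810452) (nat_lit 54) (nat_lit 5) (nat_lit 57) (nat_lit 5) (nat_lit 58) (nat_lit 5) (nat_lit 321) (nat_lit 300) (nat_lit 159)) (XT.lf (nat_lit 0) (nat_lit 3556353605) (nat_lit 304) (nat_lit 24377787677) (nat_lit 76) (nat_lit 24896727723) (nat_lit 53) (nat_lit 5) (nat_lit 57) (nat_lit 5) (nat_lit 54) (nat_lit 5) (nat_lit 322) (nat_lit 300) (nat_lit 158))) (XT.nd (nat_lit 78) (nat_lit 0) (nat_lit 0) (XT.lf (nat_lit 0) (nat_lit 405340298) (nat_lit 304) (nat_lit 9658028345) (nat_lit 380) (nat_lit 44417289435) (nat_lit 49) (nat_lit 5) (nat_lit 53) (nat_lit 5) (nat_lit 54) (nat_lit 5) (nat_lit 323) (nat_lit 300) (nat_lit 157)) (XT.nd (nat_lit 78) (nat_lit 0) (nat_lit 0) (XT.lf (nat_lit 0) (nat_lit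 17462273986) (nat_lit 380) (nat_lit 29076315337) (nat_lit 76) (nat_lit 9646024108) (nat_lit 49) (nat_lit 5) (nat_lit 54) (nat_lit 5) (nat_lit 50) (nat_lit 5) (nat_lit 324) (nat_lit 300) (nat_lit 156)) (XT.lf (nat_lit 0) (nat_lit 25387645668) (nat_lit 380) (nat_lit 2987976898) (nat_lit 76) (nat_lit 29590321556) (nat_lit 49) (nat_lit 5) (nat_lit 54) (nat_lit 5) (nat_lit 50) (nat_lit 5) (nat_lit 325) (nat_lit 300) (nat_lit 155))))) (XT.nd (nat_lit 156) (nat_lit 456) (nat_lit 0) (XT.nd (nat_lit 78) (nat_lit 0) (nat_lit 0) (XT.lf (nat_lit 0) (nat_lit 25209461729) (nat_lit 228) (nat_lit 8891693351) (nat_lit 304) (nat_lit 25715596262) (nat_lit 46) (nat_lit 5) (nat_lit 49) (nat_lit 5) (nat_lit 50) (nat_lit 5) (nat_lit 326) (nat_lit 300) (nat_lit 154)) (XT.lf (nat_lit 0) (nat_lit 43480676771) (nat_lit 304) (nat_lit 7020696088) (nat_lit 76) (nat_lit 11247212507) (nat_lit 46) (nat_lit 5) (nat_lit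 50) (nat_lit 5) (nat_lit 47) (nat_lit 5) (nat_lit 327) (nat_lit 300) (nat_lit 153))) (XT.nd (nat_lit 78) (nat_lit 228) (nat_lit 0) (XT.lf (nat_lit 0) (nat_lit 22518064699) (nat_lit 228) (nat_lit 31306845405) (nat_lit 304) (nat_lit 9927317342) (nat_lit 43) (nat_lit 5) (nat_lit 46) (nat_lit 5) (nat_lit 47) (nat_lit 5) (nat_lit 328) (nat_lit 300) (nat_lit 152)) (XT.nd (nat_lit 78) (nat_lit 228) (nat_lit 0) (XT.lf (nat_lit 0) (nat_lit 53775424717) (nat_lit 228) (nat_lit 11028272959) (nat_lit 304) (nat_lit 1046489804) (nat_lit 43) (nat_lit 5) (nat_lit 46) (nat_lit 5) (nat_lit 47) (nat_lit 5) (nat_lit 329) (nat_lit 300) (nat_lit 151)) (XT.lf (nat_lit 0) (nat_lit 8476098996) (nat_lit 228) (nat_lit 49178960527) (nat_lit 76) (nat_lit 10368392278) (nat_lit 40) (nat_lit 5) (nat_lit 43) (nat_lit 5) (nat_lit 41) (nat_lit 5) (nat_lit 330) (nat_lit 300) (nat_lit 150))))))))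
noncomputable def xc212 : XT := (XT.nd (nat_lit 1482) (nat_lit 836) (nat_lit 0) (XT.nd (nat_lit 702) (nat_lit 608) (nat_lit 0) (XT.nd (nat_lit 312) (nat_lit 456) (nat_lit 0) (XT.nd (nat_lit 156) (nat_lit 152) (nat_lit 0) (XT.nd (nat_lit 78) (nat_lit 228) (nat_lit 0) (XT.lf (nat_lit 0) (nat_lit 18826806984) (nat_lit 228) (nat_lit 18769607347) (nat_lit 76) (nat_lit 32688751867) (nat_lit 40) (nat_lit 5) (nat_lit 43) (nat_lit 5) (nat_lit 41) (nat_lit 5) (nat_lit 331) (nat_lit 300) (nat_lit 149)) (XT.lf (nat_lit 0) (nat_lit 13593313102) (nat_lit 228) (nat_lit 16312560345) (nat_lit 304) (nat_lit 42743554169) (nat_lit 37) (nat_lit 5) (nat_lit 40) (nat_lit 5) (nat_lit 41) (nat_lit 5) (nat_lit 332) (nat_lit 300) (nat_lit 148))) (XT.nd (nat_lit 78) (nat_lit 152) (nat_lit 0) (XT.lf (nat_lit 0) (nat_lit 41954828668) (nat_lit 304) (nat_lit 26991433848) (nat_lit 76) (nat_lit 6164845152) (nat_lit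 37) (nat_lit 5) (nat_lit 41) (nat_lit 5) (nat_lit 38) (nat_lit 5) (nat_lit 333) (nat_lit 300) (nat_lit 147)) (XT.lf (nat_lit 0) (nat_lit 6619005195) (nat_lit 152) (nat_lit 48356673528) (nat_lit 228) (nat_lit 22701722871) (nat_lit 35) (nat_lit 5) (nat_lit 37) (nat_lit 5) (nat_lit 38) (nat_lit 5) (nat_lit 334) (nat_lit 300) (nat_lit 146)))) (XT.nd (nat_lit 156) (nat_lit 380) (nat_lit 0) (XT.nd (nat_lit 78) (nat_lit 76) (nat_lit 0) (XT.lf (nat_lit 0) (nat_lit 42845172434) (nat_lit 152) (nat_lit 26258231921) (nat_lit 228) (nat_lit 11245816325) (nat_lit 35) (nat_lit 5) (nat_lit 37) (nat_lit 5) (nat_lit 38) (nat_lit 5) (nat_lit 335) (nat_lit 300) (nat_lit 145)) (XT.lf (nat_lit 0) (nat_lit 756587415) (nat_lit 228) (nat_lit 2286034763) (nat_lit 76) (nat_lit 80111461358) (nat_lit 34) (nat_lit 5) (nat_lit 37) (nat_lit 5) (nat_lit 35) (nat_lit 5) (nat_lit 336) (nat_lit 300) (nat_lit 144))) (XT.nd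 (nat_lit 78) (nat_lit 152) (nat_lit 0) (XT.lf (nat_lit 0) (nat_lit 13881774689) (nat_lit 304) (nat_lit 50759692108) (nat_lit 76) (nat_lit 21403476858) (nat_lit 31) (nat_lit 5) (nat_lit 35) (nat_lit 5) (nat_lit 32) (nat_lit 5) (nat_lit 337) (nat_lit 300) (nat_lit 143)) (XT.nd (nat_lit 78) (nat_lit 152) (nat_lit 0) (XT.lf (nat_lit 0) (nat_lit 27751289096) (nat_lit 304) (nat_lit 14316221050) (nat_lit 76) (nat_lit 47008434990) (nat_lit 31) (nat_lit 5) (nat_lit 35) (nat_lit 5) (nat_lit 32) (nat_lit 5) (nat_lit 338) (nat_lit 300) (nat_lit 142)) (XT.lf (nat_lit 0) (nat_lit 24739563684) (nat_lit 152) (nat_lit 17959863684) (nat_lit 228) (nat_lit 49539813574) (nat_lit 29) (nat_lit 5) (nat_lit 31) (nat_lit 5) (nat_lit 32) (nat_lit 5) (nat_lit 339) (nat_lit 300) (nat_lit 141)))))) (XT.nd (nat_lit 390) (nat_lit 228) (nat_lit 0) (XT.nd (nat_lit 156) (nat_lit 228) (nat_lit 0) (XT.nd (nat_lit 78) (nat_lit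 152) (nat_lit 0) (XT.lf (nat_lit 0) (nat_lit 58755114928) (nat_lit 228) (nat_lit 29423892421) (nat_lit 76) (nat_lit 7363688653) (nat_lit 29) (nat_lit 5) (nat_lit 32) (nat_lit 5) (nat_lit 30) (nat_lit 5) (nat_lit 340) (nat_lit 300) (nat_lit 140)) (XT.lf (nat_lit 0) (nat_lit 10598868727) (nat_lit 152) (nat_lit 65473584081) (nat_lit 228) (nat_lit 22915929215) (nat_lit 27) (nat_lit 5) (nat_lit 29) (nat_lit 5) (nat_lit 30) (nat_lit 5) (nat_lit 341) (nat_lit 300) (nat_lit 139))) (XT.nd (nat_lit 78) (nat_lit 228) (nat_lit 0) (XT.lf (nat_lit 0) (nat_lit 53642706224) (nat_lit 152) (nat_lit 41110247590) (nat_lit 228) (nat_lit 7828535153) (nat_lit 27) (nat_lit 5) (nat_lit 29) (nat_lit 5) (nat_lit 30) (nat_lit 5) (nat_lit 342) (nat_lit 300) (nat_lit 138)) (XT.nd (nat_lit 78) (nat_lit 152) (nat_lit 0) (XT.lf (nat_lit 0) (nat_lit 7755774683) (nat_lit 228) (nat_lit 7642175307) (nat_lit 76) (nat_lit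 90950096149) (nat_lit 26) (nat_lit 5) (nat_lit 29) (nat_lit 5) (nat_lit 27) (nat_lit 5) (nat_lit 343) (nat_lit 300) (nat_lit 137)) (XT.lf (nat_lit 0) (nat_lit 24621912938) (nat_lit 228) (nat_lit 73694277725) (nat_lit 76) (nat_lit 11942039763) (nat_lit 24) (nat_lit 5) (nat_lit 27) (nat_lit 5) (nat_lit 25) (nat_lit 5) (nat_lit 344) (nat_lit 300) (nat_lit 136))))) (XT.nd (nat_lit 156) (nat_lit 76) (nat_lit 0) (XT.nd (nat_lit 78) (nat_lit 152) (nat_lit 0) (XT.lf (nat_lit 0) (nat_lit 42714408620) (nat_lit 228) (nat_lit 31367785026) (nat_lit 76) (nat_lit 40262578934) (nat_lit 24) (nat_lit 5) (nat_lit 27) (nat_lit 5) (nat_lit 25) (nat_lit 5) (nat_lit 345) (nat_lit 300) (nat_lit 135)) (XT.lf (nat_lit 0) (nat_lit 13505884613) (nat_lit 152) (nat_lit 48415632480) (nat_lit 228) (nat_lit 56703626471) (nat_lit 22) (nat_lit 5) (nat_lit 24) (nat_lit 5) (nat_lit 25) (nat_lit 5) (nat_lit 346) (nat_lit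 300) (nat_lit 134))) (XT.nd (nat_lit 78) (nat_lit 76) (nat_lit 0) (XT.lf (nat_lit 0) (nat_lit 61710858963) (nat_lit 152) (nat_lit 20908493875) (nat_lit 228) (nat_lit 40473662738) (nat_lit 22) (nat_lit 5) (nat_lit 24) (nat_lit 5) (nat_lit 25) (nat_lit 5) (nat_lit 347) (nat_lit 300) (nat_lit 133)) (XT.nd (nat_lit 78) (nat_lit 76) (nat_lit 0) (XT.lf (nat_lit 0) (nat_lit 104475752871) (nat_lit 228) (nat_lit 15584060343) (nat_lit 76) (nat_lit 7718285367) (nat_lit 22) (nat_lit 5) (nat_lit 25) (nat_lit 5) (nat_lit 23) (nat_lit 4) (nat_lit 348) (nat_lit 300) (nat_lit 132)) (XT.lf (nat_lit 0) (nat_lit 33223229690) (nat_lit 76) (nat_lit 95062428360) (nat_lit 152) (nat_lit 4368744401) (nat_lit 21) (nat_lit 5) (nat_lit 22) (nat_lit 5) (nat_lit 23) (nat_lit 4) (nat_lit 349) (nat_lit 300) (nat_lit 131))))))) (XT.nd (nat_lit 780) (nat_lit 304) (nat_lit 0) (XT.nd (nat_lit 390) (nat_lit 228) (nat_lit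 0) (XT.nd (nat_lit 156) (nat_lit 228) (nat_lit 0) (XT.nd (nat_lit 78) (nat_lit 0) (nat_lit 0) (XT.lf (nat_lit 0) (nat_lit 15282540296) (nat_lit 152) (nat_lit 52997208325) (nat_lit 76) (nat_lit 69469291376) (nat_lit 20) (nat_lit 5) (nat_lit 22) (nat_lit 5) (nat_lit 21) (nat_lit 5) (nat_lit 350) (nat_lit 300) (nat_lit 130)) (XT.lf (nat_lit 0) (nat_lit 35768827111) (nat_lit 152) (nat_lit 4314407688) (nat_lit 76) (nat_lit 103011631705) (nat_lit 20) (nat_lit 5) (nat_lit 22) (nat_lit 5) (nat_lit 21) (nat_lit 5) (nat_lit 351) (nat_lit 300) (nat_lit 129))) (XT.nd (nat_lit 78) (nat_lit 76) (nat_lit 0) (XT.lf (nat_lit 0) (nat_lit 48348812879) (nat_lit 152) (nat_lit 9684767607) (nat_lit 228) (nat_lit 90636697038) (nat_lit 18) (nat_lit 5) (nat_lit 20) (nat_lit 5) (nat_lit 21) (nat_lit 5) (nat_lit 352) (nat_lit 300) (nat_lit 128)) (XT.nd (nat_lit 78) (nat_lit 76) (nat_lit 0) (XT.lf (nat_lit 0) (nat_lit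 81832265007) (nat_lit 228) (nat_lit 51075344757) (nat_lit 76) (nat_lit 21595815417) (nat_lit 18) (nat_lit 5) (nat_lit 21) (nat_lit 5) (nat_lit 19) (nat_lit 4) (nat_lit 353) (nat_lit 300) (nat_lit 127)) (XT.lf (nat_lit 0) (nat_lit 488823680) (nat_lit 76) (nat_lit 106497791918) (nat_lit 152) (nat_lit 53633328755) (nat_lit 17) (nat_lit 5) (nat_lit 18) (nat_lit 5) (nat_lit 19) (nat_lit 4) (nat_lit 354) (nat_lit 300) (nat_lit 126))))) (XT.nd (nat_lit 156) (nat_lit 228) (nat_lit 0) (XT.nd (nat_lit 78) (nat_lit 0) (nat_lit 0) (XT.lf (nat_lit 0) (nat_lit 56403303331) (nat_lit 76) (nat_lit 77859713618) (nat_lit 152) (nat_lit 32736056562) (nat_lit 17) (nat_lit 5) (nat_lit 18) (nat_lit 5) (nat_lit 19) (nat_lit 4) (nat_lit 355) (nat_lit 300) (nat_lit 125)) (XT.lf (nat_lit 0) (nat_lit 115112442346) (nat_lit 76) (nat_lit 47790174642) (nat_lit 152) (nat_lit 10794573865) (nat_lit 17) (nat_lit 5) (nat_lit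 18) (nat_lit 5) (nat_lit 19) (nat_lit 4) (nat_lit 356) (nat_lit 300) (nat_lit 124))) (XT.nd (nat_lit 78) (nat_lit 152) (nat_lit 0) (XT.lf (nat_lit 0) (nat_lit 11851496949) (nat_lit 152) (nat_lit 4165373064) (nat_lit 76) (nat_lit 164703816606) (nat_lit 16) (nat_lit 5) (nat_lit 18) (nat_lit 5) (nat_lit 17) (nat_lit 5) (nat_lit 357) (nat_lit 300) (nat_lit 123)) (XT.nd (nat_lit 78) (nat_lit 0) (nat_lit 0) (XT.lf (nat_lit 0) (nat_lit 36405754604) (nat_lit 228) (nat_lit 133788886546) (nat_lit 76) (nat_lit 17834935991) (nat_lit 14) (nat_lit 5) (nat_lit 17) (nat_lit 5) (nat_lit 15) (nat_lit 4) (nat_lit 358) (nat_lit 300) (nat_lit 122)) (XT.lf (nat_lit 0) (nat_lit 62521428203) (nat_lit 228) (nat_lit 80253434858) (nat_lit 76) (nat_lit 52912364515) (nat_lit 14) (nat_lit 5) (nat_lit 17) (nat_lit 5) (nat_lit 15) (nat_lit 4) (nat_lit 359) (nat_lit 300) (nat_lit 121)))))) (XT.nd (nat_lit 390) (nat_lit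 228) (nat_lit 0) (XT.nd (nat_lit 156) (nat_lit 0) (nat_lit 0) (XT.nd (nat_lit 78) (nat_lit 76) (nat_lit 0) (XT.lf (nat_lit 0) (nat_lit 89942344889) (nat_lit 228) (nat_lit 24042154881) (nat_lit 76) (nat_lit 89743288309) (nat_lit 14) (nat_lit 5) (nat_lit 17) (nat_lit 5) (nat_lit 15) (nat_lit 4) (nat_lit 360) (nat_lit 300) (nat_lit 120)) (XT.lf (nat_lit 0) (nat_lit 36135346524) (nat_lit 76) (nat_lit 83162620062) (nat_lit 152) (nat_lit 92844227550) (nat_lit 13) (nat_lit 5) (nat_lit 14) (nat_lit 5) (nat_lit 15) (nat_lit 4) (nat_lit 361) (nat_lit 300) (nat_lit 119))) (XT.nd (nat_lit 78) (nat_lit 0) (nat_lit 0) (XT.lf (nat_lit 0) (nat_lit 100155527507) (nat_lit 76) (nat_lit 50372503240) (nat_lit 152) (nat_lit 70428957148) (nat_lit 13) (nat_lit 5) (nat_lit 14) (nat_lit 5) (nat_lit 15) (nat_lit 4) (nat_lit 362) (nat_lit 300) (nat_lit 118)) (XT.nd (nat_lit 78) (nat_lit 0) (nat_lit 0) (XT.lf (nat_lit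 0) (nat_lit 167375874850) (nat_lit 76) (nat_lit 15943243125) (nat_lit 152) (nat_lit 46893427818) (nat_lit 13) (nat_lit 5) (nat_lit 14) (nat_lit 5) (nat_lit 15) (nat_lit 4) (nat_lit 363) (nat_lit 300) (nat_lit 117)) (XT.lf (nat_lit 0) (nat_lit 218064792289) (nat_lit 152) (nat_lit 2289957878) (nat_lit 0) (nat_lit 19560380205) (nat_lit 13) (nat_lit 5) (nat_lit 15) (nat_lit 4) (nat_lit 13) (nat_lit 4) (nat_lit 364) (nat_lit 300) (nat_lit 116))))) (XT.nd (nat_lit 156) (nat_lit 76) (nat_lit 0) (XT.nd (nat_lit 78) (nat_lit 0) (nat_lit 0) (XT.lf (nat_lit 0) (nat_lit 5568202190) (nat_lit 152) (nat_lit 187090790962) (nat_lit 76) (nat_lit 57377103501) (nat_lit 11) (nat_lit 5) (nat_lit 13) (nat_lit 5) (nat_lit 12) (nat_lit 4) (nat_lit 365) (nat_lit 300) (nat_lit 115)) (XT.lf (nat_lit 0) (nat_lit 33662333040) (nat_lit 152) (nat_lit 129498959261) (nat_lit 76) (nat_lit 97481960289) (nat_lit 11) (nat_lit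 5) (nat_lit 13) (nat_lit 5) (nat_lit 12) (nat_lit 4) (nat_lit 366) (nat_lit 300) (nat_lit 114))) (XT.nd (nat_lit 78) (nat_lit 76) (nat_lit 0) (XT.lf (nat_lit 0) (nat_lit 63160752238) (nat_lit 152) (nat_lit 69028282326) (nat_lit 76) (nat_lit 139591753019) (nat_lit 11) (nat_lit 5) (nat_lit 13) (nat_lit 5) (nat_lit 12) (nat_lit 4) (nat_lit 367) (nat_lit 300) (nat_lit 113)) (XT.nd (nat_lit 78) (nat_lit 76) (nat_lit 0) (XT.lf (nat_lit 0) (nat_lit 94133694115) (nat_lit 152) (nat_lit 5534782355) (nat_lit 76) (nat_lit 183806743100) (nat_lit 11) (nat_lit 5) (nat_lit 13) (nat_lit 5) (nat_lit 12) (nat_lit 4) (nat_lit 368) (nat_lit 300) (nat_lit 112)) (XT.lf (nat_lit 0) (nat_lit 63154039313) (nat_lit 76) (nat_lit 64486876000) (nat_lit 152) (nat_lit 168064176549) (nat_lit 10) (nat_lit 5) (nat_lit 11) (nat_lit 5) (nat_lit 12) (nat_lit 4) (nat_lit 369) (nat_lit 300) (nat_lit 111))))))))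
noncomputable def xc213 : XT := (XT.nd (nat_lit 36270) (nat_lit 0) (nat_lit 2204) (XT.nd (nat_lit 35490) (nat_lit 0) (nat_lit 5092) (XT.nd (nat_lit 390) (nat_lit 76) (nat_lit 0) (XT.nd (nat_lit 156) (nat_lit 76) (nat_lit 0) (XT.nd (nat_lit 78) (nat_lit 0) (nat_lit 0) (XT.lf (nat_lit 0) (nat_lit 135468791166) (nat_lit 76) (nat_lit 27448068970) (nat_lit 152) (nat_lit 145624929804) (nat_lit 10) (nat_lit 5) (nat_lit 11) (nat_lit 5) (nat_lit 12) (nat_lit 4) (nat_lit 370) (nat_lit 300) (nat_lit 110)) (XT.lf (nat_lit 0) (nat_lit 200134896149) (nat_lit 152) (nat_lit 110800342523) (nat_lit 0) (nat_lit 11076169839) (nat_lit 10) (nat_lit 5) (nat_lit 12) (nat_lit 4) (nat_lit 10) (nat_lit 4) (nat_lit 371) (nat_lit 300) (nat_lit 109))) (XT.nd (nat_lit 78) (nat_lit 76) (nat_lit 0) (XT.lf (nat_lit 0) (nat_lit 239663461038) (nat_lit 152) (nat_lit 45864638884) (nat_lit 0) (nat_lit 50603927009) (nat_lit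 10) (nat_lit 5) (nat_lit 12) (nat_lit 4) (nat_lit 10) (nat_lit 4) (nat_lit 372) (nat_lit 300) (nat_lit 108)) (XT.lf (nat_lit 0) (nat_lit 23055171717) (nat_lit 76) (nat_lit 258472913279) (nat_lit 76) (nat_lit 69412609994) (nat_lit 9) (nat_lit 4) (nat_lit 10) (nat_lit 5) (nat_lit 10) (nat_lit 4) (nat_lit 373) (nat_lit 300) (nat_lit 107)))) (XT.nd (nat_lit 34866) (nat_lit 0) (nat_lit 5548) (XT.nd (nat_lit 78) (nat_lit 76) (nat_lit 0) (XT.lf (nat_lit 0) (nat_lit 174667577240) (nat_lit 76) (nat_lit 198565471063) (nat_lit 76) (nat_lit 9503737416) (nat_lit 9) (nat_lit 4) (nat_lit 10) (nat_lit 5) (nat_lit 10) (nat_lit 4) (nat_lit 375) (nat_lit 300) (nat_lit 105)) (XT.lf (nat_lit 0) (nat_lit 21988055178) (nat_lit 152) (nat_lit 143986885044) (nat_lit 76) (nat_lit 233844228455) (nat_lit 8) (nat_lit 5) (nat_lit 10) (nat_lit 5) (nat_lit 9) (nat_lit 4) (nat_lit 376) (nat_lit 300) (nat_lit 104)))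 (XT.nd (nat_lit 78) (nat_lit 0) (nat_lit 0) (XT.lf (nat_lit 0) (nat_lit 4700213287) (nat_lit 0) (nat_lit 4700213287) (nat_lit 684) (nat_lit 5763655549) (nat_lit 81) (nat_lit 5) (nat_lit 81) (nat_lit 3) (nat_lit 90) (nat_lit 3) (nat_lit 301) (nat_lit 301) (nat_lit 178)) (XT.nd (nat_lit 78) (nat_lit 0) (nat_lit 0) (XT.lf (nat_lit 0) (nat_lit 19401837492) (nat_lit 684) (nat_lit 7651981184) (nat_lit 760) (nat_lit 4025827671) (nat_lit 81) (nat_lit 5) (nat_lit 90) (nat_lit 3) (nat_lit 91) (nat_lit 5) (nat_lit 302) (nat_lit 301) (nat_lit 177)) (XT.lf (nat_lit 76) (nat_lit 6333810419) (nat_lit 0) (nat_lit 13947860751) (nat_lit 760) (nat_lit 11574602507) (nat_lit 82) (nat_lit 5) (nat_lit 81) (nat_lit 5) (nat_lit 91) (nat_lit 5) (nat_lit 303) (nat_lit 301) (nat_lit 176)))))) (XT.nd (nat_lit 390) (nat_lit 456) (nat_lit 0) (XT.nd (nat_lit 156) (nat_lit 0) (nat_lit 76) (XT.nd (nat_lit 78) (nat_lit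 0) (nat_lit 76) (XT.lf (nat_lit 76) (nat_lit 21282220473) (nat_lit 0) (nat_lit 48835609) (nat_lit 760) (nat_lit 11334408912) (nat_lit 82) (nat_lit 5) (nat_lit 81) (nat_lit 5) (nat_lit 91) (nat_lit 5) (nat_lit 304) (nat_lit 301) (nat_lit 175)) (XT.lf (nat_lit 76) (nat_lit 3340308524) (nat_lit 0) (nat_lit 19368030451) (nat_lit 760) (nat_lit 10793015558) (nat_lit 83) (nat_lit 5) (nat_lit 82) (nat_lit 5) (nat_lit 92) (nat_lit 5) (nat_lit 305) (nat_lit 301) (nat_lit 174))) (XT.nd (nat_lit 78) (nat_lit 0) (nat_lit 76) (XT.lf (nat_lit 76) (nat_lit 19192005229) (nat_lit 0) (nat_lit 5152379953) (nat_lit 760) (nat_lit 10025168023) (nat_lit 83) (nat_lit 5) (nat_lit 82) (nat_lit 5) (nat_lit 92) (nat_lit 5) (nat_lit 306) (nat_lit 301) (nat_lit 173)) (XT.nd (nat_lit 78) (nat_lit 0) (nat_lit 0) (XT.lf (nat_lit 76) (nat_lit 413255880) (nat_lit 0) (nat_lit 25804554495) (nat_lit 760) (nat_lit 9055581758)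 (nat_lit 84) (nat_lit 5) (nat_lit 83) (nat_lit 5) (nat_lit 93) (nat_lit 5) (nat_lit 307) (nat_lit 301) (nat_lit 172)) (XT.lf (nat_lit 76) (nat_lit 17220816841) (nat_lit 0) (nat_lit 11300883420) (nat_lit 760) (nat_lit 7683891795) (nat_lit 84) (nat_lit 5) (nat_lit 83) (nat_lit 5) (nat_lit 93) (nat_lit 5) (nat_lit 308) (nat_lit 301) (nat_lit 171))))) (XT.nd (nat_lit 156) (nat_lit 684) (nat_lit 0) (XT.nd (nat_lit 78) (nat_lit 0) (nat_lit 0) (XT.lf (nat_lit 0) (nat_lit 30998935431) (nat_lit 684) (nat_lit 2379492128) (nat_lit 760) (nat_lit 3803075179) (nat_lit 84) (nat_lit 5) (nat_lit 93) (nat_lit 5) (nat_lit 94) (nat_lit 5) (nat_lit 309) (nat_lit 301) (nat_lit 170)) (XT.lf (nat_lit 76) (nat_lit 15360011631) (nat_lit 0) (nat_lit 18662069323) (nat_lit 760) (nat_lit 4163033481) (nat_lit 85) (nat_lit 5) (nat_lit 84) (nat_lit 5) (nat_lit 94) (nat_lit 5) (nat_lit 310) (nat_lit 301) (nat_lit 169)))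 (XT.nd (nat_lit 78) (nat_lit 684) (nat_lit 0) (XT.lf (nat_lit 76) (nat_lit 34066740477) (nat_lit 0) (nat_lit 3167023683) (nat_lit 760) (nat_lit 2003281070) (nat_lit 85) (nat_lit 5) (nat_lit 84) (nat_lit 5) (nat_lit 94) (nat_lit 5) (nat_lit 311) (nat_lit 301) (nat_lit 168)) (XT.nd (nat_lit 78) (nat_lit 0) (nat_lit 0) (XT.lf (nat_lit 0) (nat_lit 676838633) (nat_lit 760) (nat_lit 26736396209) (nat_lit 76) (nat_lit 12907095905) (nat_lit 75) (nat_lit 5) (nat_lit 85) (nat_lit 5) (nat_lit 76) (nat_lit 5) (nat_lit 312) (nat_lit 301) (nat_lit 167)) (XT.lf (nat_lit 0) (nat_lit 3561830712) (nat_lit 760) (nat_lit 8086670427) (nat_lit 76) (nat_lit 29800734387) (nat_lit 75) (nat_lit 5) (nat_lit 85) (nat_lit 5) (nat_lit 76) (nat_lit 5) (nat_lit 313) (nat_lit 301) (nat_lit 166))))))) (XT.nd (nat_lit 780) (nat_lit 1216) (nat_lit 0) (XT.nd (nat_lit 390) (nat_lit 608) (nat_lit 0) (XT.nd (nat_lit 156)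 (nat_lit 684) (nat_lit 0) (XT.nd (nat_lit 78) (nat_lit 0) (nat_lit 0) (XT.lf (nat_lit 0) (nat_lit 6853466027) (nat_lit 456) (nat_lit 30831852887) (nat_lit 76) (nat_lit 4936153145) (nat_lit 70) (nat_lit 5) (nat_lit 76) (nat_lit 5) (nat_lit 71) (nat_lit 5) (nat_lit 314) (nat_lit 301) (nat_lit 165)) (XT.lf (nat_lit 0) (nat_lit 10637333806) (nat_lit 456) (nat_lit 11100642844) (nat_lit 76) (nat_lit 22097967135) (nat_lit 70) (nat_lit 5) (nat_lit 76) (nat_lit 5) (nat_lit 71) (nat_lit 5) (nat_lit 315) (nat_lit 301) (nat_lit 164))) (XT.nd (nat_lit 78) (nat_lit 304) (nat_lit 0) (XT.lf (nat_lit 0) (nat_lit 9932712676) (nat_lit 380) (nat_lit 4830373948) (nat_lit 456) (nat_lit 30340423512) (nat_lit 65) (nat_lit 5) (nat_lit 70) (nat_lit 5) (nat_lit 71) (nat_lit 5) (nat_lit 316) (nat_lit 301) (nat_lit 163)) (XT.nd (nat_lit 78) (nat_lit 304) (nat_lit 0) (XT.lf (nat_lit 0) (nat_lit 19485654283) (nat_lit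 456) (nat_lit 14229177327) (nat_lit 76) (nat_lit 12700102188) (nat_lit 65) (nat_lit 5) (nat_lit 71) (nat_lit 5) (nat_lit 66) (nat_lit 5) (nat_lit 317) (nat_lit 301) (nat_lit 162)) (XT.lf (nat_lit 0) (nat_lit 7931915358) (nat_lit 304) (nat_lit 16713263155) (nat_lit 380) (nat_lit 23136713818) (nat_lit 61) (nat_lit 5) (nat_lit 65) (nat_lit 5) (nat_lit 66) (nat_lit 5) (nat_lit 318) (nat_lit 301) (nat_lit 161))))) (XT.nd (nat_lit 156) (nat_lit 304) (nat_lit 0) (XT.nd (nat_lit 78) (nat_lit 304) (nat_lit 0) (XT.lf (nat_lit 0) (nat_lit 30323250523) (nat_lit 380) (nat_lit 17534171246) (nat_lit 76) (nat_lit 1346753300) (nat_lit 61) (nat_lit 5) (nat_lit 66) (nat_lit 5) (nat_lit 62) (nat_lit 5) (nat_lit 319) (nat_lit 301) (nat_lit 160)) (XT.lf (nat_lit 0) (nat_lit 5807046094) (nat_lit 304) (nat_lit 30840803408) (nat_lit 380) (nat_lit 14031595897) (nat_lit 57) (nat_lit 5) (nat_lit 61) (nat_lit 5)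 (nat_lit 62) (nat_lit 5) (nat_lit 320) (nat_lit 301) (nat_lit 159))) (XT.nd (nat_lit 78) (nat_lit 304) (nat_lit 0) (XT.lf (nat_lit 0) (nat_lit 30921854969) (nat_lit 304) (nat_lit 12661806330) (nat_lit 380) (nat_lit 8630073207) (nat_lit 57) (nat_lit 5) (nat_lit 61) (nat_lit 5) (nat_lit 62) (nat_lit 5) (nat_lit 321) (nat_lit 301) (nat_lit 158)) (XT.nd (nat_lit 78) (nat_lit 76) (nat_lit 0) (XT.lf (nat_lit 0) (nat_lit 3476397819) (nat_lit 228) (nat_lit 47542595388) (nat_lit 304) (nat_lit 2798112580) (nat_lit 54) (nat_lit 5) (nat_lit 57) (nat_lit 5) (nat_lit 58) (nat_lit 5) (nat_lit 322) (nat_lit 301) (nat_lit 157)) (XT.lf (nat_lit 0) (nat_lit 3791226123) (nat_lit 304) (nat_lit 25527956964) (nat_lit 76) (nat_lit 26150259619) (nat_lit 53) (nat_lit 5) (nat_lit 57) (nat_lit 5) (nat_lit 54) (nat_lit 5) (nat_lit 323) (nat_lit 301) (nat_lit 156)))))) (XT.nd (nat_lit 390) (nat_lit 684) (nat_lit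 0) (XT.nd (nat_lit 156) (nat_lit 228) (nat_lit 0) (XT.nd (nat_lit 78) (nat_lit 0) (nat_lit 0) (XT.lf (nat_lit 0) (nat_lit 493219022) (nat_lit 304) (nat_lit 10128711602) (nat_lit 380) (nat_lit 46579879244) (nat_lit 49) (nat_lit 5) (nat_lit 53) (nat_lit 5) (nat_lit 54) (nat_lit 5) (nat_lit 324) (nat_lit 301) (nat_lit 155)) (XT.lf (nat_lit 0) (nat_lit 18388325122) (nat_lit 380) (nat_lit 30463176758) (nat_lit 76) (nat_lit 10139589221) (nat_lit 49) (nat_lit 5) (nat_lit 54) (nat_lit 5) (nat_lit 50) (nat_lit 5) (nat_lit 325) (nat_lit 301) (nat_lit 154))) (XT.nd (nat_lit 78) (nat_lit 228) (nat_lit 0) (XT.lf (nat_lit 0) (nat_lit 26707444558) (nat_lit 380) (nat_lit 3073609699) (nat_lit 76) (nat_lit 31080565165) (nat_lit 49) (nat_lit 5) (nat_lit 54) (nat_lit 5) (nat_lit 50) (nat_lit 5) (nat_lit 326) (nat_lit 301) (nat_lit 153)) (XT.nd (nat_lit 78) (nat_lit 0) (nat_lit 0) (XT.lf (nat_lit 0) (nat_lit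 26532672374) (nat_lit 228) (nat_lit 9322535784) (nat_lit 304) (nat_lit 26949834721) (nat_lit 46) (nat_lit 5) (nat_lit 49) (nat_lit 5) (nat_lit 50) (nat_lit 5) (nat_lit 327) (nat_lit 301) (nat_lit 152)) (XT.lf (nat_lit 0) (nat_lit 45701577161) (nat_lit 304) (nat_lit 7309760384) (nat_lit 76) (nat_lit 11822242083) (nat_lit 46) (nat_lit 5) (nat_lit 50) (nat_lit 5) (nat_lit 47) (nat_lit 5) (nat_lit 328) (nat_lit 301) (nat_lit 151))))) (XT.nd (nat_lit 156) (nat_lit 456) (nat_lit 0) (XT.nd (nat_lit 78) (nat_lit 0) (nat_lit 0) (XT.lf (nat_lit 0) (nat_lit 23704938918) (nat_lit 228) (nat_lit 32856803430) (nat_lit 304) (nat_lit 10375729820) (nat_lit 43) (nat_lit 5) (nat_lit 46) (nat_lit 5) (nat_lit 47) (nat_lit 5) (nat_lit 329) (nat_lit 301) (nat_lit 150)) (XT.lf (nat_lit 0) (nat_lit 56522263557) (nat_lit 228) (nat_lit 11565034945) (nat_lit 304) (nat_lit 1053144399) (nat_lit 43) (nat_lit 5) (nat_lit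 46) (nat_lit 5) (nat_lit 47) (nat_lit 5) (nat_lit 330) (nat_lit 301) (nat_lit 149))) (XT.nd (nat_lit 78) (nat_lit 228) (nat_lit 0) (XT.lf (nat_lit 0) (nat_lit 8943166616) (nat_lit 228) (nat_lit 51577279104) (nat_lit 76) (nat_lit 10901940111) (nat_lit 40) (nat_lit 5) (nat_lit 43) (nat_lit 5) (nat_lit 41) (nat_lit 5) (nat_lit 331) (nat_lit 301) (nat_lit 148)) (XT.nd (nat_lit 78) (nat_lit 228) (nat_lit 0) (XT.lf (nat_lit 0) (nat_lit 19809349877) (nat_lit 228) (nat_lit 19650345383) (nat_lit 76) (nat_lit 34337597288) (nat_lit 40) (nat_lit 5) (nat_lit 43) (nat_lit 5) (nat_lit 41) (nat_lit 5) (nat_lit 332) (nat_lit 301) (nat_lit 147)) (XT.lf (nat_lit 0) (nat_lit 14329789761) (nat_lit 228) (nat_lit 17111504856) (nat_lit 304) (nat_lit 44838529593) (nat_lit 37) (nat_lit 5) (nat_lit 40) (nat_lit 5) (nat_lit 41) (nat_lit 5) (nat_lit 333) (nat_lit 301) (nat_lit 146))))))))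
noncomputable def xc214 : XT := (XT.nd (nat_lit 1482) (nat_lit 760) (nat_lit 0) (XT.nd (nat_lit 702) (nat_lit 532) (nat_lit 0) (XT.nd (nat_lit 312) (nat_lit 532) (nat_lit 0) (XT.nd (nat_lit 156) (nat_lit 76) (nat_lit 0) (XT.nd (nat_lit 78) (nat_lit 152) (nat_lit 0) (XT.lf (nat_lit 0) (nat_lit 44091034838) (nat_lit 304) (nat_lit 28285171907) (nat_lit 76) (nat_lit 6488467915) (nat_lit 37) (nat_lit 5) (nat_lit 41) (nat_lit 5) (nat_lit 38) (nat_lit 5) (nat_lit 334) (nat_lit 301) (nat_lit 145)) (XT.lf (nat_lit 0) (nat_lit 7004888546) (nat_lit 152) (nat_lit 50757064855) (nat_lit 228) (nat_lit 23797381684) (nat_lit 35) (nat_lit 5) (nat_lit 37) (nat_lit 5) (nat_lit 38) (nat_lit 5) (nat_lit 335) (nat_lit 301) (nat_lit 144))) (XT.nd (nat_lit 78) (nat_lit 76) (nat_lit 0) (XT.lf (nat_lit 0) (nat_lit 45039748285) (nat_lit 152) (nat_lit 27554531756) (nat_lit 228) (nat_lit 11770557303) (nat_lit 35)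 (nat_lit 5) (nat_lit 37) (nat_lit 5) (nat_lit 38) (nat_lit 5) (nat_lit 336) (nat_lit 301) (nat_lit 143)) (XT.lf (nat_lit 0) (nat_lit 829033937) (nat_lit 228) (nat_lit 2349312366) (nat_lit 76) (nat_lit 84131656948) (nat_lit 34) (nat_lit 5) (nat_lit 37) (nat_lit 5) (nat_lit 35) (nat_lit 5) (nat_lit 337) (nat_lit 301) (nat_lit 142)))) (XT.nd (nat_lit 156) (nat_lit 304) (nat_lit 0) (XT.nd (nat_lit 78) (nat_lit 0) (nat_lit 0) (XT.lf (nat_lit 0) (nat_lit 14609872731) (nat_lit 304) (nat_lit 53245993683) (nat_lit 76) (nat_lit 22489572908) (nat_lit 31) (nat_lit 5) (nat_lit 35) (nat_lit 5) (nat_lit 32) (nat_lit 5) (nat_lit 338) (nat_lit 301) (nat_lit 141)) (XT.lf (nat_lit 0) (nat_lit 29171243367) (nat_lit 304) (nat_lit 14982810168) (nat_lit 76) (nat_lit 49374020747) (nat_lit 31) (nat_lit 5) (nat_lit 35) (nat_lit 5) (nat_lit 32) (nat_lit 5) (nat_lit 339) (nat_lit 301) (nat_lit 140))) (XT.nd (nat_lit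 78) (nat_lit 152) (nat_lit 0) (XT.lf (nat_lit 0) (nat_lit 26024969900) (nat_lit 152) (nat_lit 18841032378) (nat_lit 228) (nat_lit 51983574230) (nat_lit 29) (nat_lit 5) (nat_lit 31) (nat_lit 5) (nat_lit 32) (nat_lit 5) (nat_lit 340) (nat_lit 301) (nat_lit 139)) (XT.nd (nat_lit 78) (nat_lit 152) (nat_lit 0) (XT.lf (nat_lit 0) (nat_lit 61723219454) (nat_lit 228) (nat_lit 30847666246) (nat_lit 76) (nat_lit 7747383564) (nat_lit 29) (nat_lit 5) (nat_lit 32) (nat_lit 5) (nat_lit 30) (nat_lit 5) (nat_lit 341) (nat_lit 301) (nat_lit 138)) (XT.lf (nat_lit 0) (nat_lit 11175468108) (nat_lit 152) (nat_lit 68730239371) (nat_lit 228) (nat_lit 24030570045) (nat_lit 27) (nat_lit 5) (nat_lit 29) (nat_lit 5) (nat_lit 30) (nat_lit 5) (nat_lit 342) (nat_lit 301) (nat_lit 137)))))) (XT.nd (nat_lit 390) (nat_lit 152) (nat_lit 0) (XT.nd (nat_lit 156) (nat_lit 304) (nat_lit 0) (XT.nd (nat_lit 78) (nat_lit 76)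 (nat_lit 0) (XT.lf (nat_lit 0) (nat_lit 56369275768) (nat_lit 152) (nat_lit 43149546718) (nat_lit 228) (nat_lit 8190289881) (nat_lit 27) (nat_lit 5) (nat_lit 29) (nat_lit 5) (nat_lit 30) (nat_lit 5) (nat_lit 343) (nat_lit 301) (nat_lit 136)) (XT.lf (nat_lit 0) (nat_lit 8170918026) (nat_lit 228) (nat_lit 7981025009) (nat_lit 76) (nat_lit 95512101401) (nat_lit 26) (nat_lit 5) (nat_lit 29) (nat_lit 5) (nat_lit 27) (nat_lit 5) (nat_lit 344) (nat_lit 301) (nat_lit 135))) (XT.nd (nat_lit 78) (nat_lit 152) (nat_lit 0) (XT.lf (nat_lit 0) (nat_lit 25879972477) (nat_lit 228) (nat_lit 77335307278) (nat_lit 76) (nat_lit 12554479445) (nat_lit 24) (nat_lit 5) (nat_lit 27) (nat_lit 5) (nat_lit 25) (nat_lit 5) (nat_lit 345) (nat_lit 301) (nat_lit 134)) (XT.nd (nat_lit 78) (nat_lit 152) (nat_lit 0) (XT.lf (nat_lit 0) (nat_lit 44875808948) (nat_lit 228) (nat_lit 32894570150) (nat_lit 76) (nat_lit 42290315208)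 (nat_lit 24) (nat_lit 5) (nat_lit 27) (nat_lit 5) (nat_lit 25) (nat_lit 5) (nat_lit 346) (nat_lit 301) (nat_lit 133)) (XT.lf (nat_lit 0) (nat_lit 14222111937) (nat_lit 152) (nat_lit 50820577137) (nat_lit 228) (nat_lit 59512425523) (nat_lit 22) (nat_lit 5) (nat_lit 24) (nat_lit 5) (nat_lit 25) (nat_lit 5) (nat_lit 347) (nat_lit 301) (nat_lit 132))))) (XT.nd (nat_lit 156) (nat_lit 152) (nat_lit 0) (XT.nd (nat_lit 78) (nat_lit 0) (nat_lit 0) (XT.lf (nat_lit 0) (nat_lit 64835385809) (nat_lit 152) (nat_lit 21938835742) (nat_lit 228) (nat_lit 42472219902) (nat_lit 22) (nat_lit 5) (nat_lit 24) (nat_lit 5) (nat_lit 25) (nat_lit 5) (nat_lit 348) (nat_lit 301) (nat_lit 131)) (XT.lf (nat_lit 0) (nat_lit 109722527712) (nat_lit 228) (nat_lit 16325193537) (nat_lit 76) (nat_lit 8118104476) (nat_lit 22) (nat_lit 5) (nat_lit 25) (nat_lit 5) (nat_lit 23) (nat_lit 4) (nat_lit 349) (nat_lit 301) (nat_lit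 130))) (XT.nd (nat_lit 78) (nat_lit 76) (nat_lit 0) (XT.lf (nat_lit 0) (nat_lit 34921846969) (nat_lit 76) (nat_lit 99800571342) (nat_lit 152) (nat_lit 4563553322) (nat_lit 21) (nat_lit 5) (nat_lit 22) (nat_lit 5) (nat_lit 23) (nat_lit 4) (nat_lit 350) (nat_lit 301) (nat_lit 129)) (XT.nd (nat_lit 78) (nat_lit 0) (nat_lit 0) (XT.lf (nat_lit 0) (nat_lit 16068450212) (nat_lit 152) (nat_lit 55610651760) (nat_lit 76) (nat_lit 72956276325) (nat_lit 20) (nat_lit 5) (nat_lit 22) (nat_lit 5) (nat_lit 21) (nat_lit 5) (nat_lit 351) (nat_lit 301) (nat_lit 128)) (XT.lf (nat_lit 0) (nat_lit 37578014087) (nat_lit 152) (nat_lit 4495445233) (nat_lit 76) (nat_lit 108175089842) (nat_lit 20) (nat_lit 5) (nat_lit 22) (nat_lit 5) (nat_lit 21) (nat_lit 5) (nat_lit 352) (nat_lit 301) (nat_lit 127))))))) (XT.nd (nat_lit 780) (nat_lit 228) (nat_lit 0) (XT.nd (nat_lit 390) (nat_lit 304) (nat_lit 0) (XT.nd (nat_lit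 156) (nat_lit 76) (nat_lit 0) (XT.nd (nat_lit 78) (nat_lit 0) (nat_lit 0) (XT.lf (nat_lit 0) (nat_lit 50800376962) (nat_lit 152) (nat_lit 10155173044) (nat_lit 228) (nat_lit 95147204596) (nat_lit 18) (nat_lit 5) (nat_lit 20) (nat_lit 5) (nat_lit 21) (nat_lit 5) (nat_lit 353) (nat_lit 301) (nat_lit 126)) (XT.lf (nat_lit 0) (nat_lit 85943408226) (nat_lit 228) (nat_lit 53595831741) (nat_lit 76) (nat_lit 22688358762) (nat_lit 18) (nat_lit 5) (nat_lit 21) (nat_lit 5) (nat_lit 19) (nat_lit 4) (nat_lit 354) (nat_lit 301) (nat_lit 125))) (XT.nd (nat_lit 78) (nat_lit 0) (nat_lit 0) (XT.lf (nat_lit 0) (nat_lit 546008340) (nat_lit 76) (nat_lit 111809049226) (nat_lit 152) (nat_lit 56294908243) (nat_lit 17) (nat_lit 5) (nat_lit 18) (nat_lit 5) (nat_lit 19) (nat_lit 4) (nat_lit 355) (nat_lit 301) (nat_lit 124)) (XT.nd (nat_lit 78) (nat_lit 0) (nat_lit 0) (XT.lf (nat_lit 0) (nat_lit 59254652760) (nat_lit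 76) (nat_lit 81739716168) (nat_lit 152) (nat_lit 34353728963) (nat_lit 17) (nat_lit 5) (nat_lit 18) (nat_lit 5) (nat_lit 19) (nat_lit 4) (nat_lit 356) (nat_lit 301) (nat_lit 123)) (XT.lf (nat_lit 0) (nat_lit 120897763761) (nat_lit 76) (nat_lit 50167318487) (nat_lit 152) (nat_lit 11316083103) (nat_lit 17) (nat_lit 5) (nat_lit 18) (nat_lit 5) (nat_lit 19) (nat_lit 4) (nat_lit 357) (nat_lit 301) (nat_lit 122))))) (XT.nd (nat_lit 156) (nat_lit 76) (nat_lit 0) (XT.nd (nat_lit 78) (nat_lit 152) (nat_lit 0) (XT.lf (nat_lit 0) (nat_lit 12460868291) (nat_lit 152) (nat_lit 4344784684) (nat_lit 76) (nat_lit 172950211531) (nat_lit 16) (nat_lit 5) (nat_lit 18) (nat_lit 5) (nat_lit 17) (nat_lit 5) (nat_lit 358) (nat_lit 301) (nat_lit 121)) (XT.lf (nat_lit 0) (nat_lit 38242668867) (nat_lit 228) (nat_lit 140449288049) (nat_lit 76) (nat_lit 18738251927) (nat_lit 14) (nat_lit 5) (nat_lit 17) (nat_lit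 5) (nat_lit 15) (nat_lit 4) (nat_lit 359) (nat_lit 301) (nat_lit 120))) (XT.nd (nat_lit 78) (nat_lit 76) (nat_lit 0) (XT.lf (nat_lit 0) (nat_lit 65663334406) (nat_lit 228) (nat_lit 84238446769) (nat_lit 76) (nat_lit 55569000966) (nat_lit 14) (nat_lit 5) (nat_lit 17) (nat_lit 5) (nat_lit 15) (nat_lit 4) (nat_lit 360) (nat_lit 301) (nat_lit 119)) (XT.nd (nat_lit 78) (nat_lit 76) (nat_lit 0) (XT.lf (nat_lit 0) (nat_lit 94454542888) (nat_lit 228) (nat_lit 25217919927) (nat_lit 76) (nat_lit 94240946272) (nat_lit 14) (nat_lit 5) (nat_lit 17) (nat_lit 5) (nat_lit 15) (nat_lit 4) (nat_lit 361) (nat_lit 301) (nat_lit 118)) (XT.lf (nat_lit 0) (nat_lit 37968031666) (nat_lit 76) (nat_lit 87309600523) (nat_lit 152) (nat_lit 97470919616) (nat_lit 13) (nat_lit 5) (nat_lit 14) (nat_lit 5) (nat_lit 15) (nat_lit 4) (nat_lit 362) (nat_lit 301) (nat_lit 117)))))) (XT.nd (nat_lit 390) (nat_lit 76) (nat_lit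 0) (XT.nd (nat_lit 156) (nat_lit 152) (nat_lit 0) (XT.nd (nat_lit 78) (nat_lit 0) (nat_lit 0) (XT.lf (nat_lit 0) (nat_lit 105187987516) (nat_lit 76) (nat_lit 52880508838) (nat_lit 152) (nat_lit 73935624709) (nat_lit 13) (nat_lit 5) (nat_lit 14) (nat_lit 5) (nat_lit 15) (nat_lit 4) (nat_lit 363) (nat_lit 301) (nat_lit 116)) (XT.lf (nat_lit 0) (nat_lit 175768176815) (nat_lit 76) (nat_lit 16730291411) (nat_lit 152) (nat_lit 49224022736) (nat_lit 13) (nat_lit 5) (nat_lit 14) (nat_lit 5) (nat_lit 15) (nat_lit 4) (nat_lit 364) (nat_lit 301) (nat_lit 115))) (XT.nd (nat_lit 78) (nat_lit 152) (nat_lit 0) (XT.lf (nat_lit 0) (nat_lit 228980938817) (nat_lit 152) (nat_lit 2381567736) (nat_lit 0) (nat_lit 20547723181) (nat_lit 13) (nat_lit 5) (nat_lit 15) (nat_lit 4) (nat_lit 13) (nat_lit 4) (nat_lit 365) (nat_lit 301) (nat_lit 114)) (XT.nd (nat_lit 78) (nat_lit 0) (nat_lit 0) (XT.lf (nat_lit 0)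 (nat_lit 5859474346) (nat_lit 152) (nat_lit 196422375646) (nat_lit 76) (nat_lit 60255397678) (nat_lit 11) (nat_lit 5) (nat_lit 13) (nat_lit 5) (nat_lit 12) (nat_lit 4) (nat_lit 366) (nat_lit 301) (nat_lit 113)) (XT.lf (nat_lit 0) (nat_lit 35357699260) (nat_lit 152) (nat_lit 135952045448) (nat_lit 76) (nat_lit 102365047829) (nat_lit 11) (nat_lit 5) (nat_lit 13) (nat_lit 5) (nat_lit 12) (nat_lit 4) (nat_lit 367) (nat_lit 301) (nat_lit 112))))) (XT.nd (nat_lit 156) (nat_lit 76) (nat_lit 0) (XT.nd (nat_lit 78) (nat_lit 0) (nat_lit 0) (XT.lf (nat_lit 0) (nat_lit 66330456105) (nat_lit 152) (nat_lit 72458875703) (nat_lit 76) (nat_lit 146579902122) (nat_lit 11) (nat_lit 5) (nat_lit 13) (nat_lit 5) (nat_lit 12) (nat_lit 4) (nat_lit 368) (nat_lit 301) (nat_lit 111)) (XT.lf (nat_lit 0) (nat_lit 98851489540) (nat_lit 152) (nat_lit 5791692198) (nat_lit 76) (nat_lit 193005234020) (nat_lit 11) (nat_lit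 5) (nat_lit 13) (nat_lit 5) (nat_lit 12) (nat_lit 4) (nat_lit 369) (nat_lit 301) (nat_lit 110))) (XT.nd (nat_lit 78) (nat_lit 0) (nat_lit 0) (XT.lf (nat_lit 0) (nat_lit 66331250726) (nat_lit 76) (nat_lit 67702596587) (nat_lit 152) (nat_lit 176455946016) (nat_lit 10) (nat_lit 5) (nat_lit 11) (nat_lit 5) (nat_lit 12) (nat_lit 4) (nat_lit 370) (nat_lit 301) (nat_lit 109)) (XT.nd (nat_lit 78) (nat_lit 0) (nat_lit 0) (XT.lf (nat_lit 0) (nat_lit 142260811151) (nat_lit 76) (nat_lit 28812259835) (nat_lit 152) (nat_lit 152895281665) (nat_lit 10) (nat_lit 5) (nat_lit 11) (nat_lit 5) (nat_lit 12) (nat_lit 4) (nat_lit 371) (nat_lit 301) (nat_lit 108)) (XT.lf (nat_lit 0) (nat_lit 210151637208) (nat_lit 152) (nat_lit 116322284419) (nat_lit 0) (nat_lit 11637549503) (nat_lit 10) (nat_lit 5) (nat_lit 12) (nat_lit 4) (nat_lit 10) (nat_lit 4) (nat_lit 372) (nat_lit 301) (nat_lit 107))))))))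
noncomputable def xc215 : XT := (XT.nd (nat_lit 36504) (nat_lit 0) (nat_lit 1672) (XT.nd (nat_lit 35724) (nat_lit 0) (nat_lit 3952) (XT.nd (nat_lit 35334) (nat_lit 0) (nat_lit 5472) (XT.nd (nat_lit 35100) (nat_lit 0) (nat_lit 5472) (XT.nd (nat_lit 156) (nat_lit 76) (nat_lit 0) (XT.lf (nat_lit 0) (nat_lit 251656154329) (nat_lit 152) (nat_lit 48140656323) (nat_lit 0) (nat_lit 53141333999) (nat_lit 10) (nat_lit 5) (nat_lit 12) (nat_lit 4) (nat_lit 10) (nat_lit 4) (nat_lit 373) (nat_lit 301) (nat_lit 106)) (XT.lf (nat_lit 0) (nat_lit 101879477231) (nat_lit 76) (nat_lit 240704889256) (nat_lit 76) (nat_lit 42188706676) (nat_lit 9) (nat_lit 4) (nat_lit 10) (nat_lit 5) (nat_lit 10) (nat_lit 4) (nat_lit 375) (nat_lit 301) (nat_lit 104))) (XT.nd (nat_lit 78) (nat_lit 0) (nat_lit 0) (XT.lf (nat_lit 0) (nat_lit 4967723647) (nat_lit 0) (nat_lit 4967723647) (nat_lit 684) (nat_lit 5983417824) (nat_lit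 81) (nat_lit 5) (nat_lit 81) (nat_lit 3) (nat_lit 90) (nat_lit 3) (nat_lit 302) (nat_lit 302) (nat_lit 176)) (XT.nd (nat_lit 78) (nat_lit 0) (nat_lit 0) (XT.lf (nat_lit 0) (nat_lit 20494771237) (nat_lit 684) (nat_lit 7965193162) (nat_lit 760) (nat_lit 4167196191) (nat_lit 81) (nat_lit 5) (nat_lit 90) (nat_lit 3) (nat_lit 91) (nat_lit 5) (nat_lit 303) (nat_lit 302) (nat_lit 175)) (XT.lf (nat_lit 76) (nat_lit 6718768875) (nat_lit 0) (nat_lit 14695043964) (nat_lit 760) (nat_lit 12029061157) (nat_lit 82) (nat_lit 5) (nat_lit 81) (nat_lit 5) (nat_lit 91) (nat_lit 5) (nat_lit 304) (nat_lit 302) (nat_lit 174))))) (XT.nd (nat_lit 156) (nat_lit 0) (nat_lit 76) (XT.nd (nat_lit 78) (nat_lit 0) (nat_lit 76) (XT.lf (nat_lit 76) (nat_lit 22411348577) (nat_lit 0) (nat_lit 98696605) (nat_lit 760) (nat_lit 11782775571) (nat_lit 82) (nat_lit 5) (nat_lit 81) (nat_lit 5) (nat_lit 91) (nat_lit 5) (nat_lit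 305) (nat_lit 302) (nat_lit 173)) (XT.lf (nat_lit 76) (nat_lit 3577842820) (nat_lit 0) (nat_lit 20373391195) (nat_lit 760) (nat_lit 11219532745) (nat_lit 83) (nat_lit 5) (nat_lit 82) (nat_lit 5) (nat_lit 92) (nat_lit 5) (nat_lit 306) (nat_lit 302) (nat_lit 172))) (XT.nd (nat_lit 78) (nat_lit 0) (nat_lit 76) (XT.lf (nat_lit 76) (nat_lit 20218766319) (nat_lit 0) (nat_lit 5445198210) (nat_lit 760) (nat_lit 10418680146) (nat_lit 83) (nat_lit 5) (nat_lit 82) (nat_lit 5) (nat_lit 92) (nat_lit 5) (nat_lit 307) (nat_lit 302) (nat_lit 171)) (XT.nd (nat_lit 78) (nat_lit 0) (nat_lit 0) (XT.lf (nat_lit 76) (nat_lit 505836275) (nat_lit 0) (nat_lit 27120949862) (nat_lit 760) (nat_lit 9405115926) (nat_lit 84) (nat_lit 5) (nat_lit 83) (nat_lit 5) (nat_lit 93) (nat_lit 5) (nat_lit 308) (nat_lit 302) (nat_lit 170)) (XT.lf (nat_lit 76) (nat_lit 18150350636) (nat_lit 0) (nat_lit 11890849155) (nat_lit 760)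 (nat_lit 7969757889) (nat_lit 84) (nat_lit 5) (nat_lit 83) (nat_lit 5) (nat_lit 93) (nat_lit 5) (nat_lit 309) (nat_lit 302) (nat_lit 169)))))) (XT.nd (nat_lit 390) (nat_lit 1064) (nat_lit 0) (XT.nd (nat_lit 156) (nat_lit 684) (nat_lit 0) (XT.nd (nat_lit 78) (nat_lit 0) (nat_lit 0) (XT.lf (nat_lit 0) (nat_lit 32637477843) (nat_lit 684) (nat_lit 2428184804) (nat_lit 760) (nat_lit 3970253778) (nat_lit 84) (nat_lit 5) (nat_lit 93) (nat_lit 5) (nat_lit 94) (nat_lit 5) (nat_lit 310) (nat_lit 302) (nat_lit 168)) (XT.lf (nat_lit 76) (nat_lit 16197160563) (nat_lit 0) (nat_lit 19611480839) (nat_lit 760) (nat_lit 4281235299) (nat_lit 85) (nat_lit 5) (nat_lit 84) (nat_lit 5) (nat_lit 94) (nat_lit 5) (nat_lit 311) (nat_lit 302) (nat_lit 167))) (XT.nd (nat_lit 78) (nat_lit 684) (nat_lit 0) (XT.lf (nat_lit 76) (nat_lit 35835933073) (nat_lit 0) (nat_lit 3340906342) (nat_lit 760) (nat_lit 2017778594)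 (nat_lit 85) (nat_lit 5) (nat_lit 84) (nat_lit 5) (nat_lit 94) (nat_lit 5) (nat_lit 312) (nat_lit 302) (nat_lit 166)) (XT.nd (nat_lit 78) (nat_lit 0) (nat_lit 0) (XT.lf (nat_lit 0) (nat_lit 790520500) (nat_lit 760) (nat_lit 28001143133) (nat_lit 76) (nat_lit 13540501061) (nat_lit 75) (nat_lit 5) (nat_lit 85) (nat_lit 5) (nat_lit 76) (nat_lit 5) (nat_lit 313) (nat_lit 302) (nat_lit 165)) (XT.lf (nat_lit 0) (nat_lit 3815960280) (nat_lit 760) (nat_lit 8422363104) (nat_lit 76) (nat_lit 31279390498) (nat_lit 75) (nat_lit 5) (nat_lit 85) (nat_lit 5) (nat_lit 76) (nat_lit 5) (nat_lit 314) (nat_lit 302) (nat_lit 164))))) (XT.nd (nat_lit 156) (nat_lit 684) (nat_lit 0) (XT.nd (nat_lit 78) (nat_lit 0) (nat_lit 0) (XT.lf (nat_lit 0) (nat_lit 7269518187) (nat_lit 456) (nat_lit 32301972638) (nat_lit 76) (nat_lit 5177213018) (nat_lit 70) (nat_lit 5) (nat_lit 76) (nat_lit 5) (nat_lit 71) (nat_lit 5)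 (nat_lit 315) (nat_lit 302) (nat_lit 163)) (XT.lf (nat_lit 0) (nat_lit 11239085124) (nat_lit 456) (nat_lit 11587605564) (nat_lit 76) (nat_lit 23197391412) (nat_lit 70) (nat_lit 5) (nat_lit 76) (nat_lit 5) (nat_lit 71) (nat_lit 5) (nat_lit 316) (nat_lit 302) (nat_lit 162))) (XT.nd (nat_lit 78) (nat_lit 304) (nat_lit 0) (XT.lf (nat_lit 0) (nat_lit 10496319838) (nat_lit 380) (nat_lit 5072523519) (nat_lit 456) (nat_lit 31786305364) (nat_lit 65) (nat_lit 5) (nat_lit 70) (nat_lit 5) (nat_lit 71) (nat_lit 5) (nat_lit 317) (nat_lit 302) (nat_lit 161)) (XT.nd (nat_lit 78) (nat_lit 304) (nat_lit 0) (XT.lf (nat_lit 0) (nat_lit 20524310855) (nat_lit 456) (nat_lit 14873475907) (nat_lit 76) (nat_lit 13334525696) (nat_lit 65) (nat_lit 5) (nat_lit 71) (nat_lit 5) (nat_lit 66) (nat_lit 5) (nat_lit 318) (nat_lit 302) (nat_lit 160)) (XT.lf (nat_lit 0) (nat_lit 8394588182) (nat_lit 304) (nat_lit 17545189342)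 (nat_lit 380) (nat_lit 24227950196) (nat_lit 61) (nat_lit 5) (nat_lit 65) (nat_lit 5) (nat_lit 66) (nat_lit 5) (nat_lit 319) (nat_lit 302) (nat_lit 159))))))) (XT.nd (nat_lit 780) (nat_lit 1140) (nat_lit 0) (XT.nd (nat_lit 390) (nat_lit 532) (nat_lit 0) (XT.nd (nat_lit 156) (nat_lit 304) (nat_lit 0) (XT.nd (nat_lit 78) (nat_lit 304) (nat_lit 0) (XT.lf (nat_lit 0) (nat_lit 31898840125) (nat_lit 380) (nat_lit 18344900818) (nat_lit 76) (nat_lit 1417536074) (nat_lit 61) (nat_lit 5) (nat_lit 66) (nat_lit 5) (nat_lit 62) (nat_lit 5) (nat_lit 320) (nat_lit 302) (nat_lit 158)) (XT.lf (nat_lit 0) (nat_lit 6162313211) (nat_lit 304) (nat_lit 32375539482) (nat_lit 380) (nat_lit 14672555437) (nat_lit 57) (nat_lit 5) (nat_lit 61) (nat_lit 5) (nat_lit 62) (nat_lit 5) (nat_lit 321) (nat_lit 302) (nat_lit 157))) (XT.nd (nat_lit 78) (nat_lit 304) (nat_lit 0) (XT.lf (nat_lit 0) (nat_lit 32529771349) (nat_lit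 304) (nat_lit 13287940364) (nat_lit 380) (nat_lit 9003843292) (nat_lit 57) (nat_lit 5) (nat_lit 61) (nat_lit 5) (nat_lit 62) (nat_lit 5) (nat_lit 322) (nat_lit 302) (nat_lit 156)) (XT.nd (nat_lit 78) (nat_lit 76) (nat_lit 0) (XT.lf (nat_lit 0) (nat_lit 3713757328) (nat_lit 228) (nat_lit 49909535625) (nat_lit 304) (nat_lit 2881883611) (nat_lit 54) (nat_lit 5) (nat_lit 57) (nat_lit 5) (nat_lit 58) (nat_lit 5) (nat_lit 323) (nat_lit 302) (nat_lit 155)) (XT.lf (nat_lit 0) (nat_lit 4032537848) (nat_lit 304) (nat_lit 26742023658) (nat_lit 76) (nat_lit 27465659684) (nat_lit 53) (nat_lit 5) (nat_lit 57) (nat_lit 5) (nat_lit 54) (nat_lit 5) (nat_lit 324) (nat_lit 302) (nat_lit 154))))) (XT.nd (nat_lit 156) (nat_lit 228) (nat_lit 0) (XT.nd (nat_lit 78) (nat_lit 0) (nat_lit 0) (XT.lf (nat_lit 0) (nat_lit 579205787) (nat_lit 304) (nat_lit 10624064950) (nat_lit 380) (nat_lit 48856016369) (nat_lit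 49) (nat_lit 5) (nat_lit 53) (nat_lit 5) (nat_lit 54) (nat_lit 5) (nat_lit 325) (nat_lit 302) (nat_lit 153)) (XT.lf (nat_lit 0) (nat_lit 19355757194) (nat_lit 380) (nat_lit 31925606030) (nat_lit 76) (nat_lit 10656785379) (nat_lit 49) (nat_lit 5) (nat_lit 54) (nat_lit 5) (nat_lit 50) (nat_lit 5) (nat_lit 326) (nat_lit 302) (nat_lit 152))) (XT.nd (nat_lit 78) (nat_lit 228) (nat_lit 0) (XT.lf (nat_lit 0) (nat_lit 28088546134) (nat_lit 380) (nat_lit 3169452502) (nat_lit 76) (nat_lit 32644323610) (nat_lit 49) (nat_lit 5) (nat_lit 54) (nat_lit 5) (nat_lit 50) (nat_lit 5) (nat_lit 327) (nat_lit 302) (nat_lit 151)) (XT.nd (nat_lit 78) (nat_lit 0) (nat_lit 0) (XT.lf (nat_lit 0) (nat_lit 27916210809) (nat_lit 228) (nat_lit 9776197961) (nat_lit 304) (nat_lit 28250576929) (nat_lit 46) (nat_lit 5) (nat_lit 49) (nat_lit 5) (nat_lit 50) (nat_lit 5) (nat_lit 328) (nat_lit 302) (nat_lit 150)) (XT.lf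 (nat_lit 0) (nat_lit 48029165364) (nat_lit 304) (nat_lit 7619039325) (nat_lit 76) (nat_lit 12424845298) (nat_lit 46) (nat_lit 5) (nat_lit 50) (nat_lit 5) (nat_lit 47) (nat_lit 5) (nat_lit 329) (nat_lit 302) (nat_lit 149)))))) (XT.nd (nat_lit 390) (nat_lit 456) (nat_lit 0) (XT.nd (nat_lit 156) (nat_lit 456) (nat_lit 0) (XT.nd (nat_lit 78) (nat_lit 0) (nat_lit 0) (XT.lf (nat_lit 0) (nat_lit 24945488344) (nat_lit 228) (nat_lit 34485689638) (nat_lit 304) (nat_lit 10851021172) (nat_lit 43) (nat_lit 5) (nat_lit 46) (nat_lit 5) (nat_lit 47) (nat_lit 5) (nat_lit 330) (nat_lit 302) (nat_lit 148)) (XT.lf (nat_lit 0) (nat_lit 59401045764) (nat_lit 228) (nat_lit 12129997203) (nat_lit 304) (nat_lit 1064377678) (nat_lit 43) (nat_lit 5) (nat_lit 46) (nat_lit 5) (nat_lit 47) (nat_lit 5) (nat_lit 331) (nat_lit 302) (nat_lit 147))) (XT.nd (nat_lit 78) (nat_lit 228) (nat_lit 0) (XT.lf (nat_lit 0) (nat_lit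 9429565465) (nat_lit 228) (nat_lit 54101150362) (nat_lit 76) (nat_lit 11460758858) (nat_lit 40) (nat_lit 5) (nat_lit 43) (nat_lit 5) (nat_lit 41) (nat_lit 5) (nat_lit 332) (nat_lit 302) (nat_lit 146)) (XT.nd (nat_lit 78) (nat_lit 228) (nat_lit 0) (XT.lf (nat_lit 0) (nat_lit 20837189293) (nat_lit 228) (nat_lit 20580488655) (nat_lit 76) (nat_lit 36067545477) (nat_lit 40) (nat_lit 5) (nat_lit 43) (nat_lit 5) (nat_lit 41) (nat_lit 5) (nat_lit 333) (nat_lit 302) (nat_lit 145)) (XT.lf (nat_lit 0) (nat_lit 15097808505) (nat_lit 228) (nat_lit 17951947666) (nat_lit 304) (nat_lit 47042177357) (nat_lit 37) (nat_lit 5) (nat_lit 40) (nat_lit 5) (nat_lit 41) (nat_lit 5) (nat_lit 334) (nat_lit 302) (nat_lit 144))))) (XT.nd (nat_lit 156) (nat_lit 304) (nat_lit 0) (XT.nd (nat_lit 78) (nat_lit 152) (nat_lit 0) (XT.lf (nat_lit 0) (nat_lit 46330475230) (nat_lit 304) (nat_lit 29648787751) (nat_lit 76) (nat_lit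 6826841882) (nat_lit 37) (nat_lit 5) (nat_lit 41) (nat_lit 5) (nat_lit 38) (nat_lit 5) (nat_lit 335) (nat_lit 302) (nat_lit 143)) (XT.lf (nat_lit 0) (nat_lit 7404958906) (nat_lit 152) (nat_lit 53279097373) (nat_lit 228) (nat_lit 24951489016) (nat_lit 35) (nat_lit 5) (nat_lit 37) (nat_lit 5) (nat_lit 38) (nat_lit 5) (nat_lit 336) (nat_lit 302) (nat_lit 142))) (XT.nd (nat_lit 78) (nat_lit 304) (nat_lit 0) (XT.lf (nat_lit 0) (nat_lit 47339188968) (nat_lit 152) (nat_lit 28917190987) (nat_lit 228) (nat_lit 12325026357) (nat_lit 35) (nat_lit 5) (nat_lit 37) (nat_lit 5) (nat_lit 38) (nat_lit 5) (nat_lit 337) (nat_lit 302) (nat_lit 141)) (XT.nd (nat_lit 78) (nat_lit 228) (nat_lit 0) (XT.lf (nat_lit 0) (nat_lit 901884412) (nat_lit 228) (nat_lit 2420497590) (nat_lit 76) (nat_lit 88351502854) (nat_lit 34) (nat_lit 5) (nat_lit 37) (nat_lit 5) (nat_lit 35) (nat_lit 5) (nat_lit 338) (nat_lit 302)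 (nat_lit 140)) (XT.lf (nat_lit 0) (nat_lit 15371213811) (nat_lit 304) (nat_lit 55861415335) (nat_lit 76) (nat_lit 23628493466) (nat_lit 31) (nat_lit 5) (nat_lit 35) (nat_lit 5) (nat_lit 32) (nat_lit 5) (nat_lit 339) (nat_lit 302) (nat_lit 139))))))))
noncomputable def xc216 : XT := (XT.nd (nat_lit 1482) (nat_lit 608) (nat_lit 0) (XT.nd (nat_lit 702) (nat_lit 380) (nat_lit 0) (XT.nd (nat_lit 312) (nat_lit 380) (nat_lit 0) (XT.nd (nat_lit 156) (nat_lit 152) (nat_lit 0) (XT.nd (nat_lit 78) (nat_lit 152) (nat_lit 0) (XT.lf (nat_lit 0) (nat_lit 30659184053) (nat_lit 304) (nat_lit 15687304932) (nat_lit 76) (nat_lit 51856475987) (nat_lit 31) (nat_lit 5) (nat_lit 35) (nat_lit 5) (nat_lit 32) (nat_lit 5) (nat_lit 340) (nat_lit 302) (nat_lit 138)) (XT.lf (nat_lit 0) (nat_lit 27370144048) (nat_lit 152) (nat_lit 19767823688) (nat_lit 228) (nat_lit 54552612332) (nat_lit 29) (nat_lit 5) (nat_lit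 31) (nat_lit 5) (nat_lit 32) (nat_lit 5) (nat_lit 341) (nat_lit 302) (nat_lit 137))) (XT.nd (nat_lit 78) (nat_lit 152) (nat_lit 0) (XT.lf (nat_lit 0) (nat_lit 64836907665) (nat_lit 228) (nat_lit 32347037499) (nat_lit 76) (nat_lit 8148821203) (nat_lit 29) (nat_lit 5) (nat_lit 32) (nat_lit 5) (nat_lit 30) (nat_lit 5) (nat_lit 342) (nat_lit 302) (nat_lit 136)) (XT.lf (nat_lit 0) (nat_lit 11776559830) (nat_lit 152) (nat_lit 72151310147) (nat_lit 228) (nat_lit 25203839472) (nat_lit 27) (nat_lit 5) (nat_lit 29) (nat_lit 5) (nat_lit 30) (nat_lit 5) (nat_lit 343) (nat_lit 302) (nat_lit 135)))) (XT.nd (nat_lit 156) (nat_lit 304) (nat_lit 0) (XT.nd (nat_lit 78) (nat_lit 76) (nat_lit 0) (XT.lf (nat_lit 0) (nat_lit 59228042715) (nat_lit 152) (nat_lit 45292318157) (nat_lit 228) (nat_lit 8572890970) (nat_lit 27) (nat_lit 5) (nat_lit 29) (nat_lit 5) (nat_lit 30) (nat_lit 5) (nat_lit 344) (nat_lit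 302) (nat_lit 134)) (XT.lf (nat_lit 0) (nat_lit 8604275364) (nat_lit 228) (nat_lit 8340839013) (nat_lit 76) (nat_lit 100300858803) (nat_lit 26) (nat_lit 5) (nat_lit 29) (nat_lit 5) (nat_lit 27) (nat_lit 5) (nat_lit 345) (nat_lit 302) (nat_lit 133))) (XT.nd (nat_lit 78) (nat_lit 152) (nat_lit 0) (XT.lf (nat_lit 0) (nat_lit 27198428146) (nat_lit 228) (nat_lit 81162449663) (nat_lit 76) (nat_lit 13196115158) (nat_lit 24) (nat_lit 5) (nat_lit 27) (nat_lit 5) (nat_lit 25) (nat_lit 5) (nat_lit 346) (nat_lit 302) (nat_lit 132)) (XT.nd (nat_lit 78) (nat_lit 152) (nat_lit 0) (XT.lf (nat_lit 0) (nat_lit 47142891819) (nat_lit 228) (nat_lit 34501562488) (nat_lit 76) (nat_lit 44418080245) (nat_lit 24) (nat_lit 5) (nat_lit 27) (nat_lit 5) (nat_lit 25) (nat_lit 5) (nat_lit 347) (nat_lit 302) (nat_lit 131)) (XT.lf (nat_lit 0) (nat_lit 14970345055) (nat_lit 152) (nat_lit 53347241397) (nat_lit 228) (nat_lit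 62464117300) (nat_lit 22) (nat_lit 5) (nat_lit 24) (nat_lit 5) (nat_lit 25) (nat_lit 5) (nat_lit 348) (nat_lit 302) (nat_lit 130)))))) (XT.nd (nat_lit 390) (nat_lit 228) (nat_lit 0) (XT.nd (nat_lit 156) (nat_lit 152) (nat_lit 0) (XT.nd (nat_lit 78) (nat_lit 0) (nat_lit 0) (XT.lf (nat_lit 0) (nat_lit 68112514644) (nat_lit 152) (nat_lit 23022096961) (nat_lit 228) (nat_lit 44573040898) (nat_lit 22) (nat_lit 5) (nat_lit 24) (nat_lit 5) (nat_lit 25) (nat_lit 5) (nat_lit 349) (nat_lit 302) (nat_lit 129)) (XT.lf (nat_lit 0) (nat_lit 115229504162) (nat_lit 228) (nat_lit 17106922762) (nat_lit 76) (nat_lit 8536621799) (nat_lit 22) (nat_lit 5) (nat_lit 25) (nat_lit 5) (nat_lit 23) (nat_lit 4) (nat_lit 350) (nat_lit 302) (nat_lit 128))) (XT.nd (nat_lit 78) (nat_lit 76) (nat_lit 0) (XT.lf (nat_lit 0) (nat_lit 36701912827) (nat_lit 76) (nat_lit 104777014027) (nat_lit 152) (nat_lit 4770299424) (nat_lit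 21) (nat_lit 5) (nat_lit 22) (nat_lit 5) (nat_lit 23) (nat_lit 4) (nat_lit 351) (nat_lit 302) (nat_lit 127)) (XT.nd (nat_lit 78) (nat_lit 0) (nat_lit 0) (XT.lf (nat_lit 0) (nat_lit 16891630456) (nat_lit 152) (nat_lit 58358153071) (nat_lit 76) (nat_lit 76616353524) (nat_lit 20) (nat_lit 5) (nat_lit 22) (nat_lit 5) (nat_lit 21) (nat_lit 5) (nat_lit 352) (nat_lit 302) (nat_lit 126)) (XT.lf (nat_lit 0) (nat_lit 39475731680) (nat_lit 152) (nat_lit 4688759136) (nat_lit 76) (nat_lit 113595523747) (nat_lit 20) (nat_lit 5) (nat_lit 22) (nat_lit 5) (nat_lit 21) (nat_lit 5) (nat_lit 353) (nat_lit 302) (nat_lit 125))))) (XT.nd (nat_lit 156) (nat_lit 76) (nat_lit 0) (XT.nd (nat_lit 78) (nat_lit 0) (nat_lit 0) (XT.lf (nat_lit 0) (nat_lit 53371346776) (nat_lit 152) (nat_lit 10650384809) (nat_lit 228) (nat_lit 99885220341) (nat_lit 18) (nat_lit 5) (nat_lit 20) (nat_lit 5) (nat_lit 21) (nat_lit 5) (nat_lit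 354) (nat_lit 302) (nat_lit 124)) (XT.lf (nat_lit 0) (nat_lit 90258292895) (nat_lit 228) (nat_lit 56245437157) (nat_lit 76) (nat_lit 23834343661) (nat_lit 18) (nat_lit 5) (nat_lit 21) (nat_lit 5) (nat_lit 19) (nat_lit 4) (nat_lit 355) (nat_lit 302) (nat_lit 123))) (XT.nd (nat_lit 78) (nat_lit 0) (nat_lit 0) (XT.lf (nat_lit 0) (nat_lit 603008054) (nat_lit 76) (nat_lit 117387136800) (nat_lit 152) (nat_lit 59091434200) (nat_lit 17) (nat_lit 5) (nat_lit 18) (nat_lit 5) (nat_lit 19) (nat_lit 4) (nat_lit 356) (nat_lit 302) (nat_lit 122)) (XT.nd (nat_lit 78) (nat_lit 0) (nat_lit 0) (XT.lf (nat_lit 0) (nat_lit 62245670443) (nat_lit 76) (nat_lit 85814925894) (nat_lit 152) (nat_lit 36054063549) (nat_lit 17) (nat_lit 5) (nat_lit 18) (nat_lit 5) (nat_lit 19) (nat_lit 4) (nat_lit 357) (nat_lit 302) (nat_lit 121)) (XT.lf (nat_lit 0) (nat_lit 126969590087) (nat_lit 76) (nat_lit 52664469095) (nat_lit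 152) (nat_lit 11865361676) (nat_lit 17) (nat_lit 5) (nat_lit 18) (nat_lit 5) (nat_lit 19) (nat_lit 4) (nat_lit 358) (nat_lit 302) (nat_lit 120))))))) (XT.nd (nat_lit 780) (nat_lit 152) (nat_lit 0) (XT.nd (nat_lit 390) (nat_lit 152) (nat_lit 0) (XT.nd (nat_lit 156) (nat_lit 76) (nat_lit 0) (XT.nd (nat_lit 78) (nat_lit 152) (nat_lit 0) (XT.lf (nat_lit 0) (nat_lit 13099146621) (nat_lit 152) (nat_lit 4535849738) (nat_lit 76) (nat_lit 181607884551) (nat_lit 16) (nat_lit 5) (nat_lit 18) (nat_lit 5) (nat_lit 17) (nat_lit 5) (nat_lit 359) (nat_lit 302) (nat_lit 119)) (XT.lf (nat_lit 0) (nat_lit 40169883065) (nat_lit 228) (nat_lit 147445409754) (nat_lit 76) (nat_lit 19685658071) (nat_lit 14) (nat_lit 5) (nat_lit 17) (nat_lit 5) (nat_lit 15) (nat_lit 4) (nat_lit 360) (nat_lit 302) (nat_lit 118))) (XT.nd (nat_lit 78) (nat_lit 76) (nat_lit 0) (XT.lf (nat_lit 0) (nat_lit 68960863750) (nat_lit 228)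 (nat_lit 88425280823) (nat_lit 76) (nat_lit 58357444869) (nat_lit 14) (nat_lit 5) (nat_lit 17) (nat_lit 5) (nat_lit 15) (nat_lit 4) (nat_lit 361) (nat_lit 302) (nat_lit 117)) (XT.nd (nat_lit 78) (nat_lit 76) (nat_lit 0) (XT.lf (nat_lit 0) (nat_lit 99190948722) (nat_lit 228) (nat_lit 26454922320) (nat_lit 76) (nat_lit 98962511542) (nat_lit 14) (nat_lit 5) (nat_lit 17) (nat_lit 5) (nat_lit 15) (nat_lit 4) (nat_lit 362) (nat_lit 302) (nat_lit 116)) (XT.lf (nat_lit 0) (nat_lit 39889941472) (nat_lit 76) (nat_lit 91664966678) (nat_lit 152) (nat_lit 102330389124) (nat_lit 13) (nat_lit 5) (nat_lit 14) (nat_lit 5) (nat_lit 15) (nat_lit 4) (nat_lit 363) (nat_lit 302) (nat_lit 115))))) (XT.nd (nat_lit 156) (nat_lit 152) (nat_lit 0) (XT.nd (nat_lit 78) (nat_lit 0) (nat_lit 0) (XT.lf (nat_lit 0) (nat_lit 110469775676) (nat_lit 76) (nat_lit 55514902023) (nat_lit 152) (nat_lit 77618999780) (nat_lit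 13) (nat_lit 5) (nat_lit 14) (nat_lit 5) (nat_lit 15) (nat_lit 4) (nat_lit 364) (nat_lit 302) (nat_lit 114)) (XT.lf (nat_lit 0) (nat_lit 184577908307) (nat_lit 76) (nat_lit 17557632403) (nat_lit 152) (nat_lit 51672456098) (nat_lit 13) (nat_lit 5) (nat_lit 14) (nat_lit 5) (nat_lit 15) (nat_lit 4) (nat_lit 365) (nat_lit 302) (nat_lit 113))) (XT.nd (nat_lit 78) (nat_lit 152) (nat_lit 0) (XT.lf (nat_lit 0) (nat_lit 240441692708) (nat_lit 152) (nat_lit 2479886000) (nat_lit 0) (nat_lit 21583566451) (nat_lit 13) (nat_lit 5) (nat_lit 15) (nat_lit 4) (nat_lit 13) (nat_lit 4) (nat_lit 366) (nat_lit 302) (nat_lit 112)) (XT.nd (nat_lit 78) (nat_lit 0) (nat_lit 0) (XT.lf (nat_lit 0) (nat_lit 6164114319) (nat_lit 152) (nat_lit 206222673690) (nat_lit 76) (nat_lit 63276729015) (nat_lit 11) (nat_lit 5) (nat_lit 13) (nat_lit 5) (nat_lit 12) (nat_lit 4) (nat_lit 367) (nat_lit 302) (nat_lit 111)) (XT.lf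 (nat_lit 0) (nat_lit 37136694943) (nat_lit 152) (nat_lit 142729818446) (nat_lit 76) (nat_lit 107491453986) (nat_lit 11) (nat_lit 5) (nat_lit 13) (nat_lit 5) (nat_lit 12) (nat_lit 4) (nat_lit 368) (nat_lit 302) (nat_lit 110)))))) (XT.nd (nat_lit 468) (nat_lit 76) (nat_lit 0) (XT.nd (nat_lit 156) (nat_lit 76) (nat_lit 0) (XT.nd (nat_lit 78) (nat_lit 0) (nat_lit 0) (XT.lf (nat_lit 0) (nat_lit 69657560548) (nat_lit 152) (nat_lit 76062934465) (nat_lit 76) (nat_lit 153916662719) (nat_lit 11) (nat_lit 5) (nat_lit 13) (nat_lit 5) (nat_lit 12) (nat_lit 4) (nat_lit 369) (nat_lit 302) (nat_lit 109)) (XT.lf (nat_lit 0) (nat_lit 103804141767) (nat_lit 152) (nat_lit 6063291071) (nat_lit 76) (nat_lit 202662891426) (nat_lit 11) (nat_lit 5) (nat_lit 13) (nat_lit 5) (nat_lit 12) (nat_lit 4) (nat_lit 370) (nat_lit 302) (nat_lit 108))) (XT.nd (nat_lit 78) (nat_lit 0) (nat_lit 0) (XT.lf (nat_lit 0) (nat_lit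 69665508907) (nat_lit 76) (nat_lit 71079904907) (nat_lit 152) (nat_lit 185268367479) (nat_lit 10) (nat_lit 5) (nat_lit 11) (nat_lit 5) (nat_lit 12) (nat_lit 4) (nat_lit 371) (nat_lit 302) (nat_lit 107)) (XT.nd (nat_lit 78) (nat_lit 0) (nat_lit 0) (XT.lf (nat_lit 0) (nat_lit 149390704704) (nat_lit 76) (nat_lit 30245423771) (nat_lit 152) (nat_lit 160530163998) (nat_lit 10) (nat_lit 5) (nat_lit 11) (nat_lit 5) (nat_lit 12) (nat_lit 4) (nat_lit 372) (nat_lit 302) (nat_lit 106)) (XT.lf (nat_lit 0) (nat_lit 220668285963) (nat_lit 152) (nat_lit 122122003873) (nat_lit 0) (nat_lit 12226294254) (nat_lit 10) (nat_lit 5) (nat_lit 12) (nat_lit 4) (nat_lit 10) (nat_lit 4) (nat_lit 373) (nat_lit 302) (nat_lit 105))))) (XT.nd (nat_lit 35100) (nat_lit 0) (nat_lit 5472) (XT.nd (nat_lit 35022) (nat_lit 0) (nat_lit 5472) (XT.lf (nat_lit 0) (nat_lit 25451472737) (nat_lit 76) (nat_lit 284951502653) (nat_lit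 76) (nat_lit 76508213562) (nat_lit 9) (nat_lit 4) (nat_lit 10) (nat_lit 5) (nat_lit 10) (nat_lit 4) (nat_lit 375) (nat_lit 302) (nat_lit 103)) (XT.lf (nat_lit 0) (nat_lit 5245588013) (nat_lit 0) (nat_lit 5245588013) (nat_lit 684) (nat_lit 6220529302) (nat_lit 81) (nat_lit 5) (nat_lit 81) (nat_lit 3) (nat_lit 90) (nat_lit 3) (nat_lit 303) (nat_lit 303) (nat_lit 174))) (XT.nd (nat_lit 78) (nat_lit 0) (nat_lit 0) (XT.lf (nat_lit 0) (nat_lit 21630930996) (nat_lit 684) (nat_lit 8300516691) (nat_lit 760) (nat_lit 4321204197) (nat_lit 81) (nat_lit 5) (nat_lit 90) (nat_lit 3) (nat_lit 91) (nat_lit 5) (nat_lit 304) (nat_lit 303) (nat_lit 173)) (XT.nd (nat_lit 78) (nat_lit 0) (nat_lit 0) (XT.lf (nat_lit 76) (nat_lit 7116628348) (nat_lit 0) (nat_lit 15474957320) (nat_lit 760) (nat_lit 12517796324) (nat_lit 82) (nat_lit 5) (nat_lit 81) (nat_lit 5) (nat_lit 91) (nat_lit 5) (nat_lit 305) (nat_lit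 303) (nat_lit 172)) (XT.lf (nat_lit 76) (nat_lit 23590888415) (nat_lit 0) (nat_lit 146642061) (nat_lit 760) (nat_lit 12264563977) (nat_lit 82) (nat_lit 5) (nat_lit 81) (nat_lit 5) (nat_lit 91) (nat_lit 5) (nat_lit 306) (nat_lit 303) (nat_lit 171))))))))
noncomputable def xc217 : XT := (XT.nd (nat_lit 1482) (nat_lit 1976) (nat_lit 0) (XT.nd (nat_lit 702) (nat_lit 1672) (nat_lit 0) (XT.nd (nat_lit 312) (nat_lit 532) (nat_lit 0) (XT.nd (nat_lit 156) (nat_lit 0) (nat_lit 76) (XT.nd (nat_lit 78) (nat_lit 0) (nat_lit 0) (XT.lf (nat_lit 76) (nat_lit 3820697656) (nat_lit 0) (nat_lit 21425583859) (nat_lit 760) (nat_lit 11677893879) (nat_lit 83) (nat_lit 5) (nat_lit 82) (nat_lit 5) (nat_lit 92) (nat_lit 5) (nat_lit 307) (nat_lit 303) (nat_lit 170)) (XT.lf (nat_lit 76) (nat_lit 21290621487) (nat_lit 0) (nat_lit 5749384886) (nat_lit 760) (nat_lit 10841885104) (nat_lit 83) (nat_lit 5) (nat_lit 82)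 (nat_lit 5) (nat_lit 92) (nat_lit 5) (nat_lit 308) (nat_lit 303) (nat_lit 169))) (XT.nd (nat_lit 78) (nat_lit 0) (nat_lit 0) (XT.lf (nat_lit 76) (nat_lit 596359473) (nat_lit 0) (nat_lit 28500732179) (nat_lit 760) (nat_lit 9781725536) (nat_lit 84) (nat_lit 5) (nat_lit 83) (nat_lit 5) (nat_lit 93) (nat_lit 5) (nat_lit 309) (nat_lit 303) (nat_lit 168)) (XT.lf (nat_lit 76) (nat_lit 19119993295) (nat_lit 0) (nat_lit 12507996206) (nat_lit 760) (nat_lit 8279058940) (nat_lit 84) (nat_lit 5) (nat_lit 83) (nat_lit 5) (nat_lit 93) (nat_lit 5) (nat_lit 310) (nat_lit 303) (nat_lit 167)))) (XT.nd (nat_lit 156) (nat_lit 684) (nat_lit 0) (XT.nd (nat_lit 78) (nat_lit 0) (nat_lit 0) (XT.lf (nat_lit 0) (nat_lit 34349710592) (nat_lit 684) (nat_lit 2485846262) (nat_lit 760) (nat_lit 4147927319) (nat_lit 84) (nat_lit 5) (nat_lit 93) (nat_lit 5) (nat_lit 94) (nat_lit 5) (nat_lit 311) (nat_lit 303) (nat_lit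 166)) (XT.lf (nat_lit 76) (nat_lit 17069738183) (nat_lit 0) (nat_lit 20606846762) (nat_lit 760) (nat_lit 4413709893) (nat_lit 85) (nat_lit 5) (nat_lit 84) (nat_lit 5) (nat_lit 94) (nat_lit 5) (nat_lit 312) (nat_lit 303) (nat_lit 165))) (XT.nd (nat_lit 78) (nat_lit 684) (nat_lit 0) (XT.lf (nat_lit 76) (nat_lit 37687462672) (nat_lit 0) (nat_lit 3522039165) (nat_lit 760) (nat_lit 2040965455) (nat_lit 85) (nat_lit 5) (nat_lit 84) (nat_lit 5) (nat_lit 94) (nat_lit 5) (nat_lit 313) (nat_lit 303) (nat_lit 164)) (XT.nd (nat_lit 78) (nat_lit 0) (nat_lit 0) (XT.lf (nat_lit 0) (nat_lit 902463699) (nat_lit 760) (nat_lit 29335828058) (nat_lit 76) (nat_lit 14206687439) (nat_lit 75) (nat_lit 5) (nat_lit 85) (nat_lit 5) (nat_lit 76) (nat_lit 5) (nat_lit 314) (nat_lit 303) (nat_lit 163)) (XT.lf (nat_lit 0) (nat_lit 4075727031) (nat_lit 760) (nat_lit 8781221990) (nat_lit 76) (nat_lit 32833037475) (nat_lit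 75) (nat_lit 5) (nat_lit 85) (nat_lit 5) (nat_lit 76) (nat_lit 5) (nat_lit 315) (nat_lit 303) (nat_lit 162)))))) (XT.nd (nat_lit 390) (nat_lit 608) (nat_lit 0) (XT.nd (nat_lit 156) (nat_lit 684) (nat_lit 0) (XT.nd (nat_lit 78) (nat_lit 0) (nat_lit 0) (XT.lf (nat_lit 0) (nat_lit 7699550884) (nat_lit 456) (nat_lit 33852243250) (nat_lit 76) (nat_lit 5430860260) (nat_lit 70) (nat_lit 5) (nat_lit 76) (nat_lit 5) (nat_lit 71) (nat_lit 5) (nat_lit 316) (nat_lit 303) (nat_lit 161)) (XT.lf (nat_lit 0) (nat_lit 11864426797) (nat_lit 456) (nat_lit 12105244870) (nat_lit 76) (nat_lit 24352295831) (nat_lit 70) (nat_lit 5) (nat_lit 76) (nat_lit 5) (nat_lit 71) (nat_lit 5) (nat_lit 317) (nat_lit 303) (nat_lit 160))) (XT.nd (nat_lit 78) (nat_lit 304) (nat_lit 0) (XT.lf (nat_lit 0) (nat_lit 11081880980) (nat_lit 380) (nat_lit 5326721916) (nat_lit 456) (nat_lit 33311095168) (nat_lit 65) (nat_lit 5) (nat_lit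 70) (nat_lit 5) (nat_lit 71) (nat_lit 5) (nat_lit 318) (nat_lit 303) (nat_lit 159)) (XT.nd (nat_lit 78) (nat_lit 304) (nat_lit 0) (XT.lf (nat_lit 0) (nat_lit 21608915386) (nat_lit 456) (nat_lit 15556233343) (nat_lit 76) (nat_lit 14000724452) (nat_lit 65) (nat_lit 5) (nat_lit 71) (nat_lit 5) (nat_lit 66) (nat_lit 5) (nat_lit 319) (nat_lit 303) (nat_lit 158)) (XT.lf (nat_lit 0) (nat_lit 8874251428) (nat_lit 304) (nat_lit 18419059266) (nat_lit 380) (nat_lit 25379847194) (nat_lit 61) (nat_lit 5) (nat_lit 65) (nat_lit 5) (nat_lit 66) (nat_lit 5) (nat_lit 320) (nat_lit 303) (nat_lit 157))))) (XT.nd (nat_lit 156) (nat_lit 304) (nat_lit 0) (XT.nd (nat_lit 78) (nat_lit 304) (nat_lit 0) (XT.lf (nat_lit 0) (nat_lit 33547684240) (nat_lit 380) (nat_lit 19202300969) (nat_lit 76) (nat_lit 1491537693) (nat_lit 61) (nat_lit 5) (nat_lit 66) (nat_lit 5) (nat_lit 62) (nat_lit 5) (nat_lit 321) (nat_lit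 303) (nat_lit 156)) (XT.lf (nat_lit 0) (nat_lit 6529308521) (nat_lit 304) (nat_lit 33987691426) (nat_lit 380) (nat_lit 15351198851) (nat_lit 57) (nat_lit 5) (nat_lit 61) (nat_lit 5) (nat_lit 62) (nat_lit 5) (nat_lit 322) (nat_lit 303) (nat_lit 155))) (XT.nd (nat_lit 78) (nat_lit 304) (nat_lit 0) (XT.lf (nat_lit 0) (nat_lit 34212335773) (nat_lit 304) (nat_lit 13946027830) (nat_lit 380) (nat_lit 9401669401) (nat_lit 57) (nat_lit 5) (nat_lit 61) (nat_lit 5) (nat_lit 62) (nat_lit 5) (nat_lit 323) (nat_lit 303) (nat_lit 154)) (XT.nd (nat_lit 78) (nat_lit 76) (nat_lit 0) (XT.lf (nat_lit 0) (nat_lit 3957077500) (nat_lit 228) (nat_lit 52395770200) (nat_lit 304) (nat_lit 2975062056) (nat_lit 54) (nat_lit 5) (nat_lit 57) (nat_lit 5) (nat_lit 58) (nat_lit 5) (nat_lit 324) (nat_lit 303) (nat_lit 153)) (XT.lf (nat_lit 0) (nat_lit 4281103897) (nat_lit 304) (nat_lit 28022588646) (nat_lit 76) (nat_lit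 28846096485) (nat_lit 53) (nat_lit 5) (nat_lit 57) (nat_lit 5) (nat_lit 54) (nat_lit 5) (nat_lit 325) (nat_lit 303) (nat_lit 152))))))) (XT.nd (nat_lit 780) (nat_lit 760) (nat_lit 0) (XT.nd (nat_lit 390) (nat_lit 684) (nat_lit 0) (XT.nd (nat_lit 156) (nat_lit 228) (nat_lit 0) (XT.nd (nat_lit 78) (nat_lit 0) (nat_lit 0) (XT.lf (nat_lit 0) (nat_lit 663790396) (nat_lit 304) (nat_lit 11145216287) (nat_lit 380) (nat_lit 51250874478) (nat_lit 49) (nat_lit 5) (nat_lit 53) (nat_lit 5) (nat_lit 54) (nat_lit 5) (nat_lit 326) (nat_lit 303) (nat_lit 151)) (XT.lf (nat_lit 0) (nat_lit 20367096814) (nat_lit 380) (nat_lit 33466802825) (nat_lit 76) (nat_lit 11198891492) (nat_lit 49) (nat_lit 5) (nat_lit 54) (nat_lit 5) (nat_lit 50) (nat_lit 5) (nat_lit 327) (nat_lit 303) (nat_lit 150))) (XT.nd (nat_lit 78) (nat_lit 228) (nat_lit 0) (XT.lf (nat_lit 0) (nat_lit 29534451308) (nat_lit 380) (nat_lit 3275464645)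 (nat_lit 76) (nat_lit 34285365357) (nat_lit 49) (nat_lit 5) (nat_lit 54) (nat_lit 5) (nat_lit 50) (nat_lit 5) (nat_lit 328) (nat_lit 303) (nat_lit 149)) (XT.nd (nat_lit 78) (nat_lit 0) (nat_lit 0) (XT.lf (nat_lit 0) (nat_lit 29363635695) (nat_lit 228) (nat_lit 10253702089) (nat_lit 304) (nat_lit 29620702576) (nat_lit 46) (nat_lit 5) (nat_lit 49) (nat_lit 5) (nat_lit 50) (nat_lit 5) (nat_lit 329) (nat_lit 303) (nat_lit 148)) (XT.lf (nat_lit 0) (nat_lit 50469180860) (nat_lit 304) (nat_lit 7949008001) (nat_lit 76) (nat_lit 13056510339) (nat_lit 46) (nat_lit 5) (nat_lit 50) (nat_lit 5) (nat_lit 47) (nat_lit 5) (nat_lit 330) (nat_lit 303) (nat_lit 147))))) (XT.nd (nat_lit 156) (nat_lit 456) (nat_lit 0) (XT.nd (nat_lit 78) (nat_lit 0) (nat_lit 0) (XT.lf (nat_lit 0) (nat_lit 26242923740) (nat_lit 228) (nat_lit 36197317464) (nat_lit 304) (nat_lit 11354120859) (nat_lit 43) (nat_lit 5) (nat_lit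 46) (nat_lit 5) (nat_lit 47) (nat_lit 5) (nat_lit 331) (nat_lit 303) (nat_lit 146)) (XT.lf (nat_lit 0) (nat_lit 62418870413) (nat_lit 228) (nat_lit 12724443105) (nat_lit 304) (nat_lit 1080023826) (nat_lit 43) (nat_lit 5) (nat_lit 46) (nat_lit 5) (nat_lit 47) (nat_lit 5) (nat_lit 332) (nat_lit 303) (nat_lit 145))) (XT.nd (nat_lit 78) (nat_lit 228) (nat_lit 0) (XT.lf (nat_lit 0) (nat_lit 9936636045) (nat_lit 228) (nat_lit 56756327883) (nat_lit 76) (nat_lit 12046242824) (nat_lit 40) (nat_lit 5) (nat_lit 43) (nat_lit 5) (nat_lit 41) (nat_lit 5) (nat_lit 333) (nat_lit 303) (nat_lit 144)) (XT.nd (nat_lit 78) (nat_lit 228) (nat_lit 0) (XT.lf (nat_lit 0) (nat_lit 21912946193) (nat_lit 228) (nat_lit 21562008328) (nat_lit 76) (nat_lit 37882776107) (nat_lit 40) (nat_lit 5) (nat_lit 43) (nat_lit 5) (nat_lit 41) (nat_lit 5) (nat_lit 334) (nat_lit 303) (nat_lit 143)) (XT.lf (nat_lit 0) (nat_lit 15899437484)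 (nat_lit 228) (nat_lit 18835819486) (nat_lit 304) (nat_lit 49359566301) (nat_lit 37) (nat_lit 5) (nat_lit 40) (nat_lit 5) (nat_lit 41) (nat_lit 5) (nat_lit 335) (nat_lit 303) (nat_lit 142)))))) (XT.nd (nat_lit 390) (nat_lit 304) (nat_lit 0) (XT.nd (nat_lit 156) (nat_lit 304) (nat_lit 0) (XT.nd (nat_lit 78) (nat_lit 152) (nat_lit 0) (XT.lf (nat_lit 0) (nat_lit 48678644025) (nat_lit 304) (nat_lit 31085292670) (nat_lit 76) (nat_lit 7180837556) (nat_lit 37) (nat_lit 5) (nat_lit 41) (nat_lit 5) (nat_lit 38) (nat_lit 5) (nat_lit 336) (nat_lit 303) (nat_lit 141)) (XT.lf (nat_lit 0) (nat_lit 7820400441) (nat_lit 152) (nat_lit 55928702378) (nat_lit 228) (nat_lit 26166626504) (nat_lit 35) (nat_lit 5) (nat_lit 37) (nat_lit 5) (nat_lit 38) (nat_lit 5) (nat_lit 337) (nat_lit 303) (nat_lit 140))) (XT.nd (nat_lit 78) (nat_lit 304) (nat_lit 0) (XT.lf (nat_lit 0) (nat_lit 49749189931) (nat_lit 152)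 (nat_lit 30349383999) (nat_lit 228) (nat_lit 12910385329) (nat_lit 35) (nat_lit 5) (nat_lit 37) (nat_lit 5) (nat_lit 38) (nat_lit 5) (nat_lit 338) (nat_lit 303) (nat_lit 139)) (XT.nd (nat_lit 78) (nat_lit 228) (nat_lit 0) (XT.lf (nat_lit 0) (nat_lit 975458249) (nat_lit 228) (nat_lit 2499544787) (nat_lit 76) (nat_lit 92781107983) (nat_lit 34) (nat_lit 5) (nat_lit 37) (nat_lit 5) (nat_lit 35) (nat_lit 5) (nat_lit 339) (nat_lit 303) (nat_lit 138)) (XT.lf (nat_lit 0) (nat_lit 16167754043) (nat_lit 304) (nat_lit 58611966345) (nat_lit 76) (nat_lit 24823017379) (nat_lit 31) (nat_lit 5) (nat_lit 35) (nat_lit 5) (nat_lit 32) (nat_lit 5) (nat_lit 340) (nat_lit 303) (nat_lit 137))))) (XT.nd (nat_lit 156) (nat_lit 152) (nat_lit 0) (XT.nd (nat_lit 78) (nat_lit 152) (nat_lit 0) (XT.lf (nat_lit 0) (nat_lit 32218790437) (nat_lit 304) (nat_lit 16431175171) (nat_lit 76) (nat_lit 54461775253) (nat_lit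 31) (nat_lit 5) (nat_lit 35) (nat_lit 5) (nat_lit 32) (nat_lit 5) (nat_lit 341) (nat_lit 303) (nat_lit 136)) (XT.lf (nat_lit 0) (nat_lit 28778493112) (nat_lit 152) (nat_lit 20742373323) (nat_lit 228) (nat_lit 57252904526) (nat_lit 29) (nat_lit 5) (nat_lit 31) (nat_lit 5) (nat_lit 32) (nat_lit 5) (nat_lit 342) (nat_lit 303) (nat_lit 135))) (XT.nd (nat_lit 78) (nat_lit 152) (nat_lit 0) (XT.lf (nat_lit 0) (nat_lit 68103721064) (nat_lit 228) (nat_lit 33925376168) (nat_lit 76) (nat_lit 8569022771) (nat_lit 29) (nat_lit 5) (nat_lit 32) (nat_lit 5) (nat_lit 30) (nat_lit 5) (nat_lit 343) (nat_lit 303) (nat_lit 134)) (XT.nd (nat_lit 78) (nat_lit 0) (nat_lit 0) (XT.lf (nat_lit 0) (nat_lit 12403771783) (nat_lit 152) (nat_lit 75744870038) (nat_lit 228) (nat_lit 26438399631) (nat_lit 27) (nat_lit 5) (nat_lit 29) (nat_lit 5) (nat_lit 30) (nat_lit 5) (nat_lit 344) (nat_lit 303) (nat_lit 133)) (XT.lf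 (nat_lit 0) (nat_lit 62226001004) (nat_lit 152) (nat_lit 47543595382) (nat_lit 228) (nat_lit 8977124267) (nat_lit 27) (nat_lit 5) (nat_lit 29) (nat_lit 5) (nat_lit 30) (nat_lit 5) (nat_lit 345) (nat_lit 303) (nat_lit 132))))))))
noncomputable def xc218 : XT := (XT.nd (nat_lit 1482) (nat_lit 228) (nat_lit 0) (XT.nd (nat_lit 702) (nat_lit 532) (nat_lit 0) (XT.nd (nat_lit 312) (nat_lit 152) (nat_lit 0) (XT.nd (nat_lit 156) (nat_lit 152) (nat_lit 0) (XT.nd (nat_lit 78) (nat_lit 152) (nat_lit 0) (XT.lf (nat_lit 0) (nat_lit 9056993836) (nat_lit 228) (nat_lit 8722291624) (nat_lit 76) (nat_lit 105327831295) (nat_lit 26) (nat_lit 5) (nat_lit 29) (nat_lit 5) (nat_lit 27) (nat_lit 5) (nat_lit 346) (nat_lit 303) (nat_lit 131)) (XT.lf (nat_lit 0) (nat_lit 28580532814) (nat_lit 228) (nat_lit 85184632937) (nat_lit 76) (nat_lit 13868539275) (nat_lit 24) (nat_lit 5) (nat_lit 27) (nat_lit 5) (nat_lit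 25) (nat_lit 5) (nat_lit 347) (nat_lit 303) (nat_lit 130))) (XT.nd (nat_lit 78) (nat_lit 152) (nat_lit 0) (XT.lf (nat_lit 0) (nat_lit 49521163325) (nat_lit 228) (nat_lit 36192412794) (nat_lit 76) (nat_lit 46651001743) (nat_lit 24) (nat_lit 5) (nat_lit 27) (nat_lit 5) (nat_lit 25) (nat_lit 5) (nat_lit 348) (nat_lit 303) (nat_lit 129)) (XT.lf (nat_lit 0) (nat_lit 15752538065) (nat_lit 152) (nat_lit 56001574354) (nat_lit 228) (nat_lit 65565618405) (nat_lit 22) (nat_lit 5) (nat_lit 24) (nat_lit 5) (nat_lit 25) (nat_lit 5) (nat_lit 349) (nat_lit 303) (nat_lit 128)))) (XT.nd (nat_lit 156) (nat_lit 152) (nat_lit 0) (XT.nd (nat_lit 78) (nat_lit 0) (nat_lit 0) (XT.lf (nat_lit 0) (nat_lit 71550212526) (nat_lit 152) (nat_lit 24160793131) (nat_lit 228) (nat_lit 46781021743) (nat_lit 22) (nat_lit 5) (nat_lit 24) (nat_lit 5) (nat_lit 25) (nat_lit 5) (nat_lit 350) (nat_lit 303) (nat_lit 127)) (XT.lf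 (nat_lit 0) (nat_lit 121009890994) (nat_lit 228) (nat_lit 17930948762) (nat_lit 76) (nat_lit 8974892435) (nat_lit 22) (nat_lit 5) (nat_lit 25) (nat_lit 5) (nat_lit 23) (nat_lit 4) (nat_lit 351) (nat_lit 303) (nat_lit 126))) (XT.nd (nat_lit 78) (nat_lit 76) (nat_lit 0) (XT.lf (nat_lit 0) (nat_lit 38567823443) (nat_lit 76) (nat_lit 110003541932) (nat_lit 152) (nat_lit 4989375334) (nat_lit 21) (nat_lit 5) (nat_lit 22) (nat_lit 5) (nat_lit 23) (nat_lit 4) (nat_lit 352) (nat_lit 303) (nat_lit 125)) (XT.nd (nat_lit 78) (nat_lit 0) (nat_lit 0) (XT.lf (nat_lit 0) (nat_lit 17754132826) (nat_lit 152) (nat_lit 61246100384) (nat_lit 76) (nat_lit 80458294450) (nat_lit 20) (nat_lit 5) (nat_lit 22) (nat_lit 5) (nat_lit 21) (nat_lit 5) (nat_lit 353) (nat_lit 303) (nat_lit 124)) (XT.lf (nat_lit 0) (nat_lit 41466585737) (nat_lit 152) (nat_lit 4894663434) (nat_lit 76) (nat_lit 119285893505) (nat_lit 20)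 (nat_lit 5) (nat_lit 22) (nat_lit 5) (nat_lit 21) (nat_lit 5) (nat_lit 354) (nat_lit 303) (nat_lit 123)))))) (XT.nd (nat_lit 390) (nat_lit 304) (nat_lit 0) (XT.nd (nat_lit 156) (nat_lit 76) (nat_lit 0) (XT.nd (nat_lit 78) (nat_lit 0) (nat_lit 0) (XT.lf (nat_lit 0) (nat_lit 56067987553) (nat_lit 152) (nat_lit 11171523653) (nat_lit 228) (nat_lit 104861935341) (nat_lit 18) (nat_lit 5) (nat_lit 20) (nat_lit 5) (nat_lit 21) (nat_lit 5) (nat_lit 355) (nat_lit 303) (nat_lit 122)) (XT.lf (nat_lit 0) (nat_lit 94787274893) (nat_lit 228) (nat_lit 59030329268) (nat_lit 76) (nat_lit 25036552418) (nat_lit 18) (nat_lit 5) (nat_lit 21) (nat_lit 5) (nat_lit 19) (nat_lit 4) (nat_lit 356) (nat_lit 303) (nat_lit 121))) (XT.nd (nat_lit 78) (nat_lit 0) (nat_lit 0) (XT.lf (nat_lit 0) (nat_lit 660096595) (nat_lit 76) (nat_lit 123245278323) (nat_lit 152) (nat_lit 62029480327) (nat_lit 17) (nat_lit 5) (nat_lit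 18) (nat_lit 5) (nat_lit 19) (nat_lit 4) (nat_lit 357) (nat_lit 303) (nat_lit 120)) (XT.nd (nat_lit 78) (nat_lit 0) (nat_lit 0) (XT.lf (nat_lit 0) (nat_lit 65383609335) (nat_lit 76) (nat_lit 90094990934) (nat_lit 152) (nat_lit 37841028076) (nat_lit 17) (nat_lit 5) (nat_lit 18) (nat_lit 5) (nat_lit 19) (nat_lit 4) (nat_lit 358) (nat_lit 303) (nat_lit 119)) (XT.lf (nat_lit 0) (nat_lit 133342503277) (nat_lit 76) (nat_lit 55287519927) (nat_lit 152) (nat_lit 12443640569) (nat_lit 17) (nat_lit 5) (nat_lit 18) (nat_lit 5) (nat_lit 19) (nat_lit 4) (nat_lit 359) (nat_lit 303) (nat_lit 118))))) (XT.nd (nat_lit 156) (nat_lit 76) (nat_lit 0) (XT.nd (nat_lit 78) (nat_lit 152) (nat_lit 0) (XT.lf (nat_lit 0) (nat_lit 13767922469) (nat_lit 152) (nat_lit 4738901472) (nat_lit 76) (nat_lit 190697496415) (nat_lit 16) (nat_lit 5) (nat_lit 18) (nat_lit 5) (nat_lit 17) (nat_lit 5) (nat_lit 360) (nat_lit 303)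 (nat_lit 117)) (XT.lf (nat_lit 0) (nat_lit 42192055908) (nat_lit 228) (nat_lit 154793786638) (nat_lit 76) (nat_lit 20679458931) (nat_lit 14) (nat_lit 5) (nat_lit 17) (nat_lit 5) (nat_lit 15) (nat_lit 4) (nat_lit 361) (nat_lit 303) (nat_lit 116))) (XT.nd (nat_lit 78) (nat_lit 76) (nat_lit 0) (XT.lf (nat_lit 0) (nat_lit 72421934261) (nat_lit 228) (nat_lit 92823789052) (nat_lit 76) (nat_lit 61284381834) (nat_lit 14) (nat_lit 5) (nat_lit 17) (nat_lit 5) (nat_lit 15) (nat_lit 4) (nat_lit 362) (nat_lit 303) (nat_lit 115)) (XT.nd (nat_lit 78) (nat_lit 76) (nat_lit 0) (XT.lf (nat_lit 0) (nat_lit 104162903132) (nat_lit 228) (nat_lit 27755996233) (nat_lit 76) (nat_lit 103919270187) (nat_lit 14) (nat_lit 5) (nat_lit 17) (nat_lit 5) (nat_lit 15) (nat_lit 4) (nat_lit 363) (nat_lit 303) (nat_lit 114)) (XT.lf (nat_lit 0) (nat_lit 41905761197) (nat_lit 76) (nat_lit 96239041434) (nat_lit 152) (nat_lit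 107434140805) (nat_lit 13) (nat_lit 5) (nat_lit 14) (nat_lit 5) (nat_lit 15) (nat_lit 4) (nat_lit 364) (nat_lit 303) (nat_lit 113))))))) (XT.nd (nat_lit 36036) (nat_lit 0) (nat_lit 4940) (XT.nd (nat_lit 390) (nat_lit 76) (nat_lit 0) (XT.nd (nat_lit 156) (nat_lit 152) (nat_lit 0) (XT.nd (nat_lit 78) (nat_lit 0) (nat_lit 0) (XT.lf (nat_lit 0) (nat_lit 116013571746) (nat_lit 76) (nat_lit 58281910382) (nat_lit 152) (nat_lit 81487789982) (nat_lit 13) (nat_lit 5) (nat_lit 14) (nat_lit 5) (nat_lit 15) (nat_lit 4) (nat_lit 365) (nat_lit 303) (nat_lit 112)) (XT.lf (nat_lit 0) (nat_lit 193826143995) (nat_lit 76) (nat_lit 18427193317) (nat_lit 152) (nat_lit 54244498154) (nat_lit 13) (nat_lit 5) (nat_lit 14) (nat_lit 5) (nat_lit 15) (nat_lit 4) (nat_lit 366) (nat_lit 303) (nat_lit 111))) (XT.nd (nat_lit 78) (nat_lit 152) (nat_lit 0) (XT.lf (nat_lit 0) (nat_lit 252474395892) (nat_lit 152) (nat_lit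 2585050257) (nat_lit 0) (nat_lit 22670415623) (nat_lit 13) (nat_lit 5) (nat_lit 15) (nat_lit 4) (nat_lit 13) (nat_lit 4) (nat_lit 367) (nat_lit 303) (nat_lit 110)) (XT.nd (nat_lit 78) (nat_lit 0) (nat_lit 0) (XT.lf (nat_lit 0) (nat_lit 6482901672) (nat_lit 152) (nat_lit 216514922350) (nat_lit 76) (nat_lit 66448330956) (nat_lit 11) (nat_lit 5) (nat_lit 13) (nat_lit 5) (nat_lit 12) (nat_lit 4) (nat_lit 368) (nat_lit 303) (nat_lit 109)) (XT.lf (nat_lit 0) (nat_lit 39003607440) (nat_lit 152) (nat_lit 149848323631) (nat_lit 76) (nat_lit 112873422390) (nat_lit 11) (nat_lit 5) (nat_lit 13) (nat_lit 5) (nat_lit 12) (nat_lit 4) (nat_lit 369) (nat_lit 303) (nat_lit 108))))) (XT.nd (nat_lit 156) (nat_lit 76) (nat_lit 0) (XT.nd (nat_lit 78) (nat_lit 0) (nat_lit 0) (XT.lf (nat_lit 0) (nat_lit 73150036433) (nat_lit 152) (nat_lit 79848951915) (nat_lit 76) (nat_lit 161619539383) (nat_lit 11) (nat_lit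 5) (nat_lit 13) (nat_lit 5) (nat_lit 12) (nat_lit 4) (nat_lit 370) (nat_lit 303) (nat_lit 107)) (XT.lf (nat_lit 0) (nat_lit 109003489672) (nat_lit 152) (nat_lit 6350142031) (nat_lit 76) (nat_lit 212802744119) (nat_lit 11) (nat_lit 5) (nat_lit 13) (nat_lit 5) (nat_lit 12) (nat_lit 4) (nat_lit 371) (nat_lit 303) (nat_lit 106))) (XT.nd (nat_lit 35334) (nat_lit 0) (nat_lit 5396) (XT.lf (nat_lit 0) (nat_lit 73164834824) (nat_lit 76) (nat_lit 74626805814) (nat_lit 152) (nat_lit 194522374663) (nat_lit 10) (nat_lit 5) (nat_lit 11) (nat_lit 5) (nat_lit 12) (nat_lit 4) (nat_lit 372) (nat_lit 303) (nat_lit 105)) (XT.nd (nat_lit 78) (nat_lit 0) (nat_lit 0) (XT.lf (nat_lit 0) (nat_lit 5534604994) (nat_lit 0) (nat_lit 5534604994) (nat_lit 684) (nat_lit 6475266050) (nat_lit 81) (nat_lit 5) (nat_lit 81) (nat_lit 3) (nat_lit 90) (nat_lit 3) (nat_lit 304) (nat_lit 304) (nat_lit 172)) (XT.lf (nat_lit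 0) (nat_lit 22813539857) (nat_lit 684) (nat_lit 8658457602) (nat_lit 760) (nat_lit 4487965719) (nat_lit 81) (nat_lit 5) (nat_lit 90) (nat_lit 3) (nat_lit 91) (nat_lit 5) (nat_lit 305) (nat_lit 304) (nat_lit 171)))))) (XT.nd (nat_lit 390) (nat_lit 456) (nat_lit 0) (XT.nd (nat_lit 156) (nat_lit 0) (nat_lit 76) (XT.nd (nat_lit 78) (nat_lit 0) (nat_lit 0) (XT.lf (nat_lit 76) (nat_lit 7528623964) (nat_lit 0) (nat_lit 16289667687) (nat_lit 760) (nat_lit 13041447690) (nat_lit 82) (nat_lit 5) (nat_lit 81) (nat_lit 5) (nat_lit 91) (nat_lit 5) (nat_lit 306) (nat_lit 304) (nat_lit 170)) (XT.lf (nat_lit 76) (nat_lit 24823922549) (nat_lit 0) (nat_lit 192986070) (nat_lit 760) (nat_lit 12780422224) (nat_lit 82) (nat_lit 5) (nat_lit 81) (nat_lit 5) (nat_lit 91) (nat_lit 5) (nat_lit 307) (nat_lit 304) (nat_lit 169))) (XT.nd (nat_lit 78) (nat_lit 0) (nat_lit 0) (XT.lf (nat_lit 76) (nat_lit 4069748587)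 (nat_lit 0) (nat_lit 22527269495) (nat_lit 760) (nat_lit 12168713288) (nat_lit 83) (nat_lit 5) (nat_lit 82) (nat_lit 5) (nat_lit 92) (nat_lit 5) (nat_lit 308) (nat_lit 304) (nat_lit 168)) (XT.nd (nat_lit 78) (nat_lit 0) (nat_lit 76) (XT.lf (nat_lit 76) (nat_lit 22410405941) (nat_lit 0) (nat_lit 6065812647) (nat_lit 760) (nat_lit 11295336230) (nat_lit 83) (nat_lit 5) (nat_lit 82) (nat_lit 5) (nat_lit 92) (nat_lit 5) (nat_lit 309) (nat_lit 304) (nat_lit 167)) (XT.lf (nat_lit 76) (nat_lit 685344234) (nat_lit 0) (nat_lit 29947296972) (nat_lit 760) (nat_lit 10185871961) (nat_lit 84) (nat_lit 5) (nat_lit 83) (nat_lit 5) (nat_lit 93) (nat_lit 5) (nat_lit 310) (nat_lit 304) (nat_lit 166))))) (XT.nd (nat_lit 156) (nat_lit 608) (nat_lit 0) (XT.nd (nat_lit 78) (nat_lit 0) (nat_lit 76) (XT.lf (nat_lit 76) (nat_lit 20132342282) (nat_lit 0) (nat_lit 13153899049) (nat_lit 760) (nat_lit 8612116790)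 (nat_lit 84) (nat_lit 5) (nat_lit 83) (nat_lit 5) (nat_lit 93) (nat_lit 5) (nat_lit 311) (nat_lit 304) (nat_lit 165)) (XT.lf (nat_lit 0) (nat_lit 36140083974) (nat_lit 684) (nat_lit 2552317457) (nat_lit 760) (nat_lit 4336421963) (nat_lit 84) (nat_lit 5) (nat_lit 93) (nat_lit 5) (nat_lit 94) (nat_lit 5) (nat_lit 312) (nat_lit 304) (nat_lit 164))) (XT.nd (nat_lit 78) (nat_lit 684) (nat_lit 0) (XT.lf (nat_lit 76) (nat_lit 17980113612) (nat_lit 0) (nat_lit 21650605772) (nat_lit 760) (nat_lit 4560393418) (nat_lit 85) (nat_lit 5) (nat_lit 84) (nat_lit 5) (nat_lit 94) (nat_lit 5) (nat_lit 313) (nat_lit 304) (nat_lit 163)) (XT.nd (nat_lit 78) (nat_lit 684) (nat_lit 0) (XT.lf (nat_lit 76) (nat_lit 39626015347) (nat_lit 0) (nat_lit 3710918906) (nat_lit 760) (nat_lit 2072535662) (nat_lit 85) (nat_lit 5) (nat_lit 84) (nat_lit 5) (nat_lit 94) (nat_lit 5) (nat_lit 314) (nat_lit 304) (nat_lit 162))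 (XT.lf (nat_lit 0) (nat_lit 1013271395) (nat_lit 760) (nat_lit 30743324919) (nat_lit 76) (nat_lit 14907190813) (nat_lit 75) (nat_lit 5) (nat_lit 85) (nat_lit 5) (nat_lit 76) (nat_lit 5) (nat_lit 315) (nat_lit 304) (nat_lit 161))))))))
noncomputable def xc219 : XT := (XT.nd (nat_lit 1560) (nat_lit 1520) (nat_lit 0) (XT.nd (nat_lit 780) (nat_lit 1064) (nat_lit 0) (XT.nd (nat_lit 390) (nat_lit 836) (nat_lit 0) (XT.nd (nat_lit 156) (nat_lit 380) (nat_lit 0) (XT.nd (nat_lit 78) (nat_lit 380) (nat_lit 0) (XT.lf (nat_lit 0) (nat_lit 4342070061) (nat_lit 760) (nat_lit 9163812098) (nat_lit 76) (nat_lit 34465326493) (nat_lit 75) (nat_lit 5) (nat_lit 85) (nat_lit 5) (nat_lit 76) (nat_lit 5) (nat_lit 316) (nat_lit 304) (nat_lit 160)) (XT.lf (nat_lit 0) (nat_lit 8144897397) (nat_lit 456) (nat_lit 35486054486) (nat_lit 76) (nat_lit 5697674557) (nat_lit 70) (nat_lit 5) (nat_lit 76) (nat_lit 5) (nat_lit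 71) (nat_lit 5) (nat_lit 317) (nat_lit 304) (nat_lit 159))) (XT.nd (nat_lit 78) (nat_lit 380) (nat_lit 0) (XT.lf (nat_lit 0) (nat_lit 12515142393) (nat_lit 456) (nat_lit 12654506232) (nat_lit 76) (nat_lit 25565407084) (nat_lit 70) (nat_lit 5) (nat_lit 76) (nat_lit 5) (nat_lit 71) (nat_lit 5) (nat_lit 318) (nat_lit 304) (nat_lit 158)) (XT.nd (nat_lit 78) (nat_lit 0) (nat_lit 0) (XT.lf (nat_lit 0) (nat_lit 11691072671) (nat_lit 380) (nat_lit 5593577032) (nat_lit 456) (nat_lit 34918123429) (nat_lit 65) (nat_lit 5) (nat_lit 70) (nat_lit 5) (nat_lit 71) (nat_lit 5) (nat_lit 319) (nat_lit 304) (nat_lit 157)) (XT.lf (nat_lit 0) (nat_lit 22742321688) (nat_lit 456) (nat_lit 16278792077) (nat_lit 76) (nat_lit 14700282189) (nat_lit 65) (nat_lit 5) (nat_lit 71) (nat_lit 5) (nat_lit 66) (nat_lit 5) (nat_lit 320) (nat_lit 304) (nat_lit 156))))) (XT.nd (nat_lit 156) (nat_lit 532) (nat_lit 0) (XT.nd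 (nat_lit 78) (nat_lit 0) (nat_lit 0) (XT.lf (nat_lit 0) (nat_lit 9372325757) (nat_lit 304) (nat_lit 19336937815) (nat_lit 380) (nat_lit 26594870836) (nat_lit 61) (nat_lit 5) (nat_lit 65) (nat_lit 5) (nat_lit 66) (nat_lit 5) (nat_lit 321) (nat_lit 304) (nat_lit 155)) (XT.lf (nat_lit 0) (nat_lit 35273959255) (nat_lit 380) (nat_lit 20108134939) (nat_lit 76) (nat_lit 1568948878) (nat_lit 61) (nat_lit 5) (nat_lit 66) (nat_lit 5) (nat_lit 62) (nat_lit 5) (nat_lit 322) (nat_lit 304) (nat_lit 154))) (XT.nd (nat_lit 78) (nat_lit 228) (nat_lit 0) (XT.lf (nat_lit 0) (nat_lit 6909179524) (nat_lit 304) (nat_lit 35681066900) (nat_lit 380) (nat_lit 16068886360) (nat_lit 57) (nat_lit 5) (nat_lit 61) (nat_lit 5) (nat_lit 62) (nat_lit 5) (nat_lit 323) (nat_lit 304) (nat_lit 153)) (XT.nd (nat_lit 78) (nat_lit 228) (nat_lit 0) (XT.lf (nat_lit 0) (nat_lit 35973815016) (nat_lit 304) (nat_lit 14637606271)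 (nat_lit 380) (nat_lit 9824255315) (nat_lit 57) (nat_lit 5) (nat_lit 61) (nat_lit 5) (nat_lit 62) (nat_lit 5) (nat_lit 324) (nat_lit 304) (nat_lit 152)) (XT.lf (nat_lit 0) (nat_lit 4207205576) (nat_lit 228) (nat_lit 55007175757) (nat_lit 304) (nat_lit 3077633086) (nat_lit 54) (nat_lit 5) (nat_lit 57) (nat_lit 5) (nat_lit 58) (nat_lit 5) (nat_lit 325) (nat_lit 304) (nat_lit 151)))))) (XT.nd (nat_lit 390) (nat_lit 456) (nat_lit 0) (XT.nd (nat_lit 156) (nat_lit 228) (nat_lit 0) (XT.nd (nat_lit 78) (nat_lit 304) (nat_lit 0) (XT.lf (nat_lit 0) (nat_lit 4537734290) (nat_lit 304) (nat_lit 29372438083) (nat_lit 76) (nat_lit 30294890033) (nat_lit 53) (nat_lit 5) (nat_lit 57) (nat_lit 5) (nat_lit 54) (nat_lit 5) (nat_lit 326) (nat_lit 304) (nat_lit 150)) (XT.lf (nat_lit 0) (nat_lit 747432815) (nat_lit 304) (nat_lit 11693359722) (nat_lit 380) (nat_lit 53769932752) (nat_lit 49) (nat_lit 5) (nat_lit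 53) (nat_lit 5) (nat_lit 54) (nat_lit 5) (nat_lit 327) (nat_lit 304) (nat_lit 149))) (XT.nd (nat_lit 78) (nat_lit 228) (nat_lit 0) (XT.lf (nat_lit 0) (nat_lit 21424954385) (nat_lit 380) (nat_lit 35090180603) (nat_lit 76) (nat_lit 11767241368) (nat_lit 49) (nat_lit 5) (nat_lit 54) (nat_lit 5) (nat_lit 50) (nat_lit 5) (nat_lit 328) (nat_lit 304) (nat_lit 148)) (XT.nd (nat_lit 78) (nat_lit 228) (nat_lit 0) (XT.lf (nat_lit 0) (nat_lit 31048795521) (nat_lit 380) (nat_lit 3391654674) (nat_lit 76) (nat_lit 36007638674) (nat_lit 49) (nat_lit 5) (nat_lit 54) (nat_lit 5) (nat_lit 50) (nat_lit 5) (nat_lit 329) (nat_lit 304) (nat_lit 147)) (XT.lf (nat_lit 0) (nat_lit 30878633212) (nat_lit 228) (nat_lit 10756132526) (nat_lit 304) (nat_lit 31063276753) (nat_lit 46) (nat_lit 5) (nat_lit 49) (nat_lit 5) (nat_lit 50) (nat_lit 5) (nat_lit 330) (nat_lit 304) (nat_lit 146))))) (XT.nd (nat_lit 156) (nat_lit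 228) (nat_lit 0) (XT.nd (nat_lit 78) (nat_lit 228) (nat_lit 0) (XT.lf (nat_lit 0) (nat_lit 53027612446) (nat_lit 304) (nat_lit 8300215054) (nat_lit 76) (nat_lit 13718789622) (nat_lit 46) (nat_lit 5) (nat_lit 50) (nat_lit 5) (nat_lit 47) (nat_lit 5) (nat_lit 331) (nat_lit 304) (nat_lit 145)) (XT.lf (nat_lit 0) (nat_lit 27600567414) (nat_lit 228) (nat_lit 37995703376) (nat_lit 304) (nat_lit 11886043344) (nat_lit 43) (nat_lit 5) (nat_lit 46) (nat_lit 5) (nat_lit 47) (nat_lit 5) (nat_lit 332) (nat_lit 304) (nat_lit 144))) (XT.nd (nat_lit 78) (nat_lit 228) (nat_lit 0) (XT.lf (nat_lit 0) (nat_lit 65583144874) (nat_lit 228) (nat_lit 13349731965) (nat_lit 304) (nat_lit 1099945439) (nat_lit 43) (nat_lit 5) (nat_lit 46) (nat_lit 5) (nat_lit 47) (nat_lit 5) (nat_lit 333) (nat_lit 304) (nat_lit 143)) (XT.nd (nat_lit 78) (nat_lit 0) (nat_lit 0) (XT.lf (nat_lit 0) (nat_lit 10465751119) (nat_lit 228)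 (nat_lit 59548901649) (nat_lit 76) (nat_lit 12659843875) (nat_lit 40) (nat_lit 5) (nat_lit 43) (nat_lit 5) (nat_lit 41) (nat_lit 5) (nat_lit 334) (nat_lit 304) (nat_lit 142)) (XT.lf (nat_lit 0) (nat_lit 23039339475) (nat_lit 228) (nat_lit 22597020527) (nat_lit 76) (nat_lit 39787666255) (nat_lit 40) (nat_lit 5) (nat_lit 43) (nat_lit 5) (nat_lit 41) (nat_lit 5) (nat_lit 335) (nat_lit 304) (nat_lit 141))))))) (XT.nd (nat_lit 780) (nat_lit 532) (nat_lit 0) (XT.nd (nat_lit 390) (nat_lit 532) (nat_lit 0) (XT.nd (nat_lit 156) (nat_lit 228) (nat_lit 0) (XT.nd (nat_lit 78) (nat_lit 0) (nat_lit 0) (XT.lf (nat_lit 0) (nat_lit 16736802604) (nat_lit 228) (nat_lit 19765160971) (nat_lit 304) (nat_lit 51796052622) (nat_lit 37) (nat_lit 5) (nat_lit 40) (nat_lit 5) (nat_lit 41) (nat_lit 5) (nat_lit 336) (nat_lit 304) (nat_lit 140)) (XT.lf (nat_lit 0) (nat_lit 51141279205) (nat_lit 304) (nat_lit 32597893387)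 (nat_lit 76) (nat_lit 7551356604) (nat_lit 37) (nat_lit 5) (nat_lit 41) (nat_lit 5) (nat_lit 38) (nat_lit 5) (nat_lit 337) (nat_lit 304) (nat_lit 139))) (XT.nd (nat_lit 78) (nat_lit 76) (nat_lit 0) (XT.lf (nat_lit 0) (nat_lit 8252412381) (nat_lit 152) (nat_lit 58712121747) (nat_lit 228) (nat_lit 27445536548) (nat_lit 35) (nat_lit 5) (nat_lit 37) (nat_lit 5) (nat_lit 38) (nat_lit 5) (nat_lit 338) (nat_lit 304) (nat_lit 138)) (XT.nd (nat_lit 78) (nat_lit 76) (nat_lit 0) (XT.lf (nat_lit 0) (nat_lit 52275689350) (nat_lit 152) (nat_lit 31854457247) (nat_lit 228) (nat_lit 13527884328) (nat_lit 35) (nat_lit 5) (nat_lit 37) (nat_lit 5) (nat_lit 38) (nat_lit 5) (nat_lit 339) (nat_lit 304) (nat_lit 137)) (XT.lf (nat_lit 0) (nat_lit 1050063013) (nat_lit 228) (nat_lit 2586447031) (nat_lit 76) (nat_lit 97431074933) (nat_lit 34) (nat_lit 5) (nat_lit 37) (nat_lit 5) (nat_lit 35) (nat_lit 5) (nat_lit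 340) (nat_lit 304) (nat_lit 136))))) (XT.nd (nat_lit 156) (nat_lit 304) (nat_lit 0) (XT.nd (nat_lit 78) (nat_lit 0) (nat_lit 0) (XT.lf (nat_lit 0) (nat_lit 17001520014) (nat_lit 304) (nat_lit 61503997989) (nat_lit 76) (nat_lit 26076049645) (nat_lit 31) (nat_lit 5) (nat_lit 35) (nat_lit 5) (nat_lit 32) (nat_lit 5) (nat_lit 341) (nat_lit 304) (nat_lit 135)) (XT.lf (nat_lit 0) (nat_lit 33853899739) (nat_lit 304) (nat_lit 17216003765) (nat_lit 76) (nat_lit 57196179631) (nat_lit 31) (nat_lit 5) (nat_lit 35) (nat_lit 5) (nat_lit 32) (nat_lit 5) (nat_lit 342) (nat_lit 304) (nat_lit 134))) (XT.nd (nat_lit 78) (nat_lit 152) (nat_lit 0) (XT.lf (nat_lit 0) (nat_lit 30253555511) (nat_lit 152) (nat_lit 21766937295) (nat_lit 228) (nat_lit 60090752998) (nat_lit 29) (nat_lit 5) (nat_lit 31) (nat_lit 5) (nat_lit 32) (nat_lit 5) (nat_lit 343) (nat_lit 304) (nat_lit 133)) (XT.nd (nat_lit 78) (nat_lit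 152) (nat_lit 0) (XT.lf (nat_lit 0) (nat_lit 71531553844) (nat_lit 228) (nat_lit 35586258848) (nat_lit 76) (nat_lit 9009048067) (nat_lit 29) (nat_lit 5) (nat_lit 32) (nat_lit 5) (nat_lit 30) (nat_lit 5) (nat_lit 344) (nat_lit 304) (nat_lit 132)) (XT.lf (nat_lit 0) (nat_lit 13058775756) (nat_lit 152) (nat_lit 79519410033) (nat_lit 228) (nat_lit 27737070801) (nat_lit 27) (nat_lit 5) (nat_lit 29) (nat_lit 5) (nat_lit 30) (nat_lit 5) (nat_lit 345) (nat_lit 304) (nat_lit 131)))))) (XT.nd (nat_lit 390) (nat_lit 152) (nat_lit 0) (XT.nd (nat_lit 156) (nat_lit 304) (nat_lit 0) (XT.nd (nat_lit 78) (nat_lit 76) (nat_lit 0) (XT.lf (nat_lit 0) (nat_lit 65370458563) (nat_lit 152) (nat_lit 49908676573) (nat_lit 228) (nat_lit 9403838756) (nat_lit 27) (nat_lit 5) (nat_lit 29) (nat_lit 5) (nat_lit 30) (nat_lit 5) (nat_lit 346) (nat_lit 304) (nat_lit 130)) (XT.lf (nat_lit 0) (nat_lit 9530255958) (nat_lit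 228) (nat_lit 9126125625) (nat_lit 76) (nat_lit 110605043314) (nat_lit 26) (nat_lit 5) (nat_lit 29) (nat_lit 5) (nat_lit 27) (nat_lit 5) (nat_lit 347) (nat_lit 304) (nat_lit 129))) (XT.nd (nat_lit 78) (nat_lit 152) (nat_lit 0) (XT.lf (nat_lit 0) (nat_lit 30029680326) (nat_lit 228) (nat_lit 89411266662) (nat_lit 76) (nat_lit 14573411462) (nat_lit 24) (nat_lit 5) (nat_lit 27) (nat_lit 5) (nat_lit 25) (nat_lit 5) (nat_lit 348) (nat_lit 304) (nat_lit 128)) (XT.nd (nat_lit 78) (nat_lit 152) (nat_lit 0) (XT.lf (nat_lit 0) (nat_lit 52016384226) (nat_lit 228) (nat_lit 37970987793) (nat_lit 76) (nat_lit 48994452043) (nat_lit 24) (nat_lit 5) (nat_lit 27) (nat_lit 5) (nat_lit 25) (nat_lit 5) (nat_lit 349) (nat_lit 304) (nat_lit 127)) (XT.lf (nat_lit 0) (nat_lit 16570709873) (nat_lit 152) (nat_lit 58789835283) (nat_lit 228) (nat_lit 68824212468) (nat_lit 22) (nat_lit 5) (nat_lit 24) (nat_lit 5)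 (nat_lit 25) (nat_lit 5) (nat_lit 350) (nat_lit 304) (nat_lit 126))))) (XT.nd (nat_lit 156) (nat_lit 152) (nat_lit 0) (XT.nd (nat_lit 78) (nat_lit 0) (nat_lit 0) (XT.lf (nat_lit 0) (nat_lit 75156813537) (nat_lit 152) (nat_lit 25357577750) (nat_lit 228) (nat_lit 49101323442) (nat_lit 22) (nat_lit 5) (nat_lit 24) (nat_lit 5) (nat_lit 25) (nat_lit 5) (nat_lit 351) (nat_lit 304) (nat_lit 125)) (XT.lf (nat_lit 0) (nat_lit 127077538944) (nat_lit 228) (nat_lit 18799087912) (nat_lit 76) (nat_lit 9434013063) (nat_lit 22) (nat_lit 5) (nat_lit 25) (nat_lit 5) (nat_lit 23) (nat_lit 4) (nat_lit 352) (nat_lit 304) (nat_lit 124))) (XT.nd (nat_lit 78) (nat_lit 76) (nat_lit 0) (XT.lf (nat_lit 0) (nat_lit 40524164705) (nat_lit 76) (nat_lit 115492541889) (nat_lit 152) (nat_lit 5221212300) (nat_lit 21) (nat_lit 5) (nat_lit 22) (nat_lit 5) (nat_lit 23) (nat_lit 4) (nat_lit 353) (nat_lit 304) (nat_lit 123))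 (XT.nd (nat_lit 78) (nat_lit 0) (nat_lit 0) (XT.lf (nat_lit 0) (nat_lit 18658094204) (nat_lit 152) (nat_lit 64281230490) (nat_lit 76) (nat_lit 84491298287) (nat_lit 20) (nat_lit 5) (nat_lit 22) (nat_lit 5) (nat_lit 21) (nat_lit 5) (nat_lit 354) (nat_lit 304) (nat_lit 122)) (XT.lf (nat_lit 0) (nat_lit 43555395725) (nat_lit 152) (nat_lit 5113515737) (nat_lit 76) (nat_lit 125259796862) (nat_lit 20) (nat_lit 5) (nat_lit 22) (nat_lit 5) (nat_lit 21) (nat_lit 5) (nat_lit 355) (nat_lit 304) (nat_lit 121))))))))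
noncomputable def xc220 : XT := (XT.nd (nat_lit 36816) (nat_lit 0) (nat_lit 3268) (XT.nd (nat_lit 702) (nat_lit 228) (nat_lit 0) (XT.nd (nat_lit 312) (nat_lit 228) (nat_lit 0) (XT.nd (nat_lit 156) (nat_lit 76) (nat_lit 0) (XT.nd (nat_lit 78) (nat_lit 0) (nat_lit 0) (XT.lf (nat_lit 0) (nat_lit 58896850366) (nat_lit 152) (nat_lit 11719777480) (nat_lit 228) (nat_lit 110089117353) (nat_lit 18) (nat_lit 5) (nat_lit 20) (nat_lit 5) (nat_lit 21) (nat_lit 5) (nat_lit 356) (nat_lit 304) (nat_lit 120)) (XT.lf (nat_lit 0) (nat_lit 99541212201) (nat_lit 228) (nat_lit 61957011493) (nat_lit 76) (nat_lit 26297896206) (nat_lit 18) (nat_lit 5) (nat_lit 21) (nat_lit 5) (nat_lit 19) (nat_lit 4) (nat_lit 357) (nat_lit 304) (nat_lit 119))) (XT.nd (nat_lit 78) (nat_lit 0) (nat_lit 0) (XT.lf (nat_lit 0) (nat_lit 717535110) (nat_lit 76) (nat_lit 129397369617) (nat_lit 152) (nat_lit 65115965153) (nat_lit 17)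 (nat_lit 5) (nat_lit 18) (nat_lit 5) (nat_lit 19) (nat_lit 4) (nat_lit 358) (nat_lit 304) (nat_lit 118)) (XT.lf (nat_lit 0) (nat_lit 68676059978) (nat_lit 76) (nat_lit 94590052268) (nat_lit 152) (nat_lit 39718804060) (nat_lit 17) (nat_lit 5) (nat_lit 18) (nat_lit 5) (nat_lit 19) (nat_lit 4) (nat_lit 359) (nat_lit 304) (nat_lit 117)))) (XT.nd (nat_lit 156) (nat_lit 152) (nat_lit 0) (XT.nd (nat_lit 78) (nat_lit 76) (nat_lit 0) (XT.lf (nat_lit 0) (nat_lit 140031790514) (nat_lit 76) (nat_lit 58042669054) (nat_lit 152) (nat_lit 13052226959) (nat_lit 17) (nat_lit 5) (nat_lit 18) (nat_lit 5) (nat_lit 19) (nat_lit 4) (nat_lit 360) (nat_lit 304) (nat_lit 116)) (XT.lf (nat_lit 0) (nat_lit 14468852395) (nat_lit 152) (nat_lit 4954312983) (nat_lit 76) (nat_lit 200240731903) (nat_lit 16) (nat_lit 5) (nat_lit 18) (nat_lit 5) (nat_lit 17) (nat_lit 5) (nat_lit 361) (nat_lit 304) (nat_lit 115))) (XT.nd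 (nat_lit 78) (nat_lit 0) (nat_lit 0) (XT.lf (nat_lit 0) (nat_lit 44314065678) (nat_lit 228) (nat_lit 162511803768) (nat_lit 76) (nat_lit 21722064946) (nat_lit 14) (nat_lit 5) (nat_lit 17) (nat_lit 5) (nat_lit 15) (nat_lit 4) (nat_lit 362) (nat_lit 304) (nat_lit 114)) (XT.nd (nat_lit 78) (nat_lit 0) (nat_lit 0) (XT.lf (nat_lit 0) (nat_lit 76054847140) (nat_lit 228) (nat_lit 97444338311) (nat_lit 76) (nat_lit 64356822895) (nat_lit 14) (nat_lit 5) (nat_lit 17) (nat_lit 5) (nat_lit 15) (nat_lit 4) (nat_lit 363) (nat_lit 304) (nat_lit 113)) (XT.lf (nat_lit 0) (nat_lit 109382301781) (nat_lit 228) (nat_lit 29124138718) (nat_lit 76) (nat_lit 109123064143) (nat_lit 14) (nat_lit 5) (nat_lit 17) (nat_lit 5) (nat_lit 15) (nat_lit 4) (nat_lit 364) (nat_lit 304) (nat_lit 112)))))) (XT.nd (nat_lit 390) (nat_lit 0) (nat_lit 0) (XT.nd (nat_lit 156) (nat_lit 152) (nat_lit 0) (XT.nd (nat_lit 78) (nat_lit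 0) (nat_lit 0) (XT.lf (nat_lit 0) (nat_lit 44020389530) (nat_lit 76) (nat_lit 101042672799) (nat_lit 152) (nat_lit 112794267097) (nat_lit 13) (nat_lit 5) (nat_lit 14) (nat_lit 5) (nat_lit 15) (nat_lit 4) (nat_lit 365) (nat_lit 304) (nat_lit 111)) (XT.lf (nat_lit 0) (nat_lit 121832669641) (nat_lit 76) (nat_lit 61188081419) (nat_lit 152) (nat_lit 85551150197) (nat_lit 13) (nat_lit 5) (nat_lit 14) (nat_lit 5) (nat_lit 15) (nat_lit 4) (nat_lit 366) (nat_lit 304) (nat_lit 110))) (XT.nd (nat_lit 78) (nat_lit 152) (nat_lit 0) (XT.lf (nat_lit 0) (nat_lit 203534993393) (nat_lit 76) (nat_lit 19341005857) (nat_lit 152) (nat_lit 56946218981) (nat_lit 13) (nat_lit 5) (nat_lit 14) (nat_lit 5) (nat_lit 15) (nat_lit 4) (nat_lit 367) (nat_lit 304) (nat_lit 109)) (XT.nd (nat_lit 78) (nat_lit 152) (nat_lit 0) (XT.lf (nat_lit 0) (nat_lit 265107747024) (nat_lit 152) (nat_lit 2697223366) (nat_lit 0) (nat_lit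 23810894090) (nat_lit 13) (nat_lit 5) (nat_lit 15) (nat_lit 4) (nat_lit 13) (nat_lit 4) (nat_lit 368) (nat_lit 304) (nat_lit 108)) (XT.lf (nat_lit 0) (nat_lit 6816644613) (nat_lit 152) (nat_lit 227323539194) (nat_lit 76) (nat_lit 69777791032) (nat_lit 11) (nat_lit 5) (nat_lit 13) (nat_lit 5) (nat_lit 12) (nat_lit 4) (nat_lit 369) (nat_lit 304) (nat_lit 107))))) (XT.nd (nat_lit 156) (nat_lit 0) (nat_lit 0) (XT.nd (nat_lit 78) (nat_lit 0) (nat_lit 0) (XT.lf (nat_lit 0) (nat_lit 40962928629) (nat_lit 152) (nat_lit 157324426219) (nat_lit 76) (nat_lit 118523801632) (nat_lit 11) (nat_lit 5) (nat_lit 13) (nat_lit 5) (nat_lit 12) (nat_lit 4) (nat_lit 370) (nat_lit 304) (nat_lit 106)) (XT.lf (nat_lit 0) (nat_lit 76816243794) (nat_lit 152) (nat_lit 83825862755) (nat_lit 76) (nat_lit 169706905040) (nat_lit 11) (nat_lit 5) (nat_lit 13) (nat_lit 5) (nat_lit 12) (nat_lit 4) (nat_lit 371) (nat_lit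 304) (nat_lit 105))) (XT.nd (nat_lit 35412) (nat_lit 0) (nat_lit 5320) (XT.lf (nat_lit 0) (nat_lit 114461955145) (nat_lit 152) (nat_lit 6652852222) (nat_lit 76) (nat_lit 223448965790) (nat_lit 11) (nat_lit 5) (nat_lit 13) (nat_lit 5) (nat_lit 12) (nat_lit 4) (nat_lit 372) (nat_lit 304) (nat_lit 104)) (XT.nd (nat_lit 78) (nat_lit 0) (nat_lit 0) (XT.lf (nat_lit 0) (nat_lit 5835587018) (nat_lit 0) (nat_lit 5835587018) (nat_lit 684) (nat_lit 6747972919) (nat_lit 81) (nat_lit 5) (nat_lit 81) (nat_lit 3) (nat_lit 90) (nat_lit 3) (nat_lit 305) (nat_lit 305) (nat_lit 170)) (XT.lf (nat_lit 0) (nat_lit 24045883345) (nat_lit 684) (nat_lit 9039602774) (nat_lit 760) (nat_lit 4667648642) (nat_lit 81) (nat_lit 5) (nat_lit 90) (nat_lit 3) (nat_lit 91) (nat_lit 5) (nat_lit 306) (nat_lit 305) (nat_lit 169))))))) (XT.nd (nat_lit 780) (nat_lit 1596) (nat_lit 0) (XT.nd (nat_lit 390) (nat_lit 456) (nat_lit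 0) (XT.nd (nat_lit 156) (nat_lit 0) (nat_lit 76) (XT.nd (nat_lit 78) (nat_lit 0) (nat_lit 0) (XT.lf (nat_lit 76) (nat_lit 7955997747) (nat_lit 0) (nat_lit 17141305268) (nat_lit 760) (nat_lit 13600786787) (nat_lit 82) (nat_lit 5) (nat_lit 81) (nat_lit 5) (nat_lit 91) (nat_lit 5) (nat_lit 307) (nat_lit 305) (nat_lit 168)) (XT.lf (nat_lit 76) (nat_lit 26113635424) (nat_lit 0) (nat_lit 238020322) (nat_lit 760) (nat_lit 13331125918) (nat_lit 82) (nat_lit 5) (nat_lit 81) (nat_lit 5) (nat_lit 91) (nat_lit 5) (nat_lit 308) (nat_lit 305) (nat_lit 167))) (XT.nd (nat_lit 78) (nat_lit 0) (nat_lit 0) (XT.lf (nat_lit 76) (nat_lit 4325858283) (nat_lit 0) (nat_lit 23681212510) (nat_lit 760) (nat_lit 12692726924) (nat_lit 83) (nat_lit 5) (nat_lit 82) (nat_lit 5) (nat_lit 92) (nat_lit 5) (nat_lit 309) (nat_lit 305) (nat_lit 166)) (XT.nd (nat_lit 78) (nat_lit 0) (nat_lit 76) (XT.lf (nat_lit 76) (nat_lit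 23581042683) (nat_lit 0) (nat_lit 6395369508) (nat_lit 760) (nat_lit 11779701110) (nat_lit 83) (nat_lit 5) (nat_lit 82) (nat_lit 5) (nat_lit 92) (nat_lit 5) (nat_lit 310) (nat_lit 305) (nat_lit 165)) (XT.lf (nat_lit 76) (nat_lit 773277467) (nat_lit 0) (nat_lit 31464188518) (nat_lit 760) (nat_lit 10618122610) (nat_lit 84) (nat_lit 5) (nat_lit 83) (nat_lit 5) (nat_lit 93) (nat_lit 5) (nat_lit 311) (nat_lit 305) (nat_lit 164))))) (XT.nd (nat_lit 156) (nat_lit 608) (nat_lit 0) (XT.nd (nat_lit 78) (nat_lit 0) (nat_lit 76) (XT.lf (nat_lit 76) (nat_lit 21190069892) (nat_lit 0) (nat_lit 13830190857) (nat_lit 760) (nat_lit 8969348392) (nat_lit 84) (nat_lit 5) (nat_lit 83) (nat_lit 5) (nat_lit 93) (nat_lit 5) (nat_lit 312) (nat_lit 305) (nat_lit 163)) (XT.lf (nat_lit 0) (nat_lit 38013199603) (nat_lit 684) (nat_lit 2627487872) (nat_lit 760) (nat_lit 4536098643) (nat_lit 84) (nat_lit 5) (nat_lit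 93) (nat_lit 5) (nat_lit 94) (nat_lit 5) (nat_lit 313) (nat_lit 305) (nat_lit 162))) (XT.nd (nat_lit 78) (nat_lit 684) (nat_lit 0) (XT.lf (nat_lit 76) (nat_lit 18930718856) (nat_lit 0) (nat_lit 22745305378) (nat_lit 760) (nat_lit 4721291121) (nat_lit 85) (nat_lit 5) (nat_lit 84) (nat_lit 5) (nat_lit 94) (nat_lit 5) (nat_lit 314) (nat_lit 305) (nat_lit 161)) (XT.nd (nat_lit 78) (nat_lit 684) (nat_lit 0) (XT.lf (nat_lit 76) (nat_lit 41656458557) (nat_lit 0) (nat_lit 3908054677) (nat_lit 760) (nat_lit 2112236761) (nat_lit 85) (nat_lit 5) (nat_lit 84) (nat_lit 5) (nat_lit 94) (nat_lit 5) (nat_lit 315) (nat_lit 305) (nat_lit 160)) (XT.lf (nat_lit 0) (nat_lit 1123512753) (nat_lit 760) (nat_lit 32226709267) (nat_lit 76) (nat_lit 15643633348) (nat_lit 75) (nat_lit 5) (nat_lit 85) (nat_lit 5) (nat_lit 76) (nat_lit 5) (nat_lit 316) (nat_lit 305) (nat_lit 159)))))) (XT.nd (nat_lit 390) (nat_lit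 836) (nat_lit 0) (XT.nd (nat_lit 156) (nat_lit 380) (nat_lit 0) (XT.nd (nat_lit 78) (nat_lit 380) (nat_lit 0) (XT.lf (nat_lit 0) (nat_lit 4615914315) (nat_lit 760) (nat_lit 9570781848) (nat_lit 76) (nat_lit 36180100433) (nat_lit 75) (nat_lit 5) (nat_lit 85) (nat_lit 5) (nat_lit 76) (nat_lit 5) (nat_lit 317) (nat_lit 305) (nat_lit 158)) (XT.lf (nat_lit 0) (nat_lit 8606898701) (nat_lit 456) (nat_lit 37207023037) (nat_lit 76) (nat_lit 5978269201) (nat_lit 70) (nat_lit 5) (nat_lit 76) (nat_lit 5) (nat_lit 71) (nat_lit 5) (nat_lit 318) (nat_lit 305) (nat_lit 157))) (XT.nd (nat_lit 78) (nat_lit 380) (nat_lit 0) (XT.lf (nat_lit 0) (nat_lit 13193048498) (nat_lit 456) (nat_lit 13236437093) (nat_lit 76) (nat_lit 26839592595) (nat_lit 70) (nat_lit 5) (nat_lit 76) (nat_lit 5) (nat_lit 71) (nat_lit 5) (nat_lit 319) (nat_lit 305) (nat_lit 156)) (XT.nd (nat_lit 78) (nat_lit 0) (nat_lit 0) (XT.lf (nat_lit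 0) (nat_lit 12325601489) (nat_lit 380) (nat_lit 5873726651) (nat_lit 456) (nat_lit 36610944341) (nat_lit 65) (nat_lit 5) (nat_lit 70) (nat_lit 5) (nat_lit 71) (nat_lit 5) (nat_lit 320) (nat_lit 305) (nat_lit 155)) (XT.lf (nat_lit 0) (nat_lit 23927474536) (nat_lit 456) (nat_lit 17042615641) (nat_lit 76) (nat_lit 15434862299) (nat_lit 65) (nat_lit 5) (nat_lit 71) (nat_lit 5) (nat_lit 66) (nat_lit 5) (nat_lit 321) (nat_lit 305) (nat_lit 154))))) (XT.nd (nat_lit 156) (nat_lit 532) (nat_lit 0) (XT.nd (nat_lit 78) (nat_lit 0) (nat_lit 0) (XT.lf (nat_lit 0) (nat_lit 9890249761) (nat_lit 304) (nat_lit 20300996120) (nat_lit 380) (nat_lit 27875663160) (nat_lit 61) (nat_lit 5) (nat_lit 65) (nat_lit 5) (nat_lit 66) (nat_lit 5) (nat_lit 322) (nat_lit 305) (nat_lit 153)) (XT.lf (nat_lit 0) (nat_lit 37082002616) (nat_lit 380) (nat_lit 21064307148) (nat_lit 76) (nat_lit 1649967115) (nat_lit 61) (nat_lit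 5) (nat_lit 66) (nat_lit 5) (nat_lit 62) (nat_lit 5) (nat_lit 323) (nat_lit 305) (nat_lit 152))) (XT.nd (nat_lit 78) (nat_lit 228) (nat_lit 0) (XT.lf (nat_lit 0) (nat_lit 7303078934) (nat_lit 304) (nat_lit 37459669816) (nat_lit 380) (nat_lit 16827094911) (nat_lit 57) (nat_lit 5) (nat_lit 61) (nat_lit 5) (nat_lit 62) (nat_lit 5) (nat_lit 324) (nat_lit 305) (nat_lit 151)) (XT.nd (nat_lit 78) (nat_lit 228) (nat_lit 0) (XT.lf (nat_lit 0) (nat_lit 37818639513) (nat_lit 304) (nat_lit 15364295700) (nat_lit 380) (nat_lit 10272386398) (nat_lit 57) (nat_lit 5) (nat_lit 61) (nat_lit 5) (nat_lit 62) (nat_lit 5) (nat_lit 325) (nat_lit 305) (nat_lit 150)) (XT.lf (nat_lit 0) (nat_lit 4464980096) (nat_lit 228) (nat_lit 57749930959) (nat_lit 304) (nat_lit 3189626239) (nat_lit 54) (nat_lit 5) (nat_lit 57) (nat_lit 5) (nat_lit 58) (nat_lit 5) (nat_lit 326) (nat_lit 305) (nat_lit 149))))))))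
noncomputable def xc221 : XT := (XT.nd (nat_lit 1482) (nat_lit 1140) (nat_lit 0) (XT.nd (nat_lit 702) (nat_lit 836) (nat_lit 0) (XT.nd (nat_lit 312) (nat_lit 684) (nat_lit 0) (XT.nd (nat_lit 156) (nat_lit 0) (nat_lit 0) (XT.nd (nat_lit 78) (nat_lit 304) (nat_lit 0) (XT.lf (nat_lit 0) (nat_lit 4803237964) (nat_lit 304) (nat_lit 30794547520) (nat_lit 76) (nat_lit 31815519998) (nat_lit 53) (nat_lit 5) (nat_lit 57) (nat_lit 5) (nat_lit 54) (nat_lit 5) (nat_lit 327) (nat_lit 305) (nat_lit 148)) (XT.lf (nat_lit 0) (nat_lit 830566721) (nat_lit 304) (nat_lit 12269757976) (nat_lit 380) (nat_lit 56418986804) (nat_lit 49) (nat_lit 5) (nat_lit 53) (nat_lit 5) (nat_lit 54) (nat_lit 5) (nat_lit 328) (nat_lit 305) (nat_lit 147))) (XT.nd (nat_lit 78) (nat_lit 0) (nat_lit 0) (XT.lf (nat_lit 0) (nat_lit 22532032245) (nat_lit 380) (nat_lit 36799372296) (nat_lit 76) (nat_lit 12363227292) (nat_lit 49) (nat_lit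 5) (nat_lit 54) (nat_lit 5) (nat_lit 50) (nat_lit 5) (nat_lit 329) (nat_lit 305) (nat_lit 146)) (XT.lf (nat_lit 0) (nat_lit 32635359241) (nat_lit 380) (nat_lit 3518078039) (nat_lit 76) (nat_lit 37815281423) (nat_lit 49) (nat_lit 5) (nat_lit 54) (nat_lit 5) (nat_lit 50) (nat_lit 5) (nat_lit 330) (nat_lit 305) (nat_lit 145)))) (XT.nd (nat_lit 156) (nat_lit 456) (nat_lit 0) (XT.nd (nat_lit 78) (nat_lit 0) (nat_lit 0) (XT.lf (nat_lit 0) (nat_lit 32465028122) (nat_lit 228) (nat_lit 11284637867) (nat_lit 304) (nat_lit 32581555373) (nat_lit 46) (nat_lit 5) (nat_lit 49) (nat_lit 5) (nat_lit 50) (nat_lit 5) (nat_lit 331) (nat_lit 305) (nat_lit 144)) (XT.lf (nat_lit 0) (nat_lit 55710714195) (nat_lit 304) (nat_lit 8673281727) (nat_lit 76) (nat_lit 14413303947) (nat_lit 46) (nat_lit 5) (nat_lit 50) (nat_lit 5) (nat_lit 47) (nat_lit 5) (nat_lit 332) (nat_lit 305) (nat_lit 143))) (XT.nd (nat_lit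 78) (nat_lit 228) (nat_lit 0) (XT.lf (nat_lit 0) (nat_lit 29021863347) (nat_lit 228) (nat_lit 39885075883) (nat_lit 304) (nat_lit 12447888769) (nat_lit 43) (nat_lit 5) (nat_lit 46) (nat_lit 5) (nat_lit 47) (nat_lit 5) (nat_lit 333) (nat_lit 305) (nat_lit 142)) (XT.nd (nat_lit 78) (nat_lit 228) (nat_lit 0) (XT.lf (nat_lit 0) (nat_lit 68901604558) (nat_lit 228) (nat_lit 14007301741) (nat_lit 304) (nat_lit 1124031528) (nat_lit 43) (nat_lit 5) (nat_lit 46) (nat_lit 5) (nat_lit 47) (nat_lit 5) (nat_lit 334) (nat_lit 305) (nat_lit 141)) (XT.lf (nat_lit 0) (nat_lit 11018320553) (nat_lit 228) (nat_lit 62485310335) (nat_lit 76) (nat_lit 13303075444) (nat_lit 40) (nat_lit 5) (nat_lit 43) (nat_lit 5) (nat_lit 41) (nat_lit 5) (nat_lit 335) (nat_lit 305) (nat_lit 140)))))) (XT.nd (nat_lit 390) (nat_lit 456) (nat_lit 0) (XT.nd (nat_lit 156) (nat_lit 152) (nat_lit 0) (XT.nd (nat_lit 78) (nat_lit 228)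 (nat_lit 0) (XT.lf (nat_lit 0) (nat_lit 24219193952) (nat_lit 228) (nat_lit 23687789271) (nat_lit 76) (nat_lit 41786801353) (nat_lit 40) (nat_lit 5) (nat_lit 43) (nat_lit 5) (nat_lit 41) (nat_lit 5) (nat_lit 336) (nat_lit 305) (nat_lit 139)) (XT.lf (nat_lit 0) (nat_lit 17612094658) (nat_lit 228) (nat_lit 20742126965) (nat_lit 304) (nat_lit 54357291086) (nat_lit 37) (nat_lit 5) (nat_lit 40) (nat_lit 5) (nat_lit 41) (nat_lit 5) (nat_lit 337) (nat_lit 305) (nat_lit 138))) (XT.nd (nat_lit 78) (nat_lit 152) (nat_lit 0) (XT.lf (nat_lit 0) (nat_lit 53724377613) (nat_lit 304) (nat_lit 34189997656) (nat_lit 76) (nat_lit 7939334566) (nat_lit 37) (nat_lit 5) (nat_lit 41) (nat_lit 5) (nat_lit 38) (nat_lit 5) (nat_lit 338) (nat_lit 305) (nat_lit 137)) (XT.nd (nat_lit 78) (nat_lit 0) (nat_lit 0) (XT.lf (nat_lit 0) (nat_lit 8702213878) (nat_lit 152) (nat_lit 61635922166) (nat_lit 228) (nat_lit 28791127406)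 (nat_lit 35) (nat_lit 5) (nat_lit 37) (nat_lit 5) (nat_lit 38) (nat_lit 5) (nat_lit 339) (nat_lit 305) (nat_lit 136)) (XT.lf (nat_lit 0) (nat_lit 54924884177) (nat_lit 152) (nat_lit 33435936616) (nat_lit 228) (nat_lit 14178863335) (nat_lit 35) (nat_lit 5) (nat_lit 37) (nat_lit 5) (nat_lit 38) (nat_lit 5) (nat_lit 340) (nat_lit 305) (nat_lit 135))))) (XT.nd (nat_lit 156) (nat_lit 152) (nat_lit 0) (XT.nd (nat_lit 78) (nat_lit 228) (nat_lit 0) (XT.lf (nat_lit 0) (nat_lit 1125996415) (nat_lit 228) (nat_lit 2681234240) (nat_lit 76) (nat_lit 102312525779) (nat_lit 34) (nat_lit 5) (nat_lit 37) (nat_lit 5) (nat_lit 35) (nat_lit 5) (nat_lit 341) (nat_lit 305) (nat_lit 134)) (XT.lf (nat_lit 0) (nat_lit 17874614852) (nat_lit 304) (nat_lit 64544216779) (nat_lit 76) (nat_lit 27390628904) (nat_lit 31) (nat_lit 5) (nat_lit 35) (nat_lit 5) (nat_lit 32) (nat_lit 5) (nat_lit 342) (nat_lit 305) (nat_lit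 133))) (XT.nd (nat_lit 78) (nat_lit 152) (nat_lit 0) (XT.lf (nat_lit 0) (nat_lit 35568517428) (nat_lit 304) (nat_lit 18043488611) (nat_lit 76) (nat_lit 60066252210) (nat_lit 31) (nat_lit 5) (nat_lit 35) (nat_lit 5) (nat_lit 32) (nat_lit 5) (nat_lit 343) (nat_lit 305) (nat_lit 132)) (XT.nd (nat_lit 78) (nat_lit 0) (nat_lit 0) (XT.lf (nat_lit 0) (nat_lit 31799011284) (nat_lit 152) (nat_lit 22843896682) (nat_lit 228) (nat_lit 63072799261) (nat_lit 29) (nat_lit 5) (nat_lit 31) (nat_lit 5) (nat_lit 32) (nat_lit 5) (nat_lit 344) (nat_lit 305) (nat_lit 131)) (XT.lf (nat_lit 0) (nat_lit 75128672785) (nat_lit 228) (nat_lit 37333475530) (nat_lit 76) (nat_lit 9469998573) (nat_lit 29) (nat_lit 5) (nat_lit 32) (nat_lit 5) (nat_lit 30) (nat_lit 5) (nat_lit 345) (nat_lit 305) (nat_lit 130))))))) (XT.nd (nat_lit 780) (nat_lit 456) (nat_lit 0) (XT.nd (nat_lit 390) (nat_lit 304) (nat_lit 0) (XT.nd (nat_lit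 156) (nat_lit 228) (nat_lit 0) (XT.nd (nat_lit 78) (nat_lit 0) (nat_lit 0) (XT.lf (nat_lit 0) (nat_lit 13743293123) (nat_lit 152) (nat_lit 83483858079) (nat_lit 228) (nat_lit 29102836984) (nat_lit 27) (nat_lit 5) (nat_lit 29) (nat_lit 5) (nat_lit 30) (nat_lit 5) (nat_lit 346) (nat_lit 305) (nat_lit 129)) (XT.lf (nat_lit 0) (nat_lit 68669056329) (nat_lit 152) (nat_lit 52393136634) (nat_lit 228) (nat_lit 9853947496) (nat_lit 27) (nat_lit 5) (nat_lit 29) (nat_lit 5) (nat_lit 30) (nat_lit 5) (nat_lit 347) (nat_lit 305) (nat_lit 128))) (XT.nd (nat_lit 78) (nat_lit 152) (nat_lit 0) (XT.lf (nat_lit 0) (nat_lit 10025283431) (nat_lit 228) (nat_lit 9553152469) (nat_lit 76) (nat_lit 116145109952) (nat_lit 26) (nat_lit 5) (nat_lit 29) (nat_lit 5) (nat_lit 27) (nat_lit 5) (nat_lit 348) (nat_lit 305) (nat_lit 127)) (XT.nd (nat_lit 78) (nat_lit 0) (nat_lit 0) (XT.lf (nat_lit 0) (nat_lit 31549414565)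 (nat_lit 228) (nat_lit 93852262718) (nat_lit 76) (nat_lit 15312463190) (nat_lit 24) (nat_lit 5) (nat_lit 27) (nat_lit 5) (nat_lit 25) (nat_lit 5) (nat_lit 349) (nat_lit 305) (nat_lit 126)) (XT.lf (nat_lit 0) (nat_lit 54634584602) (nat_lit 228) (nat_lit 39841377872) (nat_lit 76) (nat_lit 51454061459) (nat_lit 24) (nat_lit 5) (nat_lit 27) (nat_lit 5) (nat_lit 25) (nat_lit 5) (nat_lit 350) (nat_lit 305) (nat_lit 125))))) (XT.nd (nat_lit 156) (nat_lit 152) (nat_lit 0) (XT.nd (nat_lit 78) (nat_lit 0) (nat_lit 0) (XT.lf (nat_lit 0) (nat_lit 17426950495) (nat_lit 152) (nat_lit 61718607963) (nat_lit 228) (nat_lit 72247566531) (nat_lit 22) (nat_lit 5) (nat_lit 24) (nat_lit 5) (nat_lit 25) (nat_lit 5) (nat_lit 351) (nat_lit 305) (nat_lit 124)) (XT.lf (nat_lit 0) (nat_lit 78941040051) (nat_lit 152) (nat_lit 26615247987) (nat_lit 228) (nat_lit 51539383366) (nat_lit 22) (nat_lit 5) (nat_lit 24)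 (nat_lit 5) (nat_lit 25) (nat_lit 5) (nat_lit 352) (nat_lit 305) (nat_lit 123))) (XT.nd (nat_lit 78) (nat_lit 152) (nat_lit 0) (XT.lf (nat_lit 0) (nat_lit 133446974531) (nat_lit 228) (nat_lit 19713275152) (nat_lit 76) (nat_lit 9915125059) (nat_lit 22) (nat_lit 5) (nat_lit 25) (nat_lit 5) (nat_lit 23) (nat_lit 4) (nat_lit 353) (nat_lit 305) (nat_lit 122)) (XT.nd (nat_lit 78) (nat_lit 76) (nat_lit 0) (XT.lf (nat_lit 0) (nat_lit 42575724496) (nat_lit 76) (nat_lit 121257030989) (nat_lit 152) (nat_lit 5466280352) (nat_lit 21) (nat_lit 5) (nat_lit 22) (nat_lit 5) (nat_lit 23) (nat_lit 4) (nat_lit 354) (nat_lit 305) (nat_lit 121)) (XT.lf (nat_lit 0) (nat_lit 19605742439) (nat_lit 152) (nat_lit 67470643568) (nat_lit 76) (nat_lit 88725014327) (nat_lit 20) (nat_lit 5) (nat_lit 22) (nat_lit 5) (nat_lit 21) (nat_lit 5) (nat_lit 355) (nat_lit 305) (nat_lit 120)))))) (XT.nd (nat_lit 390) (nat_lit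 228) (nat_lit 0) (XT.nd (nat_lit 156) (nat_lit 76) (nat_lit 0) (XT.nd (nat_lit 78) (nat_lit 152) (nat_lit 0) (XT.lf (nat_lit 0) (nat_lit 45747206964) (nat_lit 152) (nat_lit 5345716812) (nat_lit 76) (nat_lit 131531502062) (nat_lit 20) (nat_lit 5) (nat_lit 22) (nat_lit 5) (nat_lit 21) (nat_lit 5) (nat_lit 356) (nat_lit 305) (nat_lit 119)) (XT.lf (nat_lit 0) (nat_lit 61864788971) (nat_lit 152) (nat_lit 12296403674) (nat_lit 228) (nat_lit 115579138068) (nat_lit 18) (nat_lit 5) (nat_lit 20) (nat_lit 5) (nat_lit 21) (nat_lit 5) (nat_lit 357) (nat_lit 305) (nat_lit 118))) (XT.nd (nat_lit 78) (nat_lit 76) (nat_lit 0) (XT.lf (nat_lit 0) (nat_lit 104531491463) (nat_lit 228) (nat_lit 65032336682) (nat_lit 76) (nat_lit 27621422460) (nat_lit 18) (nat_lit 5) (nat_lit 21) (nat_lit 5) (nat_lit 19) (nat_lit 4) (nat_lit 358) (nat_lit 305) (nat_lit 117)) (XT.nd (nat_lit 78) (nat_lit 0) (nat_lit 0) (XT.lf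 (nat_lit 0) (nat_lit 775573939) (nat_lit 76) (nat_lit 135858011228) (nat_lit 152) (nat_lit 68358167772) (nat_lit 17) (nat_lit 5) (nat_lit 18) (nat_lit 5) (nat_lit 19) (nat_lit 4) (nat_lit 359) (nat_lit 305) (nat_lit 116)) (XT.lf (nat_lit 0) (nat_lit 72130969713) (nat_lit 76) (nat_lit 99310767388) (nat_lit 152) (nat_lit 41691796036) (nat_lit 17) (nat_lit 5) (nat_lit 18) (nat_lit 5) (nat_lit 19) (nat_lit 4) (nat_lit 360) (nat_lit 305) (nat_lit 115))))) (XT.nd (nat_lit 156) (nat_lit 152) (nat_lit 0) (XT.nd (nat_lit 78) (nat_lit 76) (nat_lit 0) (XT.lf (nat_lit 0) (nat_lit 147053481693) (nat_lit 76) (nat_lit 60936433465) (nat_lit 152) (nat_lit 13692506663) (nat_lit 17) (nat_lit 5) (nat_lit 18) (nat_lit 5) (nat_lit 19) (nat_lit 4) (nat_lit 361) (nat_lit 305) (nat_lit 114)) (XT.lf (nat_lit 0) (nat_lit 15203663543) (nat_lit 152) (nat_lit 5182497056) (nat_lit 76) (nat_lit 210260351870) (nat_lit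 16) (nat_lit 5) (nat_lit 18) (nat_lit 5) (nat_lit 17) (nat_lit 5) (nat_lit 362) (nat_lit 305) (nat_lit 113))) (XT.nd (nat_lit 78) (nat_lit 0) (nat_lit 0) (XT.lf (nat_lit 0) (nat_lit 46541022453) (nat_lit 228) (nat_lit 170617736629) (nat_lit 76) (nat_lit 22815998640) (nat_lit 14) (nat_lit 5) (nat_lit 17) (nat_lit 5) (nat_lit 15) (nat_lit 4) (nat_lit 363) (nat_lit 305) (nat_lit 112)) (XT.nd (nat_lit 78) (nat_lit 0) (nat_lit 0) (XT.lf (nat_lit 0) (nat_lit 79868307108) (nat_lit 228) (nat_lit 102297833963) (nat_lit 76) (nat_lit 67582121608) (nat_lit 14) (nat_lit 5) (nat_lit 17) (nat_lit 5) (nat_lit 15) (nat_lit 4) (nat_lit 364) (nat_lit 305) (nat_lit 111)) (XT.lf (nat_lit 0) (nat_lit 114861624118) (nat_lit 228) (nat_lit 30562515879) (nat_lit 76) (nat_lit 114586319796) (nat_lit 14) (nat_lit 5) (nat_lit 17) (nat_lit 5) (nat_lit 15) (nat_lit 4) (nat_lit 365) (nat_lit 305) (nat_lit 110))))))))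
noncomputable def xc222 : XT := (XT.nd (nat_lit 36972) (nat_lit 0) (nat_lit 1976) (XT.nd (nat_lit 36192) (nat_lit 0) (nat_lit 4864) (XT.nd (nat_lit 312) (nat_lit 152) (nat_lit 0) (XT.nd (nat_lit 156) (nat_lit 0) (nat_lit 0) (XT.nd (nat_lit 78) (nat_lit 0) (nat_lit 0) (XT.lf (nat_lit 0) (nat_lit 46238951204) (nat_lit 76) (nat_lit 106087259314) (nat_lit 152) (nat_lit 118423476371) (nat_lit 13) (nat_lit 5) (nat_lit 14) (nat_lit 5) (nat_lit 15) (nat_lit 4) (nat_lit 366) (nat_lit 305) (nat_lit 109)) (XT.lf (nat_lit 0) (nat_lit 127941009978) (nat_lit 76) (nat_lit 64240297752) (nat_lit 152) (nat_lit 89818703821) (nat_lit 13) (nat_lit 5) (nat_lit 14) (nat_lit 5) (nat_lit 15) (nat_lit 4) (nat_lit 367) (nat_lit 305) (nat_lit 108))) (XT.nd (nat_lit 78) (nat_lit 0) (nat_lit 0) (XT.lf (nat_lit 0) (nat_lit 213727654353) (nat_lit 76) (nat_lit 20301210684) (nat_lit 152) (nat_lit 59784002419) (nat_lit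 13) (nat_lit 5) (nat_lit 14) (nat_lit 5) (nat_lit 15) (nat_lit 4) (nat_lit 368) (nat_lit 305) (nat_lit 107)) (XT.lf (nat_lit 0) (nat_lit 278371870282) (nat_lit 152) (nat_lit 2816593011) (nat_lit 0) (nat_lit 25007749621) (nat_lit 13) (nat_lit 5) (nat_lit 15) (nat_lit 4) (nat_lit 13) (nat_lit 4) (nat_lit 369) (nat_lit 305) (nat_lit 106)))) (XT.nd (nat_lit 35646) (nat_lit 0) (nat_lit 5320) (XT.nd (nat_lit 78) (nat_lit 0) (nat_lit 0) (XT.lf (nat_lit 0) (nat_lit 7166182383) (nat_lit 152) (nat_lit 238674179398) (nat_lit 76) (nat_lit 73273069272) (nat_lit 11) (nat_lit 5) (nat_lit 13) (nat_lit 5) (nat_lit 12) (nat_lit 4) (nat_lit 370) (nat_lit 305) (nat_lit 105)) (XT.lf (nat_lit 0) (nat_lit 43019366050) (nat_lit 152) (nat_lit 165175850619) (nat_lit 76) (nat_lit 124456076178) (nat_lit 11) (nat_lit 5) (nat_lit 13) (nat_lit 5) (nat_lit 12) (nat_lit 4) (nat_lit 371) (nat_lit 305) (nat_lit 104)))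 (XT.nd (nat_lit 78) (nat_lit 0) (nat_lit 0) (XT.lf (nat_lit 0) (nat_lit 6149363443) (nat_lit 0) (nat_lit 6149363443) (nat_lit 684) (nat_lit 7039061876) (nat_lit 81) (nat_lit 5) (nat_lit 81) (nat_lit 3) (nat_lit 90) (nat_lit 3) (nat_lit 306) (nat_lit 306) (nat_lit 168)) (XT.nd (nat_lit 78) (nat_lit 0) (nat_lit 0) (XT.lf (nat_lit 0) (nat_lit 25331321725) (nat_lit 684) (nat_lit 9444619005) (nat_lit 760) (nat_lit 4860472921) (nat_lit 81) (nat_lit 5) (nat_lit 90) (nat_lit 3) (nat_lit 91) (nat_lit 5) (nat_lit 307) (nat_lit 306) (nat_lit 167)) (XT.lf (nat_lit 76) (nat_lit 8400004060) (nat_lit 0) (nat_lit 18032070482) (nat_lit 760) (nat_lit 14196714300) (nat_lit 82) (nat_lit 5) (nat_lit 81) (nat_lit 5) (nat_lit 91) (nat_lit 5) (nat_lit 308) (nat_lit 306) (nat_lit 166)))))) (XT.nd (nat_lit 390) (nat_lit 456) (nat_lit 0) (XT.nd (nat_lit 156) (nat_lit 0) (nat_lit 76) (XT.nd (nat_lit 78) (nat_lit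 0) (nat_lit 76) (XT.lf (nat_lit 76) (nat_lit 27463323315) (nat_lit 0) (nat_lit 282016530) (nat_lit 760) (nat_lit 13917575713) (nat_lit 82) (nat_lit 5) (nat_lit 81) (nat_lit 5) (nat_lit 91) (nat_lit 5) (nat_lit 309) (nat_lit 306) (nat_lit 165)) (XT.lf (nat_lit 76) (nat_lit 4589881145) (nat_lit 0) (nat_lit 24890288592) (nat_lit 760) (nat_lit 13250790003) (nat_lit 83) (nat_lit 5) (nat_lit 82) (nat_lit 5) (nat_lit 92) (nat_lit 5) (nat_lit 310) (nat_lit 306) (nat_lit 164))) (XT.nd (nat_lit 78) (nat_lit 0) (nat_lit 76) (XT.lf (nat_lit 76) (nat_lit 24805551910) (nat_lit 0) (nat_lit 6738962228) (nat_lit 760) (nat_lit 12295759244) (nat_lit 83) (nat_lit 5) (nat_lit 82) (nat_lit 5) (nat_lit 92) (nat_lit 5) (nat_lit 311) (nat_lit 306) (nat_lit 163)) (XT.nd (nat_lit 78) (nat_lit 0) (nat_lit 0) (XT.lf (nat_lit 76) (nat_lit 860618003) (nat_lit 0) (nat_lit 33055109235) (nat_lit 760) (nat_lit 11079148514)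 (nat_lit 84) (nat_lit 5) (nat_lit 83) (nat_lit 5) (nat_lit 93) (nat_lit 5) (nat_lit 312) (nat_lit 306) (nat_lit 162)) (XT.lf (nat_lit 76) (nat_lit 22295932114) (nat_lit 0) (nat_lit 14538568295) (nat_lit 760) (nat_lit 9351263215) (nat_lit 84) (nat_lit 5) (nat_lit 83) (nat_lit 5) (nat_lit 93) (nat_lit 5) (nat_lit 313) (nat_lit 306) (nat_lit 161))))) (XT.nd (nat_lit 156) (nat_lit 684) (nat_lit 0) (XT.nd (nat_lit 78) (nat_lit 0) (nat_lit 0) (XT.lf (nat_lit 0) (nat_lit 39973824600) (nat_lit 684) (nat_lit 2711292689) (nat_lit 760) (nat_lit 4747353082) (nat_lit 84) (nat_lit 5) (nat_lit 93) (nat_lit 5) (nat_lit 94) (nat_lit 5) (nat_lit 314) (nat_lit 306) (nat_lit 160)) (XT.lf (nat_lit 76) (nat_lit 19924057125) (nat_lit 0) (nat_lit 23893608576) (nat_lit 760) (nat_lit 4896474073) (nat_lit 85) (nat_lit 5) (nat_lit 84) (nat_lit 5) (nat_lit 94) (nat_lit 5) (nat_lit 315) (nat_lit 306) (nat_lit 159)))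 (XT.nd (nat_lit 78) (nat_lit 684) (nat_lit 0) (XT.lf (nat_lit 76) (nat_lit 43783855128) (nat_lit 0) (nat_lit 4113969725) (nat_lit 760) (nat_lit 2159866120) (nat_lit 85) (nat_lit 5) (nat_lit 84) (nat_lit 5) (nat_lit 94) (nat_lit 5) (nat_lit 316) (nat_lit 306) (nat_lit 158)) (XT.nd (nat_lit 78) (nat_lit 0) (nat_lit 0) (XT.lf (nat_lit 0) (nat_lit 1233727201) (nat_lit 760) (nat_lit 33789262964) (nat_lit 76) (nat_lit 16417727030) (nat_lit 75) (nat_lit 5) (nat_lit 85) (nat_lit 5) (nat_lit 76) (nat_lit 5) (nat_lit 317) (nat_lit 306) (nat_lit 157)) (XT.lf (nat_lit 0) (nat_lit 4898175564) (nat_lit 760) (nat_lit 10002862115) (nat_lit 76) (nat_lit 37981402610) (nat_lit 75) (nat_lit 5) (nat_lit 85) (nat_lit 5) (nat_lit 76) (nat_lit 5) (nat_lit 318) (nat_lit 306) (nat_lit 156))))))) (XT.nd (nat_lit 780) (nat_lit 1216) (nat_lit 0) (XT.nd (nat_lit 390) (nat_lit 608) (nat_lit 0) (XT.nd (nat_lit 156)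 (nat_lit 684) (nat_lit 0) (XT.nd (nat_lit 78) (nat_lit 0) (nat_lit 0) (XT.lf (nat_lit 0) (nat_lit 9086909337) (nat_lit 456) (nat_lit 39018998522) (nat_lit 76) (nat_lit 6273292335) (nat_lit 70) (nat_lit 5) (nat_lit 76) (nat_lit 5) (nat_lit 71) (nat_lit 5) (nat_lit 319) (nat_lit 306) (nat_lit 155)) (XT.lf (nat_lit 0) (nat_lit 13900001589) (nat_lit 456) (nat_lit 13852186884) (nat_lit 76) (nat_lit 28177867153) (nat_lit 70) (nat_lit 5) (nat_lit 76) (nat_lit 5) (nat_lit 71) (nat_lit 5) (nat_lit 320) (nat_lit 306) (nat_lit 154))) (XT.nd (nat_lit 78) (nat_lit 304) (nat_lit 0) (XT.lf (nat_lit 0) (nat_lit 12987210530) (nat_lit 380) (nat_lit 6167839984) (nat_lit 456) (nat_lit 38393341664) (nat_lit 65) (nat_lit 5) (nat_lit 70) (nat_lit 5) (nat_lit 71) (nat_lit 5) (nat_lit 321) (nat_lit 306) (nat_lit 153)) (XT.nd (nat_lit 78) (nat_lit 304) (nat_lit 0) (XT.lf (nat_lit 0) (nat_lit 25167419025) (nat_lit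 456) (nat_lit 17849289698) (nat_lit 76) (nat_lit 16206211763) (nat_lit 65) (nat_lit 5) (nat_lit 71) (nat_lit 5) (nat_lit 66) (nat_lit 5) (nat_lit 322) (nat_lit 306) (nat_lit 152)) (XT.lf (nat_lit 0) (nat_lit 10429485801) (nat_lit 304) (nat_lit 21313516597) (nat_lit 380) (nat_lit 29225046121) (nat_lit 61) (nat_lit 5) (nat_lit 65) (nat_lit 5) (nat_lit 66) (nat_lit 5) (nat_lit 323) (nat_lit 306) (nat_lit 151))))) (XT.nd (nat_lit 156) (nat_lit 304) (nat_lit 0) (XT.nd (nat_lit 78) (nat_lit 304) (nat_lit 0) (XT.lf (nat_lit 0) (nat_lit 38976325331) (nat_lit 380) (nat_lit 22072865327) (nat_lit 76) (nat_lit 1734797256) (nat_lit 61) (nat_lit 5) (nat_lit 66) (nat_lit 5) (nat_lit 62) (nat_lit 5) (nat_lit 324) (nat_lit 306) (nat_lit 150)) (XT.lf (nat_lit 0) (nat_lit 7712169781) (nat_lit 304) (nat_lit 39327709607) (nat_lit 380) (nat_lit 17627419482) (nat_lit 57) (nat_lit 5) (nat_lit 61) (nat_lit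 5) (nat_lit 62) (nat_lit 5) (nat_lit 325) (nat_lit 306) (nat_lit 149))) (XT.nd (nat_lit 78) (nat_lit 304) (nat_lit 0) (XT.lf (nat_lit 0) (nat_lit 39751416156) (nat_lit 304) (nat_lit 16127802199) (nat_lit 380) (nat_lit 10746929361) (nat_lit 57) (nat_lit 5) (nat_lit 61) (nat_lit 5) (nat_lit 62) (nat_lit 5) (nat_lit 326) (nat_lit 306) (nat_lit 148)) (XT.nd (nat_lit 78) (nat_lit 76) (nat_lit 0) (XT.lf (nat_lit 0) (nat_lit 4731235215) (nat_lit 228) (nat_lit 60630530830) (nat_lit 304) (nat_lit 3311113445) (nat_lit 54) (nat_lit 5) (nat_lit 57) (nat_lit 5) (nat_lit 58) (nat_lit 5) (nat_lit 327) (nat_lit 306) (nat_lit 147)) (XT.lf (nat_lit 0) (nat_lit 5078426583) (nat_lit 304) (nat_lit 32292086718) (nat_lit 76) (nat_lit 33411634287) (nat_lit 53) (nat_lit 5) (nat_lit 57) (nat_lit 5) (nat_lit 54) (nat_lit 5) (nat_lit 328) (nat_lit 306) (nat_lit 146)))))) (XT.nd (nat_lit 390) (nat_lit 684) (nat_lit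 0) (XT.nd (nat_lit 156) (nat_lit 228) (nat_lit 0) (XT.nd (nat_lit 78) (nat_lit 0) (nat_lit 0) (XT.lf (nat_lit 0) (nat_lit 913602782) (nat_lit 304) (nat_lit 12875744985) (nat_lit 380) (nat_lit 59204160556) (nat_lit 49) (nat_lit 5) (nat_lit 53) (nat_lit 5) (nat_lit 54) (nat_lit 5) (nat_lit 329) (nat_lit 306) (nat_lit 145)) (XT.lf (nat_lit 0) (nat_lit 23691132851) (nat_lit 380) (nat_lit 38598236750) (nat_lit 76) (nat_lit 12988303719) (nat_lit 49) (nat_lit 5) (nat_lit 54) (nat_lit 5) (nat_lit 50) (nat_lit 5) (nat_lit 330) (nat_lit 306) (nat_lit 144))) (XT.nd (nat_lit 78) (nat_lit 228) (nat_lit 0) (XT.lf (nat_lit 0) (nat_lit 34298078626) (nat_lit 380) (nat_lit 3654835121) (nat_lit 76) (nat_lit 39712631267) (nat_lit 49) (nat_lit 5) (nat_lit 54) (nat_lit 5) (nat_lit 50) (nat_lit 5) (nat_lit 331) (nat_lit 306) (nat_lit 143)) (XT.nd (nat_lit 78) (nat_lit 0) (nat_lit 0) (XT.lf (nat_lit 0) (nat_lit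 34126794948) (nat_lit 228) (nat_lit 11840433220) (nat_lit 304) (nat_lit 34178991222) (nat_lit 46) (nat_lit 5) (nat_lit 49) (nat_lit 5) (nat_lit 50) (nat_lit 5) (nat_lit 332) (nat_lit 306) (nat_lit 142)) (XT.lf (nat_lit 0) (nat_lit 58525021902) (nat_lit 304) (nat_lit 9068901297) (nat_lit 76) (nat_lit 15141746780) (nat_lit 46) (nat_lit 5) (nat_lit 50) (nat_lit 5) (nat_lit 47) (nat_lit 5) (nat_lit 333) (nat_lit 306) (nat_lit 141))))) (XT.nd (nat_lit 156) (nat_lit 456) (nat_lit 0) (XT.nd (nat_lit 78) (nat_lit 0) (nat_lit 0) (XT.lf (nat_lit 0) (nat_lit 30510387410) (nat_lit 228) (nat_lit 41869885085) (nat_lit 304) (nat_lit 13040843986) (nat_lit 43) (nat_lit 5) (nat_lit 46) (nat_lit 5) (nat_lit 47) (nat_lit 5) (nat_lit 334) (nat_lit 306) (nat_lit 140)) (XT.lf (nat_lit 0) (nat_lit 72382333258) (nat_lit 228) (nat_lit 14698671979) (nat_lit 304) (nat_lit 1152195751) (nat_lit 43) (nat_lit 5) (nat_lit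 46) (nat_lit 5) (nat_lit 47) (nat_lit 5) (nat_lit 335) (nat_lit 306) (nat_lit 139))) (XT.nd (nat_lit 78) (nat_lit 228) (nat_lit 0) (XT.lf (nat_lit 0) (nat_lit 11595796108) (nat_lit 228) (nat_lit 65572354629) (nat_lit 76) (nat_lit 13977516630) (nat_lit 40) (nat_lit 5) (nat_lit 43) (nat_lit 5) (nat_lit 41) (nat_lit 5) (nat_lit 336) (nat_lit 306) (nat_lit 138)) (XT.nd (nat_lit 78) (nat_lit 228) (nat_lit 0) (XT.lf (nat_lit 0) (nat_lit 25455448438) (nat_lit 228) (nat_lit 24836729951) (nat_lit 76) (nat_lit 43884986577) (nat_lit 40) (nat_lit 5) (nat_lit 43) (nat_lit 5) (nat_lit 41) (nat_lit 5) (nat_lit 337) (nat_lit 306) (nat_lit 137)) (XT.lf (nat_lit 0) (nat_lit 18527576419) (nat_lit 228) (nat_lit 21768991087) (nat_lit 304) (nat_lit 57049247098) (nat_lit 37) (nat_lit 5) (nat_lit 40) (nat_lit 5) (nat_lit 41) (nat_lit 5) (nat_lit 338) (nat_lit 306) (nat_lit 136))))))))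
noncomputable def xc223 : XT := (XT.nd (nat_lit 1560) (nat_lit 532) (nat_lit 0) (XT.nd (nat_lit 780) (nat_lit 684) (nat_lit 0) (XT.nd (nat_lit 390) (nat_lit 304) (nat_lit 0) (XT.nd (nat_lit 156) (nat_lit 304) (nat_lit 0) (XT.nd (nat_lit 78) (nat_lit 152) (nat_lit 0) (XT.lf (nat_lit 0) (nat_lit 56434210505) (nat_lit 304) (nat_lit 35865220531) (nat_lit 76) (nat_lit 8345743590) (nat_lit 37) (nat_lit 5) (nat_lit 41) (nat_lit 5) (nat_lit 38) (nat_lit 5) (nat_lit 339) (nat_lit 306) (nat_lit 135)) (XT.lf (nat_lit 0) (nat_lit 9171048725) (nat_lit 152) (nat_lit 64707010185) (nat_lit 228) (nat_lit 30206478815) (nat_lit 35) (nat_lit 5) (nat_lit 37) (nat_lit 5) (nat_lit 38) (nat_lit 5) (nat_lit 340) (nat_lit 306) (nat_lit 134))) (XT.nd (nat_lit 78) (nat_lit 304) (nat_lit 0) (XT.lf (nat_lit 0) (nat_lit 57703246627) (nat_lit 152) (nat_lit 35097535266) (nat_lit 228) (nat_lit 14864754158) (nat_lit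 35) (nat_lit 5) (nat_lit 37) (nat_lit 5) (nat_lit 38) (nat_lit 5) (nat_lit 341) (nat_lit 306) (nat_lit 133)) (XT.nd (nat_lit 78) (nat_lit 228) (nat_lit 0) (XT.lf (nat_lit 0) (nat_lit 1203548164) (nat_lit 228) (nat_lit 2783971559) (nat_lit 76) (nat_lit 107437129028) (nat_lit 34) (nat_lit 5) (nat_lit 37) (nat_lit 5) (nat_lit 35) (nat_lit 5) (nat_lit 342) (nat_lit 306) (nat_lit 132)) (XT.lf (nat_lit 0) (nat_lit 18789224359) (nat_lit 304) (nat_lit 67739698720) (nat_lit 76) (nat_lit 28769935204) (nat_lit 31) (nat_lit 5) (nat_lit 35) (nat_lit 5) (nat_lit 32) (nat_lit 5) (nat_lit 343) (nat_lit 306) (nat_lit 131))))) (XT.nd (nat_lit 156) (nat_lit 152) (nat_lit 0) (XT.nd (nat_lit 78) (nat_lit 152) (nat_lit 0) (XT.lf (nat_lit 0) (nat_lit 37366827837) (nat_lit 304) (nat_lit 18915445044) (nat_lit 76) (nat_lit 63078874206) (nat_lit 31) (nat_lit 5) (nat_lit 35) (nat_lit 5) (nat_lit 32) (nat_lit 5)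 (nat_lit 344) (nat_lit 306) (nat_lit 130)) (XT.lf (nat_lit 0) (nat_lit 33418692459) (nat_lit 152) (nat_lit 23975762739) (nat_lit 228) (nat_lit 66206038873) (nat_lit 29) (nat_lit 5) (nat_lit 31) (nat_lit 5) (nat_lit 32) (nat_lit 5) (nat_lit 345) (nat_lit 306) (nat_lit 129))) (XT.nd (nat_lit 78) (nat_lit 152) (nat_lit 0) (XT.lf (nat_lit 0) (nat_lit 78903737942) (nat_lit 228) (nat_lit 39171037051) (nat_lit 76) (nat_lit 9953020589) (nat_lit 29) (nat_lit 5) (nat_lit 32) (nat_lit 5) (nat_lit 30) (nat_lit 5) (nat_lit 346) (nat_lit 306) (nat_lit 128)) (XT.nd (nat_lit 78) (nat_lit 0) (nat_lit 0) (XT.lf (nat_lit 0) (nat_lit 14459100482) (nat_lit 152) (nat_lit 87647599776) (nat_lit 228) (nat_lit 30538851979) (nat_lit 27) (nat_lit 5) (nat_lit 29) (nat_lit 5) (nat_lit 30) (nat_lit 5) (nat_lit 347) (nat_lit 306) (nat_lit 127)) (XT.lf (nat_lit 0) (nat_lit 72129787910) (nat_lit 152) (nat_lit 55002839936)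 (nat_lit 228) (nat_lit 10328428819) (nat_lit 27) (nat_lit 5) (nat_lit 29) (nat_lit 5) (nat_lit 30) (nat_lit 5) (nat_lit 348) (nat_lit 306) (nat_lit 126)))))) (XT.nd (nat_lit 390) (nat_lit 304) (nat_lit 0) (XT.nd (nat_lit 156) (nat_lit 152) (nat_lit 0) (XT.nd (nat_lit 78) (nat_lit 152) (nat_lit 0) (XT.lf (nat_lit 0) (nat_lit 10543340960) (nat_lit 228) (nat_lit 10004252780) (nat_lit 76) (nat_lit 121961267465) (nat_lit 26) (nat_lit 5) (nat_lit 29) (nat_lit 5) (nat_lit 27) (nat_lit 5) (nat_lit 349) (nat_lit 306) (nat_lit 125)) (XT.lf (nat_lit 0) (nat_lit 33143438784) (nat_lit 228) (nat_lit 98518057463) (nat_lit 76) (nat_lit 16087502364) (nat_lit 24) (nat_lit 5) (nat_lit 27) (nat_lit 5) (nat_lit 25) (nat_lit 5) (nat_lit 350) (nat_lit 306) (nat_lit 124))) (XT.nd (nat_lit 78) (nat_lit 152) (nat_lit 0) (XT.lf (nat_lit 0) (nat_lit 57382079061) (nat_lit 228) (nat_lit 41807905440) (nat_lit 76)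 (nat_lit 54035732164) (nat_lit 24) (nat_lit 5) (nat_lit 27) (nat_lit 5) (nat_lit 25) (nat_lit 5) (nat_lit 351) (nat_lit 306) (nat_lit 123)) (XT.nd (nat_lit 78) (nat_lit 0) (nat_lit 0) (XT.lf (nat_lit 0) (nat_lit 18323427388) (nat_lit 152) (nat_lit 64794815837) (nat_lit 228) (nat_lit 75843748431) (nat_lit 22) (nat_lit 5) (nat_lit 24) (nat_lit 5) (nat_lit 25) (nat_lit 5) (nat_lit 352) (nat_lit 306) (nat_lit 122)) (XT.lf (nat_lit 0) (nat_lit 82912024785) (nat_lit 152) (nat_lit 27936750839) (nat_lit 228) (nat_lit 54100927367) (nat_lit 22) (nat_lit 5) (nat_lit 24) (nat_lit 5) (nat_lit 25) (nat_lit 5) (nat_lit 353) (nat_lit 306) (nat_lit 121))))) (XT.nd (nat_lit 156) (nat_lit 228) (nat_lit 0) (XT.nd (nat_lit 78) (nat_lit 76) (nat_lit 0) (XT.lf (nat_lit 0) (nat_lit 140133435403) (nat_lit 228) (nat_lit 20675567341) (nat_lit 76) (nat_lit 10419417677) (nat_lit 22) (nat_lit 5) (nat_lit 25) (nat_lit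 5) (nat_lit 23) (nat_lit 4) (nat_lit 354) (nat_lit 306) (nat_lit 120)) (XT.lf (nat_lit 0) (nat_lit 44727505329) (nat_lit 76) (nat_lit 127310687078) (nat_lit 152) (nat_lit 5725088644) (nat_lit 21) (nat_lit 5) (nat_lit 22) (nat_lit 5) (nat_lit 23) (nat_lit 4) (nat_lit 355) (nat_lit 306) (nat_lit 119))) (XT.nd (nat_lit 78) (nat_lit 152) (nat_lit 0) (XT.lf (nat_lit 0) (nat_lit 20599402373) (nat_lit 152) (nat_lit 70821818878) (nat_lit 76) (nat_lit 93169565384) (nat_lit 20) (nat_lit 5) (nat_lit 22) (nat_lit 5) (nat_lit 21) (nat_lit 5) (nat_lit 356) (nat_lit 306) (nat_lit 118)) (XT.nd (nat_lit 78) (nat_lit 152) (nat_lit 0) (XT.lf (nat_lit 0) (nat_lit 48047303324) (nat_lit 152) (nat_lit 5591710398) (nat_lit 76) (nat_lit 138115982251) (nat_lit 20) (nat_lit 5) (nat_lit 22) (nat_lit 5) (nat_lit 21) (nat_lit 5) (nat_lit 357) (nat_lit 306) (nat_lit 117)) (XT.lf (nat_lit 0) (nat_lit 64978977252)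 (nat_lit 152) (nat_lit 12902731630) (nat_lit 228) (nat_lit 121345001863) (nat_lit 18) (nat_lit 5) (nat_lit 20) (nat_lit 5) (nat_lit 21) (nat_lit 5) (nat_lit 358) (nat_lit 306) (nat_lit 116))))))) (XT.nd (nat_lit 780) (nat_lit 152) (nat_lit 0) (XT.nd (nat_lit 390) (nat_lit 228) (nat_lit 0) (XT.nd (nat_lit 156) (nat_lit 76) (nat_lit 0) (XT.nd (nat_lit 78) (nat_lit 76) (nat_lit 0) (XT.lf (nat_lit 0) (nat_lit 109770055742) (nat_lit 228) (nat_lit 68263522328) (nat_lit 76) (nat_lit 29010322558) (nat_lit 18) (nat_lit 5) (nat_lit 21) (nat_lit 5) (nat_lit 19) (nat_lit 4) (nat_lit 359) (nat_lit 306) (nat_lit 115)) (XT.lf (nat_lit 0) (nat_lit 834454289) (nat_lit 76) (nat_lit 142642542748) (nat_lit 152) (nat_lit 71763744516) (nat_lit 17) (nat_lit 5) (nat_lit 18) (nat_lit 5) (nat_lit 19) (nat_lit 4) (nat_lit 360) (nat_lit 306) (nat_lit 114))) (XT.nd (nat_lit 78) (nat_lit 76) (nat_lit 0) (XT.lf (nat_lit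 0) (nat_lit 75756662631) (nat_lit 76) (nat_lit 104268335241) (nat_lit 152) (nat_lit 43764641415) (nat_lit 17) (nat_lit 5) (nat_lit 18) (nat_lit 5) (nat_lit 19) (nat_lit 4) (nat_lit 361) (nat_lit 306) (nat_lit 113)) (XT.nd (nat_lit 78) (nat_lit 76) (nat_lit 0) (XT.lf (nat_lit 0) (nat_lit 154424388570) (nat_lit 76) (nat_lit 63975664170) (nat_lit 152) (nat_lit 14365946831) (nat_lit 17) (nat_lit 5) (nat_lit 18) (nat_lit 5) (nat_lit 19) (nat_lit 4) (nat_lit 362) (nat_lit 306) (nat_lit 112)) (XT.lf (nat_lit 0) (nat_lit 15974158311) (nat_lit 152) (nat_lit 5423906193) (nat_lit 76) (nat_lit 220780247805) (nat_lit 16) (nat_lit 5) (nat_lit 18) (nat_lit 5) (nat_lit 17) (nat_lit 5) (nat_lit 363) (nat_lit 306) (nat_lit 111))))) (XT.nd (nat_lit 156) (nat_lit 76) (nat_lit 0) (XT.nd (nat_lit 78) (nat_lit 0) (nat_lit 0) (XT.lf (nat_lit 0) (nat_lit 48878280824) (nat_lit 228) (nat_lit 179130793686) (nat_lit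 76) (nat_lit 23963901018) (nat_lit 14) (nat_lit 5) (nat_lit 17) (nat_lit 5) (nat_lit 15) (nat_lit 4) (nat_lit 364) (nat_lit 306) (nat_lit 110)) (XT.lf (nat_lit 0) (nat_lit 83871443653) (nat_lit 228) (nat_lit 107395744924) (nat_lit 76) (nat_lit 70967991923) (nat_lit 14) (nat_lit 5) (nat_lit 17) (nat_lit 5) (nat_lit 15) (nat_lit 4) (nat_lit 365) (nat_lit 306) (nat_lit 109))) (XT.nd (nat_lit 78) (nat_lit 76) (nat_lit 0) (XT.lf (nat_lit 0) (nat_lit 120613963600) (nat_lit 228) (nat_lit 32074469542) (nat_lit 76) (nat_lit 120322077914) (nat_lit 14) (nat_lit 5) (nat_lit 17) (nat_lit 5) (nat_lit 15) (nat_lit 4) (nat_lit 366) (nat_lit 306) (nat_lit 108)) (XT.nd (nat_lit 78) (nat_lit 0) (nat_lit 0) (XT.lf (nat_lit 0) (nat_lit 48566810055) (nat_lit 76) (nat_lit 111384776814) (nat_lit 152) (nat_lit 124335122679) (nat_lit 13) (nat_lit 5) (nat_lit 14) (nat_lit 5) (nat_lit 15) (nat_lit 4) (nat_lit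 367) (nat_lit 306) (nat_lit 107)) (XT.lf (nat_lit 0) (nat_lit 134353214087) (nat_lit 76) (nat_lit 67445793148) (nat_lit 152) (nat_lit 94300565192) (nat_lit 13) (nat_lit 5) (nat_lit 14) (nat_lit 5) (nat_lit 15) (nat_lit 4) (nat_lit 368) (nat_lit 306) (nat_lit 106)))))) (XT.nd (nat_lit 35958) (nat_lit 0) (nat_lit 5320) (XT.nd (nat_lit 156) (nat_lit 152) (nat_lit 0) (XT.nd (nat_lit 78) (nat_lit 0) (nat_lit 0) (XT.lf (nat_lit 0) (nat_lit 224428469080) (nat_lit 76) (nat_lit 21310062179) (nat_lit 152) (nat_lit 62764560807) (nat_lit 13) (nat_lit 5) (nat_lit 14) (nat_lit 5) (nat_lit 15) (nat_lit 4) (nat_lit 369) (nat_lit 306) (nat_lit 105)) (XT.lf (nat_lit 0) (nat_lit 292298387520) (nat_lit 152) (nat_lit 2943371393) (nat_lit 0) (nat_lit 26263861208) (nat_lit 13) (nat_lit 5) (nat_lit 15) (nat_lit 4) (nat_lit 13) (nat_lit 4) (nat_lit 370) (nat_lit 306) (nat_lit 104))) (XT.nd (nat_lit 35646) (nat_lit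 0) (nat_lit 5320) (XT.lf (nat_lit 0) (nat_lit 7532387683) (nat_lit 152) (nat_lit 250593796073) (nat_lit 76) (nat_lit 76942517463) (nat_lit 11) (nat_lit 5) (nat_lit 13) (nat_lit 5) (nat_lit 12) (nat_lit 4) (nat_lit 371) (nat_lit 306) (nat_lit 103)) (XT.nd (nat_lit 78) (nat_lit 0) (nat_lit 0) (XT.lf (nat_lit 0) (nat_lit 6476783609) (nat_lit 0) (nat_lit 6476783609) (nat_lit 684) (nat_lit 7349010716) (nat_lit 81) (nat_lit 5) (nat_lit 81) (nat_lit 3) (nat_lit 90) (nat_lit 3) (nat_lit 307) (nat_lit 307) (nat_lit 166)) (XT.lf (nat_lit 0) (nat_lit 26673302063) (nat_lit 684) (nat_lit 9874252306) (nat_lit 760) (nat_lit 5066709127) (nat_lit 81) (nat_lit 5) (nat_lit 90) (nat_lit 3) (nat_lit 91) (nat_lit 5) (nat_lit 308) (nat_lit 307) (nat_lit 165))))) (XT.nd (nat_lit 156) (nat_lit 0) (nat_lit 76) (XT.nd (nat_lit 78) (nat_lit 0) (nat_lit 0) (XT.lf (nat_lit 76) (nat_lit 8861914853) (nat_lit 0) (nat_lit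 18964240855) (nat_lit 760) (nat_lit 14830258109) (nat_lit 82) (nat_lit 5) (nat_lit 81) (nat_lit 5) (nat_lit 91) (nat_lit 5) (nat_lit 309) (nat_lit 307) (nat_lit 164)) (XT.lf (nat_lit 76) (nat_lit 28876404328) (nat_lit 0) (nat_lit 325228641) (nat_lit 760) (nat_lit 14540795541) (nat_lit 82) (nat_lit 5) (nat_lit 81) (nat_lit 5) (nat_lit 91) (nat_lit 5) (nat_lit 310) (nat_lit 307) (nat_lit 163))) (XT.nd (nat_lit 78) (nat_lit 0) (nat_lit 0) (XT.lf (nat_lit 76) (nat_lit 4862667671) (nat_lit 0) (nat_lit 26157492777) (nat_lit 760) (nat_lit 13843875292) (nat_lit 83) (nat_lit 5) (nat_lit 82) (nat_lit 5) (nat_lit 92) (nat_lit 5) (nat_lit 311) (nat_lit 307) (nat_lit 162)) (XT.nd (nat_lit 78) (nat_lit 0) (nat_lit 76) (XT.lf (nat_lit 76) (nat_lit 26087060428) (nat_lit 0) (nat_lit 7097519631) (nat_lit 760) (nat_lit 12844400338) (nat_lit 83) (nat_lit 5) (nat_lit 82) (nat_lit 5) (nat_lit 92) (nat_lit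 5) (nat_lit 312) (nat_lit 307) (nat_lit 161)) (XT.lf (nat_lit 76) (nat_lit 947800072) (nat_lit 0) (nat_lit 34723929359) (nat_lit 760) (nat_lit 11569722515) (nat_lit 84) (nat_lit 5) (nat_lit 83) (nat_lit 5) (nat_lit 93) (nat_lit 5) (nat_lit 313) (nat_lit 307) (nat_lit 160))))))))
noncomputable def xc224 : XT := (XT.nd (nat_lit 1482) (nat_lit 1900) (nat_lit 0) (XT.nd (nat_lit 702) (nat_lit 1216) (nat_lit 0) (XT.nd (nat_lit 312) (nat_lit 1368) (nat_lit 0) (XT.nd (nat_lit 156) (nat_lit 0) (nat_lit 76) (XT.nd (nat_lit 78) (nat_lit 0) (nat_lit 76) (XT.lf (nat_lit 76) (nat_lit 23452777451) (nat_lit 0) (nat_lit 15280796389) (nat_lit 760) (nat_lit 9758461210) (nat_lit 84) (nat_lit 5) (nat_lit 83) (nat_lit 5) (nat_lit 93) (nat_lit 5) (nat_lit 314) (nat_lit 307) (nat_lit 159)) (XT.lf (nat_lit 0) (nat_lit 42026905868) (nat_lit 684) (nat_lit 2803710315) (nat_lit 760) (nat_lit 4970615980) (nat_lit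 84) (nat_lit 5) (nat_lit 93) (nat_lit 5) (nat_lit 94) (nat_lit 5) (nat_lit 315) (nat_lit 307) (nat_lit 158))) (XT.nd (nat_lit 78) (nat_lit 0) (nat_lit 0) (XT.lf (nat_lit 76) (nat_lit 20962711070) (nat_lit 0) (nat_lit 25098300732) (nat_lit 760) (nat_lit 5086076368) (nat_lit 85) (nat_lit 5) (nat_lit 84) (nat_lit 5) (nat_lit 94) (nat_lit 5) (nat_lit 316) (nat_lit 307) (nat_lit 157)) (XT.lf (nat_lit 76) (nat_lit 46013477493) (nat_lit 0) (nat_lit 4329203190) (nat_lit 760) (nat_lit 2215267608) (nat_lit 85) (nat_lit 5) (nat_lit 84) (nat_lit 5) (nat_lit 94) (nat_lit 5) (nat_lit 317) (nat_lit 307) (nat_lit 156)))) (XT.nd (nat_lit 156) (nat_lit 760) (nat_lit 0) (XT.nd (nat_lit 78) (nat_lit 0) (nat_lit 0) (XT.lf (nat_lit 0) (nat_lit 1344428355) (nat_lit 760) (nat_lit 35434479612) (nat_lit 76) (nat_lit 17231277339) (nat_lit 75) (nat_lit 5) (nat_lit 85) (nat_lit 5) (nat_lit 76) (nat_lit 5) (nat_lit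 318) (nat_lit 307) (nat_lit 155)) (XT.lf (nat_lit 0) (nat_lit 5189765098) (nat_lit 760) (nat_lit 10460865697) (nat_lit 76) (nat_lit 39873486034) (nat_lit 75) (nat_lit 5) (nat_lit 85) (nat_lit 5) (nat_lit 76) (nat_lit 5) (nat_lit 319) (nat_lit 307) (nat_lit 154))) (XT.nd (nat_lit 78) (nat_lit 380) (nat_lit 0) (XT.lf (nat_lit 0) (nat_lit 9586303057) (nat_lit 456) (nat_lit 40926070292) (nat_lit 76) (nat_lit 6583428311) (nat_lit 70) (nat_lit 5) (nat_lit 76) (nat_lit 5) (nat_lit 71) (nat_lit 5) (nat_lit 320) (nat_lit 307) (nat_lit 153)) (XT.nd (nat_lit 78) (nat_lit 380) (nat_lit 0) (XT.lf (nat_lit 0) (nat_lit 14637904768) (nat_lit 456) (nat_lit 14503007508) (nat_lit 76) (nat_lit 29583399900) (nat_lit 70) (nat_lit 5) (nat_lit 76) (nat_lit 5) (nat_lit 71) (nat_lit 5) (nat_lit 321) (nat_lit 307) (nat_lit 152)) (XT.lf (nat_lit 0) (nat_lit 13677685765) (nat_lit 380) (nat_lit 6476619284) (nat_lit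 456) (nat_lit 40269335373) (nat_lit 65) (nat_lit 5) (nat_lit 70) (nat_lit 5) (nat_lit 71) (nat_lit 5) (nat_lit 322) (nat_lit 307) (nat_lit 151)))))) (XT.nd (nat_lit 390) (nat_lit 608) (nat_lit 0) (XT.nd (nat_lit 156) (nat_lit 304) (nat_lit 0) (XT.nd (nat_lit 78) (nat_lit 304) (nat_lit 0) (XT.lf (nat_lit 0) (nat_lit 26465309941) (nat_lit 456) (nat_lit 18700523594) (nat_lit 76) (nat_lit 17016165299) (nat_lit 65) (nat_lit 5) (nat_lit 71) (nat_lit 5) (nat_lit 66) (nat_lit 5) (nat_lit 323) (nat_lit 307) (nat_lit 150)) (XT.lf (nat_lit 0) (nat_lit 10991525671) (nat_lit 304) (nat_lit 22376898251) (nat_lit 380) (nat_lit 30646026139) (nat_lit 61) (nat_lit 5) (nat_lit 65) (nat_lit 5) (nat_lit 66) (nat_lit 5) (nat_lit 324) (nat_lit 307) (nat_lit 149))) (XT.nd (nat_lit 78) (nat_lit 304) (nat_lit 0) (XT.lf (nat_lit 0) (nat_lit 40961624667) (nat_lit 380) (nat_lit 23136003217) (nat_lit 76) (nat_lit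 1823652117) (nat_lit 61) (nat_lit 5) (nat_lit 66) (nat_lit 5) (nat_lit 62) (nat_lit 5) (nat_lit 325) (nat_lit 307) (nat_lit 148)) (XT.nd (nat_lit 78) (nat_lit 0) (nat_lit 0) (XT.lf (nat_lit 0) (nat_lit 8137630334) (nat_lit 304) (nat_lit 41289611006) (nat_lit 380) (nat_lit 18471574878) (nat_lit 57) (nat_lit 5) (nat_lit 61) (nat_lit 5) (nat_lit 62) (nat_lit 5) (nat_lit 326) (nat_lit 307) (nat_lit 147)) (XT.lf (nat_lit 0) (nat_lit 41776941310) (nat_lit 304) (nat_lit 16929921756) (nat_lit 380) (nat_lit 11248832422) (nat_lit 57) (nat_lit 5) (nat_lit 61) (nat_lit 5) (nat_lit 62) (nat_lit 5) (nat_lit 327) (nat_lit 307) (nat_lit 146))))) (XT.nd (nat_lit 156) (nat_lit 304) (nat_lit 0) (XT.nd (nat_lit 78) (nat_lit 76) (nat_lit 0) (XT.lf (nat_lit 0) (nat_lit 5006804789) (nat_lit 228) (nat_lit 63655801883) (nat_lit 304) (nat_lit 3442207344) (nat_lit 54) (nat_lit 5) (nat_lit 57) (nat_lit 5) (nat_lit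 58) (nat_lit 5) (nat_lit 328) (nat_lit 307) (nat_lit 145)) (XT.lf (nat_lit 0) (nat_lit 5364118181) (nat_lit 304) (nat_lit 33868425132) (nat_lit 76) (nat_lit 35087057986) (nat_lit 53) (nat_lit 5) (nat_lit 57) (nat_lit 5) (nat_lit 54) (nat_lit 5) (nat_lit 329) (nat_lit 307) (nat_lit 144))) (XT.nd (nat_lit 78) (nat_lit 0) (nat_lit 0) (XT.lf (nat_lit 0) (nat_lit 996931650) (nat_lit 304) (nat_lit 13512728705) (nat_lit 380) (nat_lit 62131919071) (nat_lit 49) (nat_lit 5) (nat_lit 53) (nat_lit 5) (nat_lit 54) (nat_lit 5) (nat_lit 330) (nat_lit 307) (nat_lit 143)) (XT.nd (nat_lit 78) (nat_lit 0) (nat_lit 0) (XT.lf (nat_lit 0) (nat_lit 24905167039) (nat_lit 380) (nat_lit 40490865903) (nat_lit 76) (nat_lit 13643991070) (nat_lit 49) (nat_lit 5) (nat_lit 54) (nat_lit 5) (nat_lit 50) (nat_lit 5) (nat_lit 331) (nat_lit 307) (nat_lit 142)) (XT.lf (nat_lit 0) (nat_lit 36041056410) (nat_lit 380) (nat_lit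 3802069558) (nat_lit 76) (nat_lit 41704236321) (nat_lit 49) (nat_lit 5) (nat_lit 54) (nat_lit 5) (nat_lit 50) (nat_lit 5) (nat_lit 332) (nat_lit 307) (nat_lit 141))))))) (XT.nd (nat_lit 780) (nat_lit 836) (nat_lit 0) (XT.nd (nat_lit 390) (nat_lit 380) (nat_lit 0) (XT.nd (nat_lit 156) (nat_lit 456) (nat_lit 0) (XT.nd (nat_lit 78) (nat_lit 0) (nat_lit 0) (XT.lf (nat_lit 0) (nat_lit 35868069316) (nat_lit 228) (nat_lit 12424802691) (nat_lit 304) (nat_lit 35859240628) (nat_lit 46) (nat_lit 5) (nat_lit 49) (nat_lit 5) (nat_lit 50) (nat_lit 5) (nat_lit 333) (nat_lit 307) (nat_lit 140)) (XT.lf (nat_lit 0) (nat_lit 61477370047) (nat_lit 304) (nat_lit 9487838864) (nat_lit 76) (nat_lit 15905888664) (nat_lit 46) (nat_lit 5) (nat_lit 50) (nat_lit 5) (nat_lit 47) (nat_lit 5) (nat_lit 334) (nat_lit 307) (nat_lit 139))) (XT.nd (nat_lit 78) (nat_lit 228) (nat_lit 0) (XT.lf (nat_lit 0) (nat_lit 32069857706)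 (nat_lit 228) (nat_lit 43954812816) (nat_lit 304) (nat_lit 13666183944) (nat_lit 43) (nat_lit 5) (nat_lit 46) (nat_lit 5) (nat_lit 47) (nat_lit 5) (nat_lit 335) (nat_lit 307) (nat_lit 138)) (XT.nd (nat_lit 78) (nat_lit 228) (nat_lit 0) (XT.lf (nat_lit 0) (nat_lit 76033784135) (nat_lit 228) (nat_lit 15425446985) (nat_lit 304) (nat_lit 1184374832) (nat_lit 43) (nat_lit 5) (nat_lit 46) (nat_lit 5) (nat_lit 47) (nat_lit 5) (nat_lit 336) (nat_lit 307) (nat_lit 137)) (XT.lf (nat_lit 0) (nat_lit 12199676187) (nat_lit 228) (nat_lit 68817211615) (nat_lit 76) (nat_lit 14684816420) (nat_lit 40) (nat_lit 5) (nat_lit 43) (nat_lit 5) (nat_lit 41) (nat_lit 5) (nat_lit 337) (nat_lit 307) (nat_lit 136))))) (XT.nd (nat_lit 156) (nat_lit 152) (nat_lit 0) (XT.nd (nat_lit 78) (nat_lit 228) (nat_lit 0) (XT.lf (nat_lit 0) (nat_lit 26751163978) (nat_lit 228) (nat_lit 26046413358) (nat_lit 76) (nat_lit 46087258724)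 (nat_lit 40) (nat_lit 5) (nat_lit 43) (nat_lit 5) (nat_lit 41) (nat_lit 5) (nat_lit 338) (nat_lit 307) (nat_lit 135)) (XT.lf (nat_lit 0) (nat_lit 19485589733) (nat_lit 228) (nat_lit 22848150641) (nat_lit 304) (nat_lit 59878209642) (nat_lit 37) (nat_lit 5) (nat_lit 40) (nat_lit 5) (nat_lit 41) (nat_lit 5) (nat_lit 339) (nat_lit 307) (nat_lit 134))) (XT.nd (nat_lit 78) (nat_lit 152) (nat_lit 0) (XT.lf (nat_lit 0) (nat_lit 59277339635) (nat_lit 304) (nat_lit 37627391301) (nat_lit 76) (nat_lit 8771595211) (nat_lit 37) (nat_lit 5) (nat_lit 41) (nat_lit 5) (nat_lit 38) (nat_lit 5) (nat_lit 340) (nat_lit 307) (nat_lit 133)) (XT.nd (nat_lit 78) (nat_lit 0) (nat_lit 0) (XT.lf (nat_lit 0) (nat_lit 9660189962) (nat_lit 152) (nat_lit 67932648142) (nat_lit 228) (nat_lit 31694848143) (nat_lit 35) (nat_lit 5) (nat_lit 37) (nat_lit 5) (nat_lit 38) (nat_lit 5) (nat_lit 341) (nat_lit 307) (nat_lit 132))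 (XT.lf (nat_lit 0) (nat_lit 60617541149) (nat_lit 152) (nat_lit 36843161980) (nat_lit 228) (nat_lit 15587082710) (nat_lit 35) (nat_lit 5) (nat_lit 37) (nat_lit 5) (nat_lit 38) (nat_lit 5) (nat_lit 342) (nat_lit 307) (nat_lit 131)))))) (XT.nd (nat_lit 390) (nat_lit 380) (nat_lit 0) (XT.nd (nat_lit 156) (nat_lit 152) (nat_lit 0) (XT.nd (nat_lit 78) (nat_lit 228) (nat_lit 0) (XT.lf (nat_lit 0) (nat_lit 1283001698) (nat_lit 228) (nat_lit 2894757989) (nat_lit 76) (nat_lit 112817127847) (nat_lit 34) (nat_lit 5) (nat_lit 37) (nat_lit 5) (nat_lit 35) (nat_lit 5) (nat_lit 343) (nat_lit 307) (nat_lit 130)) (XT.lf (nat_lit 0) (nat_lit 19747623231) (nat_lit 304) (nat_lit 71097904611) (nat_lit 76) (nat_lit 30217298045) (nat_lit 31) (nat_lit 5) (nat_lit 35) (nat_lit 5) (nat_lit 32) (nat_lit 5) (nat_lit 344) (nat_lit 307) (nat_lit 129))) (XT.nd (nat_lit 78) (nat_lit 152) (nat_lit 0) (XT.lf (nat_lit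 0) (nat_lit 39253205091) (nat_lit 304) (nat_lit 19833808682) (nat_lit 76) (nat_lit 66241261803) (nat_lit 31) (nat_lit 5) (nat_lit 35) (nat_lit 5) (nat_lit 32) (nat_lit 5) (nat_lit 345) (nat_lit 307) (nat_lit 128)) (XT.nd (nat_lit 78) (nat_lit 0) (nat_lit 0) (XT.lf (nat_lit 0) (nat_lit 35116593622) (nat_lit 152) (nat_lit 25165182370) (nat_lit 228) (nat_lit 69497837097) (nat_lit 29) (nat_lit 5) (nat_lit 31) (nat_lit 5) (nat_lit 32) (nat_lit 5) (nat_lit 346) (nat_lit 307) (nat_lit 127)) (XT.lf (nat_lit 0) (nat_lit 82865824176) (nat_lit 228) (nat_lit 41103183230) (nat_lit 76) (nat_lit 10459308433) (nat_lit 29) (nat_lit 5) (nat_lit 32) (nat_lit 5) (nat_lit 30) (nat_lit 5) (nat_lit 347) (nat_lit 307) (nat_lit 126))))) (XT.nd (nat_lit 156) (nat_lit 228) (nat_lit 0) (XT.nd (nat_lit 78) (nat_lit 0) (nat_lit 0) (XT.lf (nat_lit 0) (nat_lit 15208035282) (nat_lit 152) (nat_lit 92020500212) (nat_lit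 228) (nat_lit 32048445957) (nat_lit 27) (nat_lit 5) (nat_lit 29) (nat_lit 5) (nat_lit 30) (nat_lit 5) (nat_lit 348) (nat_lit 307) (nat_lit 125)) (XT.lf (nat_lit 0) (nat_lit 75761019949) (nat_lit 152) (nat_lit 57743953787) (nat_lit 228) (nat_lit 10828327764) (nat_lit 27) (nat_lit 5) (nat_lit 29) (nat_lit 5) (nat_lit 30) (nat_lit 5) (nat_lit 349) (nat_lit 307) (nat_lit 124))) (XT.nd (nat_lit 78) (nat_lit 152) (nat_lit 0) (XT.lf (nat_lit 0) (nat_lit 11085740077) (nat_lit 228) (nat_lit 10480377153) (nat_lit 76) (nat_lit 128067405229) (nat_lit 26) (nat_lit 5) (nat_lit 29) (nat_lit 5) (nat_lit 27) (nat_lit 5) (nat_lit 350) (nat_lit 307) (nat_lit 123)) (XT.nd (nat_lit 78) (nat_lit 0) (nat_lit 0) (XT.lf (nat_lit 0) (nat_lit 34815625227) (nat_lit 228) (nat_lit 103419635264) (nat_lit 76) (nat_lit 16900418084) (nat_lit 24) (nat_lit 5) (nat_lit 27) (nat_lit 5) (nat_lit 25) (nat_lit 5) (nat_lit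 351) (nat_lit 307) (nat_lit 122)) (XT.lf (nat_lit 0) (nat_lit 60265482542) (nat_lit 228) (nat_lit 43875133978) (nat_lit 76) (nat_lit 56745652679) (nat_lit 24) (nat_lit 5) (nat_lit 27) (nat_lit 5) (nat_lit 25) (nat_lit 5) (nat_lit 352) (nat_lit 307) (nat_lit 121))))))))
noncomputable def xc225 : XT := (XT.nd (nat_lit 37206) (nat_lit 0) (nat_lit 3344) (XT.nd (nat_lit 702) (nat_lit 304) (nat_lit 0) (XT.nd (nat_lit 312) (nat_lit 304) (nat_lit 0) (XT.nd (nat_lit 156) (nat_lit 76) (nat_lit 0) (XT.nd (nat_lit 78) (nat_lit 0) (nat_lit 0) (XT.lf (nat_lit 0) (nat_lit 19262391835) (nat_lit 152) (nat_lit 68025738013) (nat_lit 228) (nat_lit 79621245217) (nat_lit 22) (nat_lit 5) (nat_lit 24) (nat_lit 5) (nat_lit 25) (nat_lit 5) (nat_lit 353) (nat_lit 307) (nat_lit 120)) (XT.lf (nat_lit 0) (nat_lit 87079333717) (nat_lit 152) (nat_lit 29325189699) (nat_lit 228) (nat_lit 56791982653) (nat_lit 22) (nat_lit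 5) (nat_lit 24) (nat_lit 5) (nat_lit 25) (nat_lit 5) (nat_lit 354) (nat_lit 307) (nat_lit 119))) (XT.nd (nat_lit 78) (nat_lit 76) (nat_lit 0) (XT.lf (nat_lit 0) (nat_lit 147152907304) (nat_lit 228) (nat_lit 21688147006) (nat_lit 76) (nat_lit 10948131296) (nat_lit 22) (nat_lit 5) (nat_lit 25) (nat_lit 5) (nat_lit 23) (nat_lit 4) (nat_lit 355) (nat_lit 307) (nat_lit 118)) (XT.lf (nat_lit 0) (nat_lit 46984737383) (nat_lit 76) (nat_lit 133667880879) (nat_lit 152) (nat_lit 5998185955) (nat_lit 21) (nat_lit 5) (nat_lit 22) (nat_lit 5) (nat_lit 23) (nat_lit 4) (nat_lit 356) (nat_lit 307) (nat_lit 117)))) (XT.nd (nat_lit 156) (nat_lit 228) (nat_lit 0) (XT.nd (nat_lit 78) (nat_lit 0) (nat_lit 0) (XT.lf (nat_lit 0) (nat_lit 21641502026) (nat_lit 152) (nat_lit 74342631484) (nat_lit 76) (nat_lit 97835572306) (nat_lit 20) (nat_lit 5) (nat_lit 22) (nat_lit 5) (nat_lit 21) (nat_lit 5) (nat_lit 357)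 (nat_lit 307) (nat_lit 116)) (XT.lf (nat_lit 0) (nat_lit 50461220427) (nat_lit 152) (nat_lit 5851983215) (nat_lit 76) (nat_lit 145028951510) (nat_lit 20) (nat_lit 5) (nat_lit 22) (nat_lit 5) (nat_lit 21) (nat_lit 5) (nat_lit 358) (nat_lit 307) (nat_lit 115))) (XT.nd (nat_lit 78) (nat_lit 76) (nat_lit 0) (XT.lf (nat_lit 0) (nat_lit 68246927322) (nat_lit 152) (nat_lit 13540165511) (nat_lit 228) (nat_lit 127400376121) (nat_lit 18) (nat_lit 5) (nat_lit 20) (nat_lit 5) (nat_lit 21) (nat_lit 5) (nat_lit 359) (nat_lit 307) (nat_lit 114)) (XT.nd (nat_lit 78) (nat_lit 76) (nat_lit 0) (XT.lf (nat_lit 0) (nat_lit 115269433547) (nat_lit 228) (nat_lit 71658166754) (nat_lit 76) (nat_lit 30467939796) (nat_lit 18) (nat_lit 5) (nat_lit 21) (nat_lit 5) (nat_lit 19) (nat_lit 4) (nat_lit 360) (nat_lit 307) (nat_lit 113)) (XT.lf (nat_lit 0) (nat_lit 894409796) (nat_lit 76) (nat_lit 149767078917) (nat_lit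 152) (nat_lit 75340746577) (nat_lit 17) (nat_lit 5) (nat_lit 18) (nat_lit 5) (nat_lit 19) (nat_lit 4) (nat_lit 361) (nat_lit 307) (nat_lit 112)))))) (XT.nd (nat_lit 390) (nat_lit 76) (nat_lit 0) (XT.nd (nat_lit 156) (nat_lit 228) (nat_lit 0) (XT.nd (nat_lit 78) (nat_lit 0) (nat_lit 0) (XT.lf (nat_lit 0) (nat_lit 79561860326) (nat_lit 76) (nat_lit 109474522510) (nat_lit 152) (nat_lit 45942220947) (nat_lit 17) (nat_lit 5) (nat_lit 18) (nat_lit 5) (nat_lit 19) (nat_lit 4) (nat_lit 362) (nat_lit 307) (nat_lit 111)) (XT.lf (nat_lit 0) (nat_lit 162162145679) (nat_lit 76) (nat_lit 67167562147) (nat_lit 152) (nat_lit 15074098898) (nat_lit 17) (nat_lit 5) (nat_lit 18) (nat_lit 5) (nat_lit 19) (nat_lit 4) (nat_lit 363) (nat_lit 307) (nat_lit 110))) (XT.nd (nat_lit 78) (nat_lit 152) (nat_lit 0) (XT.lf (nat_lit 0) (nat_lit 16782219143) (nat_lit 152) (nat_lit 5679032827) (nat_lit 76) (nat_lit 231825499055)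 (nat_lit 16) (nat_lit 5) (nat_lit 18) (nat_lit 5) (nat_lit 17) (nat_lit 5) (nat_lit 364) (nat_lit 307) (nat_lit 109)) (XT.nd (nat_lit 78) (nat_lit 0) (nat_lit 0) (XT.lf (nat_lit 0) (nat_lit 51331453141) (nat_lit 228) (nat_lit 188071161239) (nat_lit 76) (nat_lit 25168538196) (nat_lit 14) (nat_lit 5) (nat_lit 17) (nat_lit 5) (nat_lit 15) (nat_lit 4) (nat_lit 365) (nat_lit 307) (nat_lit 108)) (XT.lf (nat_lit 0) (nat_lit 88073833240) (nat_lit 228) (nat_lit 112750130140) (nat_lit 76) (nat_lit 74522526879) (nat_lit 14) (nat_lit 5) (nat_lit 17) (nat_lit 5) (nat_lit 15) (nat_lit 4) (nat_lit 366) (nat_lit 307) (nat_lit 107))))) (XT.nd (nat_lit 156) (nat_lit 0) (nat_lit 0) (XT.nd (nat_lit 78) (nat_lit 76) (nat_lit 0) (XT.lf (nat_lit 0) (nat_lit 126653059308) (nat_lit 228) (nat_lit 33663524419) (nat_lit 76) (nat_lit 126344025010) (nat_lit 14) (nat_lit 5) (nat_lit 17) (nat_lit 5) (nat_lit 15) (nat_lit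 4) (nat_lit 367) (nat_lit 307) (nat_lit 106)) (XT.lf (nat_lit 0) (nat_lit 51009582568) (nat_lit 76) (nat_lit 116947806616) (nat_lit 152) (nat_lit 130543237079) (nat_lit 13) (nat_lit 5) (nat_lit 14) (nat_lit 5) (nat_lit 15) (nat_lit 4) (nat_lit 368) (nat_lit 307) (nat_lit 105))) (XT.nd (nat_lit 78) (nat_lit 0) (nat_lit 0) (XT.lf (nat_lit 0) (nat_lit 141084619562) (nat_lit 76) (nat_lit 70812169435) (nat_lit 152) (nat_lit 99007363230) (nat_lit 13) (nat_lit 5) (nat_lit 14) (nat_lit 5) (nat_lit 15) (nat_lit 4) (nat_lit 369) (nat_lit 307) (nat_lit 104)) (XT.nd (nat_lit 35802) (nat_lit 0) (nat_lit 5168) (XT.lf (nat_lit 0) (nat_lit 235662982792) (nat_lit 76) (nat_lit 22369933507) (nat_lit 152) (nat_lit 65894950541) (nat_lit 13) (nat_lit 5) (nat_lit 14) (nat_lit 5) (nat_lit 15) (nat_lit 4) (nat_lit 370) (nat_lit 307) (nat_lit 103)) (XT.lf (nat_lit 0) (nat_lit 6818719837) (nat_lit 0) (nat_lit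 6818719837) (nat_lit 684) (nat_lit 7678362156) (nat_lit 81) (nat_lit 5) (nat_lit 81) (nat_lit 3) (nat_lit 90) (nat_lit 3) (nat_lit 308) (nat_lit 308) (nat_lit 164))))))) (XT.nd (nat_lit 780) (nat_lit 1824) (nat_lit 0) (XT.nd (nat_lit 390) (nat_lit 0) (nat_lit 152) (XT.nd (nat_lit 156) (nat_lit 0) (nat_lit 0) (XT.nd (nat_lit 78) (nat_lit 0) (nat_lit 0) (XT.lf (nat_lit 0) (nat_lit 28075370116) (nat_lit 684) (nat_lit 10329327598) (nat_lit 760) (nat_lit 5286677291) (nat_lit 81) (nat_lit 5) (nat_lit 90) (nat_lit 3) (nat_lit 91) (nat_lit 5) (nat_lit 309) (nat_lit 308) (nat_lit 163)) (XT.lf (nat_lit 76) (nat_lit 9343024736) (nat_lit 0) (nat_lit 19940177931) (nat_lit 760) (nat_lit 15502572008) (nat_lit 82) (nat_lit 5) (nat_lit 81) (nat_lit 5) (nat_lit 91) (nat_lit 5) (nat_lit 310) (nat_lit 308) (nat_lit 162))) (XT.nd (nat_lit 78) (nat_lit 0) (nat_lit 76) (XT.lf (nat_lit 76) (nat_lit 30356428488)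 (nat_lit 0) (nat_lit 367894867) (nat_lit 760) (nat_lit 15201931502) (nat_lit 82) (nat_lit 5) (nat_lit 81) (nat_lit 5) (nat_lit 91) (nat_lit 5) (nat_lit 311) (nat_lit 308) (nat_lit 161)) (XT.nd (nat_lit 78) (nat_lit 0) (nat_lit 0) (XT.lf (nat_lit 76) (nat_lit 5145068600) (nat_lit 0) (nat_lit 27485947694) (nat_lit 760) (nat_lit 14473072039) (nat_lit 83) (nat_lit 5) (nat_lit 82) (nat_lit 5) (nat_lit 92) (nat_lit 5) (nat_lit 312) (nat_lit 308) (nat_lit 160)) (XT.lf (nat_lit 76) (nat_lit 27428811112) (nat_lit 0) (nat_lit 7471995877) (nat_lit 760) (nat_lit 13426623196) (nat_lit 83) (nat_lit 5) (nat_lit 82) (nat_lit 5) (nat_lit 92) (nat_lit 5) (nat_lit 313) (nat_lit 308) (nat_lit 159))))) (XT.nd (nat_lit 156) (nat_lit 0) (nat_lit 76) (XT.nd (nat_lit 78) (nat_lit 0) (nat_lit 0) (XT.lf (nat_lit 76) (nat_lit 1035236487) (nat_lit 0) (nat_lit 36474696950) (nat_lit 760) (nat_lit 12090718006) (nat_lit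 84) (nat_lit 5) (nat_lit 83) (nat_lit 5) (nat_lit 93) (nat_lit 5) (nat_lit 314) (nat_lit 308) (nat_lit 158)) (XT.lf (nat_lit 76) (nat_lit 24663555763) (nat_lit 0) (nat_lit 16058713468) (nat_lit 760) (nat_lit 10191631284) (nat_lit 84) (nat_lit 5) (nat_lit 83) (nat_lit 5) (nat_lit 93) (nat_lit 5) (nat_lit 315) (nat_lit 308) (nat_lit 157))) (XT.nd (nat_lit 78) (nat_lit 0) (nat_lit 0) (XT.lf (nat_lit 0) (nat_lit 44177584529) (nat_lit 684) (nat_lit 2904760222) (nat_lit 760) (nat_lit 5206353350) (nat_lit 84) (nat_lit 5) (nat_lit 93) (nat_lit 5) (nat_lit 94) (nat_lit 5) (nat_lit 316) (nat_lit 308) (nat_lit 156)) (XT.nd (nat_lit 78) (nat_lit 0) (nat_lit 0) (XT.lf (nat_lit 76) (nat_lit 22049351013) (nat_lit 0) (nat_lit 26362296701) (nat_lit 760) (nat_lit 5290292740) (nat_lit 85) (nat_lit 5) (nat_lit 84) (nat_lit 5) (nat_lit 94) (nat_lit 5) (nat_lit 317) (nat_lit 308) (nat_lit 155)) (XT.lf (nat_lit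 76) (nat_lit 48350822214) (nat_lit 0) (nat_lit 4554311856) (nat_lit 760) (nat_lit 2278328659) (nat_lit 85) (nat_lit 5) (nat_lit 84) (nat_lit 5) (nat_lit 94) (nat_lit 5) (nat_lit 318) (nat_lit 308) (nat_lit 154)))))) (XT.nd (nat_lit 390) (nat_lit 608) (nat_lit 0) (XT.nd (nat_lit 156) (nat_lit 760) (nat_lit 0) (XT.nd (nat_lit 78) (nat_lit 0) (nat_lit 0) (XT.lf (nat_lit 0) (nat_lit 1456107636) (nat_lit 760) (nat_lit 37166070713) (nat_lit 76) (nat_lit 18086187200) (nat_lit 75) (nat_lit 5) (nat_lit 85) (nat_lit 5) (nat_lit 76) (nat_lit 5) (nat_lit 319) (nat_lit 308) (nat_lit 153)) (XT.lf (nat_lit 0) (nat_lit 5491594175) (nat_lit 760) (nat_lit 10945687191) (nat_lit 76) (nat_lit 41860823187) (nat_lit 75) (nat_lit 5) (nat_lit 85) (nat_lit 5) (nat_lit 76) (nat_lit 5) (nat_lit 320) (nat_lit 308) (nat_lit 152))) (XT.nd (nat_lit 78) (nat_lit 380) (nat_lit 0) (XT.lf (nat_lit 0) (nat_lit 10106478304)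 (nat_lit 456) (nat_lit 42932575025) (nat_lit 76) (nat_lit 6909399146) (nat_lit 70) (nat_lit 5) (nat_lit 76) (nat_lit 5) (nat_lit 71) (nat_lit 5) (nat_lit 321) (nat_lit 308) (nat_lit 151)) (XT.nd (nat_lit 78) (nat_lit 380) (nat_lit 0) (XT.lf (nat_lit 0) (nat_lit 15408714382) (nat_lit 456) (nat_lit 15190254282) (nat_lit 76) (nat_lit 31059521723) (nat_lit 70) (nat_lit 5) (nat_lit 76) (nat_lit 5) (nat_lit 71) (nat_lit 5) (nat_lit 322) (nat_lit 308) (nat_lit 150)) (XT.lf (nat_lit 0) (nat_lit 14398862306) (nat_lit 380) (nat_lit 6800801542) (nat_lit 456) (nat_lit 42243189104) (nat_lit 65) (nat_lit 5) (nat_lit 70) (nat_lit 5) (nat_lit 71) (nat_lit 5) (nat_lit 323) (nat_lit 308) (nat_lit 149))))) (XT.nd (nat_lit 156) (nat_lit 304) (nat_lit 0) (XT.nd (nat_lit 78) (nat_lit 304) (nat_lit 0) (XT.lf (nat_lit 0) (nat_lit 27824421211) (nat_lit 456) (nat_lit 19598152413) (nat_lit 76) (nat_lit 17866649707)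 (nat_lit 65) (nat_lit 5) (nat_lit 71) (nat_lit 5) (nat_lit 66) (nat_lit 5) (nat_lit 324) (nat_lit 308) (nat_lit 148)) (XT.lf (nat_lit 0) (nat_lit 11577896132) (nat_lit 304) (nat_lit 23493662279) (nat_lit 380) (nat_lit 32141799293) (nat_lit 61) (nat_lit 5) (nat_lit 65) (nat_lit 5) (nat_lit 66) (nat_lit 5) (nat_lit 325) (nat_lit 308) (nat_lit 147))) (XT.nd (nat_lit 78) (nat_lit 304) (nat_lit 0) (XT.lf (nat_lit 0) (nat_lit 43042797119) (nat_lit 380) (nat_lit 24256063807) (nat_lit 76) (nat_lit 1916753089) (nat_lit 61) (nat_lit 5) (nat_lit 66) (nat_lit 5) (nat_lit 62) (nat_lit 5) (nat_lit 326) (nat_lit 308) (nat_lit 146)) (XT.nd (nat_lit 78) (nat_lit 0) (nat_lit 0) (XT.lf (nat_lit 0) (nat_lit 8580658848) (nat_lit 304) (nat_lit 43350024362) (nat_lit 380) (nat_lit 19361397996) (nat_lit 57) (nat_lit 5) (nat_lit 61) (nat_lit 5) (nat_lit 62) (nat_lit 5) (nat_lit 327) (nat_lit 308) (nat_lit 145))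 (XT.lf (nat_lit 0) (nat_lit 43900214087) (nat_lit 304) (nat_lit 17772544325) (nat_lit 380) (nat_lit 11779125827) (nat_lit 57) (nat_lit 5) (nat_lit 61) (nat_lit 5) (nat_lit 62) (nat_lit 5) (nat_lit 328) (nat_lit 308) (nat_lit 144))))))))
noncomputable def xc226 : XT := (XT.nd (nat_lit 1482) (nat_lit 1140) (nat_lit 0) (XT.nd (nat_lit 702) (nat_lit 1064) (nat_lit 0) (XT.nd (nat_lit 312) (nat_lit 456) (nat_lit 0) (XT.nd (nat_lit 156) (nat_lit 304) (nat_lit 0) (XT.nd (nat_lit 78) (nat_lit 76) (nat_lit 0) (XT.lf (nat_lit 0) (nat_lit 5292526266) (nat_lit 228) (nat_lit 66832918064) (nat_lit 304) (nat_lit 3583059866) (nat_lit 54) (nat_lit 5) (nat_lit 57) (nat_lit 5) (nat_lit 58) (nat_lit 5) (nat_lit 329) (nat_lit 308) (nat_lit 143)) (XT.lf (nat_lit 0) (nat_lit 5661140660) (nat_lit 304) (nat_lit 35527138069) (nat_lit 76) (nat_lit 36845802709) (nat_lit 53) (nat_lit 5) (nat_lit 57) (nat_lit 5)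 (nat_lit 54) (nat_lit 5) (nat_lit 330) (nat_lit 308) (nat_lit 142))) (XT.nd (nat_lit 78) (nat_lit 0) (nat_lit 0) (XT.lf (nat_lit 0) (nat_lit 1080926740) (nat_lit 304) (nat_lit 14182194139) (nat_lit 380) (nat_lit 65209082360) (nat_lit 49) (nat_lit 5) (nat_lit 53) (nat_lit 5) (nat_lit 54) (nat_lit 5) (nat_lit 331) (nat_lit 308) (nat_lit 141)) (XT.lf (nat_lit 0) (nat_lit 26177162394) (nat_lit 380) (nat_lit 42481592703) (nat_lit 76) (nat_lit 14331879662) (nat_lit 49) (nat_lit 5) (nat_lit 54) (nat_lit 5) (nat_lit 50) (nat_lit 5) (nat_lit 332) (nat_lit 308) (nat_lit 140)))) (XT.nd (nat_lit 156) (nat_lit 228) (nat_lit 0) (XT.nd (nat_lit 78) (nat_lit 228) (nat_lit 0) (XT.lf (nat_lit 0) (nat_lit 37868573042) (nat_lit 380) (nat_lit 3959966851) (nat_lit 76) (nat_lit 43794866270) (nat_lit 49) (nat_lit 5) (nat_lit 54) (nat_lit 5) (nat_lit 50) (nat_lit 5) (nat_lit 333) (nat_lit 308) (nat_lit 139))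 (XT.lf (nat_lit 0) (nat_lit 37693159512) (nat_lit 228) (nat_lit 13039102063) (nat_lit 304) (nat_lit 37626170774) (nat_lit 46) (nat_lit 5) (nat_lit 49) (nat_lit 5) (nat_lit 50) (nat_lit 5) (nat_lit 334) (nat_lit 308) (nat_lit 138))) (XT.nd (nat_lit 78) (nat_lit 228) (nat_lit 0) (XT.lf (nat_lit 0) (nat_lit 64574909343) (nat_lit 304) (nat_lit 9930931489) (nat_lit 76) (nat_lit 16707581778) (nat_lit 46) (nat_lit 5) (nat_lit 50) (nat_lit 5) (nat_lit 47) (nat_lit 5) (nat_lit 335) (nat_lit 308) (nat_lit 137)) (XT.nd (nat_lit 78) (nat_lit 0) (nat_lit 0) (XT.lf (nat_lit 0) (nat_lit 33704145081) (nat_lit 228) (nat_lit 46144783368) (nat_lit 304) (nat_lit 14325273421) (nat_lit 43) (nat_lit 5) (nat_lit 46) (nat_lit 5) (nat_lit 47) (nat_lit 5) (nat_lit 336) (nat_lit 308) (nat_lit 136)) (XT.lf (nat_lit 0) (nat_lit 79864801428) (nat_lit 228) (nat_lit 16189319249) (nat_lit 304) (nat_lit 1220527173) (nat_lit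 43) (nat_lit 5) (nat_lit 46) (nat_lit 5) (nat_lit 47) (nat_lit 5) (nat_lit 337) (nat_lit 308) (nat_lit 135)))))) (XT.nd (nat_lit 390) (nat_lit 456) (nat_lit 0) (XT.nd (nat_lit 156) (nat_lit 380) (nat_lit 0) (XT.nd (nat_lit 78) (nat_lit 0) (nat_lit 0) (XT.lf (nat_lit 0) (nat_lit 12831510586) (nat_lit 228) (nat_lit 72227450204) (nat_lit 76) (nat_lit 15426698020) (nat_lit 40) (nat_lit 5) (nat_lit 43) (nat_lit 5) (nat_lit 41) (nat_lit 5) (nat_lit 338) (nat_lit 308) (nat_lit 134)) (XT.lf (nat_lit 0) (nat_lit 28109532261) (nat_lit 228) (nat_lit 27319570224) (nat_lit 76) (nat_lit 48398898592) (nat_lit 40) (nat_lit 5) (nat_lit 43) (nat_lit 5) (nat_lit 41) (nat_lit 5) (nat_lit 339) (nat_lit 308) (nat_lit 133))) (XT.nd (nat_lit 78) (nat_lit 152) (nat_lit 0) (XT.lf (nat_lit 0) (nat_lit 20488562637) (nat_lit 228) (nat_lit 23982131868) (nat_lit 304) (nat_lit 62850805103) (nat_lit 37) (nat_lit 5)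 (nat_lit 40) (nat_lit 5) (nat_lit 41) (nat_lit 5) (nat_lit 340) (nat_lit 308) (nat_lit 132)) (XT.nd (nat_lit 78) (nat_lit 152) (nat_lit 0) (XT.lf (nat_lit 0) (nat_lit 62260633923) (nat_lit 304) (nat_lit 39480561088) (nat_lit 76) (nat_lit 9217943172) (nat_lit 37) (nat_lit 5) (nat_lit 41) (nat_lit 5) (nat_lit 38) (nat_lit 5) (nat_lit 341) (nat_lit 308) (nat_lit 131)) (XT.lf (nat_lit 0) (nat_lit 10170944403) (nat_lit 152) (nat_lit 71320470977) (nat_lit 228) (nat_lit 33259677069) (nat_lit 35) (nat_lit 5) (nat_lit 37) (nat_lit 5) (nat_lit 38) (nat_lit 5) (nat_lit 342) (nat_lit 308) (nat_lit 130))))) (XT.nd (nat_lit 156) (nat_lit 380) (nat_lit 0) (XT.nd (nat_lit 78) (nat_lit 76) (nat_lit 0) (XT.lf (nat_lit 0) (nat_lit 63674841963) (nat_lit 152) (nat_lit 38676930010) (nat_lit 228) (nat_lit 16347471625) (nat_lit 35) (nat_lit 5) (nat_lit 37) (nat_lit 5) (nat_lit 38) (nat_lit 5) (nat_lit 343)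 (nat_lit 308) (nat_lit 129)) (XT.lf (nat_lit 0) (nat_lit 1364635797) (nat_lit 228) (nat_lit 3013725233) (nat_lit 76) (nat_lit 118465369607) (nat_lit 34) (nat_lit 5) (nat_lit 37) (nat_lit 5) (nat_lit 35) (nat_lit 5) (nat_lit 344) (nat_lit 308) (nat_lit 128))) (XT.nd (nat_lit 78) (nat_lit 152) (nat_lit 0) (XT.lf (nat_lit 0) (nat_lit 20752181404) (nat_lit 304) (nat_lit 74626696399) (nat_lit 76) (nat_lit 31736204744) (nat_lit 31) (nat_lit 5) (nat_lit 35) (nat_lit 5) (nat_lit 32) (nat_lit 5) (nat_lit 345) (nat_lit 308) (nat_lit 127)) (XT.nd (nat_lit 78) (nat_lit 152) (nat_lit 0) (XT.lf (nat_lit 0) (nat_lit 41232224403) (nat_lit 304) (nat_lit 20800638694) (nat_lit 76) (nat_lit 69560983747) (nat_lit 31) (nat_lit 5) (nat_lit 35) (nat_lit 5) (nat_lit 32) (nat_lit 5) (nat_lit 346) (nat_lit 308) (nat_lit 126)) (XT.lf (nat_lit 0) (nat_lit 36896882750) (nat_lit 152) (nat_lit 26414943977) (nat_lit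 228) (nat_lit 72955945532) (nat_lit 29) (nat_lit 5) (nat_lit 31) (nat_lit 5) (nat_lit 32) (nat_lit 5) (nat_lit 347) (nat_lit 308) (nat_lit 125))))))) (XT.nd (nat_lit 780) (nat_lit 532) (nat_lit 0) (XT.nd (nat_lit 390) (nat_lit 228) (nat_lit 0) (XT.nd (nat_lit 156) (nat_lit 228) (nat_lit 0) (XT.nd (nat_lit 78) (nat_lit 152) (nat_lit 0) (XT.lf (nat_lit 0) (nat_lit 87024443580) (nat_lit 228) (nat_lit 43134391667) (nat_lit 76) (nat_lit 10990107700) (nat_lit 29) (nat_lit 5) (nat_lit 32) (nat_lit 5) (nat_lit 30) (nat_lit 5) (nat_lit 348) (nat_lit 308) (nat_lit 124)) (XT.lf (nat_lit 0) (nat_lit 15992001468) (nat_lit 152) (nat_lit 96612926989) (nat_lit 228) (nat_lit 33635132544) (nat_lit 27) (nat_lit 5) (nat_lit 29) (nat_lit 5) (nat_lit 30) (nat_lit 5) (nat_lit 349) (nat_lit 308) (nat_lit 123))) (XT.nd (nat_lit 78) (nat_lit 228) (nat_lit 0) (XT.lf (nat_lit 0) (nat_lit 79571513253) (nat_lit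 152) (nat_lit 60622962683) (nat_lit 228) (nat_lit 11354757761) (nat_lit 27) (nat_lit 5) (nat_lit 29) (nat_lit 5) (nat_lit 30) (nat_lit 5) (nat_lit 350) (nat_lit 308) (nat_lit 122)) (XT.nd (nat_lit 78) (nat_lit 152) (nat_lit 0) (XT.lf (nat_lit 0) (nat_lit 11653843017) (nat_lit 228) (nat_lit 10982547244) (nat_lit 76) (nat_lit 134478099200) (nat_lit 26) (nat_lit 5) (nat_lit 29) (nat_lit 5) (nat_lit 27) (nat_lit 5) (nat_lit 351) (nat_lit 308) (nat_lit 121)) (XT.lf (nat_lit 0) (nat_lit 36570025087) (nat_lit 228) (nat_lit 108568553470) (nat_lit 76) (nat_lit 17753185566) (nat_lit 24) (nat_lit 5) (nat_lit 27) (nat_lit 5) (nat_lit 25) (nat_lit 5) (nat_lit 352) (nat_lit 308) (nat_lit 120))))) (XT.nd (nat_lit 156) (nat_lit 76) (nat_lit 0) (XT.nd (nat_lit 78) (nat_lit 152) (nat_lit 0) (XT.lf (nat_lit 0) (nat_lit 63291726762) (nat_lit 228) (nat_lit 46047877765) (nat_lit 76) (nat_lit 59590313006)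 (nat_lit 24) (nat_lit 5) (nat_lit 27) (nat_lit 5) (nat_lit 25) (nat_lit 5) (nat_lit 353) (nat_lit 308) (nat_lit 119)) (XT.lf (nat_lit 0) (nat_lit 20246185421) (nat_lit 152) (nat_lit 71419026168) (nat_lit 228) (nat_lit 83588982637) (nat_lit 22) (nat_lit 5) (nat_lit 24) (nat_lit 5) (nat_lit 25) (nat_lit 5) (nat_lit 354) (nat_lit 308) (nat_lit 118))) (XT.nd (nat_lit 78) (nat_lit 76) (nat_lit 0) (XT.lf (nat_lit 0) (nat_lit 91452989921) (nat_lit 152) (nat_lit 30783831331) (nat_lit 228) (nat_lit 59618891462) (nat_lit 22) (nat_lit 5) (nat_lit 24) (nat_lit 5) (nat_lit 25) (nat_lit 5) (nat_lit 355) (nat_lit 308) (nat_lit 117)) (XT.nd (nat_lit 78) (nat_lit 76) (nat_lit 0) (XT.lf (nat_lit 0) (nat_lit 154522162766) (nat_lit 228) (nat_lit 22753326508) (nat_lit 76) (nat_lit 11502560750) (nat_lit 22) (nat_lit 5) (nat_lit 25) (nat_lit 5) (nat_lit 23) (nat_lit 4) (nat_lit 356) (nat_lit 308) (nat_lit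 116)) (XT.lf (nat_lit 0) (nat_lit 49352891974) (nat_lit 76) (nat_lit 140343709795) (nat_lit 152) (nat_lit 6286161356) (nat_lit 21) (nat_lit 5) (nat_lit 22) (nat_lit 5) (nat_lit 23) (nat_lit 4) (nat_lit 357) (nat_lit 308) (nat_lit 115)))))) (XT.nd (nat_lit 390) (nat_lit 228) (nat_lit 0) (XT.nd (nat_lit 156) (nat_lit 228) (nat_lit 0) (XT.nd (nat_lit 78) (nat_lit 0) (nat_lit 0) (XT.lf (nat_lit 0) (nat_lit 22734578972) (nat_lit 152) (nat_lit 78041370008) (nat_lit 76) (nat_lit 102734179632) (nat_lit 20) (nat_lit 5) (nat_lit 22) (nat_lit 5) (nat_lit 21) (nat_lit 5) (nat_lit 358) (nat_lit 308) (nat_lit 114)) (XT.lf (nat_lit 0) (nat_lit 52994759397) (nat_lit 152) (nat_lit 6127065185) (nat_lit 76) (nat_lit 152286902619) (nat_lit 20) (nat_lit 5) (nat_lit 22) (nat_lit 5) (nat_lit 21) (nat_lit 5) (nat_lit 359) (nat_lit 308) (nat_lit 113))) (XT.nd (nat_lit 78) (nat_lit 76) (nat_lit 0) (XT.lf (nat_lit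 0) (nat_lit 71676508344) (nat_lit 152) (nat_lit 14210187210) (nat_lit 228) (nat_lit 133759623194) (nat_lit 18) (nat_lit 5) (nat_lit 20) (nat_lit 5) (nat_lit 21) (nat_lit 5) (nat_lit 360) (nat_lit 308) (nat_lit 112)) (XT.nd (nat_lit 78) (nat_lit 76) (nat_lit 0) (XT.lf (nat_lit 0) (nat_lit 121042769185) (nat_lit 228) (nat_lit 75224266302) (nat_lit 76) (nat_lit 31997777702) (nat_lit 18) (nat_lit 5) (nat_lit 21) (nat_lit 5) (nat_lit 19) (nat_lit 4) (nat_lit 361) (nat_lit 308) (nat_lit 111)) (XT.lf (nat_lit 0) (nat_lit 955667966) (nat_lit 76) (nat_lit 157248547632) (nat_lit 152) (nat_lit 79097638632) (nat_lit 17) (nat_lit 5) (nat_lit 18) (nat_lit 5) (nat_lit 19) (nat_lit 4) (nat_lit 362) (nat_lit 308) (nat_lit 110))))) (XT.nd (nat_lit 156) (nat_lit 228) (nat_lit 0) (XT.nd (nat_lit 78) (nat_lit 0) (nat_lit 0) (XT.lf (nat_lit 0) (nat_lit 83555703514) (nat_lit 76) (nat_lit 114941691272) (nat_lit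 152) (nat_lit 48229669829) (nat_lit 17) (nat_lit 5) (nat_lit 18) (nat_lit 5) (nat_lit 19) (nat_lit 4) (nat_lit 363) (nat_lit 308) (nat_lit 109)) (XT.lf (nat_lit 0) (nat_lit 170285253126) (nat_lit 76) (nat_lit 70519695146) (nat_lit 152) (nat_lit 15818601780) (nat_lit 17) (nat_lit 5) (nat_lit 18) (nat_lit 5) (nat_lit 19) (nat_lit 4) (nat_lit 364) (nat_lit 308) (nat_lit 108))) (XT.nd (nat_lit 78) (nat_lit 152) (nat_lit 0) (XT.lf (nat_lit 0) (nat_lit 17629813471) (nat_lit 152) (nat_lit 5948409705) (nat_lit 76) (nat_lit 243422432836) (nat_lit 16) (nat_lit 5) (nat_lit 18) (nat_lit 5) (nat_lit 17) (nat_lit 5) (nat_lit 365) (nat_lit 308) (nat_lit 107)) (XT.nd (nat_lit 78) (nat_lit 0) (nat_lit 0) (XT.lf (nat_lit 0) (nat_lit 53906423327) (nat_lit 228) (nat_lit 197460050701) (nat_lit 76) (nat_lit 26432808306) (nat_lit 14) (nat_lit 5) (nat_lit 17) (nat_lit 5) (nat_lit 15) (nat_lit 4) (nat_lit 366)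 (nat_lit 308) (nat_lit 106)) (XT.lf (nat_lit 0) (nat_lit 92485522549) (nat_lit 228) (nat_lit 118373666552) (nat_lit 76) (nat_lit 78254218175) (nat_lit 14) (nat_lit 5) (nat_lit 17) (nat_lit 5) (nat_lit 15) (nat_lit 4) (nat_lit 367) (nat_lit 308) (nat_lit 105))))))))
noncomputable def xc227 : XT := (XT.nd (nat_lit 37284) (nat_lit 0) (nat_lit 1672) (XT.nd (nat_lit 36504) (nat_lit 0) (nat_lit 3952) (XT.nd (nat_lit 36114) (nat_lit 0) (nat_lit 5168) (XT.nd (nat_lit 156) (nat_lit 0) (nat_lit 0) (XT.nd (nat_lit 78) (nat_lit 76) (nat_lit 0) (XT.lf (nat_lit 0) (nat_lit 132993329080) (nat_lit 228) (nat_lit 35333395788) (nat_lit 76) (nat_lit 132666526215) (nat_lit 14) (nat_lit 5) (nat_lit 17) (nat_lit 5) (nat_lit 15) (nat_lit 4) (nat_lit 368) (nat_lit 308) (nat_lit 104)) (XT.lf (nat_lit 0) (nat_lit 53573151954) (nat_lit 76) (nat_lit 122789565165) (nat_lit 152) (nat_lit 137062560627) (nat_lit 13)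 (nat_lit 5) (nat_lit 14) (nat_lit 5) (nat_lit 15) (nat_lit 4) (nat_lit 369) (nat_lit 308) (nat_lit 103))) (XT.nd (nat_lit 35880) (nat_lit 0) (nat_lit 5168) (XT.lf (nat_lit 0) (nat_lit 148151317453) (nat_lit 76) (nat_lit 74347414306) (nat_lit 152) (nat_lit 103950266337) (nat_lit 13) (nat_lit 5) (nat_lit 14) (nat_lit 5) (nat_lit 15) (nat_lit 4) (nat_lit 370) (nat_lit 308) (nat_lit 102)) (XT.lf (nat_lit 0) (nat_lit 7176070384) (nat_lit 0) (nat_lit 7176070384) (nat_lit 684) (nat_lit 8027723260) (nat_lit 81) (nat_lit 5) (nat_lit 81) (nat_lit 3) (nat_lit 90) (nat_lit 3) (nat_lit 309) (nat_lit 309) (nat_lit 162)))) (XT.nd (nat_lit 156) (nat_lit 0) (nat_lit 0) (XT.nd (nat_lit 78) (nat_lit 0) (nat_lit 0) (XT.lf (nat_lit 0) (nat_lit 29541182114) (nat_lit 684) (nat_lit 10810748787) (nat_lit 760) (nat_lit 5520746037) (nat_lit 81) (nat_lit 5) (nat_lit 90) (nat_lit 3) (nat_lit 91) (nat_lit 5) (nat_lit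 310) (nat_lit 309) (nat_lit 161)) (XT.lf (nat_lit 76) (nat_lit 9844655919) (nat_lit 0) (nat_lit 20962334250) (nat_lit 760) (nat_lit 16214935069) (nat_lit 82) (nat_lit 5) (nat_lit 81) (nat_lit 5) (nat_lit 91) (nat_lit 5) (nat_lit 311) (nat_lit 309) (nat_lit 160))) (XT.nd (nat_lit 78) (nat_lit 0) (nat_lit 76) (XT.lf (nat_lit 76) (nat_lit 31907087956) (nat_lit 0) (nat_lit 410239536) (nat_lit 760) (nat_lit 15902251372) (nat_lit 82) (nat_lit 5) (nat_lit 81) (nat_lit 5) (nat_lit 91) (nat_lit 5) (nat_lit 312) (nat_lit 309) (nat_lit 159)) (XT.nd (nat_lit 78) (nat_lit 0) (nat_lit 0) (XT.lf (nat_lit 76) (nat_lit 5437938852) (nat_lit 0) (nat_lit 28878911997) (nat_lit 760) (nat_lit 15139585490) (nat_lit 83) (nat_lit 5) (nat_lit 82) (nat_lit 5) (nat_lit 92) (nat_lit 5) (nat_lit 313) (nat_lit 309) (nat_lit 158)) (XT.lf (nat_lit 76) (nat_lit 28834172450) (nat_lit 0) (nat_lit 7863373688) (nat_lit 760)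 (nat_lit 14043535164) (nat_lit 83) (nat_lit 5) (nat_lit 82) (nat_lit 5) (nat_lit 92) (nat_lit 5) (nat_lit 314) (nat_lit 309) (nat_lit 157)))))) (XT.nd (nat_lit 390) (nat_lit 1368) (nat_lit 0) (XT.nd (nat_lit 156) (nat_lit 0) (nat_lit 76) (XT.nd (nat_lit 78) (nat_lit 0) (nat_lit 0) (XT.lf (nat_lit 76) (nat_lit 1123321586) (nat_lit 0) (nat_lit 38311648235) (nat_lit 760) (nat_lit 12643108206) (nat_lit 84) (nat_lit 5) (nat_lit 83) (nat_lit 5) (nat_lit 93) (nat_lit 5) (nat_lit 315) (nat_lit 309) (nat_lit 156)) (XT.lf (nat_lit 76) (nat_lit 25931327147) (nat_lit 0) (nat_lit 16874236225) (nat_lit 760) (nat_lit 10651550277) (nat_lit 84) (nat_lit 5) (nat_lit 83) (nat_lit 5) (nat_lit 93) (nat_lit 5) (nat_lit 316) (nat_lit 309) (nat_lit 155))) (XT.nd (nat_lit 78) (nat_lit 0) (nat_lit 0) (XT.lf (nat_lit 0) (nat_lit 46431210574) (nat_lit 684) (nat_lit 3014501082) (nat_lit 760) (nat_lit 5455067000)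 (nat_lit 84) (nat_lit 5) (nat_lit 93) (nat_lit 5) (nat_lit 94) (nat_lit 5) (nat_lit 317) (nat_lit 309) (nat_lit 154)) (XT.nd (nat_lit 78) (nat_lit 0) (nat_lit 0) (XT.lf (nat_lit 76) (nat_lit 23186743179) (nat_lit 0) (nat_lit 27688648209) (nat_lit 760) (nat_lit 5509376588) (nat_lit 85) (nat_lit 5) (nat_lit 84) (nat_lit 5) (nat_lit 94) (nat_lit 5) (nat_lit 318) (nat_lit 309) (nat_lit 153)) (XT.lf (nat_lit 76) (nat_lit 50801624864) (nat_lit 0) (nat_lit 4789871899) (nat_lit 760) (nat_lit 2348977673) (nat_lit 85) (nat_lit 5) (nat_lit 84) (nat_lit 5) (nat_lit 94) (nat_lit 5) (nat_lit 319) (nat_lit 309) (nat_lit 152))))) (XT.nd (nat_lit 156) (nat_lit 760) (nat_lit 0) (XT.nd (nat_lit 78) (nat_lit 0) (nat_lit 0) (XT.lf (nat_lit 0) (nat_lit 1569237610) (nat_lit 760) (nat_lit 38987972543) (nat_lit 76) (nat_lit 18984461180) (nat_lit 75) (nat_lit 5) (nat_lit 85) (nat_lit 5) (nat_lit 76) (nat_lit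 5) (nat_lit 320) (nat_lit 309) (nat_lit 151)) (XT.lf (nat_lit 0) (nat_lit 5804578257) (nat_lit 760) (nat_lit 11458303260) (nat_lit 76) (nat_lit 43948116365) (nat_lit 75) (nat_lit 5) (nat_lit 85) (nat_lit 5) (nat_lit 76) (nat_lit 5) (nat_lit 321) (nat_lit 309) (nat_lit 150))) (XT.nd (nat_lit 78) (nat_lit 380) (nat_lit 0) (XT.lf (nat_lit 0) (nat_lit 10648863530) (nat_lit 456) (nat_lit 45043105109) (nat_lit 76) (nat_lit 7251966082) (nat_lit 70) (nat_lit 5) (nat_lit 76) (nat_lit 5) (nat_lit 71) (nat_lit 5) (nat_lit 322) (nat_lit 309) (nat_lit 149)) (XT.nd (nat_lit 78) (nat_lit 380) (nat_lit 0) (XT.lf (nat_lit 0) (nat_lit 16214446587) (nat_lit 456) (nat_lit 15915387312) (nat_lit 76) (nat_lit 32609733027) (nat_lit 70) (nat_lit 5) (nat_lit 76) (nat_lit 5) (nat_lit 71) (nat_lit 5) (nat_lit 323) (nat_lit 309) (nat_lit 148)) (XT.lf (nat_lit 0) (nat_lit 15152630594) (nat_lit 380) (nat_lit 7141160253)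 (nat_lit 456) (nat_lit 44319418367) (nat_lit 65) (nat_lit 5) (nat_lit 70) (nat_lit 5) (nat_lit 71) (nat_lit 5) (nat_lit 324) (nat_lit 309) (nat_lit 147))))))) (XT.nd (nat_lit 780) (nat_lit 1064) (nat_lit 0) (XT.nd (nat_lit 390) (nat_lit 608) (nat_lit 0) (XT.nd (nat_lit 156) (nat_lit 304) (nat_lit 0) (XT.nd (nat_lit 78) (nat_lit 304) (nat_lit 0) (XT.lf (nat_lit 0) (nat_lit 29248155445) (nat_lit 456) (nat_lit 20544139526) (nat_lit 76) (nat_lit 18759688444) (nat_lit 65) (nat_lit 5) (nat_lit 71) (nat_lit 5) (nat_lit 66) (nat_lit 5) (nat_lit 325) (nat_lit 309) (nat_lit 146)) (XT.lf (nat_lit 0) (nat_lit 12190164342) (nat_lit 304) (nat_lit 24666457968) (nat_lit 380) (nat_lit 33715757147) (nat_lit 61) (nat_lit 5) (nat_lit 65) (nat_lit 5) (nat_lit 66) (nat_lit 5) (nat_lit 326) (nat_lit 309) (nat_lit 145))) (XT.nd (nat_lit 78) (nat_lit 304) (nat_lit 0) (XT.lf (nat_lit 0) (nat_lit 45224951687)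 (nat_lit 380) (nat_lit 25435543124) (nat_lit 76) (nat_lit 2014330757) (nat_lit 61) (nat_lit 5) (nat_lit 66) (nat_lit 5) (nat_lit 62) (nat_lit 5) (nat_lit 327) (nat_lit 309) (nat_lit 144)) (XT.nd (nat_lit 78) (nat_lit 0) (nat_lit 0) (XT.lf (nat_lit 0) (nat_lit 9042478182) (nat_lit 304) (nat_lit 45513836515) (nat_lit 380) (nat_lit 20298850548) (nat_lit 57) (nat_lit 5) (nat_lit 61) (nat_lit 5) (nat_lit 62) (nat_lit 5) (nat_lit 328) (nat_lit 309) (nat_lit 143)) (XT.lf (nat_lit 0) (nat_lit 46126449926) (nat_lit 304) (nat_lit 18657658147) (nat_lit 380) (nat_lit 12338922740) (nat_lit 57) (nat_lit 5) (nat_lit 61) (nat_lit 5) (nat_lit 62) (nat_lit 5) (nat_lit 329) (nat_lit 309) (nat_lit 142))))) (XT.nd (nat_lit 156) (nat_lit 304) (nat_lit 0) (XT.nd (nat_lit 78) (nat_lit 76) (nat_lit 0) (XT.lf (nat_lit 0) (nat_lit 5589244404) (nat_lit 228) (nat_lit 70169417561) (nat_lit 304) (nat_lit 3733861073)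 (nat_lit 54) (nat_lit 5) (nat_lit 57) (nat_lit 5) (nat_lit 58) (nat_lit 5) (nat_lit 330) (nat_lit 309) (nat_lit 141)) (XT.lf (nat_lit 0) (nat_lit 5970335171) (nat_lit 304) (nat_lit 37272013504) (nat_lit 76) (nat_lit 38692076358) (nat_lit 53) (nat_lit 5) (nat_lit 57) (nat_lit 5) (nat_lit 54) (nat_lit 5) (nat_lit 331) (nat_lit 309) (nat_lit 140))) (XT.nd (nat_lit 78) (nat_lit 0) (nat_lit 0) (XT.lf (nat_lit 0) (nat_lit 1165946780) (nat_lit 304) (nat_lit 14885706566) (nat_lit 380) (nat_lit 68442840184) (nat_lit 49) (nat_lit 5) (nat_lit 53) (nat_lit 5) (nat_lit 54) (nat_lit 5) (nat_lit 332) (nat_lit 309) (nat_lit 139)) (XT.nd (nat_lit 78) (nat_lit 0) (nat_lit 0) (XT.lf (nat_lit 0) (nat_lit 27510271763) (nat_lit 380) (nat_lit 44574999781) (nat_lit 76) (nat_lit 15053633771) (nat_lit 49) (nat_lit 5) (nat_lit 54) (nat_lit 5) (nat_lit 50) (nat_lit 5) (nat_lit 333) (nat_lit 309) (nat_lit 138))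 (XT.lf (nat_lit 0) (nat_lit 39785098123) (nat_lit 380) (nat_lit 4128753234) (nat_lit 76) (nat_lit 45989523989) (nat_lit 49) (nat_lit 5) (nat_lit 54) (nat_lit 5) (nat_lit 50) (nat_lit 5) (nat_lit 334) (nat_lit 309) (nat_lit 137)))))) (XT.nd (nat_lit 390) (nat_lit 380) (nat_lit 0) (XT.nd (nat_lit 156) (nat_lit 456) (nat_lit 0) (XT.nd (nat_lit 78) (nat_lit 0) (nat_lit 0) (XT.lf (nat_lit 0) (nat_lit 39606558287) (nat_lit 228) (nat_lit 13684761690) (nat_lit 304) (nat_lit 39483867624) (nat_lit 46) (nat_lit 5) (nat_lit 49) (nat_lit 5) (nat_lit 50) (nat_lit 5) (nat_lit 335) (nat_lit 309) (nat_lit 136)) (XT.lf (nat_lit 0) (nat_lit 67825124917) (nat_lit 304) (nat_lit 10399088659) (nat_lit 76) (nat_lit 17548764659) (nat_lit 46) (nat_lit 5) (nat_lit 50) (nat_lit 5) (nat_lit 47) (nat_lit 5) (nat_lit 336) (nat_lit 309) (nat_lit 135))) (XT.nd (nat_lit 78) (nat_lit 228) (nat_lit 0) (XT.lf (nat_lit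 0) (nat_lit 35417283846) (nat_lit 228) (nat_lit 48444974836) (nat_lit 304) (nat_lit 15019569092) (nat_lit 43) (nat_lit 5) (nat_lit 46) (nat_lit 5) (nat_lit 47) (nat_lit 5) (nat_lit 337) (nat_lit 309) (nat_lit 134)) (XT.nd (nat_lit 78) (nat_lit 228) (nat_lit 0) (XT.lf (nat_lit 0) (nat_lit 83884642938) (nat_lit 228) (nat_lit 16992073116) (nat_lit 304) (nat_lit 1260631627) (nat_lit 43) (nat_lit 5) (nat_lit 46) (nat_lit 5) (nat_lit 47) (nat_lit 5) (nat_lit 338) (nat_lit 309) (nat_lit 133)) (XT.lf (nat_lit 0) (nat_lit 13492905243) (nat_lit 228) (nat_lit 75811047666) (nat_lit 76) (nat_lit 16204963332) (nat_lit 40) (nat_lit 5) (nat_lit 43) (nat_lit 5) (nat_lit 41) (nat_lit 5) (nat_lit 339) (nat_lit 309) (nat_lit 132))))) (XT.nd (nat_lit 156) (nat_lit 152) (nat_lit 0) (XT.nd (nat_lit 78) (nat_lit 228) (nat_lit 0) (XT.lf (nat_lit 0) (nat_lit 29533884234) (nat_lit 228) (nat_lit 28659096308) (nat_lit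 76) (nat_lit 50825443914) (nat_lit 40) (nat_lit 5) (nat_lit 43) (nat_lit 5) (nat_lit 41) (nat_lit 5) (nat_lit 340) (nat_lit 309) (nat_lit 131)) (XT.lf (nat_lit 0) (nat_lit 21539016544) (nat_lit 228) (nat_lit 25173595555) (nat_lit 304) (nat_lit 65974012005) (nat_lit 37) (nat_lit 5) (nat_lit 40) (nat_lit 5) (nat_lit 41) (nat_lit 5) (nat_lit 341) (nat_lit 309) (nat_lit 130))) (XT.nd (nat_lit 78) (nat_lit 152) (nat_lit 0) (XT.lf (nat_lit 0) (nat_lit 65391286758) (nat_lit 304) (nat_lit 41429011111) (nat_lit 76) (nat_lit 9685886317) (nat_lit 37) (nat_lit 5) (nat_lit 41) (nat_lit 5) (nat_lit 38) (nat_lit 5) (nat_lit 342) (nat_lit 309) (nat_lit 129)) (XT.nd (nat_lit 78) (nat_lit 0) (nat_lit 0) (XT.lf (nat_lit 0) (nat_lit 10704657105) (nat_lit 152) (nat_lit 74878503985) (nat_lit 228) (nat_lit 34904598808) (nat_lit 35) (nat_lit 5) (nat_lit 37) (nat_lit 5) (nat_lit 38) (nat_lit 5) (nat_lit 343)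 (nat_lit 309) (nat_lit 128)) (XT.lf (nat_lit 0) (nat_lit 66882551186) (nat_lit 152) (nat_lit 40603166472) (nat_lit 228) (nat_lit 17147643193) (nat_lit 35) (nat_lit 5) (nat_lit 37) (nat_lit 5) (nat_lit 38) (nat_lit 5) (nat_lit 344) (nat_lit 309) (nat_lit 127))))))))
noncomputable def xc228 : XT := (XT.nd (nat_lit 1482) (nat_lit 228) (nat_lit 0) (XT.nd (nat_lit 702) (nat_lit 532) (nat_lit 0) (XT.nd (nat_lit 312) (nat_lit 380) (nat_lit 0) (XT.nd (nat_lit 156) (nat_lit 152) (nat_lit 0) (XT.nd (nat_lit 78) (nat_lit 228) (nat_lit 0) (XT.lf (nat_lit 0) (nat_lit 1448726103) (nat_lit 228) (nat_lit 3141036751) (nat_lit 76) (nat_lit 124395336833) (nat_lit 34) (nat_lit 5) (nat_lit 37) (nat_lit 5) (nat_lit 35) (nat_lit 5) (nat_lit 345) (nat_lit 309) (nat_lit 126)) (XT.lf (nat_lit 0) (nat_lit 21805370530) (nat_lit 304) (nat_lit 78334354627) (nat_lit 76) (nat_lit 33330309128) (nat_lit 31) (nat_lit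 5) (nat_lit 35) (nat_lit 5) (nat_lit 32) (nat_lit 5) (nat_lit 346) (nat_lit 309) (nat_lit 125))) (XT.nd (nat_lit 78) (nat_lit 152) (nat_lit 0) (XT.lf (nat_lit 0) (nat_lit 43308673772) (nat_lit 304) (nat_lit 21818121494) (nat_lit 76) (nat_lit 73045979741) (nat_lit 31) (nat_lit 5) (nat_lit 35) (nat_lit 5) (nat_lit 32) (nat_lit 5) (nat_lit 347) (nat_lit 309) (nat_lit 124)) (XT.lf (nat_lit 0) (nat_lit 38763912327) (nat_lit 152) (nat_lit 27727983683) (nat_lit 228) (nat_lit 76588519752) (nat_lit 29) (nat_lit 5) (nat_lit 31) (nat_lit 5) (nat_lit 32) (nat_lit 5) (nat_lit 348) (nat_lit 309) (nat_lit 123)))) (XT.nd (nat_lit 156) (nat_lit 228) (nat_lit 0) (XT.nd (nat_lit 78) (nat_lit 152) (nat_lit 0) (XT.lf (nat_lit 0) (nat_lit 91389568885) (nat_lit 228) (nat_lit 45269387238) (nat_lit 76) (nat_lit 11546718614) (nat_lit 29) (nat_lit 5) (nat_lit 32) (nat_lit 5) (nat_lit 30) (nat_lit 5) (nat_lit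 349) (nat_lit 309) (nat_lit 122)) (XT.lf (nat_lit 0) (nat_lit 16812975167) (nat_lit 152) (nat_lit 101435774487) (nat_lit 228) (nat_lit 35302616418) (nat_lit 27) (nat_lit 5) (nat_lit 29) (nat_lit 5) (nat_lit 30) (nat_lit 5) (nat_lit 350) (nat_lit 309) (nat_lit 121))) (XT.nd (nat_lit 78) (nat_lit 228) (nat_lit 0) (XT.lf (nat_lit 0) (nat_lit 83570444750) (nat_lit 152) (nat_lit 63646683339) (nat_lit 228) (nat_lit 11908902551) (nat_lit 27) (nat_lit 5) (nat_lit 29) (nat_lit 5) (nat_lit 30) (nat_lit 5) (nat_lit 351) (nat_lit 309) (nat_lit 120)) (XT.nd (nat_lit 78) (nat_lit 152) (nat_lit 0) (XT.lf (nat_lit 0) (nat_lit 12249066629) (nat_lit 228) (nat_lit 11511857130) (nat_lit 76) (nat_lit 141208646981) (nat_lit 26) (nat_lit 5) (nat_lit 29) (nat_lit 5) (nat_lit 27) (nat_lit 5) (nat_lit 352) (nat_lit 309) (nat_lit 119)) (XT.lf (nat_lit 0) (nat_lit 38410878810) (nat_lit 228) (nat_lit 113976968847)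 (nat_lit 76) (nat_lit 18647871219) (nat_lit 24) (nat_lit 5) (nat_lit 27) (nat_lit 5) (nat_lit 25) (nat_lit 5) (nat_lit 353) (nat_lit 309) (nat_lit 118)))))) (XT.nd (nat_lit 390) (nat_lit 304) (nat_lit 0) (XT.nd (nat_lit 156) (nat_lit 76) (nat_lit 0) (XT.nd (nat_lit 78) (nat_lit 152) (nat_lit 0) (XT.lf (nat_lit 0) (nat_lit 66468077357) (nat_lit 228) (nat_lit 48331212323) (nat_lit 76) (nat_lit 62576520442) (nat_lit 24) (nat_lit 5) (nat_lit 27) (nat_lit 5) (nat_lit 25) (nat_lit 5) (nat_lit 354) (nat_lit 309) (nat_lit 117)) (XT.lf (nat_lit 0) (nat_lit 21277246613) (nat_lit 152) (nat_lit 74982722379) (nat_lit 228) (nat_lit 87756345746) (nat_lit 22) (nat_lit 5) (nat_lit 24) (nat_lit 5) (nat_lit 25) (nat_lit 5) (nat_lit 355) (nat_lit 309) (nat_lit 116))) (XT.nd (nat_lit 78) (nat_lit 76) (nat_lit 0) (XT.lf (nat_lit 0) (nat_lit 96043498390) (nat_lit 152) (nat_lit 32316113281) (nat_lit 228) (nat_lit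 62588325537) (nat_lit 22) (nat_lit 5) (nat_lit 24) (nat_lit 5) (nat_lit 25) (nat_lit 5) (nat_lit 356) (nat_lit 309) (nat_lit 115)) (XT.nd (nat_lit 78) (nat_lit 76) (nat_lit 0) (XT.lf (nat_lit 0) (nat_lit 162258801604) (nat_lit 228) (nat_lit 23873552609) (nat_lit 76) (nat_lit 12084058755) (nat_lit 22) (nat_lit 5) (nat_lit 25) (nat_lit 5) (nat_lit 23) (nat_lit 4) (nat_lit 357) (nat_lit 309) (nat_lit 114)) (XT.lf (nat_lit 0) (nat_lit 51837695503) (nat_lit 76) (nat_lit 147354033491) (nat_lit 152) (nat_lit 6589645027) (nat_lit 21) (nat_lit 5) (nat_lit 22) (nat_lit 5) (nat_lit 23) (nat_lit 4) (nat_lit 358) (nat_lit 309) (nat_lit 113))))) (XT.nd (nat_lit 156) (nat_lit 228) (nat_lit 0) (XT.nd (nat_lit 78) (nat_lit 0) (nat_lit 0) (XT.lf (nat_lit 0) (nat_lit 23881286919) (nat_lit 152) (nat_lit 81926755469) (nat_lit 76) (nat_lit 107877082455) (nat_lit 20) (nat_lit 5) (nat_lit 22) (nat_lit 5) (nat_lit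 21) (nat_lit 5) (nat_lit 359) (nat_lit 309) (nat_lit 112)) (XT.lf (nat_lit 0) (nat_lit 55654001174) (nat_lit 152) (nat_lit 6417529835) (nat_lit 76) (nat_lit 159907146647) (nat_lit 20) (nat_lit 5) (nat_lit 22) (nat_lit 5) (nat_lit 21) (nat_lit 5) (nat_lit 360) (nat_lit 309) (nat_lit 111))) (XT.nd (nat_lit 78) (nat_lit 76) (nat_lit 0) (XT.lf (nat_lit 0) (nat_lit 75275966102) (nat_lit 152) (nat_lit 14914359540) (nat_lit 228) (nat_lit 140437834075) (nat_lit 18) (nat_lit 5) (nat_lit 20) (nat_lit 5) (nat_lit 21) (nat_lit 5) (nat_lit 361) (nat_lit 309) (nat_lit 110)) (XT.nd (nat_lit 78) (nat_lit 76) (nat_lit 0) (XT.lf (nat_lit 0) (nat_lit 127103854548) (nat_lit 228) (nat_lit 78970233549) (nat_lit 76) (nat_lit 33603508689) (nat_lit 18) (nat_lit 5) (nat_lit 21) (nat_lit 5) (nat_lit 19) (nat_lit 4) (nat_lit 362) (nat_lit 309) (nat_lit 109)) (XT.lf (nat_lit 0) (nat_lit 1018451528) (nat_lit 76)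 (nat_lit 165104729905) (nat_lit 152) (nat_lit 83043318501) (nat_lit 17) (nat_lit 5) (nat_lit 18) (nat_lit 5) (nat_lit 19) (nat_lit 4) (nat_lit 363) (nat_lit 309) (nat_lit 108))))))) (XT.nd (nat_lit 36738) (nat_lit 0) (nat_lit 4256) (XT.nd (nat_lit 390) (nat_lit 0) (nat_lit 0) (XT.nd (nat_lit 156) (nat_lit 228) (nat_lit 0) (XT.nd (nat_lit 78) (nat_lit 0) (nat_lit 0) (XT.lf (nat_lit 0) (nat_lit 87747774559) (nat_lit 76) (nat_lit 120682828113) (nat_lit 152) (nat_lit 50632389451) (nat_lit 17) (nat_lit 5) (nat_lit 18) (nat_lit 5) (nat_lit 19) (nat_lit 4) (nat_lit 364) (nat_lit 309) (nat_lit 107)) (XT.lf (nat_lit 0) (nat_lit 178813121372) (nat_lit 76) (nat_lit 74040015406) (nat_lit 152) (nat_lit 16601185327) (nat_lit 17) (nat_lit 5) (nat_lit 18) (nat_lit 5) (nat_lit 19) (nat_lit 4) (nat_lit 365) (nat_lit 309) (nat_lit 106))) (XT.nd (nat_lit 78) (nat_lit 152) (nat_lit 0) (XT.lf (nat_lit 0)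 (nat_lit 18518998812) (nat_lit 152) (nat_lit 6232610451) (nat_lit 76) (nat_lit 255598687203) (nat_lit 16) (nat_lit 5) (nat_lit 18) (nat_lit 5) (nat_lit 17) (nat_lit 5) (nat_lit 366) (nat_lit 309) (nat_lit 105)) (XT.nd (nat_lit 78) (nat_lit 0) (nat_lit 0) (XT.lf (nat_lit 0) (nat_lit 56609361299) (nat_lit 228) (nat_lit 207319748384) (nat_lit 76) (nat_lit 27759748676) (nat_lit 14) (nat_lit 5) (nat_lit 17) (nat_lit 5) (nat_lit 15) (nat_lit 4) (nat_lit 367) (nat_lit 309) (nat_lit 104)) (XT.lf (nat_lit 0) (nat_lit 97117052777) (nat_lit 228) (nat_lit 124279678592) (nat_lit 76) (nat_lit 82171976659) (nat_lit 14) (nat_lit 5) (nat_lit 17) (nat_lit 5) (nat_lit 15) (nat_lit 4) (nat_lit 368) (nat_lit 309) (nat_lit 103))))) (XT.nd (nat_lit 36114) (nat_lit 0) (nat_lit 5092) (XT.nd (nat_lit 36036) (nat_lit 0) (nat_lit 5092) (XT.lf (nat_lit 0) (nat_lit 139649904202) (nat_lit 228) (nat_lit 37087997684)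 (nat_lit 76) (nat_lit 139304659741) (nat_lit 14) (nat_lit 5) (nat_lit 17) (nat_lit 5) (nat_lit 15) (nat_lit 4) (nat_lit 369) (nat_lit 309) (nat_lit 102)) (XT.lf (nat_lit 0) (nat_lit 7549762389) (nat_lit 0) (nat_lit 7549762389) (nat_lit 684) (nat_lit 8397765202) (nat_lit 81) (nat_lit 5) (nat_lit 81) (nat_lit 3) (nat_lit 90) (nat_lit 3) (nat_lit 310) (nat_lit 310) (nat_lit 160))) (XT.nd (nat_lit 78) (nat_lit 0) (nat_lit 0) (XT.lf (nat_lit 0) (nat_lit 31074516496) (nat_lit 684) (nat_lit 11319499205) (nat_lit 760) (nat_lit 5769331985) (nat_lit 81) (nat_lit 5) (nat_lit 90) (nat_lit 3) (nat_lit 91) (nat_lit 5) (nat_lit 311) (nat_lit 310) (nat_lit 159)) (XT.nd (nat_lit 78) (nat_lit 0) (nat_lit 0) (XT.lf (nat_lit 76) (nat_lit 10368163043) (nat_lit 0) (nat_lit 22033260416) (nat_lit 760) (nat_lit 16968751627) (nat_lit 82) (nat_lit 5) (nat_lit 81) (nat_lit 5) (nat_lit 91) (nat_lit 5) (nat_lit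 312) (nat_lit 310) (nat_lit 158)) (XT.lf (nat_lit 76) (nat_lit 33532227428) (nat_lit 0) (nat_lit 452474802) (nat_lit 760) (nat_lit 16643144708) (nat_lit 82) (nat_lit 5) (nat_lit 81) (nat_lit 5) (nat_lit 91) (nat_lit 5) (nat_lit 313) (nat_lit 310) (nat_lit 157)))))) (XT.nd (nat_lit 390) (nat_lit 912) (nat_lit 0) (XT.nd (nat_lit 156) (nat_lit 0) (nat_lit 76) (XT.nd (nat_lit 78) (nat_lit 0) (nat_lit 0) (XT.lf (nat_lit 76) (nat_lit 5742141301) (nat_lit 0) (nat_lit 30339789042) (nat_lit 760) (nat_lit 15844736963) (nat_lit 83) (nat_lit 5) (nat_lit 82) (nat_lit 5) (nat_lit 92) (nat_lit 5) (nat_lit 314) (nat_lit 310) (nat_lit 156)) (XT.lf (nat_lit 76) (nat_lit 30306648222) (nat_lit 0) (nat_lit 8272667559) (nat_lit 760) (nat_lit 14696352111) (nat_lit 83) (nat_lit 5) (nat_lit 82) (nat_lit 5) (nat_lit 92) (nat_lit 5) (nat_lit 315) (nat_lit 310) (nat_lit 155))) (XT.nd (nat_lit 78) (nat_lit 0) (nat_lit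 0) (XT.lf (nat_lit 76) (nat_lit 1212433947) (nat_lit 0) (nat_lit 40239218345) (nat_lit 760) (nat_lit 13227965928) (nat_lit 84) (nat_lit 5) (nat_lit 83) (nat_lit 5) (nat_lit 93) (nat_lit 5) (nat_lit 316) (nat_lit 310) (nat_lit 154)) (XT.nd (nat_lit 78) (nat_lit 0) (nat_lit 76) (XT.lf (nat_lit 76) (nat_lit 27259270915) (nat_lit 0) (nat_lit 17729364892) (nat_lit 760) (nat_lit 11139082374) (nat_lit 84) (nat_lit 5) (nat_lit 83) (nat_lit 5) (nat_lit 93) (nat_lit 5) (nat_lit 317) (nat_lit 310) (nat_lit 153)) (XT.lf (nat_lit 0) (nat_lit 48793357786) (nat_lit 684) (nat_lit 3133029175) (nat_lit 760) (nat_lit 5717295165) (nat_lit 84) (nat_lit 5) (nat_lit 93) (nat_lit 5) (nat_lit 94) (nat_lit 5) (nat_lit 318) (nat_lit 310) (nat_lit 152))))) (XT.nd (nat_lit 156) (nat_lit 1064) (nat_lit 0) (XT.nd (nat_lit 78) (nat_lit 0) (nat_lit 0) (XT.lf (nat_lit 76) (nat_lit 24377757994) (nat_lit 0) (nat_lit 29080551524)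 (nat_lit 760) (nat_lit 5743638351) (nat_lit 85) (nat_lit 5) (nat_lit 84) (nat_lit 5) (nat_lit 94) (nat_lit 5) (nat_lit 319) (nat_lit 310) (nat_lit 151)) (XT.lf (nat_lit 76) (nat_lit 53371875303) (nat_lit 0) (nat_lit 5036480641) (nat_lit 760) (nat_lit 2427181732) (nat_lit 85) (nat_lit 5) (nat_lit 84) (nat_lit 5) (nat_lit 94) (nat_lit 5) (nat_lit 320) (nat_lit 310) (nat_lit 150))) (XT.nd (nat_lit 78) (nat_lit 380) (nat_lit 0) (XT.lf (nat_lit 0) (nat_lit 1684275085) (nat_lit 760) (nat_lit 40904353751) (nat_lit 76) (nat_lit 19928209971) (nat_lit 75) (nat_lit 5) (nat_lit 85) (nat_lit 5) (nat_lit 76) (nat_lit 5) (nat_lit 321) (nat_lit 310) (nat_lit 149)) (XT.nd (nat_lit 78) (nat_lit 380) (nat_lit 0) (XT.lf (nat_lit 0) (nat_lit 6129641069) (nat_lit 760) (nat_lit 11999773262) (nat_lit 76) (nat_lit 46140308596) (nat_lit 75) (nat_lit 5) (nat_lit 85) (nat_lit 5) (nat_lit 76) (nat_lit 5) (nat_lit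 322) (nat_lit 310) (nat_lit 148)) (XT.lf (nat_lit 0) (nat_lit 11214922407) (nat_lit 456) (nat_lit 47262517808) (nat_lit 76) (nat_lit 7611931260) (nat_lit 70) (nat_lit 5) (nat_lit 76) (nat_lit 5) (nat_lit 71) (nat_lit 5) (nat_lit 323) (nat_lit 310) (nat_lit 147))))))))
noncomputable def xc229 : XT := (XT.nd (nat_lit 1482) (nat_lit 1444) (nat_lit 0) (XT.nd (nat_lit 702) (nat_lit 1216) (nat_lit 0) (XT.nd (nat_lit 312) (nat_lit 608) (nat_lit 0) (XT.nd (nat_lit 156) (nat_lit 304) (nat_lit 0) (XT.nd (nat_lit 78) (nat_lit 380) (nat_lit 0) (XT.lf (nat_lit 0) (nat_lit 17057183869) (nat_lit 456) (nat_lit 16679973291) (nat_lit 76) (nat_lit 34237711940) (nat_lit 70) (nat_lit 5) (nat_lit 76) (nat_lit 5) (nat_lit 71) (nat_lit 5) (nat_lit 324) (nat_lit 310) (nat_lit 146)) (XT.lf (nat_lit 0) (nat_lit 15940942553) (nat_lit 380) (nat_lit 7498507276) (nat_lit 456) (nat_lit 46502799541) (nat_lit 65) (nat_lit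 5) (nat_lit 70) (nat_lit 5) (nat_lit 71) (nat_lit 5) (nat_lit 325) (nat_lit 310) (nat_lit 145))) (XT.nd (nat_lit 78) (nat_lit 304) (nat_lit 0) (XT.lf (nat_lit 0) (nat_lit 30740053624) (nat_lit 456) (nat_lit 21540579601) (nat_lit 76) (nat_lit 19697406428) (nat_lit 65) (nat_lit 5) (nat_lit 71) (nat_lit 5) (nat_lit 66) (nat_lit 5) (nat_lit 326) (nat_lit 310) (nat_lit 144)) (XT.lf (nat_lit 0) (nat_lit 12829943219) (nat_lit 304) (nat_lit 25898068917) (nat_lit 380) (nat_lit 35371493203) (nat_lit 61) (nat_lit 5) (nat_lit 65) (nat_lit 5) (nat_lit 66) (nat_lit 5) (nat_lit 327) (nat_lit 310) (nat_lit 143)))) (XT.nd (nat_lit 156) (nat_lit 304) (nat_lit 0) (XT.nd (nat_lit 78) (nat_lit 304) (nat_lit 0) (XT.lf (nat_lit 0) (nat_lit 47513423499) (nat_lit 380) (nat_lit 26677094545) (nat_lit 76) (nat_lit 2116625539) (nat_lit 61) (nat_lit 5) (nat_lit 66) (nat_lit 5) (nat_lit 62) (nat_lit 5) (nat_lit 328)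 (nat_lit 310) (nat_lit 142)) (XT.lf (nat_lit 0) (nat_lit 9524340315) (nat_lit 304) (nat_lit 47786182251) (nat_lit 380) (nat_lit 21286022238) (nat_lit 57) (nat_lit 5) (nat_lit 61) (nat_lit 5) (nat_lit 62) (nat_lit 5) (nat_lit 329) (nat_lit 310) (nat_lit 141))) (XT.nd (nat_lit 78) (nat_lit 304) (nat_lit 0) (XT.lf (nat_lit 0) (nat_lit 48461094541) (nat_lit 304) (nat_lit 19587354301) (nat_lit 380) (nat_lit 12929420460) (nat_lit 57) (nat_lit 5) (nat_lit 61) (nat_lit 5) (nat_lit 62) (nat_lit 5) (nat_lit 330) (nat_lit 310) (nat_lit 140)) (XT.nd (nat_lit 78) (nat_lit 76) (nat_lit 0) (XT.lf (nat_lit 0) (nat_lit 5897814855) (nat_lit 228) (nat_lit 73673220497) (nat_lit 304) (nat_lit 3894838221) (nat_lit 54) (nat_lit 5) (nat_lit 57) (nat_lit 5) (nat_lit 58) (nat_lit 5) (nat_lit 331) (nat_lit 310) (nat_lit 139)) (XT.lf (nat_lit 0) (nat_lit 6292559393) (nat_lit 304) (nat_lit 39107059560) (nat_lit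 76) (nat_lit 40630293340) (nat_lit 53) (nat_lit 5) (nat_lit 57) (nat_lit 5) (nat_lit 54) (nat_lit 5) (nat_lit 332) (nat_lit 310) (nat_lit 138)))))) (XT.nd (nat_lit 390) (nat_lit 684) (nat_lit 0) (XT.nd (nat_lit 156) (nat_lit 228) (nat_lit 0) (XT.nd (nat_lit 78) (nat_lit 0) (nat_lit 0) (XT.lf (nat_lit 0) (nat_lit 1252338181) (nat_lit 304) (nat_lit 15624914997) (nat_lit 380) (nat_lit 71840767867) (nat_lit 49) (nat_lit 5) (nat_lit 53) (nat_lit 5) (nat_lit 54) (nat_lit 5) (nat_lit 333) (nat_lit 310) (nat_lit 137)) (XT.lf (nat_lit 0) (nat_lit 28907781950) (nat_lit 380) (nat_lit 46775928856) (nat_lit 76) (nat_lit 15810995846) (nat_lit 49) (nat_lit 5) (nat_lit 54) (nat_lit 5) (nat_lit 50) (nat_lit 5) (nat_lit 334) (nat_lit 310) (nat_lit 136))) (XT.nd (nat_lit 78) (nat_lit 228) (nat_lit 0) (XT.lf (nat_lit 0) (nat_lit 41795302170) (nat_lit 380) (nat_lit 4308694787) (nat_lit 76) (nat_lit 48293457699)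 (nat_lit 49) (nat_lit 5) (nat_lit 54) (nat_lit 5) (nat_lit 50) (nat_lit 5) (nat_lit 335) (nat_lit 310) (nat_lit 135)) (XT.nd (nat_lit 78) (nat_lit 0) (nat_lit 0) (XT.lf (nat_lit 0) (nat_lit 41612954953) (nat_lit 228) (nat_lit 14363289592) (nat_lit 304) (nat_lit 41436644508) (nat_lit 46) (nat_lit 5) (nat_lit 49) (nat_lit 5) (nat_lit 50) (nat_lit 5) (nat_lit 336) (nat_lit 310) (nat_lit 134)) (XT.lf (nat_lit 0) (nat_lit 71235855183) (nat_lit 304) (nat_lit 10893293066) (nat_lit 76) (nat_lit 18431467102) (nat_lit 46) (nat_lit 5) (nat_lit 50) (nat_lit 5) (nat_lit 47) (nat_lit 5) (nat_lit 337) (nat_lit 310) (nat_lit 133))))) (XT.nd (nat_lit 156) (nat_lit 456) (nat_lit 0) (XT.nd (nat_lit 78) (nat_lit 0) (nat_lit 0) (XT.lf (nat_lit 0) (nat_lit 37213482741) (nat_lit 228) (nat_lit 50860831107) (nat_lit 304) (nat_lit 15750621922) (nat_lit 43) (nat_lit 5) (nat_lit 46) (nat_lit 5) (nat_lit 47) (nat_lit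 5) (nat_lit 338) (nat_lit 310) (nat_lit 132)) (XT.lf (nat_lit 0) (nat_lit 88103003374) (nat_lit 228) (nat_lit 17835588704) (nat_lit 304) (nat_lit 1304686424) (nat_lit 43) (nat_lit 5) (nat_lit 46) (nat_lit 5) (nat_lit 47) (nat_lit 5) (nat_lit 339) (nat_lit 310) (nat_lit 131))) (XT.nd (nat_lit 78) (nat_lit 228) (nat_lit 0) (XT.lf (nat_lit 0) (nat_lit 14185527038) (nat_lit 228) (nat_lit 79576407261) (nat_lit 76) (nat_lit 17021497587) (nat_lit 40) (nat_lit 5) (nat_lit 43) (nat_lit 5) (nat_lit 41) (nat_lit 5) (nat_lit 340) (nat_lit 310) (nat_lit 130)) (XT.nd (nat_lit 78) (nat_lit 228) (nat_lit 0) (XT.lf (nat_lit 0) (nat_lit 31027698954) (nat_lit 228) (nat_lit 30068057992) (nat_lit 76) (nat_lit 53372702860) (nat_lit 40) (nat_lit 5) (nat_lit 43) (nat_lit 5) (nat_lit 41) (nat_lit 5) (nat_lit 341) (nat_lit 310) (nat_lit 129)) (XT.lf (nat_lit 0) (nat_lit 22639573517) (nat_lit 228) (nat_lit 26425342991)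 (nat_lit 304) (nat_lit 69255176685) (nat_lit 37) (nat_lit 5) (nat_lit 40) (nat_lit 5) (nat_lit 41) (nat_lit 5) (nat_lit 342) (nat_lit 310) (nat_lit 128))))))) (XT.nd (nat_lit 780) (nat_lit 684) (nat_lit 0) (XT.nd (nat_lit 390) (nat_lit 304) (nat_lit 0) (XT.nd (nat_lit 156) (nat_lit 304) (nat_lit 0) (XT.nd (nat_lit 78) (nat_lit 152) (nat_lit 0) (XT.lf (nat_lit 0) (nat_lit 68676833988) (nat_lit 304) (nat_lit 43477261639) (nat_lit 76) (nat_lit 10176571550) (nat_lit 37) (nat_lit 5) (nat_lit 41) (nat_lit 5) (nat_lit 38) (nat_lit 5) (nat_lit 343) (nat_lit 310) (nat_lit 127)) (XT.lf (nat_lit 0) (nat_lit 11262715795) (nat_lit 152) (nat_lit 78615181528) (nat_lit 228) (nat_lit 36633445878) (nat_lit 35) (nat_lit 5) (nat_lit 37) (nat_lit 5) (nat_lit 38) (nat_lit 5) (nat_lit 344) (nat_lit 310) (nat_lit 126))) (XT.nd (nat_lit 78) (nat_lit 304) (nat_lit 0) (XT.lf (nat_lit 0) (nat_lit 70248417635)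 (nat_lit 152) (nat_lit 42626422266) (nat_lit 228) (nat_lit 17989422619) (nat_lit 35) (nat_lit 5) (nat_lit 37) (nat_lit 5) (nat_lit 38) (nat_lit 5) (nat_lit 345) (nat_lit 310) (nat_lit 125)) (XT.nd (nat_lit 78) (nat_lit 228) (nat_lit 0) (XT.lf (nat_lit 0) (nat_lit 1535546550) (nat_lit 228) (nat_lit 3276887006) (nat_lit 76) (nat_lit 130621179635) (nat_lit 34) (nat_lit 5) (nat_lit 37) (nat_lit 5) (nat_lit 35) (nat_lit 5) (nat_lit 346) (nat_lit 310) (nat_lit 124)) (XT.lf (nat_lit 0) (nat_lit 22909770626) (nat_lit 304) (nat_lit 82229596992) (nat_lit 76) (nat_lit 35003440591) (nat_lit 31) (nat_lit 5) (nat_lit 35) (nat_lit 5) (nat_lit 32) (nat_lit 5) (nat_lit 347) (nat_lit 310) (nat_lit 123))))) (XT.nd (nat_lit 156) (nat_lit 152) (nat_lit 0) (XT.nd (nat_lit 78) (nat_lit 152) (nat_lit 0) (XT.lf (nat_lit 0) (nat_lit 45487566098) (nat_lit 304) (nat_lit 22888574838) (nat_lit 76) (nat_lit 76704579687)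 (nat_lit 31) (nat_lit 5) (nat_lit 35) (nat_lit 5) (nat_lit 32) (nat_lit 5) (nat_lit 348) (nat_lit 310) (nat_lit 122)) (XT.lf (nat_lit 0) (nat_lit 40722230791) (nat_lit 152) (nat_lit 29107391944) (nat_lit 228) (nat_lit 80404137979) (nat_lit 29) (nat_lit 5) (nat_lit 31) (nat_lit 5) (nat_lit 32) (nat_lit 5) (nat_lit 349) (nat_lit 310) (nat_lit 121))) (XT.nd (nat_lit 78) (nat_lit 152) (nat_lit 0) (XT.lf (nat_lit 0) (nat_lit 95971657874) (nat_lit 228) (nat_lit 47513152280) (nat_lit 76) (nat_lit 12130499469) (nat_lit 29) (nat_lit 5) (nat_lit 32) (nat_lit 5) (nat_lit 30) (nat_lit 5) (nat_lit 350) (nat_lit 310) (nat_lit 120)) (XT.nd (nat_lit 78) (nat_lit 0) (nat_lit 0) (XT.lf (nat_lit 0) (nat_lit 17673010434) (nat_lit 152) (nat_lit 106500489424) (nat_lit 228) (nat_lit 37054801431) (nat_lit 27) (nat_lit 5) (nat_lit 29) (nat_lit 5) (nat_lit 30) (nat_lit 5) (nat_lit 351) (nat_lit 310) (nat_lit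 119)) (XT.lf (nat_lit 0) (nat_lit 87767430329) (nat_lit 152) (nat_lit 66822280565) (nat_lit 228) (nat_lit 12492018338) (nat_lit 27) (nat_lit 5) (nat_lit 29) (nat_lit 5) (nat_lit 30) (nat_lit 5) (nat_lit 352) (nat_lit 310) (nat_lit 118)))))) (XT.nd (nat_lit 390) (nat_lit 304) (nat_lit 0) (XT.nd (nat_lit 156) (nat_lit 152) (nat_lit 0) (XT.nd (nat_lit 78) (nat_lit 152) (nat_lit 0) (XT.lf (nat_lit 0) (nat_lit 12872886366) (nat_lit 228) (nat_lit 12069474952) (nat_lit 76) (nat_lit 148275104564) (nat_lit 26) (nat_lit 5) (nat_lit 29) (nat_lit 5) (nat_lit 27) (nat_lit 5) (nat_lit 353) (nat_lit 310) (nat_lit 117)) (XT.lf (nat_lit 0) (nat_lit 40342626805) (nat_lit 228) (nat_lit 119657665547) (nat_lit 76) (nat_lit 19586637909) (nat_lit 24) (nat_lit 5) (nat_lit 27) (nat_lit 5) (nat_lit 25) (nat_lit 5) (nat_lit 354) (nat_lit 310) (nat_lit 116))) (XT.nd (nat_lit 78) (nat_lit 152) (nat_lit 0) (XT.lf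 (nat_lit 0) (nat_lit 69802151753) (nat_lit 228) (nat_lit 50730485565) (nat_lit 76) (nat_lit 65711416111) (nat_lit 24) (nat_lit 5) (nat_lit 27) (nat_lit 5) (nat_lit 25) (nat_lit 5) (nat_lit 355) (nat_lit 310) (nat_lit 115)) (XT.nd (nat_lit 78) (nat_lit 0) (nat_lit 0) (XT.lf (nat_lit 0) (nat_lit 22358117489) (nat_lit 152) (nat_lit 78725277911) (nat_lit 228) (nat_lit 92133200655) (nat_lit 22) (nat_lit 5) (nat_lit 24) (nat_lit 5) (nat_lit 25) (nat_lit 5) (nat_lit 356) (nat_lit 310) (nat_lit 114)) (XT.lf (nat_lit 0) (nat_lit 100861871924) (nat_lit 152) (nat_lit 33925651719) (nat_lit 228) (nat_lit 65707301453) (nat_lit 22) (nat_lit 5) (nat_lit 24) (nat_lit 5) (nat_lit 25) (nat_lit 5) (nat_lit 357) (nat_lit 310) (nat_lit 113))))) (XT.nd (nat_lit 156) (nat_lit 228) (nat_lit 0) (XT.nd (nat_lit 78) (nat_lit 76) (nat_lit 0) (XT.lf (nat_lit 0) (nat_lit 170381293339) (nat_lit 228) (nat_lit 25051411441)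 (nat_lit 76) (nat_lit 12694039441) (nat_lit 22) (nat_lit 5) (nat_lit 25) (nat_lit 5) (nat_lit 23) (nat_lit 4) (nat_lit 358) (nat_lit 310) (nat_lit 112)) (XT.lf (nat_lit 0) (nat_lit 54445143934) (nat_lit 76) (nat_lit 154715511316) (nat_lit 152) (nat_lit 6909309232) (nat_lit 21) (nat_lit 5) (nat_lit 22) (nat_lit 5) (nat_lit 23) (nat_lit 4) (nat_lit 359) (nat_lit 310) (nat_lit 111))) (XT.nd (nat_lit 78) (nat_lit 152) (nat_lit 0) (XT.lf (nat_lit 0) (nat_lit 25084402510) (nat_lit 152) (nat_lit 86007961234) (nat_lit 76) (nat_lit 113276554575) (nat_lit 20) (nat_lit 5) (nat_lit 22) (nat_lit 5) (nat_lit 21) (nat_lit 5) (nat_lit 360) (nat_lit 310) (nat_lit 110)) (XT.nd (nat_lit 78) (nat_lit 152) (nat_lit 0) (XT.lf (nat_lit 0) (nat_lit 58445321467) (nat_lit 152) (nat_lit 6723994891) (nat_lit 76) (nat_lit 167907854453) (nat_lit 20) (nat_lit 5) (nat_lit 22) (nat_lit 5) (nat_lit 21) (nat_lit 5) (nat_lit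 361) (nat_lit 310) (nat_lit 109)) (XT.lf (nat_lit 0) (nat_lit 79053943401) (nat_lit 152) (nat_lit 15654329644) (nat_lit 228) (nat_lit 147450863848) (nat_lit 18) (nat_lit 5) (nat_lit 20) (nat_lit 5) (nat_lit 21) (nat_lit 5) (nat_lit 362) (nat_lit 310) (nat_lit 108))))))))
noncomputable def xc230 : XT := (XT.nd (nat_lit 37518) (nat_lit 0) (nat_lit 1976) (XT.nd (nat_lit 36738) (nat_lit 0) (nat_lit 4636) (XT.nd (nat_lit 312) (nat_lit 228) (nat_lit 0) (XT.nd (nat_lit 156) (nat_lit 0) (nat_lit 0) (XT.nd (nat_lit 78) (nat_lit 76) (nat_lit 0) (XT.lf (nat_lit 0) (nat_lit 133467162381) (nat_lit 228) (nat_lit 82904916594) (nat_lit 76) (nat_lit 35288983081) (nat_lit 18) (nat_lit 5) (nat_lit 21) (nat_lit 5) (nat_lit 19) (nat_lit 4) (nat_lit 363) (nat_lit 310) (nat_lit 107)) (XT.lf (nat_lit 0) (nat_lit 1082979694) (nat_lit 76) (nat_lit 173354301903) (nat_lit 152) (nat_lit 87187137883) (nat_lit 17)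 (nat_lit 5) (nat_lit 18) (nat_lit 5) (nat_lit 19) (nat_lit 4) (nat_lit 364) (nat_lit 310) (nat_lit 106))) (XT.nd (nat_lit 78) (nat_lit 0) (nat_lit 0) (XT.lf (nat_lit 0) (nat_lit 92148120993) (nat_lit 76) (nat_lit 126711574760) (nat_lit 152) (nat_lit 53156059835) (nat_lit 17) (nat_lit 5) (nat_lit 18) (nat_lit 5) (nat_lit 19) (nat_lit 4) (nat_lit 365) (nat_lit 310) (nat_lit 105)) (XT.lf (nat_lit 0) (nat_lit 187766118113) (nat_lit 76) (nat_lit 77736878311) (nat_lit 152) (nat_lit 17423674033) (nat_lit 17) (nat_lit 5) (nat_lit 18) (nat_lit 5) (nat_lit 19) (nat_lit 4) (nat_lit 366) (nat_lit 310) (nat_lit 104)))) (XT.nd (nat_lit 156) (nat_lit 0) (nat_lit 0) (XT.nd (nat_lit 78) (nat_lit 152) (nat_lit 0) (XT.lf (nat_lit 0) (nat_lit 19451928043) (nat_lit 152) (nat_lit 6532250280) (nat_lit 76) (nat_lit 268383277096) (nat_lit 16) (nat_lit 5) (nat_lit 18) (nat_lit 5) (nat_lit 17) (nat_lit 5) (nat_lit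 367) (nat_lit 310) (nat_lit 103)) (XT.lf (nat_lit 0) (nat_lit 59446738032) (nat_lit 228) (nat_lit 217673667909) (nat_lit 76) (nat_lit 29152543325) (nat_lit 14) (nat_lit 5) (nat_lit 17) (nat_lit 5) (nat_lit 15) (nat_lit 4) (nat_lit 368) (nat_lit 310) (nat_lit 102))) (XT.nd (nat_lit 36114) (nat_lit 0) (nat_lit 5092) (XT.lf (nat_lit 0) (nat_lit 101979485100) (nat_lit 228) (nat_lit 130482169289) (nat_lit 76) (nat_lit 86285153793) (nat_lit 14) (nat_lit 5) (nat_lit 17) (nat_lit 5) (nat_lit 15) (nat_lit 4) (nat_lit 369) (nat_lit 310) (nat_lit 101)) (XT.nd (nat_lit 78) (nat_lit 0) (nat_lit 0) (XT.lf (nat_lit 0) (nat_lit 7940754804) (nat_lit 0) (nat_lit 7940754804) (nat_lit 684) (nat_lit 8789223330) (nat_lit 81) (nat_lit 5) (nat_lit 81) (nat_lit 3) (nat_lit 90) (nat_lit 3) (nat_lit 311) (nat_lit 311) (nat_lit 158)) (XT.lf (nat_lit 0) (nat_lit 32679285655) (nat_lit 684) (nat_lit 11856642399)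 (nat_lit 760) (nat_lit 6032899397) (nat_lit 81) (nat_lit 5) (nat_lit 90) (nat_lit 3) (nat_lit 91) (nat_lit 5) (nat_lit 312) (nat_lit 311) (nat_lit 157)))))) (XT.nd (nat_lit 390) (nat_lit 456) (nat_lit 0) (XT.nd (nat_lit 156) (nat_lit 0) (nat_lit 76) (XT.nd (nat_lit 78) (nat_lit 0) (nat_lit 0) (XT.lf (nat_lit 76) (nat_lit 10914937932) (nat_lit 0) (nat_lit 23155612283) (nat_lit 760) (nat_lit 17765551844) (nat_lit 82) (nat_lit 5) (nat_lit 81) (nat_lit 5) (nat_lit 91) (nat_lit 5) (nat_lit 313) (nat_lit 311) (nat_lit 156)) (XT.lf (nat_lit 76) (nat_lit 35235854740) (nat_lit 0) (nat_lit 494802205) (nat_lit 760) (nat_lit 17426123501) (nat_lit 82) (nat_lit 5) (nat_lit 81) (nat_lit 5) (nat_lit 91) (nat_lit 5) (nat_lit 314) (nat_lit 311) (nat_lit 155))) (XT.nd (nat_lit 78) (nat_lit 0) (nat_lit 0) (XT.lf (nat_lit 76) (nat_lit 6058550414) (nat_lit 0) (nat_lit 31872135814) (nat_lit 760) (nat_lit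 16589964467) (nat_lit 83) (nat_lit 5) (nat_lit 82) (nat_lit 5) (nat_lit 92) (nat_lit 5) (nat_lit 315) (nat_lit 311) (nat_lit 154)) (XT.nd (nat_lit 78) (nat_lit 0) (nat_lit 76) (XT.lf (nat_lit 76) (nat_lit 31849887344) (nat_lit 0) (nat_lit 8700926956) (nat_lit 760) (nat_lit 15386398913) (nat_lit 83) (nat_lit 5) (nat_lit 82) (nat_lit 5) (nat_lit 92) (nat_lit 5) (nat_lit 316) (nat_lit 311) (nat_lit 153)) (XT.lf (nat_lit 76) (nat_lit 1302938893) (nat_lit 0) (nat_lit 42262052459) (nat_lit 760) (nat_lit 13846463828) (nat_lit 84) (nat_lit 5) (nat_lit 83) (nat_lit 5) (nat_lit 93) (nat_lit 5) (nat_lit 317) (nat_lit 311) (nat_lit 152))))) (XT.nd (nat_lit 156) (nat_lit 608) (nat_lit 0) (XT.nd (nat_lit 78) (nat_lit 0) (nat_lit 76) (XT.lf (nat_lit 76) (nat_lit 28650694698) (nat_lit 0) (nat_lit 18626188561) (nat_lit 760) (nat_lit 11655178971) (nat_lit 84) (nat_lit 5) (nat_lit 83) (nat_lit 5) (nat_lit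 93) (nat_lit 5) (nat_lit 318) (nat_lit 311) (nat_lit 151)) (XT.lf (nat_lit 0) (nat_lit 51269838993) (nat_lit 684) (nat_lit 3260477040) (nat_lit 760) (nat_lit 5993613269) (nat_lit 84) (nat_lit 5) (nat_lit 93) (nat_lit 5) (nat_lit 94) (nat_lit 5) (nat_lit 319) (nat_lit 311) (nat_lit 150))) (XT.nd (nat_lit 78) (nat_lit 684) (nat_lit 0) (XT.lf (nat_lit 76) (nat_lit 25625378462) (nat_lit 0) (nat_lit 30541355432) (nat_lit 760) (nat_lit 5993444246) (nat_lit 85) (nat_lit 5) (nat_lit 84) (nat_lit 5) (nat_lit 94) (nat_lit 5) (nat_lit 320) (nat_lit 311) (nat_lit 149)) (XT.nd (nat_lit 78) (nat_lit 684) (nat_lit 0) (XT.lf (nat_lit 76) (nat_lit 56067833419) (nat_lit 0) (nat_lit 5294758322) (nat_lit 760) (nat_lit 2512944606) (nat_lit 85) (nat_lit 5) (nat_lit 84) (nat_lit 5) (nat_lit 94) (nat_lit 5) (nat_lit 321) (nat_lit 311) (nat_lit 148)) (XT.lf (nat_lit 0) (nat_lit 1801663981) (nat_lit 760) (nat_lit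 42919623665) (nat_lit 76) (nat_lit 20919655148) (nat_lit 75) (nat_lit 5) (nat_lit 85) (nat_lit 5) (nat_lit 76) (nat_lit 5) (nat_lit 322) (nat_lit 311) (nat_lit 147))))))) (XT.nd (nat_lit 780) (nat_lit 1064) (nat_lit 0) (XT.nd (nat_lit 390) (nat_lit 836) (nat_lit 0) (XT.nd (nat_lit 156) (nat_lit 380) (nat_lit 0) (XT.nd (nat_lit 78) (nat_lit 380) (nat_lit 0) (XT.lf (nat_lit 0) (nat_lit 6467718496) (nat_lit 760) (nat_lit 12571240236) (nat_lit 76) (nat_lit 48442595147) (nat_lit 75) (nat_lit 5) (nat_lit 85) (nat_lit 5) (nat_lit 76) (nat_lit 5) (nat_lit 323) (nat_lit 311) (nat_lit 146)) (XT.lf (nat_lit 0) (nat_lit 11806158959) (nat_lit 456) (nat_lit 49595945235) (nat_lit 76) (nat_lit 7990139500) (nat_lit 70) (nat_lit 5) (nat_lit 76) (nat_lit 5) (nat_lit 71) (nat_lit 5) (nat_lit 324) (nat_lit 311) (nat_lit 145))) (XT.nd (nat_lit 78) (nat_lit 380) (nat_lit 0) (XT.lf (nat_lit 0) (nat_lit 17939081569)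 (nat_lit 456) (nat_lit 17485687705) (nat_lit 76) (nat_lit 35947322943) (nat_lit 70) (nat_lit 5) (nat_lit 76) (nat_lit 5) (nat_lit 71) (nat_lit 5) (nat_lit 325) (nat_lit 311) (nat_lit 144)) (XT.nd (nat_lit 78) (nat_lit 0) (nat_lit 0) (XT.lf (nat_lit 0) (nat_lit 16765817734) (nat_lit 380) (nat_lit 7873694781) (nat_lit 456) (nat_lit 48798379660) (nat_lit 65) (nat_lit 5) (nat_lit 70) (nat_lit 5) (nat_lit 71) (nat_lit 5) (nat_lit 326) (nat_lit 311) (nat_lit 143)) (XT.lf (nat_lit 0) (nat_lit 32303804973) (nat_lit 456) (nat_lit 22589702095) (nat_lit 76) (nat_lit 20682035082) (nat_lit 65) (nat_lit 5) (nat_lit 71) (nat_lit 5) (nat_lit 66) (nat_lit 5) (nat_lit 327) (nat_lit 311) (nat_lit 142))))) (XT.nd (nat_lit 156) (nat_lit 532) (nat_lit 0) (XT.nd (nat_lit 78) (nat_lit 0) (nat_lit 0) (XT.lf (nat_lit 0) (nat_lit 13498896762) (nat_lit 304) (nat_lit 27191419575) (nat_lit 380) (nat_lit 37112809993)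 (nat_lit 61) (nat_lit 5) (nat_lit 65) (nat_lit 5) (nat_lit 66) (nat_lit 5) (nat_lit 328) (nat_lit 311) (nat_lit 141)) (XT.lf (nat_lit 0) (nat_lit 49913787852) (nat_lit 380) (nat_lit 27983533639) (nat_lit 76) (nat_lit 2223888330) (nat_lit 61) (nat_lit 5) (nat_lit 66) (nat_lit 5) (nat_lit 62) (nat_lit 5) (nat_lit 329) (nat_lit 311) (nat_lit 140))) (XT.nd (nat_lit 78) (nat_lit 228) (nat_lit 0) (XT.lf (nat_lit 0) (nat_lit 10027530776) (nat_lit 304) (nat_lit 50172456360) (nat_lit 380) (nat_lit 22325134382) (nat_lit 57) (nat_lit 5) (nat_lit 61) (nat_lit 5) (nat_lit 62) (nat_lit 5) (nat_lit 330) (nat_lit 311) (nat_lit 139)) (XT.nd (nat_lit 78) (nat_lit 228) (nat_lit 0) (XT.lf (nat_lit 0) (nat_lit 50909838264) (nat_lit 304) (nat_lit 20563831537) (nat_lit 380) (nat_lit 13551901990) (nat_lit 57) (nat_lit 5) (nat_lit 61) (nat_lit 5) (nat_lit 62) (nat_lit 5) (nat_lit 331) (nat_lit 311) (nat_lit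 138)) (XT.lf (nat_lit 0) (nat_lit 6219107621) (nat_lit 228) (nat_lit 77352647561) (nat_lit 304) (nat_lit 4066255047) (nat_lit 54) (nat_lit 5) (nat_lit 57) (nat_lit 5) (nat_lit 58) (nat_lit 5) (nat_lit 332) (nat_lit 311) (nat_lit 137)))))) (XT.nd (nat_lit 390) (nat_lit 456) (nat_lit 0) (XT.nd (nat_lit 156) (nat_lit 228) (nat_lit 0) (XT.nd (nat_lit 78) (nat_lit 304) (nat_lit 0) (XT.lf (nat_lit 0) (nat_lit 6628690731) (nat_lit 304) (nat_lit 41036512655) (nat_lit 76) (nat_lit 42665085253) (nat_lit 53) (nat_lit 5) (nat_lit 57) (nat_lit 5) (nat_lit 54) (nat_lit 5) (nat_lit 333) (nat_lit 311) (nat_lit 136)) (XT.lf (nat_lit 0) (nat_lit 1340437232) (nat_lit 304) (nat_lit 16401555850) (nat_lit 380) (nat_lit 75410843153) (nat_lit 49) (nat_lit 5) (nat_lit 53) (nat_lit 5) (nat_lit 54) (nat_lit 5) (nat_lit 334) (nat_lit 311) (nat_lit 135))) (XT.nd (nat_lit 78) (nat_lit 228) (nat_lit 0) (XT.lf (nat_lit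 0) (nat_lit 30373122611) (nat_lit 380) (nat_lit 49089490910) (nat_lit 76) (nat_lit 16605790887) (nat_lit 49) (nat_lit 5) (nat_lit 54) (nat_lit 5) (nat_lit 50) (nat_lit 5) (nat_lit 335) (nat_lit 311) (nat_lit 134)) (XT.nd (nat_lit 78) (nat_lit 228) (nat_lit 0) (XT.lf (nat_lit 0) (nat_lit 43904068767) (nat_lit 380) (nat_lit 4500096775) (nat_lit 76) (nat_lit 50712173677) (nat_lit 49) (nat_lit 5) (nat_lit 54) (nat_lit 5) (nat_lit 50) (nat_lit 5) (nat_lit 336) (nat_lit 311) (nat_lit 133)) (XT.lf (nat_lit 0) (nat_lit 43717247827) (nat_lit 228) (nat_lit 15076274768) (nat_lit 304) (nat_lit 43489051339) (nat_lit 46) (nat_lit 5) (nat_lit 49) (nat_lit 5) (nat_lit 50) (nat_lit 5) (nat_lit 337) (nat_lit 311) (nat_lit 132))))) (XT.nd (nat_lit 156) (nat_lit 228) (nat_lit 0) (XT.nd (nat_lit 78) (nat_lit 228) (nat_lit 0) (XT.lf (nat_lit 0) (nat_lit 74815311453) (nat_lit 304) (nat_lit 11414601687) (nat_lit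 76) (nat_lit 19357815252) (nat_lit 46) (nat_lit 5) (nat_lit 50) (nat_lit 5) (nat_lit 47) (nat_lit 5) (nat_lit 338) (nat_lit 311) (nat_lit 131)) (XT.lf (nat_lit 0) (nat_lit 39097136201) (nat_lit 228) (nat_lit 53398074502) (nat_lit 304) (nat_lit 16520079890) (nat_lit 43) (nat_lit 5) (nat_lit 46) (nat_lit 5) (nat_lit 47) (nat_lit 5) (nat_lit 339) (nat_lit 311) (nat_lit 130))) (XT.nd (nat_lit 78) (nat_lit 228) (nat_lit 0) (XT.lf (nat_lit 0) (nat_lit 92530038612) (nat_lit 228) (nat_lit 18721846082) (nat_lit 304) (nat_lit 1352708242) (nat_lit 43) (nat_lit 5) (nat_lit 46) (nat_lit 5) (nat_lit 47) (nat_lit 5) (nat_lit 340) (nat_lit 311) (nat_lit 129)) (XT.nd (nat_lit 78) (nat_lit 0) (nat_lit 0) (XT.lf (nat_lit 0) (nat_lit 14911108636) (nat_lit 228) (nat_lit 83532377022) (nat_lit 76) (nat_lit 17878274133) (nat_lit 40) (nat_lit 5) (nat_lit 43) (nat_lit 5) (nat_lit 41) (nat_lit 5) (nat_lit 341)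 (nat_lit 311) (nat_lit 128)) (XT.lf (nat_lit 0) (nat_lit 32594612707) (nat_lit 228) (nat_lit 31549698414) (nat_lit 76) (nat_lit 56046768161) (nat_lit 40) (nat_lit 5) (nat_lit 43) (nat_lit 5) (nat_lit 41) (nat_lit 5) (nat_lit 342) (nat_lit 311) (nat_lit 127))))))))
noncomputable def xc231 : XT := (XT.nd (nat_lit 1560) (nat_lit 304) (nat_lit 0) (XT.nd (nat_lit 780) (nat_lit 532) (nat_lit 0) (XT.nd (nat_lit 390) (nat_lit 532) (nat_lit 0) (XT.nd (nat_lit 156) (nat_lit 228) (nat_lit 0) (XT.nd (nat_lit 78) (nat_lit 0) (nat_lit 0) (XT.lf (nat_lit 0) (nat_lit 23792963663) (nat_lit 228) (nat_lit 27740322302) (nat_lit 304) (nat_lit 72702029922) (nat_lit 37) (nat_lit 5) (nat_lit 40) (nat_lit 5) (nat_lit 41) (nat_lit 5) (nat_lit 343) (nat_lit 311) (nat_lit 126)) (XT.lf (nat_lit 0) (nat_lit 72125172642) (nat_lit 304) (nat_lit 45630081612) (nat_lit 76) (nat_lit 10691196879) (nat_lit 37) (nat_lit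 5) (nat_lit 41) (nat_lit 5) (nat_lit 38) (nat_lit 5) (nat_lit 344) (nat_lit 311) (nat_lit 125))) (XT.nd (nat_lit 78) (nat_lit 76) (nat_lit 0) (XT.lf (nat_lit 0) (nat_lit 11846555289) (nat_lit 152) (nat_lit 82539366767) (nat_lit 228) (nat_lit 38450258425) (nat_lit 35) (nat_lit 5) (nat_lit 37) (nat_lit 5) (nat_lit 38) (nat_lit 5) (nat_lit 345) (nat_lit 311) (nat_lit 124)) (XT.nd (nat_lit 78) (nat_lit 76) (nat_lit 0) (XT.lf (nat_lit 0) (nat_lit 73780556330) (nat_lit 152) (nat_lit 44751482581) (nat_lit 228) (nat_lit 18874741610) (nat_lit 35) (nat_lit 5) (nat_lit 37) (nat_lit 5) (nat_lit 38) (nat_lit 5) (nat_lit 346) (nat_lit 311) (nat_lit 123)) (XT.lf (nat_lit 0) (nat_lit 1625370718) (nat_lit 228) (nat_lit 3421500897) (nat_lit 76) (nat_lit 137157749692) (nat_lit 34) (nat_lit 5) (nat_lit 37) (nat_lit 5) (nat_lit 35) (nat_lit 5) (nat_lit 347) (nat_lit 311) (nat_lit 122))))) (XT.nd (nat_lit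 156) (nat_lit 304) (nat_lit 0) (XT.nd (nat_lit 78) (nat_lit 0) (nat_lit 0) (XT.lf (nat_lit 0) (nat_lit 24068076907) (nat_lit 304) (nat_lit 86321598050) (nat_lit 76) (nat_lit 36759613533) (nat_lit 31) (nat_lit 5) (nat_lit 35) (nat_lit 5) (nat_lit 32) (nat_lit 5) (nat_lit 348) (nat_lit 311) (nat_lit 121)) (XT.lf (nat_lit 0) (nat_lit 47774151784) (nat_lit 304) (nat_lit 24014452351) (nat_lit 76) (nat_lit 80545523826) (nat_lit 31) (nat_lit 5) (nat_lit 35) (nat_lit 5) (nat_lit 32) (nat_lit 5) (nat_lit 349) (nat_lit 311) (nat_lit 120))) (XT.nd (nat_lit 78) (nat_lit 152) (nat_lit 0) (XT.lf (nat_lit 0) (nat_lit 42776594346) (nat_lit 152) (nat_lit 30556420568) (nat_lit 228) (nat_lit 84411820832) (nat_lit 29) (nat_lit 5) (nat_lit 31) (nat_lit 5) (nat_lit 32) (nat_lit 5) (nat_lit 350) (nat_lit 311) (nat_lit 119)) (XT.nd (nat_lit 78) (nat_lit 152) (nat_lit 0) (XT.lf (nat_lit 0) (nat_lit 100781678904)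 (nat_lit 228) (nat_lit 49870937494) (nat_lit 76) (nat_lit 12742870178) (nat_lit 29) (nat_lit 5) (nat_lit 32) (nat_lit 5) (nat_lit 30) (nat_lit 5) (nat_lit 351) (nat_lit 311) (nat_lit 118)) (XT.lf (nat_lit 0) (nat_lit 18574245090) (nat_lit 152) (nat_lit 111819097761) (nat_lit 228) (nat_lit 38895799273) (nat_lit 27) (nat_lit 5) (nat_lit 29) (nat_lit 5) (nat_lit 30) (nat_lit 5) (nat_lit 352) (nat_lit 311) (nat_lit 117)))))) (XT.nd (nat_lit 390) (nat_lit 152) (nat_lit 0) (XT.nd (nat_lit 156) (nat_lit 304) (nat_lit 0) (XT.nd (nat_lit 78) (nat_lit 76) (nat_lit 0) (XT.lf (nat_lit 0) (nat_lit 92172548640) (nat_lit 152) (nat_lit 70157283989) (nat_lit 228) (nat_lit 13105436179) (nat_lit 27) (nat_lit 5) (nat_lit 29) (nat_lit 5) (nat_lit 30) (nat_lit 5) (nat_lit 353) (nat_lit 311) (nat_lit 116)) (XT.lf (nat_lit 0) (nat_lit 13526840348) (nat_lit 228) (nat_lit 12656644813) (nat_lit 76) (nat_lit 155694324858)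 (nat_lit 26) (nat_lit 5) (nat_lit 29) (nat_lit 5) (nat_lit 27) (nat_lit 5) (nat_lit 354) (nat_lit 311) (nat_lit 115))) (XT.nd (nat_lit 78) (nat_lit 152) (nat_lit 0) (XT.lf (nat_lit 0) (nat_lit 42369920553) (nat_lit 228) (nat_lit 125624084658) (nat_lit 76) (nat_lit 20571750420) (nat_lit 24) (nat_lit 5) (nat_lit 27) (nat_lit 5) (nat_lit 25) (nat_lit 5) (nat_lit 355) (nat_lit 311) (nat_lit 114)) (XT.nd (nat_lit 78) (nat_lit 152) (nat_lit 0) (XT.lf (nat_lit 0) (nat_lit 73301937824) (nat_lit 228) (nat_lit 53251329685) (nat_lit 76) (nat_lit 69002492264) (nat_lit 24) (nat_lit 5) (nat_lit 27) (nat_lit 5) (nat_lit 25) (nat_lit 5) (nat_lit 356) (nat_lit 311) (nat_lit 113)) (XT.lf (nat_lit 0) (nat_lit 23491450616) (nat_lit 152) (nat_lit 82655573020) (nat_lit 228) (nat_lit 96729917487) (nat_lit 22) (nat_lit 5) (nat_lit 24) (nat_lit 5) (nat_lit 25) (nat_lit 5) (nat_lit 357) (nat_lit 311) (nat_lit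 112))))) (XT.nd (nat_lit 156) (nat_lit 152) (nat_lit 0) (XT.nd (nat_lit 78) (nat_lit 0) (nat_lit 0) (XT.lf (nat_lit 0) (nat_lit 105919658142) (nat_lit 152) (nat_lit 35616249747) (nat_lit 228) (nat_lit 68983196811) (nat_lit 22) (nat_lit 5) (nat_lit 24) (nat_lit 5) (nat_lit 25) (nat_lit 5) (nat_lit 358) (nat_lit 311) (nat_lit 111)) (XT.lf (nat_lit 0) (nat_lit 178909021639) (nat_lit 228) (nat_lit 26289633898) (nat_lit 76) (nat_lit 13333982001) (nat_lit 22) (nat_lit 5) (nat_lit 25) (nat_lit 5) (nat_lit 23) (nat_lit 4) (nat_lit 359) (nat_lit 311) (nat_lit 110))) (XT.nd (nat_lit 78) (nat_lit 76) (nat_lit 0) (XT.lf (nat_lit 0) (nat_lit 57181517826) (nat_lit 76) (nat_lit 162445641667) (nat_lit 152) (nat_lit 7245869436) (nat_lit 21) (nat_lit 5) (nat_lit 22) (nat_lit 5) (nat_lit 23) (nat_lit 4) (nat_lit 360) (nat_lit 311) (nat_lit 109)) (XT.nd (nat_lit 78) (nat_lit 0) (nat_lit 0) (XT.lf (nat_lit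 0) (nat_lit 26346832382) (nat_lit 152) (nat_lit 90294634119) (nat_lit 76) (nat_lit 118945477992) (nat_lit 20) (nat_lit 5) (nat_lit 22) (nat_lit 5) (nat_lit 21) (nat_lit 5) (nat_lit 361) (nat_lit 311) (nat_lit 108)) (XT.lf (nat_lit 0) (nat_lit 61375406346) (nat_lit 152) (nat_lit 7047123037) (nat_lit 76) (nat_lit 176308100212) (nat_lit 20) (nat_lit 5) (nat_lit 22) (nat_lit 5) (nat_lit 21) (nat_lit 5) (nat_lit 362) (nat_lit 311) (nat_lit 107))))))) (XT.nd (nat_lit 36972) (nat_lit 0) (nat_lit 4104) (XT.nd (nat_lit 390) (nat_lit 76) (nat_lit 0) (XT.nd (nat_lit 156) (nat_lit 76) (nat_lit 0) (XT.nd (nat_lit 78) (nat_lit 0) (nat_lit 0) (XT.lf (nat_lit 0) (nat_lit 83019501336) (nat_lit 152) (nat_lit 16431832635) (nat_lit 228) (nat_lit 154815369007) (nat_lit 18) (nat_lit 5) (nat_lit 20) (nat_lit 5) (nat_lit 21) (nat_lit 5) (nat_lit 363) (nat_lit 311) (nat_lit 106)) (XT.lf (nat_lit 0) (nat_lit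 140147881140) (nat_lit 228) (nat_lit 87037619446) (nat_lit 76) (nat_lit 37058238546) (nat_lit 18) (nat_lit 5) (nat_lit 21) (nat_lit 5) (nat_lit 19) (nat_lit 4) (nat_lit 364) (nat_lit 311) (nat_lit 105))) (XT.nd (nat_lit 78) (nat_lit 0) (nat_lit 0) (XT.lf (nat_lit 0) (nat_lit 1149469351) (nat_lit 76) (nat_lit 182016879132) (nat_lit 152) (nat_lit 91538924217) (nat_lit 17) (nat_lit 5) (nat_lit 18) (nat_lit 5) (nat_lit 19) (nat_lit 4) (nat_lit 365) (nat_lit 311) (nat_lit 104)) (XT.nd (nat_lit 78) (nat_lit 0) (nat_lit 0) (XT.lf (nat_lit 0) (nat_lit 96767280063) (nat_lit 76) (nat_lit 133042260292) (nat_lit 152) (nat_lit 55806652770) (nat_lit 17) (nat_lit 5) (nat_lit 18) (nat_lit 5) (nat_lit 19) (nat_lit 4) (nat_lit 366) (nat_lit 311) (nat_lit 103)) (XT.lf (nat_lit 0) (nat_lit 197165617371) (nat_lit 76) (nat_lit 81619062031) (nat_lit 152) (nat_lit 18287991014) (nat_lit 17) (nat_lit 5) (nat_lit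 18) (nat_lit 5) (nat_lit 19) (nat_lit 4) (nat_lit 367) (nat_lit 311) (nat_lit 102))))) (XT.nd (nat_lit 36348) (nat_lit 0) (nat_lit 4940) (XT.nd (nat_lit 36270) (nat_lit 0) (nat_lit 4940) (XT.lf (nat_lit 0) (nat_lit 20430854867) (nat_lit 152) (nat_lit 6847986882) (nat_lit 76) (nat_lit 281806663656) (nat_lit 16) (nat_lit 5) (nat_lit 18) (nat_lit 5) (nat_lit 17) (nat_lit 5) (nat_lit 368) (nat_lit 311) (nat_lit 101)) (XT.lf (nat_lit 0) (nat_lit 8350041338) (nat_lit 0) (nat_lit 8350041338) (nat_lit 684) (nat_lit 9202897529) (nat_lit 81) (nat_lit 5) (nat_lit 81) (nat_lit 3) (nat_lit 90) (nat_lit 3) (nat_lit 312) (nat_lit 312) (nat_lit 156))) (XT.nd (nat_lit 78) (nat_lit 0) (nat_lit 0) (XT.lf (nat_lit 0) (nat_lit 34359547747) (nat_lit 684) (nat_lit 12423323258) (nat_lit 760) (nat_lit 6311960069) (nat_lit 81) (nat_lit 5) (nat_lit 90) (nat_lit 3) (nat_lit 91) (nat_lit 5) (nat_lit 313) (nat_lit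 312) (nat_lit 155)) (XT.nd (nat_lit 78) (nat_lit 0) (nat_lit 0) (XT.lf (nat_lit 76) (nat_lit 11486414296) (nat_lit 0) (nat_lit 24332158291) (nat_lit 760) (nat_lit 18606992824) (nat_lit 82) (nat_lit 5) (nat_lit 81) (nat_lit 5) (nat_lit 91) (nat_lit 5) (nat_lit 314) (nat_lit 312) (nat_lit 154)) (XT.lf (nat_lit 76) (nat_lit 37022151731) (nat_lit 0) (nat_lit 537414119) (nat_lit 760) (nat_lit 18252823379) (nat_lit 82) (nat_lit 5) (nat_lit 81) (nat_lit 5) (nat_lit 91) (nat_lit 5) (nat_lit 315) (nat_lit 312) (nat_lit 153)))))) (XT.nd (nat_lit 390) (nat_lit 912) (nat_lit 0) (XT.nd (nat_lit 156) (nat_lit 0) (nat_lit 76) (XT.nd (nat_lit 78) (nat_lit 0) (nat_lit 0) (XT.lf (nat_lit 76) (nat_lit 6388055755) (nat_lit 0) (nat_lit 33479672147) (nat_lit 760) (nat_lit 17376823830) (nat_lit 83) (nat_lit 5) (nat_lit 82) (nat_lit 5) (nat_lit 92) (nat_lit 5) (nat_lit 316) (nat_lit 312) (nat_lit 152)) (XT.lf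 (nat_lit 76) (nat_lit 33467693922) (nat_lit 0) (nat_lit 9149239534) (nat_lit 760) (nat_lit 16115110420) (nat_lit 83) (nat_lit 5) (nat_lit 82) (nat_lit 5) (nat_lit 92) (nat_lit 5) (nat_lit 317) (nat_lit 312) (nat_lit 151))) (XT.nd (nat_lit 78) (nat_lit 0) (nat_lit 0) (XT.lf (nat_lit 76) (nat_lit 1395190825) (nat_lit 0) (nat_lit 44385017391) (nat_lit 760) (nat_lit 14499875094) (nat_lit 84) (nat_lit 5) (nat_lit 83) (nat_lit 5) (nat_lit 93) (nat_lit 5) (nat_lit 318) (nat_lit 312) (nat_lit 150)) (XT.nd (nat_lit 78) (nat_lit 0) (nat_lit 76) (XT.lf (nat_lit 76) (nat_lit 30109043706) (nat_lit 0) (nat_lit 19566890665) (nat_lit 760) (nat_lit 12200878944) (nat_lit 84) (nat_lit 5) (nat_lit 83) (nat_lit 5) (nat_lit 93) (nat_lit 5) (nat_lit 319) (nat_lit 312) (nat_lit 149)) (XT.lf (nat_lit 0) (nat_lit 53866721708) (nat_lit 684) (nat_lit 3397012371) (nat_lit 760) (nat_lit 6284634836) (nat_lit 84)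 (nat_lit 5) (nat_lit 93) (nat_lit 5) (nat_lit 94) (nat_lit 5) (nat_lit 320) (nat_lit 312) (nat_lit 148))))) (XT.nd (nat_lit 156) (nat_lit 1064) (nat_lit 0) (XT.nd (nat_lit 78) (nat_lit 0) (nat_lit 0) (XT.lf (nat_lit 76) (nat_lit 26932708671) (nat_lit 0) (nat_lit 32074569535) (nat_lit 760) (nat_lit 6259215303) (nat_lit 85) (nat_lit 5) (nat_lit 84) (nat_lit 5) (nat_lit 94) (nat_lit 5) (nat_lit 321) (nat_lit 312) (nat_lit 147)) (XT.lf (nat_lit 76) (nat_lit 58896045363) (nat_lit 0) (nat_lit 5565349888) (nat_lit 760) (nat_lit 2606305022) (nat_lit 85) (nat_lit 5) (nat_lit 84) (nat_lit 5) (nat_lit 94) (nat_lit 5) (nat_lit 322) (nat_lit 312) (nat_lit 146))) (XT.nd (nat_lit 78) (nat_lit 380) (nat_lit 0) (XT.lf (nat_lit 0) (nat_lit 1921838012) (nat_lit 760) (nat_lit 45038441336) (nat_lit 76) (nat_lit 21961134212) (nat_lit 75) (nat_lit 5) (nat_lit 85) (nat_lit 5) (nat_lit 76) (nat_lit 5) (nat_lit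 323) (nat_lit 312) (nat_lit 145)) (XT.nd (nat_lit 78) (nat_lit 380) (nat_lit 0) (XT.lf (nat_lit 0) (nat_lit 6819762356) (nat_lit 760) (nat_lit 13173932236) (nat_lit 76) (nat_lit 50860435673) (nat_lit 75) (nat_lit 5) (nat_lit 85) (nat_lit 5) (nat_lit 76) (nat_lit 5) (nat_lit 324) (nat_lit 312) (nat_lit 144)) (XT.lf (nat_lit 0) (nat_lit 12424122627) (nat_lit 456) (nat_lit 52048805115) (nat_lit 76) (nat_lit 8387480196) (nat_lit 70) (nat_lit 5) (nat_lit 76) (nat_lit 5) (nat_lit 71) (nat_lit 5) (nat_lit 325) (nat_lit 312) (nat_lit 143))))))))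
noncomputable def xc232 : XT := (XT.nd (nat_lit 1482) (nat_lit 1444) (nat_lit 0) (XT.nd (nat_lit 702) (nat_lit 1216) (nat_lit 0) (XT.nd (nat_lit 312) (nat_lit 608) (nat_lit 0) (XT.nd (nat_lit 156) (nat_lit 304) (nat_lit 0) (XT.nd (nat_lit 78) (nat_lit 380) (nat_lit 0) (XT.lf (nat_lit 0) (nat_lit 18862374428) (nat_lit 456) (nat_lit 18334317441) (nat_lit 76) (nat_lit 37742625968) (nat_lit 70) (nat_lit 5) (nat_lit 76) (nat_lit 5) (nat_lit 71) (nat_lit 5) (nat_lit 326) (nat_lit 312) (nat_lit 142)) (XT.lf (nat_lit 0) (nat_lit 17629349485) (nat_lit 380) (nat_lit 8267617290) (nat_lit 456) (nat_lit 51211486980) (nat_lit 65) (nat_lit 5) (nat_lit 70) (nat_lit 5) (nat_lit 71) (nat_lit 5) (nat_lit 327) (nat_lit 312) (nat_lit 141))) (XT.nd (nat_lit 78) (nat_lit 304) (nat_lit 0) (XT.lf (nat_lit 0) (nat_lit 33943257052) (nat_lit 456) (nat_lit 23693875194) (nat_lit 76) (nat_lit 21715917636) (nat_lit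 65) (nat_lit 5) (nat_lit 71) (nat_lit 5) (nat_lit 66) (nat_lit 5) (nat_lit 328) (nat_lit 312) (nat_lit 140)) (XT.lf (nat_lit 0) (nat_lit 14198745347) (nat_lit 304) (nat_lit 28549582128) (nat_lit 380) (nat_lit 38943726802) (nat_lit 61) (nat_lit 5) (nat_lit 65) (nat_lit 5) (nat_lit 66) (nat_lit 5) (nat_lit 329) (nat_lit 312) (nat_lit 139)))) (XT.nd (nat_lit 156) (nat_lit 304) (nat_lit 0) (XT.nd (nat_lit 78) (nat_lit 304) (nat_lit 0) (XT.lf (nat_lit 0) (nat_lit 52431874684) (nat_lit 380) (nat_lit 29357843533) (nat_lit 76) (nat_lit 2336381172) (nat_lit 61) (nat_lit 5) (nat_lit 66) (nat_lit 5) (nat_lit 62) (nat_lit 5) (nat_lit 330) (nat_lit 312) (nat_lit 138)) (XT.lf (nat_lit 0) (nat_lit 10553373025) (nat_lit 304) (nat_lit 52678326342) (nat_lit 380) (nat_lit 23418543965) (nat_lit 57) (nat_lit 5) (nat_lit 61) (nat_lit 5) (nat_lit 62) (nat_lit 5) (nat_lit 331) (nat_lit 312) (nat_lit 137)))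 (XT.nd (nat_lit 78) (nat_lit 304) (nat_lit 0) (XT.lf (nat_lit 0) (nat_lit 53478630853) (nat_lit 304) (nat_lit 21589401365) (nat_lit 380) (nat_lit 14207737912) (nat_lit 57) (nat_lit 5) (nat_lit 61) (nat_lit 5) (nat_lit 62) (nat_lit 5) (nat_lit 332) (nat_lit 312) (nat_lit 136)) (XT.nd (nat_lit 78) (nat_lit 76) (nat_lit 0) (XT.lf (nat_lit 0) (nat_lit 6554010416) (nat_lit 228) (nat_lit 81216439611) (nat_lit 304) (nat_lit 4248411259) (nat_lit 54) (nat_lit 5) (nat_lit 57) (nat_lit 5) (nat_lit 58) (nat_lit 5) (nat_lit 333) (nat_lit 312) (nat_lit 135)) (XT.lf (nat_lit 0) (nat_lit 6979629457) (nat_lit 304) (nat_lit 43064846332) (nat_lit 76) (nat_lit 44801312074) (nat_lit 53) (nat_lit 5) (nat_lit 57) (nat_lit 5) (nat_lit 54) (nat_lit 5) (nat_lit 334) (nat_lit 312) (nat_lit 134)))))) (XT.nd (nat_lit 390) (nat_lit 684) (nat_lit 0) (XT.nd (nat_lit 156) (nat_lit 228) (nat_lit 0) (XT.nd (nat_lit 78)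 (nat_lit 0) (nat_lit 0) (XT.lf (nat_lit 0) (nat_lit 1430572148) (nat_lit 304) (nat_lit 17217456866) (nat_lit 380) (nat_lit 79161464124) (nat_lit 49) (nat_lit 5) (nat_lit 53) (nat_lit 5) (nat_lit 54) (nat_lit 5) (nat_lit 335) (nat_lit 312) (nat_lit 133)) (XT.lf (nat_lit 0) (nat_lit 31909875397) (nat_lit 380) (nat_lit 51521077121) (nat_lit 76) (nat_lit 17439930996) (nat_lit 49) (nat_lit 5) (nat_lit 54) (nat_lit 5) (nat_lit 50) (nat_lit 5) (nat_lit 336) (nat_lit 312) (nat_lit 132))) (XT.nd (nat_lit 78) (nat_lit 228) (nat_lit 0) (XT.lf (nat_lit 0) (nat_lit 46116507116) (nat_lit 380) (nat_lit 4703303200) (nat_lit 76) (nat_lit 53251449566) (nat_lit 49) (nat_lit 5) (nat_lit 54) (nat_lit 5) (nat_lit 50) (nat_lit 5) (nat_lit 337) (nat_lit 312) (nat_lit 131)) (XT.nd (nat_lit 78) (nat_lit 0) (nat_lit 0) (XT.lf (nat_lit 0) (nat_lit 45924557045) (nat_lit 228) (nat_lit 15825390726) (nat_lit 304)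 (nat_lit 45645884501) (nat_lit 46) (nat_lit 5) (nat_lit 49) (nat_lit 5) (nat_lit 50) (nat_lit 5) (nat_lit 338) (nat_lit 312) (nat_lit 130)) (XT.lf (nat_lit 0) (nat_lit 78572098350) (nat_lit 304) (nat_lit 11964147161) (nat_lit 76) (nat_lit 20330036893) (nat_lit 46) (nat_lit 5) (nat_lit 50) (nat_lit 5) (nat_lit 47) (nat_lit 5) (nat_lit 339) (nat_lit 312) (nat_lit 129))))) (XT.nd (nat_lit 156) (nat_lit 456) (nat_lit 0) (XT.nd (nat_lit 78) (nat_lit 0) (nat_lit 0) (XT.lf (nat_lit 0) (nat_lit 41072835934) (nat_lit 228) (nat_lit 56062719125) (nat_lit 304) (nat_lit 17329691025) (nat_lit 43) (nat_lit 5) (nat_lit 46) (nat_lit 5) (nat_lit 47) (nat_lit 5) (nat_lit 340) (nat_lit 312) (nat_lit 128)) (XT.lf (nat_lit 0) (nat_lit 97176390945) (nat_lit 228) (nat_lit 19652929717) (nat_lit 304) (nat_lit 1404731406) (nat_lit 43) (nat_lit 5) (nat_lit 46) (nat_lit 5) (nat_lit 47) (nat_lit 5) (nat_lit 341)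 (nat_lit 312) (nat_lit 127))) (XT.nd (nat_lit 78) (nat_lit 228) (nat_lit 0) (XT.lf (nat_lit 0) (nat_lit 15671453407) (nat_lit 228) (nat_lit 87688269704) (nat_lit 76) (nat_lit 18777359419) (nat_lit 40) (nat_lit 5) (nat_lit 43) (nat_lit 5) (nat_lit 41) (nat_lit 5) (nat_lit 342) (nat_lit 312) (nat_lit 126)) (XT.nd (nat_lit 78) (nat_lit 228) (nat_lit 0) (XT.lf (nat_lit 0) (nat_lit 34238428427) (nat_lit 228) (nat_lit 33107444126) (nat_lit 76) (nat_lit 58854031883) (nat_lit 40) (nat_lit 5) (nat_lit 43) (nat_lit 5) (nat_lit 41) (nat_lit 5) (nat_lit 343) (nat_lit 312) (nat_lit 125)) (XT.lf (nat_lit 0) (nat_lit 25002032681) (nat_lit 228) (nat_lit 29121635162) (nat_lit 304) (nat_lit 76322704573) (nat_lit 37) (nat_lit 5) (nat_lit 40) (nat_lit 5) (nat_lit 41) (nat_lit 5) (nat_lit 344) (nat_lit 312) (nat_lit 124))))))) (XT.nd (nat_lit 780) (nat_lit 684) (nat_lit 0) (XT.nd (nat_lit 390) (nat_lit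 304) (nat_lit 0) (XT.nd (nat_lit 156) (nat_lit 304) (nat_lit 0) (XT.nd (nat_lit 78) (nat_lit 152) (nat_lit 0) (XT.lf (nat_lit 0) (nat_lit 75744580439) (nat_lit 304) (nat_lit 47892498972) (nat_lit 76) (nat_lit 11231014546) (nat_lit 37) (nat_lit 5) (nat_lit 41) (nat_lit 5) (nat_lit 38) (nat_lit 5) (nat_lit 345) (nat_lit 312) (nat_lit 123)) (XT.lf (nat_lit 0) (nat_lit 12457661923) (nat_lit 152) (nat_lit 86660372440) (nat_lit 228) (nat_lit 40359293118) (nat_lit 35) (nat_lit 5) (nat_lit 37) (nat_lit 5) (nat_lit 38) (nat_lit 5) (nat_lit 346) (nat_lit 312) (nat_lit 122))) (XT.nd (nat_lit 78) (nat_lit 304) (nat_lit 0) (XT.lf (nat_lit 0) (nat_lit 77487468785) (nat_lit 152) (nat_lit 46983377982) (nat_lit 228) (nat_lit 19805642283) (nat_lit 35) (nat_lit 5) (nat_lit 37) (nat_lit 5) (nat_lit 38) (nat_lit 5) (nat_lit 347) (nat_lit 312) (nat_lit 121)) (XT.nd (nat_lit 78) (nat_lit 228) (nat_lit 0)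 (XT.lf (nat_lit 0) (nat_lit 1718473123) (nat_lit 228) (nat_lit 3575133348) (nat_lit 76) (nat_lit 144020635884) (nat_lit 34) (nat_lit 5) (nat_lit 37) (nat_lit 5) (nat_lit 35) (nat_lit 5) (nat_lit 348) (nat_lit 312) (nat_lit 120)) (XT.lf (nat_lit 0) (nat_lit 25283106830) (nat_lit 304) (nat_lit 90620010116) (nat_lit 76) (nat_lit 38603037215) (nat_lit 31) (nat_lit 5) (nat_lit 35) (nat_lit 5) (nat_lit 32) (nat_lit 5) (nat_lit 349) (nat_lit 312) (nat_lit 119))))) (XT.nd (nat_lit 156) (nat_lit 152) (nat_lit 0) (XT.nd (nat_lit 78) (nat_lit 152) (nat_lit 0) (XT.lf (nat_lit 0) (nat_lit 50173931827) (nat_lit 304) (nat_lit 25198348457) (nat_lit 76) (nat_lit 84577983831) (nat_lit 31) (nat_lit 5) (nat_lit 35) (nat_lit 5) (nat_lit 32) (nat_lit 5) (nat_lit 350) (nat_lit 312) (nat_lit 118)) (XT.lf (nat_lit 0) (nat_lit 44931979180) (nat_lit 152) (nat_lit 32078490146) (nat_lit 228) (nat_lit 88621052195)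 (nat_lit 29) (nat_lit 5) (nat_lit 31) (nat_lit 5) (nat_lit 32) (nat_lit 5) (nat_lit 351) (nat_lit 312) (nat_lit 117))) (XT.nd (nat_lit 78) (nat_lit 152) (nat_lit 0) (XT.lf (nat_lit 0) (nat_lit 105831137575) (nat_lit 228) (nat_lit 52348273576) (nat_lit 76) (nat_lit 13385315942) (nat_lit 29) (nat_lit 5) (nat_lit 32) (nat_lit 5) (nat_lit 30) (nat_lit 5) (nat_lit 352) (nat_lit 312) (nat_lit 116)) (XT.nd (nat_lit 78) (nat_lit 0) (nat_lit 0) (XT.lf (nat_lit 0) (nat_lit 19518906673) (nat_lit 152) (nat_lit 117404233026) (nat_lit 228) (nat_lit 40829938689) (nat_lit 27) (nat_lit 5) (nat_lit 29) (nat_lit 5) (nat_lit 30) (nat_lit 5) (nat_lit 353) (nat_lit 312) (nat_lit 115)) (XT.lf (nat_lit 0) (nat_lit 96796365909) (nat_lit 152) (nat_lit 73659605691) (nat_lit 228) (nat_lit 13750564608) (nat_lit 27) (nat_lit 5) (nat_lit 29) (nat_lit 5) (nat_lit 30) (nat_lit 5) (nat_lit 354) (nat_lit 312) (nat_lit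 114)))))) (XT.nd (nat_lit 390) (nat_lit 304) (nat_lit 0) (XT.nd (nat_lit 156) (nat_lit 152) (nat_lit 0) (XT.nd (nat_lit 78) (nat_lit 152) (nat_lit 0) (XT.lf (nat_lit 0) (nat_lit 14212533535) (nat_lit 228) (nat_lit 13274688948) (nat_lit 76) (nat_lit 163483998076) (nat_lit 26) (nat_lit 5) (nat_lit 29) (nat_lit 5) (nat_lit 27) (nat_lit 5) (nat_lit 355) (nat_lit 312) (nat_lit 113)) (XT.lf (nat_lit 0) (nat_lit 44497634183) (nat_lit 228) (nat_lit 131890355407) (nat_lit 76) (nat_lit 21605581129) (nat_lit 24) (nat_lit 5) (nat_lit 27) (nat_lit 5) (nat_lit 25) (nat_lit 5) (nat_lit 356) (nat_lit 312) (nat_lit 112))) (XT.nd (nat_lit 78) (nat_lit 152) (nat_lit 0) (XT.lf (nat_lit 0) (nat_lit 76975813384) (nat_lit 228) (nat_lit 55899673804) (nat_lit 76) (nat_lit 72457610391) (nat_lit 24) (nat_lit 5) (nat_lit 27) (nat_lit 5) (nat_lit 25) (nat_lit 5) (nat_lit 357) (nat_lit 312) (nat_lit 111)) (XT.nd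 (nat_lit 78) (nat_lit 0) (nat_lit 0) (XT.lf (nat_lit 0) (nat_lit 24680016120) (nat_lit 152) (nat_lit 86782937806) (nat_lit 228) (nat_lit 101557394585) (nat_lit 22) (nat_lit 5) (nat_lit 24) (nat_lit 5) (nat_lit 25) (nat_lit 5) (nat_lit 358) (nat_lit 312) (nat_lit 110)) (XT.lf (nat_lit 0) (nat_lit 111228967689) (nat_lit 152) (nat_lit 37391906172) (nat_lit 228) (nat_lit 72423767340) (nat_lit 22) (nat_lit 5) (nat_lit 24) (nat_lit 5) (nat_lit 25) (nat_lit 5) (nat_lit 359) (nat_lit 312) (nat_lit 109))))) (XT.nd (nat_lit 156) (nat_lit 228) (nat_lit 0) (XT.nd (nat_lit 78) (nat_lit 76) (nat_lit 0) (XT.lf (nat_lit 0) (nat_lit 187862330891) (nat_lit 228) (nat_lit 27591101428) (nat_lit 76) (nat_lit 14005434469) (nat_lit 22) (nat_lit 5) (nat_lit 25) (nat_lit 5) (nat_lit 23) (nat_lit 4) (nat_lit 360) (nat_lit 312) (nat_lit 108)) (XT.lf (nat_lit 0) (nat_lit 60053397976) (nat_lit 76) (nat_lit 170562803374)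 (nat_lit 152) (nat_lit 7600085577) (nat_lit 21) (nat_lit 5) (nat_lit 22) (nat_lit 5) (nat_lit 23) (nat_lit 4) (nat_lit 361) (nat_lit 312) (nat_lit 107))) (XT.nd (nat_lit 78) (nat_lit 152) (nat_lit 0) (XT.lf (nat_lit 0) (nat_lit 27671620483) (nat_lit 152) (nat_lit 94796916684) (nat_lit 76) (nat_lit 124897373832) (nat_lit 20) (nat_lit 5) (nat_lit 22) (nat_lit 5) (nat_lit 21) (nat_lit 5) (nat_lit 362) (nat_lit 312) (nat_lit 106)) (XT.nd (nat_lit 78) (nat_lit 152) (nat_lit 0) (XT.lf (nat_lit 0) (nat_lit 64451268551) (nat_lit 152) (nat_lit 7387622865) (nat_lit 76) (nat_lit 185127907071) (nat_lit 20) (nat_lit 5) (nat_lit 22) (nat_lit 5) (nat_lit 21) (nat_lit 5) (nat_lit 363) (nat_lit 312) (nat_lit 105)) (XT.lf (nat_lit 0) (nat_lit 87182141497) (nat_lit 152) (nat_lit 17248695477) (nat_lit 228) (nat_lit 162548846725) (nat_lit 18) (nat_lit 5) (nat_lit 20) (nat_lit 5) (nat_lit 21) (nat_lit 5)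 (nat_lit 364) (nat_lit 312) (nat_lit 104))))))))
noncomputable def xc233 : XT := (XT.nd (nat_lit 37752) (nat_lit 0) (nat_lit 1368) (XT.nd (nat_lit 36972) (nat_lit 0) (nat_lit 4028) (XT.nd (nat_lit 36582) (nat_lit 0) (nat_lit 4864) (XT.nd (nat_lit 156) (nat_lit 0) (nat_lit 0) (XT.nd (nat_lit 78) (nat_lit 76) (nat_lit 0) (XT.lf (nat_lit 0) (nat_lit 147161951514) (nat_lit 228) (nat_lit 91378123568) (nat_lit 76) (nat_lit 38915509939) (nat_lit 18) (nat_lit 5) (nat_lit 21) (nat_lit 5) (nat_lit 19) (nat_lit 4) (nat_lit 365) (nat_lit 312) (nat_lit 103)) (XT.lf (nat_lit 0) (nat_lit 1218136171) (nat_lit 76) (nat_lit 191113062893) (nat_lit 152) (nat_lit 96109003707) (nat_lit 17) (nat_lit 5) (nat_lit 18) (nat_lit 5) (nat_lit 19) (nat_lit 4) (nat_lit 366) (nat_lit 312) (nat_lit 102))) (XT.nd (nat_lit 78) (nat_lit 0) (nat_lit 0) (XT.lf (nat_lit 0) (nat_lit 101616304402) (nat_lit 76) (nat_lit 139689935025)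 (nat_lit 152) (nat_lit 58590445674) (nat_lit 17) (nat_lit 5) (nat_lit 18) (nat_lit 5) (nat_lit 19) (nat_lit 4) (nat_lit 367) (nat_lit 312) (nat_lit 101)) (XT.lf (nat_lit 0) (nat_lit 207034050941) (nat_lit 76) (nat_lit 85695788197) (nat_lit 152) (nat_lit 19196162246) (nat_lit 17) (nat_lit 5) (nat_lit 18) (nat_lit 5) (nat_lit 19) (nat_lit 4) (nat_lit 368) (nat_lit 312) (nat_lit 100)))) (XT.nd (nat_lit 156) (nat_lit 0) (nat_lit 0) (XT.nd (nat_lit 78) (nat_lit 0) (nat_lit 0) (XT.lf (nat_lit 0) (nat_lit 8778653422) (nat_lit 0) (nat_lit 8778653422) (nat_lit 684) (nat_lit 9639652865) (nat_lit 81) (nat_lit 5) (nat_lit 81) (nat_lit 3) (nat_lit 90) (nat_lit 3) (nat_lit 313) (nat_lit 313) (nat_lit 154)) (XT.lf (nat_lit 0) (nat_lit 36119518612) (nat_lit 684) (nat_lit 13020769456) (nat_lit 760) (nat_lit 6607073450) (nat_lit 81) (nat_lit 5) (nat_lit 90) (nat_lit 3) (nat_lit 91) (nat_lit 5) (nat_lit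 314) (nat_lit 313) (nat_lit 153))) (XT.nd (nat_lit 78) (nat_lit 0) (nat_lit 0) (XT.lf (nat_lit 76) (nat_lit 12084072395) (nat_lit 0) (nat_lit 25565786971) (nat_lit 760) (nat_lit 19494860278) (nat_lit 82) (nat_lit 5) (nat_lit 81) (nat_lit 5) (nat_lit 91) (nat_lit 5) (nat_lit 315) (nat_lit 313) (nat_lit 152)) (XT.nd (nat_lit 78) (nat_lit 0) (nat_lit 76) (XT.lf (nat_lit 76) (nat_lit 38895485398) (nat_lit 0) (nat_lit 580495078) (nat_lit 760) (nat_lit 19125005321) (nat_lit 82) (nat_lit 5) (nat_lit 81) (nat_lit 5) (nat_lit 91) (nat_lit 5) (nat_lit 316) (nat_lit 313) (nat_lit 151)) (XT.lf (nat_lit 76) (nat_lit 6731565409) (nat_lit 0) (nat_lit 35166290260) (nat_lit 760) (nat_lit 18206990317) (nat_lit 83) (nat_lit 5) (nat_lit 82) (nat_lit 5) (nat_lit 92) (nat_lit 5) (nat_lit 317) (nat_lit 313) (nat_lit 150)))))) (XT.nd (nat_lit 390) (nat_lit 912) (nat_lit 0) (XT.nd (nat_lit 156) (nat_lit 0)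 (nat_lit 76) (XT.nd (nat_lit 78) (nat_lit 0) (nat_lit 76) (XT.lf (nat_lit 76) (nat_lit 35164037539) (nat_lit 0) (nat_lit 9618734373) (nat_lit 760) (nat_lit 16884032890) (nat_lit 83) (nat_lit 5) (nat_lit 82) (nat_lit 5) (nat_lit 92) (nat_lit 5) (nat_lit 318) (nat_lit 313) (nat_lit 149)) (XT.lf (nat_lit 76) (nat_lit 1489535389) (nat_lit 0) (nat_lit 46613213666) (nat_lit 760) (nat_lit 15189574586) (nat_lit 84) (nat_lit 5) (nat_lit 83) (nat_lit 5) (nat_lit 93) (nat_lit 5) (nat_lit 319) (nat_lit 313) (nat_lit 148))) (XT.nd (nat_lit 78) (nat_lit 0) (nat_lit 76) (XT.lf (nat_lit 76) (nat_lit 31637910199) (nat_lit 0) (nat_lit 20553754632) (nat_lit 760) (nat_lit 12777309308) (nat_lit 84) (nat_lit 5) (nat_lit 83) (nat_lit 5) (nat_lit 93) (nat_lit 5) (nat_lit 320) (nat_lit 313) (nat_lit 147)) (XT.nd (nat_lit 78) (nat_lit 0) (nat_lit 0) (XT.lf (nat_lit 0) (nat_lit 56590344202) (nat_lit 684) (nat_lit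 3542837121) (nat_lit 760) (nat_lit 6591012522) (nat_lit 84) (nat_lit 5) (nat_lit 93) (nat_lit 5) (nat_lit 94) (nat_lit 5) (nat_lit 321) (nat_lit 313) (nat_lit 146)) (XT.lf (nat_lit 76) (nat_lit 28302982460) (nat_lit 0) (nat_lit 33683872917) (nat_lit 760) (nat_lit 6541426721) (nat_lit 85) (nat_lit 5) (nat_lit 84) (nat_lit 5) (nat_lit 94) (nat_lit 5) (nat_lit 322) (nat_lit 313) (nat_lit 145))))) (XT.nd (nat_lit 156) (nat_lit 380) (nat_lit 0) (XT.nd (nat_lit 78) (nat_lit 684) (nat_lit 0) (XT.lf (nat_lit 76) (nat_lit 61863360349) (nat_lit 0) (nat_lit 5848926815) (nat_lit 760) (nat_lit 2707335181) (nat_lit 85) (nat_lit 5) (nat_lit 84) (nat_lit 5) (nat_lit 94) (nat_lit 5) (nat_lit 323) (nat_lit 313) (nat_lit 144)) (XT.lf (nat_lit 0) (nat_lit 2045223184) (nat_lit 760) (nat_lit 47265725296) (nat_lit 76) (nat_lit 23055105940) (nat_lit 75) (nat_lit 5) (nat_lit 85) (nat_lit 5) (nat_lit 76) (nat_lit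 5) (nat_lit 324) (nat_lit 313) (nat_lit 143))) (XT.nd (nat_lit 78) (nat_lit 380) (nat_lit 0) (XT.lf (nat_lit 0) (nat_lit 7186744065) (nat_lit 760) (nat_lit 13809163984) (nat_lit 76) (nat_lit 53399566997) (nat_lit 75) (nat_lit 5) (nat_lit 85) (nat_lit 5) (nat_lit 76) (nat_lit 5) (nat_lit 325) (nat_lit 313) (nat_lit 142)) (XT.nd (nat_lit 78) (nat_lit 0) (nat_lit 0) (XT.lf (nat_lit 0) (nat_lit 13070413312) (nat_lit 456) (nat_lit 54626812372) (nat_lit 76) (nat_lit 8804889327) (nat_lit 70) (nat_lit 5) (nat_lit 76) (nat_lit 5) (nat_lit 71) (nat_lit 5) (nat_lit 326) (nat_lit 313) (nat_lit 141)) (XT.lf (nat_lit 0) (nat_lit 19829383200) (nat_lit 456) (nat_lit 19227763790) (nat_lit 76) (nat_lit 39627885953) (nat_lit 70) (nat_lit 5) (nat_lit 76) (nat_lit 5) (nat_lit 71) (nat_lit 5) (nat_lit 327) (nat_lit 313) (nat_lit 140))))))) (XT.nd (nat_lit 780) (nat_lit 1064) (nat_lit 0) (XT.nd (nat_lit 390)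 (nat_lit 608) (nat_lit 0) (XT.nd (nat_lit 156) (nat_lit 608) (nat_lit 0) (XT.nd (nat_lit 78) (nat_lit 0) (nat_lit 0) (XT.lf (nat_lit 0) (nat_lit 18533711167) (nat_lit 380) (nat_lit 8681213818) (nat_lit 456) (nat_lit 53747742360) (nat_lit 65) (nat_lit 5) (nat_lit 70) (nat_lit 5) (nat_lit 71) (nat_lit 5) (nat_lit 328) (nat_lit 313) (nat_lit 139)) (XT.lf (nat_lit 0) (nat_lit 35662426099) (nat_lit 456) (nat_lit 24855610219) (nat_lit 76) (nat_lit 22801514698) (nat_lit 65) (nat_lit 5) (nat_lit 71) (nat_lit 5) (nat_lit 66) (nat_lit 5) (nat_lit 329) (nat_lit 313) (nat_lit 138))) (XT.nd (nat_lit 78) (nat_lit 304) (nat_lit 0) (XT.lf (nat_lit 0) (nat_lit 14931271048) (nat_lit 304) (nat_lit 29975783752) (nat_lit 380) (nat_lit 40868488025) (nat_lit 61) (nat_lit 5) (nat_lit 65) (nat_lit 5) (nat_lit 66) (nat_lit 5) (nat_lit 330) (nat_lit 313) (nat_lit 137)) (XT.nd (nat_lit 78) (nat_lit 304) (nat_lit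 0) (XT.lf (nat_lit 0) (nat_lit 55073783556) (nat_lit 380) (nat_lit 30803180801) (nat_lit 76) (nat_lit 2454377941) (nat_lit 61) (nat_lit 5) (nat_lit 66) (nat_lit 5) (nat_lit 62) (nat_lit 5) (nat_lit 331) (nat_lit 313) (nat_lit 136)) (XT.lf (nat_lit 0) (nat_lit 11103232797) (nat_lit 304) (nat_lit 55309745754) (nat_lit 380) (nat_lit 24568748137) (nat_lit 57) (nat_lit 5) (nat_lit 61) (nat_lit 5) (nat_lit 62) (nat_lit 5) (nat_lit 332) (nat_lit 313) (nat_lit 135))))) (XT.nd (nat_lit 156) (nat_lit 380) (nat_lit 0) (XT.nd (nat_lit 78) (nat_lit 228) (nat_lit 0) (XT.lf (nat_lit 0) (nat_lit 56173696796) (nat_lit 304) (nat_lit 22666493429) (nat_lit 380) (nat_lit 14898388592) (nat_lit 57) (nat_lit 5) (nat_lit 61) (nat_lit 5) (nat_lit 62) (nat_lit 5) (nat_lit 333) (nat_lit 313) (nat_lit 134)) (XT.lf (nat_lit 0) (nat_lit 6903431947) (nat_lit 228) (nat_lit 85273778302) (nat_lit 304) (nat_lit 4441642217)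 (nat_lit 54) (nat_lit 5) (nat_lit 57) (nat_lit 5) (nat_lit 58) (nat_lit 5) (nat_lit 334) (nat_lit 313) (nat_lit 133))) (XT.nd (nat_lit 78) (nat_lit 304) (nat_lit 0) (XT.lf (nat_lit 0) (nat_lit 7346301804) (nat_lit 304) (nat_lit 45196780751) (nat_lit 76) (nat_lit 47044073877) (nat_lit 53) (nat_lit 5) (nat_lit 57) (nat_lit 5) (nat_lit 54) (nat_lit 5) (nat_lit 335) (nat_lit 313) (nat_lit 132)) (XT.nd (nat_lit 78) (nat_lit 0) (nat_lit 0) (XT.lf (nat_lit 0) (nat_lit 1523064976) (nat_lit 304) (nat_lit 18074541250) (nat_lit 380) (nat_lit 83101468228) (nat_lit 49) (nat_lit 5) (nat_lit 53) (nat_lit 5) (nat_lit 54) (nat_lit 5) (nat_lit 336) (nat_lit 313) (nat_lit 131)) (XT.lf (nat_lit 0) (nat_lit 33521783367) (nat_lit 380) (nat_lit 54076370583) (nat_lit 76) (nat_lit 18315420123) (nat_lit 49) (nat_lit 5) (nat_lit 54) (nat_lit 5) (nat_lit 50) (nat_lit 5) (nat_lit 337) (nat_lit 313) (nat_lit 130))))))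 (XT.nd (nat_lit 390) (nat_lit 608) (nat_lit 0) (XT.nd (nat_lit 156) (nat_lit 228) (nat_lit 0) (XT.nd (nat_lit 78) (nat_lit 228) (nat_lit 0) (XT.lf (nat_lit 0) (nat_lit 48437965044) (nat_lit 380) (nat_lit 4918696556) (nat_lit 76) (nat_lit 55917348308) (nat_lit 49) (nat_lit 5) (nat_lit 54) (nat_lit 5) (nat_lit 50) (nat_lit 5) (nat_lit 338) (nat_lit 313) (nat_lit 129)) (XT.lf (nat_lit 0) (nat_lit 48240237801) (nat_lit 228) (nat_lit 16612399236) (nat_lit 304) (nat_lit 47912197406) (nat_lit 46) (nat_lit 5) (nat_lit 49) (nat_lit 5) (nat_lit 50) (nat_lit 5) (nat_lit 339) (nat_lit 313) (nat_lit 128))) (XT.nd (nat_lit 78) (nat_lit 228) (nat_lit 0) (XT.lf (nat_lit 0) (nat_lit 82515235082) (nat_lit 304) (nat_lit 12543139453) (nat_lit 76) (nat_lit 21350466973) (nat_lit 46) (nat_lit 5) (nat_lit 50) (nat_lit 5) (nat_lit 47) (nat_lit 5) (nat_lit 340) (nat_lit 313) (nat_lit 127)) (XT.nd (nat_lit 78)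 (nat_lit 0) (nat_lit 0) (XT.lf (nat_lit 0) (nat_lit 43145382877) (nat_lit 228) (nat_lit 58861084920) (nat_lit 304) (nat_lit 18181306769) (nat_lit 43) (nat_lit 5) (nat_lit 46) (nat_lit 5) (nat_lit 47) (nat_lit 5) (nat_lit 341) (nat_lit 313) (nat_lit 126)) (XT.lf (nat_lit 0) (nat_lit 102053215393) (nat_lit 228) (nat_lit 20631033193) (nat_lit 304) (nat_lit 1460807208) (nat_lit 43) (nat_lit 5) (nat_lit 46) (nat_lit 5) (nat_lit 47) (nat_lit 5) (nat_lit 342) (nat_lit 313) (nat_lit 125))))) (XT.nd (nat_lit 156) (nat_lit 380) (nat_lit 0) (XT.nd (nat_lit 78) (nat_lit 0) (nat_lit 0) (XT.lf (nat_lit 0) (nat_lit 16468440443) (nat_lit 228) (nat_lit 92053883943) (nat_lit 76) (nat_lit 19720918166) (nat_lit 40) (nat_lit 5) (nat_lit 43) (nat_lit 5) (nat_lit 41) (nat_lit 5) (nat_lit 343) (nat_lit 313) (nat_lit 124)) (XT.lf (nat_lit 0) (nat_lit 35963125435) (nat_lit 228) (nat_lit 34744912288) (nat_lit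 76) (nat_lit 61801200883) (nat_lit 40) (nat_lit 5) (nat_lit 43) (nat_lit 5) (nat_lit 41) (nat_lit 5) (nat_lit 344) (nat_lit 313) (nat_lit 123))) (XT.nd (nat_lit 78) (nat_lit 152) (nat_lit 0) (XT.lf (nat_lit 0) (nat_lit 26269749584) (nat_lit 228) (nat_lit 30572543900) (nat_lit 304) (nat_lit 80125754227) (nat_lit 37) (nat_lit 5) (nat_lit 40) (nat_lit 5) (nat_lit 41) (nat_lit 5) (nat_lit 345) (nat_lit 313) (nat_lit 122)) (XT.nd (nat_lit 78) (nat_lit 152) (nat_lit 0) (XT.lf (nat_lit 0) (nat_lit 79543736142) (nat_lit 304) (nat_lit 50269811703) (nat_lit 76) (nat_lit 11797334275) (nat_lit 37) (nat_lit 5) (nat_lit 41) (nat_lit 5) (nat_lit 38) (nat_lit 5) (nat_lit 346) (nat_lit 313) (nat_lit 121)) (XT.lf (nat_lit 0) (nat_lit 13097578008) (nat_lit 152) (nat_lit 90987982750) (nat_lit 228) (nat_lit 42365032624) (nat_lit 35) (nat_lit 5) (nat_lit 37) (nat_lit 5) (nat_lit 38) (nat_lit 5) (nat_lit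 347) (nat_lit 313) (nat_lit 120))))))))
noncomputable def xc234 : XT := (XT.nd (nat_lit 1482) (nat_lit 76) (nat_lit 0) (XT.nd (nat_lit 702) (nat_lit 608) (nat_lit 0) (XT.nd (nat_lit 312) (nat_lit 380) (nat_lit 0) (XT.nd (nat_lit 156) (nat_lit 228) (nat_lit 0) (XT.nd (nat_lit 78) (nat_lit 76) (nat_lit 0) (XT.lf (nat_lit 0) (nat_lit 81378064118) (nat_lit 152) (nat_lit 49327396107) (nat_lit 228) (nat_lit 20784281397) (nat_lit 35) (nat_lit 5) (nat_lit 37) (nat_lit 5) (nat_lit 38) (nat_lit 5) (nat_lit 348) (nat_lit 313) (nat_lit 119)) (XT.lf (nat_lit 0) (nat_lit 1815130448) (nat_lit 228) (nat_lit 3738069068) (nat_lit 76) (nat_lit 151226201653) (nat_lit 34) (nat_lit 5) (nat_lit 37) (nat_lit 5) (nat_lit 35) (nat_lit 5) (nat_lit 349) (nat_lit 313) (nat_lit 118))) (XT.nd (nat_lit 78) (nat_lit 0) (nat_lit 0) (XT.lf (nat_lit 0) (nat_lit 26557807366) (nat_lit 304) (nat_lit 95134985372) (nat_lit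 76) (nat_lit 40538126041) (nat_lit 31) (nat_lit 5) (nat_lit 35) (nat_lit 5) (nat_lit 32) (nat_lit 5) (nat_lit 350) (nat_lit 313) (nat_lit 117)) (XT.lf (nat_lit 0) (nat_lit 52692671461) (nat_lit 304) (nat_lit 26443003738) (nat_lit 76) (nat_lit 88811584895) (nat_lit 31) (nat_lit 5) (nat_lit 35) (nat_lit 5) (nat_lit 32) (nat_lit 5) (nat_lit 351) (nat_lit 313) (nat_lit 116)))) (XT.nd (nat_lit 156) (nat_lit 228) (nat_lit 0) (XT.nd (nat_lit 78) (nat_lit 0) (nat_lit 0) (XT.lf (nat_lit 0) (nat_lit 47193594118) (nat_lit 152) (nat_lit 33677197919) (nat_lit 228) (nat_lit 93041801241) (nat_lit 29) (nat_lit 5) (nat_lit 31) (nat_lit 5) (nat_lit 32) (nat_lit 5) (nat_lit 352) (nat_lit 313) (nat_lit 115)) (XT.lf (nat_lit 0) (nat_lit 111132104637) (nat_lit 228) (nat_lit 54950983588) (nat_lit 76) (nat_lit 14059391040) (nat_lit 29) (nat_lit 5) (nat_lit 32) (nat_lit 5) (nat_lit 30) (nat_lit 5) (nat_lit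 353) (nat_lit 313) (nat_lit 114))) (XT.nd (nat_lit 78) (nat_lit 76) (nat_lit 0) (XT.lf (nat_lit 0) (nat_lit 20509318518) (nat_lit 152) (nat_lit 123269166107) (nat_lit 228) (nat_lit 42861775262) (nat_lit 27) (nat_lit 5) (nat_lit 29) (nat_lit 5) (nat_lit 30) (nat_lit 5) (nat_lit 354) (nat_lit 313) (nat_lit 113)) (XT.nd (nat_lit 78) (nat_lit 76) (nat_lit 0) (XT.lf (nat_lit 0) (nat_lit 101649961834) (nat_lit 152) (nat_lit 77337558766) (nat_lit 228) (nat_lit 14428892495) (nat_lit 27) (nat_lit 5) (nat_lit 29) (nat_lit 5) (nat_lit 30) (nat_lit 5) (nat_lit 355) (nat_lit 313) (nat_lit 112)) (XT.lf (nat_lit 0) (nat_lit 14931641998) (nat_lit 228) (nat_lit 13925010148) (nat_lit 76) (nat_lit 171662694102) (nat_lit 26) (nat_lit 5) (nat_lit 29) (nat_lit 5) (nat_lit 27) (nat_lit 5) (nat_lit 356) (nat_lit 313) (nat_lit 111)))))) (XT.nd (nat_lit 390) (nat_lit 304) (nat_lit 0) (XT.nd (nat_lit 156) (nat_lit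 152) (nat_lit 0) (XT.nd (nat_lit 78) (nat_lit 0) (nat_lit 0) (XT.lf (nat_lit 0) (nat_lit 46730876530) (nat_lit 228) (nat_lit 138471328068) (nat_lit 76) (nat_lit 22690615913) (nat_lit 24) (nat_lit 5) (nat_lit 27) (nat_lit 5) (nat_lit 25) (nat_lit 5) (nat_lit 357) (nat_lit 313) (nat_lit 110)) (XT.lf (nat_lit 0) (nat_lit 80832566566) (nat_lit 228) (nat_lit 58681757390) (nat_lit 76) (nat_lit 76085020174) (nat_lit 24) (nat_lit 5) (nat_lit 27) (nat_lit 5) (nat_lit 25) (nat_lit 5) (nat_lit 358) (nat_lit 313) (nat_lit 109))) (XT.nd (nat_lit 78) (nat_lit 0) (nat_lit 0) (XT.lf (nat_lit 0) (nat_lit 25926708964) (nat_lit 152) (nat_lit 91117174161) (nat_lit 228) (nat_lit 106627084018) (nat_lit 22) (nat_lit 5) (nat_lit 24) (nat_lit 5) (nat_lit 25) (nat_lit 5) (nat_lit 359) (nat_lit 313) (nat_lit 108)) (XT.nd (nat_lit 78) (nat_lit 0) (nat_lit 0) (XT.lf (nat_lit 0) (nat_lit 116802503730) (nat_lit 152)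 (nat_lit 39256824780) (nat_lit 228) (nat_lit 76037164950) (nat_lit 22) (nat_lit 5) (nat_lit 24) (nat_lit 5) (nat_lit 25) (nat_lit 5) (nat_lit 360) (nat_lit 313) (nat_lit 107)) (XT.lf (nat_lit 0) (nat_lit 197262575028) (nat_lit 228) (nat_lit 28958852269) (nat_lit 76) (nat_lit 14710017637) (nat_lit 22) (nat_lit 5) (nat_lit 25) (nat_lit 5) (nat_lit 23) (nat_lit 4) (nat_lit 361) (nat_lit 313) (nat_lit 106))))) (XT.nd (nat_lit 156) (nat_lit 152) (nat_lit 0) (XT.nd (nat_lit 78) (nat_lit 76) (nat_lit 0) (XT.lf (nat_lit 0) (nat_lit 63067681714) (nat_lit 76) (nat_lit 179086299211) (nat_lit 152) (nat_lit 7972763478) (nat_lit 21) (nat_lit 5) (nat_lit 22) (nat_lit 5) (nat_lit 23) (nat_lit 4) (nat_lit 362) (nat_lit 313) (nat_lit 105)) (XT.lf (nat_lit 0) (nat_lit 29061955686) (nat_lit 152) (nat_lit 99525470781) (nat_lit 76) (nat_lit 131146434760) (nat_lit 20) (nat_lit 5) (nat_lit 22) (nat_lit 5)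 (nat_lit 21) (nat_lit 5) (nat_lit 363) (nat_lit 313) (nat_lit 104))) (XT.nd (nat_lit 78) (nat_lit 152) (nat_lit 0) (XT.lf (nat_lit 0) (nat_lit 67680264530) (nat_lit 152) (nat_lit 7746249973) (nat_lit 76) (nat_lit 194388295030) (nat_lit 20) (nat_lit 5) (nat_lit 22) (nat_lit 5) (nat_lit 21) (nat_lit 5) (nat_lit 364) (nat_lit 313) (nat_lit 103)) (XT.nd (nat_lit 78) (nat_lit 0) (nat_lit 0) (XT.lf (nat_lit 0) (nat_lit 91551829155) (nat_lit 152) (nat_lit 18106841099) (nat_lit 228) (nat_lit 170669676152) (nat_lit 18) (nat_lit 5) (nat_lit 20) (nat_lit 5) (nat_lit 21) (nat_lit 5) (nat_lit 365) (nat_lit 313) (nat_lit 102)) (XT.lf (nat_lit 0) (nat_lit 154526104707) (nat_lit 228) (nat_lit 95936710608) (nat_lit 76) (nat_lit 40865239600) (nat_lit 18) (nat_lit 5) (nat_lit 21) (nat_lit 5) (nat_lit 19) (nat_lit 4) (nat_lit 366) (nat_lit 313) (nat_lit 101))))))) (XT.nd (nat_lit 37206) (nat_lit 0) (nat_lit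 3344) (XT.nd (nat_lit 36816) (nat_lit 0) (nat_lit 4940) (XT.nd (nat_lit 36582) (nat_lit 0) (nat_lit 4864) (XT.nd (nat_lit 36504) (nat_lit 0) (nat_lit 4864) (XT.lf (nat_lit 0) (nat_lit 1289195680) (nat_lit 76) (nat_lit 200664489103) (nat_lit 152) (nat_lit 100908225574) (nat_lit 17) (nat_lit 5) (nat_lit 18) (nat_lit 5) (nat_lit 19) (nat_lit 4) (nat_lit 367) (nat_lit 313) (nat_lit 100)) (XT.lf (nat_lit 0) (nat_lit 9227663206) (nat_lit 0) (nat_lit 9227663206) (nat_lit 684) (nat_lit 10100420506) (nat_lit 81) (nat_lit 5) (nat_lit 81) (nat_lit 3) (nat_lit 90) (nat_lit 3) (nat_lit 314) (nat_lit 314) (nat_lit 152))) (XT.nd (nat_lit 78) (nat_lit 0) (nat_lit 0) (XT.lf (nat_lit 0) (nat_lit 37963583865) (nat_lit 684) (nat_lit 13650293222) (nat_lit 760) (nat_lit 6918846965) (nat_lit 81) (nat_lit 5) (nat_lit 90) (nat_lit 3) (nat_lit 91) (nat_lit 5) (nat_lit 315) (nat_lit 314) (nat_lit 151)) (XT.nd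 (nat_lit 78) (nat_lit 0) (nat_lit 0) (XT.lf (nat_lit 76) (nat_lit 12709443711) (nat_lit 0) (nat_lit 26859514655) (nat_lit 760) (nat_lit 20431070695) (nat_lit 82) (nat_lit 5) (nat_lit 81) (nat_lit 5) (nat_lit 91) (nat_lit 5) (nat_lit 316) (nat_lit 314) (nat_lit 150)) (XT.lf (nat_lit 76) (nat_lit 40860419378) (nat_lit 0) (nat_lit 624223009) (nat_lit 760) (nat_lit 20044557877) (nat_lit 82) (nat_lit 5) (nat_lit 81) (nat_lit 5) (nat_lit 91) (nat_lit 5) (nat_lit 317) (nat_lit 314) (nat_lit 149))))) (XT.nd (nat_lit 156) (nat_lit 0) (nat_lit 76) (XT.nd (nat_lit 78) (nat_lit 0) (nat_lit 0) (XT.lf (nat_lit 76) (nat_lit 7090009318) (nat_lit 0) (nat_lit 36936064641) (nat_lit 760) (nat_lit 19082260737) (nat_lit 83) (nat_lit 5) (nat_lit 82) (nat_lit 5) (nat_lit 92) (nat_lit 5) (nat_lit 318) (nat_lit 314) (nat_lit 148)) (XT.lf (nat_lit 76) (nat_lit 36943063833) (nat_lit 0) (nat_lit 10110585252) (nat_lit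 760) (nat_lit 17694825871) (nat_lit 83) (nat_lit 5) (nat_lit 82) (nat_lit 5) (nat_lit 92) (nat_lit 5) (nat_lit 319) (nat_lit 314) (nat_lit 147))) (XT.nd (nat_lit 78) (nat_lit 0) (nat_lit 0) (XT.lf (nat_lit 76) (nat_lit 1586311499) (nat_lit 0) (nat_lit 48951988095) (nat_lit 760) (nat_lit 15917040379) (nat_lit 84) (nat_lit 5) (nat_lit 83) (nat_lit 5) (nat_lit 93) (nat_lit 5) (nat_lit 320) (nat_lit 314) (nat_lit 146)) (XT.nd (nat_lit 78) (nat_lit 0) (nat_lit 76) (XT.lf (nat_lit 76) (nat_lit 33241043175) (nat_lit 0) (nat_lit 21589169741) (nat_lit 760) (nat_lit 13385686262) (nat_lit 84) (nat_lit 5) (nat_lit 83) (nat_lit 5) (nat_lit 93) (nat_lit 5) (nat_lit 321) (nat_lit 314) (nat_lit 145)) (XT.lf (nat_lit 0) (nat_lit 59447332077) (nat_lit 684) (nat_lit 3698186806) (nat_lit 760) (nat_lit 6913439288) (nat_lit 84) (nat_lit 5) (nat_lit 93) (nat_lit 5) (nat_lit 94) (nat_lit 5) (nat_lit 322) (nat_lit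 314) (nat_lit 144)))))) (XT.nd (nat_lit 390) (nat_lit 684) (nat_lit 0) (XT.nd (nat_lit 156) (nat_lit 1064) (nat_lit 0) (XT.nd (nat_lit 78) (nat_lit 0) (nat_lit 0) (XT.lf (nat_lit 76) (nat_lit 29739572267) (nat_lit 0) (nat_lit 35373123165) (nat_lit 760) (nat_lit 6840607493) (nat_lit 85) (nat_lit 5) (nat_lit 84) (nat_lit 5) (nat_lit 94) (nat_lit 5) (nat_lit 323) (nat_lit 314) (nat_lit 143)) (XT.lf (nat_lit 76) (nat_lit 64976948067) (nat_lit 0) (nat_lit 6146188968) (nat_lit 760) (nat_lit 2816139498) (nat_lit 85) (nat_lit 5) (nat_lit 84) (nat_lit 5) (nat_lit 94) (nat_lit 5) (nat_lit 324) (nat_lit 314) (nat_lit 142))) (XT.nd (nat_lit 78) (nat_lit 380) (nat_lit 0) (XT.lf (nat_lit 0) (nat_lit 2172240144) (nat_lit 760) (nat_lit 49606664071) (nat_lit 76) (nat_lit 24204156037) (nat_lit 75) (nat_lit 5) (nat_lit 85) (nat_lit 5) (nat_lit 76) (nat_lit 5) (nat_lit 325) (nat_lit 314) (nat_lit 141))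 (XT.nd (nat_lit 78) (nat_lit 380) (nat_lit 0) (XT.lf (nat_lit 0) (nat_lit 7569658222) (nat_lit 760) (nat_lit 14478338860) (nat_lit 76) (nat_lit 56066016585) (nat_lit 75) (nat_lit 5) (nat_lit 85) (nat_lit 5) (nat_lit 76) (nat_lit 5) (nat_lit 326) (nat_lit 314) (nat_lit 140)) (XT.lf (nat_lit 0) (nat_lit 13746686407) (nat_lit 456) (nat_lit 57335991540) (nat_lit 76) (nat_lit 9243351590) (nat_lit 70) (nat_lit 5) (nat_lit 76) (nat_lit 5) (nat_lit 71) (nat_lit 5) (nat_lit 327) (nat_lit 314) (nat_lit 139))))) (XT.nd (nat_lit 156) (nat_lit 304) (nat_lit 0) (XT.nd (nat_lit 78) (nat_lit 380) (nat_lit 0) (XT.lf (nat_lit 0) (nat_lit 20842521341) (nat_lit 456) (nat_lit 20168045837) (nat_lit 76) (nat_lit 41607582914) (nat_lit 70) (nat_lit 5) (nat_lit 76) (nat_lit 5) (nat_lit 71) (nat_lit 5) (nat_lit 328) (nat_lit 314) (nat_lit 138)) (XT.lf (nat_lit 0) (nat_lit 19481162447) (nat_lit 380) (nat_lit 9115470123)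 (nat_lit 456) (nat_lit 56413071457) (nat_lit 65) (nat_lit 5) (nat_lit 70) (nat_lit 5) (nat_lit 71) (nat_lit 5) (nat_lit 329) (nat_lit 314) (nat_lit 137))) (XT.nd (nat_lit 78) (nat_lit 304) (nat_lit 0) (XT.lf (nat_lit 0) (nat_lit 37465507672) (nat_lit 456) (nat_lit 26077566480) (nat_lit 76) (nat_lit 23941410097) (nat_lit 65) (nat_lit 5) (nat_lit 71) (nat_lit 5) (nat_lit 66) (nat_lit 5) (nat_lit 330) (nat_lit 314) (nat_lit 136)) (XT.nd (nat_lit 78) (nat_lit 0) (nat_lit 0) (XT.lf (nat_lit 0) (nat_lit 15698322975) (nat_lit 304) (nat_lit 31473414225) (nat_lit 380) (nat_lit 42891572184) (nat_lit 61) (nat_lit 5) (nat_lit 65) (nat_lit 5) (nat_lit 66) (nat_lit 5) (nat_lit 331) (nat_lit 314) (nat_lit 135)) (XT.lf (nat_lit 0) (nat_lit 57845899163) (nat_lit 380) (nat_lit 32322881873) (nat_lit 76) (nat_lit 2578165055) (nat_lit 61) (nat_lit 5) (nat_lit 66) (nat_lit 5) (nat_lit 62) (nat_lit 5) (nat_lit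 332) (nat_lit 314) (nat_lit 134))))))))
noncomputable def xc235 : XT := (XT.nd (nat_lit 1560) (nat_lit 988) (nat_lit 0) (XT.nd (nat_lit 780) (nat_lit 912) (nat_lit 0) (XT.nd (nat_lit 390) (nat_lit 456) (nat_lit 0) (XT.nd (nat_lit 156) (nat_lit 608) (nat_lit 0) (XT.nd (nat_lit 78) (nat_lit 0) (nat_lit 0) (XT.lf (nat_lit 0) (nat_lit 11678522437) (nat_lit 304) (nat_lit 58072968276) (nat_lit 380) (nat_lit 25778389148) (nat_lit 57) (nat_lit 5) (nat_lit 61) (nat_lit 5) (nat_lit 62) (nat_lit 5) (nat_lit 333) (nat_lit 314) (nat_lit 133)) (XT.lf (nat_lit 0) (nat_lit 59001551161) (nat_lit 304) (nat_lit 23797661181) (nat_lit 380) (nat_lit 15625406693) (nat_lit 57) (nat_lit 5) (nat_lit 61) (nat_lit 5) (nat_lit 62) (nat_lit 5) (nat_lit 334) (nat_lit 314) (nat_lit 132))) (XT.nd (nat_lit 78) (nat_lit 380) (nat_lit 0) (XT.lf (nat_lit 0) (nat_lit 7268305141) (nat_lit 228) (nat_lit 89534307770) (nat_lit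 304) (nat_lit 4646318790) (nat_lit 54) (nat_lit 5) (nat_lit 57) (nat_lit 5) (nat_lit 58) (nat_lit 5) (nat_lit 335) (nat_lit 314) (nat_lit 131)) (XT.nd (nat_lit 78) (nat_lit 304) (nat_lit 0) (XT.lf (nat_lit 0) (nat_lit 7729663039) (nat_lit 304) (nat_lit 47437292898) (nat_lit 76) (nat_lit 49398723102) (nat_lit 53) (nat_lit 5) (nat_lit 57) (nat_lit 5) (nat_lit 54) (nat_lit 5) (nat_lit 336) (nat_lit 314) (nat_lit 130)) (XT.lf (nat_lit 0) (nat_lit 1618233392) (nat_lit 304) (nat_lit 18974832068) (nat_lit 380) (nat_lit 87240152430) (nat_lit 49) (nat_lit 5) (nat_lit 53) (nat_lit 5) (nat_lit 54) (nat_lit 5) (nat_lit 337) (nat_lit 314) (nat_lit 129))))) (XT.nd (nat_lit 156) (nat_lit 456) (nat_lit 0) (XT.nd (nat_lit 78) (nat_lit 0) (nat_lit 0) (XT.lf (nat_lit 0) (nat_lit 35212760699) (nat_lit 380) (nat_lit 56761358823) (nat_lit 76) (nat_lit 19234358998) (nat_lit 49) (nat_lit 5) (nat_lit 54) (nat_lit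 5) (nat_lit 50) (nat_lit 5) (nat_lit 338) (nat_lit 314) (nat_lit 128)) (XT.lf (nat_lit 0) (nat_lit 50874042499) (nat_lit 380) (nat_lit 5146697775) (nat_lit 76) (nat_lit 58716232742) (nat_lit 49) (nat_lit 5) (nat_lit 54) (nat_lit 5) (nat_lit 50) (nat_lit 5) (nat_lit 339) (nat_lit 314) (nat_lit 127))) (XT.nd (nat_lit 78) (nat_lit 228) (nat_lit 0) (XT.lf (nat_lit 0) (nat_lit 50669894048) (nat_lit 228) (nat_lit 17439154322) (nat_lit 304) (nat_lit 50293311748) (nat_lit 46) (nat_lit 5) (nat_lit 49) (nat_lit 5) (nat_lit 50) (nat_lit 5) (nat_lit 340) (nat_lit 314) (nat_lit 126)) (XT.nd (nat_lit 78) (nat_lit 228) (nat_lit 0) (XT.lf (nat_lit 0) (nat_lit 86654177619) (nat_lit 304) (nat_lit 13152867794) (nat_lit 76) (nat_lit 22421553346) (nat_lit 46) (nat_lit 5) (nat_lit 50) (nat_lit 5) (nat_lit 47) (nat_lit 5) (nat_lit 341) (nat_lit 314) (nat_lit 125)) (XT.lf (nat_lit 0) (nat_lit 45319799545)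 (nat_lit 228) (nat_lit 61799812490) (nat_lit 304) (nat_lit 19076885661) (nat_lit 43) (nat_lit 5) (nat_lit 46) (nat_lit 5) (nat_lit 47) (nat_lit 5) (nat_lit 342) (nat_lit 314) (nat_lit 124)))))) (XT.nd (nat_lit 390) (nat_lit 456) (nat_lit 0) (XT.nd (nat_lit 156) (nat_lit 228) (nat_lit 0) (XT.nd (nat_lit 78) (nat_lit 228) (nat_lit 0) (XT.lf (nat_lit 0) (nat_lit 107172207138) (nat_lit 228) (nat_lit 21658464209) (nat_lit 304) (nat_lit 1521003333) (nat_lit 43) (nat_lit 5) (nat_lit 46) (nat_lit 5) (nat_lit 47) (nat_lit 5) (nat_lit 343) (nat_lit 314) (nat_lit 123)) (XT.lf (nat_lit 0) (nat_lit 17304029690) (nat_lit 228) (nat_lit 96639526670) (nat_lit 76) (nat_lit 20711218745) (nat_lit 40) (nat_lit 5) (nat_lit 43) (nat_lit 5) (nat_lit 41) (nat_lit 5) (nat_lit 344) (nat_lit 314) (nat_lit 122))) (XT.nd (nat_lit 78) (nat_lit 228) (nat_lit 0) (XT.lf (nat_lit 0) (nat_lit 37772869540) (nat_lit 228)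 (nat_lit 36465918407) (nat_lit 76) (nat_lit 64895312995) (nat_lit 40) (nat_lit 5) (nat_lit 43) (nat_lit 5) (nat_lit 41) (nat_lit 5) (nat_lit 345) (nat_lit 314) (nat_lit 121)) (XT.nd (nat_lit 78) (nat_lit 0) (nat_lit 0) (XT.lf (nat_lit 0) (nat_lit 27599214632) (nat_lit 228) (nat_lit 32096479013) (nat_lit 304) (nat_lit 84120172937) (nat_lit 37) (nat_lit 5) (nat_lit 40) (nat_lit 5) (nat_lit 41) (nat_lit 5) (nat_lit 346) (nat_lit 314) (nat_lit 120)) (XT.lf (nat_lit 0) (nat_lit 83531740800) (nat_lit 304) (nat_lit 52767599596) (nat_lit 76) (nat_lit 12391526613) (nat_lit 37) (nat_lit 5) (nat_lit 41) (nat_lit 5) (nat_lit 38) (nat_lit 5) (nat_lit 347) (nat_lit 314) (nat_lit 119))))) (XT.nd (nat_lit 156) (nat_lit 304) (nat_lit 0) (XT.nd (nat_lit 78) (nat_lit 0) (nat_lit 0) (XT.lf (nat_lit 0) (nat_lit 13767906331) (nat_lit 152) (nat_lit 95532476388) (nat_lit 228) (nat_lit 44472195684) (nat_lit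 35) (nat_lit 5) (nat_lit 37) (nat_lit 5) (nat_lit 38) (nat_lit 5) (nat_lit 348) (nat_lit 314) (nat_lit 118)) (XT.lf (nat_lit 0) (nat_lit 85461681060) (nat_lit 152) (nat_lit 51789094008) (nat_lit 228) (nat_lit 21812934923) (nat_lit 35) (nat_lit 5) (nat_lit 37) (nat_lit 5) (nat_lit 38) (nat_lit 5) (nat_lit 349) (nat_lit 314) (nat_lit 117))) (XT.nd (nat_lit 78) (nat_lit 228) (nat_lit 0) (XT.lf (nat_lit 0) (nat_lit 1915622723) (nat_lit 228) (nat_lit 3910622456) (nat_lit 76) (nat_lit 158791624185) (nat_lit 34) (nat_lit 5) (nat_lit 37) (nat_lit 5) (nat_lit 35) (nat_lit 5) (nat_lit 350) (nat_lit 314) (nat_lit 116)) (XT.nd (nat_lit 78) (nat_lit 0) (nat_lit 0) (XT.lf (nat_lit 0) (nat_lit 27895262537) (nat_lit 304) (nat_lit 99877199267) (nat_lit 76) (nat_lit 42569510317) (nat_lit 31) (nat_lit 5) (nat_lit 35) (nat_lit 5) (nat_lit 32) (nat_lit 5) (nat_lit 351) (nat_lit 314) (nat_lit 115)) (XT.lf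 (nat_lit 0) (nat_lit 55336414370) (nat_lit 304) (nat_lit 27751310712) (nat_lit 76) (nat_lit 93256428876) (nat_lit 31) (nat_lit 5) (nat_lit 35) (nat_lit 5) (nat_lit 32) (nat_lit 5) (nat_lit 352) (nat_lit 314) (nat_lit 114))))))) (XT.nd (nat_lit 780) (nat_lit 304) (nat_lit 0) (XT.nd (nat_lit 390) (nat_lit 304) (nat_lit 0) (XT.nd (nat_lit 156) (nat_lit 228) (nat_lit 0) (XT.nd (nat_lit 78) (nat_lit 0) (nat_lit 0) (XT.lf (nat_lit 0) (nat_lit 49566893759) (nat_lit 152) (nat_lit 35356326083) (nat_lit 228) (nat_lit 97684545667) (nat_lit 29) (nat_lit 5) (nat_lit 31) (nat_lit 5) (nat_lit 32) (nat_lit 5) (nat_lit 353) (nat_lit 314) (nat_lit 113)) (XT.lf (nat_lit 0) (nat_lit 116697245182) (nat_lit 228) (nat_lit 57685196108) (nat_lit 76) (nat_lit 14766722771) (nat_lit 29) (nat_lit 5) (nat_lit 32) (nat_lit 5) (nat_lit 30) (nat_lit 5) (nat_lit 354) (nat_lit 314) (nat_lit 112))) (XT.nd (nat_lit 78)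 (nat_lit 76) (nat_lit 0) (XT.lf (nat_lit 0) (nat_lit 21547905996) (nat_lit 152) (nat_lit 129427836594) (nat_lit 228) (nat_lit 44996101793) (nat_lit 27) (nat_lit 5) (nat_lit 29) (nat_lit 5) (nat_lit 30) (nat_lit 5) (nat_lit 355) (nat_lit 314) (nat_lit 111)) (XT.nd (nat_lit 78) (nat_lit 76) (nat_lit 0) (XT.lf (nat_lit 0) (nat_lit 106744956642) (nat_lit 152) (nat_lit 81199876878) (nat_lit 228) (nat_lit 15141992136) (nat_lit 27) (nat_lit 5) (nat_lit 29) (nat_lit 5) (nat_lit 30) (nat_lit 5) (nat_lit 356) (nat_lit 314) (nat_lit 110)) (XT.lf (nat_lit 0) (nat_lit 15685917328) (nat_lit 228) (nat_lit 14609094444) (nat_lit 76) (nat_lit 180249906923) (nat_lit 26) (nat_lit 5) (nat_lit 29) (nat_lit 5) (nat_lit 27) (nat_lit 5) (nat_lit 357) (nat_lit 314) (nat_lit 109))))) (XT.nd (nat_lit 156) (nat_lit 152) (nat_lit 0) (XT.nd (nat_lit 78) (nat_lit 0) (nat_lit 0) (XT.lf (nat_lit 0) (nat_lit 49075003701)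 (nat_lit 228) (nat_lit 145382608657) (nat_lit 76) (nat_lit 23829460293) (nat_lit 24) (nat_lit 5) (nat_lit 27) (nat_lit 5) (nat_lit 25) (nat_lit 5) (nat_lit 358) (nat_lit 314) (nat_lit 108)) (XT.lf (nat_lit 0) (nat_lit 84881417127) (nat_lit 228) (nat_lit 61604144484) (nat_lit 76) (nat_lit 79893379358) (nat_lit 24) (nat_lit 5) (nat_lit 27) (nat_lit 5) (nat_lit 25) (nat_lit 5) (nat_lit 359) (nat_lit 314) (nat_lit 107))) (XT.nd (nat_lit 78) (nat_lit 0) (nat_lit 0) (XT.lf (nat_lit 0) (nat_lit 27234556466) (nat_lit 152) (nat_lit 95668578868) (nat_lit 228) (nat_lit 111951018450) (nat_lit 22) (nat_lit 5) (nat_lit 24) (nat_lit 5) (nat_lit 25) (nat_lit 5) (nat_lit 360) (nat_lit 314) (nat_lit 106)) (XT.nd (nat_lit 78) (nat_lit 0) (nat_lit 0) (XT.lf (nat_lit 0) (nat_lit 122653592776) (nat_lit 152) (nat_lit 41215424114) (nat_lit 228) (nat_lit 79831956750) (nat_lit 22) (nat_lit 5) (nat_lit 24) (nat_lit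 5) (nat_lit 25) (nat_lit 5) (nat_lit 361) (nat_lit 314) (nat_lit 105)) (XT.lf (nat_lit 0) (nat_lit 207132168716) (nat_lit 228) (nat_lit 30396088097) (nat_lit 76) (nat_lit 15449429126) (nat_lit 22) (nat_lit 5) (nat_lit 25) (nat_lit 5) (nat_lit 23) (nat_lit 4) (nat_lit 362) (nat_lit 314) (nat_lit 104)))))) (XT.nd (nat_lit 36894) (nat_lit 0) (nat_lit 4788) (XT.nd (nat_lit 156) (nat_lit 152) (nat_lit 0) (XT.nd (nat_lit 78) (nat_lit 76) (nat_lit 0) (XT.lf (nat_lit 0) (nat_lit 66231599895) (nat_lit 76) (nat_lit 188036401625) (nat_lit 152) (nat_lit 8364756412) (nat_lit 21) (nat_lit 5) (nat_lit 22) (nat_lit 5) (nat_lit 23) (nat_lit 4) (nat_lit 363) (nat_lit 314) (nat_lit 103)) (XT.lf (nat_lit 0) (nat_lit 30521179710) (nat_lit 152) (nat_lit 104491502381) (nat_lit 76) (nat_lit 137707558979) (nat_lit 20) (nat_lit 5) (nat_lit 22) (nat_lit 5) (nat_lit 21) (nat_lit 5) (nat_lit 364) (nat_lit 314)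 (nat_lit 102))) (XT.nd (nat_lit 78) (nat_lit 152) (nat_lit 0) (XT.lf (nat_lit 0) (nat_lit 71070112270) (nat_lit 152) (nat_lit 8123808244) (nat_lit 76) (nat_lit 204111331192) (nat_lit 20) (nat_lit 5) (nat_lit 22) (nat_lit 5) (nat_lit 21) (nat_lit 5) (nat_lit 365) (nat_lit 314) (nat_lit 101)) (XT.nd (nat_lit 78) (nat_lit 0) (nat_lit 0) (XT.lf (nat_lit 0) (nat_lit 96139017514) (nat_lit 152) (nat_lit 19008292767) (nat_lit 228) (nat_lit 179197161856) (nat_lit 18) (nat_lit 5) (nat_lit 20) (nat_lit 5) (nat_lit 21) (nat_lit 5) (nat_lit 366) (nat_lit 314) (nat_lit 100)) (XT.lf (nat_lit 0) (nat_lit 162257902565) (nat_lit 228) (nat_lit 100724186375) (nat_lit 76) (nat_lit 42912088123) (nat_lit 18) (nat_lit 5) (nat_lit 21) (nat_lit 5) (nat_lit 19) (nat_lit 4) (nat_lit 367) (nat_lit 314) (nat_lit 99))))) (XT.nd (nat_lit 156) (nat_lit 0) (nat_lit 0) (XT.nd (nat_lit 78) (nat_lit 0) (nat_lit 0) (XT.lf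 (nat_lit 0) (nat_lit 9698186605) (nat_lit 0) (nat_lit 9698186605) (nat_lit 684) (nat_lit 10586198899) (nat_lit 81) (nat_lit 5) (nat_lit 81) (nat_lit 3) (nat_lit 90) (nat_lit 3) (nat_lit 315) (nat_lit 315) (nat_lit 150)) (XT.lf (nat_lit 0) (nat_lit 39896311196) (nat_lit 684) (nat_lit 14313293409) (nat_lit 760) (nat_lit 7247936563) (nat_lit 81) (nat_lit 5) (nat_lit 90) (nat_lit 3) (nat_lit 91) (nat_lit 5) (nat_lit 316) (nat_lit 315) (nat_lit 149))) (XT.nd (nat_lit 78) (nat_lit 0) (nat_lit 0) (XT.lf (nat_lit 76) (nat_lit 13364115621) (nat_lit 0) (nat_lit 28216493414) (nat_lit 760) (nat_lit 21417674029) (nat_lit 82) (nat_lit 5) (nat_lit 81) (nat_lit 5) (nat_lit 91) (nat_lit 5) (nat_lit 317) (nat_lit 315) (nat_lit 148)) (XT.nd (nat_lit 78) (nat_lit 0) (nat_lit 76) (XT.lf (nat_lit 76) (nat_lit 42921725799) (nat_lit 0) (nat_lit 668770374) (nat_lit 760) (nat_lit 21013499865) (nat_lit 82) (nat_lit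 5) (nat_lit 81) (nat_lit 5) (nat_lit 91) (nat_lit 5) (nat_lit 318) (nat_lit 315) (nat_lit 147)) (XT.lf (nat_lit 76) (nat_lit 7464342563) (nat_lit 0) (nat_lit 38793262312) (nat_lit 760) (nat_lit 20004556000) (nat_lit 83) (nat_lit 5) (nat_lit 82) (nat_lit 5) (nat_lit 92) (nat_lit 5) (nat_lit 319) (nat_lit 315) (nat_lit 146))))))))
noncomputable def xc236 : XT := (XT.nd (nat_lit 1482) (nat_lit 1748) (nat_lit 0) (XT.nd (nat_lit 702) (nat_lit 1596) (nat_lit 0) (XT.nd (nat_lit 312) (nat_lit 912) (nat_lit 0) (XT.nd (nat_lit 156) (nat_lit 0) (nat_lit 76) (XT.nd (nat_lit 78) (nat_lit 0) (nat_lit 76) (XT.lf (nat_lit 76) (nat_lit 38809105386) (nat_lit 0) (nat_lit 10626013980) (nat_lit 760) (nat_lit 18549264523) (nat_lit 83) (nat_lit 5) (nat_lit 82) (nat_lit 5) (nat_lit 92) (nat_lit 5) (nat_lit 320) (nat_lit 315) (nat_lit 145)) (XT.lf (nat_lit 76) (nat_lit 1685853233) (nat_lit 0) (nat_lit 51406946907)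 (nat_lit 760) (nat_lit 16683855721) (nat_lit 84) (nat_lit 5) (nat_lit 83) (nat_lit 5) (nat_lit 93) (nat_lit 5) (nat_lit 321) (nat_lit 315) (nat_lit 144))) (XT.nd (nat_lit 78) (nat_lit 0) (nat_lit 76) (XT.lf (nat_lit 76) (nat_lit 34922358343) (nat_lit 0) (nat_lit 22675637187) (nat_lit 760) (nat_lit 14027316597) (nat_lit 84) (nat_lit 5) (nat_lit 83) (nat_lit 5) (nat_lit 93) (nat_lit 5) (nat_lit 322) (nat_lit 315) (nat_lit 143)) (XT.lf (nat_lit 0) (nat_lit 62444615384) (nat_lit 684) (nat_lit 3863330005) (nat_lit 760) (nat_lit 7252649702) (nat_lit 84) (nat_lit 5) (nat_lit 93) (nat_lit 5) (nat_lit 94) (nat_lit 5) (nat_lit 323) (nat_lit 315) (nat_lit 142)))) (XT.nd (nat_lit 156) (nat_lit 1064) (nat_lit 0) (XT.nd (nat_lit 78) (nat_lit 0) (nat_lit 0) (XT.lf (nat_lit 76) (nat_lit 31245998214) (nat_lit 0) (nat_lit 37146365811) (nat_lit 760) (nat_lit 7157340304) (nat_lit 85) (nat_lit 5) (nat_lit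 84) (nat_lit 5) (nat_lit 94) (nat_lit 5) (nat_lit 324) (nat_lit 315) (nat_lit 141)) (XT.lf (nat_lit 76) (nat_lit 68244316739) (nat_lit 0) (nat_lit 6457866500) (nat_lit 760) (nat_lit 2932853555) (nat_lit 85) (nat_lit 5) (nat_lit 84) (nat_lit 5) (nat_lit 94) (nat_lit 5) (nat_lit 325) (nat_lit 315) (nat_lit 140))) (XT.nd (nat_lit 78) (nat_lit 380) (nat_lit 0) (XT.lf (nat_lit 0) (nat_lit 2303306393) (nat_lit 760) (nat_lit 52066727443) (nat_lit 76) (nat_lit 25411003114) (nat_lit 75) (nat_lit 5) (nat_lit 85) (nat_lit 5) (nat_lit 76) (nat_lit 5) (nat_lit 326) (nat_lit 315) (nat_lit 139)) (XT.nd (nat_lit 78) (nat_lit 380) (nat_lit 0) (XT.lf (nat_lit 0) (nat_lit 7969526126) (nat_lit 760) (nat_lit 15182951202) (nat_lit 76) (nat_lit 58866116724) (nat_lit 75) (nat_lit 5) (nat_lit 85) (nat_lit 5) (nat_lit 76) (nat_lit 5) (nat_lit 327) (nat_lit 315) (nat_lit 138)) (XT.lf (nat_lit 0) (nat_lit 14454657851)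 (nat_lit 456) (nat_lit 60182690028) (nat_lit 76) (nat_lit 9703902658) (nat_lit 70) (nat_lit 5) (nat_lit 76) (nat_lit 5) (nat_lit 71) (nat_lit 5) (nat_lit 328) (nat_lit 315) (nat_lit 137)))))) (XT.nd (nat_lit 390) (nat_lit 912) (nat_lit 0) (XT.nd (nat_lit 156) (nat_lit 304) (nat_lit 0) (XT.nd (nat_lit 78) (nat_lit 380) (nat_lit 0) (XT.lf (nat_lit 0) (nat_lit 21904301812) (nat_lit 456) (nat_lit 21157304234) (nat_lit 76) (nat_lit 43686422525) (nat_lit 70) (nat_lit 5) (nat_lit 76) (nat_lit 5) (nat_lit 71) (nat_lit 5) (nat_lit 329) (nat_lit 315) (nat_lit 136)) (XT.lf (nat_lit 0) (nat_lit 20474055692) (nat_lit 380) (nat_lit 9571421056) (nat_lit 456) (nat_lit 59213717754) (nat_lit 65) (nat_lit 5) (nat_lit 70) (nat_lit 5) (nat_lit 71) (nat_lit 5) (nat_lit 330) (nat_lit 315) (nat_lit 135))) (XT.nd (nat_lit 78) (nat_lit 304) (nat_lit 0) (XT.lf (nat_lit 0) (nat_lit 39356887607) (nat_lit 456) (nat_lit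 27362556596) (nat_lit 76) (nat_lit 25138317032) (nat_lit 65) (nat_lit 5) (nat_lit 71) (nat_lit 5) (nat_lit 66) (nat_lit 5) (nat_lit 331) (nat_lit 315) (nat_lit 134)) (XT.nd (nat_lit 78) (nat_lit 0) (nat_lit 0) (XT.lf (nat_lit 0) (nat_lit 16501822683) (nat_lit 304) (nat_lit 33046033948) (nat_lit 380) (nat_lit 45017701594) (nat_lit 61) (nat_lit 5) (nat_lit 65) (nat_lit 5) (nat_lit 66) (nat_lit 5) (nat_lit 332) (nat_lit 315) (nat_lit 133)) (XT.lf (nat_lit 0) (nat_lit 60754907436) (nat_lit 380) (nat_lit 33920469987) (nat_lit 76) (nat_lit 2708042213) (nat_lit 61) (nat_lit 5) (nat_lit 66) (nat_lit 5) (nat_lit 62) (nat_lit 5) (nat_lit 333) (nat_lit 315) (nat_lit 132))))) (XT.nd (nat_lit 156) (nat_lit 608) (nat_lit 0) (XT.nd (nat_lit 78) (nat_lit 0) (nat_lit 0) (XT.lf (nat_lit 0) (nat_lit 12280705249) (nat_lit 304) (nat_lit 60974562481) (nat_lit 380) (nat_lit 27050259720) (nat_lit 57) (nat_lit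 5) (nat_lit 61) (nat_lit 5) (nat_lit 62) (nat_lit 5) (nat_lit 334) (nat_lit 315) (nat_lit 131)) (XT.lf (nat_lit 0) (nat_lit 61969016042) (nat_lit 304) (nat_lit 24985587850) (nat_lit 380) (nat_lit 16390439994) (nat_lit 57) (nat_lit 5) (nat_lit 61) (nat_lit 5) (nat_lit 62) (nat_lit 5) (nat_lit 335) (nat_lit 315) (nat_lit 130))) (XT.nd (nat_lit 78) (nat_lit 380) (nat_lit 0) (XT.lf (nat_lit 0) (nat_lit 7649590327) (nat_lit 228) (nat_lit 94008157447) (nat_lit 304) (nat_lit 4862847394) (nat_lit 54) (nat_lit 5) (nat_lit 57) (nat_lit 5) (nat_lit 58) (nat_lit 5) (nat_lit 336) (nat_lit 315) (nat_lit 129)) (XT.nd (nat_lit 78) (nat_lit 304) (nat_lit 0) (XT.lf (nat_lit 0) (nat_lit 8130700517) (nat_lit 304) (nat_lit 49791627483) (nat_lit 76) (nat_lit 51870877426) (nat_lit 53) (nat_lit 5) (nat_lit 57) (nat_lit 5) (nat_lit 54) (nat_lit 5) (nat_lit 337) (nat_lit 315) (nat_lit 128)) (XT.lf (nat_lit 0)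 (nat_lit 1716392378) (nat_lit 304) (nat_lit 19920456897) (nat_lit 380) (nat_lit 91587294556) (nat_lit 49) (nat_lit 5) (nat_lit 53) (nat_lit 5) (nat_lit 54) (nat_lit 5) (nat_lit 338) (nat_lit 315) (nat_lit 127))))))) (XT.nd (nat_lit 780) (nat_lit 836) (nat_lit 0) (XT.nd (nat_lit 390) (nat_lit 456) (nat_lit 0) (XT.nd (nat_lit 156) (nat_lit 456) (nat_lit 0) (XT.nd (nat_lit 78) (nat_lit 0) (nat_lit 0) (XT.lf (nat_lit 0) (nat_lit 36986902737) (nat_lit 380) (nat_lit 59582347137) (nat_lit 76) (nat_lit 20198950299) (nat_lit 49) (nat_lit 5) (nat_lit 54) (nat_lit 5) (nat_lit 50) (nat_lit 5) (nat_lit 339) (nat_lit 315) (nat_lit 126)) (XT.lf (nat_lit 0) (nat_lit 53430605580) (nat_lit 380) (nat_lit 5387766352) (nat_lit 76) (nat_lit 61654780904) (nat_lit 49) (nat_lit 5) (nat_lit 54) (nat_lit 5) (nat_lit 50) (nat_lit 5) (nat_lit 340) (nat_lit 315) (nat_lit 125))) (XT.nd (nat_lit 78) (nat_lit 228)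 (nat_lit 0) (XT.lf (nat_lit 0) (nat_lit 53219392703) (nat_lit 228) (nat_lit 18307606481) (nat_lit 304) (nat_lit 52794829464) (nat_lit 46) (nat_lit 5) (nat_lit 49) (nat_lit 5) (nat_lit 50) (nat_lit 5) (nat_lit 341) (nat_lit 315) (nat_lit 124)) (XT.nd (nat_lit 78) (nat_lit 228) (nat_lit 0) (XT.lf (nat_lit 0) (nat_lit 90998841860) (nat_lit 304) (nat_lit 13794702901) (nat_lit 76) (nat_lit 23545862782) (nat_lit 46) (nat_lit 5) (nat_lit 50) (nat_lit 5) (nat_lit 47) (nat_lit 5) (nat_lit 342) (nat_lit 315) (nat_lit 123)) (XT.lf (nat_lit 0) (nat_lit 47601342832) (nat_lit 228) (nat_lit 64885878691) (nat_lit 304) (nat_lit 20018497339) (nat_lit 43) (nat_lit 5) (nat_lit 46) (nat_lit 5) (nat_lit 47) (nat_lit 5) (nat_lit 343) (nat_lit 315) (nat_lit 122))))) (XT.nd (nat_lit 156) (nat_lit 228) (nat_lit 0) (XT.nd (nat_lit 78) (nat_lit 228) (nat_lit 0) (XT.lf (nat_lit 0) (nat_lit 112545630171) (nat_lit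 228) (nat_lit 22737649873) (nat_lit 304) (nat_lit 1585403400) (nat_lit 43) (nat_lit 5) (nat_lit 46) (nat_lit 5) (nat_lit 47) (nat_lit 5) (nat_lit 344) (nat_lit 315) (nat_lit 121)) (XT.lf (nat_lit 0) (nat_lit 18180267207) (nat_lit 228) (nat_lit 101456036817) (nat_lit 76) (nat_lit 21750638795) (nat_lit 40) (nat_lit 5) (nat_lit 43) (nat_lit 5) (nat_lit 41) (nat_lit 5) (nat_lit 345) (nat_lit 315) (nat_lit 120))) (XT.nd (nat_lit 78) (nat_lit 228) (nat_lit 0) (XT.lf (nat_lit 0) (nat_lit 39672023524) (nat_lit 228) (nat_lit 38274484625) (nat_lit 76) (nat_lit 68143753990) (nat_lit 40) (nat_lit 5) (nat_lit 43) (nat_lit 5) (nat_lit 41) (nat_lit 5) (nat_lit 346) (nat_lit 315) (nat_lit 119)) (XT.nd (nat_lit 78) (nat_lit 0) (nat_lit 0) (XT.lf (nat_lit 0) (nat_lit 28993667489) (nat_lit 228) (nat_lit 33697047107) (nat_lit 304) (nat_lit 88315416050) (nat_lit 37) (nat_lit 5) (nat_lit 40) (nat_lit 5)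 (nat_lit 41) (nat_lit 5) (nat_lit 347) (nat_lit 315) (nat_lit 118)) (XT.lf (nat_lit 0) (nat_lit 87718139949) (nat_lit 304) (nat_lit 55391736771) (nat_lit 76) (nat_lit 13015026413) (nat_lit 37) (nat_lit 5) (nat_lit 41) (nat_lit 5) (nat_lit 38) (nat_lit 5) (nat_lit 348) (nat_lit 315) (nat_lit 117)))))) (XT.nd (nat_lit 390) (nat_lit 380) (nat_lit 0) (XT.nd (nat_lit 156) (nat_lit 304) (nat_lit 0) (XT.nd (nat_lit 78) (nat_lit 0) (nat_lit 0) (XT.lf (nat_lit 0) (nat_lit 14470314730) (nat_lit 152) (nat_lit 100304650775) (nat_lit 228) (nat_lit 46685747807) (nat_lit 35) (nat_lit 5) (nat_lit 37) (nat_lit 5) (nat_lit 38) (nat_lit 5) (nat_lit 349) (nat_lit 315) (nat_lit 116)) (XT.lf (nat_lit 0) (nat_lit 89748110906) (nat_lit 152) (nat_lit 54374311154) (nat_lit 228) (nat_lit 22894002944) (nat_lit 35) (nat_lit 5) (nat_lit 37) (nat_lit 5) (nat_lit 38) (nat_lit 5) (nat_lit 350) (nat_lit 315) (nat_lit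 115))) (XT.nd (nat_lit 78) (nat_lit 228) (nat_lit 0) (XT.lf (nat_lit 0) (nat_lit 2020234475) (nat_lit 228) (nat_lit 4093137647) (nat_lit 76) (nat_lit 166734935506) (nat_lit 34) (nat_lit 5) (nat_lit 37) (nat_lit 5) (nat_lit 35) (nat_lit 5) (nat_lit 351) (nat_lit 315) (nat_lit 114)) (XT.nd (nat_lit 78) (nat_lit 0) (nat_lit 0) (XT.lf (nat_lit 0) (nat_lit 29298701221) (nat_lit 304) (nat_lit 104857875218) (nat_lit 76) (nat_lit 44702047487) (nat_lit 31) (nat_lit 5) (nat_lit 35) (nat_lit 5) (nat_lit 32) (nat_lit 5) (nat_lit 352) (nat_lit 315) (nat_lit 113)) (XT.lf (nat_lit 0) (nat_lit 58111497525) (nat_lit 304) (nat_lit 29126320045) (nat_lit 76) (nat_lit 97923118562) (nat_lit 31) (nat_lit 5) (nat_lit 35) (nat_lit 5) (nat_lit 32) (nat_lit 5) (nat_lit 353) (nat_lit 315) (nat_lit 112))))) (XT.nd (nat_lit 156) (nat_lit 228) (nat_lit 0) (XT.nd (nat_lit 78) (nat_lit 0) (nat_lit 0) (XT.lf (nat_lit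 0) (nat_lit 52057592130) (nat_lit 152) (nat_lit 37119850566) (nat_lit 228) (nat_lit 102560296183) (nat_lit 29) (nat_lit 5) (nat_lit 31) (nat_lit 5) (nat_lit 32) (nat_lit 5) (nat_lit 354) (nat_lit 315) (nat_lit 111)) (XT.lf (nat_lit 0) (nat_lit 122539849222) (nat_lit 228) (nat_lit 60557359170) (nat_lit 76) (nat_lit 15509015533) (nat_lit 29) (nat_lit 5) (nat_lit 32) (nat_lit 5) (nat_lit 30) (nat_lit 5) (nat_lit 355) (nat_lit 315) (nat_lit 110))) (XT.nd (nat_lit 78) (nat_lit 76) (nat_lit 0) (XT.lf (nat_lit 0) (nat_lit 22637202931) (nat_lit 152) (nat_lit 135894885732) (nat_lit 228) (nat_lit 47237959279) (nat_lit 27) (nat_lit 5) (nat_lit 29) (nat_lit 5) (nat_lit 30) (nat_lit 5) (nat_lit 356) (nat_lit 315) (nat_lit 109)) (XT.nd (nat_lit 78) (nat_lit 76) (nat_lit 0) (XT.lf (nat_lit 0) (nat_lit 112093539364) (nat_lit 152) (nat_lit 85255734824) (nat_lit 228) (nat_lit 15891522597) (nat_lit 27)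 (nat_lit 5) (nat_lit 29) (nat_lit 5) (nat_lit 30) (nat_lit 5) (nat_lit 357) (nat_lit 315) (nat_lit 108)) (XT.lf (nat_lit 0) (nat_lit 16477191181) (nat_lit 228) (nat_lit 15328514055) (nat_lit 76) (nat_lit 189266101240) (nat_lit 26) (nat_lit 5) (nat_lit 29) (nat_lit 5) (nat_lit 27) (nat_lit 5) (nat_lit 358) (nat_lit 315) (nat_lit 107))))))))
noncomputable def xc237 : XT := (XT.nd (nat_lit 38142) (nat_lit 0) (nat_lit 1520) (XT.nd (nat_lit 37362) (nat_lit 0) (nat_lit 4636) (XT.nd (nat_lit 312) (nat_lit 152) (nat_lit 0) (XT.nd (nat_lit 156) (nat_lit 152) (nat_lit 0) (XT.nd (nat_lit 78) (nat_lit 0) (nat_lit 0) (XT.lf (nat_lit 0) (nat_lit 51535632204) (nat_lit 228) (nat_lit 152640595494) (nat_lit 76) (nat_lit 25024845856) (nat_lit 24) (nat_lit 5) (nat_lit 27) (nat_lit 5) (nat_lit 25) (nat_lit 5) (nat_lit 359) (nat_lit 315) (nat_lit 106)) (XT.lf (nat_lit 0) (nat_lit 89132038762) (nat_lit 228)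 (nat_lit 64673738760) (nat_lit 76) (nat_lit 83891774562) (nat_lit 24) (nat_lit 5) (nat_lit 27) (nat_lit 5) (nat_lit 25) (nat_lit 5) (nat_lit 360) (nat_lit 315) (nat_lit 105))) (XT.nd (nat_lit 78) (nat_lit 0) (nat_lit 0) (XT.lf (nat_lit 0) (nat_lit 28606726061) (nat_lit 152) (nat_lit 100447967902) (nat_lit 228) (nat_lit 117541839422) (nat_lit 22) (nat_lit 5) (nat_lit 24) (nat_lit 5) (nat_lit 25) (nat_lit 5) (nat_lit 361) (nat_lit 315) (nat_lit 104)) (XT.lf (nat_lit 0) (nat_lit 128796216960) (nat_lit 152) (nat_lit 43272347786) (nat_lit 228) (nat_lit 83817145111) (nat_lit 22) (nat_lit 5) (nat_lit 24) (nat_lit 5) (nat_lit 25) (nat_lit 5) (nat_lit 362) (nat_lit 315) (nat_lit 103)))) (XT.nd (nat_lit 156) (nat_lit 76) (nat_lit 0) (XT.nd (nat_lit 78) (nat_lit 76) (nat_lit 0) (XT.lf (nat_lit 0) (nat_lit 217494641039) (nat_lit 228) (nat_lit 31906181133) (nat_lit 76) (nat_lit 16225447619) (nat_lit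 22) (nat_lit 5) (nat_lit 25) (nat_lit 5) (nat_lit 23) (nat_lit 4) (nat_lit 363) (nat_lit 315) (nat_lit 102)) (XT.lf (nat_lit 0) (nat_lit 69552734625) (nat_lit 76) (nat_lit 197434400802) (nat_lit 152) (nat_lit 8776966804) (nat_lit 21) (nat_lit 5) (nat_lit 22) (nat_lit 5) (nat_lit 23) (nat_lit 4) (nat_lit 364) (nat_lit 315) (nat_lit 101))) (XT.nd (nat_lit 78) (nat_lit 0) (nat_lit 0) (XT.lf (nat_lit 0) (nat_lit 32052795375) (nat_lit 152) (nat_lit 109706787760) (nat_lit 76) (nat_lit 144596385891) (nat_lit 20) (nat_lit 5) (nat_lit 22) (nat_lit 5) (nat_lit 21) (nat_lit 5) (nat_lit 365) (nat_lit 315) (nat_lit 100)) (XT.nd (nat_lit 36738) (nat_lit 0) (nat_lit 4636) (XT.lf (nat_lit 0) (nat_lit 74628909959) (nat_lit 152) (nat_lit 8521151284) (nat_lit 76) (nat_lit 214320182478) (nat_lit 20) (nat_lit 5) (nat_lit 22) (nat_lit 5) (nat_lit 21) (nat_lit 5) (nat_lit 366) (nat_lit 315) (nat_lit 99))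 (XT.lf (nat_lit 0) (nat_lit 10191386401) (nat_lit 0) (nat_lit 10191386401) (nat_lit 684) (nat_lit 11098055209) (nat_lit 81) (nat_lit 5) (nat_lit 81) (nat_lit 3) (nat_lit 90) (nat_lit 3) (nat_lit 316) (nat_lit 316) (nat_lit 148)))))) (XT.nd (nat_lit 390) (nat_lit 0) (nat_lit 152) (XT.nd (nat_lit 156) (nat_lit 0) (nat_lit 0) (XT.nd (nat_lit 78) (nat_lit 0) (nat_lit 0) (XT.lf (nat_lit 0) (nat_lit 41922462935) (nat_lit 684) (nat_lit 15011257877) (nat_lit 760) (nat_lit 7595047450) (nat_lit 81) (nat_lit 5) (nat_lit 90) (nat_lit 3) (nat_lit 91) (nat_lit 5) (nat_lit 317) (nat_lit 316) (nat_lit 147)) (XT.lf (nat_lit 76) (nat_lit 14049736118) (nat_lit 0) (nat_lit 29640019242) (nat_lit 760) (nat_lit 22456856868) (nat_lit 82) (nat_lit 5) (nat_lit 81) (nat_lit 5) (nat_lit 91) (nat_lit 5) (nat_lit 318) (nat_lit 316) (nat_lit 146))) (XT.nd (nat_lit 78) (nat_lit 0) (nat_lit 76) (XT.lf (nat_lit 76)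 (nat_lit 45084397533) (nat_lit 0) (nat_lit 714305233) (nat_lit 760) (nat_lit 22033983560) (nat_lit 82) (nat_lit 5) (nat_lit 81) (nat_lit 5) (nat_lit 91) (nat_lit 5) (nat_lit 319) (nat_lit 316) (nat_lit 145)) (XT.nd (nat_lit 78) (nat_lit 0) (nat_lit 0) (XT.lf (nat_lit 76) (nat_lit 7855548607) (nat_lit 0) (nat_lit 40742353490) (nat_lit 760) (nat_lit 20975924140) (nat_lit 83) (nat_lit 5) (nat_lit 82) (nat_lit 5) (nat_lit 92) (nat_lit 5) (nat_lit 320) (nat_lit 316) (nat_lit 144)) (XT.lf (nat_lit 76) (nat_lit 40766692955) (nat_lit 0) (nat_lit 11166293786) (nat_lit 760) (nat_lit 19449242359) (nat_lit 83) (nat_lit 5) (nat_lit 82) (nat_lit 5) (nat_lit 92) (nat_lit 5) (nat_lit 321) (nat_lit 316) (nat_lit 143))))) (XT.nd (nat_lit 156) (nat_lit 0) (nat_lit 76) (XT.nd (nat_lit 78) (nat_lit 0) (nat_lit 0) (XT.lf (nat_lit 76) (nat_lit 1788491617) (nat_lit 0) (nat_lit 53983969452) (nat_lit 760) (nat_lit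 17491711385) (nat_lit 84) (nat_lit 5) (nat_lit 83) (nat_lit 5) (nat_lit 93) (nat_lit 5) (nat_lit 322) (nat_lit 316) (nat_lit 142)) (XT.lf (nat_lit 76) (nat_lit 36685948376) (nat_lit 0) (nat_lit 23815776379) (nat_lit 760) (nat_lit 14703599453) (nat_lit 84) (nat_lit 5) (nat_lit 83) (nat_lit 5) (nat_lit 93) (nat_lit 5) (nat_lit 323) (nat_lit 316) (nat_lit 141))) (XT.nd (nat_lit 78) (nat_lit 0) (nat_lit 0) (XT.lf (nat_lit 0) (nat_lit 65589446337) (nat_lit 684) (nat_lit 4038568032) (nat_lit 760) (nat_lit 7609421370) (nat_lit 84) (nat_lit 5) (nat_lit 93) (nat_lit 5) (nat_lit 94) (nat_lit 5) (nat_lit 324) (nat_lit 316) (nat_lit 140)) (XT.nd (nat_lit 78) (nat_lit 0) (nat_lit 0) (XT.lf (nat_lit 76) (nat_lit 32825937428) (nat_lit 0) (nat_lit 39007844181) (nat_lit 760) (nat_lit 7492261684) (nat_lit 85) (nat_lit 5) (nat_lit 84) (nat_lit 5) (nat_lit 94) (nat_lit 5) (nat_lit 325) (nat_lit 316) (nat_lit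 139)) (XT.lf (nat_lit 76) (nat_lit 71673331914) (nat_lit 0) (nat_lit 6784721806) (nat_lit 760) (nat_lit 3057643246) (nat_lit 85) (nat_lit 5) (nat_lit 84) (nat_lit 5) (nat_lit 94) (nat_lit 5) (nat_lit 326) (nat_lit 316) (nat_lit 138))))))) (XT.nd (nat_lit 780) (nat_lit 1292) (nat_lit 0) (XT.nd (nat_lit 390) (nat_lit 608) (nat_lit 0) (XT.nd (nat_lit 156) (nat_lit 760) (nat_lit 0) (XT.nd (nat_lit 78) (nat_lit 0) (nat_lit 0) (XT.lf (nat_lit 0) (nat_lit 2438838372) (nat_lit 760) (nat_lit 54651678481) (nat_lit 76) (nat_lit 26678504993) (nat_lit 75) (nat_lit 5) (nat_lit 85) (nat_lit 5) (nat_lit 76) (nat_lit 5) (nat_lit 327) (nat_lit 316) (nat_lit 137)) (XT.lf (nat_lit 0) (nat_lit 8387399251) (nat_lit 760) (nat_lit 15924588919) (nat_lit 76) (nat_lit 61806519439) (nat_lit 75) (nat_lit 5) (nat_lit 85) (nat_lit 5) (nat_lit 76) (nat_lit 5) (nat_lit 328) (nat_lit 316) (nat_lit 136))) (XT.nd (nat_lit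 78) (nat_lit 380) (nat_lit 0) (XT.lf (nat_lit 0) (nat_lit 15196109224) (nat_lit 456) (nat_lit 63173592249) (nat_lit 76) (nat_lit 10187631568) (nat_lit 70) (nat_lit 5) (nat_lit 76) (nat_lit 5) (nat_lit 71) (nat_lit 5) (nat_lit 329) (nat_lit 316) (nat_lit 135)) (XT.nd (nat_lit 78) (nat_lit 380) (nat_lit 0) (XT.lf (nat_lit 0) (nat_lit 23017344026) (nat_lit 456) (nat_lit 22197805369) (nat_lit 76) (nat_lit 45869347249) (nat_lit 70) (nat_lit 5) (nat_lit 76) (nat_lit 5) (nat_lit 71) (nat_lit 5) (nat_lit 330) (nat_lit 316) (nat_lit 134)) (XT.lf (nat_lit 0) (nat_lit 21514842487) (nat_lit 380) (nat_lit 10050153041) (nat_lit 456) (nat_lit 62156256453) (nat_lit 65) (nat_lit 5) (nat_lit 70) (nat_lit 5) (nat_lit 71) (nat_lit 5) (nat_lit 331) (nat_lit 316) (nat_lit 133))))) (XT.nd (nat_lit 156) (nat_lit 304) (nat_lit 0) (XT.nd (nat_lit 78) (nat_lit 304) (nat_lit 0) (XT.lf (nat_lit 0) (nat_lit 41341153349)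 (nat_lit 456) (nat_lit 28713552264) (nat_lit 76) (nat_lit 26395084521) (nat_lit 65) (nat_lit 5) (nat_lit 71) (nat_lit 5) (nat_lit 66) (nat_lit 5) (nat_lit 332) (nat_lit 316) (nat_lit 132)) (XT.lf (nat_lit 0) (nat_lit 17343769654) (nat_lit 304) (nat_lit 34697382368) (nat_lit 380) (nat_lit 47251852706) (nat_lit 61) (nat_lit 5) (nat_lit 65) (nat_lit 5) (nat_lit 66) (nat_lit 5) (nat_lit 333) (nat_lit 316) (nat_lit 131))) (XT.nd (nat_lit 78) (nat_lit 304) (nat_lit 0) (XT.lf (nat_lit 0) (nat_lit 63807812277) (nat_lit 380) (nat_lit 35599662666) (nat_lit 76) (nat_lit 2844323149) (nat_lit 61) (nat_lit 5) (nat_lit 66) (nat_lit 5) (nat_lit 62) (nat_lit 5) (nat_lit 334) (nat_lit 316) (nat_lit 130)) (XT.nd (nat_lit 78) (nat_lit 0) (nat_lit 0) (XT.lf (nat_lit 0) (nat_lit 12911299867) (nat_lit 304) (nat_lit 64021427377) (nat_lit 380) (nat_lit 28387308865) (nat_lit 57) (nat_lit 5) (nat_lit 61) (nat_lit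 5) (nat_lit 62) (nat_lit 5) (nat_lit 335) (nat_lit 316) (nat_lit 129)) (XT.lf (nat_lit 0) (nat_lit 65083237659) (nat_lit 304) (nat_lit 26233092739) (nat_lit 380) (nat_lit 17195234526) (nat_lit 57) (nat_lit 5) (nat_lit 61) (nat_lit 5) (nat_lit 62) (nat_lit 5) (nat_lit 336) (nat_lit 316) (nat_lit 128)))))) (XT.nd (nat_lit 390) (nat_lit 684) (nat_lit 0) (XT.nd (nat_lit 156) (nat_lit 304) (nat_lit 0) (XT.nd (nat_lit 78) (nat_lit 76) (nat_lit 0) (XT.lf (nat_lit 0) (nat_lit 8048278395) (nat_lit 228) (nat_lit 98705966034) (nat_lit 304) (nat_lit 5091670185) (nat_lit 54) (nat_lit 5) (nat_lit 57) (nat_lit 5) (nat_lit 58) (nat_lit 5) (nat_lit 337) (nat_lit 316) (nat_lit 127)) (XT.lf (nat_lit 0) (nat_lit 8550436745) (nat_lit 304) (nat_lit 52265308577) (nat_lit 76) (nat_lit 54466433243) (nat_lit 53) (nat_lit 5) (nat_lit 57) (nat_lit 5) (nat_lit 54) (nat_lit 5) (nat_lit 338) (nat_lit 316) (nat_lit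 126))) (XT.nd (nat_lit 78) (nat_lit 0) (nat_lit 0) (XT.lf (nat_lit 0) (nat_lit 1817855822) (nat_lit 304) (nat_lit 20913652735) (nat_lit 380) (nat_lit 96153175841) (nat_lit 49) (nat_lit 5) (nat_lit 53) (nat_lit 5) (nat_lit 54) (nat_lit 5) (nat_lit 339) (nat_lit 316) (nat_lit 125)) (XT.nd (nat_lit 78) (nat_lit 0) (nat_lit 0) (XT.lf (nat_lit 0) (nat_lit 38848496403) (nat_lit 380) (nat_lit 62545972768) (nat_lit 76) (nat_lit 21211504029) (nat_lit 49) (nat_lit 5) (nat_lit 54) (nat_lit 5) (nat_lit 50) (nat_lit 5) (nat_lit 340) (nat_lit 316) (nat_lit 124)) (XT.lf (nat_lit 0) (nat_lit 56113801125) (nat_lit 380) (nat_lit 5642400645) (nat_lit 76) (nat_lit 64740002058) (nat_lit 49) (nat_lit 5) (nat_lit 54) (nat_lit 5) (nat_lit 50) (nat_lit 5) (nat_lit 341) (nat_lit 316) (nat_lit 123))))) (XT.nd (nat_lit 156) (nat_lit 456) (nat_lit 0) (XT.nd (nat_lit 78) (nat_lit 0) (nat_lit 0) (XT.lf (nat_lit 0)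 (nat_lit 55894878394) (nat_lit 228) (nat_lit 19219807162) (nat_lit 304) (nat_lit 55422645431) (nat_lit 46) (nat_lit 5) (nat_lit 49) (nat_lit 5) (nat_lit 50) (nat_lit 5) (nat_lit 342) (nat_lit 316) (nat_lit 122)) (XT.lf (nat_lit 0) (nat_lit 95559627816) (nat_lit 304) (nat_lit 14470099468) (nat_lit 76) (nat_lit 24726087230) (nat_lit 46) (nat_lit 5) (nat_lit 50) (nat_lit 5) (nat_lit 47) (nat_lit 5) (nat_lit 343) (nat_lit 316) (nat_lit 121))) (XT.nd (nat_lit 78) (nat_lit 228) (nat_lit 0) (XT.lf (nat_lit 0) (nat_lit 49995517285) (nat_lit 228) (nat_lit 68126613059) (nat_lit 304) (nat_lit 21008326873) (nat_lit 43) (nat_lit 5) (nat_lit 46) (nat_lit 5) (nat_lit 47) (nat_lit 5) (nat_lit 344) (nat_lit 316) (nat_lit 120)) (XT.nd (nat_lit 78) (nat_lit 228) (nat_lit 0) (XT.lf (nat_lit 0) (nat_lit 118186347214) (nat_lit 228) (nat_lit 23871142303) (nat_lit 304) (nat_lit 1654106587) (nat_lit 43) (nat_lit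 5) (nat_lit 46) (nat_lit 5) (nat_lit 47) (nat_lit 5) (nat_lit 345) (nat_lit 316) (nat_lit 119)) (XT.lf (nat_lit 0) (nat_lit 19099290574) (nat_lit 228) (nat_lit 106514810370) (nat_lit 76) (nat_lit 22841671064) (nat_lit 40) (nat_lit 5) (nat_lit 43) (nat_lit 5) (nat_lit 41) (nat_lit 5) (nat_lit 346) (nat_lit 316) (nat_lit 118))))))))
noncomputable def xc238 : XT := (XT.nd (nat_lit 38298) (nat_lit 0) (nat_lit 2736) (XT.nd (nat_lit 702) (nat_lit 608) (nat_lit 0) (XT.nd (nat_lit 312) (nat_lit 456) (nat_lit 0) (XT.nd (nat_lit 156) (nat_lit 152) (nat_lit 0) (XT.nd (nat_lit 78) (nat_lit 228) (nat_lit 0) (XT.lf (nat_lit 0) (nat_lit 41665158040) (nat_lit 228) (nat_lit 40174848583) (nat_lit 76) (nat_lit 71554275336) (nat_lit 40) (nat_lit 5) (nat_lit 43) (nat_lit 5) (nat_lit 41) (nat_lit 5) (nat_lit 347) (nat_lit 316) (nat_lit 117)) (XT.lf (nat_lit 0) (nat_lit 30456495649) (nat_lit 228) (nat_lit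 35378039276) (nat_lit 304) (nat_lit 92721422196) (nat_lit 37) (nat_lit 5) (nat_lit 40) (nat_lit 5) (nat_lit 41) (nat_lit 5) (nat_lit 348) (nat_lit 316) (nat_lit 116))) (XT.nd (nat_lit 78) (nat_lit 152) (nat_lit 0) (XT.lf (nat_lit 0) (nat_lit 92112946819) (nat_lit 304) (nat_lit 58148404966) (nat_lit 76) (nat_lit 13669336436) (nat_lit 37) (nat_lit 5) (nat_lit 41) (nat_lit 5) (nat_lit 38) (nat_lit 5) (nat_lit 349) (nat_lit 316) (nat_lit 115)) (XT.lf (nat_lit 0) (nat_lit 15206540745) (nat_lit 152) (nat_lit 105315847548) (nat_lit 228) (nat_lit 49010912602) (nat_lit 35) (nat_lit 5) (nat_lit 37) (nat_lit 5) (nat_lit 38) (nat_lit 5) (nat_lit 350) (nat_lit 316) (nat_lit 114)))) (XT.nd (nat_lit 156) (nat_lit 380) (nat_lit 0) (XT.nd (nat_lit 78) (nat_lit 76) (nat_lit 0) (XT.lf (nat_lit 0) (nat_lit 94247621478) (nat_lit 152) (nat_lit 57089183125) (nat_lit 228) (nat_lit 24030014905) (nat_lit 35)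 (nat_lit 5) (nat_lit 37) (nat_lit 5) (nat_lit 38) (nat_lit 5) (nat_lit 351) (nat_lit 316) (nat_lit 113)) (XT.lf (nat_lit 0) (nat_lit 2129255827) (nat_lit 228) (nat_lit 4285988695) (nat_lit 76) (nat_lit 175075065604) (nat_lit 34) (nat_lit 5) (nat_lit 37) (nat_lit 5) (nat_lit 35) (nat_lit 5) (nat_lit 352) (nat_lit 316) (nat_lit 112))) (XT.nd (nat_lit 78) (nat_lit 152) (nat_lit 0) (XT.lf (nat_lit 0) (nat_lit 30771505269) (nat_lit 304) (nat_lit 110088810691) (nat_lit 76) (nat_lit 46940833901) (nat_lit 31) (nat_lit 5) (nat_lit 35) (nat_lit 5) (nat_lit 32) (nat_lit 5) (nat_lit 353) (nat_lit 316) (nat_lit 111)) (XT.nd (nat_lit 78) (nat_lit 152) (nat_lit 0) (XT.lf (nat_lit 0) (nat_lit 61024566674) (nat_lit 304) (nat_lit 30571247202) (nat_lit 76) (nat_lit 102822783100) (nat_lit 31) (nat_lit 5) (nat_lit 35) (nat_lit 5) (nat_lit 32) (nat_lit 5) (nat_lit 354) (nat_lit 316) (nat_lit 110)) (XT.lf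 (nat_lit 0) (nat_lit 54671676891) (nat_lit 152) (nat_lit 38971950287) (nat_lit 228) (nat_lit 107680622315) (nat_lit 29) (nat_lit 5) (nat_lit 31) (nat_lit 5) (nat_lit 32) (nat_lit 5) (nat_lit 355) (nat_lit 316) (nat_lit 109)))))) (XT.nd (nat_lit 390) (nat_lit 228) (nat_lit 0) (XT.nd (nat_lit 156) (nat_lit 228) (nat_lit 0) (XT.nd (nat_lit 78) (nat_lit 152) (nat_lit 0) (XT.lf (nat_lit 0) (nat_lit 128673863706) (nat_lit 228) (nat_lit 63574255026) (nat_lit 76) (nat_lit 16288055085) (nat_lit 29) (nat_lit 5) (nat_lit 32) (nat_lit 5) (nat_lit 30) (nat_lit 5) (nat_lit 356) (nat_lit 316) (nat_lit 108)) (XT.lf (nat_lit 0) (nat_lit 23779858211) (nat_lit 152) (nat_lit 142685691069) (nat_lit 228) (nat_lit 49592648533) (nat_lit 27) (nat_lit 5) (nat_lit 29) (nat_lit 5) (nat_lit 30) (nat_lit 5) (nat_lit 357) (nat_lit 316) (nat_lit 107))) (XT.nd (nat_lit 78) (nat_lit 228) (nat_lit 0) (XT.lf (nat_lit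 0) (nat_lit 117708497412) (nat_lit 152) (nat_lit 89514770185) (nat_lit 228) (nat_lit 16679233289) (nat_lit 27) (nat_lit 5) (nat_lit 29) (nat_lit 5) (nat_lit 30) (nat_lit 5) (nat_lit 358) (nat_lit 316) (nat_lit 106)) (XT.nd (nat_lit 78) (nat_lit 152) (nat_lit 0) (XT.lf (nat_lit 0) (nat_lit 17307379980) (nat_lit 228) (nat_lit 16084930585) (nat_lit 76) (nat_lit 198732761378) (nat_lit 26) (nat_lit 5) (nat_lit 29) (nat_lit 5) (nat_lit 27) (nat_lit 5) (nat_lit 359) (nat_lit 316) (nat_lit 105)) (XT.lf (nat_lit 0) (nat_lit 54118652651) (nat_lit 228) (nat_lit 160262517699) (nat_lit 76) (nat_lit 26279636945) (nat_lit 24) (nat_lit 5) (nat_lit 27) (nat_lit 5) (nat_lit 25) (nat_lit 5) (nat_lit 360) (nat_lit 316) (nat_lit 104))))) (XT.nd (nat_lit 156) (nat_lit 76) (nat_lit 0) (XT.nd (nat_lit 78) (nat_lit 152) (nat_lit 0) (XT.lf (nat_lit 0) (nat_lit 93594582449) (nat_lit 228) (nat_lit 67897799441)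 (nat_lit 76) (nat_lit 88089743097) (nat_lit 24) (nat_lit 5) (nat_lit 27) (nat_lit 5) (nat_lit 25) (nat_lit 5) (nat_lit 361) (nat_lit 316) (nat_lit 103)) (XT.lf (nat_lit 0) (nat_lit 30046533358) (nat_lit 152) (nat_lit 105466701980) (nat_lit 228) (nat_lit 123412827131) (nat_lit 22) (nat_lit 5) (nat_lit 24) (nat_lit 5) (nat_lit 25) (nat_lit 5) (nat_lit 362) (nat_lit 316) (nat_lit 102))) (XT.nd (nat_lit 78) (nat_lit 76) (nat_lit 0) (XT.lf (nat_lit 0) (nat_lit 135245047803) (nat_lit 152) (nat_lit 45432475350) (nat_lit 228) (nat_lit 88002188783) (nat_lit 22) (nat_lit 5) (nat_lit 24) (nat_lit 5) (nat_lit 25) (nat_lit 5) (nat_lit 363) (nat_lit 316) (nat_lit 101)) (XT.nd (nat_lit 78) (nat_lit 76) (nat_lit 0) (XT.lf (nat_lit 0) (nat_lit 228374691810) (nat_lit 228) (nat_lit 33492681691) (nat_lit 76) (nat_lit 17039937266) (nat_lit 22) (nat_lit 5) (nat_lit 25) (nat_lit 5) (nat_lit 23) (nat_lit 4)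 (nat_lit 364) (nat_lit 316) (nat_lit 100)) (XT.lf (nat_lit 0) (nat_lit 73039037782) (nat_lit 76) (nat_lit 207302655170) (nat_lit 152) (nat_lit 9210348088) (nat_lit 21) (nat_lit 5) (nat_lit 22) (nat_lit 5) (nat_lit 23) (nat_lit 4) (nat_lit 365) (nat_lit 316) (nat_lit 99))))))) (XT.nd (nat_lit 780) (nat_lit 1824) (nat_lit 0) (XT.nd (nat_lit 390) (nat_lit 0) (nat_lit 76) (XT.nd (nat_lit 156) (nat_lit 0) (nat_lit 0) (XT.nd (nat_lit 78) (nat_lit 0) (nat_lit 0) (XT.lf (nat_lit 0) (nat_lit 10708475418) (nat_lit 0) (nat_lit 10708475418) (nat_lit 684) (nat_lit 11637127008) (nat_lit 81) (nat_lit 5) (nat_lit 81) (nat_lit 3) (nat_lit 90) (nat_lit 3) (nat_lit 317) (nat_lit 317) (nat_lit 146)) (XT.lf (nat_lit 0) (nat_lit 44047008920) (nat_lit 684) (nat_lit 15745766164) (nat_lit 760) (nat_lit 7960935024) (nat_lit 81) (nat_lit 5) (nat_lit 90) (nat_lit 3) (nat_lit 91) (nat_lit 5) (nat_lit 318) (nat_lit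 317) (nat_lit 145))) (XT.nd (nat_lit 78) (nat_lit 0) (nat_lit 0) (XT.lf (nat_lit 76) (nat_lit 14768018584) (nat_lit 0) (nat_lit 31133540528) (nat_lit 760) (nat_lit 23550946094) (nat_lit 82) (nat_lit 5) (nat_lit 81) (nat_lit 5) (nat_lit 91) (nat_lit 5) (nat_lit 319) (nat_lit 317) (nat_lit 144)) (XT.nd (nat_lit 78) (nat_lit 0) (nat_lit 76) (XT.lf (nat_lit 76) (nat_lit 47353660896) (nat_lit 0) (nat_lit 760992232) (nat_lit 760) (nat_lit 23108298341) (nat_lit 82) (nat_lit 5) (nat_lit 81) (nat_lit 5) (nat_lit 91) (nat_lit 5) (nat_lit 320) (nat_lit 317) (nat_lit 143)) (XT.lf (nat_lit 76) (nat_lit 8264642513) (nat_lit 0) (nat_lit 42788022695) (nat_lit 760) (nat_lit 21998543785) (nat_lit 83) (nat_lit 5) (nat_lit 82) (nat_lit 5) (nat_lit 92) (nat_lit 5) (nat_lit 321) (nat_lit 317) (nat_lit 142))))) (XT.nd (nat_lit 156) (nat_lit 0) (nat_lit 76) (XT.nd (nat_lit 78) (nat_lit 0) (nat_lit 76) (XT.lf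 (nat_lit 76) (nat_lit 42820567104) (nat_lit 0) (nat_lit 11732752790) (nat_lit 760) (nat_lit 20396774418) (nat_lit 83) (nat_lit 5) (nat_lit 82) (nat_lit 5) (nat_lit 92) (nat_lit 5) (nat_lit 322) (nat_lit 317) (nat_lit 141)) (XT.lf (nat_lit 76) (nat_lit 1894556308) (nat_lit 0) (nat_lit 56689222527) (nat_lit 760) (nat_lit 18342408408) (nat_lit 84) (nat_lit 5) (nat_lit 83) (nat_lit 5) (nat_lit 93) (nat_lit 5) (nat_lit 323) (nat_lit 317) (nat_lit 140))) (XT.nd (nat_lit 78) (nat_lit 0) (nat_lit 76) (XT.lf (nat_lit 76) (nat_lit 38536093520) (nat_lit 0) (nat_lit 25012331486) (nat_lit 760) (nat_lit 15416028429) (nat_lit 84) (nat_lit 5) (nat_lit 83) (nat_lit 5) (nat_lit 93) (nat_lit 5) (nat_lit 324) (nat_lit 317) (nat_lit 139)) (XT.nd (nat_lit 78) (nat_lit 0) (nat_lit 0) (XT.lf (nat_lit 0) (nat_lit 68889417687) (nat_lit 684) (nat_lit 4224234780) (nat_lit 760) (nat_lit 7984576504) (nat_lit 84)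 (nat_lit 5) (nat_lit 93) (nat_lit 5) (nat_lit 94) (nat_lit 5) (nat_lit 325) (nat_lit 317) (nat_lit 138)) (XT.lf (nat_lit 76) (nat_lit 34483233669) (nat_lit 0) (nat_lit 40962009705) (nat_lit 760) (nat_lit 7846062399) (nat_lit 85) (nat_lit 5) (nat_lit 84) (nat_lit 5) (nat_lit 94) (nat_lit 5) (nat_lit 326) (nat_lit 317) (nat_lit 137)))))) (XT.nd (nat_lit 390) (nat_lit 988) (nat_lit 0) (XT.nd (nat_lit 156) (nat_lit 380) (nat_lit 0) (XT.nd (nat_lit 78) (nat_lit 684) (nat_lit 0) (XT.lf (nat_lit 76) (nat_lit 75272236004) (nat_lit 0) (nat_lit 7127551529) (nat_lit 760) (nat_lit 3190704105) (nat_lit 85) (nat_lit 5) (nat_lit 84) (nat_lit 5) (nat_lit 94) (nat_lit 5) (nat_lit 327) (nat_lit 317) (nat_lit 136)) (XT.lf (nat_lit 0) (nat_lit 2579253451) (nat_lit 760) (nat_lit 57367586364) (nat_lit 76) (nat_lit 28009665365) (nat_lit 75) (nat_lit 5) (nat_lit 85) (nat_lit 5) (nat_lit 76) (nat_lit 5) (nat_lit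 328) (nat_lit 317) (nat_lit 135))) (XT.nd (nat_lit 78) (nat_lit 380) (nat_lit 0) (XT.lf (nat_lit 0) (nat_lit 8824362699) (nat_lit 760) (nat_lit 16704936422) (nat_lit 76) (nat_lit 64894212195) (nat_lit 75) (nat_lit 5) (nat_lit 85) (nat_lit 5) (nat_lit 76) (nat_lit 5) (nat_lit 329) (nat_lit 317) (nat_lit 134)) (XT.nd (nat_lit 78) (nat_lit 0) (nat_lit 0) (XT.lf (nat_lit 0) (nat_lit 15972892898) (nat_lit 456) (nat_lit 66315734646) (nat_lit 76) (nat_lit 10695683239) (nat_lit 70) (nat_lit 5) (nat_lit 76) (nat_lit 5) (nat_lit 71) (nat_lit 5) (nat_lit 330) (nat_lit 317) (nat_lit 133)) (XT.lf (nat_lit 0) (nat_lit 24184380954) (nat_lit 456) (nat_lit 23291945909) (nat_lit 76) (nat_lit 48161548033) (nat_lit 70) (nat_lit 5) (nat_lit 76) (nat_lit 5) (nat_lit 71) (nat_lit 5) (nat_lit 331) (nat_lit 317) (nat_lit 132))))) (XT.nd (nat_lit 156) (nat_lit 608) (nat_lit 0) (XT.nd (nat_lit 78) (nat_lit 0)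 (nat_lit 0) (XT.lf (nat_lit 0) (nat_lit 22606080312) (nat_lit 380) (nat_lit 10552806663) (nat_lit 456) (nat_lit 65247609240) (nat_lit 65) (nat_lit 5) (nat_lit 70) (nat_lit 5) (nat_lit 71) (nat_lit 5) (nat_lit 332) (nat_lit 317) (nat_lit 131)) (XT.lf (nat_lit 0) (nat_lit 43423105676) (nat_lit 456) (nat_lit 30133690502) (nat_lit 76) (nat_lit 27714704177) (nat_lit 65) (nat_lit 5) (nat_lit 71) (nat_lit 5) (nat_lit 66) (nat_lit 5) (nat_lit 333) (nat_lit 317) (nat_lit 130))) (XT.nd (nat_lit 78) (nat_lit 304) (nat_lit 0) (XT.lf (nat_lit 0) (nat_lit 18226246877) (nat_lit 304) (nat_lit 36431386835) (nat_lit 380) (nat_lit 49599267140) (nat_lit 61) (nat_lit 5) (nat_lit 65) (nat_lit 5) (nat_lit 66) (nat_lit 5) (nat_lit 334) (nat_lit 317) (nat_lit 129)) (XT.nd (nat_lit 78) (nat_lit 304) (nat_lit 0) (XT.lf (nat_lit 0) (nat_lit 67011952976) (nat_lit 380) (nat_lit 37364379749) (nat_lit 76) (nat_lit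 2987336427) (nat_lit 61) (nat_lit 5) (nat_lit 66) (nat_lit 5) (nat_lit 62) (nat_lit 5) (nat_lit 335) (nat_lit 317) (nat_lit 128)) (XT.lf (nat_lit 0) (nat_lit 13571884685) (nat_lit 304) (nat_lit 67220808742) (nat_lit 380) (nat_lit 29792648149) (nat_lit 57) (nat_lit 5) (nat_lit 61) (nat_lit 5) (nat_lit 62) (nat_lit 5) (nat_lit 336) (nat_lit 317) (nat_lit 127))))))))
noncomputable def xc239 : XT := (XT.nd (nat_lit 1560) (nat_lit 532) (nat_lit 0) (XT.nd (nat_lit 780) (nat_lit 1064) (nat_lit 0) (XT.nd (nat_lit 390) (nat_lit 456) (nat_lit 0) (XT.nd (nat_lit 156) (nat_lit 380) (nat_lit 0) (XT.nd (nat_lit 78) (nat_lit 228) (nat_lit 0) (XT.lf (nat_lit 0) (nat_lit 68351704136) (nat_lit 304) (nat_lit 27543137849) (nat_lit 380) (nat_lit 18041638005) (nat_lit 57) (nat_lit 5) (nat_lit 61) (nat_lit 5) (nat_lit 62) (nat_lit 5) (nat_lit 337) (nat_lit 317) (nat_lit 126)) (XT.lf (nat_lit 0) (nat_lit 8465393950)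 (nat_lit 228) (nat_lit 103638906708) (nat_lit 304) (nat_lit 5333265414) (nat_lit 54) (nat_lit 5) (nat_lit 57) (nat_lit 5) (nat_lit 58) (nat_lit 5) (nat_lit 338) (nat_lit 317) (nat_lit 125))) (XT.nd (nat_lit 78) (nat_lit 304) (nat_lit 0) (XT.lf (nat_lit 0) (nat_lit 8989932462) (nat_lit 304) (nat_lit 54864151982) (nat_lit 76) (nat_lit 57191579798) (nat_lit 53) (nat_lit 5) (nat_lit 57) (nat_lit 5) (nat_lit 54) (nat_lit 5) (nat_lit 339) (nat_lit 317) (nat_lit 124)) (XT.nd (nat_lit 78) (nat_lit 0) (nat_lit 0) (XT.lf (nat_lit 0) (nat_lit 1922938023) (nat_lit 304) (nat_lit 21956771193) (nat_lit 380) (nat_lit 100948604753) (nat_lit 49) (nat_lit 5) (nat_lit 53) (nat_lit 5) (nat_lit 54) (nat_lit 5) (nat_lit 340) (nat_lit 317) (nat_lit 123)) (XT.lf (nat_lit 0) (nat_lit 40802031000) (nat_lit 380) (nat_lit 65659219954) (nat_lit 76) (nat_lit 22274443143) (nat_lit 49) (nat_lit 5) (nat_lit 54) (nat_lit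 5) (nat_lit 50) (nat_lit 5) (nat_lit 341) (nat_lit 317) (nat_lit 122))))) (XT.nd (nat_lit 156) (nat_lit 228) (nat_lit 0) (XT.nd (nat_lit 78) (nat_lit 228) (nat_lit 0) (XT.lf (nat_lit 0) (nat_lit 58930071921) (nat_lit 380) (nat_lit 5911138342) (nat_lit 76) (nat_lit 67979253506) (nat_lit 49) (nat_lit 5) (nat_lit 54) (nat_lit 5) (nat_lit 50) (nat_lit 5) (nat_lit 342) (nat_lit 317) (nat_lit 121)) (XT.lf (nat_lit 0) (nat_lit 58702788805) (nat_lit 228) (nat_lit 20177913490) (nat_lit 304) (nat_lit 58182960916) (nat_lit 46) (nat_lit 5) (nat_lit 49) (nat_lit 5) (nat_lit 50) (nat_lit 5) (nat_lit 343) (nat_lit 317) (nat_lit 120))) (XT.nd (nat_lit 78) (nat_lit 228) (nat_lit 0) (XT.lf (nat_lit 0) (nat_lit 100347444910) (nat_lit 304) (nat_lit 15180598928) (nat_lit 76) (nat_lit 25965050376) (nat_lit 46) (nat_lit 5) (nat_lit 50) (nat_lit 5) (nat_lit 47) (nat_lit 5) (nat_lit 344) (nat_lit 317) (nat_lit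 119)) (XT.nd (nat_lit 78) (nat_lit 0) (nat_lit 0) (XT.lf (nat_lit 0) (nat_lit 52508088896) (nat_lit 228) (nat_lit 71529715079) (nat_lit 304) (nat_lit 22048679423) (nat_lit 43) (nat_lit 5) (nat_lit 46) (nat_lit 5) (nat_lit 47) (nat_lit 5) (nat_lit 345) (nat_lit 317) (nat_lit 118)) (XT.lf (nat_lit 0) (nat_lit 124107851000) (nat_lit 228) (nat_lit 25061624530) (nat_lit 304) (nat_lit 1727227350) (nat_lit 43) (nat_lit 5) (nat_lit 46) (nat_lit 5) (nat_lit 47) (nat_lit 5) (nat_lit 346) (nat_lit 317) (nat_lit 117)))))) (XT.nd (nat_lit 390) (nat_lit 456) (nat_lit 0) (XT.nd (nat_lit 156) (nat_lit 380) (nat_lit 0) (XT.nd (nat_lit 78) (nat_lit 0) (nat_lit 0) (XT.lf (nat_lit 0) (nat_lit 20063334474) (nat_lit 228) (nat_lit 111827826819) (nat_lit 76) (nat_lit 23986929518) (nat_lit 40) (nat_lit 5) (nat_lit 43) (nat_lit 5) (nat_lit 41) (nat_lit 5) (nat_lit 347) (nat_lit 317) (nat_lit 116)) (XT.lf (nat_lit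 0) (nat_lit 43757062962) (nat_lit 228) (nat_lit 42171472851) (nat_lit 76) (nat_lit 75135012818) (nat_lit 40) (nat_lit 5) (nat_lit 43) (nat_lit 5) (nat_lit 41) (nat_lit 5) (nat_lit 348) (nat_lit 317) (nat_lit 115))) (XT.nd (nat_lit 78) (nat_lit 152) (nat_lit 0) (XT.lf (nat_lit 0) (nat_lit 31991243139) (nat_lit 228) (nat_lit 37143439936) (nat_lit 304) (nat_lit 97348636474) (nat_lit 37) (nat_lit 5) (nat_lit 40) (nat_lit 5) (nat_lit 41) (nat_lit 5) (nat_lit 349) (nat_lit 317) (nat_lit 114)) (XT.nd (nat_lit 78) (nat_lit 152) (nat_lit 0) (XT.lf (nat_lit 0) (nat_lit 96726666607) (nat_lit 304) (nat_lit 61044107623) (nat_lit 76) (nat_lit 14356031105) (nat_lit 37) (nat_lit 5) (nat_lit 41) (nat_lit 5) (nat_lit 38) (nat_lit 5) (nat_lit 350) (nat_lit 317) (nat_lit 113)) (XT.lf (nat_lit 0) (nat_lit 15978396379) (nat_lit 152) (nat_lit 110577979366) (nat_lit 228) (nat_lit 51453183769) (nat_lit 35)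 (nat_lit 5) (nat_lit 37) (nat_lit 5) (nat_lit 38) (nat_lit 5) (nat_lit 351) (nat_lit 317) (nat_lit 112))))) (XT.nd (nat_lit 156) (nat_lit 380) (nat_lit 0) (XT.nd (nat_lit 78) (nat_lit 76) (nat_lit 0) (XT.lf (nat_lit 0) (nat_lit 98970982168) (nat_lit 152) (nat_lit 59940156035) (nat_lit 228) (nat_lit 25223635210) (nat_lit 35) (nat_lit 5) (nat_lit 37) (nat_lit 5) (nat_lit 38) (nat_lit 5) (nat_lit 352) (nat_lit 317) (nat_lit 111)) (XT.lf (nat_lit 0) (nat_lit 2242983587) (nat_lit 228) (nat_lit 4489579890) (nat_lit 76) (nat_lit 183831887657) (nat_lit 34) (nat_lit 5) (nat_lit 37) (nat_lit 5) (nat_lit 35) (nat_lit 5) (nat_lit 353) (nat_lit 317) (nat_lit 110))) (XT.nd (nat_lit 78) (nat_lit 152) (nat_lit 0) (XT.lf (nat_lit 0) (nat_lit 32317217936) (nat_lit 304) (nat_lit 115582404707) (nat_lit 76) (nat_lit 49291217129) (nat_lit 31) (nat_lit 5) (nat_lit 35) (nat_lit 5) (nat_lit 32) (nat_lit 5)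 (nat_lit 354) (nat_lit 317) (nat_lit 109)) (XT.nd (nat_lit 78) (nat_lit 152) (nat_lit 0) (XT.lf (nat_lit 0) (nat_lit 64082592534) (nat_lit 304) (nat_lit 32089479543) (nat_lit 76) (nat_lit 107967104667) (nat_lit 31) (nat_lit 5) (nat_lit 35) (nat_lit 5) (nat_lit 32) (nat_lit 5) (nat_lit 355) (nat_lit 317) (nat_lit 108)) (XT.lf (nat_lit 0) (nat_lit 57415424141) (nat_lit 152) (nat_lit 40917016910) (nat_lit 228) (nat_lit 113057679573) (nat_lit 29) (nat_lit 5) (nat_lit 31) (nat_lit 5) (nat_lit 32) (nat_lit 5) (nat_lit 356) (nat_lit 317) (nat_lit 107))))))) (XT.nd (nat_lit 37674) (nat_lit 0) (nat_lit 4484) (XT.nd (nat_lit 390) (nat_lit 152) (nat_lit 0) (XT.nd (nat_lit 156) (nat_lit 228) (nat_lit 0) (XT.nd (nat_lit 78) (nat_lit 152) (nat_lit 0) (XT.lf (nat_lit 0) (nat_lit 135113926073) (nat_lit 228) (nat_lit 66743015756) (nat_lit 76) (nat_lit 17105712964) (nat_lit 29) (nat_lit 5) (nat_lit 32)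 (nat_lit 5) (nat_lit 30) (nat_lit 5) (nat_lit 357) (nat_lit 317) (nat_lit 106)) (XT.lf (nat_lit 0) (nat_lit 24978642625) (nat_lit 152) (nat_lit 149816402878) (nat_lit 228) (nat_lit 52065742447) (nat_lit 27) (nat_lit 5) (nat_lit 29) (nat_lit 5) (nat_lit 30) (nat_lit 5) (nat_lit 358) (nat_lit 317) (nat_lit 105))) (XT.nd (nat_lit 78) (nat_lit 228) (nat_lit 0) (XT.lf (nat_lit 0) (nat_lit 123603247524) (nat_lit 152) (nat_lit 93987106081) (nat_lit 228) (nat_lit 17506967798) (nat_lit 27) (nat_lit 5) (nat_lit 29) (nat_lit 5) (nat_lit 30) (nat_lit 5) (nat_lit 359) (nat_lit 317) (nat_lit 104)) (XT.nd (nat_lit 78) (nat_lit 152) (nat_lit 0) (XT.lf (nat_lit 0) (nat_lit 18178489786) (nat_lit 228) (nat_lit 16880098501) (nat_lit 76) (nat_lit 208672442600) (nat_lit 26) (nat_lit 5) (nat_lit 29) (nat_lit 5) (nat_lit 27) (nat_lit 5) (nat_lit 360) (nat_lit 317) (nat_lit 103)) (XT.lf (nat_lit 0) (nat_lit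 56830244092) (nat_lit 228) (nat_lit 168266475721) (nat_lit 76) (nat_lit 27596837655) (nat_lit 24) (nat_lit 5) (nat_lit 27) (nat_lit 5) (nat_lit 25) (nat_lit 5) (nat_lit 361) (nat_lit 317) (nat_lit 102))))) (XT.nd (nat_lit 156) (nat_lit 0) (nat_lit 0) (XT.nd (nat_lit 78) (nat_lit 152) (nat_lit 0) (XT.lf (nat_lit 0) (nat_lit 98279700913) (nat_lit 228) (nat_lit 71283958114) (nat_lit 76) (nat_lit 92497295836) (nat_lit 24) (nat_lit 5) (nat_lit 27) (nat_lit 5) (nat_lit 25) (nat_lit 5) (nat_lit 362) (nat_lit 317) (nat_lit 101)) (XT.lf (nat_lit 0) (nat_lit 31557450498) (nat_lit 152) (nat_lit 110736713435) (nat_lit 228) (nat_lit 129577931741) (nat_lit 22) (nat_lit 5) (nat_lit 24) (nat_lit 5) (nat_lit 25) (nat_lit 5) (nat_lit 363) (nat_lit 317) (nat_lit 100))) (XT.nd (nat_lit 78) (nat_lit 0) (nat_lit 0) (XT.lf (nat_lit 0) (nat_lit 142015481594) (nat_lit 152) (nat_lit 47700933742) (nat_lit 228)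 (nat_lit 92397025131) (nat_lit 22) (nat_lit 5) (nat_lit 24) (nat_lit 5) (nat_lit 25) (nat_lit 5) (nat_lit 364) (nat_lit 317) (nat_lit 99)) (XT.nd (nat_lit 36972) (nat_lit 0) (nat_lit 4484) (XT.lf (nat_lit 0) (nat_lit 239798250636) (nat_lit 228) (nat_lit 35159326207) (nat_lit 76) (nat_lit 17894852285) (nat_lit 22) (nat_lit 5) (nat_lit 25) (nat_lit 5) (nat_lit 23) (nat_lit 4) (nat_lit 365) (nat_lit 317) (nat_lit 98)) (XT.lf (nat_lit 0) (nat_lit 11250719775) (nat_lit 0) (nat_lit 11250719775) (nat_lit 684) (nat_lit 12204624209) (nat_lit 81) (nat_lit 5) (nat_lit 81) (nat_lit 3) (nat_lit 90) (nat_lit 3) (nat_lit 318) (nat_lit 318) (nat_lit 144)))))) (XT.nd (nat_lit 390) (nat_lit 0) (nat_lit 152) (XT.nd (nat_lit 156) (nat_lit 0) (nat_lit 0) (XT.nd (nat_lit 78) (nat_lit 0) (nat_lit 0) (XT.lf (nat_lit 0) (nat_lit 46275139719) (nat_lit 684) (nat_lit 16518492472) (nat_lit 760) (nat_lit 8346405993)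 (nat_lit 81) (nat_lit 5) (nat_lit 90) (nat_lit 3) (nat_lit 91) (nat_lit 5) (nat_lit 319) (nat_lit 318) (nat_lit 143)) (XT.lf (nat_lit 76) (nat_lit 15520746643) (nat_lit 0) (nat_lit 32700666828) (nat_lit 760) (nat_lit 24702413021) (nat_lit 82) (nat_lit 5) (nat_lit 81) (nat_lit 5) (nat_lit 91) (nat_lit 5) (nat_lit 320) (nat_lit 318) (nat_lit 142))) (XT.nd (nat_lit 78) (nat_lit 0) (nat_lit 76) (XT.lf (nat_lit 76) (nat_lit 49734988826) (nat_lit 0) (nat_lit 808993532) (nat_lit 760) (nat_lit 24238874803) (nat_lit 82) (nat_lit 5) (nat_lit 81) (nat_lit 5) (nat_lit 91) (nat_lit 5) (nat_lit 321) (nat_lit 318) (nat_lit 141)) (XT.nd (nat_lit 78) (nat_lit 0) (nat_lit 0) (XT.lf (nat_lit 76) (nat_lit 8692674164) (nat_lit 0) (nat_lit 44935180320) (nat_lit 760) (nat_lit 23074728062) (nat_lit 83) (nat_lit 5) (nat_lit 82) (nat_lit 5) (nat_lit 92) (nat_lit 5) (nat_lit 322) (nat_lit 318) (nat_lit 140))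 (XT.lf (nat_lit 76) (nat_lit 44975690245) (nat_lit 0) (nat_lit 12326777563) (nat_lit 760) (nat_lit 21394000841) (nat_lit 83) (nat_lit 5) (nat_lit 82) (nat_lit 5) (nat_lit 92) (nat_lit 5) (nat_lit 323) (nat_lit 318) (nat_lit 139))))) (XT.nd (nat_lit 156) (nat_lit 0) (nat_lit 76) (XT.nd (nat_lit 78) (nat_lit 0) (nat_lit 0) (XT.lf (nat_lit 76) (nat_lit 2004377195) (nat_lit 0) (nat_lit 59529175356) (nat_lit 760) (nat_lit 19237861212) (nat_lit 84) (nat_lit 5) (nat_lit 83) (nat_lit 5) (nat_lit 93) (nat_lit 5) (nat_lit 324) (nat_lit 318) (nat_lit 138)) (XT.lf (nat_lit 76) (nat_lit 40477272550) (nat_lit 0) (nat_lit 26268178253) (nat_lit 760) (nat_lit 16166194027) (nat_lit 84) (nat_lit 5) (nat_lit 83) (nat_lit 5) (nat_lit 93) (nat_lit 5) (nat_lit 325) (nat_lit 318) (nat_lit 137))) (XT.nd (nat_lit 78) (nat_lit 0) (nat_lit 0) (XT.lf (nat_lit 0) (nat_lit 72352481799) (nat_lit 684) (nat_lit 4420696719)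 (nat_lit 760) (nat_lit 8378983620) (nat_lit 84) (nat_lit 5) (nat_lit 93) (nat_lit 5) (nat_lit 94) (nat_lit 5) (nat_lit 326) (nat_lit 318) (nat_lit 136)) (XT.nd (nat_lit 78) (nat_lit 0) (nat_lit 0) (XT.lf (nat_lit 76) (nat_lit 36221907252) (nat_lit 0) (nat_lit 43013532698) (nat_lit 760) (nat_lit 8219488088) (nat_lit 85) (nat_lit 5) (nat_lit 84) (nat_lit 5) (nat_lit 94) (nat_lit 5) (nat_lit 327) (nat_lit 318) (nat_lit 135)) (XT.lf (nat_lit 76) (nat_lit 79049668660) (nat_lit 0) (nat_lit 7487188637) (nat_lit 760) (nat_lit 3332260804) (nat_lit 85) (nat_lit 5) (nat_lit 84) (nat_lit 5) (nat_lit 94) (nat_lit 5) (nat_lit 328) (nat_lit 318) (nat_lit 134))))))))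
noncomputable def xc240 : XT := (XT.nd (nat_lit 1482) (nat_lit 1596) (nat_lit 0) (XT.nd (nat_lit 702) (nat_lit 1064) (nat_lit 0) (XT.nd (nat_lit 312) (nat_lit 988) (nat_lit 0) (XT.nd (nat_lit 156) (nat_lit 380) (nat_lit 0) (XT.nd (nat_lit 78) (nat_lit 0) (nat_lit 0) (XT.lf (nat_lit 0) (nat_lit 2724971825) (nat_lit 760) (nat_lit 60220840022) (nat_lit 76) (nat_lit 29407640808) (nat_lit 75) (nat_lit 5) (nat_lit 85) (nat_lit 5) (nat_lit 76) (nat_lit 5) (nat_lit 329) (nat_lit 318) (nat_lit 133)) (XT.lf (nat_lit 0) (nat_lit 9281538645) (nat_lit 760) (nat_lit 17525777852) (nat_lit 76) (nat_lit 68136534400) (nat_lit 75) (nat_lit 5) (nat_lit 85) (nat_lit 5) (nat_lit 76) (nat_lit 5) (nat_lit 330) (nat_lit 318) (nat_lit 132))) (XT.nd (nat_lit 78) (nat_lit 0) (nat_lit 0) (XT.lf (nat_lit 0) (nat_lit 16786937283) (nat_lit 456) (nat_lit 69616521636) (nat_lit 76) (nat_lit 11229261136) (nat_lit 70)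 (nat_lit 5) (nat_lit 76) (nat_lit 5) (nat_lit 71) (nat_lit 5) (nat_lit 331) (nat_lit 318) (nat_lit 131)) (XT.lf (nat_lit 0) (nat_lit 25408266421) (nat_lit 456) (nat_lit 24442257736) (nat_lit 76) (nat_lit 50568476610) (nat_lit 70) (nat_lit 5) (nat_lit 76) (nat_lit 5) (nat_lit 71) (nat_lit 5) (nat_lit 332) (nat_lit 318) (nat_lit 130)))) (XT.nd (nat_lit 156) (nat_lit 608) (nat_lit 0) (XT.nd (nat_lit 78) (nat_lit 0) (nat_lit 0) (XT.lf (nat_lit 0) (nat_lit 23750439386) (nat_lit 380) (nat_lit 11080579395) (nat_lit 456) (nat_lit 68495059965) (nat_lit 65) (nat_lit 5) (nat_lit 70) (nat_lit 5) (nat_lit 71) (nat_lit 5) (nat_lit 333) (nat_lit 318) (nat_lit 129)) (XT.lf (nat_lit 0) (nat_lit 45607770855) (nat_lit 456) (nat_lit 31626280355) (nat_lit 76) (nat_lit 29100317328) (nat_lit 65) (nat_lit 5) (nat_lit 71) (nat_lit 5) (nat_lit 66) (nat_lit 5) (nat_lit 334) (nat_lit 318) (nat_lit 128))) (XT.nd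 (nat_lit 78) (nat_lit 304) (nat_lit 0) (XT.lf (nat_lit 0) (nat_lit 19151426559) (nat_lit 304) (nat_lit 38252171913) (nat_lit 380) (nat_lit 52065463421) (nat_lit 61) (nat_lit 5) (nat_lit 65) (nat_lit 5) (nat_lit 66) (nat_lit 5) (nat_lit 335) (nat_lit 318) (nat_lit 127)) (XT.nd (nat_lit 78) (nat_lit 304) (nat_lit 0) (XT.lf (nat_lit 0) (nat_lit 70375022357) (nat_lit 380) (nat_lit 39218751978) (nat_lit 76) (nat_lit 3137426260) (nat_lit 61) (nat_lit 5) (nat_lit 66) (nat_lit 5) (nat_lit 62) (nat_lit 5) (nat_lit 336) (nat_lit 318) (nat_lit 126)) (XT.lf (nat_lit 0) (nat_lit 14264102342) (nat_lit 304) (nat_lit 70580316297) (nat_lit 380) (nat_lit 31269558416) (nat_lit 57) (nat_lit 5) (nat_lit 61) (nat_lit 5) (nat_lit 62) (nat_lit 5) (nat_lit 337) (nat_lit 318) (nat_lit 125)))))) (XT.nd (nat_lit 390) (nat_lit 456) (nat_lit 0) (XT.nd (nat_lit 156) (nat_lit 380) (nat_lit 0) (XT.nd (nat_lit 78) (nat_lit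 228) (nat_lit 0) (XT.lf (nat_lit 0) (nat_lit 71782264032) (nat_lit 304) (nat_lit 28918834853) (nat_lit 380) (nat_lit 18931603581) (nat_lit 57) (nat_lit 5) (nat_lit 61) (nat_lit 5) (nat_lit 62) (nat_lit 5) (nat_lit 338) (nat_lit 318) (nat_lit 124)) (XT.lf (nat_lit 0) (nat_lit 8901998463) (nat_lit 228) (nat_lit 108818713605) (nat_lit 304) (nat_lit 5588147932) (nat_lit 54) (nat_lit 5) (nat_lit 57) (nat_lit 5) (nat_lit 58) (nat_lit 5) (nat_lit 339) (nat_lit 318) (nat_lit 123))) (XT.nd (nat_lit 78) (nat_lit 304) (nat_lit 0) (XT.lf (nat_lit 0) (nat_lit 9450289748) (nat_lit 304) (nat_lit 57594278381) (nat_lit 76) (nat_lit 60052814020) (nat_lit 53) (nat_lit 5) (nat_lit 57) (nat_lit 5) (nat_lit 54) (nat_lit 5) (nat_lit 340) (nat_lit 318) (nat_lit 122)) (XT.nd (nat_lit 78) (nat_lit 0) (nat_lit 0) (XT.lf (nat_lit 0) (nat_lit 2031955138) (nat_lit 304) (nat_lit 23052283968) (nat_lit 380) (nat_lit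 105984942129) (nat_lit 49) (nat_lit 5) (nat_lit 53) (nat_lit 5) (nat_lit 54) (nat_lit 5) (nat_lit 341) (nat_lit 318) (nat_lit 121)) (XT.lf (nat_lit 0) (nat_lit 42852209446) (nat_lit 380) (nat_lit 68929435871) (nat_lit 76) (nat_lit 23390309439) (nat_lit 49) (nat_lit 5) (nat_lit 54) (nat_lit 5) (nat_lit 50) (nat_lit 5) (nat_lit 342) (nat_lit 318) (nat_lit 120))))) (XT.nd (nat_lit 156) (nat_lit 228) (nat_lit 0) (XT.nd (nat_lit 78) (nat_lit 228) (nat_lit 0) (XT.lf (nat_lit 0) (nat_lit 61886172560) (nat_lit 380) (nat_lit 6194557087) (nat_lit 76) (nat_lit 71380258219) (nat_lit 49) (nat_lit 5) (nat_lit 54) (nat_lit 5) (nat_lit 50) (nat_lit 5) (nat_lit 343) (nat_lit 318) (nat_lit 119)) (XT.lf (nat_lit 0) (nat_lit 61649870641) (nat_lit 228) (nat_lit 21184193264) (nat_lit 304) (nat_lit 61082297817) (nat_lit 46) (nat_lit 5) (nat_lit 49) (nat_lit 5) (nat_lit 50) (nat_lit 5) (nat_lit 344) (nat_lit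 318) (nat_lit 118))) (XT.nd (nat_lit 78) (nat_lit 228) (nat_lit 0) (XT.lf (nat_lit 0) (nat_lit 105373738429) (nat_lit 304) (nat_lit 15927832491) (nat_lit 76) (nat_lit 27265714490) (nat_lit 46) (nat_lit 5) (nat_lit 50) (nat_lit 5) (nat_lit 47) (nat_lit 5) (nat_lit 345) (nat_lit 318) (nat_lit 117)) (XT.nd (nat_lit 78) (nat_lit 0) (nat_lit 0) (XT.lf (nat_lit 0) (nat_lit 55145099460) (nat_lit 228) (nat_lit 75103272368) (nat_lit 304) (nat_lit 23141985236) (nat_lit 43) (nat_lit 5) (nat_lit 46) (nat_lit 5) (nat_lit 47) (nat_lit 5) (nat_lit 346) (nat_lit 318) (nat_lit 116)) (XT.lf (nat_lit 0) (nat_lit 130324296997) (nat_lit 228) (nat_lit 26311916742) (nat_lit 304) (nat_lit 1804895234) (nat_lit 43) (nat_lit 5) (nat_lit 46) (nat_lit 5) (nat_lit 47) (nat_lit 5) (nat_lit 347) (nat_lit 318) (nat_lit 115))))))) (XT.nd (nat_lit 780) (nat_lit 532) (nat_lit 0) (XT.nd (nat_lit 390) (nat_lit 456) (nat_lit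 0) (XT.nd (nat_lit 156) (nat_lit 380) (nat_lit 0) (XT.nd (nat_lit 78) (nat_lit 0) (nat_lit 0) (XT.lf (nat_lit 0) (nat_lit 21074736454) (nat_lit 228) (nat_lit 117407677053) (nat_lit 76) (nat_lit 25189155723) (nat_lit 40) (nat_lit 5) (nat_lit 43) (nat_lit 5) (nat_lit 41) (nat_lit 5) (nat_lit 348) (nat_lit 318) (nat_lit 114)) (XT.lf (nat_lit 0) (nat_lit 45952759212) (nat_lit 228) (nat_lit 44269054963) (nat_lit 76) (nat_lit 78894506059) (nat_lit 40) (nat_lit 5) (nat_lit 43) (nat_lit 5) (nat_lit 41) (nat_lit 5) (nat_lit 349) (nat_lit 318) (nat_lit 113))) (XT.nd (nat_lit 78) (nat_lit 152) (nat_lit 0) (XT.lf (nat_lit 0) (nat_lit 33601619543) (nat_lit 228) (nat_lit 38997436147) (nat_lit 304) (nat_lit 102208034890) (nat_lit 37) (nat_lit 5) (nat_lit 40) (nat_lit 5) (nat_lit 41) (nat_lit 5) (nat_lit 350) (nat_lit 318) (nat_lit 112)) (XT.nd (nat_lit 78) (nat_lit 152) (nat_lit 0) (XT.lf (nat_lit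 0) (nat_lit 101570321885) (nat_lit 304) (nat_lit 64085684805) (nat_lit 76) (nat_lit 15076760414) (nat_lit 37) (nat_lit 5) (nat_lit 41) (nat_lit 5) (nat_lit 38) (nat_lit 5) (nat_lit 351) (nat_lit 318) (nat_lit 111)) (XT.lf (nat_lit 0) (nat_lit 16787772976) (nat_lit 152) (nat_lit 116103558100) (nat_lit 228) (nat_lit 54018337776) (nat_lit 35) (nat_lit 5) (nat_lit 37) (nat_lit 5) (nat_lit 38) (nat_lit 5) (nat_lit 352) (nat_lit 318) (nat_lit 110))))) (XT.nd (nat_lit 156) (nat_lit 380) (nat_lit 0) (XT.nd (nat_lit 78) (nat_lit 76) (nat_lit 0) (XT.lf (nat_lit 0) (nat_lit 103929490113) (nat_lit 152) (nat_lit 62934001708) (nat_lit 228) (nat_lit 26477669178) (nat_lit 35) (nat_lit 5) (nat_lit 37) (nat_lit 5) (nat_lit 38) (nat_lit 5) (nat_lit 353) (nat_lit 318) (nat_lit 109)) (XT.lf (nat_lit 0) (nat_lit 2361722308) (nat_lit 228) (nat_lit 4704346196) (nat_lit 76) (nat_lit 193026265507) (nat_lit 34)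 (nat_lit 5) (nat_lit 37) (nat_lit 5) (nat_lit 35) (nat_lit 5) (nat_lit 354) (nat_lit 318) (nat_lit 108))) (XT.nd (nat_lit 78) (nat_lit 152) (nat_lit 0) (XT.lf (nat_lit 0) (nat_lit 33939552667) (nat_lit 304) (nat_lit 121351686829) (nat_lit 76) (nat_lit 51758808854) (nat_lit 31) (nat_lit 5) (nat_lit 35) (nat_lit 5) (nat_lit 32) (nat_lit 5) (nat_lit 355) (nat_lit 318) (nat_lit 107)) (XT.nd (nat_lit 78) (nat_lit 152) (nat_lit 0) (XT.lf (nat_lit 0) (nat_lit 67292887718) (nat_lit 304) (nat_lit 33684583889) (nat_lit 76) (nat_lit 113368346442) (nat_lit 31) (nat_lit 5) (nat_lit 35) (nat_lit 5) (nat_lit 32) (nat_lit 5) (nat_lit 356) (nat_lit 318) (nat_lit 106)) (XT.lf (nat_lit 0) (nat_lit 60295413856) (nat_lit 152) (nat_lit 42959665133) (nat_lit 228) (nat_lit 118704238057) (nat_lit 29) (nat_lit 5) (nat_lit 31) (nat_lit 5) (nat_lit 32) (nat_lit 5) (nat_lit 357) (nat_lit 318) (nat_lit 105))))))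 (XT.nd (nat_lit 390) (nat_lit 152) (nat_lit 0) (XT.nd (nat_lit 156) (nat_lit 228) (nat_lit 0) (XT.nd (nat_lit 78) (nat_lit 152) (nat_lit 0) (XT.lf (nat_lit 0) (nat_lit 141875399413) (nat_lit 228) (nat_lit 70071139768) (nat_lit 76) (nat_lit 17963951106) (nat_lit 29) (nat_lit 5) (nat_lit 32) (nat_lit 5) (nat_lit 30) (nat_lit 5) (nat_lit 358) (nat_lit 318) (nat_lit 104)) (XT.lf (nat_lit 0) (nat_lit 26236455940) (nat_lit 152) (nat_lit 157303982439) (nat_lit 228) (nat_lit 54663098945) (nat_lit 27) (nat_lit 5) (nat_lit 29) (nat_lit 5) (nat_lit 30) (nat_lit 5) (nat_lit 359) (nat_lit 318) (nat_lit 103))) (XT.nd (nat_lit 78) (nat_lit 228) (nat_lit 0) (XT.lf (nat_lit 0) (nat_lit 129791868170) (nat_lit 152) (nat_lit 98683375115) (nat_lit 228) (nat_lit 18376667975) (nat_lit 27) (nat_lit 5) (nat_lit 29) (nat_lit 5) (nat_lit 30) (nat_lit 5) (nat_lit 360) (nat_lit 318) (nat_lit 102)) (XT.nd (nat_lit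 78) (nat_lit 152) (nat_lit 0) (XT.lf (nat_lit 0) (nat_lit 19092621356) (nat_lit 228) (nat_lit 17715868855) (nat_lit 76) (nat_lit 219108824960) (nat_lit 26) (nat_lit 5) (nat_lit 29) (nat_lit 5) (nat_lit 27) (nat_lit 5) (nat_lit 361) (nat_lit 318) (nat_lit 101)) (XT.lf (nat_lit 0) (nat_lit 59676889003) (nat_lit 228) (nat_lit 176671483984) (nat_lit 76) (nat_lit 28979599142) (nat_lit 24) (nat_lit 5) (nat_lit 27) (nat_lit 5) (nat_lit 25) (nat_lit 5) (nat_lit 362) (nat_lit 318) (nat_lit 100))))) (XT.nd (nat_lit 37206) (nat_lit 0) (nat_lit 4484) (XT.nd (nat_lit 78) (nat_lit 152) (nat_lit 0) (XT.lf (nat_lit 0) (nat_lit 103198574250) (nat_lit 228) (nat_lit 74840236475) (nat_lit 76) (nat_lit 97124941202) (nat_lit 24) (nat_lit 5) (nat_lit 27) (nat_lit 5) (nat_lit 25) (nat_lit 5) (nat_lit 363) (nat_lit 318) (nat_lit 99)) (XT.lf (nat_lit 0) (nat_lit 33143114833) (nat_lit 152) (nat_lit 116270534464)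 (nat_lit 228) (nat_lit 136051806336) (nat_lit 22) (nat_lit 5) (nat_lit 24) (nat_lit 5) (nat_lit 25) (nat_lit 5) (nat_lit 364) (nat_lit 318) (nat_lit 98))) (XT.nd (nat_lit 78) (nat_lit 0) (nat_lit 0) (XT.lf (nat_lit 0) (nat_lit 11819442237) (nat_lit 0) (nat_lit 11819442237) (nat_lit 684) (nat_lit 12801831249) (nat_lit 81) (nat_lit 5) (nat_lit 81) (nat_lit 3) (nat_lit 90) (nat_lit 3) (nat_lit 319) (nat_lit 319) (nat_lit 142)) (XT.nd (nat_lit 78) (nat_lit 0) (nat_lit 0) (XT.lf (nat_lit 0) (nat_lit 48612280244) (nat_lit 684) (nat_lit 17331208932) (nat_lit 760) (nat_lit 8752319688) (nat_lit 81) (nat_lit 5) (nat_lit 90) (nat_lit 3) (nat_lit 91) (nat_lit 5) (nat_lit 320) (nat_lit 319) (nat_lit 141)) (XT.lf (nat_lit 76) (nat_lit 16309779104) (nat_lit 0) (nat_lit 34345177968) (nat_lit 760) (nat_lit 25913878001) (nat_lit 82) (nat_lit 5) (nat_lit 81) (nat_lit 5) (nat_lit 91) (nat_lit 5) (nat_lit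 321) (nat_lit 319) (nat_lit 140))))))))
noncomputable def xc241 : XT := (XT.nd (nat_lit 1482) (nat_lit 2052) (nat_lit 0) (XT.nd (nat_lit 702) (nat_lit 1596) (nat_lit 0) (XT.nd (nat_lit 312) (nat_lit 456) (nat_lit 0) (XT.nd (nat_lit 156) (nat_lit 0) (nat_lit 76) (XT.nd (nat_lit 78) (nat_lit 0) (nat_lit 76) (XT.lf (nat_lit 76) (nat_lit 52234114581) (nat_lit 0) (nat_lit 858469684) (nat_lit 760) (nat_lit 25428289332) (nat_lit 82) (nat_lit 5) (nat_lit 81) (nat_lit 5) (nat_lit 91) (nat_lit 5) (nat_lit 322) (nat_lit 319) (nat_lit 139)) (XT.lf (nat_lit 76) (nat_lit 9140731477) (nat_lit 0) (nat_lit 47188974701) (nat_lit 760) (nat_lit 24206928943) (nat_lit 83) (nat_lit 5) (nat_lit 82) (nat_lit 5) (nat_lit 92) (nat_lit 5) (nat_lit 323) (nat_lit 319) (nat_lit 138))) (XT.nd (nat_lit 78) (nat_lit 0) (nat_lit 76) (XT.lf (nat_lit 76) (nat_lit 47237259144) (nat_lit 0) (nat_lit 12949816789) (nat_lit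 760) (nat_lit 22443190862) (nat_lit 83) (nat_lit 5) (nat_lit 82) (nat_lit 5) (nat_lit 92) (nat_lit 5) (nat_lit 324) (nat_lit 319) (nat_lit 137)) (XT.lf (nat_lit 76) (nat_lit 2118285915) (nat_lit 0) (nat_lit 62510615260) (nat_lit 760) (nat_lit 20180101107) (nat_lit 84) (nat_lit 5) (nat_lit 83) (nat_lit 5) (nat_lit 93) (nat_lit 5) (nat_lit 325) (nat_lit 319) (nat_lit 136)))) (XT.nd (nat_lit 156) (nat_lit 608) (nat_lit 0) (XT.nd (nat_lit 78) (nat_lit 0) (nat_lit 76) (XT.lf (nat_lit 76) (nat_lit 42514174139) (nat_lit 0) (nat_lit 27586331105) (nat_lit 760) (nat_lit 16955786427) (nat_lit 84) (nat_lit 5) (nat_lit 83) (nat_lit 5) (nat_lit 93) (nat_lit 5) (nat_lit 326) (nat_lit 319) (nat_lit 135)) (XT.lf (nat_lit 0) (nat_lit 75986970494) (nat_lit 684) (nat_lit 4628353053) (nat_lit 760) (nat_lit 8793559369) (nat_lit 84) (nat_lit 5) (nat_lit 93) (nat_lit 5) (nat_lit 94) (nat_lit 5) (nat_lit 327)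 (nat_lit 319) (nat_lit 134))) (XT.nd (nat_lit 78) (nat_lit 684) (nat_lit 0) (XT.lf (nat_lit 76) (nat_lit 38046165335) (nat_lit 0) (nat_lit 45167313648) (nat_lit 760) (nat_lit 8613340105) (nat_lit 85) (nat_lit 5) (nat_lit 84) (nat_lit 5) (nat_lit 94) (nat_lit 5) (nat_lit 328) (nat_lit 319) (nat_lit 133)) (XT.nd (nat_lit 78) (nat_lit 684) (nat_lit 0) (XT.lf (nat_lit 76) (nat_lit 83014688018) (nat_lit 0) (nat_lit 7864504559) (nat_lit 760) (nat_lit 3482566809) (nat_lit 85) (nat_lit 5) (nat_lit 84) (nat_lit 5) (nat_lit 94) (nat_lit 5) (nat_lit 329) (nat_lit 319) (nat_lit 132)) (XT.lf (nat_lit 0) (nat_lit 2876418331) (nat_lit 760) (nat_lit 63218162604) (nat_lit 76) (nat_lit 30875748178) (nat_lit 75) (nat_lit 5) (nat_lit 85) (nat_lit 5) (nat_lit 76) (nat_lit 5) (nat_lit 330) (nat_lit 319) (nat_lit 131)))))) (XT.nd (nat_lit 390) (nat_lit 836) (nat_lit 0) (XT.nd (nat_lit 156) (nat_lit 380) (nat_lit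 0) (XT.nd (nat_lit 78) (nat_lit 380) (nat_lit 0) (XT.lf (nat_lit 0) (nat_lit 9760089781) (nat_lit 760) (nat_lit 18389000631) (nat_lit 76) (nat_lit 71541194766) (nat_lit 75) (nat_lit 5) (nat_lit 85) (nat_lit 5) (nat_lit 76) (nat_lit 5) (nat_lit 331) (nat_lit 319) (nat_lit 130)) (XT.lf (nat_lit 0) (nat_lit 17640252165) (nat_lit 456) (nat_lit 73083742510) (nat_lit 76) (nat_lit 11789630075) (nat_lit 70) (nat_lit 5) (nat_lit 76) (nat_lit 5) (nat_lit 71) (nat_lit 5) (nat_lit 332) (nat_lit 319) (nat_lit 129))) (XT.nd (nat_lit 78) (nat_lit 380) (nat_lit 0) (XT.lf (nat_lit 0) (nat_lit 26691982616) (nat_lit 456) (nat_lit 25651413281) (nat_lit 76) (nat_lit 53095858423) (nat_lit 70) (nat_lit 5) (nat_lit 76) (nat_lit 5) (nat_lit 71) (nat_lit 5) (nat_lit 333) (nat_lit 319) (nat_lit 128)) (XT.nd (nat_lit 78) (nat_lit 0) (nat_lit 0) (XT.lf (nat_lit 0) (nat_lit 24950709707) (nat_lit 380) (nat_lit 11634728454)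 (nat_lit 456) (nat_lit 71906271252) (nat_lit 65) (nat_lit 5) (nat_lit 70) (nat_lit 5) (nat_lit 71) (nat_lit 5) (nat_lit 334) (nat_lit 319) (nat_lit 127)) (XT.lf (nat_lit 0) (nat_lit 47900413270) (nat_lit 456) (nat_lit 33194810090) (nat_lit 76) (nat_lit 30555222484) (nat_lit 65) (nat_lit 5) (nat_lit 71) (nat_lit 5) (nat_lit 66) (nat_lit 5) (nat_lit 335) (nat_lit 319) (nat_lit 126))))) (XT.nd (nat_lit 156) (nat_lit 532) (nat_lit 0) (XT.nd (nat_lit 78) (nat_lit 0) (nat_lit 0) (XT.lf (nat_lit 0) (nat_lit 20121575972) (nat_lit 304) (nat_lit 40164069159) (nat_lit 380) (nat_lit 54656249447) (nat_lit 61) (nat_lit 5) (nat_lit 65) (nat_lit 5) (nat_lit 66) (nat_lit 5) (nat_lit 336) (nat_lit 319) (nat_lit 125)) (XT.lf (nat_lit 0) (nat_lit 73905085704) (nat_lit 380) (nat_lit 41167130160) (nat_lit 76) (nat_lit 3294953366) (nat_lit 61) (nat_lit 5) (nat_lit 66) (nat_lit 5) (nat_lit 62) (nat_lit 5)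 (nat_lit 337) (nat_lit 319) (nat_lit 124))) (XT.nd (nat_lit 78) (nat_lit 228) (nat_lit 0) (XT.lf (nat_lit 0) (nat_lit 14989664305) (nat_lit 304) (nat_lit 74107941742) (nat_lit 380) (nat_lit 32821496980) (nat_lit 57) (nat_lit 5) (nat_lit 61) (nat_lit 5) (nat_lit 62) (nat_lit 5) (nat_lit 338) (nat_lit 319) (nat_lit 123)) (XT.nd (nat_lit 78) (nat_lit 228) (nat_lit 0) (XT.lf (nat_lit 0) (nat_lit 75383145658) (nat_lit 304) (nat_lit 30363452435) (nat_lit 380) (nat_lit 19867193896) (nat_lit 57) (nat_lit 5) (nat_lit 61) (nat_lit 5) (nat_lit 62) (nat_lit 5) (nat_lit 339) (nat_lit 319) (nat_lit 122)) (XT.lf (nat_lit 0) (nat_lit 9359193457) (nat_lit 228) (nat_lit 114257709659) (nat_lit 304) (nat_lit 5856869839) (nat_lit 54) (nat_lit 5) (nat_lit 57) (nat_lit 5) (nat_lit 58) (nat_lit 5) (nat_lit 340) (nat_lit 319) (nat_lit 121))))))) (XT.nd (nat_lit 780) (nat_lit 988) (nat_lit 0) (XT.nd (nat_lit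 390) (nat_lit 456) (nat_lit 0) (XT.nd (nat_lit 156) (nat_lit 228) (nat_lit 0) (XT.nd (nat_lit 78) (nat_lit 304) (nat_lit 0) (XT.lf (nat_lit 0) (nat_lit 9932655176) (nat_lit 304) (nat_lit 60462127265) (nat_lit 76) (nat_lit 63056956065) (nat_lit 53) (nat_lit 5) (nat_lit 57) (nat_lit 5) (nat_lit 54) (nat_lit 5) (nat_lit 341) (nat_lit 319) (nat_lit 120)) (XT.lf (nat_lit 0) (nat_lit 2145226558) (nat_lit 304) (nat_lit 24202788610) (nat_lit 380) (nat_lit 111274127683) (nat_lit 49) (nat_lit 5) (nat_lit 53) (nat_lit 5) (nat_lit 54) (nat_lit 5) (nat_lit 342) (nat_lit 319) (nat_lit 119))) (XT.nd (nat_lit 78) (nat_lit 228) (nat_lit 0) (XT.lf (nat_lit 0) (nat_lit 45003959959) (nat_lit 380) (nat_lit 72364347500) (nat_lit 76) (nat_lit 24561769708) (nat_lit 49) (nat_lit 5) (nat_lit 54) (nat_lit 5) (nat_lit 50) (nat_lit 5) (nat_lit 343) (nat_lit 319) (nat_lit 118)) (XT.nd (nat_lit 78) (nat_lit 228)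 (nat_lit 0) (XT.lf (nat_lit 0) (nat_lit 64989185989) (nat_lit 380) (nat_lit 6493275261) (nat_lit 76) (nat_lit 74951123318) (nat_lit 49) (nat_lit 5) (nat_lit 54) (nat_lit 5) (nat_lit 50) (nat_lit 5) (nat_lit 344) (nat_lit 319) (nat_lit 117)) (XT.lf (nat_lit 0) (nat_lit 64743196278) (nat_lit 228) (nat_lit 22241030229) (nat_lit 304) (nat_lit 64127513711) (nat_lit 46) (nat_lit 5) (nat_lit 49) (nat_lit 5) (nat_lit 50) (nat_lit 5) (nat_lit 345) (nat_lit 319) (nat_lit 116))))) (XT.nd (nat_lit 156) (nat_lit 228) (nat_lit 0) (XT.nd (nat_lit 78) (nat_lit 228) (nat_lit 0) (XT.lf (nat_lit 0) (nat_lit 110650517208) (nat_lit 304) (nat_lit 16713524448) (nat_lit 76) (nat_lit 28631187603) (nat_lit 46) (nat_lit 5) (nat_lit 50) (nat_lit 5) (nat_lit 47) (nat_lit 5) (nat_lit 346) (nat_lit 319) (nat_lit 115)) (XT.lf (nat_lit 0) (nat_lit 57912881526) (nat_lit 228) (nat_lit 78855779783) (nat_lit 304) (nat_lit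 24290804989) (nat_lit 43) (nat_lit 5) (nat_lit 46) (nat_lit 5) (nat_lit 47) (nat_lit 5) (nat_lit 347) (nat_lit 319) (nat_lit 114))) (XT.nd (nat_lit 78) (nat_lit 228) (nat_lit 0) (XT.lf (nat_lit 0) (nat_lit 136850537650) (nat_lit 228) (nat_lit 27624982861) (nat_lit 304) (nat_lit 1887254750) (nat_lit 43) (nat_lit 5) (nat_lit 46) (nat_lit 5) (nat_lit 47) (nat_lit 5) (nat_lit 348) (nat_lit 319) (nat_lit 113)) (XT.nd (nat_lit 78) (nat_lit 0) (nat_lit 0) (XT.lf (nat_lit 0) (nat_lit 22135942898) (nat_lit 228) (nat_lit 123267592782) (nat_lit 76) (nat_lit 26451225509) (nat_lit 40) (nat_lit 5) (nat_lit 43) (nat_lit 5) (nat_lit 41) (nat_lit 5) (nat_lit 349) (nat_lit 319) (nat_lit 112)) (XT.lf (nat_lit 0) (nat_lit 48257511097) (nat_lit 228) (nat_lit 46472538070) (nat_lit 76) (nat_lit 82841718980) (nat_lit 40) (nat_lit 5) (nat_lit 43) (nat_lit 5) (nat_lit 41) (nat_lit 5) (nat_lit 350) (nat_lit 319)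 (nat_lit 111)))))) (XT.nd (nat_lit 390) (nat_lit 532) (nat_lit 0) (XT.nd (nat_lit 156) (nat_lit 228) (nat_lit 0) (XT.nd (nat_lit 78) (nat_lit 0) (nat_lit 0) (XT.lf (nat_lit 0) (nat_lit 35291509361) (nat_lit 228) (nat_lit 40944427423) (nat_lit 304) (nat_lit 107311150098) (nat_lit 37) (nat_lit 5) (nat_lit 40) (nat_lit 5) (nat_lit 41) (nat_lit 5) (nat_lit 351) (nat_lit 319) (nat_lit 110)) (XT.lf (nat_lit 0) (nat_lit 106655479201) (nat_lit 304) (nat_lit 67280328954) (nat_lit 76) (nat_lit 15833253993) (nat_lit 37) (nat_lit 5) (nat_lit 41) (nat_lit 5) (nat_lit 38) (nat_lit 5) (nat_lit 352) (nat_lit 319) (nat_lit 109))) (XT.nd (nat_lit 78) (nat_lit 76) (nat_lit 0) (XT.lf (nat_lit 0) (nat_lit 17636646230) (nat_lit 152) (nat_lit 121905724454) (nat_lit 228) (nat_lit 56712447244) (nat_lit 35) (nat_lit 5) (nat_lit 37) (nat_lit 5) (nat_lit 38) (nat_lit 5) (nat_lit 353) (nat_lit 319) (nat_lit 108))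 (XT.nd (nat_lit 78) (nat_lit 76) (nat_lit 0) (XT.lf (nat_lit 0) (nat_lit 109134997576) (nat_lit 152) (nat_lit 66077833650) (nat_lit 228) (nat_lit 27795069379) (nat_lit 35) (nat_lit 5) (nat_lit 37) (nat_lit 5) (nat_lit 38) (nat_lit 5) (nat_lit 354) (nat_lit 319) (nat_lit 107)) (XT.lf (nat_lit 0) (nat_lit 2485785331) (nat_lit 228) (nat_lit 4930753810) (nat_lit 76) (nat_lit 202680103469) (nat_lit 34) (nat_lit 5) (nat_lit 37) (nat_lit 5) (nat_lit 35) (nat_lit 5) (nat_lit 355) (nat_lit 319) (nat_lit 106))))) (XT.nd (nat_lit 156) (nat_lit 304) (nat_lit 0) (XT.nd (nat_lit 78) (nat_lit 0) (nat_lit 0) (XT.lf (nat_lit 0) (nat_lit 35642402260) (nat_lit 304) (nat_lit 127410347712) (nat_lit 76) (nat_lit 54349498384) (nat_lit 31) (nat_lit 5) (nat_lit 35) (nat_lit 5) (nat_lit 32) (nat_lit 5) (nat_lit 356) (nat_lit 319) (nat_lit 105)) (XT.lf (nat_lit 0) (nat_lit 70663124446) (nat_lit 304) (nat_lit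 35360314552) (nat_lit 76) (nat_lit 119039381942) (nat_lit 31) (nat_lit 5) (nat_lit 35) (nat_lit 5) (nat_lit 32) (nat_lit 5) (nat_lit 357) (nat_lit 319) (nat_lit 104))) (XT.nd (nat_lit 78) (nat_lit 152) (nat_lit 0) (XT.lf (nat_lit 0) (nat_lit 63318546008) (nat_lit 152) (nat_lit 45104743517) (nat_lit 228) (nat_lit 124633712550) (nat_lit 29) (nat_lit 5) (nat_lit 31) (nat_lit 5) (nat_lit 32) (nat_lit 5) (nat_lit 358) (nat_lit 319) (nat_lit 103)) (XT.nd (nat_lit 78) (nat_lit 152) (nat_lit 0) (XT.lf (nat_lit 0) (nat_lit 148974409325) (nat_lit 228) (nat_lit 73566509205) (nat_lit 76) (nat_lit 18864826660) (nat_lit 29) (nat_lit 5) (nat_lit 32) (nat_lit 5) (nat_lit 30) (nat_lit 5) (nat_lit 359) (nat_lit 319) (nat_lit 102)) (XT.lf (nat_lit 0) (nat_lit 27556334231) (nat_lit 152) (nat_lit 165166242255) (nat_lit 228) (nat_lit 57390874642) (nat_lit 27) (nat_lit 5) (nat_lit 29) (nat_lit 5) (nat_lit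 30) (nat_lit 5) (nat_lit 360) (nat_lit 319) (nat_lit 101))))))))
noncomputable def xc242 : XT := (XT.nd (nat_lit 38688) (nat_lit 0) (nat_lit 836) (XT.nd (nat_lit 37908) (nat_lit 0) (nat_lit 3116) (XT.nd (nat_lit 37518) (nat_lit 0) (nat_lit 4332) (XT.nd (nat_lit 156) (nat_lit 152) (nat_lit 0) (XT.nd (nat_lit 78) (nat_lit 76) (nat_lit 0) (XT.lf (nat_lit 0) (nat_lit 136289133478) (nat_lit 152) (nat_lit 103614744532) (nat_lit 228) (nat_lit 19290378278) (nat_lit 27) (nat_lit 5) (nat_lit 29) (nat_lit 5) (nat_lit 30) (nat_lit 5) (nat_lit 361) (nat_lit 319) (nat_lit 100)) (XT.lf (nat_lit 0) (nat_lit 20051975400) (nat_lit 228) (nat_lit 18594193300) (nat_lit 76) (nat_lit 230066769817) (nat_lit 26) (nat_lit 5) (nat_lit 29) (nat_lit 5) (nat_lit 27) (nat_lit 5) (nat_lit 362) (nat_lit 319) (nat_lit 99))) (XT.nd (nat_lit 37284) (nat_lit 0) (nat_lit 4332) (XT.lf (nat_lit 0) (nat_lit 62665388969) (nat_lit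 228) (nat_lit 185497515759) (nat_lit 76) (nat_lit 30431227266) (nat_lit 24) (nat_lit 5) (nat_lit 27) (nat_lit 5) (nat_lit 25) (nat_lit 5) (nat_lit 363) (nat_lit 319) (nat_lit 98)) (XT.lf (nat_lit 0) (nat_lit 12416025663) (nat_lit 0) (nat_lit 12416025663) (nat_lit 684) (nat_lit 13430109504) (nat_lit 81) (nat_lit 5) (nat_lit 81) (nat_lit 3) (nat_lit 90) (nat_lit 3) (nat_lit 320) (nat_lit 320) (nat_lit 140)))) (XT.nd (nat_lit 156) (nat_lit 0) (nat_lit 0) (XT.nd (nat_lit 78) (nat_lit 0) (nat_lit 0) (XT.lf (nat_lit 0) (nat_lit 51064103816) (nat_lit 684) (nat_lit 18185789184) (nat_lit 760) (nat_lit 9179589546) (nat_lit 81) (nat_lit 5) (nat_lit 90) (nat_lit 3) (nat_lit 91) (nat_lit 5) (nat_lit 321) (nat_lit 320) (nat_lit 139)) (XT.lf (nat_lit 76) (nat_lit 17137055025) (nat_lit 0) (nat_lit 36071033510) (nat_lit 760) (nat_lit 27188115509) (nat_lit 82) (nat_lit 5) (nat_lit 81) (nat_lit 5) (nat_lit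 91) (nat_lit 5) (nat_lit 322) (nat_lit 320) (nat_lit 138))) (XT.nd (nat_lit 78) (nat_lit 0) (nat_lit 76) (XT.lf (nat_lit 76) (nat_lit 54857045991) (nat_lit 0) (nat_lit 909580447) (nat_lit 760) (nat_lit 26679269140) (nat_lit 82) (nat_lit 5) (nat_lit 81) (nat_lit 5) (nat_lit 91) (nat_lit 5) (nat_lit 323) (nat_lit 320) (nat_lit 137)) (XT.nd (nat_lit 78) (nat_lit 0) (nat_lit 0) (XT.lf (nat_lit 76) (nat_lit 9609943657) (nat_lit 0) (nat_lit 49554804720) (nat_lit 760) (nat_lit 25397742036) (nat_lit 83) (nat_lit 5) (nat_lit 82) (nat_lit 5) (nat_lit 92) (nat_lit 5) (nat_lit 324) (nat_lit 320) (nat_lit 136)) (XT.lf (nat_lit 76) (nat_lit 49610717916) (nat_lit 0) (nat_lit 13603385041) (nat_lit 760) (nat_lit 23546747211) (nat_lit 83) (nat_lit 5) (nat_lit 82) (nat_lit 5) (nat_lit 92) (nat_lit 5) (nat_lit 325) (nat_lit 320) (nat_lit 135)))))) (XT.nd (nat_lit 390) (nat_lit 1368) (nat_lit 0) (XT.nd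 (nat_lit 156) (nat_lit 0) (nat_lit 76) (XT.nd (nat_lit 78) (nat_lit 0) (nat_lit 0) (XT.lf (nat_lit 76) (nat_lit 2236617318) (nat_lit 0) (nat_lit 65640664061) (nat_lit 760) (nat_lit 21171280161) (nat_lit 84) (nat_lit 5) (nat_lit 83) (nat_lit 5) (nat_lit 93) (nat_lit 5) (nat_lit 326) (nat_lit 320) (nat_lit 134)) (XT.lf (nat_lit 76) (nat_lit 44651708663) (nat_lit 0) (nat_lit 28969950554) (nat_lit 760) (nat_lit 17786598604) (nat_lit 84) (nat_lit 5) (nat_lit 83) (nat_lit 5) (nat_lit 93) (nat_lit 5) (nat_lit 327) (nat_lit 320) (nat_lit 133))) (XT.nd (nat_lit 78) (nat_lit 0) (nat_lit 0) (XT.lf (nat_lit 0) (nat_lit 79801615713) (nat_lit 684) (nat_lit 4847636009) (nat_lit 760) (nat_lit 9229270506) (nat_lit 84) (nat_lit 5) (nat_lit 93) (nat_lit 5) (nat_lit 94) (nat_lit 5) (nat_lit 328) (nat_lit 320) (nat_lit 132)) (XT.nd (nat_lit 78) (nat_lit 0) (nat_lit 0) (XT.lf (nat_lit 76) (nat_lit 39960412577)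 (nat_lit 0) (nat_lit 47428495036) (nat_lit 760) (nat_lit 9028476601) (nat_lit 85) (nat_lit 5) (nat_lit 84) (nat_lit 5) (nat_lit 94) (nat_lit 5) (nat_lit 329) (nat_lit 320) (nat_lit 131)) (XT.lf (nat_lit 76) (nat_lit 87176792871) (nat_lit 0) (nat_lit 8260411412) (nat_lit 760) (nat_lit 3641904188) (nat_lit 85) (nat_lit 5) (nat_lit 84) (nat_lit 5) (nat_lit 94) (nat_lit 5) (nat_lit 330) (nat_lit 320) (nat_lit 130))))) (XT.nd (nat_lit 156) (nat_lit 760) (nat_lit 0) (XT.nd (nat_lit 78) (nat_lit 0) (nat_lit 0) (XT.lf (nat_lit 0) (nat_lit 3034024204) (nat_lit 760) (nat_lit 66366626816) (nat_lit 76) (nat_lit 32417472393) (nat_lit 75) (nat_lit 5) (nat_lit 85) (nat_lit 5) (nat_lit 76) (nat_lit 5) (nat_lit 331) (nat_lit 320) (nat_lit 129)) (XT.lf (nat_lit 0) (nat_lit 10261222801) (nat_lit 760) (nat_lit 19296599312) (nat_lit 76) (nat_lit 75116289558) (nat_lit 75) (nat_lit 5) (nat_lit 85) (nat_lit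 5) (nat_lit 76) (nat_lit 5) (nat_lit 332) (nat_lit 320) (nat_lit 128))) (XT.nd (nat_lit 78) (nat_lit 380) (nat_lit 0) (XT.lf (nat_lit 0) (nat_lit 18534934177) (nat_lit 456) (nat_lit 76725589311) (nat_lit 76) (nat_lit 12378119181) (nat_lit 70) (nat_lit 5) (nat_lit 76) (nat_lit 5) (nat_lit 71) (nat_lit 5) (nat_lit 333) (nat_lit 320) (nat_lit 127)) (XT.nd (nat_lit 78) (nat_lit 380) (nat_lit 0) (XT.lf (nat_lit 0) (nat_lit 28038647846) (nat_lit 456) (nat_lit 26922231255) (nat_lit 76) (nat_lit 55749706204) (nat_lit 70) (nat_lit 5) (nat_lit 76) (nat_lit 5) (nat_lit 71) (nat_lit 5) (nat_lit 334) (nat_lit 320) (nat_lit 126)) (XT.lf (nat_lit 0) (nat_lit 26209808323) (nat_lit 380) (nat_lit 12216573802) (nat_lit 456) (nat_lit 75489302083) (nat_lit 65) (nat_lit 5) (nat_lit 70) (nat_lit 5) (nat_lit 71) (nat_lit 5) (nat_lit 335) (nat_lit 320) (nat_lit 125))))))) (XT.nd (nat_lit 780) (nat_lit 1064)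 (nat_lit 0) (XT.nd (nat_lit 390) (nat_lit 608) (nat_lit 0) (XT.nd (nat_lit 156) (nat_lit 304) (nat_lit 0) (XT.nd (nat_lit 78) (nat_lit 304) (nat_lit 0) (XT.lf (nat_lit 0) (nat_lit 50306548558) (nat_lit 456) (nat_lit 34842954874) (nat_lit 76) (nat_lit 32082883190) (nat_lit 65) (nat_lit 5) (nat_lit 71) (nat_lit 5) (nat_lit 66) (nat_lit 5) (nat_lit 336) (nat_lit 320) (nat_lit 124)) (XT.lf (nat_lit 0) (nat_lit 21139063464) (nat_lit 304) (nat_lit 42171627401) (nat_lit 380) (nat_lit 57377735712) (nat_lit 61) (nat_lit 5) (nat_lit 65) (nat_lit 5) (nat_lit 66) (nat_lit 5) (nat_lit 337) (nat_lit 320) (nat_lit 123))) (XT.nd (nat_lit 78) (nat_lit 304) (nat_lit 0) (XT.lf (nat_lit 0) (nat_lit 77610600515) (nat_lit 380) (nat_lit 43214094906) (nat_lit 76) (nat_lit 3460295858) (nat_lit 61) (nat_lit 5) (nat_lit 66) (nat_lit 5) (nat_lit 62) (nat_lit 5) (nat_lit 338) (nat_lit 320) (nat_lit 122)) (XT.nd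 (nat_lit 78) (nat_lit 0) (nat_lit 0) (XT.lf (nat_lit 0) (nat_lit 15750355544) (nat_lit 304) (nat_lit 77812077723) (nat_lit 380) (nat_lit 34452105292) (nat_lit 57) (nat_lit 5) (nat_lit 61) (nat_lit 5) (nat_lit 62) (nat_lit 5) (nat_lit 339) (nat_lit 320) (nat_lit 121)) (XT.lf (nat_lit 0) (nat_lit 79162977250) (nat_lit 304) (nat_lit 31880424003) (nat_lit 380) (nat_lit 20850585461) (nat_lit 57) (nat_lit 5) (nat_lit 61) (nat_lit 5) (nat_lit 62) (nat_lit 5) (nat_lit 340) (nat_lit 320) (nat_lit 120))))) (XT.nd (nat_lit 156) (nat_lit 304) (nat_lit 0) (XT.nd (nat_lit 78) (nat_lit 76) (nat_lit 0) (XT.lf (nat_lit 0) (nat_lit 9838123716) (nat_lit 228) (nat_lit 119968835844) (nat_lit 304) (nat_lit 6140021276) (nat_lit 54) (nat_lit 5) (nat_lit 57) (nat_lit 5) (nat_lit 58) (nat_lit 5) (nat_lit 341) (nat_lit 320) (nat_lit 119)) (XT.lf (nat_lit 0) (nat_lit 10438223028) (nat_lit 304) (nat_lit 63474471693)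 (nat_lit 76) (nat_lit 66211165632) (nat_lit 53) (nat_lit 5) (nat_lit 57) (nat_lit 5) (nat_lit 54) (nat_lit 5) (nat_lit 342) (nat_lit 320) (nat_lit 118))) (XT.nd (nat_lit 78) (nat_lit 0) (nat_lit 0) (XT.lf (nat_lit 0) (nat_lit 2263076242) (nat_lit 304) (nat_lit 25411014611) (nat_lit 380) (nat_lit 116828707942) (nat_lit 49) (nat_lit 5) (nat_lit 53) (nat_lit 5) (nat_lit 54) (nat_lit 5) (nat_lit 343) (nat_lit 320) (nat_lit 117)) (XT.nd (nat_lit 78) (nat_lit 0) (nat_lit 0) (XT.lf (nat_lit 0) (nat_lit 47262448243) (nat_lit 380) (nat_lit 75972079465) (nat_lit 76) (nat_lit 25791622182) (nat_lit 49) (nat_lit 5) (nat_lit 54) (nat_lit 5) (nat_lit 50) (nat_lit 5) (nat_lit 344) (nat_lit 320) (nat_lit 116)) (XT.lf (nat_lit 0) (nat_lit 68246540799) (nat_lit 380) (nat_lit 6807952919) (nat_lit 76) (nat_lit 78700359472) (nat_lit 49) (nat_lit 5) (nat_lit 54) (nat_lit 5) (nat_lit 50) (nat_lit 5) (nat_lit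 345) (nat_lit 320) (nat_lit 115)))))) (XT.nd (nat_lit 390) (nat_lit 380) (nat_lit 0) (XT.nd (nat_lit 156) (nat_lit 456) (nat_lit 0) (XT.nd (nat_lit 78) (nat_lit 0) (nat_lit 0) (XT.lf (nat_lit 0) (nat_lit 67990181130) (nat_lit 228) (nat_lit 23350929633) (nat_lit 304) (nat_lit 67325817744) (nat_lit 46) (nat_lit 5) (nat_lit 49) (nat_lit 5) (nat_lit 50) (nat_lit 5) (nat_lit 346) (nat_lit 320) (nat_lit 114)) (XT.lf (nat_lit 0) (nat_lit 116190382622) (nat_lit 304) (nat_lit 17539495756) (nat_lit 76) (nat_lit 30064731008) (nat_lit 46) (nat_lit 5) (nat_lit 50) (nat_lit 5) (nat_lit 47) (nat_lit 5) (nat_lit 347) (nat_lit 320) (nat_lit 113))) (XT.nd (nat_lit 78) (nat_lit 228) (nat_lit 0) (XT.lf (nat_lit 0) (nat_lit 60818073985) (nat_lit 228) (nat_lit 82796159517) (nat_lit 304) (nat_lit 25497835481) (nat_lit 43) (nat_lit 5) (nat_lit 46) (nat_lit 5) (nat_lit 47) (nat_lit 5) (nat_lit 348) (nat_lit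 320) (nat_lit 112)) (XT.nd (nat_lit 78) (nat_lit 228) (nat_lit 0) (XT.lf (nat_lit 0) (nat_lit 143702158231) (nat_lit 228) (nat_lit 29003937476) (nat_lit 304) (nat_lit 1974465337) (nat_lit 43) (nat_lit 5) (nat_lit 46) (nat_lit 5) (nat_lit 47) (nat_lit 5) (nat_lit 349) (nat_lit 320) (nat_lit 111)) (XT.lf (nat_lit 0) (nat_lit 23249515209) (nat_lit 228) (nat_lit 129421477525) (nat_lit 76) (nat_lit 27776155944) (nat_lit 40) (nat_lit 5) (nat_lit 43) (nat_lit 5) (nat_lit 41) (nat_lit 5) (nat_lit 350) (nat_lit 320) (nat_lit 110))))) (XT.nd (nat_lit 156) (nat_lit 152) (nat_lit 0) (XT.nd (nat_lit 78) (nat_lit 228) (nat_lit 0) (XT.lf (nat_lit 0) (nat_lit 50676839191) (nat_lit 228) (nat_lit 48787122214) (nat_lit 76) (nat_lit 86986061272) (nat_lit 40) (nat_lit 5) (nat_lit 43) (nat_lit 5) (nat_lit 41) (nat_lit 5) (nat_lit 351) (nat_lit 320) (nat_lit 109)) (XT.lf (nat_lit 0) (nat_lit 37064981737)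 (nat_lit 228) (nat_lit 42989036067) (nat_lit 304) (nat_lit 112670098498) (nat_lit 37) (nat_lit 5) (nat_lit 40) (nat_lit 5) (nat_lit 41) (nat_lit 5) (nat_lit 352) (nat_lit 320) (nat_lit 108))) (XT.nd (nat_lit 78) (nat_lit 152) (nat_lit 0) (XT.lf (nat_lit 0) (nat_lit 111994276945) (nat_lit 304) (nat_lit 70635601555) (nat_lit 76) (nat_lit 16627325362) (nat_lit 37) (nat_lit 5) (nat_lit 41) (nat_lit 5) (nat_lit 38) (nat_lit 5) (nat_lit 353) (nat_lit 320) (nat_lit 107)) (XT.nd (nat_lit 78) (nat_lit 0) (nat_lit 0) (XT.lf (nat_lit 0) (nat_lit 18527081358) (nat_lit 152) (nat_lit 127998279111) (nat_lit 228) (nat_lit 59541895075) (nat_lit 35) (nat_lit 5) (nat_lit 37) (nat_lit 5) (nat_lit 38) (nat_lit 5) (nat_lit 354) (nat_lit 320) (nat_lit 106)) (XT.lf (nat_lit 0) (nat_lit 114599940613) (nat_lit 152) (nat_lit 69379123841) (nat_lit 228) (nat_lit 29178942342) (nat_lit 35) (nat_lit 5) (nat_lit 37)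 (nat_lit 5) (nat_lit 38) (nat_lit 5) (nat_lit 355) (nat_lit 320) (nat_lit 105))))))))
noncomputable def xc243 : XT := (XT.nd (nat_lit 38766) (nat_lit 0) (nat_lit 1064) (XT.nd (nat_lit 37986) (nat_lit 0) (nat_lit 4180) (XT.nd (nat_lit 312) (nat_lit 228) (nat_lit 0) (XT.nd (nat_lit 156) (nat_lit 152) (nat_lit 0) (XT.nd (nat_lit 78) (nat_lit 228) (nat_lit 0) (XT.lf (nat_lit 0) (nat_lit 2615495829) (nat_lit 228) (nat_lit 5169300847) (nat_lit 76) (nat_lit 212816398608) (nat_lit 34) (nat_lit 5) (nat_lit 37) (nat_lit 5) (nat_lit 35) (nat_lit 5) (nat_lit 356) (nat_lit 320) (nat_lit 104)) (XT.lf (nat_lit 0) (nat_lit 37429848412) (nat_lit 304) (nat_lit 133772771258) (nat_lit 76) (nat_lit 57069466806) (nat_lit 31) (nat_lit 5) (nat_lit 35) (nat_lit 5) (nat_lit 32) (nat_lit 5) (nat_lit 357) (nat_lit 320) (nat_lit 103))) (XT.nd (nat_lit 78) (nat_lit 152) (nat_lit 0) (XT.lf (nat_lit 0) (nat_lit 74201353087)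 (nat_lit 304) (nat_lit 37120621860) (nat_lit 76) (nat_lit 124993725804) (nat_lit 31) (nat_lit 5) (nat_lit 35) (nat_lit 5) (nat_lit 32) (nat_lit 5) (nat_lit 358) (nat_lit 320) (nat_lit 102)) (XT.lf (nat_lit 0) (nat_lit 66492057398) (nat_lit 152) (nat_lit 47357345887) (nat_lit 228) (nat_lit 130860194178) (nat_lit 29) (nat_lit 5) (nat_lit 31) (nat_lit 5) (nat_lit 32) (nat_lit 5) (nat_lit 359) (nat_lit 320) (nat_lit 101)))) (XT.nd (nat_lit 156) (nat_lit 76) (nat_lit 0) (XT.nd (nat_lit 78) (nat_lit 152) (nat_lit 0) (XT.lf (nat_lit 0) (nat_lit 156427882573) (nat_lit 228) (nat_lit 77237408314) (nat_lit 76) (nat_lit 19810497017) (nat_lit 29) (nat_lit 5) (nat_lit 32) (nat_lit 5) (nat_lit 30) (nat_lit 5) (nat_lit 360) (nat_lit 320) (nat_lit 100)) (XT.lf (nat_lit 0) (nat_lit 28941457514) (nat_lit 152) (nat_lit 173421888332) (nat_lit 228) (nat_lit 60255539235) (nat_lit 27) (nat_lit 5) (nat_lit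 29) (nat_lit 5) (nat_lit 30) (nat_lit 5) (nat_lit 361) (nat_lit 320) (nat_lit 99))) (XT.nd (nat_lit 78) (nat_lit 76) (nat_lit 0) (XT.lf (nat_lit 0) (nat_lit 143110548792) (nat_lit 152) (nat_lit 108792942677) (nat_lit 228) (nat_lit 20250250393) (nat_lit 27) (nat_lit 5) (nat_lit 29) (nat_lit 5) (nat_lit 30) (nat_lit 5) (nat_lit 362) (nat_lit 320) (nat_lit 98)) (XT.nd (nat_lit 37362) (nat_lit 0) (nat_lit 4180) (XT.lf (nat_lit 0) (nat_lit 21058858048) (nat_lit 228) (nat_lit 19517128363) (nat_lit 76) (nat_lit 241572379155) (nat_lit 26) (nat_lit 5) (nat_lit 29) (nat_lit 5) (nat_lit 27) (nat_lit 5) (nat_lit 363) (nat_lit 320) (nat_lit 97)) (XT.lf (nat_lit 0) (nat_lit 13041916573) (nat_lit 0) (nat_lit 13041916573) (nat_lit 684) (nat_lit 14090899961) (nat_lit 81) (nat_lit 5) (nat_lit 81) (nat_lit 3) (nat_lit 90) (nat_lit 3) (nat_lit 321) (nat_lit 321) (nat_lit 138)))))) (XT.nd (nat_lit 390)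 (nat_lit 0) (nat_lit 152) (XT.nd (nat_lit 156) (nat_lit 0) (nat_lit 0) (XT.nd (nat_lit 78) (nat_lit 0) (nat_lit 0) (XT.lf (nat_lit 0) (nat_lit 53636546703) (nat_lit 684) (nat_lit 19084212254) (nat_lit 760) (nat_lit 9629184781) (nat_lit 81) (nat_lit 5) (nat_lit 90) (nat_lit 3) (nat_lit 91) (nat_lit 5) (nat_lit 322) (nat_lit 321) (nat_lit 137)) (XT.lf (nat_lit 76) (nat_lit 18004598901) (nat_lit 0) (nat_lit 37882382594) (nat_lit 760) (nat_lit 28528059705) (nat_lit 82) (nat_lit 5) (nat_lit 81) (nat_lit 5) (nat_lit 91) (nat_lit 5) (nat_lit 323) (nat_lit 321) (nat_lit 136))) (XT.nd (nat_lit 78) (nat_lit 0) (nat_lit 76) (XT.lf (nat_lit 76) (nat_lit 57610080314) (nat_lit 0) (nat_lit 962485573) (nat_lit 760) (nat_lit 27994697759) (nat_lit 82) (nat_lit 5) (nat_lit 81) (nat_lit 5) (nat_lit 91) (nat_lit 5) (nat_lit 324) (nat_lit 321) (nat_lit 135)) (XT.nd (nat_lit 78) (nat_lit 0) (nat_lit 0) (XT.lf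 (nat_lit 76) (nat_lit 10101484473) (nat_lit 0) (nat_lit 52038332968) (nat_lit 760) (nat_lit 26649911811) (nat_lit 83) (nat_lit 5) (nat_lit 82) (nat_lit 5) (nat_lit 92) (nat_lit 5) (nat_lit 325) (nat_lit 321) (nat_lit 134)) (XT.lf (nat_lit 76) (nat_lit 52101771558) (nat_lit 0) (nat_lit 14289066686) (nat_lit 760) (nat_lit 24707210927) (nat_lit 83) (nat_lit 5) (nat_lit 82) (nat_lit 5) (nat_lit 92) (nat_lit 5) (nat_lit 326) (nat_lit 321) (nat_lit 133))))) (XT.nd (nat_lit 156) (nat_lit 0) (nat_lit 76) (XT.nd (nat_lit 78) (nat_lit 0) (nat_lit 0) (XT.lf (nat_lit 76) (nat_lit 2359710866) (nat_lit 0) (nat_lit 68926795257) (nat_lit 760) (nat_lit 22213675461) (nat_lit 84) (nat_lit 5) (nat_lit 83) (nat_lit 5) (nat_lit 93) (nat_lit 5) (nat_lit 327) (nat_lit 321) (nat_lit 132)) (XT.lf (nat_lit 76) (nat_lit 46895020460) (nat_lit 0) (nat_lit 30422350932) (nat_lit 760) (nat_lit 18660529765) (nat_lit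 84) (nat_lit 5) (nat_lit 83) (nat_lit 5) (nat_lit 93) (nat_lit 5) (nat_lit 328) (nat_lit 321) (nat_lit 131))) (XT.nd (nat_lit 78) (nat_lit 0) (nat_lit 0) (XT.lf (nat_lit 0) (nat_lit 83805571051) (nat_lit 684) (nat_lit 5079011282) (nat_lit 760) (nat_lit 9687135998) (nat_lit 84) (nat_lit 5) (nat_lit 93) (nat_lit 5) (nat_lit 94) (nat_lit 5) (nat_lit 329) (nat_lit 321) (nat_lit 130)) (XT.nd (nat_lit 78) (nat_lit 0) (nat_lit 0) (XT.lf (nat_lit 76) (nat_lit 41969262208) (nat_lit 0) (nat_lit 49802473716) (nat_lit 760) (nat_lit 9465813801) (nat_lit 85) (nat_lit 5) (nat_lit 84) (nat_lit 5) (nat_lit 94) (nat_lit 5) (nat_lit 330) (nat_lit 321) (nat_lit 129)) (XT.lf (nat_lit 76) (nat_lit 91545945851) (nat_lit 0) (nat_lit 8675864295) (nat_lit 760) (nat_lit 3810583559) (nat_lit 85) (nat_lit 5) (nat_lit 84) (nat_lit 5) (nat_lit 94) (nat_lit 5) (nat_lit 331) (nat_lit 321) (nat_lit 128))))))) (XT.nd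 (nat_lit 780) (nat_lit 1292) (nat_lit 0) (XT.nd (nat_lit 390) (nat_lit 608) (nat_lit 0) (XT.nd (nat_lit 156) (nat_lit 760) (nat_lit 0) (XT.nd (nat_lit 78) (nat_lit 0) (nat_lit 0) (XT.lf (nat_lit 0) (nat_lit 3198228777) (nat_lit 760) (nat_lit 69673671156) (nat_lit 76) (nat_lit 34036474635) (nat_lit 75) (nat_lit 5) (nat_lit 85) (nat_lit 5) (nat_lit 76) (nat_lit 5) (nat_lit 332) (nat_lit 321) (nat_lit 127)) (XT.lf (nat_lit 0) (nat_lit 10786191905) (nat_lit 760) (nat_lit 20250679753) (nat_lit 76) (nat_lit 78870321771) (nat_lit 75) (nat_lit 5) (nat_lit 85) (nat_lit 5) (nat_lit 76) (nat_lit 5) (nat_lit 333) (nat_lit 321) (nat_lit 126))) (XT.nd (nat_lit 78) (nat_lit 380) (nat_lit 0) (XT.lf (nat_lit 0) (nat_lit 19473172409) (nat_lit 456) (nat_lit 80550675738) (nat_lit 76) (nat_lit 12996125006) (nat_lit 70) (nat_lit 5) (nat_lit 76) (nat_lit 5) (nat_lit 71) (nat_lit 5) (nat_lit 334) (nat_lit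 321) (nat_lit 125)) (XT.nd (nat_lit 78) (nat_lit 380) (nat_lit 0) (XT.lf (nat_lit 0) (nat_lit 29451524546) (nat_lit 456) (nat_lit 28257682781) (nat_lit 76) (nat_lit 58536334244) (nat_lit 70) (nat_lit 5) (nat_lit 76) (nat_lit 5) (nat_lit 71) (nat_lit 5) (nat_lit 335) (nat_lit 321) (nat_lit 124)) (XT.lf (nat_lit 0) (nat_lit 27530786840) (nat_lit 380) (nat_lit 12827501290) (nat_lit 456) (nat_lit 79252626387) (nat_lit 65) (nat_lit 5) (nat_lit 70) (nat_lit 5) (nat_lit 71) (nat_lit 5) (nat_lit 336) (nat_lit 321) (nat_lit 123))))) (XT.nd (nat_lit 156) (nat_lit 304) (nat_lit 0) (XT.nd (nat_lit 78) (nat_lit 304) (nat_lit 0) (XT.lf (nat_lit 0) (nat_lit 52831957278) (nat_lit 456) (nat_lit 36574584956) (nat_lit 76) (nat_lit 33686936268) (nat_lit 65) (nat_lit 5) (nat_lit 71) (nat_lit 5) (nat_lit 66) (nat_lit 5) (nat_lit 337) (nat_lit 321) (nat_lit 122)) (XT.lf (nat_lit 0) (nat_lit 22206364659) (nat_lit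 304) (nat_lit 44279623541) (nat_lit 380) (nat_lit 60236349293) (nat_lit 61) (nat_lit 5) (nat_lit 65) (nat_lit 5) (nat_lit 66) (nat_lit 5) (nat_lit 338) (nat_lit 321) (nat_lit 121))) (XT.nd (nat_lit 78) (nat_lit 304) (nat_lit 0) (XT.lf (nat_lit 0) (nat_lit 81500437139) (nat_lit 380) (nat_lit 45364466987) (nat_lit 76) (nat_lit 3633850174) (nat_lit 61) (nat_lit 5) (nat_lit 66) (nat_lit 5) (nat_lit 62) (nat_lit 5) (nat_lit 339) (nat_lit 321) (nat_lit 120)) (XT.nd (nat_lit 78) (nat_lit 0) (nat_lit 0) (XT.lf (nat_lit 0) (nat_lit 16548039329) (nat_lit 304) (nat_lit 81701537748) (nat_lit 380) (nat_lit 36165217100) (nat_lit 57) (nat_lit 5) (nat_lit 61) (nat_lit 5) (nat_lit 62) (nat_lit 5) (nat_lit 340) (nat_lit 321) (nat_lit 119)) (XT.lf (nat_lit 0) (nat_lit 83130808025) (nat_lit 304) (nat_lit 33473355812) (nat_lit 380) (nat_lit 21884073347) (nat_lit 57) (nat_lit 5) (nat_lit 61) (nat_lit 5)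 (nat_lit 62) (nat_lit 5) (nat_lit 341) (nat_lit 321) (nat_lit 118)))))) (XT.nd (nat_lit 390) (nat_lit 684) (nat_lit 0) (XT.nd (nat_lit 156) (nat_lit 304) (nat_lit 0) (XT.nd (nat_lit 78) (nat_lit 76) (nat_lit 0) (XT.lf (nat_lit 0) (nat_lit 10339980547) (nat_lit 228) (nat_lit 125965681901) (nat_lit 304) (nat_lit 6438231361) (nat_lit 54) (nat_lit 5) (nat_lit 57) (nat_lit 5) (nat_lit 58) (nat_lit 5) (nat_lit 342) (nat_lit 321) (nat_lit 117)) (XT.lf (nat_lit 0) (nat_lit 10968238573) (nat_lit 304) (nat_lit 66638433884) (nat_lit 76) (nat_lit 69522959073) (nat_lit 53) (nat_lit 5) (nat_lit 57) (nat_lit 5) (nat_lit 54) (nat_lit 5) (nat_lit 343) (nat_lit 321) (nat_lit 116))) (XT.nd (nat_lit 78) (nat_lit 0) (nat_lit 0) (XT.lf (nat_lit 0) (nat_lit 2385834005) (nat_lit 304) (nat_lit 26679829805) (nat_lit 380) (nat_lit 122661865675) (nat_lit 49) (nat_lit 5) (nat_lit 53) (nat_lit 5) (nat_lit 54) (nat_lit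 5) (nat_lit 344) (nat_lit 321) (nat_lit 115)) (XT.nd (nat_lit 78) (nat_lit 0) (nat_lit 0) (XT.lf (nat_lit 0) (nat_lit 49633090190) (nat_lit 380) (nat_lit 79761172863) (nat_lit 76) (nat_lit 27082803281) (nat_lit 49) (nat_lit 5) (nat_lit 54) (nat_lit 5) (nat_lit 50) (nat_lit 5) (nat_lit 345) (nat_lit 321) (nat_lit 114)) (XT.lf (nat_lit 0) (nat_lit 71666029300) (nat_lit 380) (nat_lit 7139292874) (nat_lit 76) (nat_lit 82636901245) (nat_lit 49) (nat_lit 5) (nat_lit 54) (nat_lit 5) (nat_lit 50) (nat_lit 5) (nat_lit 346) (nat_lit 321) (nat_lit 113))))) (XT.nd (nat_lit 156) (nat_lit 456) (nat_lit 0) (XT.nd (nat_lit 78) (nat_lit 0) (nat_lit 0) (XT.lf (nat_lit 0) (nat_lit 71398601786) (nat_lit 228) (nat_lit 24516524089) (nat_lit 304) (nat_lit 70684787405) (nat_lit 46) (nat_lit 5) (nat_lit 49) (nat_lit 5) (nat_lit 50) (nat_lit 5) (nat_lit 347) (nat_lit 321) (nat_lit 112)) (XT.lf (nat_lit 0) (nat_lit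 122006558944) (nat_lit 304) (nat_lit 18407667901) (nat_lit 76) (nat_lit 31569767128) (nat_lit 46) (nat_lit 5) (nat_lit 50) (nat_lit 5) (nat_lit 47) (nat_lit 5) (nat_lit 348) (nat_lit 321) (nat_lit 111))) (XT.nd (nat_lit 78) (nat_lit 228) (nat_lit 0) (XT.lf (nat_lit 0) (nat_lit 63867638349) (nat_lit 228) (nat_lit 86933782227) (nat_lit 304) (nat_lit 26765915683) (nat_lit 43) (nat_lit 5) (nat_lit 46) (nat_lit 5) (nat_lit 47) (nat_lit 5) (nat_lit 349) (nat_lit 321) (nat_lit 110)) (XT.nd (nat_lit 78) (nat_lit 228) (nat_lit 0) (XT.lf (nat_lit 0) (nat_lit 150895514395) (nat_lit 228) (nat_lit 30452053144) (nat_lit 304) (nat_lit 2066701392) (nat_lit 43) (nat_lit 5) (nat_lit 46) (nat_lit 5) (nat_lit 47) (nat_lit 5) (nat_lit 350) (nat_lit 321) (nat_lit 109)) (XT.lf (nat_lit 0) (nat_lit 24418136245) (nat_lit 228) (nat_lit 135883939249) (nat_lit 76) (nat_lit 29167112640) (nat_lit 40) (nat_lit 5)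 (nat_lit 43) (nat_lit 5) (nat_lit 41) (nat_lit 5) (nat_lit 351) (nat_lit 321) (nat_lit 108))))))))
noncomputable def xc244 : XT := (XT.nd (nat_lit 38922) (nat_lit 0) (nat_lit 1444) (XT.nd (nat_lit 702) (nat_lit 152) (nat_lit 0) (XT.nd (nat_lit 312) (nat_lit 456) (nat_lit 0) (XT.nd (nat_lit 156) (nat_lit 152) (nat_lit 0) (XT.nd (nat_lit 78) (nat_lit 228) (nat_lit 0) (XT.lf (nat_lit 0) (nat_lit 53216533794) (nat_lit 228) (nat_lit 51218276276) (nat_lit 76) (nat_lit 91337410905) (nat_lit 40) (nat_lit 5) (nat_lit 43) (nat_lit 5) (nat_lit 41) (nat_lit 5) (nat_lit 352) (nat_lit 321) (nat_lit 107)) (XT.lf (nat_lit 0) (nat_lit 38926300582) (nat_lit 228) (nat_lit 45136118051) (nat_lit 304) (nat_lit 118297608771) (nat_lit 37) (nat_lit 5) (nat_lit 40) (nat_lit 5) (nat_lit 41) (nat_lit 5) (nat_lit 353) (nat_lit 321) (nat_lit 106))) (XT.nd (nat_lit 78) (nat_lit 152) (nat_lit 0) (XT.lf (nat_lit 0)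 (nat_lit 117599454542) (nat_lit 304) (nat_lit 74159450706) (nat_lit 76) (nat_lit 17460876365) (nat_lit 37) (nat_lit 5) (nat_lit 41) (nat_lit 5) (nat_lit 38) (nat_lit 5) (nat_lit 354) (nat_lit 321) (nat_lit 105)) (XT.lf (nat_lit 0) (nat_lit 19461238435) (nat_lit 152) (nat_lit 134395715456) (nat_lit 228) (nat_lit 62513389346) (nat_lit 35) (nat_lit 5) (nat_lit 37) (nat_lit 5) (nat_lit 38) (nat_lit 5) (nat_lit 355) (nat_lit 321) (nat_lit 104)))) (XT.nd (nat_lit 156) (nat_lit 380) (nat_lit 0) (XT.nd (nat_lit 78) (nat_lit 76) (nat_lit 0) (XT.lf (nat_lit 0) (nat_lit 120337369081) (nat_lit 152) (nat_lit 72845720404) (nat_lit 228) (nat_lit 30632555666) (nat_lit 35) (nat_lit 5) (nat_lit 37) (nat_lit 5) (nat_lit 38) (nat_lit 5) (nat_lit 356) (nat_lit 321) (nat_lit 103)) (XT.lf (nat_lit 0) (nat_lit 2751187838) (nat_lit 228) (nat_lit 5420518132) (nat_lit 76) (nat_lit 223459295605) (nat_lit 34) (nat_lit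 5) (nat_lit 37) (nat_lit 5) (nat_lit 35) (nat_lit 5) (nat_lit 357) (nat_lit 321) (nat_lit 102))) (XT.nd (nat_lit 78) (nat_lit 152) (nat_lit 0) (XT.lf (nat_lit 0) (nat_lit 39306171708) (nat_lit 304) (nat_lit 140454068469) (nat_lit 76) (nat_lit 59925201827) (nat_lit 31) (nat_lit 5) (nat_lit 35) (nat_lit 5) (nat_lit 32) (nat_lit 5) (nat_lit 358) (nat_lit 321) (nat_lit 101)) (XT.nd (nat_lit 78) (nat_lit 152) (nat_lit 0) (XT.lf (nat_lit 0) (nat_lit 77916021575) (nat_lit 304) (nat_lit 38969661190) (nat_lit 76) (nat_lit 131245566076) (nat_lit 31) (nat_lit 5) (nat_lit 35) (nat_lit 5) (nat_lit 32) (nat_lit 5) (nat_lit 359) (nat_lit 321) (nat_lit 100)) (XT.lf (nat_lit 0) (nat_lit 69823539260) (nat_lit 152) (nat_lit 49722823335) (nat_lit 228) (nat_lit 137398483706) (nat_lit 29) (nat_lit 5) (nat_lit 31) (nat_lit 5) (nat_lit 32) (nat_lit 5) (nat_lit 360) (nat_lit 321) (nat_lit 99)))))) (XT.nd (nat_lit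 37830) (nat_lit 0) (nat_lit 4104) (XT.nd (nat_lit 37596) (nat_lit 0) (nat_lit 4104) (XT.nd (nat_lit 78) (nat_lit 152) (nat_lit 0) (XT.lf (nat_lit 0) (nat_lit 164253587615) (nat_lit 228) (nat_lit 81092542810) (nat_lit 76) (nat_lit 20803225064) (nat_lit 29) (nat_lit 5) (nat_lit 32) (nat_lit 5) (nat_lit 30) (nat_lit 5) (nat_lit 361) (nat_lit 321) (nat_lit 98)) (XT.lf (nat_lit 0) (nat_lit 30395157665) (nat_lit 152) (nat_lit 182090564575) (nat_lit 228) (nat_lit 63263890674) (nat_lit 27) (nat_lit 5) (nat_lit 29) (nat_lit 5) (nat_lit 30) (nat_lit 5) (nat_lit 362) (nat_lit 321) (nat_lit 97))) (XT.nd (nat_lit 78) (nat_lit 0) (nat_lit 0) (XT.lf (nat_lit 0) (nat_lit 13698628843) (nat_lit 0) (nat_lit 13698628843) (nat_lit 684) (nat_lit 14785726122) (nat_lit 81) (nat_lit 5) (nat_lit 81) (nat_lit 3) (nat_lit 90) (nat_lit 3) (nat_lit 322) (nat_lit 322) (nat_lit 136)) (XT.nd (nat_lit 78) (nat_lit 0)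 (nat_lit 0) (XT.lf (nat_lit 0) (nat_lit 56335823195) (nat_lit 684) (nat_lit 20028566732) (nat_lit 760) (nat_lit 10102132236) (nat_lit 81) (nat_lit 5) (nat_lit 90) (nat_lit 3) (nat_lit 91) (nat_lit 5) (nat_lit 323) (nat_lit 322) (nat_lit 135)) (XT.lf (nat_lit 76) (nat_lit 18914526012) (nat_lit 0) (nat_lit 39783574203) (nat_lit 760) (nat_lit 29936810464) (nat_lit 82) (nat_lit 5) (nat_lit 81) (nat_lit 5) (nat_lit 91) (nat_lit 5) (nat_lit 324) (nat_lit 322) (nat_lit 134))))) (XT.nd (nat_lit 156) (nat_lit 0) (nat_lit 76) (XT.nd (nat_lit 78) (nat_lit 0) (nat_lit 76) (XT.lf (nat_lit 76) (nat_lit 60499819725) (nat_lit 0) (nat_lit 1017345547) (nat_lit 760) (nat_lit 29377621003) (nat_lit 82) (nat_lit 5) (nat_lit 81) (nat_lit 5) (nat_lit 91) (nat_lit 5) (nat_lit 325) (nat_lit 322) (nat_lit 133)) (XT.lf (nat_lit 76) (nat_lit 10616575598) (nat_lit 0) (nat_lit 54645499515) (nat_lit 760) (nat_lit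 27966337263) (nat_lit 83) (nat_lit 5) (nat_lit 82) (nat_lit 5) (nat_lit 92) (nat_lit 5) (nat_lit 326) (nat_lit 322) (nat_lit 132))) (XT.nd (nat_lit 78) (nat_lit 0) (nat_lit 76) (XT.lf (nat_lit 76) (nat_lit 54716400041) (nat_lit 0) (nat_lit 15008519923) (nat_lit 760) (nat_lit 25927266580) (nat_lit 83) (nat_lit 5) (nat_lit 82) (nat_lit 5) (nat_lit 92) (nat_lit 5) (nat_lit 327) (nat_lit 322) (nat_lit 131)) (XT.nd (nat_lit 78) (nat_lit 0) (nat_lit 0) (XT.lf (nat_lit 76) (nat_lit 2487911994) (nat_lit 0) (nat_lit 72376852020) (nat_lit 760) (nat_lit 23309693739) (nat_lit 84) (nat_lit 5) (nat_lit 83) (nat_lit 5) (nat_lit 93) (nat_lit 5) (nat_lit 328) (nat_lit 322) (nat_lit 130)) (XT.lf (nat_lit 76) (nat_lit 49249500611) (nat_lit 0) (nat_lit 31947008479) (nat_lit 760) (nat_lit 19579589115) (nat_lit 84) (nat_lit 5) (nat_lit 83) (nat_lit 5) (nat_lit 93) (nat_lit 5) (nat_lit 329) (nat_lit 322)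 (nat_lit 129))))))) (XT.nd (nat_lit 780) (nat_lit 1140) (nat_lit 0) (XT.nd (nat_lit 390) (nat_lit 1064) (nat_lit 0) (XT.nd (nat_lit 156) (nat_lit 684) (nat_lit 0) (XT.nd (nat_lit 78) (nat_lit 0) (nat_lit 0) (XT.lf (nat_lit 0) (nat_lit 88008434232) (nat_lit 684) (nat_lit 5322978601) (nat_lit 760) (nat_lit 10168229275) (nat_lit 84) (nat_lit 5) (nat_lit 93) (nat_lit 5) (nat_lit 94) (nat_lit 5) (nat_lit 330) (nat_lit 322) (nat_lit 128)) (XT.lf (nat_lit 76) (nat_lit 44077547544) (nat_lit 0) (nat_lit 52294913890) (nat_lit 760) (nat_lit 9926327502) (nat_lit 85) (nat_lit 5) (nat_lit 84) (nat_lit 5) (nat_lit 94) (nat_lit 5) (nat_lit 331) (nat_lit 322) (nat_lit 127))) (XT.nd (nat_lit 78) (nat_lit 684) (nat_lit 0) (XT.lf (nat_lit 76) (nat_lit 96132597643) (nat_lit 0) (nat_lit 9111863688) (nat_lit 760) (nat_lit 3988944177) (nat_lit 85) (nat_lit 5) (nat_lit 84) (nat_lit 5) (nat_lit 94) (nat_lit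 5) (nat_lit 332) (nat_lit 322) (nat_lit 126)) (XT.nd (nat_lit 78) (nat_lit 0) (nat_lit 0) (XT.lf (nat_lit 0) (nat_lit 3369481133) (nat_lit 760) (nat_lit 73147117071) (nat_lit 76) (nat_lit 35736600972) (nat_lit 75) (nat_lit 5) (nat_lit 85) (nat_lit 5) (nat_lit 76) (nat_lit 5) (nat_lit 333) (nat_lit 322) (nat_lit 125)) (XT.lf (nat_lit 0) (nat_lit 11336302374) (nat_lit 760) (nat_lit 21253463605) (nat_lit 76) (nat_lit 82812221294) (nat_lit 75) (nat_lit 5) (nat_lit 85) (nat_lit 5) (nat_lit 76) (nat_lit 5) (nat_lit 334) (nat_lit 322) (nat_lit 124))))) (XT.nd (nat_lit 156) (nat_lit 684) (nat_lit 0) (XT.nd (nat_lit 78) (nat_lit 0) (nat_lit 0) (XT.lf (nat_lit 0) (nat_lit 20457254180) (nat_lit 456) (nat_lit 84568057109) (nat_lit 76) (nat_lit 13645114809) (nat_lit 70) (nat_lit 5) (nat_lit 76) (nat_lit 5) (nat_lit 71) (nat_lit 5) (nat_lit 335) (nat_lit 322) (nat_lit 123)) (XT.lf (nat_lit 0) (nat_lit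 30934027583) (nat_lit 456) (nat_lit 29660897953) (nat_lit 76) (nat_lit 61462373387) (nat_lit 70) (nat_lit 5) (nat_lit 76) (nat_lit 5) (nat_lit 71) (nat_lit 5) (nat_lit 336) (nat_lit 322) (nat_lit 122))) (XT.nd (nat_lit 78) (nat_lit 304) (nat_lit 0) (XT.lf (nat_lit 0) (nat_lit 28916839199) (nat_lit 380) (nat_lit 13468965967) (nat_lit 456) (nat_lit 83205152673) (nat_lit 65) (nat_lit 5) (nat_lit 70) (nat_lit 5) (nat_lit 71) (nat_lit 5) (nat_lit 337) (nat_lit 322) (nat_lit 121)) (XT.nd (nat_lit 78) (nat_lit 304) (nat_lit 0) (XT.lf (nat_lit 0) (nat_lit 55482699170) (nat_lit 456) (nat_lit 38393774375) (nat_lit 76) (nat_lit 35371200467) (nat_lit 65) (nat_lit 5) (nat_lit 71) (nat_lit 5) (nat_lit 66) (nat_lit 5) (nat_lit 338) (nat_lit 322) (nat_lit 120)) (XT.lf (nat_lit 0) (nat_lit 23326068852) (nat_lit 304) (nat_lit 46493073898) (nat_lit 380) (nat_lit 63238848659) (nat_lit 61) (nat_lit 5) (nat_lit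 65) (nat_lit 5) (nat_lit 66) (nat_lit 5) (nat_lit 339) (nat_lit 322) (nat_lit 119)))))) (XT.nd (nat_lit 390) (nat_lit 532) (nat_lit 0) (XT.nd (nat_lit 156) (nat_lit 304) (nat_lit 0) (XT.nd (nat_lit 78) (nat_lit 304) (nat_lit 0) (XT.lf (nat_lit 0) (nat_lit 85583900356) (nat_lit 380) (nat_lit 47623318306) (nat_lit 76) (nat_lit 3816032045) (nat_lit 61) (nat_lit 5) (nat_lit 66) (nat_lit 5) (nat_lit 62) (nat_lit 5) (nat_lit 340) (nat_lit 322) (nat_lit 118)) (XT.lf (nat_lit 0) (nat_lit 17384662165) (nat_lit 304) (nat_lit 85785577120) (nat_lit 380) (nat_lit 37964867110) (nat_lit 57) (nat_lit 5) (nat_lit 61) (nat_lit 5) (nat_lit 62) (nat_lit 5) (nat_lit 341) (nat_lit 322) (nat_lit 117))) (XT.nd (nat_lit 78) (nat_lit 304) (nat_lit 0) (XT.lf (nat_lit 0) (nat_lit 87296130206) (nat_lit 304) (nat_lit 35146035493) (nat_lit 380) (nat_lit 22970076209) (nat_lit 57) (nat_lit 5) (nat_lit 61) (nat_lit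 5) (nat_lit 62) (nat_lit 5) (nat_lit 342) (nat_lit 322) (nat_lit 116)) (XT.nd (nat_lit 78) (nat_lit 76) (nat_lit 0) (XT.lf (nat_lit 0) (nat_lit 10866005103) (nat_lit 228) (nat_lit 132262518617) (nat_lit 304) (nat_lit 6752169251) (nat_lit 54) (nat_lit 5) (nat_lit 57) (nat_lit 5) (nat_lit 58) (nat_lit 5) (nat_lit 343) (nat_lit 322) (nat_lit 115)) (XT.lf (nat_lit 0) (nat_lit 11524001425) (nat_lit 304) (nat_lit 69961501707) (nat_lit 76) (nat_lit 73000227353) (nat_lit 53) (nat_lit 5) (nat_lit 57) (nat_lit 5) (nat_lit 54) (nat_lit 5) (nat_lit 344) (nat_lit 322) (nat_lit 114))))) (XT.nd (nat_lit 156) (nat_lit 228) (nat_lit 0) (XT.nd (nat_lit 78) (nat_lit 0) (nat_lit 0) (XT.lf (nat_lit 0) (nat_lit 2513836773) (nat_lit 304) (nat_lit 28012247112) (nat_lit 380) (nat_lit 128787450873) (nat_lit 49) (nat_lit 5) (nat_lit 53) (nat_lit 5) (nat_lit 54) (nat_lit 5) (nat_lit 345) (nat_lit 322) (nat_lit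 113)) (XT.lf (nat_lit 0) (nat_lit 52121565139) (nat_lit 380) (nat_lit 83740605133) (nat_lit 76) (nat_lit 28438394682) (nat_lit 49) (nat_lit 5) (nat_lit 54) (nat_lit 5) (nat_lit 50) (nat_lit 5) (nat_lit 346) (nat_lit 322) (nat_lit 112))) (XT.nd (nat_lit 78) (nat_lit 228) (nat_lit 0) (XT.lf (nat_lit 0) (nat_lit 75255826422) (nat_lit 380) (nat_lit 7488041925) (nat_lit 76) (nat_lit 86770128439) (nat_lit 49) (nat_lit 5) (nat_lit 54) (nat_lit 5) (nat_lit 50) (nat_lit 5) (nat_lit 347) (nat_lit 322) (nat_lit 111)) (XT.nd (nat_lit 78) (nat_lit 0) (nat_lit 0) (XT.lf (nat_lit 0) (nat_lit 74976614959) (nat_lit 228) (nat_lit 25740579749) (nat_lit 304) (nat_lit 74212386207) (nat_lit 46) (nat_lit 5) (nat_lit 49) (nat_lit 5) (nat_lit 50) (nat_lit 5) (nat_lit 348) (nat_lit 322) (nat_lit 110)) (XT.lf (nat_lit 0) (nat_lit 128112925160) (nat_lit 304) (nat_lit 19320067039) (nat_lit 76) (nat_lit 33149887747)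 (nat_lit 46) (nat_lit 5) (nat_lit 50) (nat_lit 5) (nat_lit 47) (nat_lit 5) (nat_lit 349) (nat_lit 322) (nat_lit 109))))))))
noncomputable def xc245 : XT := (XT.nd (nat_lit 39078) (nat_lit 0) (nat_lit 1292) (XT.nd (nat_lit 702) (nat_lit 380) (nat_lit 0) (XT.nd (nat_lit 312) (nat_lit 456) (nat_lit 0) (XT.nd (nat_lit 156) (nat_lit 228) (nat_lit 0) (XT.nd (nat_lit 78) (nat_lit 0) (nat_lit 0) (XT.lf (nat_lit 0) (nat_lit 67068875745) (nat_lit 228) (nat_lit 91278489238) (nat_lit 304) (nat_lit 28098033171) (nat_lit 43) (nat_lit 5) (nat_lit 46) (nat_lit 5) (nat_lit 47) (nat_lit 5) (nat_lit 350) (nat_lit 322) (nat_lit 108)) (XT.lf (nat_lit 0) (nat_lit 158447771522) (nat_lit 228) (nat_lit 31972768087) (nat_lit 304) (nat_lit 2164152370) (nat_lit 43) (nat_lit 5) (nat_lit 46) (nat_lit 5) (nat_lit 47) (nat_lit 5) (nat_lit 351) (nat_lit 322) (nat_lit 107))) (XT.nd (nat_lit 78) (nat_lit 0) (nat_lit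 0) (XT.lf (nat_lit 0) (nat_lit 25644617004) (nat_lit 228) (nat_lit 142670324737) (nat_lit 76) (nat_lit 30627417386) (nat_lit 40) (nat_lit 5) (nat_lit 43) (nat_lit 5) (nat_lit 41) (nat_lit 5) (nat_lit 352) (nat_lit 322) (nat_lit 106)) (XT.lf (nat_lit 0) (nat_lit 55882669004) (nat_lit 228) (nat_lit 53771750590) (nat_lit 76) (nat_lit 95906137750) (nat_lit 40) (nat_lit 5) (nat_lit 43) (nat_lit 5) (nat_lit 41) (nat_lit 5) (nat_lit 353) (nat_lit 322) (nat_lit 105)))) (XT.nd (nat_lit 156) (nat_lit 228) (nat_lit 0) (XT.nd (nat_lit 78) (nat_lit 0) (nat_lit 0) (XT.lf (nat_lit 0) (nat_lit 40879935119) (nat_lit 228) (nat_lit 47390774457) (nat_lit 304) (nat_lit 124207051883) (nat_lit 37) (nat_lit 5) (nat_lit 40) (nat_lit 5) (nat_lit 41) (nat_lit 5) (nat_lit 354) (nat_lit 322) (nat_lit 104)) (XT.lf (nat_lit 0) (nat_lit 123484383051) (nat_lit 304) (nat_lit 77860229658) (nat_lit 76) (nat_lit 18335901801)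 (nat_lit 37) (nat_lit 5) (nat_lit 41) (nat_lit 5) (nat_lit 38) (nat_lit 5) (nat_lit 355) (nat_lit 322) (nat_lit 103))) (XT.nd (nat_lit 78) (nat_lit 76) (nat_lit 0) (XT.lf (nat_lit 0) (nat_lit 20441377915) (nat_lit 152) (nat_lit 141113253964) (nat_lit 228) (nat_lit 65633979011) (nat_lit 35) (nat_lit 5) (nat_lit 37) (nat_lit 5) (nat_lit 38) (nat_lit 5) (nat_lit 356) (nat_lit 322) (nat_lit 102)) (XT.nd (nat_lit 78) (nat_lit 76) (nat_lit 0) (XT.lf (nat_lit 0) (nat_lit 126360978067) (nat_lit 152) (nat_lit 76485866172) (nat_lit 228) (nat_lit 32159345543) (nat_lit 35) (nat_lit 5) (nat_lit 37) (nat_lit 5) (nat_lit 38) (nat_lit 5) (nat_lit 357) (nat_lit 322) (nat_lit 101)) (XT.lf (nat_lit 0) (nat_lit 2893207290) (nat_lit 228) (nat_lit 5684970108) (nat_lit 76) (nat_lit 234634144345) (nat_lit 34) (nat_lit 5) (nat_lit 37) (nat_lit 5) (nat_lit 35) (nat_lit 5) (nat_lit 358) (nat_lit 322) (nat_lit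 100)))))) (XT.nd (nat_lit 37986) (nat_lit 0) (nat_lit 3952) (XT.nd (nat_lit 156) (nat_lit 152) (nat_lit 0) (XT.nd (nat_lit 78) (nat_lit 0) (nat_lit 0) (XT.lf (nat_lit 0) (nat_lit 41275862040) (nat_lit 304) (nat_lit 147470113071) (nat_lit 76) (nat_lit 62923513330) (nat_lit 31) (nat_lit 5) (nat_lit 35) (nat_lit 5) (nat_lit 32) (nat_lit 5) (nat_lit 359) (nat_lit 322) (nat_lit 99)) (XT.lf (nat_lit 0) (nat_lit 81815995746) (nat_lit 304) (nat_lit 40911802515) (nat_lit 76) (nat_lit 137809798105) (nat_lit 31) (nat_lit 5) (nat_lit 35) (nat_lit 5) (nat_lit 32) (nat_lit 5) (nat_lit 360) (nat_lit 322) (nat_lit 98))) (XT.nd (nat_lit 37674) (nat_lit 0) (nat_lit 3952) (XT.lf (nat_lit 0) (nat_lit 73320955673) (nat_lit 152) (nat_lit 52206796841) (nat_lit 228) (nat_lit 144264126548) (nat_lit 29) (nat_lit 5) (nat_lit 31) (nat_lit 5) (nat_lit 32) (nat_lit 5) (nat_lit 361) (nat_lit 322) (nat_lit 97)) (XT.nd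 (nat_lit 78) (nat_lit 0) (nat_lit 0) (XT.lf (nat_lit 0) (nat_lit 14387747534) (nat_lit 0) (nat_lit 14387747534) (nat_lit 684) (nat_lit 15516197157) (nat_lit 81) (nat_lit 5) (nat_lit 81) (nat_lit 3) (nat_lit 90) (nat_lit 3) (nat_lit 323) (nat_lit 323) (nat_lit 134)) (XT.lf (nat_lit 0) (nat_lit 59168441255) (nat_lit 684) (nat_lit 21021055263) (nat_lit 760) (nat_lit 10599518409) (nat_lit 81) (nat_lit 5) (nat_lit 90) (nat_lit 3) (nat_lit 91) (nat_lit 5) (nat_lit 324) (nat_lit 323) (nat_lit 133))))) (XT.nd (nat_lit 156) (nat_lit 0) (nat_lit 76) (XT.nd (nat_lit 78) (nat_lit 0) (nat_lit 0) (XT.lf (nat_lit 76) (nat_lit 19869047927) (nat_lit 0) (nat_lit 41779167861) (nat_lit 760) (nat_lit 31417639897) (nat_lit 82) (nat_lit 5) (nat_lit 81) (nat_lit 5) (nat_lit 91) (nat_lit 5) (nat_lit 325) (nat_lit 323) (nat_lit 132)) (XT.lf (nat_lit 76) (nat_lit 63533187488) (nat_lit 0) (nat_lit 1074322298)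 (nat_lit 760) (nat_lit 30831253396) (nat_lit 82) (nat_lit 5) (nat_lit 81) (nat_lit 5) (nat_lit 91) (nat_lit 5) (nat_lit 326) (nat_lit 323) (nat_lit 131))) (XT.nd (nat_lit 78) (nat_lit 0) (nat_lit 0) (XT.lf (nat_lit 76) (nat_lit 11156490003) (nat_lit 0) (nat_lit 57382536302) (nat_lit 760) (nat_lit 29350078037) (nat_lit 83) (nat_lit 5) (nat_lit 82) (nat_lit 5) (nat_lit 92) (nat_lit 5) (nat_lit 327) (nat_lit 323) (nat_lit 130)) (XT.nd (nat_lit 78) (nat_lit 0) (nat_lit 76) (XT.lf (nat_lit 76) (nat_lit 57460873019) (nat_lit 0) (nat_lit 15763480979) (nat_lit 760) (nat_lit 27209747919) (nat_lit 83) (nat_lit 5) (nat_lit 82) (nat_lit 5) (nat_lit 92) (nat_lit 5) (nat_lit 328) (nat_lit 323) (nat_lit 129)) (XT.lf (nat_lit 76) (nat_lit 2621573430) (nat_lit 0) (nat_lit 75999066051) (nat_lit 760) (nat_lit 24461876389) (nat_lit 84) (nat_lit 5) (nat_lit 83) (nat_lit 5) (nat_lit 93) (nat_lit 5) (nat_lit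 329) (nat_lit 323) (nat_lit 128))))))) (XT.nd (nat_lit 780) (nat_lit 1444) (nat_lit 0) (XT.nd (nat_lit 390) (nat_lit 760) (nat_lit 0) (XT.nd (nat_lit 156) (nat_lit 608) (nat_lit 0) (XT.nd (nat_lit 78) (nat_lit 0) (nat_lit 76) (XT.lf (nat_lit 76) (nat_lit 51720800248) (nat_lit 0) (nat_lit 33547569788) (nat_lit 760) (nat_lit 20545899964) (nat_lit 84) (nat_lit 5) (nat_lit 83) (nat_lit 5) (nat_lit 93) (nat_lit 5) (nat_lit 330) (nat_lit 323) (nat_lit 127)) (XT.lf (nat_lit 0) (nat_lit 92420270572) (nat_lit 684) (nat_lit 5580072434) (nat_lit 760) (nat_lit 10673680628) (nat_lit 84) (nat_lit 5) (nat_lit 93) (nat_lit 5) (nat_lit 94) (nat_lit 5) (nat_lit 331) (nat_lit 323) (nat_lit 126))) (XT.nd (nat_lit 78) (nat_lit 684) (nat_lit 0) (XT.lf (nat_lit 76) (nat_lit 46290333968) (nat_lit 0) (nat_lit 54911760707) (nat_lit 760) (nat_lit 10411054772) (nat_lit 85) (nat_lit 5) (nat_lit 84) (nat_lit 5)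 (nat_lit 94) (nat_lit 5) (nat_lit 332) (nat_lit 323) (nat_lit 125)) (XT.nd (nat_lit 78) (nat_lit 684) (nat_lit 0) (XT.lf (nat_lit 76) (nat_lit 100947712332) (nat_lit 0) (nat_lit 9569457942) (nat_lit 760) (nat_lit 4177354142) (nat_lit 85) (nat_lit 5) (nat_lit 84) (nat_lit 5) (nat_lit 94) (nat_lit 5) (nat_lit 333) (nat_lit 323) (nat_lit 124)) (XT.lf (nat_lit 0) (nat_lit 3548241737) (nat_lit 760) (nat_lit 76795187081) (nat_lit 76) (nat_lit 37521891433) (nat_lit 75) (nat_lit 5) (nat_lit 85) (nat_lit 5) (nat_lit 76) (nat_lit 5) (nat_lit 334) (nat_lit 323) (nat_lit 123))))) (XT.nd (nat_lit 156) (nat_lit 380) (nat_lit 0) (XT.nd (nat_lit 78) (nat_lit 380) (nat_lit 0) (XT.lf (nat_lit 0) (nat_lit 11912914204) (nat_lit 760) (nat_lit 22307293125) (nat_lit 76) (nat_lit 86951366085) (nat_lit 75) (nat_lit 5) (nat_lit 85) (nat_lit 5) (nat_lit 76) (nat_lit 5) (nat_lit 335) (nat_lit 323) (nat_lit 122))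 (XT.lf (nat_lit 0) (nat_lit 21489570993) (nat_lit 456) (nat_lit 88787251424) (nat_lit 76) (nat_lit 14326630007) (nat_lit 70) (nat_lit 5) (nat_lit 76) (nat_lit 5) (nat_lit 71) (nat_lit 5) (nat_lit 336) (nat_lit 323) (nat_lit 121))) (XT.nd (nat_lit 78) (nat_lit 380) (nat_lit 0) (XT.lf (nat_lit 0) (nat_lit 32489732871) (nat_lit 456) (nat_lit 31135172812) (nat_lit 76) (nat_lit 64534786778) (nat_lit 70) (nat_lit 5) (nat_lit 76) (nat_lit 5) (nat_lit 71) (nat_lit 5) (nat_lit 337) (nat_lit 323) (nat_lit 120)) (XT.nd (nat_lit 78) (nat_lit 0) (nat_lit 0) (XT.lf (nat_lit 0) (nat_lit 30371309745) (nat_lit 380) (nat_lit 14142495547) (nat_lit 456) (nat_lit 87356244743) (nat_lit 65) (nat_lit 5) (nat_lit 70) (nat_lit 5) (nat_lit 71) (nat_lit 5) (nat_lit 338) (nat_lit 323) (nat_lit 119)) (XT.lf (nat_lit 0) (nat_lit 58265128032) (nat_lit 456) (nat_lit 40304810188) (nat_lit 76) (nat_lit 37139685557) (nat_lit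 65) (nat_lit 5) (nat_lit 71) (nat_lit 5) (nat_lit 66) (nat_lit 5) (nat_lit 339) (nat_lit 323) (nat_lit 118)))))) (XT.nd (nat_lit 390) (nat_lit 608) (nat_lit 0) (XT.nd (nat_lit 156) (nat_lit 532) (nat_lit 0) (XT.nd (nat_lit 78) (nat_lit 0) (nat_lit 0) (XT.lf (nat_lit 0) (nat_lit 24500885638) (nat_lit 304) (nat_lit 48817246123) (nat_lit 380) (nat_lit 66392339301) (nat_lit 61) (nat_lit 5) (nat_lit 65) (nat_lit 5) (nat_lit 66) (nat_lit 5) (nat_lit 340) (nat_lit 323) (nat_lit 117)) (XT.lf (nat_lit 0) (nat_lit 89870751935) (nat_lit 380) (nat_lit 49995983513) (nat_lit 76) (nat_lit 4007277514) (nat_lit 61) (nat_lit 5) (nat_lit 66) (nat_lit 5) (nat_lit 62) (nat_lit 5) (nat_lit 341) (nat_lit 323) (nat_lit 116))) (XT.nd (nat_lit 78) (nat_lit 228) (nat_lit 0) (XT.lf (nat_lit 0) (nat_lit 18262258873) (nat_lit 304) (nat_lit 90073914919) (nat_lit 380) (nat_lit 39855300174) (nat_lit 57) (nat_lit 5)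 (nat_lit 61) (nat_lit 5) (nat_lit 62) (nat_lit 5) (nat_lit 342) (nat_lit 323) (nat_lit 115)) (XT.nd (nat_lit 78) (nat_lit 228) (nat_lit 0) (XT.lf (nat_lit 0) (nat_lit 91668902049) (nat_lit 304) (nat_lit 36902441022) (nat_lit 380) (nat_lit 24111141647) (nat_lit 57) (nat_lit 5) (nat_lit 61) (nat_lit 5) (nat_lit 62) (nat_lit 5) (nat_lit 343) (nat_lit 323) (nat_lit 114)) (XT.lf (nat_lit 0) (nat_lit 11417491779) (nat_lit 228) (nat_lit 138874331732) (nat_lit 304) (nat_lit 7082545354) (nat_lit 54) (nat_lit 5) (nat_lit 57) (nat_lit 5) (nat_lit 58) (nat_lit 5) (nat_lit 344) (nat_lit 323) (nat_lit 113))))) (XT.nd (nat_lit 156) (nat_lit 228) (nat_lit 0) (XT.nd (nat_lit 78) (nat_lit 304) (nat_lit 0) (XT.lf (nat_lit 0) (nat_lit 12106869001) (nat_lit 304) (nat_lit 73451546070) (nat_lit 76) (nat_lit 76651254890) (nat_lit 53) (nat_lit 5) (nat_lit 57) (nat_lit 5) (nat_lit 54) (nat_lit 5) (nat_lit 345)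 (nat_lit 323) (nat_lit 112)) (XT.lf (nat_lit 0) (nat_lit 2647429806) (nat_lit 304) (nat_lit 29411431637) (nat_lit 380) (nat_lit 135220013362) (nat_lit 49) (nat_lit 5) (nat_lit 53) (nat_lit 5) (nat_lit 54) (nat_lit 5) (nat_lit 346) (nat_lit 323) (nat_lit 111))) (XT.nd (nat_lit 78) (nat_lit 228) (nat_lit 0) (XT.lf (nat_lit 0) (nat_lit 54733829735) (nat_lit 380) (nat_lit 87919811016) (nat_lit 76) (nat_lit 29861630732) (nat_lit 49) (nat_lit 5) (nat_lit 54) (nat_lit 5) (nat_lit 50) (nat_lit 5) (nat_lit 347) (nat_lit 323) (nat_lit 110)) (XT.nd (nat_lit 78) (nat_lit 228) (nat_lit 0) (XT.lf (nat_lit 0) (nat_lit 79024509495) (nat_lit 380) (nat_lit 7854992236) (nat_lit 76) (nat_lit 91109888494) (nat_lit 49) (nat_lit 5) (nat_lit 54) (nat_lit 5) (nat_lit 50) (nat_lit 5) (nat_lit 348) (nat_lit 323) (nat_lit 109)) (XT.lf (nat_lit 0) (nat_lit 78732777302) (nat_lit 228) (nat_lit 27026002801) (nat_lit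 304) (nat_lit 77916982325) (nat_lit 46) (nat_lit 5) (nat_lit 49) (nat_lit 5) (nat_lit 50) (nat_lit 5) (nat_lit 349) (nat_lit 323) (nat_lit 108))))))))
noncomputable def xc246 : XT := (XT.nd (nat_lit 39156) (nat_lit 0) (nat_lit 1140) (XT.nd (nat_lit 702) (nat_lit 304) (nat_lit 0) (XT.nd (nat_lit 312) (nat_lit 380) (nat_lit 0) (XT.nd (nat_lit 156) (nat_lit 228) (nat_lit 0) (XT.nd (nat_lit 78) (nat_lit 228) (nat_lit 0) (XT.lf (nat_lit 0) (nat_lit 134524048306) (nat_lit 304) (nat_lit 20278828435) (nat_lit 76) (nat_lit 34808862645) (nat_lit 46) (nat_lit 5) (nat_lit 50) (nat_lit 5) (nat_lit 47) (nat_lit 5) (nat_lit 350) (nat_lit 323) (nat_lit 107)) (XT.lf (nat_lit 0) (nat_lit 70429444683) (nat_lit 228) (nat_lit 95840615876) (nat_lit 304) (nat_lit 29497330932) (nat_lit 43) (nat_lit 5) (nat_lit 46) (nat_lit 5) (nat_lit 47) (nat_lit 5) (nat_lit 351) (nat_lit 323) (nat_lit 106))) (XT.nd (nat_lit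 78) (nat_lit 228) (nat_lit 0) (XT.lf (nat_lit 0) (nat_lit 166376945956) (nat_lit 228) (nat_lit 33569694278) (nat_lit 304) (nat_lit 2267022944) (nat_lit 43) (nat_lit 5) (nat_lit 46) (nat_lit 5) (nat_lit 47) (nat_lit 5) (nat_lit 352) (nat_lit 323) (nat_lit 105)) (XT.lf (nat_lit 0) (nat_lit 26931903588) (nat_lit 228) (nat_lit 149796755735) (nat_lit 76) (nat_lit 32160556159) (nat_lit 40) (nat_lit 5) (nat_lit 43) (nat_lit 5) (nat_lit 41) (nat_lit 5) (nat_lit 353) (nat_lit 323) (nat_lit 104)))) (XT.nd (nat_lit 156) (nat_lit 152) (nat_lit 0) (XT.nd (nat_lit 78) (nat_lit 228) (nat_lit 0) (XT.lf (nat_lit 0) (nat_lit 58681617439) (nat_lit 228) (nat_lit 56453590273) (nat_lit 76) (nat_lit 100703128355) (nat_lit 40) (nat_lit 5) (nat_lit 43) (nat_lit 5) (nat_lit 41) (nat_lit 5) (nat_lit 354) (nat_lit 323) (nat_lit 103)) (XT.lf (nat_lit 0) (nat_lit 42930570885) (nat_lit 228) (nat_lit 49758363522)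 (nat_lit 304) (nat_lit 130412472662) (nat_lit 37) (nat_lit 5) (nat_lit 40) (nat_lit 5) (nat_lit 41) (nat_lit 5) (nat_lit 355) (nat_lit 323) (nat_lit 102))) (XT.nd (nat_lit 78) (nat_lit 152) (nat_lit 0) (XT.lf (nat_lit 0) (nat_lit 129663097244) (nat_lit 304) (nat_lit 81746716348) (nat_lit 76) (nat_lit 19254494278) (nat_lit 37) (nat_lit 5) (nat_lit 41) (nat_lit 5) (nat_lit 38) (nat_lit 5) (nat_lit 356) (nat_lit 323) (nat_lit 101)) (XT.nd (nat_lit 78) (nat_lit 0) (nat_lit 0) (XT.lf (nat_lit 0) (nat_lit 21469866365) (nat_lit 152) (nat_lit 148166878326) (nat_lit 228) (nat_lit 68911070431) (nat_lit 35) (nat_lit 5) (nat_lit 37) (nat_lit 5) (nat_lit 38) (nat_lit 5) (nat_lit 357) (nat_lit 323) (nat_lit 100)) (XT.lf (nat_lit 0) (nat_lit 132685140831) (nat_lit 152) (nat_lit 80308218208) (nat_lit 228) (nat_lit 33762924696) (nat_lit 35) (nat_lit 5) (nat_lit 37) (nat_lit 5) (nat_lit 38) (nat_lit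 5) (nat_lit 358) (nat_lit 323) (nat_lit 99)))))) (XT.nd (nat_lit 38064) (nat_lit 0) (nat_lit 3800) (XT.nd (nat_lit 156) (nat_lit 0) (nat_lit 0) (XT.nd (nat_lit 78) (nat_lit 228) (nat_lit 0) (XT.lf (nat_lit 0) (nat_lit 3041913061) (nat_lit 228) (nat_lit 5963255865) (nat_lit 76) (nat_lit 246367560370) (nat_lit 34) (nat_lit 5) (nat_lit 37) (nat_lit 5) (nat_lit 35) (nat_lit 5) (nat_lit 359) (nat_lit 323) (nat_lit 98)) (XT.lf (nat_lit 0) (nat_lit 43343629515) (nat_lit 304) (nat_lit 154837578976) (nat_lit 76) (nat_lit 66071549687) (nat_lit 31) (nat_lit 5) (nat_lit 35) (nat_lit 5) (nat_lit 32) (nat_lit 5) (nat_lit 360) (nat_lit 323) (nat_lit 97))) (XT.nd (nat_lit 37752) (nat_lit 0) (nat_lit 3800) (XT.lf (nat_lit 0) (nat_lit 85910580650) (nat_lit 304) (nat_lit 42951640499) (nat_lit 76) (nat_lit 144702060097) (nat_lit 31) (nat_lit 5) (nat_lit 35) (nat_lit 5) (nat_lit 32) (nat_lit 5) (nat_lit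 361) (nat_lit 323) (nat_lit 96)) (XT.nd (nat_lit 78) (nat_lit 0) (nat_lit 0) (XT.lf (nat_lit 0) (nat_lit 15110932869) (nat_lit 0) (nat_lit 15110932869) (nat_lit 684) (nat_lit 16284011304) (nat_lit 81) (nat_lit 5) (nat_lit 81) (nat_lit 3) (nat_lit 90) (nat_lit 3) (nat_lit 324) (nat_lit 324) (nat_lit 132)) (XT.lf (nat_lit 0) (nat_lit 62141218783) (nat_lit 684) (nat_lit 22063999359) (nat_lit 760) (nat_lit 11122491664) (nat_lit 81) (nat_lit 5) (nat_lit 90) (nat_lit 3) (nat_lit 91) (nat_lit 5) (nat_lit 325) (nat_lit 324) (nat_lit 131))))) (XT.nd (nat_lit 156) (nat_lit 0) (nat_lit 76) (XT.nd (nat_lit 78) (nat_lit 0) (nat_lit 0) (XT.lf (nat_lit 76) (nat_lit 20870478205) (nat_lit 0) (nat_lit 43873944800) (nat_lit 760) (nat_lit 32973999361) (nat_lit 82) (nat_lit 5) (nat_lit 81) (nat_lit 5) (nat_lit 91) (nat_lit 5) (nat_lit 326) (nat_lit 324) (nat_lit 130)) (XT.lf (nat_lit 76) (nat_lit 66717444845)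 (nat_lit 0) (nat_lit 1133579886) (nat_lit 760) (nat_lit 32358985085) (nat_lit 82) (nat_lit 5) (nat_lit 81) (nat_lit 5) (nat_lit 91) (nat_lit 5) (nat_lit 327) (nat_lit 324) (nat_lit 129))) (XT.nd (nat_lit 78) (nat_lit 0) (nat_lit 0) (XT.lf (nat_lit 76) (nat_lit 11722555432) (nat_lit 0) (nat_lit 60255982222) (nat_lit 760) (nat_lit 30804360997) (nat_lit 83) (nat_lit 5) (nat_lit 82) (nat_lit 5) (nat_lit 92) (nat_lit 5) (nat_lit 328) (nat_lit 324) (nat_lit 128)) (XT.nd (nat_lit 78) (nat_lit 0) (nat_lit 76) (XT.lf (nat_lit 76) (nat_lit 60341765174) (nat_lit 0) (nat_lit 16555768460) (nat_lit 760) (nat_lit 28557643941) (nat_lit 83) (nat_lit 5) (nat_lit 82) (nat_lit 5) (nat_lit 92) (nat_lit 5) (nat_lit 329) (nat_lit 324) (nat_lit 127)) (XT.lf (nat_lit 76) (nat_lit 2761056489) (nat_lit 0) (nat_lit 79802077339) (nat_lit 760) (nat_lit 25672904870) (nat_lit 84) (nat_lit 5) (nat_lit 83) (nat_lit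 5) (nat_lit 93) (nat_lit 5) (nat_lit 330) (nat_lit 324) (nat_lit 126))))))) (XT.nd (nat_lit 780) (nat_lit 1444) (nat_lit 0) (XT.nd (nat_lit 390) (nat_lit 760) (nat_lit 0) (XT.nd (nat_lit 156) (nat_lit 608) (nat_lit 0) (XT.nd (nat_lit 78) (nat_lit 0) (nat_lit 76) (XT.lf (nat_lit 76) (nat_lit 54314844438) (nat_lit 0) (nat_lit 35227860645) (nat_lit 760) (nat_lit 21561704163) (nat_lit 84) (nat_lit 5) (nat_lit 83) (nat_lit 5) (nat_lit 93) (nat_lit 5) (nat_lit 331) (nat_lit 324) (nat_lit 125)) (XT.lf (nat_lit 0) (nat_lit 97051637505) (nat_lit 684) (nat_lit 5850862816) (nat_lit 760) (nat_lit 11204679752) (nat_lit 84) (nat_lit 5) (nat_lit 93) (nat_lit 5) (nat_lit 94) (nat_lit 5) (nat_lit 332) (nat_lit 324) (nat_lit 124))) (XT.nd (nat_lit 78) (nat_lit 684) (nat_lit 0) (XT.lf (nat_lit 76) (nat_lit 48612931435) (nat_lit 0) (nat_lit 57659254523) (nat_lit 760) (nat_lit 10921095850) (nat_lit 85)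 (nat_lit 5) (nat_lit 84) (nat_lit 5) (nat_lit 94) (nat_lit 5) (nat_lit 333) (nat_lit 324) (nat_lit 123)) (XT.nd (nat_lit 78) (nat_lit 684) (nat_lit 0) (XT.lf (nat_lit 76) (nat_lit 106002793919) (nat_lit 0) (nat_lit 10049745868) (nat_lit 760) (nat_lit 4376210744) (nat_lit 85) (nat_lit 5) (nat_lit 84) (nat_lit 5) (nat_lit 94) (nat_lit 5) (nat_lit 334) (nat_lit 324) (nat_lit 122)) (XT.lf (nat_lit 0) (nat_lit 3734984025) (nat_lit 760) (nat_lit 80626523902) (nat_lit 76) (nat_lit 39396589554) (nat_lit 75) (nat_lit 5) (nat_lit 85) (nat_lit 5) (nat_lit 76) (nat_lit 5) (nat_lit 335) (nat_lit 324) (nat_lit 121))))) (XT.nd (nat_lit 156) (nat_lit 380) (nat_lit 0) (XT.nd (nat_lit 78) (nat_lit 380) (nat_lit 0) (XT.lf (nat_lit 0) (nat_lit 12517445820) (nat_lit 760) (nat_lit 23414636321) (nat_lit 76) (nat_lit 91297604436) (nat_lit 75) (nat_lit 5) (nat_lit 85) (nat_lit 5) (nat_lit 76) (nat_lit 5) (nat_lit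 336) (nat_lit 324) (nat_lit 120)) (XT.lf (nat_lit 0) (nat_lit 22572624694) (nat_lit 456) (nat_lit 93218261577) (nat_lit 76) (nat_lit 15042289814) (nat_lit 70) (nat_lit 5) (nat_lit 76) (nat_lit 5) (nat_lit 71) (nat_lit 5) (nat_lit 337) (nat_lit 324) (nat_lit 119))) (XT.nd (nat_lit 78) (nat_lit 380) (nat_lit 0) (XT.lf (nat_lit 0) (nat_lit 34122386326) (nat_lit 456) (nat_lit 32683976769) (nat_lit 76) (nat_lit 67760886409) (nat_lit 70) (nat_lit 5) (nat_lit 76) (nat_lit 5) (nat_lit 71) (nat_lit 5) (nat_lit 338) (nat_lit 324) (nat_lit 118)) (XT.nd (nat_lit 78) (nat_lit 0) (nat_lit 0) (XT.lf (nat_lit 0) (nat_lit 31897701614) (nat_lit 380) (nat_lit 14849694049) (nat_lit 456) (nat_lit 91715743544) (nat_lit 65) (nat_lit 5) (nat_lit 70) (nat_lit 5) (nat_lit 71) (nat_lit 5) (nat_lit 339) (nat_lit 324) (nat_lit 117)) (XT.lf (nat_lit 0) (nat_lit 61185907249) (nat_lit 456) (nat_lit 42312202257) (nat_lit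 76) (nat_lit 38996601868) (nat_lit 65) (nat_lit 5) (nat_lit 71) (nat_lit 5) (nat_lit 66) (nat_lit 5) (nat_lit 340) (nat_lit 324) (nat_lit 116)))))) (XT.nd (nat_lit 390) (nat_lit 608) (nat_lit 0) (XT.nd (nat_lit 156) (nat_lit 532) (nat_lit 0) (XT.nd (nat_lit 78) (nat_lit 0) (nat_lit 0) (XT.lf (nat_lit 0) (nat_lit 25733651772) (nat_lit 304) (nat_lit 51257671722) (nat_lit 380) (nat_lit 69704290243) (nat_lit 61) (nat_lit 5) (nat_lit 65) (nat_lit 5) (nat_lit 66) (nat_lit 5) (nat_lit 341) (nat_lit 324) (nat_lit 115)) (XT.lf (nat_lit 0) (nat_lit 94371234260) (nat_lit 380) (nat_lit 52488072296) (nat_lit 76) (nat_lit 4208043990) (nat_lit 61) (nat_lit 5) (nat_lit 66) (nat_lit 5) (nat_lit 62) (nat_lit 5) (nat_lit 342) (nat_lit 324) (nat_lit 114))) (XT.nd (nat_lit 78) (nat_lit 228) (nat_lit 0) (XT.lf (nat_lit 0) (nat_lit 19182957848) (nat_lit 304) (nat_lit 94576757099) (nat_lit 380) (nat_lit 41840981019)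 (nat_lit 57) (nat_lit 5) (nat_lit 61) (nat_lit 5) (nat_lit 62) (nat_lit 5) (nat_lit 343) (nat_lit 324) (nat_lit 113)) (XT.nd (nat_lit 78) (nat_lit 228) (nat_lit 0) (XT.lf (nat_lit 0) (nat_lit 96259571944) (nat_lit 304) (nat_lit 38746750153) (nat_lit 380) (nat_lit 25309951907) (nat_lit 57) (nat_lit 5) (nat_lit 61) (nat_lit 5) (nat_lit 62) (nat_lit 5) (nat_lit 344) (nat_lit 324) (nat_lit 112)) (XT.lf (nat_lit 0) (nat_lit 11995791692) (nat_lit 228) (nat_lit 145816857556) (nat_lit 304) (nat_lit 7430112657) (nat_lit 54) (nat_lit 5) (nat_lit 57) (nat_lit 5) (nat_lit 58) (nat_lit 5) (nat_lit 345) (nat_lit 324) (nat_lit 111))))) (XT.nd (nat_lit 156) (nat_lit 228) (nat_lit 0) (XT.nd (nat_lit 78) (nat_lit 304) (nat_lit 0) (XT.lf (nat_lit 0) (nat_lit 12718260074) (nat_lit 304) (nat_lit 77116839272) (nat_lit 76) (nat_lit 80484739330) (nat_lit 53) (nat_lit 5) (nat_lit 57) (nat_lit 5) (nat_lit 54)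 (nat_lit 5) (nat_lit 346) (nat_lit 324) (nat_lit 110)) (XT.lf (nat_lit 0) (nat_lit 2786967913) (nat_lit 304) (nat_lit 30880708134) (nat_lit 380) (nat_lit 141974837110) (nat_lit 49) (nat_lit 5) (nat_lit 53) (nat_lit 5) (nat_lit 54) (nat_lit 5) (nat_lit 347) (nat_lit 324) (nat_lit 109))) (XT.nd (nat_lit 78) (nat_lit 228) (nat_lit 0) (XT.lf (nat_lit 0) (nat_lit 57476132414) (nat_lit 380) (nat_lit 92308704628) (nat_lit 76) (nat_lit 31355906205) (nat_lit 49) (nat_lit 5) (nat_lit 54) (nat_lit 5) (nat_lit 50) (nat_lit 5) (nat_lit 348) (nat_lit 324) (nat_lit 108)) (XT.nd (nat_lit 78) (nat_lit 228) (nat_lit 0) (XT.lf (nat_lit 0) (nat_lit 82981078962) (nat_lit 380) (nat_lit 8240982859) (nat_lit 76) (nat_lit 95666520002) (nat_lit 49) (nat_lit 5) (nat_lit 54) (nat_lit 5) (nat_lit 50) (nat_lit 5) (nat_lit 349) (nat_lit 324) (nat_lit 107)) (XT.lf (nat_lit 0) (nat_lit 82676066139) (nat_lit 228) (nat_lit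 28375846310) (nat_lit 304) (nat_lit 81807368230) (nat_lit 46) (nat_lit 5) (nat_lit 49) (nat_lit 5) (nat_lit 50) (nat_lit 5) (nat_lit 350) (nat_lit 324) (nat_lit 106))))))))
noncomputable def xc247 : XT := (XT.nd (nat_lit 39390) (nat_lit 0) (nat_lit 684) (XT.nd (nat_lit 38610) (nat_lit 0) (nat_lit 3572) (XT.nd (nat_lit 390) (nat_lit 456) (nat_lit 0) (XT.nd (nat_lit 156) (nat_lit 228) (nat_lit 0) (XT.nd (nat_lit 78) (nat_lit 228) (nat_lit 0) (XT.lf (nat_lit 0) (nat_lit 141255218420) (nat_lit 304) (nat_lit 21286201189) (nat_lit 76) (nat_lit 36550648644) (nat_lit 46) (nat_lit 5) (nat_lit 50) (nat_lit 5) (nat_lit 47) (nat_lit 5) (nat_lit 351) (nat_lit 324) (nat_lit 105)) (XT.lf (nat_lit 0) (nat_lit 73957379639) (nat_lit 228) (nat_lit 100631015992) (nat_lit 304) (nat_lit 30967114579) (nat_lit 43) (nat_lit 5) (nat_lit 46) (nat_lit 5) (nat_lit 47) (nat_lit 5) (nat_lit 352) (nat_lit 324) (nat_lit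 104))) (XT.nd (nat_lit 78) (nat_lit 228) (nat_lit 0) (XT.lf (nat_lit 0) (nat_lit 174701948227) (nat_lit 228) (nat_lit 35246625965) (nat_lit 304) (nat_lit 2375533234) (nat_lit 43) (nat_lit 5) (nat_lit 46) (nat_lit 5) (nat_lit 47) (nat_lit 5) (nat_lit 353) (nat_lit 324) (nat_lit 103)) (XT.nd (nat_lit 78) (nat_lit 0) (nat_lit 0) (XT.lf (nat_lit 0) (nat_lit 28283084466) (nat_lit 228) (nat_lit 157280167002) (nat_lit 76) (nat_lit 33770187508) (nat_lit 40) (nat_lit 5) (nat_lit 43) (nat_lit 5) (nat_lit 41) (nat_lit 5) (nat_lit 354) (nat_lit 324) (nat_lit 102)) (XT.lf (nat_lit 0) (nat_lit 61620065643) (nat_lit 228) (nat_lit 59270149292) (nat_lit 76) (nat_lit 105739811955) (nat_lit 40) (nat_lit 5) (nat_lit 43) (nat_lit 5) (nat_lit 41) (nat_lit 5) (nat_lit 355) (nat_lit 324) (nat_lit 101))))) (XT.nd (nat_lit 156) (nat_lit 228) (nat_lit 0) (XT.nd (nat_lit 78) (nat_lit 0) (nat_lit 0) (XT.lf (nat_lit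 0) (nat_lit 45083121207) (nat_lit 228) (nat_lit 52244513302) (nat_lit 304) (nat_lit 136928622994) (nat_lit 37) (nat_lit 5) (nat_lit 40) (nat_lit 5) (nat_lit 41) (nat_lit 5) (nat_lit 356) (nat_lit 324) (nat_lit 100)) (XT.lf (nat_lit 0) (nat_lit 136150329241) (nat_lit 304) (nat_lit 85828133986) (nat_lit 76) (nat_lit 20218849274) (nat_lit 37) (nat_lit 5) (nat_lit 41) (nat_lit 5) (nat_lit 38) (nat_lit 5) (nat_lit 357) (nat_lit 324) (nat_lit 99))) (XT.nd (nat_lit 78) (nat_lit 76) (nat_lit 0) (XT.lf (nat_lit 0) (nat_lit 22549182408) (nat_lit 152) (nat_lit 155573373411) (nat_lit 228) (nat_lit 72352444787) (nat_lit 35) (nat_lit 5) (nat_lit 37) (nat_lit 5) (nat_lit 38) (nat_lit 5) (nat_lit 358) (nat_lit 324) (nat_lit 98)) (XT.nd (nat_lit 78) (nat_lit 76) (nat_lit 0) (XT.lf (nat_lit 0) (nat_lit 139324943325) (nat_lit 152) (nat_lit 84321868327) (nat_lit 228) (nat_lit 35447090772) (nat_lit 35)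 (nat_lit 5) (nat_lit 37) (nat_lit 5) (nat_lit 38) (nat_lit 5) (nat_lit 359) (nat_lit 324) (nat_lit 97)) (XT.lf (nat_lit 0) (nat_lit 3197678018) (nat_lit 228) (nat_lit 6256010270) (nat_lit 76) (nat_lit 258687488327) (nat_lit 34) (nat_lit 5) (nat_lit 37) (nat_lit 5) (nat_lit 35) (nat_lit 5) (nat_lit 360) (nat_lit 324) (nat_lit 96)))))) (XT.nd (nat_lit 390) (nat_lit 0) (nat_lit 76) (XT.nd (nat_lit 156) (nat_lit 0) (nat_lit 0) (XT.nd (nat_lit 78) (nat_lit 0) (nat_lit 0) (XT.lf (nat_lit 0) (nat_lit 15869924372) (nat_lit 0) (nat_lit 15869924372) (nat_lit 684) (nat_lit 17090959523) (nat_lit 81) (nat_lit 5) (nat_lit 81) (nat_lit 3) (nat_lit 90) (nat_lit 3) (nat_lit 325) (nat_lit 325) (nat_lit 130)) (XT.lf (nat_lit 0) (nat_lit 65261300552) (nat_lit 684) (nat_lit 23159844527) (nat_lit 760) (nat_lit 11672264623) (nat_lit 81) (nat_lit 5) (nat_lit 90) (nat_lit 3) (nat_lit 91) (nat_lit 5) (nat_lit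 326) (nat_lit 325) (nat_lit 129))) (XT.nd (nat_lit 78) (nat_lit 0) (nat_lit 0) (XT.lf (nat_lit 76) (nat_lit 21921238290) (nat_lit 0) (nat_lit 46072919633) (nat_lit 760) (nat_lit 34609526966) (nat_lit 82) (nat_lit 5) (nat_lit 81) (nat_lit 5) (nat_lit 91) (nat_lit 5) (nat_lit 327) (nat_lit 325) (nat_lit 128)) (XT.nd (nat_lit 78) (nat_lit 0) (nat_lit 76) (XT.lf (nat_lit 76) (nat_lit 70060208682) (nat_lit 0) (nat_lit 1195285159) (nat_lit 760) (nat_lit 33964389231) (nat_lit 82) (nat_lit 5) (nat_lit 81) (nat_lit 5) (nat_lit 91) (nat_lit 5) (nat_lit 328) (nat_lit 325) (nat_lit 127)) (XT.lf (nat_lit 76) (nat_lit 12316157969) (nat_lit 0) (nat_lit 63272698887) (nat_lit 760) (nat_lit 32332587262) (nat_lit 83) (nat_lit 5) (nat_lit 82) (nat_lit 5) (nat_lit 92) (nat_lit 5) (nat_lit 329) (nat_lit 325) (nat_lit 126))))) (XT.nd (nat_lit 156) (nat_lit 0) (nat_lit 76) (XT.nd (nat_lit 78) (nat_lit 0) (nat_lit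 76) (XT.lf (nat_lit 76) (nat_lit 63365972257) (nat_lit 0) (nat_lit 17387287887) (nat_lit 760) (nat_lit 29974105391) (nat_lit 83) (nat_lit 5) (nat_lit 82) (nat_lit 5) (nat_lit 92) (nat_lit 5) (nat_lit 330) (nat_lit 325) (nat_lit 125)) (XT.lf (nat_lit 76) (nat_lit 2906732340) (nat_lit 0) (nat_lit 83794954889) (nat_lit 760) (nat_lit 26945606495) (nat_lit 84) (nat_lit 5) (nat_lit 83) (nat_lit 5) (nat_lit 93) (nat_lit 5) (nat_lit 331) (nat_lit 325) (nat_lit 124))) (XT.nd (nat_lit 78) (nat_lit 0) (nat_lit 76) (XT.lf (nat_lit 76) (nat_lit 57037846685) (nat_lit 0) (nat_lit 36991895280) (nat_lit 760) (nat_lit 22629366878) (nat_lit 84) (nat_lit 5) (nat_lit 83) (nat_lit 5) (nat_lit 93) (nat_lit 5) (nat_lit 332) (nat_lit 325) (nat_lit 123)) (XT.nd (nat_lit 78) (nat_lit 0) (nat_lit 0) (XT.lf (nat_lit 0) (nat_lit 101913610224) (nat_lit 684) (nat_lit 6135956306) (nat_lit 760) (nat_lit 11762478449)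 (nat_lit 84) (nat_lit 5) (nat_lit 93) (nat_lit 5) (nat_lit 94) (nat_lit 5) (nat_lit 333) (nat_lit 325) (nat_lit 122)) (XT.lf (nat_lit 76) (nat_lit 51050907502) (nat_lit 0) (nat_lit 60543945848) (nat_lit 760) (nat_lit 11457616257) (nat_lit 85) (nat_lit 5) (nat_lit 84) (nat_lit 5) (nat_lit 94) (nat_lit 5) (nat_lit 334) (nat_lit 325) (nat_lit 121))))))) (XT.nd (nat_lit 780) (nat_lit 1064) (nat_lit 0) (XT.nd (nat_lit 390) (nat_lit 988) (nat_lit 0) (XT.nd (nat_lit 156) (nat_lit 380) (nat_lit 0) (XT.nd (nat_lit 78) (nat_lit 684) (nat_lit 0) (XT.lf (nat_lit 76) (nat_lit 111309914087) (nat_lit 0) (nat_lit 10553879446) (nat_lit 760) (nat_lit 4585940914) (nat_lit 85) (nat_lit 5) (nat_lit 84) (nat_lit 5) (nat_lit 94) (nat_lit 5) (nat_lit 335) (nat_lit 325) (nat_lit 120)) (XT.lf (nat_lit 0) (nat_lit 3930195994) (nat_lit 760) (nat_lit 84650210611) (nat_lit 76) (nat_lit 41365152410) (nat_lit 75)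 (nat_lit 5) (nat_lit 85) (nat_lit 5) (nat_lit 76) (nat_lit 5) (nat_lit 336) (nat_lit 325) (nat_lit 119))) (XT.nd (nat_lit 78) (nat_lit 380) (nat_lit 0) (XT.lf (nat_lit 0) (nat_lit 13151377890) (nat_lit 760) (nat_lit 24578092435) (nat_lit 76) (nat_lit 95861278351) (nat_lit 75) (nat_lit 5) (nat_lit 85) (nat_lit 5) (nat_lit 76) (nat_lit 5) (nat_lit 337) (nat_lit 325) (nat_lit 118)) (XT.nd (nat_lit 78) (nat_lit 0) (nat_lit 0) (XT.lf (nat_lit 0) (nat_lit 23709033844) (nat_lit 456) (nat_lit 97871598767) (nat_lit 76) (nat_lit 15793795058) (nat_lit 70) (nat_lit 5) (nat_lit 76) (nat_lit 5) (nat_lit 71) (nat_lit 5) (nat_lit 338) (nat_lit 325) (nat_lit 117)) (XT.lf (nat_lit 0) (nat_lit 35835913180) (nat_lit 456) (nat_lit 34310960475) (nat_lit 76) (nat_lit 71148350495) (nat_lit 70) (nat_lit 5) (nat_lit 76) (nat_lit 5) (nat_lit 71) (nat_lit 5) (nat_lit 339) (nat_lit 325) (nat_lit 116))))) (XT.nd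 (nat_lit 156) (nat_lit 608) (nat_lit 0) (XT.nd (nat_lit 78) (nat_lit 0) (nat_lit 0) (XT.lf (nat_lit 0) (nat_lit 33499685454) (nat_lit 380) (nat_lit 15592245622) (nat_lit 456) (nat_lit 96293990189) (nat_lit 65) (nat_lit 5) (nat_lit 70) (nat_lit 5) (nat_lit 71) (nat_lit 5) (nat_lit 340) (nat_lit 325) (nat_lit 115)) (XT.lf (nat_lit 0) (nat_lit 64252026026) (nat_lit 456) (nat_lit 44420693603) (nat_lit 76) (nat_lit 40946370314) (nat_lit 65) (nat_lit 5) (nat_lit 71) (nat_lit 5) (nat_lit 66) (nat_lit 5) (nat_lit 341) (nat_lit 325) (nat_lit 114))) (XT.nd (nat_lit 78) (nat_lit 304) (nat_lit 0) (XT.lf (nat_lit 0) (nat_lit 27027338309) (nat_lit 304) (nat_lit 53820159201) (nat_lit 380) (nat_lit 73182551446) (nat_lit 61) (nat_lit 5) (nat_lit 65) (nat_lit 5) (nat_lit 66) (nat_lit 5) (nat_lit 342) (nat_lit 325) (nat_lit 113)) (XT.nd (nat_lit 78) (nat_lit 304) (nat_lit 0) (XT.lf (nat_lit 0) (nat_lit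 99096095045) (nat_lit 380) (nat_lit 55105482357) (nat_lit 76) (nat_lit 4418811360) (nat_lit 61) (nat_lit 5) (nat_lit 66) (nat_lit 5) (nat_lit 62) (nat_lit 5) (nat_lit 343) (nat_lit 325) (nat_lit 112)) (XT.lf (nat_lit 0) (nat_lit 20148986495) (nat_lit 304) (nat_lit 99304820744) (nat_lit 380) (nat_lit 43926604525) (nat_lit 57) (nat_lit 5) (nat_lit 61) (nat_lit 5) (nat_lit 62) (nat_lit 5) (nat_lit 344) (nat_lit 325) (nat_lit 111)))))) (XT.nd (nat_lit 390) (nat_lit 456) (nat_lit 0) (XT.nd (nat_lit 156) (nat_lit 380) (nat_lit 0) (XT.nd (nat_lit 78) (nat_lit 228) (nat_lit 0) (XT.lf (nat_lit 0) (nat_lit 101079103640) (nat_lit 304) (nat_lit 40683350318) (nat_lit 380) (nat_lit 26569329935) (nat_lit 57) (nat_lit 5) (nat_lit 61) (nat_lit 5) (nat_lit 62) (nat_lit 5) (nat_lit 345) (nat_lit 325) (nat_lit 110)) (XT.lf (nat_lit 0) (nat_lit 12602316265) (nat_lit 228) (nat_lit 153106620378) (nat_lit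 304) (nat_lit 7795668209) (nat_lit 54) (nat_lit 5) (nat_lit 57) (nat_lit 5) (nat_lit 58) (nat_lit 5) (nat_lit 346) (nat_lit 325) (nat_lit 109))) (XT.nd (nat_lit 78) (nat_lit 304) (nat_lit 0) (XT.lf (nat_lit 0) (nat_lit 13359658450) (nat_lit 304) (nat_lit 80966074340) (nat_lit 76) (nat_lit 84509812301) (nat_lit 53) (nat_lit 5) (nat_lit 57) (nat_lit 5) (nat_lit 54) (nat_lit 5) (nat_lit 347) (nat_lit 325) (nat_lit 108)) (XT.nd (nat_lit 78) (nat_lit 0) (nat_lit 0) (XT.lf (nat_lit 0) (nat_lit 2932816641) (nat_lit 304) (nat_lit 32423568861) (nat_lit 380) (nat_lit 149067976316) (nat_lit 49) (nat_lit 5) (nat_lit 53) (nat_lit 5) (nat_lit 54) (nat_lit 5) (nat_lit 348) (nat_lit 325) (nat_lit 107)) (XT.lf (nat_lit 0) (nat_lit 60355028552) (nat_lit 380) (nat_lit 96917702728) (nat_lit 76) (nat_lit 32924784451) (nat_lit 49) (nat_lit 5) (nat_lit 54) (nat_lit 5) (nat_lit 50) (nat_lit 5) (nat_lit 349)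 (nat_lit 325) (nat_lit 106))))) (XT.nd (nat_lit 156) (nat_lit 228) (nat_lit 0) (XT.nd (nat_lit 78) (nat_lit 228) (nat_lit 0) (XT.lf (nat_lit 0) (nat_lit 87134980069) (nat_lit 380) (nat_lit 8646901400) (nat_lit 76) (nat_lit 100450877369) (nat_lit 49) (nat_lit 5) (nat_lit 54) (nat_lit 5) (nat_lit 50) (nat_lit 5) (nat_lit 350) (nat_lit 325) (nat_lit 105)) (XT.lf (nat_lit 0) (nat_lit 86815901168) (nat_lit 228) (nat_lit 29793317418) (nat_lit 304) (nat_lit 85892781347) (nat_lit 46) (nat_lit 5) (nat_lit 49) (nat_lit 5) (nat_lit 50) (nat_lit 5) (nat_lit 351) (nat_lit 325) (nat_lit 104))) (XT.nd (nat_lit 78) (nat_lit 228) (nat_lit 0) (XT.lf (nat_lit 0) (nat_lit 148322485190) (nat_lit 304) (nat_lit 22344553273) (nat_lit 76) (nat_lit 38379399096) (nat_lit 46) (nat_lit 5) (nat_lit 50) (nat_lit 5) (nat_lit 47) (nat_lit 5) (nat_lit 352) (nat_lit 325) (nat_lit 103)) (XT.nd (nat_lit 78) (nat_lit 0)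 (nat_lit 0) (XT.lf (nat_lit 0) (nat_lit 77661110500) (nat_lit 228) (nat_lit 105661087717) (nat_lit 304) (nat_lit 32510859968) (nat_lit 43) (nat_lit 5) (nat_lit 46) (nat_lit 5) (nat_lit 47) (nat_lit 5) (nat_lit 353) (nat_lit 325) (nat_lit 102)) (XT.lf (nat_lit 0) (nat_lit 183442628380) (nat_lit 228) (nat_lit 37007548622) (nat_lit 304) (nat_lit 2489919095) (nat_lit 43) (nat_lit 5) (nat_lit 46) (nat_lit 5) (nat_lit 47) (nat_lit 5) (nat_lit 354) (nat_lit 325) (nat_lit 101))))))))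
noncomputable def xc248 : XT := (XT.nd (nat_lit 39468) (nat_lit 0) (nat_lit 152) (XT.nd (nat_lit 38688) (nat_lit 0) (nat_lit 2660) (XT.nd (nat_lit 312) (nat_lit 152) (nat_lit 0) (XT.nd (nat_lit 156) (nat_lit 228) (nat_lit 0) (XT.nd (nat_lit 78) (nat_lit 0) (nat_lit 0) (XT.lf (nat_lit 0) (nat_lit 29701398054) (nat_lit 228) (nat_lit 165138346309) (nat_lit 76) (nat_lit 35460151342) (nat_lit 40) (nat_lit 5) (nat_lit 43) (nat_lit 5) (nat_lit 41) (nat_lit 5) (nat_lit 355) (nat_lit 325) (nat_lit 100)) (XT.lf (nat_lit 0) (nat_lit 64705030225) (nat_lit 228) (nat_lit 62228105287) (nat_lit 76) (nat_lit 111028187752) (nat_lit 40) (nat_lit 5) (nat_lit 43) (nat_lit 5) (nat_lit 41) (nat_lit 5) (nat_lit 356) (nat_lit 325) (nat_lit 99))) (XT.nd (nat_lit 78) (nat_lit 0) (nat_lit 0) (XT.lf (nat_lit 0) (nat_lit 47342739197) (nat_lit 228) (nat_lit 54855134980) (nat_lit 304) (nat_lit 143770996727) (nat_lit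 37) (nat_lit 5) (nat_lit 40) (nat_lit 5) (nat_lit 41) (nat_lit 5) (nat_lit 357) (nat_lit 325) (nat_lit 98)) (XT.lf (nat_lit 0) (nat_lit 142961543784) (nat_lit 304) (nat_lit 90114172722) (nat_lit 76) (nat_lit 21231270452) (nat_lit 37) (nat_lit 5) (nat_lit 41) (nat_lit 5) (nat_lit 38) (nat_lit 5) (nat_lit 358) (nat_lit 325) (nat_lit 97)))) (XT.nd (nat_lit 38142) (nat_lit 0) (nat_lit 3496) (XT.nd (nat_lit 38064) (nat_lit 0) (nat_lit 3496) (XT.lf (nat_lit 0) (nat_lit 23681922912) (nat_lit 152) (nat_lit 163350365137) (nat_lit 228) (nat_lit 75966276399) (nat_lit 35) (nat_lit 5) (nat_lit 37) (nat_lit 5) (nat_lit 38) (nat_lit 5) (nat_lit 359) (nat_lit 325) (nat_lit 96)) (XT.lf (nat_lit 0) (nat_lit 16666545180) (nat_lit 0) (nat_lit 16666545180) (nat_lit 684) (nat_lit 17938929408) (nat_lit 81) (nat_lit 5) (nat_lit 81) (nat_lit 3) (nat_lit 90) (nat_lit 3) (nat_lit 326) (nat_lit 326) (nat_lit 128)))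 (XT.nd (nat_lit 78) (nat_lit 0) (nat_lit 0) (XT.lf (nat_lit 0) (nat_lit 68536175856) (nat_lit 684) (nat_lit 24311165733) (nat_lit 760) (nat_lit 12250116743) (nat_lit 81) (nat_lit 5) (nat_lit 90) (nat_lit 3) (nat_lit 91) (nat_lit 5) (nat_lit 327) (nat_lit 326) (nat_lit 127)) (XT.nd (nat_lit 78) (nat_lit 0) (nat_lit 0) (XT.lf (nat_lit 76) (nat_lit 23023863628) (nat_lit 0) (nat_lit 48381352548) (nat_lit 760) (nat_lit 36328055593) (nat_lit 82) (nat_lit 5) (nat_lit 81) (nat_lit 5) (nat_lit 91) (nat_lit 5) (nat_lit 328) (nat_lit 326) (nat_lit 126)) (XT.lf (nat_lit 76) (nat_lit 73569469995) (nat_lit 0) (nat_lit 1259608400) (nat_lit 760) (nat_lit 35651229910) (nat_lit 82) (nat_lit 5) (nat_lit 81) (nat_lit 5) (nat_lit 91) (nat_lit 5) (nat_lit 329) (nat_lit 326) (nat_lit 125)))))) (XT.nd (nat_lit 390) (nat_lit 912) (nat_lit 0) (XT.nd (nat_lit 156) (nat_lit 0) (nat_lit 76) (XT.nd (nat_lit 78)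 (nat_lit 0) (nat_lit 0) (XT.lf (nat_lit 76) (nat_lit 12938745701) (nat_lit 0) (nat_lit 66439887169) (nat_lit 760) (nat_lit 33938339723) (nat_lit 83) (nat_lit 5) (nat_lit 82) (nat_lit 5) (nat_lit 92) (nat_lit 5) (nat_lit 330) (nat_lit 326) (nat_lit 124)) (XT.lf (nat_lit 76) (nat_lit 66540727854) (nat_lit 0) (nat_lit 18260036413) (nat_lit 760) (nat_lit 31462451707) (nat_lit 83) (nat_lit 5) (nat_lit 82) (nat_lit 5) (nat_lit 92) (nat_lit 5) (nat_lit 331) (nat_lit 326) (nat_lit 123))) (XT.nd (nat_lit 78) (nat_lit 0) (nat_lit 0) (XT.lf (nat_lit 76) (nat_lit 3058983267) (nat_lit 0) (nat_lit 87987218446) (nat_lit 760) (nat_lit 28282960635) (nat_lit 84) (nat_lit 5) (nat_lit 83) (nat_lit 5) (nat_lit 93) (nat_lit 5) (nat_lit 332) (nat_lit 326) (nat_lit 122)) (XT.nd (nat_lit 78) (nat_lit 0) (nat_lit 76) (XT.lf (nat_lit 76) (nat_lit 59896324076) (nat_lit 0) (nat_lit 38843886056) (nat_lit 760) (nat_lit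 23751381713) (nat_lit 84) (nat_lit 5) (nat_lit 83) (nat_lit 5) (nat_lit 93) (nat_lit 5) (nat_lit 333) (nat_lit 326) (nat_lit 121)) (XT.lf (nat_lit 0) (nat_lit 107017808507) (nat_lit 684) (nat_lit 6435997068) (nat_lit 760) (nat_lit 12348393491) (nat_lit 84) (nat_lit 5) (nat_lit 93) (nat_lit 5) (nat_lit 94) (nat_lit 5) (nat_lit 334) (nat_lit 326) (nat_lit 120))))) (XT.nd (nat_lit 156) (nat_lit 1064) (nat_lit 0) (XT.nd (nat_lit 78) (nat_lit 0) (nat_lit 0) (XT.lf (nat_lit 76) (nat_lit 53610100945) (nat_lit 0) (nat_lit 63572711031) (nat_lit 760) (nat_lit 12021849101) (nat_lit 85) (nat_lit 5) (nat_lit 84) (nat_lit 5) (nat_lit 94) (nat_lit 5) (nat_lit 335) (nat_lit 326) (nat_lit 119)) (XT.lf (nat_lit 76) (nat_lit 116881741285) (nat_lit 0) (nat_lit 11083066647) (nat_lit 760) (nat_lit 4807001799) (nat_lit 85) (nat_lit 5) (nat_lit 84) (nat_lit 5) (nat_lit 94) (nat_lit 5) (nat_lit 336) (nat_lit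 326) (nat_lit 118))) (XT.nd (nat_lit 78) (nat_lit 380) (nat_lit 0) (XT.lf (nat_lit 0) (nat_lit 4134381773) (nat_lit 760) (nat_lit 88875791902) (nat_lit 76) (nat_lit 43432261167) (nat_lit 75) (nat_lit 5) (nat_lit 85) (nat_lit 5) (nat_lit 76) (nat_lit 5) (nat_lit 337) (nat_lit 326) (nat_lit 117)) (XT.nd (nat_lit 78) (nat_lit 380) (nat_lit 0) (XT.lf (nat_lit 0) (nat_lit 13816257241) (nat_lit 760) (nat_lit 25800397782) (nat_lit 76) (nat_lit 100653248113) (nat_lit 75) (nat_lit 5) (nat_lit 85) (nat_lit 5) (nat_lit 76) (nat_lit 5) (nat_lit 338) (nat_lit 326) (nat_lit 116)) (XT.lf (nat_lit 0) (nat_lit 24901540334) (nat_lit 456) (nat_lit 102758307151) (nat_lit 76) (nat_lit 16582932207) (nat_lit 70) (nat_lit 5) (nat_lit 76) (nat_lit 5) (nat_lit 71) (nat_lit 5) (nat_lit 339) (nat_lit 326) (nat_lit 115))))))) (XT.nd (nat_lit 780) (nat_lit 912) (nat_lit 0) (XT.nd (nat_lit 390) (nat_lit 912) (nat_lit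 0) (XT.nd (nat_lit 156) (nat_lit 304) (nat_lit 0) (XT.nd (nat_lit 78) (nat_lit 380) (nat_lit 0) (XT.lf (nat_lit 0) (nat_lit 37634427695) (nat_lit 456) (nat_lit 36019964161) (nat_lit 76) (nat_lit 74705241730) (nat_lit 70) (nat_lit 5) (nat_lit 76) (nat_lit 5) (nat_lit 71) (nat_lit 5) (nat_lit 340) (nat_lit 326) (nat_lit 114)) (XT.lf (nat_lit 0) (nat_lit 35181108511) (nat_lit 380) (nat_lit 16371918557) (nat_lit 456) (nat_lit 101101850214) (nat_lit 65) (nat_lit 5) (nat_lit 70) (nat_lit 5) (nat_lit 71) (nat_lit 5) (nat_lit 341) (nat_lit 326) (nat_lit 113))) (XT.nd (nat_lit 78) (nat_lit 304) (nat_lit 0) (XT.lf (nat_lit 0) (nat_lit 67470816366) (nat_lit 456) (nat_lit 46635271352) (nat_lit 76) (nat_lit 42993632913) (nat_lit 65) (nat_lit 5) (nat_lit 71) (nat_lit 5) (nat_lit 66) (nat_lit 5) (nat_lit 342) (nat_lit 326) (nat_lit 112)) (XT.nd (nat_lit 78) (nat_lit 0) (nat_lit 0) (XT.lf (nat_lit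 0) (nat_lit 28385058012) (nat_lit 304) (nat_lit 56510807881) (nat_lit 380) (nat_lit 76835372162) (nat_lit 61) (nat_lit 5) (nat_lit 65) (nat_lit 5) (nat_lit 66) (nat_lit 5) (nat_lit 343) (nat_lit 326) (nat_lit 111)) (XT.lf (nat_lit 0) (nat_lit 104056613242) (nat_lit 380) (nat_lit 57854413116) (nat_lit 76) (nat_lit 4640083148) (nat_lit 61) (nat_lit 5) (nat_lit 66) (nat_lit 5) (nat_lit 62) (nat_lit 5) (nat_lit 344) (nat_lit 326) (nat_lit 110))))) (XT.nd (nat_lit 156) (nat_lit 608) (nat_lit 0) (XT.nd (nat_lit 78) (nat_lit 0) (nat_lit 0) (XT.lf (nat_lit 0) (nat_lit 21162676867) (nat_lit 304) (nat_lit 104269359550) (nat_lit 380) (nat_lit 46117106592) (nat_lit 57) (nat_lit 5) (nat_lit 61) (nat_lit 5) (nat_lit 62) (nat_lit 5) (nat_lit 345) (nat_lit 326) (nat_lit 109)) (XT.lf (nat_lit 0) (nat_lit 106139002677) (nat_lit 304) (nat_lit 42716849042) (nat_lit 380) (nat_lit 27892245804) (nat_lit 57)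 (nat_lit 5) (nat_lit 61) (nat_lit 5) (nat_lit 62) (nat_lit 5) (nat_lit 346) (nat_lit 326) (nat_lit 108))) (XT.nd (nat_lit 78) (nat_lit 380) (nat_lit 0) (XT.lf (nat_lit 0) (nat_lit 13238540911) (nat_lit 228) (nat_lit 160760971753) (nat_lit 304) (nat_lit 8180054721) (nat_lit 54) (nat_lit 5) (nat_lit 57) (nat_lit 5) (nat_lit 58) (nat_lit 5) (nat_lit 347) (nat_lit 326) (nat_lit 107)) (XT.nd (nat_lit 78) (nat_lit 304) (nat_lit 0) (XT.lf (nat_lit 0) (nat_lit 14032616767) (nat_lit 304) (nat_lit 85008385409) (nat_lit 76) (nat_lit 88736061197) (nat_lit 53) (nat_lit 5) (nat_lit 57) (nat_lit 5) (nat_lit 54) (nat_lit 5) (nat_lit 348) (nat_lit 326) (nat_lit 106)) (XT.lf (nat_lit 0) (nat_lit 3085353466) (nat_lit 304) (nat_lit 34043681835) (nat_lit 380) (nat_lit 156516293364) (nat_lit 49) (nat_lit 5) (nat_lit 53) (nat_lit 5) (nat_lit 54) (nat_lit 5) (nat_lit 349) (nat_lit 326) (nat_lit 105)))))) (XT.nd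 (nat_lit 390) (nat_lit 456) (nat_lit 0) (XT.nd (nat_lit 156) (nat_lit 456) (nat_lit 0) (XT.nd (nat_lit 78) (nat_lit 0) (nat_lit 0) (XT.lf (nat_lit 0) (nat_lit 63377396321) (nat_lit 380) (nat_lit 101757749196) (nat_lit 76) (nat_lit 34572005928) (nat_lit 49) (nat_lit 5) (nat_lit 54) (nat_lit 5) (nat_lit 50) (nat_lit 5) (nat_lit 350) (nat_lit 326) (nat_lit 104)) (XT.lf (nat_lit 0) (nat_lit 91496125589) (nat_lit 380) (nat_lit 9073685834) (nat_lit 76) (nat_lit 105474356718) (nat_lit 49) (nat_lit 5) (nat_lit 54) (nat_lit 5) (nat_lit 50) (nat_lit 5) (nat_lit 351) (nat_lit 326) (nat_lit 103))) (XT.nd (nat_lit 78) (nat_lit 228) (nat_lit 0) (XT.lf (nat_lit 0) (nat_lit 91162167175) (nat_lit 228) (nat_lit 31281784915) (nat_lit 304) (nat_lit 90182925816) (nat_lit 46) (nat_lit 5) (nat_lit 49) (nat_lit 5) (nat_lit 50) (nat_lit 5) (nat_lit 352) (nat_lit 326) (nat_lit 102)) (XT.nd (nat_lit 78) (nat_lit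 228) (nat_lit 0) (XT.lf (nat_lit 0) (nat_lit 155742696388) (nat_lit 304) (nat_lit 23456376877) (nat_lit 76) (nat_lit 40299473830) (nat_lit 46) (nat_lit 5) (nat_lit 50) (nat_lit 5) (nat_lit 47) (nat_lit 5) (nat_lit 353) (nat_lit 326) (nat_lit 101)) (XT.lf (nat_lit 0) (nat_lit 81549482922) (nat_lit 228) (nat_lit 110942800540) (nat_lit 304) (nat_lit 34132221252) (nat_lit 43) (nat_lit 5) (nat_lit 46) (nat_lit 5) (nat_lit 47) (nat_lit 5) (nat_lit 354) (nat_lit 326) (nat_lit 100))))) (XT.nd (nat_lit 156) (nat_lit 228) (nat_lit 0) (XT.nd (nat_lit 78) (nat_lit 228) (nat_lit 0) (XT.lf (nat_lit 0) (nat_lit 192619823511) (nat_lit 228) (nat_lit 38856648373) (nat_lit 304) (nat_lit 2610432465) (nat_lit 43) (nat_lit 5) (nat_lit 46) (nat_lit 5) (nat_lit 47) (nat_lit 5) (nat_lit 355) (nat_lit 326) (nat_lit 99)) (XT.lf (nat_lit 0) (nat_lit 31190240623) (nat_lit 228) (nat_lit 173389976511) (nat_lit 76)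 (nat_lit 37234478147) (nat_lit 40) (nat_lit 5) (nat_lit 43) (nat_lit 5) (nat_lit 41) (nat_lit 5) (nat_lit 356) (nat_lit 326) (nat_lit 98))) (XT.nd (nat_lit 78) (nat_lit 228) (nat_lit 0) (XT.lf (nat_lit 0) (nat_lit 67943874752) (nat_lit 228) (nat_lit 65334475204) (nat_lit 76) (nat_lit 116580853555) (nat_lit 40) (nat_lit 5) (nat_lit 43) (nat_lit 5) (nat_lit 41) (nat_lit 5) (nat_lit 357) (nat_lit 326) (nat_lit 97)) (XT.nd (nat_lit 38220) (nat_lit 0) (nat_lit 3344) (XT.lf (nat_lit 0) (nat_lit 49714830288) (nat_lit 228) (nat_lit 57596436865) (nat_lit 304) (nat_lit 150955866367) (nat_lit 37) (nat_lit 5) (nat_lit 40) (nat_lit 5) (nat_lit 41) (nat_lit 5) (nat_lit 358) (nat_lit 326) (nat_lit 96)) (XT.lf (nat_lit 0) (nat_lit 17502706533) (nat_lit 0) (nat_lit 17502706533) (nat_lit 684) (nat_lit 18829909355) (nat_lit 81) (nat_lit 5) (nat_lit 81) (nat_lit 3) (nat_lit 90) (nat_lit 3) (nat_lit 327)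 (nat_lit 327) (nat_lit 126))))))))
noncomputable def xc249 : XT := (XT.nd (nat_lit 1482) (nat_lit 1292) (nat_lit 0) (XT.nd (nat_lit 702) (nat_lit 1824) (nat_lit 0) (XT.nd (nat_lit 312) (nat_lit 0) (nat_lit 76) (XT.nd (nat_lit 156) (nat_lit 0) (nat_lit 0) (XT.nd (nat_lit 78) (nat_lit 0) (nat_lit 0) (XT.lf (nat_lit 0) (nat_lit 71973696918) (nat_lit 684) (nat_lit 25520673208) (nat_lit 760) (nat_lit 12857397084) (nat_lit 81) (nat_lit 5) (nat_lit 90) (nat_lit 3) (nat_lit 91) (nat_lit 5) (nat_lit 328) (nat_lit 327) (nat_lit 125)) (XT.lf (nat_lit 76) (nat_lit 24181010027) (nat_lit 0) (nat_lit 50804762064) (nat_lit 760) (nat_lit 38133621437) (nat_lit 82) (nat_lit 5) (nat_lit 81) (nat_lit 5) (nat_lit 91) (nat_lit 5) (nat_lit 329) (nat_lit 327) (nat_lit 124))) (XT.nd (nat_lit 78) (nat_lit 0) (nat_lit 76) (XT.lf (nat_lit 76) (nat_lit 77253613227) (nat_lit 0) (nat_lit 1326723953) (nat_lit 760)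 (nat_lit 37423470515) (nat_lit 82) (nat_lit 5) (nat_lit 81) (nat_lit 5) (nat_lit 91) (nat_lit 5) (nat_lit 330) (nat_lit 327) (nat_lit 123)) (XT.lf (nat_lit 76) (nat_lit 13591832494) (nat_lit 0) (nat_lit 69765104510) (nat_lit 760) (nat_lit 35625391039) (nat_lit 83) (nat_lit 5) (nat_lit 82) (nat_lit 5) (nat_lit 92) (nat_lit 5) (nat_lit 331) (nat_lit 327) (nat_lit 122)))) (XT.nd (nat_lit 156) (nat_lit 0) (nat_lit 76) (XT.nd (nat_lit 78) (nat_lit 0) (nat_lit 76) (XT.lf (nat_lit 76) (nat_lit 69873620921) (nat_lit 0) (nat_lit 19176107740) (nat_lit 760) (nat_lit 33026178415) (nat_lit 83) (nat_lit 5) (nat_lit 82) (nat_lit 5) (nat_lit 92) (nat_lit 5) (nat_lit 332) (nat_lit 327) (nat_lit 121)) (XT.lf (nat_lit 76) (nat_lit 3218203913) (nat_lit 0) (nat_lit 92388861284) (nat_lit 760) (nat_lit 29688105325) (nat_lit 84) (nat_lit 5) (nat_lit 83) (nat_lit 5) (nat_lit 93) (nat_lit 5) (nat_lit 333) (nat_lit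 327) (nat_lit 120))) (XT.nd (nat_lit 78) (nat_lit 0) (nat_lit 76) (XT.lf (nat_lit 76) (nat_lit 62897113121) (nat_lit 0) (nat_lit 40788253612) (nat_lit 760) (nat_lit 24930376187) (nat_lit 84) (nat_lit 5) (nat_lit 83) (nat_lit 5) (nat_lit 93) (nat_lit 5) (nat_lit 334) (nat_lit 327) (nat_lit 119)) (XT.nd (nat_lit 78) (nat_lit 0) (nat_lit 0) (XT.lf (nat_lit 0) (nat_lit 112376424802) (nat_lit 684) (nat_lit 6751668075) (nat_lit 760) (nat_lit 12963809646) (nat_lit 84) (nat_lit 5) (nat_lit 93) (nat_lit 5) (nat_lit 94) (nat_lit 5) (nat_lit 335) (nat_lit 327) (nat_lit 118)) (XT.lf (nat_lit 76) (nat_lit 56296635987) (nat_lit 0) (nat_lit 66752768705) (nat_lit 760) (nat_lit 12615097594) (nat_lit 85) (nat_lit 5) (nat_lit 84) (nat_lit 5) (nat_lit 94) (nat_lit 5) (nat_lit 336) (nat_lit 327) (nat_lit 117)))))) (XT.nd (nat_lit 390) (nat_lit 988) (nat_lit 0) (XT.nd (nat_lit 156) (nat_lit 380) (nat_lit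 0) (XT.nd (nat_lit 78) (nat_lit 684) (nat_lit 0) (XT.lf (nat_lit 76) (nat_lit 122731571200) (nat_lit 0) (nat_lit 11638574382) (nat_lit 760) (nat_lit 5039881448) (nat_lit 85) (nat_lit 5) (nat_lit 84) (nat_lit 5) (nat_lit 94) (nat_lit 5) (nat_lit 337) (nat_lit 327) (nat_lit 116)) (XT.lf (nat_lit 0) (nat_lit 4348063202) (nat_lit 760) (nat_lit 93313296473) (nat_lit 76) (nat_lit 45602832172) (nat_lit 75) (nat_lit 5) (nat_lit 85) (nat_lit 5) (nat_lit 76) (nat_lit 5) (nat_lit 338) (nat_lit 327) (nat_lit 115))) (XT.nd (nat_lit 78) (nat_lit 380) (nat_lit 0) (XT.lf (nat_lit 0) (nat_lit 14513700903) (nat_lit 760) (nat_lit 27084431933) (nat_lit 76) (nat_lit 105684918087) (nat_lit 75) (nat_lit 5) (nat_lit 85) (nat_lit 5) (nat_lit 76) (nat_lit 5) (nat_lit 339) (nat_lit 327) (nat_lit 114)) (XT.nd (nat_lit 78) (nat_lit 0) (nat_lit 0) (XT.lf (nat_lit 0) (nat_lit 26153016261) (nat_lit 456) (nat_lit 107889989806)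 (nat_lit 76) (nat_lit 17411577590) (nat_lit 70) (nat_lit 5) (nat_lit 76) (nat_lit 5) (nat_lit 71) (nat_lit 5) (nat_lit 340) (nat_lit 327) (nat_lit 113)) (XT.lf (nat_lit 0) (nat_lit 39522243279) (nat_lit 456) (nat_lit 37815026462) (nat_lit 76) (nat_lit 78440026457) (nat_lit 70) (nat_lit 5) (nat_lit 76) (nat_lit 5) (nat_lit 71) (nat_lit 5) (nat_lit 341) (nat_lit 327) (nat_lit 112))))) (XT.nd (nat_lit 156) (nat_lit 608) (nat_lit 0) (XT.nd (nat_lit 78) (nat_lit 0) (nat_lit 0) (XT.lf (nat_lit 0) (nat_lit 36946004103) (nat_lit 380) (nat_lit 17190569499) (nat_lit 456) (nat_lit 106150739110) (nat_lit 65) (nat_lit 5) (nat_lit 70) (nat_lit 5) (nat_lit 71) (nat_lit 5) (nat_lit 342) (nat_lit 327) (nat_lit 111)) (XT.lf (nat_lit 0) (nat_lit 70849970825) (nat_lit 456) (nat_lit 48961178292) (nat_lit 76) (nat_lit 45143263841) (nat_lit 65) (nat_lit 5) (nat_lit 71) (nat_lit 5) (nat_lit 66) (nat_lit 5)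 (nat_lit 343) (nat_lit 327) (nat_lit 110))) (XT.nd (nat_lit 78) (nat_lit 304) (nat_lit 0) (XT.lf (nat_lit 0) (nat_lit 29810073078) (nat_lit 304) (nat_lit 59336022397) (nat_lit 380) (nat_lit 80671420265) (nat_lit 61) (nat_lit 5) (nat_lit 65) (nat_lit 5) (nat_lit 66) (nat_lit 5) (nat_lit 344) (nat_lit 327) (nat_lit 109)) (XT.nd (nat_lit 78) (nat_lit 304) (nat_lit 0) (XT.lf (nat_lit 0) (nat_lit 109264626166) (nat_lit 380) (nat_lit 60741380158) (nat_lit 76) (nat_lit 4872387732) (nat_lit 61) (nat_lit 5) (nat_lit 66) (nat_lit 5) (nat_lit 62) (nat_lit 5) (nat_lit 345) (nat_lit 327) (nat_lit 108)) (XT.lf (nat_lit 0) (nat_lit 22226471524) (nat_lit 304) (nat_lit 109482190583) (nat_lit 380) (nat_lit 48417675609) (nat_lit 57) (nat_lit 5) (nat_lit 61) (nat_lit 5) (nat_lit 62) (nat_lit 5) (nat_lit 346) (nat_lit 327) (nat_lit 107))))))) (XT.nd (nat_lit 780) (nat_lit 228) (nat_lit 0) (XT.nd (nat_lit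 390) (nat_lit 456) (nat_lit 0) (XT.nd (nat_lit 156) (nat_lit 380) (nat_lit 0) (XT.nd (nat_lit 78) (nat_lit 228) (nat_lit 0) (XT.lf (nat_lit 0) (nat_lit 111451344062) (nat_lit 304) (nat_lit 44852084881) (nat_lit 380) (nat_lit 29281823511) (nat_lit 57) (nat_lit 5) (nat_lit 61) (nat_lit 5) (nat_lit 62) (nat_lit 5) (nat_lit 347) (nat_lit 327) (nat_lit 106)) (XT.lf (nat_lit 0) (nat_lit 13906008848) (nat_lit 228) (nat_lit 168798131776) (nat_lit 304) (nat_lit 8584162311) (nat_lit 54) (nat_lit 5) (nat_lit 57) (nat_lit 5) (nat_lit 58) (nat_lit 5) (nat_lit 348) (nat_lit 327) (nat_lit 105))) (XT.nd (nat_lit 78) (nat_lit 304) (nat_lit 0) (XT.lf (nat_lit 0) (nat_lit 14738760435) (nat_lit 304) (nat_lit 89253369170) (nat_lit 76) (nat_lit 93173552040) (nat_lit 53) (nat_lit 5) (nat_lit 57) (nat_lit 5) (nat_lit 54) (nat_lit 5) (nat_lit 349) (nat_lit 327) (nat_lit 104)) (XT.nd (nat_lit 78) (nat_lit 0)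 (nat_lit 0) (XT.lf (nat_lit 0) (nat_lit 3244968978) (nat_lit 304) (nat_lit 35744899515) (nat_lit 380) (nat_lit 164337498719) (nat_lit 49) (nat_lit 5) (nat_lit 53) (nat_lit 5) (nat_lit 54) (nat_lit 5) (nat_lit 350) (nat_lit 327) (nat_lit 103)) (XT.lf (nat_lit 0) (nat_lit 66550453295) (nat_lit 380) (nat_lit 106840340811) (nat_lit 76) (nat_lit 36301497159) (nat_lit 49) (nat_lit 5) (nat_lit 54) (nat_lit 5) (nat_lit 50) (nat_lit 5) (nat_lit 351) (nat_lit 327) (nat_lit 102))))) (XT.nd (nat_lit 156) (nat_lit 228) (nat_lit 0) (XT.nd (nat_lit 78) (nat_lit 228) (nat_lit 0) (XT.lf (nat_lit 0) (nat_lit 96074919638) (nat_lit 380) (nat_lit 9522326464) (nat_lit 76) (nat_lit 110748923063) (nat_lit 49) (nat_lit 5) (nat_lit 54) (nat_lit 5) (nat_lit 50) (nat_lit 5) (nat_lit 352) (nat_lit 327) (nat_lit 101)) (XT.lf (nat_lit 0) (nat_lit 95725237846) (nat_lit 228) (nat_lit 32844787200) (nat_lit 304) (nat_lit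 94687995374) (nat_lit 46) (nat_lit 5) (nat_lit 49) (nat_lit 5) (nat_lit 50) (nat_lit 5) (nat_lit 353) (nat_lit 327) (nat_lit 100))) (XT.nd (nat_lit 78) (nat_lit 228) (nat_lit 0) (XT.lf (nat_lit 0) (nat_lit 163533538180) (nat_lit 304) (nat_lit 24624294080) (nat_lit 76) (nat_lit 42315449589) (nat_lit 46) (nat_lit 5) (nat_lit 50) (nat_lit 5) (nat_lit 47) (nat_lit 5) (nat_lit 354) (nat_lit 327) (nat_lit 99)) (XT.nd (nat_lit 78) (nat_lit 0) (nat_lit 0) (XT.lf (nat_lit 0) (nat_lit 85631779651) (nat_lit 228) (nat_lit 116488723729) (nat_lit 304) (nat_lit 35835039376) (nat_lit 43) (nat_lit 5) (nat_lit 46) (nat_lit 5) (nat_lit 47) (nat_lit 5) (nat_lit 355) (nat_lit 327) (nat_lit 98)) (XT.lf (nat_lit 0) (nat_lit 202255407622) (nat_lit 228) (nat_lit 40798321899) (nat_lit 304) (nat_lit 2737341766) (nat_lit 43) (nat_lit 5) (nat_lit 46) (nat_lit 5) (nat_lit 47) (nat_lit 5) (nat_lit 356) (nat_lit 327)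 (nat_lit 97)))))) (XT.nd (nat_lit 38610) (nat_lit 0) (nat_lit 3116) (XT.nd (nat_lit 38376) (nat_lit 0) (nat_lit 3116) (XT.nd (nat_lit 78) (nat_lit 0) (nat_lit 0) (XT.lf (nat_lit 0) (nat_lit 32753174574) (nat_lit 228) (nat_lit 182054679768) (nat_lit 76) (nat_lit 39097398641) (nat_lit 40) (nat_lit 5) (nat_lit 43) (nat_lit 5) (nat_lit 41) (nat_lit 5) (nat_lit 357) (nat_lit 327) (nat_lit 96)) (XT.lf (nat_lit 0) (nat_lit 71344327460) (nat_lit 228) (nat_lit 68596631757) (nat_lit 76) (nat_lit 122411035840) (nat_lit 40) (nat_lit 5) (nat_lit 43) (nat_lit 5) (nat_lit 41) (nat_lit 5) (nat_lit 358) (nat_lit 327) (nat_lit 95))) (XT.nd (nat_lit 78) (nat_lit 0) (nat_lit 0) (XT.lf (nat_lit 0) (nat_lit 18380412468) (nat_lit 0) (nat_lit 18380412468) (nat_lit 684) (nat_lit 19765993011) (nat_lit 81) (nat_lit 5) (nat_lit 81) (nat_lit 3) (nat_lit 90) (nat_lit 3) (nat_lit 328) (nat_lit 328) (nat_lit 124))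 (XT.nd (nat_lit 78) (nat_lit 0) (nat_lit 0) (XT.lf (nat_lit 0) (nat_lit 75582098107) (nat_lit 684) (nat_lit 26791218603) (nat_lit 760) (nat_lit 13495527258) (nat_lit 81) (nat_lit 5) (nat_lit 90) (nat_lit 3) (nat_lit 91) (nat_lit 5) (nat_lit 329) (nat_lit 328) (nat_lit 123)) (XT.lf (nat_lit 76) (nat_lit 25395460273) (nat_lit 0) (nat_lit 53348938388) (nat_lit 760) (nat_lit 40030473089) (nat_lit 82) (nat_lit 5) (nat_lit 81) (nat_lit 5) (nat_lit 91) (nat_lit 5) (nat_lit 330) (nat_lit 328) (nat_lit 122))))) (XT.nd (nat_lit 156) (nat_lit 0) (nat_lit 76) (XT.nd (nat_lit 78) (nat_lit 0) (nat_lit 76) (XT.lf (nat_lit 76) (nat_lit 81121436502) (nat_lit 0) (nat_lit 1396810837) (nat_lit 760) (nat_lit 39285282688) (nat_lit 82) (nat_lit 5) (nat_lit 81) (nat_lit 5) (nat_lit 91) (nat_lit 5) (nat_lit 331) (nat_lit 328) (nat_lit 121)) (XT.lf (nat_lit 76) (nat_lit 14277001904) (nat_lit 0) (nat_lit 73256283075)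 (nat_lit 760) (nat_lit 37397712136) (nat_lit 83) (nat_lit 5) (nat_lit 82) (nat_lit 5) (nat_lit 92) (nat_lit 5) (nat_lit 332) (nat_lit 328) (nat_lit 120))) (XT.nd (nat_lit 78) (nat_lit 0) (nat_lit 76) (XT.lf (nat_lit 76) (nat_lit 73372614144) (nat_lit 0) (nat_lit 20137697260) (nat_lit 760) (nat_lit 34668964998) (nat_lit 83) (nat_lit 5) (nat_lit 82) (nat_lit 5) (nat_lit 92) (nat_lit 5) (nat_lit 333) (nat_lit 328) (nat_lit 119)) (XT.nd (nat_lit 78) (nat_lit 0) (nat_lit 0) (XT.lf (nat_lit 76) (nat_lit 3384802528) (nat_lit 0) (nat_lit 97010374113) (nat_lit 760) (nat_lit 31164344295) (nat_lit 84) (nat_lit 5) (nat_lit 83) (nat_lit 5) (nat_lit 93) (nat_lit 5) (nat_lit 334) (nat_lit 328) (nat_lit 118)) (XT.lf (nat_lit 76) (nat_lit 66047386320) (nat_lit 0) (nat_lit 42829637497) (nat_lit 760) (nat_lit 26169117571) (nat_lit 84) (nat_lit 5) (nat_lit 83) (nat_lit 5) (nat_lit 93) (nat_lit 5) (nat_lit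 335) (nat_lit 328) (nat_lit 117))))))))
noncomputable def xc250 : XT := (XT.nd (nat_lit 1482) (nat_lit 228) (nat_lit 0) (XT.nd (nat_lit 702) (nat_lit 1444) (nat_lit 0) (XT.nd (nat_lit 312) (nat_lit 760) (nat_lit 0) (XT.nd (nat_lit 156) (nat_lit 684) (nat_lit 0) (XT.nd (nat_lit 78) (nat_lit 0) (nat_lit 0) (XT.lf (nat_lit 0) (nat_lit 118002253634) (nat_lit 684) (nat_lit 7083692435) (nat_lit 760) (nat_lit 13610182876) (nat_lit 84) (nat_lit 5) (nat_lit 93) (nat_lit 5) (nat_lit 94) (nat_lit 5) (nat_lit 336) (nat_lit 328) (nat_lit 116)) (XT.lf (nat_lit 76) (nat_lit 59116937168) (nat_lit 0) (nat_lit 70091697047) (nat_lit 760) (nat_lit 13238737768) (nat_lit 85) (nat_lit 5) (nat_lit 84) (nat_lit 5) (nat_lit 94) (nat_lit 5) (nat_lit 337) (nat_lit 328) (nat_lit 115))) (XT.nd (nat_lit 78) (nat_lit 684) (nat_lit 0) (XT.lf (nat_lit 76) (nat_lit 128873358696) (nat_lit 0) (nat_lit 12221731584) (nat_lit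 760) (nat_lit 5285099611) (nat_lit 85) (nat_lit 5) (nat_lit 84) (nat_lit 5) (nat_lit 94) (nat_lit 5) (nat_lit 338) (nat_lit 328) (nat_lit 114)) (XT.lf (nat_lit 0) (nat_lit 4571781410) (nat_lit 760) (nat_lit 97973260594) (nat_lit 76) (nat_lit 47882028608) (nat_lit 75) (nat_lit 5) (nat_lit 85) (nat_lit 5) (nat_lit 76) (nat_lit 5) (nat_lit 339) (nat_lit 328) (nat_lit 113)))) (XT.nd (nat_lit 156) (nat_lit 380) (nat_lit 0) (XT.nd (nat_lit 78) (nat_lit 380) (nat_lit 0) (XT.lf (nat_lit 0) (nat_lit 15245400279) (nat_lit 760) (nat_lit 28433224290) (nat_lit 76) (nat_lit 110968263827) (nat_lit 75) (nat_lit 5) (nat_lit 85) (nat_lit 5) (nat_lit 76) (nat_lit 5) (nat_lit 340) (nat_lit 328) (nat_lit 112)) (XT.lf (nat_lit 0) (nat_lit 27466471074) (nat_lit 456) (nat_lit 113278836051) (nat_lit 76) (nat_lit 18281701840) (nat_lit 70) (nat_lit 5) (nat_lit 76) (nat_lit 5) (nat_lit 71) (nat_lit 5) (nat_lit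 341) (nat_lit 328) (nat_lit 111))) (XT.nd (nat_lit 78) (nat_lit 380) (nat_lit 0) (XT.lf (nat_lit 0) (nat_lit 41503883062) (nat_lit 456) (nat_lit 39700393742) (nat_lit 76) (nat_lit 82361594800) (nat_lit 70) (nat_lit 5) (nat_lit 76) (nat_lit 5) (nat_lit 71) (nat_lit 5) (nat_lit 342) (nat_lit 328) (nat_lit 110)) (XT.nd (nat_lit 78) (nat_lit 0) (nat_lit 0) (XT.lf (nat_lit 0) (nat_lit 38798601512) (nat_lit 380) (nat_lit 18050147874) (nat_lit 456) (nat_lit 111452649205) (nat_lit 65) (nat_lit 5) (nat_lit 70) (nat_lit 5) (nat_lit 71) (nat_lit 5) (nat_lit 343) (nat_lit 328) (nat_lit 109)) (XT.lf (nat_lit 0) (nat_lit 74397561103) (nat_lit 456) (nat_lit 51403925073) (nat_lit 76) (nat_lit 47400381031) (nat_lit 65) (nat_lit 5) (nat_lit 71) (nat_lit 5) (nat_lit 66) (nat_lit 5) (nat_lit 344) (nat_lit 328) (nat_lit 108)))))) (XT.nd (nat_lit 390) (nat_lit 608) (nat_lit 0) (XT.nd (nat_lit 156) (nat_lit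 532) (nat_lit 0) (XT.nd (nat_lit 78) (nat_lit 0) (nat_lit 0) (XT.lf (nat_lit 0) (nat_lit 31305803186) (nat_lit 304) (nat_lit 62302527936) (nat_lit 380) (nat_lit 84699802612) (nat_lit 61) (nat_lit 5) (nat_lit 65) (nat_lit 5) (nat_lit 66) (nat_lit 5) (nat_lit 345) (nat_lit 328) (nat_lit 107)) (XT.lf (nat_lit 0) (nat_lit 114732557939) (nat_lit 380) (nat_lit 63773230469) (nat_lit 76) (nat_lit 5116279614) (nat_lit 61) (nat_lit 5) (nat_lit 66) (nat_lit 5) (nat_lit 62) (nat_lit 5) (nat_lit 346) (nat_lit 328) (nat_lit 106))) (XT.nd (nat_lit 78) (nat_lit 228) (nat_lit 0) (XT.lf (nat_lit 0) (nat_lit 23342929625) (nat_lit 304) (nat_lit 114955722385) (nat_lit 380) (nat_lit 50833764549) (nat_lit 57) (nat_lit 5) (nat_lit 61) (nat_lit 5) (nat_lit 62) (nat_lit 5) (nat_lit 347) (nat_lit 328) (nat_lit 105)) (XT.nd (nat_lit 78) (nat_lit 228) (nat_lit 0) (XT.lf (nat_lit 0) (nat_lit 117028801289) (nat_lit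 304) (nat_lit 47094138908) (nat_lit 380) (nat_lit 30741348172) (nat_lit 57) (nat_lit 5) (nat_lit 61) (nat_lit 5) (nat_lit 62) (nat_lit 5) (nat_lit 348) (nat_lit 328) (nat_lit 104)) (XT.lf (nat_lit 0) (nat_lit 14606335042) (nat_lit 228) (nat_lit 177237232410) (nat_lit 304) (nat_lit 9008930385) (nat_lit 54) (nat_lit 5) (nat_lit 57) (nat_lit 5) (nat_lit 58) (nat_lit 5) (nat_lit 349) (nat_lit 328) (nat_lit 103))))) (XT.nd (nat_lit 156) (nat_lit 228) (nat_lit 0) (XT.nd (nat_lit 78) (nat_lit 304) (nat_lit 0) (XT.lf (nat_lit 0) (nat_lit 15479791726) (nat_lit 304) (nat_lit 93711107462) (nat_lit 76) (nat_lit 97832853481) (nat_lit 53) (nat_lit 5) (nat_lit 57) (nat_lit 5) (nat_lit 54) (nat_lit 5) (nat_lit 350) (nat_lit 328) (nat_lit 102)) (XT.lf (nat_lit 0) (nat_lit 3412068075) (nat_lit 304) (nat_lit 37531267927) (nat_lit 380) (nat_lit 172550192872) (nat_lit 49) (nat_lit 5) (nat_lit 53) (nat_lit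 5) (nat_lit 54) (nat_lit 5) (nat_lit 351) (nat_lit 328) (nat_lit 101))) (XT.nd (nat_lit 78) (nat_lit 228) (nat_lit 0) (XT.lf (nat_lit 0) (nat_lit 69881773836) (nat_lit 380) (nat_lit 112177554365) (nat_lit 76) (nat_lit 38117380120) (nat_lit 49) (nat_lit 5) (nat_lit 54) (nat_lit 5) (nat_lit 50) (nat_lit 5) (nat_lit 352) (nat_lit 328) (nat_lit 100)) (XT.nd (nat_lit 78) (nat_lit 228) (nat_lit 0) (XT.lf (nat_lit 0) (nat_lit 100882282644) (nat_lit 380) (nat_lit 9993868038) (nat_lit 76) (nat_lit 116287138838) (nat_lit 49) (nat_lit 5) (nat_lit 54) (nat_lit 5) (nat_lit 50) (nat_lit 5) (nat_lit 353) (nat_lit 328) (nat_lit 99)) (XT.lf (nat_lit 0) (nat_lit 100516000702) (nat_lit 228) (nat_lit 34486040655) (nat_lit 304) (nat_lit 99418697425) (nat_lit 46) (nat_lit 5) (nat_lit 49) (nat_lit 5) (nat_lit 50) (nat_lit 5) (nat_lit 354) (nat_lit 328) (nat_lit 98))))))) (XT.nd (nat_lit 39156) (nat_lit 0)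 (nat_lit 1672) (XT.nd (nat_lit 38766) (nat_lit 0) (nat_lit 2888) (XT.nd (nat_lit 156) (nat_lit 0) (nat_lit 0) (XT.nd (nat_lit 78) (nat_lit 228) (nat_lit 0) (XT.lf (nat_lit 0) (nat_lit 171713577423) (nat_lit 304) (nat_lit 25851062851) (nat_lit 76) (nat_lit 44432130974) (nat_lit 46) (nat_lit 5) (nat_lit 50) (nat_lit 5) (nat_lit 47) (nat_lit 5) (nat_lit 355) (nat_lit 328) (nat_lit 97)) (XT.lf (nat_lit 0) (nat_lit 89917742858) (nat_lit 228) (nat_lit 122312056208) (nat_lit 304) (nat_lit 37623351038) (nat_lit 43) (nat_lit 5) (nat_lit 46) (nat_lit 5) (nat_lit 47) (nat_lit 5) (nat_lit 356) (nat_lit 328) (nat_lit 96))) (XT.nd (nat_lit 38454) (nat_lit 0) (nat_lit 2888) (XT.lf (nat_lit 0) (nat_lit 212372343931) (nat_lit 228) (nat_lit 42837186844) (nat_lit 304) (nat_lit 2870932372) (nat_lit 43) (nat_lit 5) (nat_lit 46) (nat_lit 5) (nat_lit 47) (nat_lit 5) (nat_lit 357) (nat_lit 328) (nat_lit 95))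 (XT.nd (nat_lit 78) (nat_lit 0) (nat_lit 0) (XT.lf (nat_lit 0) (nat_lit 19301764708) (nat_lit 0) (nat_lit 19301764708) (nat_lit 684) (nat_lit 20749383988) (nat_lit 81) (nat_lit 5) (nat_lit 81) (nat_lit 3) (nat_lit 90) (nat_lit 3) (nat_lit 329) (nat_lit 329) (nat_lit 122)) (XT.lf (nat_lit 0) (nat_lit 79370016023) (nat_lit 684) (nat_lit 28125801515) (nat_lit 760) (nat_lit 14166004592) (nat_lit 81) (nat_lit 5) (nat_lit 90) (nat_lit 3) (nat_lit 91) (nat_lit 5) (nat_lit 330) (nat_lit 329) (nat_lit 121))))) (XT.nd (nat_lit 156) (nat_lit 0) (nat_lit 76) (XT.nd (nat_lit 78) (nat_lit 0) (nat_lit 0) (XT.lf (nat_lit 76) (nat_lit 26670131014) (nat_lit 0) (nat_lit 56019957391) (nat_lit 760) (nat_lit 42023081169) (nat_lit 82) (nat_lit 5) (nat_lit 81) (nat_lit 5) (nat_lit 91) (nat_lit 5) (nat_lit 331) (nat_lit 329) (nat_lit 120)) (XT.lf (nat_lit 76) (nat_lit 85182172829) (nat_lit 0) (nat_lit 1470053363)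 (nat_lit 760) (nat_lit 41241055799) (nat_lit 82) (nat_lit 5) (nat_lit 81) (nat_lit 5) (nat_lit 91) (nat_lit 5) (nat_lit 332) (nat_lit 329) (nat_lit 119))) (XT.nd (nat_lit 78) (nat_lit 0) (nat_lit 0) (XT.lf (nat_lit 76) (nat_lit 14995911215) (nat_lit 0) (nat_lit 76921748784) (nat_lit 760) (nat_lit 39259481231) (nat_lit 83) (nat_lit 5) (nat_lit 82) (nat_lit 5) (nat_lit 92) (nat_lit 5) (nat_lit 333) (nat_lit 329) (nat_lit 118)) (XT.nd (nat_lit 78) (nat_lit 0) (nat_lit 76) (XT.lf (nat_lit 76) (nat_lit 77046063152) (nat_lit 0) (nat_lit 21147107414) (nat_lit 760) (nat_lit 36394683237) (nat_lit 83) (nat_lit 5) (nat_lit 82) (nat_lit 5) (nat_lit 92) (nat_lit 5) (nat_lit 334) (nat_lit 329) (nat_lit 117)) (XT.lf (nat_lit 76) (nat_lit 3559202219) (nat_lit 0) (nat_lit 101862770157) (nat_lit 760) (nat_lit 32715154438) (nat_lit 84) (nat_lit 5) (nat_lit 83) (nat_lit 5) (nat_lit 93) (nat_lit 5) (nat_lit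 335) (nat_lit 329) (nat_lit 116)))))) (XT.nd (nat_lit 390) (nat_lit 760) (nat_lit 0) (XT.nd (nat_lit 156) (nat_lit 608) (nat_lit 0) (XT.nd (nat_lit 78) (nat_lit 0) (nat_lit 76) (XT.lf (nat_lit 76) (nat_lit 69354669507) (nat_lit 0) (nat_lit 44972907313) (nat_lit 760) (nat_lit 27470519096) (nat_lit 84) (nat_lit 5) (nat_lit 83) (nat_lit 5) (nat_lit 93) (nat_lit 5) (nat_lit 336) (nat_lit 329) (nat_lit 115)) (XT.lf (nat_lit 0) (nat_lit 123908722408) (nat_lit 684) (nat_lit 7432834840) (nat_lit 760) (nat_lit 14289043720) (nat_lit 84) (nat_lit 5) (nat_lit 93) (nat_lit 5) (nat_lit 94) (nat_lit 5) (nat_lit 337) (nat_lit 329) (nat_lit 114))) (XT.nd (nat_lit 78) (nat_lit 684) (nat_lit 0) (XT.lf (nat_lit 76) (nat_lit 62077744918) (nat_lit 0) (nat_lit 73597451883) (nat_lit 760) (nat_lit 13894221409) (nat_lit 85) (nat_lit 5) (nat_lit 84) (nat_lit 5) (nat_lit 94) (nat_lit 5) (nat_lit 338) (nat_lit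 329) (nat_lit 113)) (XT.nd (nat_lit 78) (nat_lit 684) (nat_lit 0) (XT.lf (nat_lit 76) (nat_lit 135321751288) (nat_lit 0) (nat_lit 12833932434) (nat_lit 760) (nat_lit 5543208642) (nat_lit 85) (nat_lit 5) (nat_lit 84) (nat_lit 5) (nat_lit 94) (nat_lit 5) (nat_lit 339) (nat_lit 329) (nat_lit 112)) (XT.lf (nat_lit 0) (nat_lit 4806098414) (nat_lit 760) (nat_lit 102866752919) (nat_lit 76) (nat_lit 50275272739) (nat_lit 75) (nat_lit 5) (nat_lit 85) (nat_lit 5) (nat_lit 76) (nat_lit 5) (nat_lit 340) (nat_lit 329) (nat_lit 111))))) (XT.nd (nat_lit 156) (nat_lit 380) (nat_lit 0) (XT.nd (nat_lit 78) (nat_lit 380) (nat_lit 0) (XT.lf (nat_lit 0) (nat_lit 16013125469) (nat_lit 760) (nat_lit 29849961023) (nat_lit 76) (nat_lit 116515860543) (nat_lit 75) (nat_lit 5) (nat_lit 85) (nat_lit 5) (nat_lit 76) (nat_lit 5) (nat_lit 341) (nat_lit 329) (nat_lit 110)) (XT.lf (nat_lit 0) (nat_lit 28845059027) (nat_lit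 456) (nat_lit 118937650194) (nat_lit 76) (nat_lit 19195374571) (nat_lit 70) (nat_lit 5) (nat_lit 76) (nat_lit 5) (nat_lit 71) (nat_lit 5) (nat_lit 342) (nat_lit 329) (nat_lit 109))) (XT.nd (nat_lit 78) (nat_lit 380) (nat_lit 0) (XT.lf (nat_lit 0) (nat_lit 43584090929) (nat_lit 456) (nat_lit 41680529943) (nat_lit 76) (nat_lit 86479281815) (nat_lit 70) (nat_lit 5) (nat_lit 76) (nat_lit 5) (nat_lit 71) (nat_lit 5) (nat_lit 343) (nat_lit 329) (nat_lit 108)) (XT.nd (nat_lit 78) (nat_lit 0) (nat_lit 0) (XT.lf (nat_lit 0) (nat_lit 40743336307) (nat_lit 380) (nat_lit 18952700528) (nat_lit 456) (nat_lit 117020177936) (nat_lit 65) (nat_lit 5) (nat_lit 70) (nat_lit 5) (nat_lit 71) (nat_lit 5) (nat_lit 344) (nat_lit 329) (nat_lit 107)) (XT.lf (nat_lit 0) (nat_lit 78122057514) (nat_lit 456) (nat_lit 53969303065) (nat_lit 76) (nat_lit 49770358357) (nat_lit 65) (nat_lit 5) (nat_lit 71) (nat_lit 5)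 (nat_lit 66) (nat_lit 5) (nat_lit 345) (nat_lit 329) (nat_lit 106))))))))
noncomputable def xc251 : XT := (XT.nd (nat_lit 40170) (nat_lit 0) (nat_lit 228) (XT.nd (nat_lit 39390) (nat_lit 0) (nat_lit 2660) (XT.nd (nat_lit 390) (nat_lit 608) (nat_lit 0) (XT.nd (nat_lit 156) (nat_lit 532) (nat_lit 0) (XT.nd (nat_lit 78) (nat_lit 0) (nat_lit 0) (XT.lf (nat_lit 0) (nat_lit 32875833893) (nat_lit 304) (nat_lit 65417386233) (nat_lit 380) (nat_lit 88930086469) (nat_lit 61) (nat_lit 5) (nat_lit 65) (nat_lit 5) (nat_lit 66) (nat_lit 5) (nat_lit 346) (nat_lit 329) (nat_lit 105)) (XT.lf (nat_lit 0) (nat_lit 120473449296) (nat_lit 380) (nat_lit 66957158480) (nat_lit 76) (nat_lit 5372340756) (nat_lit 61) (nat_lit 5) (nat_lit 66) (nat_lit 5) (nat_lit 62) (nat_lit 5) (nat_lit 347) (nat_lit 329) (nat_lit 104))) (XT.nd (nat_lit 78) (nat_lit 228) (nat_lit 0) (XT.lf (nat_lit 0) (nat_lit 24514733272) (nat_lit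 304) (nat_lit 120702984489) (nat_lit 380) (nat_lit 53371103714) (nat_lit 57) (nat_lit 5) (nat_lit 61) (nat_lit 5) (nat_lit 62) (nat_lit 5) (nat_lit 348) (nat_lit 329) (nat_lit 103)) (XT.nd (nat_lit 78) (nat_lit 228) (nat_lit 0) (XT.lf (nat_lit 0) (nat_lit 122884676749) (nat_lit 304) (nat_lit 49448346791) (nat_lit 380) (nat_lit 32274273617) (nat_lit 57) (nat_lit 5) (nat_lit 61) (nat_lit 5) (nat_lit 62) (nat_lit 5) (nat_lit 349) (nat_lit 329) (nat_lit 102)) (XT.lf (nat_lit 0) (nat_lit 15341210300) (nat_lit 228) (nat_lit 186098363006) (nat_lit 304) (nat_lit 9455349655) (nat_lit 54) (nat_lit 5) (nat_lit 57) (nat_lit 5) (nat_lit 58) (nat_lit 5) (nat_lit 350) (nat_lit 329) (nat_lit 101))))) (XT.nd (nat_lit 156) (nat_lit 228) (nat_lit 0) (XT.nd (nat_lit 78) (nat_lit 304) (nat_lit 0) (XT.lf (nat_lit 0) (nat_lit 16257494029) (nat_lit 304) (nat_lit 98392191028) (nat_lit 76) (nat_lit 102725061996)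 (nat_lit 53) (nat_lit 5) (nat_lit 57) (nat_lit 5) (nat_lit 54) (nat_lit 5) (nat_lit 351) (nat_lit 329) (nat_lit 100)) (XT.lf (nat_lit 0) (nat_lit 3587071160) (nat_lit 304) (nat_lit 39407036254) (nat_lit 380) (nat_lit 181173910423) (nat_lit 49) (nat_lit 5) (nat_lit 53) (nat_lit 5) (nat_lit 54) (nat_lit 5) (nat_lit 352) (nat_lit 329) (nat_lit 99))) (XT.nd (nat_lit 78) (nat_lit 228) (nat_lit 0) (XT.lf (nat_lit 0) (nat_lit 73379307313) (nat_lit 380) (nat_lit 117782075179) (nat_lit 76) (nat_lit 40023982100) (nat_lit 49) (nat_lit 5) (nat_lit 54) (nat_lit 5) (nat_lit 50) (nat_lit 5) (nat_lit 353) (nat_lit 329) (nat_lit 98)) (XT.nd (nat_lit 78) (nat_lit 228) (nat_lit 0) (XT.lf (nat_lit 0) (nat_lit 105929677524) (nat_lit 380) (nat_lit 10489412007) (nat_lit 76) (nat_lit 122102193850) (nat_lit 49) (nat_lit 5) (nat_lit 54) (nat_lit 5) (nat_lit 50) (nat_lit 5) (nat_lit 354) (nat_lit 329) (nat_lit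 97)) (XT.lf (nat_lit 0) (nat_lit 105545883243) (nat_lit 228) (nat_lit 36209448442) (nat_lit 304) (nat_lit 104386278358) (nat_lit 46) (nat_lit 5) (nat_lit 49) (nat_lit 5) (nat_lit 50) (nat_lit 5) (nat_lit 355) (nat_lit 329) (nat_lit 96)))))) (XT.nd (nat_lit 390) (nat_lit 0) (nat_lit 76) (XT.nd (nat_lit 156) (nat_lit 0) (nat_lit 0) (XT.nd (nat_lit 78) (nat_lit 0) (nat_lit 0) (XT.lf (nat_lit 0) (nat_lit 20268967788) (nat_lit 0) (nat_lit 20268967788) (nat_lit 684) (nat_lit 21782400876) (nat_lit 81) (nat_lit 5) (nat_lit 81) (nat_lit 3) (nat_lit 90) (nat_lit 3) (nat_lit 330) (nat_lit 330) (nat_lit 120)) (XT.lf (nat_lit 0) (nat_lit 83346510484) (nat_lit 684) (nat_lit 29527576382) (nat_lit 760) (nat_lit 14870405475) (nat_lit 81) (nat_lit 5) (nat_lit 90) (nat_lit 3) (nat_lit 91) (nat_lit 5) (nat_lit 331) (nat_lit 330) (nat_lit 119))) (XT.nd (nat_lit 78) (nat_lit 0) (nat_lit 0) (XT.lf (nat_lit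 76) (nat_lit 28008079948) (nat_lit 0) (nat_lit 58824195244) (nat_lit 760) (nat_lit 44116148539) (nat_lit 82) (nat_lit 5) (nat_lit 81) (nat_lit 5) (nat_lit 91) (nat_lit 5) (nat_lit 332) (nat_lit 330) (nat_lit 118)) (XT.nd (nat_lit 78) (nat_lit 0) (nat_lit 76) (XT.lf (nat_lit 76) (nat_lit 89445512312) (nat_lit 0) (nat_lit 1546641730) (nat_lit 760) (nat_lit 43295406982) (nat_lit 82) (nat_lit 5) (nat_lit 81) (nat_lit 5) (nat_lit 91) (nat_lit 5) (nat_lit 333) (nat_lit 330) (nat_lit 117)) (XT.lf (nat_lit 76) (nat_lit 15750295634) (nat_lit 0) (nat_lit 80770241261) (nat_lit 760) (nat_lit 41215093377) (nat_lit 83) (nat_lit 5) (nat_lit 82) (nat_lit 5) (nat_lit 92) (nat_lit 5) (nat_lit 334) (nat_lit 330) (nat_lit 116))))) (XT.nd (nat_lit 156) (nat_lit 0) (nat_lit 76) (XT.nd (nat_lit 78) (nat_lit 0) (nat_lit 76) (XT.lf (nat_lit 76) (nat_lit 80902736650) (nat_lit 0) (nat_lit 22206753297) (nat_lit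 760) (nat_lit 38207406051) (nat_lit 83) (nat_lit 5) (nat_lit 82) (nat_lit 5) (nat_lit 92) (nat_lit 5) (nat_lit 335) (nat_lit 330) (nat_lit 115)) (XT.lf (nat_lit 76) (nat_lit 3741842207) (nat_lit 0) (nat_lit 106957611465) (nat_lit 760) (nat_lit 34344193728) (nat_lit 84) (nat_lit 5) (nat_lit 83) (nat_lit 5) (nat_lit 93) (nat_lit 5) (nat_lit 336) (nat_lit 330) (nat_lit 114))) (XT.nd (nat_lit 78) (nat_lit 0) (nat_lit 76) (XT.lf (nat_lit 76) (nat_lit 72826860008) (nat_lit 0) (nat_lit 47223174394) (nat_lit 760) (nat_lit 28837646544) (nat_lit 84) (nat_lit 5) (nat_lit 83) (nat_lit 5) (nat_lit 93) (nat_lit 5) (nat_lit 337) (nat_lit 330) (nat_lit 113)) (XT.nd (nat_lit 78) (nat_lit 0) (nat_lit 0) (XT.lf (nat_lit 0) (nat_lit 130109923692) (nat_lit 684) (nat_lit 7799903142) (nat_lit 760) (nat_lit 15002000849) (nat_lit 84) (nat_lit 5) (nat_lit 93) (nat_lit 5) (nat_lit 94) (nat_lit 5) (nat_lit 338)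 (nat_lit 330) (nat_lit 112)) (XT.lf (nat_lit 76) (nat_lit 65186131838) (nat_lit 0) (nat_lit 77278385687) (nat_lit 760) (nat_lit 14583079193) (nat_lit 85) (nat_lit 5) (nat_lit 84) (nat_lit 5) (nat_lit 94) (nat_lit 5) (nat_lit 339) (nat_lit 330) (nat_lit 111))))))) (XT.nd (nat_lit 780) (nat_lit 608) (nat_lit 0) (XT.nd (nat_lit 390) (nat_lit 988) (nat_lit 0) (XT.nd (nat_lit 156) (nat_lit 380) (nat_lit 0) (XT.nd (nat_lit 78) (nat_lit 684) (nat_lit 0) (XT.lf (nat_lit 76) (nat_lit 142092124257) (nat_lit 0) (nat_lit 13476639732) (nat_lit 760) (nat_lit 5814794516) (nat_lit 85) (nat_lit 5) (nat_lit 84) (nat_lit 5) (nat_lit 94) (nat_lit 5) (nat_lit 340) (nat_lit 330) (nat_lit 110)) (XT.lf (nat_lit 0) (nat_lit 5051598740) (nat_lit 760) (nat_lit 108005400583) (nat_lit 76) (nat_lit 52788258780) (nat_lit 75) (nat_lit 5) (nat_lit 85) (nat_lit 5) (nat_lit 76) (nat_lit 5) (nat_lit 341) (nat_lit 330)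 (nat_lit 109))) (XT.nd (nat_lit 78) (nat_lit 380) (nat_lit 0) (XT.lf (nat_lit 0) (nat_lit 16818729747) (nat_lit 760) (nat_lit 31337992425) (nat_lit 76) (nat_lit 122340913002) (nat_lit 75) (nat_lit 5) (nat_lit 85) (nat_lit 5) (nat_lit 76) (nat_lit 5) (nat_lit 342) (nat_lit 330) (nat_lit 108)) (XT.nd (nat_lit 78) (nat_lit 0) (nat_lit 0) (XT.lf (nat_lit 0) (nat_lit 30292086943) (nat_lit 456) (nat_lit 124879881765) (nat_lit 76) (nat_lit 20154769275) (nat_lit 70) (nat_lit 5) (nat_lit 76) (nat_lit 5) (nat_lit 71) (nat_lit 5) (nat_lit 343) (nat_lit 330) (nat_lit 107)) (XT.lf (nat_lit 0) (nat_lit 45767843061) (nat_lit 456) (nat_lit 43760126975) (nat_lit 76) (nat_lit 90802889692) (nat_lit 70) (nat_lit 5) (nat_lit 76) (nat_lit 5) (nat_lit 71) (nat_lit 5) (nat_lit 344) (nat_lit 330) (nat_lit 106))))) (XT.nd (nat_lit 156) (nat_lit 608) (nat_lit 0) (XT.nd (nat_lit 78) (nat_lit 0) (nat_lit 0) (XT.lf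 (nat_lit 0) (nat_lit 42784861145) (nat_lit 380) (nat_lit 19900376608) (nat_lit 456) (nat_lit 122866557601) (nat_lit 65) (nat_lit 5) (nat_lit 70) (nat_lit 5) (nat_lit 71) (nat_lit 5) (nat_lit 345) (nat_lit 330) (nat_lit 105)) (XT.lf (nat_lit 0) (nat_lit 82032349375) (nat_lit 456) (nat_lit 56663397913) (nat_lit 76) (nat_lit 52258838428) (nat_lit 65) (nat_lit 5) (nat_lit 71) (nat_lit 5) (nat_lit 66) (nat_lit 5) (nat_lit 346) (nat_lit 330) (nat_lit 104))) (XT.nd (nat_lit 78) (nat_lit 304) (nat_lit 0) (XT.lf (nat_lit 0) (nat_lit 34523925405) (nat_lit 304) (nat_lit 68688012370) (nat_lit 380) (nat_lit 93372322064) (nat_lit 61) (nat_lit 5) (nat_lit 65) (nat_lit 5) (nat_lit 66) (nat_lit 5) (nat_lit 347) (nat_lit 330) (nat_lit 103)) (XT.nd (nat_lit 78) (nat_lit 304) (nat_lit 0) (XT.lf (nat_lit 0) (nat_lit 126500988845) (nat_lit 380) (nat_lit 70300722968) (nat_lit 76) (nat_lit 5641181976) (nat_lit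 61) (nat_lit 5) (nat_lit 66) (nat_lit 5) (nat_lit 62) (nat_lit 5) (nat_lit 348) (nat_lit 330) (nat_lit 102)) (XT.lf (nat_lit 0) (nat_lit 25744694122) (nat_lit 304) (nat_lit 126737658415) (nat_lit 380) (nat_lit 56035714173) (nat_lit 57) (nat_lit 5) (nat_lit 61) (nat_lit 5) (nat_lit 62) (nat_lit 5) (nat_lit 349) (nat_lit 330) (nat_lit 101)))))) (XT.nd (nat_lit 39156) (nat_lit 0) (nat_lit 2432) (XT.nd (nat_lit 156) (nat_lit 380) (nat_lit 0) (XT.nd (nat_lit 78) (nat_lit 228) (nat_lit 0) (XT.lf (nat_lit 0) (nat_lit 129032933621) (nat_lit 304) (nat_lit 51920311466) (nat_lit 380) (nat_lit 33884230414) (nat_lit 57) (nat_lit 5) (nat_lit 61) (nat_lit 5) (nat_lit 62) (nat_lit 5) (nat_lit 350) (nat_lit 330) (nat_lit 100)) (XT.lf (nat_lit 0) (nat_lit 16112405513) (nat_lit 228) (nat_lit 195402618095) (nat_lit 304) (nat_lit 9924464305) (nat_lit 54) (nat_lit 5) (nat_lit 57) (nat_lit 5) (nat_lit 58)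 (nat_lit 5) (nat_lit 351) (nat_lit 330) (nat_lit 99))) (XT.nd (nat_lit 78) (nat_lit 304) (nat_lit 0) (XT.lf (nat_lit 0) (nat_lit 17073736273) (nat_lit 304) (nat_lit 103307744519) (nat_lit 76) (nat_lit 107861828330) (nat_lit 53) (nat_lit 5) (nat_lit 57) (nat_lit 5) (nat_lit 54) (nat_lit 5) (nat_lit 352) (nat_lit 330) (nat_lit 98)) (XT.nd (nat_lit 78) (nat_lit 0) (nat_lit 0) (XT.lf (nat_lit 0) (nat_lit 3770415358) (nat_lit 304) (nat_lit 41376666915) (nat_lit 380) (nat_lit 190229166403) (nat_lit 49) (nat_lit 5) (nat_lit 53) (nat_lit 5) (nat_lit 54) (nat_lit 5) (nat_lit 353) (nat_lit 330) (nat_lit 97)) (XT.lf (nat_lit 0) (nat_lit 77051397200) (nat_lit 380) (nat_lit 123667227097) (nat_lit 76) (nat_lit 42025846033) (nat_lit 49) (nat_lit 5) (nat_lit 54) (nat_lit 5) (nat_lit 50) (nat_lit 5) (nat_lit 354) (nat_lit 330) (nat_lit 96))))) (XT.nd (nat_lit 156) (nat_lit 0) (nat_lit 0) (XT.nd (nat_lit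 78) (nat_lit 0) (nat_lit 0) (XT.lf (nat_lit 0) (nat_lit 21284334404) (nat_lit 0) (nat_lit 21284334404) (nat_lit 684) (nat_lit 22867482543) (nat_lit 81) (nat_lit 5) (nat_lit 81) (nat_lit 3) (nat_lit 90) (nat_lit 3) (nat_lit 331) (nat_lit 331) (nat_lit 118)) (XT.lf (nat_lit 0) (nat_lit 87521086493) (nat_lit 684) (nat_lit 30999859773) (nat_lit 760) (nat_lit 15610388926) (nat_lit 81) (nat_lit 5) (nat_lit 90) (nat_lit 3) (nat_lit 91) (nat_lit 5) (nat_lit 332) (nat_lit 331) (nat_lit 117))) (XT.nd (nat_lit 78) (nat_lit 0) (nat_lit 0) (XT.lf (nat_lit 76) (nat_lit 29412513318) (nat_lit 0) (nat_lit 61768343768) (nat_lit 760) (nat_lit 46314621102) (nat_lit 82) (nat_lit 5) (nat_lit 81) (nat_lit 5) (nat_lit 91) (nat_lit 5) (nat_lit 333) (nat_lit 331) (nat_lit 116)) (XT.nd (nat_lit 78) (nat_lit 0) (nat_lit 76) (XT.lf (nat_lit 76) (nat_lit 93921625425) (nat_lit 0) (nat_lit 1626772637) (nat_lit 760)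 (nat_lit 45453191745) (nat_lit 82) (nat_lit 5) (nat_lit 81) (nat_lit 5) (nat_lit 91) (nat_lit 5) (nat_lit 334) (nat_lit 331) (nat_lit 115)) (XT.lf (nat_lit 76) (nat_lit 16541972645) (nat_lit 0) (nat_lit 84810934766) (nat_lit 760) (nat_lit 43269170572) (nat_lit 83) (nat_lit 5) (nat_lit 82) (nat_lit 5) (nat_lit 92) (nat_lit 5) (nat_lit 335) (nat_lit 331) (nat_lit 114))))))))
noncomputable def xc252 : XT := (XT.nd (nat_lit 40326) (nat_lit 0) (nat_lit 608) (XT.nd (nat_lit 702) (nat_lit 1596) (nat_lit 0) (XT.nd (nat_lit 312) (nat_lit 912) (nat_lit 0) (XT.nd (nat_lit 156) (nat_lit 0) (nat_lit 76) (XT.nd (nat_lit 78) (nat_lit 0) (nat_lit 76) (XT.lf (nat_lit 76) (nat_lit 84951837511) (nat_lit 0) (nat_lit 23319168525) (nat_lit 760) (nat_lit 40111416854) (nat_lit 83) (nat_lit 5) (nat_lit 82) (nat_lit 5) (nat_lit 92) (nat_lit 5) (nat_lit 336) (nat_lit 331) (nat_lit 113)) (XT.lf (nat_lit 76) (nat_lit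 3933179104) (nat_lit 0) (nat_lit 112307036529) (nat_lit 760) (nat_lit 36055309598) (nat_lit 84) (nat_lit 5) (nat_lit 83) (nat_lit 5) (nat_lit 93) (nat_lit 5) (nat_lit 337) (nat_lit 331) (nat_lit 112))) (XT.nd (nat_lit 78) (nat_lit 0) (nat_lit 76) (XT.lf (nat_lit 76) (nat_lit 76472245662) (nat_lit 0) (nat_lit 49585804057) (nat_lit 760) (nat_lit 30273725237) (nat_lit 84) (nat_lit 5) (nat_lit 83) (nat_lit 5) (nat_lit 93) (nat_lit 5) (nat_lit 338) (nat_lit 331) (nat_lit 111)) (XT.lf (nat_lit 0) (nat_lit 136620649049) (nat_lit 684) (nat_lit 8185750055) (nat_lit 760) (nat_lit 15750744830) (nat_lit 84) (nat_lit 5) (nat_lit 93) (nat_lit 5) (nat_lit 94) (nat_lit 5) (nat_lit 339) (nat_lit 331) (nat_lit 110)))) (XT.nd (nat_lit 156) (nat_lit 1064) (nat_lit 0) (XT.nd (nat_lit 78) (nat_lit 0) (nat_lit 0) (XT.lf (nat_lit 76) (nat_lit 68449519767) (nat_lit 0) (nat_lit 81143267520) (nat_lit 760) (nat_lit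 15306924050) (nat_lit 85) (nat_lit 5) (nat_lit 84) (nat_lit 5) (nat_lit 94) (nat_lit 5) (nat_lit 340) (nat_lit 331) (nat_lit 109)) (XT.lf (nat_lit 76) (nat_lit 149200617458) (nat_lit 0) (nat_lit 14151388431) (nat_lit 760) (nat_lit 6100477953) (nat_lit 85) (nat_lit 5) (nat_lit 84) (nat_lit 5) (nat_lit 94) (nat_lit 5) (nat_lit 341) (nat_lit 331) (nat_lit 108))) (XT.nd (nat_lit 78) (nat_lit 380) (nat_lit 0) (XT.lf (nat_lit 0) (nat_lit 5308891063) (nat_lit 760) (nat_lit 113401416660) (nat_lit 76) (nat_lit 55426966416) (nat_lit 75) (nat_lit 5) (nat_lit 85) (nat_lit 5) (nat_lit 76) (nat_lit 5) (nat_lit 342) (nat_lit 331) (nat_lit 107)) (XT.nd (nat_lit 78) (nat_lit 380) (nat_lit 0) (XT.lf (nat_lit 0) (nat_lit 17664154221) (nat_lit 760) (nat_lit 32900840664) (nat_lit 76) (nat_lit 128457286935) (nat_lit 75) (nat_lit 5) (nat_lit 85) (nat_lit 5) (nat_lit 76) (nat_lit 5) (nat_lit 343) (nat_lit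 331) (nat_lit 106)) (XT.lf (nat_lit 0) (nat_lit 31811022325) (nat_lit 456) (nat_lit 131119657315) (nat_lit 76) (nat_lit 21162168488) (nat_lit 70) (nat_lit 5) (nat_lit 76) (nat_lit 5) (nat_lit 71) (nat_lit 5) (nat_lit 344) (nat_lit 331) (nat_lit 105)))))) (XT.nd (nat_lit 390) (nat_lit 912) (nat_lit 0) (XT.nd (nat_lit 156) (nat_lit 304) (nat_lit 0) (XT.nd (nat_lit 78) (nat_lit 380) (nat_lit 0) (XT.lf (nat_lit 0) (nat_lit 48060360009) (nat_lit 456) (nat_lit 45944115668) (nat_lit 76) (nat_lit 95342711080) (nat_lit 70) (nat_lit 5) (nat_lit 76) (nat_lit 5) (nat_lit 71) (nat_lit 5) (nat_lit 345) (nat_lit 331) (nat_lit 104)) (XT.lf (nat_lit 0) (nat_lit 44928057057) (nat_lit 380) (nat_lit 20895432674) (nat_lit 456) (nat_lit 129005686631) (nat_lit 65) (nat_lit 5) (nat_lit 70) (nat_lit 5) (nat_lit 71) (nat_lit 5) (nat_lit 346) (nat_lit 331) (nat_lit 103))) (XT.nd (nat_lit 78) (nat_lit 304) (nat_lit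 0) (XT.lf (nat_lit 0) (nat_lit 86137766377) (nat_lit 456) (nat_lit 59492603813) (nat_lit 76) (nat_lit 54871746022) (nat_lit 65) (nat_lit 5) (nat_lit 71) (nat_lit 5) (nat_lit 66) (nat_lit 5) (nat_lit 347) (nat_lit 331) (nat_lit 102)) (XT.nd (nat_lit 78) (nat_lit 0) (nat_lit 0) (XT.lf (nat_lit 0) (nat_lit 36254021735) (nat_lit 304) (nat_lit 72122192421) (nat_lit 380) (nat_lit 98037066305) (nat_lit 61) (nat_lit 5) (nat_lit 65) (nat_lit 5) (nat_lit 66) (nat_lit 5) (nat_lit 348) (nat_lit 331) (nat_lit 101)) (XT.lf (nat_lit 0) (nat_lit 132829545847) (nat_lit 380) (nat_lit 73811864845) (nat_lit 76) (nat_lit 5923444416) (nat_lit 61) (nat_lit 5) (nat_lit 66) (nat_lit 5) (nat_lit 62) (nat_lit 5) (nat_lit 349) (nat_lit 331) (nat_lit 100))))) (XT.nd (nat_lit 156) (nat_lit 608) (nat_lit 0) (XT.nd (nat_lit 78) (nat_lit 0) (nat_lit 0) (XT.lf (nat_lit 0) (nat_lit 27035760289) (nat_lit 304) (nat_lit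 133074110227) (nat_lit 380) (nat_lit 58833921897) (nat_lit 57) (nat_lit 5) (nat_lit 61) (nat_lit 5) (nat_lit 62) (nat_lit 5) (nat_lit 350) (nat_lit 331) (nat_lit 99)) (XT.lf (nat_lit 0) (nat_lit 135488229313) (nat_lit 304) (nat_lit 54515916460) (nat_lit 380) (nat_lit 35575034331) (nat_lit 57) (nat_lit 5) (nat_lit 61) (nat_lit 5) (nat_lit 62) (nat_lit 5) (nat_lit 351) (nat_lit 331) (nat_lit 98))) (XT.nd (nat_lit 78) (nat_lit 380) (nat_lit 0) (XT.lf (nat_lit 0) (nat_lit 16921776082) (nat_lit 228) (nat_lit 205172147584) (nat_lit 304) (nat_lit 10417374292) (nat_lit 54) (nat_lit 5) (nat_lit 57) (nat_lit 5) (nat_lit 58) (nat_lit 5) (nat_lit 352) (nat_lit 331) (nat_lit 97)) (XT.nd (nat_lit 78) (nat_lit 304) (nat_lit 0) (XT.lf (nat_lit 0) (nat_lit 17930477547) (nat_lit 304) (nat_lit 108469452779) (nat_lit 76) (nat_lit 113255385266) (nat_lit 53) (nat_lit 5) (nat_lit 57) (nat_lit 5) (nat_lit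 54) (nat_lit 5) (nat_lit 353) (nat_lit 331) (nat_lit 96)) (XT.lf (nat_lit 0) (nat_lit 3962555754) (nat_lit 304) (nat_lit 43444846155) (nat_lit 380) (nat_lit 199737504959) (nat_lit 49) (nat_lit 5) (nat_lit 53) (nat_lit 5) (nat_lit 54) (nat_lit 5) (nat_lit 354) (nat_lit 331) (nat_lit 95))))))) (XT.nd (nat_lit 780) (nat_lit 1824) (nat_lit 0) (XT.nd (nat_lit 390) (nat_lit 0) (nat_lit 76) (XT.nd (nat_lit 156) (nat_lit 0) (nat_lit 0) (XT.nd (nat_lit 78) (nat_lit 0) (nat_lit 0) (XT.lf (nat_lit 0) (nat_lit 22350291013) (nat_lit 0) (nat_lit 22350291013) (nat_lit 684) (nat_lit 24007193742) (nat_lit 81) (nat_lit 5) (nat_lit 81) (nat_lit 3) (nat_lit 90) (nat_lit 3) (nat_lit 332) (nat_lit 332) (nat_lit 116)) (XT.lf (nat_lit 0) (nat_lit 91903717222) (nat_lit 684) (nat_lit 32546138088) (nat_lit 760) (nat_lit 16387700371) (nat_lit 81) (nat_lit 5) (nat_lit 90) (nat_lit 3) (nat_lit 91) (nat_lit 5) (nat_lit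 333) (nat_lit 332) (nat_lit 115))) (XT.nd (nat_lit 78) (nat_lit 0) (nat_lit 0) (XT.lf (nat_lit 76) (nat_lit 30886793744) (nat_lit 0) (nat_lit 64859426500) (nat_lit 760) (nat_lit 48623699218) (nat_lit 82) (nat_lit 5) (nat_lit 81) (nat_lit 5) (nat_lit 91) (nat_lit 5) (nat_lit 334) (nat_lit 332) (nat_lit 114)) (XT.nd (nat_lit 78) (nat_lit 0) (nat_lit 76) (XT.lf (nat_lit 76) (nat_lit 98621187420) (nat_lit 0) (nat_lit 1710649882) (nat_lit 760) (nat_lit 47719515201) (nat_lit 82) (nat_lit 5) (nat_lit 81) (nat_lit 5) (nat_lit 91) (nat_lit 5) (nat_lit 335) (nat_lit 332) (nat_lit 113)) (XT.lf (nat_lit 76) (nat_lit 17372846542) (nat_lit 0) (nat_lit 89053460135) (nat_lit 760) (nat_lit 45426572435) (nat_lit 83) (nat_lit 5) (nat_lit 82) (nat_lit 5) (nat_lit 92) (nat_lit 5) (nat_lit 336) (nat_lit 332) (nat_lit 112))))) (XT.nd (nat_lit 156) (nat_lit 0) (nat_lit 76) (XT.nd (nat_lit 78) (nat_lit 0) (nat_lit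 76) (XT.lf (nat_lit 76) (nat_lit 89203024876) (nat_lit 0) (nat_lit 24487011362) (nat_lit 760) (nat_lit 42111219443) (nat_lit 83) (nat_lit 5) (nat_lit 82) (nat_lit 5) (nat_lit 92) (nat_lit 5) (nat_lit 337) (nat_lit 332) (nat_lit 111)) (XT.lf (nat_lit 76) (nat_lit 4133688205) (nat_lit 0) (nat_lit 117923789254) (nat_lit 760) (nat_lit 37852547807) (nat_lit 84) (nat_lit 5) (nat_lit 83) (nat_lit 5) (nat_lit 93) (nat_lit 5) (nat_lit 338) (nat_lit 332) (nat_lit 110))) (XT.nd (nat_lit 78) (nat_lit 0) (nat_lit 76) (XT.lf (nat_lit 76) (nat_lit 80299524751) (nat_lit 0) (nat_lit 52066428449) (nat_lit 760) (nat_lit 31782147431) (nat_lit 84) (nat_lit 5) (nat_lit 83) (nat_lit 5) (nat_lit 93) (nat_lit 5) (nat_lit 339) (nat_lit 332) (nat_lit 109)) (XT.nd (nat_lit 78) (nat_lit 0) (nat_lit 0) (XT.lf (nat_lit 0) (nat_lit 143456424516) (nat_lit 684) (nat_lit 8591274978) (nat_lit 760) (nat_lit 16537052084)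 (nat_lit 84) (nat_lit 5) (nat_lit 93) (nat_lit 5) (nat_lit 94) (nat_lit 5) (nat_lit 340) (nat_lit 332) (nat_lit 108)) (XT.lf (nat_lit 76) (nat_lit 71875697648) (nat_lit 0) (nat_lit 85201303956) (nat_lit 760) (nat_lit 16067454740) (nat_lit 85) (nat_lit 5) (nat_lit 84) (nat_lit 5) (nat_lit 94) (nat_lit 5) (nat_lit 341) (nat_lit 332) (nat_lit 107)))))) (XT.nd (nat_lit 390) (nat_lit 988) (nat_lit 0) (XT.nd (nat_lit 156) (nat_lit 380) (nat_lit 0) (XT.nd (nat_lit 78) (nat_lit 684) (nat_lit 0) (XT.lf (nat_lit 76) (nat_lit 156664173943) (nat_lit 0) (nat_lit 14859789339) (nat_lit 760) (nat_lit 6400915648) (nat_lit 85) (nat_lit 5) (nat_lit 84) (nat_lit 5) (nat_lit 94) (nat_lit 5) (nat_lit 342) (nat_lit 332) (nat_lit 106)) (XT.lf (nat_lit 0) (nat_lit 5578609889) (nat_lit 760) (nat_lit 119067629034) (nat_lit 76) (nat_lit 58197675007) (nat_lit 75) (nat_lit 5) (nat_lit 85) (nat_lit 5) (nat_lit 76)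 (nat_lit 5) (nat_lit 343) (nat_lit 332) (nat_lit 105))) (XT.nd (nat_lit 78) (nat_lit 380) (nat_lit 0) (XT.lf (nat_lit 0) (nat_lit 18551432668) (nat_lit 760) (nat_lit 34542207973) (nat_lit 76) (nat_lit 134879542015) (nat_lit 75) (nat_lit 5) (nat_lit 85) (nat_lit 5) (nat_lit 76) (nat_lit 5) (nat_lit 344) (nat_lit 332) (nat_lit 104)) (XT.nd (nat_lit 78) (nat_lit 0) (nat_lit 0) (XT.lf (nat_lit 0) (nat_lit 33405501817) (nat_lit 456) (nat_lit 137671813842) (nat_lit 76) (nat_lit 22219969202) (nat_lit 70) (nat_lit 5) (nat_lit 76) (nat_lit 5) (nat_lit 71) (nat_lit 5) (nat_lit 345) (nat_lit 332) (nat_lit 103)) (XT.lf (nat_lit 0) (nat_lit 50467119319) (nat_lit 456) (nat_lit 48237677320) (nat_lit 76) (nat_lit 100109553577) (nat_lit 70) (nat_lit 5) (nat_lit 76) (nat_lit 5) (nat_lit 71) (nat_lit 5) (nat_lit 346) (nat_lit 332) (nat_lit 102))))) (XT.nd (nat_lit 156) (nat_lit 608) (nat_lit 0) (XT.nd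 (nat_lit 78) (nat_lit 0) (nat_lit 0) (XT.lf (nat_lit 0) (nat_lit 47178045266) (nat_lit 380) (nat_lit 21940238082) (nat_lit 456) (nat_lit 135452162481) (nat_lit 65) (nat_lit 5) (nat_lit 70) (nat_lit 5) (nat_lit 71) (nat_lit 5) (nat_lit 347) (nat_lit 332) (nat_lit 101)) (XT.lf (nat_lit 0) (nat_lit 90448100984) (nat_lit 456) (nat_lit 62463638542) (nat_lit 76) (nat_lit 57615302187) (nat_lit 65) (nat_lit 5) (nat_lit 71) (nat_lit 5) (nat_lit 66) (nat_lit 5) (nat_lit 348) (nat_lit 332) (nat_lit 100))) (XT.nd (nat_lit 78) (nat_lit 304) (nat_lit 0) (XT.lf (nat_lit 0) (nat_lit 38070260292) (nat_lit 304) (nat_lit 75728101981) (nat_lit 380) (nat_lit 102935407726) (nat_lit 61) (nat_lit 5) (nat_lit 65) (nat_lit 5) (nat_lit 66) (nat_lit 5) (nat_lit 349) (nat_lit 332) (nat_lit 99)) (XT.nd (nat_lit 78) (nat_lit 304) (nat_lit 0) (XT.lf (nat_lit 0) (nat_lit 139474204599) (nat_lit 380) (nat_lit 77498925867)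 (nat_lit 76) (nat_lit 6219801072) (nat_lit 61) (nat_lit 5) (nat_lit 66) (nat_lit 5) (nat_lit 62) (nat_lit 5) (nat_lit 350) (nat_lit 332) (nat_lit 98)) (XT.lf (nat_lit 0) (nat_lit 28391023552) (nat_lit 304) (nat_lit 139727424710) (nat_lit 380) (nat_lit 61772372655) (nat_lit 57) (nat_lit 5) (nat_lit 61) (nat_lit 5) (nat_lit 62) (nat_lit 5) (nat_lit 351) (nat_lit 332) (nat_lit 97))))))))
noncomputable def xc253 : XT := (XT.nd (nat_lit 40482) (nat_lit 0) (nat_lit 228) (XT.nd (nat_lit 39702) (nat_lit 0) (nat_lit 836) (XT.nd (nat_lit 39312) (nat_lit 0) (nat_lit 2052) (XT.nd (nat_lit 39156) (nat_lit 0) (nat_lit 2052) (XT.nd (nat_lit 78) (nat_lit 228) (nat_lit 0) (XT.lf (nat_lit 0) (nat_lit 142265950539) (nat_lit 304) (nat_lit 57241339874) (nat_lit 380) (nat_lit 37350695250) (nat_lit 57) (nat_lit 5) (nat_lit 61) (nat_lit 5) (nat_lit 62) (nat_lit 5) (nat_lit 352) (nat_lit 332) (nat_lit 96))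 (XT.lf (nat_lit 0) (nat_lit 17771266513) (nat_lit 228) (nat_lit 215430209461) (nat_lit 304) (nat_lit 10935237812) (nat_lit 54) (nat_lit 5) (nat_lit 57) (nat_lit 5) (nat_lit 58) (nat_lit 5) (nat_lit 353) (nat_lit 332) (nat_lit 95))) (XT.nd (nat_lit 78) (nat_lit 0) (nat_lit 0) (XT.lf (nat_lit 0) (nat_lit 23469383694) (nat_lit 0) (nat_lit 23469383694) (nat_lit 684) (nat_lit 25204231046) (nat_lit 81) (nat_lit 5) (nat_lit 81) (nat_lit 3) (nat_lit 90) (nat_lit 3) (nat_lit 333) (nat_lit 333) (nat_lit 114)) (XT.lf (nat_lit 0) (nat_lit 96504868075) (nat_lit 684) (nat_lit 34170075674) (nat_lit 760) (nat_lit 17204175637) (nat_lit 81) (nat_lit 5) (nat_lit 90) (nat_lit 3) (nat_lit 91) (nat_lit 5) (nat_lit 334) (nat_lit 333) (nat_lit 113)))) (XT.nd (nat_lit 156) (nat_lit 0) (nat_lit 76) (XT.nd (nat_lit 78) (nat_lit 0) (nat_lit 0) (XT.lf (nat_lit 76) (nat_lit 32434448406) (nat_lit 0) (nat_lit 68104815551)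 (nat_lit 760) (nat_lit 51048849768) (nat_lit 82) (nat_lit 5) (nat_lit 81) (nat_lit 5) (nat_lit 91) (nat_lit 5) (nat_lit 335) (nat_lit 333) (nat_lit 112)) (XT.lf (nat_lit 76) (nat_lit 103555403910) (nat_lit 0) (nat_lit 1798484972) (nat_lit 760) (nat_lit 50099743902) (nat_lit 82) (nat_lit 5) (nat_lit 81) (nat_lit 5) (nat_lit 91) (nat_lit 5) (nat_lit 336) (nat_lit 333) (nat_lit 111))) (XT.nd (nat_lit 78) (nat_lit 0) (nat_lit 0) (XT.lf (nat_lit 76) (nat_lit 18244913145) (nat_lit 0) (nat_lit 93507927819) (nat_lit 760) (nat_lit 47692407482) (nat_lit 83) (nat_lit 5) (nat_lit 82) (nat_lit 5) (nat_lit 92) (nat_lit 5) (nat_lit 337) (nat_lit 333) (nat_lit 110)) (XT.nd (nat_lit 78) (nat_lit 0) (nat_lit 76) (XT.lf (nat_lit 76) (nat_lit 93666437336) (nat_lit 0) (nat_lit 25713071146) (nat_lit 760) (nat_lit 44211548440) (nat_lit 83) (nat_lit 5) (nat_lit 82) (nat_lit 5) (nat_lit 92) (nat_lit 5) (nat_lit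 338) (nat_lit 333) (nat_lit 109)) (XT.lf (nat_lit 76) (nat_lit 4343864812) (nat_lit 0) (nat_lit 123821249373) (nat_lit 760) (nat_lit 39740161800) (nat_lit 84) (nat_lit 5) (nat_lit 83) (nat_lit 5) (nat_lit 93) (nat_lit 5) (nat_lit 339) (nat_lit 333) (nat_lit 108)))))) (XT.nd (nat_lit 390) (nat_lit 760) (nat_lit 0) (XT.nd (nat_lit 156) (nat_lit 608) (nat_lit 0) (XT.nd (nat_lit 78) (nat_lit 0) (nat_lit 76) (XT.lf (nat_lit 76) (nat_lit 84317826890) (nat_lit 0) (nat_lit 54670960020) (nat_lit 760) (nat_lit 33366480138) (nat_lit 84) (nat_lit 5) (nat_lit 83) (nat_lit 5) (nat_lit 93) (nat_lit 5) (nat_lit 340) (nat_lit 333) (nat_lit 107)) (XT.lf (nat_lit 0) (nat_lit 150633547795) (nat_lit 684) (nat_lit 9017425956) (nat_lit 760) (nat_lit 17362789054) (nat_lit 84) (nat_lit 5) (nat_lit 93) (nat_lit 5) (nat_lit 94) (nat_lit 5) (nat_lit 341) (nat_lit 333) (nat_lit 106))) (XT.nd (nat_lit 78) (nat_lit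 684) (nat_lit 0) (XT.lf (nat_lit 76) (nat_lit 75472840257) (nat_lit 0) (nat_lit 89462161045) (nat_lit 760) (nat_lit 16866459665) (nat_lit 85) (nat_lit 5) (nat_lit 84) (nat_lit 5) (nat_lit 94) (nat_lit 5) (nat_lit 342) (nat_lit 333) (nat_lit 105)) (XT.nd (nat_lit 78) (nat_lit 684) (nat_lit 0) (XT.lf (nat_lit 76) (nat_lit 164500580475) (nat_lit 0) (nat_lit 15603532988) (nat_lit 760) (nat_lit 6716801610) (nat_lit 85) (nat_lit 5) (nat_lit 84) (nat_lit 5) (nat_lit 94) (nat_lit 5) (nat_lit 343) (nat_lit 333) (nat_lit 104)) (XT.lf (nat_lit 0) (nat_lit 5861417275) (nat_lit 760) (nat_lit 125017510749) (nat_lit 76) (nat_lit 61106978503) (nat_lit 75) (nat_lit 5) (nat_lit 85) (nat_lit 5) (nat_lit 76) (nat_lit 5) (nat_lit 344) (nat_lit 333) (nat_lit 103))))) (XT.nd (nat_lit 156) (nat_lit 380) (nat_lit 0) (XT.nd (nat_lit 78) (nat_lit 380) (nat_lit 0) (XT.lf (nat_lit 0) (nat_lit 19482696579) (nat_lit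 760) (nat_lit 36265985289) (nat_lit 76) (nat_lit 141622966493) (nat_lit 75) (nat_lit 5) (nat_lit 85) (nat_lit 5) (nat_lit 76) (nat_lit 5) (nat_lit 345) (nat_lit 333) (nat_lit 102)) (XT.lf (nat_lit 0) (nat_lit 35079340060) (nat_lit 456) (nat_lit 144551933932) (nat_lit 76) (nat_lit 23330688559) (nat_lit 70) (nat_lit 5) (nat_lit 76) (nat_lit 5) (nat_lit 71) (nat_lit 5) (nat_lit 346) (nat_lit 333) (nat_lit 101))) (XT.nd (nat_lit 78) (nat_lit 380) (nat_lit 0) (XT.lf (nat_lit 0) (nat_lit 52993868764) (nat_lit 456) (nat_lit 50646255850) (nat_lit 76) (nat_lit 105114765443) (nat_lit 70) (nat_lit 5) (nat_lit 76) (nat_lit 5) (nat_lit 71) (nat_lit 5) (nat_lit 347) (nat_lit 333) (nat_lit 100)) (XT.nd (nat_lit 78) (nat_lit 0) (nat_lit 0) (XT.lf (nat_lit 0) (nat_lit 49540199553) (nat_lit 380) (nat_lit 23037280620) (nat_lit 456) (nat_lit 142221316201) (nat_lit 65) (nat_lit 5) (nat_lit 70) (nat_lit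 5) (nat_lit 71) (nat_lit 5) (nat_lit 348) (nat_lit 333) (nat_lit 99)) (XT.lf (nat_lit 0) (nat_lit 94973631918) (nat_lit 456) (nat_lit 65583559280) (nat_lit 76) (nat_lit 60496039054) (nat_lit 65) (nat_lit 5) (nat_lit 71) (nat_lit 5) (nat_lit 66) (nat_lit 5) (nat_lit 349) (nat_lit 333) (nat_lit 98))))))) (XT.nd (nat_lit 39936) (nat_lit 0) (nat_lit 608) (XT.nd (nat_lit 39546) (nat_lit 0) (nat_lit 1824) (XT.nd (nat_lit 156) (nat_lit 304) (nat_lit 0) (XT.nd (nat_lit 78) (nat_lit 0) (nat_lit 0) (XT.lf (nat_lit 0) (nat_lit 39976981896) (nat_lit 304) (nat_lit 79514325620) (nat_lit 380) (nat_lit 108078992722) (nat_lit 61) (nat_lit 5) (nat_lit 65) (nat_lit 5) (nat_lit 66) (nat_lit 5) (nat_lit 350) (nat_lit 333) (nat_lit 97)) (XT.lf (nat_lit 0) (nat_lit 146450800507) (nat_lit 380) (nat_lit 81370668333) (nat_lit 76) (nat_lit 6530958414) (nat_lit 61) (nat_lit 5) (nat_lit 66) (nat_lit 5) (nat_lit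 62) (nat_lit 5) (nat_lit 351) (nat_lit 333) (nat_lit 96))) (XT.nd (nat_lit 39234) (nat_lit 0) (nat_lit 1824) (XT.lf (nat_lit 0) (nat_lit 29813726883) (nat_lit 304) (nat_lit 146713441271) (nat_lit 380) (nat_lit 64858047671) (nat_lit 57) (nat_lit 5) (nat_lit 61) (nat_lit 5) (nat_lit 62) (nat_lit 5) (nat_lit 352) (nat_lit 333) (nat_lit 95)) (XT.nd (nat_lit 78) (nat_lit 0) (nat_lit 0) (XT.lf (nat_lit 0) (nat_lit 24644284289) (nat_lit 0) (nat_lit 24644284289) (nat_lit 684) (nat_lit 26461429099) (nat_lit 81) (nat_lit 5) (nat_lit 81) (nat_lit 3) (nat_lit 90) (nat_lit 3) (nat_lit 334) (nat_lit 334) (nat_lit 112)) (XT.lf (nat_lit 0) (nat_lit 101335521903) (nat_lit 684) (nat_lit 35875523386) (nat_lit 760) (nat_lit 18061745188) (nat_lit 81) (nat_lit 5) (nat_lit 90) (nat_lit 3) (nat_lit 91) (nat_lit 5) (nat_lit 335) (nat_lit 334) (nat_lit 111))))) (XT.nd (nat_lit 156) (nat_lit 0) (nat_lit 76) (XT.nd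 (nat_lit 78) (nat_lit 0) (nat_lit 0) (XT.lf (nat_lit 76) (nat_lit 34059177606) (nat_lit 0) (nat_lit 71512249277) (nat_lit 760) (nat_lit 53595818867) (nat_lit 82) (nat_lit 5) (nat_lit 81) (nat_lit 5) (nat_lit 91) (nat_lit 5) (nat_lit 336) (nat_lit 334) (nat_lit 110)) (XT.lf (nat_lit 76) (nat_lit 108736037705) (nat_lit 0) (nat_lit 1890497743) (nat_lit 760) (nat_lit 52599518346) (nat_lit 82) (nat_lit 5) (nat_lit 81) (nat_lit 5) (nat_lit 91) (nat_lit 5) (nat_lit 337) (nat_lit 334) (nat_lit 109))) (XT.nd (nat_lit 78) (nat_lit 0) (nat_lit 0) (XT.lf (nat_lit 76) (nat_lit 19160264722) (nat_lit 0) (nat_lit 98184952035) (nat_lit 760) (nat_lit 50072045022) (nat_lit 83) (nat_lit 5) (nat_lit 82) (nat_lit 5) (nat_lit 92) (nat_lit 5) (nat_lit 338) (nat_lit 334) (nat_lit 108)) (XT.nd (nat_lit 78) (nat_lit 0) (nat_lit 76) (XT.lf (nat_lit 76) (nat_lit 98352717221) (nat_lit 0) (nat_lit 27000275013) (nat_lit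 760) (nat_lit 46417380305) (nat_lit 83) (nat_lit 5) (nat_lit 82) (nat_lit 5) (nat_lit 92) (nat_lit 5) (nat_lit 339) (nat_lit 334) (nat_lit 107)) (XT.lf (nat_lit 76) (nat_lit 4564225578) (nat_lit 0) (nat_lit 130013464364) (nat_lit 760) (nat_lit 41722622590) (nat_lit 84) (nat_lit 5) (nat_lit 83) (nat_lit 5) (nat_lit 93) (nat_lit 5) (nat_lit 340) (nat_lit 334) (nat_lit 106)))))) (XT.nd (nat_lit 390) (nat_lit 760) (nat_lit 0) (XT.nd (nat_lit 156) (nat_lit 608) (nat_lit 0) (XT.nd (nat_lit 78) (nat_lit 0) (nat_lit 76) (XT.lf (nat_lit 76) (nat_lit 88536734925) (nat_lit 0) (nat_lit 57405605662) (nat_lit 760) (nat_lit 35030473384) (nat_lit 84) (nat_lit 5) (nat_lit 83) (nat_lit 5) (nat_lit 93) (nat_lit 5) (nat_lit 341) (nat_lit 334) (nat_lit 105)) (XT.lf (nat_lit 0) (nat_lit 158169127274) (nat_lit 684) (nat_lit 9465201770) (nat_lit 760) (nat_lit 18229916593) (nat_lit 84) (nat_lit 5) (nat_lit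 93) (nat_lit 5) (nat_lit 94) (nat_lit 5) (nat_lit 342) (nat_lit 334) (nat_lit 104))) (XT.nd (nat_lit 78) (nat_lit 684) (nat_lit 0) (XT.lf (nat_lit 76) (nat_lit 79249527827) (nat_lit 0) (nat_lit 93935987366) (nat_lit 760) (nat_lit 17705820915) (nat_lit 85) (nat_lit 5) (nat_lit 84) (nat_lit 5) (nat_lit 94) (nat_lit 5) (nat_lit 343) (nat_lit 334) (nat_lit 103)) (XT.nd (nat_lit 78) (nat_lit 684) (nat_lit 0) (XT.lf (nat_lit 76) (nat_lit 172728510029) (nat_lit 0) (nat_lit 16384393702) (nat_lit 760) (nat_lit 7048868610) (nat_lit 85) (nat_lit 5) (nat_lit 84) (nat_lit 5) (nat_lit 94) (nat_lit 5) (nat_lit 344) (nat_lit 334) (nat_lit 102)) (XT.lf (nat_lit 0) (nat_lit 6158004593) (nat_lit 760) (nat_lit 131265211922) (nat_lit 76) (nat_lit 64161801121) (nat_lit 75) (nat_lit 5) (nat_lit 85) (nat_lit 5) (nat_lit 76) (nat_lit 5) (nat_lit 345) (nat_lit 334) (nat_lit 101))))) (XT.nd (nat_lit 156) (nat_lit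 380) (nat_lit 0) (XT.nd (nat_lit 78) (nat_lit 380) (nat_lit 0) (XT.lf (nat_lit 0) (nat_lit 20460180412) (nat_lit 760) (nat_lit 38076261350) (nat_lit 76) (nat_lit 148703613573) (nat_lit 75) (nat_lit 5) (nat_lit 85) (nat_lit 5) (nat_lit 76) (nat_lit 5) (nat_lit 346) (nat_lit 334) (nat_lit 100)) (XT.lf (nat_lit 0) (nat_lit 36836538947) (nat_lit 456) (nat_lit 151776382690) (nat_lit 76) (nat_lit 24496969833) (nat_lit 70) (nat_lit 5) (nat_lit 76) (nat_lit 5) (nat_lit 71) (nat_lit 5) (nat_lit 347) (nat_lit 334) (nat_lit 99))) (XT.nd (nat_lit 78) (nat_lit 380) (nat_lit 0) (XT.lf (nat_lit 0) (nat_lit 55646640187) (nat_lit 456) (nat_lit 53175570606) (nat_lit 76) (nat_lit 110370262616) (nat_lit 70) (nat_lit 5) (nat_lit 76) (nat_lit 5) (nat_lit 71) (nat_lit 5) (nat_lit 348) (nat_lit 334) (nat_lit 98)) (XT.nd (nat_lit 78) (nat_lit 0) (nat_lit 0) (XT.lf (nat_lit 0) (nat_lit 52020159211) (nat_lit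 380) (nat_lit 24189172437) (nat_lit 456) (nat_lit 149329248764) (nat_lit 65) (nat_lit 5) (nat_lit 70) (nat_lit 5) (nat_lit 71) (nat_lit 5) (nat_lit 349) (nat_lit 334) (nat_lit 97)) (XT.lf (nat_lit 0) (nat_lit 99725148784) (nat_lit 456) (nat_lit 68859779250) (nat_lit 76) (nat_lit 63520815391) (nat_lit 65) (nat_lit 5) (nat_lit 71) (nat_lit 5) (nat_lit 66) (nat_lit 5) (nat_lit 350) (nat_lit 334) (nat_lit 96))))))))
noncomputable def xc254 : XT := (XT.nd (nat_lit 80262) (nat_lit 0) (nat_lit 684) (XT.nd (nat_lit 40014) (nat_lit 0) (nat_lit 304) (XT.nd (nat_lit 39624) (nat_lit 0) (nat_lit 1520) (XT.nd (nat_lit 39468) (nat_lit 0) (nat_lit 1520) (XT.nd (nat_lit 39390) (nat_lit 0) (nat_lit 1520) (XT.lf (nat_lit 0) (nat_lit 41978741276) (nat_lit 304) (nat_lit 83489877310) (nat_lit 380) (nat_lit 113480053114) (nat_lit 61) (nat_lit 5) (nat_lit 65) (nat_lit 5) (nat_lit 66) (nat_lit 5) (nat_lit 351)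 (nat_lit 334) (nat_lit 95)) (XT.lf (nat_lit 0) (nat_lit 25877796834) (nat_lit 0) (nat_lit 25877796834) (nat_lit 684) (nat_lit 27781767221) (nat_lit 81) (nat_lit 5) (nat_lit 81) (nat_lit 3) (nat_lit 90) (nat_lit 3) (nat_lit 335) (nat_lit 335) (nat_lit 110))) (XT.nd (nat_lit 78) (nat_lit 0) (nat_lit 0) (XT.lf (nat_lit 0) (nat_lit 106407205412) (nat_lit 684) (nat_lit 37666527609) (nat_lit 760) (nat_lit 18962438587) (nat_lit 81) (nat_lit 5) (nat_lit 90) (nat_lit 3) (nat_lit 91) (nat_lit 5) (nat_lit 336) (nat_lit 335) (nat_lit 109)) (XT.lf (nat_lit 76) (nat_lit 35764863724) (nat_lit 0) (nat_lit 75089850811) (nat_lit 760) (nat_lit 56270645286) (nat_lit 82) (nat_lit 5) (nat_lit 81) (nat_lit 5) (nat_lit 91) (nat_lit 5) (nat_lit 337) (nat_lit 335) (nat_lit 108)))) (XT.nd (nat_lit 156) (nat_lit 0) (nat_lit 76) (XT.nd (nat_lit 78) (nat_lit 0) (nat_lit 76) (XT.lf (nat_lit 76) (nat_lit 114175436960)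 (nat_lit 0) (nat_lit 1986916982) (nat_lit 760) (nat_lit 55224766144) (nat_lit 82) (nat_lit 5) (nat_lit 81) (nat_lit 5) (nat_lit 91) (nat_lit 5) (nat_lit 338) (nat_lit 335) (nat_lit 107)) (XT.lf (nat_lit 76) (nat_lit 20121095119) (nat_lit 0) (nat_lit 103095676122) (nat_lit 760) (nat_lit 52571127695) (nat_lit 83) (nat_lit 5) (nat_lit 82) (nat_lit 5) (nat_lit 92) (nat_lit 5) (nat_lit 339) (nat_lit 335) (nat_lit 106))) (XT.nd (nat_lit 78) (nat_lit 0) (nat_lit 76) (XT.lf (nat_lit 76) (nat_lit 103273036092) (nat_lit 0) (nat_lit 28351694940) (nat_lit 760) (nat_lit 48733944961) (nat_lit 83) (nat_lit 5) (nat_lit 82) (nat_lit 5) (nat_lit 92) (nat_lit 5) (nat_lit 340) (nat_lit 335) (nat_lit 105)) (XT.nd (nat_lit 78) (nat_lit 0) (nat_lit 0) (XT.lf (nat_lit 76) (nat_lit 4795309895) (nat_lit 0) (nat_lit 136515182955) (nat_lit 760) (nat_lit 43804629185) (nat_lit 84) (nat_lit 5) (nat_lit 83) (nat_lit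 5) (nat_lit 93) (nat_lit 5) (nat_lit 341) (nat_lit 335) (nat_lit 104)) (XT.lf (nat_lit 76) (nat_lit 92966307898) (nat_lit 0) (nat_lit 60276881537) (nat_lit 760) (nat_lit 36778068925) (nat_lit 84) (nat_lit 5) (nat_lit 83) (nat_lit 5) (nat_lit 93) (nat_lit 5) (nat_lit 342) (nat_lit 335) (nat_lit 103)))))) (XT.nd (nat_lit 390) (nat_lit 760) (nat_lit 0) (XT.nd (nat_lit 156) (nat_lit 684) (nat_lit 0) (XT.nd (nat_lit 78) (nat_lit 0) (nat_lit 0) (XT.lf (nat_lit 0) (nat_lit 166081122948) (nat_lit 684) (nat_lit 9935654163) (nat_lit 760) (nat_lit 19140494587) (nat_lit 84) (nat_lit 5) (nat_lit 93) (nat_lit 5) (nat_lit 94) (nat_lit 5) (nat_lit 343) (nat_lit 335) (nat_lit 102)) (XT.lf (nat_lit 76) (nat_lit 83214766628) (nat_lit 0) (nat_lit 98633438225) (nat_lit 760) (nat_lit 18587518551) (nat_lit 85) (nat_lit 5) (nat_lit 84) (nat_lit 5) (nat_lit 94) (nat_lit 5) (nat_lit 344) (nat_lit 335) (nat_lit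 101))) (XT.nd (nat_lit 78) (nat_lit 684) (nat_lit 0) (XT.lf (nat_lit 76) (nat_lit 181367566397) (nat_lit 0) (nat_lit 17204233855) (nat_lit 760) (nat_lit 7397889746) (nat_lit 85) (nat_lit 5) (nat_lit 84) (nat_lit 5) (nat_lit 94) (nat_lit 5) (nat_lit 345) (nat_lit 335) (nat_lit 100)) (XT.nd (nat_lit 78) (nat_lit 0) (nat_lit 0) (XT.lf (nat_lit 0) (nat_lit 6469094351) (nat_lit 760) (nat_lit 137825593276) (nat_lit 76) (nat_lit 67369413800) (nat_lit 75) (nat_lit 5) (nat_lit 85) (nat_lit 5) (nat_lit 76) (nat_lit 5) (nat_lit 346) (nat_lit 335) (nat_lit 99)) (XT.lf (nat_lit 0) (nat_lit 21486227079) (nat_lit 760) (nat_lit 39977332282) (nat_lit 76) (nat_lit 156138339607) (nat_lit 75) (nat_lit 5) (nat_lit 85) (nat_lit 5) (nat_lit 76) (nat_lit 5) (nat_lit 347) (nat_lit 335) (nat_lit 98))))) (XT.nd (nat_lit 156) (nat_lit 380) (nat_lit 0) (XT.nd (nat_lit 78) (nat_lit 0) (nat_lit 0) (XT.lf (nat_lit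 0) (nat_lit 38681297309) (nat_lit 456) (nat_lit 159362346552) (nat_lit 76) (nat_lit 25721588707) (nat_lit 70) (nat_lit 5) (nat_lit 76) (nat_lit 5) (nat_lit 71) (nat_lit 5) (nat_lit 348) (nat_lit 335) (nat_lit 97)) (XT.lf (nat_lit 0) (nat_lit 58431764020) (nat_lit 456) (nat_lit 55831629829) (nat_lit 76) (nat_lit 115888557063) (nat_lit 70) (nat_lit 5) (nat_lit 76) (nat_lit 5) (nat_lit 71) (nat_lit 5) (nat_lit 349) (nat_lit 335) (nat_lit 96))) (XT.nd (nat_lit 39546) (nat_lit 0) (nat_lit 1216) (XT.lf (nat_lit 0) (nat_lit 54623842620) (nat_lit 380) (nat_lit 25398656262) (nat_lit 456) (nat_lit 156792869255) (nat_lit 65) (nat_lit 5) (nat_lit 70) (nat_lit 5) (nat_lit 71) (nat_lit 5) (nat_lit 350) (nat_lit 335) (nat_lit 95)) (XT.nd (nat_lit 78) (nat_lit 0) (nat_lit 0) (XT.lf (nat_lit 0) (nat_lit 27172864301) (nat_lit 0) (nat_lit 27172864301) (nat_lit 684) (nat_lit 29168376369) (nat_lit 81) (nat_lit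 5) (nat_lit 81) (nat_lit 3) (nat_lit 90) (nat_lit 3) (nat_lit 336) (nat_lit 336) (nat_lit 108)) (XT.lf (nat_lit 0) (nat_lit 111732016851) (nat_lit 684) (nat_lit 39547339752) (nat_lit 760) (nat_lit 19908389215) (nat_lit 81) (nat_lit 5) (nat_lit 90) (nat_lit 3) (nat_lit 91) (nat_lit 5) (nat_lit 337) (nat_lit 336) (nat_lit 107))))))) (XT.nd (nat_lit 780) (nat_lit 380) (nat_lit 0) (XT.nd (nat_lit 390) (nat_lit 456) (nat_lit 0) (XT.nd (nat_lit 156) (nat_lit 0) (nat_lit 76) (XT.nd (nat_lit 78) (nat_lit 0) (nat_lit 0) (XT.lf (nat_lit 76) (nat_lit 37555580596) (nat_lit 0) (nat_lit 78846147496) (nat_lit 760) (nat_lit 59079674579) (nat_lit 82) (nat_lit 5) (nat_lit 81) (nat_lit 5) (nat_lit 91) (nat_lit 5) (nat_lit 338) (nat_lit 336) (nat_lit 106)) (XT.lf (nat_lit 76) (nat_lit 119886564699) (nat_lit 0) (nat_lit 2087981064) (nat_lit 760) (nat_lit 57981715908) (nat_lit 82) (nat_lit 5) (nat_lit 81)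 (nat_lit 5) (nat_lit 91) (nat_lit 5) (nat_lit 339) (nat_lit 336) (nat_lit 105))) (XT.nd (nat_lit 78) (nat_lit 0) (nat_lit 0) (XT.lf (nat_lit 76) (nat_lit 21129705122) (nat_lit 0) (nat_lit 108251799143) (nat_lit 760) (nat_lit 55195584690) (nat_lit 83) (nat_lit 5) (nat_lit 82) (nat_lit 5) (nat_lit 92) (nat_lit 5) (nat_lit 340) (nat_lit 336) (nat_lit 104)) (XT.nd (nat_lit 78) (nat_lit 0) (nat_lit 76) (XT.lf (nat_lit 76) (nat_lit 108439121466) (nat_lit 0) (nat_lit 29770555131) (nat_lit 760) (nat_lit 51166738028) (nat_lit 83) (nat_lit 5) (nat_lit 82) (nat_lit 5) (nat_lit 92) (nat_lit 5) (nat_lit 341) (nat_lit 336) (nat_lit 103)) (XT.lf (nat_lit 76) (nat_lit 5037681321) (nat_lit 0) (nat_lit 143341890286) (nat_lit 760) (nat_lit 45991119570) (nat_lit 84) (nat_lit 5) (nat_lit 83) (nat_lit 5) (nat_lit 93) (nat_lit 5) (nat_lit 342) (nat_lit 336) (nat_lit 102))))) (XT.nd (nat_lit 156) (nat_lit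 608) (nat_lit 0) (XT.nd (nat_lit 78) (nat_lit 0) (nat_lit 76) (XT.lf (nat_lit 76) (nat_lit 97617105132) (nat_lit 0) (nat_lit 63291628646) (nat_lit 760) (nat_lit 38613409443) (nat_lit 84) (nat_lit 5) (nat_lit 83) (nat_lit 5) (nat_lit 93) (nat_lit 5) (nat_lit 343) (nat_lit 336) (nat_lit 101)) (XT.lf (nat_lit 0) (nat_lit 174388389354) (nat_lit 684) (nat_lit 10429890209) (nat_lit 760) (nat_lit 20096686813) (nat_lit 84) (nat_lit 5) (nat_lit 93) (nat_lit 5) (nat_lit 94) (nat_lit 5) (nat_lit 344) (nat_lit 336) (nat_lit 100))) (XT.nd (nat_lit 78) (nat_lit 684) (nat_lit 0) (XT.lf (nat_lit 76) (nat_lit 87378010546) (nat_lit 0) (nat_lit 103565701058) (nat_lit 760) (nat_lit 19513635150) (nat_lit 85) (nat_lit 5) (nat_lit 84) (nat_lit 5) (nat_lit 94) (nat_lit 5) (nat_lit 345) (nat_lit 336) (nat_lit 99)) (XT.nd (nat_lit 78) (nat_lit 684) (nat_lit 0) (XT.lf (nat_lit 76) (nat_lit 190438330990) (nat_lit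 0) (nat_lit 18065008330) (nat_lit 760) (nat_lit 7764680111) (nat_lit 85) (nat_lit 5) (nat_lit 84) (nat_lit 5) (nat_lit 94) (nat_lit 5) (nat_lit 346) (nat_lit 336) (nat_lit 98)) (XT.lf (nat_lit 0) (nat_lit 6795442064) (nat_lit 760) (nat_lit 144714261382) (nat_lit 76) (nat_lit 70737451496) (nat_lit 75) (nat_lit 5) (nat_lit 85) (nat_lit 5) (nat_lit 76) (nat_lit 5) (nat_lit 347) (nat_lit 336) (nat_lit 97)))))) (XT.nd (nat_lit 40014) (nat_lit 0) (nat_lit 836) (XT.nd (nat_lit 39780) (nat_lit 0) (nat_lit 836) (XT.nd (nat_lit 78) (nat_lit 380) (nat_lit 0) (XT.lf (nat_lit 0) (nat_lit 22563293667) (nat_lit 760) (nat_lit 41973711699) (nat_lit 76) (nat_lit 163944844211) (nat_lit 75) (nat_lit 5) (nat_lit 85) (nat_lit 5) (nat_lit 76) (nat_lit 5) (nat_lit 348) (nat_lit 336) (nat_lit 96)) (XT.lf (nat_lit 0) (nat_lit 40618021054) (nat_lit 456) (nat_lit 167327874063) (nat_lit 76) (nat_lit 27007459871)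 (nat_lit 70) (nat_lit 5) (nat_lit 76) (nat_lit 5) (nat_lit 71) (nat_lit 5) (nat_lit 349) (nat_lit 336) (nat_lit 95))) (XT.nd (nat_lit 78) (nat_lit 0) (nat_lit 0) (XT.lf (nat_lit 0) (nat_lit 28532575657) (nat_lit 0) (nat_lit 28532575657) (nat_lit 684) (nat_lit 30624546468) (nat_lit 81) (nat_lit 5) (nat_lit 81) (nat_lit 3) (nat_lit 90) (nat_lit 3) (nat_lit 337) (nat_lit 337) (nat_lit 106)) (XT.nd (nat_lit 78) (nat_lit 0) (nat_lit 0) (XT.lf (nat_lit 0) (nat_lit 117322655035) (nat_lit 684) (nat_lit 41522426252) (nat_lit 760) (nat_lit 20901839240) (nat_lit 81) (nat_lit 5) (nat_lit 90) (nat_lit 3) (nat_lit 91) (nat_lit 5) (nat_lit 338) (nat_lit 337) (nat_lit 105)) (XT.lf (nat_lit 76) (nat_lit 39435603331) (nat_lit 0) (nat_lit 82790091283) (nat_lit 760) (nat_lit 62029573981) (nat_lit 82) (nat_lit 5) (nat_lit 81) (nat_lit 5) (nat_lit 91) (nat_lit 5) (nat_lit 339) (nat_lit 337) (nat_lit 104)))))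 (XT.nd (nat_lit 156) (nat_lit 0) (nat_lit 76) (XT.nd (nat_lit 78) (nat_lit 0) (nat_lit 76) (XT.lf (nat_lit 76) (nat_lit 125883029796) (nat_lit 0) (nat_lit 2193938606) (nat_lit 760) (nat_lit 60876911868) (nat_lit 82) (nat_lit 5) (nat_lit 81) (nat_lit 5) (nat_lit 91) (nat_lit 5) (nat_lit 340) (nat_lit 337) (nat_lit 103)) (XT.lf (nat_lit 76) (nat_lit 22188508063) (nat_lit 0) (nat_lit 113665603808) (nat_lit 760) (nat_lit 57951645657) (nat_lit 83) (nat_lit 5) (nat_lit 82) (nat_lit 5) (nat_lit 92) (nat_lit 5) (nat_lit 341) (nat_lit 337) (nat_lit 102))) (XT.nd (nat_lit 78) (nat_lit 0) (nat_lit 76) (XT.lf (nat_lit 76) (nat_lit 113863284859) (nat_lit 0) (nat_lit 31260239752) (nat_lit 760) (nat_lit 53721533723) (nat_lit 83) (nat_lit 5) (nat_lit 82) (nat_lit 5) (nat_lit 92) (nat_lit 5) (nat_lit 342) (nat_lit 337) (nat_lit 101)) (XT.nd (nat_lit 78) (nat_lit 0) (nat_lit 0) (XT.lf (nat_lit 76) (nat_lit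 5291929043) (nat_lit 0) (nat_lit 150509844830) (nat_lit 760) (nat_lit 48287282284) (nat_lit 84) (nat_lit 5) (nat_lit 83) (nat_lit 5) (nat_lit 93) (nat_lit 5) (nat_lit 343) (nat_lit 337) (nat_lit 100)) (XT.lf (nat_lit 76) (nat_lit 102500211490) (nat_lit 0) (nat_lit 66457029154) (nat_lit 760) (nat_lit 40540848234) (nat_lit 84) (nat_lit 5) (nat_lit 83) (nat_lit 5) (nat_lit 93) (nat_lit 5) (nat_lit 344) (nat_lit 337) (nat_lit 99))))))))
noncomputable def xc255 : XT := (XT.nd (nat_lit 81120) (nat_lit 0) (nat_lit 456) (XT.nd (nat_lit 40482) (nat_lit 0) (nat_lit 456) (XT.nd (nat_lit 40092) (nat_lit 0) (nat_lit 456) (XT.nd (nat_lit 156) (nat_lit 684) (nat_lit 0) (XT.nd (nat_lit 78) (nat_lit 0) (nat_lit 0) (XT.lf (nat_lit 0) (nat_lit 183110720621) (nat_lit 684) (nat_lit 10949074822) (nat_lit 760) (nat_lit 21100766048) (nat_lit 84) (nat_lit 5) (nat_lit 93) (nat_lit 5) (nat_lit 94) (nat_lit 5)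 (nat_lit 345) (nat_lit 337) (nat_lit 98)) (XT.lf (nat_lit 76) (nat_lit 91749183715) (nat_lit 0) (nat_lit 108744522094) (nat_lit 760) (nat_lit 20486360600) (nat_lit 85) (nat_lit 5) (nat_lit 84) (nat_lit 5) (nat_lit 94) (nat_lit 5) (nat_lit 346) (nat_lit 337) (nat_lit 97))) (XT.nd (nat_lit 78) (nat_lit 684) (nat_lit 0) (XT.lf (nat_lit 76) (nat_lit 199962411960) (nat_lit 0) (nat_lit 18968769206) (nat_lit 760) (nat_lit 8150098586) (nat_lit 85) (nat_lit 5) (nat_lit 84) (nat_lit 5) (nat_lit 94) (nat_lit 5) (nat_lit 347) (nat_lit 337) (nat_lit 96)) (XT.nd (nat_lit 78) (nat_lit 0) (nat_lit 0) (XT.lf (nat_lit 0) (nat_lit 7137838200) (nat_lit 760) (nat_lit 151947605692) (nat_lit 76) (nat_lit 74273931332) (nat_lit 75) (nat_lit 5) (nat_lit 85) (nat_lit 5) (nat_lit 76) (nat_lit 5) (nat_lit 348) (nat_lit 337) (nat_lit 95)) (XT.lf (nat_lit 0) (nat_lit 23693957429) (nat_lit 760) (nat_lit 44070141322)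 (nat_lit 76) (nat_lit 172141712385) (nat_lit 75) (nat_lit 5) (nat_lit 85) (nat_lit 5) (nat_lit 76) (nat_lit 5) (nat_lit 349) (nat_lit 337) (nat_lit 94))))) (XT.nd (nat_lit 156) (nat_lit 0) (nat_lit 0) (XT.nd (nat_lit 78) (nat_lit 0) (nat_lit 0) (XT.lf (nat_lit 0) (nat_lit 29960173274) (nat_lit 0) (nat_lit 29960173274) (nat_lit 684) (nat_lit 32153734136) (nat_lit 81) (nat_lit 5) (nat_lit 81) (nat_lit 3) (nat_lit 90) (nat_lit 3) (nat_lit 338) (nat_lit 338) (nat_lit 104)) (XT.lf (nat_lit 0) (nat_lit 123192449775) (nat_lit 684) (nat_lit 43596479096) (nat_lit 760) (nat_lit 21945144867) (nat_lit 81) (nat_lit 5) (nat_lit 90) (nat_lit 3) (nat_lit 91) (nat_lit 5) (nat_lit 339) (nat_lit 338) (nat_lit 103))) (XT.nd (nat_lit 78) (nat_lit 0) (nat_lit 0) (XT.lf (nat_lit 76) (nat_lit 41409418604) (nat_lit 0) (nat_lit 86931080121) (nat_lit 760) (nat_lit 65127348075) (nat_lit 82) (nat_lit 5) (nat_lit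 81) (nat_lit 5) (nat_lit 91) (nat_lit 5) (nat_lit 340) (nat_lit 338) (nat_lit 102)) (XT.nd (nat_lit 78) (nat_lit 0) (nat_lit 76) (XT.lf (nat_lit 76) (nat_lit 132179119483) (nat_lit 0) (nat_lit 2305049130) (nat_lit 760) (nat_lit 63917229266) (nat_lit 82) (nat_lit 5) (nat_lit 81) (nat_lit 5) (nat_lit 91) (nat_lit 5) (nat_lit 341) (nat_lit 338) (nat_lit 101)) (XT.lf (nat_lit 76) (nat_lit 23300035675) (nat_lit 0) (nat_lit 119349985775) (nat_lit 760) (nat_lit 60845855362) (nat_lit 83) (nat_lit 5) (nat_lit 82) (nat_lit 5) (nat_lit 92) (nat_lit 5) (nat_lit 342) (nat_lit 338) (nat_lit 100)))))) (XT.nd (nat_lit 390) (nat_lit 76) (nat_lit 0) (XT.nd (nat_lit 156) (nat_lit 0) (nat_lit 76) (XT.nd (nat_lit 78) (nat_lit 0) (nat_lit 76) (XT.lf (nat_lit 76) (nat_lit 119558451205) (nat_lit 0) (nat_lit 32824301050) (nat_lit 760) (nat_lit 56404398429) (nat_lit 83) (nat_lit 5) (nat_lit 82) (nat_lit 5) (nat_lit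 92) (nat_lit 5) (nat_lit 343) (nat_lit 338) (nat_lit 99)) (XT.lf (nat_lit 76) (nat_lit 5558669400) (nat_lit 0) (nat_lit 158036117144) (nat_lit 760) (nat_lit 50698568607) (nat_lit 84) (nat_lit 5) (nat_lit 83) (nat_lit 5) (nat_lit 93) (nat_lit 5) (nat_lit 344) (nat_lit 338) (nat_lit 98))) (XT.nd (nat_lit 78) (nat_lit 0) (nat_lit 76) (XT.lf (nat_lit 76) (nat_lit 107627263879) (nat_lit 0) (nat_lit 69780623538) (nat_lit 760) (nat_lit 42564959416) (nat_lit 84) (nat_lit 5) (nat_lit 83) (nat_lit 5) (nat_lit 93) (nat_lit 5) (nat_lit 345) (nat_lit 338) (nat_lit 97)) (XT.nd (nat_lit 78) (nat_lit 0) (nat_lit 0) (XT.lf (nat_lit 0) (nat_lit 192268897739) (nat_lit 684) (nat_lit 11494433418) (nat_lit 760) (nat_lit 22155119448) (nat_lit 84) (nat_lit 5) (nat_lit 93) (nat_lit 5) (nat_lit 94) (nat_lit 5) (nat_lit 346) (nat_lit 338) (nat_lit 96)) (XT.lf (nat_lit 76) (nat_lit 96338704253) (nat_lit 0) (nat_lit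 114182234351) (nat_lit 760) (nat_lit 21507997172) (nat_lit 85) (nat_lit 5) (nat_lit 84) (nat_lit 5) (nat_lit 94) (nat_lit 5) (nat_lit 347) (nat_lit 338) (nat_lit 95))))) (XT.nd (nat_lit 40014) (nat_lit 0) (nat_lit 0) (XT.nd (nat_lit 39936) (nat_lit 228) (nat_lit 0) (XT.lf (nat_lit 76) (nat_lit 209962495751) (nat_lit 0) (nat_lit 19917670669) (nat_lit 760) (nat_lit 8555049746) (nat_lit 85) (nat_lit 5) (nat_lit 84) (nat_lit 5) (nat_lit 94) (nat_lit 5) (nat_lit 348) (nat_lit 338) (nat_lit 94)) (XT.lf (nat_lit 0) (nat_lit 31459060700) (nat_lit 0) (nat_lit 31459060700) (nat_lit 684) (nat_lit 33759570816) (nat_lit 81) (nat_lit 5) (nat_lit 81) (nat_lit 3) (nat_lit 90) (nat_lit 3) (nat_lit 339) (nat_lit 339) (nat_lit 102))) (XT.nd (nat_lit 78) (nat_lit 0) (nat_lit 0) (XT.lf (nat_lit 0) (nat_lit 129355393794) (nat_lit 684) (nat_lit 45774426888) (nat_lit 760) (nat_lit 23040781851) (nat_lit 81)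 (nat_lit 5) (nat_lit 90) (nat_lit 3) (nat_lit 91) (nat_lit 5) (nat_lit 340) (nat_lit 339) (nat_lit 101)) (XT.nd (nat_lit 78) (nat_lit 0) (nat_lit 0) (XT.lf (nat_lit 76) (nat_lit 43481735437) (nat_lit 0) (nat_lit 91278980408) (nat_lit 760) (nat_lit 68380355293) (nat_lit 82) (nat_lit 5) (nat_lit 81) (nat_lit 5) (nat_lit 91) (nat_lit 5) (nat_lit 341) (nat_lit 339) (nat_lit 100)) (XT.lf (nat_lit 76) (nat_lit 138789833459) (nat_lit 0) (nat_lit 2421583759) (nat_lit 760) (nat_lit 67109890552) (nat_lit 82) (nat_lit 5) (nat_lit 81) (nat_lit 5) (nat_lit 91) (nat_lit 5) (nat_lit 342) (nat_lit 339) (nat_lit 99))))))) (XT.nd (nat_lit 40794) (nat_lit 0) (nat_lit 0) (XT.nd (nat_lit 40404) (nat_lit 76) (nat_lit 0) (XT.nd (nat_lit 156) (nat_lit 0) (nat_lit 76) (XT.nd (nat_lit 78) (nat_lit 0) (nat_lit 0) (XT.lf (nat_lit 76) (nat_lit 24466944224) (nat_lit 0) (nat_lit 125318484407) (nat_lit 760) (nat_lit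 63885089102) (nat_lit 83) (nat_lit 5) (nat_lit 82) (nat_lit 5) (nat_lit 92) (nat_lit 5) (nat_lit 343) (nat_lit 339) (nat_lit 98)) (XT.lf (nat_lit 76) (nat_lit 125538189732) (nat_lit 0) (nat_lit 34466467858) (nat_lit 760) (nat_lit 59221704991) (nat_lit 83) (nat_lit 5) (nat_lit 82) (nat_lit 5) (nat_lit 92) (nat_lit 5) (nat_lit 344) (nat_lit 339) (nat_lit 97))) (XT.nd (nat_lit 78) (nat_lit 0) (nat_lit 0) (XT.lf (nat_lit 76) (nat_lit 5838547456) (nat_lit 0) (nat_lit 165938630550) (nat_lit 760) (nat_lit 53230705390) (nat_lit 84) (nat_lit 5) (nat_lit 83) (nat_lit 5) (nat_lit 93) (nat_lit 5) (nat_lit 345) (nat_lit 339) (nat_lit 96)) (XT.nd (nat_lit 78) (nat_lit 0) (nat_lit 76) (XT.lf (nat_lit 76) (nat_lit 113010479059) (nat_lit 0) (nat_lit 73270328571) (nat_lit 760) (nat_lit 44690548675) (nat_lit 84) (nat_lit 5) (nat_lit 83) (nat_lit 5) (nat_lit 93) (nat_lit 5) (nat_lit 346) (nat_lit 339)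 (nat_lit 95)) (XT.lf (nat_lit 0) (nat_lit 201884738171) (nat_lit 684) (nat_lit 12067254730) (nat_lit 760) (nat_lit 23262254193) (nat_lit 84) (nat_lit 5) (nat_lit 93) (nat_lit 5) (nat_lit 94) (nat_lit 5) (nat_lit 347) (nat_lit 339) (nat_lit 94))))) (XT.nd (nat_lit 156) (nat_lit 0) (nat_lit 0) (XT.nd (nat_lit 78) (nat_lit 0) (nat_lit 0) (XT.lf (nat_lit 0) (nat_lit 33032810798) (nat_lit 0) (nat_lit 33032810798) (nat_lit 684) (nat_lit 35445871327) (nat_lit 81) (nat_lit 5) (nat_lit 81) (nat_lit 3) (nat_lit 90) (nat_lit 3) (nat_lit 340) (nat_lit 340) (nat_lit 100)) (XT.lf (nat_lit 0) (nat_lit 135826176211) (nat_lit 684) (nat_lit 48061446497) (nat_lit 760) (nat_lit 24191351321) (nat_lit 81) (nat_lit 5) (nat_lit 90) (nat_lit 3) (nat_lit 91) (nat_lit 5) (nat_lit 341) (nat_lit 340) (nat_lit 99))) (XT.nd (nat_lit 78) (nat_lit 0) (nat_lit 0) (XT.lf (nat_lit 76) (nat_lit 45657496496) (nat_lit 0)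 (nat_lit 95844150544) (nat_lit 760) (nat_lit 71796325270) (nat_lit 82) (nat_lit 5) (nat_lit 81) (nat_lit 5) (nat_lit 91) (nat_lit 5) (nat_lit 342) (nat_lit 340) (nat_lit 98)) (XT.nd (nat_lit 78) (nat_lit 0) (nat_lit 76) (XT.lf (nat_lit 76) (nat_lit 145730919691) (nat_lit 0) (nat_lit 2543825914) (nat_lit 760) (nat_lit 70462482425) (nat_lit 82) (nat_lit 5) (nat_lit 81) (nat_lit 5) (nat_lit 91) (nat_lit 5) (nat_lit 343) (nat_lit 340) (nat_lit 97)) (XT.lf (nat_lit 76) (nat_lit 25692020928) (nat_lit 0) (nat_lit 131585315061) (nat_lit 760) (nat_lit 67076568928) (nat_lit 83) (nat_lit 5) (nat_lit 82) (nat_lit 5) (nat_lit 92) (nat_lit 5) (nat_lit 344) (nat_lit 340) (nat_lit 96)))))) (XT.nd (nat_lit 40560) (nat_lit 0) (nat_lit 0) (XT.nd (nat_lit 40326) (nat_lit 76) (nat_lit 0) (XT.nd (nat_lit 78) (nat_lit 0) (nat_lit 76) (XT.lf (nat_lit 76) (nat_lit 131816746354) (nat_lit 0) (nat_lit 36190654521)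 (nat_lit 760) (nat_lit 62180147737) (nat_lit 83) (nat_lit 5) (nat_lit 82) (nat_lit 5) (nat_lit 92) (nat_lit 5) (nat_lit 345) (nat_lit 340) (nat_lit 95)) (XT.lf (nat_lit 76) (nat_lit 6132238625) (nat_lit 0) (nat_lit 174236203846) (nat_lit 760) (nat_lit 55889708553) (nat_lit 84) (nat_lit 5) (nat_lit 83) (nat_lit 5) (nat_lit 93) (nat_lit 5) (nat_lit 346) (nat_lit 340) (nat_lit 94))) (XT.nd (nat_lit 78) (nat_lit 0) (nat_lit 0) (XT.lf (nat_lit 0) (nat_lit 34685174297) (nat_lit 0) (nat_lit 34685174297) (nat_lit 684) (nat_lit 37216642871) (nat_lit 81) (nat_lit 5) (nat_lit 81) (nat_lit 3) (nat_lit 90) (nat_lit 3) (nat_lit 341) (nat_lit 341) (nat_lit 98)) (XT.nd (nat_lit 78) (nat_lit 0) (nat_lit 0) (XT.lf (nat_lit 0) (nat_lit 142620217653) (nat_lit 684) (nat_lit 50462975298) (nat_lit 760) (nat_lit 25399585896) (nat_lit 81) (nat_lit 5) (nat_lit 90) (nat_lit 3) (nat_lit 91) (nat_lit 5) (nat_lit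 342) (nat_lit 341) (nat_lit 97)) (XT.lf (nat_lit 76) (nat_lit 47941889949) (nat_lit 0) (nat_lit 100637465659) (nat_lit 760) (nat_lit 75383377100) (nat_lit 82) (nat_lit 5) (nat_lit 81) (nat_lit 5) (nat_lit 91) (nat_lit 5) (nat_lit 343) (nat_lit 341) (nat_lit 96))))) (XT.nd (nat_lit 40482) (nat_lit 0) (nat_lit 0) (XT.nd (nat_lit 78) (nat_lit 0) (nat_lit 76) (XT.lf (nat_lit 76) (nat_lit 153018911988) (nat_lit 0) (nat_lit 2672072056) (nat_lit 760) (nat_lit 73982973752) (nat_lit 82) (nat_lit 5) (nat_lit 81) (nat_lit 5) (nat_lit 91) (nat_lit 5) (nat_lit 344) (nat_lit 341) (nat_lit 95)) (XT.lf (nat_lit 76) (nat_lit 26978190674) (nat_lit 0) (nat_lit 138165402976) (nat_lit 760) (nat_lit 70427880705) (nat_lit 83) (nat_lit 5) (nat_lit 82) (nat_lit 5) (nat_lit 92) (nat_lit 5) (nat_lit 345) (nat_lit 341) (nat_lit 94))) (XT.nd (nat_lit 78) (nat_lit 0) (nat_lit 0) (XT.lf (nat_lit 0) (nat_lit 36420088758)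 (nat_lit 0) (nat_lit 36420088758) (nat_lit 684) (nat_lit 39076094496) (nat_lit 81) (nat_lit 5) (nat_lit 81) (nat_lit 3) (nat_lit 90) (nat_lit 3) (nat_lit 342) (nat_lit 342) (nat_lit 96)) (XT.nd (nat_lit 78) (nat_lit 0) (nat_lit 0) (XT.lf (nat_lit 0) (nat_lit 149753707113) (nat_lit 684) (nat_lit 52984724042) (nat_lit 760) (nat_lit 26668356129) (nat_lit 81) (nat_lit 5) (nat_lit 90) (nat_lit 3) (nat_lit 91) (nat_lit 5) (nat_lit 343) (nat_lit 342) (nat_lit 95)) (XT.lf (nat_lit 76) (nat_lit 50340361887) (nat_lit 0) (nat_lit 105670343558) (nat_lit 760) (nat_lit 79150038532) (nat_lit 82) (nat_lit 5) (nat_lit 81) (nat_lit 5) (nat_lit 91) (nat_lit 5) (nat_lit 344) (nat_lit 342) (nat_lit 94))))))))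

set_option maxRecDepth 10000000 in
noncomputable def Tp : PT := (PT.nd (nat_lit 5415228) (PT.nd (nat_lit 5009238) (PT.nd (nat_lit 4643496) (PT.nd (nat_lit 4318626) pc0 pc1) (PT.nd (nat_lit 203268) pc2 pc3)) (PT.nd (nat_lit 243438) (PT.nd (nat_lit 161460) pc4 pc5) (PT.nd (nat_lit 81432) pc6 pc7))) (PT.nd (nat_lit 243204) (PT.nd (nat_lit 122304) (PT.nd (nat_lit 80496) pc8 pc9) (PT.nd (nat_lit 79638) pc10 pc11)) (PT.nd (nat_lit 123474) (PT.nd (nat_lit 41808) pc12 pc13) (PT.nd (nat_lit 122070) pc14 pc15))))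

set_option maxRecDepth 10000000 in
noncomputable def Tx : XT := (XT.nd (nat_lit 7954830) (nat_lit 0) (nat_lit 228) XT.nil (XT.nd (nat_lit 5970276) (nat_lit 0) (nat_lit 0) (XT.nd (nat_lit 2917356) (nat_lit 0) (nat_lit 0) (XT.nd (nat_lit 2027532) (nat_lit 0) (nat_lit 0) (XT.nd (nat_lit 1420146) (nat_lit 0) (nat_lit 0) (XT.nd (nat_lit 1012440) (nat_lit 0) (nat_lit 0) (XT.nd (nat_lit 690144) (nat_lit 0) (nat_lit 0) (XT.nd (nat_lit 486798) (nat_lit 0) (nat_lit 0) (XT.nd (nat_lit 325026) (nat_lit 0) (nat_lit 0) (XT.nd (nat_lit 243204) (nat_lit 0) (nat_lit 0) xc0 xc1) (XT.nd (nat_lit 81198) (nat_lit 0) (nat_lit 0) xc2 xc3)) (XT.nd (nat_lit 121212) (nat_lit 0) (nat_lit 0) (XT.nd (nat_lit 79950) (nat_lit 0) (nat_lit 0) xc4 xc5) (XT.nd (nat_lit 41106) (nat_lit 0) (nat_lit 0) xc6 xc7))) (XT.nd (nat_lit 162240) (nat_lit 0) (nat_lit 0) (XT.nd (nat_lit 81432) (nat_lit 0) (nat_lit 0) (XT.nd (nat_lit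 40794) (nat_lit 0) (nat_lit 0) xc8 xc9) (XT.nd (nat_lit 40482) (nat_lit 0) (nat_lit 0) xc10 xc11)) (XT.nd (nat_lit 80262) (nat_lit 0) (nat_lit 0) (XT.nd (nat_lit 40170) (nat_lit 0) (nat_lit 0) xc12 xc13) (XT.nd (nat_lit 39936) (nat_lit 0) (nat_lit 0) xc14 xc15)))) (XT.nd (nat_lit 205764) (nat_lit 0) (nat_lit 0) (XT.nd (nat_lit 121446) (nat_lit 0) (nat_lit 0) (XT.nd (nat_lit 42666) (nat_lit 0) (nat_lit 0) (XT.nd (nat_lit 3042) (nat_lit 0) (nat_lit 0) xc16 xc17) (XT.nd (nat_lit 39468) (nat_lit 0) (nat_lit 0) xc18 xc19)) (XT.nd (nat_lit 42198) (nat_lit 0) (nat_lit 0) (XT.nd (nat_lit 3042) (nat_lit 0) (nat_lit 0) xc20 xc21) (XT.nd (nat_lit 39000) (nat_lit 0) (nat_lit 0) xc22 xc23))) (XT.nd (nat_lit 119184) (nat_lit 0) (nat_lit 0) (XT.nd (nat_lit 77532) (nat_lit 0) (nat_lit 0) (XT.nd (nat_lit 38844) (nat_lit 0) (nat_lit 0) xc24 xc25) (XT.nd (nat_lit 3042) (nat_lit 0) (nat_lit 0) xc26 xc27))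 (XT.nd (nat_lit 41418) (nat_lit 0) (nat_lit 0) (XT.nd (nat_lit 3042) (nat_lit 0) (nat_lit 0) xc28 xc29) (XT.nd (nat_lit 38220) (nat_lit 0) (nat_lit 0) xc30 xc31))))) (XT.nd (nat_lit 324792) (nat_lit 0) (nat_lit 0) (XT.nd (nat_lit 163566) (nat_lit 0) (nat_lit 0) (XT.nd (nat_lit 82056) (nat_lit 0) (nat_lit 0) (XT.nd (nat_lit 41106) (nat_lit 0) (nat_lit 0) (XT.nd (nat_lit 38064) (nat_lit 0) (nat_lit 0) xc32 xc33) (XT.nd (nat_lit 37908) (nat_lit 0) (nat_lit 0) xc34 xc35)) (XT.nd (nat_lit 40794) (nat_lit 0) (nat_lit 0) (XT.nd (nat_lit 37752) (nat_lit 0) (nat_lit 0) xc36 xc37) (XT.nd (nat_lit 37596) (nat_lit 0) (nat_lit 0) xc38 xc39))) (XT.nd (nat_lit 80886) (nat_lit 0) (nat_lit 0) (XT.nd (nat_lit 40482) (nat_lit 0) (nat_lit 0) (XT.nd (nat_lit 37440) (nat_lit 0) (nat_lit 0) xc40 xc41) (XT.nd (nat_lit 37284) (nat_lit 0) (nat_lit 0) xc42 xc43)) (XT.nd (nat_lit 40170) (nat_lit 0) (nat_lit 0)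 (XT.nd (nat_lit 37128) (nat_lit 0) (nat_lit 0) xc44 xc45) (XT.nd (nat_lit 37050) (nat_lit 0) (nat_lit 0) xc46 xc47)))) (XT.nd (nat_lit 158886) (nat_lit 0) (nat_lit 0) (XT.nd (nat_lit 79716) (nat_lit 0) (nat_lit 0) (XT.nd (nat_lit 39936) (nat_lit 0) (nat_lit 0) (XT.nd (nat_lit 36894) (nat_lit 0) (nat_lit 76) xc48 xc49) (XT.nd (nat_lit 3042) (nat_lit 0) (nat_lit 0) xc50 xc51)) (XT.nd (nat_lit 39624) (nat_lit 0) (nat_lit 0) (XT.nd (nat_lit 3042) (nat_lit 0) (nat_lit 0) xc52 xc53) (XT.nd (nat_lit 3042) (nat_lit 0) (nat_lit 0) xc54 xc55))) (XT.nd (nat_lit 45474) (nat_lit 0) (nat_lit 0) (XT.nd (nat_lit 39312) (nat_lit 0) (nat_lit 0) (XT.nd (nat_lit 3042) (nat_lit 76) (nat_lit 0) xc56 xc57) (XT.nd (nat_lit 3042) (nat_lit 228) (nat_lit 0) xc58 xc59)) (XT.nd (nat_lit 39156) (nat_lit 0) (nat_lit 0) (XT.nd (nat_lit 36114) (nat_lit 0) (nat_lit 76) xc60 xc61) (XT.nd (nat_lit 35958) (nat_lit 0) (nat_lit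 228) xc62 xc63)))))) (XT.nd (nat_lit 450450) (nat_lit 0) (nat_lit 0) (XT.nd (nat_lit 243438) (nat_lit 0) (nat_lit 0) (XT.nd (nat_lit 122304) (nat_lit 0) (nat_lit 0) (XT.nd (nat_lit 77532) (nat_lit 0) (nat_lit 0) (XT.nd (nat_lit 38844) (nat_lit 0) (nat_lit 0) (XT.nd (nat_lit 3042) (nat_lit 0) (nat_lit 0) xc64 xc65) (XT.nd (nat_lit 3042) (nat_lit 76) (nat_lit 0) xc66 xc67)) (XT.nd (nat_lit 6084) (nat_lit 0) (nat_lit 0) (XT.nd (nat_lit 3042) (nat_lit 456) (nat_lit 0) xc68 xc69) (XT.nd (nat_lit 35568) (nat_lit 0) (nat_lit 228) xc70 xc71))) (XT.nd (nat_lit 76830) (nat_lit 0) (nat_lit 0) (XT.nd (nat_lit 38454) (nat_lit 0) (nat_lit 0) (XT.nd (nat_lit 3042) (nat_lit 0) (nat_lit 0) xc72 xc73) (XT.nd (nat_lit 3042) (nat_lit 76) (nat_lit 0) xc74 xc75)) (XT.nd (nat_lit 6084) (nat_lit 76) (nat_lit 0) (XT.nd (nat_lit 3042) (nat_lit 532) (nat_lit 0) xc76 xc77) (XT.nd (nat_lit 35100) (nat_lit 0) (nat_lit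 456) xc78 xc79)))) (XT.nd (nat_lit 119652) (nat_lit 0) (nat_lit 0) (XT.nd (nat_lit 44070) (nat_lit 0) (nat_lit 0) (XT.nd (nat_lit 37986) (nat_lit 0) (nat_lit 0) (XT.nd (nat_lit 3042) (nat_lit 0) (nat_lit 0) xc80 xc81) (XT.nd (nat_lit 3042) (nat_lit 304) (nat_lit 0) xc82 xc83)) (XT.nd (nat_lit 37830) (nat_lit 0) (nat_lit 0) (XT.nd (nat_lit 34788) (nat_lit 0) (nat_lit 304) xc84 xc85) (XT.nd (nat_lit 3042) (nat_lit 0) (nat_lit 0) xc86 xc87))) (XT.nd (nat_lit 43758) (nat_lit 0) (nat_lit 0) (XT.nd (nat_lit 6084) (nat_lit 0) (nat_lit 0) (XT.nd (nat_lit 3042) (nat_lit 304) (nat_lit 0) xc88 xc89) (XT.nd (nat_lit 34554) (nat_lit 0) (nat_lit 304) xc90 xc91)) (XT.nd (nat_lit 37440) (nat_lit 0) (nat_lit 0) (XT.nd (nat_lit 3042) (nat_lit 0) (nat_lit 0) xc92 xc93) (XT.nd (nat_lit 3042) (nat_lit 304) (nat_lit 0) xc94 xc95))))) (XT.nd (nat_lit 203580) (nat_lit 0) (nat_lit 0) (XT.nd (nat_lit 117546)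 (nat_lit 0) (nat_lit 0) (XT.nd (nat_lit 74412) (nat_lit 0) (nat_lit 0) (XT.nd (nat_lit 37284) (nat_lit 0) (nat_lit 0) (XT.nd (nat_lit 34242) (nat_lit 0) (nat_lit 380) xc96 xc97) (XT.nd (nat_lit 3042) (nat_lit 0) (nat_lit 0) xc98 xc99)) (XT.nd (nat_lit 6084) (nat_lit 0) (nat_lit 0) (XT.nd (nat_lit 3042) (nat_lit 532) (nat_lit 0) xc100 xc101) (XT.nd (nat_lit 33930) (nat_lit 0) (nat_lit 760) xc102 xc103))) (XT.nd (nat_lit 42978) (nat_lit 0) (nat_lit 0) (XT.nd (nat_lit 36816) (nat_lit 0) (nat_lit 228) (XT.nd (nat_lit 3042) (nat_lit 76) (nat_lit 0) xc104 xc105) (XT.nd (nat_lit 3042) (nat_lit 1140) (nat_lit 0) xc106 xc107)) (XT.nd (nat_lit 36894) (nat_lit 0) (nat_lit 0) (XT.nd (nat_lit 33852) (nat_lit 0) (nat_lit 1976) xc108 xc109) (XT.nd (nat_lit 3042) (nat_lit 304) (nat_lit 0) xc110 xc111)))) (XT.nd (nat_lit 117468) (nat_lit 0) (nat_lit 0) (XT.nd (nat_lit 74100) (nat_lit 0) (nat_lit 0)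 (XT.nd (nat_lit 36972) (nat_lit 0) (nat_lit 0) (XT.nd (nat_lit 33930) (nat_lit 0) (nat_lit 532) xc112 xc113) (XT.nd (nat_lit 3042) (nat_lit 0) (nat_lit 0) xc114 xc115)) (XT.nd (nat_lit 6084) (nat_lit 76) (nat_lit 0) (XT.nd (nat_lit 3042) (nat_lit 532) (nat_lit 0) xc116 xc117) (XT.nd (nat_lit 34164) (nat_lit 0) (nat_lit 760) xc118 xc119))) (XT.nd (nat_lit 43446) (nat_lit 0) (nat_lit 0) (XT.nd (nat_lit 37284) (nat_lit 0) (nat_lit 76) (XT.nd (nat_lit 3042) (nat_lit 76) (nat_lit 0) xc120 xc121) (XT.nd (nat_lit 3042) (nat_lit 988) (nat_lit 0) xc122 xc123)) (XT.nd (nat_lit 37362) (nat_lit 0) (nat_lit 0) (XT.nd (nat_lit 34320) (nat_lit 0) (nat_lit 1140) xc124 xc125) (XT.nd (nat_lit 3042) (nat_lit 152) (nat_lit 0) xc126 xc127))))))) (XT.nd (nat_lit 976326) (nat_lit 0) (nat_lit 228) (XT.nd (nat_lit 448812) (nat_lit 0) (nat_lit 76) (XT.nd (nat_lit 207012) (nat_lit 0) (nat_lit 0) (XT.nd (nat_lit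 87360) (nat_lit 0) (nat_lit 0) (XT.nd (nat_lit 43602) (nat_lit 0) (nat_lit 0) (XT.nd (nat_lit 6084) (nat_lit 228) (nat_lit 0) (XT.nd (nat_lit 3042) (nat_lit 1064) (nat_lit 0) xc128 xc129) (XT.nd (nat_lit 34476) (nat_lit 0) (nat_lit 1368) xc130 xc131)) (XT.nd (nat_lit 37596) (nat_lit 0) (nat_lit 228) (XT.nd (nat_lit 3042) (nat_lit 228) (nat_lit 0) xc132 xc133) (XT.nd (nat_lit 3042) (nat_lit 1216) (nat_lit 0) xc134 xc135))) (XT.nd (nat_lit 75582) (nat_lit 0) (nat_lit 0) (XT.nd (nat_lit 37752) (nat_lit 0) (nat_lit 0) (XT.nd (nat_lit 34710) (nat_lit 0) (nat_lit 1292) xc136 xc137) (XT.nd (nat_lit 3042) (nat_lit 228) (nat_lit 0) xc138 xc139)) (XT.nd (nat_lit 6084) (nat_lit 228) (nat_lit 0) (XT.nd (nat_lit 3042) (nat_lit 912) (nat_lit 0) xc140 xc141) (XT.nd (nat_lit 34866) (nat_lit 0) (nat_lit 1064) xc142 xc143)))) (XT.nd (nat_lit 120432) (nat_lit 0) (nat_lit 76) (XT.nd (nat_lit 44070) (nat_lit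 0) (nat_lit 0) (XT.nd (nat_lit 37986) (nat_lit 0) (nat_lit 76) (XT.nd (nat_lit 3042) (nat_lit 76) (nat_lit 0) xc144 xc145) (XT.nd (nat_lit 3042) (nat_lit 760) (nat_lit 0) xc146 xc147)) (XT.nd (nat_lit 38064) (nat_lit 0) (nat_lit 0) (XT.nd (nat_lit 35022) (nat_lit 0) (nat_lit 608) xc148 xc149) (XT.nd (nat_lit 3042) (nat_lit 76) (nat_lit 0) xc150 xc151))) (XT.nd (nat_lit 44460) (nat_lit 0) (nat_lit 0) (XT.nd (nat_lit 38298) (nat_lit 0) (nat_lit 228) (XT.nd (nat_lit 3042) (nat_lit 380) (nat_lit 0) xc152 xc153) (XT.nd (nat_lit 3042) (nat_lit 1520) (nat_lit 0) xc154 xc155)) (XT.nd (nat_lit 38376) (nat_lit 0) (nat_lit 0) (XT.nd (nat_lit 35334) (nat_lit 0) (nat_lit 1064) xc156 xc157) (XT.nd (nat_lit 3042) (nat_lit 152) (nat_lit 0) xc158 xc159))))) (XT.nd (nat_lit 245154) (nat_lit 0) (nat_lit 0) (XT.nd (nat_lit 122148) (nat_lit 0) (nat_lit 0) (XT.nd (nat_lit 44616) (nat_lit 0) (nat_lit 0) (XT.nd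 (nat_lit 6084) (nat_lit 0) (nat_lit 0) (XT.nd (nat_lit 3042) (nat_lit 684) (nat_lit 0) xc160 xc161) (XT.nd (nat_lit 35490) (nat_lit 0) (nat_lit 380) xc162 xc163)) (XT.nd (nat_lit 38688) (nat_lit 0) (nat_lit 0) (XT.nd (nat_lit 35646) (nat_lit 0) (nat_lit 1368) xc164 xc165) (XT.nd (nat_lit 3042) (nat_lit 152) (nat_lit 0) xc166 xc167))) (XT.nd (nat_lit 45006) (nat_lit 0) (nat_lit 0) (XT.nd (nat_lit 38844) (nat_lit 0) (nat_lit 228) (XT.nd (nat_lit 3042) (nat_lit 684) (nat_lit 0) xc168 xc169) (XT.nd (nat_lit 3042) (nat_lit 1672) (nat_lit 0) xc170 xc171)) (XT.nd (nat_lit 38922) (nat_lit 0) (nat_lit 0) (XT.nd (nat_lit 35880) (nat_lit 0) (nat_lit 988) xc172 xc173) (XT.nd (nat_lit 3042) (nat_lit 0) (nat_lit 0) xc174 xc175)))) (XT.nd (nat_lit 123864) (nat_lit 0) (nat_lit 76) (XT.nd (nat_lit 45240) (nat_lit 0) (nat_lit 0) (XT.nd (nat_lit 39156) (nat_lit 0) (nat_lit 76) (XT.nd (nat_lit 3042) (nat_lit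 380) (nat_lit 0) xc176 xc177) (XT.nd (nat_lit 3042) (nat_lit 988) (nat_lit 0) xc178 xc179)) (XT.nd (nat_lit 39234) (nat_lit 0) (nat_lit 0) (XT.nd (nat_lit 36192) (nat_lit 0) (nat_lit 380) xc180 xc181) (XT.nd (nat_lit 36270) (nat_lit 0) (nat_lit 912) xc182 xc183))) (XT.nd (nat_lit 79092) (nat_lit 0) (nat_lit 76) (XT.nd (nat_lit 39468) (nat_lit 0) (nat_lit 0) (XT.nd (nat_lit 36426) (nat_lit 0) (nat_lit 1672) xc184 xc185) (XT.nd (nat_lit 3042) (nat_lit 152) (nat_lit 0) xc186 xc187)) (XT.nd (nat_lit 39624) (nat_lit 0) (nat_lit 0) (XT.nd (nat_lit 3042) (nat_lit 380) (nat_lit 0) xc188 xc189) (XT.nd (nat_lit 3042) (nat_lit 912) (nat_lit 0) xc190 xc191)))))) (XT.nd (nat_lit 651846) (nat_lit 0) (nat_lit 532) (XT.nd (nat_lit 287430) (nat_lit 0) (nat_lit 76) (XT.nd (nat_lit 125970) (nat_lit 0) (nat_lit 76) (XT.nd (nat_lit 45942) (nat_lit 0) (nat_lit 0) (XT.nd (nat_lit 6084) (nat_lit 76) (nat_lit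 0) (XT.nd (nat_lit 3042) (nat_lit 1672) (nat_lit 0) xc192 xc193) (XT.nd (nat_lit 36816) (nat_lit 0) (nat_lit 380) xc194 xc195)) (XT.nd (nat_lit 39936) (nat_lit 0) (nat_lit 0) (XT.nd (nat_lit 36894) (nat_lit 0) (nat_lit 608) xc196 xc197) (XT.nd (nat_lit 36972) (nat_lit 0) (nat_lit 1064) xc198 xc199))) (XT.nd (nat_lit 80496) (nat_lit 0) (nat_lit 0) (XT.nd (nat_lit 40170) (nat_lit 0) (nat_lit 0) (XT.nd (nat_lit 37128) (nat_lit 0) (nat_lit 1444) xc200 xc201) (XT.nd (nat_lit 3042) (nat_lit 0) (nat_lit 0) xc202 xc203)) (XT.nd (nat_lit 40404) (nat_lit 0) (nat_lit 0) (XT.nd (nat_lit 3042) (nat_lit 76) (nat_lit 0) xc204 xc205) (XT.nd (nat_lit 3042) (nat_lit 152) (nat_lit 0) xc206 xc207)))) (XT.nd (nat_lit 163254) (nat_lit 0) (nat_lit 152) (XT.nd (nat_lit 81276) (nat_lit 0) (nat_lit 76) (XT.nd (nat_lit 40560) (nat_lit 0) (nat_lit 76) (XT.nd (nat_lit 3042) (nat_lit 228) (nat_lit 0) xc208 xc209)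 (XT.nd (nat_lit 3042) (nat_lit 152) (nat_lit 0) xc210 xc211)) (XT.nd (nat_lit 40872) (nat_lit 0) (nat_lit 76) (XT.nd (nat_lit 3042) (nat_lit 152) (nat_lit 0) xc212 xc213) (XT.nd (nat_lit 3042) (nat_lit 76) (nat_lit 0) xc214 xc215))) (XT.nd (nat_lit 82524) (nat_lit 0) (nat_lit 152) (XT.nd (nat_lit 41106) (nat_lit 0) (nat_lit 76) (XT.nd (nat_lit 38064) (nat_lit 0) (nat_lit 1368) xc216 xc217) (XT.nd (nat_lit 38298) (nat_lit 0) (nat_lit 760) xc218 xc219)) (XT.nd (nat_lit 41418) (nat_lit 0) (nat_lit 0) (XT.nd (nat_lit 38376) (nat_lit 0) (nat_lit 228) xc220 xc221) (XT.nd (nat_lit 38532) (nat_lit 0) (nat_lit 0) xc222 xc223))))) (XT.nd (nat_lit 448188) (nat_lit 0) (nat_lit 684) (XT.nd (nat_lit 204126) (nat_lit 0) (nat_lit 304) (XT.nd (nat_lit 83694) (nat_lit 0) (nat_lit 76) (XT.nd (nat_lit 41808) (nat_lit 0) (nat_lit 0) (XT.nd (nat_lit 3042) (nat_lit 836) (nat_lit 0) xc224 xc225) (XT.nd (nat_lit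 3042) (nat_lit 76) (nat_lit 0) xc226 xc227)) (XT.nd (nat_lit 42042) (nat_lit 0) (nat_lit 0) (XT.nd (nat_lit 39000) (nat_lit 0) (nat_lit 304) xc228 xc229) (XT.nd (nat_lit 39078) (nat_lit 0) (nat_lit 152) xc230 xc231))) (XT.nd (nat_lit 121446) (nat_lit 0) (nat_lit 228) (XT.nd (nat_lit 42354) (nat_lit 0) (nat_lit 0) (XT.nd (nat_lit 3042) (nat_lit 76) (nat_lit 0) xc232 xc233) (XT.nd (nat_lit 39468) (nat_lit 0) (nat_lit 76) xc234 xc235)) (XT.nd (nat_lit 42744) (nat_lit 0) (nat_lit 76) (XT.nd (nat_lit 3042) (nat_lit 456) (nat_lit 0) xc236 xc237) (XT.nd (nat_lit 39858) (nat_lit 0) (nat_lit 76) xc238 xc239)))) (XT.nd (nat_lit 286494) (nat_lit 0) (nat_lit 988) (XT.nd (nat_lit 123708) (nat_lit 0) (nat_lit 380) (XT.nd (nat_lit 43134) (nat_lit 0) (nat_lit 152) (XT.nd (nat_lit 40092) (nat_lit 0) (nat_lit 380) xc240 xc241) (XT.nd (nat_lit 40248) (nat_lit 0) (nat_lit 152) xc242 xc243)) (XT.nd (nat_lit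 81120) (nat_lit 0) (nat_lit 304) (XT.nd (nat_lit 40482) (nat_lit 0) (nat_lit 152) xc244 xc245) (XT.nd (nat_lit 40716) (nat_lit 0) (nat_lit 228) xc246 xc247))) (XT.nd (nat_lit 242346) (nat_lit 0) (nat_lit 1064) (XT.nd (nat_lit 120432) (nat_lit 0) (nat_lit 608) (XT.nd (nat_lit 79170) (nat_lit 0) (nat_lit 380) xc248 xc249) (XT.nd (nat_lit 41418) (nat_lit 0) (nat_lit 228) xc250 xc251)) (XT.nd (nat_lit 123084) (nat_lit 0) (nat_lit 912) (XT.nd (nat_lit 41886) (nat_lit 0) (nat_lit 380) xc252 xc253) (XT.nd (nat_lit 121446) (nat_lit 0) (nat_lit 1064) xc254 xc255)))))))) XT.nil))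

set_option maxRecDepth 10000000 in
noncomputable def Te : XT := XT.nil

set_option maxRecDepth 10000000 in
noncomputable def Tz : ZL := (ZL.cons (nat_lit 76) (nat_lit 6) (nat_lit 196620003249683696682) (ZL.cons (nat_lit 152) (nat_lit 6) (nat_lit 192455703777564765512) (ZL.cons (nat_lit 228) (nat_lit 3) (nat_lit 96116866166065466689) (ZL.cons (nat_lit 304) (nat_lit 6) (nat_lit 188083189331839887782) (ZL.cons (nat_lit 380) (nat_lit 6) (nat_lit 184158492003571771692) (ZL.cons (nat_lit 456) (nat_lit 3) (nat_lit 91973545313484061020) (ZL.cons (nat_lit 532) (nat_lit 6) (nat_lit 180037559808890249798) (ZL.cons (nat_lit 608) (nat_lit 6) (nat_lit 176345288470896561830) (ZL.cons (nat_lit 684) (nat_lit 3) (nat_lit 88071976913256066796) (ZL.cons (nat_lit 760) (nat_lit 6) (nat_lit 172468403566003189466) (ZL.cons (nat_lit 836) (nat_lit 6) (nat_lit 169002157717219348504) (ZL.cons (nat_lit 912) (nat_lit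 3) (nat_lit 84405205218426613186) (ZL.cons (nat_lit 988) (nat_lit 6) (nat_lit 165362599575996315494) (ZL.cons (nat_lit 1064) (nat_lit 6) (nat_lit 162116761909954226092) (ZL.cons (nat_lit 1140) (nat_lit 3) (nat_lit 80967072726231340602) (ZL.cons (nat_lit 1216) (nat_lit 6) (nat_lit 159065169253807810334) (ZL.cons (nat_lit 1292) (nat_lit 6) (nat_lit 158708632360610032220) (ZL.cons (nat_lit 1368) (nat_lit 6) (nat_lit 155678380507362528902) (ZL.cons (nat_lit 1444) (nat_lit 3) (nat_lit 77752230035828147838) (ZL.cons (nat_lit 1520) (nat_lit 6) (nat_lit 152836175007355296240) (ZL.cons (nat_lit 1596) (nat_lit 6) (nat_lit 152496616061452650416) (ZL.cons (nat_lit 1672) (nat_lit 6) (nat_lit 149677938796641468720) (ZL.cons (nat_lit 1748) (nat_lit 3) (nat_lit 74756150143222528061) (ZL.cons (nat_lit 1824) (nat_lit 6) (nat_lit 147041717140877962052) (ZL.cons (nat_lit 1900) (nat_lit 6) (nat_lit 146718327668589727936)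 (ZL.cons (nat_lit 1976) (nat_lit 6) (nat_lit 144581674375934122070) (ZL.cons (nat_lit 2052) (nat_lit 6) (nat_lit 144108045892129867456) (ZL.cons (nat_lit 2128) (nat_lit 3) (nat_lit 71975147465019022969) (ZL.cons (nat_lit 2204) (nat_lit 6) (nat_lit 141675240000454855970) (ZL.cons (nat_lit 2280) (nat_lit 6) (nat_lit 141367250026847013954) (ZL.cons (nat_lit 2356) (nat_lit 6) (nat_lit 139414117598584514880) (ZL.cons (nat_lit 2432) (nat_lit 6) (nat_lit 138963042852104272392) (ZL.cons (nat_lit 2508) (nat_lit 3) (nat_lit 69406401920294125947) (ZL.cons (nat_lit 2584) (nat_lit 6) (nat_lit 137319295061752486226) (ZL.cons (nat_lit 2660) (nat_lit 6) (nat_lit 136731949103012814718) (ZL.cons (nat_lit 2736) (nat_lit 6) (nat_lit 136438625318624393748) (ZL.cons (nat_lit 2812) (nat_lit 6) (nat_lit 134668656651598613652) (ZL.cons (nat_lit 2888) (nat_lit 6) (nat_lit 134239061654950763662) (ZL.cons (nat_lit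 2964) (nat_lit 3) (nat_lit 67047988441039181595) (ZL.cons (nat_lit 3040) (nat_lit 6) (nat_lit 132768252896786873480) (ZL.cons (nat_lit 3116) (nat_lit 6) (nat_lit 132208875793225281564) (ZL.cons (nat_lit 3192) (nat_lit 6) (nat_lit 131929519808093452072) (ZL.cons (nat_lit 3268) (nat_lit 6) (nat_lit 130343233957586696308) (ZL.cons (nat_lit 3344) (nat_lit 6) (nat_lit 129934095865541124890) (ZL.cons (nat_lit 3420) (nat_lit 3) (nat_lit 64898912326640847935) (ZL.cons (nat_lit 3496) (nat_lit 6) (nat_lit 128637694143664439834) (ZL.cons (nat_lit 3572) (nat_lit 6) (nat_lit 128104954045034352296) (ZL.cons (nat_lit 3648) (nat_lit 6) (nat_lit 127838900725861181350) (ZL.cons (nat_lit 3724) (nat_lit 6) (nat_lit 127088195542377744862) (ZL.cons (nat_lit 3800) (nat_lit 6) (nat_lit 126437739247000499118) (ZL.cons (nat_lit 3876) (nat_lit 6) (nat_lit 126048083921242812052) (ZL.cons (nat_lit 3952) (nat_lit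 3) (nat_lit 62959150907164535063) (ZL.cons (nat_lit 4028) (nat_lit 6) (nat_lit 125691048871342595454) (ZL.cons (nat_lit 4104) (nat_lit 6) (nat_lit 124928481912396627606) (ZL.cons (nat_lit 4180) (nat_lit 6) (nat_lit 124421110389891782334) (ZL.cons (nat_lit 4256) (nat_lit 6) (nat_lit 124167726276393524288) (ZL.cons (nat_lit 4332) (nat_lit 6) (nat_lit 123573588571378442832) (ZL.cons (nat_lit 4408) (nat_lit 6) (nat_lit 122954106385304875456) (ZL.cons (nat_lit 4484) (nat_lit 6) (nat_lit 122583006075059459204) (ZL.cons (nat_lit 4560) (nat_lit 3) (nat_lit 61229702034237471542) (ZL.cons (nat_lit 4636) (nat_lit 6) (nat_lit 122369833287419711020) (ZL.cons (nat_lit 4712) (nat_lit 6) (nat_lit 121643579040804503544) (ZL.cons (nat_lit 4788) (nat_lit 6) (nat_lit 121160368066990365188) (ZL.cons (nat_lit 4864) (nat_lit 6) (nat_lit 120919049863658690862) (ZL.cons (nat_lit 4940) (nat_lit 6) (nat_lit 121314349976511006620)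 (ZL.cons (nat_lit 5016) (nat_lit 6) (nat_lit 120486408053189475242) (ZL.cons (nat_lit 5092) (nat_lit 6) (nat_lit 119896425018833696786) (ZL.cons (nat_lit 5168) (nat_lit 6) (nat_lit 119542996151933300356) (ZL.cons (nat_lit 5244) (nat_lit 3) (nat_lit 59712639977593071075) (ZL.cons (nat_lit 5320) (nat_lit 6) (nat_lit 120404625583150166048) (ZL.cons (nat_lit 5396) (nat_lit 6) (nat_lit 119479838253441659524) (ZL.cons (nat_lit 5472) (nat_lit 6) (nat_lit 118788167542379557166) (ZL.cons (nat_lit 5548) (nat_lit 6) (nat_lit 118327966614937520636) (ZL.cons (nat_lit 5624) (nat_lit 6) (nat_lit 118098139754621640326) (ZL.cons (nat_lit 5700) (nat_lit 6) (nat_lit 119638494096876806356) (ZL.cons (nat_lit 5776) (nat_lit 6) (nat_lit 118621473046799752072) (ZL.cons (nat_lit 5852) (nat_lit 6) (nat_lit 117832956929350674568) (ZL.cons (nat_lit 5928) (nat_lit 6) (nat_lit 117271068325202314136) (ZL.cons (nat_lit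 6004) (nat_lit 6) (nat_lit 116934469404344793726) (ZL.cons (nat_lit 6080) (nat_lit 3) (nat_lit 58411179370388035811) (ZL.cons (nat_lit 6156) (nat_lit 6) (nat_lit 116493286487343670884) (ZL.cons (nat_lit 6232) (nat_lit 6) (nat_lit 116634380242911250604) (ZL.cons (nat_lit 6308) (nat_lit 6) (nat_lit 116916903691559666186) (ZL.cons (nat_lit 6384) (nat_lit 6) (nat_lit 117341529508166651950) (ZL.cons (nat_lit 6460) (nat_lit 6) (nat_lit 117909268706581272150) (ZL.cons (nat_lit 6536) (nat_lit 6) (nat_lit 117028518868763646886) (ZL.cons (nat_lit 6612) (nat_lit 6) (nat_lit 116369784858228311308) (ZL.cons (nat_lit 6688) (nat_lit 6) (nat_lit 115931498260664466996) (ZL.cons (nat_lit 6764) (nat_lit 6) (nat_lit 115712615536554104792) (ZL.cons (nat_lit 6840) (nat_lit 3) (nat_lit 57606606454472465742) (ZL.cons (nat_lit 6916) (nat_lit 6) (nat_lit 115285480442284423536) (ZL.cons (nat_lit 6992) (nat_lit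 6) (nat_lit 115502455107858469910) (ZL.cons (nat_lit 7068) (nat_lit 6) (nat_lit 115864653512013675478) (ZL.cons (nat_lit 7144) (nat_lit 6) (nat_lit 116372938031902790728) (ZL.cons (nat_lit 7220) (nat_lit 6) (nat_lit 115621970300998907390) (ZL.cons (nat_lit 7296) (nat_lit 6) (nat_lit 115086838297048087932) (ZL.cons (nat_lit 7372) (nat_lit 6) (nat_lit 114766267896231401826) (ZL.cons (nat_lit 7448) (nat_lit 3) (nat_lit 57329747917844880863) (ZL.cons (nat_lit 7524) (nat_lit 6) (nat_lit 114135188970799426062) (ZL.cons (nat_lit 7600) (nat_lit 6) (nat_lit 114283337414145384768) (ZL.cons (nat_lit 7676) (nat_lit 6) (nat_lit 114579987035226221128) (ZL.cons (nat_lit 7752) (nat_lit 6) (nat_lit 115025844142663556182) (ZL.cons (nat_lit 7828) (nat_lit 6) (nat_lit 114398478418344188964) (ZL.cons (nat_lit 7904) (nat_lit 6) (nat_lit 113981062611140527712) (ZL.cons (nat_lit 7980) (nat_lit 6) (nat_lit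 113772602873892563710) (ZL.cons (nat_lit 8056) (nat_lit 3) (nat_lit 56590383519619218380) (ZL.cons (nat_lit 8132) (nat_lit 6) (nat_lit 113256647949244903414) (ZL.cons (nat_lit 8208) (nat_lit 6) (nat_lit 113484471348097652106) (ZL.cons (nat_lit 8284) (nat_lit 6) (nat_lit 113864779672460617952) (ZL.cons (nat_lit 8360) (nat_lit 6) (nat_lit 113355130144888408940) (ZL.cons (nat_lit 8436) (nat_lit 6) (nat_lit 113049825001253469792) (ZL.cons (nat_lit 8512) (nat_lit 3) (nat_lit 56474068662273572945) (ZL.cons (nat_lit 8588) (nat_lit 6) (nat_lit 112419942214431072318) (ZL.cons (nat_lit 8664) (nat_lit 6) (nat_lit 112575498079944328958) (ZL.cons (nat_lit 8740) (nat_lit 6) (nat_lit 112886980182079207136) (ZL.cons (nat_lit 8816) (nat_lit 6) (nat_lit 112489441318075720228) (ZL.cons (nat_lit 8892) (nat_lit 6) (nat_lit 112290908234982421180) (ZL.cons (nat_lit 8968) (nat_lit 3) (nat_lit 55885614026596214990)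 (ZL.cons (nat_lit 9044) (nat_lit 6) (nat_lit 111850903008699219966) (ZL.cons (nat_lit 9120) (nat_lit 6) (nat_lit 112090117577494606092) (ZL.cons (nat_lit 9196) (nat_lit 6) (nat_lit 111799350774032759284) (ZL.cons (nat_lit 9272) (nat_lit 3) (nat_lit 55851252683822892069) (ZL.cons (nat_lit 9348) (nat_lit 6) (nat_lit 111308960908002217728) (ZL.cons (nat_lit 9424) (nat_lit 6) (nat_lit 111472294566791137200) (ZL.cons (nat_lit 9500) (nat_lit 6) (nat_lit 111283215440035614294) (ZL.cons (nat_lit 9576) (nat_lit 3) (nat_lit 55474190719759164689) (ZL.cons (nat_lit 9652) (nat_lit 6) (nat_lit 111032040142800458864) (ZL.cons (nat_lit 9728) (nat_lit 3) (nat_lit 55469903211215955552) (ZL.cons (nat_lit 9804) (nat_lit 6) (nat_lit 110768306080703545660) (ZL.cons (nat_lit 9880) (nat_lit 1) (nat_lit 18446744073709551617) ZL.nil))))))))))))))))))))))))))))))))))))))))))))))))))))))))))))))))))))))))))))))))))))))))))))))))))))))))))))))))))))))))))))))))))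

noncomputable def vl : XL := ⟨(nat_lit 0), (nat_lit 76), (nat_lit 8131914), (nat_lit 228), (nat_lit 601582501), (nat_lit 76), (nat_lit 8131914), (nat_lit 1), (nat_lit 5), (nat_lit 3), (nat_lit 4), (nat_lit 1), (nat_lit 4), (nat_lit 0), (nat_lit 0), (nat_lit 0)⟩

noncomputable def cp0 : Nat := (nat_lit 42682535406117045061274883194256422138618408194975813013969514828644730748082870421061759248613855840324449785682375529739956656113640554561669586810596964248688184082324722406119834143704359578609361796411824094840559339592030965063013058302392449972483734943087215799084841697039309301726838686894668596502610708638968514434820809996826387737427941624843305275002772755705331711243475878990320500622675315388123491625084926722368204451662167629886821397008005599122854847766789839241151338757155615486325538975424603505626356476744101631538066633260454330060911331666419238929539763621111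1839306370356930719550592259704722334083233405754427218192434992971810805026985393472035237553878304934151479084568737616098453203548234392327747235350070292989087150059288978596387483212890790988098203350697787908279014548364990490070161246941813212326130275825796949031181747896201763398822056113366470333969901790159875305133664153694606956889420892594264366984936461735281976774378370008167652052731160659108366916090541168182903108066943692449113076990137339416278220181306117435545225259120183653944794623009498471913149971507779540251388892059710973494034729626314927927034952417332111218876647163304389444160226957765107560278548265496459079686180470650639111732761652001664501417522986112204177336108102808097574161191462886598630841875006503056125684164292849127181829946445590604090021130454553272504398583994222814603515235231063144051594451128824104953858620213149523352483516476350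5035414505448834465574718459829433194525374741957602278147074204783272232274597622203771624966140700164750733680546957109822748481814412037733558575020368045179868621357011180640072808296283666369478317224352023067825786921888917081595800265994682656069909694314775787518496849297196983555520573094170849512620608112304096342435890791565264868130252775802186447262827708365627602409074748180573056279392710943937365164541584463898682534147673290477920768187654923292358901313577371689410752872819278367740212613329145419312274279190237891975308729046064043235663784129326914781535287927638940960800855337597748867943629856093198431422262053790803544622265222528052832096188491700454256385986009238351434486903952465617224192908216721329928680573067919637671201177827155902378591530161578154823286922756925128859443752175162800072007960433189153790332714489698161926328691968676782775572695944333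9543940428235438395481285432126547397738832922494544287567765275198785679831403636005263899083014604071095277073500859010522315902156524866772231596441135903783870267426125587606390113291772053893537734786921380506486197806663168118290428000791501112997598243986316416182506599287392877739049780503682335625569007629828017670344754454953186825299387663847937218911736024469472994262268477246090765719242025043463179274063228868732183811096608088817709187919344419121362512016296392723733142185226821769116981559338551590546040134965865425859028733415960376057102182531976514334312726689617550703232470310792986624)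

noncomputable def cp1 : Nat := (nat_lit 5058671494752136850899183414246568440284634369273489967434507623261826236813116086885411248890983193649934813367235737491079541374968300975735037837616542169002401855632462491253600956615258120826243433868094540188209346184617950756544918169112333088958705188616697716627174194462755345771867255222073034351078486262334977213615264570525005058793197280596850654634685232466903974096613341684082503024109000527318998407039525589302553197317573302098047419281366462422759691351874851609123449841670422920184761571476592915523785420204107619890668361950523557475769190380605976741532210629569676603128124141368615881361559006576402865714790412377098663696179367749116971288515902888786228500605397849984920666785244240210871334392558349202691853543872273133238021216187080867061120918210306194315589624828608135479332100394770164296340674206904104417502805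6804911756270324538473834154721284755610781540041504466171493527093614698307697382741766574704256762514381222675799605801917282963097124423902337832221182578208326689122969165907354044135550399351929600507997930391483455248213649647129538667584093771444758751802514548295395830709474256982268661549110022674762848269960474194675837509323094053803701691278951967138501917032598314043494868667795988727754118272201032144380402127896691879669398768222755207460748094414589582459772543628526595495094038534038315876181117029361889248246089643629908806072872667876823255098952603403064499442060837482637086191310726556951055319827891859583099471617787407206013707204565817891747349122293950217718184982270750403327799221677808070402934187986797284692436078223445465631596906658431971346286266898153952509543325694390243344867796854796859257076056664383130730015835107542813283319916182723203901031791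565834073973383213196176417964799209839739765328615139334001279970104461908129999119570257801937263988278716073830636313826168227042766104743893885117019365920708879566998557972787495924022874052735783880433698546586231922774581540990815868785701597663667580670458084028662641198314078333360980487215854354526662179389028823014737996424697507216276615917755714308538968013585254869506442087584568866821797867676888376593418621788007889713927898756623882110865465253128548291392706922096619907847554846972522826898335077897996637180708551430317401993992562987697150941117682977756936669236454852900786395187575185062092490876250033878142967232934861143401470945447791985327075778583783112546546643923026588142010710311952485699346286293991388381053831140511692767273313663516062845334915353191337945087639214378658484176082696854302610636317688872327763734307665342258962624192410451740306595976228564242790683345029319295242177795906132084060257363996316481913408067294813161157233711196867913438458389713424304998422944796191657609866591112986643589921654936195145088773851436324373380815713900198200101581885971739833149838030013505694886669270893199396907497946133602758213745354811303782437851195782778871559730419173753981590179383380803584)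

noncomputable def rc0 : Nat := (nat_lit 4560637325018235547287206632041277962647304322793968520588275661947838515481289606217547363146253616495168117351320670192868586862761038991520821899599501448116405272945791227468640320824148892538520850766140589980783469384673634731772851725339053506279428581050794580684917462328326961754958761171428346061861656957224303322780585337621511304597578663536822514121867826355954708942299507372584150276861464480583724074045003352377129226421544626806650586175154338442777596941905992847153625236007169453911203229244931392595062113194357866194284271321626407504720136208780780296244884547172169565990914697124749919237556468618908793316287218436411471988381069188724712041699299493681172305329232206597026783854800755313132377320511588075030665752783305253619625993209231761753938886322089938862380521053869334087328512848301504098833077660313757145959376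3693561778792936417552901363959005545185682046977530563775977331441641647290446245685228781058928778675395665295776206957635953345596422742591815102452293386283198559049063040559345954960140289241871212852117900806034583003882087840421068147165062367541055931752509645688001127180298588920967521464938352375984196670670013499450056090059565517084722970695616010015432177785269737204992195258867680127325874101544050052332981305477348309778968638984401936006849275055706372220382535728605857161433078186343722624708978008733722368740855995936901121600833679682443318282414367472910850416407734758795578960268319019392375349577573617987554234324472006397073564452171542813194848739412855625027882038846005809442834206439500718587761936619413586094633962704858636710117730922525382093169381164600269053731943331154404088173224989387601274186662632565437643856286339149617432942840475422523238137663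312950020274355122915141630553073646976260601442578894444772768645097529463712885343783767298374818708333154760909789424946187384252098123941642337091806123994166786568952927570941983171771022075197482083460876372757549560127246193548351103265003633910698953844493073418644358897397659790757008692638324738329344196633388926146510220231177732641098269179263163118369766664275800376556729772354437119185331568496859221258847666371636448996125014325425711632787559237343124888097095980796541851388746918885673003812306628768463060327954128315885333016735018915407649830918306857804963093948820414693955450276480344649603214712028667975311263452794269202822534802367710964313029189307043452904566436019622731255874003118166807776329381453483677218283149305831562510245948065682247204456328196128001892903587639121982280035597074872425609073036588674946586986067041859950747121436692871965432055853851011390291933678770477059989955659083530065998386874926241492805337072703332655961162178484934387267462827525629567013060026945020620220109145557010949626220116572385331927518441244988895423725615719970038799404056077601164996611180381696100548294026721756889042063027060274357517956098057424912639514482576634445901204238921818364147917401182175232)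

noncomputable def rc1 : Nat := (nat_lit 5058671494752136850899183414246568440284634369273489967434507623261826236813116086885411248890983193649934813367235737491079541374968300975735037837616542169002401855632462491253600956615258120826243433868094540188209346184617950756544918169112333088958705188616697716627174194462755345771867255222073034351078486262334977213615264570525005058793197280596850654634685232466903974096613341684082503024109000527318998407039525589302553197317573302098047419281366462422759691351874851609123449841670422920184761571476592915523785420204107619890668361950523557475769190380605976741532210629569676603128124141368615881361559006576402865714790412377098663696179367749116971288515902888786228500605397849984920666785244240210871334392558349202691853543872273133238021216187080867061120918210306194315589624828608135479332100394770164296340674206904104417502805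6804911756270324538473834154721284755610781540041504466171493527093614698307697382741766574704256762514381222675799605801917282963097124423902337832221182578208326689122969165907354044135550399351929600507997930391483455248213649647129538667584093771444758751802514548295395830709474256982268661549110022674762848269960474194675837509323094053803701691278951967138501917032598314043494868667795988727754118272201032144380402127896691879669398768222755207460748094414589582459772543628526595495094038534038315876181117029361889248246089643629908806072872667876823255098952603403064499442060837482637086191310726556951055319827891859583099471617787407206013707204565817891747349122293950217718184982270750403327799221677808070402934187986797284692436078223445465631596906658431971346286266898153952509543325694390243344867796854796859257076056664383130730015835107542813283319916182723203901031791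565834073973383213196176417964799209839739765328615139334001279970104461908129999119570257801937263988278716073830636313826168227042766104743893885117019365920708879566998557972787495924022874052735783880433698546586231922774581540990815868785701597663667580670458084028662641198314078333360980487215854354526662179389028823014737996424697507216276615917755714308538968013585254869506442087584568866821797867676888376593418621788007889713927898756623882110865465253128548291392706922096619907847554846972522826898335077897996637180708551430317401993992562987697150941117682977756936669236454852900786395187575185062092490876250033878142967232934861143401470945447791985327075778583783112546546643923026588142010710311952485699346286293991388381053831140511692767273313663516062845334915353191337945087639214378658484176082696854302610636317688872327763734307665342258962624192410451740306595976228564242790683345029319295242177795906132084060257363996316481913408067294813161157233711196867913438458389713424304998422944796191657609866591112986643589921654936195145088773851436324373380815713900198200101581885971739833149838030013505694886669270893199396907497946133602758213745354811303782437851195782778871559730419173753981590179383380803584)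

end Vale.Agent.Lib.P154.PChain.BQ.S4
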